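import Mathlib
import Crest.Agent.R249.Tv3_57

-- ▼ part R235/CptA_755
section

/-!
Row 235 (S0364), helper755. SW-FS6 = SW-CPT, part A: sequential criterion for compactness and
continuity of nonlinear maps which factor through a compact embedding.

`SeqK j B K` : if `t_n → t0` in `B`, `w_n` bounded and `j w_n` converges, then `K (t_n) (w_n)`
converges.
* `SeqK.continuousOn`  : `K` is continuous on `B × W`;
* `SeqK.exists_compact` : `j` compact, `B` compact: bounded sets go into compact sets;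
* closure properties.
-/

set_option autoImplicit false

open Set Filter Topology

namespace Crest.Agent.R235.CptA_755

/-- sequential criterion. -/
def SeqK {T W H Y : Type*} [TopologicalSpace T] [NormedAddCommGroup W] [TopologicalSpace H]
    [TopologicalSpace Y] (j : W → H) (B : Set T) (K : T → W → Y) : Prop :=
  ∀ (t : ℕ → T) (t0 : T) (w : ℕ → W) (ξ : H) (R : ℝ), t0 ∈ B → (∀ n, t n ∈ B) →
    Tendsto t atTop (𝓝 t0) → (∀ n, ‖w n‖ ≤ R) → Tendsto (fun n => j (w n)) atTop (𝓝 ξ) →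
    ∃ y, Tendsto (fun n => K (t n) (w n)) atTop (𝓝 y)

section basic

variable {T W H Y Z : Type*} [TopologicalSpace T] [NormedAddCommGroup W] [TopologicalSpace H]
  [TopologicalSpace Y] [TopologicalSpace Z] {j : W → H} {B : Set T}

/-- the limit is the value if the sequences converge. -/
theorem SeqK.tendsto [T2Space Y] {K : T → W → Y} (hK : SeqK j B K) {t : ℕ → T} {t0 : T}
    {w : ℕ → W} {w0 : W} {R : ℝ} (ht0 : t0 ∈ B) (htB : ∀ n, t n ∈ B)
    (ht : Tendsto t atTop (𝓝 t0)) (hw : ∀ n, ‖w n‖ ≤ R)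
    (hj : Tendsto (fun n => j (w n)) atTop (𝓝 (j w0))) :
    Tendsto (fun n => K (t n) (w n)) atTop (𝓝 (K t0 w0)) := by
  classical
  -- interleave
  let t' : ℕ → T := fun n => if Even n then t (n / 2) else t0
  let w' : ℕ → W := fun n => if Even n then w (n / 2) else w0
  have h2 : Tendsto (fun n : ℕ => n / 2) atTop atTop := by
    refine tendsto_atTop.2 fun b => ?_
    filter_upwards [eventually_ge_atTop (2 * b)] with n hn
    omega
  have ht' : Tendsto t' atTop (𝓝 t0) := by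
    have h3 : Tendsto (fun n : ℕ => t (n / 2)) atTop (𝓝 t0) := ht.comp h2
    refine tendsto_nhds.2 fun s hs hts => ?_
    have h4 := h3 (hs.mem_nhds hts)
    filter_upwards [h4] with n hn
    show (if Even n then t (n / 2) else t0) ∈ s
    split_ifs
    · exact hn
    · exact hts
  have hj' : Tendsto (fun n => j (w' n)) atTop (𝓝 (j w0)) := by
    have h3 : Tendsto (fun n : ℕ => j (w (n / 2))) atTop (𝓝 (j w0)) := hj.comp h2
    refine tendsto_nhds.2 fun s hs hts => ?_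
    have h4 := h3 (hs.mem_nhds hts)
    filter_upwards [h4] with n hn
    show j (if Even n then w (n / 2) else w0) ∈ s
    split_ifs
    · exact hn
    · exact hts
  obtain ⟨y, hy⟩ := hK t' t0 w' (j w0) (max R ‖w0‖) ht0
    (fun n => by show (if Even n then t (n / 2) else t0) ∈ B; split_ifs; exacts [htB _, ht0]) ht'
    (fun n => by
      show ‖if Even n then w (n / 2) else w0‖ ≤ _
      split_ifs
      · exact (hw _).trans (le_max_left _ _)
      · exact le_max_right _ _) hj'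
  have hodd : Tendsto (fun n : ℕ => 2 * n + 1) atTop atTop :=
    tendsto_atTop.2 fun b => by filter_upwards [eventually_ge_atTop b] with n hn; omega
  have heven : Tendsto (fun n : ℕ => 2 * n) atTop atTop :=
    tendsto_atTop.2 fun b => by filter_upwards [eventually_ge_atTop b] with n hn; omega
  have h5 : Tendsto (fun _ : ℕ => K t0 w0) atTop (𝓝 y) := by
    refine (hy.comp hodd).congr fun n => ?_
    have hn : ¬ Even (2 * n + 1) := by simp
    show K (if Even (2 * n + 1) then t ((2 * n + 1) / 2) else t0)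
      (if Even (2 * n + 1) then w ((2 * n + 1) / 2) else w0) = K t0 w0
    rw [if_neg hn, if_neg hn]
  have hyeq : y = K t0 w0 := tendsto_nhds_unique h5 tendsto_const_nhds |>.symm ▸ rfl
  rw [← hyeq]
  refine (hy.comp heven).congr fun n => ?_
  have hn : Even (2 * n) := even_two_mul n
  have hn2 : 2 * n / 2 = n := by omega
  show K (if Even (2 * n) then t ((2 * n) / 2) else t0)
      (if Even (2 * n) then w ((2 * n) / 2) else w0) = K (t n) (w n)
  rw [if_pos hn, if_pos hn, hn2]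

end basic

section metric

variable {T W H Y : Type*} [MetricSpace T] [NormedAddCommGroup W] [MetricSpace H]
  [MetricSpace Y] {j : W → H} {B : Set T} {K : T → W → Y}

/-- continuity. -/
theorem SeqK.continuousOn (hK : SeqK j B K) (hj : Continuous j) :
    ContinuousOn (fun q : T × W => K q.1 q.2) {q | q.1 ∈ B} := by
  intro q hq
  refine tendsto_of_seq_tendsto fun x hx => ?_
  obtain ⟨hx1, hx2⟩ := tendsto_nhdsWithin_iff.1 hx
  obtain ⟨N, hN⟩ := eventually_atTop.1 hx2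
  have ht : Tendsto (fun n => (x (n + N)).1) atTop (𝓝 q.1) :=
    (continuous_fst.tendsto q).comp (hx1.comp (tendsto_add_atTop_nat N))
  have hw : Tendsto (fun n => (x (n + N)).2) atTop (𝓝 q.2) :=
    (continuous_snd.tendsto q).comp (hx1.comp (tendsto_add_atTop_nat N))
  obtain ⟨R, hR⟩ : ∃ R, ∀ n, ‖(x (n + N)).2‖ ≤ R := by
    obtain ⟨R, hR⟩ := hw.norm.bddAbove_range
    exact ⟨R, fun n => hR ⟨n, rfl⟩⟩
  have := hK.tendsto (w0 := q.2) hq (fun n => hN _ (Nat.le_add_left N n)) ht hR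
    ((hj.tendsto q.2).comp hw)
  exact (tendsto_add_atTop_iff_nat N).1 this

/-- compactness. -/
theorem SeqK.exists_compact (hK : SeqK j B K) (hB : IsCompact B)
    (hj : ∀ R : ℝ, ∃ C : Set H, IsCompact C ∧ ∀ w, ‖w‖ ≤ R → j w ∈ C) (R : ℝ) :
    ∃ C : Set Y, IsCompact C ∧ ∀ t w, t ∈ B → ‖w‖ ≤ R → K t w ∈ C := by
  obtain ⟨C0, hC0, hjC⟩ := hj R
  let S : Set Y := {y | ∃ t w, t ∈ B ∧ ‖w‖ ≤ R ∧ K t w = y}
  refine ⟨closure S, ?_, fun t w ht hw => subset_closure ⟨t, w, ht, hw, rfl⟩⟩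
  rw [isCompact_iff_isSeqCompact]
  intro y hy
  have h1 : ∀ n : ℕ, ∃ s ∈ S, dist (y n) s < 1 / ((n : ℝ) + 1) := fun n =>
    Metric.mem_closure_iff.1 (hy n) _ (by positivity)
  choose s hs hys using h1
  choose t w htB hwR hsK using hs
  obtain ⟨t0, ht0, φ, hφ, htφ⟩ := hB.tendsto_subseq htB
  obtain ⟨ξ, _, ψ, hψ, hξ⟩ := hC0.tendsto_subseq (fun n => hjC (w (φ n)) (hwR (φ n)))
  obtain ⟨y0, hy0⟩ := hK (fun n => t (φ (ψ n))) t0 (fun n => w (φ (ψ n))) ξ R ht0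
    (fun n => htB _) (htφ.comp hψ.tendsto_atTop) (fun n => hwR _) hξ
  have hs0 : Tendsto (fun n => s (φ (ψ n))) atTop (𝓝 y0) := by
    refine hy0.congr fun n => ?_
    exact hsK _
  have hy1 : Tendsto (fun n => y (φ (ψ n))) atTop (𝓝 y0) := by
    have hd : Tendsto (fun n => dist (y (φ (ψ n))) (s (φ (ψ n)))) atTop (𝓝 0) := by
      have h3 : Tendsto (fun n : ℕ => dist (y n) (s n)) atTop (𝓝 0) :=
        squeeze_zero (fun n => dist_nonneg) (fun n => (hys n).le)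
          tendsto_one_div_add_atTop_nhds_zero_nat
      exact h3.comp (hφ.comp hψ).tendsto_atTop
    exact hs0.congr_dist (by simpa [dist_comm] using hd)
  refine ⟨y0, ?_, φ ∘ ψ, hφ.comp hψ, hy1⟩
  exact isClosed_closure.mem_of_tendsto hy1 (Eventually.of_forall fun n => hy _)

/-- images of relatively compact sets from a compact operator. -/
theorem compact_ball {W H : Type*} [NormedAddCommGroup W] [NormedSpace ℝ W] [NormedAddCommGroup H]
    [NormedSpace ℝ H] {j : W →L[ℝ] H} (hj : IsCompactOperator j) (R : ℝ) :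
    ∃ C : Set H, IsCompact C ∧ ∀ w, ‖w‖ ≤ R → j w ∈ C := by
  obtain ⟨C, hC, hs⟩ := hj.image_closedBall_subset_compact R
  exact ⟨C, hC, fun w hw => hs ⟨w, by simpa using hw, rfl⟩⟩

end metric

section closure

variable {T W H Y Z : Type*} [TopologicalSpace T] [NormedAddCommGroup W] [TopologicalSpace H]
  {j : W → H} {B : Set T}

theorem SeqK.prod [TopologicalSpace Y] [TopologicalSpace Z] {K : T → W → Y} {K' : T → W → Z}
    (h : SeqK j B K) (h' : SeqK j B K') : SeqK j B (fun t w => (K t w, K' t w)) := by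
  intro t t0 w ξ R ht0 htB ht hw hj
  obtain ⟨y, hy⟩ := h t t0 w ξ R ht0 htB ht hw hj
  obtain ⟨z, hz⟩ := h' t t0 w ξ R ht0 htB ht hw hj
  exact ⟨(y, z), hy.prodMk_nhds hz⟩

/-- composition with a continuous map. -/
theorem SeqK.comp [TopologicalSpace Y] [TopologicalSpace Z] {K : T → W → Y}
    (h : SeqK j B K) {g : T → Y → Z} (hg : ContinuousOn (fun q : T × Y => g q.1 q.2)
      {q | q.1 ∈ B}) :
    SeqK j B (fun t w => g t (K t w)) := by
  intro t t0 w ξ R ht0 htB ht hw hj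
  obtain ⟨y, hy⟩ := h t t0 w ξ R ht0 htB ht hw hj
  refine ⟨g t0 y, ?_⟩
  have h1 : Tendsto (fun n => ((t n, K (t n) (w n)) : T × Y)) atTop (𝓝[{q | q.1 ∈ B}] (t0, y)) :=
    tendsto_nhdsWithin_iff.2 ⟨ht.prodMk_nhds hy, Eventually.of_forall fun n => htB n⟩
  exact (hg (t0, y) ht0).tendsto.comp h1

theorem SeqK.clm {W H Y Z : Type*} [NormedAddCommGroup W] [TopologicalSpace H]
    [NormedAddCommGroup Y] [NormedSpace ℝ Y] [NormedAddCommGroup Z] [NormedSpace ℝ Z]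
    {j : W → H} {B : Set T} {K : T → W → Y} (h : SeqK j B K) (g : Y →L[ℝ] Z) :
    SeqK j B (fun t w => g (K t w)) :=
  h.comp (g := fun _ y => g y) (g.continuous.comp continuous_snd).continuousOn

theorem SeqK.add [TopologicalSpace Y] [AddCommGroup Y] [ContinuousAdd Y] {K K' : T → W → Y}
    (h : SeqK j B K) (h' : SeqK j B K') : SeqK j B (fun t w => K t w + K' t w) := by
  intro t t0 w ξ R ht0 htB ht hw hj
  obtain ⟨y, hy⟩ := h t t0 w ξ R ht0 htB ht hw hj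
  obtain ⟨z, hz⟩ := h' t t0 w ξ R ht0 htB ht hw hj
  exact ⟨y + z, hy.add hz⟩

/-- a map which only depends continuously on `(t, j w)`. -/
theorem SeqK.of_continuous [TopologicalSpace Y] {g : T → H → Y}
    (hg : ContinuousOn (fun q : T × H => g q.1 q.2) {q | q.1 ∈ B}) :
    SeqK j B (fun t w => g t (j w)) := by
  intro t t0 w ξ R ht0 htB ht hw hj
  refine ⟨g t0 ξ, ?_⟩
  have h1 : Tendsto (fun n => ((t n, j (w n)) : T × H)) atTop (𝓝[{q | q.1 ∈ B}] (t0, ξ)) :=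
    tendsto_nhdsWithin_iff.2 ⟨ht.prodMk_nhds hj, Eventually.of_forall fun n => htB n⟩
  exact (hg (t0, ξ) ht0).tendsto.comp h1

end closure

end Crest.Agent.R235.CptA_755
end

-- ▼ part R235/CptB_755
section

/-!
Row 235 (S0364), helper755. SW-FS6 = SW-CPT, part B: Nemytskii operators on `L²(M; ℝ^κ)`.

`NemOK μ B Q` : `Q t x v` measurable in `x`, bounded, Lipschitz in `v`, continuous in `t ∈ B`
uniformly in `(x,v)`.
* `nem Q t u` : the superposition operator `HH μ κ → HH μ λ`;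
* `coe_nem`, `nem_lip`, `nem_continuousOn`, `nem_bound`.
-/

set_option autoImplicit false
set_option linter.unusedSectionVars false

open MeasureTheory Set Filter Topology
open scoped ENNReal NNReal

noncomputable section

namespace Crest.Agent.R235.CptB_755

open Crest.Agent.R249.Tv57

variable {T X : Type*} [TopologicalSpace T] [MeasurableSpace X] {μ : Measure X}
  {κ ν : Type} [Fintype κ] [Fintype ν]

/-- hypotheses on a superposition. -/
structure NemOK (μ : Measure X) (B : Set T) (Q : T → X → (κ → ℝ) → (ν → ℝ)) : Prop where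
  meas : ∀ t ∈ B, ∀ u : κ → X → ℝ, (∀ a, AEStronglyMeasurable (u a) μ) →
    ∀ l, AEStronglyMeasurable (fun x => Q t x (fun a => u a x) l) μ
  lip : ∃ L : ℝ, 0 ≤ L ∧ ∀ t ∈ B, ∀ x v v' l, |Q t x v l - Q t x v' l| ≤ L * ∑ a, |v a - v' a|
  bd : ∃ C : ℝ, 0 ≤ C ∧ ∀ t ∈ B, ∀ x v l, |Q t x v l| ≤ C
  cont : ∀ t0 ∈ B, ∀ ε > 0, ∀ᶠ t in 𝓝[B] t0, ∀ x v l, |Q t x v l - Q t0 x v l| ≤ ε

open Classical in
/-- the superposition operator (zero if not square integrable). -/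
def nem (Q : T → X → (κ → ℝ) → (ν → ℝ)) (t : T) (u : HH μ κ) : HH μ ν :=
  WithLp.toLp 2 fun l =>
    if h : MemLp (fun x => Q t x (fun a => (u a : X → ℝ) x) l) 2 μ then h.toLp _ else 0

theorem nem_memLp [IsFiniteMeasure μ] {B : Set T} {Q : T → X → (κ → ℝ) → (ν → ℝ)}
    (hQ : NemOK μ B Q) {t : T} (ht : t ∈ B) (u : HH μ κ) (l : ν) :
    MemLp (fun x => Q t x (fun a => (u a : X → ℝ) x) l) 2 μ := by
  obtain ⟨C, _, hC⟩ := hQ.bd
  exact MemLp.of_bound (hQ.meas t ht _ (fun a => Lp.aestronglyMeasurable (u a)) l) C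
    (Eventually.of_forall fun x => by rw [Real.norm_eq_abs]; exact hC t ht _ _ _)

theorem coe_nem [IsFiniteMeasure μ] {B : Set T} {Q : T → X → (κ → ℝ) → (ν → ℝ)}
    (hQ : NemOK μ B Q) {t : T} (ht : t ∈ B) (u : HH μ κ) :
    ∀ᵐ x ∂μ, ∀ l, ((nem Q t u) l : X → ℝ) x = Q t x (fun a => (u a : X → ℝ) x) l := by
  rw [ae_all_iff]
  intro l
  have h := nem_memLp hQ ht u l
  have h1 : (nem Q t u) l = h.toLp _ := dif_pos h
  rw [h1]
  exact h.coeFn_toLp

theorem nem_lip [IsFiniteMeasure μ] {B : Set T} {Q : T → X → (κ → ℝ) → (ν → ℝ)}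
    (hQ : NemOK μ B Q) {L : ℝ} (hL0 : 0 ≤ L)
    (hL : ∀ t ∈ B, ∀ x v v' l, |Q t x v l - Q t x v' l| ≤ L * ∑ a, |v a - v' a|)
    {t : T} (ht : t ∈ B) (u v : HH μ κ) (l : ν) :
    ‖(nem Q t u) l - (nem Q t v) l‖ ≤ L * ∑ a, ‖u a - v a‖ := by
  have h1 : ‖(nem Q t u) l - (nem Q t v) l‖ ≤ ‖L • ∑ a, |u a - v a|‖ := by
    refine Lp.norm_le_norm_of_ae_le ?_
    have e5 : ∀ᵐ x ∂μ, ∀ a, (|u a - v a| : Lp ℝ 2 μ) x = |(u a : X → ℝ) x - (v a : X → ℝ) x| := by
      rw [ae_all_iff]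
      intro a
      filter_upwards [Lp.coeFn_abs (u a - v a), Lp.coeFn_sub (u a) (v a)] with x e1 e2
      rw [e1, e2, Pi.sub_apply]
    filter_upwards [coe_nem hQ ht u, coe_nem hQ ht v, Lp.coeFn_sub ((nem Q t u) l) ((nem Q t v) l),
      Lp.coeFn_smul L (∑ a, |u a - v a|), e5,
      Lp.coeFn_fun_finsetSum Finset.univ (fun a => |u a - v a|)] with x e1 e2 e3 e4 e5 e6
    rw [e3, Pi.sub_apply, e1, e2, e4, Pi.smul_apply, smul_eq_mul, e6]
    rw [Real.norm_eq_abs, Real.norm_eq_abs]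
    refine (hL t ht x _ _ l).trans ?_
    refine le_trans ?_ (le_abs_self _)
    refine mul_le_mul_of_nonneg_left (le_of_eq ?_) hL0
    exact Finset.sum_congr rfl fun a _ => (e5 a).symm
  refine h1.trans ?_
  rw [norm_smul, Real.norm_eq_abs, abs_of_nonneg hL0]
  refine mul_le_mul_of_nonneg_left ?_ hL0
  refine (norm_sum_le _ _).trans (le_of_eq ?_)
  exact Finset.sum_congr rfl fun a _ => norm_abs_eq_norm _

theorem nem_time [IsFiniteMeasure μ] {B : Set T} {Q : T → X → (κ → ℝ) → (ν → ℝ)}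
    (hQ : NemOK μ B Q) {t t0 : T} (ht : t ∈ B) (ht0 : t0 ∈ B) {ε : ℝ} (hε : 0 ≤ ε)
    (h : ∀ x v l, |Q t x v l - Q t0 x v l| ≤ ε) (u : HH μ κ) (l : ν) :
    ‖(nem Q t u) l - (nem Q t0 u) l‖ ≤ (measureUnivNNReal μ : ℝ) ^ ((2 : ℝ≥0∞).toReal)⁻¹ * ε := by
  refine Lp.norm_le_of_ae_bound hε ?_
  filter_upwards [coe_nem hQ ht u, coe_nem hQ ht0 u,
    Lp.coeFn_sub ((nem Q t u) l) ((nem Q t0 u) l)] with x e1 e2 e3
  rw [e3, Pi.sub_apply, e1, e2, Real.norm_eq_abs]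
  exact h x _ l

theorem nem_continuousOn [IsFiniteMeasure μ] {B : Set T} {Q : T → X → (κ → ℝ) → (ν → ℝ)}
    (hQ : NemOK μ B Q) :
    ContinuousOn (fun q : T × HH μ κ => nem Q q.1 q.2) {q | q.1 ∈ B} := by
  rintro ⟨t0, u0⟩ ht0
  simp only [mem_ofPred_eq] at ht0
  obtain ⟨L, hL0, hL⟩ := hQ.lip
  -- componentwise
  have hcomp : ∀ l : ν, Tendsto (fun q : T × HH μ κ => (nem Q q.1 q.2) l)
      (𝓝[{q | q.1 ∈ B}] (t0, u0)) (𝓝 ((nem Q t0 u0) l)) := by
    intro l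
    rw [tendsto_iff_norm_sub_tendsto_zero]
    rw [Metric.tendsto_nhds]
    intro ε hε
    set c : ℝ := (measureUnivNNReal μ : ℝ) ^ ((2 : ℝ≥0∞).toReal)⁻¹ with hc
    have hc0 : 0 ≤ c := by positivity
    have hδ : 0 < ε / (2 * (c + 1)) := by positivity
    have h1 : ∀ᶠ q : T × HH μ κ in 𝓝[{q | q.1 ∈ B}] (t0, u0),
        ∀ x v l, |Q q.1 x v l - Q t0 x v l| ≤ ε / (2 * (c + 1)) := by
      have h2 := hQ.cont t0 ht0 _ hδ
      have h3 : Tendsto (fun q : T × HH μ κ => q.1) (𝓝[{q | q.1 ∈ B}] (t0, u0)) (𝓝[B] t0) := by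
        refine tendsto_nhdsWithin_iff.2 ⟨?_, ?_⟩
        · exact (continuous_fst.tendsto (t0, u0)).mono_left nhdsWithin_le_nhds
        · exact eventually_mem_nhdsWithin.mono fun q hq => hq
      exact h3.eventually h2
    have h4 : ∀ᶠ q : T × HH μ κ in 𝓝[{q | q.1 ∈ B}] (t0, u0),
        L * ∑ a, ‖q.2 a - u0 a‖ < ε / 2 := by
      have h5 : Continuous fun q : T × HH μ κ => L * ∑ a, ‖q.2 a - u0 a‖ := by
        refine continuous_const.mul (continuous_finsetSum _ fun a _ => ?_)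
        have : Continuous fun q : T × HH μ κ => q.2 a :=
          (PiLp.continuous_apply 2 (fun _ : κ => Lp ℝ 2 μ) a).comp continuous_snd
        exact (this.sub continuous_const).norm
      have h6 := (h5.tendsto (t0, u0)).mono_left
        (nhdsWithin_le_nhds (s := {q : T × HH μ κ | q.1 ∈ B}))
      simp only [sub_self, norm_zero, Finset.sum_const_zero, mul_zero] at h6
      exact h6.eventually (gt_mem_nhds (by positivity))
    filter_upwards [h1, h4, eventually_mem_nhdsWithin] with q e1 e2 e3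
    have e3' : q.1 ∈ B := e3
    rw [dist_zero_right, norm_norm]
    have hA := nem_lip hQ hL0 hL e3' q.2 u0 l
    have hB' := nem_time hQ e3' ht0 hδ.le e1 u0 l
    have hle : c * (ε / (2 * (c + 1))) < ε / 2 := by
      have : c * (ε / (2 * (c + 1))) = (c / (c + 1)) * (ε / 2) := by field_simp
      rw [this]
      have h7 : c / (c + 1) < 1 := by
        rw [div_lt_one (by linarith)]; linarith
      nlinarith
    calc ‖(nem Q q.1 q.2) l - (nem Q t0 u0) l‖
        ≤ ‖(nem Q q.1 q.2) l - (nem Q q.1 u0) l‖ + ‖(nem Q q.1 u0) l - (nem Q t0 u0) l‖ := by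
          have := norm_add_le ((nem Q q.1 q.2) l - (nem Q q.1 u0) l)
            ((nem Q q.1 u0) l - (nem Q t0 u0) l)
          simpa using this
      _ ≤ L * ∑ a, ‖q.2 a - u0 a‖ + c * (ε / (2 * (c + 1))) := add_le_add hA hB'
      _ < ε := by linarith
  have hpi : Tendsto (fun q : T × HH μ κ => fun l => (nem Q q.1 q.2) l)
      (𝓝[{q | q.1 ∈ B}] (t0, u0)) (𝓝 fun l => (nem Q t0 u0) l) := tendsto_pi_nhds.2 hcomp
  have hcont := (PiLp.continuous_toLp 2 (fun _ : ν => Lp ℝ 2 μ)).tendsto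
    (fun l => (nem Q t0 u0) l)
  exact hcont.comp hpi

end Crest.Agent.R235.CptB_755
end
end

-- ▼ part R235/CptC_755
section

/-!
Row 235 (S0364), helper755. SW-FS6 = SW-CPT, part C: products of `L⁴` functions in `L²`.

* `pr u v` : the product of two elements of `L²` as an element of `L²` (zero if not in `L²`);
* `norm_pr_le` : `‖u v‖₂ ≤ ‖u‖₄ ‖v‖₄`;
* `pr_cauchy` : `a_n → a` in `L⁴`, `ψ_n` bounded in `L⁴` and Cauchy in `L²` ⟹ `a_n ψ_n` converges.
-/

set_option autoImplicit false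
set_option linter.unusedSectionVars false

open MeasureTheory Set Filter Topology
open scoped ENNReal NNReal

noncomputable section

namespace Crest.Agent.R235.CptC_755

variable {X : Type*} [MeasurableSpace X] {μ : Measure X}

instance holder442 : ENNReal.HolderTriple 4 4 2 where
  inv_add_inv_eq_inv := by
    have h4 : (4 : ℝ≥0∞) = 2 * 2 := by norm_num
    rw [h4, ENNReal.mul_inv (Or.inl (by norm_num)) (Or.inl (by norm_num)), ← mul_add,
      ENNReal.inv_two_add_inv_two, mul_one]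

/-- the `L⁴` size. -/
def N4 (μ : Measure X) (f : X → ℝ) : ℝ := (eLpNorm f 4 μ).toReal

open Classical in
/-- product. -/
def pr (u v : Lp ℝ 2 μ) : Lp ℝ 2 μ :=
  if h : MemLp (fun x => (u : X → ℝ) x * (v : X → ℝ) x) 2 μ then h.toLp _ else 0

theorem memLp_pr {u v : X → ℝ} (hu : MemLp u 4 μ) (hv : MemLp v 4 μ) :
    MemLp (fun x => u x * v x) 2 μ := hv.mul' hu

theorem coe_pr {u v : Lp ℝ 2 μ} (hu : MemLp (u : X → ℝ) 4 μ) (hv : MemLp (v : X → ℝ) 4 μ) :
    (pr u v : X → ℝ) =ᵐ[μ] fun x => (u : X → ℝ) x * (v : X → ℝ) x := by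
  have h := memLp_pr hu hv
  have h1 : pr u v = h.toLp _ := dif_pos h
  rw [h1]
  exact h.coeFn_toLp

theorem norm_pr_le {u v : Lp ℝ 2 μ} (hu : MemLp (u : X → ℝ) 4 μ) (hv : MemLp (v : X → ℝ) 4 μ) :
    ‖pr u v‖ ≤ N4 μ u * N4 μ v := by
  rw [Lp.norm_def, eLpNorm_congr_ae (coe_pr hu hv)]
  have h1 : eLpNorm (fun x => (u : X → ℝ) x * (v : X → ℝ) x) 2 μ ≤
      eLpNorm (u : X → ℝ) 4 μ * eLpNorm (v : X → ℝ) 4 μ := by
    have := eLpNorm_smul_le_mul_eLpNorm (p := 4) (q := 4) (r := 2) (μ := μ)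
      hv.aestronglyMeasurable hu.aestronglyMeasurable
    exact this
  unfold N4
  rw [← ENNReal.toReal_mul]
  exact ENNReal.toReal_mono (ENNReal.mul_ne_top hu.eLpNorm_ne_top hv.eLpNorm_ne_top) h1

theorem pr_sub_left {u u' v : Lp ℝ 2 μ} (hu : MemLp (u : X → ℝ) 4 μ)
    (hu' : MemLp (u' : X → ℝ) 4 μ) (hv : MemLp (v : X → ℝ) 4 μ) :
    pr (u - u') v = pr u v - pr u' v := by
  have hs : MemLp ((u - u' : Lp ℝ 2 μ) : X → ℝ) 4 μ :=
    (memLp_congr_ae (Lp.coeFn_sub u u')).2 (hu.sub hu')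
  ext1
  filter_upwards [coe_pr hs hv, coe_pr hu hv, coe_pr hu' hv, Lp.coeFn_sub (pr u v) (pr u' v),
    Lp.coeFn_sub u u'] with x e1 e2 e3 e4 e5
  rw [e1, e4, Pi.sub_apply, e2, e3, e5, Pi.sub_apply, sub_mul]

theorem pr_comm (u v : Lp ℝ 2 μ) : pr u v = pr v u := by
  by_cases h : MemLp (fun x => (u : X → ℝ) x * (v : X → ℝ) x) 2 μ
  · have h' : MemLp (fun x => (v : X → ℝ) x * (u : X → ℝ) x) 2 μ := by
      simpa only [mul_comm] using h
    have e1 : pr u v = h.toLp _ := dif_pos h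
    have e2 : pr v u = h'.toLp _ := dif_pos h'
    rw [e1, e2]
    exact MemLp.toLp_congr _ _ (Eventually.of_forall fun x => mul_comm _ _)
  · have h' : ¬ MemLp (fun x => (v : X → ℝ) x * (u : X → ℝ) x) 2 μ := by
      simpa only [mul_comm] using h
    have e1 : pr u v = 0 := dif_neg h
    have e2 : pr v u = 0 := dif_neg h'
    rw [e1, e2]

theorem pr_sub_right {u v v' : Lp ℝ 2 μ} (hu : MemLp (u : X → ℝ) 4 μ)
    (hv : MemLp (v : X → ℝ) 4 μ) (hv' : MemLp (v' : X → ℝ) 4 μ) :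
    pr u (v - v') = pr u v - pr u v' := by
  rw [pr_comm, pr_sub_left hv hv' hu, pr_comm v, pr_comm v']

theorem N4_nonneg (f : X → ℝ) : 0 ≤ N4 μ f := ENNReal.toReal_nonneg

theorem N4_sub_le {u v : Lp ℝ 2 μ} (hu : MemLp (u : X → ℝ) 4 μ) (hv : MemLp (v : X → ℝ) 4 μ) :
    N4 μ ((u - v : Lp ℝ 2 μ) : X → ℝ) ≤ N4 μ u + N4 μ v := by
  unfold N4
  rw [eLpNorm_congr_ae (Lp.coeFn_sub u v), ← ENNReal.toReal_add hu.eLpNorm_ne_top hv.eLpNorm_ne_top]
  refine ENNReal.toReal_mono (ENNReal.add_ne_top.2 ⟨hu.eLpNorm_ne_top, hv.eLpNorm_ne_top⟩) ?_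
  exact eLpNorm_sub_le hu.aestronglyMeasurable hv.aestronglyMeasurable (by norm_num)

theorem memLp_sub {u v : Lp ℝ 2 μ} (hu : MemLp (u : X → ℝ) 4 μ) (hv : MemLp (v : X → ℝ) 4 μ) :
    MemLp ((u - v : Lp ℝ 2 μ) : X → ℝ) 4 μ :=
  (memLp_congr_ae (Lp.coeFn_sub u v)).2 (hu.sub hv)

/-- multiplication with a fixed `L⁴` function: `ψ ↦ a ψ` is small if `ψ` is small in `L²` and
bounded in `L⁴`. -/
theorem pr_small {a : Lp ℝ 2 μ} (ha : MemLp (a : X → ℝ) 4 μ) {C ε : ℝ} (hC : 0 ≤ C)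
    (hε : 0 < ε) : ∃ δ > 0, ∀ v : Lp ℝ 2 μ, MemLp (v : X → ℝ) 4 μ → N4 μ v ≤ C → ‖v‖ ≤ δ →
      ‖pr a v‖ ≤ ε := by
  have hpos : 0 < ε / (2 * (C + 1)) := by positivity
  obtain ⟨M, hM⟩ := ha.eLpNorm_indicator_norm_ge_le (Lp.stronglyMeasurable a) hpos
  set S : Set X := {x | M ≤ ‖(a : X → ℝ) x‖₊} with hS
  have hSm : MeasurableSet S := by
    have h1 : Measurable fun x => ((‖(a : X → ℝ) x‖₊ : ℝ≥0) : ℝ) :=
      (Lp.stronglyMeasurable a).measurable.nnnorm.coe_nnreal_real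
    exact measurableSet_le measurable_const h1
  refine ⟨ε / (2 * (|M| + 1)), by positivity, fun v hv hvC hvδ => ?_⟩
  -- pointwise bound by a sum
  have ha1 : MemLp (S.indicator (a : X → ℝ)) 4 μ := ha.indicator hSm
  have hprod : MemLp (fun x => S.indicator (a : X → ℝ) x * (v : X → ℝ) x) 2 μ := memLp_pr ha1 hv
  have hb : ‖pr a v‖ ≤ ‖hprod.toLp _‖ + ‖(|M|) • v‖ := by
    have h0 : ‖pr a v‖ ≤ ‖|hprod.toLp _| + |(|M|) • v|‖ := by
      refine Lp.norm_le_norm_of_ae_le ?_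
      filter_upwards [coe_pr ha hv, hprod.coeFn_toLp, Lp.coeFn_abs (hprod.toLp _),
        Lp.coeFn_abs ((|M|) • v), Lp.coeFn_smul (|M|) v,
        Lp.coeFn_add (|hprod.toLp _|) (|(|M|) • v|)] with x e1 e2 e3 e4 e5 e6
      rw [e1, e6, Pi.add_apply, e3, e4, e2, e5, Pi.smul_apply, smul_eq_mul, Real.norm_eq_abs,
        Real.norm_eq_abs]
      refine le_trans ?_ (le_abs_self _)
      by_cases hx : x ∈ S
      · rw [indicator_of_mem hx]
        have := abs_nonneg (|M| * (v : X → ℝ) x)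
        linarith
      · rw [indicator_of_notMem hx, zero_mul, abs_zero, zero_add, abs_mul, abs_mul, abs_abs]
        refine mul_le_mul_of_nonneg_right ?_ (abs_nonneg _)
        have hx' : ¬ M ≤ ‖(a : X → ℝ) x‖ := hx
        have := not_le.1 hx'
        rw [Real.norm_eq_abs] at this
        exact this.le.trans (le_abs_self M)
    refine h0.trans ((norm_add_le _ _).trans (le_of_eq ?_))
    rw [norm_abs_eq_norm, norm_abs_eq_norm]
  have h1 : ‖hprod.toLp _‖ ≤ ε / 2 := by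
    rw [Lp.norm_toLp]
    have h2 : eLpNorm (fun x => S.indicator (a : X → ℝ) x * (v : X → ℝ) x) 2 μ ≤
        eLpNorm (S.indicator (a : X → ℝ)) 4 μ * eLpNorm (v : X → ℝ) 4 μ := by
      have := eLpNorm_smul_le_mul_eLpNorm (p := 4) (q := 4) (r := 2) (μ := μ)
        hv.aestronglyMeasurable ha1.aestronglyMeasurable
      exact this
    have h3 : (eLpNorm (fun x => S.indicator (a : X → ℝ) x * (v : X → ℝ) x) 2 μ).toReal ≤
        (eLpNorm (S.indicator (a : X → ℝ)) 4 μ).toReal * (eLpNorm (v : X → ℝ) 4 μ).toReal := by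
      rw [← ENNReal.toReal_mul]
      exact ENNReal.toReal_mono (ENNReal.mul_ne_top ha1.eLpNorm_ne_top hv.eLpNorm_ne_top) h2
    have h4 : (eLpNorm (S.indicator (a : X → ℝ)) 4 μ).toReal ≤ ε / (2 * (C + 1)) :=
      ENNReal.toReal_le_of_le_ofReal hpos.le hM
    have h5 : (eLpNorm (v : X → ℝ) 4 μ).toReal ≤ C := hvC
    have h6 : (0 : ℝ) ≤ (eLpNorm (v : X → ℝ) 4 μ).toReal := ENNReal.toReal_nonneg
    calc _ ≤ _ := h3
      _ ≤ ε / (2 * (C + 1)) * C := mul_le_mul h4 h5 h6 hpos.le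
      _ ≤ ε / 2 := by
        rw [div_mul_eq_mul_div, div_le_div_iff₀ (by positivity) (by norm_num)]
        nlinarith
  have h7 : ‖(|M|) • v‖ ≤ ε / 2 := by
    rw [norm_smul, Real.norm_eq_abs, abs_abs]
    calc |M| * ‖v‖ ≤ |M| * (ε / (2 * (|M| + 1))) :=
          mul_le_mul_of_nonneg_left hvδ (abs_nonneg _)
      _ ≤ ε / 2 := by
        have hM0 := abs_nonneg M
        rw [← mul_div_assoc, div_le_div_iff₀ (by positivity) (by norm_num)]
        nlinarith
  linarith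

/-- **product lemma**. -/
theorem pr_cauchy {a : ℕ → Lp ℝ 2 μ} {a0 : Lp ℝ 2 μ} {v : ℕ → Lp ℝ 2 μ} {C : ℝ}
    (ha : ∀ n, MemLp (a n : X → ℝ) 4 μ) (ha0 : MemLp (a0 : X → ℝ) 4 μ)
    (hv : ∀ n, MemLp (v n : X → ℝ) 4 μ) (hvC : ∀ n, N4 μ (v n) ≤ C)
    (hconv : Tendsto (fun n => N4 μ ((a n - a0 : Lp ℝ 2 μ) : X → ℝ)) atTop (𝓝 0))
    (hcau : CauchySeq v) : ∃ y, Tendsto (fun n => pr (a n) (v n)) atTop (𝓝 y) := by
  refine cauchySeq_tendsto_of_complete ?_
  have hC : 0 ≤ C := (N4_nonneg _).trans (hvC 0)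
  rw [Metric.cauchySeq_iff]
  intro ε hε
  obtain ⟨δ, hδ, hsm⟩ := pr_small (C := 2 * C) ha0 (by positivity) (show 0 < ε / 4 by positivity)
  have h1 : ∀ᶠ n in atTop, N4 μ ((a n - a0 : Lp ℝ 2 μ) : X → ℝ) < ε / (4 * (C + 1)) :=
    hconv.eventually (gt_mem_nhds (by positivity))
  obtain ⟨N1, hN1⟩ := eventually_atTop.1 h1
  obtain ⟨N2, hN2⟩ := Metric.cauchySeq_iff.1 hcau δ hδ
  refine ⟨max N1 N2, fun m hm n hn => ?_⟩
  have hm1 := hN1 m ((le_max_left _ _).trans hm)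
  have hn1 := hN1 n ((le_max_left _ _).trans hn)
  have hmn := hN2 m ((le_max_right _ _).trans hm) n ((le_max_right _ _).trans hn)
  rw [dist_eq_norm] at hmn ⊢
  have hdec : pr (a m) (v m) - pr (a n) (v n) =
      pr (a m - a0) (v m) - pr (a n - a0) (v n) + pr a0 (v m - v n) := by
    rw [pr_sub_left (ha m) ha0 (hv m), pr_sub_left (ha n) ha0 (hv n),
      pr_sub_right ha0 (hv m) (hv n)]
    abel
  rw [hdec]
  have hb1 : ∀ k, N4 μ ((a k - a0 : Lp ℝ 2 μ) : X → ℝ) < ε / (4 * (C + 1)) →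
      ‖pr (a k - a0) (v k)‖ ≤ ε / 4 := by
    intro k hk
    refine (norm_pr_le (memLp_sub (ha k) ha0) (hv k)).trans ?_
    calc _ ≤ ε / (4 * (C + 1)) * C :=
          mul_le_mul hk.le (hvC k) (N4_nonneg _) (by positivity)
      _ ≤ ε / 4 := by
        rw [div_mul_eq_mul_div, div_le_div_iff₀ (by positivity) (by norm_num)]
        nlinarith
  have hb3 : ‖pr a0 (v m - v n)‖ ≤ ε / 4 := by
    refine hsm _ (memLp_sub (hv m) (hv n)) ?_ hmn.le
    have := N4_sub_le (hv m) (hv n)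
    linarith [hvC m, hvC n]
  calc ‖pr (a m - a0) (v m) - pr (a n - a0) (v n) + pr a0 (v m - v n)‖
      ≤ ‖pr (a m - a0) (v m)‖ + ‖pr (a n - a0) (v n)‖ + ‖pr a0 (v m - v n)‖ :=
        (norm_add_le _ _).trans (add_le_add_left (norm_sub_le _ _) _)
    _ < ε := by linarith [hb1 m hm1, hb1 n hn1]

end Crest.Agent.R235.CptC_755
end
end

-- ▼ part R235/Cpt_755

/-!
Row 235 (S0364), helper755. SW-FS6 = SW-CPT: the compact part of the truncated Seiberg-Witten map.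

`Emb4 μ W κ j` : `j : W →L L²(M;ℝ^κ)` is compact and `‖j w‖₄ ≤ C ‖w‖` (bounded embedding in `L⁴`).
`KK` : `K t w = Λ_t (j w) + ∑ c · (G₁ (Q_t (j w))) · (j w)`, where `Λ_t` is a norm continuous family of
bounded operators of `L²`, `Q` a bounded Lipschitz superposition, `G₁ : L² →L WA`, `WA` embedded in `L⁴`.
* `KK_seq` : `SeqK`; `KK_continuousOn`, `KK_compact`, `KK_odd`;
* `HQ_...` : the same for `(t,w) ↦ H (Q_t (j w))`, `H` a bounded operator on `L²`.
* `matF_family` : matrix multipliers depending continuously on `t` are a norm continuous family.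
-/

set_option autoImplicit false
set_option linter.unusedSectionVars false

open MeasureTheory Set Filter Topology
open scoped ENNReal NNReal

noncomputable section

namespace Crest.Agent.R235.Cpt_755

open Crest.Agent.R249.Tv57
open Crest.Agent.R235.CptA_755 Crest.Agent.R235.CptB_755 Crest.Agent.R235.CptC_755

variable {X : Type*} [MeasurableSpace X] {μ : Measure X}

/-- bounded embedding into `L⁴`. -/
def Emb4 {W : Type*} [NormedAddCommGroup W] [NormedSpace ℝ W] {κ : Type} [Fintype κ]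
    (j : W →L[ℝ] HH μ κ) : Prop :=
  ∃ C : ℝ, 0 ≤ C ∧ ∀ w a, MemLp ((j w) a : X → ℝ) 4 μ ∧ N4 μ ((j w) a) ≤ C * ‖w‖

section main

variable {T : Type*} [MetricSpace T] {B : Set T}
  {κ κ' ν α : Type} [Fintype κ] [Fintype κ'] [Fintype ν] [Fintype α]
  {W WA : Type*} [NormedAddCommGroup W] [NormedSpace ℝ W] [NormedAddCommGroup WA]
  [NormedSpace ℝ WA]

/-- the product term. -/
def prT (c : κ' → α → κ → X → ℝ) (hc : ∀ l b y, BM μ (c l b y)) (a : HH μ α) (u : HH μ κ) :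
    HH μ κ' :=
  WithLp.toLp 2 fun l => ∑ b, ∑ y, mulF (hc l b y) (pr (a b) (u y))

theorem prT_seq [IsFiniteMeasure μ] {j : W →L[ℝ] HH μ κ} (hj4 : Emb4 j)
    {jA : WA →L[ℝ] HH μ α} (hA4 : Emb4 jA) {Q : T → X → (κ → ℝ) → (ν → ℝ)} (hQ : NemOK μ B Q)
    (G1 : HH μ ν →L[ℝ] WA) (c : κ' → α → κ → X → ℝ) (hc : ∀ l b y, BM μ (c l b y)) :
    SeqK (fun w => j w) B (fun t w => prT c hc (jA (G1 (nem Q t (j w)))) (j w)) := by
  intro t t0 w ξ R ht0 htB ht hw hjw
  obtain ⟨C, hC0, hC⟩ := hj4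
  obtain ⟨CA, hCA0, hCA⟩ := hA4
  -- the one-forms converge in `WA`
  have h1 : Tendsto (fun n => nem Q (t n) (j (w n))) atTop (𝓝 (nem Q t0 ξ)) := by
    have h2 := (nem_continuousOn hQ) (t0, ξ) ht0
    have h3 : Tendsto (fun n => ((t n, j (w n)) : T × HH μ κ)) atTop
        (𝓝[{q | q.1 ∈ B}] (t0, ξ)) :=
      tendsto_nhdsWithin_iff.2 ⟨ht.prodMk_nhds hjw, Eventually.of_forall fun n => htB n⟩
    exact h2.tendsto.comp h3
  have h2 : Tendsto (fun n => G1 (nem Q (t n) (j (w n)))) atTop (𝓝 (G1 (nem Q t0 ξ))) :=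
    (G1.continuous.tendsto _).comp h1
  -- componentwise limits
  have h3 : ∀ b y, ∃ z, Tendsto (fun n => pr ((jA (G1 (nem Q (t n) (j (w n))))) b) ((j (w n)) y))
      atTop (𝓝 z) := by
    intro b y
    refine pr_cauchy (C := C * R) (a0 := (jA (G1 (nem Q t0 ξ))) b) (fun n => (hCA _ b).1)
      (hCA _ b).1 (fun n => (hC _ y).1) (fun n => ?_) ?_ ?_
    · exact (hC _ y).2.trans (mul_le_mul_of_nonneg_left (hw n) hC0)
    · have h4 : Tendsto (fun n => CA * ‖G1 (nem Q (t n) (j (w n))) - G1 (nem Q t0 ξ)‖) atTop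
          (𝓝 0) := by
        have := (tendsto_iff_norm_sub_tendsto_zero.1 h2).const_mul CA
        simpa using this
      refine squeeze_zero (fun n => N4_nonneg _) (fun n => ?_) h4
      have h5 := (hCA (G1 (nem Q (t n) (j (w n))) - G1 (nem Q t0 ξ)) b).2
      have h6 : (jA (G1 (nem Q (t n) (j (w n))) - G1 (nem Q t0 ξ))) b =
          (jA (G1 (nem Q (t n) (j (w n))))) b - (jA (G1 (nem Q t0 ξ))) b := by
        rw [map_sub]; rfl
      rwa [h6] at h5
    · have h7 : Tendsto (fun n => (j (w n)) y) atTop (𝓝 (ξ y)) :=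
        ((PiLp.continuous_apply 2 (fun _ : κ => Lp ℝ 2 μ) y).tendsto ξ).comp hjw
      exact h7.cauchySeq
  choose z hz using h3
  refine ⟨WithLp.toLp 2 fun l => ∑ b, ∑ y, mulF (hc l b y) (z b y), ?_⟩
  have h8 : Tendsto (fun n => fun l => ∑ b, ∑ y, mulF (hc l b y)
      (pr ((jA (G1 (nem Q (t n) (j (w n))))) b) ((j (w n)) y))) atTop
      (𝓝 fun l => ∑ b, ∑ y, mulF (hc l b y) (z b y)) := by
    refine tendsto_pi_nhds.2 fun l => ?_
    refine tendsto_finsetSum _ fun b _ => tendsto_finsetSum _ fun y _ => ?_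
    exact ((mulF (hc l b y)).continuous.tendsto _).comp (hz b y)
  exact ((PiLp.continuous_toLp 2 (fun _ : κ' => Lp ℝ 2 μ)).tendsto _).comp h8

/-- **the compact part**. -/
def KK (j : W →L[ℝ] HH μ κ) (jA : WA →L[ℝ] HH μ α) (Q : T → X → (κ → ℝ) → (ν → ℝ))
    (G1 : HH μ ν →L[ℝ] WA) (c : κ' → α → κ → X → ℝ) (hc : ∀ l b y, BM μ (c l b y))
    (Lam : T → HH μ κ →L[ℝ] HH μ κ') (t : T) (w : W) : HH μ κ' :=
  Lam t (j w) + prT c hc (jA (G1 (nem Q t (j w)))) (j w)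

theorem lam_seq {j : W →L[ℝ] HH μ κ} {Lam : T → HH μ κ →L[ℝ] HH μ κ'} (hL : ContinuousOn Lam B) :
    SeqK (fun w => j w) B (fun t w => Lam t (j w)) := by
  refine SeqK.of_continuous (g := fun t u => Lam t u) ?_
  have h1 : ContinuousOn (fun q : T × HH μ κ => Lam q.1) {q | q.1 ∈ B} :=
    hL.comp continuous_fst.continuousOn (fun q hq => hq)
  exact h1.clm_apply continuous_snd.continuousOn

theorem KK_seq [IsFiniteMeasure μ] {j : W →L[ℝ] HH μ κ} (hj4 : Emb4 j)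
    {jA : WA →L[ℝ] HH μ α} (hA4 : Emb4 jA) {Q : T → X → (κ → ℝ) → (ν → ℝ)} (hQ : NemOK μ B Q)
    (G1 : HH μ ν →L[ℝ] WA) (c : κ' → α → κ → X → ℝ) (hc : ∀ l b y, BM μ (c l b y))
    {Lam : T → HH μ κ →L[ℝ] HH μ κ'} (hL : ContinuousOn Lam B) :
    SeqK (fun w => j w) B (KK j jA Q G1 c hc Lam) :=
  (lam_seq hL).add (prT_seq hj4 hA4 hQ G1 c hc)

theorem KK_continuousOn [IsFiniteMeasure μ] {j : W →L[ℝ] HH μ κ} (hj4 : Emb4 j)
    {jA : WA →L[ℝ] HH μ α} (hA4 : Emb4 jA) {Q : T → X → (κ → ℝ) → (ν → ℝ)} (hQ : NemOK μ B Q)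
    (G1 : HH μ ν →L[ℝ] WA) (c : κ' → α → κ → X → ℝ) (hc : ∀ l b y, BM μ (c l b y))
    {Lam : T → HH μ κ →L[ℝ] HH μ κ'} (hL : ContinuousOn Lam B) :
    ContinuousOn (fun q : T × W => KK j jA Q G1 c hc Lam q.1 q.2) {q | q.1 ∈ B} :=
  (KK_seq hj4 hA4 hQ G1 c hc hL).continuousOn j.continuous

theorem KK_compact [IsFiniteMeasure μ] {j : W →L[ℝ] HH μ κ} (hj4 : Emb4 j)
    (hjc : IsCompactOperator j)
    {jA : WA →L[ℝ] HH μ α} (hA4 : Emb4 jA) {Q : T → X → (κ → ℝ) → (ν → ℝ)} (hQ : NemOK μ B Q)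
    (G1 : HH μ ν →L[ℝ] WA) (c : κ' → α → κ → X → ℝ) (hc : ∀ l b y, BM μ (c l b y))
    {Lam : T → HH μ κ →L[ℝ] HH μ κ'} (hL : ContinuousOn Lam B) (hB : IsCompact B) (R : ℝ) :
    ∃ C : Set (HH μ κ'), IsCompact C ∧ ∀ t w, t ∈ B → ‖w‖ ≤ R → KK j jA Q G1 c hc Lam t w ∈ C :=
  (KK_seq hj4 hA4 hQ G1 c hc hL).exists_compact hB (compact_ball hjc) R

/-- the curvature part `H (Q_t (j w))`. -/
theorem HQ_seq [IsFiniteMeasure μ] {j : W →L[ℝ] HH μ κ} {Q : T → X → (κ → ℝ) → (ν → ℝ)}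
    (hQ : NemOK μ B Q) {Y : Type*} [NormedAddCommGroup Y] [NormedSpace ℝ Y]
    (H : HH μ ν →L[ℝ] Y) : SeqK (fun w => j w) B (fun t w => H (nem Q t (j w))) :=
  (SeqK.of_continuous (g := fun t u => nem Q t u) (nem_continuousOn hQ)).clm H

theorem HQ_continuousOn [IsFiniteMeasure μ] {j : W →L[ℝ] HH μ κ} {Q : T → X → (κ → ℝ) → (ν → ℝ)}
    (hQ : NemOK μ B Q) {Y : Type*} [NormedAddCommGroup Y] [NormedSpace ℝ Y]
    (H : HH μ ν →L[ℝ] Y) :
    ContinuousOn (fun q : T × W => H (nem Q q.1 (j q.2))) {q | q.1 ∈ B} := by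
  have h1 : ContinuousOn (fun q : T × W => nem Q q.1 (j q.2)) {q | q.1 ∈ B} :=
    (nem_continuousOn hQ).comp (f := fun q : T × W => ((q.1, j q.2) : T × HH μ κ))
      (continuous_fst.prodMk (j.continuous.comp continuous_snd)).continuousOn (fun q hq => hq)
  exact H.continuous.comp_continuousOn h1

theorem HQ_compact [IsFiniteMeasure μ] {j : W →L[ℝ] HH μ κ} (hjc : IsCompactOperator j)
    {Q : T → X → (κ → ℝ) → (ν → ℝ)}
    (hQ : NemOK μ B Q) {Y : Type*} [NormedAddCommGroup Y] [NormedSpace ℝ Y]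
    (H : HH μ ν →L[ℝ] Y) (hB : IsCompact B) (R : ℝ) :
    ∃ C : Set Y, IsCompact C ∧ ∀ t w, t ∈ B → ‖w‖ ≤ R → H (nem Q t (j w)) ∈ C :=
  (HQ_seq hQ H).exists_compact hB (compact_ball hjc) R

/-! ### parity -/

theorem nem_even {Q : T → X → (κ → ℝ) → (ν → ℝ)} {t : T}
    (he : ∀ x v, Q t x (-v) = Q t x v) (u : HH μ κ) [IsFiniteMeasure μ] (hQ : NemOK μ B Q)
    (ht : t ∈ B) : nem Q t (-u) = nem Q t u := by
  ext l
  have h1 : ∀ᵐ x ∂μ, ∀ a, ((-u) a : X → ℝ) x = -((u a : X → ℝ) x) := by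
    rw [ae_all_iff]
    intro a
    exact Lp.coeFn_neg (u a)
  filter_upwards [coe_nem hQ ht (-u), coe_nem hQ ht u, h1] with x e1 e2 e3
  rw [e1 l, e2 l]
  have : (fun a => ((-u) a : X → ℝ) x) = -(fun a => (u a : X → ℝ) x) := by
    funext a; exact e3 a
  rw [this, he]

theorem pr_neg_right (u v : Lp ℝ 2 μ) : pr u (-v) = -pr u v := by
  by_cases h : MemLp (fun x => (u : X → ℝ) x * (v : X → ℝ) x) 2 μ
  · have h0 : (fun x => (u : X → ℝ) x * ((-v : Lp ℝ 2 μ) : X → ℝ) x) =ᵐ[μ]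
        fun x => -((u : X → ℝ) x * (v : X → ℝ) x) := by
      filter_upwards [Lp.coeFn_neg v] with x e1
      rw [e1, Pi.neg_apply, mul_neg]
    have h' : MemLp (fun x => (u : X → ℝ) x * ((-v : Lp ℝ 2 μ) : X → ℝ) x) 2 μ :=
      (memLp_congr_ae h0).2 h.neg
    have e1 : pr u (-v) = h'.toLp _ := dif_pos h'
    have e2 : pr u v = h.toLp _ := dif_pos h
    rw [e1, e2, ← MemLp.toLp_neg]
    exact MemLp.toLp_congr _ _ h0
  · have h' : ¬ MemLp (fun x => (u : X → ℝ) x * ((-v : Lp ℝ 2 μ) : X → ℝ) x) 2 μ := by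
      intro hh
      apply h
      have h0 : (fun x => (u : X → ℝ) x * (v : X → ℝ) x) =ᵐ[μ]
          -(fun x => (u : X → ℝ) x * ((-v : Lp ℝ 2 μ) : X → ℝ) x) := by
        filter_upwards [Lp.coeFn_neg v] with x e1
        rw [Pi.neg_apply, e1, Pi.neg_apply, mul_neg, neg_neg]
      exact (memLp_congr_ae h0).2 hh.neg
    have e1 : pr u (-v) = 0 := dif_neg h'
    have e2 : pr u v = 0 := dif_neg h
    rw [e1, e2, neg_zero]

theorem prT_neg (c : κ' → α → κ → X → ℝ) (hc : ∀ l b y, BM μ (c l b y)) (a : HH μ α)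
    (u : HH μ κ) : prT c hc a (-u) = -prT c hc a u := by
  ext1 l
  show ∑ b, ∑ y, mulF (hc l b y) (pr (a b) ((-u) y)) =
    -(∑ b, ∑ y, mulF (hc l b y) (pr (a b) (u y)))
  rw [← Finset.sum_neg_distrib]
  refine Finset.sum_congr rfl fun b _ => ?_
  rw [← Finset.sum_neg_distrib]
  refine Finset.sum_congr rfl fun y _ => ?_
  have : (-u) y = -(u y) := rfl
  rw [this, pr_neg_right, map_neg]

theorem KK_odd [IsFiniteMeasure μ] {j : W →L[ℝ] HH μ κ}
    {jA : WA →L[ℝ] HH μ α} {Q : T → X → (κ → ℝ) → (ν → ℝ)} (hQ : NemOK μ B Q)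
    (G1 : HH μ ν →L[ℝ] WA) (c : κ' → α → κ → X → ℝ) (hc : ∀ l b y, BM μ (c l b y))
    {Lam : T → HH μ κ →L[ℝ] HH μ κ'} {t : T} (ht : t ∈ B)
    (he : ∀ x v, Q t x (-v) = Q t x v) (w : W) :
    KK j jA Q G1 c hc Lam t (-w) = -KK j jA Q G1 c hc Lam t w := by
  unfold KK
  rw [map_neg, map_neg, nem_even he _ hQ ht, prT_neg, neg_add]

end main

/-! ### matrix multipliers depending on a parameter -/

section fam

variable {T : Type*} [TopologicalSpace T] {B : Set T} {κ κ' : Type} [Fintype κ] [Fintype κ']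

/-- rectangular matrix multiplier. -/
def matR {m : κ' → κ → X → ℝ} (hm : ∀ a b, BM μ (m a b)) : HH μ κ →L[ℝ] HH μ κ' :=
  ((PiLp.continuousLinearEquiv 2 ℝ (fun _ : κ' => Lp ℝ 2 μ)).symm :
      (∀ _ : κ', Lp ℝ 2 μ) →L[ℝ] HH μ κ').comp
    (ContinuousLinearMap.pi fun a => ∑ b, (mulF (hm a b)).comp (PiLp.proj 2 _ b))

theorem matR_apply {m : κ' → κ → X → ℝ} (hm : ∀ a b, BM μ (m a b)) (u : HH μ κ) (a : κ') :
    matR hm u a = ∑ b, mulF (hm a b) (u b) := by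
  simp [matR]

theorem coe_matR {m : κ' → κ → X → ℝ} (hm : ∀ a b, BM μ (m a b)) (u : HH μ κ) :
    ∀ᵐ x ∂μ, ∀ a, (matR hm u a : X → ℝ) x = ∑ b, (u b : X → ℝ) x * m a b x := by
  rw [ae_all_iff]
  intro a
  have h1 : ∀ᵐ x ∂μ, ∀ b, (mulF (hm a b) (u b) : X → ℝ) x = (u b : X → ℝ) x • m a b x :=
    ae_all_iff.2 fun b => coe_mulF (hm a b) (u b)
  filter_upwards [h1, Lp.coeFn_fun_finsetSum Finset.univ (fun b => mulF (hm a b) (u b))]
    with x e1 e2
  rw [matR_apply, e2]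
  exact Finset.sum_congr rfl fun b _ => e1 b

theorem norm_matR_sub_le {m m' : κ' → κ → X → ℝ} (hm : ∀ a b, BM μ (m a b))
    (hm' : ∀ a b, BM μ (m' a b)) {ε : ℝ} (hε : 0 ≤ ε)
    (h : ∀ a b x, |m a b x - m' a b x| ≤ ε) :
    ‖(matR hm : HH μ κ →L[ℝ] HH μ κ') - matR hm'‖ ≤
      Fintype.card κ' * Fintype.card κ * ε := by
  refine ContinuousLinearMap.opNorm_le_bound _ (by positivity) fun u => ?_
  have hcomp : ∀ a b, ‖mulF (hm a b) (u b) - mulF (hm' a b) (u b)‖ ≤ ε * ‖u‖ := by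
    intro a b
    have h1 : ‖mulF (hm a b) (u b) - mulF (hm' a b) (u b)‖ ≤ ‖ε • u b‖ := by
      refine Lp.norm_le_norm_of_ae_le ?_
      filter_upwards [coe_mulF (hm a b) (u b), coe_mulF (hm' a b) (u b),
        Lp.coeFn_sub (mulF (hm a b) (u b)) (mulF (hm' a b) (u b)), Lp.coeFn_smul ε (u b)]
        with x e1 e2 e3 e4
      rw [e3, Pi.sub_apply, e1, e2, e4, Pi.smul_apply, smul_eq_mul, smul_eq_mul, smul_eq_mul,
        ← mul_sub, norm_mul, norm_mul, mul_comm]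
      refine mul_le_mul_of_nonneg_right ?_ (norm_nonneg _)
      rw [Real.norm_eq_abs, Real.norm_eq_abs, abs_of_nonneg hε]
      exact h a b x
    refine h1.trans ?_
    rw [norm_smul, Real.norm_eq_abs, abs_of_nonneg hε]
    exact mul_le_mul_of_nonneg_left (PiLp.norm_apply_le u b) hε
  have hrow : ∀ a, ‖(matR hm u - matR hm' u) a‖ ≤ Fintype.card κ * (ε * ‖u‖) := by
    intro a
    have e : (matR hm u - matR hm' u) a = ∑ b, (mulF (hm a b) (u b) - mulF (hm' a b) (u b)) := by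
      show matR hm u a - matR hm' u a = _
      rw [matR_apply, matR_apply, Finset.sum_sub_distrib]
    rw [e]
    refine (norm_sum_le _ _).trans ((Finset.sum_le_sum fun b _ => hcomp a b).trans ?_)
    rw [Finset.sum_const, Finset.card_univ, nsmul_eq_mul]
  show ‖matR hm u - matR hm' u‖ ≤ _
  have hn : ‖matR hm u - matR hm' u‖ ≤ ∑ a, ‖(matR hm u - matR hm' u) a‖ := by
    rw [PiLp.norm_eq_of_L2]
    have h2 : ∑ a, ‖(matR hm u - matR hm' u) a‖ ^ 2 ≤ (∑ a, ‖(matR hm u - matR hm' u) a‖) ^ 2 := by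
      rw [sq (∑ a, ‖(matR hm u - matR hm' u) a‖), Finset.sum_mul]
      refine Finset.sum_le_sum fun a _ => ?_
      rw [sq]
      exact mul_le_mul_of_nonneg_left (Finset.single_le_sum
        (f := fun a => ‖(matR hm u - matR hm' u) a‖) (fun b _ => norm_nonneg _)
        (Finset.mem_univ a)) (norm_nonneg _)
    calc √(∑ a, ‖(matR hm u - matR hm' u) a‖ ^ 2)
        ≤ √((∑ a, ‖(matR hm u - matR hm' u) a‖) ^ 2) := Real.sqrt_le_sqrt h2
      _ = _ := Real.sqrt_sq (Finset.sum_nonneg fun a _ => norm_nonneg _)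
  refine hn.trans ((Finset.sum_le_sum fun a _ => hrow a).trans (le_of_eq ?_))
  rw [Finset.sum_const, Finset.card_univ, nsmul_eq_mul]
  ring

/-- a uniformly continuous family of matrices is a norm continuous family of multipliers. -/
theorem matR_family {m : T → κ' → κ → X → ℝ} (hm : ∀ t a b, BM μ (m t a b))
    (hcont : ∀ t0 ∈ B, ∀ ε > 0, ∀ᶠ t in 𝓝[B] t0, ∀ a b x, |m t a b x - m t0 a b x| ≤ ε) :
    ContinuousOn (fun t => (matR (hm t) : HH μ κ →L[ℝ] HH μ κ')) B := by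
  intro t0 ht0
  refine Metric.tendsto_nhds.2 fun ε hε => ?_
  set N : ℝ := Fintype.card κ' * Fintype.card κ with hN
  have hN0 : 0 ≤ N := by positivity
  have hδ : 0 < ε / (N + 1) := by positivity
  filter_upwards [hcont t0 ht0 _ hδ] with t ht
  rw [dist_eq_norm]
  refine (norm_matR_sub_le (hm t) (hm t0) hδ.le ht).trans_lt ?_
  rw [← hN, ← mul_div_assoc, div_lt_iff₀ (by linarith)]
  nlinarith

end fam

end Crest.Agent.R235.Cpt_755
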