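import Crest.Agent.R241.B7Moll2
import Crest.Agent.R247.Ms12_322
import Crest.Agent.R247.Dir3_593
import Crest.Agent.R240.Ch5
import Crest.Agent.R249.Tv7_57
import Crest.Agent.R235.Cpt_755

-- ▼ part R235/Sob4A_984
section

/-!
Row 235 (S0364), SW-FS2 (helper984), part A: the Sobolev inequality `L⁴ ≤ C W^{1,2}` in `ℝ⁴` for
Lipschitz functions with compact support.
-/

set_option autoImplicit false

open MeasureTheory Filter Topology Set Metric
open scoped ENNReal NNReal ContDiff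

namespace Crest.Agent.R235.Sob4_984

noncomputable section

local notation "𝔼" => EuclideanSpace ℝ (Fin 4)

/-- convergence of linear forms from the coordinates -/
theorem tendsto_clm {L : ℕ → 𝔼 →L[ℝ] ℝ} {L' : 𝔼 →L[ℝ] ℝ}
    (h : ∀ j, Tendsto (fun n => L n (EuclideanSpace.single j 1)) atTop
      (𝓝 (L' (EuclideanSpace.single j 1)))) : Tendsto L atTop (𝓝 L') := by
  have e : ∀ T : 𝔼 →L[ℝ] ℝ, T = ∑ j : Fin 4, T (EuclideanSpace.single j 1) •
      (EuclideanSpace.proj j : 𝔼 →L[ℝ] ℝ) := by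
    intro T
    ext v
    have hv : v = ∑ i, v i • (EuclideanSpace.single i (1 : ℝ) : 𝔼) := by
      ext j
      simp [Finset.sum_apply, Pi.single_apply]
    conv_lhs => rw [hv]
    rw [map_sum, _root_.sum_apply]
    refine Finset.sum_congr rfl fun i _ => ?_
    rw [map_smul, _root_.smul_apply]
    simp [mul_comm]
  rw [e L']
  have e2 : L = fun n => ∑ j : Fin 4, L n (EuclideanSpace.single j 1) •
      (EuclideanSpace.proj j : 𝔼 →L[ℝ] ℝ) := funext fun n => e (L n)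
  rw [e2]
  exact tendsto_finsetSum _ fun j _ => (h j).smul_const _

/-- the constant -/
def C4 : ℝ≥0 := SNormLESNormFDerivOfEqConst ℝ (volume : Measure 𝔼) ((2 : ℝ≥0) : ℝ)

theorem sob_C1 {f : 𝔼 → ℝ} (hf : ContDiff ℝ 1 f) (hc : HasCompactSupport f) :
    eLpNorm f 4 volume ≤ C4 * eLpNorm (fderiv ℝ f) 2 volume := by
  have h := eLpNorm_le_eLpNorm_fderiv_of_eq (volume : Measure 𝔼) (F := ℝ) (u := f) hf hc
    (p := 2) (p' := 4) (by norm_num) (by simp) (by simp; norm_num)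
  exact le_trans (le_of_eq rfl) h

theorem sob_lip {F : 𝔼 → ℝ} {K : ℝ≥0} (hF : LipschitzWith K F) (hc : HasCompactSupport F) :
    eLpNorm F 4 volume ≤ C4 * eLpNorm (fderiv ℝ F) 2 volume := by
  obtain ⟨G, hG1, hG2, hG3, hG4⟩ := Crest.Agent.R241.B7Moll2.exists_smooth_approx_ae hF
  obtain ⟨R, hR0, hR⟩ : ∃ R : ℝ, 0 < R ∧ tsupport F ⊆ ball 0 R := by
    obtain ⟨R, hR⟩ := hc.isCompact.isBounded.subset_ball 0
    exact ⟨max R 1, lt_max_of_lt_right one_pos, hR.trans (ball_subset_ball (le_max_left _ _))⟩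
  -- the cut-off
  let η : ContDiffBump (0 : 𝔼) := ⟨R, R + 1, hR0, by linarith⟩
  have hη1 : ∀ x ∈ ball (0 : 𝔼) R, η x = 1 := fun x hx =>
    η.one_of_mem_closedBall (ball_subset_closedBall hx)
  have hη0 : ∀ x, x ∉ ball (0 : 𝔼) (R + 1) → η x = 0 := fun x hx => by
    rw [← Function.notMem_support, η.support_eq]; exact hx
  have hηc : ContDiff ℝ ∞ (η : 𝔼 → ℝ) := η.contDiff
  have hηF : (fun x => η x * F x) = F := by
    funext x
    by_cases hx : x ∈ ball (0 : 𝔼) R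
    · rw [hη1 x hx, one_mul]
    · rw [image_eq_zero_of_notMem_tsupport fun h => hx (hR h), mul_zero]
  set f : ℕ → 𝔼 → ℝ := fun n x => η x * G n x with hf
  have hfs : ∀ n, ContDiff ℝ 1 (f n) := fun n =>
    (hηc.of_le (by simp)).mul ((hG1 n).of_le (by exact_mod_cast le_top))
  have hfc : ∀ n, HasCompactSupport (f n) := fun n => η.hasCompactSupport.mul_right
  -- derivatives
  have hdf : ∀ n x, fderiv ℝ (f n) x = η x • fderiv ℝ (G n) x + G n x • fderiv ℝ η x := by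
    intro n x
    rw [hf]
    exact fderiv_fun_mul ((hηc.differentiable (by simp)) x)
      (((hG1 n).differentiable (by simp)) x)
  have hlim : ∀ᵐ x : 𝔼, Tendsto (fun n => fderiv ℝ (f n) x) atTop (𝓝 (fderiv ℝ F x)) := by
    filter_upwards [hG4, hF.ae_differentiableAt (μ := volume)] with x h1 h2
    have h3 : fderiv ℝ F x = η x • fderiv ℝ F x + F x • fderiv ℝ η x := by
      conv_lhs => rw [← hηF]
      exact fderiv_fun_mul ((hηc.differentiable (by simp)) x) h2
    rw [h3]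
    simp only [hdf]
    exact ((tendsto_clm h1).const_smul _).add ((hG3 x).smul_const _)
  -- bounds
  obtain ⟨B, hB⟩ : ∃ B : ℝ, ∀ n, |G n 0| ≤ B := by
    obtain ⟨B, hB⟩ := (hG3 0).norm.bddAbove_range
    exact ⟨B, fun n => hB ⟨n, rfl⟩⟩
  obtain ⟨D, hD⟩ : ∃ D : ℝ, ∀ x, ‖fderiv ℝ η x‖ ≤ D := by
    have h1 : Continuous (fderiv ℝ (η : 𝔼 → ℝ)) := hηc.continuous_fderiv (by simp)
    have h2 : HasCompactSupport (fderiv ℝ (η : 𝔼 → ℝ)) := η.hasCompactSupport.fderiv ℝ
    exact h1.bounded_above_of_compact_support h2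
  have hD0 : 0 ≤ D := (norm_nonneg _).trans (hD 0)
  have hB0 : 0 ≤ B := (abs_nonneg _).trans (hB 0)
  set A : ℝ := K + (B + K * (R + 1)) * D with hA
  have hA0 : 0 ≤ A := by positivity
  have hbd : ∀ n x, ‖fderiv ℝ (f n) x‖ ≤ (ball (0 : 𝔼) (R + 1)).indicator (fun _ => A) x := by
    intro n x
    by_cases hx : x ∈ closedBall (0 : 𝔼) (R + 1)
    · by_cases hx' : x ∈ ball (0 : 𝔼) (R + 1)
      · rw [indicator_of_mem hx', hdf]
        refine (norm_add_le _ _).trans ?_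
        rw [norm_smul, norm_smul]
        have e1 : ‖η x‖ ≤ 1 := by rw [Real.norm_of_nonneg η.nonneg]; exact η.le_one
        have e2 : ‖fderiv ℝ (G n) x‖ ≤ K := norm_fderiv_le_of_lipschitz ℝ (hG2 n)
        have e3 : ‖G n x‖ ≤ B + K * (R + 1) := by
          have h1 := (hG2 n).dist_le_mul x 0
          rw [Real.dist_eq, dist_zero_right] at h1
          have h2 : ‖x‖ ≤ R + 1 := by rwa [mem_closedBall, dist_zero_right] at hx
          have h3 : |G n x| ≤ |G n x - G n 0| + |G n 0| := by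
            have := abs_add_le (G n x - G n 0) (G n 0)
            rwa [sub_add_cancel] at this
          have h4 : (K : ℝ) * ‖x‖ ≤ K * (R + 1) := mul_le_mul_of_nonneg_left h2 K.2
          rw [Real.norm_eq_abs]
          linarith [hB n]
        have e4 : ‖η x‖ * ‖fderiv ℝ (G n) x‖ ≤ 1 * K :=
          mul_le_mul e1 e2 (norm_nonneg _) zero_le_one
        have e5 : ‖G n x‖ * ‖fderiv ℝ η x‖ ≤ (B + K * (R + 1)) * D :=
          mul_le_mul e3 (hD x) (norm_nonneg _) (by positivity)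
        rw [hA]; linarith
      · -- on the sphere: the function is nonnegative and zero, so `η = 0` and `dη = 0`
        rw [indicator_of_notMem hx', hdf]
        have e1 : η x = 0 := hη0 x hx'
        have e2 : fderiv ℝ (η : 𝔼 → ℝ) x = 0 := by
          refine IsLocalMin.fderiv_eq_zero (Eventually.of_forall fun y => ?_)
          rw [e1]; exact η.nonneg
        rw [e1, e2]; simp
    · have hx' : x ∉ ball (0 : 𝔼) (R + 1) := fun h => hx (ball_subset_closedBall h)
      rw [indicator_of_notMem hx', hdf]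
      have e1 : η x = 0 := hη0 x hx'
      have e2 : fderiv ℝ (η : 𝔼 → ℝ) x = 0 := by
        refine IsLocalMin.fderiv_eq_zero (Eventually.of_forall fun y => ?_)
        rw [e1]; exact η.nonneg
      rw [e1, e2]; simp
  have hmeas : ∀ n, AEStronglyMeasurable (fderiv ℝ (f n)) (volume : Measure 𝔼) := fun n =>
    ((hfs n).continuous_fderiv one_ne_zero).aestronglyMeasurable
  -- convergence of the energies
  have hE : Tendsto (fun n => eLpNorm (fderiv ℝ (f n)) 2 (volume : Measure 𝔼)) atTop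
      (𝓝 (eLpNorm (fderiv ℝ F) 2 volume)) := by
    have e : ∀ g : 𝔼 → (𝔼 →L[ℝ] ℝ), eLpNorm g 2 (volume : Measure 𝔼) =
        (∫⁻ x, ‖g x‖ₑ ^ (2 : ℝ)) ^ (1 / (2 : ℝ)) := by
      intro g
      rw [eLpNorm_eq_lintegral_rpow_enorm_toReal (by norm_num) (by norm_num)]
      simp
    simp only [e]
    refine ((ENNReal.continuous_rpow_const).tendsto _).comp ?_
    refine tendsto_lintegral_of_dominated_convergence'
      (fun x => ((ball (0 : 𝔼) (R + 1)).indicator (fun _ => ENNReal.ofReal (A ^ 2)) x))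
      (fun n => ?_) (fun n => ?_) ?_ ?_
    · exact (hmeas n).enorm.pow_const _
    · refine Eventually.of_forall fun x => ?_
      have h1 := hbd n x
      beta_reduce
      by_cases hx : x ∈ ball (0 : 𝔼) (R + 1)
      · rw [indicator_of_mem hx] at h1 ⊢
        have : ‖fderiv ℝ (f n) x‖ₑ ^ (2 : ℝ) = ENNReal.ofReal (‖fderiv ℝ (f n) x‖ ^ 2) := by
          rw [← ofReal_norm, ENNReal.rpow_two, ENNReal.ofReal_pow (norm_nonneg _)]
        rw [this]
        exact ENNReal.ofReal_le_ofReal (by gcongr)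
      · rw [indicator_of_notMem hx] at h1 ⊢
        have h2 : ‖fderiv ℝ (f n) x‖ = 0 := le_antisymm h1 (norm_nonneg _)
        have h3 : ‖fderiv ℝ (f n) x‖ₑ = 0 := by rw [← ofReal_norm, h2, ENNReal.ofReal_zero]
        rw [h3, ENNReal.zero_rpow_of_pos (by norm_num)]
    · rw [lintegral_indicator measurableSet_ball]
      simp only [lintegral_const, Measure.restrict_apply MeasurableSet.univ, univ_inter]
      exact ENNReal.mul_ne_top ENNReal.ofReal_ne_top measure_ball_lt_top.ne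
    · filter_upwards [hlim] with x hx
      exact ((ENNReal.continuous_rpow_const).tendsto _).comp
        ((continuous_enorm.tendsto _).comp hx)
  -- Fatou
  have h1 : eLpNorm F 4 volume ≤ atTop.liminf fun n => eLpNorm (f n) 4 volume := by
    refine Lp.eLpNorm_lim_le_liminf_eLpNorm
      (fun n => ((hfs n).continuous.aestronglyMeasurable)) F (Eventually.of_forall fun x => ?_)
    have h2 : Tendsto (fun n => η x * G n x) atTop (𝓝 (η x * F x)) := (hG3 x).const_mul _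
    have h3 : η x * F x = F x := congrFun hηF x
    rwa [h3] at h2
  have h2 : Tendsto (fun n => (C4 : ℝ≥0∞) * eLpNorm (fderiv ℝ (f n)) 2 (volume : Measure 𝔼)) atTop
      (𝓝 (C4 * eLpNorm (fderiv ℝ F) 2 volume)) :=
    ENNReal.Tendsto.const_mul hE (Or.inr ENNReal.coe_ne_top)
  refine h1.trans ?_
  rw [← h2.liminf_eq]
  exact liminf_le_liminf (Eventually.of_forall fun n => sob_C1 (hfs n) (hfc n))

end

end Crest.Agent.R235.Sob4_984
end

-- ▼ part R235/Sob4B_984
section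

/-!
Row 235 (S0364), SW-FS2 (helper984), part B: the Sobolev inequality for functions on `M`, `dim 4`,
supported in a compact set of a chart.
-/

set_option autoImplicit false
set_option maxSynthPendingDepth 3
set_option linter.unusedSectionVars false

open Bundle Bornology Set MeasureTheory Manifold Filter Metric
open scoped ENNReal ContDiff Topology NNReal
open Crest.GeometryTopology.CoordMetric Crest.GeometryTopology.ChartCurvature
open Crest.Agent.R247 Crest.Agent.R247.Ms322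

namespace Crest.Agent.R235.Sob4_984

noncomputable section

local notation "𝔼" => EuclideanSpace ℝ (Fin 4)

theorem norm_le_sum (L : 𝔼 →L[ℝ] ℝ) {A : ℝ} (hA : 0 ≤ A)
    (h : ∀ i, |L (EuclideanSpace.single i 1)| ≤ A) : ‖L‖ ≤ 4 * A := by
  refine ContinuousLinearMap.opNorm_le_bound _ (by positivity) fun v => ?_
  have hv : v = ∑ i, v i • (EuclideanSpace.single i (1 : ℝ) : 𝔼) := by
    ext j
    simp [Finset.sum_apply, Pi.single_apply]
  have h1 : L v = ∑ i, v i * L (EuclideanSpace.single i 1) := by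
    conv_lhs => rw [hv]
    rw [map_sum]
    exact Finset.sum_congr rfl fun i _ => by rw [map_smul, smul_eq_mul]
  rw [h1]
  refine (norm_sum_le _ _).trans ?_
  have h2 : ∀ i ∈ (Finset.univ : Finset (Fin 4)), ‖v i * L (EuclideanSpace.single i 1)‖ ≤
      ‖v‖ * A := by
    intro i _
    rw [norm_mul]
    exact mul_le_mul (PiLp.norm_apply_le v i) (h i) (norm_nonneg _) (norm_nonneg _)
  refine (Finset.sum_le_sum h2).trans ?_
  simp
  linarith

/-- the fourth power of the `L⁴` norm, etc. -/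
theorem eLpNorm_four {α F : Type*} [MeasurableSpace α] [NormedAddCommGroup F] (μ : Measure α)
    (g : α → F) : eLpNorm g 4 μ = (∫⁻ x, ‖g x‖ₑ ^ (4 : ℝ) ∂μ) ^ (1 / (4 : ℝ)) := by
  rw [eLpNorm_eq_lintegral_rpow_enorm_toReal (by norm_num) (by norm_num)]
  simp

theorem eLpNorm_two {α F : Type*} [MeasurableSpace α] [NormedAddCommGroup F] (μ : Measure α)
    (g : α → F) : eLpNorm g 2 μ = (∫⁻ x, ‖g x‖ₑ ^ (2 : ℝ) ∂μ) ^ (1 / (2 : ℝ)) := by
  rw [eLpNorm_eq_lintegral_rpow_enorm_toReal (by norm_num) (by norm_num)]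
  simp

variable {M : Type*} [MetricSpace M] [ChartedSpace (EuclideanSpace ℝ (Fin 4)) M]
  [IsManifold (𝓡 4) ∞ M]
  [RiemannianBundle (fun p : M => TangentSpace (𝓡 4) p)]
  [IsContMDiffRiemannianBundle (𝓡 4) ∞ (EuclideanSpace ℝ (Fin 4)) (fun p : M => TangentSpace (𝓡 4) p)]
  [SecondCountableTopology M] [Nonempty M] [IsRiemannianManifold (𝓡 4) M]
  [MeasurableSpace M] [BorelSpace M]

/-- **Sobolev in a chart.** -/
theorem sob_chart (x₀ : M) {K : Set M} (hK : IsCompact K) (hKs : K ⊆ (chartAt 𝔼 x₀).source) :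
    ∃ C : ℝ≥0, ∀ φ : M → ℝ, LocallyLipschitz φ → tsupport φ ⊆ K →
      eLpNorm φ 4 (μHE[4] : Measure M) ≤ C * eLpNorm (Gr (n := 4) φ) 2 (μHE[4] : Measure M) := by
  set T := (chartAt 𝔼 x₀).target with hT
  set K' : Set 𝔼 := chartAt 𝔼 x₀ '' K with hK'
  have hK'c : IsCompact K' := isCompact_chart_image x₀ hK hKs
  have hK'T : K' ⊆ T := by rintro _ ⟨z, hz, rfl⟩; exact (chartAt 𝔼 x₀).map_source (hKs hz)
  have hdc : ContinuousOn (dens (n := 4) x₀) K' := (continuousOn_dens (n := 4) x₀).mono hK'T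
  obtain ⟨D1, hD1⟩ := hK'c.exists_bound_of_continuousOn hdc
  obtain ⟨D2, hD2⟩ := hK'c.exists_bound_of_continuousOn
    (hdc.inv₀ fun a ha => (dens_pos (n := 4) x₀ (hK'T ha)).ne')
  choose CE hCE0 hCE using fun i : Fin 4 => exists_bound_Ef (n := 4) x₀ i hK hKs
  set A : ℝ := ∑ i, CE i with hA
  have hA0 : 0 ≤ A := Finset.sum_nonneg fun i _ => hCE0 i
  have hAi : ∀ i, CE i ≤ A := fun i => Finset.single_le_sum (fun i _ => hCE0 i) (Finset.mem_univ i)
  set c1 : ℝ≥0∞ := ENNReal.ofReal |D1| with hc1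
  set c2 : ℝ≥0∞ := ENNReal.ofReal ((4 * A) ^ 2 * |D2|) with hc2
  set Ct : ℝ≥0∞ := c1 ^ (1 / (4 : ℝ)) * (C4 * c2 ^ (1 / (2 : ℝ))) with hCt
  have hCtop : Ct ≠ ⊤ := by
    refine ENNReal.mul_ne_top (ENNReal.rpow_ne_top_of_nonneg (by positivity) ENNReal.ofReal_ne_top)
      (ENNReal.mul_ne_top ENNReal.coe_ne_top
        (ENNReal.rpow_ne_top_of_nonneg (by positivity) ENNReal.ofReal_ne_top))
  refine ⟨Ct.toNNReal, fun φ hφ hφK => ?_⟩
  rw [ENNReal.coe_toNNReal hCtop]
  have hφc : HasCompactSupport φ := hK.of_isClosed_subset (isClosed_tsupport _) hφK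
  have hφs : tsupport φ ⊆ (chartAt 𝔼 x₀).source := hφK.trans hKs
  have hsm : MeasurableSet (chartAt 𝔼 x₀).source := (chartAt 𝔼 x₀).open_source.measurableSet
  have hTm : MeasurableSet T := (chartAt 𝔼 x₀).open_target.measurableSet
  set F : 𝔼 → ℝ := pll (n := 4) x₀ φ with hF
  have hFc : HasCompactSupport F := hasCompactSupport_pll x₀ hφc hφs
  obtain ⟨k, hk⟩ := exists_lipschitzWith (locallyLipschitz_pll (n := 4) x₀ hφ hφc hφs) hFc
  have hFK : tsupport F ⊆ K' := (tsupport_pll_subset x₀ hφc hφs).trans (image_mono hφK)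
  -- step 1: the left-hand side
  have h1 : eLpNorm φ 4 (μHE[4] : Measure M) ≤ c1 ^ (1 / (4 : ℝ)) * eLpNorm F 4 volume := by
    rw [eLpNorm_four, eLpNorm_four, ← ENNReal.mul_rpow_of_nonneg _ _ (by norm_num)]
    refine ENNReal.rpow_le_rpow ?_ (by norm_num)
    have e1 : ∫⁻ z, ‖φ z‖ₑ ^ (4 : ℝ) ∂(μHE[4] : Measure M) =
        ∫⁻ z in (chartAt 𝔼 x₀).source, ‖φ z‖ₑ ^ (4 : ℝ) ∂(μHE[4] : Measure M) := by
      rw [← lintegral_indicator hsm]
      refine lintegral_congr fun z => ?_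
      by_cases hz : z ∈ (chartAt 𝔼 x₀).source
      · rw [indicator_of_mem hz]
      · rw [indicator_of_notMem hz, image_eq_zero_of_notMem_tsupport fun h => hz (hφs h)]
        simp
    rw [e1, lintegral_source, ← lintegral_const_mul' _ _ ENNReal.ofReal_ne_top]
    refine (setLIntegral_mono_ae' hTm (Eventually.of_forall fun a ha => ?_)).trans
      (setLIntegral_le_lintegral T _)
    rw [hF, pll_of_mem x₀ φ ha]
    by_cases haK : a ∈ K'
    · refine mul_le_mul_left ?_ _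
      refine ENNReal.ofReal_le_ofReal ?_
      exact ((le_abs_self _).trans (hD1 a haK)).trans (le_abs_self _)
    · have : φ ((chartAt 𝔼 x₀).symm a) = 0 := by
        refine image_eq_zero_of_notMem_tsupport fun h => haK ?_
        exact ⟨_, hφK h, (chartAt 𝔼 x₀).right_inv ha⟩
      rw [this]; simp
  -- step 2: the right-hand side
  have h2 : eLpNorm (fderiv ℝ F) 2 volume ≤
      c2 ^ (1 / (2 : ℝ)) * eLpNorm (Gr (n := 4) φ) 2 (μHE[4] : Measure M) := by
    rw [eLpNorm_two, eLpNorm_two, ← ENNReal.mul_rpow_of_nonneg _ _ (by norm_num)]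
    refine ENNReal.rpow_le_rpow ?_ (by norm_num)
    have e1 : ∫⁻ a, ‖fderiv ℝ F a‖ₑ ^ (2 : ℝ) = ∫⁻ a in T, ‖fderiv ℝ F a‖ₑ ^ (2 : ℝ) := by
      rw [← lintegral_indicator hTm]
      refine lintegral_congr fun a => ?_
      by_cases ha : a ∈ T
      · rw [indicator_of_mem ha]
      · have h3 : ‖fderiv ℝ F a‖ = 0 := by
          rw [fderiv_zero_off fun h => ha (hK'T (hFK h)), norm_zero]
        have h4 : ‖fderiv ℝ F a‖ₑ = 0 := by rw [← ofReal_norm, h3, ENNReal.ofReal_zero]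
        rw [indicator_of_notMem ha, h4, ENNReal.zero_rpow_of_pos (by norm_num)]
    have e2 : ∫⁻ z in (chartAt 𝔼 x₀).source, ‖Gr (n := 4) φ z‖ₑ ^ (2 : ℝ) ∂(μHE[4] : Measure M) ≤
        ∫⁻ z, ‖Gr (n := 4) φ z‖ₑ ^ (2 : ℝ) ∂(μHE[4] : Measure M) := setLIntegral_le_lintegral _ _
    refine le_trans ?_ (mul_le_mul_right e2 _)
    rw [e1, lintegral_source, ← lintegral_const_mul' _ _ ENNReal.ofReal_ne_top]
    refine setLIntegral_mono_ae' hTm (Eventually.of_forall fun a ha => ?_)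
    by_cases haK : a ∈ K'
    · set z := (chartAt 𝔼 x₀).symm a with hz
      have hzs : z ∈ (chartAt 𝔼 x₀).source := (chartAt 𝔼 x₀).map_target ha
      have hza : chartAt 𝔼 x₀ z = a := (chartAt 𝔼 x₀).right_inv ha
      have hzK : z ∈ K := by
        obtain ⟨w, hw, hwa⟩ := haK
        rw [hz, ← hwa, (chartAt 𝔼 x₀).left_inv (hKs hw)]; exact hw
      have h3 : ‖fderiv ℝ F a‖ ≤ 4 * (A * ‖Gr (n := 4) φ z‖) := by
        refine norm_le_sum _ (by positivity) fun i => ?_
        have h4 := inner_Ef (n := 4) x₀ i hzs φ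
        rw [hza] at h4
        have h5 : fderiv ℝ F a (EuclideanSpace.single i 1) =
            pderiv i (fun b => φ ((chartAt 𝔼 x₀).symm b)) a := by
          rw [(pll_eventually x₀ φ ha).fderiv_eq]; rfl
        rw [h5, ← h4]
        refine (abs_real_inner_le_norm _ _).trans ?_
        exact mul_le_mul_of_nonneg_right ((hCE i z hzK).trans (hAi i)) (norm_nonneg _)
      have h6 : 1 ≤ |D2| * dens (n := 4) x₀ a := by
        have h7 := hD2 a haK
        have h8 := dens_pos (n := 4) x₀ ha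
        rw [Pi.inv_apply, Real.norm_of_nonneg (inv_nonneg.2 h8.le)] at h7
        calc (1 : ℝ) = (dens (n := 4) x₀ a)⁻¹ * dens (n := 4) x₀ a := (inv_mul_cancel₀ h8.ne').symm
          _ ≤ |D2| * dens (n := 4) x₀ a :=
            mul_le_mul_of_nonneg_right (h7.trans (le_abs_self _)) h8.le
      have h9 : ‖fderiv ℝ F a‖ ^ 2 ≤
          ((4 * A) ^ 2 * |D2|) * (dens (n := 4) x₀ a * ‖Gr (n := 4) φ z‖ ^ 2) := by
        calc ‖fderiv ℝ F a‖ ^ 2 ≤ (4 * (A * ‖Gr (n := 4) φ z‖)) ^ 2 := by gcongr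
          _ = ((4 * A) ^ 2 * ‖Gr (n := 4) φ z‖ ^ 2) * 1 := by ring
          _ ≤ ((4 * A) ^ 2 * ‖Gr (n := 4) φ z‖ ^ 2) * (|D2| * dens (n := 4) x₀ a) :=
            mul_le_mul_of_nonneg_left h6 (by positivity)
          _ = _ := by ring
      have g1 : ‖fderiv ℝ F a‖ₑ ^ (2 : ℝ) = ENNReal.ofReal (‖fderiv ℝ F a‖ ^ 2) := by
        rw [← ofReal_norm, ENNReal.rpow_two, ENNReal.ofReal_pow (norm_nonneg _)]
      have g2 : ‖Gr (n := 4) φ z‖ₑ ^ (2 : ℝ) = ENNReal.ofReal (‖Gr (n := 4) φ z‖ ^ 2) := by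
        rw [← ofReal_norm, ENNReal.rpow_two, ENNReal.ofReal_pow (norm_nonneg _)]
      rw [g1, g2, ← ENNReal.ofReal_mul (dens_nonneg _ _), ← ENNReal.ofReal_mul (by positivity)]
      exact ENNReal.ofReal_le_ofReal h9
    · have h3 : ‖fderiv ℝ F a‖ = 0 := by
        rw [fderiv_zero_off fun h => haK (hFK h), norm_zero]
      have h4 : ‖fderiv ℝ F a‖ₑ = 0 := by rw [← ofReal_norm, h3, ENNReal.ofReal_zero]
      rw [h4, ENNReal.zero_rpow_of_pos (by norm_num)]
      exact zero_le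
  calc eLpNorm φ 4 (μHE[4] : Measure M) ≤ c1 ^ (1 / (4 : ℝ)) * eLpNorm F 4 volume := h1
    _ ≤ c1 ^ (1 / (4 : ℝ)) * (C4 * eLpNorm (fderiv ℝ F) 2 volume) :=
      mul_le_mul_right (sob_lip hk hFc) _
    _ ≤ c1 ^ (1 / (4 : ℝ)) * (C4 * (c2 ^ (1 / (2 : ℝ)) *
        eLpNorm (Gr (n := 4) φ) 2 (μHE[4] : Measure M))) :=
      mul_le_mul_right (mul_le_mul_right h2 _) _
    _ = Ct * eLpNorm (Gr (n := 4) φ) 2 (μHE[4] : Measure M) := by rw [hCt]; ring

end

end Crest.Agent.R235.Sob4_984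
end

-- ▼ part R235/Sob4_984

/-!
Row 235 (S0364), SW-FS2 (helper984): **the Sobolev embedding `W^{1,2}(M) → L⁴(M)`**, `M` closed of
dimension `4` (the format of R247/R249).

* `sob_test` : `‖f‖₄ ≤ C (‖Gr f‖₂ + ‖f‖₂)` for locally Lipschitz `f`
* `sob4`     : for `u ∈ (gradS 4 M).V` : `u ∈ L⁴` and `‖u‖₄ ≤ C (‖D u‖ + ‖u‖)`
* `emb4`     : the same for the components of the sections `w ∈ A.WE`, `A : AD (gradS 4 M) κ`
* `emb4_AD`, `emb4_Dat` : in the form `Cpt_755.Emb4 A.i1`, `Cpt_755.Emb4 D.toAD.i1`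
-/

set_option autoImplicit false
set_option maxSynthPendingDepth 3
set_option linter.unusedSectionVars false

open Bundle Bornology Set MeasureTheory Manifold Filter Metric
open scoped ENNReal ContDiff Topology NNReal
open Crest.Agent.R247 Crest.Agent.R247.Ms322 Crest.Agent.R247.Dir593

namespace Crest.Agent.R235.Sob4_984

noncomputable section

local notation "𝔼" => EuclideanSpace ℝ (Fin 4)

variable {M : Type*} [MetricSpace M] [CompactSpace M] [ChartedSpace (EuclideanSpace ℝ (Fin 4)) M]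
  [IsManifold (𝓡 4) ∞ M]
  [RiemannianBundle (fun p : M => TangentSpace (𝓡 4) p)]
  [IsContMDiffRiemannianBundle (𝓡 4) ∞ (EuclideanSpace ℝ (Fin 4)) (fun p : M => TangentSpace (𝓡 4) p)]
  [SecondCountableTopology M] [Nonempty M] [IsRiemannianManifold (𝓡 4) M]
  [MeasurableSpace M] [BorelSpace M]

/-- **Sobolev for locally Lipschitz functions.** -/
theorem sob_test : ∃ C : ℝ≥0, ∀ f : M → ℝ, LocallyLipschitz f →
    eLpNorm f 4 (μHE[4] : Measure M) ≤
      C * (eLpNorm (Gr (n := 4) f) 2 (μHE[4] : Measure M) + eLpNorm f 2 (μHE[4] : Measure M)) := by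
  obtain ⟨A⟩ := Crest.Agent.R240.Ch.exists_FA (E := 𝔼) (M := M)
  have hL : ∀ i, LocallyLipschitz (A.χ i) := fun i =>
    LLo.loc (LLo.of_contMDiffAt (n := 4) fun z _ => ((A.χ_smooth i).contMDiffAt).of_le (by simp))
  have hK : ∀ i, IsCompact (tsupport (A.χ i)) := fun i => (isClosed_tsupport _).isCompact
  choose C hC using fun i => sob_chart (A.c i) (hK i) (fun x hx => (A.χ_supp i hx).1)
  choose L hL0 hLb using fun i => exists_bound_Gr (n := 4) (hL i)
    (hK i : HasCompactSupport (A.χ i))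
  set B : ℝ≥0 := ∑ i, C i * (1 + (L i).toNNReal) with hB
  refine ⟨B, fun f hf => ?_⟩
  have hm : ∀ i, AEStronglyMeasurable (fun x => A.χ i x * f x) (μHE[4] : Measure M) := fun i =>
    ((hL i).continuous.mul hf.continuous).aestronglyMeasurable
  have hGm : AEStronglyMeasurable (Gr (n := 4) f) (μHE[4] : Measure M) :=
    (measurable_Gr f).aestronglyMeasurable
  have h0 : f = ∑ i, fun x => A.χ i x * f x := by
    funext x
    rw [Finset.sum_apply, ← Finset.sum_mul, A.χ_sum, one_mul]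
  have h1 : eLpNorm f 4 (μHE[4] : Measure M) ≤
      ∑ i, eLpNorm (fun x => A.χ i x * f x) 4 (μHE[4] : Measure M) := by
    conv_lhs => rw [h0]
    exact eLpNorm_sum_le (fun i _ => hm i) (by norm_num)
  have h2 : ∀ i, eLpNorm (Gr (n := 4) (fun x => A.χ i x * f x)) 2 (μHE[4] : Measure M) ≤
      (1 + (L i).toNNReal : ℝ≥0) * (eLpNorm (Gr (n := 4) f) 2 (μHE[4] : Measure M) +
        eLpNorm f 2 (μHE[4] : Measure M)) := by
    intro i
    have e1 : eLpNorm (Gr (n := 4) (fun x => A.χ i x * f x)) 2 (μHE[4] : Measure M) ≤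
        eLpNorm ((fun x => ‖Gr (n := 4) f x‖) + fun x => (L i) * ‖f x‖) 2 (μHE[4] : Measure M) := by
      refine eLpNorm_mono_ae_real ?_
      filter_upwards [ae_mdifferentiableAt (n := 4) (hL i), ae_mdifferentiableAt (n := 4) hf]
        with z d1 d2
      rw [Gr_mul d1 d2, Pi.add_apply]
      refine (norm_add_le _ _).trans (add_le_add ?_ ?_)
      · rw [norm_smul]
        have : ‖A.χ i z‖ ≤ 1 := by
          rw [Real.norm_of_nonneg (A.χ_nonneg i z)]; exact A.χ_le i z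
        exact mul_le_of_le_one_left (norm_nonneg _) this
      · rw [norm_smul, mul_comm]
        exact mul_le_mul_of_nonneg_right (hLb i z) (norm_nonneg _)
    have hLm : AEStronglyMeasurable (fun x => (L i) * ‖f x‖) (μHE[4] : Measure M) :=
      (continuous_const.mul hf.continuous.norm).aestronglyMeasurable
    refine e1.trans ((eLpNorm_add_le hGm.norm hLm (by norm_num)).trans ?_)
    have e2 : eLpNorm (fun x => (L i) * ‖f x‖) 2 (μHE[4] : Measure M) =
        (L i).toNNReal * eLpNorm f 2 (μHE[4] : Measure M) := by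
      have e3 : (fun x => (L i) * ‖f x‖) = (L i) • fun x => ‖f x‖ := rfl
      rw [e3, eLpNorm_const_smul, eLpNorm_norm]
      congr 1
      rw [Real.enorm_eq_ofReal (hL0 i)]
      rfl
    rw [e2, eLpNorm_norm]
    push_cast
    rw [add_mul, one_mul, mul_add]
    calc eLpNorm (Gr (n := 4) f) 2 (μHE[4] : Measure M) +
          ((L i).toNNReal : ℝ≥0∞) * eLpNorm f 2 (μHE[4] : Measure M)
        ≤ (eLpNorm (Gr (n := 4) f) 2 (μHE[4] : Measure M) + eLpNorm f 2 (μHE[4] : Measure M)) +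
          (((L i).toNNReal : ℝ≥0∞) * eLpNorm (Gr (n := 4) f) 2 (μHE[4] : Measure M) +
          ((L i).toNNReal : ℝ≥0∞) * eLpNorm f 2 (μHE[4] : Measure M)) :=
        add_le_add le_self_add le_add_self
      _ = _ := rfl
  have h3 : ∀ i, eLpNorm (fun x => A.χ i x * f x) 4 (μHE[4] : Measure M) ≤
      ((C i * (1 + (L i).toNNReal) : ℝ≥0) : ℝ≥0∞) *
        (eLpNorm (Gr (n := 4) f) 2 (μHE[4] : Measure M) + eLpNorm f 2 (μHE[4] : Measure M)) := by
    intro i
    refine (hC i _ (GradS.locLip_mul (hL i) hf) tsupport_mul_subset_left).trans ?_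
    rw [ENNReal.coe_mul, mul_assoc]
    exact mul_le_mul_right (h2 i) _
  refine (h1.trans (Finset.sum_le_sum fun i _ => h3 i)).trans ?_
  rw [← Finset.sum_mul, hB]
  push_cast
  exact le_rfl

variable [IsFiniteMeasureOnCompacts (μHE[4] : Measure M)]

/-- **Sobolev embedding.** -/
theorem sob4 : ∃ C : ℝ, 0 ≤ C ∧ ∀ u : Lp ℝ 2 (μHE[4] : Measure M), u ∈ (gradS 4 M).V →
    MemLp (u : M → ℝ) 4 (μHE[4] : Measure M) ∧
      (eLpNorm (u : M → ℝ) 4 (μHE[4] : Measure M)).toReal ≤ C * (‖(gradS 4 M).D u‖ + ‖u‖) := by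
  obtain ⟨C, hC⟩ := sob_test (M := M)
  refine ⟨C, C.2, fun u hu => ?_⟩
  obtain ⟨f, hf, h1, h2, h3, -⟩ := (gradS 4 M).exists_seq_ae hu
  have e1 : ∀ k, eLpNorm (f k) 2 (μHE[4] : Measure M) =
      ENNReal.ofReal ‖(GradS.tL (hf k) : Lp ℝ 2 (μHE[4] : Measure M))‖ := by
    intro k
    rw [Lp.norm_def, ENNReal.ofReal_toReal (Lp.eLpNorm_lt_top _).ne]
    exact eLpNorm_congr_ae (GradS.coe_tL (hf k)).symm
  have e2 : ∀ k, eLpNorm (Gr (n := 4) (f k)) 2 (μHE[4] : Measure M) =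
      ENNReal.ofReal ‖(gradS 4 M).D (GradS.tL (hf k))‖ := by
    intro k
    rw [Lp.norm_def, ENNReal.ofReal_toReal (Lp.eLpNorm_lt_top _).ne]
    exact eLpNorm_congr_ae ((gradS 4 M).D_tL (hf k)).symm
  have h4 : eLpNorm (u : M → ℝ) 4 (μHE[4] : Measure M) ≤
      C * ENNReal.ofReal (‖(gradS 4 M).D u‖ + ‖u‖) := by
    have h5 : eLpNorm (u : M → ℝ) 4 (μHE[4] : Measure M) ≤
        atTop.liminf fun k => eLpNorm (f k) 4 (μHE[4] : Measure M) :=
      Lp.eLpNorm_lim_le_liminf_eLpNorm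
        (fun k => (hf k).1.continuous.aestronglyMeasurable) _ h3
    refine h5.trans ?_
    have h6 : Tendsto (fun k => (C : ℝ≥0∞) * ENNReal.ofReal
        (‖(gradS 4 M).D (GradS.tL (hf k))‖ + ‖(GradS.tL (hf k) : Lp ℝ 2 (μHE[4] : Measure M))‖))
        atTop (𝓝 (C * ENNReal.ofReal (‖(gradS 4 M).D u‖ + ‖u‖))) :=
      ENNReal.Tendsto.const_mul (ENNReal.tendsto_ofReal (h2.norm.add h1.norm))
        (Or.inr ENNReal.coe_ne_top)
    rw [← h6.liminf_eq]
    refine liminf_le_liminf (Eventually.of_forall fun k => ?_)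
    refine (hC (f k) (hf k).1).trans (le_of_eq ?_)
    rw [e1, e2, ENNReal.ofReal_add (norm_nonneg _) (norm_nonneg _)]
  have h7 : (C : ℝ≥0∞) * ENNReal.ofReal (‖(gradS 4 M).D u‖ + ‖u‖) ≠ ⊤ :=
    ENNReal.mul_ne_top ENNReal.coe_ne_top ENNReal.ofReal_ne_top
  refine ⟨⟨(Lp.aestronglyMeasurable u), h4.trans_lt h7.lt_top⟩, ?_⟩
  refine (ENNReal.toReal_mono h7 h4).trans (le_of_eq ?_)
  rw [ENNReal.toReal_mul, ENNReal.coe_toReal, ENNReal.toReal_ofReal (by positivity)]

open Crest.Agent.R249.Tv57 Crest.Agent.R235.CptC_755 in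
/-- **Sobolev embedding for sections**: the hypothesis `Cpt_755.Emb4 A.i1`. -/
theorem emb4 {κ : Type} [Fintype κ] (A : AD (gradS 4 M) κ) :
    ∃ C : ℝ, 0 ≤ C ∧ ∀ (w : A.WE) (a : κ), MemLp ((A.i1 w) a : M → ℝ) 4 (μHE[4] : Measure M) ∧
      N4 (μHE[4] : Measure M) ((A.i1 w) a) ≤ C * ‖w‖ := by
  obtain ⟨C, hC0, hC⟩ := sob4 (M := M)
  refine ⟨2 * C, by positivity, fun w a => ?_⟩
  have h1 := w.2.1 a
  obtain ⟨hV, hD⟩ := (gradS 4 M).mem_graphC.1 h1
  have e : (A.i1 w) a = (w : A.Amb).fst a := rfl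
  rw [e]
  obtain ⟨h2, h3⟩ := hC _ hV
  refine ⟨h2, h3.trans ?_⟩
  rw [hD]
  have hw : ‖w‖ ^ 2 = ‖(w : A.Amb).fst‖ ^ 2 + ‖(w : A.Amb).snd‖ ^ 2 := A.norm_sq_eq (w : A.Amb)
  have n1 : ‖(w : A.Amb).fst a‖ ≤ ‖w‖ := by
    refine (PiLp.norm_apply_le (w : A.Amb).fst a).trans
      (abs_le_of_sq_le_sq' ?_ (norm_nonneg _)).2
    nlinarith [sq_nonneg ‖(w : A.Amb).snd‖]
  have n2 : ‖(w : A.Amb).snd a‖ ≤ ‖w‖ := by
    refine (PiLp.norm_apply_le (w : A.Amb).snd a).trans
      (abs_le_of_sq_le_sq' ?_ (norm_nonneg _)).2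
    nlinarith [sq_nonneg ‖(w : A.Amb).fst‖]
  calc C * (‖(w : A.Amb).snd a‖ + ‖(w : A.Amb).fst a‖) ≤ C * (‖w‖ + ‖w‖) := by gcongr
    _ = 2 * C * ‖w‖ := by ring


open Crest.Agent.R249.Tv57 in
theorem emb4_Dat {κ : Type} [Fintype κ] (D : Dat 4 M κ) :
    Crest.Agent.R235.Cpt_755.Emb4 D.toAD.i1 := emb4 D.toAD

end

end Crest.Agent.R235.Sob4_984
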