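import Crest.Agent.R235.GlobDefs_370

/-!
Row 235 (S0364), ADJ-E1 (helper83), common part: the current of a `JCurve` computed in ONE
holomorphic parametrisation `φ : O → N` of all of `N` but countably many points (`cur_eq`).
Also: `dmap` in a fixed chart, chain rules for `dmap` and `pb`, continuity of `pb`.
-/

set_option autoImplicit false
set_option maxSynthPendingDepth 3

open Set Function Filter MeasureTheory Metric
open scoped Manifold ContDiff Topology

universe u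

namespace Crest.Agent.R235.AdjGen_83

open Crest.Agent.R240 Crest.Agent.R240.Ch Crest.Agent.R235.Glob_370

noncomputable section

section Dmap

variable {M : Type u} [TopologicalSpace M] [ChartedSpace E4 M]
variable {V V' : Type} [NormedAddCommGroup V] [NormedSpace ℝ V]
  [NormedAddCommGroup V'] [NormedSpace ℝ V']

theorem dmap_add (u : V → M) (z v w : V) : dmap u z (v + w) = dmap u z v + dmap u z w :=
  map_add _ v w

theorem dmap_smul (u : V → M) (z : V) (t : ℝ) (v : V) : dmap u z (t • v) = t • dmap u z v :=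
  map_smul _ t v

theorem dmap_zero (u : V → M) (z : V) : dmap u z 0 = 0 := map_zero _

/-- `dmap` is local. -/
theorem dmap_congr {u u' : V → M} {z : V} (h : u =ᶠ[𝓝 z] u') (v : V) :
    dmap u z v = dmap u' z v := by
  unfold dmap
  rw [h.eq_of_nhds]
  have h1 : (fun y => chartAt E4 (u' z) (u y)) =ᶠ[𝓝 z] fun y => chartAt E4 (u' z) (u' y) :=
    h.mono fun y hy => by simp only [hy]
  rw [h1.fderiv_eq]

variable [IsManifold 𝓘(ℝ, E4) ∞ M]

/-- smoothness in a chart -/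
theorem contDiffAt_chart {u : V → M} {z : V} (hu : ContMDiffAt 𝓘(ℝ, V) 𝓘(ℝ, E4) ∞ u z) {p : M}
    (hp : u z ∈ (chartAt E4 p).source) :
    ContDiffAt ℝ ∞ (fun y => chartAt E4 p (u y)) z := by
  have hc : ContMDiffAt 𝓘(ℝ, E4) 𝓘(ℝ, E4) ∞ (chartAt E4 p) (u z) :=
    (contMDiffOn_chart (I := 𝓘(ℝ, E4)) (x := p)).contMDiffAt
      ((chartAt E4 p).open_source.mem_nhds hp)
  exact (hc.comp z hu).contDiffAt

theorem diffAt_chart {u : V → M} {z : V} (hu : ContMDiffAt 𝓘(ℝ, V) 𝓘(ℝ, E4) ∞ u z) {p : M}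
    (hp : u z ∈ (chartAt E4 p).source) :
    DifferentiableAt ℝ (fun y => chartAt E4 p (u y)) z :=
  (contDiffAt_chart hu hp).differentiableAt (by simp)

/-- the differential in a fixed chart -/
theorem tcc_dmap {u : V → M} {z : V} (hu : ContMDiffAt 𝓘(ℝ, V) 𝓘(ℝ, E4) ∞ u z) {p : M}
    (hp : u z ∈ (chartAt E4 p).source) (v : V) :
    tcc (u z) p (u z) (dmap u z v) = fderiv ℝ (fun y => chartAt E4 p (u y)) z v := by
  have h1 := (diffAt_chart hu (mem_chart_source E4 (u z))).hasFDerivAt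
  have hy : chartAt E4 (u z) (u z) ∈ (chartAt E4 (u z)).target := mem_chart_target E4 (u z)
  have hq : (chartAt E4 (u z)).symm (chartAt E4 (u z) (u z)) ∈ (chartAt E4 p).source := by
    rw [(chartAt E4 (u z)).left_inv (mem_chart_source E4 (u z))]; exact hp
  have h2 : HasFDerivAt (trans (E := E4) (u z) p)
      (fderiv ℝ (trans (E := E4) (u z) p) (chartAt E4 (u z) (u z))) (chartAt E4 (u z) (u z)) :=
    ((trans_contDiffAt hy hq).differentiableAt (by simp)).hasFDerivAt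
  have h3 := h2.comp z h1
  have h4 : (fun y => chartAt E4 p (u y)) =ᶠ[𝓝 z]
      (trans (E := E4) (u z) p ∘ fun y => chartAt E4 (u z) (u y)) := by
    filter_upwards [hu.continuousAt.preimage_mem_nhds
      ((chartAt E4 (u z)).open_source.mem_nhds (mem_chart_source E4 (u z)))] with y hy
    exact (trans_apply hy).symm
  rw [h4.fderiv_eq, h3.fderiv, tcc_eq_fderiv_trans]
  rfl

/-- chain rule -/
theorem dmap_comp {u : V → M} {m : V' → V} {m' : V' →L[ℝ] V} {w : V'} (hm : HasFDerivAt m m' w)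
    (hu : ContMDiffAt 𝓘(ℝ, V) 𝓘(ℝ, E4) ∞ u (m w)) (v : V') :
    dmap (fun y => u (m y)) w v = dmap u (m w) (m' v) := by
  have h1 := (diffAt_chart hu (mem_chart_source E4 (u (m w)))).hasFDerivAt
  have h2 := h1.comp w hm
  exact DFunLike.congr_fun h2.fderiv v

end Dmap

section Pb

variable {M : Type u} [TopologicalSpace M] [ChartedSpace E4 M] [IsManifold 𝓘(ℝ, E4) ∞ M]

omit [IsManifold 𝓘(ℝ, E4) ∞ M] in
theorem pb_congr {u u' : ℂ → M} {z : ℂ} (h : u =ᶠ[𝓝 z] u') (b : F2 E4 M) :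
    pb u b z = pb u' b z := by
  unfold pb
  rw [dmap_congr h, dmap_congr h, h.eq_of_nhds]

omit [IsManifold 𝓘(ℝ, E4) ∞ M] in
/-- an alternating bilinear form on the image of a complex line -/
theorem alt_mul {B : E4 →L[ℝ] E4 →L[ℝ] ℝ} (hB : ∀ v, B v v = 0) (L : ℂ → E4)
    (hadd : ∀ v w, L (v + w) = L v + L w) (hsm : ∀ (t : ℝ) v, L (t • v) = t • L v) (c : ℂ) :
    B (L c) (L (c * Complex.I)) = ‖c‖ ^ 2 * B (L 1) (L Complex.I) := by
  have h1 : c = c.re • (1 : ℂ) + c.im • Complex.I := by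
    apply Complex.ext <;> simp
  have h2 : c * Complex.I = (-c.im) • (1 : ℂ) + c.re • Complex.I := by
    apply Complex.ext <;> simp
  have h3 : L c = c.re • L 1 + c.im • L Complex.I := by
    conv_lhs => rw [h1]
    rw [hadd, hsm, hsm]
  have h4 : L (c * Complex.I) = (-c.im) • L 1 + c.re • L Complex.I := by
    rw [h2, hadd, hsm, hsm]
  have hanti : B (L Complex.I) (L 1) = - B (L 1) (L Complex.I) := by
    have := hB (L 1 + L Complex.I)
    simp only [map_add, add_apply, hB] at this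
    linarith
  have h5 : ‖c‖ ^ 2 = c.re ^ 2 + c.im ^ 2 := by
    rw [Complex.sq_norm, Complex.normSq_apply]; ring
  rw [h3, h4, h5]
  simp only [map_add, map_smul, add_apply, smul_apply, smul_eq_mul, hB, hanti]
  ring

/-- chain rule for the pull-back density -/
theorem pb_comp {b : F2 E4 M} (hb : ∀ x v, at2 b x v v = 0) {u : ℂ → M} {m : ℂ → ℂ} {c w : ℂ}
    (hm : HasDerivAt m c w) (hu : ContMDiffAt 𝓘(ℝ, ℂ) 𝓘(ℝ, E4) ∞ u (m w)) :
    pb (fun y => u (m y)) b w = ‖c‖ ^ 2 * pb u b (m w) := by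
  have h1 : HasFDerivAt m (((1 : ℂ →L[ℂ] ℂ).smulRight c).restrictScalars ℝ) w :=
    hm.hasFDerivAt.restrictScalars ℝ
  unfold pb
  rw [dmap_comp h1 hu, dmap_comp h1 hu]
  have h2 : (((1 : ℂ →L[ℂ] ℂ).smulRight c).restrictScalars ℝ : ℂ →L[ℝ] ℂ) 1 = c := by simp
  have h3 : (((1 : ℂ →L[ℂ] ℂ).smulRight c).restrictScalars ℝ : ℂ →L[ℝ] ℂ) Complex.I
      = c * Complex.I := by simp [mul_comm]
  rw [h2, h3]
  exact alt_mul (hb _) (dmap u (m w)) (dmap_add u _) (dmap_smul u _) c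

/-- `pb` in a fixed chart -/
theorem pb_chart {u : ℂ → M} {z : ℂ} (hu : ContMDiffAt 𝓘(ℝ, ℂ) 𝓘(ℝ, E4) ∞ u z) {p : M}
    (hp : u z ∈ (chartAt E4 p).source) (b : F2 E4 M) :
    pb u b z = rep p b (chartAt E4 p (u z)) (fderiv ℝ (fun y => chartAt E4 p (u y)) z 1)
      (fderiv ℝ (fun y => chartAt E4 p (u y)) z Complex.I) := by
  unfold pb
  rw [apply_eq_rep hp, tcc_dmap hu hp, tcc_dmap hu hp]

/-- continuity of `pb` -/
theorem pb_continuousAt {u : ℂ → M} {z : ℂ}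
    (hu : ∀ᶠ y in 𝓝 z, ContMDiffAt 𝓘(ℝ, ℂ) 𝓘(ℝ, E4) ∞ u y)
    {b : F2 E4 M} (hb : Smooth2 b) : ContinuousAt (pb u b) z := by
  have hz := hu.self_of_nhds
  have hs := mem_chart_source E4 (u z)
  have hc := contDiffAt_chart hz hs
  have h1 : pb u b =ᶠ[𝓝 z] fun y => rep (u z) b (chartAt E4 (u z) (u y))
      (fderiv ℝ (fun y => chartAt E4 (u z) (u y)) y 1)
      (fderiv ℝ (fun y => chartAt E4 (u z) (u y)) y Complex.I) := by
    filter_upwards [hu, hz.continuousAt.preimage_mem_nhds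
      ((chartAt E4 (u z)).open_source.mem_nhds hs)] with y hy hy2
    exact pb_chart hy hy2 b
  refine ContinuousAt.congr_of_eventuallyEq ?_ h1
  have h2 : ContinuousAt (fun y => chartAt E4 (u z) (u y)) z := hc.continuousAt
  have h3 : ContinuousAt (rep (u z) b) (chartAt E4 (u z) (u z)) :=
    (hb.2 (u z)).continuousOn.continuousAt
      ((chartAt E4 (u z)).open_target.mem_nhds (mem_chart_target E4 (u z)))
  have h4 : ContinuousAt (fun y => rep (u z) b (chartAt E4 (u z) (u y))) z :=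
    ContinuousAt.comp (f := fun y => chartAt E4 (u z) (u y)) h3 h2
  have h5 : ContinuousAt (fderiv ℝ (fun y => chartAt E4 (u z) (u y))) z :=
    (hc.fderiv_right (m := 0) (by simp)).continuousAt
  have h6 : ContinuousAt (fun y => fderiv ℝ (fun y => chartAt E4 (u z) (u y)) y 1) z :=
    h5.clm_apply continuousAt_const
  have h7 : ContinuousAt (fun y => fderiv ℝ (fun y => chartAt E4 (u z) (u y)) y Complex.I) z :=
    h5.clm_apply continuousAt_const
  exact (h4.clm_apply h6).clm_apply h7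

theorem pb_continuousOn {u : ℂ → M} {O : Set ℂ} (hO : IsOpen O)
    (hu : ContMDiffOn 𝓘(ℝ, ℂ) 𝓘(ℝ, E4) ∞ u O) {b : F2 E4 M} (hb : Smooth2 b) :
    ContinuousOn (pb u b) O := by
  intro z hz
  refine (pb_continuousAt ?_ hb).continuousWithinAt
  filter_upwards [hO.mem_nhds hz] with y hy using hu.contMDiffAt (hO.mem_nhds hy)

end Pb

section Inv

variable {M : Type u} [TopologicalSpace M] [ChartedSpace E4 M] [IsManifold 𝓘(ℝ, E4) ∞ M]
variable {J : EndF E4 M} (c : JCurve J)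

/-- the inverse of a parametrisation -/
def inv (p : M) (j : Fin (c.L p).n) (x : c.N) : ℂ := invFunOn (c.φ p j) (ball (0 : ℂ) 1) x

theorem inv_mem {p : M} {j : Fin (c.L p).n} {x : c.N} (hx : x ∈ c.φ p j '' ball (0 : ℂ) 1) :
    inv c p j x ∈ ball (0 : ℂ) 1 := invFunOn_mem hx

theorem φ_inv {p : M} {j : Fin (c.L p).n} {x : c.N} (hx : x ∈ c.φ p j '' ball (0 : ℂ) 1) :
    c.φ p j (inv c p j x) = x := invFunOn_eq hx

theorem inv_φ {p : M} {j : Fin (c.L p).n} {z : ℂ} (hz : z ∈ ball (0 : ℂ) 1) :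
    inv c p j (c.φ p j z) = z :=
  c.φ_inj p j (inv_mem c ⟨z, hz, rfl⟩) hz (φ_inv c ⟨z, hz, rfl⟩)

theorem isOpen_im (p : M) (j : Fin (c.L p).n) : IsOpen (c.φ p j '' ball (0 : ℂ) 1) :=
  c.φ_open p j _ isOpen_ball Subset.rfl

theorem inv_cont {p : M} {j : Fin (c.L p).n} {x : c.N} (hx : x ∈ c.φ p j '' ball (0 : ℂ) 1) :
    ContinuousAt (inv c p j) x := by
  rw [continuousAt_def]
  intro V hV
  obtain ⟨V', hV'V, hV'o, hV'm⟩ := _root_.mem_nhds_iff.1 hV
  have h1 : IsOpen (c.φ p j '' (V' ∩ ball (0 : ℂ) 1)) :=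
    c.φ_open p j _ (hV'o.inter isOpen_ball) inter_subset_right
  have h2 : x ∈ c.φ p j '' (V' ∩ ball (0 : ℂ) 1) := ⟨_, ⟨hV'm, inv_mem c hx⟩, φ_inv c hx⟩
  filter_upwards [h1.mem_nhds h2]
  rintro _ ⟨z, hz, rfl⟩
  rw [mem_preimage, inv_φ c hz.2]
  exact hV'V hz.1

theorem isOpen_dom (p : M) (j : Fin (c.L p).n) (i : c.A.ι) :
    IsOpen {z | z ∈ ball (0 : ℂ) 1 ∧ c.φ p j z ∈ (c.A.c i).source} :=
  (c.φ_cont p j).isOpen_inter_preimage isOpen_ball (c.A.c i).open_source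

theorem inv_deriv {p : M} {j : Fin (c.L p).n} {x : c.N} (hx : x ∈ c.φ p j '' ball (0 : ℂ) 1)
    {i : c.A.ι} (hi : x ∈ (c.A.c i).source) :
    HasDerivAt (fun ζ => inv c p j ((c.A.c i).symm ζ))
      (deriv (fun z => c.A.c i (c.φ p j z)) (inv c p j x))⁻¹ (c.A.c i x) := by
  have hxt : c.A.c i x ∈ (c.A.c i).target := (c.A.c i).map_source hi
  have hsx : (c.A.c i).symm (c.A.c i x) = x := (c.A.c i).left_inv hi
  have hmem : inv c p j x ∈ {z | z ∈ ball (0 : ℂ) 1 ∧ c.φ p j z ∈ (c.A.c i).source} :=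
    ⟨inv_mem c hx, by rw [φ_inv c hx]; exact hi⟩
  refine HasDerivAt.of_local_left_inverse (f := fun z => c.A.c i (c.φ p j z)) ?_ ?_ ?_ ?_
  · refine ContinuousAt.comp (g := inv c p j) ?_ ((c.A.c i).continuousAt_symm hxt)
    rw [hsx]; exact inv_cont c hx
  · rw [hsx]
    exact ((c.φ_hol p j i).differentiableAt ((isOpen_dom c p j i).mem_nhds hmem)).hasDerivAt
  · exact c.φ_imm p j i _ hmem.1 hmem.2
  · have h1 : (c.A.c i).symm ⁻¹' (c.φ p j '' ball (0 : ℂ) 1) ∈ 𝓝 (c.A.c i x) := by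
      refine ((c.A.c i).continuousAt_symm hxt).preimage_mem_nhds ?_
      rw [hsx]; exact (isOpen_im c p j).mem_nhds hx
    filter_upwards [h1, (c.A.c i).open_target.mem_nhds hxt] with ζ h2 h3
    show c.A.c i (c.φ p j (inv c p j ((c.A.c i).symm ζ))) = ζ
    rw [φ_inv c h2, (c.A.c i).right_inv h3]

variable {O : Set ℂ} {φ : ℂ → c.N}

/-- the transition map has a complex derivative. -/
theorem m_deriv (hO : IsOpen O) (hφ : ContinuousOn φ O)
    (hol : ∀ i, DifferentiableOn ℂ (fun z => c.A.c i (φ z)) {z | z ∈ O ∧ φ z ∈ (c.A.c i).source})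
    {p : M} {j : Fin (c.L p).n} {w : ℂ} (hw : w ∈ O) (hx : φ w ∈ c.φ p j '' ball (0 : ℂ) 1) :
    DifferentiableAt ℂ (fun w => inv c p j (φ w)) w := by
  obtain ⟨i, hi⟩ := c.A.cover (φ w)
  have hop : IsOpen {z | z ∈ O ∧ φ z ∈ (c.A.c i).source} :=
    hφ.isOpen_inter_preimage hO (c.A.c i).open_source
  have h1 : DifferentiableAt ℂ (fun z => c.A.c i (φ z)) w :=
    (hol i).differentiableAt (hop.mem_nhds ⟨hw, hi⟩)
  have h2 := (inv_deriv c hx hi).differentiableAt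
  have h3 := DifferentiableAt.comp w (f := fun z => c.A.c i (φ z)) h2 h1
  refine h3.congr_of_eventuallyEq ?_
  filter_upwards [hop.mem_nhds ⟨hw, hi⟩] with z hz
  show inv c p j (φ z) = inv c p j ((c.A.c i).symm (c.A.c i (φ z)))
  rw [(c.A.c i).left_inv hz.2]

/-- `f ∘ φ` is smooth. -/
theorem smooth_fφ (hO : IsOpen O) (hφ : ContinuousOn φ O)
    (hol : ∀ i, DifferentiableOn ℂ (fun z => c.A.c i (φ z)) {z | z ∈ O ∧ φ z ∈ (c.A.c i).source})
    {w : ℂ} (hw : w ∈ O) :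
    ContMDiffAt 𝓘(ℝ, ℂ) 𝓘(ℝ, E4) ∞ (fun z => c.f (φ z)) w := by
  obtain ⟨i, hi⟩ := c.A.cover (φ w)
  have hop : IsOpen {z | z ∈ O ∧ φ z ∈ (c.A.c i).source} :=
    hφ.isOpen_inter_preimage hO (c.A.c i).open_source
  have h1 : ContDiffAt ℝ ∞ (fun z => c.A.c i (φ z)) w := by
    have h2 : AnalyticAt ℂ (fun z => c.A.c i (φ z)) w :=
      (hol i).analyticAt (hop.mem_nhds ⟨hw, hi⟩)
    exact h2.restrictScalars.contDiffAt
  have h2 : ContMDiffAt 𝓘(ℝ, ℂ) 𝓘(ℝ, E4) ∞ (fun z => c.f ((c.A.c i).symm z)) (c.A.c i (φ w)) :=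
    (c.hol i).smooth.contMDiffAt ((c.A.c i).open_target.mem_nhds ((c.A.c i).map_source hi))
  have h3 := ContMDiffAt.comp w (f := fun z => c.A.c i (φ z)) h2 h1.contMDiffAt
  refine h3.congr_of_eventuallyEq ?_
  filter_upwards [hop.mem_nhds ⟨hw, hi⟩] with z hz
  show c.f (φ z) = c.f ((c.A.c i).symm (c.A.c i (φ z)))
  rw [(c.A.c i).left_inv hz.2]

end Inv

/-- multiplication by `c` as a real linear map has determinant `‖c‖²` -/
theorem det_smulRight (c : ℂ) :
    (((1 : ℂ →L[ℂ] ℂ).smulRight c).restrictScalars ℝ : ℂ →L[ℝ] ℂ).det = ‖c‖ ^ 2 := by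
  have h1 : ((((1 : ℂ →L[ℂ] ℂ).smulRight c).restrictScalars ℝ : ℂ →L[ℝ] ℂ) : ℂ →ₗ[ℝ] ℂ)
      = Algebra.lmul ℝ ℂ c := by
    ext x; simp [mul_comm]
  rw [ContinuousLinearMap.det, h1, ← Algebra.norm_apply, Algebra.norm_complex_apply,
    Complex.normSq_eq_norm_sq]

section Cur

variable {M : Type u} [TopologicalSpace M] [ChartedSpace E4 M] [IsManifold 𝓘(ℝ, E4) ∞ M]
variable {J : EndF E4 M} (c : JCurve J) {O D : Set ℂ} {φ : ℂ → c.N}

/-- the part of `D` in the disc `j` -/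
def Dj (D : Set ℂ) (φ : ℂ → c.N) (p : M) (j : Fin (c.L p).n) : Set ℂ :=
  {w | w ∈ D ∧ φ w ∈ c.φ p j '' ball (0 : ℂ) 1}

theorem measurableSet_Dj (hO : IsOpen O) (hφ : ContinuousOn φ O) (hDO : D ⊆ O)
    (hD : MeasurableSet D) (p : M) (j : Fin (c.L p).n) : MeasurableSet (Dj c D φ p j) := by
  have h1 : Dj c D φ p j = D ∩ (O ∩ φ ⁻¹' (c.φ p j '' ball (0 : ℂ) 1)) := by
    ext w
    exact ⟨fun h => ⟨h.1, hDO h.1, h.2⟩, fun h => ⟨h.1, h.2.2⟩⟩
  rw [h1]
  exact hD.inter (hφ.isOpen_inter_preimage hO (isOpen_im c p j)).measurableSet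

/-- change of variables for one disc. -/
theorem disc_eq (hO : IsOpen O) (hφ : ContinuousOn φ O)
    (hol : ∀ i, DifferentiableOn ℂ (fun z => c.A.c i (φ z)) {z | z ∈ O ∧ φ z ∈ (c.A.c i).source})
    (hDO : D ⊆ O) (hD : MeasurableSet D) (hinj : InjOn φ D) (hcov : ((φ '' D)ᶜ).Countable)
    {b : F2 E4 M} (hb : ∀ x v, at2 b x v v = 0) (p : M) (j : Fin (c.L p).n)
    (hint : IntegrableOn (pb ((c.L p).u j) b) (ball (0 : ℂ) 1)) :
    IntegrableOn (pb (fun z => c.f (φ z)) b) (Dj c D φ p j) ∧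
      ∫ z in Dj c D φ p j, pb (fun z => c.f (φ z)) b z =
        ∫ z in ball (0 : ℂ) 1, pb ((c.L p).u j) b z := by
  have hmeas := measurableSet_Dj c hO hφ hDO hD p j
  set m : ℂ → ℂ := fun w => inv c p j (φ w) with hm
  have hder : ∀ w ∈ Dj c D φ p j, HasDerivAt m (deriv m w) w := fun w hw =>
    (m_deriv c hO hφ hol (hDO hw.1) hw.2).hasDerivAt
  have hpb : ∀ w ∈ Dj c D φ p j, pb (fun z => c.f (φ z)) b w =
      |(((1 : ℂ →L[ℂ] ℂ).smulRight (deriv m w)).restrictScalars ℝ : ℂ →L[ℝ] ℂ).det| •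
        pb ((c.L p).u j) b (m w) := by
    intro w hw
    have hop : IsOpen (O ∩ φ ⁻¹' (c.φ p j '' ball (0 : ℂ) 1)) :=
      hφ.isOpen_inter_preimage hO (isOpen_im c p j)
    have h1 : (fun z => c.f (φ z)) =ᶠ[𝓝 w] fun z => (c.L p).u j (m z) := by
      filter_upwards [hop.mem_nhds ⟨hDO hw.1, hw.2⟩] with z hz
      rw [← c.φ_f p j (m z) (inv_mem c hz.2), hm]
      simp only
      rw [φ_inv c hz.2]
    have hmw : m w ∈ ball (0 : ℂ) 1 := inv_mem c hw.2
    rw [pb_congr h1, pb_comp hb (hder w hw)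
      (((c.L p).disc j).hol.smooth.contMDiffAt (isOpen_ball.mem_nhds hmw)), det_smulRight,
      abs_of_nonneg (by positivity), smul_eq_mul]
  have hfd : ∀ w ∈ Dj c D φ p j, HasFDerivWithinAt m
      (((1 : ℂ →L[ℂ] ℂ).smulRight (deriv m w)).restrictScalars ℝ) (Dj c D φ p j) w :=
    fun w hw => ((hder w hw).hasFDerivAt.restrictScalars ℝ).hasFDerivWithinAt
  have hminj : InjOn m (Dj c D φ p j) := by
    intro w hw w' hw' h
    have h1 : φ w = φ w' := by
      rw [← φ_inv c hw.2, ← φ_inv c hw'.2]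
      exact congrArg (c.φ p j) h
    exact hinj hw.1 hw'.1 h1
  have hsub : m '' (Dj c D φ p j) ⊆ ball (0 : ℂ) 1 := by
    rintro _ ⟨w, hw, rfl⟩
    exact inv_mem c hw.2
  have hcount : (ball (0 : ℂ) 1 \ m '' (Dj c D φ p j)).Countable := by
    refine MapsTo.countable_of_injOn (f := c.φ p j) (t := (φ '' D)ᶜ) ?_
      ((c.φ_inj p j).mono sdiff_subset) hcov
    rintro z ⟨hz, hz2⟩ ⟨w, hw, hwz⟩
    refine hz2 ⟨w, ⟨hw, z, hz, hwz.symm⟩, ?_⟩
    show inv c p j (φ w) = z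
    rw [hwz, inv_φ c hz]
  have hae : (m '' (Dj c D φ p j) : Set ℂ) =ᵐ[volume] ball (0 : ℂ) 1 := by
    refine (ae_eq_of_subset_of_measure_ge ?_ ?_ ?_ ?_)
    · exact hsub
    · have h1 : ball (0 : ℂ) 1 ⊆ m '' (Dj c D φ p j) ∪ (ball (0 : ℂ) 1 \ m '' (Dj c D φ p j)) := by
        intro z hz
        by_cases h : z ∈ m '' (Dj c D φ p j)
        · exact Or.inl h
        · exact Or.inr ⟨hz, h⟩
      calc volume (ball (0 : ℂ) 1) ≤ volume (m '' (Dj c D φ p j) ∪
              (ball (0 : ℂ) 1 \ m '' (Dj c D φ p j))) := measure_mono h1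
        _ ≤ volume (m '' (Dj c D φ p j)) + volume (ball (0 : ℂ) 1 \ m '' (Dj c D φ p j)) :=
            measure_union_le _ _
        _ = volume (m '' (Dj c D φ p j)) := by rw [hcount.measure_zero, add_zero]
    · exact (measurable_image_of_fderivWithin hmeas hfd hminj).nullMeasurableSet
    · exact measure_ball_lt_top.ne
  constructor
  · have h1 : IntegrableOn (pb ((c.L p).u j) b) (m '' (Dj c D φ p j)) :=
      hint.mono_set hsub
    rw [integrableOn_image_iff_integrableOn_abs_det_fderiv_smul volume hmeas hfd hminj] at h1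
    exact h1.congr_fun (fun w hw => (hpb w hw).symm) hmeas
  · rw [← setIntegral_congr_set hae,
      integral_image_eq_integral_abs_det_fderiv_smul volume hmeas hfd hminj]
    exact setIntegral_congr_fun hmeas fun w hw => hpb w hw

/-- the density of a form with compact support in `U p` is integrable on the discs. -/
theorem integrableOn_disc (p : M) (j : Fin (c.L p).n) {b : F2 E4 M} (hb : Smooth2 b) {K : Set M}
    (hK : IsCompact K) (hKU : K ⊆ (c.L p).U) (hbK : ∀ x ∉ K, at2 b x = 0) :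
    IntegrableOn (pb ((c.L p).u j) b) (ball (0 : ℂ) 1) := by
  obtain ⟨r, hr1, hr⟩ := (c.L p).proper j K hK hKU
  have h1 : IntegrableOn (pb ((c.L p).u j) b) (closedBall (0 : ℂ) r) := by
    refine ContinuousOn.integrableOn_compact (isCompact_closedBall _ _) ?_
    exact (pb_continuousOn isOpen_ball ((c.L p).disc j).hol.smooth hb).mono
      (closedBall_subset_ball hr1)
  refine h1.of_forall_sdiff_eq_zero measurableSet_ball ?_
  rintro z ⟨hz, hz2⟩
  have h2 : (c.L p).u j z ∉ K := fun h => hz2 (mem_closedBall_zero_iff.2 (hr z hz h))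
  unfold pb
  rw [hbK _ h2]
  rfl

/-- the current on a form with compact support in `U p`. -/
theorem loc_eq (hO : IsOpen O) (hφ : ContinuousOn φ O)
    (hol : ∀ i, DifferentiableOn ℂ (fun z => c.A.c i (φ z)) {z | z ∈ O ∧ φ z ∈ (c.A.c i).source})
    (hDO : D ⊆ O) (hD : MeasurableSet D) (hinj : InjOn φ D) (hcov : ((φ '' D)ᶜ).Countable)
    (p : M) (b : X2 M) {K : Set M} (hK : IsCompact K) (hKU : K ⊆ (c.L p).U)
    (hbK : ∀ x ∉ K, at2 (b.1 : F2 E4 M) x = 0) :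
    IntegrableOn (pb (fun z => c.f (φ z)) b.1) D ∧
      c.T b = ∫ z in D, pb (fun z => c.f (φ z)) (b.1 : F2 E4 M) z := by
  have hbs : Smooth2 b.1 := b.2
  have h1 : ∀ j, IntegrableOn (pb (fun z => c.f (φ z)) (b.1 : F2 E4 M)) (Dj c D φ p j) ∧
      ∫ z in Dj c D φ p j, pb (fun z => c.f (φ z)) (b.1 : F2 E4 M) z =
        ∫ z in ball (0 : ℂ) 1, pb ((c.L p).u j) (b.1 : F2 E4 M) z := fun j =>
    disc_eq c hO hφ hol hDO hD hinj hcov hbs.1 p j (integrableOn_disc c p j hbs hK hKU hbK)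
  have hm : ∀ j, MeasurableSet (Dj c D φ p j) := measurableSet_Dj c hO hφ hDO hD p
  have hdisj : Pairwise (Disjoint on fun j => Dj c D φ p j) := by
    intro i j hij
    refine Set.disjoint_left.2 ?_
    rintro w ⟨_, z, hz, hzw⟩ ⟨_, z', hz', hzw'⟩
    exact c.φ_disj p i j hij z hz z' hz' (hzw.trans hzw'.symm)
  have hun : IntegrableOn (pb (fun z => c.f (φ z)) (b.1 : F2 E4 M)) (⋃ j, Dj c D φ p j) :=
    (integrableOn_finite_iUnion).2 fun j => (h1 j).1
  have hsub : (⋃ j, Dj c D φ p j) ⊆ D := iUnion_subset fun j w hw => hw.1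
  have hzero : ∀ w ∈ D \ ⋃ j, Dj c D φ p j, pb (fun z => c.f (φ z)) (b.1 : F2 E4 M) w = 0 := by
    rintro w ⟨hw, hw2⟩
    have h2 : c.f (φ w) ∉ K := by
      intro h
      obtain ⟨j, z, hz, hzw⟩ := c.φ_cover p (φ w) (hKU h)
      exact hw2 (mem_iUnion.2 ⟨j, hw, z, hz, hzw⟩)
    unfold pb
    rw [hbK _ h2]
    rfl
  refine ⟨hun.of_forall_sdiff_eq_zero hD hzero, ?_⟩
  rw [setIntegral_eq_of_subset_of_forall_sdiff_eq_zero hD hsub hzero,
    integral_iUnion_fintype hm hdisj (fun j => (h1 j).1), c.cur p b K hK hKU hbK]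
  exact Finset.sum_congr rfl fun j _ => (h1 j).2.symm


variable [T2Space M] [CompactSpace M]

/-- finite smooth partition of unity subordinate to the neighbourhoods `U p`. -/
theorem exists_pu (U : M → Set M) (hU : ∀ p, IsOpen (U p)) (hpU : ∀ p, p ∈ U p) :
    ∃ (t : Finset M) (χ : M → M → ℝ), (∀ p, SmoothF E4 (χ p)) ∧ (∀ x, ∑ p ∈ t, χ p x = 1) ∧
      ∀ p, tsupport (χ p) ⊆ U p := by
  obtain ⟨f, hf⟩ := SmoothPartitionOfUnity.exists_isSubordinate 𝓘(ℝ, E4) (s := (univ : Set M))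
    isClosed_univ U hU (fun x _ => mem_iUnion.2 ⟨x, hpU x⟩)
  have hfin : {i | (support (f i)).Nonempty}.Finite :=
    f.locallyFinite.finite_nonempty_of_compact
  refine ⟨hfin.toFinset, fun p x => f p x, fun p => (smoothF_iff _).1 (f p).contMDiff,
    fun x => ?_, fun p => hf p⟩
  have h1 := f.sum_eq_one (mem_univ x)
  rw [finsum_eq_sum_of_support_subset] at h1
  · exact h1
  · intro p hp
    rw [Set.Finite.coe_toFinset]
    exact ⟨x, hp⟩

/-- **the current of a `JCurve` in one holomorphic parametrisation of almost all of `N`.** -/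
theorem cur_eq (hO : IsOpen O) (hφ : ContinuousOn φ O)
    (hol : ∀ i, DifferentiableOn ℂ (fun z => c.A.c i (φ z)) {z | z ∈ O ∧ φ z ∈ (c.A.c i).source})
    (hDO : D ⊆ O) (hD : MeasurableSet D) (hinj : InjOn φ D) (hcov : ((φ '' D)ᶜ).Countable)
    (b : X2 M) :
    IntegrableOn (pb (fun z => c.f (φ z)) b.1) D ∧
      c.T b = ∫ z in D, pb (fun z => c.f (φ z)) (b.1 : F2 E4 M) z := by
  obtain ⟨t, χ, hχs, hχ1, hχU⟩ := exists_pu (fun p => (c.L p).U) (fun p => (c.L p).openU)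
    (fun p => (c.L p).mem)
  set bb : M → X2 M := fun p => ⟨fmul (χ p) b.1, Smooth2.fmul (hχs p) b.2⟩ with hbb
  have h1 : ∀ p, IntegrableOn (pb (fun z => c.f (φ z)) (bb p).1) D ∧
      c.T (bb p) = ∫ z in D, pb (fun z => c.f (φ z)) ((bb p).1 : F2 E4 M) z := by
    intro p
    refine loc_eq c hO hφ hol hDO hD hinj hcov p (bb p) (isClosed_tsupport (χ p)).isCompact
      (hχU p) ?_
    intro x hx
    have h2 : χ p x = 0 := image_eq_zero_of_notMem_tsupport hx
    show χ p x • at2 (b.1 : F2 E4 M) x = 0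
    rw [h2, zero_smul]
  have h2 : ∑ p ∈ t, bb p = b := by
    apply Subtype.ext
    rw [AddSubmonoidClass.coe_finsetSum]
    funext x
    rw [Finset.sum_apply]
    show ∑ p ∈ t, χ p x • (b.1 : F2 E4 M) x = b.1 x
    rw [← Finset.sum_smul, hχ1, one_smul]
  have h3 : ∀ z, pb (fun z => c.f (φ z)) (b.1 : F2 E4 M) z =
      ∑ p ∈ t, pb (fun z => c.f (φ z)) ((bb p).1 : F2 E4 M) z := by
    intro z
    have h4 : ∀ p, pb (fun z => c.f (φ z)) ((bb p).1 : F2 E4 M) z =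
      χ p (c.f (φ z)) * pb (fun z => c.f (φ z)) (b.1 : F2 E4 M) z := fun p => rfl
    simp only [h4]
    rw [← Finset.sum_mul, hχ1, one_mul]
  have h5 : pb (fun z => c.f (φ z)) (b.1 : F2 E4 M) =
      fun z => ∑ p ∈ t, pb (fun z => c.f (φ z)) ((bb p).1 : F2 E4 M) z := funext h3
  constructor
  · rw [h5]
    exact integrable_finsetSum t fun p _ => (h1 p).1
  · rw [h5, integral_finsetSum t fun p _ => (h1 p).1]
    conv_lhs => rw [← h2]
    rw [map_sum]
    exact Finset.sum_congr rfl fun p _ => (h1 p).2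

end Cur

end

end Crest.Agent.R235.AdjGen_83
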