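import Mathlib
import Crest.Agent.R096.BelA_205
import Crest.Agent.R143.DbarMor_63

-- ▼ part R235/CauchyV_679
section

/-!
Row 235, NW4: the Cauchy transform of Banach valued functions; `L³ → C⁰` bound, `∂̄ P u = u`.
-/

set_option autoImplicit false

noncomputable section

namespace Crest.Agent.R235.CauchyV_679

open Set Metric MeasureTheory Filter Topology
open scoped ContDiff NNReal Real
open Crest.Agent.R096.BelA_205 (norm_ker measurable_ker locallyIntegrable_ker P dzb Tst)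

local notation "kr" => Crest.Agent.R096.BelA_205.ker

variable {F : Type*} [NormedAddCommGroup F] [NormedSpace ℂ F]

/-- `∂̄ f` -/
def db (f : ℂ → F) (z : ℂ) : F := (2:ℂ)⁻¹ • (fderiv ℝ f z 1 + Complex.I • fderiv ℝ f z Complex.I)

/-- the Cauchy transform -/
def PV (u : ℂ → F) (z : ℂ) : F := ∫ ζ, kr ζ • u (z - ζ)

theorem PV_swap (u : ℂ → F) (z : ℂ) : PV u z = ∫ ζ, kr (z - ζ) • u ζ := by
  unfold PV
  rw [← integral_sub_left_eq_self (fun ζ => kr (z - ζ) • u ζ) volume z]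
  simp

/-! ### the kernel in `L^{3/2}` -/

theorem integrableOn_pow (r : ℝ) :
    IntegrableOn (fun ζ : ℂ => ‖ζ‖ ^ (-(3/2) : ℝ)) (ball 0 r) := by
  have h := (integrableOn_fun_norm_addHaar (volume : Measure ℂ)
    (f := fun y : ℝ => y ^ (-(3/2) : ℝ)) (r := r)).2
  apply h
  rw [Complex.finrank_real_complex]
  by_cases hr : 0 < r
  · have h1 : IntegrableOn (fun y : ℝ => y ^ (-(1/2) : ℝ)) (Ioo 0 r) := by
      have := (intervalIntegral.intervalIntegrable_rpow' (a := 0) (b := r) (r := (-(1/2) : ℝ))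
        (by norm_num))
      rw [intervalIntegrable_iff_integrableOn_Ioo_of_le hr.le] at this
      exact this
    refine h1.congr_fun ?_ measurableSet_Ioo
    intro y hy
    have hy0 : 0 < y := hy.1
    simp only [smul_eq_mul]
    rw [← Real.rpow_natCast, ← Real.rpow_add hy0]
    norm_num
  · rw [Ioo_eq_empty (by linarith)]
    exact integrableOn_empty

/-- the constant of the bound -/
def KC (R : ℝ) : ENNReal :=
  (∫⁻ ζ, ‖(closedBall (0:ℂ) (2 * R)).indicator kr ζ‖ₑ ^ (3/2 : ℝ)) ^ (1 / (3/2 : ℝ))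

theorem KC_lt (R : ℝ) : KC R < ⊤ := by
  unfold KC
  refine ENNReal.rpow_lt_top_of_nonneg (by norm_num) ?_
  have h1 : ∀ ζ : ℂ, ‖(closedBall (0:ℂ) (2 * R)).indicator kr ζ‖ₑ ^ (3/2 : ℝ)
      ≤ (ball (0:ℂ) (2 * R + 1)).indicator
        (fun ζ => ‖((π⁻¹ : ℝ) ^ (3/2 : ℝ)) * ‖ζ‖ ^ (-(3/2) : ℝ)‖ₑ) ζ := by
    intro ζ
    by_cases hζ : ζ ∈ closedBall (0:ℂ) (2 * R)
    · have hζ' : ζ ∈ ball (0:ℂ) (2 * R + 1) := by
        rw [mem_closedBall] at hζ
        rw [mem_ball]; linarith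
      rw [indicator_of_mem hζ, indicator_of_mem hζ']
      rw [← ofReal_norm, norm_ker, ← ofReal_norm,
        ENNReal.ofReal_rpow_of_nonneg (by positivity) (by norm_num)]
      apply ENNReal.ofReal_le_ofReal
      rw [Real.mul_rpow (by positivity) (by positivity), Real.rpow_neg (norm_nonneg _),
        Real.inv_rpow (norm_nonneg _)]
      exact le_abs_self _
    · rw [indicator_of_notMem hζ]
      simp
  refine ((lintegral_mono h1).trans_lt ?_).ne
  rw [lintegral_indicator measurableSet_ball]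
  have h2 := (integrableOn_pow (2 * R + 1)).const_mul ((π⁻¹ : ℝ) ^ (3/2 : ℝ))
  exact h2.2

theorem enorm_PV_le {R : ℝ} {u : ℂ → F} (hu : AEStronglyMeasurable u)
    (h0 : ∀ ζ, R < ‖ζ‖ → u ζ = 0) {z : ℂ} (hz : ‖z‖ ≤ R) :
    ‖PV u z‖ₑ ≤ KC R * (∫⁻ ζ, ‖u ζ‖ₑ ^ (3:ℝ)) ^ (1 / (3:ℝ)) := by
  rw [PV_swap]
  have hm : Measurable ((closedBall (0:ℂ) (2 * R)).indicator kr) :=
    measurable_ker.indicator measurableSet_closedBall
  calc ‖∫ ζ, kr (z - ζ) • u ζ‖ₑ ≤ ∫⁻ ζ, ‖kr (z - ζ) • u ζ‖ₑ := enorm_integral_le_lintegral_enorm _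
    _ ≤ ∫⁻ ζ, ((fun ζ => ‖(closedBall (0:ℂ) (2 * R)).indicator kr (z - ζ)‖ₑ) *
          (fun ζ => ‖u ζ‖ₑ)) ζ := by
        refine lintegral_mono fun ζ => ?_
        simp only [Pi.mul_apply]
        rw [enorm_smul]
        by_cases hζ : R < ‖ζ‖
        · rw [h0 ζ hζ]; simp
        · have : z - ζ ∈ closedBall (0:ℂ) (2 * R) := by
            rw [mem_closedBall, dist_zero_right]
            calc ‖z - ζ‖ ≤ ‖z‖ + ‖ζ‖ := norm_sub_le _ _
              _ ≤ 2 * R := by linarith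
          rw [indicator_of_mem this]
    _ ≤ (∫⁻ ζ, ‖(closedBall (0:ℂ) (2 * R)).indicator kr (z - ζ)‖ₑ ^ (3/2 : ℝ)) ^ (1 / (3/2 : ℝ)) *
          (∫⁻ ζ, ‖u ζ‖ₑ ^ (3:ℝ)) ^ (1 / (3:ℝ)) := by
        apply ENNReal.lintegral_mul_le_Lp_mul_Lq
        · rw [Real.holderConjugate_iff]; norm_num
        · exact (hm.comp (measurable_const.sub measurable_id)).enorm.aemeasurable
        · exact hu.enorm
    _ = KC R * (∫⁻ ζ, ‖u ζ‖ₑ ^ (3:ℝ)) ^ (1 / (3:ℝ)) := by
        unfold KC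
        rw [lintegral_sub_left_eq_self
          (fun ζ => ‖(closedBall (0:ℂ) (2 * R)).indicator kr ζ‖ₑ ^ (3/2 : ℝ)) z]

/-- integrability of the integrand -/
theorem int_PV {R : ℝ} {u : ℂ → F} (hu : AEStronglyMeasurable u)
    (h0 : ∀ ζ, R < ‖ζ‖ → u ζ = 0) (hf : (∫⁻ ζ, ‖u ζ‖ₑ ^ (3:ℝ)) < ⊤) {z : ℂ} (hz : ‖z‖ ≤ R) :
    Integrable fun ζ => kr (z - ζ) • u ζ := by
  have hm : Measurable ((closedBall (0:ℂ) (2 * R)).indicator kr) :=
    measurable_ker.indicator measurableSet_closedBall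
  refine ⟨?_, ?_⟩
  · exact ((measurable_ker.comp (measurable_const.sub measurable_id)).aestronglyMeasurable).smul hu
  · have h1 : ∫⁻ ζ, ‖kr (z - ζ) • u ζ‖ₑ ≤
        (∫⁻ ζ, ‖(closedBall (0:ℂ) (2 * R)).indicator kr (z - ζ)‖ₑ ^ (3/2 : ℝ)) ^ (1 / (3/2 : ℝ)) *
          (∫⁻ ζ, ‖u ζ‖ₑ ^ (3:ℝ)) ^ (1 / (3:ℝ)) := by
      calc ∫⁻ ζ, ‖kr (z - ζ) • u ζ‖ₑ
          ≤ ∫⁻ ζ, ((fun ζ => ‖(closedBall (0:ℂ) (2 * R)).indicator kr (z - ζ)‖ₑ) *
            (fun ζ => ‖u ζ‖ₑ)) ζ := by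
            refine lintegral_mono fun ζ => ?_
            simp only [Pi.mul_apply]
            rw [enorm_smul]
            by_cases hζ : R < ‖ζ‖
            · rw [h0 ζ hζ]; simp
            · have : z - ζ ∈ closedBall (0:ℂ) (2 * R) := by
                rw [mem_closedBall, dist_zero_right]
                calc ‖z - ζ‖ ≤ ‖z‖ + ‖ζ‖ := norm_sub_le _ _
                  _ ≤ 2 * R := by linarith
              rw [indicator_of_mem this]
        _ ≤ _ := by
            apply ENNReal.lintegral_mul_le_Lp_mul_Lq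
            · rw [Real.holderConjugate_iff]; norm_num
            · exact (hm.comp (measurable_const.sub measurable_id)).enorm.aemeasurable
            · exact hu.enorm
    refine h1.trans_lt ?_
    have h2 := KC_lt R
    unfold KC at h2
    rw [lintegral_sub_left_eq_self
      (fun ζ => ‖(closedBall (0:ℂ) (2 * R)).indicator kr ζ‖ₑ ^ (3/2 : ℝ)) z]
    exact ENNReal.mul_lt_top h2 (ENNReal.rpow_lt_top_of_nonneg (by norm_num) hf.ne)

/-! ### smooth functions -/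

theorem PV_eq_conv (u : ℂ → F) :
    PV u = MeasureTheory.convolution kr u (ContinuousLinearMap.lsmul ℝ ℂ) volume := by
  ext z
  rw [convolution_def]
  rfl

theorem PV_contDiff [CompleteSpace F] {u : ℂ → F} (h : ContDiff ℝ ∞ u) (hc : HasCompactSupport u) :
    ContDiff ℝ ∞ (PV u) := by
  rw [PV_eq_conv]
  exact hc.contDiff_convolution_right _ locallyIntegrable_ker h

theorem db_comp {f : ℂ → F} {z : ℂ} (hf : DifferentiableAt ℝ f z) (l : F →L[ℂ] ℂ) :
    dzb (fun z => l (f z)) z = l (db f z) := by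
  have h1 : fderiv ℝ (fun z => l (f z)) z = (l.restrictScalars ℝ).comp (fderiv ℝ f z) :=
    ((l.restrictScalars ℝ).hasFDerivAt.comp z hf.hasFDerivAt).fderiv
  unfold db dzb Crest.Agent.R096.BelA_205.dd
  rw [h1]
  simp
  ring

theorem db_PV [CompleteSpace F] {u : ℂ → F} (h : ContDiff ℝ ∞ u) (hc : HasCompactSupport u) (z : ℂ) :
    db (PV u) z = u z := by
  have hd : Differentiable ℝ (PV u) := (PV_contDiff h hc).differentiable (by simp)
  rw [SeparatingDual.eq_iff_forall_dual_eq (R := ℂ)]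
  intro l
  rw [← db_comp (hd z) l]
  obtain ⟨R, hR⟩ := hc.isCompact.isBounded.subset_closedBall 0
  have ht : Tst R (fun z => l (u z)) := by
    refine ⟨(l.restrictScalars ℝ).contDiff.comp h, fun z hz => ?_⟩
    have : z ∉ tsupport u := fun hz' => by
      have := hR hz'
      rw [mem_closedBall, dist_zero_right] at this
      linarith
    simp [image_eq_zero_of_notMem_tsupport this]
  have he : (fun z => l (PV u z)) = P (fun z => l (u z)) := by
    ext z
    unfold PV P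
    rw [← ContinuousLinearMap.integral_comp_comm]
    · simp
    · exact hc.convolutionExists_right (ContinuousLinearMap.lsmul ℝ ℂ) locallyIntegrable_ker
        h.continuous z
  rw [he]
  exact congrFun (Crest.Agent.R096.BelA_205.dzb_P ht) z

/-! ### approximation -/

theorem approx {R : ℝ} (hR : 0 < R) {u : ℂ → F} (hu : MemLp u 3 volume)
    (h0 : ∀ ζ, R < ‖ζ‖ → u ζ = 0) :
    ∃ a : ℕ → ℂ → F, (∀ n, ContDiff ℝ ∞ (a n)) ∧ (∀ n, HasCompactSupport (a n)) ∧
      (∀ n ζ, R + 1 < ‖ζ‖ → a n ζ = 0) ∧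
      Tendsto (fun n => eLpNorm (fun ζ => u ζ - a n ζ) 3 volume) atTop (𝓝 0) := by
  have hex : ∀ n : ℕ, ∃ g : ℂ → F, HasCompactSupport g ∧ ContDiff ℝ ∞ g ∧
      eLpNorm (u - g) 3 volume ≤ ENNReal.ofReal (1 / ((n:ℝ) + 1)) := by
    intro n
    exact MemLp.exist_eLpNorm_sub_le (by norm_num) (by norm_num) hu (by positivity)
  choose g hg1 hg2 hg3 using hex
  let χ : ContDiffBump (0:ℂ) := ⟨R, R + 1, hR, by linarith⟩
  have hχ1 : ∀ ζ : ℂ, ‖ζ‖ ≤ R → χ ζ = 1 := fun ζ hζ =>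
    χ.one_of_mem_closedBall (by rw [mem_closedBall, dist_zero_right]; exact hζ)
  have hχ0 : ∀ ζ : ℂ, R + 1 < ‖ζ‖ → χ ζ = 0 := fun ζ hζ =>
    χ.zero_of_le_dist (by rw [dist_zero_right]; exact hζ.le)
  refine ⟨fun n ζ => χ ζ • g n ζ, fun n => χ.contDiff.smul (hg2 n), fun n => ?_,
    fun n ζ hζ => by simp [hχ0 ζ hζ], ?_⟩
  · refine HasCompactSupport.intro (hg1 n).isCompact fun ζ hζ => ?_
    show χ ζ • g n ζ = 0
    rw [image_eq_zero_of_notMem_tsupport hζ, smul_zero]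
  · have hle : ∀ n, eLpNorm (fun ζ => u ζ - χ ζ • g n ζ) 3 volume ≤
        ENNReal.ofReal (1 / ((n:ℝ) + 1)) := by
      intro n
      refine le_trans (eLpNorm_mono fun ζ => ?_) (hg3 n)
      have h1 : u ζ - χ ζ • g n ζ = χ ζ • (u ζ - g n ζ) := by
        by_cases hζ : ‖ζ‖ ≤ R
        · rw [hχ1 ζ hζ]; simp
        · rw [h0 ζ (not_le.1 hζ)]; simp
      rw [h1, norm_smul, Pi.sub_apply]
      have h2 : ‖χ ζ‖ ≤ 1 := by
        rw [Real.norm_eq_abs, abs_of_nonneg χ.nonneg]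
        exact χ.le_one
      calc ‖χ ζ‖ * ‖u ζ - g n ζ‖ ≤ 1 * ‖u ζ - g n ζ‖ := by gcongr
        _ = _ := one_mul _
    refine tendsto_of_tendsto_of_tendsto_of_le_of_le tendsto_const_nhds ?_ (fun _ => bot_le) hle
    have := tendsto_one_div_add_atTop_nhds_zero_nat (𝕜 := ℝ)
    have h3 := (ENNReal.continuous_ofReal.tendsto 0).comp this
    rw [ENNReal.ofReal_zero] at h3
    exact h3

omit [NormedSpace ℂ F] in
theorem eLp_three (u : ℂ → F) : (∫⁻ ζ, ‖u ζ‖ₑ ^ (3:ℝ)) ^ (1 / (3:ℝ)) = eLpNorm u 3 volume := by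
  rw [eLpNorm_eq_lintegral_rpow_enorm_toReal (by norm_num) (by norm_num)]
  norm_num

omit [NormedSpace ℂ F] in
theorem lint_lt {u : ℂ → F} (hu : MemLp u 3 volume) : (∫⁻ ζ, ‖u ζ‖ₑ ^ (3:ℝ)) < ⊤ := by
  have := hu.2
  rw [← eLp_three] at this
  by_contra h
  rw [not_lt, top_le_iff] at h
  rw [h] at this
  simp at this

theorem enorm_PV_le' {R : ℝ} {u : ℂ → F} (hu : MemLp u 3 volume)
    (h0 : ∀ ζ, R < ‖ζ‖ → u ζ = 0) {z : ℂ} (hz : ‖z‖ ≤ R) :
    ‖PV u z‖ₑ ≤ KC R * eLpNorm u 3 volume := by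
  rw [← eLp_three]
  exact enorm_PV_le hu.1 h0 hz

theorem PV_sub {R : ℝ} {u v : ℂ → F} (hu : MemLp u 3 volume) (hv : MemLp v 3 volume)
    (h0 : ∀ ζ, R < ‖ζ‖ → u ζ = 0) (h0' : ∀ ζ, R < ‖ζ‖ → v ζ = 0) {z : ℂ} (hz : ‖z‖ ≤ R) :
    PV (fun ζ => u ζ - v ζ) z = PV u z - PV v z := by
  rw [PV_swap, PV_swap, PV_swap, ← integral_sub (int_PV hu.1 h0 (lint_lt hu) hz)
    (int_PV hv.1 h0' (lint_lt hv) hz)]
  congr 1
  ext ζ
  rw [smul_sub]

theorem tendsto_PV {R : ℝ} {u : ℂ → F} (hu : MemLp u 3 volume)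
    (h0 : ∀ ζ, R < ‖ζ‖ → u ζ = 0) {a : ℕ → ℂ → F} (ha : ∀ n, MemLp (a n) 3 volume)
    (ha0 : ∀ n ζ, R < ‖ζ‖ → a n ζ = 0)
    (ht : Tendsto (fun n => eLpNorm (fun ζ => u ζ - a n ζ) 3 volume) atTop (𝓝 0)) :
    TendstoUniformlyOn (fun n => PV (a n)) (PV u) atTop (closedBall 0 R) := by
  rw [EMetric.tendstoUniformlyOn_iff]
  intro ε hε
  have h1 : Tendsto (fun n => KC R * eLpNorm (fun ζ => u ζ - a n ζ) 3 volume) atTop (𝓝 0) := by
    have := ENNReal.Tendsto.const_mul ht (Or.inr (KC_lt R).ne)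
    simpa using this
  filter_upwards [(tendsto_order.1 h1).2 ε hε] with n hn
  intro z hz
  rw [mem_closedBall, dist_zero_right] at hz
  rw [edist_eq_enorm_sub, ← PV_sub hu (ha n) h0 (ha0 n) hz]
  exact (enorm_PV_le' (hu.sub (ha n)) (fun ζ hζ => by simp [h0 ζ hζ, ha0 n ζ hζ]) hz).trans_lt hn

/-- smooth compactly supported approximations of a bounded function with compact support -/
theorem exists_approx [CompleteSpace F] {R : ℝ} (hR : 0 < R) {u : ℂ → F} (hu : MemLp u 3 volume)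
    (h0 : ∀ ζ, R < ‖ζ‖ → u ζ = 0) :
    ∃ a : ℕ → ℂ → F, (∀ n, ContDiff ℝ ∞ (a n)) ∧ (∀ n, ContDiff ℝ ∞ (PV (a n))) ∧
      (∀ n z, db (PV (a n)) z = a n z) ∧ (∀ n, MemLp (a n) 3 volume) ∧
      Tendsto (fun n => eLpNorm (fun ζ => u ζ - a n ζ) 3 volume) atTop (𝓝 0) ∧
      TendstoUniformlyOn (fun n => PV (a n)) (PV u) atTop (closedBall 0 (R + 1)) ∧
      ∀ n z, ‖z‖ ≤ R + 1 →
        ‖PV u z - PV (a n) z‖ₑ ≤ KC (R + 1) * eLpNorm (fun ζ => u ζ - a n ζ) 3 volume := by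
  obtain ⟨a, h1, h2, h3, h4⟩ := approx hR hu h0
  have hm : ∀ n, MemLp (a n) 3 volume := fun n =>
    (h1 n).continuous.memLp_of_hasCompactSupport (h2 n)
  refine ⟨a, h1, fun n => PV_contDiff (h1 n) (h2 n), fun n z => db_PV (h1 n) (h2 n) z, hm, h4, ?_, ?_⟩
  · exact tendsto_PV hu (fun ζ hζ => h0 ζ (by linarith)) hm h3 h4
  · intro n z hz
    rw [← PV_sub hu (hm n) (fun ζ hζ => h0 ζ (by linarith)) (h3 n) hz]
    exact enorm_PV_le' (hu.sub (hm n)) (fun ζ hζ => by simp [h0 ζ (by linarith), h3 n ζ hζ]) hz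

theorem continuousOn_PV [CompleteSpace F] {R : ℝ} (hR : 0 < R) {u : ℂ → F} (hu : MemLp u 3 volume)
    (h0 : ∀ ζ, R < ‖ζ‖ → u ζ = 0) : ContinuousOn (PV u) (closedBall 0 (R + 1)) := by
  obtain ⟨a, -, h2, -, -, -, h6, -⟩ := exists_approx hR hu h0
  exact h6.continuousOn (Frequently.of_forall fun n => (h2 n).continuous.continuousOn)

omit [NormedSpace ℂ F] in
/-- bounded functions with support in a ball -/
theorem memLp_bdd {R C : ℝ} {u : ℂ → F} (hu : AEStronglyMeasurable u) (h0 : ∀ ζ, R < ‖ζ‖ → u ζ = 0)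
    (hC : ∀ ζ, ‖u ζ‖ ≤ C) : MemLp u 3 volume := by
  have h1 : MemLp ((closedBall (0:ℂ) R).indicator fun _ => (C : ℝ)) 3 volume := by
    apply memLp_indicator_const
    · exact measurableSet_closedBall
    · right
      exact measure_closedBall_lt_top.ne
  refine MemLp.mono h1 hu (Eventually.of_forall fun ζ => ?_)
  by_cases hζ : ζ ∈ closedBall (0:ℂ) R
  · rw [indicator_of_mem hζ]
    exact (hC ζ).trans (le_abs_self _)
  · rw [mem_closedBall, dist_zero_right, not_le] at hζ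
    rw [h0 ζ hζ]; simp

/-- holomorphic limits, vector valued -/
theorem holo [FiniteDimensional ℂ F] {ρ : ℝ} {g : ℕ → ℂ → F} {h : ℂ → F}
    (hg : ∀ n, ContDiff ℝ 1 (g n)) (hl : TendstoUniformlyOn g h atTop (ball 0 ρ))
    (hd : Tendsto (fun n => ∫⁻ z in ball 0 ρ, ‖db (g n) z‖ₑ) atTop (𝓝 0)) :
    DifferentiableOn ℂ h (ball 0 ρ) := by
  have hcoord : ∀ l : F →L[ℂ] ℂ, DifferentiableOn ℂ (fun z => l (h z)) (ball 0 ρ) := by
    intro l
    have hb := Crest.Agent.R143.DbarMorx63.bc3 (ball 0 ρ) isOpen_ball ℕ atTop inferInstance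
      (fun n z => l (g n z)) (fun z => l (h z)) (fun n => (l.restrictScalars ℝ).contDiff.comp (hg n))
      ?_ ?_
    · exact hb
    · apply TendstoUniformlyOn.tendstoLocallyUniformlyOn
      exact l.uniformContinuous.comp_tendstoUniformlyOn hl
    · intro K hK hKs
      have h1 : ∀ n z, Crest.Agent.R143.BC0x336.dbar (fun z => l (g n z)) z = l (db (g n) z) :=
        fun n z => db_comp ((hg n).differentiable (by norm_num) z) l
      simp only [h1]
      have h2 : ∀ n, ∫ z in K, ‖l (db (g n) z)‖ =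
          (∫⁻ z in K, ‖l (db (g n) z)‖ₑ).toReal := by
        intro n
        rw [integral_eq_lintegral_of_nonneg_ae (Eventually.of_forall fun z => norm_nonneg _)]
        · simp only [ofReal_norm]
        · have hc : Continuous (fun z => db (g n) z) := by
            have := (hg n).continuous_fderiv (by norm_num)
            unfold db
            fun_prop
          exact (l.continuous.comp hc).norm.aestronglyMeasurable
      simp only [h2]
      rw [← ENNReal.toReal_zero]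
      apply (ENNReal.continuousAt_toReal (by simp)).tendsto.comp
      have h3 : Tendsto (fun n => ‖l‖ₑ * ∫⁻ z in ball 0 ρ, ‖db (g n) z‖ₑ) atTop (𝓝 0) := by
        have := ENNReal.Tendsto.const_mul hd (Or.inr (show ‖l‖ₑ ≠ ⊤ from enorm_ne_top))
        simpa using this
      refine tendsto_of_tendsto_of_tendsto_of_le_of_le tendsto_const_nhds h3
        (fun _ => bot_le) fun n => ?_
      calc ∫⁻ z in K, ‖l (db (g n) z)‖ₑ ≤ ∫⁻ z in ball 0 ρ, ‖l (db (g n) z)‖ₑ :=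
            lintegral_mono_set hKs
        _ ≤ ∫⁻ z in ball 0 ρ, ‖l‖ₑ * ‖db (g n) z‖ₑ := by
            refine lintegral_mono fun z => ?_
            exact l.le_opENorm _
        _ ≤ ‖l‖ₑ * ∫⁻ z in ball 0 ρ, ‖db (g n) z‖ₑ := by
            rw [lintegral_const_mul']
            exact enorm_ne_top
  let e : F ≃L[ℂ] (Fin (Module.finrank ℂ F) → ℂ) :=
    ContinuousLinearEquiv.ofFinrankEq (by simp)
  have h1 : DifferentiableOn ℂ (fun z => e (h z)) (ball 0 ρ) := by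
    rw [differentiableOn_pi]
    intro i
    exact hcoord ((ContinuousLinearMap.proj i).comp (e : F →L[ℂ] (Fin (Module.finrank ℂ F) → ℂ)))
  have h2 : h = fun z => e.symm (e (h z)) := by
    ext z; simp
  rw [h2]
  exact e.symm.differentiable.comp_differentiableOn h1

end Crest.Agent.R235.CauchyV_679
end
end

-- ▼ part R235/Sim_679
section

/-!
Row 235, NW4 (S1): the Carleman similarity principle, scalar and vector valued.
-/

set_option autoImplicit false

noncomputable section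

namespace Crest.Agent.R235.Sim_679

open Set Metric MeasureTheory Filter Topology
open scoped ContDiff NNReal Real
open Crest.Agent.R235.CauchyV_679

/-! ### calculus of `db` -/

section calculus
variable {F : Type*} [NormedAddCommGroup F] [NormedSpace ℂ F]

theorem db_continuous {f : ℂ → F} (hf : ContDiff ℝ 1 f) : Continuous (db f) := by
  have := hf.continuous_fderiv (by norm_num)
  unfold db
  fun_prop

theorem db_apply {E : Type*} [NormedAddCommGroup E] [NormedSpace ℂ E] {Ψ : ℂ → E →L[ℂ] F}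
    {f : ℂ → E} {z : ℂ}
    (hΨ : DifferentiableAt ℝ Ψ z) (hf : DifferentiableAt ℝ f z) :
    db (fun z => Ψ z (f z)) z = (db Ψ z) (f z) + Ψ z (db f z) := by
  let B : (E →L[ℂ] F) →L[ℝ] E →L[ℝ] F :=
    LinearMap.mkContinuous₂
      { toFun := fun A => (A.restrictScalars ℝ : E →L[ℝ] F).toLinearMap
        map_add' := fun A B => rfl
        map_smul' := fun c A => rfl } 1 (by
          intro A x
          simpa using A.le_opNorm x)
  have hB : ∀ A x, B A x = A x := fun A x => rfl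
  have h1 := (B.hasFDerivAt_of_bilinear hΨ.hasFDerivAt hf.hasFDerivAt)
  have h2 : fderiv ℝ (fun z => Ψ z (f z)) z = _ := h1.fderiv
  unfold db
  rw [h2]
  simp only [add_apply, ContinuousLinearMap.precompR_apply, ContinuousLinearMap.compL_apply,
    ContinuousLinearMap.comp_apply, ContinuousLinearMap.precompL_apply, hB]
  simp only [smul_apply, add_apply, map_smul, map_add, smul_add]
  abel

theorem db_const_sub {u : ℂ → F} (c : F) (z : ℂ) : db (fun z => c - u z) z = - db u z := by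
  unfold db
  rw [fderiv_const_sub]
  simp
  abel

end calculus

section core
variable {E : Type*} [NormedAddCommGroup E] [NormedSpace ℂ E] [FiniteDimensional ℂ E]

/-- the core: `∂̄Ψ = -u`, `u f = Ψ ∂̄f` gives `Ψ f` holomorphic -/
theorem core {f : ℂ → E} (hf : ContDiff ℝ 1 f) {ρ : ℝ} (hρ : 0 < ρ) {u : ℂ → E →L[ℂ] E}
    (hu : MemLp u 3 volume) (h0 : ∀ ζ, ρ < ‖ζ‖ → u ζ = 0) {Ψ : ℂ → E →L[ℂ] E}
    (hΨ : ∀ z ∈ ball (0:ℂ) ρ, Ψ z = 1 - PV u z)
    (heq : ∀ z ∈ ball (0:ℂ) ρ, u z (f z) = Ψ z (db f z)) :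
    DifferentiableOn ℂ (fun z => Ψ z (f z)) (ball 0 ρ) := by
  have : CompleteSpace E := FiniteDimensional.complete ℂ E
  obtain ⟨a, h1, h2, h3, h4, h5, h6, h7⟩ := exists_approx hρ hu h0
  have hdb : Continuous (db f) := db_continuous hf
  obtain ⟨M1, hM1⟩ := (isCompact_closedBall (0:ℂ) ρ).exists_bound_of_continuousOn
    hf.continuous.continuousOn
  obtain ⟨M2, hM2⟩ := (isCompact_closedBall (0:ℂ) ρ).exists_bound_of_continuousOn
    hdb.continuousOn
  have hM1' : 0 ≤ M1 := (norm_nonneg _).trans (hM1 0 (mem_closedBall_self hρ.le))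
  have hM2' : 0 ≤ M2 := (norm_nonneg _).trans (hM2 0 (mem_closedBall_self hρ.le))
  have hC : ∀ n, ContDiff ℝ 1 (fun z => (1 - PV (a n) z) (f z)) := by
    intro n
    have h8 : ContDiff ℝ 1 (fun z => 1 - PV (a n) z) :=
      contDiff_const.sub ((h2 n).of_le (by simp))
    let B : (E →L[ℂ] E) →L[ℝ] E →L[ℝ] E :=
      LinearMap.mkContinuous₂
        { toFun := fun A => (A.restrictScalars ℝ : E →L[ℝ] E).toLinearMap
          map_add' := fun A B => rfl
          map_smul' := fun c A => rfl } 1 (by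
            intro A x
            simpa using A.le_opNorm x)
    exact B.isBoundedBilinearMap.contDiff.comp (h8.prodMk hf)
  refine holo hC ?_ ?_
  · -- uniform convergence
    rw [EMetric.tendstoUniformlyOn_iff]
    intro ε hε
    have h8 : Tendsto (fun n => (KC (ρ + 1) * ENNReal.ofReal M1) *
        eLpNorm (fun ζ => u ζ - a n ζ) 3 volume) atTop (𝓝 0) := by
      have := ENNReal.Tendsto.const_mul (a := KC (ρ + 1) * ENNReal.ofReal M1) h5
        (Or.inr (ENNReal.mul_ne_top (KC_lt _).ne ENNReal.ofReal_ne_top))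
      simpa using this
    filter_upwards [(tendsto_order.1 h8).2 ε hε] with n hn
    intro z hz
    have hz' : ‖z‖ < ρ := by simpa using hz
    rw [edist_eq_enorm_sub, hΨ z hz]
    have h9 : (1 - PV u z) (f z) - (1 - PV (a n) z) (f z) = -((PV u z - PV (a n) z) (f z)) := by
      simp
    rw [h9, enorm_neg]
    refine lt_of_le_of_lt ?_ hn
    calc ‖(PV u z - PV (a n) z) (f z)‖ₑ ≤ ‖PV u z - PV (a n) z‖ₑ * ‖f z‖ₑ :=
          ContinuousLinearMap.le_opENorm _ _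
      _ ≤ (KC (ρ + 1) * eLpNorm (fun ζ => u ζ - a n ζ) 3 volume) * ENNReal.ofReal M1 := by
          gcongr
          · exact h7 n z (by linarith)
          · rw [← ofReal_norm]
            exact ENNReal.ofReal_le_ofReal (hM1 z (by simpa using hz'.le))
      _ = _ := by ring
  · -- the derivative
    set e : ℕ → ENNReal := fun n => eLpNorm (fun ζ => u ζ - a n ζ) 3 volume with he
    set V : ENNReal := volume (ball (0:ℂ) ρ) with hV
    have hVt : V < ⊤ := measure_ball_lt_top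
    have hV' : V ^ (1 / (1:ENNReal).toReal - 1 / (3:ENNReal).toReal) < ⊤ := by
      apply ENNReal.rpow_lt_top_of_nonneg _ hVt.ne
      norm_num
    have hbd : ∀ n, ∫⁻ z in ball 0 ρ, ‖db (fun z => (1 - PV (a n) z) (f z)) z‖ₑ ≤
        (V ^ (1 / (1:ENNReal).toReal - 1 / (3:ENNReal).toReal) * ENNReal.ofReal M1 +
          KC (ρ + 1) * ENNReal.ofReal M2 * V) * e n := by
      intro n
      have hae : ∀ z ∈ ball (0:ℂ) ρ, ‖db (fun z => (1 - PV (a n) z) (f z)) z‖ₑ ≤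
          ‖u z - a n z‖ₑ * ENNReal.ofReal M1 + KC (ρ + 1) * e n * ENNReal.ofReal M2 := by
        intro z hz
        have hz' : ‖z‖ < ρ := by simpa using hz
        have hzc : z ∈ closedBall (0:ℂ) ρ := ball_subset_closedBall hz
        have hd1 : DifferentiableAt ℝ (fun z => 1 - PV (a n) z) z :=
          ((h2 n).differentiable (by simp) z).const_sub _
        have hd2 : DifferentiableAt ℝ f z := hf.differentiable (by norm_num) z
        have h9 := db_apply (Ψ := fun z => 1 - PV (a n) z) hd1 hd2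
        rw [h9, db_const_sub, h3]
        have h10 : (-a n z) (f z) + (1 - PV (a n) z) (db f z) =
            (u z - a n z) (f z) + (PV u z - PV (a n) z) (db f z) := by
          have := heq z hz
          rw [hΨ z hz] at this
          simp only [neg_apply, sub_apply, one_apply_eq_self] at this ⊢
          rw [this]
          abel
        rw [h10]
        refine (enorm_add_le _ _).trans ?_
        gcongr
        · refine (ContinuousLinearMap.le_opENorm _ _).trans ?_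
          gcongr
          rw [← ofReal_norm]
          exact ENNReal.ofReal_le_ofReal (hM1 z hzc)
        · refine (ContinuousLinearMap.le_opENorm _ _).trans ?_
          gcongr
          · exact h7 n z (by linarith)
          · rw [← ofReal_norm]
            exact ENNReal.ofReal_le_ofReal (hM2 z hzc)
      have hm : AEStronglyMeasurable (fun ζ => u ζ - a n ζ) volume := hu.1.sub (h4 n).1
      calc ∫⁻ z in ball 0 ρ, ‖db (fun z => (1 - PV (a n) z) (f z)) z‖ₑ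
          ≤ ∫⁻ z in ball 0 ρ, (‖u z - a n z‖ₑ * ENNReal.ofReal M1 +
            KC (ρ + 1) * e n * ENNReal.ofReal M2) := setLIntegral_mono' measurableSet_ball hae
        _ = (∫⁻ z in ball 0 ρ, ‖u z - a n z‖ₑ) * ENNReal.ofReal M1 +
            KC (ρ + 1) * e n * ENNReal.ofReal M2 * V := by
            rw [lintegral_add_right _ measurable_const, lintegral_const,
              lintegral_mul_const' _ _ ENNReal.ofReal_ne_top, Measure.restrict_apply_univ]
        _ ≤ (e n * V ^ (1 / (1:ENNReal).toReal - 1 / (3:ENNReal).toReal)) * ENNReal.ofReal M1 +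
            KC (ρ + 1) * e n * ENNReal.ofReal M2 * V := by
            gcongr
            have h11 := eLpNorm_le_eLpNorm_mul_rpow_measure_univ (p := 1) (q := 3)
              (μ := volume.restrict (ball (0:ℂ) ρ)) (by norm_num) hm.restrict
            rw [eLpNorm_one_eq_lintegral_enorm, Measure.restrict_apply_univ] at h11
            refine h11.trans ?_
            gcongr
            exact eLpNorm_mono_measure _ Measure.restrict_le_self
        _ = _ := by ring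
    refine tendsto_of_tendsto_of_tendsto_of_le_of_le tendsto_const_nhds ?_
      (fun _ => bot_le) hbd
    have := ENNReal.Tendsto.const_mul (a := (V ^ (1 / (1:ENNReal).toReal - 1 / (3:ENNReal).toReal) *
      ENNReal.ofReal M1 + KC (ρ + 1) * ENNReal.ofReal M2 * V)) h5
      (Or.inr (by
        apply ENNReal.add_ne_top.2
        exact ⟨ENNReal.mul_ne_top hV'.ne ENNReal.ofReal_ne_top,
          ENNReal.mul_ne_top (ENNReal.mul_ne_top (KC_lt _).ne ENNReal.ofReal_ne_top) hVt.ne⟩))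
    simpa using this


end core

end Crest.Agent.R235.Sim_679
end
end

-- ▼ part R235/Sim2_679
section

/-!
Row 235, NW4 (S1): the Carleman similarity principle, final forms.
-/

set_option autoImplicit false

noncomputable section

namespace Crest.Agent.R235.Sim2_679

open Set Metric MeasureTheory Filter Topology
open scoped ContDiff NNReal Real
open Crest.Agent.R235.CauchyV_679 Crest.Agent.R235.Sim_679

/-- a `C¹` function on a ball coincides on a smaller ball with a global `C¹` function -/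
theorem exists_ext {G : Type*} [NormedAddCommGroup G] [NormedSpace ℝ G] {f : ℂ → G} {r r' : ℝ}
    (h0 : 0 < r') (hr : r' < r) (hf : ContDiffOn ℝ 1 f (ball 0 r)) :
    ∃ g : ℂ → G, ContDiff ℝ 1 g ∧ ∃ r1, r' < r1 ∧ r1 < r ∧ ∀ z ∈ ball (0:ℂ) r1, g z = f z := by
  let χ : ContDiffBump (0:ℂ) := ⟨(r' + r) / 2, (r' + 3 * r) / 4, by linarith, by linarith⟩
  refine ⟨fun z => χ z • f z, ?_, (r' + r) / 2, by linarith, by linarith, fun z hz => ?_⟩
  · rw [contDiff_iff_contDiffAt]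
    intro z
    by_cases hz : ‖z‖ < r
    · have h1 : ContDiffAt ℝ 1 f z := hf.contDiffAt (isOpen_ball.mem_nhds (by simpa using hz))
      exact χ.contDiff.contDiffAt.smul h1
    · have h2 : (fun z => χ z • f z) =ᶠ[𝓝 z] fun _ => 0 := by
        have h3 : IsOpen {w : ℂ | (r' + 3 * r) / 4 < ‖w‖} := isOpen_lt continuous_const continuous_norm
        filter_upwards [h3.mem_nhds (show (r' + 3 * r) / 4 < ‖z‖ by linarith [not_lt.1 hz])] with w hw
        have : χ w = 0 := χ.zero_of_le_dist (by rw [dist_zero_right]; exact hw.le)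
        rw [this, zero_smul]
      exact contDiffAt_const.congr_of_eventuallyEq h2
  · have : χ z = 1 := χ.one_of_mem_closedBall (ball_subset_closedBall hz)
    show χ z • f z = f z
    rw [this, one_smul]

theorem db_congr {F : Type*} [NormedAddCommGroup F] [NormedSpace ℂ F] {f g : ℂ → F} {z : ℂ}
    (h : f =ᶠ[𝓝 z] g) : db f z = db g z := by
  unfold db
  rw [h.fderiv_eq]


/-! ### the vector version -/

section vec
variable {F : Type*} [NormedAddCommGroup F] [NormedSpace ℂ F]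

/-- smallness constant -/
def kap (ρ : ℝ) : ℝ := (KC 1 * volume (closedBall (0:ℂ) ρ) ^ (1 / (3:ℝ))).toReal

theorem KC_mono {ρ : ℝ} (h : ρ ≤ 1) : KC ρ ≤ KC 1 := by
  unfold KC
  apply ENNReal.rpow_le_rpow _ (by norm_num)
  apply lintegral_mono
  intro ζ
  apply ENNReal.rpow_le_rpow _ (by norm_num)
  rw [enorm_indicator_eq_indicator_enorm, enorm_indicator_eq_indicator_enorm]
  exact indicator_le_indicator_of_subset (closedBall_subset_closedBall (by linarith))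
    (fun _ => bot_le) ζ

theorem norm_PV_small {ρ M : ℝ} (hρ1 : ρ ≤ 1) (hM : 0 ≤ M) {u : ℂ → F}
    (hu : AEStronglyMeasurable u volume) (h0 : ∀ ζ, ρ < ‖ζ‖ → u ζ = 0) (hb : ∀ ζ, ‖u ζ‖ ≤ M)
    {z : ℂ} (hz : ‖z‖ ≤ ρ) : ‖PV u z‖ ≤ kap ρ * M := by
  have hV : volume (closedBall (0:ℂ) ρ) < ⊤ := measure_closedBall_lt_top
  have h1 : eLpNorm u 3 volume ≤ ENNReal.ofReal M * volume (closedBall (0:ℂ) ρ) ^ (1 / (3:ℝ)) := by
    have h2 : eLpNorm u 3 volume ≤
        eLpNorm ((closedBall (0:ℂ) ρ).indicator fun _ => (M : ℝ)) 3 volume := by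
      apply eLpNorm_mono
      intro ζ
      by_cases hζ : ζ ∈ closedBall (0:ℂ) ρ
      · rw [indicator_of_mem hζ]
        exact (hb ζ).trans (le_abs_self _)
      · rw [mem_closedBall, dist_zero_right, not_le] at hζ
        rw [h0 ζ hζ]; simp
    refine h2.trans ?_
    rw [eLpNorm_indicator_const measurableSet_closedBall (by norm_num) (by norm_num)]
    rw [← ofReal_norm, Real.norm_of_nonneg hM]
    norm_num
  have h2 : ‖PV u z‖ₑ ≤ KC 1 * volume (closedBall (0:ℂ) ρ) ^ (1 / (3:ℝ)) * ENNReal.ofReal M := by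
    refine (enorm_PV_le' (memLp_bdd hu h0 hb) h0 hz).trans ?_
    calc KC ρ * eLpNorm u 3 volume
        ≤ KC 1 * (ENNReal.ofReal M * volume (closedBall (0:ℂ) ρ) ^ (1 / (3:ℝ))) := by
          gcongr
          exact KC_mono hρ1
      _ = _ := by ring
  have hfin : KC 1 * volume (closedBall (0:ℂ) ρ) ^ (1 / (3:ℝ)) ≠ ⊤ :=
    ENNReal.mul_ne_top (KC_lt _).ne (ENNReal.rpow_lt_top_of_nonneg (by norm_num) hV.ne).ne
  have h3 := ENNReal.toReal_mono (ENNReal.mul_ne_top hfin ENNReal.ofReal_ne_top) h2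
  rw [toReal_enorm, ENNReal.toReal_mul, ENNReal.toReal_ofReal hM] at h3
  exact h3


theorem kap_tendsto : Tendsto kap (𝓝[>] 0) (𝓝 0) := by
  have h1 : Tendsto (fun ρ : ℝ => volume (closedBall (0:ℂ) ρ)) (𝓝[>] 0) (𝓝 0) := by
    have h2 : (fun ρ : ℝ => volume (closedBall (0:ℂ) ρ)) =
        fun ρ : ℝ => ENNReal.ofReal ρ ^ 2 * (NNReal.pi : ENNReal) := by
      funext ρ
      rw [Complex.volume_closedBall]
    rw [h2]
    have h3 : Tendsto (fun ρ : ℝ => ENNReal.ofReal ρ ^ 2 * (NNReal.pi : ENNReal)) (𝓝 0)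
        (𝓝 (ENNReal.ofReal 0 ^ 2 * (NNReal.pi : ENNReal))) := by
      have h4 : Continuous fun ρ : ℝ => ENNReal.ofReal ρ ^ 2 :=
        ENNReal.continuous_pow 2 |>.comp ENNReal.continuous_ofReal
      exact ENNReal.Tendsto.mul_const (h4.tendsto 0) (Or.inr ENNReal.coe_ne_top)
    simp only [ENNReal.ofReal_zero, ne_eq, OfNat.ofNat_ne_zero, not_false_eq_true, zero_pow,
      zero_mul] at h3
    exact h3.mono_left nhdsWithin_le_nhds
  have h5 : Tendsto (fun ρ : ℝ => KC 1 * volume (closedBall (0:ℂ) ρ) ^ (1 / (3:ℝ))) (𝓝[>] 0)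
      (𝓝 (KC 1 * 0)) := by
    apply ENNReal.Tendsto.const_mul _ (Or.inr (KC_lt 1).ne)
    have := (ENNReal.continuous_rpow_const (y := 1 / (3:ℝ))).tendsto 0 |>.comp h1
    rw [ENNReal.zero_rpow_of_pos (by norm_num)] at this
    exact this
  rw [mul_zero] at h5
  have h6 := (ENNReal.tendsto_toReal (by simp)).comp h5
  rw [ENNReal.toReal_zero] at h6
  exact h6

theorem exists_small (C : ℝ) {r : ℝ} (hr : 0 < r) :
    ∃ ρ, 0 < ρ ∧ ρ < r ∧ ρ ≤ 1 ∧ kap ρ * C ≤ 1 / 4 := by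
  have h1 : Tendsto (fun ρ => kap ρ * C) (𝓝[>] 0) (𝓝 0) := by
    simpa using kap_tendsto.mul_const C
  have h2 : ∀ᶠ ρ in 𝓝[>] (0:ℝ), kap ρ * C < 1 / 4 := (tendsto_order.1 h1).2 _ (by norm_num)
  have h3 : ∀ᶠ ρ in 𝓝[>] (0:ℝ), ρ ∈ Ioo 0 (min r 1) := Ioo_mem_nhdsGT (by positivity)
  obtain ⟨ρ, h4, h5⟩ := (h2.and h3).exists
  exact ⟨ρ, h5.1, h5.2.trans_le (min_le_left _ _), (h5.2.trans_le (min_le_right _ _)).le, h4.le⟩

/-- retraction on the closed ball -/
def pr (ρ : ℝ) (ζ : ℂ) : ℂ := (ρ / max ρ ‖ζ‖ : ℝ) • ζ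

theorem pr_mem {ρ : ℝ} (hρ : 0 < ρ) (ζ : ℂ) : pr ρ ζ ∈ closedBall (0:ℂ) ρ := by
  rw [mem_closedBall, dist_zero_right, pr, norm_smul, Real.norm_eq_abs]
  have h1 : 0 < max ρ ‖ζ‖ := lt_max_of_lt_left hρ
  rw [abs_of_pos (by positivity), div_mul_eq_mul_div, div_le_iff₀ h1]
  gcongr
  exact le_max_right _ _

theorem pr_of_mem {ρ : ℝ} (hρ : 0 < ρ) {ζ : ℂ} (h : ζ ∈ closedBall (0:ℂ) ρ) : pr ρ ζ = ζ := by
  rw [mem_closedBall, dist_zero_right] at h
  rw [pr, max_eq_left h, div_self hρ.ne', one_smul]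

theorem pr_continuous {ρ : ℝ} (hρ : 0 < ρ) : Continuous (pr ρ) := by
  have h1 : Continuous fun ζ : ℂ => (ρ / max ρ ‖ζ‖ : ℝ) := by
    apply Continuous.div continuous_const (continuous_const.max continuous_norm)
    intro ζ
    exact (lt_max_of_lt_left hρ).ne'
  exact h1.smul continuous_id

variable {E : Type*} [NormedAddCommGroup E] [NormedSpace ℂ E] [FiniteDimensional ℂ E]

/-- existence of the matrix solution `Ψ = 1 - P(Ψ A 1_B)` on a small ball -/
theorem exists_sol {A : ℂ → E →L[ℂ] E} (hA : AEStronglyMeasurable A volume) {r C : ℝ} (hr : 0 < r)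
    (hC : 0 ≤ C) (hb : ∀ ζ ∈ ball (0:ℂ) r, ‖A ζ‖ ≤ C) :
    ∃ ρ, 0 < ρ ∧ ρ < r ∧ ∃ Ψ u : ℂ → E →L[ℂ] E, ContinuousOn Ψ (closedBall 0 ρ) ∧
      (∀ z ∈ closedBall (0:ℂ) ρ, ‖Ψ z - 1‖ ≤ 1 / 2) ∧ MemLp u 3 volume ∧
      (∀ ζ, ρ < ‖ζ‖ → u ζ = 0) ∧ (∀ ζ ∈ closedBall (0:ℂ) ρ, u ζ = (Ψ ζ).comp (A ζ)) ∧
      ∀ z ∈ closedBall (0:ℂ) ρ, Ψ z = 1 - PV u z := by
  have hcs : CompleteSpace E := FiniteDimensional.complete ℂ E
  obtain ⟨ρ, hρ, hρr, hρ1, hk⟩ := exists_small C hr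
  have hsub : closedBall (0:ℂ) ρ ⊆ ball 0 r := closedBall_subset_ball hρr
  let K := closedBall (0:ℂ) ρ
  have hKc : CompactSpace K := isCompact_iff_compactSpace.1 (isCompact_closedBall _ _)
  let prK : ℂ → K := fun ζ => ⟨pr ρ ζ, pr_mem hρ ζ⟩
  have hprK : Continuous prK := (pr_continuous hρ).subtype_mk _
  let U : C(K, E →L[ℂ] E) → ℂ → E →L[ℂ] E := fun Φ =>
    K.indicator (fun ζ => (Φ (prK ζ)).comp (A ζ))
  have hUin : ∀ Φ : C(K, E →L[ℂ] E), ∀ ζ (hζ : ζ ∈ K), U Φ ζ = (Φ ⟨ζ, hζ⟩).comp (A ζ) := by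
    intro Φ ζ hζ
    show K.indicator _ ζ = _
    rw [indicator_of_mem hζ]
    congr 2
    exact Subtype.ext (pr_of_mem hρ hζ)
  have hUm : ∀ Φ : C(K, E →L[ℂ] E), AEStronglyMeasurable (U Φ) volume := by
    intro Φ
    apply AEStronglyMeasurable.indicator _ measurableSet_closedBall
    have h1 : AEStronglyMeasurable (fun ζ => Φ (prK ζ)) volume :=
      (Φ.continuous.comp hprK).aestronglyMeasurable
    exact (ContinuousLinearMap.compL ℂ E E E).continuous₂.comp_aestronglyMeasurable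
      (h1.prodMk hA)
  have hU0 : ∀ Φ : C(K, E →L[ℂ] E), ∀ ζ, ρ < ‖ζ‖ → U Φ ζ = 0 := by
    intro Φ ζ hζ
    apply indicator_of_notMem
    show ζ ∉ closedBall (0:ℂ) ρ
    rw [mem_closedBall, dist_zero_right]
    exact not_le.2 hζ
  have hUb : ∀ Φ : C(K, E →L[ℂ] E), ∀ ζ, ‖U Φ ζ‖ ≤ ‖Φ‖ * C := by
    intro Φ ζ
    by_cases hζ : ζ ∈ K
    · rw [hUin Φ ζ hζ]
      refine (ContinuousLinearMap.opNorm_comp_le _ _).trans ?_
      exact mul_le_mul (Φ.norm_coe_le_norm _) (hb ζ (hsub hζ)) (norm_nonneg _) (norm_nonneg Φ)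
    · have : U Φ ζ = 0 := indicator_of_notMem hζ _
      rw [this, norm_zero]; positivity
  have hUl : ∀ Φ : C(K, E →L[ℂ] E), MemLp (U Φ) 3 volume := fun Φ => memLp_bdd (hUm Φ) (hU0 Φ) (hUb Φ)
  have hUsub : ∀ Φ Φ' : C(K, E →L[ℂ] E), ∀ ζ, U Φ ζ - U Φ' ζ = U (Φ - Φ') ζ := by
    intro Φ Φ' ζ
    by_cases hζ : ζ ∈ K
    · rw [hUin _ ζ hζ, hUin _ ζ hζ, hUin _ ζ hζ, ContinuousMap.sub_apply,
        ContinuousLinearMap.sub_comp]
    · have h1 : ∀ Φ : C(K, E →L[ℂ] E), U Φ ζ = 0 := fun Φ => indicator_of_notMem hζ _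
      rw [h1, h1, h1, sub_zero]
  let T : C(K, E →L[ℂ] E) → C(K, E →L[ℂ] E) := fun Φ => ⟨fun z : K => 1 - PV (U Φ) z, by
    have h1 : ContinuousOn (PV (U Φ)) K :=
      (continuousOn_PV hρ (hUl Φ) (hU0 Φ)).mono (closedBall_subset_closedBall (by linarith))
    exact continuous_const.sub (continuousOn_iff_continuous_domRestrict.1 h1)⟩
  have hPb : ∀ Φ : C(K, E →L[ℂ] E), ∀ z ∈ K, ‖PV (U Φ) z‖ ≤ (1 / 4) * ‖Φ‖ := by
    intro Φ z hz
    have h1 := norm_PV_small (ρ := ρ) (M := ‖Φ‖ * C) hρ1 (by positivity) (hUm Φ) (hU0 Φ) (hUb Φ)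
      (z := z) (by
        have : z ∈ closedBall (0:ℂ) ρ := hz
        rwa [mem_closedBall, dist_zero_right] at this)
    calc ‖PV (U Φ) z‖ ≤ kap ρ * (‖Φ‖ * C) := h1
      _ = (kap ρ * C) * ‖Φ‖ := by ring
      _ ≤ (1 / 4) * ‖Φ‖ := by gcongr
  have hT : ContractingWith (1 / 4 : ℝ≥0) T := by
    refine ⟨by rw [← NNReal.coe_lt_coe]; norm_num, ?_⟩
    apply LipschitzWith.of_dist_le_mul
    intro Φ Φ'
    rw [ContinuousMap.dist_le (by positivity)]
    intro z
    have hzz : ‖(z:ℂ)‖ ≤ ρ := by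
      have := z.2
      rwa [mem_closedBall, dist_zero_right] at this
    have h1 : (T Φ) z - (T Φ') z = -PV (U (Φ - Φ')) z := by
      have h2 : PV (U (Φ - Φ')) z = PV (U Φ) z - PV (U Φ') z := by
        rw [← PV_sub (hUl Φ) (hUl Φ') (hU0 Φ) (hU0 Φ') hzz]
        congr 1
        funext ζ
        exact (hUsub Φ Φ' ζ).symm
      rw [h2]
      show (1 - PV (U Φ) z) - (1 - PV (U Φ') z) = _
      abel
    rw [dist_eq_norm, h1, norm_neg, dist_eq_norm Φ Φ']
    have := hPb (Φ - Φ') z z.2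
    simpa using this
  let Φ := hT.fixedPoint T
  have hΦ : T Φ = Φ := hT.fixedPoint_isFixedPt
  have hΦ' : ∀ z (hz : z ∈ K), Φ ⟨z, hz⟩ = 1 - PV (U Φ) z := by
    intro z hz
    conv_lhs => rw [← hΦ]
    rfl
  have hn1 : ∀ z : K, ‖Φ z - 1‖ ≤ (1 / 4) * ‖Φ‖ := by
    intro z
    have h1 : Φ z = 1 - PV (U Φ) z := hΦ' z z.2
    rw [h1]
    have h2 : (1 - PV (U Φ) (z:ℂ)) - 1 = -PV (U Φ) z := by abel
    rw [h2, norm_neg]
    exact hPb Φ z z.2
  have hone : ‖(1 : E →L[ℂ] E)‖ ≤ 1 := ContinuousLinearMap.norm_id_le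
  have hn2 : ‖Φ‖ ≤ 4 / 3 := by
    have h1 : ‖Φ‖ ≤ 1 + (1 / 4) * ‖Φ‖ := by
      rw [ContinuousMap.norm_le _ (by positivity)]
      intro z
      calc ‖Φ z‖ = ‖1 + (Φ z - 1)‖ := by congr 1; abel
        _ ≤ ‖(1 : E →L[ℂ] E)‖ + ‖Φ z - 1‖ := norm_add_le _ _
        _ ≤ 1 + (1 / 4) * ‖Φ‖ := add_le_add hone (hn1 z)
    linarith
  refine ⟨ρ, hρ, hρr, fun ζ => Φ (prK ζ), U Φ, (Φ.continuous.comp hprK).continuousOn, ?_,
    hUl Φ, hU0 Φ, ?_, ?_⟩
  · intro z hz
    refine (hn1 _).trans ?_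
    linarith
  · intro ζ hζ
    rw [hUin Φ ζ hζ]
    congr 2
    exact (Subtype.ext (pr_of_mem hρ hζ)).symm
  · intro z hz
    have h1 : prK z = ⟨z, hz⟩ := Subtype.ext (pr_of_mem hρ hz)
    show Φ (prK z) = _
    rw [h1, hΦ' z hz]

end vec

end Crest.Agent.R235.Sim2_679
end
end

-- ▼ part R235/Sim3_679
section

/-!
Row 235, NW4 (S1), (S3): the similarity principle for vector valued functions, leading monomial,
unique continuation.
-/

set_option autoImplicit false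

noncomputable section

namespace Crest.Agent.R235.Sim3_679

open Set Metric MeasureTheory Filter Topology
open scoped ContDiff NNReal Real
open Crest.Agent.R235.CauchyV_679 Crest.Agent.R235.Sim_679 Crest.Agent.R235.Sim2_679

theorem db_clm {E F : Type*} [NormedAddCommGroup E] [NormedSpace ℂ E] [NormedAddCommGroup F]
    [NormedSpace ℂ F] (l : E →L[ℂ] F) {f : ℂ → E} {z : ℂ} (hf : DifferentiableAt ℝ f z) :
    db (fun z => l (f z)) z = l (db f z) := by
  have h1 : fderiv ℝ (fun z => l (f z)) z = (l.restrictScalars ℝ).comp (fderiv ℝ f z) :=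
    ((l.restrictScalars ℝ).hasFDerivAt.comp z hf.hasFDerivAt).fderiv
  unfold db
  rw [h1]
  simp

theorem sim_inner {E : Type*} [NormedAddCommGroup E] [InnerProductSpace ℂ E]
    [FiniteDimensional ℂ E] {f : ℂ → E} {r C : ℝ} (hr : 0 < r) (hf : ContDiffOn ℝ 1 f (ball 0 r))
    (h : ∀ z ∈ ball (0:ℂ) r, ‖db f z‖ ≤ C * ‖f z‖) :
    ∃ ρ, 0 < ρ ∧ ρ < r ∧ ∃ Ψ : ℂ → E →L[ℂ] E, ContinuousOn Ψ (closedBall 0 ρ) ∧
      (∀ z ∈ closedBall (0:ℂ) ρ, ‖Ψ z - 1‖ ≤ 1 / 2) ∧
      DifferentiableOn ℂ (fun z => Ψ z (f z)) (ball 0 ρ) := by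
  have hcs : CompleteSpace E := FiniteDimensional.complete ℂ E
  obtain ⟨g, hg, r1, hr1, hr2, hgf⟩ := exists_ext (r' := r / 2) (by linarith) (by linarith) hf
  have hdb : ∀ z ∈ ball (0:ℂ) r1, db g z = db f z := by
    intro z hz
    apply db_congr
    filter_upwards [isOpen_ball.mem_nhds hz] with w hw using hgf w hw
  have hineq : ∀ z ∈ ball (0:ℂ) r1, ‖db g z‖ ≤ C * ‖g z‖ := by
    intro z hz
    rw [hdb z hz, hgf z hz]
    exact h z (ball_subset_ball hr2.le hz)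
  set A : ℂ → E →L[ℂ] E := fun z =>
    ((‖g z‖ ^ 2)⁻¹ : ℝ) • (innerSL ℂ (g z)).smulRight (db g z) with hA
  have hA1 : ∀ z ∈ ball (0:ℂ) r1, A z (g z) = db g z := by
    intro z hz
    by_cases h2 : g z = 0
    · have h1 := hineq z hz
      rw [h2, norm_zero, mul_zero] at h1
      rw [h2, map_zero, norm_le_zero_iff.1 h1]
    · have h3 : ‖g z‖ ≠ 0 := norm_ne_zero_iff.2 h2
      simp only [hA, smul_apply, ContinuousLinearMap.smulRight_apply, innerSL_apply_apply]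
      rw [inner_self_eq_norm_sq_to_K]
      have h4 : ((‖g z‖ : ℂ) ^ 2) • db g z = ((‖g z‖ ^ 2 : ℝ)) • db g z := by
        rw [← Complex.ofReal_pow]
        exact Complex.coe_smul _ _
      rw [show ((RCLike.ofReal ‖g z‖ : ℂ) ^ 2) • db g z = ((‖g z‖ : ℂ) ^ 2) • db g z from rfl, h4,
        smul_smul, inv_mul_cancel₀ (by positivity), one_smul]
  have hA2 : ∀ z ∈ ball (0:ℂ) r1, ‖A z‖ ≤ max C 0 := by
    intro z hz
    simp only [hA]
    rw [norm_smul, ContinuousLinearMap.norm_smulRight_apply, innerSL_apply_norm, norm_inv,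
      Real.norm_of_nonneg (by positivity)]
    by_cases h2 : g z = 0
    · rw [h2]; simp
    · have h3 : 0 < ‖g z‖ := norm_pos_iff.2 h2
      rw [inv_mul_le_iff₀ (by positivity)]
      calc ‖g z‖ * ‖db g z‖ ≤ ‖g z‖ * (C * ‖g z‖) := by gcongr; exact hineq z hz
        _ = C * ‖g z‖ ^ 2 := by ring
        _ ≤ max C 0 * ‖g z‖ ^ 2 := by gcongr; exact le_max_left _ _
        _ = _ := by ring
  have hAm : AEStronglyMeasurable A volume := by
    have h1 : Measurable fun z => ((‖g z‖ ^ 2)⁻¹ : ℝ) :=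
      ((hg.continuous.norm.pow 2).measurable).inv
    have h2 : Continuous fun z => (innerSL ℂ (g z)).smulRight (db g z) := by
      have h3 : Continuous fun z => innerSL ℂ (g z) := (innerSL ℂ).continuous.comp hg.continuous
      exact (ContinuousLinearMap.smulRightL ℂ E E).continuous₂.comp
        (h3.prodMk (db_continuous hg))
    exact h1.aestronglyMeasurable.smul h2.aestronglyMeasurable
  obtain ⟨ρ, hρ, hρr, Ψ, u, h1, h2, h3, h4, h5, h6⟩ :=
    exists_sol hAm (r := r1) (C := max C 0) (by linarith) (le_max_right _ _) hA2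
  have hsub : closedBall (0:ℂ) ρ ⊆ ball 0 r1 := closedBall_subset_ball hρr
  have hcore := core hg hρ h3 h4 (Ψ := Ψ) (fun z hz => h6 z (ball_subset_closedBall hz)) (by
    intro z hz
    have hzc := ball_subset_closedBall hz
    rw [h5 z hzc, ContinuousLinearMap.comp_apply, hA1 z (hsub hzc)])
  refine ⟨ρ, hρ, hρr.trans hr2, Ψ, h1, h2, hcore.congr fun z hz => ?_⟩
  rw [hgf z (hsub (ball_subset_closedBall hz))]

section gen
variable {E : Type*} [NormedAddCommGroup E] [NormedSpace ℂ E] [FiniteDimensional ℂ E]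

/-- **similarity principle** -/
theorem sim {f : ℂ → E} {r C : ℝ} (hr : 0 < r) (hf : ContDiffOn ℝ 1 f (ball 0 r))
    (h : ∀ z ∈ ball (0:ℂ) r, ‖db f z‖ ≤ C * ‖f z‖) :
    ∃ ρ, 0 < ρ ∧ ρ < r ∧ ∃ Φ : ℂ → E →L[ℂ] E, ∃ g : ℂ → E, ContinuousOn Φ (closedBall 0 ρ) ∧
      Φ 0 = 1 ∧ (∀ z ∈ closedBall (0:ℂ) ρ, IsUnit (Φ z)) ∧ DifferentiableOn ℂ g (ball 0 ρ) ∧
      ∀ z ∈ ball (0:ℂ) ρ, f z = Φ z (g z) := by
  have hcs : CompleteSpace E := FiniteDimensional.complete ℂ E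
  let E' := EuclideanSpace ℂ (Fin (Module.finrank ℂ E))
  let e : E ≃L[ℂ] E' := ContinuousLinearEquiv.ofFinrankEq (by simp [E'])
  let C' := ‖(e : E →L[ℂ] E')‖ * (max C 0 * ‖(e.symm : E' →L[ℂ] E)‖)
  have hf' : ContDiffOn ℝ 1 (fun z => e (f z)) (ball 0 r) :=
    ((e : E →L[ℂ] E').restrictScalars ℝ).contDiff.comp_contDiffOn hf
  have hd : ∀ z ∈ ball (0:ℂ) r, DifferentiableAt ℝ f z := fun z hz =>
    (hf.differentiableOn (by norm_num)).differentiableAt (isOpen_ball.mem_nhds hz)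
  have h' : ∀ z ∈ ball (0:ℂ) r, ‖db (fun z => e (f z)) z‖ ≤ C' * ‖e (f z)‖ := by
    intro z hz
    have h1 : db (fun z => e (f z)) z = e (db f z) := db_clm (e : E →L[ℂ] E') (hd z hz)
    rw [h1]
    calc ‖e (db f z)‖ ≤ ‖(e : E →L[ℂ] E')‖ * ‖db f z‖ := (e : E →L[ℂ] E').le_opNorm _
      _ ≤ ‖(e : E →L[ℂ] E')‖ * (C * ‖f z‖) := by gcongr; exact h z hz
      _ ≤ ‖(e : E →L[ℂ] E')‖ * (max C 0 * (‖(e.symm : E' →L[ℂ] E)‖ * ‖e (f z)‖)) := by
          gcongr
          · exact le_max_left _ _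
          · have := (e.symm : E' →L[ℂ] E).le_opNorm (e (f z))
            simpa using this
      _ = C' * ‖e (f z)‖ := by ring
  obtain ⟨ρ, hρ, hρr, Ψ, h1, h2, h3⟩ := sim_inner hr hf' h'
  have hu : ∀ z ∈ closedBall (0:ℂ) ρ, IsUnit (Ψ z) := by
    intro z hz
    have h4 : IsUnit (1 - (1 - Ψ z)) := isUnit_one_sub_of_norm_lt_one (by
      rw [norm_sub_rev]
      exact (h2 z hz).trans_lt (by norm_num))
    simpa using h4
  have h0 : (0:ℂ) ∈ closedBall (0:ℂ) ρ := mem_closedBall_self hρ.le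
  have hconj : ∀ A : E' →L[ℂ] E', IsUnit A →
      IsUnit ((e.symm : E' →L[ℂ] E).comp (A.comp (e : E →L[ℂ] E'))) := by
    intro A hA
    obtain ⟨B, hB⟩ := hA
    refine ⟨⟨(e.symm : E' →L[ℂ] E).comp ((B : E' →L[ℂ] E').comp (e : E →L[ℂ] E')),
      (e.symm : E' →L[ℂ] E).comp ((↑B⁻¹ : E' →L[ℂ] E').comp (e : E →L[ℂ] E')), ?_, ?_⟩, ?_⟩
    · ext x
      have := congrArg (fun T : E' →L[ℂ] E' => T (e x)) B.mul_inv
      simp only [mul_apply_eq_comp, one_apply_eq_self] at this ⊢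
      simp [this]
    · ext x
      have := congrArg (fun T : E' →L[ℂ] E' => T (e x)) B.inv_mul
      simp only [mul_apply_eq_comp, one_apply_eq_self] at this ⊢
      simp [this]
    · rw [← hB]
  refine ⟨ρ, hρ, hρr,
    fun z => (e.symm : E' →L[ℂ] E).comp ((Ring.inverse (Ψ z) * Ψ 0).comp (e : E →L[ℂ] E')),
    fun z => e.symm (Ring.inverse (Ψ 0) (Ψ z (e (f z)))), ?_, ?_, ?_, ?_, ?_⟩
  · have h4 : ContinuousOn (fun z => Ring.inverse (Ψ z) * Ψ 0) (closedBall 0 ρ) := by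
      apply ContinuousOn.mul _ continuousOn_const
      intro z hz
      obtain ⟨U, hU⟩ := hu z hz
      have h5 := NormedRing.inverse_continuousAt U
      rw [hU] at h5
      exact ContinuousAt.comp_continuousWithinAt h5 (h1 z hz)
    have h6 : Continuous fun A : E' →L[ℂ] E' =>
        (e.symm : E' →L[ℂ] E).comp (A.comp (e : E →L[ℂ] E')) := by fun_prop
    exact h6.comp_continuousOn h4
  · have h4 : Ring.inverse (Ψ 0) * Ψ 0 = 1 := Ring.inverse_mul_cancel _ (hu 0 h0)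
    simp only [h4]
    ext x; simp
  · intro z hz
    apply hconj
    exact ((isUnit_ringInverse.2 (hu z hz))).mul (hu 0 h0)
  · have h4 := ((Ring.inverse (Ψ 0)).differentiable.comp_differentiableOn h3)
    exact (e.symm : E' →L[ℂ] E).differentiable.comp_differentiableOn h4
  · intro z hz
    have hz' := ball_subset_closedBall hz
    have h4 : Ring.inverse (Ψ z) * Ψ z = 1 := Ring.inverse_mul_cancel _ (hu z hz')
    have h5 : Ψ 0 * Ring.inverse (Ψ 0) = 1 := Ring.mul_inverse_cancel _ (hu 0 h0)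
    have h6 : (Ring.inverse (Ψ z) * Ψ 0) (Ring.inverse (Ψ 0) (Ψ z (e (f z)))) = e (f z) := by
      have h7 : (Ring.inverse (Ψ z) * Ψ 0 * (Ring.inverse (Ψ 0) * Ψ z)) = 1 := by
        rw [mul_assoc, ← mul_assoc (Ψ 0), h5, one_mul, h4]
      have h8 := congrArg (fun T : E' →L[ℂ] E' => T (e (f z))) h7
      simpa using h8
    simp only [ContinuousLinearMap.comp_apply, ContinuousLinearEquiv.coe_coe,
      ContinuousLinearEquiv.apply_symm_apply]
    rw [h6]
    simp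

/-- leading monomial at `0` -/
theorem lead0 {f : ℂ → E} {r C : ℝ} (hr : 0 < r) (hf : ContDiffOn ℝ 1 f (ball 0 r))
    (h : ∀ z ∈ ball (0:ℂ) r, ‖db f z‖ ≤ C * ‖f z‖) :
    (∀ᶠ z in 𝓝 (0:ℂ), f z = 0) ∨ ∃ (k : ℕ) (G : ℂ → E), ContinuousAt G 0 ∧ G 0 ≠ 0 ∧
      ∀ᶠ z in 𝓝 (0:ℂ), f z = z ^ k • G z := by
  obtain ⟨ρ, hρ, hρr, Φ, g, h1, h2, h3, h4, h5⟩ := sim hr hf h
  have hcs : CompleteSpace E := FiniteDimensional.complete ℂ E
  have hball : ball (0:ℂ) ρ ∈ 𝓝 (0:ℂ) := isOpen_ball.mem_nhds (mem_ball_self hρ)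
  have hg : AnalyticAt ℂ g 0 := h4.analyticAt hball
  by_cases hz : ∀ᶠ z in 𝓝 (0:ℂ), g z = 0
  · left
    filter_upwards [hz, hball] with z hz1 hz2
    rw [h5 z hz2, hz1, map_zero]
  · right
    obtain ⟨k, G, hG1, hG2, hG3⟩ := (hg.exists_eventuallyEq_pow_smul_nonzero_iff).2 hz
    have hΦ : ContinuousAt Φ 0 := h1.continuousAt (closedBall_mem_nhds _ hρ)
    refine ⟨k, fun z => Φ z (G z), hΦ.clm_apply hG1.continuousAt, ?_, ?_⟩
    · show Φ 0 (G 0) ≠ 0
      rw [h2]; exact hG2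
    · filter_upwards [hG3, hball] with z hz1 hz2
      rw [h5 z hz2, hz1, sub_zero, map_smul]

/-- the pointwise hypothesis: `‖∂̄ f‖ ≤ C ‖f‖` near `z₀` -/
def Sub (f : ℂ → E) (z₀ : ℂ) : Prop := ∃ C : ℝ, ∀ᶠ z in 𝓝 z₀, ‖db f z‖ ≤ C * ‖f z‖

theorem lead {f : ℂ → E} {z₀ : ℂ} (hf : ContDiffAt ℝ 1 f z₀) (h : Sub f z₀) :
    (∀ᶠ z in 𝓝 z₀, f z = 0) ∨ ∃ (k : ℕ) (G : ℂ → E), ContinuousAt G z₀ ∧ G z₀ ≠ 0 ∧
      ∀ᶠ z in 𝓝 z₀, f z = (z - z₀) ^ k • G z := by
  obtain ⟨C, hC⟩ := h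
  have h1 : ∀ᶠ z in 𝓝 z₀, ContDiffAt ℝ 1 f z := hf.eventually (by norm_num)
  obtain ⟨r, hr, hr'⟩ := Metric.eventually_nhds_iff_ball.1 (h1.and hC)
  have ht : ∀ z : ℂ, z ∈ ball (0:ℂ) r → z₀ + z ∈ ball z₀ r := by
    intro z hz
    rw [mem_ball, dist_eq_norm] at hz ⊢
    simpa using hz
  have hf' : ContDiffOn ℝ 1 (fun z => f (z₀ + z)) (ball 0 r) := by
    intro z hz
    have h2 := (hr' _ (ht z hz)).1
    exact (h2.comp z (contDiffAt_const.add contDiffAt_id)).contDiffWithinAt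
  have hdb : ∀ z ∈ ball (0:ℂ) r, db (fun z => f (z₀ + z)) z = db f (z₀ + z) := by
    intro z hz
    have h2 := ((hr' _ (ht z hz)).1).differentiableAt (by norm_num)
    have h3 : fderiv ℝ (fun z => f (z₀ + z)) z = fderiv ℝ f (z₀ + z) := by
      exact fderiv_comp_add_left z₀
    unfold db
    rw [h3]
  rcases lead0 (C := C) hr hf' (by
    intro z hz
    rw [hdb z hz]
    exact (hr' _ (ht z hz)).2) with h4 | ⟨k, G, hG1, hG2, hG3⟩
  · left
    have h5 : Tendsto (fun z : ℂ => z - z₀) (𝓝 z₀) (𝓝 0) := by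
      have h6 : Continuous fun z : ℂ => z - z₀ := by fun_prop
      have h7 := h6.tendsto z₀
      rw [sub_self] at h7
      exact h7
    filter_upwards [h5.eventually h4] with z hz
    simpa using hz
  · right
    have h5 : Tendsto (fun z : ℂ => z - z₀) (𝓝 z₀) (𝓝 0) := by
      have h6 : Continuous fun z : ℂ => z - z₀ := by fun_prop
      have h7 := h6.tendsto z₀
      rw [sub_self] at h7
      exact h7
    refine ⟨k, fun z => G (z - z₀), ?_, by simpa using hG2, ?_⟩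
    · have h6 : ContinuousAt G (z₀ - z₀) := by rw [sub_self]; exact hG1
      exact ContinuousAt.comp (f := fun z => z - z₀) h6 (by fun_prop)
    · filter_upwards [h5.eventually hG3] with z hz
      simpa using hz

theorem isolated {f : ℂ → E} {z₀ : ℂ} (hf : ContDiffAt ℝ 1 f z₀) (h : Sub f z₀) :
    (∀ᶠ z in 𝓝 z₀, f z = 0) ∨ ∀ᶠ z in 𝓝[≠] z₀, f z ≠ 0 := by
  rcases lead hf h with h1 | ⟨k, G, hG1, hG2, hG3⟩
  · exact Or.inl h1
  · right
    have h2 : ∀ᶠ z in 𝓝 z₀, G z ≠ 0 := hG1.eventually_ne hG2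
    filter_upwards [nhdsWithin_le_nhds h2, nhdsWithin_le_nhds hG3, self_mem_nhdsWithin] with z h3 h4 h5
    rw [h4]
    exact smul_ne_zero (pow_ne_zero _ (sub_ne_zero.2 h5)) h3



end gen

end Crest.Agent.R235.Sim3_679
end
end

-- ▼ part R235/SimJ_679

/-!
Row 235, NW4 (S2): similarity principle for `∂_s w + J(z) ∂_t w = O(|w|)`; differences of
`J`-holomorphic discs.
-/

set_option autoImplicit false

noncomputable section

namespace Crest.Agent.R235.SimJ_679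

open Set Metric MeasureTheory Filter Topology Asymptotics
open scoped ContDiff NNReal Real
open Crest.Agent.R235.CauchyV_679 Crest.Agent.R235.Sim_679 Crest.Agent.R235.Sim2_679
open Crest.Agent.R235.Sim3_679

/-! ### complex structures on real spaces -/

theorem cplx_aux {E : Type*} [AddCommGroup E] [Module ℝ E] [FiniteDimensional ℝ E] [Module ℂ E]
    [IsScalarTower ℝ ℂ E] :
    ∃ n : ℕ, ∃ L : E ≃ₗ[ℝ] (EuclideanSpace ℂ (Fin n)), ∀ x, L (Complex.I • x) = Complex.I • L x := by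
  have h1 : FiniteDimensional ℂ E := Module.Finite.of_restrictScalars_finite ℝ ℂ E
  let b := Module.finBasis ℂ E
  let L : E ≃ₗ[ℂ] (Fin (Module.finrank ℂ E) → ℂ) := b.equivFun
  let L' : E ≃ₗ[ℂ] EuclideanSpace ℂ (Fin (Module.finrank ℂ E)) :=
    L.trans (EuclideanSpace.equiv (Fin (Module.finrank ℂ E)) ℂ).symm.toLinearEquiv
  refine ⟨Module.finrank ℂ E, L'.restrictScalars ℝ, fun x => ?_⟩
  exact map_smul L' _ _

variable {E : Type*} [NormedAddCommGroup E] [NormedSpace ℝ E]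

/-- the action of `c ∈ ℂ` through `J` -/
def act (J : E →L[ℝ] E) (c : ℂ) : E →L[ℝ] E := c.re • ContinuousLinearMap.id ℝ E + c.im • J

theorem act_apply (J : E →L[ℝ] E) (c : ℂ) (x : E) : act J c x = c.re • x + c.im • J x := rfl

theorem exists_cplx [FiniteDimensional ℝ E] (J : E →L[ℝ] E) (hJ : ∀ x, J (J x) = -x) :
    ∃ n : ℕ, ∃ L : E ≃L[ℝ] EuclideanSpace ℂ (Fin n), ∀ x, L (J x) = Complex.I • L x := by
  have hJ' : (J : E →ₗ[ℝ] E) * (J : E →ₗ[ℝ] E) = -1 := by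
    ext x
    exact hJ x
  let A : ℂ →ₐ[ℝ] Module.End ℝ E := Complex.lift ⟨(J : E →ₗ[ℝ] E), hJ'⟩
  let m : Module ℂ E := Module.compHom E (A : ℂ →+* Module.End ℝ E)
  have hs : ∀ (c : ℂ) (x : E), m.smul c x = A c x := fun c x => rfl
  have ht : @IsScalarTower ℝ ℂ E _ m.toSMul _ := by
    refine @IsScalarTower.mk ℝ ℂ E _ m.toSMul _ ?_
    intro r c x
    show A (r • c) x = r • (A c x)
    rw [map_smul]
    rfl
  obtain ⟨n, L, hL⟩ := @cplx_aux E _ _ _ m ht
  refine ⟨n, L.toContinuousLinearEquiv, fun x => ?_⟩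
  have h1 := hL x
  have h2 : m.smul Complex.I x = J x := by
    rw [hs]
    show (Complex.liftAux (J : E →ₗ[ℝ] E) hJ' : ℂ →ₐ[ℝ] Module.End ℝ E) Complex.I x = J x
    rw [Complex.liftAux_apply_I]
    rfl
  have h3 : L (m.smul Complex.I x) = Complex.I • L x := h1
  rw [h2] at h3
  exact h3

theorem L_act {n : ℕ} {J : E →L[ℝ] E} (L : E ≃L[ℝ] EuclideanSpace ℂ (Fin n))
    (hL : ∀ x, L (J x) = Complex.I • L x) (c : ℂ) (x : E) : L (act J c x) = c • L x := by
  rw [act_apply, map_add, map_smul, map_smul, hL]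
  conv_rhs => rw [← Complex.re_add_im c, add_smul, mul_smul]
  rw [Complex.coe_smul, Complex.coe_smul]

theorem bdd_near {X Y : Type*} [TopologicalSpace X] [SeminormedAddCommGroup Y] {f : X → Y} {x : X}
    (h : ContinuousAt f x) : ∃ M : ℝ, 0 ≤ M ∧ ∀ᶠ y in 𝓝 x, ‖f y‖ ≤ M := by
  refine ⟨‖f x‖ + 1, by positivity, ?_⟩
  filter_upwards [h.norm.eventually (gt_mem_nhds (lt_add_one ‖f x‖))] with y hy using hy.le

/-! ### the main theorem -/

/-- the hypothesis `‖∂_s w + J(z) ∂_t w‖ ≤ C ‖w‖` near `z₀` -/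
def SubJ (J : ℂ → E →L[ℝ] E) (w : ℂ → E) (z₀ : ℂ) : Prop :=
  ∃ C : ℝ, ∀ᶠ z in 𝓝 z₀, ‖fderiv ℝ w z 1 + J z (fderiv ℝ w z Complex.I)‖ ≤ C * ‖w z‖

theorem leadJ [FiniteDimensional ℝ E] {J : ℂ → E →L[ℝ] E} {w : ℂ → E} {z₀ : ℂ}
    (hJ : ContDiffAt ℝ 1 J z₀) (hJ2 : ∀ᶠ z in 𝓝 z₀, ∀ x, J z (J z x) = -x)
    (hw : ContDiffAt ℝ 1 w z₀) (h : SubJ J w z₀) :
    (∀ᶠ z in 𝓝 z₀, w z = 0) ∨ ∃ (k : ℕ) (G : ℂ → E), ContinuousAt G z₀ ∧ G z₀ ≠ 0 ∧
      ∀ᶠ z in 𝓝 z₀, w z = act (J z) ((z - z₀) ^ k) (G z) := by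
  have hcs : CompleteSpace E := FiniteDimensional.complete ℝ E
  obtain ⟨C, hC⟩ := h
  have hJ0 : ∀ x, J z₀ (J z₀ x) = -x := hJ2.self_of_nhds
  set Ps : ℂ → E →L[ℝ] E := fun z => (2:ℝ)⁻¹ • (1 - (J z).comp (J z₀)) with hPs
  have hPsC : ContDiffAt ℝ 1 Ps z₀ := by
    have h1 : ContDiffAt ℝ 1 (fun z => (J z).comp (J z₀)) z₀ := hJ.clm_comp contDiffAt_const
    exact (contDiffAt_const.sub h1).const_smul _
  have hPs0 : Ps z₀ = 1 := by
    ext x
    simp only [hPs, smul_apply, sub_apply, one_apply_eq_self, ContinuousLinearMap.comp_apply, hJ0]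
    rw [sub_neg_eq_add, ← two_smul ℝ x, smul_smul]
    norm_num
  have hint : ∀ᶠ z in 𝓝 z₀, ∀ x, J z (Ps z x) = Ps z (J z₀ x) := by
    filter_upwards [hJ2] with z hz x
    simp only [hPs, smul_apply, sub_apply, one_apply_eq_self, ContinuousLinearMap.comp_apply, hJ0,
      map_smul, map_sub, map_neg, hz]
    congr 1
    abel
  have hone : IsUnit (Ps z₀) := by rw [hPs0]; exact isUnit_one
  have hunit : ∀ᶠ z in 𝓝 z₀, IsUnit (Ps z) := by
    obtain ⟨U, hU⟩ := hone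
    have h1 : {T : E →L[ℝ] E | IsUnit T} ∈ 𝓝 (Ps z₀) := by
      rw [← hU]; exact Units.isOpen.mem_nhds U.isUnit
    exact hPsC.continuousAt.eventually h1
  have hinv : ContDiffAt ℝ 1 (fun z => Ring.inverse (Ps z)) z₀ := by
    obtain ⟨U, hU⟩ := hone
    have h1 : ContDiffAt ℝ 1 Ring.inverse (Ps z₀) := by
      rw [← hU]; exact contDiffAt_ringInverse ℝ U
    exact h1.comp z₀ hPsC
  set y : ℂ → E := fun z => Ring.inverse (Ps z) (w z) with hy
  have hyC : ContDiffAt ℝ 1 y z₀ := hinv.clm_apply hw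
  have hwy : ∀ᶠ z in 𝓝 z₀, w z = Ps z (y z) := by
    filter_upwards [hunit] with z hz
    have h1 : Ps z * Ring.inverse (Ps z) = 1 := Ring.mul_inverse_cancel _ hz
    have h2 := congrArg (fun T : E →L[ℝ] E => T (w z)) h1
    simpa using h2.symm
  -- bounds
  obtain ⟨M1, hM1, hM1'⟩ := bdd_near hinv.continuousAt
  obtain ⟨M2, hM2, hM2'⟩ := bdd_near hPsC.continuousAt
  obtain ⟨M3, hM3, hM3'⟩ := bdd_near hJ.continuousAt
  obtain ⟨M4, hM4, hM4'⟩ := bdd_near (f := fun z => fderiv ℝ Ps z)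
    ((hPsC.fderiv_right (m := 0) (by norm_num)).continuousAt)
  have hyd : ∀ᶠ z in 𝓝 z₀, DifferentiableAt ℝ y z := by
    filter_upwards [hyC.eventually (by norm_num)] with z hz using hz.differentiableAt (by norm_num)
  have hPd : ∀ᶠ z in 𝓝 z₀, DifferentiableAt ℝ Ps z := by
    filter_upwards [hPsC.eventually (by norm_num)] with z hz using hz.differentiableAt (by norm_num)
  have hder : ∀ᶠ z in 𝓝 z₀, ∀ v : ℂ,
      fderiv ℝ w z v = (fderiv ℝ Ps z v) (y z) + Ps z (fderiv ℝ y z v) := by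
    filter_upwards [hwy.eventually_nhds, hyd, hPd] with z h1 h2 h3 v
    have h4 : fderiv ℝ w z = fderiv ℝ (fun z => Ps z (y z)) z := Filter.EventuallyEq.fderiv_eq h1
    rw [h4, fderiv_clm_apply h3 h2]
    simp only [add_apply, ContinuousLinearMap.comp_apply, ContinuousLinearMap.flip_apply]
    abel
  have hyb : ∃ C' : ℝ, 0 ≤ C' ∧ ∀ᶠ z in 𝓝 z₀,
      ‖fderiv ℝ y z 1 + J z₀ (fderiv ℝ y z Complex.I)‖ ≤ C' * ‖y z‖ := by
    refine ⟨M1 * (max C 0 * M2 + (M4 + M3 * M4)), by positivity, ?_⟩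
    filter_upwards [hC, hM1', hM2', hM3', hM4', hder, hint, hunit, hwy] with z h1 h2 h3 h4 h5 h6 h7
      h8 h9
    have h10 : fderiv ℝ y z 1 + J z₀ (fderiv ℝ y z Complex.I) = Ring.inverse (Ps z)
        ((fderiv ℝ w z 1 + J z (fderiv ℝ w z Complex.I)) -
          ((fderiv ℝ Ps z 1) (y z) + J z ((fderiv ℝ Ps z Complex.I) (y z)))) := by
      have h11 : (fderiv ℝ w z 1 + J z (fderiv ℝ w z Complex.I)) -
          ((fderiv ℝ Ps z 1) (y z) + J z ((fderiv ℝ Ps z Complex.I) (y z))) =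
          Ps z (fderiv ℝ y z 1 + J z₀ (fderiv ℝ y z Complex.I)) := by
        rw [h6, h6, map_add, h7, map_add]
        abel
      rw [h11]
      have h12 : Ring.inverse (Ps z) * Ps z = 1 := Ring.inverse_mul_cancel _ h8
      have h13 := congrArg
        (fun T : E →L[ℝ] E => T (fderiv ℝ y z 1 + J z₀ (fderiv ℝ y z Complex.I))) h12
      simpa using h13.symm
    rw [h10]
    have hw1 : ‖w z‖ ≤ M2 * ‖y z‖ := by
      rw [h9]; exact (ContinuousLinearMap.le_opNorm _ _).trans (by gcongr)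
    have hP1 : ∀ v : ℂ, ‖v‖ ≤ 1 → ‖(fderiv ℝ Ps z v) (y z)‖ ≤ M4 * ‖y z‖ := by
      intro v hv
      refine (ContinuousLinearMap.le_opNorm _ _).trans ?_
      gcongr
      calc ‖fderiv ℝ Ps z v‖ ≤ ‖fderiv ℝ Ps z‖ * ‖v‖ := ContinuousLinearMap.le_opNorm _ _
        _ ≤ M4 * 1 := by gcongr
        _ = M4 := mul_one _
    calc _ ≤ ‖Ring.inverse (Ps z)‖ * ‖(fderiv ℝ w z 1 + J z (fderiv ℝ w z Complex.I)) -
          ((fderiv ℝ Ps z 1) (y z) + J z ((fderiv ℝ Ps z Complex.I) (y z)))‖ :=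
          ContinuousLinearMap.le_opNorm _ _
      _ ≤ M1 * (max C 0 * (M2 * ‖y z‖) + (M4 * ‖y z‖ + M3 * (M4 * ‖y z‖))) := by
          gcongr
          refine (norm_sub_le _ _).trans ?_
          gcongr
          · refine h1.trans ?_
            gcongr
            exact le_max_left _ _
          · refine (norm_add_le _ _).trans ?_
            gcongr
            · exact hP1 1 (by simp)
            · refine (ContinuousLinearMap.le_opNorm _ _).trans ?_
              gcongr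
              exact hP1 Complex.I (by simp)
      _ = _ := by ring
  obtain ⟨C', hC', hyb⟩ := hyb
  obtain ⟨n, L, hL⟩ := exists_cplx (J z₀) hJ0
  have hvC : ContDiffAt ℝ 1 (fun z => L (y z)) z₀ :=
    (L : E →L[ℝ] EuclideanSpace ℂ (Fin n)).contDiff.contDiffAt.comp z₀ hyC
  have hsub : Sub (fun z => L (y z)) z₀ := by
    refine ⟨‖(L : E →L[ℝ] EuclideanSpace ℂ (Fin n))‖ *
      (C' * ‖(L.symm : EuclideanSpace ℂ (Fin n) →L[ℝ] E)‖), ?_⟩
    filter_upwards [hyb, hyd] with z h1 h2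
    have h3 : fderiv ℝ (fun z => L (y z)) z =
        (L : E →L[ℝ] EuclideanSpace ℂ (Fin n)).comp (fderiv ℝ y z) :=
      ((L : E →L[ℝ] EuclideanSpace ℂ (Fin n)).hasFDerivAt.comp z h2.hasFDerivAt).fderiv
    have h4 : db (fun z => L (y z)) z =
        (2:ℂ)⁻¹ • L (fderiv ℝ y z 1 + J z₀ (fderiv ℝ y z Complex.I)) := by
      unfold db
      rw [h3, map_add, hL]
      rfl
    rw [h4, norm_smul]
    have h5 : ‖y z‖ ≤ ‖(L.symm : EuclideanSpace ℂ (Fin n) →L[ℝ] E)‖ * ‖L (y z)‖ := by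
      have := (L.symm : EuclideanSpace ℂ (Fin n) →L[ℝ] E).le_opNorm (L (y z))
      simpa using this
    calc ‖(2:ℂ)⁻¹‖ * ‖L (fderiv ℝ y z 1 + J z₀ (fderiv ℝ y z Complex.I))‖
        ≤ 1 * (‖(L : E →L[ℝ] EuclideanSpace ℂ (Fin n))‖ *
          ‖fderiv ℝ y z 1 + J z₀ (fderiv ℝ y z Complex.I)‖) := by
          gcongr
          · norm_num
          · exact (L : E →L[ℝ] EuclideanSpace ℂ (Fin n)).le_opNorm _
      _ ≤ 1 * (‖(L : E →L[ℝ] EuclideanSpace ℂ (Fin n))‖ *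
          (C' * (‖(L.symm : EuclideanSpace ℂ (Fin n) →L[ℝ] E)‖ * ‖L (y z)‖))) := by
          gcongr
          exact h1.trans (by gcongr)
      _ = _ := by ring
  rcases lead hvC hsub with h1 | ⟨k, G, hG1, hG2, hG3⟩
  · left
    filter_upwards [h1, hwy] with z h2 h3
    have h4 : y z = 0 := by simpa using h2
    rw [h3, h4, map_zero]
  · right
    refine ⟨k, fun z => Ps z (L.symm (G z)), ?_, ?_, ?_⟩
    · exact hPsC.continuousAt.clm_apply (L.symm.continuous.continuousAt.comp hG1)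
    · show Ps z₀ (L.symm (G z₀)) ≠ 0
      rw [hPs0]
      simpa using hG2
    · filter_upwards [hG3, hwy, hint] with z h2 h3 h4
      have h5 : y z = act (J z₀) ((z - z₀) ^ k) (L.symm (G z)) := by
        apply L.injective
        rw [L_act L hL]
        simpa using h2
      rw [h3, h5, act_apply, act_apply, map_add, map_smul, map_smul, h4]



/-- leading term with the constant structure `J z₀` -/
theorem leadJ_o [FiniteDimensional ℝ E] {J : ℂ → E →L[ℝ] E} {w : ℂ → E} {z₀ : ℂ}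
    (hJ : ContDiffAt ℝ 1 J z₀) (hJ2 : ∀ᶠ z in 𝓝 z₀, ∀ x, J z (J z x) = -x)
    (hw : ContDiffAt ℝ 1 w z₀) (h : SubJ J w z₀) :
    (∀ᶠ z in 𝓝 z₀, w z = 0) ∨ ∃ (k : ℕ) (a : E), a ≠ 0 ∧
      (fun z => w z - act (J z₀) ((z - z₀) ^ k) a) =o[𝓝 z₀] (fun z => (z - z₀) ^ k) := by
  rcases leadJ hJ hJ2 hw h with h1 | ⟨k, G, hG1, hG2, hG3⟩
  · exact Or.inl h1
  · right
    refine ⟨k, G z₀, hG2, ?_⟩
    have h1 : (fun z => w z - act (J z₀) ((z - z₀) ^ k) (G z₀)) =ᶠ[𝓝 z₀]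
        fun z => ((z - z₀) ^ k).re • (G z - G z₀) +
          ((z - z₀) ^ k).im • (J z (G z) - J z₀ (G z₀)) := by
      filter_upwards [hG3] with z hz
      rw [hz, act_apply, act_apply]
      module
    refine h1.trans_isLittleO ?_
    have h2 : (fun z => G z - G z₀) =o[𝓝 z₀] (fun _ => (1:ℝ)) := by
      rw [isLittleO_one_iff]
      have := hG1.sub (continuousAt_const (y := G z₀))
      have h3 : Tendsto (fun z => G z - G z₀) (𝓝 z₀) (𝓝 (G z₀ - G z₀)) := this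
      rwa [sub_self] at h3
    have h4 : (fun z => J z (G z) - J z₀ (G z₀)) =o[𝓝 z₀] (fun _ => (1:ℝ)) := by
      rw [isLittleO_one_iff]
      have h5 : ContinuousAt (fun z => J z (G z)) z₀ := hJ.continuousAt.clm_apply hG1
      have h3 : Tendsto (fun z => J z (G z) - J z₀ (G z₀)) (𝓝 z₀) (𝓝 (J z₀ (G z₀) - J z₀ (G z₀))) :=
        h5.sub (continuousAt_const (y := J z₀ (G z₀)))
      rwa [sub_self] at h3
    have h5 : (fun z : ℂ => ((z - z₀) ^ k).re) =O[𝓝 z₀] (fun z => (z - z₀) ^ k) :=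
      IsBigO.of_bound 1 (Eventually.of_forall fun z => by
        rw [one_mul, Real.norm_eq_abs]; exact Complex.abs_re_le_norm _)
    have h6 : (fun z : ℂ => ((z - z₀) ^ k).im) =O[𝓝 z₀] (fun z => (z - z₀) ^ k) :=
      IsBigO.of_bound 1 (Eventually.of_forall fun z => by
        rw [one_mul, Real.norm_eq_abs]; exact Complex.abs_im_le_norm _)
    have h7 : (fun z : ℂ => ((z - z₀) ^ k).re • (G z - G z₀)) =o[𝓝 z₀] (fun z => (z - z₀) ^ k) := by
      have := h5.norm_right.smul_isLittleO h2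
      simp only [smul_eq_mul, mul_one] at this
      exact this.of_norm_right
    have h8 : (fun z : ℂ => ((z - z₀) ^ k).im • (J z (G z) - J z₀ (G z₀))) =o[𝓝 z₀]
        (fun z => (z - z₀) ^ k) := by
      have := h6.norm_right.smul_isLittleO h4
      simp only [smul_eq_mul, mul_one] at this
      exact this.of_norm_right
    exact h7.add h8


/-! ### differences of `J`-discs -/

/-- the difference of two `J`-discs -/
theorem diff_subJ {J : E → E →L[ℝ] E} {u v : ℂ → E} {z₀ : ℂ}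
    (hJ : ContDiffAt ℝ 1 J (u z₀)) (hJ2 : ∀ᶠ x in 𝓝 (u z₀), ∀ y, J x (J x y) = -y)
    (hJ2' : ∀ᶠ x in 𝓝 (v z₀), ∀ y, J x (J x y) = -y) (hJv : ContinuousAt J (v z₀))
    (hu : ContDiffAt ℝ 1 u z₀) (hv : ContDiffAt ℝ 1 v z₀)
    (hu' : ∀ᶠ z in 𝓝 z₀, fderiv ℝ u z Complex.I = J (u z) (fderiv ℝ u z 1))
    (hv' : ∀ᶠ z in 𝓝 z₀, fderiv ℝ v z Complex.I = J (v z) (fderiv ℝ v z 1)) :
    SubJ (fun z => J (u z)) (fun z => u z - v z) z₀ := by
  have hfd : ∀ {f : ℂ → E}, ContDiffAt ℝ 1 f z₀ → ∀ᶠ z in 𝓝 z₀, DifferentiableAt ℝ f z := by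
    intro f hf
    filter_upwards [hf.eventually (by norm_num)] with z hz using hz.differentiableAt (by norm_num)
  obtain ⟨M, hM, hM'⟩ := bdd_near (f := fun z => fderiv ℝ v z)
    ((hv.fderiv_right (m := 0) (by norm_num)).continuousAt)
  -- the identity
  have hid : ∀ᶠ z in 𝓝 z₀, fderiv ℝ (fun z => u z - v z) z 1 +
      J (u z) (fderiv ℝ (fun z => u z - v z) z Complex.I) =
      -((J (u z) - J (v z)) (fderiv ℝ v z Complex.I)) := by
    filter_upwards [hfd hu, hfd hv, hu', hv', hu.continuousAt.eventually hJ2,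
      hv.continuousAt.eventually hJ2'] with z h1 h2 h3 h4 h5 h6
    have h7 : fderiv ℝ (fun z => u z - v z) z = fderiv ℝ u z - fderiv ℝ v z := fderiv_sub h1 h2
    rw [h7]
    simp only [sub_apply]
    have h8 : J (u z) (fderiv ℝ u z Complex.I) = -fderiv ℝ u z 1 := by rw [h3, h5]
    have h9 : J (v z) (fderiv ℝ v z Complex.I) = -fderiv ℝ v z 1 := by rw [h4, h6]
    rw [map_sub, h8, h9]
    abel
  by_cases h0 : u z₀ = v z₀
  · -- Lipschitz estimate of `J`
    obtain ⟨K, s, hs, hK⟩ := hJ.exists_lipschitzOnWith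
    have h1 : ∀ᶠ z in 𝓝 z₀, u z ∈ s := hu.continuousAt hs
    have h2 : ∀ᶠ z in 𝓝 z₀, v z ∈ s := by
      rw [h0] at hs
      exact hv.continuousAt hs
    refine ⟨K * M, ?_⟩
    filter_upwards [hid, h1, h2, hM'] with z h3 h4 h5 h6
    rw [h3, norm_neg]
    have h7 : ‖J (u z) - J (v z)‖ ≤ K * ‖u z - v z‖ := by
      have := hK.dist_le_mul _ h4 _ h5
      simpa [dist_eq_norm] using this
    calc ‖(J (u z) - J (v z)) (fderiv ℝ v z Complex.I)‖
        ≤ ‖J (u z) - J (v z)‖ * ‖fderiv ℝ v z Complex.I‖ := ContinuousLinearMap.le_opNorm _ _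
      _ ≤ (K * ‖u z - v z‖) * (M * 1) := by
          gcongr
          refine (ContinuousLinearMap.le_opNorm _ _).trans ?_
          gcongr
          simp
      _ = _ := by ring
  · -- `u - v` does not vanish
    obtain ⟨M1, hM1, hM1'⟩ := bdd_near (f := fun z => J (u z) - J (v z))
      ((hJ.continuousAt.comp hu.continuousAt).sub (hJv.comp hv.continuousAt))
    have h1 : 0 < ‖u z₀ - v z₀‖ := norm_pos_iff.2 (sub_ne_zero.2 h0)
    have h2 : ∀ᶠ z in 𝓝 z₀, ‖u z₀ - v z₀‖ / 2 < ‖u z - v z‖ :=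
      ((hu.continuousAt.sub hv.continuousAt).norm).eventually (lt_mem_nhds (by
        show ‖u z₀ - v z₀‖ / 2 < ‖u z₀ - v z₀‖
        linarith))
    refine ⟨M1 * M * (2 / ‖u z₀ - v z₀‖), ?_⟩
    filter_upwards [hid, h2, hM', hM1'] with z h3 h4 h5 h6
    rw [h3, norm_neg]
    calc ‖(J (u z) - J (v z)) (fderiv ℝ v z Complex.I)‖
        ≤ ‖J (u z) - J (v z)‖ * ‖fderiv ℝ v z Complex.I‖ := ContinuousLinearMap.le_opNorm _ _
      _ ≤ M1 * (M * 1) := by
          gcongr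
          refine (ContinuousLinearMap.le_opNorm _ _).trans ?_
          gcongr
          simp
      _ = M1 * M * (2 / ‖u z₀ - v z₀‖) * (‖u z₀ - v z₀‖ / 2) := by field_simp
      _ ≤ M1 * M * (2 / ‖u z₀ - v z₀‖) * ‖u z - v z‖ := by gcongr



/-! ### (S4) the index of a zero -/


end Crest.Agent.R235.SimJ_679
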