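import Crest.Agent.R235.NWJ2_130
import Mathlib
import Crest.Agent.R235.SimJ_679
import Crest.Agent.R235.BrNF_266

-- ▼ part R235/FBoxA_130
section

/-!
# Row 235 (S0364), PACKAGE ADJ, leaf FBOX, part A (helper130)

* `exists_LD`  : inverse function theorem on a ball, with all the derived data;
* `fol_norm`   : normalisation of the foliations of `FolStmt`: `J`-holomorphic leaves, complex linear
  differential at `0`, finitely many given directions are not vertical;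
* `planar`     : the same in a four-dimensional real vector space with an almost complex structure.
-/

set_option autoImplicit false
set_option maxSynthPendingDepth 3

open Set Filter Metric Topology
open scoped ContDiff Real NNReal ENNReal

namespace Crest.Agent.R235.FBoxA_130

open Crest.Agent.R235.NWDefs_334 Crest.Agent.R235.NWJ_130 Crest.Agent.R235.NWJ2_130

noncomputable section

/-! ### inverse functions -/

section inv

variable {V W : Type*} [NormedAddCommGroup V] [NormedSpace ℝ V] [CompleteSpace V]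
  [NormedAddCommGroup W] [NormedSpace ℝ W]

/-- `Θ = G` is a diffeomorphism of `ball 0 R`. -/
structure LD (G : V → W) (Θ : OpenPartialHomeomorph V W) (R : ℝ) : Prop where
  pos : 0 < R
  source : Θ.source = ball 0 R
  eq : ∀ x, Θ x = G x
  smooth : ∀ x ∈ ball (0 : V) R, ContDiffAt ℝ ∞ G x
  smooth_symm : ∀ y ∈ Θ.target, ContDiffAt ℝ ∞ Θ.symm y
  inv : ∀ x ∈ ball (0 : V) R, ∀ y, fderiv ℝ Θ.symm (G x) (fderiv ℝ G x y) = y
  inv' : ∀ x ∈ ball (0 : V) R, ∀ y, fderiv ℝ G x (fderiv ℝ Θ.symm (G x) y) = y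

theorem exists_LD {G : V → W} (hG : ∀ᶠ x in 𝓝 (0 : V), ContDiffAt ℝ ∞ G x) (P : V ≃L[ℝ] W)
    (hP : HasFDerivAt G (P : V →L[ℝ] W) 0) {N : Set V} (hN : N ∈ 𝓝 (0 : V)) :
    ∃ (Θ : OpenPartialHomeomorph V W) (R : ℝ), LD G Θ R ∧ ball (0 : V) R ⊆ N := by
  have hsm0 : ContDiffAt ℝ ∞ G 0 := hG.self_of_nhds
  let Φ := hsm0.toOpenPartialHomeomorph G hP (by simp)
  have hΦs : (0 : V) ∈ Φ.source := hsm0.mem_toOpenPartialHomeomorph_source hP (by simp)
  have hopen : ∀ᶠ x in 𝓝 (0 : V), x ∈ Φ.source ∧ x ∈ N ∧ ContDiffAt ℝ ∞ G x ∧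
      fderiv ℝ G x ∈ Set.range (fun e : V ≃L[ℝ] W => (e : V →L[ℝ] W)) := by
    have hS : ∀ᶠ x in 𝓝 (0 : V), x ∈ Φ.source := Φ.open_source.mem_nhds hΦs
    refine hS.and (Eventually.and hN (hG.and ?_))
    have hc : ContinuousAt (fderiv ℝ G) 0 := (hsm0.fderiv_right (m := 0) (by simp)).continuousAt
    refine hc.eventually_mem (ContinuousLinearEquiv.isOpen.mem_nhds ?_)
    exact ⟨P, hP.fderiv.symm⟩
  obtain ⟨ρ, hρ, hball⟩ := Metric.mem_nhds_iff.1 hopen
  let Θ := Φ.restrOpen (ball 0 ρ) isOpen_ball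
  have hΘf : (Θ : V → W) = G := rfl
  have hsrc : Θ.source = ball 0 ρ := by
    rw [OpenPartialHomeomorph.restrOpen_source]
    exact inter_eq_right.2 fun x hx => (hball hx).1
  have hΘsm : ∀ x ∈ ball (0 : V) ρ, ContDiffAt ℝ ∞ Θ x := fun x hx => by
    rw [hΘf]; exact (hball hx).2.2.1
  have hsymm : ∀ y ∈ Θ.target, ContDiffAt ℝ ∞ Θ.symm y := by
    intro y hy
    have hx : Θ.symm y ∈ ball (0 : V) ρ := by rw [← hsrc]; exact Θ.map_target hy
    obtain ⟨e, he⟩ := (hball hx).2.2.2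
    refine Θ.contDiffAt_symm hy (f₀' := e) ?_ (hΘsm _ hx)
    rw [show (e : V →L[ℝ] W) = fderiv ℝ G (Θ.symm y) from he]
    exact ((hΘsm _ hx).differentiableAt (by simp)).hasFDerivAt
  have hmem : ∀ x ∈ ball (0 : V) ρ, Θ x ∈ Θ.target := fun x hx =>
    Θ.map_source (by rw [hsrc]; exact hx)
  have hleft : ∀ x ∈ ball (0 : V) ρ, Θ.symm (Θ x) = x := fun x hx =>
    Θ.left_inv (by rw [hsrc]; exact hx)
  have hinv : ∀ x ∈ ball (0 : V) ρ, ∀ y, fderiv ℝ Θ.symm (G x) (fderiv ℝ G x y) = y := by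
    intro x hx y
    have h1 : HasFDerivAt (fun x => Θ.symm (Θ x))
        ((fderiv ℝ Θ.symm (Θ x)).comp (fderiv ℝ Θ x)) x :=
      (((hsymm _ (hmem x hx)).differentiableAt (by simp)).hasFDerivAt).comp x
        ((hΘsm x hx).differentiableAt (by simp)).hasFDerivAt
    have h2 : HasFDerivAt (fun x => Θ.symm (Θ x)) (ContinuousLinearMap.id ℝ _) x :=
      (hasFDerivAt_id x).congr_of_eventuallyEq (by
        filter_upwards [isOpen_ball.mem_nhds hx] with z hz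
        exact hleft z hz)
    have h3 := h1.unique h2
    exact congrArg (fun L : V →L[ℝ] V => L y) h3
  refine ⟨Θ, ρ, ⟨hρ, hsrc, fun x => rfl, fun x hx => hΘsm x hx, hsymm, hinv, ?_⟩,
    fun x hx => (hball hx).2.1⟩
  intro x hx y
  obtain ⟨e, he⟩ := (hball hx).2.2.2
  have h1 : ∀ y, fderiv ℝ G x y = e y := fun y => by rw [← he]; rfl
  have h2 : fderiv ℝ Θ.symm (G x) y = e.symm y := by
    have := hinv x hx (e.symm y)
    rw [h1, e.apply_symm_apply] at this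
    exact this
  rw [h2, h1, e.apply_symm_apply]

end inv

/-! ### linear maps close to the identity -/

theorem near_id {E : Type*} [NormedAddCommGroup E] [NormedSpace ℝ E] [FiniteDimensional ℝ E]
    (D : E →L[ℝ] E) {δ : ℝ} (hδ : δ < 1) (h : ∀ v, ‖D v - v‖ ≤ δ * ‖v‖) :
    ∃ e : E ≃L[ℝ] E, ∀ v, e v = D v := by
  have hinj : Function.Injective (D : E →ₗ[ℝ] E) := by
    rw [injective_iff_map_eq_zero]
    intro v hv
    have h1 := h v
    have h2 : D v = 0 := hv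
    rw [h2, zero_sub, norm_neg] at h1
    by_contra hne
    have h3 : 0 < ‖v‖ := norm_pos_iff.2 hne
    nlinarith
  exact ⟨(LinearEquiv.ofInjectiveEndo (D : E →ₗ[ℝ] E) hinj).toContinuousLinearEquiv,
    fun v => rfl⟩

theorem norm_symm_le {E : Type*} [NormedAddCommGroup E] [NormedSpace ℝ E]
    (e : E ≃L[ℝ] E) {δ : ℝ} (h : ∀ v, ‖e v - v‖ ≤ δ * ‖v‖) (w : E) :
    (1 - δ) * ‖e.symm w‖ ≤ ‖w‖ := by
  have h1 := h (e.symm w)
  rw [e.apply_symm_apply] at h1
  have h2 : ‖e.symm w‖ ≤ ‖w‖ + ‖w - e.symm w‖ := by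
    have := norm_sub_le w (w - e.symm w)
    rwa [sub_sub_cancel] at this
  linarith

/-! ### normalisation of the foliation -/

theorem exists_delta {ι : Type*} [Finite ι] (B : ι → ℂ × ℂ) (hB : ∀ j, (B j).1 ≠ 0) :
    ∃ δ : ℝ, 0 < δ ∧ δ ≤ 1 / 4 ∧ ∀ j, 2 * δ * ‖B j‖ < ‖(B j).1‖ := by
  have h1 : ∀ j, ∀ᶠ δ : ℝ in 𝓝[>] 0, 2 * δ * ‖B j‖ < ‖(B j).1‖ := by
    intro j
    have h2 : Tendsto (fun δ : ℝ => 2 * δ * ‖B j‖) (𝓝 0) (𝓝 (2 * 0 * ‖B j‖)) :=
      ((continuous_const.mul continuous_id).mul continuous_const).tendsto 0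
    rw [mul_zero, zero_mul] at h2
    exact nhdsWithin_le_nhds (h2.eventually (gt_mem_nhds (norm_pos_iff.2 (hB j))))
  have h2 : ∀ᶠ δ : ℝ in 𝓝[>] 0, ∀ j, 2 * δ * ‖B j‖ < ‖(B j).1‖ := eventually_all.2 h1
  have h3 : ∀ᶠ δ : ℝ in 𝓝[>] 0, δ < 1 / 4 :=
    nhdsWithin_le_nhds (gt_mem_nhds (by norm_num))
  obtain ⟨δ, h4, h5, h6⟩ := (h2.and (h3.and self_mem_nhdsWithin)).exists
  exact ⟨δ, h6, h5.le, h4⟩

/-- `(a, b) ↦ a e₁ + b e₂`, complex linear. -/
def cl (e1 e2 : ℂ × ℂ) : ℂ × ℂ →L[ℂ] ℂ × ℂ :=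
  (ContinuousLinearMap.fst ℂ ℂ ℂ).smulRight e1 + (ContinuousLinearMap.snd ℂ ℂ ℂ).smulRight e2

theorem cl_apply (e1 e2 x : ℂ × ℂ) : cl e1 e2 x = x.1 • e1 + x.2 • e2 := rfl

theorem fol_norm (hF : FolStmt) {J1 : ℂ × ℂ → ℂ × ℂ →L[ℝ] ℂ × ℂ} {r : ℝ} (hJ : ACS J1 r)
    {ι : Type*} [Finite ι] (B : ι → ℂ × ℂ) (hB : ∀ j, (B j).1 ≠ 0) :
    ∃ (G : ℂ × ℂ → ℂ × ℂ) (P : (ℂ × ℂ) ≃L[ℝ] (ℂ × ℂ)), ContDiffOn ℝ ∞ G (ball 0 1) ∧ G 0 = 0 ∧
      HasFDerivAt G (P : ℂ × ℂ →L[ℝ] ℂ × ℂ) 0 ∧ (∀ v, P (Complex.I • v) = Complex.I • P v) ∧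
      (∀ x ∈ ball (0 : ℂ × ℂ) 1, G x ∈ ball (0 : ℂ × ℂ) r) ∧
      (∀ x ∈ ball (0 : ℂ × ℂ) 1, ∀ a : ℂ,
        fderiv ℝ G x (0, Complex.I * a) = J1 (G x) (fderiv ℝ G x (0, a))) ∧
      ∀ j, (P.symm (B j)).1 ≠ 0 := by
  obtain ⟨δ, hδ0, hδ4, hδB⟩ := exists_delta B hB
  obtain ⟨R, hR, hRr, hF'⟩ := hF J1 r hJ δ hδ0
  obtain ⟨F, hFs, hFd, hFl⟩ := hF' R hR le_rfl
  have hFat : ∀ x ∈ ball (0 : ℂ × ℂ) 4, ContDiffAt ℝ ∞ F x := fun x hx =>
    hFs.contDiffAt (isOpen_ball.mem_nhds hx)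
  have hFf : ∀ x ∈ ball (0 : ℂ × ℂ) 4, HasFDerivAt F (fderiv ℝ F x) x := fun x hx =>
    ((hFat x hx).differentiableAt (by simp)).hasFDerivAt
  -- the zero of `F`
  obtain ⟨x0, hx0, hFx0⟩ : ∃ x0 : ℂ × ℂ, ‖x0‖ ≤ δ ∧ F x0 = 0 := by
    let g : ℂ × ℂ → ℂ × ℂ := fun x => x - F x
    have hsub : closedBall (0 : ℂ × ℂ) 1 ⊆ ball 0 4 := closedBall_subset_ball (by norm_num)
    have hg : ∀ x ∈ closedBall (0 : ℂ × ℂ) 1,
        HasFDerivWithinAt g (ContinuousLinearMap.id ℝ _ - fderiv ℝ F x) (closedBall 0 1) x :=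
      fun x hx => ((hasFDerivAt_id x).sub (hFf x (hsub hx))).hasFDerivWithinAt
    have hgn : ∀ x ∈ ball (0 : ℂ × ℂ) 4, ‖g x‖ ≤ δ := by
      intro x hx
      have := (hFd x hx).1
      rwa [← norm_neg, neg_sub] at this
    let K : ℝ≥0 := ⟨δ, hδ0.le⟩
    have hlip : LipschitzOnWith K g (closedBall 0 1) :=
      (convex_closedBall (0 : ℂ × ℂ) 1).lipschitzOnWith_of_nnnorm_hasFDerivWithin_le hg (by
        intro x hx
        have := (hFd x (hsub hx)).2
        rw [← norm_neg, neg_sub] at this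
        exact this)
    have hmaps : MapsTo g (closedBall 0 1) (closedBall 0 1) := by
      intro x hx
      rw [mem_closedBall_zero_iff]
      exact (hgn x (hsub hx)).trans (by linarith)
    have hK : K < 1 := by
      rw [← NNReal.coe_lt_coe]
      show δ < 1
      linarith
    have hcontr : ContractingWith K (hmaps.restrict g (closedBall 0 1) (closedBall 0 1)) :=
      ⟨hK, hlip.mapsToRestrict hmaps⟩
    obtain ⟨y, hy, hfix, -⟩ := hcontr.exists_fixedPoint' isClosed_closedBall.isComplete hmaps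
      (x := 0) (by simp) (edist_ne_top _ _)
    have h1 : y - F y = y := hfix
    have h2 : F y = 0 := by
      have : y - (y - F y) = y - y := by rw [h1]
      rwa [sub_sub_cancel, sub_self] at this
    refine ⟨y, ?_, h2⟩
    have := hgn y (hsub hy)
    have h3 : g y = y := h1
    rwa [h3] at this
  have hx04 : x0 ∈ ball (0 : ℂ × ℂ) 4 := by
    rw [mem_ball_zero_iff]; linarith
  -- the differential
  have hD1 : ∀ v, ‖fderiv ℝ F x0 v - v‖ ≤ δ * ‖v‖ := by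
    intro v
    have h1 := (hFd x0 hx04).2
    have h2 := (fderiv ℝ F x0 - ContinuousLinearMap.id ℝ _).le_opNorm v
    simp only [sub_apply, ContinuousLinearMap.coe_id', id_eq] at h2
    exact h2.trans (by gcongr)
  obtain ⟨D, hD⟩ := near_id (fderiv ℝ F x0) (δ := δ) (by linarith) hD1
  have hD2 : ∀ v, ‖D v - v‖ ≤ δ * ‖v‖ := fun v => by rw [hD]; exact hD1 v
  -- the vertical derivative of `F`
  have hvert : ∀ y ∈ ball (0 : ℂ × ℂ) 4, ∀ a : ℂ,
      fderiv ℝ (fun z => F (y.1, z)) y.2 a = fderiv ℝ F y (0, a) := by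
    intro y hy a
    have h1 : HasFDerivAt (fun z : ℂ => ((y.1, z) : ℂ × ℂ)) (ContinuousLinearMap.inr ℝ ℂ ℂ) y.2 :=
      hasFDerivAt_prodMk_right y.1 y.2
    have h2 : HasFDerivAt F (fderiv ℝ F y) ((fun z : ℂ => ((y.1, z) : ℂ × ℂ)) y.2) := hFf y hy
    have h3 := h2.comp y.2 h1
    have h4 : fderiv ℝ (fun z => F (y.1, z)) y.2 = _ := h3.fderiv
    rw [h4]
    simp
  have hleafF : ∀ y ∈ ball (0 : ℂ × ℂ) 4, ∀ a : ℂ,
      fderiv ℝ F y (0, Complex.I * a) = J1 (R • F y) (fderiv ℝ F y (0, a)) := by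
    intro y hy a
    have hy1 : y.1 ∈ ball (0 : ℂ) 4 := by
      rw [mem_ball_zero_iff] at hy ⊢
      exact (norm_fst_le y).trans_lt hy
    have hy2 : y.2 ∈ ball (0 : ℂ) 4 := by
      rw [mem_ball_zero_iff] at hy ⊢
      exact (norm_snd_le y).trans_lt hy
    have h1 := (hFl y.1 hy1 y.2 hy2).2 a
    rw [hvert y hy, hvert y hy] at h1
    exact h1
  have hDI : ∀ a : ℂ, D (0, Complex.I * a) = Complex.I • D (0, a) := by
    intro a
    rw [hD, hD, hleafF x0 hx04, hFx0, smul_zero, hJ.zero]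
  have hD2' : ∀ z : ℂ, D (0, z) = z • D (0, 1) := by
    intro z
    have h1 : ((0, z) : ℂ × ℂ) = z.re • (0, 1) + z.im • (0, Complex.I * 1) := by
      ext <;> simp
    rw [h1, map_add, map_smul, map_smul, hDI]
    conv_rhs => rw [← Complex.re_add_im z, add_smul, mul_smul]
    rw [Complex.coe_smul, Complex.coe_smul]
  -- the complex linear map `P`
  set e1 := D (1, 0) with he1
  set e2 := D (0, 1) with he2
  have he1n : ‖e1 - (1, 0)‖ ≤ δ := by
    have := hD2 (1, 0)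
    simpa [Prod.norm_def] using this
  have he2n : ‖e2 - (0, 1)‖ ≤ δ := by
    have := hD2 (0, 1)
    simpa [Prod.norm_def] using this
  have hP1 : ∀ v : ℂ × ℂ, ‖(cl e1 e2).restrictScalars ℝ v - v‖ ≤ (2 * δ) * ‖v‖ := by
    intro v
    have h1 : (cl e1 e2).restrictScalars ℝ v - v =
        v.1 • (e1 - (1, 0)) + v.2 • (e2 - (0, 1)) := by
      show cl e1 e2 v - v = _
      rw [cl_apply]
      ext <;> simp <;> ring
    rw [h1]
    refine (norm_add_le _ _).trans ?_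
    rw [norm_smul, norm_smul]
    calc ‖v.1‖ * ‖e1 - (1, 0)‖ + ‖v.2‖ * ‖e2 - (0, 1)‖ ≤ ‖v‖ * δ + ‖v‖ * δ := by
          gcongr
          · exact norm_fst_le v
          · exact norm_snd_le v
      _ = 2 * δ * ‖v‖ := by ring
  obtain ⟨P0, hP0⟩ := near_id ((cl e1 e2).restrictScalars ℝ) (δ := 2 * δ) (by linarith) hP1
  have hP0' : ∀ v : ℂ × ℂ, P0 v = v.1 • e1 + v.2 • e2 := fun v => by rw [hP0]; rfl
  -- `L = D⁻¹ P`
  let L : (ℂ × ℂ) ≃L[ℝ] (ℂ × ℂ) := P0.trans D.symm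
  have hL : ∀ v, L v = D.symm (P0 v) := fun v => rfl
  have hLv : ∀ a : ℂ, L (0, a) = (0, a) := by
    intro a
    rw [hL, hP0', D.symm_apply_eq]
    simp only [zero_smul, zero_add]
    exact (hD2' a).symm
  have hLn : ∀ v, ‖L v‖ ≤ 2 * ‖v‖ := by
    intro v
    have h1 := norm_symm_le D (δ := δ) hD2 (P0 v)
    have h2 : ‖P0 v‖ ≤ (1 + 2 * δ) * ‖v‖ := by
      have h3 := hP1 v
      rw [← hP0] at h3
      have h4 : ‖P0 v‖ ≤ ‖P0 v - v‖ + ‖v‖ := by
        have := norm_add_le (P0 v - v) v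
        rwa [sub_add_cancel] at this
      linarith
    rw [← hL] at h1
    have h5 : (1 - δ) * ‖L v‖ ≤ (1 + 2 * δ) * ‖v‖ := h1.trans h2
    have h6 : 0 ≤ ‖L v‖ := norm_nonneg _
    have h7 : 0 ≤ ‖v‖ := norm_nonneg _
    nlinarith
  -- the map `G`
  let A : ℂ × ℂ → ℂ × ℂ := fun x => x0 + L x
  have hA : ∀ x ∈ ball (0 : ℂ × ℂ) 1, A x ∈ ball (0 : ℂ × ℂ) 4 := by
    intro x hx
    rw [mem_ball_zero_iff] at hx ⊢
    calc ‖x0 + L x‖ ≤ ‖x0‖ + ‖L x‖ := norm_add_le _ _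
      _ ≤ δ + 2 * ‖x‖ := add_le_add hx0 (hLn x)
      _ < 4 := by linarith
  have hAd : ∀ x, HasFDerivAt A (L : ℂ × ℂ →L[ℝ] ℂ × ℂ) x := fun x =>
    (L : ℂ × ℂ →L[ℝ] ℂ × ℂ).hasFDerivAt.const_add x0
  have hAs : ContDiff ℝ ∞ A := contDiff_const.add (L : ℂ × ℂ →L[ℝ] ℂ × ℂ).contDiff
  let G : ℂ × ℂ → ℂ × ℂ := fun x => R • F (A x)
  have hGd : ∀ x ∈ ball (0 : ℂ × ℂ) 1,
      HasFDerivAt G (R • (fderiv ℝ F (A x)).comp (L : ℂ × ℂ →L[ℝ] ℂ × ℂ)) x := fun x hx =>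
    ((hFf _ (hA x hx)).comp x (hAd x)).const_smul R
  have hA0 : A 0 = x0 := by simp [A]
  let mR : (ℂ × ℂ) ≃L[ℝ] (ℂ × ℂ) :=
    (LinearEquiv.smulOfNeZero ℝ (ℂ × ℂ) R hR.ne').toContinuousLinearEquiv
  have hmR : ∀ v, mR v = R • v := fun v => rfl
  let P : (ℂ × ℂ) ≃L[ℝ] (ℂ × ℂ) := P0.trans mR
  have hP : ∀ v, P v = R • P0 v := fun v => rfl
  refine ⟨G, P, ?_, ?_, ?_, ?_, ?_, ?_, ?_⟩
  · intro x hx
    have h1 : ContDiffAt ℝ ∞ (fun x => F (A x)) x :=
      ContDiffAt.comp x (hFat _ (hA x hx)) hAs.contDiffAt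
    exact (h1.const_smul R).contDiffWithinAt
  · show R • F (A 0) = 0
    rw [hA0, hFx0, smul_zero]
  · have h1 := hGd 0 (by simp)
    refine h1.congr_fderiv ?_
    refine ContinuousLinearMap.ext fun v => ?_
    rw [hA0, ContinuousLinearEquiv.coe_coe, hP]
    simp only [smul_apply, ContinuousLinearMap.comp_apply, ContinuousLinearEquiv.coe_coe]
    rw [← hD, hL, D.apply_symm_apply]
  · intro v
    rw [hP, hP, hP0', hP0']
    simp only [Prod.smul_fst, Prod.smul_snd, smul_eq_mul]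
    rw [smul_comm Complex.I R, smul_add Complex.I, smul_smul, smul_smul]
  · intro x hx
    have h1 := hA x hx
    have h2 := (hFd _ h1).1
    rw [mem_ball_zero_iff] at h1 ⊢
    show ‖R • F (A x)‖ < r
    rw [norm_smul, Real.norm_eq_abs, abs_of_pos hR]
    have h3 : ‖F (A x)‖ ≤ ‖F (A x) - A x‖ + ‖A x‖ := by
      have := norm_add_le (F (A x) - A x) (A x)
      rwa [sub_add_cancel] at this
    have h4 : ‖F (A x)‖ ≤ 4 * (1 + δ) := by linarith
    calc R * ‖F (A x)‖ ≤ R * (4 * (1 + δ)) := by gcongr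
      _ < r := hRr
  · intro x hx a
    rw [(hGd x hx).fderiv]
    simp only [smul_apply, ContinuousLinearMap.comp_apply, ContinuousLinearEquiv.coe_coe, hLv]
    rw [hleafF _ (hA x hx), map_smul]
  · intro j hj
    set b := P.symm (B j) with hb
    have h1 : B j = R • (b.1 • e1 + b.2 • e2) := by
      rw [← hP0', ← hP, hb, P.apply_symm_apply]
    rw [hj, zero_smul, zero_add] at h1
    have h2 : (B j).1 = R • (b.2 * (e2 - (0, 1)).1) := by
      rw [h1]; simp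
    have h3 : (B j).2 = R • (b.2 * (1 + (e2 - (0, 1)).2)) := by
      rw [h1]; simp
    have h4 : ‖(e2 - (0, 1)).1‖ ≤ δ := (norm_fst_le _).trans he2n
    have h5 : ‖(e2 - (0, 1)).2‖ ≤ δ := (norm_snd_le _).trans he2n
    have h6 : ‖(B j).1‖ ≤ R * ‖b.2‖ * δ := by
      rw [h2, norm_smul, norm_mul, Real.norm_eq_abs, abs_of_pos hR, ← mul_assoc]
      gcongr
    have h7 : R * ‖b.2‖ * (1 / 2) ≤ ‖B j‖ := by
      refine le_trans ?_ (norm_snd_le _)
      rw [h3, norm_smul, norm_mul, Real.norm_eq_abs, abs_of_pos hR, ← mul_assoc]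
      have h8 : (1 : ℝ) - ‖(e2 - (0, 1)).2‖ ≤ ‖1 + (e2 - (0, 1)).2‖ := by
        have := norm_sub_le (1 + (e2 - (0, 1)).2) (e2 - (0, 1)).2
        rw [add_sub_cancel_right, norm_one] at this
        linarith
      gcongr
      linarith
    have h9 := hδB j
    nlinarith [norm_nonneg (b.2)]

/-! ### a complex direction avoiding finitely many others -/

theorem exists_dir {E : Type*} [NormedAddCommGroup E] [NormedSpace ℝ E]
    (hE : Module.finrank ℝ E = 4) (j : E →L[ℝ] E) {ι : Type*} [Finite ι] (A : ι → E) :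
    ∃ e : E, e ≠ 0 ∧ ∀ i, ∀ a b : ℝ, e ≠ a • A i + b • j (A i) := by
  classical
  cases nonempty_fintype ι
  have hfin : FiniteDimensional ℝ E := Module.finite_of_finrank_pos (by rw [hE]; norm_num)
  let S : ι → Submodule ℝ E := fun i => Submodule.span ℝ {A i, j (A i)}
  have hS : ∀ i, S i ≠ ⊤ := by
    intro i h
    have h1 : Module.finrank ℝ (S i) ≤ 2 := by
      have h2 : Module.finrank ℝ (Submodule.span ℝ ((({A i, j (A i)} : Finset E)) : Set E)) ≤
          ({A i, j (A i)} : Finset E).card := finrank_span_finset_le_card _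
      have h3 : ({A i, j (A i)} : Finset E).card ≤ 2 := Finset.card_le_two
      have h4 : ((({A i, j (A i)} : Finset E)) : Set E) = {A i, j (A i)} := by simp
      rw [h4] at h2
      exact h2.trans h3
    rw [h, finrank_top, hE] at h1
    norm_num at h1
  have h0 : (⊥ : Submodule ℝ E) ≠ ⊤ := by
    intro h
    have h1 : Module.finrank ℝ (⊥ : Submodule ℝ E) = 4 := by rw [h, finrank_top, hE]
    rw [finrank_bot] at h1
    norm_num at h1
  let s : Finset (Submodule ℝ E) := insert ⊥ (Finset.univ.image S)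
  have hs : ⊤ ∉ s := by
    intro h
    rcases Finset.mem_insert.1 h with h | h
    · exact h0 h.symm
    · obtain ⟨i, -, hi⟩ := Finset.mem_image.1 h
      exact hS i hi
  have h1 := Subspace.biUnion_ne_univ_of_top_notMem hs
  obtain ⟨e, he⟩ := (Set.ne_univ_iff_exists_notMem _).1 h1
  simp only [mem_iUnion, not_exists] at he
  refine ⟨e, fun h => ?_, fun i a b h => ?_⟩
  · refine he ⊥ (Finset.mem_insert_self _ _) ?_
    rw [h]; exact Submodule.zero_mem _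
  · refine he (S i) (Finset.mem_insert_of_mem (Finset.mem_image_of_mem _ (Finset.mem_univ i))) ?_
    rw [h]
    exact Submodule.add_mem _ (Submodule.smul_mem _ _ (Submodule.subset_span (by simp)))
      (Submodule.smul_mem _ _ (Submodule.subset_span (by simp)))

/-- foliation box in a four-dimensional real vector space. -/
theorem planar (hF : FolStmt) {E : Type*} [NormedAddCommGroup E] [NormedSpace ℝ E]
    (hE : Module.finrank ℝ E = 4) {Jt : E → E →L[ℝ] E} {Ω : Set E} (hΩ : IsOpen Ω) {y0 : E}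
    (hy0 : y0 ∈ Ω) (hJ : ContDiffOn ℝ ∞ Jt Ω) (hJ2 : ∀ x ∈ Ω, ∀ v, Jt x (Jt x v) = -v)
    {ι : Type*} [Finite ι] (A : ι → E) (hA : ∀ j, A j ≠ 0) :
    ∃ (G : ℂ × ℂ → E) (P : (ℂ × ℂ) ≃L[ℝ] E), ContDiffOn ℝ ∞ G (ball 0 1) ∧ G 0 = y0 ∧
      HasFDerivAt G (P : ℂ × ℂ →L[ℝ] E) 0 ∧ (∀ v, P (Complex.I • v) = Jt y0 (P v)) ∧
      (∀ x ∈ ball (0 : ℂ × ℂ) 1, G x ∈ Ω) ∧
      (∀ x ∈ ball (0 : ℂ × ℂ) 1, ∀ a : ℂ,
        fderiv ℝ G x (0, Complex.I * a) = Jt (G x) (fderiv ℝ G x (0, a))) ∧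
      ∀ j, (P.symm (A j)).1 ≠ 0 := by
  obtain ⟨e, he0, he⟩ := exists_dir hE (Jt y0) A
  have hj0 := hJ2 y0 hy0
  obtain ⟨T, hTJ, hTe⟩ := exists_lin hE hj0 he0
  have hTs : ∀ v, T.symm (Complex.I • v) = Jt y0 (T.symm v) := by
    intro v
    rw [T.symm_apply_eq, hTJ, T.apply_symm_apply]
  -- the vertical components
  have hB : ∀ j, (T (A j)).1 ≠ 0 := by
    intro j h
    set c := (T (A j)).2 with hc
    have h1 : T (A j) = T (c.re • e + c.im • Jt y0 e) := by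
      rw [map_add, map_smul, map_smul, hTJ, hTe]
      refine Prod.ext ?_ ?_
      · rw [h]; simp
      · rw [← hc]
        apply Complex.ext <;> simp
    have h2 : A j = c.re • e + c.im • Jt y0 e := T.injective h1
    have h3 := cancel_j hj0 c.re c.im e
    rw [← h2] at h3
    have hc0 : c ≠ 0 := by
      intro hc0
      rw [hc0] at h2
      exact hA j (by rw [h2]; simp)
    have h4 : c.re ^ 2 + c.im ^ 2 ≠ 0 := by
      intro h5
      apply hc0
      have a1 : c.re = 0 := by nlinarith [sq_nonneg c.re, sq_nonneg c.im]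
      have a2 : c.im = 0 := by nlinarith [sq_nonneg c.re, sq_nonneg c.im]
      exact Complex.ext a1 a2
    refine he j ((c.re ^ 2 + c.im ^ 2)⁻¹ * c.re) (-((c.re ^ 2 + c.im ^ 2)⁻¹ * c.im)) ?_
    have h5 : e = (c.re ^ 2 + c.im ^ 2)⁻¹ • ((c.re ^ 2 + c.im ^ 2) • e) := by
      rw [smul_smul, inv_mul_cancel₀ h4, one_smul]
    rw [h5, ← h3]
    module
  -- the structure on `ℂ × ℂ`
  let ψ : ℂ × ℂ → E := fun x => y0 + T.symm x
  have hψ : ContDiff ℝ ∞ ψ := contDiff_const.add (T.symm : ℂ × ℂ →L[ℝ] E).contDiff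
  have hψ0 : ψ 0 = y0 := by simp [ψ]
  obtain ⟨r, hr, hball⟩ : ∃ r : ℝ, 0 < r ∧ ∀ x ∈ ball (0 : ℂ × ℂ) r, ψ x ∈ Ω := by
    have h1 : ψ ⁻¹' Ω ∈ 𝓝 (0 : ℂ × ℂ) :=
      hψ.continuous.continuousAt.preimage_mem_nhds (hΩ.mem_nhds (by rw [hψ0]; exact hy0))
    obtain ⟨r, hr, h2⟩ := Metric.mem_nhds_iff.1 h1
    exact ⟨r, hr, fun x hx => h2 hx⟩
  let J1 : ℂ × ℂ → ℂ × ℂ →L[ℝ] ℂ × ℂ := fun x =>
    (T : E →L[ℝ] ℂ × ℂ).comp ((Jt (ψ x)).comp (T.symm : ℂ × ℂ →L[ℝ] E))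
  have hJ1 : ∀ x v, J1 x v = T (Jt (ψ x) (T.symm v)) := fun _ _ => rfl
  have hacs : ACS J1 r := by
    refine ⟨hr, ?_, ?_, ?_⟩
    · intro x hx
      have h1 : ContDiffAt ℝ ∞ (fun x => Jt (ψ x)) x :=
        ContDiffAt.comp x (hJ.contDiffAt (hΩ.mem_nhds (hball x hx))) hψ.contDiffAt
      exact (contDiffAt_const.clm_comp (h1.clm_comp contDiffAt_const)).contDiffWithinAt
    · intro x hx v
      rw [hJ1, hJ1, T.symm_apply_apply, hJ2 _ (hball x hx), map_neg, T.apply_symm_apply]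
    · intro v
      rw [hJ1, hψ0, ← hTs, T.apply_symm_apply]
  obtain ⟨G1, P1, hG1, hG10, hG1d, hP1, hG1r, hG1l, hG1B⟩ :=
    fol_norm hF hacs (fun j => T (A j)) hB
  have hGat : ∀ x ∈ ball (0 : ℂ × ℂ) 1, ContDiffAt ℝ ∞ G1 x := fun x hx =>
    hG1.contDiffAt (isOpen_ball.mem_nhds hx)
  have hd : ∀ x ∈ ball (0 : ℂ × ℂ) 1,
      HasFDerivAt (fun x => ψ (G1 x)) ((T.symm : ℂ × ℂ →L[ℝ] E).comp (fderiv ℝ G1 x)) x := by
    intro x hx
    have h1 : HasFDerivAt ψ (T.symm : ℂ × ℂ →L[ℝ] E) (G1 x) :=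
      (T.symm : ℂ × ℂ →L[ℝ] E).hasFDerivAt.const_add y0
    exact h1.comp x ((hGat x hx).differentiableAt (by simp)).hasFDerivAt
  refine ⟨fun x => ψ (G1 x), P1.trans T.symm, ?_, ?_, ?_, ?_, ?_, ?_, ?_⟩
  · intro x hx
    exact (ContDiffAt.comp x hψ.contDiffAt (hGat x hx)).contDiffWithinAt
  · show ψ (G1 0) = y0
    rw [hG10, hψ0]
  · have h1 := hd 0 (by simp)
    rw [hG1d.fderiv] at h1
    exact h1
  · intro v
    show T.symm (P1 (Complex.I • v)) = Jt y0 (T.symm (P1 v))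
    rw [hP1, hTs]
  · intro x hx
    exact hball _ (hG1r x hx)
  · intro x hx a
    rw [(hd x hx).fderiv]
    show T.symm (fderiv ℝ G1 x (0, Complex.I * a)) = Jt (ψ (G1 x)) (T.symm (fderiv ℝ G1 x (0, a)))
    rw [hG1l x hx, hJ1, T.symm_apply_apply]
  · intro j
    exact hG1B j

end

end Crest.Agent.R235.FBoxA_130
end

-- ▼ part R235/SmO_130
section

/-!
# Row 235 (S0364), helper130: smooth functions vanishing to order `m`

`smO`: a smooth function with bounded derivatives which is `o(‖x‖^m)` is `O(‖x‖^(m+1))`, and its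
derivative is `O(‖x‖^m)`.  (Mathlib only.)
-/

set_option autoImplicit false

open Set Filter Metric Topology Asymptotics
open scoped ContDiff Nat

universe u v

namespace Crest.Agent.R235.SmO_130

noncomputable section

/-- the nodes -/
def nd (n : ℕ) (i : Fin (n + 1)) : ℝ := ((i : ℕ) + 1 : ℝ) / (n + 1)

theorem nd_pos (n : ℕ) (i : Fin (n + 1)) : 0 < nd n i := by
  unfold nd; positivity

theorem nd_le (n : ℕ) (i : Fin (n + 1)) : nd n i ≤ 1 := by
  unfold nd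
  rw [div_le_one (by positivity)]
  have : ((i : ℕ) : ℝ) ≤ n := by exact_mod_cast Nat.lt_succ_iff.1 i.2
  linarith

theorem nd_inj (n : ℕ) : Function.Injective (nd n) := by
  intro i j h
  unfold nd at h
  have hn : ((n : ℝ) + 1) ≠ 0 := by positivity
  rw [div_left_inj' hn] at h
  have : ((i : ℕ) : ℝ) = (j : ℕ) := by linarith
  exact Fin.ext (by exact_mod_cast this)

/-- Lagrange weights -/
theorem exists_weights (n j : ℕ) (hj : j ≤ n) : ∃ w : Fin (n + 1) → ℝ, ∀ k : ℕ, k ≤ n →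
    ∑ i : Fin (n + 1), w i * nd n i ^ k = if k = j then 1 else 0 := by
  let V := Matrix.vandermonde (nd n)
  have hV : V.det ≠ 0 := Matrix.det_vandermonde_ne_zero_iff.2 (nd_inj n)
  have hV' : IsUnit V.det := isUnit_iff_ne_zero.2 hV
  let e : Fin (n + 1) → ℝ := Pi.single ⟨j, Nat.lt_succ_of_le hj⟩ 1
  refine ⟨Matrix.vecMul e V⁻¹, fun k hk => ?_⟩
  have h1 : Matrix.vecMul (Matrix.vecMul e V⁻¹) V = e := by
    rw [Matrix.vecMul_vecMul, Matrix.nonsing_inv_mul _ hV', Matrix.vecMul_one]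
  have h2 := congrFun h1 ⟨k, Nat.lt_succ_of_le hk⟩
  rw [Matrix.vecMul, dotProduct] at h2
  have h3 : ∀ i, V i ⟨k, Nat.lt_succ_of_le hk⟩ = nd n i ^ k := fun i => rfl
  simp only [h3] at h2
  rw [h2]
  show (Pi.single _ 1 : Fin (n + 1) → ℝ) _ = _
  rw [Pi.single_apply]
  simp

theorem coeff_bound (n j : ℕ) (hj : j ≤ n) : ∃ C : ℝ, 0 ≤ C ∧ ∀ {E : Type u}
    [NormedAddCommGroup E] [NormedSpace ℝ E] (c : ℕ → E) (A : ℝ),
    (∀ i : Fin (n + 1), ‖∑ k ∈ Finset.range (n + 1), nd n i ^ k • c k‖ ≤ A) → ‖c j‖ ≤ C * A := by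
  obtain ⟨w, hw⟩ := exists_weights n j hj
  refine ⟨∑ i, |w i|, Finset.sum_nonneg fun i _ => abs_nonneg _, ?_⟩
  intro E _ _ c A h
  have h1 : c j = ∑ i, w i • ∑ k ∈ Finset.range (n + 1), nd n i ^ k • c k := by
    simp only [Finset.smul_sum, smul_smul]
    rw [Finset.sum_comm]
    simp only [← Finset.sum_smul]
    rw [Finset.sum_eq_single j]
    · rw [hw j hj, if_pos rfl, one_smul]
    · intro k hk hkj
      rw [hw k (Nat.lt_succ_iff.1 (Finset.mem_range.1 hk)), if_neg hkj, zero_smul]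
    · intro h2
      exact absurd (Finset.mem_range.2 (Nat.lt_succ_of_le hj)) h2
  rw [h1, Finset.sum_mul]
  refine (norm_sum_le _ _).trans (Finset.sum_le_sum fun i _ => ?_)
  rw [norm_smul, Real.norm_eq_abs]
  exact mul_le_mul_of_nonneg_left (h i) (abs_nonneg _)

section oned

variable {E : Type u} [NormedAddCommGroup E] [NormedSpace ℝ E]

/-- Taylor coefficients at `0` -/
def tc (h : ℝ → E) (k : ℕ) : E := (k ! : ℝ)⁻¹ • iteratedDeriv k h 0

theorem taylor_bound {h : ℝ → E} {n : ℕ} {B : ℝ} (hh : ContDiff ℝ ∞ h)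
    (hB : ∀ t ∈ Icc (0 : ℝ) 1, ‖iteratedDeriv (n + 1) h t‖ ≤ B) {x : ℝ} (hx : x ∈ Icc (0 : ℝ) 1) :
    ‖h x - ∑ k ∈ Finset.range (n + 1), x ^ k • tc h k‖ ≤ B * x ^ (n + 1) / n ! := by
  have hu : UniqueDiffOn ℝ (Icc (0 : ℝ) 1) := uniqueDiffOn_Icc one_pos
  have he : ∀ k : ℕ, ∀ t ∈ Icc (0 : ℝ) 1,
      iteratedDerivWithin k h (Icc 0 1) t = iteratedDeriv k h t := by
    intro k t ht
    exact iteratedDerivWithin_eq_iteratedDeriv hu
      ((hh.of_le (by exact_mod_cast le_top)).contDiffAt) ht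
  have h1 := taylor_mean_remainder_bound (f := h) (a := 0) (b := 1) (C := B) (n := n) zero_le_one
    ((hh.of_le (by exact_mod_cast le_top)).contDiffOn) hx
    (fun y hy => by rw [he _ y hy]; exact hB y hy)
  rw [taylor_within_apply, sub_zero] at h1
  refine le_trans (le_of_eq ?_) h1
  congr 2
  refine Finset.sum_congr rfl fun k _ => ?_
  rw [he k 0 (by simp), tc, smul_smul, mul_comm]

theorem tc_eq_zero {h : ℝ → E} {m : ℕ} {B : ℝ} (hh : ContDiff ℝ ∞ h)
    (hB : ∀ t ∈ Icc (0 : ℝ) 1, ‖iteratedDeriv (m + 1) h t‖ ≤ B)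
    (ho : ∀ ε : ℝ, 0 < ε → ∃ δ : ℝ, 0 < δ ∧ ∀ t : ℝ, 0 < t → t < δ → ‖h t‖ ≤ ε * t ^ m)
    {j : ℕ} (hj : j ≤ m) : tc h j = 0 := by
  have hB0 : 0 ≤ B := (norm_nonneg _).trans (hB 0 (by simp))
  obtain ⟨C, hC0, hC⟩ := coeff_bound.{u} m j hj
  have key : ∀ ε : ℝ, 0 < ε → ‖tc h j‖ ≤ C * (2 * ε) := by
    intro ε hε
    obtain ⟨δ, hδ, hδ'⟩ := ho ε hε
    obtain ⟨l, hl0, hl1⟩ : ∃ l : ℝ, 0 < l ∧ l < δ ∧ l ≤ 1 ∧ B * l ≤ ε := by
      refine ⟨min (δ / 2) (min 1 (ε / (B + 1))), by positivity, ?_, ?_, ?_⟩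
      · exact (min_le_left _ _).trans_lt (by linarith)
      · exact (min_le_right _ _).trans (min_le_left _ _)
      · have h1 : min (δ / 2) (min 1 (ε / (B + 1))) ≤ ε / (B + 1) :=
          (min_le_right _ _).trans (min_le_right _ _)
        calc B * min (δ / 2) (min 1 (ε / (B + 1))) ≤ (B + 1) * (ε / (B + 1)) := by
              gcongr; linarith
          _ = ε := by field_simp
    obtain ⟨hl1, hl2, hl3⟩ := hl1
    have h1 := hC (E := E) (fun k => l ^ k • tc h k) (2 * ε * l ^ m) (by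
      intro i
      have hx0 : 0 < l * nd m i := mul_pos hl0 (nd_pos m i)
      have hx1 : l * nd m i ≤ l := by
        have := mul_le_mul_of_nonneg_left (nd_le m i) hl0.le
        rwa [mul_one] at this
      have h2 := taylor_bound hh hB (x := l * nd m i) ⟨hx0.le, hx1.trans hl2⟩
      have h3 := hδ' (l * nd m i) hx0 (hx1.trans_lt hl1)
      have h4 : ∑ k ∈ Finset.range (m + 1), nd m i ^ k • l ^ k • tc h k =
          ∑ k ∈ Finset.range (m + 1), (l * nd m i) ^ k • tc h k := by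
        refine Finset.sum_congr rfl fun k _ => ?_
        rw [smul_smul, ← mul_pow, mul_comm (nd m i) l]
      rw [h4]
      have h5 : ‖∑ k ∈ Finset.range (m + 1), (l * nd m i) ^ k • tc h k‖ ≤
          ‖h (l * nd m i)‖ + ‖h (l * nd m i) - ∑ k ∈ Finset.range (m + 1),
            (l * nd m i) ^ k • tc h k‖ := by
        have := norm_sub_le (h (l * nd m i)) (h (l * nd m i) - ∑ k ∈ Finset.range (m + 1),
            (l * nd m i) ^ k • tc h k)
        rwa [sub_sub_cancel] at this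
      refine h5.trans ?_
      have h6 : (l * nd m i) ^ m ≤ l ^ m := by gcongr
      have h7 : B * (l * nd m i) ^ (m + 1) / m ! ≤ ε * l ^ m := by
        have h8 : B * (l * nd m i) ^ (m + 1) / m ! ≤ B * (l * nd m i) ^ (m + 1) := by
          apply div_le_self (by positivity)
          exact_mod_cast Nat.one_le_iff_ne_zero.2 (Nat.factorial_ne_zero m)
        refine h8.trans ?_
        calc B * (l * nd m i) ^ (m + 1) ≤ B * l ^ (m + 1) := by gcongr
          _ = (B * l) * l ^ m := by ring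
          _ ≤ ε * l ^ m := by gcongr
      calc _ ≤ ε * (l * nd m i) ^ m + B * (l * nd m i) ^ (m + 1) / m ! := add_le_add h3 h2
        _ ≤ ε * l ^ m + ε * l ^ m := by gcongr
        _ = _ := by ring)
    have h1' : l ^ j * ‖tc h j‖ ≤ C * (2 * ε * l ^ m) := by
      have h2 : ‖l ^ j • tc h j‖ = l ^ j * ‖tc h j‖ := by
        rw [norm_smul, Real.norm_eq_abs, abs_of_pos (pow_pos hl0 j)]
      rw [← h2]; exact h1
    have h9 : l ^ m ≤ l ^ j := pow_le_pow_of_le_one hl0.le hl2 hj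
    have h10 : l ^ j * ‖tc h j‖ ≤ l ^ j * (C * (2 * ε)) := by
      refine h1'.trans ?_
      calc C * (2 * ε * l ^ m) ≤ C * (2 * ε * l ^ j) := by gcongr
        _ = _ := by ring
    exact le_of_mul_le_mul_left h10 (pow_pos hl0 j)
  by_contra hne
  have hpos : 0 < ‖tc h j‖ := norm_pos_iff.2 hne
  have h1 := key (‖tc h j‖ / (4 * (C + 1))) (by positivity)
  have h2 : C * (2 * (‖tc h j‖ / (4 * (C + 1)))) ≤ ‖tc h j‖ / 2 := by
    have h3 : C * (2 * (‖tc h j‖ / (4 * (C + 1)))) = (C / (C + 1)) * (‖tc h j‖ / 2) := by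
      field_simp; ring
    rw [h3]
    have h4 : C / (C + 1) ≤ 1 := by rw [div_le_one (by positivity)]; linarith
    calc _ ≤ 1 * (‖tc h j‖ / 2) := by gcongr
      _ = _ := one_mul _
  linarith

theorem radial {h : ℝ → E} {m : ℕ} {B : ℝ} (hh : ContDiff ℝ ∞ h)
    (hB : ∀ t ∈ Icc (0 : ℝ) 1, ‖iteratedDeriv (m + 1) h t‖ ≤ B)
    (ho : ∀ ε : ℝ, 0 < ε → ∃ δ : ℝ, 0 < δ ∧ ∀ t : ℝ, 0 < t → t < δ → ‖h t‖ ≤ ε * t ^ m) :
    ‖h 1‖ ≤ B := by
  have hB0 : 0 ≤ B := (norm_nonneg _).trans (hB 0 (by simp))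
  have h1 := taylor_bound hh hB (x := 1) (by simp)
  have h2 : ∑ k ∈ Finset.range (m + 1), (1 : ℝ) ^ k • tc h k = 0 := by
    refine Finset.sum_eq_zero fun k hk => ?_
    rw [tc_eq_zero hh hB ho (Nat.lt_succ_iff.1 (Finset.mem_range.1 hk)), smul_zero]
  rw [h2, sub_zero] at h1
  refine h1.trans ?_
  rw [one_pow, mul_one]
  apply div_le_self hB0
  exact_mod_cast Nat.one_le_iff_ne_zero.2 (Nat.factorial_ne_zero m)

theorem deriv_bound (n : ℕ) (hn : 1 ≤ n) : ∃ C : ℝ, 0 ≤ C ∧ ∀ {E : Type u}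
    [NormedAddCommGroup E] [NormedSpace ℝ E] (h : ℝ → E) (A B : ℝ), ContDiff ℝ ∞ h →
    (∀ t ∈ Icc (0 : ℝ) 1, ‖h t‖ ≤ A) →
    (∀ t ∈ Icc (0 : ℝ) 1, ‖iteratedDeriv (n + 1) h t‖ ≤ B) → ‖deriv h 0‖ ≤ C * (A + B) := by
  obtain ⟨C, hC0, hC⟩ := coeff_bound.{u} n 1 hn
  refine ⟨C, hC0, ?_⟩
  intro E _ _ h A B hh hA hB
  have hB0 : 0 ≤ B := (norm_nonneg _).trans (hB 0 (by simp))
  have h1 := hC (E := E) (tc h) (A + B) (by
    intro i
    have hx : nd n i ∈ Icc (0 : ℝ) 1 := ⟨(nd_pos n i).le, nd_le n i⟩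
    have h2 := taylor_bound hh hB hx
    have h5 : ‖∑ k ∈ Finset.range (n + 1), nd n i ^ k • tc h k‖ ≤
          ‖h (nd n i)‖ + ‖h (nd n i) - ∑ k ∈ Finset.range (n + 1), nd n i ^ k • tc h k‖ := by
      have := norm_sub_le (h (nd n i)) (h (nd n i) - ∑ k ∈ Finset.range (n + 1),
          nd n i ^ k • tc h k)
      rwa [sub_sub_cancel] at this
    refine h5.trans (add_le_add (hA _ hx) (h2.trans ?_))
    have h8 : B * nd n i ^ (n + 1) / n ! ≤ B * nd n i ^ (n + 1) := by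
      apply div_le_self (mul_nonneg hB0 (pow_nonneg (nd_pos n i).le _))
      exact_mod_cast Nat.one_le_iff_ne_zero.2 (Nat.factorial_ne_zero n)
    refine h8.trans ?_
    calc B * nd n i ^ (n + 1) ≤ B * 1 := by
          gcongr
          exact pow_le_one₀ (nd_pos n i).le (nd_le n i)
      _ = B := mul_one B)
  have h2 : tc h 1 = deriv h 0 := by
    simp [tc, iteratedDeriv_one]
  rwa [h2] at h1

end oned

section multi

variable {V : Type v} [NormedAddCommGroup V] [NormedSpace ℝ V]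
  {E : Type u} [NormedAddCommGroup E] [NormedSpace ℝ E]

theorem line_contDiff {f : V → E} (hf : ContDiff ℝ ∞ f) (x w : V) :
    ContDiff ℝ ∞ (fun t : ℝ => f (x + t • w)) :=
  hf.comp (contDiff_const.add (contDiff_id.smul contDiff_const))

theorem line_bound {f : V → E} (hf : ContDiff ℝ ∞ f) {n : ℕ} {K : ℝ}
    (hK : ∀ x, ‖iteratedFDeriv ℝ n f x‖ ≤ K) (x w : V) (t : ℝ) :
    ‖iteratedDeriv n (fun t : ℝ => f (x + t • w)) t‖ ≤ K * ‖w‖ ^ n := by
  rw [← norm_iteratedFDeriv_eq_norm_iteratedDeriv]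
  let g : ℝ →L[ℝ] V := ContinuousLinearMap.toSpanSingleton ℝ w
  have h1 : (fun t : ℝ => f (x + t • w)) = (fun y => f (x + y)) ∘ g := by
    funext t
    simp [g, ContinuousLinearMap.toSpanSingleton_apply]
  have h2 : ContDiff ℝ ∞ (fun y => f (x + y)) := hf.comp (contDiff_const.add contDiff_id)
  rw [h1, ContinuousLinearMap.iteratedFDeriv_comp_right g h2 t (i := n) (by exact_mod_cast le_top),
    iteratedFDeriv_comp_add_left]
  refine (ContinuousMultilinearMap.norm_compContinuousLinearMap_le _ _).trans ?_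
  have h3 : ‖g‖ = ‖w‖ := ContinuousLinearMap.norm_toSpanSingleton w
  simp only [h3, Finset.prod_const, Finset.card_univ, Fintype.card_fin]
  gcongr
  exact hK _

/-- **smooth functions vanishing to order `m`** -/
theorem smO {f : V → E} (hf : ContDiff ℝ ∞ f)
    (hb : ∀ n : ℕ, ∃ K : ℝ, ∀ x, ‖iteratedFDeriv ℝ n f x‖ ≤ K) {m : ℕ}
    (ho : f =o[𝓝 0] fun x : V => ‖x‖ ^ m) :
    ∃ C : ℝ, 0 ≤ C ∧ ∀ x, ‖f x‖ ≤ C * ‖x‖ ^ (m + 1) ∧ ‖fderiv ℝ f x‖ ≤ C * ‖x‖ ^ m := by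
  obtain ⟨K, hK⟩ := hb (m + 1)
  have hK0 : 0 ≤ K := (norm_nonneg _).trans (hK 0)
  have h1 : ∀ x, ‖f x‖ ≤ K * ‖x‖ ^ (m + 1) := by
    intro x
    have h2 := radial (h := fun t : ℝ => f (0 + t • x)) (m := m) (B := K * ‖x‖ ^ (m + 1))
      (line_contDiff hf 0 x) (fun t _ => line_bound hf hK 0 x t) (by
        intro ε hε
        have h3 : ∀ᶠ y in 𝓝 (0 : V), ‖f y‖ ≤ (ε / (‖x‖ ^ m + 1)) * ‖‖y‖ ^ m‖ :=
          ho.bound (by positivity)
        have h4 : Tendsto (fun t : ℝ => t • x) (𝓝 0) (𝓝 0) := by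
          have : Tendsto (fun t : ℝ => t • x) (𝓝 0) (𝓝 ((0 : ℝ) • x)) :=
            (continuous_id.smul continuous_const).tendsto 0
          rwa [zero_smul] at this
        obtain ⟨δ, hδ, hδ'⟩ := Metric.eventually_nhds_iff.1 (h4.eventually h3)
        refine ⟨δ, hδ, fun t ht0 ht1 => ?_⟩
        have h5 := hδ' (y := t) (by rw [Real.dist_eq, sub_zero, abs_of_pos ht0]; exact ht1)
        rw [zero_add]
        refine h5.trans ?_
        rw [norm_pow, norm_norm, norm_smul, Real.norm_eq_abs, abs_of_pos ht0, mul_pow]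
        calc ε / (‖x‖ ^ m + 1) * (t ^ m * ‖x‖ ^ m)
            = ε * t ^ m * (‖x‖ ^ m / (‖x‖ ^ m + 1)) := by ring
          _ ≤ ε * t ^ m * 1 := by
              gcongr
              rw [div_le_one (by positivity)]; linarith
          _ = ε * t ^ m := mul_one _)
    simpa using h2
  rcases Nat.eq_zero_or_pos m with hm | hm
  · subst hm
    obtain ⟨K1, hK1⟩ := hb 1
    refine ⟨max K K1, le_max_of_le_left hK0, fun x => ⟨(h1 x).trans ?_, ?_⟩⟩
    · gcongr
      exact le_max_left _ _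
    · rw [pow_zero, mul_one, ← norm_iteratedFDeriv_one]
      exact (hK1 x).trans (le_max_right _ _)
  · obtain ⟨C, hC0, hC⟩ := deriv_bound.{u} m hm
    refine ⟨K + C * (K * 2 ^ (m + 1) + K), by positivity, fun x => ⟨(h1 x).trans ?_, ?_⟩⟩
    · gcongr
      have : 0 ≤ C * (K * 2 ^ (m + 1) + K) := by positivity
      linarith
    · rcases eq_or_ne x 0 with hx | hx
      · have h2 : HasFDerivAt f (0 : V →L[ℝ] E) x := by
          rw [hx, hasFDerivAt_iff_isLittleO_nhds_zero]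
          have h3 : f 0 = 0 := by
            have := h1 0
            rw [norm_zero, zero_pow (Nat.succ_ne_zero m), mul_zero] at this
            exact norm_le_zero_iff.1 this
          have h4 : (fun h : V => f (0 + h) - f 0 - (0 : V →L[ℝ] E) h) = f := by
            funext h; simp [h3]
          rw [h4]
          refine ho.trans_isBigO ?_
          refine IsBigO.of_bound 1 ?_
          filter_upwards [Metric.ball_mem_nhds (0 : V) one_pos] with y hy
          rw [mem_ball_zero_iff] at hy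
          rw [norm_pow, norm_norm, one_mul]
          calc ‖y‖ ^ m ≤ ‖y‖ ^ 1 := pow_le_pow_of_le_one (norm_nonneg _) hy.le hm
            _ = ‖y‖ := pow_one _
        rw [h2.fderiv, norm_zero]
        positivity
      · have hx0 : 0 < ‖x‖ := norm_pos_iff.2 hx
        refine ContinuousLinearMap.opNorm_le_bound _ (by positivity) fun w => ?_
        rcases eq_or_ne w 0 with hw | hw
        · simp [hw]
        have hw0 : 0 < ‖w‖ := norm_pos_iff.2 hw
        have hv : ‖(‖x‖ / ‖w‖) • w‖ = ‖x‖ := by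
          rw [norm_smul, Real.norm_eq_abs, abs_of_pos (by positivity)]
          field_simp
        have h2 := hC (E := E) (fun t : ℝ => f (x + t • (‖x‖ / ‖w‖) • w))
          (K * 2 ^ (m + 1) * ‖x‖ ^ (m + 1)) (K * ‖x‖ ^ (m + 1)) (line_contDiff hf _ _)
          (by
            intro t ht
            refine (h1 _).trans ?_
            have h3 : ‖x + t • (‖x‖ / ‖w‖) • w‖ ≤ 2 * ‖x‖ := by
              refine (norm_add_le _ _).trans ?_
              rw [norm_smul, hv, Real.norm_eq_abs, abs_of_nonneg ht.1]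
              have := mul_le_mul_of_nonneg_right ht.2 hx0.le
              linarith
            calc K * ‖x + t • (‖x‖ / ‖w‖) • w‖ ^ (m + 1) ≤ K * (2 * ‖x‖) ^ (m + 1) := by gcongr
              _ = _ := by rw [mul_pow]; ring)
          (by
            intro t _
            have := line_bound hf hK x ((‖x‖ / ‖w‖) • w) t
            rwa [hv] at this)
        have h3 : deriv (fun t : ℝ => f (x + t • (‖x‖ / ‖w‖) • w)) 0 =
            (‖x‖ / ‖w‖) • fderiv ℝ f x w := by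
          have h4 : HasDerivAt (fun t : ℝ => x + t • (‖x‖ / ‖w‖) • w) ((‖x‖ / ‖w‖) • w) 0 := by
            have := ((hasDerivAt_id (0 : ℝ)).smul_const ((‖x‖ / ‖w‖) • w)).const_add x
            simpa using this
          have h5 : HasFDerivAt f (fderiv ℝ f x) (x + (0 : ℝ) • (‖x‖ / ‖w‖) • w) := by
            rw [zero_smul, add_zero]
            exact (hf.differentiable (by norm_num) x).hasFDerivAt
          have h6 := h5.comp_hasDerivAt (0 : ℝ) h4
          rw [show (fun t : ℝ => f (x + t • (‖x‖ / ‖w‖) • w)) =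
            f ∘ (fun t : ℝ => x + t • (‖x‖ / ‖w‖) • w) from rfl, h6.deriv, map_smul]
        rw [h3, norm_smul, Real.norm_eq_abs, abs_of_pos (by positivity)] at h2
        have h7 : ‖fderiv ℝ f x w‖ = (‖w‖ / ‖x‖) * (‖x‖ / ‖w‖ * ‖fderiv ℝ f x w‖) := by
          field_simp
        rw [h7]
        calc (‖w‖ / ‖x‖) * (‖x‖ / ‖w‖ * ‖fderiv ℝ f x w‖)
            ≤ (‖w‖ / ‖x‖) * (C * (K * 2 ^ (m + 1) * ‖x‖ ^ (m + 1) + K * ‖x‖ ^ (m + 1))) := by
              gcongr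
          _ = C * (K * 2 ^ (m + 1) + K) * ‖x‖ ^ m * ‖w‖ := by
              rw [pow_succ ‖x‖ m]
              field_simp
          _ ≤ (K + C * (K * 2 ^ (m + 1) + K)) * ‖x‖ ^ m * ‖w‖ := by
              gcongr
              linarith

end multi

end

end Crest.Agent.R235.SmO_130
end

-- ▼ part R235/FBoxB_130

/-!
# Row 235 (S0364), PACKAGE ADJ, leaf FBOX, part B (helper130)

* `branch_lead` : leading term of a `J`-disc;
* `lift_lead`   : leading term in the coordinates of the box;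
* `est`         : estimates of the remainder and of its derivative.
-/

set_option autoImplicit false
set_option maxSynthPendingDepth 3

open Set Filter Metric Topology Asymptotics
open scoped ContDiff Real

namespace Crest.Agent.R235.FBoxB_130

open Crest.Agent.R235.NWDefs_334 Crest.Agent.R235.NWJ_130 Crest.Agent.R235.NWJ2_130
open Crest.Agent.R235.FBoxA_130 Crest.Agent.R235.SimJ_679 Crest.Agent.R235.BrNF_266

noncomputable section

theorem act_one {E : Type*} [NormedAddCommGroup E] [NormedSpace ℝ E] (J : E →L[ℝ] E) (A : E) :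
    act J 1 A = A := by
  rw [act_apply]; simp

theorem act_isBigO {E : Type*} [NormedAddCommGroup E] [NormedSpace ℝ E] (J : E →L[ℝ] E) (A : E)
    (m : ℕ) : (fun s : ℂ => act J (s ^ m) A) =O[𝓝 0] fun s : ℂ => s ^ m := by
  refine IsBigO.of_bound (‖A‖ + ‖J A‖) (Eventually.of_forall fun s => ?_)
  rw [act_apply]
  refine (norm_add_le _ _).trans ?_
  rw [norm_smul, norm_smul, Real.norm_eq_abs, Real.norm_eq_abs]
  have h1 := Complex.abs_re_le_norm (s ^ m)
  have h2 := Complex.abs_im_le_norm (s ^ m)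
  calc |(s ^ m).re| * ‖A‖ + |(s ^ m).im| * ‖J A‖ ≤ ‖s ^ m‖ * ‖A‖ + ‖s ^ m‖ * ‖J A‖ := by gcongr
    _ = (‖A‖ + ‖J A‖) * ‖s ^ m‖ := by ring

section branch

variable {E : Type*} [NormedAddCommGroup E] [NormedSpace ℝ E]

/-- leading term of a `J`-disc. -/
theorem branch_lead [FiniteDimensional ℝ E] {Jt : E → E →L[ℝ] E} {Ω : Set E} (hΩ : IsOpen Ω)
    {y0 : E} (hy0 : y0 ∈ Ω)
    (hJ : ContDiffOn ℝ ∞ Jt Ω) (hJ2 : ∀ x ∈ Ω, ∀ v, Jt x (Jt x v) = -v) {u : ℂ → E} {ρ : ℝ}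
    (hρ : 0 < ρ) (hu : ContDiffOn ℝ ∞ u (ball 0 ρ)) (hu0 : u 0 = y0)
    (hol : ∀ s ∈ ball (0 : ℂ) ρ, ∀ v, fderiv ℝ u s (Complex.I * v) = Jt (u s) (fderiv ℝ u s v))
    (hne : ∀ s ∈ ball (0 : ℂ) ρ, s ≠ 0 → u s ≠ y0) :
    ∃ (m : ℕ) (A : E), 1 ≤ m ∧ A ≠ 0 ∧
      (fun s : ℂ => u s - y0 - act (Jt y0) (s ^ m) A) =o[𝓝 0] fun s : ℂ => s ^ m := by
  have hball : ball (0 : ℂ) ρ ∈ 𝓝 (0 : ℂ) := ball_mem_nhds _ hρ
  have hat : ContDiffAt ℝ ∞ u 0 := hu.contDiffAt hball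
  have hat1 : ContDiffAt ℝ 1 u 0 := hat.of_le (by norm_num)
  have hJat : ContDiffAt ℝ 1 Jt (u 0) := by
    rw [hu0]; exact (hJ.contDiffAt (hΩ.mem_nhds hy0)).of_le (by norm_num)
  have hJ2' : ∀ᶠ x in 𝓝 (u 0), ∀ y, Jt x (Jt x y) = -y := by
    rw [hu0]
    filter_upwards [hΩ.mem_nhds hy0] with x hx using hJ2 x hx
  have hu' : ∀ᶠ z in 𝓝 (0 : ℂ), fderiv ℝ u z Complex.I = Jt (u z) (fderiv ℝ u z 1) := by
    filter_upwards [hball] with z hz
    have := hol z hz 1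
    rwa [mul_one] at this
  have hsub : SubJ (fun z => Jt (u z)) (fun z => u z - (fun _ => y0) z) 0 := by
    refine diff_subJ hJat hJ2' ?_ ?_ hat1 contDiffAt_const hu' ?_
    · show ∀ᶠ x in 𝓝 y0, ∀ y, Jt x (Jt x y) = -y
      rw [← hu0]; exact hJ2'
    · show ContinuousAt Jt y0
      rw [← hu0]; exact hJat.continuousAt
    · refine Eventually.of_forall fun z => ?_
      simp
  rcases leadJ_o (hJat.comp 0 hat1) (hat.continuousAt.eventually hJ2')
    (hat1.sub contDiffAt_const) hsub with h | ⟨m, A, hA, ho⟩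
  · exfalso
    have h1 : ∀ᶠ z in 𝓝[≠] (0 : ℂ), u z - y0 = 0 := nhdsWithin_le_nhds h
    have h2 : ∀ᶠ z in 𝓝[≠] (0 : ℂ), z ∈ ball (0 : ℂ) ρ := nhdsWithin_le_nhds hball
    obtain ⟨z, h3, h4, h5⟩ := (h1.and (h2.and self_mem_nhdsWithin)).exists
    exact hne z h4 h5 (sub_eq_zero.1 h3)
  · simp only [sub_zero, Function.comp_apply, hu0] at ho
    refine ⟨m, A, ?_, hA, ho⟩
    rcases Nat.eq_zero_or_pos m with hm | hm
    · exfalso
      subst hm
      simp only [pow_zero, act_one] at ho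
      have h1 : Tendsto (fun s : ℂ => u s - y0 - A) (𝓝 0) (𝓝 0) :=
        (isLittleO_one_iff ℂ).1 ho
      have h2 : Tendsto (fun s : ℂ => u s - y0 - A) (𝓝 0) (𝓝 (u 0 - y0 - A)) :=
        (hat.continuousAt.sub continuousAt_const).sub continuousAt_const
      have h3 := tendsto_nhds_unique h1 h2
      rw [hu0, sub_self, zero_sub] at h3
      exact hA (neg_eq_zero.1 h3.symm)
    · exact hm

/-- leading term in the coordinates of the box. -/
theorem lift_lead {Jt : E → E →L[ℝ] E} {G : ℂ × ℂ → E}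
    {Θ : OpenPartialHomeomorph (ℂ × ℂ) E} {R : ℝ} (hL : LD G Θ R) {P : (ℂ × ℂ) ≃L[ℝ] E}
    (hP : HasFDerivAt G (P : ℂ × ℂ →L[ℝ] E) 0) {y0 : E} (hG0 : G 0 = y0)
    (hPJ : ∀ v, P (Complex.I • v) = Jt y0 (P v)) {u : ℂ → E} (hc : ContinuousAt u 0)
    (hu0 : u 0 = y0) {m : ℕ} {A : E}
    (ho : (fun s : ℂ => u s - y0 - act (Jt y0) (s ^ m) A) =o[𝓝 0] fun s : ℂ => s ^ m) :
    (fun s : ℂ => Θ.symm (u s) - s ^ m • P.symm A) =o[𝓝 0] fun s : ℂ => s ^ m := by
  have h0 : (0 : ℂ × ℂ) ∈ ball (0 : ℂ × ℂ) R := mem_ball_self hL.pos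
  have hT : y0 ∈ Θ.target := by
    rw [← hG0, ← hL.eq]; exact Θ.map_source (by rw [hL.source]; exact h0)
  have hs0 : Θ.symm y0 = 0 := by
    rw [← hG0, ← hL.eq]; exact Θ.left_inv (by rw [hL.source]; exact h0)
  have hd : HasFDerivAt Θ.symm (P.symm : E →L[ℝ] ℂ × ℂ) y0 := by
    have h1 := ((hL.smooth_symm y0 hT).differentiableAt (by simp)).hasFDerivAt
    refine h1.congr_fderiv (ContinuousLinearMap.ext fun y => ?_)
    have h2 := hL.inv 0 h0 (P.symm y)
    rw [hP.fderiv, hG0] at h2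
    simpa using h2
  have h1 := hasFDerivAt_iff_isLittleO.1 hd
  have hcu : Tendsto u (𝓝 0) (𝓝 y0) := by rw [← hu0]; exact hc
  have h2 := h1.comp_tendsto hcu
  have hO : (fun s : ℂ => u s - y0) =O[𝓝 0] fun s : ℂ => s ^ m := by
    have h3 := ho.isBigO.add (act_isBigO (Jt y0) A m)
    refine h3.congr_left fun s => ?_
    simp
  have h3 : (fun s : ℂ => Θ.symm (u s) - Θ.symm y0 - P.symm (u s - y0)) =o[𝓝 0]
      fun s : ℂ => s ^ m := h2.trans_isBigO hO
  have h4 : (fun s : ℂ => P.symm (u s - y0 - act (Jt y0) (s ^ m) A)) =o[𝓝 0]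
      fun s : ℂ => s ^ m :=
    ((P.symm : E →L[ℝ] ℂ × ℂ).isBigO_comp _ _).trans_isLittleO ho
  have hact : ∀ c : ℂ, P.symm (act (Jt y0) c A) = c • P.symm A := by
    intro c
    rw [P.symm_apply_eq]
    have h5 : c • P.symm A = c.re • P.symm A + c.im • (Complex.I • P.symm A) := by
      conv_lhs => rw [← Complex.re_add_im c, add_smul, mul_smul]
      rw [Complex.coe_smul, Complex.coe_smul]
    rw [h5, map_add, map_smul, map_smul, hPJ, P.apply_symm_apply, act_apply]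
  refine (h3.add h4).congr_left fun s => ?_
  rw [map_sub P.symm (u s - y0), hact, hs0]
  abel

end branch

/-- estimates -/
theorem est {v : ℂ → ℂ × ℂ} {ρ : ℝ} (hρ : 0 < ρ) (hv : ContDiffOn ℝ ∞ v (ball 0 ρ)) {m : ℕ}
    (hm : 1 ≤ m) {b : ℂ × ℂ}
    (ho : (fun s : ℂ => v s - s ^ m • b) =o[𝓝 0] fun s : ℂ => s ^ m) :
    ∃ r C : ℝ, 0 < r ∧ r ≤ ρ ∧ r ≤ 1 ∧ 0 ≤ C ∧ ∀ s ∈ ball (0 : ℂ) r,
      ‖(v s).1 - b.1 * s ^ m‖ ≤ C * ‖s‖ ^ (m + 1) ∧
      ‖fderiv ℝ (fun s => (v s).1) s - mulc (m * b.1 * s ^ (m - 1))‖ ≤ C * ‖s‖ ^ m ∧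
      ‖(v s).2‖ ≤ C * ‖s‖ ^ m ∧
      ‖fderiv ℝ (fun s => (v s).2) s‖ ≤ C * ‖s‖ ^ (m - 1) := by
  let w : ℂ → ℂ × ℂ := fun s => v s - s ^ m • b
  have hpow : ContDiff ℝ ∞ (fun s : ℂ => s ^ m • b) := (contDiff_id.pow m).smul contDiff_const
  have hw : ContDiffOn ℝ ∞ w (ball 0 ρ) := hv.sub hpow.contDiffOn
  let χ : ContDiffBump (0 : ℂ) := ⟨ρ / 4, ρ / 2, by positivity, by linarith⟩
  let g : ℂ → ℂ × ℂ := fun s => χ s • w s
  have hχ : ContDiff ℝ ∞ (χ : ℂ → ℝ) := χ.contDiff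
  have hgs : ContDiff ℝ ∞ g := by
    rw [contDiff_iff_contDiffAt]
    intro s
    by_cases hs : s ∈ ball (0 : ℂ) ρ
    · exact hχ.contDiffAt.smul (hw.contDiffAt (isOpen_ball.mem_nhds hs))
    · have h1 : s ∈ (closedBall (0 : ℂ) (ρ / 2))ᶜ := by
        intro h2
        apply hs
        rw [mem_closedBall_zero_iff] at h2
        rw [mem_ball_zero_iff]
        linarith
      have h2 : g =ᶠ[𝓝 s] fun _ => 0 := by
        filter_upwards [isClosed_closedBall.isOpen_compl.mem_nhds h1] with y hy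
        have h3 : χ y = 0 := by
          apply χ.zero_of_le_dist
          have : ¬ dist y 0 ≤ ρ / 2 := hy
          exact (not_le.1 this).le
        show χ y • w y = 0
        rw [h3, zero_smul]
      exact contDiffAt_const.congr_of_eventuallyEq h2
  have hgc : HasCompactSupport g := χ.hasCompactSupport.smul_right
  have hgb : ∀ n : ℕ, ∃ K : ℝ, ∀ x, ‖iteratedFDeriv ℝ n g x‖ ≤ K := by
    intro n
    obtain ⟨K, hK⟩ := (hgs.continuous_iteratedFDeriv (m := n)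
      (by exact_mod_cast le_top)).bounded_above_of_compact_support (hgc.iteratedFDeriv n)
    exact ⟨K, hK⟩
  have hgw : ∀ s ∈ ball (0 : ℂ) (ρ / 4), g s = w s := by
    intro s hs
    have : χ s = 1 := χ.one_of_mem_closedBall (ball_subset_closedBall hs)
    show χ s • w s = w s
    rw [this, one_smul]
  have hgw' : ∀ s ∈ ball (0 : ℂ) (ρ / 4), g =ᶠ[𝓝 s] w := by
    intro s hs
    filter_upwards [isOpen_ball.mem_nhds hs] with y hy using hgw y hy
  have hog : g =o[𝓝 0] fun x : ℂ => ‖x‖ ^ m := by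
    have h1 : g =ᶠ[𝓝 0] w := hgw' 0 (mem_ball_self (by positivity))
    have h2 : w =o[𝓝 0] fun x : ℂ => ‖x‖ ^ m := by
      have h3 := ho.norm_right
      simpa only [norm_pow] using h3
    exact h1.trans_isLittleO h2
  obtain ⟨C, hC0, hC⟩ := SmO_130.smO hgs hgb hog
  refine ⟨min (ρ / 4) 1, C + (m + 1) * ‖b‖, by positivity, ?_, min_le_right _ _, by positivity, ?_⟩
  · exact (min_le_left _ _).trans (by linarith)
  intro s hs
  have hs4 : s ∈ ball (0 : ℂ) (ρ / 4) := ball_subset_ball (min_le_left _ _) hs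
  have hs1 : ‖s‖ ≤ 1 := by
    have := ball_subset_ball (min_le_right (ρ / 4) 1) hs
    rw [mem_ball_zero_iff] at this
    exact this.le
  have hsρ : s ∈ ball (0 : ℂ) ρ := ball_subset_ball (by linarith) hs4
  obtain ⟨e1, e2⟩ := hC s
  rw [hgw s hs4] at e1
  rw [(hgw' s hs4).fderiv_eq] at e2
  have hvd : HasFDerivAt v (fderiv ℝ v s) s :=
    ((hv.contDiffAt (isOpen_ball.mem_nhds hsρ)).differentiableAt (by simp)).hasFDerivAt
  have hpd : HasFDerivAt (fun s : ℂ => s ^ m) (mulc (m * s ^ (m - 1))) s := by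
    have h1 : HasDerivAt (fun s : ℂ => s ^ m) ((m : ℂ) * s ^ (m - 1)) s := by
      simpa using hasDerivAt_pow m s
    have h2 := h1.hasFDerivAt.restrictScalars ℝ
    refine h2.congr_fderiv (ContinuousLinearMap.ext fun y => ?_)
    rw [mulc_apply]
    simp [mul_comm]
  have hpd2 : HasFDerivAt (fun s : ℂ => s ^ m • b)
      ((mulc (m * s ^ (m - 1))).smulRight b) s := hpd.smul_const b
  have hwd : fderiv ℝ w s = fderiv ℝ v s - (mulc (m * s ^ (m - 1))).smulRight b :=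
    (hvd.sub hpd2).fderiv
  have hv1 : HasFDerivAt (fun s => (v s).1) ((ContinuousLinearMap.fst ℝ ℂ ℂ).comp (fderiv ℝ v s)) s :=
    hasFDerivAt_fst.comp s hvd
  have hv2 : HasFDerivAt (fun s => (v s).2) ((ContinuousLinearMap.snd ℝ ℂ ℂ).comp (fderiv ℝ v s)) s :=
    hasFDerivAt_snd.comp s hvd
  have hCb : C ≤ C + (m + 1) * ‖b‖ := by
    have : 0 ≤ ((m : ℝ) + 1) * ‖b‖ := by positivity
    linarith
  have hsm : ‖s‖ ^ m ≤ ‖s‖ ^ (m - 1) := pow_le_pow_of_le_one (norm_nonneg _) hs1 (Nat.sub_le m 1)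
  have hsm1 : ‖s‖ ^ (m + 1) ≤ ‖s‖ ^ m := pow_le_pow_of_le_one (norm_nonneg _) hs1 (Nat.le_succ m)
  refine ⟨?_, ?_, ?_, ?_⟩
  · have h1 : (v s).1 - b.1 * s ^ m = (w s).1 := by
      show _ = (v s).1 - s ^ m * b.1
      ring
    rw [h1]
    exact (norm_fst_le _).trans (e1.trans (by gcongr))
  · have h1 : fderiv ℝ (fun s => (v s).1) s - mulc (m * b.1 * s ^ (m - 1)) =
        (ContinuousLinearMap.fst ℝ ℂ ℂ).comp (fderiv ℝ w s) := by
      rw [hv1.fderiv, hwd]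
      refine ContinuousLinearMap.ext fun y => ?_
      simp only [sub_apply, ContinuousLinearMap.comp_apply, mulc_apply,
        ContinuousLinearMap.coe_fst', ContinuousLinearMap.smulRight_apply, Prod.fst_sub,
        Prod.smul_fst, smul_eq_mul]
      ring
    rw [h1]
    have h2 : ‖(ContinuousLinearMap.fst ℝ ℂ ℂ).comp (fderiv ℝ w s)‖ ≤ ‖fderiv ℝ w s‖ := by
      refine (ContinuousLinearMap.opNorm_comp_le _ _).trans ?_
      calc _ ≤ 1 * ‖fderiv ℝ w s‖ := by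
            gcongr
            exact ContinuousLinearMap.norm_fst_le ℝ ℂ ℂ
        _ = _ := one_mul _
    exact h2.trans (e2.trans (by gcongr))
  · have h1 : (v s).2 = (w s).2 + s ^ m * b.2 := by
      show _ = ((v s).2 - s ^ m * b.2) + s ^ m * b.2
      ring
    rw [h1]
    calc ‖(w s).2 + s ^ m * b.2‖ ≤ ‖(w s).2‖ + ‖s ^ m * b.2‖ := norm_add_le _ _
      _ ≤ C * ‖s‖ ^ (m + 1) + ‖s‖ ^ m * ‖b‖ := by
          rw [norm_mul, norm_pow]
          gcongr
          · exact (norm_snd_le _).trans e1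
          · exact norm_snd_le _
      _ ≤ C * ‖s‖ ^ m + ‖s‖ ^ m * ((m + 1) * ‖b‖) := by
          gcongr
          have : 0 ≤ (m : ℝ) * ‖b‖ := by positivity
          linarith
      _ = _ := by ring
  · have h1 : fderiv ℝ (fun s => (v s).2) s = (ContinuousLinearMap.snd ℝ ℂ ℂ).comp (fderiv ℝ w s) +
        mulc (m * b.2 * s ^ (m - 1)) := by
      rw [hv2.fderiv, hwd]
      refine ContinuousLinearMap.ext fun y => ?_
      simp only [add_apply, sub_apply, ContinuousLinearMap.comp_apply, mulc_apply,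
        ContinuousLinearMap.coe_snd', ContinuousLinearMap.smulRight_apply, Prod.snd_sub,
        Prod.smul_snd, smul_eq_mul]
      ring
    rw [h1]
    have h2 : ‖(ContinuousLinearMap.snd ℝ ℂ ℂ).comp (fderiv ℝ w s)‖ ≤ ‖fderiv ℝ w s‖ := by
      refine (ContinuousLinearMap.opNorm_comp_le _ _).trans ?_
      calc _ ≤ 1 * ‖fderiv ℝ w s‖ := by
            gcongr
            exact ContinuousLinearMap.norm_snd_le ℝ ℂ ℂ
        _ = _ := one_mul _
    calc _ ≤ ‖(ContinuousLinearMap.snd ℝ ℂ ℂ).comp (fderiv ℝ w s)‖ +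
          ‖mulc (m * b.2 * s ^ (m - 1))‖ := norm_add_le _ _
      _ ≤ C * ‖s‖ ^ m + m * ‖b‖ * ‖s‖ ^ (m - 1) := by
          refine add_le_add (h2.trans e2) ?_
          rw [norm_mulc, norm_mul, norm_mul, norm_pow]
          gcongr
          · simp
          · exact norm_snd_le _
      _ ≤ C * ‖s‖ ^ (m - 1) + (m + 1) * ‖b‖ * ‖s‖ ^ (m - 1) := by
          gcongr
          linarith
      _ = _ := by ring

end

end Crest.Agent.R235.FBoxB_130
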