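import Crest.Agent.R235.Glob3_370
import Crest.Agent.R235.Glob2_370
import Crest.Agent.R235.PB_604
import Crest.Agent.R235.RSBas_538

-- ▼ part R235/Glob4_370
section

/-!
Row 235 (S0364), REG-GLOB (helper370), part 4: the Riemann surface of all branches.
-/

set_option autoImplicit false
set_option maxSynthPendingDepth 3
set_option linter.unusedSectionVars false

open Set Function Filter MeasureTheory Metric
open scoped Manifold ContDiff Topology

universe u

namespace Crest.Agent.R235.Glob_370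

open Crest.Agent.R240 Crest.Agent.R240.Ch

noncomputable section

instance nonempty_disc : Nonempty (ball (0 : ℂ) 1) := ⟨⟨0, mem_ball_self one_pos⟩⟩

/-- the inclusion of the disc. -/
def inc : OpenPartialHomeomorph (ball (0 : ℂ) 1) ℂ :=
  (isOpen_ball (x := (0 : ℂ)) (ε := 1)).isOpenEmbedding_subtypeVal.toOpenPartialHomeomorph _


lemma inc_source : inc.source = univ := rfl

lemma inc_target : inc.target = ball (0 : ℂ) 1 := by
  rw [inc, Topology.IsOpenEmbedding.toOpenPartialHomeomorph_target]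
  exact Subtype.range_coe

lemma inc_symm {z : ℂ} (hz : z ∈ ball (0 : ℂ) 1) : inc.symm z = ⟨z, hz⟩ := by
  have h : inc.symm (inc ⟨z, hz⟩) = ⟨z, hz⟩ := inc.left_inv (mem_univ _)
  exact h

variable {M : Type u} [TopologicalSpace M] [ChartedSpace E4 M] [IsManifold 𝓘(ℝ, E4) ∞ M]
variable [T2Space M] [CompactSpace M]
variable {J : EndF E4 M} {S : Set M} (L : ∀ p, LocForm J S p)

/-- the index set of all branches. -/
abbrev Ix : Type u := (p : M) × Fin (L p).n

/-- the parametrisations of the branches. -/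
def uu (a : Ix L) : ℂ → M := (L a.1).u a.2

lemma adm : Adm (uu L) where
  cont a := (L a.1).cont a.2
  inj a := ((L a.1).disc a.2).inj

/-- the surface. -/
abbrev NN : Type u := Br (uu L)

/-- the map to `M`. -/
abbrev ff : NN L → M := pt (uu L)

lemma ff_phi (a : Ix L) (z : ball (0 : ℂ) 1) : ff L (phi (uu L) a z) = uu L a z :=
  (adm L).pt_phi a z

lemma ff_cont : Continuous (ff L) := (adm L).continuous_pt

/-- two branches at `p` are different. -/
lemma phi_ne {p : M} {i j : Fin (L p).n} {z w : ball (0 : ℂ) 1}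
    (h : phi (uu L) ⟨p, i⟩ z = phi (uu L) ⟨p, j⟩ w) : i = j := by
  by_contra hij
  have h1 : map ((L p).u i) (𝓝 (z : ℂ)) = map ((L p).u j) (𝓝 (w : ℂ)) := congrArg Subtype.val h
  have h2 : (L p).u j '' ball (0 : ℂ) 1 ∈ map ((L p).u i) (𝓝 (z : ℂ)) := by
    rw [h1]
    exact image_mem_map (isOpen_ball.mem_nhds w.2)
  have h3 : ∀ᶠ z' in 𝓝 (z : ℂ), z' = 0 := by
    filter_upwards [h2, isOpen_ball.mem_nhds z.2] with z' hz1 hz2
    obtain ⟨w', hw', hw2⟩ := hz1
    exact (L p).disj i j hij z' hz2 w' hw' hw2.symm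
  obtain ⟨r, hr, hb⟩ := Metric.eventually_nhds_iff_ball.1 h3
  have h4 := hb z (mem_ball_self hr)
  have h5 := hb (z + (r / 2 : ℝ)) (by
    rw [mem_ball, dist_eq_norm, add_sub_cancel_left, Complex.norm_real,
      Real.norm_of_nonneg (by linarith)]
    linarith)
  rw [h4, zero_add, Complex.ofReal_eq_zero] at h5
  linarith


lemma uu_mem (a : Ix L) {z : ℂ} (hz : z ∈ ball (0 : ℂ) 1) : uu L a z ∈ S :=
  ((L a.1).maps a.2 hz).1

/-- local form of transition: near a point over `U_p` the branch is a branch at `p`. -/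
theorem trans_exists (a : Ix L) (z : ball (0 : ℂ) 1) {p : M} (hp : uu L a z ∈ (L p).U) :
    ∃ (j : Fin (L p).n) (r : ℝ) (h : ℂ → ℂ), 0 < r ∧ ball (z : ℂ) r ⊆ ball 0 1 ∧
      DifferentiableOn ℂ h (ball (z : ℂ) r) ∧ (∀ w ∈ ball (z : ℂ) r, deriv h w ≠ 0) ∧
      ∀ (w : ℂ) (_ : w ∈ ball (z : ℂ) r) (h1 : w ∈ ball (0 : ℂ) 1),
        ∃ h2 : h w ∈ ball (0 : ℂ) 1, phi (uu L) a ⟨w, h1⟩ = phi (uu L) ⟨p, j⟩ ⟨h w, h2⟩ := by
  obtain ⟨j, r, hr, hrO, hj⟩ := (L p).exists_fac isOpen_ball ((L a.1).disc a.2).hol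
    ((L a.1).disc a.2).inj (fun w hw => uu_mem L a hw) z.2 hp
  have hH := ((L a.1).disc a.2).hol.mono hrO
  have hI := ((L a.1).disc a.2).inj.mono hrO
  refine ⟨j, r, (L p).fac j (uu L a), hr, hrO, (L p).fac_hol j isOpen_ball hH hI hj,
    fun w hw => (L p).fac_deriv j isOpen_ball hH hI hj hw, fun w hw h1 => ?_⟩
  exact ⟨(L p).fac_mem j hj hw, Subtype.ext ((L p).fac_germ j isOpen_ball hH hI hj hw)⟩

lemma exists_phi_of_mem {p : M} (x : NN L) (hx : ff L x ∈ (L p).U) :
    ∃ j z, phi (uu L) ⟨p, j⟩ z = x := by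
  obtain ⟨a, z, rfl⟩ := exists_phi x
  rw [ff_phi] at hx
  obtain ⟨j, r, h, hr, hrO, -, -, hh⟩ := trans_exists L a z hx
  obtain ⟨h2, h3⟩ := hh z (mem_ball_self hr) z.2
  exact ⟨j, ⟨h z, h2⟩, h3.symm⟩

/-! ### Hausdorff, compact, locally connected -/

lemma centre_of_ff {p : M} (x : NN L) (hx : ff L x = p) :
    ∃ j, phi (uu L) ⟨p, j⟩ ⟨0, mem_ball_self one_pos⟩ = x := by
  obtain ⟨j, z, rfl⟩ := exists_phi_of_mem (p := p) L x (by rw [hx]; exact (L p).mem)
  rw [ff_phi] at hx
  have h0 := (L p).at_centre j z.2 hx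
  exact ⟨j, by congr 1; exact Subtype.ext h0.symm⟩

instance t2_NN : T2Space (NN L) := by
  refine ⟨fun x y hxy => ?_⟩
  by_cases h : ff L x = ff L y
  · obtain ⟨i, hi⟩ := centre_of_ff L x rfl
    obtain ⟨j, hj⟩ := centre_of_ff L y h.symm
    have hij : i ≠ j := by
      rintro rfl
      exact hxy (hi.symm.trans hj)
    refine ⟨range (phi (uu L) ⟨ff L x, i⟩), range (phi (uu L) ⟨ff L x, j⟩),
      ((adm L).openEmb _).isOpen_range, ((adm L).openEmb _).isOpen_range, ⟨_, hi⟩, ⟨_, hj⟩, ?_⟩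
    rw [Set.disjoint_left]
    rintro _ ⟨z, rfl⟩ ⟨w, hw⟩
    exact hij (phi_ne L hw.symm)
  · exact separated_by_continuous (ff_cont L) h

lemma compact_NN : CompactSpace (NN L) := by
  have hK : ∀ p : M, ∃ K ∈ 𝓝 p, IsCompact (ff L ⁻¹' K) := by
    intro p
    obtain ⟨K, hK, hKU, hKc⟩ := local_compact_nhds ((L p).openU.mem_nhds (L p).mem)
    refine ⟨K, hK, ?_⟩
    choose r hr hr2 using fun j => (L p).proper j K hKc hKU
    have h1 : ff L ⁻¹' K ⊆ ⋃ j, phi (uu L) ⟨p, j⟩ '' {z | ‖(z : ℂ)‖ ≤ r j} := by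
      intro x hx
      obtain ⟨j, z, rfl⟩ := exists_phi_of_mem (p := p) L x (hKU hx)
      rw [mem_preimage, ff_phi] at hx
      exact mem_iUnion.2 ⟨j, z, hr2 j z z.2 hx, rfl⟩
    refine IsCompact.of_isClosed_subset (isCompact_iUnion fun j => ?_)
      (hKc.isClosed.preimage (ff_cont L)) h1
    refine IsCompact.image ?_ (continuous_phi _ _)
    rw [Subtype.isCompact_iff]
    have h2 : Subtype.val '' {z : ball (0 : ℂ) 1 | ‖(z : ℂ)‖ ≤ r j} = closedBall (0 : ℂ) (r j) := by
      ext w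
      constructor
      · rintro ⟨z, hz, rfl⟩
        rw [mem_closedBall_zero_iff]; exact hz
      · intro hw
        refine ⟨⟨w, closedBall_subset_ball (hr j) hw⟩, ?_, rfl⟩
        rw [mem_closedBall_zero_iff] at hw
        exact hw
    rw [h2]
    exact isCompact_closedBall _ _
  choose K hK hKc using hK
  obtain ⟨t, ht⟩ := CompactSpace.elim_nhds_subcover K hK
  constructor
  have h1 : (univ : Set (NN L)) = ⋃ p ∈ t, ff L ⁻¹' (K p) := by
    ext x
    simp only [mem_univ, true_iff, mem_iUnion]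
    have : ff L x ∈ ⋃ p ∈ t, K p := ht.symm ▸ mem_univ _
    simpa using this
  rw [h1]
  exact t.isCompact_biUnion fun p _ => hKc p

/-- the chart of a branch. -/
def chart (a : Ix L) : OpenPartialHomeomorph (NN L) ℂ :=
  (((adm L).openEmb a).toOpenPartialHomeomorph _).symm.trans inc

lemma chart_source (a : Ix L) : (chart L a).source = range (phi (uu L) a) := by
  rw [chart, OpenPartialHomeomorph.trans_source, inc_source]
  simp

lemma chart_target (a : Ix L) : (chart L a).target = ball 0 1 := by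
  rw [chart, OpenPartialHomeomorph.trans_target, inc_target]
  simp

lemma chart_phi (a : Ix L) (z : ball (0 : ℂ) 1) : chart L a (phi (uu L) a z) = z := by
  have h : ((((adm L).openEmb a).toOpenPartialHomeomorph _).symm) (phi (uu L) a z) = z :=
    ((adm L).openEmb a).toOpenPartialHomeomorph_left_inv
  show inc ((((adm L).openEmb a).toOpenPartialHomeomorph _).symm (phi (uu L) a z)) = z
  rw [h]
  rfl

lemma chart_symm (a : Ix L) {z : ℂ} (hz : z ∈ ball (0 : ℂ) 1) :
    (chart L a).symm z = phi (uu L) a ⟨z, hz⟩ := by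
  show phi (uu L) a (inc.symm z) = _
  rw [inc_symm hz]

/-- the transition functions. -/
lemma chart_trans (a b : Ix L) {z : ℂ} (hz : z ∈ ball (0 : ℂ) 1)
    (hb : phi (uu L) a ⟨z, hz⟩ ∈ range (phi (uu L) b)) :
    DifferentiableAt ℂ (fun z => chart L b ((chart L a).symm z)) z ∧
      deriv (fun z => chart L b ((chart L a).symm z)) z ≠ 0 := by
  obtain ⟨w, hw⟩ := hb
  have hU : uu L a z ∈ (L b.1).U := by
    have h1 : uu L a z = uu L b w := by
      rw [← ff_phi L b w, hw, ff_phi]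
    rw [h1]
    exact ((L b.1).maps b.2 w.2).2
  obtain ⟨j, r, h, hr, hrO, hd, hd0, hh⟩ := trans_exists L a ⟨z, hz⟩ hU
  obtain ⟨h2, h3⟩ := hh z (mem_ball_self hr) hz
  have hj : j = b.2 := by
    have h4 : phi (uu L) ⟨b.1, j⟩ ⟨h z, h2⟩ = phi (uu L) ⟨b.1, b.2⟩ w := h3.symm.trans hw.symm
    exact phi_ne L h4
  have hev : (fun z => chart L b ((chart L a).symm z)) =ᶠ[𝓝 z] h := by
    filter_upwards [isOpen_ball.mem_nhds (mem_ball_self (x := z) hr)] with z' hz'
    obtain ⟨h5, h6⟩ := hh z' hz' (hrO hz')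
    rw [chart_symm L a (hrO hz'), h6]
    subst hj
    exact chart_phi L b ⟨h z', h5⟩
  have hdz := hd.differentiableAt (isOpen_ball.mem_nhds (mem_ball_self (x := z) hr))
  refine ⟨hdz.congr_of_eventuallyEq hev, ?_⟩
  rw [hev.deriv_eq]
  exact hd0 z (mem_ball_self hr)

/-- the holomorphic atlas. -/
def atl : RS.CAtl.{u, u} (NN L) where
  ι := Ix L
  c := chart L
  cover x := by
    obtain ⟨a, z, rfl⟩ := exists_phi x
    exact ⟨a, by rw [chart_source]; exact ⟨z, rfl⟩⟩
  hol a b := by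
    rintro z ⟨hz, hz2⟩
    rw [chart_target] at hz
    rw [chart_symm L a hz, chart_source] at hz2
    exact (chart_trans L a b hz hz2).1.differentiableWithinAt

lemma locConn_NN : LocallyConnectedSpace (NN L) := by
  have h1 : ChartedSpace ℂ (NN L) :=
    { atlas := range (chart L)
      chartAt := fun x => chart L (exists_phi x).choose
      mem_chart_source := fun x => by
        rw [chart_source]
        exact (exists_phi x).choose_spec
      chart_mem_atlas := fun x => mem_range_self _ }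
  exact ChartedSpace.locallyConnectedSpace ℂ (NN L)

end

end Crest.Agent.R235.Glob_370
end

-- ▼ part R235/Glob5_370
section

/-!
Row 235 (S0364), REG-GLOB (helper370), part 5: pull back of one- and two-forms by maps `ℂ → M`,
Stokes on the disc.
-/

set_option autoImplicit false
set_option maxSynthPendingDepth 3
set_option linter.unusedSectionVars false

open Set Function Filter MeasureTheory Metric
open scoped Manifold ContDiff Topology

universe u

namespace Crest.Agent.R235.Glob_370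

open Crest.Agent.R240 Crest.Agent.R240.Ch

noncomputable section

variable {M : Type u} [TopologicalSpace M] [ChartedSpace E4 M] [IsManifold 𝓘(ℝ, E4) ∞ M]

/-- the differential in the preferred chart, as a continuous linear map. -/
def dm (u : ℂ → M) (z : ℂ) : ℂ →L[ℝ] E4 :=
  fderiv ℝ (fun z' : ℂ => chartAt E4 (u z) (u z')) z

lemma dm_apply (u : ℂ → M) (z v : ℂ) : dm u z v = dmap u z v := rfl

/-- pull back of a one-form. -/
def p1 (u : ℂ → M) (s : F1 E4 M) (z : ℂ) : ℂ →L[ℝ] ℝ := (at1 s (u z)).comp (dm u z)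

lemma p1_apply (u : ℂ → M) (s : F1 E4 M) (z v : ℂ) : p1 u s z v = at1 s (u z) (dmap u z v) := rfl

variable {u : ℂ → M} {O : Set ℂ}

lemma ev_smooth (hO : IsOpen O) (hu : ContMDiffOn 𝓘(ℝ, ℂ) 𝓘(ℝ, E4) ∞ u O) {z : ℂ} (hz : z ∈ O)
    {p : M} (hp : u z ∈ (chartAt E4 p).source) :
    ∀ᶠ z' in 𝓝 z, u z' ∈ (chartAt E4 p).source ∧ ContMDiffAt 𝓘(ℝ, ℂ) 𝓘(ℝ, E4) ∞ u z' := by
  have h1 : ContMDiffAt 𝓘(ℝ, ℂ) 𝓘(ℝ, E4) ∞ u z := hu.contMDiffAt (hO.mem_nhds hz)
  filter_upwards [h1.continuousAt.eventually ((chartAt E4 p).open_source.mem_nhds hp),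
    hO.mem_nhds hz] with z' h2 h3
  exact ⟨h2, hu.contMDiffAt (hO.mem_nhds h3)⟩

lemma tcc_left {p x : M} (hx : x ∈ (chartAt E4 p).source) (v : E4) :
    tcc p x x (tcc x p x v) = v := by
  rw [tcc_comp (mem_chart_source E4 x) hx (mem_chart_source E4 x), tcc_self (mem_chart_source E4 x)]

lemma p1_chart {z : ℂ} {p : M} (hp : u z ∈ (chartAt E4 p).source)
    (hu : ContMDiffAt 𝓘(ℝ, ℂ) 𝓘(ℝ, E4) ∞ u z) (s : F1 E4 M) :
    p1 u s z = (rep1 p s (chartAt E4 p (u z))).comp
      (fderiv ℝ (fun z' => chartAt E4 p (u z')) z) := by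
  refine ContinuousLinearMap.ext fun v => ?_
  rw [p1_apply, ContinuousLinearMap.comp_apply, ← tcc_dmap hp hu, rep1_apply,
    (chartAt E4 p).left_inv hp, tcc_left hp]

lemma pb_chart {z : ℂ} {p : M} (hp : u z ∈ (chartAt E4 p).source)
    (hu : ContMDiffAt 𝓘(ℝ, ℂ) 𝓘(ℝ, E4) ∞ u z) (b : F2 E4 M) :
    pb u b z = rep p b (chartAt E4 p (u z))
      (fderiv ℝ (fun z' => chartAt E4 p (u z')) z 1)
      (fderiv ℝ (fun z' => chartAt E4 p (u z')) z Complex.I) := by
  rw [← tcc_dmap hp hu, ← tcc_dmap hp hu, rep_apply, (chartAt E4 p).left_inv hp, tcc_left hp,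
    tcc_left hp]
  rfl

theorem p1_smooth (hO : IsOpen O) (hu : ContMDiffOn 𝓘(ℝ, ℂ) 𝓘(ℝ, E4) ∞ u O) {s : F1 E4 M}
    (hs : Smooth1 s) {z : ℂ} (hz : z ∈ O) : ContDiffAt ℝ ∞ (p1 u s) z := by
  have hp := mem_chart_source E4 (u z)
  have h1 : ContMDiffAt 𝓘(ℝ, ℂ) 𝓘(ℝ, E4) ∞ u z := hu.contMDiffAt (hO.mem_nhds hz)
  have hU := cd_chart' hp h1
  have h2 : p1 u s =ᶠ[𝓝 z] fun z' => (rep1 (u z) s (chartAt E4 (u z) (u z'))).comp
      (fderiv ℝ (fun z' => chartAt E4 (u z) (u z')) z') := by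
    filter_upwards [ev_smooth hO hu hz hp] with z' hz'
    exact p1_chart hz'.1 hz'.2 s
  refine ContDiffAt.congr_of_eventuallyEq ?_ h2
  have h3 : ContDiffAt ℝ ∞ (fun z' => rep1 (u z) s (chartAt E4 (u z) (u z'))) z :=
    ContDiffAt.comp (g := rep1 (u z) s) z (hs.at ((chartAt E4 (u z)).map_source hp)) hU
  exact h3.clm_comp (hU.fderiv_right (m := ∞) (by simp))

theorem pb_smooth (hO : IsOpen O) (hu : ContMDiffOn 𝓘(ℝ, ℂ) 𝓘(ℝ, E4) ∞ u O) {b : F2 E4 M}
    (hb : Smooth2 b) {z : ℂ} (hz : z ∈ O) : ContDiffAt ℝ ∞ (pb u b) z := by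
  have hp := mem_chart_source E4 (u z)
  have h1 : ContMDiffAt 𝓘(ℝ, ℂ) 𝓘(ℝ, E4) ∞ u z := hu.contMDiffAt (hO.mem_nhds hz)
  have hU := cd_chart' hp h1
  have h2 : pb u b =ᶠ[𝓝 z] fun z' => rep (u z) b (chartAt E4 (u z) (u z'))
      (fderiv ℝ (fun z' => chartAt E4 (u z) (u z')) z' 1)
      (fderiv ℝ (fun z' => chartAt E4 (u z) (u z')) z' Complex.I) := by
    filter_upwards [ev_smooth hO hu hz hp] with z' hz'
    exact pb_chart hz'.1 hz'.2 b
  refine ContDiffAt.congr_of_eventuallyEq ?_ h2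
  have h3 : ContDiffAt ℝ ∞ (fun z' => rep (u z) b (chartAt E4 (u z) (u z'))) z :=
    ContDiffAt.comp (g := rep (u z) b) z (hb.at ((chartAt E4 (u z)).map_source hp)) hU
  have h4 := hU.fderiv_right (m := ∞) (by simp)
  exact (h3.clm_apply (h4.clm_apply contDiffAt_const)).clm_apply (h4.clm_apply contDiffAt_const)

/-- pull back commutes with `d`. -/
theorem pb_dG (hO : IsOpen O) (hu : ContMDiffOn 𝓘(ℝ, ℂ) 𝓘(ℝ, E4) ∞ u O) {s : F1 E4 M}
    (hs : Smooth1 s) {z : ℂ} (hz : z ∈ O) :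
    pb u (dG s) z = d1 (p1 u s) z 1 Complex.I := by
  have hp := mem_chart_source E4 (u z)
  have ht := (chartAt E4 (u z)).map_source hp
  have h1 : ContMDiffAt 𝓘(ℝ, ℂ) 𝓘(ℝ, E4) ∞ u z := hu.contMDiffAt (hO.mem_nhds hz)
  have hU := cd_chart' hp h1
  rw [pb_chart hp h1, rep_dG hs ht]
  refine (PB_604.d1_pullback' hU ((hs.at ht).differentiableAt (by simp)) ?_ 1 Complex.I).symm
  filter_upwards [ev_smooth hO hu hz hp] with z' hz'
  exact p1_chart hz'.1 hz'.2 s

/-- `∫ ∂_v f = 0`. -/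
lemma integral_fderiv_zero {f : ℂ → ℝ} (hf : ContDiff ℝ 1 f) (hc : HasCompactSupport f) (v : ℂ) :
    ∫ z, fderiv ℝ f z v = 0 := by
  have h1 : Continuous fun z => fderiv ℝ f z v :=
    (hf.continuous_fderiv (by simp)).clm_apply continuous_const
  have h2 : HasCompactSupport fun z => fderiv ℝ f z v := hc.fderiv_apply (𝕜 := ℝ) v
  have h := integral_mul_fderiv_eq_neg_fderiv_mul_of_integrable (μ := (volume : Measure ℂ))
    (f := fun _ : ℂ => (1 : ℝ)) (g := f) (v := v) (by simp) (by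
      simpa using h1.integrable_of_hasCompactSupport h2) (by
      simpa using hf.continuous.integrable_of_hasCompactSupport hc)
      (fun x _ => by fun_prop) (fun x _ => hf.differentiable (by simp) x)
  simpa using h

/-- Stokes on the disc. -/
theorem stokes_disc (hu : ContMDiffOn 𝓘(ℝ, ℂ) 𝓘(ℝ, E4) ∞ u (ball 0 1)) {s : F1 E4 M}
    (hs : Smooth1 s) {r : ℝ} (hr : r < 1)
    (h0 : ∀ z ∈ ball (0 : ℂ) 1, r < ‖z‖ → at1 s (u z) = 0) :
    ∫ z in ball (0 : ℂ) 1, pb u (dG s) z = 0 := by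
  classical
  set t : ℂ → ℂ →L[ℝ] ℝ := fun z => if z ∈ ball (0 : ℂ) 1 then p1 u s z else 0 with ht
  have ht0 : ∀ z, r < ‖z‖ → t z = 0 := by
    intro z hz
    by_cases h : z ∈ ball (0 : ℂ) 1
    · have : t z = p1 u s z := if_pos h
      rw [this]
      ext v <;> rw [p1_apply, h0 z h hz] <;> rfl
    · exact if_neg h
  have htev : ∀ z ∈ ball (0 : ℂ) 1, t =ᶠ[𝓝 z] p1 u s := by
    intro z hz
    filter_upwards [isOpen_ball.mem_nhds hz] with w hw using if_pos hw
  have hts : ContDiff ℝ ∞ t := by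
    rw [contDiff_iff_contDiffAt]
    intro z
    by_cases h : z ∈ ball (0 : ℂ) 1
    · exact (p1_smooth isOpen_ball hu hs h).congr_of_eventuallyEq (htev z h)
    · have hz : r < ‖z‖ := by
        rw [mem_ball_zero_iff, not_lt] at h
        linarith
      refine (contDiffAt_const (c := (0 : ℂ →L[ℝ] ℝ))).congr_of_eventuallyEq ?_
      filter_upwards [(isOpen_lt continuous_const continuous_norm).mem_nhds hz] with w hw
      exact ht0 w hw
  have htc : HasCompactSupport t := by
    refine HasCompactSupport.intro (isCompact_closedBall (0 : ℂ) r) ?_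
    intro z hz
    rw [mem_closedBall_zero_iff, not_le] at hz
    exact ht0 z hz
  have hd : ∀ v : ℂ, ContDiff ℝ 1 (fun z => t z v) := fun v =>
    (hts.clm_apply contDiff_const).of_le (by simp)
  have hdc : ∀ v : ℂ, HasCompactSupport (fun z => t z v) := fun v =>
    htc.comp_left (g := fun L : ℂ →L[ℝ] ℝ => L v) (by simp)
  have hfd : ∀ z v w : ℂ, fderiv ℝ t z v w = fderiv ℝ (fun z => t z w) z v := by
    intro z v w
    have h1 := ((hts.differentiable (by simp) z).hasFDerivAt.clm_apply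
      (hasFDerivAt_const w z)).fderiv
    rw [h1]
    simp
  have h1 : ∫ z in ball (0 : ℂ) 1, pb u (dG s) z =
      ∫ z in ball (0 : ℂ) 1, (fderiv ℝ (fun z => t z Complex.I) z 1 -
        fderiv ℝ (fun z => t z 1) z Complex.I) := by
    refine setIntegral_congr_fun measurableSet_ball fun z hz => ?_
    rw [pb_dG isOpen_ball hu hs hz, ← d1_congr (htev z hz), ← hfd, ← hfd]
    rfl
  rw [h1]
  have h2 : ∫ z in ball (0 : ℂ) 1, (fderiv ℝ (fun z => t z Complex.I) z 1 -
        fderiv ℝ (fun z => t z 1) z Complex.I) =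
      ∫ z, (fderiv ℝ (fun z => t z Complex.I) z 1 - fderiv ℝ (fun z => t z 1) z Complex.I) := by
    refine setIntegral_eq_integral_of_forall_compl_eq_zero fun z hz => ?_
    have hz : r < ‖z‖ := by
      rw [mem_ball_zero_iff, not_lt] at hz
      linarith
    have hev : ∀ v : ℂ, (fun z => t z v) =ᶠ[𝓝 z] fun _ => 0 := by
      intro v
      filter_upwards [(isOpen_lt continuous_const continuous_norm).mem_nhds hz] with w hw
      rw [ht0 w hw]; rfl
    rw [(hev Complex.I).fderiv_eq, (hev 1).fderiv_eq]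
    simp
  rw [h2]
  have hint : ∀ v w : ℂ, Integrable (fun z => fderiv ℝ (fun z => t z v) z w) := by
    intro v w
    refine Continuous.integrable_of_hasCompactSupport ?_ ((hdc v).fderiv_apply (𝕜 := ℝ) w)
    exact ((hd v).continuous_fderiv (by simp)).clm_apply continuous_const
  rw [integral_sub (hint _ _) (hint _ _), integral_fderiv_zero (hd _) (hdc _),
    integral_fderiv_zero (hd _) (hdc _), sub_zero]

end

end Crest.Agent.R235.Glob_370
end

-- ▼ part R235/Glob6_370
section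

/-!
Row 235 (S0364), REG-GLOB (helper370), part 6: densities on a Riemann surface and change of charts
(all universes).

* `Dens A`      : densities `h i` with `h i = (h j ∘ tr i j) |tr'|²`
* `integral_tr` : `∫` over a chart overlap does not depend on the chart
* `two_cover`   : the sum of the integrals over a disjoint family of charts covering the support
  does not depend on the family
-/

set_option autoImplicit false
set_option linter.unusedSectionVars false

open Set Filter Topology Function MeasureTheory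

universe u v

namespace Crest.Agent.R235.Glob_370

open RS

noncomputable section

theorem det_mulC (a : ℂ) :
    ((ContinuousLinearMap.mul ℝ ℂ a : ℂ →L[ℝ] ℂ)).det = ‖a‖ ^ 2 := by
  rw [← Complex.normSq_eq_norm_sq, ← Algebra.norm_complex_apply, Algebra.norm_apply]
  rfl

variable {N : Type u} [TopologicalSpace N] (A : CAtl.{u, v} N)

theorem tr_inj (i j : A.ι) : InjOn (A.tr i j) (A.dom i j) := by
  intro y hy z hz hyz
  have h1 : (A.c i).symm y = (A.c i).symm z := by
    rw [← A.symm_tr hy, ← A.symm_tr hz, hyz]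
  exact (A.c i).symm.injOn hy.1 hz.1 h1

theorem tr_image (i j : A.ι) : A.tr i j '' A.dom i j = A.dom j i := by
  ext w
  constructor
  · rintro ⟨z, hz, rfl⟩
    exact A.tr_mem hz
  · intro hw
    refine ⟨A.tr j i w, A.tr_mem hw, ?_⟩
    rw [A.tr_tr hw, A.tr_self hw.1]

/-- change of charts on a subset. -/
theorem integral_tr_on (i j : A.ι) {s : Set ℂ} (hs : MeasurableSet s) (hsd : s ⊆ A.dom i j)
    {g g' : ℂ → ℝ}
    (h : ∀ z ∈ s, g z = g' (A.tr i j z) * ‖deriv (A.tr i j) z‖ ^ 2) :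
    ∫ z in s, g z = ∫ z in A.tr i j '' s, g' z := by
  have hder : ∀ z ∈ s, HasFDerivWithinAt (A.tr i j)
      (ContinuousLinearMap.mul ℝ ℂ (deriv (A.tr i j) z)) s z := by
    intro z hz
    have h1 : HasDerivAt (A.tr i j) (deriv (A.tr i j) z) z := (A.tr_diffAt (hsd hz)).hasDerivAt
    have h2 := h1.complexToReal_fderiv.hasFDerivWithinAt (s := s)
    convert h2 using 1
    ext <;> simp
  rw [integral_image_eq_integral_abs_det_fderiv_smul volume hs hder
    ((tr_inj A i j).mono hsd)]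
  refine setIntegral_congr_fun hs fun z hz => ?_
  rw [det_mulC, abs_of_nonneg (sq_nonneg _), h z hz, smul_eq_mul, mul_comm]

theorem integral_tr (i j : A.ι) {g g' : ℂ → ℝ}
    (h : ∀ z ∈ A.dom i j, g z = g' (A.tr i j z) * ‖deriv (A.tr i j) z‖ ^ 2) :
    ∫ z in A.dom i j, g z = ∫ z in A.dom j i, g' z := by
  rw [integral_tr_on A i j (A.isOpen_dom i j).measurableSet subset_rfl h, tr_image]

/-- the sum over the charts of a disjoint family does not depend on the family. -/
theorem two_cover {m n : Type} [Fintype m] [Fintype n] (a : m → A.ι) (b : n → A.ι)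
    (ha : ∀ k l, k ≠ l → Disjoint (A.c (a k)).source (A.c (a l)).source)
    (hb : ∀ k l, k ≠ l → Disjoint (A.c (b k)).source (A.c (b l)).source)
    (F : Set N) (g : m → ℂ → ℝ) (g' : n → ℂ → ℝ)
    (hg : ∀ k, ∀ z ∈ (A.c (a k)).target, (A.c (a k)).symm z ∉ F → g k z = 0)
    (hg' : ∀ k, ∀ z ∈ (A.c (b k)).target, (A.c (b k)).symm z ∉ F → g' k z = 0)
    (hFa : ∀ x ∈ F, ∃ k, x ∈ (A.c (a k)).source) (hFb : ∀ x ∈ F, ∃ k, x ∈ (A.c (b k)).source)
    (hgi : ∀ k, IntegrableOn (g k) (A.c (a k)).target)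
    (hgi' : ∀ k, IntegrableOn (g' k) (A.c (b k)).target)
    (h : ∀ k l, ∀ z ∈ A.dom (a k) (b l),
      g k z = g' l (A.tr (a k) (b l) z) * ‖deriv (A.tr (a k) (b l)) z‖ ^ 2) :
    ∑ k, ∫ z in (A.c (a k)).target, g k z = ∑ l, ∫ z in (A.c (b l)).target, g' l z := by
  have key : ∀ {m n : Type} [Fintype m] [Fintype n] (a : m → A.ι) (b : n → A.ι)
      (_ : ∀ k l, k ≠ l → Disjoint (A.c (b k)).source (A.c (b l)).source) (g : m → ℂ → ℝ)
      (_ : ∀ k, ∀ z ∈ (A.c (a k)).target, (A.c (a k)).symm z ∉ F → g k z = 0)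
      (_ : ∀ x ∈ F, ∃ k, x ∈ (A.c (b k)).source)
      (_ : ∀ k, IntegrableOn (g k) (A.c (a k)).target) (k : m),
      ∫ z in (A.c (a k)).target, g k z = ∑ l, ∫ z in A.dom (a k) (b l), g k z := by
    intro m n _ _ a b hb g hg hFb hgi k
    have hsub : (⋃ l, A.dom (a k) (b l)) ⊆ (A.c (a k)).target :=
      iUnion_subset fun l z hz => hz.1
    rw [setIntegral_eq_of_subset_of_forall_sdiff_eq_zero (A.c (a k)).open_target.measurableSet hsub,
      integral_iUnion_fintype]
    · exact fun l => (A.isOpen_dom _ _).measurableSet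
    · intro l l' hll'
      rw [Function.onFun, Set.disjoint_left]
      intro z hz hz'
      exact Set.disjoint_left.1 (hb l l' hll') hz.2 hz'.2
    · exact fun l => (hgi k).mono_set fun z hz => hz.1
    · rintro z ⟨hz, hzn⟩
      refine hg k z hz fun hF => hzn ?_
      obtain ⟨l, hl⟩ := hFb _ hF
      exact mem_iUnion.2 ⟨l, hz, hl⟩
  have e1 : ∑ k, ∫ z in (A.c (a k)).target, g k z = ∑ k, ∑ l, ∫ z in A.dom (a k) (b l), g k z :=
    Finset.sum_congr rfl fun k _ => key a b hb g hg hFb hgi k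
  have e2 : ∑ l, ∫ z in (A.c (b l)).target, g' l z =
      ∑ l, ∑ k, ∫ z in A.dom (b l) (a k), g' l z :=
    Finset.sum_congr rfl fun l _ => key b a ha g' hg' hFa hgi' l
  rw [e1, e2, Finset.sum_comm]
  exact Finset.sum_congr rfl fun l _ => Finset.sum_congr rfl fun k _ =>
    integral_tr A _ _ (h k l)

end

end Crest.Agent.R235.Glob_370
end

-- ▼ part R235/Glob7_370
section

/-!
Row 235 (S0364), REG-GLOB (helper370), part 7: the current of a clopen part of the surface.
-/

set_option autoImplicit false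
set_option maxSynthPendingDepth 3
set_option linter.unusedSectionVars false

open Set Function Filter MeasureTheory Metric
open scoped Manifold ContDiff Topology

universe u

namespace Crest.Agent.R235.Glob_370

open Crest.Agent.R240 Crest.Agent.R240.Ch

noncomputable section

/-! ### integrability -/

lemma integrableOn_van {g : ℂ → ℝ} {r : ℝ} (hr : r < 1) (hg : ContinuousOn g (ball 0 1))
    (h0 : ∀ z ∈ ball (0 : ℂ) 1, r < ‖z‖ → g z = 0) : IntegrableOn g (ball (0 : ℂ) 1) := by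
  have h1 : IntegrableOn g (closedBall (0 : ℂ) r) :=
    (hg.mono (closedBall_subset_ball hr)).integrableOn_compact (isCompact_closedBall _ _)
  refine h1.of_forall_sdiff_eq_zero measurableSet_ball fun z hz => h0 z hz.1 ?_
  have := hz.2
  rwa [mem_closedBall_zero_iff, not_le] at this

variable {M : Type u} [TopologicalSpace M] [ChartedSpace E4 M] [IsManifold 𝓘(ℝ, E4) ∞ M]

lemma pb_congr {u v : ℂ → M} {z : ℂ} (h : u =ᶠ[𝓝 z] v) (b : F2 E4 M) : pb u b z = pb v b z := by
  unfold pb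
  rw [dmap_congr h, h.eq_of_nhds]

lemma pb_zero_of {u : ℂ → M} {z : ℂ} {b : F2 E4 M} (h : at2 b (u z) = 0) : pb u b z = 0 := by
  unfold pb
  rw [h]; rfl

lemma pb_add (u : ℂ → M) (z : ℂ) (b c : F2 E4 M) : pb u (b + c) z = pb u b z + pb u c z := rfl

lemma pb_smul (u : ℂ → M) (z : ℂ) (r : ℝ) (b : F2 E4 M) : pb u (r • b) z = r * pb u b z := rfl

lemma pb_fmul (u : ℂ → M) (z : ℂ) (f : M → ℝ) (b : F2 E4 M) :
    pb u (fmul f b) z = f (u z) * pb u b z := rfl

/-- `f b` as an element of `X2`. -/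
def fm (f : M → ℝ) (hf : SmoothF E4 f) (b : X2 M) : X2 M := ⟨fmul f b.1, b.2.fmul hf⟩


lemma at2_fm (f : M → ℝ) (hf : SmoothF E4 f) (b : X2 M) (x : M) :
    at2 (fm f hf b).1 x = f x • at2 b.1 x := rfl

variable {J : EndF E4 M} {S : Set M}

lemma LocForm.van {p : M} (L : LocForm J S p) (j : Fin L.n) {K : Set M} (hK : IsCompact K)
    (hKU : K ⊆ L.U) {b : F2 E4 M} (hb : ∀ x ∉ K, at2 b x = 0) :
    ∃ r < (1 : ℝ), ∀ z ∈ ball (0 : ℂ) 1, r < ‖z‖ → pb (L.u j) b z = 0 := by
  obtain ⟨r, hr, h⟩ := L.proper j K hK hKU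
  refine ⟨r, hr, fun z hz hrz => pb_zero_of (hb _ fun hzK => ?_)⟩
  exact absurd (h z hz hzK) (not_le.2 hrz)

lemma LocForm.int_pb {p : M} (L : LocForm J S p) (j : Fin L.n) {K : Set M} (hK : IsCompact K)
    (hKU : K ⊆ L.U) {b : F2 E4 M} (hs : Smooth2 b) (hb : ∀ x ∉ K, at2 b x = 0) :
    IntegrableOn (pb (L.u j) b) (ball (0 : ℂ) 1) := by
  obtain ⟨r, hr, h⟩ := L.van j hK hKU hb
  refine integrableOn_van hr (fun z hz => ?_) h
  exact (pb_smooth isOpen_ball (L.disc j).hol.smooth hs hz).continuousAt.continuousWithinAt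

/-! ### partition of unity -/

variable [T2Space M] [CompactSpace M] (L : ∀ p, LocForm J S p)

/-- a finite partition of unity subordinate to the `U p`. -/
structure PU where
  /-- number of functions -/
  n : ℕ
  /-- the centres -/
  p : Fin n → M
  /-- the functions -/
  χ : Fin n → M → ℝ
  smooth : ∀ i, SmoothF E4 (χ i)
  nonneg : ∀ i x, 0 ≤ χ i x
  supp : ∀ i, tsupport (χ i) ⊆ (L (p i)).U
  sum : ∀ x, ∑ i, χ i x = 1

theorem exists_PU : Nonempty (PU L) := by
  obtain ⟨t, ht⟩ := CompactSpace.elim_nhds_subcover (fun p => (L p).U)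
    (fun p => (L p).openU.mem_nhds (L p).mem)
  obtain ⟨f, hf⟩ := SmoothPartitionOfUnity.exists_isSubordinate 𝓘(ℝ, E4) (s := (univ : Set M))
    isClosed_univ (fun p : t => (L p).U) (fun p => (L p).openU) (by
      intro x _
      have hx : x ∈ ⋃ p ∈ t, (L p).U := ht.symm ▸ mem_univ x
      obtain ⟨p, hp, hxp⟩ := mem_iUnion₂.1 hx
      exact mem_iUnion.2 ⟨⟨p, hp⟩, hxp⟩)
  refine ⟨⟨t.card, fun i => (t.equivFin.symm i : t), fun i => f (t.equivFin.symm i), fun i => ?_,
    fun i x => f.nonneg _ x, fun i => hf _, fun x => ?_⟩⟩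
  · exact (smoothF_iff _).1 (f _).contMDiff
  · rw [t.equivFin.symm.sum_comp (fun i => f i x)]
    have h1 := f.sum_eq_one (mem_univ x)
    rwa [finsum_eq_sum_of_fintype] at h1

variable {L}

lemma PU.compact (P : PU L) (i : Fin P.n) : IsCompact (tsupport (P.χ i)) :=
  (isClosed_tsupport _).isCompact

lemma PU.zero (P : PU L) (i : Fin P.n) {x : M} (hx : x ∉ tsupport (P.χ i)) : P.χ i x = 0 :=
  image_eq_zero_of_notMem_tsupport hx

lemma PU.fm_zero (P : PU L) (i : Fin P.n) (b : X2 M) :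
    ∀ x ∉ tsupport (P.χ i), at2 (fm (P.χ i) (P.smooth i) b).1 x = 0 := by
  intro x hx
  rw [at2_fm, P.zero i hx, zero_smul]

lemma PU.sum_fm (P : PU L) (b : X2 M) : ∑ i, fm (P.χ i) (P.smooth i) b = b := by
  apply Subtype.ext
  rw [AddSubmonoidClass.coe_finsetSum]
  funext x
  rw [Finset.sum_apply]
  have h : ∀ i, (fm (P.χ i) (P.smooth i) b).1 x = P.χ i x • b.1 x := fun i => rfl
  simp only [h]
  rw [← Finset.sum_smul, P.sum, one_smul]

/-! ### branches of a clopen part -/

variable (L)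

/-- the branches at `p` inside `K`. -/
def Bk (K : Set (NN L)) (p : M) : Type := {j : Fin (L p).n // range (phi (uu L) ⟨p, j⟩) ⊆ K}

instance (K : Set (NN L)) (p : M) : Fintype (Bk L K p) := by
  classical
  unfold Bk
  infer_instance

variable {L}

lemma range_sub {K : Set (NN L)} (hK : IsClopen K) (a : Ix L) {x : NN L}
    (hx : x ∈ range (phi (uu L) a)) (hxK : x ∈ K) : range (phi (uu L) a) ⊆ K := by
  have h1 : IsPreconnected (range (phi (uu L) a)) := by
    have : PreconnectedSpace (ball (0 : ℂ) 1) :=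
      Subtype.preconnectedSpace (convex_ball (0 : ℂ) 1).isPreconnected
    exact isPreconnected_range (continuous_phi _ _)
  exact h1.subset_isClopen hK ⟨x, hx, hxK⟩

/-- the value of the current of `K` at a form supported in `U p`. -/
def loc (K : Set (NN L)) (p : M) (b : F2 E4 M) : ℝ :=
  ∑ j : Bk L K p, ∫ z in ball (0 : ℂ) 1, pb ((L p).u j.1) b z

/-- independence of the local form. -/
theorem loc_indep {K : Set (NN L)} (hK : IsClopen K) {p q : M} {K1 : Set M} (h1 : IsCompact K1)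
    (hp : K1 ⊆ (L p).U) (hq : K1 ⊆ (L q).U) {b : F2 E4 M} (hs : Smooth2 b)
    (hb : ∀ x ∉ K1, at2 b x = 0) : loc K p b = loc K q b := by
  have hz : ∀ (r : M) (k : Bk L K r), ∀ z ∈ ((atl L).c (⟨r, k.1⟩ : Ix L)).target,
      ((atl L).c (⟨r, k.1⟩ : Ix L)).symm z ∉ ff L ⁻¹' K1 ∩ K → pb ((L r).u k.1) b z = 0 := by
    intro r k z hz hF
    have hz' : z ∈ ball (0 : ℂ) 1 := by
      have h2 := chart_target L (⟨r, k.1⟩ : Ix L)
      exact h2 ▸ hz
    have h3 : (chart L (⟨r, k.1⟩ : Ix L)).symm z ∉ ff L ⁻¹' K1 ∩ K := hF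
    rw [chart_symm L _ hz'] at h3
    refine pb_zero_of (hb _ fun h4 => h3 ⟨?_, k.2 ⟨_, rfl⟩⟩)
    rw [mem_preimage, ff_phi]
    exact h4
  have hF : ∀ r, K1 ⊆ (L r).U → ∀ x ∈ ff L ⁻¹' K1 ∩ K,
      ∃ k : Bk L K r, x ∈ ((atl L).c (⟨r, k.1⟩ : Ix L)).source := by
    rintro r hr x ⟨hx, hxK⟩
    obtain ⟨j, z, hz⟩ := exists_phi_of_mem (p := r) L x (hr hx)
    have h2 : x ∈ range (phi (uu L) ⟨r, j⟩) := ⟨z, hz⟩
    refine ⟨⟨j, range_sub hK _ h2 hxK⟩, ?_⟩
    show x ∈ (chart L (⟨r, j⟩ : Ix L)).source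
    rw [chart_source]
    exact h2
  have hd : ∀ r, ∀ k l : Bk L K r, k ≠ l →
      Disjoint ((atl L).c (⟨r, k.1⟩ : Ix L)).source ((atl L).c (⟨r, l.1⟩ : Ix L)).source := by
    intro r k l hkl
    show Disjoint (chart L (⟨r, k.1⟩ : Ix L)).source (chart L (⟨r, l.1⟩ : Ix L)).source
    rw [chart_source, chart_source, Set.disjoint_left]
    rintro _ ⟨z, rfl⟩ ⟨w, hw⟩
    exact hkl (Subtype.ext (phi_ne L hw.symm))
  have htar : ∀ a : Ix L, ((atl L).c a).target = ball 0 1 := fun a => chart_target L a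
  have hint : ∀ r, K1 ⊆ (L r).U → ∀ k : Bk L K r,
      IntegrableOn (pb ((L r).u k.1) b) ((atl L).c (⟨r, k.1⟩ : Ix L)).target := by
    intro r hr k
    rw [htar]
    exact (L r).int_pb k.1 h1 hr hs hb
  have main := two_cover (atl L) (m := Bk L K p) (n := Bk L K q)
    (fun k => (⟨p, k.1⟩ : Ix L)) (fun k => (⟨q, k.1⟩ : Ix L)) (hd p) (hd q) (ff L ⁻¹' K1 ∩ K)
    (fun k => pb ((L p).u k.1) b) (fun k => pb ((L q).u k.1) b) (hz p) (hz q) (hF p hp) (hF q hq)
    (hint p hp) (hint q hq) ?_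
  · simp only [htar] at main
    exact main
  · intro k l z hz
    have hz0 := hz
    obtain ⟨hz1, hz2⟩ := hz
    rw [htar] at hz1
    set h : ℂ → ℂ := (atl L).tr (⟨p, k.1⟩ : Ix L) (⟨q, l.1⟩ : Ix L) with hh
    have hev : (L p).u k.1 =ᶠ[𝓝 z] fun w => (L q).u l.1 (h w) := by
      filter_upwards [((atl L).isOpen_dom _ _).mem_nhds hz0] with w hw
      have hw1 : w ∈ ball (0 : ℂ) 1 := by
        have := hw.1
        rwa [htar] at this
      have hmem := (atl L).tr_mem hw
      have hw2 : h w ∈ ball (0 : ℂ) 1 := by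
        have := hmem.1
        rwa [htar] at this
      have h3 := (atl L).symm_tr hw
      have h4 : (chart L (⟨q, l.1⟩ : Ix L)).symm (h w) = (chart L (⟨p, k.1⟩ : Ix L)).symm w := h3
      rw [chart_symm L _ hw2, chart_symm L _ hw1] at h4
      have h5 := congrArg (ff L) h4
      rw [ff_phi, ff_phi] at h5
      exact h5.symm
    rw [pb_congr hev]
    have hmem := ((atl L).tr_mem hz0).1
    rw [htar] at hmem
    exact pb_comp hs ((L q).disc l.1 |>.hol.at isOpen_ball hmem) ((atl L).tr_diffAt hz0)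

/-- the current of `K`. -/
def TK (P : PU L) (K : Set (NN L)) : X2 M →ₗ[ℝ] ℝ where
  toFun b := ∑ i, loc K (P.p i) (fmul (P.χ i) b.1)
  map_add' b c := by
    rw [← Finset.sum_add_distrib]
    refine Finset.sum_congr rfl fun i _ => ?_
    unfold loc
    rw [← Finset.sum_add_distrib]
    refine Finset.sum_congr rfl fun j _ => ?_
    rw [← integral_add]
    · refine setIntegral_congr_fun measurableSet_ball fun z _ => ?_
      show P.χ i _ * pb _ (b.1 + c.1) z = P.χ i _ * pb _ b.1 z + P.χ i _ * pb _ c.1 z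
      rw [pb_add, mul_add]
    · exact (L (P.p i)).int_pb j.1 (P.compact i) (P.supp i) (fm _ (P.smooth i) b).2
        (P.fm_zero i b)
    · exact (L (P.p i)).int_pb j.1 (P.compact i) (P.supp i) (fm _ (P.smooth i) c).2
        (P.fm_zero i c)
  map_smul' r b := by
    rw [RingHom.id_apply, smul_eq_mul, Finset.mul_sum]
    refine Finset.sum_congr rfl fun i _ => ?_
    unfold loc
    rw [Finset.mul_sum]
    refine Finset.sum_congr rfl fun j _ => ?_
    rw [← integral_const_mul]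
    refine setIntegral_congr_fun measurableSet_ball fun z _ => ?_
    show P.χ i _ * pb _ (r • b.1) z = r * (P.χ i _ * pb _ b.1 z)
    rw [pb_smul]
    ring

lemma TK_apply (P : PU L) (K : Set (NN L)) (b : X2 M) :
    TK P K b = ∑ i, loc K (P.p i) (fmul (P.χ i) b.1) := rfl

/-- **the local formula**. -/
theorem TK_loc (P : PU L) {K : Set (NN L)} (hK : IsClopen K) {p : M} {K1 : Set M}
    (h1 : IsCompact K1) (hp : K1 ⊆ (L p).U) (b : X2 M)
    (hb : ∀ x ∉ K1, at2 (b.1 : F2 E4 M) x = 0) : TK P K b = loc K p b.1 := by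
  rw [TK_apply]
  have h2 : ∀ i, loc K (P.p i) (fmul (P.χ i) b.1) = loc K p (fmul (P.χ i) b.1) := by
    intro i
    refine loc_indep hK ((P.compact i).inter h1) (inter_subset_left.trans (P.supp i))
      (inter_subset_right.trans hp) (fm _ (P.smooth i) b).2 ?_
    intro x hx
    by_cases hx1 : x ∈ tsupport (P.χ i)
    · have : x ∉ K1 := fun h => hx ⟨hx1, h⟩
      show at2 (fm (P.χ i) (P.smooth i) b).1 x = 0
      rw [at2_fm, hb x this, smul_zero]
    · exact P.fm_zero i b x hx1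
  rw [Finset.sum_congr rfl fun i _ => h2 i]
  unfold loc
  rw [Finset.sum_comm]
  refine Finset.sum_congr rfl fun j _ => ?_
  rw [← integral_finsetSum]
  · refine setIntegral_congr_fun measurableSet_ball fun z _ => ?_
    simp only [pb_fmul]
    rw [← Finset.sum_mul, P.sum, one_mul]
  · intro i _
    refine (L p).int_pb j.1 h1 hp (fm _ (P.smooth i) b).2 ?_
    intro x hx
    show at2 (fm (P.χ i) (P.smooth i) b).1 x = 0
    rw [at2_fm, hb x hx, smul_zero]

/-- `T_K` kills the exact forms. -/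
theorem TK_closed (P : PU L) {K : Set (NN L)} (hK : IsClopen K) (b : X2 M)
    (hb : IsEx (b.1 : F2 E4 M)) : TK P K b = 0 := by
  obtain ⟨s, hs, hsb⟩ := isEx_iff.1 hb
  have hsi : ∀ i, Smooth1 (fmul1 (P.χ i) s) := fun i => hs.fmul (P.smooth i)
  set β : Fin P.n → X2 M := fun i => ⟨dG (fmul1 (P.χ i) s), Smooth2.dG (hsi i)⟩ with hβ
  have hsum : b = ∑ i, β i := by
    apply Subtype.ext
    rw [AddSubmonoidClass.coe_finsetSum]
    have h1 : ∑ i, fmul1 (P.χ i) s = s := by
      funext x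
      rw [Finset.sum_apply]
      have h : ∀ i, fmul1 (P.χ i) s x = P.χ i x • s x := fun i => rfl
      simp only [h]
      rw [← Finset.sum_smul, P.sum, one_smul]
    have h2 : ∀ t : Finset (Fin P.n), Smooth1 (∑ i ∈ t, fmul1 (P.χ i) s) ∧
        dG (∑ i ∈ t, fmul1 (P.χ i) s) = ∑ i ∈ t, dG (fmul1 (P.χ i) s) := by
      classical
      intro t
      induction t using Finset.induction_on with
      | empty =>
        refine ⟨by simpa using smooth1_zero, ?_⟩
        have h := dG_smul (0 : ℝ) (smooth1_zero (E := E4) (M := M))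
        simpa using h
      | insert a t ha ih =>
        rw [Finset.sum_insert ha, Finset.sum_insert ha, ← ih.2]
        exact ⟨(hsi a).add ih.1, dG_add (hsi a) ih.1⟩
    have h3 := (h2 Finset.univ).2
    rw [h1] at h3
    rw [hsb]
    exact h3
  rw [hsum, map_sum]
  refine Finset.sum_eq_zero fun i _ => ?_
  have hz : ∀ x ∉ tsupport (P.χ i), at2 (β i).1 x = 0 := by
    intro x hx
    show d1 (rep1 x (fmul1 (P.χ i) s)) (chartAt E4 x x) = 0
    refine d1_zero_of_ev ?_
    have hxs := mem_chart_source E4 x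
    have h1 : ∀ᶠ y in 𝓝 (chartAt E4 x x), (chartAt E4 x).symm y ∈ (tsupport (P.χ i))ᶜ := by
      have hc := (chartAt E4 x).continuousAt_symm ((chartAt E4 x).map_source hxs)
      refine hc.eventually ((isClosed_tsupport _).isOpen_compl.mem_nhds ?_)
      rw [(chartAt E4 x).left_inv hxs]
      exact hx
    filter_upwards [h1] with y hy
    rw [rep1_fmul1, repF, P.zero i hy, zero_smul]
  rw [TK_loc P hK (P.compact i) (P.supp i) (β i) hz]
  unfold loc
  refine Finset.sum_eq_zero fun j _ => ?_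
  obtain ⟨r, hr, h⟩ := (L (P.p i)).proper j.1 _ (P.compact i) (P.supp i)
  refine stokes_disc ((L (P.p i)).disc j.1).hol.smooth (hsi i) hr fun z hz hrz => ?_
  have hn : (L (P.p i)).u j.1 z ∉ tsupport (P.χ i) := fun hzK =>
    absurd (h z hz hzK) (not_le.2 hrz)
  show P.χ i _ • at1 s _ = 0
  rw [P.zero i hn, zero_smul]

end

end Crest.Agent.R235.Glob_370
end

-- ▼ part R235/Glob8_370

/-!
Row 235 (S0364), REG-GLOB (helper370), part 8: the curve of a connected clopen part; `GLOB`.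
-/

set_option autoImplicit false
set_option maxSynthPendingDepth 3
set_option linter.unusedSectionVars false

open Set Function Filter MeasureTheory Metric Topology
open scoped Manifold ContDiff Topology

universe u

namespace Crest.Agent.R235.Glob_370

open Crest.Agent.R240 Crest.Agent.R240.Ch

noncomputable section

variable {M : Type u} [TopologicalSpace M] [ChartedSpace E4 M] [IsManifold 𝓘(ℝ, E4) ∞ M]
variable {J : EndF E4 M} {S : Set M}

lemma IsJHol.congr {u v : ℂ → M} {O : Set ℂ} (h : IsJHol J u O) (hO : IsOpen O)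
    (huv : ∀ z ∈ O, v z = u z) : IsJHol J v O := by
  refine ⟨h.smooth.congr huv, fun z hz t => ?_⟩
  have hev : v =ᶠ[𝓝 z] u := by
    filter_upwards [hO.mem_nhds hz] with w hw using huv w hw
  rw [dmap_congr hev, huv z hz]
  exact h.jhol z hz t

lemma IsJHol.dmap_I {u : ℂ → M} {O : Set ℂ} (h : IsJHol J u O) {z : ℂ} (hz : z ∈ O) :
    dmap u z Complex.I = atJ J (u z) (dmap u z 1) := by
  have := h.jhol z hz 1
  rwa [mul_one] at this

lemma pb_inv {u : ℂ → M} {O : Set ℂ} (h : IsJHol J u O)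
    (hJ : ∀ x v, atJ J x (atJ J x v) = -v) {b c : F2 E4 M} (hb : Smooth2 b)
    (hbc : ∀ x, invp (atJ J x) (at2 b x) = at2 c x) {z : ℂ} (hz : z ∈ O) :
    pb u b z = pb u c z := by
  unfold pb
  rw [← hbc, invp_apply, h.dmap_I hz, hJ, map_neg, hb.antisymm _ (atJ J (u z) (dmap u z 1))]
  ring

lemma pb_nonneg {u : ℂ → M} {O : Set ℂ} (h : IsJHol J u O) {b : F2 E4 M} (hb : PosG J b)
    {z : ℂ} (hz : z ∈ O) : 0 ≤ pb u b z := by
  unfold pb
  rw [h.dmap_I hz]
  exact (hb _).nonneg _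

variable [T2Space M] [CompactSpace M] {L : ∀ p, LocForm J S p}

theorem TK_pcur (hJ : ∀ x v, atJ J x (atJ J x v) = -v) (P : PU L) {K : Set (NN L)}
    (hK : IsClopen K) : PCur J (TK P K) where
  inv b c hbc := by
    rw [TK_apply, TK_apply]
    refine Finset.sum_congr rfl fun i _ => Finset.sum_congr rfl fun j _ => ?_
    refine setIntegral_congr_fun measurableSet_ball fun z hz => ?_
    simp only [pb_fmul]
    rw [pb_inv ((L (P.p i)).disc j.1).hol hJ b.2 hbc hz]
  nonneg b hb := by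
    rw [TK_apply]
    refine Finset.sum_nonneg fun i _ => Finset.sum_nonneg fun j _ => ?_
    refine setIntegral_nonneg measurableSet_ball fun z hz => ?_
    rw [pb_fmul]
    exact mul_nonneg (P.nonneg _ _) (pb_nonneg ((L (P.p i)).disc j.1).hol hb hz)
  closed b hb := TK_closed P hK b hb

/-! ### the curve of a component -/

section comp

variable (L) (K : Set (NN L))

/-- the branches inside `K`. -/
abbrev IK : Type u := {a : Ix L // range (phi (uu L) a) ⊆ K}

variable {L K}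

/-- the parametrisations. -/
def phK (a : IK L K) (z : ball (0 : ℂ) 1) : K := ⟨phi (uu L) a.1 z, a.2 ⟨z, rfl⟩⟩

lemma phK_emb (a : IK L K) : IsOpenEmbedding (phK a) := by
  have h := (adm L).openEmb a.1
  refine IsOpenEmbedding.of_continuous_injective_isOpenMap ?_ ?_ ?_
  · exact (continuous_phi _ _).subtype_mk _
  · intro z w hzw
    exact h.injective (congrArg Subtype.val hzw)
  · intro V hV
    have h1 := h.isOpenMap V hV
    have h2 : phK a '' V = Subtype.val ⁻¹' (phi (uu L) a.1 '' V) := by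
      ext x
      constructor
      · rintro ⟨z, hz, rfl⟩
        exact ⟨z, hz, rfl⟩
      · rintro ⟨z, hz, hzx⟩
        exact ⟨z, hz, Subtype.ext hzx⟩
    rw [h2]
    exact h1.preimage continuous_subtype_val

/-- the charts. -/
def chK (a : IK L K) : OpenPartialHomeomorph K ℂ :=
  ((phK_emb a).toOpenPartialHomeomorph _).symm.trans inc

lemma chK_source (a : IK L K) : (chK a).source = range (phK a) := by
  rw [chK, OpenPartialHomeomorph.trans_source, inc_source]
  simp

lemma chK_target (a : IK L K) : (chK a).target = ball 0 1 := by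
  rw [chK, OpenPartialHomeomorph.trans_target, inc_target]
  simp

lemma chK_phK (a : IK L K) (z : ball (0 : ℂ) 1) : chK a (phK a z) = z := by
  have h : (((phK_emb a).toOpenPartialHomeomorph _).symm) (phK a z) = z :=
    (phK_emb a).toOpenPartialHomeomorph_left_inv
  show inc ((((phK_emb a).toOpenPartialHomeomorph _).symm) (phK a z)) = z
  rw [h]
  rfl

lemma chK_symm (a : IK L K) {z : ℂ} (hz : z ∈ ball (0 : ℂ) 1) :
    (chK a).symm z = phK a ⟨z, hz⟩ := by
  show phK a (inc.symm z) = _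
  rw [inc_symm hz]

lemma chK_trans (a b : IK L K) {z : ℂ} (hz : z ∈ ball (0 : ℂ) 1)
    (hb : phK a ⟨z, hz⟩ ∈ range (phK b)) :
    DifferentiableAt ℂ (fun z => chK b ((chK a).symm z)) z ∧
      deriv (fun z => chK b ((chK a).symm z)) z ≠ 0 := by
  have hb' : phi (uu L) a.1 ⟨z, hz⟩ ∈ range (phi (uu L) b.1) := by
    obtain ⟨w, hw⟩ := hb
    exact ⟨w, congrArg Subtype.val hw⟩
  have hev : (fun z => chK b ((chK a).symm z)) =ᶠ[𝓝 z]
      fun z => chart L b.1 ((chart L a.1).symm z) := by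
    have h1 : z ∈ (atl L).dom a.1 b.1 := by
      refine ⟨?_, ?_⟩
      · show z ∈ (chart L a.1).target
        rw [chart_target]; exact hz
      · show (chart L a.1).symm z ∈ (chart L b.1).source
        rw [chart_symm L _ hz, chart_source]; exact hb'
    filter_upwards [((atl L).isOpen_dom a.1 b.1).mem_nhds h1] with w hw
    have hw1 : w ∈ ball (0 : ℂ) 1 := by
      have h2 : w ∈ (chart L a.1).target := hw.1
      rwa [chart_target] at h2
    have hw2 : (chart L a.1).symm w ∈ (chart L b.1).source := hw.2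
    rw [chart_symm L _ hw1, chart_source] at hw2
    obtain ⟨t, ht⟩ := hw2
    rw [chart_symm L _ hw1, chK_symm _ hw1, ← ht, chart_phi]
    have h3 : phK a ⟨w, hw1⟩ = phK b t := Subtype.ext ht.symm
    rw [h3, chK_phK]
  obtain ⟨h1, h2⟩ := chart_trans L a.1 b.1 hz hb'
  exact ⟨h1.congr_of_eventuallyEq hev, by rwa [hev.deriv_eq]⟩

lemma exists_phK (hK : IsClopen K) {p : M} (x : K) (hx : ff L x ∈ (L p).U) :
    ∃ (j : Bk L K p) (z : ball (0 : ℂ) 1), phK (⟨⟨p, j.1⟩, j.2⟩ : IK L K) z = x := by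
  obtain ⟨j, z, hz⟩ := exists_phi_of_mem (p := p) L x.1 hx
  have h2 : x.1 ∈ range (phi (uu L) ⟨p, j⟩) := ⟨z, hz⟩
  exact ⟨⟨j, range_sub hK _ h2 x.2⟩, z, Subtype.ext hz⟩

/-- the atlas of `K`. -/
def atK (hK : IsClopen K) : RS.CAtl.{u, u} K where
  ι := IK L K
  c := chK
  cover x := by
    obtain ⟨j, z, hz⟩ := exists_phK hK x (L (ff L x)).mem
    exact ⟨_, by rw [chK_source]; exact ⟨z, hz⟩⟩
  hol a b := by
    rintro z ⟨hz, hz2⟩
    rw [chK_target] at hz
    rw [chK_symm a hz, chK_source] at hz2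
    exact (chK_trans a b hz hz2).1.differentiableWithinAt

/-- the enumeration of the branches at `p`. -/
def enK (K : Set (NN L)) (p : M) : Fin (Fintype.card (Bk L K p)) ≃ Bk L K p :=
  (Fintype.equivFin _).symm

/-- the local form of the image of `K`. -/
def locK (hK : IsClopen K) (p : M) : LocForm J (range fun x : K => ff L x.1) p where
  U := (L p).U
  openU := (L p).openU
  mem := (L p).mem
  n := Fintype.card (Bk L K p)
  u j := (L p).u (enK K p j).1
  disc j := (L p).disc _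
  centre j := (L p).centre _
  disj i j hij z hz w hw h := (L p).disj _ _ (fun h1 => hij ((enK K p).injective
    (Subtype.ext h1))) z hz w hw h
  supp := by
    ext x
    constructor
    · rintro ⟨⟨y, rfl⟩, hx⟩
      obtain ⟨j, z, hz⟩ := exists_phK hK y hx
      refine mem_iUnion.2 ⟨(enK K p).symm j, z, z.2, ?_⟩
      simp only [Equiv.apply_symm_apply]
      have h1 : ff L (phi (uu L) ⟨p, j.1⟩ z) = ff L y := by
        rw [← hz]; rfl
      rw [ff_phi] at h1
      exact h1
    · intro hx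
      obtain ⟨j, z, hz, rfl⟩ := mem_iUnion.1 hx
      refine ⟨⟨phK ⟨⟨p, (enK K p j).1⟩, (enK K p j).2⟩ ⟨z, hz⟩, ?_⟩, ((L p).maps _ hz).2⟩
      exact ff_phi L _ _
  proper j := (L p).proper _

/-- the parametrisation on the plane. -/
def phC (K : Set (NN L)) (p : M) (j : Fin (Fintype.card (Bk L K p))) (z : ℂ) : K := by
  classical
  exact phK ⟨⟨p, (enK K p j).1⟩, (enK K p j).2⟩
    (if h : z ∈ ball (0 : ℂ) 1 then ⟨z, h⟩ else ⟨0, mem_ball_self one_pos⟩)

lemma phC_eq {p : M} (j : Fin (Fintype.card (Bk L K p))) {z : ℂ} (hz : z ∈ ball (0 : ℂ) 1) :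
    phC K p j z = phK ⟨⟨p, (enK K p j).1⟩, (enK K p j).2⟩ ⟨z, hz⟩ := by
  unfold phC
  rw [dif_pos hz]

/-- the finite exceptional set. -/
def excK (P : PU L) : Set K := {x | ∃ i, ff L x = P.p i}

lemma PU.exists_mem (P : PU L) (x : M) : ∃ i, x ∈ (L (P.p i)).U := by
  by_contra h
  push Not at h
  have h1 : ∑ i, P.χ i x = 0 :=
    Finset.sum_eq_zero fun i _ => P.zero i fun hx => h i (P.supp i hx)
  rw [P.sum] at h1
  exact one_ne_zero h1

lemma finite_fib (p : M) : {x : NN L | ff L x = p}.Finite := by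
  refine (Set.finite_range fun j : Fin (L p).n =>
    phi (uu L) ⟨p, j⟩ ⟨0, mem_ball_self one_pos⟩).subset ?_
  intro x hx
  obtain ⟨j, hj⟩ := centre_of_ff L x hx
  exact ⟨j, hj⟩

lemma excK_finite (P : PU L) : (excK P : Set K).Finite := by
  have h1 : (⋃ i, {x : NN L | ff L x = P.p i}).Finite :=
    Set.finite_iUnion fun i => finite_fib (P.p i)
  refine (h1.preimage (f := (Subtype.val : K → NN L)) Subtype.val_injective.injOn).subset ?_
  rintro x ⟨i, hi⟩
  exact mem_iUnion.2 ⟨i, hi⟩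

lemma inj_off (P : PU L) {x y : NN L} (hx : ∀ i, ff L x ≠ P.p i) (h : ff L x = ff L y) :
    x = y := by
  obtain ⟨i, hi⟩ := P.exists_mem (ff L x)
  obtain ⟨j, z, rfl⟩ := exists_phi_of_mem L x hi
  obtain ⟨k, w, rfl⟩ := exists_phi_of_mem (p := P.p i) L y (h ▸ hi)
  have hne := hx i
  rw [ff_phi, ff_phi] at h
  rw [ff_phi] at hne
  by_cases hjk : j = k
  · subst hjk
    have : (z : ℂ) = w := ((L (P.p i)).disc j).inj z.2 w.2 h
    rw [Subtype.ext this]
  · exact absurd ((L (P.p i)).disj' hjk z.2 w.2 h) hne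

lemma imm_off (P : PU L) (a : Ix L) {z : ℂ} (hz : z ∈ ball (0 : ℂ) 1)
    (hx : ∀ i, uu L a z ≠ P.p i) {v : ℂ} (hv : dmap (uu L a) z v = 0) : v = 0 := by
  obtain ⟨i, hi⟩ := P.exists_mem (uu L a z)
  obtain ⟨j, r, h, hr, hrO, hd, hd0, hh⟩ := trans_exists L a ⟨z, hz⟩ hi
  obtain ⟨h2, h3⟩ := hh z (mem_ball_self hr) hz
  have h4 : uu L a z = (L (P.p i)).u j (h z) := by
    have := congrArg (ff L) h3
    rw [ff_phi, ff_phi] at this
    exact this
  have hne : h z ≠ 0 := by
    intro h0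
    apply hx i
    rw [h4, h0, (L (P.p i)).centre]
  have hev : uu L a =ᶠ[𝓝 z] fun w => (L (P.p i)).u j (h w) := by
    filter_upwards [isOpen_ball.mem_nhds (mem_ball_self (x := z) hr)] with w hw
    obtain ⟨h5, h6⟩ := hh w hw (hrO hw)
    have := congrArg (ff L) h6
    rw [ff_phi, ff_phi] at this
    exact this
  have hdz := hd.differentiableAt (isOpen_ball.mem_nhds (mem_ball_self (x := z) hr))
  rw [dmap_congr hev, dmap_comp_hol (((L (P.p i)).disc j).hol.at isOpen_ball h2) hdz] at hv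
  have h7 := ((L (P.p i)).disc j).imm _ h2 hne _ hv
  exact (mul_eq_zero.1 h7).resolve_left (hd0 z (mem_ball_self hr))

section fields

lemma hol_K (a : IK L K) : IsJHol J (fun z => ff L ((chK a).symm z).1) (chK a).target := by
  rw [chK_target]
  refine ((L a.1.1).disc a.1.2).hol.congr isOpen_ball fun z hz => ?_
  rw [chK_symm a hz]
  exact ff_phi L _ _

variable {p : M} (j : Fin (Fintype.card (Bk L K p)))

lemma phC_cont : ContinuousOn (phC K p j) (ball 0 1) := by
  rw [continuousOn_iff_continuous_domRestrict]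
  have h2 : (ball (0 : ℂ) 1).domRestrict (phC K p j) =
      phK ⟨⟨p, (enK K p j).1⟩, (enK K p j).2⟩ := by
    funext z
    exact phC_eq j z.2
  rw [h2]
  exact (phK_emb _).continuous

lemma phC_inj : InjOn (phC K p j) (ball 0 1) := by
  intro z hz w hw hzw
  rw [phC_eq j hz, phC_eq j hw] at hzw
  exact congrArg Subtype.val ((phK_emb _).injective hzw)

lemma phC_open (O : Set ℂ) (hO : IsOpen O) (hOb : O ⊆ ball 0 1) : IsOpen (phC K p j '' O) := by
  have h2 : phC K p j '' O = phK ⟨⟨p, (enK K p j).1⟩, (enK K p j).2⟩ '' (Subtype.val ⁻¹' O) := by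
    ext x
    constructor
    · rintro ⟨z, hz, rfl⟩
      exact ⟨⟨z, hOb hz⟩, hz, (phC_eq j (hOb hz)).symm⟩
    · rintro ⟨z, hz, rfl⟩
      exact ⟨z, hz, phC_eq j z.2⟩
  rw [h2]
  exact (phK_emb _).isOpenMap _ (hO.preimage continuous_subtype_val)

lemma phC_hol (i : IK L K) : DifferentiableOn ℂ (fun z => chK i (phC K p j z))
    {z | z ∈ ball (0 : ℂ) 1 ∧ phC K p j z ∈ (chK i).source} := by
  rintro z ⟨hz, hzi⟩
  refine DifferentiableAt.differentiableWithinAt ?_
  rw [phC_eq j hz, chK_source] at hzi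
  refine (chK_trans _ i hz hzi).1.congr_of_eventuallyEq ?_
  filter_upwards [isOpen_ball.mem_nhds hz] with w hw
  rw [phC_eq j hw, chK_symm _ hw]

lemma phC_imm (i : IK L K) (z : ℂ) (hz : z ∈ ball (0 : ℂ) 1)
    (hzi : phC K p j z ∈ (chK i).source) : deriv (fun z => chK i (phC K p j z)) z ≠ 0 := by
  rw [phC_eq j hz, chK_source] at hzi
  have h1 := (chK_trans _ i hz hzi).2
  have h2 : (fun z => chK i (phC K p j z)) =ᶠ[𝓝 z] fun z => chK i
      ((chK (⟨⟨p, (enK K p j).1⟩, (enK K p j).2⟩ : IK L K)).symm z) := by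
    filter_upwards [isOpen_ball.mem_nhds hz] with w hw
    rw [phC_eq j hw, chK_symm _ hw]
  rwa [h2.deriv_eq]

lemma phC_f (z : ℂ) (hz : z ∈ ball (0 : ℂ) 1) :
    ff L (phC K p j z).1 = (L p).u (enK K p j).1 z := by
  rw [phC_eq j hz]
  exact ff_phi L _ _

lemma phC_cover (hK : IsClopen K) (p : M) (x : K) (hx : ff L x.1 ∈ (L p).U) :
    ∃ j, ∃ z ∈ ball (0 : ℂ) 1, phC K p j z = x := by
  obtain ⟨j, z, hz⟩ := exists_phK hK x hx
  refine ⟨(enK K p).symm j, z, z.2, ?_⟩
  rw [phC_eq _ z.2]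
  simp only [Equiv.apply_symm_apply]
  exact hz

lemma phC_disj (i : Fin (Fintype.card (Bk L K p))) (hij : i ≠ j) (z : ℂ)
    (hz : z ∈ ball (0 : ℂ) 1) (w : ℂ) (hw : w ∈ ball (0 : ℂ) 1) :
    phC K p i z ≠ phC K p j w := by
  intro h
  rw [phC_eq i hz, phC_eq j hw] at h
  have h1 := phi_ne L (congrArg Subtype.val h)
  exact hij ((enK K p).injective (Subtype.ext h1))

lemma cur_K (P : PU L) (hK : IsClopen K) (p : M) : (locK hK p).Cur (TK P K) := by
  intro b K1 h1 h2 h3
  rw [TK_loc P hK h1 h2 b h3]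
  unfold loc
  exact (Equiv.sum_comp (enK K p) fun k : Bk L K p =>
    ∫ z in ball (0 : ℂ) 1, pb ((L p).u k.1) (b.1 : F2 E4 M) z).symm

lemma fin_imm (P : PU L) (a : IK L K) (z : ℂ) (hz : z ∈ (chK a).target)
    (hzF : (chK a).symm z ∉ excK P) (v : ℂ)
    (hv : dmap (fun z => ff L ((chK a).symm z).1) z v = 0) : v = 0 := by
  rw [chK_target] at hz
  rw [chK_symm a hz] at hzF
  refine imm_off P a.1 hz (fun i hi => hzF ⟨i, (ff_phi L _ _).trans hi⟩) (v := v) ?_
  rw [← hv]
  refine congrFun (dmap_congr ?_) v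
  filter_upwards [isOpen_ball.mem_nhds hz] with w hw
  rw [chK_symm a hw]
  exact (ff_phi L a.1 ⟨w, hw⟩).symm

end fields

/-- **the curve of a component**. -/
def curveK (hJ : ∀ x v, atJ J x (atJ J x v) = -v) (P : PU L) (hK : IsClopen K)
    (hKc : IsConnected K) : JCurve J where
  N := K
  cpt := haveI := compact_NN L; isCompact_iff_compactSpace.1 hK.isClosed.isCompact
  conn := isConnected_iff_connectedSpace.1 hKc
  A := atK hK
  f x := ff L x.1
  cont := (ff_cont L).comp continuous_subtype_val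
  hol a := hol_K (K := K) a
  T := TK P K
  pcur := TK_pcur hJ P hK
  L := locK hK
  φ := phC K
  φ_cont p j := phC_cont (K := K) (p := p) j
  φ_inj p j := phC_inj (K := K) (p := p) j
  φ_open p j := phC_open (K := K) (p := p) j
  φ_hol p j i := phC_hol (K := K) (p := p) j i
  φ_imm p j i := phC_imm (K := K) (p := p) j i
  φ_f p j := phC_f (K := K) (p := p) j
  φ_cover := phC_cover hK
  φ_disj p i j := phC_disj (K := K) (p := p) j i
  cur := cur_K P hK
  fin := ⟨excK P, excK_finite P, fun _ _ hx hxy =>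
    Subtype.ext (inj_off P (fun i hi => hx ⟨i, hi⟩) hxy), fun a => fin_imm (K := K) P a⟩

end comp

/-- **REG-GLOB**. -/
theorem glob : GLOB.{u} := by
  intro M _ _ _ _ _ _ J hJs hJ S C hC
  choose L hL using hC
  obtain ⟨P⟩ := exists_PU L
  have := compact_NN L
  have := locConn_NN L
  set e := (Finite.equivFin (ConnectedComponents (NN L))).symm with he
  set K : Fin (Nat.card (ConnectedComponents (NN L))) → Set (NN L) :=
    fun i => ConnectedComponents.mk ⁻¹' {e i} with hKdef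
  have hKx : ∀ i, ∃ x, K i = connectedComponent x := by
    intro i
    obtain ⟨x, hx⟩ := ConnectedComponents.surjective_coe (e i)
    refine ⟨x, ?_⟩
    rw [hKdef]
    simp only
    rw [← hx, connectedComponents_preimage_singleton]
  have hKo : ∀ i, IsClopen (K i) := by
    intro i
    obtain ⟨x, hx⟩ := hKx i
    rw [hx]
    exact ⟨isClosed_connectedComponent, isOpen_connectedComponent⟩
  have hKc : ∀ i, IsConnected (K i) := by
    intro i
    obtain ⟨x, hx⟩ := hKx i
    rw [hx]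
    exact isConnected_connectedComponent
  have hKu : ∀ x : NN L, x ∈ K (e.symm (ConnectedComponents.mk x)) := by
    intro x
    rw [hKdef]
    simp
  have hKd : ∀ i j x, x ∈ K i → x ∈ K j → i = j := by
    intro i j x hi hj
    have h1 : ConnectedComponents.mk x = e i := hi
    have h2 : ConnectedComponents.mk x = e j := hj
    exact e.injective (h1.symm.trans h2)
  refine ⟨_, fun i => curveK hJ P (hKo i) (hKc i), ?_, ?_, ?_⟩
  · -- the current
    ext b
    rw [LinearMap.sum_apply]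
    show C b = ∑ i, TK P (K i) b
    have h1 : ∀ (p : M) (b' : F2 E4 M), ∑ i, loc (K i) p b' =
        ∑ j : Fin (L p).n, ∫ z in ball (0 : ℂ) 1, pb ((L p).u j) b' z := by
      intro p b'
      unfold loc
      have h := (Fintype.sum_sigma' (fun (i : Fin (Nat.card (ConnectedComponents (NN L))))
        (j : Bk L (K i) p) => ∫ z in ball (0 : ℂ) 1, pb ((L p).u j.1) b' z)).symm
      refine h.trans ?_
      refine Fintype.sum_bijective (fun x : (i : Fin (Nat.card (ConnectedComponents (NN L)))) ×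
        Bk L (K i) p => x.2.1) ⟨?_, ?_⟩ _ _ fun x => rfl
      · rintro ⟨i, j⟩ ⟨i', j'⟩ hjj
        have h0 : j.1 = j'.1 := hjj
        have hx : phi (uu L) ⟨p, j.1⟩ ⟨0, mem_ball_self one_pos⟩ ∈ K i := j.2 ⟨_, rfl⟩
        have hx' : phi (uu L) ⟨p, j.1⟩ ⟨0, mem_ball_self one_pos⟩ ∈ K i' := by
          rw [h0]
          exact j'.2 ⟨_, rfl⟩
        obtain rfl := hKd i i' _ hx hx'
        obtain rfl : j = j' := Subtype.ext h0
        rfl
      · intro j
        have hx := hKu (phi (uu L) ⟨p, j⟩ ⟨0, mem_ball_self one_pos⟩)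
        exact ⟨⟨_, ⟨j, range_sub (hKo _) _ ⟨_, rfl⟩ hx⟩⟩, rfl⟩
    simp only [TK_apply]
    rw [Finset.sum_comm]
    simp only [h1]
    conv_lhs => rw [← P.sum_fm b, map_sum]
    refine Finset.sum_congr rfl fun k _ => ?_
    exact hL (P.p k) _ _ (P.compact k) (P.supp k) (P.fm_zero k b)
  · -- the support
    ext x
    constructor
    · intro hx
      have h1 : x ∈ S ∩ (L x).U := ⟨hx, (L x).mem⟩
      rw [(L x).supp] at h1
      obtain ⟨j, z, hz, hzx⟩ := mem_iUnion.1 h1
      refine mem_iUnion.2 ⟨_, ⟨⟨phi (uu L) ⟨x, j⟩ ⟨z, hz⟩, hKu _⟩, ?_⟩⟩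
      exact (ff_phi L _ _).trans hzx
    · intro hx
      obtain ⟨i, y, rfl⟩ := mem_iUnion.1 hx
      obtain ⟨a, z, hz⟩ := exists_phi (u := uu L) y.1
      show ff L y.1 ∈ S
      rw [← hz, ff_phi]
      exact uu_mem L a z.2
  · -- intersections
    intro i j hij
    refine (Set.finite_range P.p).subset ?_
    rintro x ⟨⟨y, hy⟩, ⟨y', hy'⟩⟩
    by_contra hcon
    have h1 : y.1 = y'.1 := by
      refine inj_off P (fun k hk => hcon ⟨k, ?_⟩) (hy.trans hy'.symm)
      exact hk.symm.trans hy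
    exact hij (hKd i j y.1 y.2 (h1 ▸ y'.2))

end

end Crest.Agent.R235.Glob_370
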