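import Mathlib
import Crest.Agent.R240.Lin1

/-!
Row 235 (S0364), package TOR / FIB-A (helper129), part A1: pointwise linear algebra of a coframe
`l0, l1, a0, a1` (leaf = `ker l0 ∩ ker l1`), and the algebra of `3 × 3` Gram matrices.
-/

set_option autoImplicit false

open Crest.Agent.R240

namespace Crest.Agent.R235.FibLin_129

noncomputable section

/-! ### quadratic forms in three variables -/



/-! ### the coframe -/

section Coframe

variable (l0 l1 a0 a1 : E4 →L[ℝ] ℝ)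

/-- the volume of the coframe. -/
def del : ℝ := W (wed l0 l1) (wed a0 a1)

/-- the map to the standard coordinates. -/
def cof : E4 →L[ℝ] E4 :=
  l0.smulRight (ee 0) + l1.smulRight (ee 1) + a0.smulRight (ee 2) + a1.smulRight (ee 3)

variable {l0 l1 a0 a1}

theorem cof_apply (v : E4) : cof l0 l1 a0 a1 v =
    l0 v • ee 0 + l1 v • ee 1 + a0 v • ee 2 + a1 v • ee 3 := by
  simp [cof]

theorem cof_0 (v : E4) : (cof l0 l1 a0 a1 v) 0 = l0 v := by simp [cof_apply]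
theorem cof_1 (v : E4) : (cof l0 l1 a0 a1 v) 1 = l1 v := by simp [cof_apply]
theorem cof_2 (v : E4) : (cof l0 l1 a0 a1 v) 2 = a0 v := by simp [cof_apply]
theorem cof_3 (v : E4) : (cof l0 l1 a0 a1 v) 3 = a1 v := by simp [cof_apply]

/-- the coordinate covectors. -/
def dx (i : Fin 4) : E4 →L[ℝ] ℝ := EuclideanSpace.proj i

@[simp] theorem dx_apply (i : Fin 4) (v : E4) : dx i v = v i := rfl

theorem del_eq : del l0 l1 a0 a1 = LinearMap.det (cof l0 l1 a0 a1 : E4 →ₗ[ℝ] E4) := by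
  have h1 : wed l0 l1 = pull (cof l0 l1 a0 a1) (wed (dx 0) (dx 1)) := by
    ext u v
    simp only [wed_apply, pull_apply, dx_apply, cof_0, cof_1]
  have h2 : wed a0 a1 = pull (cof l0 l1 a0 a1) (wed (dx 2) (dx 3)) := by
    ext u v
    simp only [wed_apply, pull_apply, dx_apply, cof_2, cof_3]
  unfold del
  rw [h1, h2, W_pull (wed_alt _ _) (wed_alt _ _)]
  have : W (wed (dx 0) (dx 1)) (wed (dx 2) (dx 3)) = 1 := by
    simp [W, ent]
  rw [this, mul_one]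

/-- the dual frame. -/
theorem exists_frame (h : del l0 l1 a0 a1 ≠ 0) : ∃ B : E4 →L[ℝ] E4,
    (∀ v, cof l0 l1 a0 a1 (B v) = v) ∧ ∀ v, B (cof l0 l1 a0 a1 v) = v := by
  rw [del_eq] at h
  have hu : IsUnit (LinearMap.det (cof l0 l1 a0 a1 : E4 →ₗ[ℝ] E4)) := isUnit_iff_ne_zero.2 h
  let e := LinearEquiv.ofIsUnitDet (v := Module.finBasis ℝ E4) (v' := Module.finBasis ℝ E4)
    (f := (cof l0 l1 a0 a1 : E4 →ₗ[ℝ] E4)) (by rwa [LinearMap.det_toMatrix])
  refine ⟨e.symm.toContinuousLinearEquiv, fun v => ?_, fun v => ?_⟩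
  · exact e.apply_symm_apply v
  · exact e.symm_apply_apply v

/-- expansion of a two-form in the coframe. -/
theorem expand6 (h : del l0 l1 a0 a1 ≠ 0) {b : Bil} (hb : Alt b) :
    ∃ p q r s m k : ℝ, b = p • wed a0 l0 + q • wed a0 l1 + r • wed a1 l0 + s • wed a1 l1
      + m • wed l0 l1 + k • wed a0 a1 := by
  obtain ⟨B, hB1, hB2⟩ := exists_frame h
  refine ⟨-ent (pull B b) 0 2, -ent (pull B b) 1 2, -ent (pull B b) 0 3, -ent (pull B b) 1 3,
    ent (pull B b) 0 1, ent (pull B b) 2 3, ?_⟩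
  ext u v
  have h1 : b u v = pull B b (cof l0 l1 a0 a1 u) (cof l0 l1 a0 a1 v) := by
    rw [pull_apply, hB2, hB2]
  rw [h1, alt_expand (hb.pull B)]
  simp only [cof_0, cof_1, cof_2, cof_3, add_apply, smul_apply, wed_apply, smul_eq_mul]
  ring

/-- expansion of a two-form vanishing on the leaf. -/
theorem expand5 (h : del l0 l1 a0 a1 ≠ 0) {b : Bil} (hb : Alt b)
    (hz : ∀ u v, l0 u = 0 → l1 u = 0 → l0 v = 0 → l1 v = 0 → b u v = 0) :
    ∃ p q r s m : ℝ, b = p • wed a0 l0 + q • wed a0 l1 + r • wed a1 l0 + s • wed a1 l1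
      + m • wed l0 l1 := by
  obtain ⟨p, q, r, s, m, k, hk⟩ := expand6 h hb
  refine ⟨p, q, r, s, m, ?_⟩
  obtain ⟨B, hB1, hB2⟩ := exists_frame h
  have c2 := hB1 (ee 2)
  have c3 := hB1 (ee 3)
  have e2 : l0 (B (ee 2)) = 0 ∧ l1 (B (ee 2)) = 0 ∧ a0 (B (ee 2)) = 1 ∧ a1 (B (ee 2)) = 0 := by
    refine ⟨?_, ?_, ?_, ?_⟩
    · rw [← cof_0 (l0 := l0) (l1 := l1) (a0 := a0) (a1 := a1), c2]; simp
    · rw [← cof_1 (l0 := l0) (l1 := l1) (a0 := a0) (a1 := a1), c2]; simp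
    · rw [← cof_2 (l0 := l0) (l1 := l1) (a0 := a0) (a1 := a1), c2]; simp
    · rw [← cof_3 (l0 := l0) (l1 := l1) (a0 := a0) (a1 := a1), c2]; simp
  have e3 : l0 (B (ee 3)) = 0 ∧ l1 (B (ee 3)) = 0 ∧ a0 (B (ee 3)) = 0 ∧ a1 (B (ee 3)) = 1 := by
    refine ⟨?_, ?_, ?_, ?_⟩
    · rw [← cof_0 (l0 := l0) (l1 := l1) (a0 := a0) (a1 := a1), c3]; simp
    · rw [← cof_1 (l0 := l0) (l1 := l1) (a0 := a0) (a1 := a1), c3]; simp
    · rw [← cof_2 (l0 := l0) (l1 := l1) (a0 := a0) (a1 := a1), c3]; simp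
    · rw [← cof_3 (l0 := l0) (l1 := l1) (a0 := a0) (a1 := a1), c3]; simp
  have hz' := hz _ _ e2.1 e2.2.1 e3.1 e3.2.1
  rw [hk] at hz'
  simp only [add_apply, smul_apply, wed_apply, smul_eq_mul, e2, e3] at hz'
  have hk0 : k = 0 := by linarith
  rw [hk, hk0, zero_smul, add_zero]

/-! #### the table -/

variable (l0 l1 a0 a1)

/-- `G`. -/
def GG : Bil := wed a0 l1 - wed a1 l0
/-- `A`. -/
def AA : Bil := wed a0 a1

variable {l0 l1 a0 a1}



/-- a form vanishing on the leaf. -/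
def BB (l0 l1 a0 a1 : E4 →L[ℝ] ℝ) (p q r s m : ℝ) : Bil :=
  p • wed a0 l0 + q • wed a0 l1 + r • wed a1 l0 + s • wed a1 l1 + m • wed l0 l1


end Coframe

end

end Crest.Agent.R235.FibLin_129
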