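import Crest.Agent.R235.Ip_288

/-!
Row 235 (helper288): COMMON API over `Defs_837`, part 2: orientation independence of `I`, `pI`, `ip`;
signs of a positive triple; positivity of the Gram matrix; `Frame w (cls ∘ w)`; polygonal paths.
-/

set_option autoImplicit false
set_option maxSynthPendingDepth 3

open Set Function Filter MeasureTheory
open scoped Manifold ContDiff Topology ENNReal

universe u

namespace Crest.Agent.R235

open Crest.Agent.R240 Crest.Agent.R240.Ch Crest.Agent.R240.Int

noncomputable section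

/-! ### linear algebra -/

section Lin

/-- the quadratic form of a positive triple at a point is definite: the sign does not depend on
the combination. -/
theorem sign_const {b : Fin 3 → Bil}
    (h : ∀ c : Fin 3 → ℝ, c ≠ 0 → W (∑ i, c i • b i) (∑ i, c i • b i) ≠ 0)
    {c d : Fin 3 → ℝ} (hc : c ≠ 0) (hd : d ≠ 0) :
    0 < W (∑ i, c i • b i) (∑ i, c i • b i) * W (∑ i, d i • b i) (∑ i, d i • b i) := by
  have hcont : Continuous fun c : Fin 3 → ℝ => W (∑ i, c i • b i) (∑ i, c i • b i) := by
    unfold W ent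
    simp only [Fin.sum_univ_three]
    fun_prop
  have hconn : IsPreconnected ({0}ᶜ : Set (Fin 3 → ℝ)) := by
    refine (isConnected_compl_singleton_of_one_lt_rank ?_ 0).isPreconnected
    rw [← Module.finrank_eq_rank]
    simp
  have key : ∀ c d : Fin 3 → ℝ, c ≠ 0 → d ≠ 0 → 0 < W (∑ i, c i • b i) (∑ i, c i • b i) →
      0 < W (∑ i, d i • b i) (∑ i, d i • b i) := by
    intro c d hc hd hpos
    by_contra hneg
    have hneg' : W (∑ i, d i • b i) (∑ i, d i • b i) < 0 :=
      lt_of_le_of_ne (not_lt.1 hneg) (h d hd)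
    obtain ⟨e, he, he0⟩ := hconn.intermediate_value (a := d) (b := c) hd hc
      hcont.continuousOn ⟨hneg'.le, hpos.le⟩
    exact h e he he0
  rcases lt_or_gt_of_ne (h c hc) with h1 | h1
  · have h2 : W (∑ i, d i • b i) (∑ i, d i • b i) < 0 := by
      by_contra h3
      have h4 : 0 < W (∑ i, d i • b i) (∑ i, d i • b i) :=
        lt_of_le_of_ne (not_lt.1 h3) (h d hd).symm
      exact absurd (key d c hd hc h4) (not_lt.2 h1.le)
    exact mul_pos_of_neg_of_neg h1 h2
  · exact mul_pos h1 (key c d hc hd h1)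

theorem q_pos_of_mul_pos {F b : Bil} (h : 0 < W F F * W b b) : 0 < q F b b := by
  unfold q
  rcases pos_and_pos_or_neg_and_neg_of_mul_pos h with ⟨h1, h2⟩ | ⟨h1, h2⟩
  · exact div_pos h2 h1
  · exact div_pos_of_neg_of_neg h2 h1

end Lin

section Basic

variable {M : Type u} [TopologicalSpace M] [ChartedSpace E4 M] [IsManifold 𝓘(ℝ, E4) ∞ M]

theorem Pos3.mul_pos {w : Trip M} (hw : Pos3 w) {c d : Fin 3 → ℝ} (hc : c ≠ 0) (hd : d ≠ 0)
    (x : M) : 0 < W (val (∑ i, c i • w i) x) (val (∑ i, c i • w i) x) *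
      W (val (∑ i, d i • w i) x) (val (∑ i, d i • w i) x) := by
  rw [val_comb, val_comb]
  exact sign_const (fun c hc => hw x c hc) hc hd

theorem single_comb (w : Trip M) (i : Fin 3) : ∑ j, (Pi.single i 1 : Fin 3 → ℝ) j • w j = w i := by
  rw [Finset.sum_eq_single i]
  · simp
  · intro j _ hj; simp [Pi.single_eq_of_ne hj]
  · intro h; exact absurd (Finset.mem_univ i) h

theorem single_ne (i : Fin 3) : (Pi.single i 1 : Fin 3 → ℝ) ≠ 0 := by
  intro h0
  have := congrFun h0 i
  simp at this

theorem Pos3.mul_pos' {w : Trip M} (hw : Pos3 w) (i j : Fin 3) (x : M) :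
    0 < W (val (w i) x) (val (w i) x) * W (val (w j) x) (val (w j) x) := by
  have h := hw.mul_pos (single_ne i) (single_ne j) x
  rwa [single_comb, single_comb] at h

theorem Pos3.mul_pos_comb {w : Trip M} (hw : Pos3 w) (i : Fin 3) {c : Fin 3 → ℝ} (hc : c ≠ 0)
    (x : M) : 0 < W (val (w i) x) (val (w i) x) *
      W (val (∑ i, c i • w i) x) (val (∑ i, c i • w i) x) := by
  have h := hw.mul_pos (single_ne i) hc x
  rwa [single_comb] at h

/-- linear changes of the triple. -/
theorem Pos3.linear {w : Trip M} (hw : Pos3 w) {A : Matrix (Fin 3) (Fin 3) ℝ} (hA : A.det ≠ 0) :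
    Pos3 (fun i => ∑ j, A i j • w j : Trip M) := by
  intro x c hc
  have e : ∑ i, c i • val (∑ j, A i j • w j) x = ∑ j, (Matrix.vecMul c A) j • val (w j) x := by
    simp only [val_comb, Finset.smul_sum, smul_smul]
    rw [Finset.sum_comm]
    refine Finset.sum_congr rfl fun j _ => ?_
    rw [← Finset.sum_smul]
    rfl
  have hne : Matrix.vecMul c A ≠ 0 := by
    intro h0
    exact hc (Matrix.eq_zero_of_vecMul_eq_zero hA h0)
  change W (∑ i, c i • val (∑ j, A i j • w j) x) (∑ i, c i • val (∑ j, A i j • w j) x) ≠ 0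
  rw [e]
  exact hw x _ hne

/-! ### segments and paths -/

theorem val_seg (w w' : Trip M) (t : ℝ) (i : Fin 3) (x : M) :
    val (seg w w' t i) x = (1 - t) • val (w i) x + t • val (w' i) x := rfl

theorem seg_zero (w w' : Trip M) : seg w w' 0 = w := by
  funext i; simp [seg]

theorem seg_one (w w' : Trip M) : seg w w' 1 = w' := by
  funext i; simp [seg]

theorem seg_self (w : Trip M) (t : ℝ) : seg w w t = w := by
  funext i
  change (1 - t) • w i + t • w i = w i
  rw [← add_smul, sub_add_cancel, one_smul]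

theorem seg_symm (w w' : Trip M) (t : ℝ) : seg w' w t = seg w w' (1 - t) := by
  funext i
  change (1 - t) • w' i + t • w i = (1 - (1 - t)) • w i + (1 - t) • w' i
  rw [sub_sub_cancel, add_comm]

theorem Seg.left {w w' : Trip M} (h : Seg w w') : Pos3 w := by
  have := h 0 le_rfl zero_le_one
  rwa [seg_zero] at this

theorem Seg.right {w w' : Trip M} (h : Seg w w') : Pos3 w' := by
  have := h 1 zero_le_one le_rfl
  rwa [seg_one] at this

theorem Seg.refl {w : Trip M} (hw : Pos3 w) : Seg w w := fun t _ _ => by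
  rwa [seg_self]

theorem Seg.symm {w w' : Trip M} (h : Seg w w') : Seg w' w := fun t h0 h1 => by
  rw [seg_symm]; exact h _ (by linarith) (by linarith)

theorem SameCls.refl (w : Trip M) : SameCls w w := fun _ => rfl

theorem SameCls.symm {w w' : Trip M} (h : SameCls w w') : SameCls w' w := fun i => (h i).symm

theorem SameCls.trans {w w' w'' : Trip M} (h : SameCls w w') (h' : SameCls w' w'') :
    SameCls w w'' := fun i => (h i).trans (h' i)

theorem cls_seg (w w' : Trip M) (t : ℝ) (i : Fin 3) :
    cls (seg w w' t i) = (1 - t) • cls (w i) + t • cls (w' i) := by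
  change cls ((1 - t) • w i + t • w' i) = _
  rw [map_add, map_smul, map_smul]

theorem SameCls.seg {w w' : Trip M} (h : SameCls w w') (t : ℝ) : SameCls w (R235.seg w w' t) := by
  intro i
  rw [cls_seg, ← h i, ← add_smul, sub_add_cancel, one_smul]

theorem PL.refl (w : Trip M) : PL w w := Relation.ReflTransGen.refl

theorem PL.trans {w w' w'' : Trip M} (h : PL w w') (h' : PL w' w'') : PL w w'' :=
  Relation.ReflTransGen.trans h h'

theorem Seg.pl {w w' : Trip M} (h : Seg w w') : PL w w' := Relation.ReflTransGen.single h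

theorem PL.symm {w w' : Trip M} (h : PL w w') : PL w' w := by
  induction h with
  | refl => exact PL.refl _
  | tail _ h ih => exact (Seg.pl h.symm).trans ih

theorem PL.pos3 {w w' : Trip M} (h : PL w w') (hw : Pos3 w) : Pos3 w' := by
  induction h with
  | refl => exact hw
  | tail _ h _ => exact h.right


theorem Joined.refl (w : Trip M) : Joined w w := Relation.ReflTransGen.refl

theorem Joined.trans {w w' w'' : Trip M} (h : Joined w w') (h' : Joined w' w'') : Joined w w'' :=
  Relation.ReflTransGen.trans h h'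

theorem Joined.single {w w' : Trip M} (h : Seg w w') (h' : SameCls w w') : Joined w w' :=
  Relation.ReflTransGen.single ⟨h, h'⟩

theorem Joined.symm {w w' : Trip M} (h : Joined w w') : Joined w' w := by
  induction h with
  | refl => exact Joined.refl _
  | tail _ h ih => exact (Joined.single h.1.symm h.2.symm).trans ih

theorem Joined.pl {w w' : Trip M} (h : Joined w w') : PL w w' := by
  induction h with
  | refl => exact PL.refl _
  | tail _ h ih => exact ih.trans h.1.pl


theorem Joined.pos3 {w w' : Trip M} (h : Joined w w') (hw : Pos3 w) : Pos3 w' := h.pl.pos3 hw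

end Basic

/-! ### orientation independence -/

section Closed

variable {M : Type u} [TopologicalSpace M] [T2Space M] [CompactSpace M]
  [ChartedSpace E4 M] [IsManifold 𝓘(ℝ, E4) ∞ M]

section Meas

variable [MeasurableSpace M] [BorelSpace M]

theorem mu_change {F G : F2 E4 M} (hF : Vol F) (hG : Vol G) :
    mu G = (mu F).withDensity (fun x => ENNReal.ofReal |qG F G G x|) := by
  have hcont : Continuous (fun x => ENNReal.ofReal |qG F G G x|) :=
    ENNReal.continuous_ofReal.comp (continuous_qG hF hG.cont2 hG.cont2).abs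
  refine (isVol_eq_mu hG ?_).symm
  intro p f hf h0
  rw [lintegral_withDensity_eq_lintegral_mul _ hcont.measurable hf,
    isVol_mu hF p _ (hcont.measurable.mul hf) (fun x hx => by simp [h0 x hx])]
  refine setLIntegral_congr_fun (chartAt E4 p).open_target.measurableSet fun y hy => ?_
  have h1 : qG F G G ((chartAt E4 p).symm y) = q (rep p F y) (rep p G y) (rep p G y) :=
    qG_chart hF hG.alt hG.alt hy
  have h2 : W (rep p F y) (rep p F y) ≠ 0 := by
    rw [W_rep hF.alt hF.alt]
    exact mul_ne_zero (det_tcc_ne (symm_mem hy)) (hF.ne _)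
  simp only [Pi.mul_apply]
  rw [h1, q, abs_div, mul_comm (ENNReal.ofReal _) (f _), mul_assoc,
    ← ENNReal.ofReal_mul (by positivity), div_mul_cancel₀ _ (abs_ne_zero.2 h2)]

/-- the pairing only depends on the orientation. -/
theorem I_congr_orient {F G : F2 E4 M} (hF : Vol F) (hG : Vol G)
    (h : ∀ x, 0 < W (at2 F x) (at2 F x) * W (at2 G x) (at2 G x)) (b c : F2 E4 M) :
    I G b c = I F b c := by
  unfold I
  have hcont : Continuous (fun x => |qG F G G x|) :=
    (continuous_qG hF hG.cont2 hG.cont2).abs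
  have hm : Measurable (fun x => ENNReal.ofReal |qG F G G x|) :=
    (ENNReal.continuous_ofReal.comp hcont).measurable
  rw [mu_change hF hG, integral_withDensity_eq_integral_toReal_smul hm
    (Eventually.of_forall fun x => ENNReal.ofReal_lt_top)]
  refine integral_congr_ae (Eventually.of_forall fun x => ?_)
  have h1 : 0 < qG F G G x := q_pos_of_mul_pos (h x)
  have h2 : W (at2 F x) (at2 F x) ≠ 0 := hF.ne x
  have h3 : W (at2 G x) (at2 G x) ≠ 0 := hG.ne x
  simp only [smul_eq_mul]
  rw [ENNReal.toReal_ofReal (abs_nonneg _), abs_of_pos h1]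
  unfold qG q
  field_simp

end Meas

theorem pI_congr_orient {F G : Z2 M} (hF : Vol (F.1.1 : F2 E4 M)) (hG : Vol (G.1.1 : F2 E4 M))
    (h : ∀ x, 0 < W (val F x) (val F x) * W (val G x) (val G x)) (a b : Z2 M) :
    pI G a b = pI F a b := by
  let _ : MeasurableSpace M := borel M
  have _ : BorelSpace M := ⟨rfl⟩
  exact I_congr_orient hF hG h _ _

theorem ip_congr_orient {F G : Z2 M} (hF : Vol (F.1.1 : F2 E4 M)) (hG : Vol (G.1.1 : F2 E4 M))
    (h : ∀ x, 0 < W (val F x) (val F x) * W (val G x) (val G x)) (a b : H2 M) :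
    ip G a b = ip F a b := pI_congr_orient hF hG h _ _

theorem Pos3.ip_eq {w : Trip M} (hw : Pos3 w) (i j : Fin 3) (a b : H2 M) :
    ip (w i) a b = ip (w j) a b :=
  ip_congr_orient (hw.vol j) (hw.vol i) (hw.mul_pos' j i) a b

theorem Pos3.ip_comb {w : Trip M} (hw : Pos3 w) (i : Fin 3) {c : Fin 3 → ℝ} (hc : c ≠ 0)
    (a b : H2 M) : ip (∑ j, c j • w j) a b = ip (w i) a b :=
  ip_congr_orient (hw.vol i) (hw.vol_comb hc) (hw.mul_pos_comb i hc) a b

theorem pI_pos [Nonempty M] {F b : Z2 M} (hF : Vol (F.1.1 : F2 E4 M))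
    (h : ∀ x, 0 < W (val F x) (val F x) * W (val b x) (val b x)) : 0 < pI F b b := by
  let _ : MeasurableSpace M := borel M
  have _ : BorelSpace M := ⟨rfl⟩
  have _ := isOpenPos_mu hF
  have _ := isFinite_mu hF
  have hc : Continuous (qG (F.1.1 : F2 E4 M) (b.1.1 : F2 E4 M) (b.1.1 : F2 E4 M)) :=
    continuous_qG hF (cont2_coe b) (cont2_coe b)
  have hpos : ∀ x, 0 < qG (F.1.1 : F2 E4 M) (b.1.1 : F2 E4 M) (b.1.1 : F2 E4 M) x :=
    fun x => q_pos_of_mul_pos (h x)
  obtain ⟨x0⟩ := ‹Nonempty M›
  exact hc.integral_pos_of_hasCompactSupport_nonneg_nonzero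
    (HasCompactSupport.of_compactSpace _) (fun x => (hpos x).le) (hpos x0).ne'


/-- the square of a combination of a positive triple. -/
theorem Pos3.ip_comb_pos [Nonempty M] {w : Trip M} (hw : Pos3 w) (i : Fin 3) {c : Fin 3 → ℝ}
    (hc : c ≠ 0) : 0 < ip (w i) (∑ j, c j • cls (w j)) (∑ j, c j • cls (w j)) := by
  have e : ∑ j, c j • cls (w j) = cls (∑ j, c j • w j) := by
    rw [map_sum]
    exact Finset.sum_congr rfl fun j _ => (map_smul _ _ _).symm
  rw [e, ip_cls (hw.vol i)]
  exact pI_pos (hw.vol i) (hw.mul_pos_comb i hc)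

theorem Pos3.ip_self_pos [Nonempty M] {w : Trip M} (hw : Pos3 w) (i j : Fin 3) :
    0 < ip (w i) (cls (w j)) (cls (w j)) := by
  rw [ip_cls (hw.vol i)]
  exact pI_pos (hw.vol i) (hw.mul_pos' i j)

/-- the Gram matrix. -/
theorem Pos3.gram [Nonempty M] {w : Trip M} (hw : Pos3 w) (i : Fin 3) :
    (Matrix.of fun j k => ip (w i) (cls (w j)) (cls (w k))).PosDef := by
  refine Matrix.PosDef.of_dotProduct_mulVec_pos ?_ ?_
  · ext j k
    simp [Matrix.conjTranspose_apply, ip_comm (w i) (cls (w k))]
  · intro c hc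
    have h := hw.ip_comb_pos i hc
    rw [ip_sum_left (hw.vol i)] at h
    simp only [ip_sum_right (hw.vol i), ip_smul_left (hw.vol i), ip_smul_right (hw.vol i)] at h
    refine lt_of_lt_of_eq h ?_
    simp only [dotProduct, Matrix.mulVec, Matrix.of_apply, Finset.mul_sum, star_trivial]
    refine Finset.sum_congr rfl fun j _ => Finset.sum_congr rfl fun k _ => ?_
    ring

/-- the classes of a positive triple are a frame. -/
theorem Pos3.frame [Nonempty M] {w : Trip M} (hw : Pos3 w) : Frame w (fun i => cls (w i)) where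
  pos := hw.gram 0
  ori := (hw.gram 0).det_pos


end Closed

end

end Crest.Agent.R235
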