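import Crest.Agent.R235.FibFlux_129
import Crest.Agent.R235.TorDefs_225
import Crest.Agent.R235.TorMin_510
import Crest.Agent.R235.Ip_288
import Crest.Agent.R235.Ip2_288
import Crest.Agent.R235.Defs_837
import Crest.Agent.R240.Ch4
import Mathlib
import Crest.Agent.R240.Lin1
import Crest.Agent.R235.FibLin_129

-- ▼ part R235/FibUniq_129
section

/-!
Row 235 (S0364), package TOR / A2 (helper129): the flux forms do not depend on the product chart.
-/

set_option autoImplicit false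
set_option maxSynthPendingDepth 3
set_option linter.unusedSectionVars false

open Set Function Filter MeasureTheory
open scoped Manifold ContDiff Topology

universe u

namespace Crest.Agent.R235.FibUniq_129

open Crest.Agent.R240 Crest.Agent.R240.Ch Crest.Agent.R235.Pull_129 Crest.Agent.R235.FibTr_129
  Crest.Agent.R235.FibPer_129 Crest.Agent.R235.FibFlux_129

noncomputable section

variable {M : Type u} [TopologicalSpace M] [T2Space M] [CompactSpace M]
  [ChartedSpace E4 M] [IsManifold 𝓘(ℝ, E4) ∞ M]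

variable {w : Trip M} {f : H2 M} {Φ Ψ : E4 → M} {T : Set (E4 → M)} {g : Fin 2 → F1 E4 M}

lemma pb1_tr (hΦ : Tube w f Φ) {y z : E4} {h : E4 → E4} (hg : ContDiffAt ℝ ∞ h z)
    (hz : h z = y) (he : ∀ᶠ z' in 𝓝 z, Φ (h z') = Ψ z') (s : F1 E4 M) (v : E4) :
    pb1 Φ s y (fderiv ℝ h z v) = pb1 Ψ s z v := by
  have h0 : Ψ z = Φ y := by rw [← hz]; exact he.self_of_nhds.symm
  rw [pb1_apply, pb1_apply, dL_tr hΦ hg hz he, h0]

lemma pb2_tr (hΦ : Tube w f Φ) {y z : E4} {h : E4 → E4} (hg : ContDiffAt ℝ ∞ h z)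
    (hz : h z = y) (he : ∀ᶠ z' in 𝓝 z, Φ (h z') = Ψ z') (a : F2 E4 M) (u v : E4) :
    pb2 Φ a y (fderiv ℝ h z u) (fderiv ℝ h z v) = pb2 Ψ a z u v := by
  have h0 : Ψ z = Φ y := by rw [← hz]; exact he.self_of_nhds.symm
  rw [pb2_apply, pb2_apply, dL_tr hΦ hg hz he, dL_tr hΦ hg hz he, h0]

/-- the leaf of `Φ` through a point of the leaf of `Ψ`. -/
lemma exists_pt (hT : TAtlas w f T) (hΦ : Φ ∈ T) (hΨ : Ψ ∈ T) {y z : E4} (h : Ψ z = Φ y)
    (s t : ℝ) : ∃ a b : ℝ, Ψ (z + lv s t) = Φ (y + lv a b) := by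
  have hr := hT.cons Ψ hΨ Φ hΦ z y h
  have hm : Ψ (z + lv s t) ∈ range (slice Ψ z) := ⟨WithLp.toLp 2 ![s, t], rfl⟩
  rw [hr] at hm
  obtain ⟨q, hq⟩ := hm
  exact ⟨q 0, q 1, hq.symm⟩

/-- the derivative along the leaf of the comparison function. -/
lemma hasDeriv_comp (hT : TAtlas w f T) (hΦ : Φ ∈ T) (hΨ : Ψ ∈ T)
    {L L' : Fin 2 → E4 → E4 →L[ℝ] ℝ} {u u' : Fin 2 → E4 → ℝ} (F : Flux w g Φ L u)
    (F' : Flux w g Ψ L' u') {y z v v' : E4} (h : Ψ z = Φ y)
    (hv : dL (E := E4) Φ y v = dL (E := E4) Ψ z v') (s0 t0 r : ℝ) :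
    HasDerivAt (fun r : ℝ => (L 0 y v * dsc Φ (u 0) (Ψ (z + lv (r * s0) (r * t0))) +
        L 1 y v * dsc Φ (u 1) (Ψ (z + lv (r * s0) (r * t0)))) -
        (L' 0 z v' * u' 0 (z + lv (r * s0) (r * t0)) +
          L' 1 z v' * u' 1 (z + lv (r * s0) (r * t0))))
      ((L' 0 z v' - L 0 y v) * pb1 Ψ (g 0) (z + lv (r * s0) (r * t0)) (lv s0 t0) +
        (L' 1 z v' - L 1 y v) * pb1 Ψ (g 1) (z + lv (r * s0) (r * t0)) (lv s0 t0)) r := by
  have tΦ := hT.tube Φ hΦ
  have tΨ := hT.tube Ψ hΨ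
  obtain ⟨a, b, hab⟩ := exists_pt hT hΦ hΨ h (r * s0) (r * t0)
  obtain ⟨k, hk1, hk2, hk3⟩ := exists_tr tΦ tΨ h
  obtain ⟨k1, hl1, hl2, hl3⟩ := exists_tr tΦ tΨ hab
  set zr := z + lv (r * s0) (r * t0) with hzr
  set yr := y + lv a b with hyr
  have hdk : DifferentiableAt ℝ k z := hk1.differentiableAt infty_ne_zero
  have hdk1 : DifferentiableAt ℝ k1 zr := hl1.differentiableAt infty_ne_zero
  -- `D k v' = v`
  have hDk : fderiv ℝ k z v' = v := by
    apply tube_inj tΦ y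
    rw [dL_tr tΦ hk1 hk2 hk3, hv]
  have hb := tr_dbase hT hΦ hΨ hk3 hl3 hdk hdk1 v'
  rw [hDk] at hb
  have hDk1 : fderiv ℝ k1 zr v' = v + lv ((fderiv ℝ k1 zr v') 2 - v 2)
      ((fderiv ℝ k1 zr v') 3 - v 3) := eq_add_lv hb.1 hb.2
  have hlf := tr_leaf hT hΦ hΨ hl3 hdk1 s0 t0
  set a' := (fderiv ℝ k1 zr (lv s0 t0)) 2 with ha'
  set b' := (fderiv ℝ k1 zr (lv s0 t0)) 3 with hb'
  have hDl : fderiv ℝ k1 zr (lv s0 t0) = lv a' b' := eq_lv hlf.1 hlf.2
  -- comparison of the contractions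
  have e1 : pb2 Ψ ((w 1).1.1 : F2 E4 M) zr v' (lv s0 t0) =
      pb2 Φ ((w 1).1.1 : F2 E4 M) yr v (lv a' b') := by
    rw [← pb2_tr tΦ hl1 hl2 hl3, hDl, hDk1, map_add, add_apply, (leaf_lag tΦ yr _ _ _ _).1,
      add_zero]
  have e2 := F.eq yr v a' b'
  have e3 := F'.eq zr v' s0 t0
  have e4 : ∀ j, pb1 Φ (g j) yr (lv a' b') = pb1 Ψ (g j) zr (lv s0 t0) := fun j => by
    rw [← hDl]; exact pb1_tr tΦ hl1 hl2 hl3 (g j) _
  rw [← e1, Fin.sum_univ_two, e4, e4, hyr, F.leafc 0, F.leafc 1, ← hyr] at e2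
  rw [Fin.sum_univ_two, hzr, F'.leafc 0, F'.leafc 1, ← hzr] at e3
  -- derivatives
  have hline : HasDerivAt (fun r : ℝ => z + lv (r * s0) (r * t0)) (lv s0 t0) r := by
    have h1 : (fun r : ℝ => z + lv (r * s0) (r * t0)) = fun r => z + r • lv s0 t0 := by
      funext r; rw [lv_smul]
    rw [h1]
    have := ((hasDerivAt_id r).smul_const (lv s0 t0)).const_add z
    simpa using this
  have hev : ∀ᶠ r' in 𝓝 r, Ψ (z + lv (r' * s0) (r' * t0)) = Φ (k1 (z + lv (r' * s0) (r' * t0))) := by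
    have hc : Tendsto (fun r : ℝ => z + lv (r * s0) (r * t0)) (𝓝 r) (𝓝 zr) :=
      hline.continuousAt
    filter_upwards [hc.eventually hl3] with r' hr'
    exact hr'.symm
  have hds : ∀ j, HasDerivAt (fun r : ℝ => dsc Φ (u j) (Ψ (z + lv (r * s0) (r * t0))))
      (fderiv ℝ (u j) yr (lv a' b')) r := by
    intro j
    have h1 : HasFDerivAt (fun x => u j (k1 x)) ((fderiv ℝ (u j) yr).comp (fderiv ℝ k1 zr)) zr := by
      have h2 : HasFDerivAt (u j) (fderiv ℝ (u j) yr) (k1 zr) := by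
        rw [hl2]
        exact ((F.smu j).contDiffAt.differentiableAt infty_ne_zero).hasFDerivAt
      exact h2.comp zr hdk1.hasFDerivAt
    have h3 := HasFDerivAt.comp_hasDerivAt (x := r)
      (f := fun r : ℝ => z + lv (r * s0) (r * t0)) h1 hline
    rw [ContinuousLinearMap.comp_apply, hDl] at h3
    refine h3.congr_of_eventuallyEq ?_
    filter_upwards [hev] with r' hr'
    show dsc Φ (u j) (Ψ (z + lv (r' * s0) (r' * t0))) = u j (k1 (z + lv (r' * s0) (r' * t0)))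
    rw [hr', dsc_apply tΦ (F.peru j)]
  have hdu : ∀ j, HasDerivAt (fun r : ℝ => u' j (z + lv (r * s0) (r * t0)))
      (fderiv ℝ (u' j) zr (lv s0 t0)) r := by
    intro j
    have h2 : HasFDerivAt (u' j) (fderiv ℝ (u' j) zr) (z + lv (r * s0) (r * t0)) :=
      ((F'.smu j).contDiffAt.differentiableAt infty_ne_zero).hasFDerivAt
    exact HasFDerivAt.comp_hasDerivAt (x := r) (f := fun r : ℝ => z + lv (r * s0) (r * t0)) h2 hline
  have hfin := (((hds 0).const_mul (L 0 y v)).add ((hds 1).const_mul (L 1 y v))).sub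
    (((hdu 0).const_mul (L' 0 z v')).add ((hdu 1).const_mul (L' 1 z v')))
  refine (hfin.congr_deriv ?_)
  linarith

/-- the flux forms agree. -/
theorem uniq (hT : TAtlas w f T) (hΦ : Φ ∈ T) (hΨ : Ψ ∈ T) (hg : ∀ k, Closed1 (g k))
    (hne : ∀ y, torI (slice Ψ y) (wedG (g 0) (g 1)) ≠ 0)
    {L L' : Fin 2 → E4 → E4 →L[ℝ] ℝ} {u u' : Fin 2 → E4 → ℝ} (F : Flux w g Φ L u)
    (F' : Flux w g Ψ L' u') {y z v v' : E4} (h : Ψ z = Φ y)
    (hv : dL (E := E4) Φ y v = dL (E := E4) Ψ z v') (k : Fin 2) : L k y v = L' k z v' := by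
  have tΦ := hT.tube Φ hΦ
  have tΨ := hT.tube Ψ hΨ
  set γ : Fin 2 → E4 → E4 →L[ℝ] ℝ := fun k => pb1 Ψ (g k) with hγ
  have sm_γ : ∀ k, ContDiff ℝ ∞ (γ k) := fun k => pb1_contDiff tΨ (hg k).1
  have sγ_app : ∀ k (e : E4), ContDiff ℝ ∞ (fun y => γ k y e) := fun k e =>
    (sm_γ k).clm_apply contDiff_const
  have key : ∀ s0 t0 : ℝ, (∃ m n : ℤ, s0 = m ∧ t0 = n) →
      (L' 0 z v' - L 0 y v) * (∫ r in (0 : ℝ)..1, γ 0 (z + lv (r * s0) (r * t0)) (lv s0 t0)) +
      (L' 1 z v' - L 1 y v) * (∫ r in (0 : ℝ)..1, γ 1 (z + lv (r * s0) (r * t0)) (lv s0 t0)) = 0 := by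
    intro s0 t0 hst
    obtain ⟨m, n, hm, hn⟩ := hst
    have hl : Continuous fun r : ℝ => z + lv (r * s0) (r * t0) := by
      have h1 : (fun r : ℝ => z + lv (r * s0) (r * t0)) = fun r => z + r • lv s0 t0 := by
        funext r; rw [lv_smul]
      rw [h1]; fun_prop
    have hc : ∀ k, Continuous fun r : ℝ => γ k (z + lv (r * s0) (r * t0)) (lv s0 t0) := fun k =>
      (sγ_app k _).continuous.comp hl
    have h1 := intervalIntegral.integral_eq_sub_of_hasDerivAt (a := 0) (b := 1)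
      (fun r _ => hasDeriv_comp hT hΦ hΨ F F' h hv s0 t0 r)
      ((((hc 0).const_mul _).add ((hc 1).const_mul _)).intervalIntegrable 0 1)
    have h2 : z + lv ((1 : ℝ) * s0) (1 * t0) = z + lv m n := by rw [one_mul, one_mul, hm, hn]
    have h3 : z + lv ((0 : ℝ) * s0) (0 * t0) = z := by rw [zero_mul, zero_mul, lv_zero, add_zero]
    rw [h2, h3, tΨ.per, F'.peru 0, F'.peru 1, sub_self] at h1
    rw [← intervalIntegral.integral_const_mul, ← intervalIntegral.integral_const_mul,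
      ← intervalIntegral.integral_add (((hc 0).const_mul _).intervalIntegrable 0 1)
        (((hc 1).const_mul _).intervalIntegrable 0 1)]
    exact h1
  have k2 := key 1 0 ⟨1, 0, by simp, by simp⟩
  have k3 := key 0 1 ⟨0, 1, by simp, by simp⟩
  simp only [mul_one, mul_zero] at k2 k3
  -- the determinant of the periods
  have pγ_app : ∀ k (e : E4), Per (fun y => γ k y e) := fun j e y k l => by
    show pb1 Ψ (g j) (y + lv k l) e = pb1 Ψ (g j) y e
    rw [pb1_per tΨ]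
  have dγ : ∀ k y, d1 (γ k) y = 0 := fun k y => closed1_pb tΨ (hg k) y
  have clγ : ∀ k, Cl (fun y => γ k y (lv 1 0)) (fun y => γ k y (lv 0 1)) := fun k y => by
    have hd : DifferentiableAt ℝ (γ k) y := (sm_γ k).contDiffAt.differentiableAt infty_ne_zero
    have h1 : ∀ e v : E4, fderiv ℝ (fun y => γ k y e) y v = fderiv ℝ (γ k) y v e := fun e v => by
      rw [fderiv_clm_apply hd (differentiableAt_const e)]
      simp
    show fderiv ℝ (fun y => γ k y (lv 0 1)) y (lv 1 0) = fderiv ℝ (fun y => γ k y (lv 1 0)) y (lv 0 1)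
    rw [h1, h1]
    have h2 := dγ k y
    have h3 : d1 (γ k) y (lv 1 0) (lv 0 1) = 0 := by rw [h2]; rfl
    rw [d1_apply] at h3
    linarith
  have hD : P2 (fun y => γ 0 y (lv 1 0)) z * P3 (fun y => γ 1 y (lv 0 1)) z -
      P3 (fun y => γ 0 y (lv 0 1)) z * P2 (fun y => γ 1 y (lv 1 0)) z ≠ 0 := by
    have h1 := hne z
    rw [torI_wedG tΨ] at h1
    have h2 := riem (sγ_app 0 (lv 1 0)) (sγ_app 0 (lv 0 1)) (pγ_app 0 _) (pγ_app 0 _) (clγ 0)
      (sγ_app 1 (lv 1 0)) (sγ_app 1 (lv 0 1)) (pγ_app 1 _) (pγ_app 1 _) (clγ 1) z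
    rw [← h2]
    exact h1
  have k2' : (L' 0 z v' - L 0 y v) * P2 (fun y => γ 0 y (lv 1 0)) z +
      (L' 1 z v' - L 1 y v) * P2 (fun y => γ 1 y (lv 1 0)) z = 0 := k2
  have k3' : (L' 0 z v' - L 0 y v) * P3 (fun y => γ 0 y (lv 0 1)) z +
      (L' 1 z v' - L 1 y v) * P3 (fun y => γ 1 y (lv 0 1)) z = 0 := k3
  set A := P2 (fun y => γ 0 y (lv 1 0)) z
  set B := P2 (fun y => γ 1 y (lv 1 0)) z
  set C := P3 (fun y => γ 0 y (lv 0 1)) z
  set D := P3 (fun y => γ 1 y (lv 0 1)) z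
  have r0 : (L' 0 z v' - L 0 y v) * (A * D - C * B) = 0 := by
    linear_combination D * k2' - B * k3'
  have r1 : (L' 1 z v' - L 1 y v) * (A * D - C * B) = 0 := by
    linear_combination (-C) * k2' + A * k3'
  have q0 := (mul_eq_zero.1 r0).resolve_right hD
  have q1 := (mul_eq_zero.1 r1).resolve_right hD
  fin_cases k
  · show L 0 y v = L' 0 z v'
    linarith
  · show L 1 y v = L' 1 z v'
    linarith

end

end Crest.Agent.R235.FibUniq_129
end

-- ▼ part R235/TorCut_649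
section

/-!
Row 235 (S0364), PACKAGE TOR (leader helper225), node A2/CUT (helper649): the leafwise constant
partition of unity of a foliation by tori (`TAtlas`), and the gluing of leafwise functions.
-/

set_option autoImplicit false
set_option maxSynthPendingDepth 3

open Set Function Filter MeasureTheory
open scoped Manifold ContDiff Topology

universe u

namespace Crest.Agent.R235.TorCut_649

open Crest.Agent.R235 Crest.Agent.R240 Crest.Agent.R240.Ch

noncomputable section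

/-! ### local diffeomorphisms `E4 → M` -/

section Local

variable {M : Type u} [TopologicalSpace M] [ChartedSpace E4 M] [IsManifold 𝓘(ℝ, E4) ∞ M]

/-- `Φ` in the chart at `Φ y`. -/
def loc (Φ : E4 → M) (y : E4) : E4 → E4 := fun z => chartAt E4 (Φ y) (Φ z)


lemma loc_smooth {Φ : E4 → M} (hΦ : ContMDiff 𝓘(ℝ, E4) 𝓘(ℝ, E4) ∞ Φ) (y : E4) :
    ContDiffAt ℝ ∞ (loc Φ y) y := by
  have hc : ContMDiffAt 𝓘(ℝ, E4) 𝓘(ℝ, E4) ∞ (chartAt E4 (Φ y)) (Φ y) :=
    (contMDiffOn_chart (I := 𝓘(ℝ, E4)) (x := Φ y)).contMDiffAt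
      ((chartAt E4 (Φ y)).open_source.mem_nhds (mem_chart_source _ _))
  exact (hc.comp y hΦ.contMDiffAt).contDiffAt

/-- **local inverse** of a smooth immersion `E4 → M`. -/
theorem exists_inv {Φ : E4 → M} (hΦ : ContMDiff 𝓘(ℝ, E4) 𝓘(ℝ, E4) ∞ Φ) {y : E4}
    (himm : ∀ v, dmap Φ y v = 0 → v = 0) :
    ∃ g : M → E4, g (Φ y) = y ∧ ContMDiffAt 𝓘(ℝ, E4) 𝓘(ℝ, E4) ∞ g (Φ y) ∧
      (∀ᶠ x in 𝓝 (Φ y), Φ (g x) = x) ∧ ∀ᶠ z in 𝓝 y, g (Φ z) = z := by
  have h1 := loc_smooth hΦ y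
  have hinj : Injective (fderiv ℝ (loc Φ y) y : E4 → E4) :=
    (injective_iff_map_eq_zero (fderiv ℝ (loc Φ y) y)).2 himm
  let A : E4 ≃L[ℝ] E4 := (LinearEquiv.ofInjectiveEndo
    (fderiv ℝ (loc Φ y) y : E4 →ₗ[ℝ] E4) hinj).toContinuousLinearEquiv
  have hA : HasFDerivAt (loc Φ y) (A : E4 →L[ℝ] E4) y := by
    have : (A : E4 →L[ℝ] E4) = fderiv ℝ (loc Φ y) y := by
      ext v i
      rfl
    rw [this]
    exact (h1.differentiableAt (by simp)).hasFDerivAt
  let e := h1.toOpenPartialHomeomorph (loc Φ y) hA (by simp)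
  have he : ∀ z, e z = loc Φ y z := fun z => rfl
  have hy : y ∈ e.source := h1.mem_toOpenPartialHomeomorph_source hA (by simp)
  have hs : ContDiffAt ℝ ∞ e.symm (loc Φ y y) := h1.to_localInverse hA (by simp)
  have hes : e.symm (loc Φ y y) = y := e.left_inv hy
  have hc : ContMDiffAt 𝓘(ℝ, E4) 𝓘(ℝ, E4) ∞ (chartAt E4 (Φ y)) (Φ y) :=
    (contMDiffOn_chart (I := 𝓘(ℝ, E4)) (x := Φ y)).contMDiffAt
      ((chartAt E4 (Φ y)).open_source.mem_nhds (mem_chart_source _ _))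
  refine ⟨fun x => e.symm (chartAt E4 (Φ y) x), hes, ?_, ?_, ?_⟩
  · have : ContMDiffAt 𝓘(ℝ, E4) 𝓘(ℝ, E4) ∞ e.symm (chartAt E4 (Φ y) (Φ y)) := hs.contMDiffAt
    exact this.comp (Φ y) hc
  · have c1 : ContinuousAt (fun x => e.symm (chartAt E4 (Φ y) x)) (Φ y) := by
      have : ContinuousAt e.symm (chartAt E4 (Φ y) (Φ y)) := hs.continuousAt
      exact this.comp hc.continuousAt
    have c2 : ∀ᶠ x in 𝓝 (Φ y), x ∈ (chartAt E4 (Φ y)).source :=
      (chartAt E4 (Φ y)).open_source.mem_nhds (mem_chart_source _ _)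
    have c3 : ∀ᶠ z in 𝓝 y, Φ z ∈ (chartAt E4 (Φ y)).source :=
      hΦ.continuous.continuousAt.eventually c2
    have c4 : ∀ᶠ x in 𝓝 (Φ y), Φ (e.symm (chartAt E4 (Φ y) x)) ∈ (chartAt E4 (Φ y)).source := by
      have : Tendsto (fun x => e.symm (chartAt E4 (Φ y) x)) (𝓝 (Φ y)) (𝓝 y) := by
        have := c1.tendsto
        rwa [show e.symm (chartAt E4 (Φ y) (Φ y)) = y from hes] at this
      exact this.eventually c3
    have c5 : ∀ᶠ x in 𝓝 (Φ y), chartAt E4 (Φ y) x ∈ e.target :=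
      hc.continuousAt.eventually (e.open_target.mem_nhds (e.map_source hy))
    filter_upwards [c2, c4, c5] with x h2 h4 h5
    have h6 : chartAt E4 (Φ y) (Φ (e.symm (chartAt E4 (Φ y) x))) = chartAt E4 (Φ y) x :=
      e.right_inv h5
    exact (chartAt E4 (Φ y)).injOn h4 h2 h6
  · filter_upwards [e.open_source.mem_nhds hy] with z hz
    exact e.left_inv hz

/-- a smooth immersion `E4 → M` is open. -/
theorem isOpenMap {Φ : E4 → M} (hΦ : ContMDiff 𝓘(ℝ, E4) 𝓘(ℝ, E4) ∞ Φ)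
    (himm : ∀ y v, dmap Φ y v = 0 → v = 0) : IsOpenMap Φ := by
  rw [isOpenMap_iff_nhds_le]
  intro y s hs
  obtain ⟨g, h1, h2, h3, -⟩ := exists_inv hΦ (himm y)
  have h4 : ∀ᶠ x in 𝓝 (Φ y), g x ∈ Φ ⁻¹' s := by
    have := h2.continuousAt.tendsto
    rw [h1] at this
    exact this.eventually hs
  filter_upwards [h3, h4] with x h5 h6
  rw [mem_preimage, h5] at h6
  exact h6

/-- **descent**: a function smooth after composition with `Φ` is smooth. -/
theorem smooth_at {Φ : E4 → M} (hΦ : ContMDiff 𝓘(ℝ, E4) 𝓘(ℝ, E4) ∞ Φ) {y : E4}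
    (himm : ∀ v, dmap Φ y v = 0 → v = 0) {F : M → ℝ} (hF : ContDiffAt ℝ ∞ (F ∘ Φ) y) :
    ContMDiffAt 𝓘(ℝ, E4) 𝓘(ℝ, ℝ) ∞ F (Φ y) := by
  obtain ⟨g, h1, h2, h3, -⟩ := exists_inv hΦ himm
  have h4 : ContMDiffAt 𝓘(ℝ, E4) 𝓘(ℝ, ℝ) ∞ ((F ∘ Φ) ∘ g) (Φ y) := by
    have : ContMDiffAt 𝓘(ℝ, E4) 𝓘(ℝ, ℝ) ∞ (F ∘ Φ) (g (Φ y)) := by
      rw [h1]
      exact hF.contMDiffAt
    exact this.comp (Φ y) h2
  refine h4.congr_of_eventuallyEq ?_
  filter_upwards [h3] with x h5
  simp only [comp_apply, h5]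

/-- **chain rule** for `dF` and `dmap`. -/
theorem dF_dmap {Φ : E4 → M} (hΦ : ContMDiff 𝓘(ℝ, E4) 𝓘(ℝ, E4) ∞ Φ) {y : E4} {F : M → ℝ}
    (hF : ContMDiffAt 𝓘(ℝ, E4) 𝓘(ℝ, ℝ) ∞ F (Φ y)) (v : E4) :
    at1 (dF (E := E4) F) (Φ y) (dmap Φ y v) = fderiv ℝ (F ∘ Φ) y v := by
  have h1 := loc_smooth hΦ y
  have h2 : ContDiffAt ℝ ∞ (repF (Φ y) F) (loc Φ y y) :=
    (contMDiffAt_F (mem_chart_source E4 (Φ y)) F).1 hF
  have h3 : (repF (E := E4) (Φ y) F) ∘ (loc Φ y) =ᶠ[𝓝 y] F ∘ Φ := by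
    have : ∀ᶠ z in 𝓝 y, Φ z ∈ (chartAt E4 (Φ y)).source :=
      hΦ.continuous.continuousAt.eventually
        ((chartAt E4 (Φ y)).open_source.mem_nhds (mem_chart_source _ _))
    filter_upwards [this] with z hz
    simp only [comp_apply, repF, loc, (chartAt E4 (Φ y)).left_inv hz]
  rw [← h3.fderiv_eq, fderiv_comp y (h2.differentiableAt (by simp))
    (h1.differentiableAt (by simp))]
  rfl

end Local

/-! ### coordinates -/

@[simp] lemma lv_0 (s t : ℝ) : lv s t 0 = 0 := rfl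
@[simp] lemma lv_1 (s t : ℝ) : lv s t 1 = 0 := rfl
@[simp] lemma lv_2 (s t : ℝ) : lv s t 2 = s := rfl
@[simp] lemma lv_3 (s t : ℝ) : lv s t 3 = t := rfl

lemma lv_add (s t s' t' : ℝ) : lv s t + lv s' t' = lv (s + s') (t + t') := by
  ext i
  fin_cases i <;> simp [lv]

lemma lv_neg (s t : ℝ) : lv (-s) (-t) = - lv s t := by
  ext i
  fin_cases i <;> simp [lv]

lemma lv_zero : lv 0 0 = 0 := by
  ext i
  fin_cases i <;> simp [lv]

/-- the open base square. -/
def sq (r : ℝ) : Set E4 := {y | |y 0| < r ∧ |y 1| < r}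

/-- the closed base square. -/
def csq (r : ℝ) : Set E4 := {y | |y 0| ≤ r ∧ |y 1| ≤ r}

lemma continuous_coord (i : Fin 4) : Continuous (fun y : E4 => y i) :=
  (EuclideanSpace.proj (𝕜 := ℝ) i).continuous

lemma isOpen_sq (r : ℝ) : IsOpen (sq r) :=
  (isOpen_lt (continuous_coord 0).abs continuous_const).inter
    (isOpen_lt (continuous_coord 1).abs continuous_const)

/-- a compact fundamental domain of the closed square. -/
def fd (r : ℝ) : Set E4 :=
  {y | y 0 ∈ Icc (-r) r ∧ y 1 ∈ Icc (-r) r ∧ y 2 ∈ Icc 0 1 ∧ y 3 ∈ Icc 0 1}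

lemma isCompact_fd (r : ℝ) : IsCompact (fd r) := by
  have h1 : IsCompact (Set.pi univ fun i : Fin 4 =>
      Icc ((![-r, -r, 0, 0] : Fin 4 → ℝ) i) ((![r, r, 1, 1] : Fin 4 → ℝ) i)) :=
    isCompact_univ_pi fun i => isCompact_Icc
  have h2 : fd r = (fun x : Fin 4 → ℝ => (WithLp.toLp 2 x : E4)) '' (Set.pi univ fun i : Fin 4 =>
      Icc ((![-r, -r, 0, 0] : Fin 4 → ℝ) i) ((![r, r, 1, 1] : Fin 4 → ℝ) i)) := by
    ext y
    constructor
    · rintro ⟨h0, h1, h2, h3⟩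
      refine ⟨fun i => y i, ?_, rfl⟩
      intro i _
      fin_cases i
      exacts [h0, h1, h2, h3]
    · rintro ⟨x, hx, rfl⟩
      exact ⟨hx 0 (mem_univ _), hx 1 (mem_univ _), hx 2 (mem_univ _), hx 3 (mem_univ _)⟩
  rw [h2]
  exact h1.image (PiLp.continuous_toLp 2 _)

/-! ### the bump function -/

/-- one variable bump: positive exactly on `(-2, 2)`. -/
def chi (t : ℝ) : ℝ := Real.smoothTransition (4 - t ^ 2)

lemma chi_smooth : ContDiff ℝ ∞ chi :=
  Real.smoothTransition.contDiff.comp (contDiff_const.sub (contDiff_id.pow 2))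

lemma chi_nonneg (t : ℝ) : 0 ≤ chi t := Real.smoothTransition.nonneg _

lemma chi_pos {t : ℝ} (h : |t| < 2) : 0 < chi t := by
  apply Real.smoothTransition.pos_of_pos
  have := sq_lt_sq' (by linarith [(abs_lt.1 h).1]) (abs_lt.1 h).2
  linarith

lemma chi_zero {t : ℝ} (h : 2 ≤ |t|) : chi t = 0 := by
  apply Real.smoothTransition.zero_of_nonpos
  have : 2 ^ 2 ≤ |t| ^ 2 := pow_le_pow_left₀ (by norm_num) h 2
  rw [sq_abs] at this
  linarith

/-- the bump function of the base coordinates. -/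
def psi (y : E4) : ℝ := chi (y 0) * chi (y 1)

lemma psi_smooth : ContDiff ℝ ∞ psi :=
  (chi_smooth.comp (EuclideanSpace.proj (𝕜 := ℝ) (0 : Fin 4)).contDiff).mul
    (chi_smooth.comp (EuclideanSpace.proj (𝕜 := ℝ) (1 : Fin 4)).contDiff)

lemma psi_nonneg (y : E4) : 0 ≤ psi y := mul_nonneg (chi_nonneg _) (chi_nonneg _)

lemma psi_pos {y : E4} (h : y ∈ sq 2) : 0 < psi y := mul_pos (chi_pos h.1) (chi_pos h.2)

lemma psi_ne {y : E4} (h : psi y ≠ 0) : y ∈ sq 2 := by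
  constructor
  · by_contra h1
    exact h (by rw [psi, chi_zero (not_lt.1 h1), zero_mul])
  · by_contra h1
    exact h (by rw [psi, chi_zero (not_lt.1 h1), mul_zero])

lemma psi_leaf (y : E4) (s t : ℝ) : psi (y + lv s t) = psi y := by
  simp [psi]

/-! ### one tube -/

section Tube

variable {M : Type u} [TopologicalSpace M] [T2Space M] [CompactSpace M]
  [ChartedSpace E4 M] [IsManifold 𝓘(ℝ, E4) ∞ M]
variable {w : Trip M} {f : H2 M} {Φ : E4 → M}

theorem tube_open (h : Tube w f Φ) : IsOpenMap Φ := isOpenMap h.smooth h.imm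


open Classical in
/-- the function `u ∘ Φ⁻¹` (zero off the range). -/
def push {α : Type*} [Zero α] (Φ : E4 → M) (u : E4 → α) (x : M) : α :=
  if h : ∃ y, Φ y = x then u (Classical.choose h) else 0

omit [TopologicalSpace M] [T2Space M] [CompactSpace M] [ChartedSpace E4 M]
  [IsManifold 𝓘(ℝ, E4) ∞ M] in
lemma push_off {α : Type*} [Zero α] {u : E4 → α} {x : M} (hx : x ∉ range Φ) :
    push Φ u x = 0 := by
  unfold push
  rw [dif_neg]
  exact hx

lemma push_apply {α : Type*} [Zero α] (h : Tube w f Φ) {u : E4 → α}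
    (hu : ∀ (y : E4) (m n : ℤ), u (y + lv m n) = u y) (y : E4) : push Φ u (Φ y) = u y := by
  have h1 : ∃ z, Φ z = Φ y := ⟨y, rfl⟩
  unfold push
  rw [dif_pos h1]
  obtain ⟨m, n, h2⟩ := h.inj _ _ (Classical.choose_spec h1)
  have h3 : u y = u (Classical.choose h1) := by
    conv_lhs => rw [h2]
    exact hu _ m n
  exact h3.symm

/-- smoothness of `u ∘ Φ⁻¹` on the range. -/
theorem push_smooth (h : Tube w f Φ) {u : E4 → ℝ}
    (hu : ∀ (y : E4) (m n : ℤ), u (y + lv m n) = u y) (hs : ContDiff ℝ ∞ u) {x : M}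
    (hx : x ∈ range Φ) : ContMDiffAt 𝓘(ℝ, E4) 𝓘(ℝ, ℝ) ∞ (push Φ u) x := by
  obtain ⟨y, rfl⟩ := hx
  refine smooth_at h.smooth (h.imm y) ?_
  have : push Φ u ∘ Φ = u := funext fun z => push_apply h hu z
  rw [this]
  exact hs.contDiffAt

/-- the closed tube. -/
def KT (Φ : E4 → M) : Set M := Φ '' csq 2

omit [TopologicalSpace M] [T2Space M] [CompactSpace M] [ChartedSpace E4 M]
  [IsManifold 𝓘(ℝ, E4) ∞ M] in
lemma KT_sub : KT Φ ⊆ range Φ := image_subset_range _ _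

lemma KT_eq (h : Tube w f Φ) : KT Φ = Φ '' fd 2 := by
  apply Subset.antisymm
  · rintro x ⟨y, ⟨h1, h2⟩, rfl⟩
    refine ⟨y + lv ((-⌊y 2⌋ : ℤ) : ℝ) ((-⌊y 3⌋ : ℤ) : ℝ), ?_, h.per y _ _⟩
    refine ⟨?_, ?_, ?_, ?_⟩
    · simpa using abs_le.1 h1
    · simpa using abs_le.1 h2
    · simp only [PiLp.add_apply, lv_2, Int.cast_neg]
      constructor
      · linarith [Int.floor_le (y 2)]
      · linarith [Int.lt_floor_add_one (y 2)]
    · simp only [PiLp.add_apply, lv_3, Int.cast_neg]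
      constructor
      · linarith [Int.floor_le (y 3)]
      · linarith [Int.lt_floor_add_one (y 3)]
  · rintro x ⟨y, ⟨h1, h2, -, -⟩, rfl⟩
    exact ⟨y, ⟨abs_le.2 h1, abs_le.2 h2⟩, rfl⟩

lemma KT_closed (h : Tube w f Φ) : IsClosed (KT Φ) := by
  rw [KT_eq h]
  exact ((isCompact_fd 2).image h.smooth.continuous).isClosed

/-- smoothness of a function supported in a closed tube. -/
theorem smoothF_of (h : Tube w f Φ) {F : M → ℝ}
    (h1 : ∀ x ∈ range Φ, ContMDiffAt 𝓘(ℝ, E4) 𝓘(ℝ, ℝ) ∞ F x) (h2 : ∀ x, x ∉ KT Φ → F x = 0) :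
    ContMDiff 𝓘(ℝ, E4) 𝓘(ℝ, ℝ) ∞ F := by
  intro x
  by_cases hx : x ∈ KT Φ
  · exact h1 x (KT_sub hx)
  · have h3 : F =ᶠ[𝓝 x] fun _ => (0 : ℝ) := by
      filter_upwards [(KT_closed h).isOpen_compl.mem_nhds hx] with z hz
      exact h2 z hz
    exact contMDiffAt_const.congr_of_eventuallyEq h3

/-- the leafwise constant bump of a tube. -/
def bet (Φ : E4 → M) : M → ℝ := push Φ psi

lemma bet_apply (h : Tube w f Φ) (y : E4) : bet Φ (Φ y) = psi y :=
  push_apply h (fun y m n => psi_leaf y m n) y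

omit [TopologicalSpace M] [T2Space M] [CompactSpace M] [ChartedSpace E4 M]
  [IsManifold 𝓘(ℝ, E4) ∞ M] in
lemma bet_nonneg (x : M) : 0 ≤ bet Φ x := by
  unfold bet push
  split_ifs
  · exact psi_nonneg _
  · exact le_rfl

lemma bet_ne (h : Tube w f Φ) {x : M} (hx : bet Φ x ≠ 0) : x ∈ Φ '' sq 2 := by
  by_cases h1 : x ∈ range Φ
  · obtain ⟨y, rfl⟩ := h1
    rw [bet_apply h] at hx
    exact ⟨y, psi_ne hx, rfl⟩
  · exact absurd (push_off h1) hx

lemma sq_sub_csq : sq 2 ⊆ csq 2 := fun _ hy => ⟨hy.1.le, hy.2.le⟩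

lemma bet_off (h : Tube w f Φ) {x : M} (hx : x ∉ KT Φ) : bet Φ x = 0 := by
  by_contra h1
  exact hx (image_mono sq_sub_csq (bet_ne h h1))

theorem bet_smooth (h : Tube w f Φ) : ContMDiff 𝓘(ℝ, E4) 𝓘(ℝ, ℝ) ∞ (bet Φ) :=
  smoothF_of h (fun _ hx => push_smooth h (fun y m n => psi_leaf y m n) psi_smooth hx)
    (fun _ hx => bet_off h hx)

end Tube

/-! ### the foliation -/

section Atlas

variable {M : Type u} [TopologicalSpace M] [T2Space M] [CompactSpace M]
  [ChartedSpace E4 M] [IsManifold 𝓘(ℝ, E4) ∞ M]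
variable {w : Trip M} {f : H2 M} {T : Set (E4 → M)} {Φ Ψ : E4 → M}

omit [TopologicalSpace M] [T2Space M] [CompactSpace M] [ChartedSpace E4 M]
  [IsManifold 𝓘(ℝ, E4) ∞ M] in
lemma mem_slice (Φ : E4 → M) (y : E4) (s t : ℝ) : Φ (y + lv s t) ∈ range (slice Φ y) :=
  ⟨WithLp.toLp 2 ![s, t], rfl⟩

omit [TopologicalSpace M] [T2Space M] [CompactSpace M] [ChartedSpace E4 M]
  [IsManifold 𝓘(ℝ, E4) ∞ M] in
lemma slice_mem {Φ : E4 → M} {y : E4} {x : M} (h : x ∈ range (slice Φ y)) :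
    ∃ s t : ℝ, Φ (y + lv s t) = x := by
  obtain ⟨q, rfl⟩ := h
  exact ⟨q 0, q 1, rfl⟩

/-- leaves go to leaves. -/
theorem leaf_of (h : TAtlas w f T) (hΦ : Φ ∈ T) (hΨ : Ψ ∈ T) {y z : E4} (hyz : Φ y = Ψ z)
    (s t : ℝ) : ∃ s' t' : ℝ, Ψ (z + lv s t) = Φ (y + lv s' t') := by
  have h1 := mem_slice Ψ z s t
  rw [← h.cons Φ hΦ Ψ hΨ y z hyz] at h1
  obtain ⟨s', t', h2⟩ := slice_mem h1
  exact ⟨s', t', h2.symm⟩

/-- the leaf of a point of the range stays in the range. -/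
theorem range_leaf (h : TAtlas w f T) (hΦ : Φ ∈ T) (hΨ : Ψ ∈ T) (z : E4) (s t : ℝ) :
    Ψ (z + lv s t) ∈ range Φ ↔ Ψ z ∈ range Φ := by
  constructor
  · rintro ⟨y, hy⟩
    obtain ⟨s', t', h1⟩ := leaf_of h hΦ hΨ hy (-s) (-t)
    rw [lv_neg, add_neg_cancel_right] at h1
    exact ⟨_, h1.symm⟩
  · rintro ⟨y, hy⟩
    obtain ⟨s', t', h1⟩ := leaf_of h hΦ hΨ hy s t
    exact ⟨_, h1.symm⟩

/-- a function of the base coordinates is constant on the leaves. -/
theorem push_leaf {α : Type*} [Zero α] (h : TAtlas w f T) (hΦ : Φ ∈ T) (hΨ : Ψ ∈ T)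
    {u : E4 → α} (hu : ∀ (y : E4) (s t : ℝ), u (y + lv s t) = u y) (z : E4) (s t : ℝ) :
    push Φ u (Ψ (z + lv s t)) = push Φ u (Ψ z) := by
  by_cases hz : Ψ z ∈ range Φ
  · obtain ⟨y, hy⟩ := hz
    obtain ⟨s', t', h1⟩ := leaf_of h hΦ hΨ hy s t
    have hp := h.tube Φ hΦ
    rw [h1, ← hy, push_apply hp (fun y m n => hu y m n), push_apply hp (fun y m n => hu y m n),
      hu]
  · rw [push_off hz, push_off (fun h1 => hz ((range_leaf h hΦ hΨ z s t).1 h1))]




theorem bet_leaf (h : TAtlas w f T) (hΦ : Φ ∈ T) (hΨ : Ψ ∈ T) (z : E4) (s t : ℝ) :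
    bet Φ (Ψ (z + lv s t)) = bet Φ (Ψ z) :=
  push_leaf h hΦ hΨ psi_leaf z s t

/-- a leafwise constant partition of unity, subordinate to tubes of `T`. -/
structure LPart (T : Set (E4 → M)) {n : ℕ} (Φ : Fin n → E4 → M) (ρ : Fin n → M → ℝ) : Prop where
  mem : ∀ i, Φ i ∈ T
  smooth : ∀ i, SmoothF E4 (ρ i)
  nonneg : ∀ i x, 0 ≤ ρ i x
  sum : ∀ x, ∑ i, ρ i x = 1
  supp : ∀ i x, ρ i x ≠ 0 → x ∈ Φ i '' sq 2
  leaf : ∀ i, ∀ Ψ ∈ T, ∀ (y : E4) (s t : ℝ), ρ i (Ψ (y + lv s t)) = ρ i (Ψ y)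

/-- **leafwise constant partition of unity.** -/
theorem exists_part (h : TAtlas w f T) :
    ∃ (n : ℕ) (Φ : Fin n → E4 → M) (ρ : Fin n → M → ℝ), LPart T Φ ρ := by
  classical
  choose P hPT hP0 using h.cover
  have hU : ∀ x, P x '' sq 2 ∈ 𝓝 x := by
    intro x
    have h1 : IsOpen (P x '' sq 2) := tube_open (h.tube _ (hPT x)) _ (isOpen_sq 2)
    exact h1.mem_nhds ⟨0, by simp [sq], hP0 x⟩
  obtain ⟨t, -, ht⟩ := isCompact_univ.elim_nhds_subcover (fun x => P x '' sq 2)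
    (fun x _ => hU x)
  let e : Fin t.card ≃ t := t.equivFin.symm
  let Φ : Fin t.card → E4 → M := fun i => P (e i)
  have hT : ∀ i, Φ i ∈ T := fun i => hPT _
  let S : M → ℝ := fun x => ∑ i, bet (Φ i) x
  have hS : ∀ x, 0 < S x := by
    intro x
    have h1 := ht (mem_univ x)
    simp only [mem_iUnion] at h1
    obtain ⟨p, hp, y, hy, hx⟩ := h1
    have h2 : ∃ i, Φ i = P p := ⟨e.symm ⟨p, hp⟩, by simp [Φ]⟩
    obtain ⟨i, hi⟩ := h2
    have h3 : 0 < bet (Φ i) x := by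
      rw [hi, ← hx, bet_apply (h.tube _ (hPT p))]
      exact psi_pos hy
    exact lt_of_lt_of_le h3 (Finset.single_le_sum (f := fun i => bet (Φ i) x)
      (fun j _ => bet_nonneg x) (Finset.mem_univ i))
  have hSs : ContMDiff 𝓘(ℝ, E4) 𝓘(ℝ, ℝ) ∞ S :=
    contMDiff_finsetSum fun i _ => bet_smooth (h.tube _ (hT i))
  refine ⟨t.card, Φ, fun i x => bet (Φ i) x / S x, ⟨hT, ?_, ?_, ?_, ?_, ?_⟩⟩
  · intro i p
    have h1 := (smoothF_iff _).1 (bet_smooth (h.tube _ (hT i))) p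
    have h2 := (smoothF_iff _).1 hSs p
    exact h1.div h2 fun y _ => (hS _).ne'
  · intro i x
    exact div_nonneg (bet_nonneg x) (hS x).le
  · intro x
    rw [← Finset.sum_div]
    exact div_self (hS x).ne'
  · intro i x hx
    exact bet_ne (h.tube _ (hT i)) fun h0 => hx (by simp only [h0, zero_div])
  · intro i Ψ hΨ y s t
    have h1 : ∀ j, bet (Φ j) (Ψ (y + lv s t)) = bet (Φ j) (Ψ y) := fun j =>
      bet_leaf h (hT j) hΨ y s t
    simp only [S, h1]

variable {n : ℕ} {Φs : Fin n → E4 → M} {ρ : Fin n → M → ℝ}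

omit [T2Space M] [CompactSpace M] [IsManifold 𝓘(ℝ, E4) ∞ M] in
/-- the supports are in the closed tubes. -/
theorem LPart.off (hρ : LPart T Φs ρ) {i : Fin n} {x : M} (hx : x ∉ KT (Φs i)) : ρ i x = 0 := by
  by_contra h1
  exact hx (image_mono sq_sub_csq (hρ.supp i x h1))


omit [T2Space M] [CompactSpace M] in
/-- the differential of a function constant on the leaf vanishes along the leaf. -/
theorem dleaf_of {Ψ : E4 → M} (hΨs : ContMDiff 𝓘(ℝ, E4) 𝓘(ℝ, E4) ∞ Ψ) {F : M → ℝ} {y : E4}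
    (h1 : ContMDiffAt 𝓘(ℝ, E4) 𝓘(ℝ, ℝ) ∞ F (Ψ y))
    (hc : ∀ s t : ℝ, F (Ψ (y + lv s t)) = F (Ψ y)) (s t : ℝ) :
    at1 (dF (E := E4) F) (Ψ y) (dmap Ψ y (lv s t)) = 0 := by
  rw [dF_dmap hΨs h1]
  have h2 : DifferentiableAt ℝ (F ∘ Ψ) y :=
    ((h1.comp y hΨs.contMDiffAt).contDiffAt).differentiableAt (by simp)
  have h3 : HasDerivAt (fun r : ℝ => y + r • lv s t) (lv s t) 0 := by
    simpa using ((hasDerivAt_id (0 : ℝ)).smul_const (lv s t)).const_add y
  have h4 : HasDerivAt (fun r : ℝ => (F ∘ Ψ) (y + r • lv s t))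
      (fderiv ℝ (F ∘ Ψ) y (lv s t)) 0 := by
    have h5 : HasFDerivAt (F ∘ Ψ) (fderiv ℝ (F ∘ Ψ) y) (y + (0 : ℝ) • lv s t) := by
      rw [zero_smul, add_zero]
      exact h2.hasFDerivAt
    exact h5.comp_hasDerivAt (0 : ℝ) h3
  have h6 : (fun r : ℝ => (F ∘ Ψ) (y + r • lv s t)) = fun _ => F (Ψ y) := by
    funext r
    have h7 : r • lv s t = lv (r * s) (r * t) := by
      ext j
      fin_cases j <;> simp [lv]
    rw [h7]
    exact hc _ _
  rw [h6] at h4
  exact h4.unique (hasDerivAt_const _ _)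

/-- the differential of `ρ i` vanishes along the leaves. -/
theorem LPart.dleaf (h : TAtlas w f T) (hρ : LPart T Φs ρ) (i : Fin n) {Ψ : E4 → M} (hΨ : Ψ ∈ T)
    (y : E4) (s t : ℝ) : at1 (dF (E := E4) (ρ i)) (Ψ y) (dmap Ψ y (lv s t)) = 0 :=
  dleaf_of (h.tube Ψ hΨ).smooth ((smoothF_iff _).2 (hρ.smooth i)).contMDiffAt
    (hρ.leaf i Ψ hΨ y) s t

/-- the coordinates in the tube `Φ` of a vector at `Ψ y`. -/
theorem exists_coord (h : TAtlas w f T) (hΦ : Φ ∈ T) (x : E4) (z : E4) :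
    ∃ v' : E4, dmap Φ z v' = x := by
  have hp := h.tube Φ hΦ
  have hinj : Injective (fderiv ℝ (loc Φ z) z : E4 → E4) :=
    (injective_iff_map_eq_zero (fderiv ℝ (loc Φ z) z)).2 (hp.imm z)
  have hsur : Surjective (fderiv ℝ (loc Φ z) z : E4 →ₗ[ℝ] E4) :=
    LinearMap.injective_iff_surjective.1 hinj
  obtain ⟨v', h1⟩ := hsur x
  exact ⟨v', h1⟩

lemma eq_lv {v : E4} (h0 : v 0 = 0) (h1 : v 1 = 0) : v = lv (v 2) (v 3) := by
  ext i
  fin_cases i
  · simpa [lv] using h0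
  · simpa [lv] using h1
  · simp [lv]
  · simp [lv]

/-- **a leaf vector of `Ψ` is a leaf vector of `Φ`** (hence `glue_d` needs only leaf
derivatives). -/
theorem exists_coord_leaf (h : TAtlas w f T) (hΦ : Φ ∈ T) (hΨ : Ψ ∈ T) {y z : E4}
    (hyz : Φ z = Ψ y) (s t : ℝ) :
    ∃ s' t' : ℝ, dmap Φ z (lv s' t') = dmap Ψ y (lv s t) := by
  obtain ⟨v', h1⟩ := exists_coord h hΦ (dmap Ψ y (lv s t)) z
  have hp := h.tube Φ hΦ
  have key : ∀ i : Fin 4, (∀ s t : ℝ, lv s t i = 0) → v' i = 0 := by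
    intro i hi
    have hu : ∀ (y : E4) (s t : ℝ), (fun y : E4 => y i) (y + lv s t) = (fun y : E4 => y i) y := by
      intro y s t
      simp [hi]
    have hs : ContDiff ℝ ∞ (fun y : E4 => y i) := (EuclideanSpace.proj (𝕜 := ℝ) i).contDiff
    have c1 : ContMDiffAt 𝓘(ℝ, E4) 𝓘(ℝ, ℝ) ∞ (push Φ fun y : E4 => y i) (Φ z) :=
      push_smooth hp (fun y m n => hu y m n) hs ⟨z, rfl⟩
    have c2 : ContMDiffAt 𝓘(ℝ, E4) 𝓘(ℝ, ℝ) ∞ (push Φ fun y : E4 => y i) (Ψ y) := by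
      rwa [← hyz]
    have c3 := dleaf_of (h.tube Ψ hΨ).smooth c2 (fun s t => push_leaf h hΦ hΨ hu y s t) s t
    rw [← h1, ← hyz, dF_dmap hp.smooth c1] at c3
    have c4 : (push Φ fun y : E4 => y i) ∘ Φ = fun y : E4 => y i :=
      funext fun x => push_apply hp (fun y m n => hu y m n) x
    have c5 : fderiv ℝ (fun y : E4 => y i) z v' = v' i := by
      have : HasFDerivAt (fun y : E4 => y i) (EuclideanSpace.proj (𝕜 := ℝ) i) z :=
        (EuclideanSpace.proj (𝕜 := ℝ) i).hasFDerivAt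
      rw [this.fderiv]
      rfl
    rw [c4, c5] at c3
    exact c3
  refine ⟨v' 2, v' 3, ?_⟩
  rw [← eq_lv (key 0 fun _ _ => rfl) (key 1 fun _ _ => rfl)]
  exact h1

/-! ### gluing -/

/-- the glued function `Σ ρ_i (u_i ∘ Φ_i⁻¹)`. -/
def glue (Φs : Fin n → E4 → M) (ρ : Fin n → M → ℝ) (u : Fin n → E4 → ℝ) (x : M) : ℝ :=
  ∑ i, ρ i x * push (Φs i) (u i) x

theorem term_smooth (h : TAtlas w f T) (hρ : LPart T Φs ρ) {i : Fin n} {u : E4 → ℝ}
    (hu : ∀ (y : E4) (a b : ℤ), u (y + lv a b) = u y) (hs : ContDiff ℝ ∞ u) :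
    ContMDiff 𝓘(ℝ, E4) 𝓘(ℝ, ℝ) ∞ fun x => ρ i x * push (Φs i) u x := by
  have hi := h.tube _ (hρ.mem i)
  refine smoothF_of hi (fun x hx => ?_) (fun x hx => by rw [hρ.off hx, zero_mul])
  exact (((smoothF_iff _).2 (hρ.smooth i)).contMDiffAt).mul (push_smooth hi hu hs hx)

/-- **the glued function is smooth.** -/
theorem glue_smooth (h : TAtlas w f T) (hρ : LPart T Φs ρ) {u : Fin n → E4 → ℝ}
    (hu : ∀ (i : Fin n) (y : E4) (a b : ℤ), u i (y + lv a b) = u i y)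
    (hs : ∀ i, ContDiff ℝ ∞ (u i)) : SmoothF E4 (glue Φs ρ u) :=
  (smoothF_iff _).1 (contMDiff_finsetSum fun i _ => term_smooth h hρ (hu i) (hs i))

/-- derivative of one term along a leaf. -/
theorem term_d (h : TAtlas w f T) (hρ : LPart T Φs ρ) {i : Fin n} {u : E4 → ℝ}
    (hu : ∀ (y : E4) (a b : ℤ), u (y + lv a b) = u y) (hs : ContDiff ℝ ∞ u) {Ψ : E4 → M}
    (hΨ : Ψ ∈ T) {y z v' : E4} {s t : ℝ}
    (hz : Ψ y ∈ range (Φs i) → Φs i z = Ψ y ∧ dmap (Φs i) z v' = dmap Ψ y (lv s t)) :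
    fderiv ℝ ((fun x => ρ i x * push (Φs i) u x) ∘ Ψ) y (lv s t)
      = ρ i (Ψ y) * fderiv ℝ u z v' := by
  have hi := h.tube _ (hρ.mem i)
  have hΨs := (h.tube Ψ hΨ).smooth
  by_cases hy : Ψ y ∈ range (Φs i)
  · obtain ⟨h1, h2⟩ := hz hy
    have p1 : ContMDiffAt 𝓘(ℝ, E4) 𝓘(ℝ, ℝ) ∞ (push (Φs i) u) (Ψ y) := push_smooth hi hu hs hy
    have r1 : ContMDiff 𝓘(ℝ, E4) 𝓘(ℝ, ℝ) ∞ (ρ i) := (smoothF_iff _).2 (hρ.smooth i)
    have p2 : DifferentiableAt ℝ (push (Φs i) u ∘ Ψ) y :=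
      ((p1.comp y hΨs.contMDiffAt).contDiffAt).differentiableAt (by simp)
    have r2 : DifferentiableAt ℝ (ρ i ∘ Ψ) y :=
      ((r1.contMDiffAt.comp y hΨs.contMDiffAt).contDiffAt).differentiableAt (by simp)
    have e1 : ((fun x => ρ i x * push (Φs i) u x) ∘ Ψ)
        = fun x => (ρ i ∘ Ψ) x * (push (Φs i) u ∘ Ψ) x := rfl
    have e2 : fderiv ℝ (ρ i ∘ Ψ) y (lv s t) = 0 := by
      rw [← dF_dmap hΨs r1.contMDiffAt]
      exact hρ.dleaf h i hΨ y s t
    have e3 : fderiv ℝ (push (Φs i) u ∘ Ψ) y (lv s t) = fderiv ℝ u z v' := by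
      have p3 : ContMDiffAt 𝓘(ℝ, E4) 𝓘(ℝ, ℝ) ∞ (push (Φs i) u) (Φs i z) := by rwa [h1]
      have p4 := dF_dmap hi.smooth p3 v'
      have p5 : push (Φs i) u ∘ Φs i = u := funext fun z => push_apply hi hu z
      rw [p5, h2, h1] at p4
      rw [← dF_dmap hΨs p1, p4]
    rw [e1, fderiv_fun_mul r2 p2]
    simp only [_root_.add_apply, _root_.smul_apply, smul_eq_mul, e2, e3, mul_zero, add_zero,
      comp_apply]
  · have h1 : Ψ y ∉ KT (Φs i) := fun h2 => hy (KT_sub h2)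
    have h2 : ((fun x => ρ i x * push (Φs i) u x) ∘ Ψ) =ᶠ[𝓝 y] fun _ => (0 : ℝ) := by
      have h3 : ∀ᶠ x in 𝓝 (Ψ y), x ∉ KT (Φs i) := (KT_closed hi).isOpen_compl.mem_nhds h1
      filter_upwards [hΨs.continuous.continuousAt.eventually h3] with x hx
      simp only [comp_apply, hρ.off hx, zero_mul]
    rw [h2.fderiv_eq, hρ.off h1]
    simp

/-- **derivative of the glued function along the leaves**: `z i`, `v' i` are the coordinates of
the point and of the vector in the tube `Φ_i` (where it matters). -/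
theorem glue_d (h : TAtlas w f T) (hρ : LPart T Φs ρ) {u : Fin n → E4 → ℝ}
    (hu : ∀ (i : Fin n) (y : E4) (a b : ℤ), u i (y + lv a b) = u i y)
    (hs : ∀ i, ContDiff ℝ ∞ (u i)) {Ψ : E4 → M} (hΨ : Ψ ∈ T) {y : E4} {s t : ℝ}
    {z v' : Fin n → E4} (hz : ∀ i, Ψ y ∈ range (Φs i) →
      Φs i (z i) = Ψ y ∧ dmap (Φs i) (z i) (v' i) = dmap Ψ y (lv s t)) :
    at1 (dF (E := E4) (glue Φs ρ u)) (Ψ y) (dmap Ψ y (lv s t))
      = ∑ i, ρ i (Ψ y) * fderiv ℝ (u i) (z i) (v' i) := by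
  have hg : ContMDiff 𝓘(ℝ, E4) 𝓘(ℝ, ℝ) ∞ (glue Φs ρ u) :=
    (smoothF_iff _).2 (glue_smooth h hρ hu hs)
  have hΨs := (h.tube Ψ hΨ).smooth
  rw [dF_dmap hΨs hg.contMDiffAt]
  have e1 : glue Φs ρ u ∘ Ψ
      = fun x => ∑ i, ((fun x => ρ i x * push (Φs i) (u i) x) ∘ Ψ) x := rfl
  have e2 : ∀ i, DifferentiableAt ℝ ((fun x => ρ i x * push (Φs i) (u i) x) ∘ Ψ) y := by
    intro i
    have h1 : ContMDiff 𝓘(ℝ, E4) 𝓘(ℝ, ℝ) ∞ ((fun x => ρ i x * push (Φs i) (u i) x) ∘ Ψ) :=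
      (term_smooth h hρ (hu i) (hs i)).comp hΨs
    exact (h1.contDiff.differentiable (by simp)) y
  rw [e1, fderiv_fun_sum (fun i _ => e2 i), _root_.sum_apply]
  exact Finset.sum_congr rfl fun i _ => term_d h hρ (hu i) (hs i) hΨ (hz i)

end Atlas

end

end Crest.Agent.R235.TorCut_649
end

-- ▼ part R235/FibCo_129
section

/-!
Row 235 (S0364), package TOR / A2 (helper129): the closed coframe of a foliation by tori.
-/

set_option autoImplicit false
set_option maxSynthPendingDepth 3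
set_option linter.unusedSectionVars false

open Set Function Filter MeasureTheory
open scoped Manifold ContDiff Topology

universe u

namespace Crest.Agent.R235.FibCo_129

open Crest.Agent.R240 Crest.Agent.R240.Ch Crest.Agent.R235.Pull_129 Crest.Agent.R235.FibTr_129
  Crest.Agent.R235.FibPer_129 Crest.Agent.R235.FibFlux_129 Crest.Agent.R235.FibUniq_129

noncomputable section

/-! ### linear algebra -/

/-- a two-form with non-zero square is nondegenerate. -/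
lemma nondeg {b : Bil} (hb : Alt b) (hW : W b b ≠ 0) {t : E4} (h : ∀ v, b v t = 0) : t = 0 := by
  have hr : ∀ i, ent b i 0 * t 0 + ent b i 1 * t 1 + ent b i 2 * t 2 + ent b i 3 * t 3 = 0 := by
    intro i
    have h1 := h (ee i)
    rw [sum_ee t] at h1
    simp only [map_add, map_smul, smul_eq_mul] at h1
    unfold ent
    linarith
  have h0 := hr 0
  have h1 := hr 1
  have h2 := hr 2
  have h3 := hr 3
  rw [hb.ent_self] at h0 h1 h2 h3
  rw [hb.ent_swap 1 0] at h1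
  rw [hb.ent_swap 2 0, hb.ent_swap 2 1] at h2
  rw [hb.ent_swap 3 0, hb.ent_swap 3 1, hb.ent_swap 3 2] at h3
  have hW2 : W b b = 2 * (ent b 0 1 * ent b 2 3 - ent b 0 2 * ent b 1 3 + ent b 0 3 * ent b 1 2) := by
    unfold W; ring
  have hP : ent b 0 1 * ent b 2 3 - ent b 0 2 * ent b 1 3 + ent b 0 3 * ent b 1 2 ≠ 0 := by
    intro h; apply hW; rw [hW2, h, mul_zero]
  have k0 : (ent b 0 1 * ent b 2 3 - ent b 0 2 * ent b 1 3 + ent b 0 3 * ent b 1 2) * t 0 = 0 := by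
    linear_combination (-ent b 2 3) * h1 + (ent b 1 3) * h2 - (ent b 1 2) * h3
  have k1 : (ent b 0 1 * ent b 2 3 - ent b 0 2 * ent b 1 3 + ent b 0 3 * ent b 1 2) * t 1 = 0 := by
    linear_combination (ent b 2 3) * h0 - (ent b 0 3) * h2 + (ent b 0 2) * h3
  have k2 : (ent b 0 1 * ent b 2 3 - ent b 0 2 * ent b 1 3 + ent b 0 3 * ent b 1 2) * t 2 = 0 := by
    linear_combination (-ent b 1 3) * h0 + (ent b 0 3) * h1 - (ent b 0 1) * h3
  have k3 : (ent b 0 1 * ent b 2 3 - ent b 0 2 * ent b 1 3 + ent b 0 3 * ent b 1 2) * t 3 = 0 := by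
    linear_combination (ent b 1 2) * h0 - (ent b 0 2) * h1 + (ent b 0 1) * h2
  exact ext4 ((mul_eq_zero.1 k0).resolve_left hP) ((mul_eq_zero.1 k1).resolve_left hP)
    ((mul_eq_zero.1 k2).resolve_left hP) ((mul_eq_zero.1 k3).resolve_left hP)

/-- the form of `w 1` from its contraction with the leaf. -/
lemma form_w1 {l0 l1 a0 a1 : E4 →L[ℝ] ℝ} {b : Bil} (hb : Alt b)
    (hind : ∀ v, l0 v = 0 → l1 v = 0 → a0 v = 0 → a1 v = 0 → v = 0)
    (h : ∀ v t, l0 t = 0 → l1 t = 0 → b v t = -(l0 v * a0 t + l1 v * a1 t)) :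
    ∃ m : ℝ, b = wed a0 l0 + wed a1 l1 + m • wed l0 l1 := by
  have hdel : FibLin_129.del l0 l1 a0 a1 ≠ 0 := by
    rw [FibLin_129.del_eq]
    have hker : (FibLin_129.cof l0 l1 a0 a1 : E4 →ₗ[ℝ] E4).ker = ⊥ := by
      rw [LinearMap.ker_eq_bot']
      intro v hv
      have hv' : FibLin_129.cof l0 l1 a0 a1 v = 0 := hv
      have e0 := FibLin_129.cof_0 (l0 := l0) (l1 := l1) (a0 := a0) (a1 := a1) v
      have e1 := FibLin_129.cof_1 (l0 := l0) (l1 := l1) (a0 := a0) (a1 := a1) v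
      have e2 := FibLin_129.cof_2 (l0 := l0) (l1 := l1) (a0 := a0) (a1 := a1) v
      have e3 := FibLin_129.cof_3 (l0 := l0) (l1 := l1) (a0 := a0) (a1 := a1) v
      rw [hv'] at e0 e1 e2 e3
      exact hind v e0.symm e1.symm e2.symm e3.symm
    have hu : IsUnit (FibLin_129.cof l0 l1 a0 a1 : E4 →ₗ[ℝ] E4) :=
      (LinearMap.isUnit_iff_ker_eq_bot _).2 hker
    exact ((LinearMap.isUnit_iff_isUnit_det _).1 hu).ne_zero
  obtain ⟨B, hB1, hB2⟩ := FibLin_129.exists_frame hdel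
  obtain ⟨p, q, r, s, m, k, hk⟩ := FibLin_129.expand6 hdel hb
  have c0 : ∀ i, l0 (B (ee i)) = ee i 0 := fun i => by
    rw [← FibLin_129.cof_0 (l0 := l0) (l1 := l1) (a0 := a0) (a1 := a1), hB1]
  have c1 : ∀ i, l1 (B (ee i)) = ee i 1 := fun i => by
    rw [← FibLin_129.cof_1 (l0 := l0) (l1 := l1) (a0 := a0) (a1 := a1), hB1]
  have c2 : ∀ i, a0 (B (ee i)) = ee i 2 := fun i => by
    rw [← FibLin_129.cof_2 (l0 := l0) (l1 := l1) (a0 := a0) (a1 := a1), hB1]
  have c3 : ∀ i, a1 (B (ee i)) = ee i 3 := fun i => by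
    rw [← FibLin_129.cof_3 (l0 := l0) (l1 := l1) (a0 := a0) (a1 := a1), hB1]
  have key : ∀ i j : Fin 4, ee j 0 = 0 → ee j 1 = 0 →
      p * (ee i 2 * ee j 0 - ee j 2 * ee i 0) + q * (ee i 2 * ee j 1 - ee j 2 * ee i 1)
        + r * (ee i 3 * ee j 0 - ee j 3 * ee i 0) + s * (ee i 3 * ee j 1 - ee j 3 * ee i 1)
        + m * (ee i 0 * ee j 1 - ee j 0 * ee i 1) + k * (ee i 2 * ee j 3 - ee j 2 * ee i 3) =
      -(ee i 0 * ee j 2 + ee i 1 * ee j 3) := by
    intro i j h0 h1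
    have e1 := h (B (ee i)) (B (ee j)) (by rw [c0, h0]) (by rw [c1, h1])
    rw [hk] at e1
    simp only [add_apply, smul_apply, wed_apply, smul_eq_mul, c0, c1, c2, c3] at e1
    linarith
  have k02 := key 0 2 (by simp) (by simp)
  have k12 := key 1 2 (by simp) (by simp)
  have k32 := key 3 2 (by simp) (by simp)
  have k03 := key 0 3 (by simp) (by simp)
  have k13 := key 1 3 (by simp) (by simp)
  simp only [ee_apply, Fin.isValue, Fin.reduceEq, if_true, if_false] at k02 k12 k32 k03 k13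
  have hp : p = 1 := by linarith
  have hq : q = 0 := by linarith
  have hr : r = 0 := by linarith
  have hs : s = 1 := by linarith
  have hkk : k = 0 := by linarith
  refine ⟨m, ?_⟩
  rw [hk, hp, hq, hr, hs, hkk]
  simp only [one_smul, zero_smul, add_zero]

/-! ### the coframe from flux data -/

section Man

variable {M : Type u} [TopologicalSpace M] [T2Space M] [CompactSpace M]
  [ChartedSpace E4 M] [IsManifold 𝓘(ℝ, E4) ∞ M]

variable {w : Trip M} {f : H2 M} {Φ Ψ : E4 → M} {T : Set (E4 → M)} {g : Fin 2 → F1 E4 M}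

/-- the properties of the global flux forms and of the leaf forms. -/
structure LA (w : Trip M) (T : Set (E4 → M)) (g l a : Fin 2 → F1 E4 M) : Prop where
  cl : ∀ k, Closed1 (l k)
  ca : ∀ k, Closed1 (a k)
  flux : ∀ Φ ∈ T, ∃ u, Flux w g Φ (fun k => pb1 Φ (l k)) u
  eq : ∀ Φ ∈ T, ∀ (y v : E4) (s t : ℝ), pb2 Φ ((w 1).1.1 : F2 E4 M) y v (lv s t) =
    - ∑ k, pb1 Φ (l k) y v * pb1 Φ (a k) y (lv s t)

/-- the inverse differential. -/
lemma exists_Dinv (hΦ : Tube w f Φ) (y : E4) : ∃ B : E4 →L[ℝ] E4,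
    (∀ v, dL (E := E4) Φ y (B v) = v) ∧ ∀ v, B (dL (E := E4) Φ y v) = v := by
  let e : E4 ≃L[ℝ] E4 := ContinuousLinearEquiv.ofBijective (dL (E := E4) Φ y)
    (LinearMap.ker_eq_bot.2 (tube_bij hΦ y).1) (LinearMap.range_eq_top.2 (tube_bij hΦ y).2)
  exact ⟨e.symm, fun v => e.apply_symm_apply v, fun v => e.symm_apply_apply v⟩

set_option maxHeartbeats 1000000 in
theorem exists_la (hw : Pos3 w) (hT : TAtlas w f T) (hg : ∀ k, Closed1 (g k))
    (hne : ∀ Φ ∈ T, ∀ y, torI (slice Φ y) (wedG (g 0) (g 1)) ≠ 0) :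
    ∃ l a : Fin 2 → F1 E4 M, LA w T g l a := by
  classical
  have hfl : ∀ Φ ∈ T, ∃ (L : Fin 2 → E4 → E4 →L[ℝ] ℝ) (u : Fin 2 → E4 → ℝ), Flux w g Φ L u :=
    fun Φ hΦ => exists_flux hw (hT.tube Φ hΦ) hg (hne Φ hΦ)
  choose! L u hF using hfl
  choose C hCT hC0 using hT.cover
  choose B hB1 hB2 using fun x => exists_Dinv (hT.tube _ (hCT x)) 0
  let l : Fin 2 → F1 E4 M := fun k x => ((L (C x) k 0).comp (B x) : E4 →L[ℝ] ℝ)
  -- the pull-backs
  have pl : ∀ Φ ∈ T, ∀ k y, pb1 Φ (l k) y = L Φ k y := by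
    intro Φ hΦ k y
    ext v
    have h0 : C (Φ y) 0 = Φ y := hC0 (Φ y)
    have h1 : pb1 Φ (l k) y v = L (C (Φ y)) k 0 (B (Φ y) (dL (E := E4) Φ y v)) := rfl
    rw [h1]
    refine (uniq hT hΦ (hCT _) hg (hne _ (hCT _)) (hF Φ hΦ) (hF _ (hCT _)) h0 ?_ k).symm
    rw [hB1]
  have cl : ∀ k, Closed1 (l k) := by
    intro k
    have hcd : ∀ Φ ∈ T, ∀ y, ContDiffAt ℝ ∞ (pb1 Φ (l k)) y := by
      intro Φ hΦ y
      have h1 : pb1 Φ (l k) = L Φ k := funext fun y => pl Φ hΦ k y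
      rw [h1]
      exact ((hF Φ hΦ).smL k).contDiffAt
    refine ⟨Smooth1.of_local fun x => ?_, fun p y hy => ?_⟩
    · refine ⟨x, mem_chart_source E4 x, ?_⟩
      have h1 := rep1_contDiffAt (Φ := C x) (q := 0) (p := x) isOpen_univ
        (hT.tube _ (hCT x)).smooth.contMDiffOn (fun z _ => tube_bij (hT.tube _ (hCT x)) z)
        (mem_univ _) (by rw [hC0]; exact mem_chart_source E4 x) (hcd _ (hCT x) 0)
      rwa [hC0] at h1
    · set x := (chartAt E4 p).symm y with hx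
      have hxs : x ∈ (chartAt E4 p).source := symm_mem hy
      have h1 := rep1_closed (Φ := C x) (q := 0) (p := p) isOpen_univ
        (hT.tube _ (hCT x)).smooth.contMDiffOn (fun z _ => tube_bij (hT.tube _ (hCT x)) z)
        (mem_univ _) (by rw [hC0]; exact hxs) (hcd _ (hCT x) 0)
        (by
          have h2 : pb1 (C x) (l k) = L (C x) k := funext fun y => pl _ (hCT x) k y
          rw [h2]; exact (hF _ (hCT x)).closed k 0)
      rw [hC0, hx, (chartAt E4 p).right_inv hy] at h1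
      exact h1
  -- the leaf forms
  obtain ⟨n, Φs, ρ, hρ⟩ := TorCut_649.exists_part hT
  let G : Fin 2 → M → ℝ := fun k => TorCut_649.glue Φs ρ (fun i => u (Φs i) k)
  have sG : ∀ k, SmoothF E4 (G k) := fun k =>
    TorCut_649.glue_smooth hT hρ (fun i => (hF _ (hρ.mem i)).peru k)
      (fun i => (hF _ (hρ.mem i)).smu k)
  let a : Fin 2 → F1 E4 M := fun k => g k + dF (E := E4) (G k)
  have ca : ∀ k, Closed1 (a k) := fun k =>
    TorMin_510.Closed1.add (hg k) (TorMin_510.closed1_dF (sG k))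
  refine ⟨l, a, cl, ca, fun Φ hΦ => ⟨u Φ, ?_⟩, ?_⟩
  · have h1 : (fun k => pb1 Φ (l k)) = L Φ := funext fun k => funext fun y => pl Φ hΦ k y
    rw [h1]
    exact hF Φ hΦ
  · intro Φ hΦ y v s t
    -- the coordinates in the other tubes
    have hz : ∀ i, ∃ (z v' v'' : E4), Φ y ∈ range (Φs i) → Φs i z = Φ y ∧
        dmap (Φs i) z v' = dmap Φ y (lv s t) ∧ dmap (Φs i) z v'' = dmap Φ y v ∧
        ∃ s' t' : ℝ, v' = lv s' t' := by
      intro i
      by_cases hi : Φ y ∈ range (Φs i)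
      · obtain ⟨z, hz⟩ := hi
        obtain ⟨s', t', h1⟩ := TorCut_649.exists_coord_leaf hT (hρ.mem i) hΦ hz s t
        obtain ⟨v'', h2⟩ := TorCut_649.exists_coord hT (hρ.mem i) (dmap Φ y v) z
        exact ⟨z, lv s' t', v'', fun _ => ⟨hz, h1, h2, s', t', rfl⟩⟩
      · exact ⟨0, 0, 0, fun h => absurd h hi⟩
    choose z v' v'' hzv using hz
    have hd : ∀ k, pb1 Φ (dF (E := E4) (G k)) y (lv s t) =
        ∑ i, ρ i (Φ y) * fderiv ℝ (u (Φs i) k) (z i) (v' i) := fun k =>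
      TorCut_649.glue_d hT hρ (fun i => (hF _ (hρ.mem i)).peru k)
        (fun i => (hF _ (hρ.mem i)).smu k) hΦ (fun i hi => ⟨(hzv i hi).1, (hzv i hi).2.1⟩)
    have hi : ∀ i, ρ i (Φ y) * pb2 Φ ((w 1).1.1 : F2 E4 M) y v (lv s t) =
        ρ i (Φ y) * (- ∑ k, L Φ k y v * (pb1 Φ (g k) y (lv s t)
          + fderiv ℝ (u (Φs i) k) (z i) (v' i))) := by
      intro i
      by_cases hr : Φ y ∈ range (Φs i)
      · obtain ⟨h1, h2, h3, s', t', h4⟩ := hzv i hr
        congr 1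
        have e1 := (hF _ (hρ.mem i)).eq (z i) (v'' i) s' t'
        rw [← h4] at e1
        have e2 : pb2 (Φs i) ((w 1).1.1 : F2 E4 M) (z i) (v'' i) (v' i) =
            pb2 Φ ((w 1).1.1 : F2 E4 M) y v (lv s t) := by
          rw [pb2_apply, pb2_apply]
          have h2' : dL (E := E4) (Φs i) (z i) (v' i) = dL (E := E4) Φ y (lv s t) := h2
          have h3' : dL (E := E4) (Φs i) (z i) (v'' i) = dL (E := E4) Φ y v := h3
          rw [h1, h2', h3']
        have e3 : ∀ k, pb1 (Φs i) (g k) (z i) (v' i) = pb1 Φ (g k) y (lv s t) := by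
          intro k
          rw [pb1_apply, pb1_apply]
          have h2' : dL (E := E4) (Φs i) (z i) (v' i) = dL (E := E4) Φ y (lv s t) := h2
          rw [h1, h2']
        have e4 : ∀ k, L (Φs i) k (z i) (v'' i) = L Φ k y v := fun k =>
          (uniq hT hΦ (hρ.mem i) hg (hne _ (hρ.mem i)) (hF Φ hΦ) (hF _ (hρ.mem i)) h1 h3.symm
            k).symm
        rw [e2] at e1
        rw [e1]
        congr 1
        refine Finset.sum_congr rfl fun k _ => ?_
        rw [e3, e4]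
      · have h1 : ρ i (Φ y) = 0 := hρ.off fun h2 => hr (TorCut_649.KT_sub h2)
        rw [h1, zero_mul, zero_mul]
    have hsum : pb2 Φ ((w 1).1.1 : F2 E4 M) y v (lv s t) =
        ∑ i, ρ i (Φ y) * pb2 Φ ((w 1).1.1 : F2 E4 M) y v (lv s t) := by
      rw [← Finset.sum_mul, hρ.sum, one_mul]
    rw [hsum, Finset.sum_congr rfl fun i _ => hi i]
    have ha : ∀ k, pb1 Φ (a k) y (lv s t) = pb1 Φ (g k) y (lv s t) +
        ∑ i, ρ i (Φ y) * fderiv ℝ (u (Φs i) k) (z i) (v' i) := by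
      intro k
      rw [← hd k]; rfl
    rw [Fin.sum_univ_two, ha, ha, pl Φ hΦ, pl Φ hΦ]
    have h1 : ∀ k, pb1 Φ (g k) y (lv s t) = ∑ i, ρ i (Φ y) * pb1 Φ (g k) y (lv s t) := by
      intro k
      rw [← Finset.sum_mul, hρ.sum, one_mul]
    conv_rhs => rw [h1 0, h1 1]
    rw [← Finset.sum_add_distrib, ← Finset.sum_add_distrib, Finset.mul_sum, Finset.mul_sum,
      ← Finset.sum_add_distrib, ← Finset.sum_neg_distrib]
    refine Finset.sum_congr rfl fun i _ => ?_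
    rw [Fin.sum_univ_two]
    ring

/-- flux forms and leaf forms give a coframe. -/
theorem cofr_of (hw : Pos3 w) (hT : TAtlas w f T) {l a : Fin 2 → F1 E4 M} (h : LA w T g l a) :
    Cofr w l a := by
  have leafdir : ∀ x : M, ∃ Φ ∈ T, Φ 0 = x ∧ ∀ t : E4, (∀ k, at1 (l k) x t = 0) →
      ∃ s s' : ℝ, t = dL (E := E4) Φ 0 (lv s s') := by
    intro x
    obtain ⟨Φ, hΦ, h0⟩ := hT.cover x
    refine ⟨Φ, hΦ, h0, fun t ht => ?_⟩
    obtain ⟨u, hu⟩ := h.flux Φ hΦ
    obtain ⟨v, hv⟩ := (tube_bij (hT.tube Φ hΦ) 0).2 t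
    have h1 : ∀ k, pb1 Φ (l k) 0 (bv (v 0) (v 1)) = 0 := by
      intro k
      have h2 : pb1 Φ (l k) 0 v = 0 := by
        rw [pb1_apply, hv, h0]; exact ht k
      have h3 := hu.leaf0 k 0 (v 2) (v 3)
      conv_lhs at h2 => rw [decomp v, map_add]
      rw [h3, add_zero] at h2
      exact h2
    obtain ⟨e0, e1⟩ := hu.ind 0 _ _ h1
    refine ⟨v 2, v 3, ?_⟩
    rw [← hv]
    congr 1
    exact eq_lv e0 e1
  have leafform : ∀ (x : M) (V t : E4), (∀ k, at1 (l k) x t = 0) →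
      val (w 1) x V t = -(at1 (l 0) x V * at1 (a 0) x t + at1 (l 1) x V * at1 (a 1) x t) := by
    intro x V t ht
    obtain ⟨Φ, hΦ, h0, h1⟩ := leafdir x
    obtain ⟨s, s', rfl⟩ := h1 t ht
    obtain ⟨v, rfl⟩ := (tube_bij (hT.tube Φ hΦ) 0).2 V
    have h2 := h.eq Φ hΦ 0 v s s'
    rw [Fin.sum_univ_two] at h2
    subst h0
    exact h2
  have ind : ∀ (x : M) (v : E4), (∀ k, at1 (l k) x v = 0) → (∀ k, at1 (a k) x v = 0) → v = 0 := by
    intro x v hl ha
    have halt : Alt (val (w 1) x) := (w 1).1.2.1 x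
    refine nondeg halt ?_ fun V => ?_
    · have h2 := hw x ![0, 1, 0] (by
        intro h0
        have := congrFun h0 1
        simp at this)
      simpa [Fin.sum_univ_three] using h2
    · rw [leafform x V v hl, ha 0, ha 1]; ring
  refine ⟨h.cl, h.ca, ind, fun x => ?_, fun x u v hu hv => ?_⟩
  · exact form_w1 ((w 1).1.2.1 x)
      (fun v h0 h1 h2 h3 => ind x v (fun k => by fin_cases k <;> assumption)
        (fun k => by fin_cases k <;> assumption))
      (fun V t h0 h1 => leafform x V t (fun k => by fin_cases k <;> assumption))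
  · obtain ⟨Φ, hΦ, h0, h1⟩ := leafdir x
    obtain ⟨s, s', rfl⟩ := h1 u hu
    obtain ⟨r, r', rfl⟩ := h1 v hv
    have h2 := (leaf_lag (hT.tube Φ hΦ) 0 s s' r r').2
    subst h0
    exact h2

end Man

end

end Crest.Agent.R235.FibCo_129
end

-- ▼ part R235/TorWed_68
section

/-!
Row 235 (helper68): the wedge product of two closed one-forms is closed.
-/

set_option autoImplicit false
set_option maxSynthPendingDepth 3

open Set Function Filter MeasureTheory
open scoped Manifold ContDiff Topology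

universe u

namespace Crest.Agent.R235

open Crest.Agent.R240 Crest.Agent.R240.Ch

noncomputable section

section Local

variable {E : Type*} [NormedAddCommGroup E] [NormedSpace ℝ E]

theorem dd_wed {S T : E → E →L[ℝ] ℝ} {b : E → E →L[ℝ] E →L[ℝ] ℝ} {y : E}
    (hS : DifferentiableAt ℝ S y) (hT : DifferentiableAt ℝ T y) (hb : DifferentiableAt ℝ b y)
    (h : ∀ z v w, b z v w = S z v * T z w - T z v * S z w) (u v w : E) :
    dd b y u v w = (d1 S y u v * T y w - d1 S y u w * T y v + d1 S y v w * T y u)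
      - (d1 T y u v * S y w - d1 T y u w * S y v + d1 T y v w * S y u) := by
  have key : ∀ u v w : E, fderiv ℝ b y u v w =
      fderiv ℝ S y u v * T y w + S y v * fderiv ℝ T y u w
        - (fderiv ℝ T y u v * S y w + T y v * fderiv ℝ S y u w) := by
    intro u v w
    have e1 : fderiv ℝ (fun z => b z v w) y u = fderiv ℝ b y u v w := by
      have h1 := fderiv_pair (Y := fun _ => v) (Z := fun _ => w) hb
        (differentiableAt_const v) (differentiableAt_const w) u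
      rw [h1]
      simp
    rw [← e1]
    have e2 : (fun z => b z v w) = fun z => S z v * T z w - T z v * S z w := by
      funext z; exact h z v w
    rw [e2]
    have dS : ∀ v : E, HasFDerivAt (fun z => S z v)
        ((ContinuousLinearMap.apply ℝ ℝ v).comp (fderiv ℝ S y)) y := fun v =>
      ((ContinuousLinearMap.apply ℝ ℝ v).hasFDerivAt).comp y hS.hasFDerivAt
    have dT : ∀ v : E, HasFDerivAt (fun z => T z v)
        ((ContinuousLinearMap.apply ℝ ℝ v).comp (fderiv ℝ T y)) y := fun v =>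
      ((ContinuousLinearMap.apply ℝ ℝ v).hasFDerivAt).comp y hT.hasFDerivAt
    have e3 : fderiv ℝ (fun z => S z v * T z w - T z v * S z w) y = _ :=
      (((dS v).mul (dT w)).sub ((dT v).mul (dS w))).fderiv
    rw [e3]
    simp only [sub_apply, add_apply, smul_apply, smul_eq_mul, ContinuousLinearMap.comp_apply,
      ContinuousLinearMap.apply_apply]
    ring
  simp only [dd, key, d1_apply]
  ring

end Local

section Mfd

variable {M : Type u} [TopologicalSpace M] [ChartedSpace E4 M] [IsManifold 𝓘(ℝ, E4) ∞ M]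

theorem closed2_wedG {s t : F1 E4 M} (hs : Closed1 s) (ht : Closed1 t) :
    Closed2 (wedG s t) := by
  intro p y hy u v w
  have h1 := dd_wed (S := rep1 p s) (T := rep1 p t) (b := rep p (wedG s t)) (y := y)
    ((hs.1.at hy).differentiableAt infty_ne_zero) ((ht.1.at hy).differentiableAt infty_ne_zero)
    ((Smooth2.wed hs.1 ht.1).diff hy) (fun z v w => rep_wedG p s t z v w) u v w
  rw [h1, hs.2 p y hy, ht.2 p y hy]
  simp

/-- the closed two-form `s ∧ t`. -/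
def wz (s t : F1 E4 M) (hs : Closed1 s) (ht : Closed1 t) : Z2 M :=
  ⟨⟨wedG s t, Smooth2.wed hs.1 ht.1⟩, closed2_wedG hs ht⟩


theorem exists_wz {s t : F1 E4 M} (hs : Closed1 s) (ht : Closed1 t) :
    ∃ b : Z2 M, ∀ x, val b x = wed (at1 s x) (at1 t x) := ⟨wz s t hs ht, fun _ => rfl⟩

end Mfd

end

end Crest.Agent.R235
end

-- ▼ part R235/FibTop_129
section

/-!
Row 235 (S0364), package TOR (helper129): the nodes `COFRAME` and `COFRAMEI`.
-/

set_option autoImplicit false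
set_option maxSynthPendingDepth 3
set_option linter.unusedSectionVars false

open Set Function Filter MeasureTheory
open scoped Manifold ContDiff Topology

universe u

namespace Crest.Agent.R235.FibTop_129

open Crest.Agent.R240 Crest.Agent.R240.Ch Crest.Agent.R235.Pull_129 Crest.Agent.R235.FibTr_129
  Crest.Agent.R235.FibPer_129 Crest.Agent.R235.FibFlux_129 Crest.Agent.R235.FibUniq_129
  Crest.Agent.R235.FibCo_129

noncomputable section

section Man

variable {M : Type u} [TopologicalSpace M] [T2Space M] [CompactSpace M]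
  [ChartedSpace E4 M] [IsManifold 𝓘(ℝ, E4) ∞ M]

variable {w : Trip M} {f : H2 M} {Φ Ψ : E4 → M} {T : Set (E4 → M)} {g : Fin 2 → F1 E4 M}

/-- two closed one-forms whose product has a non-zero integral over the leaves. -/
lemma exists_pair (hw : Pos3 w) {s : Fin 4 → F1 E4 M} {A : Fin 4 → Fin 4 → Z2 M}
    (_hA : ∀ i j, (A i j).1.1 = wedG (s i) (s j))
    (hspan : ∀ c : H2 M, ∃ n : Fin 4 → Fin 4 → ℝ, c = ∑ i, ∑ j, n i j • cls (A i j))
    {σ : Ep → M} (hσ : JTor w σ f) : ∃ i j, ip (w 0) f (cls (A i j)) ≠ 0 := by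
  by_contra hcon
  push Not at hcon
  have hV : Int.Vol ((w 0).1.1 : F2 E4 M) := hw.vol 0
  obtain ⟨n, hn⟩ := hspan (cls (w 0))
  have h1 := hσ.pos
  rw [hn, ip_sum_right hV] at h1
  have h2 : ∀ i, ip (w 0) f (∑ j, n i j • cls (A i j)) = 0 := by
    intro i
    rw [ip_sum_right hV]
    refine Finset.sum_eq_zero fun j _ => ?_
    rw [ip_smul_right hV, hcon i j, mul_zero]
  rw [Finset.sum_eq_zero fun i _ => h2 i] at h1
  exact lt_irrefl _ h1

/-! ### the involution -/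

lemma dL_self {τ : M → M} (hτ : ContMDiff 𝓘(ℝ, E4) 𝓘(ℝ, E4) ∞ τ) (hΦ : Tube w f Φ) (y v : E4) :
    dL (E := E4) (fun z => τ (Φ z)) y v = dself τ (Φ y) (dL (E := E4) Φ y v) :=
  TorMin_510.dmap_comp hτ (hΦ.smooth y) v

lemma pb1_self {τ : M → M} (hτ : ContMDiff 𝓘(ℝ, E4) 𝓘(ℝ, E4) ∞ τ) (hΦ : Tube w f Φ)
    (s : F1 E4 M) (y v : E4) : pb1 (fun z => τ (Φ z)) s y v =
      at1 s (τ (Φ y)) (dself τ (Φ y) (dL (E := E4) Φ y v)) := by
  rw [pb1_apply, dL_self hτ hΦ]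

lemma tube_self (hT4 : T4R (w 0)) {τ : M → M} (hi : Invol w τ) (hm : MinusOne τ)
    (hΦ : Tube w f Φ) : Tube w f (fun z => τ (Φ z)) where
  smooth := hi.smooth.comp hΦ.smooth
  per y m n := congrArg τ (hΦ.per y m n)
  inj y z h := hΦ.inj y z (by
    have := congrArg τ h
    simpa only [hi.inv] using this)
  imm y v hv := by
    have h1 : dself τ (Φ y) (dmap Φ y v) = 0 := by
      rw [← hv]; exact (dL_self hi.smooth hΦ y v).symm
    have h2 := TorMin_510.dself_dself hi.smooth hi.inv (Φ y) (dmap Φ y v)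
    rw [h1, map_zero] at h2
    exact hΦ.imm y v h2.symm
  leaf y := TorMin_510.jtor_comp hT4 hi hm (hΦ.leaf y)

/-- all charts together with their images under the involution. -/
def dbl (τ : M → M) (T : Set (E4 → M)) : Set (E4 → M) := T ∪ (fun Φ z => τ (Φ z)) '' T

lemma slice_lv (Φ : E4 → M) (y : E4) (s t : ℝ) :
    range (slice Φ (y + lv s t)) = range (slice Φ y) := by
  ext x
  constructor
  · rintro ⟨q, rfl⟩
    refine ⟨WithLp.toLp 2 ![s + q 0, t + q 1], ?_⟩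
    show Φ (y + lv (s + q 0) (t + q 1)) = Φ (y + lv s t + lv (q 0) (q 1))
    rw [lv_add, add_assoc]
  · rintro ⟨q, rfl⟩
    refine ⟨WithLp.toLp 2 ![q 0 - s, q 1 - t], ?_⟩
    show Φ (y + lv s t + lv (q 0 - s) (q 1 - t)) = Φ (y + lv (q 0) (q 1))
    rw [add_assoc, ← lv_add]
    congr 3 <;> ring

lemma dbl_atlas (hT4 : T4R (w 0)) {τ : M → M} (hi : Invol w τ) (hm : MinusOne τ)
    (hT : TAtlas w f T)
    (hl : ∀ Φ ∈ T, ∀ y, ∃ Ψ ∈ T, ∃ z, τ '' range (slice Φ y) = range (slice Ψ z)) :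
    TAtlas w f (dbl τ T) := by
  have hrep : ∀ Φ ∈ dbl τ T, ∀ y, ∃ Ψ ∈ T, ∃ z, range (slice Φ y) = range (slice Ψ z) := by
    rintro Φ (hΦ | ⟨Φ, hΦ, rfl⟩) y
    · exact ⟨Φ, hΦ, y, rfl⟩
    · obtain ⟨Ψ, hΨ, z, h⟩ := hl Φ hΦ y
      refine ⟨Ψ, hΨ, z, ?_⟩
      rw [← h, ← range_comp]
      rfl
  have hmem : ∀ (Φ : E4 → M) (y : E4), Φ y ∈ range (slice Φ y) := by
    intro Φ y
    refine ⟨0, ?_⟩
    show Φ (y + lv 0 0) = Φ y
    rw [lv_zero, add_zero]
  refine ⟨?_, ?_, ?_⟩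
  · rintro Φ (hΦ | ⟨Φ, hΦ, rfl⟩)
    · exact hT.tube Φ hΦ
    · exact tube_self hT4 hi hm (hT.tube Φ hΦ)
  · intro x
    obtain ⟨Φ, hΦ, h⟩ := hT.cover x
    exact ⟨Φ, Or.inl hΦ, h⟩
  · intro Φ hΦ Ψ hΨ y z h
    obtain ⟨Φ1, hΦ1, y1, e1⟩ := hrep Φ hΦ y
    obtain ⟨Ψ1, hΨ1, z1, e2⟩ := hrep Ψ hΨ z
    rw [e1, e2]
    have m1 : Φ y ∈ range (slice Φ1 y1) := by rw [← e1]; exact hmem Φ y
    have m2 : Φ y ∈ range (slice Ψ1 z1) := by rw [← e2, h]; exact hmem Ψ z
    obtain ⟨q, hq⟩ := m1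
    obtain ⟨r, hr⟩ := m2
    have h1 : Φ1 (y1 + lv (q 0) (q 1)) = Ψ1 (z1 + lv (r 0) (r 1)) := hq.trans hr.symm
    have h2 := hT.cons Φ1 hΦ1 Ψ1 hΨ1 _ _ h1
    rw [slice_lv, slice_lv] at h2
    exact h2

/-- the flux data of `τ ∘ Φ`, for odd forms `g`. -/
lemma flux_self {τ : M → M} (hi : Invol w τ) (hΦ : Tube w f Φ)
    (hodd : ∀ k, Odd1 τ (g k)) {L : Fin 2 → E4 → E4 →L[ℝ] ℝ} {u : Fin 2 → E4 → ℝ}
    (F : Flux w g Φ L u) :
    Flux w g (fun z => τ (Φ z)) (fun k y => -(L k y)) (fun k y => -(u k y)) where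
  smL k := (F.smL k).neg
  leafc k y s t := by rw [F.leafc]
  leaf0 k y s t := by rw [neg_apply, F.leaf0, neg_zero]
  closed k y := by
    ext a b
    rw [d1_apply]
    have h1 : fderiv ℝ (fun y => -(L k y)) y = -fderiv ℝ (L k) y := fderiv_fun_neg
    rw [h1]
    have h2 : d1 (L k) y a b = 0 := by rw [F.closed]; rfl
    rw [d1_apply] at h2
    simp only [neg_apply]
    show _ = (0 : ℝ)
    linarith
  ind y s t h := F.ind y s t fun k => by
    have := h k
    rw [neg_apply] at this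
    linarith
  smu k := (F.smu k).neg
  peru k y m n := by rw [F.peru]
  eq y v s t := by
    have h1 : pb2 (fun z => τ (Φ z)) ((w 1).1.1 : F2 E4 M) y v (lv s t) =
        pb2 Φ ((w 1).1.1 : F2 E4 M) y v (lv s t) := by
      rw [pb2_apply, dL_self hi.smooth hΦ, dL_self hi.smooth hΦ]
      exact hi.pres 1 (Φ y) _ _
    have h2 : ∀ k, pb1 (fun z => τ (Φ z)) (g k) y (lv s t) = - pb1 Φ (g k) y (lv s t) := by
      intro k
      rw [pb1_self hi.smooth hΦ]
      exact hodd k (Φ y) _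
    have h3 : ∀ k, fderiv ℝ (fun y => -(u k y)) y (lv s t) = - fderiv ℝ (u k) y (lv s t) := by
      intro k
      rw [fderiv_fun_neg]; rfl
    rw [h1, F.eq y v s t]
    congr 1
    refine Finset.sum_congr rfl fun k _ => ?_
    rw [h2, h3, neg_apply]
    ring

end Man

/-- **COFRAME.** -/
theorem coframe : COFRAME.{u} := by
  intro M _ _ _ _ _ _ w f hw hT4 T hT
  obtain ⟨⟨s, hs, -, A, hA, -, -, hspan⟩, -⟩ := hT4
  obtain ⟨x0⟩ : Nonempty M := inferInstance
  obtain ⟨Φ0, hΦ0, -⟩ := hT.cover x0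
  obtain ⟨i, j, hij⟩ := exists_pair hw hA hspan ((hT.tube Φ0 hΦ0).leaf 0)
  have hg : ∀ k, Closed1 ((![s i, s j] : Fin 2 → F1 E4 M) k) := by
    intro k
    fin_cases k
    · exact hs i
    · exact hs j
  have hne : ∀ Φ ∈ T, ∀ y, torI (slice Φ y) (wedG ((![s i, s j] : Fin 2 → F1 E4 M) 0)
      ((![s i, s j] : Fin 2 → F1 E4 M) 1)) ≠ 0 := by
    intro Φ hΦ y
    have h1 := ((hT.tube Φ hΦ).leaf y).rep (A i j)
    rw [hA] at h1
    show torI (slice Φ y) (wedG (s i) (s j)) ≠ 0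
    rw [h1]
    exact hij
  obtain ⟨l, a, h⟩ := exists_la hw hT hg hne
  exact ⟨l, a, cofr_of hw hT h⟩

/-- **COFRAMEI.** -/
theorem coframei : COFRAMEI.{u} := by
  intro M _ _ _ _ _ _ w f hw hT4 T hT τ hi hm hleaf
  obtain ⟨⟨s, hs, -, A, hA, -, -, hspan⟩, -⟩ := id hT4
  obtain ⟨x0⟩ : Nonempty M := inferInstance
  obtain ⟨Φ0, hΦ0, -⟩ := hT.cover x0
  obtain ⟨i, j, hij⟩ := exists_pair hw hA hspan ((hT.tube Φ0 hΦ0).leaf 0)
  obtain ⟨g0, h0, cg0, og0, sh0, e0⟩ := TorMin_510.odd_rep hi.smooth hi.inv hm (hs i)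
  obtain ⟨g1, h1, cg1, og1, sh1, e1⟩ := TorMin_510.odd_rep hi.smooth hi.inv hm (hs j)
  have hT' := dbl_atlas hT4 hi hm hT hleaf
  set g : Fin 2 → F1 E4 M := ![g0, g1] with hgdef
  have hg : ∀ k, Closed1 (g k) := by
    intro k
    fin_cases k
    · exact cg0
    · exact cg1
  have hodd : ∀ k, Odd1 τ (g k) := by
    intro k
    fin_cases k
    · exact og0
    · exact og1
  -- the class of `g0 ∧ g1`
  have hcls : cls (Crest.Agent.R235.wz g0 g1 cg0 cg1) = cls (A i j) := by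
    rw [cls_eq]
    have hsi : Closed1 ((-1 : ℝ) • s i) := TorMin_510.Closed1.smul _ (hs i)
    have hsj : Closed1 ((-1 : ℝ) • s j) := TorMin_510.Closed1.smul _ (hs j)
    have h2 := TorMin_510.isEx_wed_sub hsi hsj sh0 sh1
    have e0' : g0 = (-1 : ℝ) • ((-1 : ℝ) • s i) + dF h0 := by
      rw [← e0, smul_smul]; norm_num
    have e1' : g1 = (-1 : ℝ) • ((-1 : ℝ) • s j) + dF h1 := by
      rw [← e1, smul_smul]; norm_num
    rw [← e0', ← e1'] at h2
    have h3 : ((Crest.Agent.R235.wz g0 g1 cg0 cg1 - A i j : Z2 M).1.1 : F2 E4 M) =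
        wedG g0 g1 - wedG ((-1 : ℝ) • s i) ((-1 : ℝ) • s j) := by
      have h4 : ((Crest.Agent.R235.wz g0 g1 cg0 cg1 - A i j : Z2 M).1.1 : F2 E4 M) =
          wedG g0 g1 - ((A i j).1.1 : F2 E4 M) := rfl
      rw [h4, hA]
      congr 1
      funext x
      refine ContinuousLinearMap.ext fun u => ContinuousLinearMap.ext fun v => ?_
      show at1 (s i) x u * at1 (s j) x v - at1 (s j) x u * at1 (s i) x v =
        ((-1 : ℝ) * at1 (s i) x u) * ((-1 : ℝ) * at1 (s j) x v) -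
        ((-1 : ℝ) * at1 (s j) x u) * ((-1 : ℝ) * at1 (s i) x v)
      ring
    rw [h3]
    exact h2
  have hne : ∀ Φ ∈ dbl τ T, ∀ y, torI (slice Φ y) (wedG (g 0) (g 1)) ≠ 0 := by
    intro Φ hΦ y
    have h2 := ((hT'.tube Φ hΦ).leaf y).rep (Crest.Agent.R235.wz g0 g1 cg0 cg1)
    rw [hcls] at h2
    show torI (slice Φ y) (wedG g0 g1) ≠ 0
    have h3 : ((Crest.Agent.R235.wz g0 g1 cg0 cg1).1.1 : F2 E4 M) = wedG g0 g1 := rfl
    rw [← h3, h2]
    exact hij
  obtain ⟨l, a, h⟩ := exists_la hw hT' hg hne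
  -- the flux forms are odd
  have hself : ∀ Φ ∈ T, (fun z => τ (Φ z)) ∈ dbl τ T := fun Φ hΦ => Or.inr ⟨Φ, hΦ, rfl⟩
  have oddl' : ∀ Φ ∈ T, ∀ k y v, pb1 (fun z => τ (Φ z)) (l k) y v = - pb1 Φ (l k) y v := by
    intro Φ hΦ k y v
    obtain ⟨u, hu⟩ := h.flux Φ (Or.inl hΦ)
    obtain ⟨u', hu'⟩ := h.flux _ (hself Φ hΦ)
    have hu2 := flux_self hi (hT.tube Φ hΦ) hodd hu
    have h2 := uniq hT' (hself Φ hΦ) (hself Φ hΦ) hg (hne _ (hself Φ hΦ)) hu' hu2
      (y := y) (z := y) (v := v) (v' := v) rfl rfl k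
    rw [h2]; rfl
  have oddl : ∀ k, Odd1 τ (l k) := by
    intro k x V
    obtain ⟨Φ, hΦ, hx⟩ := hT.cover x
    obtain ⟨v, hv⟩ := (tube_bij (hT.tube Φ hΦ) 0).2 V
    have h2 := oddl' Φ hΦ k 0 v
    rw [pb1_self hi.smooth (hT.tube Φ hΦ), pb1_apply, hv, hx] at h2
    exact h2
  -- the averaged leaf forms
  let a' : Fin 2 → F1 E4 M := fun k =>
    (1 / 2 : ℝ) • (a k + (-1 : ℝ) • TorMin_510.pb1 τ (a k))
  have ca' : ∀ k, Closed1 (a' k) := fun k =>
    TorMin_510.Closed1.smul _ (TorMin_510.Closed1.add (h.ca k)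
      (TorMin_510.Closed1.smul _ (TorMin_510.Closed1.pb hi.smooth (h.ca k))))
  have at_a' : ∀ k x v, at1 (a' k) x v =
      (1 / 2 : ℝ) * (at1 (a k) x v - at1 (a k) (τ x) (dself τ x v)) := by
    intro k x v
    show (1 / 2 : ℝ) * (at1 (a k) x v + (-1 : ℝ) * at1 (a k) (τ x) (dself τ x v)) = _
    ring
  have hLA : LA w T g l a' := by
    refine ⟨h.cl, ca', fun Φ hΦ => h.flux Φ (Or.inl hΦ), fun Φ hΦ y v r t => ?_⟩
    have q1 := h.eq Φ (Or.inl hΦ) y v r t
    have q2 := h.eq _ (hself Φ hΦ) y v r t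
    have q3 : pb2 (fun z => τ (Φ z)) ((w 1).1.1 : F2 E4 M) y v (lv r t) =
        pb2 Φ ((w 1).1.1 : F2 E4 M) y v (lv r t) := by
      rw [pb2_apply, dL_self hi.smooth (hT.tube Φ hΦ), dL_self hi.smooth (hT.tube Φ hΦ)]
      exact hi.pres 1 (Φ y) _ _
    rw [q3, Fin.sum_univ_two, oddl' Φ hΦ, oddl' Φ hΦ] at q2
    rw [Fin.sum_univ_two] at q1 ⊢
    have q4 : ∀ k, pb1 Φ (a' k) y (lv r t) =
        (1 / 2 : ℝ) * (pb1 Φ (a k) y (lv r t) - pb1 (fun z => τ (Φ z)) (a k) y (lv r t)) := by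
      intro k
      rw [pb1_apply, at_a', pb1_self hi.smooth (hT.tube Φ hΦ)]
      rfl
    rw [q4, q4]
    linarith
  refine ⟨l, a', cofr_of hw hT hLA, oddl, fun k x v => ?_⟩
  rw [at_a', at_a', hi.inv, TorMin_510.dself_dself hi.smooth hi.inv]
  ring

end

end Crest.Agent.R235.FibTop_129
end

-- ▼ part R235/TorAlg_68
section

/-!
Row 235 (S0364), package TOR, helper68: pointwise algebra for the three straight segments.
-/

set_option autoImplicit false
set_option linter.unusedVariables false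

namespace Crest.Agent.R235.TorAlg_68

open Crest.Agent.R240

noncomputable section

/-- Laplace expansion of `W b c` in a coframe. -/
theorem laplace (b c : Bil) (a1 a2 l1 l2 : E4 →L[ℝ] ℝ) :
    W (wed a1 a2) (wed l1 l2) * W b c =
      (W b (wed l1 l2) * W c (wed a1 a2) + W b (wed a1 a2) * W c (wed l1 l2))
      - (W b (wed a2 l2) * W c (wed a1 l1) + W b (wed a1 l1) * W c (wed a2 l2))
      + (W b (wed a2 l1) * W c (wed a1 l2) + W b (wed a1 l2) * W c (wed a2 l1)) := by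
  unfold W
  simp only [ent, wed_apply]
  generalize b (ee 0) (ee 1) = b01
  generalize b (ee 0) (ee 2) = b02
  generalize b (ee 0) (ee 3) = b03
  generalize b (ee 1) (ee 2) = b12
  generalize b (ee 1) (ee 3) = b13
  generalize b (ee 2) (ee 3) = b23
  generalize c (ee 0) (ee 1) = c01
  generalize c (ee 0) (ee 2) = c02
  generalize c (ee 0) (ee 3) = c03
  generalize c (ee 1) (ee 2) = c12
  generalize c (ee 1) (ee 3) = c13
  generalize c (ee 2) (ee 3) = c23
  generalize a1 (ee 0) = x0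
  generalize a1 (ee 1) = x1
  generalize a1 (ee 2) = x2
  generalize a1 (ee 3) = x3
  generalize a2 (ee 0) = y0
  generalize a2 (ee 1) = y1
  generalize a2 (ee 2) = y2
  generalize a2 (ee 3) = y3
  generalize l1 (ee 0) = z0
  generalize l1 (ee 1) = z1
  generalize l1 (ee 2) = z2
  generalize l1 (ee 3) = z3
  generalize l2 (ee 0) = t0
  generalize l2 (ee 1) = t1
  generalize l2 (ee 2) = t2
  generalize l2 (ee 3) = t3
  ring

section Table

variable (a1 a2 l1 l2 : E4 →L[ℝ] ℝ)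

/-- the forms of the flat triple. -/
def p0 : Bil := wed a1 l1 + wed a2 l2
/-- the second form of the pair. -/
def q0 : Bil := wed a2 l1 - wed a1 l2
/-- the third form. -/
def u0 : Bil := wed a1 a2 - wed l1 l2

theorem W_11_22 : W (wed a1 l1) (wed a2 l2) = - W (wed a1 a2) (wed l1 l2) := by
  unfold W; simp only [ent, wed_apply]; ring
theorem W_11_21 : W (wed a1 l1) (wed a2 l1) = 0 := by
  unfold W; simp only [ent, wed_apply]; ring
theorem W_22_21 : W (wed a2 l2) (wed a2 l1) = 0 := by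
  unfold W; simp only [ent, wed_apply]; ring
theorem W_22_22 : W (wed a2 l2) (wed a2 l2) = 0 := by
  unfold W; simp only [ent, wed_apply]; ring
theorem W_11_12 : W (wed a1 l1) (wed a1 l2) = 0 := by
  unfold W; simp only [ent, wed_apply]; ring
theorem W_22_12 : W (wed a2 l2) (wed a1 l2) = 0 := by
  unfold W; simp only [ent, wed_apply]; ring
theorem W_r_21 : W (wed l1 l2) (wed a2 l1) = 0 := by
  unfold W; simp only [ent, wed_apply]; ring
theorem W_r_12 : W (wed l1 l2) (wed a1 l2) = 0 := by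
  unfold W; simp only [ent, wed_apply]; ring
theorem W_r_11 : W (wed l1 l2) (wed a1 l1) = 0 := by
  unfold W; simp only [ent, wed_apply]; ring
theorem W_r_22 : W (wed l1 l2) (wed a2 l2) = 0 := by
  unfold W; simp only [ent, wed_apply]; ring
theorem W_r_r : W (wed l1 l2) (wed l1 l2) = 0 := by
  unfold W; simp only [ent, wed_apply]; ring

theorem W_p0_p0 : W (p0 a1 a2 l1 l2) (p0 a1 a2 l1 l2) = -2 * W (wed a1 a2) (wed l1 l2) := by
  unfold p0 W; simp only [ent_add]; simp only [ent, wed_apply]; ring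
theorem W_q0_q0 : W (q0 a1 a2 l1 l2) (q0 a1 a2 l1 l2) = -2 * W (wed a1 a2) (wed l1 l2) := by
  unfold q0 W; simp only [ent_sub]; simp only [ent, wed_apply]; ring
theorem W_p0_q0 : W (p0 a1 a2 l1 l2) (q0 a1 a2 l1 l2) = 0 := by
  unfold p0 q0 W; simp only [ent_sub, ent_add]; simp only [ent, wed_apply]; ring
theorem W_r_p0 : W (wed l1 l2) (p0 a1 a2 l1 l2) = 0 := by
  unfold p0 W; simp only [ent_add]; simp only [ent, wed_apply]; ring
theorem W_r_q0 : W (wed l1 l2) (q0 a1 a2 l1 l2) = 0 := by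
  unfold q0 W; simp only [ent_sub]; simp only [ent, wed_apply]; ring

end Table

/-! ### positive triples at a point -/

/-- positivity of a triple at a point. -/
def PT (u p q : Bil) : Prop :=
  ∀ x y z : ℝ, (x ≠ 0 ∨ y ≠ 0 ∨ z ≠ 0) →
    W (x • u + y • p + z • q) (x • u + y • p + z • q) ≠ 0

theorem W_quad (u p q : Bil) (x y z : ℝ) :
    W (x • u + y • p + z • q) (x • u + y • p + z • q) =
      x ^ 2 * W u u + 2 * x * y * W u p + 2 * x * z * W u q + y ^ 2 * W p p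
        + 2 * y * z * W p q + z ^ 2 * W q q := by
  simp only [W_add_left, W_add_right, W_smul_left, W_smul_right]
  rw [W_comm p u, W_comm q u, W_comm q p]
  ring

theorem real_quad {b c : ℝ} (h : ∀ t : ℝ, t ^ 2 + 2 * b * t + c ≠ 0) : b ^ 2 < c := by
  by_contra hc
  push Not at hc
  have h1 := h (-b + √(b ^ 2 - c))
  have h2 : √(b ^ 2 - c) ^ 2 = b ^ 2 - c := Real.sq_sqrt (by linarith)
  apply h1
  nlinarith

theorem PT.ne {u p q : Bil} (h : PT u p q) : W p p ≠ 0 := by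
  have h1 := h 0 1 0 (by simp)
  rw [W_quad] at h1
  intro h2
  apply h1
  rw [h2]; ring

theorem PT.block {u p q : Bil} (h : PT u p q) {x z : ℝ} (hxz : x ≠ 0 ∨ z ≠ 0) :
    (x * (W u p / W p p) + z * (W p q / W p p)) ^ 2 <
      x ^ 2 * (W u u / W p p) + 2 * x * z * (W u q / W p p) + z ^ 2 * (W q q / W p p) := by
  have hF := h.ne
  apply real_quad
  intro t ht
  have h1 := h x t z (by tauto)
  rw [W_quad] at h1
  apply h1
  have h2 : x ^ 2 * W u u + 2 * x * t * W u p + 2 * x * z * W u q + t ^ 2 * W p p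
        + 2 * t * z * W p q + z ^ 2 * W q q =
      W p p * (t ^ 2 + 2 * (x * (W u p / W p p) + z * (W p q / W p p)) * t +
      (x ^ 2 * (W u u / W p p) + 2 * x * z * (W u q / W p p) + z ^ 2 * (W q q / W p p))) := by
    field_simp
    ring
  rw [h2, ht, mul_zero]

/-- criterion. -/
theorem PT.of {u p q : Bil} (hF : W p p ≠ 0)
    (hD : (W p q / W p p) ^ 2 < W q q / W p p)
    (hdet : (W u q / W p p - W u p / W p p * (W p q / W p p)) ^ 2 <
      (W u u / W p p - (W u p / W p p) ^ 2) * (W q q / W p p - (W p q / W p p) ^ 2)) :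
    PT u p q := by
  intro x y z hxyz h0
  rw [W_quad] at h0
  obtain ⟨A, hA⟩ : ∃ A, A = W u u / W p p := ⟨_, rfl⟩
  obtain ⟨b, hb⟩ : ∃ b, b = W u p / W p p := ⟨_, rfl⟩
  obtain ⟨d, hd⟩ : ∃ d, d = W u q / W p p := ⟨_, rfl⟩
  obtain ⟨e, he⟩ : ∃ e, e = W p q / W p p := ⟨_, rfl⟩
  obtain ⟨f, hf⟩ : ∃ f, f = W q q / W p p := ⟨_, rfl⟩
  rw [← hA, ← hb, ← hd, ← he, ← hf] at hdet
  rw [← he, ← hf] at hD
  have h1 : x ^ 2 * A + 2 * x * y * b + 2 * x * z * d + y ^ 2 + 2 * y * z * e + z ^ 2 * f = 0 := by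
    have : W p p * (x ^ 2 * A + 2 * x * y * b + 2 * x * z * d + y ^ 2 + 2 * y * z * e
        + z ^ 2 * f) = 0 := by
      rw [← h0, hA, hb, hd, he, hf]
      field_simp
    rcases mul_eq_zero.1 this with h | h
    · exact absurd h hF
    · exact h
  have hpos : 0 < f - e ^ 2 := by linarith
  have hA' : 0 < A - b ^ 2 := by
    by_contra hcon
    push Not at hcon
    have : (A - b ^ 2) * (f - e ^ 2) ≤ 0 := mul_nonpos_of_nonpos_of_nonneg hcon hpos.le
    nlinarith [sq_nonneg (d - b * e)]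
  -- complete the squares
  have h2 : (f - e ^ 2) * (x ^ 2 * A + 2 * x * y * b + 2 * x * z * d + y ^ 2 + 2 * y * z * e
      + z ^ 2 * f) = (f - e ^ 2) * (y + x * b + z * e) ^ 2
      + (z * (f - e ^ 2) + x * (d - b * e)) ^ 2
      + x ^ 2 * ((A - b ^ 2) * (f - e ^ 2) - (d - b * e) ^ 2) := by ring
  rw [h1, mul_zero] at h2
  have h3 : 0 < (A - b ^ 2) * (f - e ^ 2) - (d - b * e) ^ 2 := by linarith
  have hx : x = 0 := by
    by_contra hx
    have h4 : 0 < x ^ 2 := by positivity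
    have h5 : 0 < x ^ 2 * ((A - b ^ 2) * (f - e ^ 2) - (d - b * e) ^ 2) := mul_pos h4 h3
    have h6 : 0 ≤ (f - e ^ 2) * (y + x * b + z * e) ^ 2 := mul_nonneg hpos.le (sq_nonneg _)
    nlinarith [sq_nonneg (z * (f - e ^ 2) + x * (d - b * e))]
  subst hx
  have hz : z = 0 := by
    by_contra hz
    have h4 : 0 < (z * (f - e ^ 2) + 0 * (d - b * e)) ^ 2 := by
      have : z * (f - e ^ 2) + 0 * (d - b * e) ≠ 0 := by
        simp only [zero_mul, add_zero]
        exact mul_ne_zero hz hpos.ne'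
      positivity
    have h6 : 0 ≤ (f - e ^ 2) * (y + 0 * b + z * e) ^ 2 := mul_nonneg hpos.le (sq_nonneg _)
    nlinarith
  subst hz
  have hy : y = 0 := by
    have : y ^ 2 = 0 := by nlinarith
    exact pow_eq_zero_iff (two_ne_zero) |>.1 this
  subst hy
  simp at hxyz

/-! ### facts at a point -/

section Facts

variable {a1 a2 l1 l2 : E4 →L[ℝ] ℝ} {u p q : Bil} {h : ℝ}

/-- `W u (l1∧l2) ≠ 0`. -/
theorem ne_ur (hW : W (wed a1 a2) (wed l1 l2) ≠ 0) (hP : PT u p q)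
    (hp : p = p0 a1 a2 l1 l2 + h • wed l1 l2) (hq : W q (wed l1 l2) = 0) :
    W u (wed l1 l2) ≠ 0 := by
  intro hu
  have hp1 : W p (wed l1 l2) = 0 := by
    rw [hp, W_add_left, W_smul_left, W_comm (p0 a1 a2 l1 l2), W_r_p0, W_r_r]; ring
  have hp2 : W p (wed a2 l2) = - W (wed a1 a2) (wed l1 l2) := by
    rw [hp, p0, W_add_left, W_add_left, W_smul_left, W_11_22, W_22_22, W_r_22]; ring
  have hp3 : W p (wed a2 l1) = 0 := by
    rw [hp, p0, W_add_left, W_add_left, W_smul_left, W_11_21, W_22_21, W_r_21]; ring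
  obtain ⟨x, z, hxz, h1⟩ : ∃ x z : ℝ, (x ≠ 0 ∨ z ≠ 0) ∧
      x * W u (wed a2 l1) + z * W q (wed a2 l1) = 0 := by
    by_cases h0 : W u (wed a2 l1) = 0
    · exact ⟨1, 0, by simp, by rw [h0]; ring⟩
    · exact ⟨W q (wed a2 l1), - W u (wed a2 l1), Or.inr (by simpa using h0), by ring⟩
  set y : ℝ := (x * W u (wed a2 l2) + z * W q (wed a2 l2)) / W (wed a1 a2) (wed l1 l2) with hy
  have hy' : y * W (wed a1 a2) (wed l1 l2) = x * W u (wed a2 l2) + z * W q (wed a2 l2) := by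
    rw [hy]; field_simp
  have h2 := laplace (x • u + y • p + z • q) (x • u + y • p + z • q) a1 a2 l1 l2
  have e1 : W (x • u + y • p + z • q) (wed l1 l2) = 0 := by
    simp only [W_add_left, W_smul_left, hu, hp1, hq]; ring
  have e2 : W (x • u + y • p + z • q) (wed a2 l2) = 0 := by
    simp only [W_add_left, W_smul_left, hp2]; linarith
  have e3 : W (x • u + y • p + z • q) (wed a2 l1) = 0 := by
    simp only [W_add_left, W_smul_left, hp3]; linarith
  rw [e1, e2, e3] at h2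
  have h3 : W (x • u + y • p + z • q) (x • u + y • p + z • q) = 0 := by
    have : W (wed a1 a2) (wed l1 l2) *
      W (x • u + y • p + z • q) (x • u + y • p + z • q) = 0 := by rw [h2]; ring
    rcases mul_eq_zero.1 this with h | h
    · exact absurd h hW
    · exact h
  exact hP x y z (by tauto) h3

/-- `W q q0 ≠ 0`. -/
theorem ne_qq (hW : W (wed a1 a2) (wed l1 l2) ≠ 0) (hP : PT u p q)
    (hp : p = p0 a1 a2 l1 l2 + h • wed l1 l2) (hq : W q (wed l1 l2) = 0) :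
    W q (q0 a1 a2 l1 l2) ≠ 0 := by
  intro h0
  have hp1 : W p (wed l1 l2) = 0 := by
    rw [hp, W_add_left, W_smul_left, W_comm (p0 a1 a2 l1 l2), W_r_p0, W_r_r]; ring
  have hp2 : W p (wed a2 l2) = - W (wed a1 a2) (wed l1 l2) := by
    rw [hp, p0, W_add_left, W_add_left, W_smul_left, W_11_22, W_22_22, W_r_22]; ring
  have hp2' : W p (wed a1 l1) = - W (wed a1 a2) (wed l1 l2) := by
    rw [hp, p0, W_add_left, W_add_left, W_smul_left, W_r_11]
    have e1 : W (wed a1 l1) (wed a1 l1) = 0 := W_22_22 a1 l1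
    rw [e1, W_comm (wed a2 l2), W_11_22]; ring
  have hp3 : W p (wed a2 l1) = 0 := by
    rw [hp, p0, W_add_left, W_add_left, W_smul_left, W_11_21, W_22_21, W_r_21]; ring
  have hp3' : W p (wed a1 l2) = 0 := by
    rw [hp, p0, W_add_left, W_add_left, W_smul_left, W_11_12, W_22_12, W_r_12]; ring
  rw [q0, W_sub_right] at h0
  obtain ⟨w0, hw0⟩ : ∃ w0, w0 = W (wed a1 a2) (wed l1 l2) := ⟨_, rfl⟩
  obtain ⟨A, hA⟩ : ∃ A, A = W q (wed a2 l2) := ⟨_, rfl⟩
  obtain ⟨B, hB⟩ : ∃ B, B = W q (wed a1 l1) := ⟨_, rfl⟩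
  obtain ⟨C, hC⟩ : ∃ C, C = W q (wed a2 l1) := ⟨_, rfl⟩
  have hC' : W q (wed a1 l2) = C := by rw [hC]; linarith
  set s : ℝ := √((A - B) ^ 2 + 4 * C ^ 2) with hs
  have hs2 : s ^ 2 = (A - B) ^ 2 + 4 * C ^ 2 := Real.sq_sqrt (by positivity)
  set t : ℝ := (A + B + s) / 2 / w0 with ht
  have hw0' : w0 ≠ 0 := by rw [hw0]; exact hW
  have htw : t * w0 = (A + B + s) / 2 := by rw [ht]; field_simp
  have h2 := laplace ((0 : ℝ) • u + t • p + (1 : ℝ) • q) ((0 : ℝ) • u + t • p + (1 : ℝ) • q)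
    a1 a2 l1 l2
  have e1 : W ((0 : ℝ) • u + t • p + (1 : ℝ) • q) (wed l1 l2) = 0 := by
    simp only [W_add_left, W_smul_left, hp1, hq]; ring
  have e2 : W ((0 : ℝ) • u + t • p + (1 : ℝ) • q) (wed a2 l2) = A - (A + B + s) / 2 := by
    simp only [W_add_left, W_smul_left, hp2, ← hA, ← hw0]; linarith
  have e2' : W ((0 : ℝ) • u + t • p + (1 : ℝ) • q) (wed a1 l1) = B - (A + B + s) / 2 := by
    simp only [W_add_left, W_smul_left, hp2', ← hB, ← hw0]; linarith
  have e3 : W ((0 : ℝ) • u + t • p + (1 : ℝ) • q) (wed a2 l1) = C := by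
    simp only [W_add_left, W_smul_left, hp3, ← hC]; ring
  have e3' : W ((0 : ℝ) • u + t • p + (1 : ℝ) • q) (wed a1 l2) = C := by
    simp only [W_add_left, W_smul_left, hp3', hC']; ring
  rw [e1, e2, e2', e3, e3', ← hw0] at h2
  have h3 : W ((0 : ℝ) • u + t • p + (1 : ℝ) • q) ((0 : ℝ) • u + t • p + (1 : ℝ) • q) = 0 := by
    have : w0 * W ((0 : ℝ) • u + t • p + (1 : ℝ) • q)
      ((0 : ℝ) • u + t • p + (1 : ℝ) • q) = 0 := by rw [h2]; nlinarith
    rcases mul_eq_zero.1 this with h | h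
    · exact absurd h hw0'
    · exact h
  exact hP 0 t 1 (by simp) h3

end Facts

end

end Crest.Agent.R235.TorAlg_68
end

-- ▼ part R235/TorAlg2_68
section

/-!
Row 235 (S0364), package TOR, helper68: pointwise algebra, the three segments.
-/

set_option autoImplicit false
set_option linter.unusedVariables false

namespace Crest.Agent.R235.TorAlg_68

open Crest.Agent.R240

noncomputable section

theorem PT.hD {u p q : Bil} (h : PT u p q) : (W p q / W p p) ^ 2 < W q q / W p p := by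
  have := h.block (x := 0) (z := 1) (by simp)
  simpa using this

theorem PT.hdet {u p q : Bil} (h : PT u p q) :
    (W u q / W p p - W u p / W p p * (W p q / W p p)) ^ 2 <
      (W u u / W p p - (W u p / W p p) ^ 2) * (W q q / W p p - (W p q / W p p) ^ 2) := by
  have hD := h.hD
  obtain ⟨A, hA⟩ : ∃ A, A = W u u / W p p := ⟨_, rfl⟩
  obtain ⟨b, hb⟩ : ∃ b, b = W u p / W p p := ⟨_, rfl⟩
  obtain ⟨d, hd⟩ : ∃ d, d = W u q / W p p := ⟨_, rfl⟩
  obtain ⟨e, he⟩ : ∃ e, e = W p q / W p p := ⟨_, rfl⟩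
  obtain ⟨f, hf⟩ : ∃ f, f = W q q / W p p := ⟨_, rfl⟩
  have h1 := h.block (x := W q q / W p p - (W p q / W p p) ^ 2)
    (z := -(W u q / W p p - W u p / W p p * (W p q / W p p))) (Or.inl (by linarith))
  rw [← hA, ← hb, ← hd, ← he, ← hf] at h1 ⊢
  rw [← he, ← hf] at hD
  have h2 : 0 < (f - e ^ 2) * ((A - b ^ 2) * (f - e ^ 2) - (d - b * e) ^ 2) := by nlinarith
  have h3 : 0 < f - e ^ 2 := by linarith
  have h4 := (pos_iff_pos_of_mul_pos h2).1 h3
  linarith

/-- first segment. -/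
theorem seg1 {u p q r : Bil} {s : ℝ} (hP : PT u p q) (hr : W r r = 0) (hpr : W p r = 0)
    (hqr : W q r = 0) (hs : 0 ≤ s * (W u r / W p p)) : PT (u + s • r) p q := by
  have e1 : W (u + s • r) p = W u p := by
    rw [W_add_left, W_smul_left, W_comm r, hpr]; ring
  have e2 : W (u + s • r) q = W u q := by
    rw [W_add_left, W_smul_left, W_comm r, hqr]; ring
  have e3 : W (u + s • r) (u + s • r) = W u u + 2 * s * W u r := by
    rw [W_add_left, W_smul_left, W_add_right, W_add_right, W_smul_right, W_smul_right, hr,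
      W_comm r u]; ring
  refine PT.of hP.ne hP.hD ?_
  have h1 := hP.hdet
  have h2 := hP.hD
  have h3 : (W u u + 2 * s * W u r) / W p p = W u u / W p p + 2 * (s * (W u r / W p p)) := by
    ring
  rw [e1, e2, e3, h3]
  have h4 : 0 ≤ 2 * (s * (W u r / W p p)) * (W q q / W p p - (W p q / W p p) ^ 2) :=
    mul_nonneg (by linarith) (by linarith)
  nlinarith


section Seg

variable {a1 a2 l1 l2 : E4 →L[ℝ] ℝ} {u p q : Bil} {h : ℝ}

theorem Wpp (hp : p = p0 a1 a2 l1 l2 + h • wed l1 l2) :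
    W p p = W (p0 a1 a2 l1 l2) (p0 a1 a2 l1 l2) := by
  rw [hp, W_add_left, W_add_right, W_add_right, W_smul_left, W_smul_left, W_smul_right,
    W_smul_right, W_r_p0, W_r_r, W_comm (p0 a1 a2 l1 l2) (wed l1 l2), W_r_p0]; ring

theorem Wpp0 (hp : p = p0 a1 a2 l1 l2 + h • wed l1 l2) :
    W p (p0 a1 a2 l1 l2) = W (p0 a1 a2 l1 l2) (p0 a1 a2 l1 l2) := by
  rw [hp, W_add_left, W_smul_left, W_r_p0]; ring

theorem Wpq0 (hp : p = p0 a1 a2 l1 l2 + h • wed l1 l2) :
    W p (q0 a1 a2 l1 l2) = 0 := by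
  rw [hp, W_add_left, W_smul_left, W_r_q0, W_p0_q0]; ring

theorem Wpr (hp : p = p0 a1 a2 l1 l2 + h • wed l1 l2) :
    W p (wed l1 l2) = 0 := by
  rw [hp, W_add_left, W_smul_left, W_r_r, W_comm (p0 a1 a2 l1 l2), W_r_p0]; ring

theorem Wp0q (hp : p = p0 a1 a2 l1 l2 + h • wed l1 l2) (hq : W q (wed l1 l2) = 0) :
    W (p0 a1 a2 l1 l2) q = W p q := by
  rw [hp, W_add_left, W_smul_left, W_comm (wed l1 l2) q, hq]; ring



end Seg

end

end Crest.Agent.R235.TorAlg_68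
end

-- ▼ part R235/TorAlg3_68
section

/-!
Row 235 (S0364), package TOR, helper68: pointwise algebra, the combined second segment.
-/

set_option autoImplicit false
set_option linter.unusedVariables false

namespace Crest.Agent.R235.TorAlg_68

open Crest.Agent.R240

noncomputable section

/-- numerical lemma. -/
theorem num3 {C δ N x y e D : ℝ} (hC : 0 ≤ C) (hδ : 0 < δ) (hx : |x| ≤ C)
    (hy : |y| ≤ C) (he : |e| ≤ C) (hD : δ / 2 ≤ D)
    (hN : C ^ 2 + 2 / δ * (C + C ^ 2) ^ 2 + 1 ≤ N) :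
    (y - x * e) ^ 2 < (N - x ^ 2) * D := by
  have h1 : |y - x * e| ≤ C + C ^ 2 := by
    calc |y - x * e| ≤ |y| + |x * e| := abs_sub _ _
      _ = |y| + |x| * |e| := by rw [abs_mul]
      _ ≤ C + C * C := by gcongr
      _ = C + C ^ 2 := by ring
  have h2 : (y - x * e) ^ 2 ≤ (C + C ^ 2) ^ 2 := by
    rw [← sq_abs]; gcongr
  have h3 : x ^ 2 ≤ C ^ 2 := by rw [← sq_abs]; gcongr
  have h5 : 2 / δ * (C + C ^ 2) ^ 2 + 1 ≤ N - x ^ 2 := by linarith
  have h6 : 0 < 2 / δ * (C + C ^ 2) ^ 2 + 1 := by positivity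
  have h7 : (2 / δ * (C + C ^ 2) ^ 2 + 1) * (δ / 2) ≤ (N - x ^ 2) * D :=
    mul_le_mul h5 hD (by linarith) (by linarith)
  have h8 : (2 / δ * (C + C ^ 2) ^ 2 + 1) * (δ / 2) = (C + C ^ 2) ^ 2 + δ / 2 := by
    field_simp
  linarith

section Seg

variable {a1 a2 l1 l2 : E4 →L[ℝ] ℝ} {u p q : Bil} {h : ℝ}

/-- combined second segment: `(u + K r, p, q) → (K r - ε a1∧a2, p0, τ q0)`, `K = ε K1`. -/
theorem segB {C δ K1 m s τ ε : ℝ} (hW : W (wed a1 a2) (wed l1 l2) ≠ 0)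
    (hp : p = p0 a1 a2 l1 l2 + h • wed l1 l2) (hq : W q (wed l1 l2) = 0)
    (hτ : τ ^ 2 = 1) (hε : ε ^ 2 = 1)
    (hs0 : 0 ≤ s) (hs1 : s ≤ 1) (hC : 0 ≤ C) (hδ : 0 < δ) (hδ1 : δ ≤ 1)
    (h1 : |W u u / W p p| ≤ C) (h2 : |W u p / W p p| ≤ C)
    (h3 : |W u (p0 a1 a2 l1 l2) / W p p| ≤ C) (h4 : |W u q / W p p| ≤ C)
    (h5 : |W u (q0 a1 a2 l1 l2) / W p p| ≤ C) (h6 : |W p q / W p p| ≤ C)
    (h6a : |W (wed a1 a2) u / W p p| ≤ C) (h6b : |W (wed a1 a2) p / W p p| ≤ C)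
    (h6c : |W (wed a1 a2) q / W p p| ≤ C)
    (h7 : δ ≤ W q q / W p p - (W p q / W p p) ^ 2)
    (h8 : 0 ≤ τ * (W q (q0 a1 a2 l1 l2) / W p p))
    (hm : m ≤ ε * (W u (wed l1 l2) / W p p)) (hm2 : m ≤ 1 / 2) (hK1 : 0 ≤ K1) (hm0 : 0 ≤ m)
    (h9 : C ^ 2 + 2 / δ * (C + C ^ 2) ^ 2 + 1 ≤ 2 * (K1 * m) - C) :
    PT ((1 - s) • (u + (ε * K1) • wed l1 l2) + s • ((ε * K1) • wed l1 l2 + (-ε) • wed a1 a2))
      ((1 - s) • p + s • p0 a1 a2 l1 l2)
      ((1 - s) • q + s • (τ • q0 a1 a2 l1 l2)) := by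
  have hF : W p p ≠ 0 := by
    rw [Wpp hp, W_p0_p0]; simpa using hW
  have f1 := Wpp hp
  have f2 := Wpp0 hp
  have f3 := Wpq0 hp
  have f4 := Wpr hp
  have f5 := Wp0q hp hq
  have hRR := W_r_r l1 l2
  have hrp := W_r_p0 a1 a2 l1 l2
  have hrq := W_r_q0 a1 a2 l1 l2
  have hp0q0 := W_p0_q0 a1 a2 l1 l2
  have hq0q0 : W (q0 a1 a2 l1 l2) (q0 a1 a2 l1 l2) = W p p := by
    rw [f1, W_p0_p0, W_q0_q0]
  have hAA : W (wed a1 a2) (wed a1 a2) = 0 := W_r_r a1 a2
  have hAr : W (wed a1 a2) (wed l1 l2) = - W p p / 2 := by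
    rw [f1, W_p0_p0]; ring
  have hAP : W (wed a1 a2) (p0 a1 a2 l1 l2) = 0 := by
    unfold p0 W; simp only [ent_add]; simp only [ent, wed_apply]; ring
  have hAQ : W (wed a1 a2) (q0 a1 a2 l1 l2) = 0 := by
    unfold q0 W; simp only [ent_sub]; simp only [ent, wed_apply]; ring
  generalize hr : wed l1 l2 = r at *
  generalize hP0 : p0 a1 a2 l1 l2 = P0 at *
  generalize hQ0 : q0 a1 a2 l1 l2 = Q0 at *
  generalize hA0 : wed a1 a2 = A at *
  have g1 : W ((1 - s) • p + s • P0) ((1 - s) • p + s • P0) = W p p := by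
    simp only [W_add_left, W_add_right, W_smul_left, W_smul_right]
    rw [W_comm P0 p, f2, ← f1]; ring
  have g2 : W ((1 - s) • p + s • P0) ((1 - s) • q + s • (τ • Q0)) = (1 - s) * W p q := by
    simp only [W_add_left, W_add_right, W_smul_left, W_smul_right]
    rw [f5, f3, hp0q0]; ring
  have g3 : W ((1 - s) • q + s • (τ • Q0)) ((1 - s) • q + s • (τ • Q0)) =
      (1 - s) ^ 2 * W q q + 2 * s * (1 - s) * (τ * W q Q0) + s ^ 2 * W p p := by
    simp only [W_add_left, W_add_right, W_smul_left, W_smul_right]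
    rw [W_comm Q0 q, hq0q0]
    linear_combination s ^ 2 * W p p * hτ
  have g4 : W ((1 - s) • (u + (ε * K1) • r) + s • ((ε * K1) • r + (-ε) • A))
      ((1 - s) • p + s • P0) =
      (1 - s) * ((1 - s) * W u p + s * W u P0 - s * (ε * W A p)) := by
    simp only [W_add_left, W_add_right, W_smul_left, W_smul_right]
    rw [W_comm r p, f4, hrp, hAP]; ring
  have g5 : W ((1 - s) • (u + (ε * K1) • r) + s • ((ε * K1) • r + (-ε) • A))
      ((1 - s) • q + s • (τ • Q0)) =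
      (1 - s) * ((1 - s) * W u q + s * (τ * W u Q0) - s * (ε * W A q)) := by
    simp only [W_add_left, W_add_right, W_smul_left, W_smul_right]
    rw [W_comm r q, hq, hrq, hAQ]; ring
  have g6 : W ((1 - s) • (u + (ε * K1) • r) + s • ((ε * K1) • r + (-ε) • A))
      ((1 - s) • (u + (ε * K1) • r) + s • ((ε * K1) • r + (-ε) • A)) =
      (1 - s) ^ 2 * (W u u + 2 * K1 * (ε * W u r)) + 2 * s * (1 - s) *
        (K1 * (ε * W u r) - ε * W A u + K1 * W p p / 2) + s ^ 2 * (K1 * W p p) := by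
    simp only [W_add_left, W_add_right, W_smul_left, W_smul_right]
    rw [W_comm r u, hRR, W_comm u A, W_comm r A, hAA, hAr]
    linear_combination (s * (1 - s) * K1 * W p p + s ^ 2 * K1 * W p p) * hε
  have habs1 : ∀ {a : ℝ}, a ^ 2 = 1 → |a| = 1 := by
    intro a ha
    have : |a| ^ 2 = 1 := by rw [sq_abs]; exact ha
    exact (pow_eq_one_iff_of_nonneg (abs_nonneg a) two_ne_zero).1 this
  have hτ1 := habs1 hτ
  have hε1 := habs1 hε
  have hs1' : 0 ≤ 1 - s := by linarith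
  -- the quotient D
  have hDD : δ / 2 ≤ ((1 - s) ^ 2 * W q q + 2 * s * (1 - s) * (τ * W q Q0) + s ^ 2 * W p p) / W p p
      - ((1 - s) * W p q / W p p) ^ 2 := by
    have : ((1 - s) ^ 2 * W q q + 2 * s * (1 - s) * (τ * W q Q0) + s ^ 2 * W p p) / W p p
      - ((1 - s) * W p q / W p p) ^ 2 = (1 - s) ^ 2 * (W q q / W p p - (W p q / W p p) ^ 2)
        + 2 * s * (1 - s) * (τ * (W q Q0 / W p p)) + s ^ 2 := by
      field_simp
      ring
    rw [this]
    have e1 : (1 - s) ^ 2 * δ ≤ (1 - s) ^ 2 * (W q q / W p p - (W p q / W p p) ^ 2) :=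
      mul_le_mul_of_nonneg_left h7 (sq_nonneg _)
    have e2 : 0 ≤ 2 * s * (1 - s) * (τ * (W q Q0 / W p p)) := by positivity
    have e3 : s ^ 2 * δ ≤ s ^ 2 * 1 := mul_le_mul_of_nonneg_left hδ1 (sq_nonneg s)
    have e4 : 0 ≤ δ * (1 - 2 * s) ^ 2 := mul_nonneg hδ.le (sq_nonneg _)
    have e5 : (1 - s) ^ 2 * δ + s ^ 2 * δ - δ / 2 = (δ * (1 - 2 * s) ^ 2) / 2 := by ring
    linarith
  have hss : 0 ≤ s * s := mul_nonneg hs0 hs0
  have hb : ∀ {a b c : ℝ}, |a| ≤ C → |b| ≤ C → |c| ≤ C →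
      |(1 - s) * ((1 - s) * a + s * b - s * c)| ≤ C := by
    intro a b c ha hb hc
    have e1 : |(1 - s) * a + s * b - s * c| ≤ (1 + s) * C := by
      calc |(1 - s) * a + s * b - s * c| ≤ |(1 - s) * a + s * b| + |s * c| := abs_sub _ _
        _ ≤ |(1 - s) * a| + |s * b| + |s * c| := by gcongr; exact abs_add_le _ _
        _ = (1 - s) * |a| + s * |b| + s * |c| := by
          rw [abs_mul, abs_mul, abs_mul, abs_of_nonneg hs1', abs_of_nonneg hs0]
        _ ≤ (1 - s) * C + s * C + s * C := by gcongr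
        _ = (1 + s) * C := by ring
    rw [abs_mul, abs_of_nonneg hs1']
    calc (1 - s) * |(1 - s) * a + s * b - s * c| ≤ (1 - s) * ((1 + s) * C) := by gcongr
      _ = C - s * s * C := by ring
      _ ≤ C := by
        have := mul_nonneg hss hC
        linarith
  refine PT.of (by rw [g1]; exact hF) ?_ ?_
  · rw [g1, g2, g3]
    linarith
  · rw [g1, g2, g3, g4, g5, g6]
    have e0 : ((1 - s) ^ 2 * (W u u + 2 * K1 * (ε * W u r)) + 2 * s * (1 - s) *
        (K1 * (ε * W u r) - ε * W A u + K1 * W p p / 2) + s ^ 2 * (K1 * W p p)) / W p p =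
        (1 - s) ^ 2 * (W u u / W p p + 2 * K1 * (ε * (W u r / W p p))) + 2 * s * (1 - s) *
        (K1 * (ε * (W u r / W p p)) - ε * (W A u / W p p) + K1 / 2) + s ^ 2 * K1 := by
      field_simp
    rw [e0]
    refine num3 (e := (1 - s) * W p q / W p p) hC hδ ?_ ?_ ?_ hDD ?_
    · have : (1 - s) * ((1 - s) * W u p + s * W u P0 - s * (ε * W A p)) / W p p =
        (1 - s) * ((1 - s) * (W u p / W p p) + s * (W u P0 / W p p)
          - s * (ε * (W A p / W p p))) := by ring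
      rw [this]
      refine hb h2 h3 ?_
      rw [abs_mul, hε1, one_mul]; exact h6b
    · have : (1 - s) * ((1 - s) * W u q + s * (τ * W u Q0) - s * (ε * W A q)) / W p p =
        (1 - s) * ((1 - s) * (W u q / W p p) + s * (τ * (W u Q0 / W p p))
          - s * (ε * (W A q / W p p))) := by ring
      rw [this]
      refine hb h4 ?_ ?_
      · rw [abs_mul, hτ1, one_mul]; exact h5
      · rw [abs_mul, hε1, one_mul]; exact h6c
    · have : (1 - s) * W p q / W p p = (1 - s) * (W p q / W p p) := by ring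
      rw [this, abs_mul, abs_of_nonneg hs1']
      calc (1 - s) * |W p q / W p p| ≤ 1 * C := by gcongr; linarith
        _ = C := one_mul C
    · -- lower bound of the first entry
      have b1 : -C ≤ W u u / W p p := (abs_le.1 h1).1
      have b2 : -C ≤ -(ε * (W A u / W p p)) := by
        have : |ε * (W A u / W p p)| ≤ C := by rw [abs_mul, hε1, one_mul]; exact h6a
        have := (abs_le.1 this).2
        linarith
      have b3 : K1 * m ≤ K1 * (ε * (W u r / W p p)) := mul_le_mul_of_nonneg_left hm hK1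
      have b4 : K1 * m ≤ K1 * (1 / 2) := mul_le_mul_of_nonneg_left hm2 hK1
      have c1 : (1 - s) ^ 2 * (2 * (K1 * m) - C) ≤
          (1 - s) ^ 2 * (W u u / W p p + 2 * K1 * (ε * (W u r / W p p))) :=
        mul_le_mul_of_nonneg_left (by linarith) (sq_nonneg _)
      have c2 : 2 * s * (1 - s) * (2 * (K1 * m) - C) ≤ 2 * s * (1 - s) *
        (K1 * (ε * (W u r / W p p)) - ε * (W A u / W p p) + K1 / 2) :=
        mul_le_mul_of_nonneg_left (by linarith) (by positivity)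
      have c3 : s ^ 2 * (2 * (K1 * m) - C) ≤ s ^ 2 * K1 :=
        mul_le_mul_of_nonneg_left (by linarith) (sq_nonneg _)
      have c4 : (1 - s) ^ 2 * (2 * (K1 * m) - C) + 2 * s * (1 - s) * (2 * (K1 * m) - C)
        + s ^ 2 * (2 * (K1 * m) - C) = 2 * (K1 * m) - C := by ring
      linarith

end Seg

end

end Crest.Agent.R235.TorAlg_68
end

-- ▼ part R235/TorFlat_68

/-!
Row 235 (S0364), package TOR (helper68): FLATC, a closed coframe adapted to the pair gives a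
hyperkaehler triple by two straight segments.
-/

set_option autoImplicit false
set_option maxSynthPendingDepth 3

open Set Function Filter MeasureTheory
open scoped Manifold ContDiff Topology

universe u

namespace Crest.Agent.R235.TorFlat_68

open Crest.Agent.R240 Crest.Agent.R240.Ch Crest.Agent.R240.Int TorAlg_68

noncomputable section

/-- a nonzero volume from independence. -/
theorem W_ne_of_ind {a0 a1 l0 l1 : E4 →L[ℝ] ℝ}
    (h : ∀ v, l0 v = 0 → l1 v = 0 → a0 v = 0 → a1 v = 0 → v = 0) :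
    W (wed l0 l1) (wed a0 a1) ≠ 0 := by
  change FibLin_129.del l0 l1 a0 a1 ≠ 0
  rw [FibLin_129.del_eq]
  intro h0
  obtain ⟨v, hv, hne⟩ := (Submodule.ne_bot_iff _).1
    (bot_lt_iff_ne_bot.1 (LinearMap.bot_lt_ker_of_det_eq_zero h0))
  have hv' : FibLin_129.cof l0 l1 a0 a1 v = 0 := hv
  apply hne
  apply h
  · rw [← FibLin_129.cof_0 (l0 := l0) (l1 := l1) (a0 := a0) (a1 := a1), hv']; rfl
  · rw [← FibLin_129.cof_1 (l0 := l0) (l1 := l1) (a0 := a0) (a1 := a1), hv']; rfl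
  · rw [← FibLin_129.cof_2 (l0 := l0) (l1 := l1) (a0 := a0) (a1 := a1), hv']; rfl
  · rw [← FibLin_129.cof_3 (l0 := l0) (l1 := l1) (a0 := a0) (a1 := a1), hv']; rfl

section Basic

variable {M : Type u} [TopologicalSpace M] [ChartedSpace E4 M] [IsManifold 𝓘(ℝ, E4) ∞ M]

theorem pos3_iff_PT {w : Trip M} :
    Pos3 w ↔ ∀ x, PT (val (w 0) x) (val (w 1) x) (val (w 2) x) := by
  constructor
  · intro h x a b c habc
    have h1 := h x ![a, b, c] (by
      intro h0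
      have e0 := congrFun h0 0
      have e1 := congrFun h0 1
      have e2 := congrFun h0 2
      simp at e0 e1 e2
      rcases habc with h | h | h
      · exact h e0
      · exact h e1
      · exact h e2)
    rw [Fin.sum_univ_three] at h1
    simpa using h1
  · intro h x c hc
    rw [Fin.sum_univ_three]
    apply h x
    by_contra hcon
    push Not at hcon
    apply hc
    funext i
    fin_cases i
    · exact hcon.1
    · exact hcon.2.1
    · exact hcon.2.2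

end Basic

section Closed

variable {M : Type u} [TopologicalSpace M] [CompactSpace M]
  [ChartedSpace E4 M] [IsManifold 𝓘(ℝ, E4) ∞ M]

omit [CompactSpace M] in
theorem cont_q {F : Z2 M} (hF : Vol (F.1.1 : F2 E4 M)) (a b : Z2 M) :
    Continuous fun x => W (val a x) (val b x) / W (val F x) (val F x) :=
  continuous_qG hF (cont2_coe a) (cont2_coe b)

omit [ChartedSpace E4 M] [IsManifold 𝓘(ℝ, E4) ∞ M] in
theorem exists_bound {f : M → ℝ} (hf : Continuous f) : ∃ C : ℝ, 0 ≤ C ∧ ∀ x, |f x| ≤ C := by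
  obtain ⟨C, hC⟩ := (isCompact_range hf).isBounded.exists_norm_le
  refine ⟨|C|, abs_nonneg C, fun x => ?_⟩
  have := hC (f x) ⟨x, rfl⟩
  rw [Real.norm_eq_abs] at this
  exact this.trans (le_abs_self C)

omit [ChartedSpace E4 M] [IsManifold 𝓘(ℝ, E4) ∞ M] in
theorem exists_lower [Nonempty M] {f : M → ℝ} (hf : Continuous f) (hpos : ∀ x, 0 < f x) :
    ∃ m : ℝ, 0 < m ∧ ∀ x, m ≤ f x := by
  obtain ⟨x0, -, hx0⟩ := isCompact_univ.exists_isMinOn (univ_nonempty (α := M)) hf.continuousOn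
  exact ⟨f x0, hpos x0, fun x => hx0 (mem_univ x)⟩

omit [CompactSpace M] [ChartedSpace E4 M] [IsManifold 𝓘(ℝ, E4) ∞ M] in
theorem exists_sign [ConnectedSpace M] {f : M → ℝ} (hf : Continuous f) (hne : ∀ x, f x ≠ 0) :
    ∃ ε : ℝ, (ε = 1 ∨ ε = -1) ∧ ∀ x, 0 < ε * f x := by
  obtain ⟨x0⟩ : Nonempty M := inferInstance
  have key : ∀ g : M → ℝ, Continuous g → (∀ x, g x ≠ 0) → 0 < g x0 → ∀ x, 0 < g x := by
    intro g hg hgn h0 x
    by_contra hx
    have hx' : g x ≤ 0 := not_lt.1 hx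
    obtain ⟨y, -, hy⟩ := isPreconnected_univ.intermediate_value (mem_univ x) (mem_univ x0)
      hg.continuousOn ⟨hx', h0.le⟩
    exact hgn y hy
  rcases lt_or_gt_of_ne (hne x0) with h | h
  · refine ⟨-1, Or.inr rfl, fun x => ?_⟩
    have := key (fun x => -1 * f x) (continuous_const.mul hf)
      (fun x => mul_ne_zero (by norm_num) (hne x)) (by linarith) x
    exact this
  · exact ⟨1, Or.inl rfl, fun x => by rw [one_mul]; exact key f hf hne h x⟩

set_option maxHeartbeats 2000000 in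
/-- the two segments. -/
theorem flatc_main [ConnectedSpace M] {w : Trip M} (hw : Pos3 w) {l a : Fin 2 → F1 E4 M}
    (hc : Cofr w l a) :
    ∃ w1 w' : Trip M, Seg w w1 ∧ Seg w1 w' ∧ HK w' ∧
      (∃ K : ℝ, w1 1 = w 1 ∧ w1 2 = w 2 ∧
        ∀ x, val (w1 0) x = val (w 0) x + K • wed (at1 (l 0) x) (at1 (l 1) x)) ∧
      ∃ (K c : ℝ), (∀ x, val (w' 0) x = K • wed (at1 (l 0) x) (at1 (l 1) x)
          + c • wed (at1 (a 0) x) (at1 (a 1) x)) ∧
        (∀ x, val (w' 1) x = wed (at1 (a 0) x) (at1 (l 0) x) + wed (at1 (a 1) x) (at1 (l 1) x)) ∧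
        ∃ s : ℝ, (s = 1 ∨ s = -1) ∧ ∀ x, val (w' 2) x =
          s • (wed (at1 (a 1) x) (at1 (l 0) x) - wed (at1 (a 0) x) (at1 (l 1) x)) := by
  have hne : Nonempty M := inferInstance
  have hW : ∀ x, W (wed (at1 (a 0) x) (at1 (a 1) x)) (wed (at1 (l 0) x) (at1 (l 1) x)) ≠ 0 := by
    intro x
    rw [W_comm]
    apply W_ne_of_ind
    intro v h1 h2 h3 h4
    refine hc.ind x v ?_ ?_
    · intro k; fin_cases k
      · exact h1
      · exact h2
    · intro k; fin_cases k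
      · exact h3
      · exact h4
  have hp : ∀ x, ∃ h : ℝ, val (w 1) x = p0 (at1 (a 0) x) (at1 (a 1) x) (at1 (l 0) x) (at1 (l 1) x)
      + h • wed (at1 (l 0) x) (at1 (l 1) x) := fun x => hc.w1 x
  have hq : ∀ x, W (val (w 2) x) (wed (at1 (l 0) x) (at1 (l 1) x)) = 0 := by
    intro x
    have hd : FibLin_129.del (at1 (l 0) x) (at1 (l 1) x) (at1 (a 0) x) (at1 (a 1) x) ≠ 0 := by
      have := hW x
      rwa [W_comm] at this
    obtain ⟨p, q, r, s, m, h⟩ := FibLin_129.expand5 hd (val_alt (w 2) x) (by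
      intro u v h1 h2 h3 h4
      apply hc.w2 x u v
      · intro k; fin_cases k
        · exact h1
        · exact h2
      · intro k; fin_cases k
        · exact h3
        · exact h4)
    rw [h]
    simp only [W_add_left, W_smul_left]
    rw [W_comm (wed (at1 (a 0) x) (at1 (l 0) x)), W_comm (wed (at1 (a 0) x) (at1 (l 1) x)),
      W_comm (wed (at1 (a 1) x) (at1 (l 0) x)), W_comm (wed (at1 (a 1) x) (at1 (l 1) x)),
      W_r_11, W_r_12, W_r_21, W_r_22, W_r_r]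
    ring
  have hPT := pos3_iff_PT.1 hw
  have hV : Vol ((w 1).1.1 : F2 E4 M) := hw.vol 1
  -- the forms
  obtain ⟨r, hr⟩ := exists_wz (hc.cl 0) (hc.cl 1)
  obtain ⟨A, hA⟩ := exists_wz (hc.ca 0) (hc.ca 1)
  obtain ⟨b00, hb00⟩ := exists_wz (hc.ca 0) (hc.cl 0)
  obtain ⟨b11, hb11⟩ := exists_wz (hc.ca 1) (hc.cl 1)
  obtain ⟨b10, hb10⟩ := exists_wz (hc.ca 1) (hc.cl 0)
  obtain ⟨b01, hb01⟩ := exists_wz (hc.ca 0) (hc.cl 1)
  have hP : ∀ x, val (b00 + b11) x =
      p0 (at1 (a 0) x) (at1 (a 1) x) (at1 (l 0) x) (at1 (l 1) x) := by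
    intro x; rw [val_add, hb00, hb11]; rfl
  have hQ : ∀ x, val (b10 - b01) x =
      q0 (at1 (a 0) x) (at1 (a 1) x) (at1 (l 0) x) (at1 (l 1) x) := by
    intro x; rw [val_sub, hb10, hb01]; rfl
  generalize hPe : b00 + b11 = P at hP
  generalize hQe : b10 - b01 = Q at hQ
  -- constants
  have hbd : ∀ b c : Z2 M, ∃ C : ℝ, 0 ≤ C ∧
      ∀ x, |W (val b x) (val c x) / W (val (w 1) x) (val (w 1) x)| ≤ C := fun b c =>
    exists_bound (cont_q hV b c)
  choose Cf hC0 hCf using hbd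
  obtain ⟨C, hC⟩ : ∃ C, C = Cf (w 0) (w 0) + Cf (w 0) (w 1) + Cf (w 0) P + Cf (w 0) (w 2)
    + Cf (w 0) Q + Cf (w 1) (w 2) + Cf A (w 0) + Cf A (w 1) + Cf A (w 2) := ⟨_, rfl⟩
  have d1 := hC0 (w 0) (w 0)
  have d2 := hC0 (w 0) (w 1)
  have d3 := hC0 (w 0) P
  have d4 := hC0 (w 0) (w 2)
  have d5 := hC0 (w 0) Q
  have d6 := hC0 (w 1) (w 2)
  have d7 := hC0 A (w 0)
  have d8 := hC0 A (w 1)
  have d9 := hC0 A (w 2)
  have hCn : 0 ≤ C := by rw [hC]; linarith
  obtain ⟨δ1, hδ1, hδ⟩ := exists_lower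
    (f := fun x => W (val (w 2) x) (val (w 2) x) / W (val (w 1) x) (val (w 1) x)
      - (W (val (w 1) x) (val (w 2) x) / W (val (w 1) x) (val (w 1) x)) ^ 2)
    ((cont_q hV (w 2) (w 2)).sub ((cont_q hV (w 1) (w 2)).pow 2))
    (fun x => by have := (hPT x).hD; linarith)
  obtain ⟨ε, hε, hεp⟩ := exists_sign (cont_q hV (w 0) r) (fun x => by
    obtain ⟨h, hh⟩ := hp x
    refine div_ne_zero ?_ (hPT x).ne
    rw [hr]
    exact ne_ur (hW x) (hPT x) hh (hq x))
  obtain ⟨τ, hτ, hτp⟩ := exists_sign (cont_q hV (w 2) Q) (fun x => by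
    obtain ⟨h, hh⟩ := hp x
    refine div_ne_zero ?_ (hPT x).ne
    rw [hQ]
    exact ne_qq (hW x) (hPT x) hh (hq x))
  obtain ⟨m1, hm1, hm⟩ := exists_lower
    (f := fun x => ε * (W (val (w 0) x) (val r x) / W (val (w 1) x) (val (w 1) x)))
    (continuous_const.mul (cont_q hV (w 0) r)) hεp
  have hε2 : ε ^ 2 = 1 := by rcases hε with h | h <;> rw [h] <;> norm_num
  have hτ2 : τ ^ 2 = 1 := by rcases hτ with h | h <;> rw [h] <;> norm_num
  obtain ⟨δ, hδe⟩ : ∃ δ, δ = min δ1 1 := ⟨_, rfl⟩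
  have hδ0 : 0 < δ := by rw [hδe]; exact lt_min hδ1 one_pos
  obtain ⟨m, hme⟩ : ∃ m, m = min m1 (1 / 2) := ⟨_, rfl⟩
  have hm0 : 0 < m := by rw [hme]; exact lt_min hm1 (by norm_num)
  obtain ⟨K1, hK1⟩ : ∃ K1, K1 = (C ^ 2 + 2 / δ * (C + C ^ 2) ^ 2 + 1 + C) / (2 * m) := ⟨_, rfl⟩
  have hK1p : 0 < K1 := by rw [hK1]; positivity
  have hK1e : 2 * (K1 * m) = C ^ 2 + 2 / δ * (C + C ^ 2) ^ 2 + 1 + C := by
    rw [hK1]; field_simp
  refine ⟨![w 0 + (ε * K1) • r, w 1, w 2], ![(ε * K1) • r + (-ε) • A, P, τ • Q], ?_, ?_, ?_, ?_, ?_⟩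
  · -- first segment
    intro t ht0 ht1
    rw [pos3_iff_PT]
    intro x
    simp only [val_seg]
    have e0 : (1 - t) • val (w 0) x + t • val ((![w 0 + (ε * K1) • r, w 1, w 2] : Trip M) 0) x =
        val (w 0) x + (t * (ε * K1)) • wed (at1 (l 0) x) (at1 (l 1) x) := by
      change (1 - t) • val (w 0) x + t • val (w 0 + (ε * K1) • r) x = _
      rw [val_add, val_smul, hr]
      module
    have e1 : (1 - t) • val (w 1) x + t • val ((![w 0 + (ε * K1) • r, w 1, w 2] : Trip M) 1) x =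
        val (w 1) x := by
      change (1 - t) • val (w 1) x + t • val (w 1) x = _
      module
    have e2 : (1 - t) • val (w 2) x + t • val ((![w 0 + (ε * K1) • r, w 1, w 2] : Trip M) 2) x =
        val (w 2) x := by
      change (1 - t) • val (w 2) x + t • val (w 2) x = _
      module
    rw [e0, e1, e2]
    obtain ⟨h, hh⟩ := hp x
    refine seg1 (hPT x) (W_r_r _ _) (Wpr hh) (hq x) ?_
    have := hεp x
    rw [hr] at this
    have h2 : t * (ε * K1) * (W (val (w 0) x) (wed (at1 (l 0) x) (at1 (l 1) x)) /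
        W (val (w 1) x) (val (w 1) x)) = t * K1 * (ε * (W (val (w 0) x)
          (wed (at1 (l 0) x) (at1 (l 1) x)) / W (val (w 1) x) (val (w 1) x))) := by ring
    rw [h2]
    exact mul_nonneg (mul_nonneg ht0 hK1p.le) this.le
  · -- second segment
    intro s hs0 hs1
    rw [pos3_iff_PT]
    intro x
    simp only [val_seg]
    have e0 : (1 - s) • val ((![w 0 + (ε * K1) • r, w 1, w 2] : Trip M) 0) x +
        s • val ((![(ε * K1) • r + (-ε) • A, P, τ • Q] : Trip M) 0) x =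
        (1 - s) • (val (w 0) x + (ε * K1) • wed (at1 (l 0) x) (at1 (l 1) x)) +
        s • ((ε * K1) • wed (at1 (l 0) x) (at1 (l 1) x)
          + (-ε) • wed (at1 (a 0) x) (at1 (a 1) x)) := by
      change (1 - s) • val (w 0 + (ε * K1) • r) x + s • val ((ε * K1) • r + (-ε) • A) x = _
      rw [val_add, val_add, val_smul, val_smul, hr, hA]
    have e1 : (1 - s) • val ((![w 0 + (ε * K1) • r, w 1, w 2] : Trip M) 1) x +
        s • val ((![(ε * K1) • r + (-ε) • A, P, τ • Q] : Trip M) 1) x =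
        (1 - s) • val (w 1) x + s • p0 (at1 (a 0) x) (at1 (a 1) x) (at1 (l 0) x) (at1 (l 1) x) := by
      change (1 - s) • val (w 1) x + s • val P x = _
      rw [hP]
    have e2 : (1 - s) • val ((![w 0 + (ε * K1) • r, w 1, w 2] : Trip M) 2) x +
        s • val ((![(ε * K1) • r + (-ε) • A, P, τ • Q] : Trip M) 2) x =
        (1 - s) • val (w 2) x +
        s • (τ • q0 (at1 (a 0) x) (at1 (a 1) x) (at1 (l 0) x) (at1 (l 1) x)) := by
      change (1 - s) • val (w 2) x + s • val (τ • Q) x = _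
      rw [val_smul, hQ]
    rw [e0, e1, e2]
    obtain ⟨h, hh⟩ := hp x
    have k1 := hCf (w 0) (w 0) x
    have k2 := hCf (w 0) (w 1) x
    have k3 := hCf (w 0) P x
    have k4 := hCf (w 0) (w 2) x
    have k5 := hCf (w 0) Q x
    have k6 := hCf (w 1) (w 2) x
    have k7 := hCf A (w 0) x
    have k8 := hCf A (w 1) x
    have k9 := hCf A (w 2) x
    rw [hP] at k3
    rw [hQ] at k5
    rw [hA] at k7 k8 k9
    have kε := hm x
    rw [hr] at kε
    have kτ := hτp x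
    rw [hQ] at kτ
    have kδ := hδ x
    refine segB (C := C) (δ := δ) (m := m) (hW x) hh (hq x) hτ2 hε2 hs0 hs1 hCn hδ0
      (by rw [hδe]; exact min_le_right _ _)
      (k1.trans (by rw [hC]; linarith)) (k2.trans (by rw [hC]; linarith))
      (k3.trans (by rw [hC]; linarith)) (k4.trans (by rw [hC]; linarith))
      (k5.trans (by rw [hC]; linarith)) (k6.trans (by rw [hC]; linarith))
      (k7.trans (by rw [hC]; linarith)) (k8.trans (by rw [hC]; linarith))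
      (k9.trans (by rw [hC]; linarith)) ?_ kτ.le ?_ ?_ hK1p.le hm0.le ?_
    · exact le_trans (by rw [hδe]; exact min_le_left _ _) kδ
    · exact le_trans (by rw [hme]; exact min_le_left _ _) kε
    · rw [hme]; exact min_le_right _ _
    · rw [hK1e]; linarith
  · -- hyperkaehler
    refine ⟨Matrix.diagonal ![K1, 1, 1], ?_, fun x =>
      ⟨W (val P x) (val P x), ?_⟩⟩
    · refine Matrix.posDef_diagonal_iff.2 fun i => ?_
      fin_cases i
      · exact hK1p
      · exact one_pos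
      · exact one_pos
    · have v0 : val ((![(ε * K1) • r + (-ε) • A, P, τ • Q] : Trip M) 0) x =
          (ε * K1) • wed (at1 (l 0) x) (at1 (l 1) x)
            + (-ε) • wed (at1 (a 0) x) (at1 (a 1) x) := by
        change val ((ε * K1) • r + (-ε) • A) x = _
        rw [val_add, val_smul, val_smul, hr, hA]
      have v1 : val ((![(ε * K1) • r + (-ε) • A, P, τ • Q] : Trip M) 1) x =
          p0 (at1 (a 0) x) (at1 (a 1) x) (at1 (l 0) x) (at1 (l 1) x) := by
        change val P x = _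
        rw [hP]
      have v2 : val ((![(ε * K1) • r + (-ε) • A, P, τ • Q] : Trip M) 2) x =
          τ • q0 (at1 (a 0) x) (at1 (a 1) x) (at1 (l 0) x) (at1 (l 1) x) := by
        change val (τ • Q) x = _
        rw [val_smul, hQ]
      have t1 := W_r_r (at1 (l 0) x) (at1 (l 1) x)
      have t2 := W_r_r (at1 (a 0) x) (at1 (a 1) x)
      have t3 := W_r_p0 (at1 (a 0) x) (at1 (a 1) x) (at1 (l 0) x) (at1 (l 1) x)
      have t4 := W_r_q0 (at1 (a 0) x) (at1 (a 1) x) (at1 (l 0) x) (at1 (l 1) x)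
      have t5 := W_p0_q0 (at1 (a 0) x) (at1 (a 1) x) (at1 (l 0) x) (at1 (l 1) x)
      have t6 := W_p0_p0 (at1 (a 0) x) (at1 (a 1) x) (at1 (l 0) x) (at1 (l 1) x)
      have t7 := W_q0_q0 (at1 (a 0) x) (at1 (a 1) x) (at1 (l 0) x) (at1 (l 1) x)
      have t8 : W (wed (at1 (a 0) x) (at1 (a 1) x))
          (p0 (at1 (a 0) x) (at1 (a 1) x) (at1 (l 0) x) (at1 (l 1) x)) = 0 := by
        unfold p0 W; simp only [ent_add]; simp only [ent, wed_apply]; ring
      have t9 : W (wed (at1 (a 0) x) (at1 (a 1) x))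
          (q0 (at1 (a 0) x) (at1 (a 1) x) (at1 (l 0) x) (at1 (l 1) x)) = 0 := by
        unfold q0 W; simp only [ent_sub]; simp only [ent, wed_apply]; ring
      have s00 : W (val ((![(ε * K1) • r + (-ε) • A, P, τ • Q] : Trip M) 0) x)
          (val ((![(ε * K1) • r + (-ε) • A, P, τ • Q] : Trip M) 0) x) =
          W (val P x) (val P x) * K1 := by
        rw [v0, hP, t6]
        simp only [W_add_left, W_add_right, W_smul_left, W_smul_right]
        rw [t1, t2, W_comm (wed (at1 (l 0) x) (at1 (l 1) x))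
          (wed (at1 (a 0) x) (at1 (a 1) x))]
        linear_combination (-2 * K1 * W (wed (at1 (a 0) x) (at1 (a 1) x))
          (wed (at1 (l 0) x) (at1 (l 1) x))) * hε2
      have s11 : W (val ((![(ε * K1) • r + (-ε) • A, P, τ • Q] : Trip M) 1) x)
          (val ((![(ε * K1) • r + (-ε) • A, P, τ • Q] : Trip M) 1) x) =
          W (val P x) (val P x) * 1 := by
        rw [v1, hP, mul_one]
      have s22 : W (val ((![(ε * K1) • r + (-ε) • A, P, τ • Q] : Trip M) 2) x)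
          (val ((![(ε * K1) • r + (-ε) • A, P, τ • Q] : Trip M) 2) x) =
          W (val P x) (val P x) * 1 := by
        rw [v2, hP, W_smul_left, W_smul_right, t6, t7]
        linear_combination (-2 * W (wed (at1 (a 0) x) (at1 (a 1) x))
          (wed (at1 (l 0) x) (at1 (l 1) x))) * hτ2
      have s01 : W (val ((![(ε * K1) • r + (-ε) • A, P, τ • Q] : Trip M) 0) x)
          (val ((![(ε * K1) • r + (-ε) • A, P, τ • Q] : Trip M) 1) x) = 0 := by
        rw [v0, v1]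
        simp only [W_add_left, W_smul_left]
        rw [t3, t8]; ring
      have s02 : W (val ((![(ε * K1) • r + (-ε) • A, P, τ • Q] : Trip M) 0) x)
          (val ((![(ε * K1) • r + (-ε) • A, P, τ • Q] : Trip M) 2) x) = 0 := by
        rw [v0, v2]
        simp only [W_add_left, W_smul_left, W_smul_right]
        rw [t4, t9]; ring
      have s12 : W (val ((![(ε * K1) • r + (-ε) • A, P, τ • Q] : Trip M) 1) x)
          (val ((![(ε * K1) • r + (-ε) • A, P, τ • Q] : Trip M) 2) x) = 0 := by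
        rw [v1, v2, W_smul_right, t5]; ring
      intro i j
      fin_cases i <;> fin_cases j
      · simpa using s00
      · simpa using s01
      · simpa using s02
      · rw [W_comm]; simpa using s01
      · simpa using s11
      · simpa using s12
      · rw [W_comm]; simpa using s02
      · rw [W_comm]; simpa using s12
      · change W (val ((![(ε * K1) • r + (-ε) • A, P, τ • Q] : Trip M) 2) x)
          (val ((![(ε * K1) • r + (-ε) • A, P, τ • Q] : Trip M) 2) x) =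
          W (val P x) (val P x) * 1
        exact s22
  · refine ⟨ε * K1, rfl, rfl, fun x => ?_⟩
    change val (w 0 + (ε * K1) • r) x = _
    rw [val_add, val_smul, hr]
  · refine ⟨ε * K1, -ε, fun x => ?_, fun x => ?_, τ, hτ, fun x => ?_⟩
    · change val ((ε * K1) • r + (-ε) • A) x = _
      rw [val_add, val_smul, val_smul, hr, hA]
    · change val P x = _
      rw [hP]; rfl
    · change val (τ • Q) x = _
      rw [val_smul, hQ]; rfl

end Closed

/-- FLATC. -/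
theorem flatc : FLATC.{u} := by
  intro M _ _ _ _ _ _ w hw l a hc
  exact flatc_main hw hc

end

end Crest.Agent.R235.TorFlat_68
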