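import Crest.Agent.R235.JPos_225_Mg
import Crest.Agent.R235.TorFlat_68_Mg
import Crest.Agent.R235.CurDefs_132
import Crest.Agent.R235.Glob8_370
import Crest.Agent.R235.AdjGen_83
import Crest.Agent.R235.FBoxB_130
import Crest.Agent.R235.AdjBox_43
import Crest.Agent.R235.Dm_61
import Crest.Agent.R235.AdjNodes_43
import Crest.Agent.R235.Field_910
import Crest.Agent.R235.Ip_288
import Crest.Agent.R240.Cmp
import Crest.Agent.R235.TorMinA_510
import Crest.Agent.R235.HZLat_524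
import Crest.Agent.R235.AdjDefs_43
import Crest.Agent.R235.Spray_417
import Crest.Agent.R235.Loc_524

-- ▼ part R235/Tor3_225
section

/-!
Row 235 (S0364), PACKAGE TOR (leader helper225): assembly of `TORR` and of the foliation `ATLAS`
(the latter is also consumed by KUM) from the open nodes.
-/

set_option autoImplicit false
set_option maxSynthPendingDepth 3

universe u

namespace Crest.Agent.R235.Tor3_225

open Crest.Agent.R235 Crest.Agent.R235.Swc

/-- `CPOS` is a theorem. -/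
theorem cpos : CPOS.{u} := fun _ _ _ _ _ _ _ _ _ _ hJ c => JPos_225.T_pos hJ c

theorem torlim (hL : LIMT.{u}) (h2 : T2S.{u}) (hJ : JINT.{u}) (hR : Adj.RSEC.{u})
    (hA : Adj.ADJ.{u}) (hC : CLS.{u}) (hE : EXJ.{u}) : TORLIM.{u} :=
  torlim_of hL h2 hJ (jtor_of hR hA) cpos hC hE

theorem atlas (hF : TorFam_384.FAM) (hI : INTT.{u}) (hL : LIMT.{u}) (h2 : T2S.{u})
    (hJ : JINT.{u}) (hR : Adj.RSEC.{u}) (hA : Adj.ADJ.{u}) (hC : CLS.{u}) (hE : EXJ.{u}) :
    ATLAS.{u} :=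
  Tor2_225.atlas_of (LocTube_153.loctube_of hF) hI (torlim hL h2 hJ hR hA hC hE)


end Crest.Agent.R235.Tor3_225
end

-- ▼ part R235/CurLim_510
section

/-!
Row 235 (S0364), task 349 (CUR LIM), helper510: almost monotonicity implies that the limit of the
mollified density ratios exists.
-/

set_option autoImplicit false
set_option maxSynthPendingDepth 3

open Set Function Filter MeasureTheory Metric
open scoped ContDiff ENNReal Manifold Topology

namespace Crest.Agent.R235.CurLim_510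

open Crest.Agent.R240 Crest.Agent.R240.En Crest.Agent.R240.Pot Crest.Agent.R235.CurDefs_132

noncomputable section

/-- an almost monotone function bounded below has a limit at `0+`. -/
theorem exists_lim {f : ℝ → ℝ} {C r1 : ℝ} (hC : 0 ≤ C) (hr1 : 0 < r1)
    (h1 : ∀ r r', 0 < r → r < r' → r' ≤ r1 → f r ≤ f r' + C * r') (h0 : ∀ r, 0 < r → 0 ≤ f r) :
    ∃ l : ℝ, Tendsto f (𝓝[>] 0) (𝓝 l) := by
  let S : Set ℝ := (fun r => f r + C * r) '' (Ioc 0 r1)
  have hne : S.Nonempty := ⟨_, mem_image_of_mem _ (right_mem_Ioc.2 hr1)⟩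
  have hbd : BddBelow S := by
    refine ⟨0, ?_⟩
    rintro _ ⟨r, hr, rfl⟩
    have := h0 r hr.1
    have := mul_nonneg hC hr.1.le
    simp only
    linarith
  refine ⟨sInf S, ?_⟩
  rw [Metric.tendsto_nhdsWithin_nhds]
  intro ε hε
  obtain ⟨_, ⟨r0, hr0, rfl⟩, hlt⟩ := exists_lt_of_csInf_lt hne (show sInf S < sInf S + ε by linarith)
  simp only at hlt
  refine ⟨min r0 (ε / (C + 1)), lt_min hr0.1 (by positivity), ?_⟩
  intro r hr hd
  rw [mem_Ioi] at hr
  rw [Real.dist_eq, sub_zero, abs_of_pos hr] at hd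
  have hra : r < r0 := lt_of_lt_of_le hd (min_le_left _ _)
  have hrb : r < ε / (C + 1) := lt_of_lt_of_le hd (min_le_right _ _)
  have hup := h1 r r0 hr hra hr0.2
  have hlo : sInf S ≤ f r + C * r := csInf_le hbd ⟨r, ⟨hr, hra.le.trans hr0.2⟩, rfl⟩
  have hC1 : 0 < C + 1 := by linarith
  have hrc : r * (C + 1) < ε := by
    rwa [lt_div_iff₀ hC1] at hrb
  rw [Real.dist_eq, abs_lt]
  constructor
  · nlinarith
  · linarith

/-- `rho2` is jointly continuous. -/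
theorem cont_rho2 (D : LC) : Continuous (fun z : E4 × E4 => D.rho2 z.1 z.2) := by
  have hJ : Continuous D.J := D.smJ.continuous
  have hF : Continuous D.F := D.smF.continuous
  unfold LC.rho2 LC.G
  simp only [gm_apply]
  have hx : Continuous fun z : E4 × E4 => D.F z.1 (z.2 - z.1) (D.J z.1 (z.2 - z.1)) := by
    fun_prop
  have hy : Continuous fun z : E4 × E4 => D.F z.2 (z.2 - z.1) (D.J z.2 (z.2 - z.1)) := by
    fun_prop
  fun_prop

theorem meas_nuR (D : LC) {δ : ℝ} {K : ℝ → ℝ} (hK : Cut δ K) (r : ℝ) :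
    Measurable (D.nuR K r) := by
  have := D.fin
  have hc : Continuous (fun z : E4 × E4 => K (D.rho2 z.1 z.2 / r ^ 2)) :=
    hK.smooth.continuous.comp ((cont_rho2 D).div_const _)
  have h := hc.measurable.stronglyMeasurable.integral_prod_right' (ν := D.s)
  exact h.measurable.const_mul _

/-- **LIM: the limit exists.** -/
theorem lim (h : MON) : LIM := by
  intro D δ K hδ hδ1 hK
  obtain ⟨C, r1, hC, hr1, hm, hb, -⟩ := h D δ K hδ hδ1 hK
  have hpos : ∀ n : ℕ, (0 : ℝ) < 1 / ((n : ℝ) + 1) := fun n => by positivity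
  let N : ℕ → E4 → ℝ := fun n x => D.nuR K (1 / ((n : ℝ) + 1)) x
  have hN0 : ∀ n x, 0 ≤ N n x := fun n x => (hb x _ (hpos n)).1
  have hNC : ∀ n x, N n x ≤ C := fun n x => (hb x _ (hpos n)).2
  refine ⟨fun x => limsup (fun n => N n x) atTop, ?_, ⟨C, fun x => ⟨?_, ?_⟩⟩, ?_⟩
  · exact Measurable.limsup fun n => meas_nuR D hK _
  · refine le_limsup_of_frequently_le (Frequently.of_forall fun n => hN0 n x) ?_
    exact isBoundedUnder_of ⟨C, fun n => hNC n x⟩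
  · refine limsup_le_of_le ?_ (Eventually.of_forall fun n => hNC n x)
    exact (isBoundedUnder_of ⟨0, fun n => hN0 n x⟩ : IsBoundedUnder (· ≥ ·) atTop
      fun n => N n x).isCoboundedUnder_le
  · intro x hx
    obtain ⟨l, hl⟩ := exists_lim hC hr1 (hm x hx) (fun r hr => (hb x r hr).1)
    have hseq : Tendsto (fun n : ℕ => (1 : ℝ) / ((n : ℝ) + 1)) atTop (𝓝[>] 0) :=
      tendsto_nhdsWithin_iff.2 ⟨tendsto_one_div_add_atTop_nhds_zero_nat,
        Eventually.of_forall fun n => hpos n⟩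
    have := (hl.comp hseq).limsup_eq
    have e : limsup (fun n => N n x) atTop = l := this
    simp only [e]
    exact hl

end

end Crest.Agent.R235.CurLim_510
end

-- ▼ part R235/SameC_796
section

/-!
Row 235 (S0364), package ADJ, node JSAME (helper796), part C: **the current of a `J`-curve is
determined by its support** (`cur_unique`).
-/

set_option autoImplicit false
set_option maxSynthPendingDepth 3
set_option linter.unusedSectionVars false

open Set Function Filter MeasureTheory Metric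
open scoped Manifold ContDiff Topology

universe u

namespace Crest.Agent.R235.Same_796

open Crest.Agent.R240 Crest.Agent.R240.Ch
open Crest.Agent.R235 Crest.Agent.R235.Glob_370

noncomputable section

variable {M : Type u} [TopologicalSpace M] [ChartedSpace E4 M] [IsManifold 𝓘(ℝ, E4) ∞ M]
variable {J : EndF E4 M} {S : Set M} {p : M}

/-- the part of the disc `j` of `L` on the disc `k` of `L'`. -/
def DD (L L' : LocForm J S p) (j : Fin L.n) (k : Fin L'.n) : Set ℂ :=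
  {z | z ∈ ball (0 : ℂ) 1 ∧ z ≠ 0 ∧ L.u j z ∈ L'.u k '' ball (0 : ℂ) 1}

variable [T2Space M] [LocallyCompactSpace M]

theorem DD_ne (L : LocForm J S p) (j : Fin L.n) {z : ℂ} (hz : z ∈ ball (0 : ℂ) 1) (h0 : z ≠ 0) :
    L.u j z ≠ p := fun h => h0 (L.at_centre j hz h)

theorem isOpen_DD (L L' : LocForm J S p) (j : Fin L.n) (k : Fin L'.n) : IsOpen (DD L L' j k) := by
  rw [isOpen_iff_mem_nhds]
  rintro z ⟨hz, h0, hk⟩
  have hzU : L.u j z ∈ L'.U := by
    obtain ⟨w, hw, h⟩ := hk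
    rw [← h]; exact (L'.maps k hw).2
  obtain ⟨k', r, hr, hrO, hk'⟩ := L'.exists_fac isOpen_ball (L.disc j).hol (L.disc j).inj
    (fun w hw => (L.maps j hw).1) hz hzU
  have hkk : k' = k := by
    by_contra hne
    obtain ⟨w, hw, h⟩ := hk
    obtain ⟨w', hw', h'⟩ := hk' z (mem_ball_self hr)
    exact DD_ne L j hz h0 (h'.symm.trans (L'.disj' hne hw' hw (h'.trans h.symm)))
  subst hkk
  filter_upwards [isOpen_ball.mem_nhds (mem_ball_self (x := z) hr), isOpen_ne.mem_nhds h0]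
    with w hw hw0
  exact ⟨hrO hw, hw0, hk' w hw⟩

/-- the transition map. -/
def tt (L L' : LocForm J S p) (j : Fin L.n) (k : Fin L'.n) (z : ℂ) : ℂ := L'.fac k (L.u j) z

section tt

variable (L L' : LocForm J S p) (j : Fin L.n) (k : Fin L'.n)

theorem tt_hol_aux : IsJHol J (L.u j) (DD L L' j k) := (L.disc j).hol.mono fun _ hz => hz.1

theorem tt_mem {z : ℂ} (hz : z ∈ DD L L' j k) : tt L L' j k z ∈ ball (0 : ℂ) 1 :=
  L'.fac_mem k (fun w (hw : w ∈ DD L L' j k) => hw.2.2) hz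

theorem tt_eq {z : ℂ} (hz : z ∈ DD L L' j k) : L'.u k (tt L L' j k z) = L.u j z :=
  L'.fac_eq k (fun w (hw : w ∈ DD L L' j k) => hw.2.2) hz

theorem tt_diff : DifferentiableOn ℂ (tt L L' j k) (DD L L' j k) :=
  L'.fac_hol k (isOpen_DD L L' j k) (tt_hol_aux L L' j k)
    ((L.disc j).inj.mono fun _ hz => hz.1) fun _ hw => hw.2.2

theorem tt_inj : InjOn (tt L L' j k) (DD L L' j k) :=
  L'.fac_inj k ((L.disc j).inj.mono fun _ hz => hz.1) fun _ hw => hw.2.2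

theorem tt_mem_DD {z : ℂ} (hz : z ∈ DD L L' j k) : tt L L' j k z ∈ DD L' L k j := by
  refine ⟨tt_mem L L' j k hz, fun h0 => ?_, ?_⟩
  · have h1 := tt_eq L L' j k hz
    rw [h0, L'.centre] at h1
    exact DD_ne L j hz.1 hz.2.1 h1.symm
  · rw [tt_eq L L' j k hz]
    exact ⟨z, hz.1, rfl⟩

theorem tt_tt {z : ℂ} (hz : z ∈ DD L L' j k) : tt L' L k j (tt L L' j k z) = z := by
  have h1 := tt_mem_DD L L' j k hz
  refine (L.disc j).inj (tt_mem L' L k j h1) hz.1 ?_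
  rw [tt_eq L' L k j h1, tt_eq L L' j k hz]

theorem tt_image : tt L L' j k '' DD L L' j k = DD L' L k j := by
  ext w
  constructor
  · rintro ⟨z, hz, rfl⟩
    exact tt_mem_DD L L' j k hz
  · intro hw
    exact ⟨tt L' L k j w, tt_mem_DD L' L k j hw, tt_tt L' L k j hw⟩

theorem pb_tt {b : F2 E4 M} (hs : Smooth2 b) {z : ℂ} (hz : z ∈ DD L L' j k) :
    pb (L.u j) b z = pb (L'.u k) b (tt L L' j k z) * ‖deriv (tt L L' j k) z‖ ^ 2 := by
  have hn := (isOpen_DD L L' j k).mem_nhds hz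
  have hev : L.u j =ᶠ[𝓝 z] fun w => L'.u k (tt L L' j k w) := by
    filter_upwards [hn] with w hw using (tt_eq L L' j k hw).symm
  rw [Glob_370.pb_congr hev]
  exact Glob_370.pb_comp hs ((L'.disc k).hol.at isOpen_ball (tt_mem L L' j k hz))
    ((tt_diff L L' j k).differentiableAt hn)

/-- change of variables. -/
theorem int_tt {b : F2 E4 M} (hs : Smooth2 b) :
    ∫ z in DD L L' j k, pb (L.u j) b z = ∫ z in DD L' L k j, pb (L'.u k) b z := by
  have hm : MeasurableSet (DD L L' j k) := (isOpen_DD L L' j k).measurableSet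
  have hder : ∀ z ∈ DD L L' j k, HasFDerivWithinAt (tt L L' j k)
      (ContinuousLinearMap.mul ℝ ℂ (deriv (tt L L' j k) z)) (DD L L' j k) z := by
    intro z hz
    have h1 : HasDerivAt (tt L L' j k) (deriv (tt L L' j k) z) z :=
      ((tt_diff L L' j k).differentiableAt ((isOpen_DD L L' j k).mem_nhds hz)).hasDerivAt
    have h2 := h1.complexToReal_fderiv.hasFDerivWithinAt (s := DD L L' j k)
    convert h2 using 1
    ext <;> simp
  rw [← tt_image L L' j k, integral_image_eq_integral_abs_det_fderiv_smul volume hm hder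
    (tt_inj L L' j k)]
  refine setIntegral_congr_fun hm fun z hz => ?_
  rw [det_mulC, abs_of_nonneg (sq_nonneg _), pb_tt L L' j k hs hz, smul_eq_mul, mul_comm]

end tt

/-- the integral over a disc, split by the discs of the other local form. -/
theorem disc_split (L L' : LocForm J S p) (j : Fin L.n) {K : Set M} (hK : IsCompact K)
    (hKU : K ⊆ L.U) (hKU' : K ⊆ L'.U) {b : F2 E4 M} (hs : Smooth2 b)
    (hb : ∀ x ∉ K, at2 b x = 0) :
    ∫ z in ball (0 : ℂ) 1, pb (L.u j) b z = ∑ k, ∫ z in DD L L' j k, pb (L.u j) b z := by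
  have hint := L.int_pb j hK hKU hs hb
  have hsub : (⋃ k, DD L L' j k) ⊆ ball (0 : ℂ) 1 := iUnion_subset fun k z hz => hz.1
  have h0 : ∀ᵐ z : ℂ, z ∈ ball (0 : ℂ) 1 \ (⋃ k, DD L L' j k) → pb (L.u j) b z = 0 := by
    have h1 : ∀ᵐ z : ℂ, z ≠ 0 := by
      rw [ae_iff]
      have : {a : ℂ | ¬ a ≠ 0} = {0} := by ext a; simp
      rw [this]; exact measure_singleton 0
    filter_upwards [h1] with z hz0 hz
    refine pb_zero_of (hb _ fun hzK => hz.2 ?_)
    have h2 : L.u j z ∈ S ∩ L'.U := ⟨(L.maps j hz.1).1, hKU' hzK⟩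
    rw [L'.supp] at h2
    obtain ⟨k, hk⟩ := mem_iUnion.1 h2
    exact mem_iUnion.2 ⟨k, hz.1, hz0, hk⟩
  rw [setIntegral_eq_of_subset_of_ae_sdiff_eq_zero measurableSet_ball.nullMeasurableSet hsub h0,
    integral_iUnion_fintype]
  · exact fun k => (isOpen_DD L L' j k).measurableSet
  · intro k k' hkk
    rw [Function.onFun, Set.disjoint_left]
    rintro z ⟨hz, hz0, w, hw, h⟩ ⟨-, -, w', hw', h'⟩
    exact DD_ne L j hz hz0 (h.symm.trans (L'.disj' hkk hw hw' (h.trans h'.symm)))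
  · exact fun k => hint.mono_set fun z hz => hz.1

/-- **the local current does not depend on the local form.** -/
theorem disc_sum_eq {S' : Set M} (L : LocForm J S p) (L' : LocForm J S' p) (hSS : S = S')
    {K : Set M} (hK : IsCompact K) (hKU : K ⊆ L.U) (hKU' : K ⊆ L'.U) {b : F2 E4 M}
    (hs : Smooth2 b) (hb : ∀ x ∉ K, at2 b x = 0) :
    ∑ j, ∫ z in ball (0 : ℂ) 1, pb (L.u j) b z = ∑ k, ∫ z in ball (0 : ℂ) 1, pb (L'.u k) b z := by
  subst hSS
  have e1 : ∑ j, ∫ z in ball (0 : ℂ) 1, pb (L.u j) b z =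
      ∑ j, ∑ k, ∫ z in DD L L' j k, pb (L.u j) b z :=
    Finset.sum_congr rfl fun j _ => disc_split L L' j hK hKU hKU' hs hb
  have e2 : ∑ k, ∫ z in ball (0 : ℂ) 1, pb (L'.u k) b z =
      ∑ k, ∑ j, ∫ z in DD L' L k j, pb (L'.u k) b z :=
    Finset.sum_congr rfl fun k _ => disc_split L' L k hK hKU' hKU hs hb
  rw [e1, e2, Finset.sum_comm]
  exact Finset.sum_congr rfl fun k _ => Finset.sum_congr rfl fun j _ => int_tt L L' j k hs

/-- **two `J`-curves with the same image have the same current.** -/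
theorem cur_unique [CompactSpace M] (c c' : JCurve J) (h : range c.f = range c'.f) :
    c.T = c'.T := by
  obtain ⟨t, χ, hχs, hχ1, hχU⟩ := AdjGen_83.exists_pu (fun p => (c.L p).U ∩ (c'.L p).U)
    (fun p => (c.L p).openU.inter (c'.L p).openU) (fun p => ⟨(c.L p).mem, (c'.L p).mem⟩)
  refine LinearMap.ext fun b => ?_
  have h1 : ∑ p ∈ t, fm (χ p) (hχs p) b = b := by
    apply Subtype.ext
    rw [AddSubmonoidClass.coe_finsetSum]
    funext x
    rw [Finset.sum_apply]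
    show ∑ p ∈ t, χ p x • (b.1 : F2 E4 M) x = b.1 x
    rw [← Finset.sum_smul, hχ1, one_smul]
  rw [← h1, map_sum, map_sum]
  refine Finset.sum_congr rfl fun p _ => ?_
  have hz : ∀ x ∉ tsupport (χ p), at2 ((fm (χ p) (hχs p) b).1 : F2 E4 M) x = 0 := by
    intro x hx
    rw [at2_fm, image_eq_zero_of_notMem_tsupport hx, zero_smul]
  have hK : IsCompact (tsupport (χ p)) := (isClosed_tsupport _).isCompact
  rw [c.cur p _ _ hK ((hχU p).trans inter_subset_left) hz,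
    c'.cur p _ _ hK ((hχU p).trans inter_subset_right) hz]
  exact disc_sum_eq (c.L p) (c'.L p) h hK ((hχU p).trans inter_subset_left)
    ((hχU p).trans inter_subset_right) (fm (χ p) (hχs p) b).2 hz

end

end Crest.Agent.R235.Same_796
end

-- ▼ part R235/FBoxC_130
section

/-!
# Row 235 (S0364), PACKAGE ADJ, leaf FBOX, part C (helper130)

`fbox_of : FolStmt → FBOX`.
-/

set_option autoImplicit false
set_option maxSynthPendingDepth 3

open Set Function Filter MeasureTheory Metric Asymptotics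
open scoped Manifold ContDiff Topology

universe u

namespace Crest.Agent.R235.FBoxC_130

open Crest.Agent.R240 Crest.Agent.R240.Ch
open Crest.Agent.R235 Crest.Agent.R235.Glob_370 Crest.Agent.R235.Adj
open Crest.Agent.R235.NWDefs_334 Crest.Agent.R235.FBoxA_130 Crest.Agent.R235.FBoxB_130
open Crest.Agent.R235.BrNF_266

noncomputable section

theorem exists_pos_le {n : ℕ} (r : Fin n → ℝ) (h : ∀ j, 0 < r j) :
    ∃ r0 : ℝ, 0 < r0 ∧ r0 ≤ 1 ∧ ∀ j, r0 ≤ r j := by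
  have h1 : ∀ᶠ t : ℝ in 𝓝[>] 0, ∀ j, t < r j :=
    eventually_all.2 fun j => nhdsWithin_le_nhds (gt_mem_nhds (h j))
  have h2 : ∀ᶠ t : ℝ in 𝓝[>] 0, t < 1 := nhdsWithin_le_nhds (gt_mem_nhds one_pos)
  obtain ⟨t, h3, h4, h5⟩ := (h1.and (h2.and self_mem_nhdsWithin)).exists
  exact ⟨t, h5, h4.le, fun j => (h3 j).le⟩

theorem exists_le {n : ℕ} (C : Fin n → ℝ) (h : ∀ j, 0 ≤ C j) :
    ∃ C0 : ℝ, 0 ≤ C0 ∧ ∀ j, C j ≤ C0 :=
  ⟨∑ j, C j, Finset.sum_nonneg fun j _ => h j,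
    fun j => Finset.single_le_sum (fun i _ => h i) (Finset.mem_univ j)⟩

theorem finrank_E4 : Module.finrank ℝ E4 = 4 := by simp

section Basic

variable {M : Type u} [TopologicalSpace M] [ChartedSpace E4 M] [IsManifold 𝓘(ℝ, E4) ∞ M]

theorem repJ_sq {J : EndF E4 M} (hJ2 : ∀ x v, atJ J x (atJ J x v) = -v) (p : M) {y : E4}
    (hy : y ∈ (chartAt E4 p).target) (v : E4) : repJ p J y (repJ p J y v) = -v := by
  have hx := symm_mem hy
  rw [repJ_apply, repJ_apply, tcc_cancel' hx, hJ2, map_neg, tcc_cancel hx]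

/-- `J`-holomorphy in a chart. -/
theorem hol_chart {J : EndF E4 M} {u : ℂ → M} {z : ℂ}
    (hu : ContMDiffAt 𝓘(ℝ, ℂ) 𝓘(ℝ, E4) ∞ u z)
    (hh : ∀ v : ℂ, dmap u z (Complex.I * v) = atJ J (u z) (dmap u z v)) {p : M}
    (hp : u z ∈ (chartAt E4 p).source) (v : ℂ) :
    fderiv ℝ (fun z => chartAt E4 p (u z)) z (Complex.I * v) =
      repJ p J (chartAt E4 p (u z)) (fderiv ℝ (fun z => chartAt E4 p (u z)) z v) := by
  rw [Dm_61.fderiv_chart hu hp, Dm_61.fderiv_chart hu hp, hh, apply_eq_repJ hp]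

/-- near `p` the curve is made of the small branches. -/
theorem near_lemma [T2Space M] [CompactSpace M] {J : EndF E4 M} (c : JCurve J) (p : M) {r1 : ℝ}
    (hr1 : 0 < r1) :
    ∃ N ∈ 𝓝 p, ∀ x ∈ N, x ∈ range c.f → ∃ j, ∃ s ∈ ball (0 : ℂ) r1, (c.L p).u j s = x := by
  obtain ⟨K, hKn, hKU, hK⟩ := local_compact_nhds ((c.L p).openU.mem_nhds (c.L p).mem)
  choose r hr1' hr using fun j => (c.L p).proper j K hK hKU
  let A : Fin (c.L p).n → Set ℂ := fun j => closedBall 0 (r j) ∩ {z | r1 ≤ ‖z‖}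
  have hA : ∀ j, IsCompact (A j) := fun j =>
    (isCompact_closedBall _ _).inter_right (isClosed_le continuous_const continuous_norm)
  have hAb : ∀ j, A j ⊆ ball 0 1 := fun j z hz => closedBall_subset_ball (hr1' j) hz.1
  have hcont : ∀ j, ContinuousOn ((c.L p).u j) (ball 0 1) := fun j =>
    ((c.L p).disc j).hol.smooth.continuousOn
  have hZ : ∀ j, IsClosed ((c.L p).u j '' A j) := fun j =>
    ((hA j).image_of_continuousOn ((hcont j).mono (hAb j))).isClosed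
  have hp : ∀ j, p ∉ (c.L p).u j '' A j := by
    rintro j ⟨z, hz, hzp⟩
    have h1 : z = 0 := ((c.L p).disc j).inj (hAb j hz) (mem_ball_self one_pos) (by
      rw [hzp, (c.L p).centre j])
    have h2 : r1 ≤ ‖z‖ := hz.2
    rw [h1, norm_zero] at h2
    linarith
  have h3 : ∀ᶠ x in 𝓝 p, ∀ j, x ∉ (c.L p).u j '' A j :=
    eventually_all.2 fun j => (hZ j).isOpen_compl.mem_nhds (hp j)
  refine ⟨K ∩ {x | ∀ j, x ∉ (c.L p).u j '' A j}, inter_mem hKn h3, ?_⟩
  rintro x ⟨hxK, hx⟩ hxf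
  have h4 : x ∈ range c.f ∩ (c.L p).U := ⟨hxf, hKU hxK⟩
  rw [(c.L p).supp] at h4
  obtain ⟨j, hj⟩ := mem_iUnion.1 h4
  obtain ⟨s, hs, hsx⟩ := hj
  refine ⟨j, s, ?_, hsx⟩
  rw [mem_ball_zero_iff]
  by_contra hlt
  have h5 : ‖s‖ ≤ r j := hr j s hs (by rw [hsx]; exact hxK)
  exact hx j ⟨s, ⟨mem_closedBall_zero_iff.2 h5, not_lt.1 hlt⟩, hsx⟩

end Basic

/-- **FBOX** -/
theorem fbox_of (hF : FolStmt) : FBOX.{u} := by
  intro M _ _ _ _ _ _ J hJs hJ2 c p V hV hpV _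
  set φ := chartAt E4 p with hφ
  have hps : p ∈ φ.source := mem_chart_source E4 p
  set y0 := φ p with hy0
  let Ω : Set E4 := φ.target ∩ φ.symm ⁻¹' (V ∩ (c.L p).U)
  have hΩ : IsOpen Ω := φ.isOpen_inter_preimage_symm (hV.inter (c.L p).openU)
  have hy0Ω : y0 ∈ Ω := by
    refine ⟨φ.map_source hps, ?_⟩
    show φ.symm (φ p) ∈ V ∩ (c.L p).U
    rw [φ.left_inv hps]
    exact ⟨hpV, (c.L p).mem⟩
  have hJt : ContDiffOn ℝ ∞ (repJ p J) Ω := (hJs p).mono inter_subset_left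
  have hJt2 : ∀ x ∈ Ω, ∀ v, repJ p J x (repJ p J x v) = -v := fun x hx v =>
    repJ_sq hJ2 p hx.1 v
  -- the branches in the chart
  let ub : Fin (c.L p).n → ℂ → E4 := fun j s => φ ((c.L p).u j s)
  have humd : ∀ j, ∀ s ∈ ball (0 : ℂ) 1, ContMDiffAt 𝓘(ℝ, ℂ) 𝓘(ℝ, E4) ∞ ((c.L p).u j) s :=
    fun j s hs => ((c.L p).disc j).hol.smooth.contMDiffAt (isOpen_ball.mem_nhds hs)
  obtain ⟨ρ, hρ, hρ1, hρs⟩ : ∃ ρ : ℝ, 0 < ρ ∧ ρ ≤ 1 ∧
      ∀ j, ∀ s ∈ ball (0 : ℂ) ρ, (c.L p).u j s ∈ φ.source := by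
    have h1 : ∀ j, ∃ r : ℝ, 0 < r ∧ ∀ s ∈ ball (0 : ℂ) r, (c.L p).u j s ∈ φ.source := by
      intro j
      have h2 : (c.L p).u j ⁻¹' φ.source ∈ 𝓝 (0 : ℂ) :=
        (humd j 0 (mem_ball_self one_pos)).continuousAt.preimage_mem_nhds (by
          rw [(c.L p).centre j]; exact φ.open_source.mem_nhds hps)
      obtain ⟨r, hr, h3⟩ := Metric.mem_nhds_iff.1 h2
      exact ⟨r, hr, fun s hs => h3 hs⟩
    choose r hr hr' using h1
    obtain ⟨r0, h2, h3, h4⟩ := exists_pos_le r hr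
    exact ⟨r0, h2, h3, fun j s hs => hr' j s (ball_subset_ball (h4 j) hs)⟩
  have hub : ∀ j, ∀ s ∈ ball (0 : ℂ) ρ, ContDiffAt ℝ ∞ (ub j) s := fun j s hs =>
    Dm_61.contDiffAt_chart (humd j s (ball_subset_ball hρ1 hs)) (hρs j s hs)
  have hub0 : ∀ j, ub j 0 = y0 := fun j => by
    show φ ((c.L p).u j 0) = y0
    rw [(c.L p).centre j]
  have hubh : ∀ j, ∀ s ∈ ball (0 : ℂ) ρ, ∀ v : ℂ, fderiv ℝ (ub j) s (Complex.I * v) =
      repJ p J (ub j s) (fderiv ℝ (ub j) s v) := fun j s hs v =>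
    hol_chart (humd j s (ball_subset_ball hρ1 hs))
      (((c.L p).disc j).hol.jhol s (ball_subset_ball hρ1 hs)) (hρs j s hs) v
  have hubne : ∀ j, ∀ s ∈ ball (0 : ℂ) ρ, s ≠ 0 → ub j s ≠ y0 := by
    intro j s hs hs0 h
    have h1 : (c.L p).u j s = p := φ.injOn (hρs j s hs) hps h
    exact hs0 (((c.L p).disc j).inj (ball_subset_ball hρ1 hs) (mem_ball_self one_pos)
      (by rw [h1, (c.L p).centre j]))
  choose m A hm hA hlead using fun j => branch_lead hΩ hy0Ω hJt hJt2 hρ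
    (fun s hs => (hub j s hs).contDiffWithinAt) (hub0 j) (hubh j) (hubne j)
  -- the foliation
  obtain ⟨G, P, hGs, hG0, hGd, hPJ, hGΩ, hGl, hGA⟩ :=
    planar hF finrank_E4 hΩ hy0Ω hJt hJt2 A hA
  have hGat : ∀ x ∈ ball (0 : ℂ × ℂ) 1, ContDiffAt ℝ ∞ G x := fun x hx =>
    hGs.contDiffAt (isOpen_ball.mem_nhds hx)
  obtain ⟨Θ0, R, hLD, hR1⟩ := exists_LD (G := G)
    (by filter_upwards [ball_mem_nhds (0 : ℂ × ℂ) one_pos] with x hx using hGat x hx) P hGd
    (ball_mem_nhds (0 : ℂ × ℂ) one_pos)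
  have hmem0 : ∀ x ∈ ball (0 : ℂ × ℂ) R, G x ∈ Θ0.target := fun x hx => by
    rw [← hLD.eq]; exact Θ0.map_source (by rw [hLD.source]; exact hx)
  have hleft0 : ∀ x ∈ ball (0 : ℂ × ℂ) R, Θ0.symm (G x) = x := fun x hx => by
    rw [← hLD.eq]; exact Θ0.left_inv (by rw [hLD.source]; exact hx)
  have hright0 : ∀ y ∈ Θ0.target, G (Θ0.symm y) = y := fun y hy => by
    rw [← hLD.eq]; exact Θ0.right_inv hy
  have hsy : ∀ y ∈ Θ0.target, Θ0.symm y ∈ ball (0 : ℂ × ℂ) R := fun y hy => by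
    rw [← hLD.source]; exact Θ0.map_target hy
  -- the coordinates on `M`
  let Θ : OpenPartialHomeomorph (ℂ × ℂ) M := Θ0.trans φ.symm
  have hΘ : ∀ x, Θ x = φ.symm (G x) := fun x => by
    show φ.symm (Θ0 x) = _
    rw [hLD.eq]
  have hsrc : Θ.source = ball 0 R := by
    show (Θ0.trans φ.symm).source = _
    rw [OpenPartialHomeomorph.trans_source, hLD.source]
    refine inter_eq_left.2 fun x hx => ?_
    show Θ0 x ∈ φ.symm.source
    rw [hLD.eq]
    exact (hGΩ x (hR1 hx)).1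
  have hΘs : ∀ x, Θ.symm x = Θ0.symm (φ x) := fun x => rfl
  have hΘVU : ∀ x ∈ ball (0 : ℂ × ℂ) R, Θ x ∈ V ∩ (c.L p).U := fun x hx => by
    rw [hΘ]; exact (hGΩ x (hR1 hx)).2
  have hΘsrc : ∀ x ∈ ball (0 : ℂ × ℂ) R, Θ x ∈ φ.source := fun x hx => by
    rw [hΘ]; exact φ.map_target (hGΩ x (hR1 hx)).1
  have hφΘ : ∀ x ∈ ball (0 : ℂ × ℂ) R, φ (Θ x) = G x := fun x hx => by
    rw [hΘ]; exact φ.right_inv (hGΩ x (hR1 hx)).1
  have hmemT : ∀ x ∈ ball (0 : ℂ × ℂ) R, Θ x ∈ Θ.target := fun x hx =>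
    Θ.map_source (by rw [hsrc]; exact hx)
  have hsymmB : ∀ y ∈ Θ.target, Θ.symm y ∈ ball (0 : ℂ × ℂ) R := fun y hy => by
    rw [← hsrc]; exact Θ.map_target hy
  have hrightT : ∀ y ∈ Θ.target, Θ (Θ.symm y) = y := fun y hy => Θ.right_inv hy
  have htgt : ∀ y ∈ Θ.target, y ∈ φ.source ∧ φ y ∈ Θ0.target := by
    intro y hy
    have h1 := hsymmB y hy
    have h2 := hΘsrc _ h1
    have h3 := hφΘ _ h1
    rw [hrightT y hy] at h2 h3
    exact ⟨h2, by rw [h3]; exact hmem0 _ h1⟩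
  have hΘsm : ∀ x ∈ ball (0 : ℂ × ℂ) R, ContMDiffAt 𝓘(ℝ, ℂ × ℂ) 𝓘(ℝ, E4) ∞ Θ x := by
    intro x hx
    refine Dm_61.contMDiffAt_of_chart (p := p)
      (Θ.continuousAt (by rw [hsrc]; exact hx)) (hΘsrc x hx) ?_
    refine (hLD.smooth x hx).congr_of_eventuallyEq ?_
    filter_upwards [isOpen_ball.mem_nhds hx] with z hz using hφΘ z hz
  have hfd : ∀ x ∈ ball (0 : ℂ × ℂ) R, ∀ v,
      tcc (Θ x) p (Θ x) (dmap Θ x v) = fderiv ℝ G x v := by
    intro x hx v
    rw [← Dm_61.fderiv_chart (hΘsm x hx) (hΘsrc x hx)]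
    have h1 : (fun z => chartAt E4 p (Θ z)) =ᶠ[𝓝 x] G := by
      filter_upwards [isOpen_ball.mem_nhds hx] with z hz using hφΘ z hz
    rw [h1.fderiv_eq]
  let J' : ℂ × ℂ → ℂ × ℂ →L[ℝ] ℂ × ℂ := fun x =>
    (fderiv ℝ Θ0.symm (G x)).comp ((repJ p J (G x)).comp (fderiv ℝ G x))
  have hJ' : ∀ x y, J' x y = fderiv ℝ Θ0.symm (G x) (repJ p J (G x) (fderiv ℝ G x y)) :=
    fun _ _ => rfl
  -- the branches in the coordinates
  have hut : ∀ j, ∃ r : ℝ, 0 < r ∧ r ≤ ρ ∧ ∀ s ∈ ball (0 : ℂ) r, (c.L p).u j s ∈ Θ.target := by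
    intro j
    have h1 : Θ.target ∈ 𝓝 ((c.L p).u j 0) := by
      rw [(c.L p).centre j]
      refine Θ.open_target.mem_nhds ?_
      have h2 : Θ 0 = p := by rw [hΘ, hG0, hy0, φ.left_inv hps]
      rw [← h2]
      exact hmemT 0 (mem_ball_self hLD.pos)
    have h2 : (c.L p).u j ⁻¹' Θ.target ∈ 𝓝 (0 : ℂ) :=
      (humd j 0 (mem_ball_self one_pos)).continuousAt.preimage_mem_nhds h1
    obtain ⟨r, hr, h3⟩ := Metric.mem_nhds_iff.1 h2
    exact ⟨min r ρ, lt_min hr hρ, min_le_right _ _,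
      fun s hs => h3 (ball_subset_ball (min_le_left _ _) hs)⟩
  choose r hr hrρ hrT using hut
  let v : Fin (c.L p).n → ℂ → ℂ × ℂ := fun j s => Θ.symm ((c.L p).u j s)
  have hv : ∀ j s, v j s = Θ0.symm (ub j s) := fun j s => rfl
  have hubT : ∀ j, ∀ s ∈ ball (0 : ℂ) (r j), ub j s ∈ Θ0.target := fun j s hs =>
    (htgt _ (hrT j s hs)).2
  have hvs : ∀ j, ∀ s ∈ ball (0 : ℂ) (r j), ContDiffAt ℝ ∞ (v j) s := by
    intro j s hs
    have h1 : ContDiffAt ℝ ∞ (fun s => Θ0.symm (ub j s)) s :=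
      ContDiffAt.comp s (hLD.smooth_symm _ (hubT j s hs)) (hub j s (ball_subset_ball (hrρ j) hs))
    exact h1
  have hest : ∀ j, ∃ r' C : ℝ, 0 < r' ∧ r' ≤ r j ∧ r' ≤ 1 ∧ 0 ≤ C ∧ ∀ s ∈ ball (0 : ℂ) r',
      ‖(v j s).1 - (P.symm (A j)).1 * s ^ m j‖ ≤ C * ‖s‖ ^ (m j + 1) ∧
      ‖fderiv ℝ (fun s => (v j s).1) s - mulc (m j * (P.symm (A j)).1 * s ^ (m j - 1))‖
        ≤ C * ‖s‖ ^ m j ∧
      ‖(v j s).2‖ ≤ C * ‖s‖ ^ m j ∧
      ‖fderiv ℝ (fun s => (v j s).2) s‖ ≤ C * ‖s‖ ^ (m j - 1) := fun j =>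
    est (hr j) (fun s hs => (hvs j s hs).contDiffWithinAt) (hm j)
      (lift_lead (Jt := repJ p J) hLD hGd hG0 hPJ
        (hub j 0 (mem_ball_self hρ)).continuousAt (hub0 j) (hlead j))
  choose r' C hr' hr'r _ hC0 hC using hest
  obtain ⟨r1, hr1, hr11, hr1'⟩ := exists_pos_le r' hr'
  obtain ⟨C0, hC00, hC0'⟩ := exists_le C hC0
  have hr1r : ∀ j, r1 ≤ r j := fun j => (hr1' j).trans (hr'r j)
  obtain ⟨N, hN, hN'⟩ := near_lemma c p hr1
  obtain ⟨ρ', hρ', hρ'N⟩ : ∃ ρ' : ℝ, 0 < ρ' ∧ ∀ x ∈ ball (0 : ℂ × ℂ) ρ', Θ x ∈ N := by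
    have h1 : Θ ⁻¹' N ∈ 𝓝 (0 : ℂ × ℂ) := by
      refine (Θ.continuousAt (by rw [hsrc]; exact mem_ball_self hLD.pos)).preimage_mem_nhds ?_
      have h2 : Θ 0 = p := by rw [hΘ, hG0, hy0, φ.left_inv hps]
      rw [h2]; exact hN
    obtain ⟨ρ', h2, h3⟩ := Metric.mem_nhds_iff.1 h1
    exact ⟨ρ', h2, fun x hx => h3 hx⟩
  have hJ2c : ∀ x ∈ ball (0 : ℂ × ℂ) R, ContDiffAt ℝ ∞ (repJ p J) (G x) := fun x hx =>
    hJt.contDiffAt (hΩ.mem_nhds (hGΩ x (hR1 hx)))
  exact ⟨{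
    Θ := Θ
    R := R
    R_pos := hLD.pos
    source := hsrc
    centre := by rw [hΘ, hG0, hy0, φ.left_inv hps]
    target := by
      intro y hy
      have h1 := hΘVU _ (hsymmB y hy)
      rwa [hrightT y hy] at h1
    smooth := fun x hx => (hΘsm x hx).contMDiffWithinAt
    smooth_symm := by
      intro y hy
      have h1 : ContMDiffAt 𝓘(ℝ, E4) 𝓘(ℝ, E4) ∞ φ y :=
        (contMDiffOn_chart (I := 𝓘(ℝ, E4)) (x := p)).contMDiffAt
          (φ.open_source.mem_nhds (htgt y hy).1)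
      have h2 : ContMDiffAt 𝓘(ℝ, E4) 𝓘(ℝ, ℂ × ℂ) ∞ Θ0.symm (φ y) :=
        (hLD.smooth_symm _ (htgt y hy).2).contMDiffAt
      exact (h2.comp y h1).contMDiffWithinAt
    J' := J'
    smoothJ := by
      intro x hx
      have h1 : ContDiffAt ℝ ∞ (fderiv ℝ G) x := (hLD.smooth x hx).fderiv_right (by simp)
      have h2 : ContDiffAt ℝ ∞ (fun x => fderiv ℝ Θ0.symm (G x)) x :=
        ContDiffAt.comp x ((hLD.smooth_symm _ (hmem0 x hx)).fderiv_right (by simp))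
          (hLD.smooth x hx)
      have h3 : ContDiffAt ℝ ∞ (fun x => repJ p J (G x)) x :=
        ContDiffAt.comp x (hJ2c x hx) (hLD.smooth x hx)
      exact (h2.clm_comp (h3.clm_comp h1)).contDiffWithinAt
    conj := by
      intro x hx w
      refine tcc_inj (hΘsrc x hx) (u := dmap Θ x (J' x w)) (v := atJ J (Θ x) (dmap Θ x w)) ?_
      rw [hfd x hx, apply_eq_repJ (hΘsrc x hx), hfd x hx]
      show _ = repJ p J (φ (Θ x)) _
      rw [hφΘ x hx, hJ', hLD.inv' x hx]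
    leaf := by
      intro x hx a
      rw [hJ', ← hGl x (hR1 hx), hLD.inv x hx]
    J0 := by
      intro w
      have h1 : repJ p J (G 0) (fderiv ℝ G 0 w) = fderiv ℝ G 0 (Complex.I • w) := by
        rw [hGd.fderiv, hG0]
        exact (hPJ w).symm
      rw [hJ', h1, hLD.inv 0 (mem_ball_self hLD.pos)]
    r1 := r1
    r1_pos := hr1
    r1_le := hr11
    inT := fun j s hs => hrT j s (ball_subset_ball (hr1r j) hs)
    v := v
    v_eq := fun j s => rfl
    v_smooth := fun j s hs => (hvs j s (ball_subset_ball (hr1r j) hs)).contDiffWithinAt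
    v_hol := by
      intro j s hs
      have hs' := ball_subset_ball (hr1r j) hs
      refine ⟨(hvs j s hs').differentiableAt (by simp), fun w => ?_⟩
      have hT := hubT j s hs'
      have hd : fderiv ℝ (v j) s = (fderiv ℝ Θ0.symm (ub j s)).comp (fderiv ℝ (ub j) s) := by
        have h1 : HasFDerivAt Θ0.symm (fderiv ℝ Θ0.symm (ub j s)) (ub j s) :=
          ((hLD.smooth_symm _ hT).differentiableAt (by simp)).hasFDerivAt
        have h2 : HasFDerivAt (ub j) (fderiv ℝ (ub j) s) s :=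
          ((hub j s (ball_subset_ball (hrρ j) hs')).differentiableAt (by simp)).hasFDerivAt
        exact (h1.comp s h2).fderiv
      have hb := hsy _ hT
      have hGv : G (v j s) = ub j s := hright0 _ hT
      rw [hJ', hd]
      simp only [ContinuousLinearMap.comp_apply]
      rw [hubh j s (ball_subset_ball (hrρ j) hs')]
      have h3 := hLD.inv' (v j s) hb (fderiv ℝ (ub j) s w)
      rw [hGv] at h3
      rw [hGv, h3]
    m := m
    m_pos := hm
    a := fun j => (P.symm (A j)).1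
    a_ne := hGA
    C := C0
    C_nonneg := hC00
    ζ0 := fun j s hs => ((hC j s (ball_subset_ball (hr1' j) hs)).1).trans (by
      have := hC0' j
      gcongr)
    ζ1 := fun j s hs => ((hC j s (ball_subset_ball (hr1' j) hs)).2.1).trans (by
      have := hC0' j
      gcongr)
    z0 := fun j s hs => ((hC j s (ball_subset_ball (hr1' j) hs)).2.2.1).trans (by
      have := hC0' j
      gcongr)
    z1 := fun j s hs => ((hC j s (ball_subset_ball (hr1' j) hs)).2.2.2).trans (by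
      have := hC0' j
      gcongr)
    ρ := min ρ' R
    ρ_pos := lt_min hρ' hLD.pos
    ρ_le := min_le_right _ _
    near := by
      intro x hx hxf
      obtain ⟨j, s, hs, hjs⟩ := hN' (Θ x) (hρ'N x (ball_subset_ball (min_le_left _ _) hx)) hxf
      refine ⟨j, s, hs, ?_⟩
      show Θ.symm ((c.L p).u j s) = x
      rw [hjs]
      exact Θ.left_inv (by rw [hsrc]; exact ball_subset_ball (min_le_right _ _) hx)
  }⟩

end

end Crest.Agent.R235.FBoxC_130
end

-- ▼ part R235/AdjLoc_43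
section

/-!
Row 235 (S0364), PACKAGE ADJ, helper43: local analysis of the push-off `Φ_t` for small `t`.
-/

set_option autoImplicit false
set_option maxSynthPendingDepth 3

open Set Function Filter MeasureTheory Metric
open scoped Manifold ContDiff Topology Real

universe u

namespace Crest.Agent.R235.AdjLoc_43

open Crest.Agent.R240 Crest.Agent.R240.Ch Crest.Agent.R240.Int
open Crest.Agent.R235 Crest.Agent.R235.Glob_370 Crest.Agent.R235.Wind_688 Crest.Agent.R235.Adj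
open Crest.Agent.R235.AdjGen_83

noncomputable section

/-- strict differentiability in one direction. -/
theorem strict_est {V : Type*} [NormedAddCommGroup V] [NormedSpace ℝ V] {G : ℝ × V → ℂ} {y0 : V}
    {G' : ℝ × V →L[ℝ] ℂ} (hG : HasStrictFDerivAt G G' (0, y0)) {ε : ℝ} (hε : 0 < ε) :
    ∀ᶠ q in 𝓝 ((0 : ℝ), y0), ‖G q - G (0, q.2) - q.1 • G' (1, 0)‖ ≤ ε * |q.1| := by
  have h1 := (hG.isLittleO.def hε)
  have h2 : Tendsto (fun q : ℝ × V => (q, ((0 : ℝ), q.2))) (𝓝 ((0 : ℝ), y0))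
      (𝓝 (((0 : ℝ), y0), ((0 : ℝ), y0))) := by
    have : Continuous fun q : ℝ × V => (q, ((0 : ℝ), q.2)) := by fun_prop
    exact this.tendsto' _ _ rfl
  filter_upwards [h2.eventually h1] with q hq
  have e : q - (0, q.2) = q.1 • ((1 : ℝ), (0 : V)) := by
    ext <;> simp
  rw [e, map_smul, norm_smul] at hq
  have e2 : ‖((1 : ℝ), (0 : V))‖ = 1 := by simp [Prod.norm_def]
  rw [e2, mul_one, Real.norm_eq_abs] at hq
  exact hq

variable {M : Type u} [TopologicalSpace M] [ChartedSpace E4 M] [IsManifold 𝓘(ℝ, E4) ∞ M]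

/-- the differential of `F ∘ γ`. -/
theorem hasDerivAt_comp {F : M → ℂ} {γ : ℝ → M} {x0 : M} {v : E4} (hF : SmAt F x0)
    (h0 : γ 0 = x0) (hc : ContinuousAt γ 0)
    (hv : HasDerivAt (fun t => chartAt E4 x0 (γ t)) v 0) :
    HasDerivAt (fun t => F (γ t)) (dC F x0 v) 0 := by
  have hx : x0 ∈ (chartAt E4 x0).source := mem_chart_source E4 x0
  have hy : chartAt E4 x0 x0 ∈ (chartAt E4 x0).target := mem_chart_target E4 x0
  have h1 : ContMDiffAt 𝓘(ℝ, E4) 𝓘(ℝ, E4) ∞ (chartAt E4 x0).symm (chartAt E4 x0 x0) :=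
    (contMDiffOn_chart_symm (I := 𝓘(ℝ, E4)) (x := x0)).contMDiffAt
      ((chartAt E4 x0).open_target.mem_nhds hy)
  have h2 : ContMDiffAt 𝓘(ℝ, E4) 𝓘(ℝ, ℂ) ∞ F ((chartAt E4 x0).symm (chartAt E4 x0 x0)) := by
    rw [(chartAt E4 x0).left_inv hx]; exact hF
  have h3 : ContDiffAt ℝ ∞ (fun y : E4 => F ((chartAt E4 x0).symm y)) (chartAt E4 x0 x0) :=
    (h2.comp _ h1).contDiffAt
  have h4 : HasFDerivAt (fun y : E4 => F ((chartAt E4 x0).symm y))
      (fderiv ℝ (fun y : E4 => F ((chartAt E4 x0).symm y)) (chartAt E4 x0 x0))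
      (chartAt E4 x0 (γ 0)) := by
    rw [h0]; exact (h3.differentiableAt (by simp)).hasFDerivAt
  have h5 := h4.comp_hasDerivAt (0 : ℝ) hv
  refine h5.congr_of_eventuallyEq ?_
  have h6 : ∀ᶠ t in 𝓝 (0 : ℝ), γ t ∈ (chartAt E4 x0).source :=
    hc.preimage_mem_nhds ((chartAt E4 x0).open_source.mem_nhds (by rw [h0]; exact hx))
  filter_upwards [h6] with t ht
  simp only [Function.comp]
  rw [(chartAt E4 x0).left_inv ht]

variable {X : VF E4 M} (P : Push X)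

theorem push_at (x : M) : ContMDiffAt (𝓘(ℝ, ℝ).prod 𝓘(ℝ, E4)) 𝓘(ℝ, E4) ∞
    (fun q : ℝ × M => P.Φ q.1 q.2) (0, x) :=
  P.smooth.contMDiffAt ((isOpen_Ioo.prod isOpen_univ).mem_nhds
    ⟨⟨neg_lt_zero.2 P.t0_pos, P.t0_pos⟩, mem_univ _⟩)

theorem push_cont (x : M) : ContinuousAt (fun q : ℝ × M => P.Φ q.1 q.2) (0, x) :=
  (push_at P x).continuousAt

/-- `∂_t F (Φ_t x)` at `t = 0` is `dF_x (X x)`. -/
theorem push_deriv {F : M → ℂ} {x : M} (hF : SmAt F x) :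
    HasDerivAt (fun t => F (P.Φ t x)) (dC F x (atV X x)) 0 := by
  refine hasDerivAt_comp hF (P.zero x) ?_ (P.vel x)
  have h := push_cont P x
  have h2 : ContinuousAt (fun t : ℝ => (t, x)) 0 := by fun_prop
  exact ContinuousAt.comp (g := fun q : ℝ × M => P.Φ q.1 q.2) (f := fun t : ℝ => (t, x)) h h2

/-- smoothness of `(t, y) ↦ F (Φ_t (u y))` at `(0, y0)`. -/
theorem push_smooth {V : Type} [NormedAddCommGroup V] [NormedSpace ℝ V] {F : M → ℂ} {u : V → M}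
    {y0 : V} (hu : ContMDiffAt 𝓘(ℝ, V) 𝓘(ℝ, E4) ∞ u y0) (hF : SmAt F (u y0)) :
    ContDiffAt ℝ ∞ (fun q : ℝ × V => F (P.Φ q.1 (u q.2))) (0, y0) := by
  have h1 : ContMDiffAt 𝓘(ℝ, ℝ × V) 𝓘(ℝ, ℝ) ∞ (fun q : ℝ × V => q.1) (0, y0) :=
    contDiffAt_fst.contMDiffAt
  have h2 : ContMDiffAt 𝓘(ℝ, ℝ × V) 𝓘(ℝ, V) ∞ (fun q : ℝ × V => q.2) (0, y0) :=
    contDiffAt_snd.contMDiffAt
  have h3 : ContMDiffAt 𝓘(ℝ, ℝ × V) 𝓘(ℝ, E4) ∞ (fun q : ℝ × V => u q.2) (0, y0) :=
    ContMDiffAt.comp (g := u) (f := fun q : ℝ × V => q.2) _ hu h2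
  have h4 : ContMDiffAt 𝓘(ℝ, ℝ × V) (𝓘(ℝ, ℝ).prod 𝓘(ℝ, E4)) ∞
      (fun q : ℝ × V => (q.1, u q.2)) (0, y0) := h1.prodMk h3
  have h5 : ContMDiffAt 𝓘(ℝ, ℝ × V) 𝓘(ℝ, E4) ∞ (fun q : ℝ × V => P.Φ q.1 (u q.2)) (0, y0) :=
    ContMDiffAt.comp (g := fun q : ℝ × M => P.Φ q.1 q.2) (f := fun q : ℝ × V => (q.1, u q.2)) _
      (push_at P (u y0)) h4
  have hF' : ContMDiffAt 𝓘(ℝ, E4) 𝓘(ℝ, ℂ) ∞ F (P.Φ 0 (u y0)) := by
    rw [P.zero]; exact hF
  have h6 : ContMDiffAt 𝓘(ℝ, ℝ × V) 𝓘(ℝ, ℂ) ∞ (fun q : ℝ × V => F (P.Φ q.1 (u q.2))) (0, y0) :=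
    ContMDiffAt.comp (g := F) (f := fun q : ℝ × V => P.Φ q.1 (u q.2)) _ hF' h5
  exact h6.contDiffAt

/-- the basic estimate. -/
theorem push_est {V : Type} [NormedAddCommGroup V] [NormedSpace ℝ V] {F : M → ℂ} {u : V → M}
    {y0 : V} (hu : ContMDiffAt 𝓘(ℝ, V) 𝓘(ℝ, E4) ∞ u y0) (hF : SmAt F (u y0)) {ε : ℝ}
    (hε : 0 < ε) :
    ∀ᶠ q in 𝓝 ((0 : ℝ), y0),
      ‖F (P.Φ q.1 (u q.2)) - F (u q.2) - q.1 • dC F (u y0) (atV X (u y0))‖ ≤ ε * |q.1| := by
  have h1 := (push_smooth P hu hF).hasStrictFDerivAt (n := ∞) (by simp)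
  have h2 : fderiv ℝ (fun q : ℝ × V => F (P.Φ q.1 (u q.2))) (0, y0) (1, 0) =
      dC F (u y0) (atV X (u y0)) := by
    have h3 : HasDerivAt (fun t : ℝ => ((t, y0) : ℝ × V)) (1, 0) 0 :=
      (hasDerivAt_id (0 : ℝ)).prodMk (hasDerivAt_const (0 : ℝ) y0)
    have h4 := HasFDerivAt.comp_hasDerivAt (f := fun t : ℝ => ((t, y0) : ℝ × V)) (0 : ℝ)
      h1.hasFDerivAt h3
    exact h4.unique (push_deriv P hF)
  filter_upwards [strict_est h1 hε] with q hq
  rw [h2] at hq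
  simpa only [P.zero] using hq

/-- **non-intersection**: near a point where `dF (X) ≠ 0`. -/
theorem loc_ne {F : M → ℂ} {C U : Set M} {x0 : M} (hU : IsOpen U) (hx0 : x0 ∈ U)
    (hF : SmAt F x0) (hz : ∀ x ∈ U, F x = 0 ↔ x ∈ C) (hd : dC F x0 (atV X x0) ≠ 0) :
    ∀ᶠ q in 𝓝 ((0 : ℝ), x0), q.1 ≠ 0 → q.2 ∈ C → P.Φ q.1 q.2 ∉ C := by
  set ch := chartAt E4 x0 with hch
  have hx : x0 ∈ ch.source := mem_chart_source E4 x0
  have hy : ch x0 ∈ ch.target := mem_chart_target E4 x0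
  have h1 : ContMDiffAt 𝓘(ℝ, E4) 𝓘(ℝ, E4) ∞ ch.symm (ch x0) :=
    (contMDiffOn_chart_symm (I := 𝓘(ℝ, E4)) (x := x0)).contMDiffAt (ch.open_target.mem_nhds hy)
  have hF' : SmAt F (ch.symm (ch x0)) := by rw [ch.left_inv hx]; exact hF
  have hd' : dC F (ch.symm (ch x0)) (atV X (ch.symm (ch x0))) ≠ 0 := by
    rw [ch.left_inv hx]; exact hd
  set d := dC F (ch.symm (ch x0)) (atV X (ch.symm (ch x0))) with hdd
  have h2 := push_est P h1 hF' (half_pos (norm_pos_iff.2 hd'))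
  have h3 : Tendsto (fun q : ℝ × M => (q.1, ch q.2)) (𝓝 ((0 : ℝ), x0)) (𝓝 ((0 : ℝ), ch x0)) := by
    have hc : ContinuousAt ch x0 := ch.continuousAt hx
    exact (continuousAt_fst.prodMk (ContinuousAt.comp (g := ch) (f := fun q : ℝ × M => q.2)
      (x := ((0 : ℝ), x0)) hc continuousAt_snd))
  have h4 : ∀ᶠ q in 𝓝 ((0 : ℝ), x0), q.2 ∈ ch.source ∩ U :=
    continuousAt_snd.preimage_mem_nhds ((ch.open_source.inter hU).mem_nhds ⟨hx, hx0⟩)
  have h5 : ∀ᶠ q in 𝓝 ((0 : ℝ), x0), P.Φ q.1 q.2 ∈ U :=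
    (push_cont P x0).preimage_mem_nhds (hU.mem_nhds (by simp only [P.zero]; exact hx0))
  filter_upwards [h3.eventually h2, h4, h5] with q hq1 hq2 hq3 ht hC hC2
  rw [ch.left_inv hq2.1, (hz _ hq2.2).2 hC, (hz _ hq3).2 hC2, sub_zero, zero_sub, norm_neg,
    norm_smul, Real.norm_eq_abs] at hq1
  have hpos : 0 < |q.1| := abs_pos.2 ht
  have hd2 : 0 < ‖d‖ := norm_pos_iff.2 hd'
  nlinarith [mul_pos hpos hd2]

/-- **the winding number of `F ∘ Φ_t ∘ u` for small `t`**. -/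
theorem loc_wind {F : M → ℂ} {u : ℂ → M} {ρ : ℝ} (hρ : 0 < ρ)
    (hu : ∀ z ∈ sphere (0 : ℂ) ρ, ContMDiffAt 𝓘(ℝ, ℂ) 𝓘(ℝ, E4) ∞ u z)
    (hF : ∀ z ∈ sphere (0 : ℂ) ρ, SmAt F (u z)) (h0 : ∀ z ∈ sphere (0 : ℂ) ρ, F (u z) = 0)
    {g : ℂ → ℂ} {n : ℤ} (hg : IsW g 0 ρ n)
    (hd : ∀ z ∈ sphere (0 : ℂ) ρ, dC F (u z) (atV X (u z)) = g z) :
    ∀ᶠ t in 𝓝[>] (0 : ℝ), IsW (fun z => F (P.Φ t (u z))) 0 ρ n := by
  have hc : Continuous fun θ => g (circleMap 0 ρ θ) := hg.cont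
  have hmem : ∀ θ : ℝ, circleMap 0 ρ θ ∈ sphere (0 : ℂ) ρ := fun θ => cm_mem 0 hρ.le θ
  -- the map of the circle
  have hcirc : ∀ θ : ℝ, ContMDiffAt 𝓘(ℝ, ℝ) 𝓘(ℝ, E4) ∞ (fun θ : ℝ => u (circleMap 0 ρ θ)) θ := by
    intro θ
    have h1 : ContMDiffAt 𝓘(ℝ, ℝ) 𝓘(ℝ, ℂ) ∞ (circleMap 0 ρ) θ := by
      have : ContDiff ℝ ∞ (circleMap (0 : ℂ) ρ) := contDiff_circleMap 0 ρ
      exact this.contDiffAt.contMDiffAt
    exact ContMDiffAt.comp (g := u) (f := circleMap 0 ρ) θ (hu _ (hmem θ)) h1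
  have key : ∀ θ0 ∈ Icc (0 : ℝ) (2 * π), ∀ᶠ q in 𝓝 ((0 : ℝ), θ0),
      ‖F (P.Φ q.1 (u (circleMap 0 ρ q.2))) - q.1 • g (circleMap 0 ρ q.2)‖ ≤
        |q.1| * (‖g (circleMap 0 ρ q.2)‖ / 2) := by
    intro θ0 _
    have hne : g (circleMap 0 ρ θ0) ≠ 0 := hg.ne θ0
    set ε : ℝ := ‖g (circleMap 0 ρ θ0)‖ / 8 with hε
    have hε0 : 0 < ε := by rw [hε]; have := norm_pos_iff.2 hne; positivity
    have h1 := push_est P (hcirc θ0) (hF _ (hmem θ0)) hε0
    have h2 : ∀ᶠ q in 𝓝 ((0 : ℝ), θ0),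
        ‖g (circleMap 0 ρ q.2) - g (circleMap 0 ρ θ0)‖ < ε := by
      have h3 : ContinuousAt (fun q : ℝ × ℝ => g (circleMap 0 ρ q.2)) ((0 : ℝ), θ0) :=
        (hc.comp continuous_snd).continuousAt
      have h4 := h3.eventually (Metric.ball_mem_nhds _ hε0)
      filter_upwards [h4] with q hq
      rwa [dist_eq_norm] at hq
    filter_upwards [h1, h2] with q hq1 hq2
    have e1 : F (u (circleMap 0 ρ q.2)) = 0 := h0 _ (hmem _)
    rw [e1, sub_zero, hd _ (hmem θ0)] at hq1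
    have e2 : ‖g (circleMap 0 ρ θ0)‖ = 8 * ε := by rw [hε]; ring
    have e3 : 7 * ε ≤ ‖g (circleMap 0 ρ q.2)‖ := by
      have := norm_sub_norm_le (g (circleMap 0 ρ θ0)) (g (circleMap 0 ρ q.2))
      rw [norm_sub_rev] at this
      linarith
    have e4 : F (P.Φ q.1 (u (circleMap 0 ρ q.2))) - q.1 • g (circleMap 0 ρ q.2) =
        (F (P.Φ q.1 (u (circleMap 0 ρ q.2))) - q.1 • g (circleMap 0 ρ θ0)) -
          q.1 • (g (circleMap 0 ρ q.2) - g (circleMap 0 ρ θ0)) := by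
      rw [smul_sub]; ring
    rw [e4]
    refine (norm_sub_le _ _).trans ?_
    rw [norm_smul, Real.norm_eq_abs]
    have hq0 := abs_nonneg q.1
    nlinarith [mul_le_mul_of_nonneg_left hq2.le hq0, mul_le_mul_of_nonneg_left e3 hq0]
  have hunif := isCompact_Icc.eventually_forall_of_forall_eventually
    (P := fun (t : ℝ) (θ : ℝ) => ‖F (P.Φ t (u (circleMap 0 ρ θ))) - t • g (circleMap 0 ρ θ)‖ ≤
        |t| * (‖g (circleMap 0 ρ θ)‖ / 2)) key
  -- continuity along the circle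
  have hcont : ∀ θ0 ∈ Icc (0 : ℝ) (2 * π), ∀ᶠ q in 𝓝 ((0 : ℝ), θ0),
      ContinuousAt (fun θ : ℝ => F (P.Φ q.1 (u (circleMap 0 ρ θ)))) q.2 := by
    intro θ0 _
    have h1 := (push_smooth P (hcirc θ0) (hF _ (hmem θ0)))
    have h2 : ∀ᶠ q in 𝓝 ((0 : ℝ), θ0), ContDiffAt ℝ 1
        (fun q : ℝ × ℝ => F (P.Φ q.1 (u (circleMap 0 ρ q.2)))) q :=
      (h1.of_le (m := 1) (by exact_mod_cast le_top)).eventually (by simp)
    filter_upwards [h2] with q hq
    have h3 : ContinuousAt (fun θ : ℝ => (q.1, θ)) q.2 := by fun_prop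
    exact ContinuousAt.comp (g := fun q : ℝ × ℝ => F (P.Φ q.1 (u (circleMap 0 ρ q.2))))
      (f := fun θ : ℝ => (q.1, θ)) (x := q.2) hq.continuousAt h3
  have hunif2 := isCompact_Icc.eventually_forall_of_forall_eventually
    (P := fun (t : ℝ) (θ : ℝ) =>
      ContinuousAt (fun θ : ℝ => F (P.Φ t (u (circleMap 0 ρ θ)))) θ) hcont
  have hpos : ∀ᶠ t in 𝓝[>] (0 : ℝ), 0 < t := self_mem_nhdsWithin
  filter_upwards [hpos, nhdsWithin_le_nhds hunif, nhdsWithin_le_nhds hunif2] with t ht h1 h2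
  have hper : ∀ θ : ℝ, ∃ θ' ∈ Icc (0 : ℝ) (2 * π), ∃ k : ℤ, θ = θ' + k * (2 * π) := by
    intro θ
    refine ⟨toIcoMod Real.two_pi_pos 0 θ, ?_, toIcoDiv Real.two_pi_pos 0 θ, ?_⟩
    · have := toIcoMod_mem_Ico Real.two_pi_pos 0 θ
      rw [zero_add] at this
      exact ⟨this.1, this.2.le⟩
    · have := toIcoMod_add_toIcoDiv_zsmul Real.two_pi_pos 0 θ
      rw [zsmul_eq_mul] at this
      exact this.symm
  have hcm : ∀ (θ : ℝ) (k : ℤ), circleMap (0 : ℂ) ρ (θ + k * (2 * π)) = circleMap 0 ρ θ :=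
    fun θ k => (periodic_circleMap (0 : ℂ) ρ).int_mul k θ
  have hmul : IsWL (fun θ => (t : ℂ) * g (circleMap 0 ρ θ)) n := by
    have := (isWL_const (c := (t : ℂ)) (by exact_mod_cast ht.ne')).mul hg
    rwa [zero_add] at this
  have hcontin : Continuous fun θ => F (P.Φ t (u (circleMap 0 ρ θ))) := by
    rw [continuous_iff_continuousAt]
    intro θ
    obtain ⟨θ', hθ', k, rfl⟩ := hper θ
    have h3 : ContinuousAt (fun s : ℝ => s - k * (2 * π)) (θ' + k * (2 * π)) := by fun_prop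
    have h4 : ContinuousAt (fun θ : ℝ => F (P.Φ t (u (circleMap 0 ρ θ))))
        ((fun s : ℝ => s - k * (2 * π)) (θ' + k * (2 * π))) := by
      have : (fun s : ℝ => s - k * (2 * π)) (θ' + k * (2 * π)) = θ' := by
        simp
      rw [this]; exact h2 θ' hθ'
    have h5 := ContinuousAt.comp (g := fun θ : ℝ => F (P.Φ t (u (circleMap 0 ρ θ))))
      (f := fun s : ℝ => s - k * (2 * π)) h4 h3
    refine h5.congr (Eventually.of_forall fun s => ?_)
    simp only [Function.comp]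
    have := hcm (s - k * (2 * π)) k
    rw [sub_add_cancel] at this
    rw [← this]
  refine IsWL.rouche hmul hcontin (fun θ => by simp only [cm_per]) fun θ => ?_
  obtain ⟨θ', hθ', k, rfl⟩ := hper θ
  simp only [hcm]
  have h3 := h1 θ' hθ'
  rw [Complex.real_smul] at h3
  refine h3.trans_lt ?_
  rw [norm_mul, Complex.norm_real, Real.norm_eq_abs]
  have h4 : 0 < ‖g (circleMap 0 ρ θ')‖ := norm_pos_iff.2 (hg.ne θ')
  have h5 : 0 < |t| := abs_pos.2 ht.ne'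
  nlinarith [mul_pos h5 h4]

end

end Crest.Agent.R235.AdjLoc_43
end

-- ▼ part R235/AdjGeo_43
section

/-!
Row 235 (S0364), PACKAGE ADJ, helper43: neighbourhoods of the points of a `J`-curve, cut-offs,
good points.
-/

set_option autoImplicit false
set_option maxSynthPendingDepth 3
set_option linter.unusedSectionVars false

open Set Function Filter MeasureTheory Metric
open scoped Manifold ContDiff Topology Real

universe u

namespace Crest.Agent.R235.AdjGeo_43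

open Crest.Agent.R240 Crest.Agent.R240.Ch Crest.Agent.R240.Int
open Crest.Agent.R235 Crest.Agent.R235.Glob_370 Crest.Agent.R235.Wind_688 Crest.Agent.R235.Adj
open Crest.Agent.R235.AdjGen_83 Crest.Agent.R235.AdjLoc_43

noncomputable section

variable {M : Type u} [TopologicalSpace M] [ChartedSpace E4 M] [IsManifold 𝓘(ℝ, E4) ∞ M]
  {J : EndF E4 M} (c : JCurve J)

/-- the part of the surface near the centres of the branches at `p`. -/
def core (p : M) (r : ℝ) : Set c.N := ⋃ j, c.φ p j '' ball (0 : ℂ) r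

/-- the neighbourhood of `p` which sees only `core p r`. -/
def Nb (p : M) (r : ℝ) : Set M := (c.f '' (core c p r)ᶜ)ᶜ

theorem isOpen_core (p : M) {r : ℝ} (hr : r ≤ 1) : IsOpen (core c p r) :=
  isOpen_iUnion fun j => c.φ_open p j _ isOpen_ball (ball_subset_ball hr)

theorem isOpen_Nb [T2Space M] (p : M) {r : ℝ} (hr : r ≤ 1) : IsOpen (Nb c p r) :=
  (((isOpen_core c p hr).isClosed_compl.isCompact).image c.cont).isClosed.isOpen_compl

theorem zero_mem : (0 : ℂ) ∈ ball (0 : ℂ) 1 := mem_ball_self one_pos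

theorem u_inj0 {p : M} {j : Fin (c.L p).n} {z : ℂ} (hz : z ∈ ball (0 : ℂ) 1)
    (h : (c.L p).u j z = p) : z = 0 :=
  ((c.L p).disc j).inj hz zero_mem (h.trans ((c.L p).centre j).symm)

theorem f_eq_p {p : M} {n : c.N} (h : c.f n = p) : ∃ j, c.φ p j 0 = n := by
  obtain ⟨j, z, hz, hn⟩ := c.φ_cover p n (by rw [h]; exact (c.L p).mem)
  have h1 : (c.L p).u j z = p := by rw [← c.φ_f p j z hz, hn, h]
  exact ⟨j, by rw [← u_inj0 c hz h1]; exact hn⟩


theorem mem_Nb (p : M) {r : ℝ} (hr : 0 < r) : p ∈ Nb c p r := by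
  rintro ⟨n, hn, hp⟩
  obtain ⟨j, hj⟩ := f_eq_p c hp
  exact hn (mem_iUnion.2 ⟨j, 0, mem_ball_self hr, hj⟩)

theorem core_of_Nb {p : M} {r : ℝ} {n : c.N} (h : c.f n ∈ Nb c p r) : n ∈ core c p r := by
  by_contra hn
  exact h ⟨n, hn, rfl⟩

theorem lt_of_core {p : M} {r : ℝ} (hr : r ≤ 1) {j : Fin (c.L p).n} {z : ℂ}
    (hz : z ∈ ball (0 : ℂ) 1) (h : c.φ p j z ∈ core c p r) : ‖z‖ < r := by
  obtain ⟨i, w, hw, e⟩ := mem_iUnion.1 h
  have hw1 : w ∈ ball (0 : ℂ) 1 := ball_subset_ball hr hw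
  by_cases hij : i = j
  · subst hij
    have := c.φ_inj p i hw1 hz e
    rw [← this]
    simpa using hw
  · exact absurd e (c.φ_disj p i j hij w hw1 z hz)

theorem lt_of_Nb {p : M} {r : ℝ} (hr : r ≤ 1) {j : Fin (c.L p).n} {z : ℂ}
    (hz : z ∈ ball (0 : ℂ) 1) (h : (c.L p).u j z ∈ Nb c p r) : ‖z‖ < r := by
  rw [← c.φ_f p j z hz] at h
  exact lt_of_core c hr hz (core_of_Nb c h)

/-- in `Nb p r` the curve is the union of the branches of radius `r`. -/
theorem exists_of_Nb {p : M} {r : ℝ} (hr : r ≤ 1) {x : M} (hx : x ∈ range c.f)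
    (h : x ∈ Nb c p r) : ∃ j, ∃ z ∈ ball (0 : ℂ) r, c.φ p j z ∈ core c p r ∧
      c.f (c.φ p j z) = x ∧ (c.L p).u j z = x := by
  obtain ⟨n, rfl⟩ := hx
  have hn := core_of_Nb c h
  obtain ⟨j, z, hz, e⟩ := mem_iUnion.1 hn
  refine ⟨j, z, hz, by rw [e]; exact hn, by rw [e], ?_⟩
  rw [← c.φ_f p j z (ball_subset_ball hr hz), e]

theorem u_smooth (p : M) (j : Fin (c.L p).n) {z : ℂ} (hz : z ∈ ball (0 : ℂ) 1) :
    ContMDiffAt 𝓘(ℝ, ℂ) 𝓘(ℝ, E4) ∞ ((c.L p).u j) z :=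
  ((c.L p).disc j).hol.smooth.contMDiffAt (isOpen_ball.mem_nhds hz)

theorem u_mem (p : M) (j : Fin (c.L p).n) {z : ℂ} (hz : z ∈ ball (0 : ℂ) 1) :
    (c.L p).u j z ∈ range c.f := ⟨c.φ p j z, c.φ_f p j z hz⟩

theorem isClosed_range [T2Space M] : IsClosed (range c.f) :=
  (isCompact_range c.cont).isClosed

/-! ### windings give non-vanishing -/

theorem wind_ne {κ : ℂ → ℂ} {r0 : ℝ} {m : ℤ} (h : ∀ r : ℝ, 0 < r → r < r0 → IsW κ 0 r m) {z : ℂ}
    (hz : z ∈ ball (0 : ℂ) r0) (h0 : z ≠ 0) : κ z ≠ 0 := by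
  have h1 : 0 < ‖z‖ := norm_pos_iff.2 h0
  have h2 : ‖z‖ < r0 := by simpa using hz
  have h3 := (h ‖z‖ h1 h2).ne (Complex.arg z)
  have h4 : circleMap 0 ‖z‖ (Complex.arg z) = z := by
    rw [circleMap, zero_add]; exact Complex.norm_mul_exp_arg_mul_I z
  simpa only [h4] using h3

/-! ### cut-offs -/

theorem exists_cut [T2Space M] [CompactSpace M] {p : M} {W : Set M} (hW : IsOpen W) (hp : p ∈ W) :
    ∃ (χ : M → ℝ) (K : Set M), SmoothF E4 χ ∧ IsCompact K ∧ K ⊆ W ∧ tsupport χ ⊆ interior K ∧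
      χ =ᶠ[𝓝 p] fun _ => 1 := by
  have hlc : LocallyCompactSpace M := ChartedSpace.locallyCompactSpace E4 M
  obtain ⟨K, hK, hpK, hKW⟩ := exists_compact_subset hW hp
  obtain ⟨K1, hK1, hpK1, hKW1⟩ := exists_compact_subset isOpen_interior hpK
  obtain ⟨f, h1, h0, -⟩ := exists_contMDiffMap_one_nhds_of_subset_interior (n := ⊤) 𝓘(ℝ, E4)
    (s := ({p} : Set M)) (t := K1) isClosed_singleton (by simpa using hpK1)
  refine ⟨fun x => f x, K, (smoothF_iff _).1 f.contMDiff, hK, hKW, ?_, ?_⟩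
  · refine (closure_minimal ?_ hK1.isClosed).trans hKW1
    intro x hx
    by_contra hxK
    exact hx (h0 x hxK)
  · rw [nhdsSet_singleton] at h1
    exact h1

/-! ### good points -/

/-- near `x` the curve is the zero set of a function whose differential at `x` is
`a σ(·, ∂f)`, `a ≠ 0`. -/
def Good (w : Trip M) (x : M) : Prop :=
  ∃ (U : Set M) (F : M → ℂ) (i : c.A.ι) (n : c.N) (a : ℂ), IsOpen U ∧ x ∈ U ∧ SmAt F x ∧
    (∀ y ∈ U, F y = 0 ↔ y ∈ range c.f) ∧ n ∈ (c.A.c i).source ∧ c.f n = x ∧ a ≠ 0 ∧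
    ∀ v : E4, dC F x v =
      a * sg w J x v (dmap (fun z => c.f ((c.A.c i).symm z)) (c.A.c i n) 1)

/-- the coordinate change between `φ p j` and a chart. -/
theorem deriv_ne {p : M} {j : Fin (c.L p).n} {i : c.A.ι} {z : ℂ} (hz : z ∈ ball (0 : ℂ) 1)
    (hi : c.φ p j z ∈ (c.A.c i).source) : deriv (fun z => c.A.c i (c.φ p j z)) z ≠ 0 :=
  c.φ_imm p j i z hz hi

end

section Glob

variable {M : Type u} [TopologicalSpace M] [T2Space M] [CompactSpace M] [ConnectedSpace M]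
  [ChartedSpace E4 M] [IsManifold 𝓘(ℝ, E4) ∞ M] {J : EndF E4 M} (c : JCurve J)

theorem good_of_box (hbch : BCH.{u}) {w : Trip M} (hJ : IsJ w J) {p : M} {V : Set M}
    (B : Box w c p V) {j : Fin (c.L p).n} {z : ℂ} (hz : z ∈ ball (0 : ℂ) B.r0) (h0 : z ≠ 0) :
    Good c w ((c.L p).u j z) := by
  have hz1 : z ∈ ball (0 : ℂ) 1 := ball_subset_ball B.r0_le hz
  obtain ⟨i, hi⟩ := c.A.cover (c.φ p j z)
  have hU := B.inU j z hz
  have hE : (c.L p).u j z ∉ B.E := fun hE =>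
    h0 (u_inj0 c hz1 (B.E_sub _ hU hE (u_mem c p j hz1)))
  refine ⟨B.U, B.F, i, c.φ p j z, B.κ j z * deriv (fun z => c.A.c i (c.φ p j z)) z, B.openU, hU,
    B.smooth _ hU hE, B.zero, hi, c.φ_f p j z hz1,
    mul_ne_zero (wind_ne (B.wind j) hz h0) (deriv_ne c hz1 hi), fun v => ?_⟩
  rw [B.κ_eq j z hz h0 v, hbch M w J hJ c p j i z hz1 hi v]
  ring

/-- finitely many centres. -/
theorem exists_good (hbox : BOXP.{u}) (hbch : BCH.{u}) {w : Trip M} (hw : Pos3 w)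
    (hJ : IsJ w J) : ∃ Y : Finset M, (∀ y ∈ Y, y ∈ range c.f) ∧
      ∀ x ∈ range c.f, x ∉ Y → Good c w x := by
  classical
  have h1 : ∀ y : M, ∃ W : Set M, IsOpen W ∧ y ∈ W ∧ ∀ x ∈ W, x ∈ range c.f → x ≠ y →
      Good c w x := by
    intro y
    by_cases hy : y ∈ range c.f
    · obtain ⟨B, _⟩ := hbox M w J hw hJ c c y univ isOpen_univ (mem_univ _) hy
      refine ⟨Nb c y B.r0, isOpen_Nb c y B.r0_le, mem_Nb c y B.r0_pos, fun x hx hxC hne => ?_⟩
      obtain ⟨j, z, hz, -, -, rfl⟩ := exists_of_Nb c B.r0_le hxC hx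
      refine good_of_box c hbch hJ B hz fun h0 => hne ?_
      rw [h0, (c.L y).centre]
    · exact ⟨(range c.f)ᶜ, (isClosed_range c).isOpen_compl, hy, fun x hx hxC => absurd hxC hx⟩
  choose W hWo hyW hW using h1
  obtain ⟨t, -, ht⟩ := isCompact_univ.elim_nhds_subcover W
    (fun y _ => (hWo y).mem_nhds (hyW y))
  refine ⟨t.filter (· ∈ range c.f), fun y hy => (Finset.mem_filter.1 hy).2, fun x hx hxt => ?_⟩
  obtain ⟨y, hy, hxy⟩ := mem_iUnion₂.1 (ht (mem_univ x))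
  refine hW y x hxy hx fun e => hxt ?_
  subst e
  exact Finset.mem_filter.2 ⟨hy, hx⟩

/-- the property of the push-off field (output of `FIELD`). -/
def FP (w : Trip M) (k : KSec c.A) (X : VF E4 M) (V : Set M) : Prop :=
  ∀ i, ∀ z ∈ (c.A.c i).target, c.f ((c.A.c i).symm z) ∉ V →
    sg w J (c.f ((c.A.c i).symm z)) (atV X (c.f ((c.A.c i).symm z)))
      (dmap (fun z => c.f ((c.A.c i).symm z)) z 1) = k.s i z

variable {c}

theorem FP.at {w : Trip M} {k : KSec c.A} {X : VF E4 M} {V : Set M} (h : FP c w k X V)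
    {i : c.A.ι} {n : c.N} (hn : n ∈ (c.A.c i).source) (hV : c.f n ∉ V) :
    sg w J (c.f n) (atV X (c.f n))
      (dmap (fun z => c.f ((c.A.c i).symm z)) (c.A.c i n) 1) = k.s i (c.A.c i n) := by
  have h1 := h i (c.A.c i n) ((c.A.c i).map_source hn)
  rw [(c.A.c i).left_inv hn] at h1
  exact h1 hV

/-- **(E1)** the pushed curve does not meet the curve off `V`. -/
theorem push_ne {w : Trip M} {k : KSec c.A} {X : VF E4 M} {V : Set M} (P : Push X)
    (hV : IsOpen V) (h : FP c w k X V) (hg : ∀ x ∈ range c.f, x ∉ V → Good c w x)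
    (hk : ∀ n ∈ k.Z, c.f n ∈ V) :
    ∀ᶠ t in 𝓝 (0 : ℝ), ∀ x ∈ range c.f \ V, t ≠ 0 → P.Φ t x ∉ range c.f := by
  have hcomp : IsCompact (range c.f \ V) := (isCompact_range c.cont).diff hV
  have key : ∀ x ∈ range c.f \ V, ∀ᶠ q in 𝓝 ((0 : ℝ), x),
      q.1 ≠ 0 → q.2 ∈ range c.f → P.Φ q.1 q.2 ∉ range c.f := by
    rintro x ⟨hx, hxV⟩
    obtain ⟨U, F, i, n, a, hU, hxU, hF, hz, hn, rfl, ha, hd⟩ := hg x hx hxV
    refine loc_ne P hU hxU hF hz ?_
    rw [hd, h.at hn hxV]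
    refine mul_ne_zero ha fun h0 => hxV (hk n ?_)
    have := k.zero i (c.A.c i n) ((c.A.c i).map_source hn) h0
    rwa [(c.A.c i).left_inv hn] at this
  filter_upwards [hcomp.eventually_forall_of_forall_eventually (P := fun (t : ℝ) (x : M) =>
    t ≠ 0 → x ∈ range c.f → P.Φ t x ∉ range c.f) (x₀ := (0 : ℝ)) key] with t ht x hx h0
  exact ht x hx h0 hx.1

/-! ### local data at a point of `P` -/

variable (c) in
/-- cut-off and radii at `p`. -/
structure Loc {w : Trip M} {p : M} {V : Set M} (B : Box w c p V) (k : KSec c.A) where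
  /-- the cut-off -/
  χ : M → ℝ
  smooth : SmoothF E4 χ
  /-- a compact neighbourhood of the support -/
  K : Set M
  compact : IsCompact K
  KU : K ⊆ B.U
  KN : K ⊆ Nb c p (B.r0 / 2)
  supp : tsupport χ ⊆ interior K
  /-- radius of the circle -/
  ρ : ℝ
  ρ_pos : 0 < ρ
  ρ_lt : ρ < B.r0 / 2
  one : ∀ j, ∀ z ∈ closedBall (0 : ℂ) ρ, χ =ᶠ[𝓝 ((c.L p).u j z)] fun _ => 1
  /-- charts -/
  i : Fin (c.L p).n → c.A.ι
  src : ∀ j, ∀ z ∈ closedBall (0 : ℂ) ρ, c.φ p j z ∈ (c.A.c (i j)).source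
  wind : ∀ j, IsW (secφ k p j (i j)) 0 ρ (ordφ k p j)

theorem exists_loc (hdegs : DEGS.{u}) {w : Trip M} {p : M} {V : Set M} (B : Box w c p V)
    (k : KSec c.A) : Nonempty (Loc c B k) := by
  classical
  have hr : B.r0 / 2 ≤ 1 := by linarith [B.r0_le, B.r0_pos]
  obtain ⟨χ, K, h1, h2, h3, h4, h5⟩ := exists_cut (W := B.U ∩ Nb c p (B.r0 / 2))
    (B.openU.inter (isOpen_Nb c p hr)) ⟨B.mem, mem_Nb c p (half_pos B.r0_pos)⟩
  choose i hi using fun j : Fin (c.L p).n => c.A.cover (c.φ p j 0)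
  -- the conditions on the radius
  have e1 : ∀ j, ∀ᶠ z in 𝓝 (0 : ℂ), χ =ᶠ[𝓝 ((c.L p).u j z)] fun _ => 1 := by
    intro j
    have hc : ContinuousAt ((c.L p).u j) 0 := (u_smooth c p j zero_mem).continuousAt
    have h6 : ∀ᶠ x in 𝓝 ((c.L p).u j 0), χ =ᶠ[𝓝 x] fun _ => 1 := by
      rw [(c.L p).centre]; exact eventually_eventually_nhds.2 h5
    exact hc.eventually h6
  have e2 : ∀ j, ∀ᶠ z in 𝓝 (0 : ℂ), c.φ p j z ∈ (c.A.c (i j)).source := by
    intro j
    have hc : ContinuousAt (c.φ p j) 0 :=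
      (c.φ_cont p j).continuousAt (isOpen_ball.mem_nhds zero_mem)
    exact hc.preimage_mem_nhds ((c.A.c (i j)).open_source.mem_nhds (hi j))
  have e3 : ∀ᶠ z in 𝓝 (0 : ℂ), ∀ j, (χ =ᶠ[𝓝 ((c.L p).u j z)] fun _ => 1) ∧
      c.φ p j z ∈ (c.A.c (i j)).source := by
    rw [eventually_all]
    exact fun j => (e1 j).and (e2 j)
  obtain ⟨δ, hδ, hball⟩ := Metric.eventually_nhds_iff_ball.1 e3
  have e4 : ∀ᶠ r in 𝓝[>] (0 : ℝ), ∀ j, IsW (secφ k p j (i j)) 0 r (ordφ k p j) := by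
    rw [eventually_all]
    exact fun j => (hdegs M J c k).1 p j (i j) (hi j)
  have e5 : ∀ᶠ r in 𝓝[>] (0 : ℝ), r < δ ∧ r < B.r0 / 2 ∧ 0 < r := by
    filter_upwards [Ioo_mem_nhdsGT hδ, Ioo_mem_nhdsGT (half_pos B.r0_pos)] with r hr1 hr2
    exact ⟨hr1.2, hr2.2, hr1.1⟩
  obtain ⟨r, hr4, hr1, hr2, hr3⟩ := (e4.and e5).exists
  exact ⟨⟨χ, h1, K, h2, fun x hx => (h3 hx).1, fun x hx => (h3 hx).2, h4, r, hr3, hr2,
    fun j z hz => (hball z (closedBall_subset_ball hr1 hz) j).1, i,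
    fun j z hz => (hball z (closedBall_subset_ball hr1 hz) j).2, hr4⟩⟩

end Glob

end Crest.Agent.R235.AdjGeo_43
end

-- ▼ part R235/AdjSmall_43
section

/-!
Row 235 (S0364), PACKAGE ADJ, helper43: the push-off near a point of `P` for small `t`, and the
value of the pushed current on `dArg F ∧ dχ`.
-/

set_option autoImplicit false
set_option maxSynthPendingDepth 3
set_option linter.unusedSectionVars false

open Set Function Filter MeasureTheory Metric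
open scoped Manifold ContDiff Topology Real

universe u

namespace Crest.Agent.R235.AdjSmall_43

open Crest.Agent.R240 Crest.Agent.R240.Ch Crest.Agent.R240.Int
open Crest.Agent.R235 Crest.Agent.R235.Glob_370 Crest.Agent.R235.Wind_688 Crest.Agent.R235.Adj
open Crest.Agent.R235.AdjGen_83 Crest.Agent.R235.AdjLoc_43 Crest.Agent.R235.AdjGeo_43

noncomputable section

variable {M : Type u} [TopologicalSpace M] [T2Space M] [CompactSpace M] [ConnectedSpace M]
  [ChartedSpace E4 M] [IsManifold 𝓘(ℝ, E4) ∞ M] {J : EndF E4 M} {c : JCurve J}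

/-- smallness of `t`. -/
structure Small {w : Trip M} {p : M} {V : Set M} {B : Box w c p V} {k : KSec c.A}
    (L : Loc c B k) {X : VF E4 M} (P : Push X) (t : ℝ) : Prop where
  one : ∀ j, ∀ z ∈ closedBall (0 : ℂ) L.ρ, L.χ =ᶠ[𝓝 (P.Φ t ((c.L p).u j z))] fun _ => 1
  supp : ∀ x, P.Φ t x ∈ tsupport L.χ → x ∈ L.K
  ann : ∀ j, ∀ z : ℂ, L.ρ / 2 ≤ ‖z‖ → ‖z‖ ≤ 3 / 4 * B.r0 → P.Φ t ((c.L p).u j z) ∈ B.U \ B.E
  wind : ∀ j, IsW (fun z => B.F (P.Φ t ((c.L p).u j z))) 0 L.ρ (B.m j + ordφ k p j)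

theorem cont_joint {X : VF E4 M} (P : Push X) {u : ℂ → M} {z : ℂ} (hu : ContinuousAt u z) :
    ContinuousAt (fun q : ℝ × ℂ => P.Φ q.1 (u q.2)) (0, z) := by
  have h1 : ContinuousAt (fun q : ℝ × ℂ => (q.1, u q.2)) (0, z) := by
    refine continuousAt_fst.prodMk ?_
    exact ContinuousAt.comp (g := u) (f := fun q : ℝ × ℂ => q.2) (x := ((0 : ℝ), z)) hu
      continuousAt_snd
  exact ContinuousAt.comp (g := fun q : ℝ × M => P.Φ q.1 q.2) (f := fun q : ℝ × ℂ => (q.1, u q.2))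
    (x := ((0 : ℝ), z)) (push_cont P (u z)) h1

theorem exists_small (hbch : BCH.{u}) {w : Trip M} (hJ : IsJ w J) {p : M} {V V' : Set M}
    {B : Box w c p V} {k : KSec c.A} (L : Loc c B k) {X : VF E4 M} (P : Push X)
    (hX : FP c w k X V')
    (hV : ∀ j, ∀ z : ℂ, L.ρ / 2 ≤ ‖z‖ → ‖z‖ < B.r0 → (c.L p).u j z ∉ V') :
    ∀ᶠ t in 𝓝[>] (0 : ℝ), Small L P t := by
  have hρ1 : L.ρ < B.r0 := by linarith [L.ρ_lt, B.r0_pos]
  have hr1 := B.r0_le
  have hr0 := B.r0_pos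
  have hρ0 := L.ρ_pos
  have ha : ∀ j, ∀ᶠ t in 𝓝 (0 : ℝ), ∀ z ∈ closedBall (0 : ℂ) L.ρ,
      L.χ =ᶠ[𝓝 (P.Φ t ((c.L p).u j z))] fun _ => 1 := by
    intro j
    refine (isCompact_closedBall (0 : ℂ) L.ρ).eventually_forall_of_forall_eventually
      (P := fun (t : ℝ) (z : ℂ) => L.χ =ᶠ[𝓝 (P.Φ t ((c.L p).u j z))] fun _ => 1) fun z hz => ?_
    have hz1 : z ∈ ball (0 : ℂ) 1 := closedBall_subset_ball (by linarith) hz
    have h1 := cont_joint P (u_smooth c p j hz1).continuousAt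
    have h2 : ∀ᶠ x in 𝓝 (P.Φ 0 ((c.L p).u j z)), L.χ =ᶠ[𝓝 x] fun _ => 1 := by
      rw [P.zero]; exact eventually_eventually_nhds.2 (L.one j z hz)
    exact h1.eventually h2
  have hb : ∀ᶠ t in 𝓝 (0 : ℝ), ∀ x ∈ (interior L.K)ᶜ, P.Φ t x ∉ tsupport L.χ := by
    refine (isOpen_interior.isClosed_compl.isCompact).eventually_forall_of_forall_eventually
      (P := fun (t : ℝ) (x : M) => P.Φ t x ∉ tsupport L.χ) fun x hx => ?_
    have h2 : (tsupport L.χ)ᶜ ∈ 𝓝 (P.Φ 0 x) := by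
      rw [P.zero]
      exact (isClosed_tsupport _).isOpen_compl.mem_nhds fun h => hx (L.supp h)
    exact (push_cont P x).eventually h2
  have hc : ∀ j, ∀ᶠ t in 𝓝 (0 : ℝ), ∀ z ∈ closedBall (0 : ℂ) (3 / 4 * B.r0) \ ball 0 (L.ρ / 2),
      P.Φ t ((c.L p).u j z) ∈ B.U \ B.E := by
    intro j
    refine ((isCompact_closedBall (0 : ℂ) _).diff isOpen_ball).eventually_forall_of_forall_eventually
      (P := fun (t : ℝ) (z : ℂ) => P.Φ t ((c.L p).u j z) ∈ B.U \ B.E) fun z hz => ?_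
    have hz2 : z ∈ ball (0 : ℂ) B.r0 := closedBall_subset_ball (by linarith) hz.1
    have hz1 : z ∈ ball (0 : ℂ) 1 := ball_subset_ball B.r0_le hz2
    have hz0 : z ≠ 0 := fun h => hz.2 (by rw [h]; exact mem_ball_self (half_pos hρ0))
    have h1 := cont_joint P (u_smooth c p j hz1).continuousAt
    refine h1.eventually (B.closedE.mem_nhds ?_)
    simp only [P.zero]
    refine ⟨B.inU j z hz2, fun hE => hz0 (u_inj0 c hz1 (B.E_sub _ (B.inU j z hz2) hE
      (u_mem c p j hz1)))⟩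
  have hd : ∀ j, ∀ᶠ t in 𝓝[>] (0 : ℝ),
      IsW (fun z => B.F (P.Φ t ((c.L p).u j z))) 0 L.ρ (B.m j + ordφ k p j) := by
    intro j
    have hs : ∀ z ∈ sphere (0 : ℂ) L.ρ, ‖z‖ = L.ρ := fun z hz => by simpa using hz
    have hs1 : ∀ z ∈ sphere (0 : ℂ) L.ρ, z ∈ ball (0 : ℂ) B.r0 := fun z hz => by
      rw [mem_ball_zero_iff, hs z hz]; exact hρ1
    have hs2 : ∀ z ∈ sphere (0 : ℂ) L.ρ, z ≠ 0 := fun z hz h => by
      have := hs z hz
      rw [h, norm_zero] at this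
      linarith
    have hs3 : ∀ z ∈ sphere (0 : ℂ) L.ρ, z ∈ ball (0 : ℂ) 1 := fun z hz =>
      ball_subset_ball B.r0_le (hs1 z hz)
    refine loc_wind P hρ0 (fun z hz => u_smooth c p j (hs3 z hz)) (fun z hz => ?_) (fun z hz => ?_)
      ((B.wind j L.ρ hρ0 hρ1).mul (L.wind j)) fun z hz => ?_
    · refine B.smooth _ (B.inU j z (hs1 z hz)) fun hE => hs2 z hz ?_
      exact u_inj0 c (hs3 z hz) (B.E_sub _ (B.inU j z (hs1 z hz)) hE (u_mem c p j (hs3 z hz)))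
    · exact (B.zero _ (B.inU j z (hs1 z hz))).2 (u_mem c p j (hs3 z hz))
    · have hsrc := L.src j z (sphere_subset_closedBall hz)
      have hnV : c.f (c.φ p j z) ∉ V' := by
        rw [c.φ_f p j z (hs3 z hz)]
        refine hV j z ?_ ?_
        · rw [hs z hz]; linarith
        · rw [hs z hz]; exact hρ1
      have h1 := hX.at hsrc hnV
      rw [c.φ_f p j z (hs3 z hz)] at h1
      rw [B.κ_eq j z (hs1 z hz) (hs2 z hz), hbch M w J hJ c p j (L.i j) z (hs3 z hz) hsrc, h1]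
      rfl
  have ha' := eventually_all.2 ha
  have hc' := eventually_all.2 hc
  have hd' := eventually_all.2 hd
  filter_upwards [nhdsWithin_le_nhds ha', nhdsWithin_le_nhds hb, nhdsWithin_le_nhds hc', hd']
    with t h1 h2 h3 h4
  refine ⟨h1, fun x hx => ?_, fun j z hz1 hz2 => ?_, h4⟩
  · by_contra hxK
    exact h2 x (fun h => hxK (interior_subset h)) hx
  · exact h3 j z ⟨by simpa using hz2, by simpa using hz1⟩

end

end Crest.Agent.R235.AdjSmall_43
end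

-- ▼ part R235/AdjVal_43
section

/-!
Row 235 (S0364), PACKAGE ADJ, helper43: the value of the pushed current on `dArg F ∧ dχ`.
-/

set_option autoImplicit false
set_option maxSynthPendingDepth 3
set_option linter.unusedSectionVars false

open Set Function Filter MeasureTheory Metric
open scoped Manifold ContDiff Topology Real

universe u

namespace Crest.Agent.R235.AdjVal_43

open Crest.Agent.R240 Crest.Agent.R240.Ch Crest.Agent.R240.Int
open Crest.Agent.R235 Crest.Agent.R235.Glob_370 Crest.Agent.R235.Wind_688 Crest.Agent.R235.Adj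
open Crest.Agent.R235.AdjGen_83 Crest.Agent.R235.AdjLoc_43 Crest.Agent.R235.AdjGeo_43
open Crest.Agent.R235.AdjSmall_43

noncomputable section

variable {M : Type u} [TopologicalSpace M] [T2Space M] [CompactSpace M] [ConnectedSpace M]
  [ChartedSpace E4 M] [IsManifold 𝓘(ℝ, E4) ∞ M] {J : EndF E4 M} {c : JCurve J}

/-- the differential of a locally constant function. -/
theorem dF_const {χ : M → ℝ} {x : M} {a : ℝ} (h : χ =ᶠ[𝓝 x] fun _ => a) :
    at1 (dF χ : F1 E4 M) x = 0 := by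
  have hx : x ∈ (chartAt E4 x).source := mem_chart_source E4 x
  have hy : chartAt E4 x x ∈ (chartAt E4 x).target := mem_chart_target E4 x
  have h1 : Tendsto (chartAt E4 x).symm (𝓝 (chartAt E4 x x)) (𝓝 x) := by
    have := (chartAt E4 x).symm.continuousAt (x := chartAt E4 x x) (by simp)
    rw [ContinuousAt, (chartAt E4 x).left_inv hx] at this
    exact this
  have h2 : repF x χ =ᶠ[𝓝 (chartAt E4 x x)] fun _ => a := h1.eventually h
  show fderiv ℝ (repF x χ) (chartAt E4 x x) = 0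
  rw [h2.fderiv_eq]
  simp


/-- the flow at time `t` is continuous. -/
theorem Φ_cont {X : VF E4 M} (P : Push X) {t : ℝ} (ht : t ∈ Ioo (-P.t0) P.t0) :
    Continuous (P.Φ t) := by
  have h := P.smooth.continuousOn
  rw [← continuousOn_univ]
  exact h.comp (f := fun x : M => (t, x)) (by fun_prop) fun x _ => ⟨ht, mem_univ _⟩

theorem Φ_smooth {X : VF E4 M} (P : Push X) {t : ℝ} (ht : t ∈ Ioo (-P.t0) P.t0) (x : M) :
    ContMDiffAt 𝓘(ℝ, E4) 𝓘(ℝ, E4) ∞ (P.Φ t) x := by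
  have h1 : ContMDiffAt (𝓘(ℝ, ℝ).prod 𝓘(ℝ, E4)) 𝓘(ℝ, E4) ∞
      (fun q : ℝ × M => P.Φ q.1 q.2) (t, x) :=
    P.smooth.contMDiffAt ((isOpen_Ioo.prod isOpen_univ).mem_nhds ⟨ht, mem_univ _⟩)
  have h2 : ContMDiffAt 𝓘(ℝ, E4) (𝓘(ℝ, ℝ).prod 𝓘(ℝ, E4)) ∞ (fun x : M => (t, x)) x :=
    contMDiffAt_const.prodMk contMDiffAt_id
  exact ContMDiffAt.comp (g := fun q : ℝ × M => P.Φ q.1 q.2) (f := fun x : M => (t, x)) x h1 h2

theorem isClosed_push {X : VF E4 M} (P : Push X) {t : ℝ} (ht : t ∈ Ioo (-P.t0) P.t0) :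
    IsClosed (P.Φ t '' range c.f) :=
  ((isCompact_range c.cont).image (Φ_cont P ht)).isClosed

/-- **the smooth form `B`.** -/
theorem exists_B (hcut : CUTF.{u}) {w : Trip M} {p : M} {V V' : Set M} {B : Box w c p V}
    {k : KSec c.A} (L : Loc c B k) {X : VF E4 M} (P : Push X) {t : ℝ}
    (ht : t ∈ Ioo (-P.t0) P.t0) (hS : Small L P t)
    (hne : ∀ x ∈ range c.f \ V', P.Φ t x ∉ range c.f)
    (hV : ∀ j, ∀ z : ℂ, L.ρ / 2 ≤ ‖z‖ → ‖z‖ < B.r0 → (c.L p).u j z ∉ V') :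
    ∃ (Bf : X2 M) (N : Set M), IsOpen N ∧ P.Φ t '' range c.f ⊆ N ∧
      (∀ x ∈ N, at2 (Bf : F2 E4 M) x = at2 (wedG (dArg B.F) (dF L.χ)) x) ∧
      ∀ x ∉ tsupport L.χ, at2 (Bf : F2 E4 M) x = 0 := by
  have hr0 := B.r0_pos
  have hρ0 := L.ρ_pos
  have hρ1 := L.ρ_lt
  set O : Set M := {x | L.χ =ᶠ[𝓝 x] fun _ => 1} with hO
  have hOo : IsOpen O := isOpen_setOfPred_eventually_nhds
  have hD : ∀ x ∉ tsupport L.χ ∩ Oᶜ, at1 (dF L.χ : F1 E4 M) x = 0 := by
    intro x hx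
    by_cases hxs : x ∈ tsupport L.χ
    · have : x ∈ O := by
        by_contra h
        exact hx ⟨hxs, h⟩
      exact dF_const this
    · refine dF_const (a := 0) ?_
      have := (isClosed_tsupport L.χ).isOpen_compl.mem_nhds hxs
      filter_upwards [this] with y hy
      exact image_eq_zero_of_notMem_tsupport hy
  have hKD : P.Φ t '' range c.f ∩ (tsupport L.χ ∩ Oᶜ) ⊆ (B.U \ B.E) ∩ (range c.f)ᶜ := by
    rintro y ⟨⟨x, hx, rfl⟩, hys, hyO⟩
    have hK := hS.supp x hys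
    obtain ⟨j, z, hz, -, -, hu⟩ := exists_of_Nb c (by linarith [B.r0_le]) hx (L.KN hK)
    have hz' : ‖z‖ < B.r0 / 2 := by simpa using hz
    have hzρ : L.ρ < ‖z‖ := by
      by_contra hle
      refine hyO ?_
      rw [← hu]
      exact hS.one j z (by simpa using not_lt.1 hle)
    refine ⟨?_, ?_⟩
    · rw [← hu]
      exact hS.ann j z (by linarith) (by linarith)
    · refine hne x ⟨hx, ?_⟩
      rw [← hu]
      exact hV j z (by linarith) (by linarith)
  obtain ⟨Bf, N, h1, h2, h3, h4⟩ := hcut M B.F L.χ ((B.U \ B.E) ∩ (range c.f)ᶜ)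
    (P.Φ t '' range c.f) (tsupport L.χ ∩ Oᶜ)
    (B.closedE.inter (isClosed_range c).isOpen_compl)
    (fun x hx => B.smooth x hx.1.1 hx.1.2)
    (fun x hx h => hx.2 ((B.zero x hx.1.1).1 h)) L.smooth (isClosed_push P ht)
    ((isClosed_tsupport _).inter hOo.isClosed_compl) hD hKD
  exact ⟨Bf, N, h1, h2, h3, fun x hx => h4 x fun h => hx h.1⟩

/-- **the value of the pushed current.** -/
theorem R_val (hbr : BRINT.{u}) {w : Trip M} {p : M} {V V' : Set M} {B : Box w c p V}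
    {k : KSec c.A} (L : Loc c B k) {X : VF E4 M} (P : Push X) {t : ℝ}
    (ht : t ∈ Ioo (-P.t0) P.t0) (hS : Small L P t)
    (hne : ∀ x ∈ range c.f \ V', P.Φ t x ∉ range c.f)
    (hV : ∀ j, ∀ z : ℂ, L.ρ / 2 ≤ ‖z‖ → ‖z‖ < B.r0 → (c.L p).u j z ∉ V')
    {Bf : X2 M} {N : Set M} (hN : P.Φ t '' range c.f ⊆ N)
    (h1 : ∀ x ∈ N, at2 (Bf : F2 E4 M) x = at2 (wedG (dArg B.F) (dF L.χ)) x)
    (h2 : ∀ x ∉ tsupport L.χ, at2 (Bf : F2 E4 M) x = 0) :
    c.T (P.P t Bf) = ∑ j, ((B.m j + ordφ k p j : ℤ) : ℝ) := by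
  have hr0 := B.r0_pos
  have hr1 := B.r0_le
  have hρ0 := L.ρ_pos
  have hρ1 := L.ρ_lt
  have hKL : L.K ⊆ (c.L p).U := fun x hx => B.subL (L.KU hx)
  rw [c.cur p (P.P t Bf) L.K L.compact hKL fun x hx =>
    P.supp t ht Bf x (h2 _ fun h => hx (hS.supp x h))]
  refine Finset.sum_congr rfl fun j _ => ?_
  have hsm : ∀ z ∈ ball (0 : ℂ) 1, ContMDiffAt 𝓘(ℝ, ℂ) 𝓘(ℝ, E4) ∞ ((c.L p).u j) z :=
    fun z hz => u_smooth c p j hz
  rw [setIntegral_congr_fun measurableSet_ball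
    (g := fun z => pb (fun y => P.Φ t ((c.L p).u j y)) (Bf : F2 E4 M) z)
    fun z hz => P.pull t ht _ z (hsm z hz) Bf]
  refine hbr M B.F L.χ (fun y => P.Φ t ((c.L p).u j y)) Bf (L.ρ / 2) L.ρ (B.r0 / 2)
    (3 / 4 * B.r0) (B.m j + ordφ k p j) (by linarith) (by linarith) hρ1 (by linarith)
    (by linarith) (fun z hz => ?_) L.smooth (fun z hz1 hz2 => ?_) (hS.one j)
    (fun z hz1 hz2 => ?_) (fun z hz => ?_) (hS.wind j)
  · exact (ContMDiffAt.comp (g := P.Φ t) (f := (c.L p).u j) z (Φ_smooth P ht _)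
      (hsm z hz)).contMDiffWithinAt
  · have h3 := hS.ann j z hz1.le hz2.le
    have hz3 : z ∈ ball (0 : ℂ) 1 := by
      rw [mem_ball_zero_iff]; linarith
    refine ⟨B.smooth _ h3.1 h3.2, fun h0 => ?_⟩
    exact hne _ ⟨u_mem c p j hz3, hV j z hz1.le (by linarith)⟩ ((B.zero _ h3.1).1 h0)
  · have h3 : P.Φ t ((c.L p).u j z) ∉ tsupport L.χ := by
      intro h
      have := lt_of_Nb c (by linarith) hz1 (L.KN (hS.supp _ h))
      linarith
    have := (isClosed_tsupport L.χ).isOpen_compl.mem_nhds h3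
    filter_upwards [this] with y hy
    exact image_eq_zero_of_notMem_tsupport hy
  · exact h1 _ (hN ⟨_, u_mem c p j hz, rfl⟩)

end

end Crest.Agent.R235.AdjVal_43
end

-- ▼ part R235/AdjMain_43
section

/-!
Row 235 (S0364), PACKAGE ADJ, helper43: **the adjunction inequality**
`adj : BOXP → PUSH → FIELD → INTW → CORD → CUTF → BRINT → DEGS → BCH → ADJ`.
-/

set_option autoImplicit false
set_option maxSynthPendingDepth 3
set_option linter.unusedSectionVars false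

open Set Function Filter MeasureTheory Metric
open scoped Manifold ContDiff Topology Real

universe u

namespace Crest.Agent.R235.AdjMain_43

open Crest.Agent.R240 Crest.Agent.R240.Ch Crest.Agent.R240.Int
open Crest.Agent.R235 Crest.Agent.R235.Glob_370 Crest.Agent.R235.Wind_688 Crest.Agent.R235.Adj
open Crest.Agent.R235.AdjGen_83 Crest.Agent.R235.AdjLoc_43 Crest.Agent.R235.AdjGeo_43
open Crest.Agent.R235.AdjSmall_43 Crest.Agent.R235.AdjVal_43

noncomputable section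

variable {M : Type u} [TopologicalSpace M] [T2Space M] [CompactSpace M] [ConnectedSpace M]
  [ChartedSpace E4 M] [IsManifold 𝓘(ℝ, E4) ∞ M] {J : EndF E4 M} {c : JCurve J}

/-- boxes and cut-offs at the points of the finite set `P`. -/
structure Pk (w : Trip M) (c : JCurve J) (k : KSec c.A) (P : Finset M) where
  /-- disjoint neighbourhoods -/
  W : P → Set M
  disj : ∀ p q, p ≠ q → Disjoint (W p) (W q)
  /-- the boxes -/
  B : ∀ p : P, Box w c p.1 (W p)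
  /-- the cut-offs -/
  L : ∀ p : P, Loc c (B p) k

theorem exists_pk (hbox : BOXP.{u}) (hdegs : DEGS.{u}) {w : Trip M} (hw : Pos3 w) (hJ : IsJ w J)
    (k : KSec c.A) (P : Finset M) (hP : ∀ p ∈ P, p ∈ range c.f) : Nonempty (Pk w c k P) := by
  classical
  obtain ⟨U, hU, hd⟩ := (P.finite_toSet).t2_separation
  have h1 : ∀ p : P, Nonempty (Box w c p.1 (U p.1)) := fun p =>
    let ⟨B, _⟩ := hbox M w J hw hJ c c p.1 (U p.1) (hU p.1).2 (hU p.1).1 (hP p.1 p.2)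
    ⟨B⟩
  exact ⟨⟨fun p => U p.1, fun p q hpq => hd p.2 q.2 fun h => hpq (Subtype.ext h),
    fun p => (h1 p).some, fun p => (exists_loc hdegs (h1 p).some k).some⟩⟩

namespace Pk

variable {w : Trip M} {k : KSec c.A} {P : Finset M} (D : Pk w c k P)

/-- the small discs in `N`. -/
def cores : Set c.N := ⋃ p : P, core c p.1 ((D.L p).ρ / 2)

/-- the neighbourhood `V` of `P`. -/
def V : Set M := (c.f '' D.cores ᶜ)ᶜ

theorem ρ_le (p : P) : (D.L p).ρ / 2 ≤ 1 := by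
  linarith [(D.L p).ρ_lt, (D.B p).r0_le, (D.B p).r0_pos, (D.L p).ρ_pos]

theorem isOpen_V : IsOpen D.V := by
  have h : IsOpen D.cores := isOpen_iUnion fun p => isOpen_core c p.1 (D.ρ_le p)
  exact ((h.isClosed_compl.isCompact).image c.cont).isClosed.isOpen_compl

theorem P_sub {p : M} (hp : p ∈ P) : p ∈ D.V := by
  rintro ⟨n, hn, hnp⟩
  obtain ⟨j, hj⟩ := f_eq_p c hnp
  exact hn (mem_iUnion.2 ⟨⟨p, hp⟩, mem_iUnion.2 ⟨j, 0,
    mem_ball_self (half_pos (D.L ⟨p, hp⟩).ρ_pos), hj⟩⟩)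

theorem not_V {n : c.N} (h : n ∉ D.cores) : c.f n ∉ D.V := fun h1 => h1 ⟨n, h, rfl⟩

theorem mem_cores {n : c.N} (h : c.f n ∈ D.V) : n ∈ D.cores := by
  by_contra hn
  exact D.not_V hn h

theorem ann_not_V (p : P) (j : Fin (c.L p.1).n) {z : ℂ} (h1 : (D.L p).ρ / 2 ≤ ‖z‖)
    (h2 : ‖z‖ < (D.B p).r0) : (c.L p.1).u j z ∉ D.V := by
  have hz0 : z ∈ ball (0 : ℂ) (D.B p).r0 := by simpa using h2
  have hz : z ∈ ball (0 : ℂ) 1 := ball_subset_ball (D.B p).r0_le hz0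
  rw [← c.φ_f p.1 j z hz]
  refine D.not_V fun hn => ?_
  obtain ⟨q, hq⟩ := mem_iUnion.1 hn
  by_cases hpq : q = p
  · subst hpq
    exact absurd (lt_of_core c (D.ρ_le q) hz hq) (not_lt.2 h1)
  · obtain ⟨i, x, hx, e⟩ := mem_iUnion.1 hq
    have hx0 : x ∈ ball (0 : ℂ) (D.B q).r0 := by
      refine ball_subset_ball ?_ hx
      linarith [(D.L q).ρ_lt, (D.B q).r0_pos, (D.L q).ρ_pos]
    have hx1 : x ∈ ball (0 : ℂ) 1 := ball_subset_ball (D.B q).r0_le hx0
    have h3 := (D.B q).subV ((D.B q).inU i x hx0)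
    have h4 := (D.B p).subV ((D.B p).inU j z hz0)
    rw [← c.φ_f q.1 i x hx1, e, c.φ_f p.1 j z hz] at h3
    exact disjoint_left.1 (D.disj q p hpq) h3 h4

/-- the sum of the cut-offs is `1` where one of them is. -/
theorem one_sum {p : P} {y : M} (h1 : (D.L p).χ =ᶠ[𝓝 y] fun _ => 1) :
    ∀ᶠ x in 𝓝 y, ∑ q : P, (D.L q).χ x = 1 := by
  classical
  have hyp : y ∈ D.W p := by
    have h2 : y ∈ tsupport (D.L p).χ := by
      refine subset_tsupport _ ?_
      rw [mem_support, h1.self_of_nhds]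
      exact one_ne_zero
    exact (D.B p).subV ((D.L p).KU (interior_subset ((D.L p).supp h2)))
  have h0 : ∀ q : P, q ≠ p → (D.L q).χ =ᶠ[𝓝 y] fun _ => 0 := by
    intro q hq
    have hys : y ∉ tsupport (D.L q).χ := by
      intro h
      have hyq : y ∈ D.W q := (D.B q).subV ((D.L q).KU (interior_subset ((D.L q).supp h)))
      exact disjoint_left.1 (D.disj q p hq) hyq hyp
    filter_upwards [(isClosed_tsupport (D.L q).χ).isOpen_compl.mem_nhds hys] with x hx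
    exact image_eq_zero_of_notMem_tsupport hx
  have h0' : ∀ᶠ x in 𝓝 y, ∀ q : P, q ≠ p → (D.L q).χ x = 0 := by
    rw [eventually_all]
    intro q
    by_cases hq : q = p
    · exact Eventually.of_forall fun x h => absurd hq h
    · filter_upwards [h0 q hq] with x hx _
      exact hx
  filter_upwards [h1, h0'] with x hx1 hx0
  rw [Finset.sum_eq_single p (fun q _ hq => hx0 q hq) (fun h => absurd (Finset.mem_univ _) h)]
  exact hx1

/-- the sum of the cut-offs is `1` near the intersection of the curve and the pushed curve. -/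
theorem one_push {X : VF E4 M} {Q : Push X} {t : ℝ} (hS : ∀ p : P, Small (D.L p) Q t)
    (hne : ∀ x ∈ range c.f \ D.V, Q.Φ t x ∉ range c.f) {x : M}
    (hx : x ∈ range c.f ∩ Q.Φ t '' range c.f) : ∀ᶠ y in 𝓝 x, ∑ q : P, (D.L q).χ y = 1 := by
  obtain ⟨hx1, x', hx', rfl⟩ := hx
  have hV : x' ∈ D.V := by
    by_contra h
    exact hne x' ⟨hx', h⟩ hx1
  obtain ⟨n, rfl⟩ := hx'
  obtain ⟨p, hp⟩ := mem_iUnion.1 (D.mem_cores hV)
  obtain ⟨j, z, hz, rfl⟩ := mem_iUnion.1 hp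
  have hρ := (D.L p).ρ_pos
  have hz1 : z ∈ closedBall (0 : ℂ) (D.L p).ρ := by
    refine ball_subset_closedBall (ball_subset_ball ?_ hz)
    linarith
  have hz2 : z ∈ ball (0 : ℂ) 1 := ball_subset_ball (D.ρ_le p) hz
  have h1 := (hS p).one j z hz1
  rw [← c.φ_f p.1 j z hz2] at h1
  exact D.one_sum h1

end Pk

/-- the identity `c.c = deg K + Σ m`. -/
theorem adj_eq (hpush : PUSH.{u}) (hfield : FIELD.{u}) (hint : INTW.{u}) (hcord : CORD.{u})
    (hcut : CUTF.{u}) (hbr : BRINT.{u}) (hdegs : DEGS.{u}) (hbch : BCH.{u})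
    {w : Trip M} (hw : Pos3 w) (hJ : IsJ w J) {s : H2 M}
    (hs : ∀ b : Z2 M, c.T b.1 = ip (w 0) s (cls b)) (k : KSec c.A) {P : Finset M}
    (D : Pk w c k P) (hk : ∀ n ∈ k.Z, c.f n ∈ P)
    (hgood : ∀ x ∈ range c.f, x ∉ P → Good c w x)
    (hinj : ∀ x y : c.N, x ≠ y → c.f x = c.f y → c.f x ∈ P)
    (himm : ∀ i, ∀ z ∈ (c.A.c i).target, dmap (fun z => c.f ((c.A.c i).symm z)) z 1 = 0 →
        c.f ((c.A.c i).symm z) ∈ P) :
    ip (w 0) s s = k.deg + ∑ p : P, ∑ j, (((D.B p).m j : ℤ) : ℝ) := by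
  classical
  have hVol : Int.Vol ((w 0).1.1 : F2 E4 M) := hw.vol 0
  obtain ⟨X, hX, hFP⟩ := hfield M w J hw hJ c k D.V D.isOpen_V
    (fun x y hxy h => D.P_sub (hinj x y hxy h)) (fun i z hz h => D.P_sub (himm i z hz h))
  have hFP' : FP c w k X D.V := hFP
  obtain ⟨Q⟩ := hpush M X hX
  -- the time `t`
  have e1 : ∀ᶠ t in 𝓝[>] (0 : ℝ), ∀ p : P, Small (D.L p) Q t :=
    eventually_all.2 fun p => exists_small hbch hJ (D.L p) Q hFP' fun j z h1 h2 =>
      D.ann_not_V p j h1 h2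
  have e2 : ∀ᶠ t in 𝓝[>] (0 : ℝ), ∀ x ∈ range c.f \ D.V, t ≠ 0 → Q.Φ t x ∉ range c.f :=
    nhdsWithin_le_nhds (push_ne Q D.isOpen_V hFP'
      (fun x hx hxV => hgood x hx fun h => hxV (D.P_sub h)) fun n hn => D.P_sub (hk n hn))
  have e3 : ∀ᶠ t in 𝓝[>] (0 : ℝ), t ∈ Ioo (0 : ℝ) Q.t0 := Ioo_mem_nhdsGT Q.t0_pos
  obtain ⟨t, hS, hne0, ht0⟩ := (e1.and (e2.and e3)).exists
  have ht : t ∈ Ioo (-Q.t0) Q.t0 := ⟨by linarith [ht0.1, Q.t0_pos], ht0.2⟩
  have hne : ∀ x ∈ range c.f \ D.V, Q.Φ t x ∉ range c.f := fun x hx => hne0 x hx ht0.1.ne'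
  -- the smooth forms
  choose Bf N hNo hKN hBN hB0 using fun p : P => exists_B hcut (D.L p) Q ht (hS p) hne
    fun j z h1 h2 => D.ann_not_V p j h1 h2
  -- representatives
  obtain ⟨a, rfl⟩ := cls_surj s
  have ha : ∀ b : Z2 M, c.T b.1 = pI (w 0) a b := fun b => by rw [hs b, ip_cls hVol]
  have hRc : IsClosed (Q.Φ t '' range c.f) := isClosed_push Q ht
  obtain ⟨⟨𝒰, C, hC⟩, hsupp⟩ := hcord M w J hw hJ c
  obtain ⟨C', hC'⟩ := Q.bd t ht 𝒰
  -- the enumeration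
  let e := P.equivFin
  have key := hint M w J hw hJ c.T (c.T ∘ₗ Q.P t) a ha
    (fun b hb => c.pcur.closed _ (Q.exact t ht b hb))
    ⟨𝒰, |C| * |C'|, fun b => ?_⟩ (range c.f) (Q.Φ t '' range c.f) (isClosed_range c) hRc hsupp
    (fun b hb => ?_) P.card (fun j => (D.L (e.symm j)).χ) (fun j => (D.L (e.symm j)).smooth)
    (fun j => dArg (D.B (e.symm j)).F) (fun j η b hb => ?_) (fun x hx => ?_)
    (fun j => Bf (e.symm j)) (⋂ p : P, N p) (isOpen_iInter_of_finite hNo)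
    (subset_iInter hKN) (fun j x hx => hBN _ x (mem_iInter.1 hx _))
  · -- conclusion
    obtain ⟨a', ha', hcls⟩ := Q.closed t ht a
    have h1 : (c.T ∘ₗ Q.P t) a.1 = ip (w 0) (cls a) (cls a) := by
      rw [LinearMap.comp_apply, ha', hs a', hcls]
    rw [← h1, key]
    have h2 : ∀ p : P, c.T (Q.P t (Bf p)) = ∑ j, (((D.B p).m j + ordφ k p.1 j : ℤ) : ℝ) :=
      fun p => R_val hbr (D.L p) Q ht (hS p) hne (fun j z h1 h2 => D.ann_not_V p j h1 h2)
        (hKN p) (hBN p) (hB0 p)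
    have h3 : ∑ j : Fin P.card, (c.T ∘ₗ Q.P t) (Bf (e.symm j)) =
        ∑ p : P, c.T (Q.P t (Bf p)) :=
      Equiv.sum_comp e.symm (fun p : P => c.T (Q.P t (Bf p)))
    rw [h3, Finset.sum_congr rfl fun p _ => h2 p]
    have h4 := (hdegs M J c k).2 P hk
    rw [← Finset.sum_coe_sort P (fun p => ∑ j, ordφ k p j)] at h4
    rw [← h4]
    push_cast
    rw [add_comm, ← Finset.sum_add_distrib]
    refine Finset.sum_congr rfl fun p _ => ?_
    rw [← Finset.sum_add_distrib]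
  · have hcm : 0 ≤ 𝒰.cm 0 (b : F2 E4 M) := cm_nonneg 𝒰 0 _
    have hcm' : 0 ≤ 𝒰.cm 0 (Q.P t b : F2 E4 M) := cm_nonneg 𝒰 0 _
    calc |(c.T ∘ₗ Q.P t) b| ≤ C * 𝒰.cm 0 (Q.P t b : F2 E4 M) := hC _
      _ ≤ |C| * 𝒰.cm 0 (Q.P t b : F2 E4 M) := mul_le_mul_of_nonneg_right (le_abs_self C) hcm'
      _ ≤ |C| * (C' * 𝒰.cm 0 (b : F2 E4 M)) := mul_le_mul_of_nonneg_left (hC' b) (abs_nonneg C)
      _ ≤ |C| * (|C'| * 𝒰.cm 0 (b : F2 E4 M)) :=
        mul_le_mul_of_nonneg_left (mul_le_mul_of_nonneg_right (le_abs_self C') hcm) (abs_nonneg C)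
      _ = _ := by ring
  · obtain ⟨U, hU, hKU, hb0⟩ := hb
    refine hsupp _ ⟨Q.Φ t ⁻¹' U, hU.preimage (Φ_cont Q ht), fun x hx => hKU ⟨x, hx, rfl⟩,
      fun x hx => Q.supp t ht b x (hb0 _ hx)⟩
  · exact (D.B (e.symm j)).weak _ (D.L (e.symm j)).smooth
      (((D.L (e.symm j)).supp.trans interior_subset).trans (D.L (e.symm j)).KU) η b hb
  · have h1 := D.one_push hS hne hx
    filter_upwards [h1] with y hy
    rw [Equiv.sum_comp e.symm (fun q : P => (D.L q).χ y)]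
    exact hy

/-- **ADJ** (the adjunction inequality). -/
theorem adj (hbox : BOXP.{u}) (hpush : PUSH.{u}) (hfield : FIELD.{u}) (hint : INTW.{u})
    (hcord : CORD.{u}) (hcut : CUTF.{u}) (hbr : BRINT.{u}) (hdegs : DEGS.{u})
    (hbch : BCH.{u}) : ADJ.{u} := by
  classical
  intro M _ _ _ _ _ _ w J hw hJ c s hs k
  obtain ⟨F0, hF0, hinj, himm⟩ := c.fin
  obtain ⟨Y, hY, hgood⟩ := exists_good c hbox hbch hw hJ
  set P : Finset M := (hF0.toFinset.image c.f ∪ k.Z.image c.f) ∪ Y with hP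
  have hPr : ∀ p ∈ P, p ∈ range c.f := by
    intro p hp
    rcases Finset.mem_union.1 hp with hp | hp
    · rcases Finset.mem_union.1 hp with hp | hp
      · obtain ⟨n, -, rfl⟩ := Finset.mem_image.1 hp
        exact ⟨n, rfl⟩
      · obtain ⟨n, -, rfl⟩ := Finset.mem_image.1 hp
        exact ⟨n, rfl⟩
    · exact hY p hp
  have hFP : ∀ n ∈ F0, c.f n ∈ P := fun n hn =>
    Finset.mem_union_left _ (Finset.mem_union_left _
      (Finset.mem_image_of_mem _ (hF0.mem_toFinset.2 hn)))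
  have hkP : ∀ n ∈ k.Z, c.f n ∈ P := fun n hn =>
    Finset.mem_union_left _ (Finset.mem_union_right _ (Finset.mem_image_of_mem _ hn))
  have hinj' : ∀ x y : c.N, x ≠ y → c.f x = c.f y → x ∈ F0 := fun x y hxy h => by
    by_contra hx
    exact hxy (hinj x y hx h)
  have himm' : ∀ i, ∀ z ∈ (c.A.c i).target, dmap (fun z => c.f ((c.A.c i).symm z)) z 1 = 0 →
      (c.A.c i).symm z ∈ F0 := fun i z hz h => by
    by_contra hx
    exact one_ne_zero (himm i z hz hx 1 h)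
  obtain ⟨D⟩ := exists_pk hbox hdegs hw hJ k P hPr
  have key := adj_eq hpush hfield hint hcord hcut hbr hdegs hbch hw hJ hs k D hkP
    (fun x hx hxP => hgood x hx fun h => hxP (Finset.mem_union_right _ h))
    (fun x y hxy h => hFP x (hinj' x y hxy h)) (fun i z hz h => hFP _ (himm' i z hz h))
  have hm0 : ∀ p : P, 0 ≤ ∑ j, (((D.B p).m j : ℤ) : ℝ) := fun p =>
    Finset.sum_nonneg fun j _ => by exact_mod_cast (D.B p).m_nonneg j
  have hsum : 0 ≤ ∑ p : P, ∑ j, (((D.B p).m j : ℤ) : ℝ) := Finset.sum_nonneg fun p _ => hm0 p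
  refine ⟨by rw [key]; linarith, fun heq => ?_⟩
  have hz : ∑ p : P, ∑ j, (((D.B p).m j : ℤ) : ℝ) = 0 := by
    rw [key] at heq
    linarith
  have hz1 : ∀ p : P, ∀ j, (D.B p).m j = 0 := by
    intro p j
    have h1 := (Finset.sum_eq_zero_iff_of_nonneg fun p _ => hm0 p).1 hz p (Finset.mem_univ _)
    have h2 := (Finset.sum_eq_zero_iff_of_nonneg fun j _ => by
      exact_mod_cast (D.B p).m_nonneg j).1 h1 j (Finset.mem_univ _)
    exact_mod_cast h2
  constructor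
  · intro x y hxy
    by_contra hne
    have hx := hFP x (hinj' x y hne hxy)
    obtain ⟨j, hj⟩ := f_eq_p c (p := c.f x) (n := x) rfl
    obtain ⟨j', hj'⟩ := f_eq_p c (p := c.f x) (n := y) hxy.symm
    have hjj : j ≠ j' := by
      rintro rfl
      exact hne (hj.symm.trans hj')
    have hn : 1 < (c.L (c.f x)).n := by
      have h1 := j.2
      have h2 := j'.2
      have h3 : (j : ℕ) ≠ j' := fun h => hjj (Fin.ext h)
      omega
    have h4 := (D.B ⟨c.f x, hx⟩).m_pos j (Or.inl hn)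
    have h5 := hz1 ⟨c.f x, hx⟩ j
    omega
  · intro i z hz2 h0
    set n := (c.A.c i).symm z with hn
    have hnF := himm' i z hz2 h0
    obtain ⟨j, hj⟩ := f_eq_p c (p := c.f n) (n := n) rfl
    have hx := hFP n hnF
    have hsrc : c.φ (c.f n) j 0 ∈ (c.A.c i).source := by
      rw [hj]; exact (c.A.c i).map_target hz2
    -- the branch is not immersed at the centre
    have h1 : dmap ((c.L (c.f n)).u j) 0 1 = 0 := by
      have hcz : c.A.c i (c.φ (c.f n) j 0) = z := by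
        rw [hj]; exact (c.A.c i).right_inv hz2
      have hopen : IsOpen {y | y ∈ ball (0 : ℂ) 1 ∧ c.φ (c.f n) j y ∈ (c.A.c i).source} :=
        isOpen_dom c (c.f n) j i
      have hmem : (0 : ℂ) ∈ {y | y ∈ ball (0 : ℂ) 1 ∧ c.φ (c.f n) j y ∈ (c.A.c i).source} :=
        ⟨zero_mem, hsrc⟩
      have hd : HasDerivAt (fun y => c.A.c i (c.φ (c.f n) j y))
          (deriv (fun y => c.A.c i (c.φ (c.f n) j y)) 0) 0 :=
        ((c.φ_hol (c.f n) j i).differentiableAt (hopen.mem_nhds hmem)).hasDerivAt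
      have hfd := hd.hasFDerivAt.restrictScalars ℝ
      have hg : ContMDiffAt 𝓘(ℝ, ℂ) 𝓘(ℝ, E4) ∞ (fun z => c.f ((c.A.c i).symm z))
          (c.A.c i (c.φ (c.f n) j 0)) := by
        rw [hcz]
        exact (c.hol i).smooth.contMDiffAt ((c.A.c i).open_target.mem_nhds hz2)
      have he : (c.L (c.f n)).u j =ᶠ[𝓝 0]
          fun y => (fun z => c.f ((c.A.c i).symm z)) (c.A.c i (c.φ (c.f n) j y)) := by
        filter_upwards [hopen.mem_nhds hmem] with y hy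
        rw [(c.A.c i).left_inv hy.2, c.φ_f _ _ _ hy.1]
      rw [AdjGen_83.dmap_congr he, AdjGen_83.dmap_comp hfd hg, hcz]
      set d := deriv (fun y => c.A.c i (c.φ (c.f n) j y)) 0 with hd'
      have e1 : ((ContinuousLinearMap.toSpanSingleton ℂ d).restrictScalars ℝ : ℂ →L[ℝ] ℂ) 1
          = d := by simp
      have hJh : ∀ v : ℂ, dmap (fun z => c.f ((c.A.c i).symm z)) z (Complex.I * v) =
          atJ J (c.f ((c.A.c i).symm z)) (dmap (fun z => c.f ((c.A.c i).symm z)) z v) :=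
        (c.hol i).jhol z hz2
      have hI : dmap (fun z => c.f ((c.A.c i).symm z)) z Complex.I = 0 := by
        have := hJh 1
        rw [mul_one, h0, map_zero] at this
        exact this
      have h2 : ∀ v : ℂ, dmap (fun z => c.f ((c.A.c i).symm z)) z v = 0 := by
        intro v
        have e2 : v = v.re • (1 : ℂ) + v.im • Complex.I := by apply Complex.ext <;> simp
        rw [e2, AdjGen_83.dmap_add, AdjGen_83.dmap_smul, AdjGen_83.dmap_smul, h0, hI]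
        simp
      exact h2 _
    have h4 := (D.B ⟨c.f n, hx⟩).m_pos j (Or.inr h1)
    have h5 := hz1 ⟨c.f n, hx⟩ j
    omega

end

end Crest.Agent.R235.AdjMain_43
end

-- ▼ part R235/AdjIsec_43
section

/-!
Row 235 (S0364), PACKAGE ADJ, helper43: **intersection numbers of two different `J`-curves**
`isec : BOXP → INTW → CORD → CUTF → BRINT → ISEC`.
-/

set_option autoImplicit false
set_option maxSynthPendingDepth 3
set_option linter.unusedSectionVars false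

open Set Function Filter MeasureTheory Metric
open scoped Manifold ContDiff Topology Real

universe u

namespace Crest.Agent.R235.AdjIsec_43

open Crest.Agent.R240 Crest.Agent.R240.Ch Crest.Agent.R240.Int
open Crest.Agent.R235 Crest.Agent.R235.Glob_370 Crest.Agent.R235.Wind_688 Crest.Agent.R235.Adj
open Crest.Agent.R235.AdjGen_83 Crest.Agent.R235.AdjLoc_43 Crest.Agent.R235.AdjGeo_43
open Crest.Agent.R235.AdjSmall_43 Crest.Agent.R235.AdjVal_43

noncomputable section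

/-! ### rescaling of discs -/

section Scale

variable {M : Type u} [TopologicalSpace M] [ChartedSpace E4 M] [IsManifold 𝓘(ℝ, E4) ∞ M]
  {J : EndF E4 M}

theorem hasFDerivAt_scale (δ : ℝ) (z : ℂ) :
    HasFDerivAt (fun z : ℂ => (δ : ℂ) * z) (δ • ContinuousLinearMap.id ℝ ℂ) z := by
  have h : HasFDerivAt (fun z : ℂ => δ • z) (δ • ContinuousLinearMap.id ℝ ℂ) z :=
    (hasFDerivAt_id z).const_smul δ
  exact h.congr_of_eventuallyEq (Eventually.of_forall fun y => (Complex.real_smul).symm)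

theorem scale_mem {δ : ℝ} (hδ : 0 < δ) {z : ℂ} (hz : z ∈ ball (0 : ℂ) 1) :
    (δ : ℂ) * z ∈ ball (0 : ℂ) δ := by
  rw [mem_ball_zero_iff] at hz ⊢
  rw [norm_mul, Complex.norm_real, Real.norm_eq_abs, abs_of_pos hδ]
  nlinarith

theorem isDisc_scale {u : ℂ → M} (hu : IsDisc J u) {δ : ℝ} (hδ : 0 < δ) (h1 : δ ≤ 1) :
    IsDisc J (fun z => u ((δ : ℂ) * z)) := by
  have hm : ∀ z ∈ ball (0 : ℂ) 1, (δ : ℂ) * z ∈ ball (0 : ℂ) 1 := fun z hz =>
    ball_subset_ball h1 (scale_mem hδ hz)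
  have hsm : ∀ z ∈ ball (0 : ℂ) 1, ContMDiffAt 𝓘(ℝ, ℂ) 𝓘(ℝ, E4) ∞ u ((δ : ℂ) * z) :=
    fun z hz => hu.hol.smooth.contMDiffAt (isOpen_ball.mem_nhds (hm z hz))
  have hd : ∀ z ∈ ball (0 : ℂ) 1, ∀ v : ℂ,
      dmap (fun z => u ((δ : ℂ) * z)) z v = δ • dmap u ((δ : ℂ) * z) v := by
    intro z hz v
    rw [AdjGen_83.dmap_comp (hasFDerivAt_scale δ z) (hsm z hz)]
    show dmap u ((δ : ℂ) * z) (δ • v) = _
    rw [AdjGen_83.dmap_smul]
  have hδc : (δ : ℂ) ≠ 0 := by exact_mod_cast hδ.ne'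
  refine ⟨⟨fun z hz => ?_, fun z hz v => ?_⟩, fun z hz w hw h => ?_, fun z hz h0 v hv => ?_⟩
  · have h2 : ContMDiffAt 𝓘(ℝ, ℂ) 𝓘(ℝ, ℂ) ∞ (fun z : ℂ => (δ : ℂ) * z) z := by
      have : ContDiff ℝ ∞ (fun z : ℂ => (δ : ℂ) * z) := contDiff_const.mul contDiff_id
      exact this.contDiffAt.contMDiffAt
    exact (ContMDiffAt.comp (g := u) (f := fun z : ℂ => (δ : ℂ) * z) z (hsm z hz)
      h2).contMDiffWithinAt
  · rw [hd z hz, hd z hz, hu.hol.jhol _ (hm z hz), map_smul]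
  · have := hu.inj (hm z hz) (hm w hw) h
    exact mul_left_cancel₀ hδc this
  · rw [hd z hz] at hv
    exact hu.imm _ (hm z hz) (mul_ne_zero hδc h0) v ((smul_eq_zero.1 hv).resolve_left hδ.ne')

/-- windings of rescaled functions. -/
theorem wAt_scale {F : ℂ → ℂ} {δ : ℝ} (hδ : 0 < δ) {n : ℤ}
    (h : Adj.WAt (fun z => F ((δ : ℂ) * z)) 0 n) : Adj.WAt F 0 n := by
  have h1 : Tendsto (fun r : ℝ => r / δ) (𝓝[>] 0) (𝓝[>] 0) := by
    refine tendsto_nhdsWithin_iff.2 ⟨?_, ?_⟩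
    · have : Tendsto (fun r : ℝ => r / δ) (𝓝 0) (𝓝 (0 / δ)) := by
        exact (continuous_id.div_const δ).tendsto 0
      rw [zero_div] at this
      exact this.mono_left nhdsWithin_le_nhds
    · filter_upwards [self_mem_nhdsWithin] with r hr
      exact div_pos hr hδ
  filter_upwards [h1.eventually h] with r hr
  refine IsWL.congr hr fun t => ?_
  simp only
  congr 1
  have hδc : (δ : ℂ) ≠ 0 := by exact_mod_cast hδ.ne'
  simp only [circleMap, zero_add]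
  push_cast
  field_simp

end Scale

variable {M : Type u} [TopologicalSpace M] [T2Space M] [CompactSpace M] [ConnectedSpace M]
  [ChartedSpace E4 M] [IsManifold 𝓘(ℝ, E4) ∞ M] {J : EndF E4 M}

/-- cut-off and radii at a point of intersection. -/
structure Lc (w : Trip M) (c c' : JCurve J) (p : M) (V : Set M) where
  /-- the box -/
  B : Box w c p V
  hE : ∀ x ∈ B.U, x ∈ B.E → x ∈ range c'.f → x = p
  /-- the cut-off -/
  χ : M → ℝ
  smooth : SmoothF E4 χ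
  /-- a compact neighbourhood of the support -/
  K : Set M
  compact : IsCompact K
  ρ3 : ℝ
  ρ3_pos : 0 < ρ3
  ρ3_le : ρ3 ≤ 1
  inU : ∀ j, ∀ z ∈ ball (0 : ℂ) ρ3, (c'.L p).u j z ∈ B.U
  KU : K ⊆ B.U
  KL : K ⊆ (c'.L p).U
  KN : K ⊆ Nb c' p (ρ3 / 2)
  supp : tsupport χ ⊆ interior K
  one0 : χ =ᶠ[𝓝 p] fun _ => 1
  /-- radius of the circle -/
  ρ : ℝ
  ρ_pos : 0 < ρ
  ρ_lt : ρ < ρ3 / 2
  one : ∀ j, ∀ z ∈ closedBall (0 : ℂ) ρ, χ =ᶠ[𝓝 ((c'.L p).u j z)] fun _ => 1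
  /-- the local intersection numbers -/
  n : Fin (c'.L p).n → ℤ
  n_pos : ∀ j, 1 ≤ n j
  wind : ∀ j, IsW (fun z => B.F ((c'.L p).u j z)) 0 ρ (n j)

theorem exists_lc (hbox : BOXP.{u}) {w : Trip M} (hw : Pos3 w) (hJ : IsJ w J) (c c' : JCurve J)
    {p : M} {V : Set M} (hV : IsOpen V) (hpV : p ∈ V) (hp : p ∈ range c.f)
    (hVp : ∀ x ∈ V, x ∈ range c.f → x ∈ range c'.f → x = p) : Nonempty (Lc w c c' p V) := by
  classical
  obtain ⟨B, hE⟩ := hbox M w J hw hJ c c' p V hV hpV hp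
  -- the radius `ρ3`
  have e0 : ∀ᶠ z in 𝓝 (0 : ℂ), ∀ j, (c'.L p).u j z ∈ B.U := by
    rw [eventually_all]
    intro j
    have hc : ContinuousAt ((c'.L p).u j) 0 := (u_smooth c' p j zero_mem).continuousAt
    refine hc.preimage_mem_nhds (B.openU.mem_nhds ?_)
    rw [(c'.L p).centre]; exact B.mem
  obtain ⟨δ0, hδ0, hball0⟩ := Metric.eventually_nhds_iff_ball.1 e0
  set ρ3 : ℝ := min δ0 1 with hρ3
  have hρ3p : 0 < ρ3 := lt_min hδ0 one_pos
  have hρ31 : ρ3 ≤ 1 := min_le_right _ _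
  have hin : ∀ j, ∀ z ∈ ball (0 : ℂ) ρ3, (c'.L p).u j z ∈ B.U := fun j z hz =>
    hball0 z (ball_subset_ball (min_le_left _ _) hz) j
  have hr : ρ3 / 2 ≤ 1 := by linarith
  obtain ⟨χ, K, h1, h2, h3, h4, h5⟩ := exists_cut
    (W := B.U ∩ ((c'.L p).U ∩ Nb c' p (ρ3 / 2)))
    (B.openU.inter ((c'.L p).openU.inter (isOpen_Nb c' p hr)))
    ⟨B.mem, (c'.L p).mem, mem_Nb c' p (half_pos hρ3p)⟩
  have e1 : ∀ᶠ z in 𝓝 (0 : ℂ), ∀ j, χ =ᶠ[𝓝 ((c'.L p).u j z)] fun _ => 1 := by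
    rw [eventually_all]
    intro j
    have hc : ContinuousAt ((c'.L p).u j) 0 := (u_smooth c' p j zero_mem).continuousAt
    have h6 : ∀ᶠ x in 𝓝 ((c'.L p).u j 0), χ =ᶠ[𝓝 x] fun _ => 1 := by
      rw [(c'.L p).centre]; exact eventually_eventually_nhds.2 h5
    exact hc.eventually h6
  obtain ⟨δ, hδ, hball⟩ := Metric.eventually_nhds_iff_ball.1 e1
  -- the windings
  have hw1 : ∀ j, ∃ n : ℤ, 1 ≤ n ∧ Adj.WAt (fun z => B.F ((c'.L p).u j z)) 0 n := by
    intro j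
    have hsep : ∀ z ∈ ball (0 : ℂ) 1, (c'.L p).u j ((ρ3 : ℂ) * z) ∈ range c.f → z = 0 := by
      intro z hz hzc
      have hm := scale_mem hρ3p hz
      have hm1 : (ρ3 : ℂ) * z ∈ ball (0 : ℂ) 1 := ball_subset_ball hρ31 hm
      have h6 := hVp _ (B.subV (hin j _ hm)) hzc (u_mem c' p j hm1)
      have h7 := u_inj0 c' hm1 h6
      exact (mul_eq_zero.1 h7).resolve_left (by exact_mod_cast hρ3p.ne')
    obtain ⟨n, hn, hwn⟩ := B.other hp (fun z => (c'.L p).u j ((ρ3 : ℂ) * z))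
      (isDisc_scale ((c'.L p).disc j) hρ3p hρ31) (by simp only [mul_zero]; exact (c'.L p).centre j)
      hsep
    exact ⟨n, hn, wAt_scale (F := fun z => B.F ((c'.L p).u j z)) hρ3p hwn⟩
  choose n hn hwn using hw1
  have e4 : ∀ᶠ r in 𝓝[>] (0 : ℝ), ∀ j, IsW (fun z => B.F ((c'.L p).u j z)) 0 r (n j) := by
    rw [eventually_all]
    exact hwn
  have e5 : ∀ᶠ r in 𝓝[>] (0 : ℝ), r < δ ∧ r < ρ3 / 2 ∧ 0 < r := by
    filter_upwards [Ioo_mem_nhdsGT hδ, Ioo_mem_nhdsGT (half_pos hρ3p)] with r hr1 hr2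
    exact ⟨hr1.2, hr2.2, hr1.1⟩
  obtain ⟨r, hr4, hr1, hr2, hr3⟩ := (e4.and e5).exists
  exact ⟨⟨B, hE, χ, h1, K, h2, ρ3, hρ3p, hρ31, hin, fun x hx => (h3 hx).1,
    fun x hx => (h3 hx).2.1, fun x hx => (h3 hx).2.2, h4, h5, r, hr3, hr2,
    fun j z hz => hball z (closedBall_subset_ball hr1 hz) j, n, hn, hr4⟩⟩

/-- **the smooth form `B`.** -/
theorem Lc.exists_B (hcut : CUTF.{u}) {w : Trip M} {c c' : JCurve J} {p : M} {V : Set M}
    (L : Lc w c c' p V) (hVp : ∀ x ∈ V, x ∈ range c.f → x ∈ range c'.f → x = p) :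
    ∃ (Bf : X2 M) (N : Set M), IsOpen N ∧ range c'.f ⊆ N ∧
      (∀ x ∈ N, at2 (Bf : F2 E4 M) x = at2 (wedG (dArg L.B.F) (dF L.χ)) x) ∧
      ∀ x ∉ tsupport L.χ, at2 (Bf : F2 E4 M) x = 0 := by
  have hρ3 := L.ρ3_pos
  have hρ31 := L.ρ3_le
  have hρ0 := L.ρ_pos
  have hρ1 := L.ρ_lt
  set O : Set M := {x | L.χ =ᶠ[𝓝 x] fun _ => 1} with hO
  have hOo : IsOpen O := isOpen_setOfPred_eventually_nhds
  have hD : ∀ x ∉ tsupport L.χ ∩ Oᶜ, at1 (dF L.χ : F1 E4 M) x = 0 := by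
    intro x hx
    by_cases hxs : x ∈ tsupport L.χ
    · have : x ∈ O := by
        by_contra h
        exact hx ⟨hxs, h⟩
      exact dF_const this
    · refine dF_const (a := 0) ?_
      have := (isClosed_tsupport L.χ).isOpen_compl.mem_nhds hxs
      filter_upwards [this] with y hy
      exact image_eq_zero_of_notMem_tsupport hy
  have hKD : range c'.f ∩ (tsupport L.χ ∩ Oᶜ) ⊆ (L.B.U \ L.B.E) ∩ (range c.f)ᶜ := by
    rintro y ⟨hy, hys, hyO⟩
    have hK := interior_subset (L.supp hys)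
    obtain ⟨j, z, hz, -, -, hu⟩ := exists_of_Nb c' (by linarith) hy (L.KN hK)
    have hz' : ‖z‖ < L.ρ3 / 2 := by simpa using hz
    have hzρ : L.ρ < ‖z‖ := by
      by_contra hle
      refine hyO ?_
      rw [← hu]
      exact L.one j z (by simpa using not_lt.1 hle)
    have hz1 : z ∈ ball (0 : ℂ) 1 := by
      rw [mem_ball_zero_iff]; linarith
    have hyp : y ≠ p := by
      intro h
      rw [h] at hu
      have := u_inj0 c' hz1 hu
      rw [this, norm_zero] at hzρ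
      linarith
    have hyU : y ∈ L.B.U := L.KU hK
    exact ⟨⟨hyU, fun hyE => hyp (L.hE y hyU hyE hy)⟩,
      fun hyc => hyp (hVp y (L.B.subV hyU) hyc hy)⟩
  obtain ⟨Bf, N, h1, h2, h3, h4⟩ := hcut M L.B.F L.χ ((L.B.U \ L.B.E) ∩ (range c.f)ᶜ)
    (range c'.f) (tsupport L.χ ∩ Oᶜ)
    (L.B.closedE.inter (isClosed_range c).isOpen_compl)
    (fun x hx => L.B.smooth x hx.1.1 hx.1.2)
    (fun x hx h => hx.2 ((L.B.zero x hx.1.1).1 h)) L.smooth (isClosed_range c')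
    ((isClosed_tsupport _).inter hOo.isClosed_compl) hD hKD
  exact ⟨Bf, N, h1, h2, h3, fun x hx => h4 x fun h => hx h.1⟩

/-- **the value of the second current.** -/
theorem Lc.R_val (hbr : BRINT.{u}) {w : Trip M} {c c' : JCurve J} {p : M} {V : Set M}
    (L : Lc w c c' p V) (hVp : ∀ x ∈ V, x ∈ range c.f → x ∈ range c'.f → x = p)
    {Bf : X2 M} {N : Set M} (hN : range c'.f ⊆ N)
    (h1 : ∀ x ∈ N, at2 (Bf : F2 E4 M) x = at2 (wedG (dArg L.B.F) (dF L.χ)) x)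
    (h2 : ∀ x ∉ tsupport L.χ, at2 (Bf : F2 E4 M) x = 0) :
    c'.T Bf = ∑ j, ((L.n j : ℤ) : ℝ) := by
  have hρ3 := L.ρ3_pos
  have hρ31 := L.ρ3_le
  have hρ0 := L.ρ_pos
  have hρ1 := L.ρ_lt
  rw [c'.cur p Bf L.K L.compact L.KL fun x hx =>
    h2 _ fun h => hx (interior_subset (L.supp h))]
  refine Finset.sum_congr rfl fun j _ => ?_
  refine hbr M L.B.F L.χ ((c'.L p).u j) Bf (L.ρ / 2) L.ρ (L.ρ3 / 2) L.ρ3 (L.n j) (by linarith)
    (by linarith) hρ1 (by linarith) hρ31 (((c'.L p).disc j).hol.smooth) L.smooth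
    (fun z hz1 hz2 => ?_) (L.one j) (fun z hz1 hz2 => ?_) (fun z hz => ?_) (L.wind j)
  · have hz3 : z ∈ ball (0 : ℂ) L.ρ3 := by rw [mem_ball_zero_iff]; exact hz2
    have hz4 : z ∈ ball (0 : ℂ) 1 := ball_subset_ball hρ31 hz3
    have hU := L.inU j z hz3
    have hne : (c'.L p).u j z ≠ p := by
      intro h
      have := u_inj0 c' hz4 h
      rw [this, norm_zero] at hz1
      linarith
    have hr := u_mem c' p j hz4
    exact ⟨L.B.smooth _ hU fun hE => hne (L.hE _ hU hE hr), fun h0 =>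
      hne (hVp _ (L.B.subV hU) ((L.B.zero _ hU).1 h0) hr)⟩
  · have h3 : (c'.L p).u j z ∉ tsupport L.χ := by
      intro h
      have := lt_of_Nb c' (by linarith) hz1 (L.KN (interior_subset (L.supp h)))
      linarith
    filter_upwards [(isClosed_tsupport L.χ).isOpen_compl.mem_nhds h3] with y hy
    exact image_eq_zero_of_notMem_tsupport hy
  · exact h1 _ (hN (u_mem c' p j hz))

/-- **ISEC**. -/
theorem isec (hbox : BOXP.{u}) (hint : INTW.{u}) (hcord : CORD.{u}) (hcut : CUTF.{u})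
    (hbr : BRINT.{u}) : ISEC.{u} := by
  classical
  intro M _ _ _ _ _ _ w J hw hJ c c' s s' hs hs' hfin
  have hVol : Int.Vol ((w 0).1.1 : F2 E4 M) := hw.vol 0
  set P : Finset M := hfin.toFinset with hP
  have hmemP : ∀ x, x ∈ P ↔ x ∈ range c.f ∧ x ∈ range c'.f := fun x => by
    rw [hP, Set.Finite.mem_toFinset]; rfl
  obtain ⟨U, hU, hd⟩ := hfin.t2_separation
  have hVp : ∀ p : P, ∀ x ∈ U p.1, x ∈ range c.f → x ∈ range c'.f → x = p.1 := by
    intro p x hx h1 h2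
    by_contra hne
    have hp := (hmemP p.1).1 p.2
    exact disjoint_left.1 (hd ⟨h1, h2⟩ hp hne) (hU x).1 hx
  have hL : ∀ p : P, Nonempty (Lc w c c' p.1 (U p.1)) := fun p =>
    exists_lc hbox hw hJ c c' (hU p.1).2 (hU p.1).1 ((hmemP p.1).1 p.2).1 (hVp p)
  let L : ∀ p : P, Lc w c c' p.1 (U p.1) := fun p => (hL p).some
  choose Bf N hNo hKN hBN hB0 using fun p : P => (L p).exists_B hcut (hVp p)
  obtain ⟨a, rfl⟩ := cls_surj s
  have ha : ∀ b : Z2 M, c.T b.1 = pI (w 0) a b := fun b => by rw [hs b, ip_cls hVol]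
  obtain ⟨-, hsupp⟩ := hcord M w J hw hJ c
  obtain ⟨hord', hsupp'⟩ := hcord M w J hw hJ c'
  let e := P.equivFin
  have hone : ∀ x ∈ range c.f ∩ range c'.f, ∀ᶠ y in 𝓝 x, ∑ q : P, (L q).χ y = 1 := by
    intro x hx
    have hxP : x ∈ P := (hmemP x).2 hx
    have h0' : ∀ᶠ y in 𝓝 x, ∀ q : P, q ≠ ⟨x, hxP⟩ → (L q).χ y = 0 := by
      rw [eventually_all]
      intro q
      by_cases hq : q = ⟨x, hxP⟩
      · exact Eventually.of_forall fun y h => absurd hq h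
      · have hys : x ∉ tsupport (L q).χ := by
          intro h
          have hyq : x ∈ U q.1 := (L q).B.subV ((L q).KU (interior_subset ((L q).supp h)))
          exact hq (Subtype.ext (hVp q x hyq hx.1 hx.2).symm)
        filter_upwards [(isClosed_tsupport (L q).χ).isOpen_compl.mem_nhds hys] with y hy _
        exact image_eq_zero_of_notMem_tsupport hy
    filter_upwards [(L ⟨x, hxP⟩).one0, h0'] with y hy1 hy0
    rw [Finset.sum_eq_single (⟨x, hxP⟩ : P) (fun q _ hq => hy0 q hq)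
      (fun h => absurd (Finset.mem_univ _) h)]
    exact hy1
  have key := hint M w J hw hJ c.T c'.T a ha (fun b hb => c'.pcur.closed b hb) hord'
    (range c.f) (range c'.f) (isClosed_range c) (isClosed_range c') hsupp hsupp'
    P.card (fun j => (L (e.symm j)).χ) (fun j => (L (e.symm j)).smooth)
    (fun j => dArg (L (e.symm j)).B.F)
    (fun j η b hb => (L (e.symm j)).B.weak _ (L (e.symm j)).smooth
      (((L (e.symm j)).supp.trans interior_subset).trans (L (e.symm j)).KU) η b hb)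
    (fun x hx => by
      filter_upwards [hone x hx] with y hy
      rw [Equiv.sum_comp e.symm (fun q : P => (L q).χ y)]
      exact hy)
    (fun j => Bf (e.symm j)) (⋂ p : P, N p) (isOpen_iInter_of_finite hNo)
    (subset_iInter hKN) (fun j x hx => hBN _ x (mem_iInter.1 hx _))
  have h2 : ∀ p : P, c'.T (Bf p) = ∑ j, (((L p).n j : ℤ) : ℝ) := fun p =>
    (L p).R_val hbr (hVp p) (hKN p) (hBN p) (hB0 p)
  have h3 : ∑ j : Fin P.card, c'.T (Bf (e.symm j)) = ∑ p : P, c'.T (Bf p) :=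
    Equiv.sum_comp e.symm (fun p : P => c'.T (Bf p))
  rw [hs' a, h3, Finset.sum_congr rfl fun p _ => h2 p] at key
  rw [ip_comm, key]
  have hpos : ∀ p : P, (1 : ℝ) ≤ ∑ j, (((L p).n j : ℤ) : ℝ) := by
    intro p
    obtain ⟨n, hn⟩ := ((hmemP p.1).1 p.2).2
    obtain ⟨j, -⟩ := f_eq_p c' hn
    have h4 : ∀ i, (0 : ℝ) ≤ (((L p).n i : ℤ) : ℝ) := fun i => by
      have := (L p).n_pos i
      exact_mod_cast (by omega : (0 : ℤ) ≤ (L p).n i)
    have h5 : (1 : ℝ) ≤ (((L p).n j : ℤ) : ℝ) := by exact_mod_cast (L p).n_pos j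
    exact h5.trans (Finset.single_le_sum (f := fun j => (((L p).n j : ℤ) : ℝ))
      (fun i _ => h4 i) (Finset.mem_univ j))
  refine ⟨Finset.sum_nonneg fun p _ => by linarith [hpos p], fun h0 => ?_⟩
  have h6 := (Finset.sum_eq_zero_iff_of_nonneg fun p _ => by linarith [hpos p]).1 h0
  rw [disjoint_left]
  intro x hx hx'
  have := h6 ⟨x, (hmemP x).2 ⟨hx, hx'⟩⟩ (Finset.mem_univ _)
  have h7 := hpos ⟨x, (hmemP x).2 ⟨hx, hx'⟩⟩
  linarith

end

end Crest.Agent.R235.AdjIsec_43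
end

-- ▼ part R235/AdjPushA_470
section

/-!
Row 235 (S0364), package ADJ, node PUSH (helper470), part A: pull-back by self-maps close to the
identity acts trivially on `H²` (no homotopy formula: real Čech cocycles and two partitions of unity).
-/

set_option autoImplicit false
set_option maxSynthPendingDepth 3
set_option linter.unusedSectionVars false
set_option linter.unusedVariables false

open Set Function Filter MeasureTheory
open scoped Manifold ContDiff Topology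

universe u

namespace Crest.Agent.R235.AdjPush_470

open Crest.Agent.R240 Crest.Agent.R240.Ch
open Crest.Agent.R235 Crest.Agent.R235.Tau_692 Crest.Agent.R235.Cdr_524
open Crest.Agent.R235.TorMin_510 Crest.Agent.R235.HZLat_524

noncomputable section

section Indep

variable {E : Type*} [NormedAddCommGroup E] [NormedSpace ℝ E]
variable {M : Type*} [TopologicalSpace M] [ChartedSpace E M] [IsManifold 𝓘(ℝ, E) ∞ M]
variable {ι : Type*} [Fintype ι] {B : ι → Set M} {ψ ψ' : ι → M → ℝ}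

theorem sig_apply (ψ : ι → M → ℝ) (b : ι → ι → ℝ) (x : M) (u : E) :
    at1 (sig (E := E) ψ b) x u = ∑ j, ∑ k, b j k * (ψ j x * dv (ψ k) x u) := by
  unfold sig
  rw [Tau_692.at1_sum]
  refine Finset.sum_congr rfl fun j _ => ?_
  rw [Tau_692.at1_sum]
  rfl

/-- the function `∑ c i j k ψ k`. -/
def fs (ψ : ι → M → ℝ) (c : ι → ι → ι → ℝ) (i j : ι) (x : M) : ℝ := ∑ k, c i j k * ψ k x

omit [IsManifold 𝓘(ℝ, E) ∞ M] in
theorem smoothF_fs (hψ : ∀ i, SmoothF E (ψ i)) (c : ι → ι → ι → ℝ) (i j : ι) :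
    SmoothF E (fs ψ c i j) := by
  intro p
  exact ContDiffOn.sum fun k _ => contDiffOn_const.mul (hψ k p)

omit [IsManifold 𝓘(ℝ, E) ∞ M] in
theorem dv_fs (hψ : ∀ i, SmoothF E (ψ i)) (c : ι → ι → ι → ℝ) (i j : ι) (x : M) (u : E) :
    at1 (dF (E := E) (fs ψ c i j)) x u = ∑ k, c i j k * dv (ψ k) x u := by
  have hd : ∀ k, DifferentiableAt ℝ (repF (E := E) x (ψ k)) (chartAt E x x) := fun k =>
    ((hψ k).at (mem_chart_target E x)).differentiableAt infty_ne_zero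
  have h1 : fderiv ℝ (fun y => ∑ k, c i j k * repF (E := E) x (ψ k) y) (chartAt E x x) =
      ∑ k, fderiv ℝ (fun y => c i j k * repF (E := E) x (ψ k) y) (chartAt E x x) :=
    fderiv_fun_sum fun k _ => (hd k).const_mul _
  have h2 : at1 (dF (E := E) (fs ψ c i j)) x u =
      fderiv ℝ (fun y => ∑ k, c i j k * repF (E := E) x (ψ k) y) (chartAt E x x) u := rfl
  rw [h2, h1, sum_apply]
  refine Finset.sum_congr rfl fun k _ => ?_
  rw [fderiv_const_mul (hd k)]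
  rfl

/-- **independence of the partition of unity**. -/
theorem weil_indep (h : PUn E B ψ) (h' : PUn E B ψ') {c : ι → ι → ι → ℝ} (hc : Coc B c) :
    tau (E := E) ψ' c = Weil_524.tauF ψ c + dG (Weil_524.prim ψ (fun l => sig ψ' (c l)) (fs ψ' c)) := by
  refine Weil_524.weil h.sm h.sum (fun l => smooth_sig h'.sm _) (smoothF_fs h'.sm c)
    (fun i x hi => (tau_eq_dG h' hc (h.supp i hi)).symm) (fun i j x hi hj => ?_)
    (fun i j k x hi hj hk => ?_)
  · have hi' := h.supp i hi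
    have hj' := h.supp j hj
    refine ContinuousLinearMap.ext fun u => ?_
    rw [dv_fs h'.sm]
    have e1 : (at1 (sig (E := E) ψ' (c i)) x - at1 (sig (E := E) ψ' (c j)) x) u =
        at1 (sig (E := E) ψ' (c i)) x u - at1 (sig (E := E) ψ' (c j)) x u := rfl
    rw [e1, sig_apply, sig_apply, ← Finset.sum_sub_distrib]
    have e2 : ∀ k l, c i k l * (ψ' k x * dv (ψ' l) x u) - c j k l * (ψ' k x * dv (ψ' l) x u) =
        c i j l * dv (ψ' l) x u * ψ' k x - c i j k * ψ' k x * dv (ψ' l) x u := by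
      intro k l
      by_cases hk : x ∈ B k
      · by_cases hl : x ∈ B l
        · have h3 := hc i j k l ⟨x, hi', hj', hk, hl⟩
          have h4 : c i k l = c j k l + c i j l - c i j k := by linarith
          rw [h4]; ring
        · rw [dv_zero fun hx => hl (h'.supp l hx)]; ring
      · have h5 : ψ' k x = 0 := image_eq_zero_of_notMem_tsupport fun hx => hk (h'.supp k hx)
        rw [h5]; ring
    have e3 : ∀ k, ∑ l, c i k l * (ψ' k x * dv (ψ' l) x u) -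
        ∑ l, c j k l * (ψ' k x * dv (ψ' l) x u) =
        (∑ l, c i j l * dv (ψ' l) x u) * ψ' k x := by
      intro k
      rw [← Finset.sum_sub_distrib]
      simp only [e2]
      rw [Finset.sum_sub_distrib, ← Finset.mul_sum, sum_dv h'.sm h'.sum, mul_zero, sub_zero,
        Finset.sum_mul]
    simp only [e3]
    rw [← Finset.mul_sum, h'.sum, mul_one]
  · have hi' := h.supp i hi
    have hj' := h.supp j hj
    have hk' := h.supp k hk
    unfold fs
    rw [← Finset.sum_sub_distrib, ← Finset.sum_add_distrib]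
    have e2 : ∀ l, c j k l * ψ' l x - c i k l * ψ' l x + c i j l * ψ' l x = c i j k * ψ' l x := by
      intro l
      by_cases hl : x ∈ B l
      · have h3 := hc i j k l ⟨x, hi', hj', hk', hl⟩
        have h4 : c i j k = c j k l - c i k l + c i j l := by linarith
        rw [h4]; ring
      · have h5 : ψ' l x = 0 := image_eq_zero_of_notMem_tsupport fun hx => hl (h'.supp l hx)
        rw [h5]; ring
    simp only [e2]
    rw [← Finset.mul_sum, h'.sum, mul_one]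

end Indep

section Self

variable {M : Type u} [TopologicalSpace M] [ChartedSpace E4 M] [IsManifold 𝓘(ℝ, E4) ∞ M]
variable {ι : Type*} [Fintype ι] {B : ι → Set M} {ψ ψ' : ι → M → ℝ}

theorem isEx_tau_sub (h : PUn E4 B ψ) (h' : PUn E4 B ψ') {c : ι → ι → ι → ℝ} (hc : Coc B c) :
    IsEx (tau (E := E4) ψ' c - tau ψ c) := by
  have e := weil_indep h h' hc
  have e' : tau (E := E4) ψ' c - tau ψ c =
      dG (Weil_524.prim ψ (fun l => sig ψ' (c l)) (fs ψ' c)) := by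
    rw [sub_eq_iff_eq_add']
    exact e
  rw [e']
  exact isEx_dG (Weil_524.smooth1_prim h.sm (fun l => smooth_sig h'.sm _) (smoothF_fs h'.sm c))

theorem pb2_tau {τ : M → M} (hτ : ContMDiff 𝓘(ℝ, E4) 𝓘(ℝ, E4) ∞ τ) (hψ : ∀ i, SmoothF E4 (ψ i))
    (c : ι → ι → ι → ℝ) : pb2 τ (tau ψ c) = tau (fun i x => ψ i (τ x)) c := by
  refine Tau_692.ext2' fun x u v => ?_
  rw [at2_pb2, tau_apply, tau_apply]
  have h1 : ∀ i (w : E4), dv (ψ i) (τ x) (dself τ x w) = dv (fun x => ψ i (τ x)) x w := by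
    intro i w
    have h2 := pb1_dF hτ (hψ i)
    have h3 := congrArg (fun s : F1 E4 M => at1 s x w) h2
    exact h3
  simp only [h1]

theorem pun_comp {τ : M → M} (hτ : ContMDiff 𝓘(ℝ, E4) 𝓘(ℝ, E4) ∞ τ) (h : PUn E4 B ψ)
    (hn : ∀ i, τ ⁻¹' tsupport (ψ i) ⊆ B i) : PUn E4 B (fun i x => ψ i (τ x)) where
  op := h.op
  sm i := SmoothF.pb hτ (h.sm i)
  supp i := by
    refine Subset.trans ?_ (hn i)
    refine closure_minimal (fun x hx => ?_) ((isClosed_tsupport _).preimage hτ.continuous)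
    exact subset_tsupport _ hx
  sum x := h.sum (τ x)

theorem isEx_pb2 {τ : M → M} (hτ : ContMDiff 𝓘(ℝ, E4) 𝓘(ℝ, E4) ∞ τ) {b : F2 E4 M}
    (hb : IsEx b) : IsEx (pb2 τ b) := by
  obtain ⟨s, hs, rfl⟩ := isEx_iff.1 hb
  rw [pb2_dG hτ hs]
  exact isEx_dG (Smooth1.pb hτ hs)

theorem isEx_add {a b : F2 E4 M} (ha : IsEx a) (hb : IsEx b) : IsEx (a + b) := by
  obtain ⟨s, hs, rfl⟩ := isEx_iff.1 ha
  obtain ⟨t, ht, rfl⟩ := isEx_iff.1 hb
  rw [← dG_add hs ht]
  exact isEx_dG (hs.add ht)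

/-- the pull-back as a linear map. -/
def PL {τ : M → M} (hτ : ContMDiff 𝓘(ℝ, E4) 𝓘(ℝ, E4) ∞ τ) : X2 M →ₗ[ℝ] X2 M where
  toFun b := ⟨pb2 τ b.1, Smooth2.pb hτ b.2⟩
  map_add' a b := Subtype.ext rfl
  map_smul' r a := Subtype.ext rfl


variable [T2Space M] [CompactSpace M]

theorem coe_tauZ {ι : Type*} [Fintype ι] {B : ι → Set M} {ψ : ι → M → ℝ} (hP : PUn E4 B ψ)
    (c : ι → ι → ι → ℝ) (hc : Coc B c) : ((tauZ hP c hc).1.1 : F2 E4 M) = tau ψ c := rfl

set_option maxHeartbeats 400000 in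
theorem cls_pb0 {G : RGC M} {τ : M → M} (hτ : ContMDiff 𝓘(ℝ, E4) 𝓘(ℝ, E4) ∞ τ)
    (hn : ∀ i, τ ⁻¹' tsupport (G.ψ i) ⊆ G.B i) (a : Ch.Z2 M) :
    IsEx (pb2 τ (a.1.1 : F2 E4 M) - a.1.1) := by
  obtain ⟨c, hc, hac⟩ := exists_coc_G G a
  have h1 := cls_eq_iff.1 hac
  have h1' := cls_eq_iff.1 hac.symm
  rw [coe_tauZ] at h1 h1'
  clear hac
  generalize (a.1.1 : F2 E4 M) = b at *
  have h3 : IsEx (tau (E := E4) (fun i x => G.ψ i (τ x)) c - tau G.ψ c) :=
    isEx_tau_sub (pun G) (pun_comp hτ (pun G) hn) hc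
  have h4 : pb2 τ (b - tau G.ψ c) = pb2 τ b - tau (fun i x => G.ψ i (τ x)) c := by
    rw [← pb2_tau hτ (pun G).sm c]
    refine Tau_692.ext2' fun x u v => rfl
  have h2 := isEx_pb2 hτ h1
  rw [h4] at h2
  have h5 := isEx_add (isEx_add h2 h3) h1'
  rw [sub_add_sub_cancel, sub_add_sub_cancel] at h5
  exact h5

set_option maxHeartbeats 400000 in
/-- **maps close to the identity act trivially on `H²`**. -/
theorem cls_pb {G : RGC M} {τ : M → M} (hτ : ContMDiff 𝓘(ℝ, E4) 𝓘(ℝ, E4) ∞ τ)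
    (hn : ∀ i, τ ⁻¹' tsupport (G.ψ i) ⊆ G.B i) (a : Ch.Z2 M) :
    ∃ a' : Ch.Z2 M, PL hτ a.1 = a'.1 ∧ cls a' = cls a := by
  refine ⟨⟨PL hτ a.1, Closed2.pb hτ a.1.2 a.2⟩, rfl, ?_⟩
  rw [cls_eq_iff]
  exact cls_pb0 hτ hn a

end Self

end

end Crest.Agent.R235.AdjPush_470
end

-- ▼ part R235/AdjPush_470
section

/-!
Row 235 (S0364), package ADJ (leader helper43), node PUSH (helper470): push-off families.
`Φ t x = e x (t X x)` with the exponential-like map of `Spray_417`; `P t` = pull-back.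
-/

set_option autoImplicit false
set_option maxSynthPendingDepth 3
set_option linter.unusedSectionVars false
set_option linter.unusedVariables false

open Set Function Filter MeasureTheory Metric
open scoped Manifold ContDiff Topology

universe u

namespace Crest.Agent.R235.AdjPush_470

open Crest.Agent.R240 Crest.Agent.R240.Ch Crest.Agent.R240.Int
open Crest.Agent.R235 Crest.Agent.R235.Glob_370 Crest.Agent.R235.Adj
open Crest.Agent.R235.TorMin_510 Crest.Agent.R235.Spray_417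

noncomputable section

section Basic

variable {M : Type u} [TopologicalSpace M] [ChartedSpace E4 M] [IsManifold 𝓘(ℝ, E4) ∞ M]

/-- push along a vector field. -/
def Ph (e : M → E4 → M) (X : VF E4 M) (t : ℝ) (x : M) : M := e x (t • atV X x)

theorem Ph_zero {e : M → E4 → M} (h0 : ∀ x, e x 0 = x) (X : VF E4 M) (x : M) : Ph e X 0 x = x := by
  unfold Ph; rw [zero_smul, h0]

set_option maxHeartbeats 400000 in
theorem contMDiff_Ph {e : M → E4 → M} (he : SmoothExp e) {X : VF E4 M} (hX : SmoothV X) :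
    ContMDiff (𝓘(ℝ, ℝ).prod 𝓘(ℝ, E4)) 𝓘(ℝ, E4) ∞ (fun q : ℝ × M => Ph e X q.1 q.2) := by
  intro q
  set p : M := q.2 with hp
  have hps : p ∈ (chartAt E4 p).source := mem_chart_source E4 p
  have hev : (fun q : ℝ × M => Ph e X q.1 q.2) =ᶠ[𝓝 q] fun q' : ℝ × M =>
      (fun z : E4 × E4 => e ((chartAt E4 p).symm z.1)
        (tcc p ((chartAt E4 p).symm z.1) ((chartAt E4 p).symm z.1) z.2))
        (chartAt E4 p q'.2, q'.1 • repV p X (chartAt E4 p q'.2)) := by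
    filter_upwards [((chartAt E4 p).open_source.preimage continuous_snd).mem_nhds hps] with r hr
    have hr' : r.2 ∈ (chartAt E4 p).source := hr
    beta_reduce
    rw [(chartAt E4 p).left_inv hr', _root_.map_smul, repV_chart hr', tcc_cancel' hr']
    rfl
  refine ContMDiffAt.congr_of_eventuallyEq ?_ hev
  have h1 : ContMDiffAt (𝓘(ℝ, ℝ).prod 𝓘(ℝ, E4)) 𝓘(ℝ, E4) ∞
      (fun q' : ℝ × M => chartAt E4 p q'.2) q :=
    ContMDiffAt.comp q ((contMDiffOn_chart (I := 𝓘(ℝ, E4)) (x := p)).contMDiffAt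
      ((chartAt E4 p).open_source.mem_nhds hps)) contMDiffAt_snd
  have h2 : ContMDiffAt 𝓘(ℝ, E4) 𝓘(ℝ, E4) ∞ (repV p X) (chartAt E4 p q.2) :=
    ((hX p).contDiffAt ((chartAt E4 p).open_target.mem_nhds
      ((chartAt E4 p).map_source hps))).contMDiffAt
  have h3 : ContMDiffAt (𝓘(ℝ, ℝ).prod 𝓘(ℝ, E4)) 𝓘(ℝ, E4) ∞
      (fun q' : ℝ × M => repV p X (chartAt E4 p q'.2)) q :=
    ContMDiffAt.comp (I' := 𝓘(ℝ, E4)) q h2 h1
  have h4 : ContMDiffAt (𝓘(ℝ, ℝ).prod 𝓘(ℝ, E4)) 𝓘(ℝ, E4) ∞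
      (fun q' : ℝ × M => q'.1 • repV p X (chartAt E4 p q'.2)) q :=
    ContMDiffAt.smul contMDiffAt_fst h3
  have h5 : ContMDiffAt (𝓘(ℝ, ℝ).prod 𝓘(ℝ, E4)) 𝓘(ℝ, E4 × E4) ∞
      (fun q' : ℝ × M => (chartAt E4 p q'.2, q'.1 • repV p X (chartAt E4 p q'.2))) q :=
    h1.prodMk_space h4
  have h6 := (he p).contMDiffAt (x := (chartAt E4 p q.2, q.1 • repV p X (chartAt E4 p q.2)))
    (((chartAt E4 p).open_target.prod isOpen_univ).mem_nhds
      ⟨(chartAt E4 p).map_source hps, mem_univ _⟩)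
  exact ContMDiffAt.comp q h6 h5

theorem contMDiff_Ph_t {e : M → E4 → M} (he : SmoothExp e) {X : VF E4 M} (hX : SmoothV X)
    (t : ℝ) : ContMDiff 𝓘(ℝ, E4) 𝓘(ℝ, E4) ∞ (Ph e X t) :=
  (contMDiff_Ph he hX).comp (contMDiff_const.prodMk contMDiff_id)

theorem vel_Ph {e : M → E4 → M} (h1 : ∀ x, DV e x = ContinuousLinearMap.id ℝ E4) (X : VF E4 M)
    (x : M) : HasDerivAt (fun t => chartAt E4 x (Ph e X t x)) (atV X x) 0 := by
  have hd : DifferentiableAt ℝ (fun w : E4 => chartAt E4 x (e x w)) 0 := by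
    by_contra hn
    have h2 : DV e x = 0 := fderiv_zero_of_not_differentiableAt hn
    rw [h1] at h2
    have h3 := congrArg (fun L : E4 →L[ℝ] E4 => ‖L (EuclideanSpace.single 0 1)‖) h2
    simp at h3
  have h2 : HasFDerivAt (fun w : E4 => chartAt E4 x (e x w)) (ContinuousLinearMap.id ℝ E4) 0 := by
    rw [← h1 x]; exact hd.hasFDerivAt
  have h3 : HasDerivAt (fun t : ℝ => t • atV X x) (atV X x) 0 := by
    have := (hasDerivAt_id (0 : ℝ)).smul_const (atV X x)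
    simpa using this
  have h4 : HasFDerivAt (fun w : E4 => chartAt E4 x (e x w)) (ContinuousLinearMap.id ℝ E4)
      ((fun t : ℝ => t • atV X x) 0) := by
    simpa using h2
  exact h4.comp_hasDerivAt (0 : ℝ) h3

/-- chain rule in the preferred charts. -/
theorem dmap_comp {τ : M → M} (hτ : ContMDiff 𝓘(ℝ, E4) 𝓘(ℝ, E4) ∞ τ) {u : ℂ → M} {z : ℂ}
    (hu : ContMDiffAt 𝓘(ℝ, ℂ) 𝓘(ℝ, E4) ∞ u z) (v : ℂ) :
    dmap (fun y => τ (u y)) z v = dself τ (u z) (dmap u z v) := by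
  have hcx : (chartAt E4 (u z)).symm (chartAt E4 (u z) (u z)) = u z :=
    (chartAt E4 (u z)).left_inv (mem_chart_source E4 (u z))
  have hev : (fun y => chartAt E4 (τ (u z)) (τ (u y))) =ᶠ[𝓝 z]
      fun y => wr τ (u z) (τ (u z)) (chartAt E4 (u z) (u y)) := by
    filter_upwards [hu.continuousAt.preimage_mem_nhds
      ((chartAt E4 (u z)).open_source.mem_nhds (mem_chart_source E4 (u z)))] with y hy
    simp only [wr]
    rw [(chartAt E4 (u z)).left_inv hy]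
  have hd1 : DifferentiableAt ℝ (fun y => chartAt E4 (u z) (u y)) z := by
    have h1 : ContMDiffAt 𝓘(ℝ, ℂ) 𝓘(ℝ, E4) ∞ (fun y => chartAt E4 (u z) (u y)) z :=
      ContMDiffAt.comp z ((contMDiffOn_chart (I := 𝓘(ℝ, E4)) (x := u z)).contMDiffAt
        ((chartAt E4 (u z)).open_source.mem_nhds (mem_chart_source E4 (u z)))) hu
    exact h1.contDiffAt.differentiableAt (by simp)
  have hd2 : DifferentiableAt ℝ (wr τ (u z) (τ (u z))) (chartAt E4 (u z) (u z)) :=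
    (wr_contDiffAt hτ (mem_chart_target E4 (u z)) (by
      rw [hcx]; exact mem_chart_source E4 _)).differentiableAt (by simp)
  unfold dmap
  rw [hev.fderiv_eq, dself_eq hτ]
  have h3 := HasFDerivAt.comp (g := wr τ (u z) (τ (u z))) (f := fun y => chartAt E4 (u z) (u y)) z
    hd2.hasFDerivAt hd1.hasFDerivAt
  have h4 := h3.fderiv
  simp only [Function.comp_def] at h4
  rw [h4]
  rfl

theorem pull_pb {τ : M → M} (hτ : ContMDiff 𝓘(ℝ, E4) 𝓘(ℝ, E4) ∞ τ) {u : ℂ → M} {z : ℂ}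
    (hu : ContMDiffAt 𝓘(ℝ, ℂ) 𝓘(ℝ, E4) ∞ u z) (b : F2 E4 M) :
    pb u (pb2 τ b) z = pb (fun y => τ (u y)) b z := by
  unfold pb
  rw [at2_pb2, dmap_comp hτ hu, dmap_comp hτ hu]

theorem norm_rep_le (𝒰 : Cover M) {b : F2 E4 M} (hb : Smooth2 b) {i : Fin 𝒰.N} {y : E4}
    (hy : y ∈ 𝒰.K i) : ‖rep (𝒰.p i) b y‖ ≤ 𝒰.cm 0 b := by
  have h := Ch.le_cm 𝒰 (le_refl 0) hb hy
  rwa [norm_iteratedFDeriv_zero] at h

/-- local bound. -/
theorem bd_loc {τ : M → M} (hτ : ContMDiff 𝓘(ℝ, E4) 𝓘(ℝ, E4) ∞ τ) (𝒰 : Cover M) (p : M) {y : E4}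
    (hy : y ∈ (chartAt E4 p).target) : ∃ N ∈ 𝓝 y, ∃ C : ℝ, 0 ≤ C ∧ ∀ b : F2 E4 M, Smooth2 b →
      ∀ z ∈ N, ‖rep p (pb2 τ b) z‖ ≤ C * 𝒰.cm 0 b := by
  obtain ⟨j, hj1, hj2⟩ := 𝒰.cov (τ ((chartAt E4 p).symm y))
  have hw := wr_contDiffAt hτ hy hj1
  have hD : ContinuousAt (fderiv ℝ (wr τ p (𝒰.p j))) y :=
    (hw.fderiv_right (m := ∞) (by simp)).continuousAt
  have hn : ∀ᶠ z in 𝓝 y, ‖fderiv ℝ (wr τ p (𝒰.p j)) z‖ < ‖fderiv ℝ (wr τ p (𝒰.p j)) y‖ + 1 :=
    hD.norm.eventually_lt continuousAt_const (by linarith)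
  have hi : ∀ᶠ z in 𝓝 y, wr τ p (𝒰.p j) z ∈ interior (𝒰.K j) :=
    hw.continuousAt.eventually (isOpen_interior.mem_nhds hj2)
  set R := ‖fderiv ℝ (wr τ p (𝒰.p j)) y‖ + 1 with hR
  have hR0 : 0 ≤ R := by positivity
  refine ⟨_, (hn.and hi).and (ev_mem hτ hy hj1), R ^ 2, by positivity, fun b hb z hz => ?_⟩
  obtain ⟨⟨hz1, hz2⟩, hz3, hz4⟩ := hz
  have hc0 := Ch.cm_nonneg 𝒰 0 b
  refine ContinuousLinearMap.opNorm_le_bound₂ _ (by positivity) fun v w => ?_
  rw [rep_pb2 hτ hz3 hz4]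
  have h1 := norm_rep_le 𝒰 hb (interior_subset hz2)
  have h2 : ‖fderiv ℝ (wr τ p (𝒰.p j)) z v‖ ≤ R * ‖v‖ :=
    ((fderiv ℝ (wr τ p (𝒰.p j)) z).le_opNorm v).trans
      (mul_le_mul_of_nonneg_right hz1.le (norm_nonneg _))
  have h3 : ‖fderiv ℝ (wr τ p (𝒰.p j)) z w‖ ≤ R * ‖w‖ :=
    ((fderiv ℝ (wr τ p (𝒰.p j)) z).le_opNorm w).trans
      (mul_le_mul_of_nonneg_right hz1.le (norm_nonneg _))
  calc _ ≤ ‖rep (𝒰.p j) b (wr τ p (𝒰.p j) z)‖ * ‖fderiv ℝ (wr τ p (𝒰.p j)) z v‖ *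
        ‖fderiv ℝ (wr τ p (𝒰.p j)) z w‖ := ContinuousLinearMap.le_opNorm₂ _ _ _
    _ ≤ 𝒰.cm 0 b * (R * ‖v‖) * (R * ‖w‖) := by gcongr
    _ = _ := by ring

/-- **bound of order zero**. -/
theorem bd_pb2 {τ : M → M} (hτ : ContMDiff 𝓘(ℝ, E4) 𝓘(ℝ, E4) ∞ τ) (𝒰 : Cover M) :
    ∃ C : ℝ, ∀ b : F2 E4 M, Smooth2 b → 𝒰.cm 0 (pb2 τ b) ≤ C * 𝒰.cm 0 b := by
  have h : ∀ i, ∃ C : ℝ, 0 ≤ C ∧ ∀ b : F2 E4 M, Smooth2 b →
      ∀ z ∈ 𝒰.K i, ‖rep (𝒰.p i) (pb2 τ b) z‖ ≤ C * 𝒰.cm 0 b := by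
    intro i
    refine (𝒰.cpt i).induction_on (p := fun s => ∃ C : ℝ, 0 ≤ C ∧ ∀ b : F2 E4 M, Smooth2 b →
      ∀ z ∈ s, ‖rep (𝒰.p i) (pb2 τ b) z‖ ≤ C * 𝒰.cm 0 b) ?_ ?_ ?_ ?_
    · exact ⟨0, le_rfl, fun b hb z hz => absurd hz (notMem_empty z)⟩
    · rintro s t hst ⟨C, hC, h⟩
      exact ⟨C, hC, fun b hb z hz => h b hb z (hst hz)⟩
    · rintro s t ⟨C, hC, h⟩ ⟨C', hC', h'⟩
      refine ⟨max C C', hC.trans (le_max_left _ _), fun b hb z hz => ?_⟩
      have hc0 := Ch.cm_nonneg 𝒰 0 b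
      rcases hz with hz | hz
      · exact (h b hb z hz).trans (mul_le_mul_of_nonneg_right (le_max_left _ _) hc0)
      · exact (h' b hb z hz).trans (mul_le_mul_of_nonneg_right (le_max_right _ _) hc0)
    · intro y hy
      obtain ⟨N, hN, C, hC, h⟩ := bd_loc hτ 𝒰 (𝒰.p i) (𝒰.sub i hy)
      exact ⟨N, mem_nhdsWithin_of_mem_nhds hN, C, hC, h⟩
  choose C hC h using h
  refine ⟨∑ i, C i, fun b hb => ?_⟩
  have h0 := Ch.cm_nonneg 𝒰 0 b
  refine Ch.cm_le 𝒰 (mul_nonneg (Finset.sum_nonneg fun i _ => hC i) h0) fun i j hj y hy => ?_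
  obtain rfl : j = 0 := Nat.le_zero.1 hj
  rw [norm_iteratedFDeriv_zero]
  refine (h i b hb y hy).trans (mul_le_mul_of_nonneg_right ?_ h0)
  exact Finset.single_le_sum (f := C) (fun k _ => hC k) (Finset.mem_univ i)

end Basic

section Closed

variable {M : Type u} [TopologicalSpace M] [T2Space M] [CompactSpace M]
  [ChartedSpace E4 M] [IsManifold 𝓘(ℝ, E4) ∞ M]

/-- for small times the push is close to the identity. -/
theorem near_Ph {e : M → E4 → M} (he : SmoothExp e) (h0 : ∀ x, e x 0 = x) {X : VF E4 M}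
    (hX : SmoothV X) (G : RGC M) : ∀ᶠ t in 𝓝 (0 : ℝ), ∀ i,
      Ph e X t ⁻¹' tsupport (G.ψ i) ⊆ G.B i := by
  have hc : Continuous (fun q : ℝ × M => Ph e X q.1 q.2) := (contMDiff_Ph he hX).continuous
  rw [eventually_all]
  intro i
  have hK : IsCompact (G.B i)ᶜ := (G.isOpen i).isClosed_compl.isCompact
  have h := hK.eventually_forall_of_forall_eventually (x₀ := (0 : ℝ))
    (P := fun t x => Ph e X t x ∉ tsupport (G.ψ i)) (fun x hx => by
      refine hc.continuousAt.eventually ((isClosed_tsupport (G.ψ i)).isOpen_compl.mem_nhds ?_)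
      show Ph e X 0 x ∉ tsupport (G.ψ i)
      rw [Ph_zero h0]
      exact fun h => hx (G.supp i h))
  filter_upwards [h] with t ht x hx
  by_contra hn
  exact ht x hn hx

set_option maxHeartbeats 400000 in
/-- **PUSH** -/
theorem exists_push (X : VF E4 M) (hX : SmoothV X) : Nonempty (Push X) := by
  obtain ⟨e, he, h0, h1⟩ := exists_exp (E := E4) (M := M)
  obtain ⟨G⟩ := nonempty_rgc M
  obtain ⟨t0, ht0, h2⟩ := Metric.eventually_nhds_iff_ball.1 (near_Ph he h0 hX G)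
  have h3 : ∀ t ∈ Ioo (-t0) t0, ∀ i, Ph e X t ⁻¹' tsupport (G.ψ i) ⊆ G.B i := by
    intro t ht
    refine h2 t ?_
    rw [Real.ball_eq_Ioo]
    simpa using ht
  exact ⟨{
    Φ := Ph e X
    P := fun t => PL (contMDiff_Ph_t he hX t)
    t0 := t0
    t0_pos := ht0
    smooth := (contMDiff_Ph he hX).contMDiffOn
    zero := Ph_zero h0 X
    vel := vel_Ph h1 X
    closed := fun t ht a => cls_pb (contMDiff_Ph_t he hX t) (h3 t ht) a
    exact := fun t ht b hb => isEx_pb2 (contMDiff_Ph_t he hX t) hb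
    pull := fun t ht u z hu b => pull_pb (contMDiff_Ph_t he hX t) hu b.1
    bd := fun t ht 𝒰 => by
      obtain ⟨C, hC⟩ := bd_pb2 (contMDiff_Ph_t he hX t) 𝒰
      exact ⟨C, fun b => hC b.1 b.2⟩
    supp := fun t ht b x hx => by
      refine ContinuousLinearMap.ext fun v => ContinuousLinearMap.ext fun w => ?_
      show at2 (pb2 (Ph e X t) b.1) x v w = 0
      rw [at2_pb2, hx]
      rfl }⟩

end Closed

/-- **node PUSH of package ADJ**. -/
theorem push : PUSH.{u} := fun _ _ _ _ _ _ _ X hX => exists_push X hX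

end

end Crest.Agent.R235.AdjPush_470
end

-- ▼ part R235/AdjCut_470

/-!
Row 235 (S0364), package ADJ (leader helper43), node CUTF (helper470).
-/

set_option autoImplicit false
set_option maxSynthPendingDepth 3
set_option linter.unusedSectionVars false

open Set Function Filter MeasureTheory Metric
open scoped Manifold ContDiff Topology

universe u

namespace Crest.Agent.R235.AdjCut_470

open Crest.Agent.R240 Crest.Agent.R240.Ch Crest.Agent.R240.Int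
open Crest.Agent.R235 Crest.Agent.R235.Glob_370 Crest.Agent.R235.Adj Crest.Agent.R235.Loc_524

noncomputable section

section

variable {M : Type u} [TopologicalSpace M] [ChartedSpace E4 M] [IsManifold 𝓘(ℝ, E4) ∞ M]

theorem smAt_rep {F : M → ℂ} {x : M} (h : SmAt F x) :
    ContDiffAt ℝ ∞ (fun y : E4 => F ((chartAt E4 x).symm y)) (chartAt E4 x x) := by
  have h1 : ContMDiffAt 𝓘(ℝ, E4) 𝓘(ℝ, E4) ∞ (chartAt E4 x).symm (chartAt E4 x x) :=
    (contMDiffOn_chart_symm (I := 𝓘(ℝ, E4)) (x := x)).contMDiffAt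
      ((chartAt E4 x).open_target.mem_nhds (mem_chart_target E4 x))
  have h2 : ContMDiffAt 𝓘(ℝ, E4) 𝓘(ℝ, ℂ) ∞ F ((chartAt E4 x).symm (chartAt E4 x x)) := by
    rw [(chartAt E4 x).left_inv (mem_chart_source E4 x)]; exact h
  exact (h2.comp (chartAt E4 x x) h1).contDiffAt

theorem smAtF_re {F : M → ℂ} {x : M} (h : SmAt F x) : SmAtF E4 (fun x => (F x).re) x :=
  Complex.reCLM.contDiff.contDiffAt.comp _ (smAt_rep h)

theorem smAtF_im {F : M → ℂ} {x : M} (h : SmAt F x) : SmAtF E4 (fun x => (F x).im) x :=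
  Complex.imCLM.contDiff.contDiffAt.comp _ (smAt_rep h)

theorem dF_re {F : M → ℂ} {x : M} (h : SmAt F x) (v : E4) :
    at1 (dF (E := E4) (fun x => (F x).re)) x v =
      (fderiv ℝ (fun y : E4 => F ((chartAt E4 x).symm y)) (chartAt E4 x x) v).re := by
  have h1 := (Complex.reCLM.hasFDerivAt.comp (chartAt E4 x x)
    ((smAt_rep h).differentiableAt (by simp)).hasFDerivAt).fderiv
  exact congrArg (fun L : E4 →L[ℝ] ℝ => L v) h1

theorem dF_im {F : M → ℂ} {x : M} (h : SmAt F x) (v : E4) :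
    at1 (dF (E := E4) (fun x => (F x).im)) x v =
      (fderiv ℝ (fun y : E4 => F ((chartAt E4 x).symm y)) (chartAt E4 x x) v).im := by
  have h1 := (Complex.imCLM.hasFDerivAt.comp (chartAt E4 x x)
    ((smAt_rep h).differentiableAt (by simp)).hasFDerivAt).fderiv
  exact congrArg (fun L : E4 →L[ℝ] ℝ => L v) h1

theorem smAtF_inv {f : M → ℝ} {x : M} (hf : SmAtF E4 f x) (h0 : f x ≠ 0) :
    SmAtF E4 (fun x => (f x)⁻¹) x := by
  refine ContDiffAt.inv hf ?_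
  show f ((chartAt E4 x).symm (chartAt E4 x x)) ≠ 0
  rw [(chartAt E4 x).left_inv (mem_chart_source E4 x)]
  exact h0

/-- `dArg F = (2π|F|²)⁻¹ (Re F d Im F - Im F d Re F)`. -/
theorem dArg_apply {F : M → ℂ} {x : M} (h : SmAt F x) (v : E4) :
    at1 (dArg F) x v = ((2 * Real.pi)⁻¹ * (Complex.normSq (F x))⁻¹) *
      ((F x).re * at1 (dF (E := E4) (fun x => (F x).im)) x v -
        (F x).im * at1 (dF (E := E4) (fun x => (F x).re)) x v) := by
  rw [dF_re h, dF_im h]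
  have h1 : at1 (dArg F) x v = (2 * Real.pi)⁻¹ * ((F x)⁻¹ *
    fderiv ℝ (fun y : E4 => F ((chartAt E4 x).symm y)) (chartAt E4 x x) v).im := rfl
  rw [h1, Complex.mul_im, Complex.inv_re, Complex.inv_im]
  ring

end

section

variable {M : Type u} [TopologicalSpace M] [T2Space M] [CompactSpace M]
  [ChartedSpace E4 M] [IsManifold 𝓘(ℝ, E4) ∞ M]

theorem cutf_aux (F : M → ℂ) (χ : M → ℝ) (Ω K D : Set M)
    (hO : IsOpen Ω) (hF : ∀ x ∈ Ω, SmAt F x) (h0 : ∀ x ∈ Ω, F x ≠ 0) (hχ : SmoothF E4 χ)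
    (hK : IsClosed K) (hD : IsClosed D) (hd : ∀ x ∉ D, at1 (dF χ : F1 E4 M) x = 0)
    (hKD : K ∩ D ⊆ Ω) :
    ∃ (B : X2 M) (N : Set M), IsOpen N ∧ K ⊆ N ∧
      (∀ x ∈ N, at2 (B : F2 E4 M) x = at2 (wedG (dArg F) (dF χ)) x) ∧
      ∀ x ∉ D, at2 (B : F2 E4 M) x = 0 := by
  have hcl : IsClosed (K ∩ D) := hK.inter hD
  obtain ⟨a, ha, ha'⟩ := exists_extF (E := E4) hcl hO hKD (f := fun x => (F x).re)
    fun x hx => smAtF_re (hF x hx)
  obtain ⟨b, hb, hb'⟩ := exists_extF (E := E4) hcl hO hKD (f := fun x => (F x).im)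
    fun x hx => smAtF_im (hF x hx)
  obtain ⟨H, hH, hH'⟩ := exists_extF (E := E4) hcl hO hKD
    (f := fun x => (2 * Real.pi)⁻¹ * (Complex.normSq (F x))⁻¹) fun x hx => by
      refine SmAtF.mul (smAtF_of_smooth (smoothF_const (E := E4) (M := M) _) x) ?_
      refine smAtF_inv ?_ ?_
      · have e : (fun x => Complex.normSq (F x)) =
            fun x => (F x).re * (F x).re + (F x).im * (F x).im := by
          funext x; exact Complex.normSq_apply _
        rw [e]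
        exact SmAtF.add (SmAtF.mul (smAtF_re (hF x hx)) (smAtF_re (hF x hx)))
          (SmAtF.mul (smAtF_im (hF x hx)) (smAtF_im (hF x hx)))
      · exact (Complex.normSq_pos.2 (h0 x hx)).ne'
  have hHa : SmoothF E4 (fun x => H x * a x) := fun p => (hH p).mul (ha p)
  have hHb : SmoothF E4 (fun x => (-1) * (H x * b x)) := fun p =>
    contDiffOn_const.mul ((hH p).mul (hb p))
  set s : F1 E4 M := fmul1 (fun x => H x * a x) (dF b) + fmul1 (fun x => (-1) * (H x * b x)) (dF a)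
    with hs
  have hsm : Smooth1 s := (Smooth1.fmul hHa (Smooth1.dF hb)).add (Smooth1.fmul hHb (Smooth1.dF ha))
  -- the neighbourhood
  set N1 : Set M := Ω ∩ interior {x | a x = (F x).re ∧ b x = (F x).im ∧
    H x = (2 * Real.pi)⁻¹ * (Complex.normSq (F x))⁻¹} with hN1
  have hN1o : IsOpen N1 := hO.inter isOpen_interior
  have hs1 : ∀ x ∈ N1, at1 s x = at1 (dArg F) x := by
    rintro x ⟨hx1, hx2⟩
    have hev := mem_interior_iff_mem_nhds.1 hx2
    have e1 : a =ᶠ[𝓝 x] fun x => (F x).re := by filter_upwards [hev] with z hz using hz.1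
    have e2 : b =ᶠ[𝓝 x] fun x => (F x).im := by filter_upwards [hev] with z hz using hz.2.1
    obtain ⟨v1, v2, v3⟩ := mem_of_mem_nhds hev
    refine ContinuousLinearMap.ext fun v => ?_
    have h1 : at1 s x v = (H x * a x) * at1 (dF (E := E4) b) x v +
      ((-1) * (H x * b x)) * at1 (dF (E := E4) a) x v := rfl
    rw [h1, Loc_524.dF_congr (E := E4) e1, Loc_524.dF_congr (E := E4) e2, v1, v2, v3,
      dArg_apply (hF x hx1)]
    ring
  refine ⟨⟨wedG s (dF χ), Smooth2.wed hsm (Smooth1.dF hχ)⟩, N1 ∪ Dᶜ, hN1o.union hD.isOpen_compl,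
    fun x hx => ?_, fun x hx => ?_, fun x hx => ?_⟩
  · by_cases hxD : x ∈ D
    · left
      refine ⟨hKD ⟨hx, hxD⟩, mem_interior_iff_mem_nhds.2 ?_⟩
      filter_upwards [ha' x ⟨hx, hxD⟩, hb' x ⟨hx, hxD⟩, hH' x ⟨hx, hxD⟩] with z h1 h2 h3
      exact ⟨h1, h2, h3⟩
    · right; exact hxD
  · rcases hx with hx | hx
    · show wed (at1 s x) (at1 (dF χ) x) = wed (at1 (dArg F) x) (at1 (dF χ) x)
      rw [hs1 x hx]
    · have h1 := hd x hx
      show wed (at1 s x) (at1 (dF χ) x) = wed (at1 (dArg F) x) (at1 (dF χ) x)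
      rw [h1]
      ext u v
      simp [wed_apply]
  · have h1 := hd x hx
    show wed (at1 s x) (at1 (dF χ) x) = 0
    rw [h1]
    ext u v
    simp [wed_apply]

end

/-- **node CUTF of package ADJ**. -/
theorem cutf : CUTF.{u} := fun _ _ _ _ _ _ _ F χ Ω K D hO hF h0 hχ hK hD hd hKD =>
  cutf_aux F χ Ω K D hO hF h0 hχ hK hD hd hKD

end

end Crest.Agent.R235.AdjCut_470
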