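import Mathlib
import Crest.Agent.R235.Dm_61

/-!
Row 235 (S0364), package ADJ, leaf E1 (torus half), helper61: a `J`-curve whose normalisation is a
torus and which has no singular point is an embedded `J`-torus.
-/

set_option autoImplicit false
set_option maxSynthPendingDepth 3

open Set Function Filter MeasureTheory Metric
open scoped Manifold ContDiff Topology

universe u

namespace Crest.Agent.R235.AdjET_61

open Crest.Agent.R240 Crest.Agent.R240.Ch Crest.Agent.R235.Glob_370 Crest.Agent.R235.Dm_61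

noncomputable section

/-! ### the linear map of a parallelogram -/

/-- `z ↦ Re z • a + Im z • b`. -/
def lam (a b : ℂ) : ℂ →L[ℝ] ℂ := Complex.reCLM.smulRight a + Complex.imCLM.smulRight b

theorem lam_apply (a b z : ℂ) : lam a b z = z.re * a + z.im * b := by
  simp [lam]

theorem det_lam (a b : ℂ) : (lam a b).det = a.re * b.im - b.re * a.im := by
  rw [ContinuousLinearMap.det, ← LinearMap.det_toMatrix Complex.basisOneI, Matrix.det_fin_two]
  simp [LinearMap.toMatrix_apply, lam_apply, Complex.basisOneI]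

theorem det_mul (c : ℂ) : (lam c (Complex.I * c)).det = c.re ^ 2 + c.im ^ 2 := by
  rw [det_lam]
  simp
  ring

theorem lam_mul (c z : ℂ) : lam c (Complex.I * c) z = z * c := by
  rw [lam_apply]
  conv_rhs => rw [← Complex.re_add_im z]
  ring

/-- the real differential of a holomorphic function. -/
theorem hasFDerivAt_lam {τ : ℂ → ℂ} {z c : ℂ} (h : HasDerivAt τ c z) :
    HasFDerivAt τ (lam c (Complex.I * c)) z := by
  have h1 := h.hasFDerivAt.restrictScalars ℝ
  refine h1.congr_fderiv (ContinuousLinearMap.ext fun v => ?_)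
  rw [lam_mul]
  simp

/-! ### the plane map `u = f ∘ P` -/

variable {M : Type u} [TopologicalSpace M] [ChartedSpace E4 M] [IsManifold 𝓘(ℝ, E4) ∞ M]
variable {J : EndF E4 M}

/-- near a point of the plane, `f ∘ P` is the coordinate representative of `f` composed with a
holomorphic function of non-zero derivative. -/
theorem comp_eq (c : JCurve J) {P : ℂ → c.N} (hP : c.A.Hol P) (hPi : c.A.Imm P) (z : ℂ) :
    ∃ (i : c.A.ι) (d : ℂ), P z ∈ (c.A.c i).source ∧ d ≠ 0 ∧
      HasDerivAt (fun w => c.A.c i (P w)) d z ∧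
      ContDiffAt ℝ ∞ (fun w => c.A.c i (P w)) z ∧
      ((fun w => c.f (P w)) =ᶠ[𝓝 z]
        fun w => (fun y => c.f ((c.A.c i).symm y)) (c.A.c i (P w))) := by
  obtain ⟨i, hi⟩ := c.A.cover (P z)
  have ho : IsOpen (P ⁻¹' (c.A.c i).source) := (c.A.c i).open_source.preimage hP.cont
  have hn : P ⁻¹' (c.A.c i).source ∈ 𝓝 z := ho.mem_nhds hi
  have hd : DifferentiableAt ℂ (fun w => c.A.c i (P w)) z := (hP.hol i).differentiableAt hn
  refine ⟨i, deriv (fun w => c.A.c i (P w)) z, hi, hPi i z hi, hd.hasDerivAt, ?_, ?_⟩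
  · have h1 : AnalyticAt ℂ (fun w => c.A.c i (P w)) z := (hP.hol i).analyticAt hn
    exact (h1.contDiffAt (n := ∞)).restrict_scalars ℝ
  · filter_upwards [hn] with w hw
    show c.f (P w) = c.f ((c.A.c i).symm (c.A.c i (P w)))
    rw [(c.A.c i).left_inv hw]

theorem smooth_u (c : JCurve J) {P : ℂ → c.N} (hP : c.A.Hol P) (hPi : c.A.Imm P) (z : ℂ) :
    ContMDiffAt 𝓘(ℝ, ℂ) 𝓘(ℝ, E4) ∞ (fun w => c.f (P w)) z := by
  obtain ⟨i, d, hi, hd, hder, hsm, hev⟩ := comp_eq c hP hPi z
  have h1 : ContMDiffAt 𝓘(ℝ, ℂ) 𝓘(ℝ, E4) ∞ (fun y => c.f ((c.A.c i).symm y)) (c.A.c i (P z)) :=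
    (c.hol i).smooth.contMDiffAt ((c.A.c i).open_target.mem_nhds ((c.A.c i).map_source hi))
  have h2 := ContMDiffAt.comp (g := fun y => c.f ((c.A.c i).symm y))
    (f := fun w => c.A.c i (P w)) z h1 hsm.contMDiffAt
  exact h2.congr_of_eventuallyEq hev

/-- the differential of `f ∘ P`. -/
theorem dmap_u (c : JCurve J) {P : ℂ → c.N} (hP : c.A.Hol P) (hPi : c.A.Imm P) (z : ℂ) :
    ∃ (i : c.A.ι) (d : ℂ), P z ∈ (c.A.c i).source ∧ d ≠ 0 ∧ ∀ v : ℂ,
      dmap (fun w => c.f (P w)) z v =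
        dmap (fun y => c.f ((c.A.c i).symm y)) (c.A.c i (P z)) (v * d) := by
  obtain ⟨i, d, hi, hd, hder, hsm, hev⟩ := comp_eq c hP hPi z
  refine ⟨i, d, hi, hd, fun v => ?_⟩
  have h1 : ContMDiffAt 𝓘(ℝ, ℂ) 𝓘(ℝ, E4) ∞ (fun y => c.f ((c.A.c i).symm y)) (c.A.c i (P z)) :=
    (c.hol i).smooth.contMDiffAt ((c.A.c i).open_target.mem_nhds ((c.A.c i).map_source hi))
  rw [dmap_congr hev, dmap_comp' (σ := fun y => c.f ((c.A.c i).symm y))
    (τ := fun w => c.A.c i (P w)) h1 (hasFDerivAt_lam hder), lam_mul]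

/-- `f ∘ P` is `J`-holomorphic. -/
theorem jhol_u (c : JCurve J) {P : ℂ → c.N} (hP : c.A.Hol P) (hPi : c.A.Imm P) (z v : ℂ) :
    dmap (fun w => c.f (P w)) z (Complex.I * v) =
      atJ J (c.f (P z)) (dmap (fun w => c.f (P w)) z v) := by
  obtain ⟨i, d, hi, hd, h⟩ := dmap_u c hP hPi z
  rw [h, h, mul_assoc, (c.hol i).jhol _ ((c.A.c i).map_source hi), (c.A.c i).left_inv hi]

/-- `f ∘ P` is an immersion if `f` is. -/
theorem imm_u (c : JCurve J) {P : ℂ → c.N} (hP : c.A.Hol P) (hPi : c.A.Imm P)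
    (himm : ∀ i, ∀ z ∈ (c.A.c i).target, ∀ v : ℂ,
      dmap (fun z => c.f ((c.A.c i).symm z)) z v = 0 → v = 0) (z v : ℂ)
    (hv : dmap (fun w => c.f (P w)) z v = 0) : v = 0 := by
  obtain ⟨i, d, hi, hd, h⟩ := dmap_u c hP hPi z
  rw [h] at hv
  have := himm i _ ((c.A.c i).map_source hi) _ hv
  exact (mul_eq_zero.1 this).resolve_right hd

/-! ### the torus map -/

/-- the linear map `y ↦ y₀ a + y₁ b`. -/
def lamE (a b : ℂ) : Ep →L[ℝ] ℂ :=
  (EuclideanSpace.proj (0 : Fin 2) : Ep →L[ℝ] ℝ).smulRight a +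
    (EuclideanSpace.proj (1 : Fin 2) : Ep →L[ℝ] ℝ).smulRight b

theorem lamE_apply (a b : ℂ) (y : Ep) : lamE a b y = (y 0 : ℂ) * a + (y 1 : ℂ) * b := by
  simp [lamE]

theorem indep {a b : ℂ} (hab : 0 < (star a * b).im) {s t : ℝ}
    (h : (s : ℂ) * a + (t : ℂ) * b = 0) : s = 0 ∧ t = 0 := by
  have hd : 0 < a.re * b.im - a.im * b.re := by
    have : (star a * b).im = a.re * b.im - a.im * b.re := by simp; ring
    rwa [this] at hab
  have h1 := congrArg Complex.re h
  have h2 := congrArg Complex.im h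
  simp at h1 h2
  constructor
  · have : s * (a.re * b.im - a.im * b.re) = 0 := by linear_combination b.im * h1 - b.re * h2
    exact (mul_eq_zero.1 this).resolve_right hd.ne'
  · have : t * (a.re * b.im - a.im * b.re) = 0 := by linear_combination a.re * h2 - a.im * h1
    exact (mul_eq_zero.1 this).resolve_right hd.ne'

theorem lamE_inj {a b : ℂ} (hab : 0 < (star a * b).im) {y : Ep} (h : lamE a b y = 0) : y = 0 := by
  rw [lamE_apply] at h
  obtain ⟨h0, h1⟩ := indep hab h
  ext i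
  fin_cases i
  · exact h0
  · exact h1

/-- the torus map. -/
def tmap (c : JCurve J) (P : ℂ → c.N) (a b : ℂ) (y : Ep) : M := c.f (P (lamE a b y))

theorem dmap_tmap (c : JCurve J) {P : ℂ → c.N} (hP : c.A.Hol P) (hPi : c.A.Imm P) (a b : ℂ)
    (y v : Ep) : dmap (tmap c P a b) y v = dmap (fun w => c.f (P w)) (lamE a b y) (lamE a b v) :=
  dmap_comp' (σ := fun w => c.f (P w)) (smooth_u c hP hPi _) (lamE a b).hasFDerivAt v

theorem embT (c : JCurve J) {P : ℂ → c.N} (hP : c.A.Hol P) (hPi : c.A.Imm P) {a b : ℂ}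
    (hab : 0 < (star a * b).im) (hper : ∀ z w, P z = P w ↔ ∃ m n : ℤ, w = z + m * a + n * b)
    (hinj : Injective c.f)
    (himm : ∀ i, ∀ z ∈ (c.A.c i).target, ∀ v : ℂ,
      dmap (fun z => c.f ((c.A.c i).symm z)) z v = 0 → v = 0) : EmbT (tmap c P a b) where
  smooth := by
    intro y
    exact ContMDiffAt.comp (g := fun w => c.f (P w)) (f := lamE a b) y (smooth_u c hP hPi _)
      ((lamE a b).contDiff.contDiffAt.contMDiffAt)
  per := by
    intro y n
    show c.f (P _) = c.f (P _)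
    congr 1
    symm
    rw [hper]
    refine ⟨n 0, n 1, ?_⟩
    have e : lamE a b (WithLp.toLp 2 fun i => (n i : ℝ)) = n 0 * a + n 1 * b := by
      rw [lamE_apply]; simp
    rw [map_add, e, add_assoc]
  inj := by
    intro y z h
    have h1 : P (lamE a b y) = P (lamE a b z) := hinj h
    obtain ⟨m, n, hmn⟩ := (hper _ _).1 h1
    refine ⟨![m, n], ?_⟩
    have e : lamE a b (WithLp.toLp 2 fun i => ((![m, n] : Fin 2 → ℤ) i : ℝ)) = m * a + n * b := by
      rw [lamE_apply]; simp
    have h2 : lamE a b (z - (y + WithLp.toLp 2 fun i => ((![m, n] : Fin 2 → ℤ) i : ℝ))) = 0 := by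
      rw [map_sub, map_add, hmn, e]
      ring
    exact sub_eq_zero.1 (lamE_inj hab h2)
  imm := by
    intro y v hv
    rw [dmap_tmap c hP hPi] at hv
    exact lamE_inj hab (imm_u c hP hPi himm _ _ hv)

/-- the open unit square. -/
def Qo : Set ℂ := {z | z.re ∈ Ioo (0 : ℝ) 1 ∧ z.im ∈ Ioo (0 : ℝ) 1}

theorem measurableSet_Qo : MeasurableSet Qo :=
  (measurableSet_Ioo.preimage Complex.measurable_re).inter
    (measurableSet_Ioo.preimage Complex.measurable_im)

theorem injOn_lam {a b : ℂ} (hab : 0 < (star a * b).im) (s : Set ℂ) : InjOn (lam a b) s := by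
  intro z _ w _ h
  have h1 : ((z.re - w.re : ℝ) : ℂ) * a + ((z.im - w.im : ℝ) : ℂ) * b = 0 := by
    rw [lam_apply, lam_apply] at h
    push_cast
    linear_combination h
  obtain ⟨h2, h3⟩ := indep hab h1
  apply Complex.ext
  · linarith
  · linarith

/-- the integral over the torus is an integral over the open unit square. -/
theorem torI_eq' (c : JCurve J) {P : ℂ → c.N} (hP : c.A.Hol P) (hPi : c.A.Imm P) {a b : ℂ}
    {B : F2 E4 M} (hB : Smooth2 B) :
    torI (tmap c P a b) B =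
      ∫ z in Qo, (star a * b).im * pb (fun w => c.f (P w)) B (lam a b z) := by
  have hδ : (star a * b).im = a.re * b.im - a.im * b.re := by simp; ring
  have h1 : torI (tmap c P a b) B = ∫ y : Fin 2 → ℝ in Set.pi univ (fun _ => Icc (0 : ℝ) 1),
      (star a * b).im * pb (fun w => c.f (P w)) B ((y 0 : ℂ) * a + (y 1 : ℂ) * b) := by
    unfold torI
    refine setIntegral_congr_fun (MeasurableSet.univ_pi fun _ => measurableSet_Icc) ?_
    intro y _
    have e0 : lamE a b (WithLp.toLp 2 y) = (y 0 : ℂ) * a + (y 1 : ℂ) * b := by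
      rw [lamE_apply]
    have e1 : lamE a b (EuclideanSpace.single 0 1) = a := by rw [lamE_apply]; simp
    have e2 : lamE a b (EuclideanSpace.single 1 1) = b := by rw [lamE_apply]; simp
    show at2 B (tmap c P a b (WithLp.toLp 2 y)) _ _ = _
    rw [dmap_tmap c hP hPi, dmap_tmap c hP hPi, e1, e2, e0]
    have h := at2_dmap_comb (σ := fun w => c.f (P w)) (z := (y 0 : ℂ) * a + (y 1 : ℂ) * b) hB a b
    have e3 : tmap c P a b (WithLp.toLp 2 y) = (fun w => c.f (P w)) ((y 0 : ℂ) * a + (y 1 : ℂ) * b)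
      := by show c.f (P _) = _; rw [e0]
    rw [e3, h, hδ]
  have h2 : (∫ y : Fin 2 → ℝ in Set.pi univ (fun _ => Icc (0 : ℝ) 1),
      (star a * b).im * pb (fun w => c.f (P w)) B ((y 0 : ℂ) * a + (y 1 : ℂ) * b)) =
      ∫ y : Fin 2 → ℝ in Set.pi univ (fun _ => Ioo (0 : ℝ) 1),
      (star a * b).im * pb (fun w => c.f (P w)) B ((y 0 : ℂ) * a + (y 1 : ℂ) * b) := by
    refine setIntegral_congr_set ?_
    have h := (Measure.univ_pi_Ioo_ae_eq_Icc (μ := fun _ : Fin 2 => (volume : Measure ℝ))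
      (f := fun _ => 0) (g := fun _ => 1)).symm
    rw [← Set.pi_univ_Icc] at h
    exact h
  have h3 := Complex.volume_preserving_equiv_pi.setIntegral_preimage_emb
    Complex.measurableEquivPi.measurableEmbedding
    (fun y : Fin 2 → ℝ => (star a * b).im *
      pb (fun w => c.f (P w)) B ((y 0 : ℂ) * a + (y 1 : ℂ) * b))
    (Set.pi univ (fun _ => Ioo (0 : ℝ) 1))
  have hQ : Complex.measurableEquivPi ⁻¹' (Set.pi univ (fun _ => Ioo (0 : ℝ) 1)) = Qo := by
    ext z
    simp [Qo, Set.mem_pi, Fin.forall_fin_two]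
  rw [hQ] at h3
  rw [h1, h2, ← h3]
  refine setIntegral_congr_fun measurableSet_Qo ?_
  intro z _
  show _ = (star a * b).im * pb (fun w => c.f (P w)) B (lam a b z)
  rw [lam_apply]
  simp


theorem lamE_surj {a b : ℂ} (hab : 0 < (star a * b).im) : Surjective (lamE a b) := by
  have hinj : Injective (lamE a b) := fun y z h => by
    have : lamE a b (y - z) = 0 := by rw [map_sub, h, sub_self]
    exact sub_eq_zero.1 (lamE_inj hab this)
  exact (LinearMap.injective_iff_surjective_of_finrank_eq_finrank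
    (f := (lamE a b : Ep →ₗ[ℝ] ℂ)) (by simp [Complex.finrank_real_complex])).1 hinj

/-- the tangent planes of the torus are `J`-invariant. -/
theorem jinv (c : JCurve J) {P : ℂ → c.N} (hP : c.A.Hol P) (hPi : c.A.Imm P) {a b : ℂ}
    (hab : 0 < (star a * b).im) (y v : Ep) :
    ∃ v' : Ep, dmap (tmap c P a b) y v' =
      atJ J (tmap c P a b y) (dmap (tmap c P a b) y v) := by
  obtain ⟨v', hv'⟩ := lamE_surj hab (Complex.I * lamE a b v)
  refine ⟨v', ?_⟩
  rw [dmap_tmap c hP hPi, dmap_tmap c hP hPi, hv', jhol_u c hP hPi]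
  rfl

/-! ### forms of type `(0,2) + (2,0)` vanish on `J`-curves -/

theorem pb_anti {u : ℂ → M} {z : ℂ} {B : F2 E4 M} (hB : Smooth2 B)
    (hu : dmap u z Complex.I = atJ J (u z) (dmap u z 1))
    (hJ2 : ∀ x v, atJ J x (atJ J x v) = -v)
    (hanti : ∀ x v w, at2 B x (atJ J x v) (atJ J x w) = - at2 B x v w) : pb u B z = 0 := by
  unfold pb
  rw [hu]
  have h1 := hanti (u z) (dmap u z 1) (atJ J (u z) (dmap u z 1))
  rw [hJ2, map_neg] at h1
  have h2 : at2 B (u z) (atJ J (u z) (dmap u z 1)) (dmap u z 1) =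
      - at2 B (u z) (dmap u z 1) (atJ J (u z) (dmap u z 1)) := by
    have h := hB.1 (u z) (dmap u z 1 + atJ J (u z) (dmap u z 1))
    simp only [map_add, _root_.add_apply, hB.1, zero_add, add_zero] at h
    linarith
  rw [h2] at h1
  linarith

section Closed

variable [T2Space M] [CompactSpace M]

/-- **`J`-torus.** -/
theorem jTor (c : JCurve J) {P : ℂ → c.N} (hP : c.A.Hol P) (hPi : c.A.Imm P) {a b : ℂ}
    (hab : 0 < (star a * b).im) (hper : ∀ z w, P z = P w ↔ ∃ m n : ℤ, w = z + m * a + n * b)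
    (hinj : Injective c.f)
    (himm : ∀ i, ∀ z ∈ (c.A.c i).target, ∀ v : ℂ,
      dmap (fun z => c.f ((c.A.c i).symm z)) z v = 0 → v = 0)
    {w : Trip M} (hw : IsJ w J) (d : H2 M)
    (hd : ∀ b : Z2 M, c.T b.1 = Crest.Agent.R235.ip (w 0) d (cls b))
    (hI : ∀ B : X2 M, torI (tmap c P a b) (B.1 : F2 E4 M) = c.T B) :
    JTor w (tmap c P a b) d where
  emb := embT c hP hPi hab hper hinj himm
  lag1 := by
    intro y u v
    rw [dmap_tmap c hP hPi, dmap_tmap c hP hPi]
    have h := at2_dmap_comb (σ := fun w => c.f (P w)) (z := lamE a b y) (w 1).1.2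
      (lamE a b u) (lamE a b v)
    have h0 : pb (fun w => c.f (P w)) ((w 1).1.1 : F2 E4 M) (lamE a b y) = 0 := by
      refine pb_anti (J := J) (w 1).1.2 ?_ hw.sq hw.anti1
      have := jhol_u c hP hPi (lamE a b y) 1
      rwa [mul_one] at this
    rw [h0, mul_zero] at h
    exact h
  lag2 := by
    intro y u v
    rw [dmap_tmap c hP hPi, dmap_tmap c hP hPi]
    have h := at2_dmap_comb (σ := fun w => c.f (P w)) (z := lamE a b y) (w 2).1.2
      (lamE a b u) (lamE a b v)
    have h0 : pb (fun w => c.f (P w)) ((w 2).1.1 : F2 E4 M) (lamE a b y) = 0 := by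
      refine pb_anti (J := J) (w 2).1.2 ?_ hw.sq hw.anti2
      have := jhol_u c hP hPi (lamE a b y) 1
      rwa [mul_one] at this
    rw [h0, mul_zero] at h
    exact h
  rep := fun B => by rw [hI, hd]
  pos := by
    rw [← hd, ← hI, torI_eq' c hP hPi (w 0).1.2]
    have hcont : Continuous (pb (fun w => c.f (P w)) ((w 0).1.1 : F2 E4 M)) := by
      rw [← continuousOn_univ]
      exact (contDiffOn_pb isOpen_univ (fun z _ => (smooth_u c hP hPi z).contMDiffWithinAt)
        (w 0).1.2).continuousOn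
    have hpos : ∀ z, 0 < pb (fun w => c.f (P w)) ((w 0).1.1 : F2 E4 M) z := by
      intro z
      have hX : dmap (fun w => c.f (P w)) z 1 ≠ 0 := fun h =>
        one_ne_zero (imm_u c hP hPi himm z 1 h)
      have h1 := hw.tame (c.f (P z)) _ hX
      have h2 := jhol_u c hP hPi z 1
      rw [mul_one] at h2
      rw [← h2] at h1
      exact h1
    have hc2 : Continuous fun z : ℂ => (star a * b).im *
        pb (fun w => c.f (P w)) ((w 0).1.1 : F2 E4 M) (lam a b z) :=
      continuous_const.mul (hcont.comp (lam a b).continuous)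
    have hQo : IsOpen Qo :=
      (isOpen_Ioo.preimage Complex.continuous_re).inter (isOpen_Ioo.preimage Complex.continuous_im)
    have hQb : Qo ⊆ closedBall (0 : ℂ) 2 := by
      intro z hz
      rw [mem_closedBall_zero_iff]
      calc ‖z‖ ≤ |z.re| + |z.im| := Complex.norm_le_abs_re_add_abs_im z
        _ ≤ 1 + 1 := add_le_add (abs_le.2 ⟨by linarith [hz.1.1], hz.1.2.le⟩)
            (abs_le.2 ⟨by linarith [hz.2.1], hz.2.2.le⟩)
        _ = 2 := by norm_num
    have hint : IntegrableOn (fun z : ℂ => (star a * b).im *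
        pb (fun w => c.f (P w)) ((w 0).1.1 : F2 E4 M) (lam a b z)) Qo :=
      (hc2.continuousOn.integrableOn_compact (isCompact_closedBall 0 2)).mono_set hQb
    rw [setIntegral_pos_iff_support_of_nonneg_ae
      (Filter.Eventually.of_forall fun z => (mul_pos hab (hpos _)).le) hint]
    have hs : (support fun z : ℂ => (star a * b).im *
        pb (fun w => c.f (P w)) ((w 0).1.1 : F2 E4 M) (lam a b z)) ∩ Qo = Qo :=
      inter_eq_right.2 fun z _ => (mul_pos hab (hpos _)).ne'
    rw [hs]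
    refine hQo.measure_pos volume ⟨⟨1 / 2, 1 / 2⟩, ?_⟩
    show ((1 / 2 : ℝ) ∈ Ioo (0 : ℝ) 1) ∧ ((1 / 2 : ℝ) ∈ Ioo (0 : ℝ) 1)
    norm_num

end Closed

end

end Crest.Agent.R235.AdjET_61
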