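import Mathlib
import Crest.Agent.R235.AdjET_61
import Crest.Agent.R235.AdjGen_83
import Crest.Agent.R235.AdjDefs_43

/-!
Row 235 (S0364), package ADJ, leaf E1 (torus half), helper61, part 2: the final statements
`tor` (an embedded `JCurve` whose normalisation is a torus is an embedded torus, with its current)
and `tor_jTor` (it is a `J`-torus in the class of its current).
-/

set_option autoImplicit false
set_option maxSynthPendingDepth 3

open Set Function Filter MeasureTheory Metric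
open scoped Manifold ContDiff Topology

universe u

namespace Crest.Agent.R235.AdjET_61

open Crest.Agent.R240 Crest.Agent.R240.Ch Crest.Agent.R235.Glob_370 Crest.Agent.R235.Dm_61

noncomputable section

/-- the half-open unit square. -/
def Qh : Set ℂ := {z | z.re ∈ Ico (0 : ℝ) 1 ∧ z.im ∈ Ico (0 : ℝ) 1}

theorem measurableSet_Qh : MeasurableSet Qh :=
  (measurableSet_Ico.preimage Complex.measurable_re).inter
    (measurableSet_Ico.preimage Complex.measurable_im)

theorem Qo_ae_eq : (Qo : Set ℂ) =ᵐ[volume] Qh := by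
  have h1 : (Set.pi univ (fun _ : Fin 2 => Ioo (0 : ℝ) 1)) =ᵐ[volume]
      (Set.pi univ (fun _ : Fin 2 => Ico (0 : ℝ) 1)) :=
    (Measure.univ_pi_Ioo_ae_eq_Icc (μ := fun _ : Fin 2 => (volume : Measure ℝ))
      (f := fun _ => 0) (g := fun _ => 1)).trans
    (Measure.univ_pi_Ico_ae_eq_Icc (μ := fun _ : Fin 2 => (volume : Measure ℝ))
      (f := fun _ => 0) (g := fun _ => 1)).symm
  have h2 := Complex.volume_preserving_equiv_pi.quasiMeasurePreserving.preimage_ae_eq h1
  have hQ : Complex.measurableEquivPi ⁻¹' (Set.pi univ (fun _ => Ioo (0 : ℝ) 1)) = Qo := by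
    ext z
    simp [Qo, Set.mem_pi, Fin.forall_fin_two]
  have hQ2 : Complex.measurableEquivPi ⁻¹' (Set.pi univ (fun _ => Ico (0 : ℝ) 1)) = Qh := by
    ext z
    simp [Qh, Set.mem_pi, Fin.forall_fin_two]
  rwa [hQ, hQ2] at h2

variable {M : Type u} [TopologicalSpace M] [ChartedSpace E4 M] [IsManifold 𝓘(ℝ, E4) ∞ M]
variable {J : EndF E4 M}

/-- the integral over the torus is the integral over the half-open period parallelogram. -/
theorem torI_eq_h (c : JCurve J) {P : ℂ → c.N} (hP : c.A.Hol P) (hPi : c.A.Imm P) {a b : ℂ}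
    (hab : 0 < (star a * b).im) {B : F2 E4 M} (hB : Smooth2 B) :
    torI (tmap c P a b) B = ∫ z in lam a b '' Qh, pb (fun w => c.f (P w)) B z := by
  have hδ : (star a * b).im = a.re * b.im - a.im * b.re := by simp; ring
  rw [torI_eq' c hP hPi hB, setIntegral_congr_set Qo_ae_eq]
  have h4 := integral_image_eq_integral_abs_det_fderiv_smul volume measurableSet_Qh
    (fun z _ => ((lam a b).hasFDerivAt (x := z)).hasFDerivWithinAt) (injOn_lam hab Qh)
    (fun z => pb (fun w => c.f (P w)) B z)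
  rw [h4]
  refine setIntegral_congr_fun measurableSet_Qh ?_
  intro z _
  have e4 : |(lam a b).det| = (star a * b).im := by
    rw [det_lam, abs_of_pos]
    · rw [hδ]; ring
    · rw [hδ] at hab; linarith
  show _ = |(lam a b).det| • pb (fun w => c.f (P w)) B (lam a b z)
  rw [e4, smul_eq_mul]

theorem measurableSet_lam {a b : ℂ} (hab : 0 < (star a * b).im) :
    MeasurableSet (lam a b '' Qh) :=
  (measurableSet_Qh.image_of_continuousOn_injOn (lam a b).continuous.continuousOn
    (injOn_lam hab Qh))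

/-- the half-open parallelogram is a fundamental domain. -/
theorem injOn_P {N : Type u} {P : ℂ → N} {a b : ℂ} (hab : 0 < (star a * b).im)
    (hper : ∀ z w, P z = P w ↔ ∃ m n : ℤ, w = z + m * a + n * b) : InjOn P (lam a b '' Qh) := by
  rintro _ ⟨z, hz, rfl⟩ _ ⟨w, hw, rfl⟩ h
  obtain ⟨m, n, hmn⟩ := (hper _ _).1 h
  rw [lam_apply, lam_apply] at hmn
  have h1 : ((w.re - z.re - m : ℝ) : ℂ) * a + ((w.im - z.im - n : ℝ) : ℂ) * b = 0 := by
    push_cast
    linear_combination hmn
  obtain ⟨h2, h3⟩ := indep hab h1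
  have hm : m = 0 := by
    have e1 : (m : ℝ) < 1 := by linarith [hz.1.1, hw.1.2]
    have e2 : (-1 : ℝ) < m := by linarith [hz.1.2, hw.1.1]
    have e3 : m < 1 := by exact_mod_cast e1
    have e4 : -1 < m := by exact_mod_cast e2
    omega
  have hn : n = 0 := by
    have e1 : (n : ℝ) < 1 := by linarith [hz.2.1, hw.2.2]
    have e2 : (-1 : ℝ) < n := by linarith [hz.2.2, hw.2.1]
    have e3 : n < 1 := by exact_mod_cast e1
    have e4 : -1 < n := by exact_mod_cast e2
    omega
  rw [lam_apply, lam_apply, hmn, hm, hn]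
  simp

theorem image_P {N : Type u} {P : ℂ → N} {a b : ℂ} (hab : 0 < (star a * b).im)
    (hsurj : Surjective P)
    (hper : ∀ z w, P z = P w ↔ ∃ m n : ℤ, w = z + m * a + n * b) :
    P '' (lam a b '' Qh) = univ := by
  refine eq_univ_of_forall fun x => ?_
  obtain ⟨z, rfl⟩ := hsurj x
  obtain ⟨y, hy⟩ := lamE_surj hab z
  rw [lamE_apply] at hy
  refine ⟨lam a b ⟨Int.fract (y 0), Int.fract (y 1)⟩, ⟨_, ⟨⟨Int.fract_nonneg _,
    Int.fract_lt_one _⟩, ⟨Int.fract_nonneg _, Int.fract_lt_one _⟩⟩, rfl⟩, ?_⟩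
  rw [hper]
  refine ⟨⌊y 0⌋, ⌊y 1⌋, ?_⟩
  rw [lam_apply, ← hy]
  have e0 : (y 0 : ℂ) = (Int.fract (y 0) : ℝ) + (⌊y 0⌋ : ℂ) := by
    have := Int.fract_add_floor (y 0)
    exact_mod_cast this.symm
  have e1 : (y 1 : ℂ) = (Int.fract (y 1) : ℝ) + (⌊y 1⌋ : ℂ) := by
    have := Int.fract_add_floor (y 1)
    exact_mod_cast this.symm
  show (y 0 : ℂ) * a + (y 1 : ℂ) * b =
    ((Int.fract (y 0) : ℝ) : ℂ) * a + ((Int.fract (y 1) : ℝ) : ℂ) * b + _ + _
  rw [e0, e1]
  push_cast
  ring

/-- immersive in the direction `1` means immersive. -/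
theorem imm_of_emb (hJ2 : ∀ x v, atJ J x (atJ J x v) = -v) (c : JCurve J) (hc : Adj.Emb c) :
    ∀ i, ∀ z ∈ (c.A.c i).target, ∀ v : ℂ,
      dmap (fun z => c.f ((c.A.c i).symm z)) z v = 0 → v = 0 := by
  intro i z hz v hv
  set X := dmap (fun z => c.f ((c.A.c i).symm z)) z 1 with hX
  have h1 : dmap (fun z => c.f ((c.A.c i).symm z)) z Complex.I =
      atJ J (c.f ((c.A.c i).symm z)) X := by
    have := (c.hol i).jhol z hz 1
    rwa [mul_one] at this
  have h2 : v.re • X + v.im • atJ J (c.f ((c.A.c i).symm z)) X = 0 := by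
    rw [← h1, hX, ← dmap_smul, ← dmap_smul, ← dmap_add, ← hv]
    congr 1
    apply Complex.ext <;> simp
  have h3 : v.re • atJ J (c.f ((c.A.c i).symm z)) X - v.im • X = 0 := by
    have := congrArg (atJ J (c.f ((c.A.c i).symm z))) h2
    rw [map_add, map_smul, map_smul, hJ2, map_zero, smul_neg] at this
    rw [sub_eq_add_neg]
    exact this
  have h4 : (v.re ^ 2 + v.im ^ 2) • X = 0 := by
    have e : (v.re ^ 2 + v.im ^ 2) • X =
        v.re • (v.re • X + v.im • atJ J (c.f ((c.A.c i).symm z)) X) -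
        v.im • (v.re • atJ J (c.f ((c.A.c i).symm z)) X - v.im • X) := by
      module
    rw [e, h2, h3, smul_zero, smul_zero, sub_zero]
  have h5 := (smul_eq_zero.1 h4).resolve_right (hc.2 i z hz)
  have h6 : v.re = 0 := by nlinarith [sq_nonneg v.re, sq_nonneg v.im]
  have h7 : v.im = 0 := by nlinarith [sq_nonneg v.re, sq_nonneg v.im]
  exact Complex.ext h6 h7

section Closed

variable [T2Space M] [CompactSpace M]

/-- the current of a torus. -/
theorem torI_cur (c : JCurve J) {P : ℂ → c.N} (hP : c.A.Hol P) (hPi : c.A.Imm P) {a b : ℂ}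
    (hab : 0 < (star a * b).im) (hsurj : Surjective P)
    (hper : ∀ z w, P z = P w ↔ ∃ m n : ℤ, w = z + m * a + n * b) (B : X2 M) :
    torI (tmap c P a b) (B.1 : F2 E4 M) = c.T B := by
  have h := AdjGen_83.cur_eq c isOpen_univ hP.cont.continuousOn (fun i => ?_)
    (subset_univ (lam a b '' Qh)) (measurableSet_lam hab) (injOn_P hab hper) ?_ B
  · rw [torI_eq_h c hP hPi hab B.2]
    exact h.2.symm
  · refine (hP.hol i).mono ?_
    rintro z ⟨-, hz⟩
    exact hz
  · rw [image_P hab hsurj hper, compl_univ]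
    exact countable_empty


/-- **E1 (torus), class form.** -/
theorem tor_jTor {w : Trip M} (hw : IsJ w J) (c : JCurve J) (hc : Adj.Emb c) (hT : c.A.IsTor)
    (d : H2 M) (hd : ∀ b : Z2 M, c.T b.1 = Crest.Agent.R235.ip (w 0) d (cls b)) :
    ∃ σ : Ep → M, JTor w σ d ∧ range σ = range c.f := by
  obtain ⟨a, b, P, hab, hP, hPi, hsurj, hper⟩ := hT
  refine ⟨tmap c P a b, jTor c hP hPi hab hper hc.1 (imm_of_emb hw.sq c hc) hw d hd
    (fun B => torI_cur c hP hPi hab hsurj hper B), ?_⟩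
  ext x
  constructor
  · rintro ⟨y, rfl⟩
    exact ⟨_, rfl⟩
  · rintro ⟨q, rfl⟩
    obtain ⟨z, rfl⟩ := hsurj q
    obtain ⟨y, rfl⟩ := lamE_surj hab z
    exact ⟨y, rfl⟩

end Closed

end

end Crest.Agent.R235.AdjET_61
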