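import Mathlib
import Crest.Agent.R235.AdjGen_83

-- ▼ part R235/Stereo_83
section

/-!
Row 235 (S0364), ADJ-E1 (helper83): the integral over the unit sphere of `ℝ³` in the stereographic
coordinate `z = (y₀ + i y₁)/(1 + y₂)`.
-/

set_option autoImplicit false

open Set Function Filter MeasureTheory Metric
open scoped Topology

namespace Crest.Agent.R235.Stereo_83

noncomputable section

/-- three-space -/
local notation "E3" => EuclideanSpace ℝ (Fin 3)

/-- polar coordinates -/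
theorem sphere_integral (H : E3 → ℝ) :
    ∫ y : sphere (0 : E3) 1, H y ∂((volume : Measure E3).toSphere) =
      3 * ∫ x in ball (0 : E3) 1 \ {0}, H (‖x‖⁻¹ • x) := by
  have hmp := (volume : Measure E3).measurePreserving_homeomorphUnitSphereProd
  have hdim : Module.finrank ℝ E3 - 1 = 2 := by simp
  rw [hdim] at hmp
  set η : Ioi (0 : ℝ) → ℝ := indicator (Iio ⟨1, mem_Ioi.2 one_pos⟩) (fun _ => 1) with hη
  have h1 : ∫ t, η t ∂(Measure.volumeIoiPow 2) = 1 / 3 := by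
    rw [hη, integral_indicator_const _ measurableSet_Iio, smul_eq_mul, mul_one, Measure.real,
      Measure.volumeIoiPow_apply_Iio, ENNReal.toReal_ofReal (by positivity)]
    norm_num
  have h2 := hmp.integral_comp (Homeomorph.measurableEmbedding _)
    (fun p : sphere (0 : E3) 1 × Ioi (0 : ℝ) => H p.1 * η p.2)
  rw [integral_prod_mul (fun y : sphere (0 : E3) 1 => H y) η, h1] at h2
  have h3 : ∫ x : ({0}ᶜ : Set E3), H ((homeomorphUnitSphereProd E3 x).1 : E3) *
        η (homeomorphUnitSphereProd E3 x).2 ∂(Measure.comap Subtype.val (volume : Measure E3)) =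
      ∫ x in ball (0 : E3) 1 \ {0}, H (‖x‖⁻¹ • x) := by
    have h4 : ∀ x : ({0}ᶜ : Set E3), H ((homeomorphUnitSphereProd E3 x).1 : E3) *
        η (homeomorphUnitSphereProd E3 x).2 =
        (fun x : E3 => indicator (ball (0 : E3) 1) (fun x => H (‖x‖⁻¹ • x)) x) x := by
      intro x
      rw [homeomorphUnitSphereProd_apply_fst_coe]
      by_cases hx : (x : E3) ∈ ball (0 : E3) 1
      · have h5 : (homeomorphUnitSphereProd E3 x).2 ∈ Iio (⟨1, mem_Ioi.2 one_pos⟩ : Ioi (0 : ℝ)) := by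
          rw [mem_Iio, ← Subtype.coe_lt_coe, homeomorphUnitSphereProd_apply_snd_coe]
          exact mem_ball_zero_iff.1 hx
        simp only [hη]
        rw [indicator_of_mem h5, indicator_of_mem hx, mul_one]
      · have h5 : (homeomorphUnitSphereProd E3 x).2 ∉ Iio (⟨1, mem_Ioi.2 one_pos⟩ : Ioi (0 : ℝ)) := by
          rw [mem_Iio, ← Subtype.coe_lt_coe, homeomorphUnitSphereProd_apply_snd_coe]
          exact fun h => hx (mem_ball_zero_iff.2 h)
        simp only [hη]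
        rw [indicator_of_notMem h5, indicator_of_notMem hx, mul_zero]
    simp only [h4]
    rw [integral_subtype_comap (measurableSet_singleton _).compl
      (fun x : E3 => indicator (ball (0 : E3) 1) (fun x => H (‖x‖⁻¹ • x)) x),
      setIntegral_indicator measurableSet_ball]
    congr 2
    ext x
    simp [and_comm]
  rw [h3] at h2
  linarith

/-- `E3 = ℝ × ℂ` -/
def eq3 : E3 ≃ᵐ ℝ × ℂ :=
  (MeasurableEquiv.toLp 2 (Fin 3 → ℝ)).symm.trans
    ((MeasurableEquiv.piFinSuccAbove (fun _ : Fin 3 => ℝ) 2).trans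
      (MeasurableEquiv.prodCongr (MeasurableEquiv.refl ℝ) Complex.measurableEquivPi.symm))

theorem eq3_apply (a : E3) : eq3 a = (a 2, ⟨a 0, a 1⟩) := by
  have h0 : (Fin.succAbove (2 : Fin 3) (0 : Fin 2)) = 0 := rfl
  have h1 : (Fin.succAbove (2 : Fin 3) (1 : Fin 2)) = 1 := rfl
  have h2 : eq3 a = (a 2, ((a (Fin.succAbove (2 : Fin 3) (0 : Fin 2)) : ℝ) : ℂ) +
      ((a (Fin.succAbove (2 : Fin 3) (1 : Fin 2)) : ℝ) : ℂ) * Complex.I) := rfl
  rw [h2, h0, h1]
  refine Prod.ext rfl ?_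
  apply Complex.ext <;> simp

theorem mp_eq3 : MeasurePreserving eq3 (volume : Measure E3) (volume : Measure (ℝ × ℂ)) := by
  have h1 := PiLp.volume_preserving_ofLp (Fin 3)
  have h2 := volume_preserving_piFinSuccAbove (fun _ : Fin 3 => ℝ) 2
  have h3 : MeasurePreserving (Prod.map (id : ℝ → ℝ) Complex.measurableEquivPi.symm)
      ((volume : Measure ℝ).prod volume) ((volume : Measure ℝ).prod volume) :=
    (MeasurePreserving.id _).prod Complex.volume_preserving_equiv_pi.symm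
  exact (h3.comp h2).comp h1

/-- the cylinder -/
def Dc : Set E3 := {a | 0 < a 2 ∧ a 2 < 1}

theorem cyl_integral (g : ℂ → ℝ) :
    ∫ a in Dc, a 2 ^ 2 * g ⟨a 0, a 1⟩ = 1 / 3 * ∫ z, g z := by
  have h1 : Dc = eq3 ⁻¹' (Ioo (0 : ℝ) 1 ×ˢ univ) := by
    ext a
    rw [mem_preimage, eq3_apply]
    exact ⟨fun h => ⟨h, mem_univ _⟩, fun h => h.1⟩
  have h2 : ∀ a : E3, a 2 ^ 2 * g ⟨a 0, a 1⟩ =
      (fun q : ℝ × ℂ => q.1 ^ 2 * g q.2) (eq3 a) := by
    intro a; rw [eq3_apply]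
  rw [h1]
  simp only [h2]
  rw [mp_eq3.setIntegral_preimage_emb eq3.measurableEmbedding
    (fun q : ℝ × ℂ => q.1 ^ 2 * g q.2), Measure.volume_eq_prod,
    setIntegral_prod_mul (fun t : ℝ => t ^ 2) g,
    Measure.restrict_univ, ← integral_Ioc_eq_integral_Ioo,
    ← intervalIntegral.integral_of_le zero_le_one, integral_pow]
  norm_num

/-- the denominator -/
def N (a : E3) : ℝ := 1 + a 0 ^ 2 + a 1 ^ 2

theorem N_pos (a : E3) : 0 < N a := by unfold N; positivity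

/-- inverse stereographic projection (independent of `a 2`). -/
def st (a : E3) : E3 := !₂[2 * a 0 / N a, 2 * a 1 / N a, 2 / N a - 1]

/-- the parametrisation of the ball -/
def Ph (a : E3) : E3 := !₂[a 2 * (2 * a 0 / N a), a 2 * (2 * a 1 / N a), a 2 * (2 / N a - 1)]

theorem Ph_eq (a : E3) : Ph a = a 2 • st a := by
  ext i; fin_cases i <;> simp [Ph, st]

theorem norm_st (a : E3) : ‖st a‖ = 1 := by
  rw [EuclideanSpace.norm_eq, Real.sqrt_eq_one, Fin.sum_univ_three]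
  have hN := N_pos a
  simp only [st, Real.norm_eq_abs, sq_abs]
  simp
  field_simp
  unfold N
  ring

/-- the Jacobi matrix -/
def Jm (a : E3) : Matrix (Fin 3) (Fin 3) ℝ :=
  !![2 * a 2 / N a - 4 * a 2 * a 0 ^ 2 / N a ^ 2, - (4 * a 2 * a 0 * a 1 / N a ^ 2), 2 * a 0 / N a;
    - (4 * a 2 * a 0 * a 1 / N a ^ 2), 2 * a 2 / N a - 4 * a 2 * a 1 ^ 2 / N a ^ 2, 2 * a 1 / N a;
    - (4 * a 2 * a 0 / N a ^ 2), - (4 * a 2 * a 1 / N a ^ 2), 2 / N a - 1]

/-- the derivative -/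
def Phd (a : E3) : E3 →L[ℝ] E3 :=
  LinearMap.toContinuousLinearMap (Matrix.toLpLin 2 2 (Jm a))

theorem det_Phd (a : E3) : (Phd a).det = 4 * a 2 ^ 2 / N a ^ 2 := by
  have h1 : (Phd a).det = (Jm a).det := by
    rw [Phd, LinearMap.det_toContinuousLinearMap, Matrix.toLpLin_eq_toLin, LinearMap.det_toLin]
  rw [h1, Matrix.det_fin_three]
  have hN := N_pos a
  simp only [Jm, Matrix.of_apply, Matrix.cons_val', Matrix.cons_val_zero, Matrix.cons_val_one,
    Matrix.cons_val, Matrix.cons_val_fin_one]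
  field_simp
  unfold N
  ring

theorem Phd_apply (a v : E3) (i : Fin 3) :
    Phd a v i = Jm a i 0 * v 0 + Jm a i 1 * v 1 + Jm a i 2 * v 2 := by
  have h1 : Phd a v i = (Matrix.toLpLin 2 2 (Jm a) v) i := rfl
  rw [h1, Matrix.toLpLin_apply]
  simp [Matrix.mulVec, dotProduct, Fin.sum_univ_three]

theorem hasFDerivAt_Ph (a : E3) : HasFDerivAt Ph (Phd a) a := by
  have hc : ∀ i : Fin 3, HasFDerivAt (fun x : E3 => x i)
      (EuclideanSpace.proj i : E3 →L[ℝ] ℝ) a := fun i =>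
    (EuclideanSpace.proj i : E3 →L[ℝ] ℝ).hasFDerivAt
  have hN := N_pos a
  have hNd : HasFDerivAt N ((2 * a 0) • (EuclideanSpace.proj 0 : E3 →L[ℝ] ℝ) +
      (2 * a 1) • (EuclideanSpace.proj 1 : E3 →L[ℝ] ℝ)) a := by
    have := (((hc 0).pow 2).const_add 1).add ((hc 1).pow 2)
    refine this.congr_fderiv ?_
    ext v
    simp
  have hr : HasFDerivAt (fun x => (N x)⁻¹) (-(N a ^ 2)⁻¹ • ((2 * a 0) • (EuclideanSpace.proj 0 : E3 →L[ℝ] ℝ) +
      (2 * a 1) • (EuclideanSpace.proj 1 : E3 →L[ℝ] ℝ))) a :=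
    (hasDerivAt_inv hN.ne').comp_hasFDerivAt a hNd
  rw [← hasFDerivWithinAt_univ, hasFDerivWithinAt_euclidean]
  intro i
  rw [hasFDerivWithinAt_univ]
  fin_cases i
  · have h := (hc 2).mul (((hc 0).const_mul 2).mul hr)
    refine (h.congr_fderiv ?_).congr_of_eventuallyEq (Eventually.of_forall fun x => ?_)
    · ext v
      have hP := Phd_apply a v 0
      simp only [Jm] at hP
      simp at hP ⊢
      rw [hP]
      field_simp
      ring
    · simp [Ph, div_eq_mul_inv]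
  · have h := (hc 2).mul (((hc 1).const_mul 2).mul hr)
    refine (h.congr_fderiv ?_).congr_of_eventuallyEq (Eventually.of_forall fun x => ?_)
    · ext v
      have hP := Phd_apply a v 1
      simp only [Jm] at hP
      simp at hP ⊢
      rw [hP]
      field_simp
      ring
    · simp [Ph, div_eq_mul_inv]
  · have h := (hc 2).mul ((hr.const_mul 2).sub_const 1)
    refine (h.congr_fderiv ?_).congr_of_eventuallyEq (Eventually.of_forall fun x => ?_)
    · ext v
      have hP := Phd_apply a v 2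
      simp only [Jm] at hP
      simp at hP ⊢
      rw [hP]
      field_simp
      ring
    · simp [Ph, div_eq_mul_inv]

/-- the stereographic coordinate (homogeneous of degree zero) -/
def zN (y : E3) : ℂ := ⟨y 0 / (‖y‖ + y 2), y 1 / (‖y‖ + y 2)⟩

theorem norm_Ph {a : E3} (ha : a ∈ Dc) : ‖Ph a‖ = a 2 := by
  rw [Ph_eq, norm_smul, norm_st, mul_one, Real.norm_eq_abs, abs_of_pos ha.1]

theorem st_two (a : E3) : 1 + st a 2 = 2 / N a := by simp [st]

theorem zN_st (a : E3) : zN (st a) = ⟨a 0, a 1⟩ := by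
  have hN := N_pos a
  unfold zN
  rw [norm_st, st_two]
  have h0 : st a 0 = 2 * a 0 / N a := rfl
  have h1 : st a 1 = 2 * a 1 / N a := rfl
  rw [h0, h1]
  apply Complex.ext
  · show 2 * a 0 / N a / (2 / N a) = a 0
    field_simp
  · show 2 * a 1 / N a / (2 / N a) = a 1
    field_simp

theorem zN_smul {t : ℝ} (ht : 0 < t) (y : E3) : zN (t • y) = zN y := by
  unfold zN
  have h1 : ‖t • y‖ = t * ‖y‖ := by rw [norm_smul, Real.norm_eq_abs, abs_of_pos ht]
  have h2 : ∀ i, (t • y) i = t * y i := fun i => rfl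
  rw [h1, h2, h2, h2, ← mul_add, mul_div_mul_left _ _ ht.ne', mul_div_mul_left _ _ ht.ne']

theorem inj_Ph : InjOn Ph Dc := by
  intro a ha b hb h
  have h2 : a 2 = b 2 := by rw [← norm_Ph ha, ← norm_Ph hb, h]
  have h3 : zN (Ph a) = zN (Ph b) := by rw [h]
  rw [Ph_eq, Ph_eq, zN_smul ha.1, zN_smul hb.1, zN_st, zN_st] at h3
  have h4 := congrArg Complex.re h3
  have h5 := congrArg Complex.im h3
  simp only at h4 h5
  ext i
  fin_cases i
  · exact h4
  · exact h5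
  · exact h2

theorem norm_sq_E3 (x : E3) : ‖x‖ ^ 2 = x 0 ^ 2 + x 1 ^ 2 + x 2 ^ 2 := by
  rw [EuclideanSpace.norm_sq_eq, Fin.sum_univ_three]
  simp [sq_abs]

/-- a vector off the negative axis from its norm and its stereographic coordinate. -/
theorem Ph_zN {x : E3} (hx : 0 < ‖x‖ + x 2) :
    Ph (!₂[(zN x).re, (zN x).im, ‖x‖]) = x := by
  have hn := norm_sq_E3 x
  have hpos : 0 < ‖x‖ := by
    have h1 : x 2 ≤ ‖x‖ := by
      have := abs_le_of_sq_le_sq' (a := x 2) (b := ‖x‖) (by nlinarith) (norm_nonneg x)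
      exact this.2
    linarith
  set s := ‖x‖ + x 2 with hs
  have hN : N (!₂[(zN x).re, (zN x).im, ‖x‖]) = 2 * ‖x‖ / s := by
    have h1 : N (!₂[(zN x).re, (zN x).im, ‖x‖]) = 1 + (x 0 / s) ^ 2 + (x 1 / s) ^ 2 := by
      simp [N, zN, hs]
    rw [h1]
    field_simp
    have h3 : x 2 = s - ‖x‖ := by rw [hs]; ring
    nlinarith
  have h0 : (zN x).re = x 0 / s := rfl
  have h1 : (zN x).im = x 1 / s := rfl
  ext i
  fin_cases i
  · have h2 : Ph (!₂[(zN x).re, (zN x).im, ‖x‖]) 0 =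
        ‖x‖ * (2 * (zN x).re / N (!₂[(zN x).re, (zN x).im, ‖x‖])) := rfl
    refine h2.trans ?_
    rw [hN, h0]
    show ‖x‖ * (2 * (x 0 / s) / (2 * ‖x‖ / s)) = x 0
    field_simp
  · have h2 : Ph (!₂[(zN x).re, (zN x).im, ‖x‖]) 1 =
        ‖x‖ * (2 * (zN x).im / N (!₂[(zN x).re, (zN x).im, ‖x‖])) := rfl
    refine h2.trans ?_
    rw [hN, h1]
    show ‖x‖ * (2 * (x 1 / s) / (2 * ‖x‖ / s)) = x 1
    field_simp
  · have h2 : Ph (!₂[(zN x).re, (zN x).im, ‖x‖]) 2 =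
        ‖x‖ * (2 / N (!₂[(zN x).re, (zN x).im, ‖x‖]) - 1) := rfl
    refine h2.trans ?_
    rw [hN]
    show ‖x‖ * (2 / (2 * ‖x‖ / s) - 1) = x 2
    field_simp
    rw [hs]; ring

theorem image_Ph : Ph '' Dc = {x ∈ ball (0 : E3) 1 | 0 < ‖x‖ + x 2} := by
  ext x
  constructor
  · rintro ⟨a, ha, rfl⟩
    have hN := N_pos a
    refine ⟨by rw [mem_ball_zero_iff, norm_Ph ha]; exact ha.2, ?_⟩
    rw [norm_Ph ha, Ph_eq]
    have h2 : (a 2 • st a) 2 = a 2 * st a 2 := rfl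
    rw [h2, ← mul_one_add, st_two]
    have := ha.1
    positivity
  · rintro ⟨hx1, hx2⟩
    refine ⟨_, ?_, Ph_zN hx2⟩
    have hpos : 0 < ‖x‖ := by
      have hn := norm_sq_E3 x
      have h1 : x 2 ≤ ‖x‖ :=
        (abs_le_of_sq_le_sq' (a := x 2) (b := ‖x‖) (by nlinarith) (norm_nonneg x)).2
      linarith
    exact ⟨hpos, mem_ball_zero_iff.1 hx1⟩

theorem null_axis : (volume : Measure E3) {x | x 0 = 0} = 0 := by
  have h1 : {x : E3 | x 0 = 0} =
      (LinearMap.ker (EuclideanSpace.proj 0 : E3 →L[ℝ] ℝ).toLinearMap : Set E3) := by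
    ext x; simp
  rw [h1]
  apply Measure.addHaar_submodule
  intro h
  have h2 : (EuclideanSpace.single 0 1 : E3) ∈
      LinearMap.ker (EuclideanSpace.proj 0 : E3 →L[ℝ] ℝ).toLinearMap := by
    rw [h]; exact Submodule.mem_top
  simp at h2

theorem image_ae : (Ph '' Dc : Set E3) =ᵐ[volume] (ball (0 : E3) 1 \ {0} : Set E3) := by
  have hsub : Ph '' Dc ⊆ ball (0 : E3) 1 \ {0} := by
    rw [image_Ph]
    rintro x ⟨hx1, hx2⟩
    refine ⟨hx1, ?_⟩
    rintro rfl
    simp at hx2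
  refine (LE.le.eventuallyLE hsub).antisymm ?_
  have h2 : ∀ᵐ x ∂(volume : Measure E3), x 0 ≠ 0 := by
    rw [ae_iff]
    simpa using null_axis
  filter_upwards [h2] with x hx hx1
  show x ∈ Ph '' Dc
  have hx1' : x ∈ ball (0 : E3) 1 \ {0} := hx1
  rw [image_Ph]
  refine ⟨hx1'.1, ?_⟩
  by_contra hcon
  have hn := norm_sq_E3 x
  have h3 : 0 < x 0 ^ 2 := by positivity
  nlinarith [norm_nonneg x, sq_nonneg (x 1)]

theorem measurableSet_Dc : MeasurableSet Dc := by
  have h : Continuous fun a : E3 => a 2 := (EuclideanSpace.proj 2 : E3 →L[ℝ] ℝ).continuous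
  exact (measurableSet_lt measurable_const h.measurable).inter
    (measurableSet_lt h.measurable measurable_const)

/-- **the stereographic change of variables.** -/
theorem stereo (H : E3 → ℝ) (g : ℂ → ℝ)
    (h : ∀ y, ‖y‖ = 1 → 0 < 1 + y 2 → H y = g (zN y) / (1 + y 2) ^ 2) :
    ∫ y : sphere (0 : E3) 1, H y ∂((volume : Measure E3).toSphere) = ∫ z, g z := by
  rw [sphere_integral, ← setIntegral_congr_set image_ae,
    integral_image_eq_integral_abs_det_fderiv_smul volume measurableSet_Dc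
      (fun a _ => (hasFDerivAt_Ph a).hasFDerivWithinAt) inj_Ph]
  have h1 : ∀ a ∈ Dc, |(Phd a).det| • H (‖Ph a‖⁻¹ • Ph a) = a 2 ^ 2 * g ⟨a 0, a 1⟩ := by
    intro a ha
    have hN := N_pos a
    have hpos : 0 < 1 + st a 2 := by rw [st_two]; positivity
    have h2 : ‖Ph a‖⁻¹ • Ph a = st a := by
      rw [norm_Ph ha, Ph_eq, smul_smul, inv_mul_cancel₀ ha.1.ne', one_smul]
    rw [h2, h (st a) (norm_st a) hpos, zN_st, st_two, det_Phd, abs_of_nonneg (by positivity),
      smul_eq_mul]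
    field_simp
    ring
  rw [setIntegral_congr_fun measurableSet_Dc h1, cyl_integral]
  ring

end

end Crest.Agent.R235.Stereo_83
end

-- ▼ part R235/AdjE_83

/-!
Row 235 (S0364), ADJ-E1 (helper83), sphere half: an embedded `JCurve` with `c.A.IsSph` is a
`J`-sphere (`sph`, `jsph`).
-/

set_option autoImplicit false
set_option maxSynthPendingDepth 3

open Set Function Filter MeasureTheory Metric
open scoped Manifold ContDiff Topology

universe u

namespace Crest.Agent.R235.AdjE_83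

open Crest.Agent.R240 Crest.Agent.R240.Ch Crest.Agent.R235.Glob_370 Crest.Agent.R235.AdjGen_83
open Crest.Agent.R235.Stereo_83

noncomputable section

/-! ### the two stereographic coordinates -/

/-- the stereographic coordinate from the pole `- ε e₂` -/
def zE (ε : ℝ) (y : E3) : ℂ := ⟨y 0 / (‖y‖ + ε * y 2), ε * y 1 / (‖y‖ + ε * y 2)⟩

theorem zE_one (y : E3) : zE 1 y = zN y := by
  unfold zE zN; simp

theorem zE_smul (ε : ℝ) {t : ℝ} (ht : 0 < t) (y : E3) : zE ε (t • y) = zE ε y := by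
  unfold zE
  have h1 : ‖t • y‖ = t * ‖y‖ := by rw [norm_smul, Real.norm_eq_abs, abs_of_pos ht]
  have h2 : ∀ i, (t • y) i = t * y i := fun i => rfl
  rw [h1, h2, h2, h2]
  have h3 : t * ‖y‖ + ε * (t * y 2) = t * (‖y‖ + ε * y 2) := by ring
  have h4 : ε * (t * y 1) = t * (ε * y 1) := by ring
  rw [h3, h4, mul_div_mul_left _ _ ht.ne', mul_div_mul_left _ _ ht.ne']

theorem inner_E3 (y v : E3) : inner ℝ y v = y 0 * v 0 + y 1 * v 1 + y 2 * v 2 := by
  rw [PiLp.inner_apply, Fin.sum_univ_three]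
  simp [mul_comm]

theorem hasFDerivAt_norm1 {y : E3} (hy : ‖y‖ = 1) :
    HasFDerivAt (fun x : E3 => ‖x‖) (innerSL ℝ y) y := by
  have h1 := (hasStrictFDerivAt_norm_sq y).hasFDerivAt
  have h2 := h1.sqrt (by simp [hy])
  have h3 : (fun x : E3 => ‖x‖) = fun x => √(‖x‖ ^ 2) := by
    funext x; rw [Real.sqrt_sq (norm_nonneg x)]
  rw [h3]
  refine h2.congr_fderiv ?_
  ext v
  simp [hy]

/-- the derivative of the stereographic coordinate. -/
theorem hasFDerivAt_zE (ε : ℝ) {y : E3} (hy : ‖y‖ = 1) (hs : 1 + ε * y 2 ≠ 0) :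
    ∃ L : E3 →L[ℝ] ℂ, HasFDerivAt (zE ε) L y ∧ ∀ v, L v =
      ⟨v 0 / (1 + ε * y 2) - y 0 * (inner ℝ y v + ε * v 2) / (1 + ε * y 2) ^ 2,
        ε * v 1 / (1 + ε * y 2) - ε * y 1 * (inner ℝ y v + ε * v 2) / (1 + ε * y 2) ^ 2⟩ := by
  have hc : ∀ i : Fin 3, HasFDerivAt (fun x : E3 => x i)
      (EuclideanSpace.proj i : E3 →L[ℝ] ℝ) y := fun i =>
    (EuclideanSpace.proj i : E3 →L[ℝ] ℝ).hasFDerivAt
  have hsd : HasFDerivAt (fun x : E3 => ‖x‖ + ε * x 2)
      (innerSL ℝ y + ε • (EuclideanSpace.proj 2 : E3 →L[ℝ] ℝ)) y :=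
    (hasFDerivAt_norm1 hy).add ((hc 2).const_mul ε)
  have hs' : ‖y‖ + ε * y 2 ≠ 0 := by rw [hy]; exact hs
  have hr : HasFDerivAt (fun x : E3 => (‖x‖ + ε * x 2)⁻¹)
      (-((‖y‖ + ε * y 2) ^ 2)⁻¹ • (innerSL ℝ y + ε • (EuclideanSpace.proj 2 : E3 →L[ℝ] ℝ))) y :=
    (hasDerivAt_inv hs').comp_hasFDerivAt y hsd
  have h0 := (hc 0).mul hr
  have h1 := ((hc 1).const_mul ε).mul hr
  have h2 := (Complex.equivRealProdCLM.symm : ℝ × ℝ →L[ℝ] ℂ).hasFDerivAt.comp y (h0.prodMk h1)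
  refine ⟨_, h2.congr_of_eventuallyEq (Eventually.of_forall fun x => ?_), fun v => ?_⟩
  · apply Complex.ext
    · simp [zE, div_eq_mul_inv]
    · simp [zE, div_eq_mul_inv]
  · apply Complex.ext
    · simp [hy]
      field_simp
      ring
    · simp [hy]
      field_simp
      ring

theorem contDiffAt_zE (ε : ℝ) {y : E3} (hy : y ≠ 0) (hs : 0 < ‖y‖ + ε * y 2) :
    ContDiffAt ℝ ∞ (zE ε) y := by
  have hc : ∀ i : Fin 3, ContDiffAt ℝ ∞ (fun x : E3 => x i) y := fun i =>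
    (EuclideanSpace.proj i : E3 →L[ℝ] ℝ).contDiff.contDiffAt
  have hsd : ContDiffAt ℝ ∞ (fun x : E3 => ‖x‖ + ε * x 2) y :=
    (contDiffAt_norm ℝ hy).add (contDiffAt_const.mul (hc 2))
  have hr : ContDiffAt ℝ ∞ (fun x : E3 => (‖x‖ + ε * x 2)⁻¹) y := hsd.inv hs.ne'
  have h2 := (Complex.equivRealProdCLM.symm : ℝ × ℝ →L[ℝ] ℂ).contDiff.contDiffAt.comp y
    (((hc 0).mul hr).prodMk (((contDiffAt_const (c := ε)).mul (hc 1)).mul hr))
  refine h2.congr_of_eventuallyEq (Eventually.of_forall fun x => ?_)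
  apply Complex.ext
  · simp [zE, div_eq_mul_inv]
  · simp [zE, div_eq_mul_inv]

/-- the kernel of the derivative is radial. -/
theorem ker_zE {ε : ℝ} (hε : ε ^ 2 = 1) {y v : E3} (hy : ‖y‖ = 1) (hs : 1 + ε * y 2 ≠ 0)
    (h : (⟨v 0 / (1 + ε * y 2) - y 0 * (inner ℝ y v + ε * v 2) / (1 + ε * y 2) ^ 2,
        ε * v 1 / (1 + ε * y 2) - ε * y 1 * (inner ℝ y v + ε * v 2) / (1 + ε * y 2) ^ 2⟩ : ℂ) = 0) :
    ∃ t : ℝ, v = t • y := by
  have hn := norm_sq_E3 y
  rw [hy] at hn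
  have h0 := congrArg Complex.re h
  have h1 := congrArg Complex.im h
  simp only [Complex.zero_re, Complex.zero_im] at h0 h1
  rw [inner_E3] at h0 h1
  set s := 1 + ε * y 2 with hsdef
  set q := y 0 * v 0 + y 1 * v 1 + y 2 * v 2 + ε * v 2 with hq
  have hε0 : ε ≠ 0 := by rintro rfl; norm_num at hε
  have e0 : v 0 * s = y 0 * q := by
    field_simp at h0
    linarith
  have e1 : v 1 * s = y 1 * q := by
    have h1' : ε * (v 1 * s - y 1 * q) = 0 := by
      have h5 : ε * v 1 / s - ε * y 1 * q / s ^ 2 = (ε * (v 1 * s - y 1 * q)) / s ^ 2 := by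
        field_simp
      rw [h5] at h1
      exact (div_eq_zero_iff.1 h1).resolve_right (pow_ne_zero 2 hs)
    have h6 := (mul_eq_zero.1 h1').resolve_left hε0
    linarith
  have e2 : v 2 * s = y 2 * q := by
    have h3 : ε * (v 2 * s - y 2 * q) * s = 0 := by
      have hs2 : ε * y 2 = s - 1 := by rw [hsdef]; ring
      have hqs : q * s = y 0 * (v 0 * s) + y 1 * (v 1 * s) + (y 2 + ε) * v 2 * s := by
        rw [hq]; ring
      rw [e0, e1] at hqs
      have h5 : y 0 * (y 0 * q) + y 1 * (y 1 * q) = (1 - y 2 ^ 2) * q := by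
        have : (1:ℝ) - y 2 ^ 2 = y 0 ^ 2 + y 1 ^ 2 := by linarith
        rw [this]; ring
      have h6 : q * s = (1 - y 2 ^ 2) * q + (y 2 + ε) * v 2 * s := by
        rw [hqs]; linear_combination h5
      have h7 : (y 2 + ε) = ε * s := by
        rw [hsdef]; linear_combination (-(y 2)) * hε
      rw [h7] at h6
      have h8 : (1 - y 2 ^ 2) = s * (2 - s) := by
        rw [hsdef]; linear_combination (y 2 ^ 2) * hε
      rw [h8] at h6
      have h9 : s * (ε * (v 2 * s) - (s - 1) * q) = 0 := by linear_combination -h6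
      rw [← hs2] at h9
      linear_combination h9
    have h4 := mul_eq_zero.1 h3
    rcases h4 with h4 | h4
    · rcases mul_eq_zero.1 h4 with h5 | h5
      · exact absurd h5 hε0
      · linarith
    · exact absurd h4 hs
  refine ⟨q / s, ?_⟩
  ext i
  have hgoal : ∀ i, v i * s = y i * q → v i = ((q / s) • y) i := by
    intro i hi
    show v i = q / s * y i
    field_simp
    linarith
  fin_cases i
  · exact hgoal 0 e0
  · exact hgoal 1 e1
  · exact hgoal 2 e2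

/-- the Jacobian of the stereographic coordinate. -/
theorem kappa {y : E3} (hy : ‖y‖ = 1) (hs : 1 + y 2 ≠ 0) {Z : Fin 3 → ℂ}
    (hZ : ∀ k, Z k = ⟨(EuclideanSpace.single k 1 : E3) 0 / (1 + y 2) -
        y 0 * (y k + (EuclideanSpace.single k 1 : E3) 2) / (1 + y 2) ^ 2,
      (EuclideanSpace.single k 1 : E3) 1 / (1 + y 2) -
        y 1 * (y k + (EuclideanSpace.single k 1 : E3) 2) / (1 + y 2) ^ 2⟩) :
    y 2 * ((Z 0).re * (Z 1).im - (Z 0).im * (Z 1).re) +
      y 0 * ((Z 1).re * (Z 2).im - (Z 1).im * (Z 2).re) +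
      y 1 * ((Z 2).re * (Z 0).im - (Z 2).im * (Z 0).re) = 1 / (1 + y 2) ^ 2 := by
  have hn := norm_sq_E3 y
  rw [hy] at hn
  rw [hZ 0, hZ 1, hZ 2]
  simp
  have e2 : y 0 ^ 2 = 1 - y 1 ^ 2 - y 2 ^ 2 := by linarith
  field_simp
  ring_nf
  simp only [e2]
  ring_nf

/-- an alternating form on the image of a real linear map `ℂ → E4` -/
theorem alt_cross {B : E4 →L[ℝ] E4 →L[ℝ] ℝ} (hB : ∀ v, B v v = 0) (L : ℂ → E4)
    (hadd : ∀ v w, L (v + w) = L v + L w) (hsm : ∀ (t : ℝ) v, L (t • v) = t • L v) (v w : ℂ) :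
    B (L v) (L w) = (v.re * w.im - v.im * w.re) * B (L 1) (L Complex.I) := by
  have h1 : ∀ c : ℂ, L c = c.re • L 1 + c.im • L Complex.I := by
    intro c
    have h2 : c = c.re • (1 : ℂ) + c.im • Complex.I := by
      apply Complex.ext <;> simp
    conv_lhs => rw [h2]
    rw [hadd, hsm, hsm]
  have hanti : B (L Complex.I) (L 1) = - B (L 1) (L Complex.I) := by
    have := hB (L 1 + L Complex.I)
    simp only [map_add, add_apply, hB] at this
    linarith
  rw [h1 v, h1 w]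
  simp only [map_add, map_smul, add_apply, smul_apply, smul_eq_mul, hB, hanti]
  ring

/-! ### the curve -/

section Curve

variable {M : Type u} [TopologicalSpace M] [ChartedSpace E4 M] [IsManifold 𝓘(ℝ, E4) ∞ M]
variable {J : EndF E4 M} (c : JCurve J)

/-- `f ∘ φ` is smooth -/
theorem smF {φ : ℂ → c.N} (hφ : c.A.Hol φ) (z : ℂ) :
    ContMDiffAt 𝓘(ℝ, ℂ) 𝓘(ℝ, E4) ∞ (fun z => c.f (φ z)) z :=
  smooth_fφ c isOpen_univ hφ.cont.continuousOn
    (fun i => (hφ.hol i).mono fun _ hz => hz.2) (mem_univ z)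

/-- the differential of `f ∘ φ` -/
theorem dmap_F {φ : ℂ → c.N} (hφ : c.A.Hol φ) {z : ℂ} {i : c.A.ι} (hi : φ z ∈ (c.A.c i).source)
    (v : ℂ) :
    dmap (fun z => c.f (φ z)) z v = dmap (fun z => c.f ((c.A.c i).symm z)) (c.A.c i (φ z))
      (deriv (fun w => c.A.c i (φ w)) z * v) := by
  have hop : IsOpen (φ ⁻¹' (c.A.c i).source) := (c.A.c i).open_source.preimage hφ.cont
  have h1 : HasDerivAt (fun z => c.A.c i (φ z)) (deriv (fun w => c.A.c i (φ w)) z) z :=
    ((hφ.hol i).differentiableAt (hop.mem_nhds hi)).hasDerivAt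
  have h2 : ContMDiffAt 𝓘(ℝ, ℂ) 𝓘(ℝ, E4) ∞ (fun z => c.f ((c.A.c i).symm z)) (c.A.c i (φ z)) :=
    (c.hol i).smooth.contMDiffAt ((c.A.c i).open_target.mem_nhds ((c.A.c i).map_source hi))
  have h3 : (fun z => c.f (φ z)) =ᶠ[𝓝 z]
      fun z => (fun z => c.f ((c.A.c i).symm z)) (c.A.c i (φ z)) := by
    filter_upwards [hop.mem_nhds hi] with w hw
    show c.f (φ w) = c.f ((c.A.c i).symm (c.A.c i (φ w)))
    rw [(c.A.c i).left_inv hw]
  rw [dmap_congr h3, dmap_comp (h1.hasFDerivAt.restrictScalars ℝ) h2]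
  congr 1
  simp [mul_comm]

/-- `f ∘ φ` is `J`-holomorphic -/
theorem jhol_F {φ : ℂ → c.N} (hφ : c.A.Hol φ) (z v : ℂ) :
    dmap (fun z => c.f (φ z)) z (Complex.I * v) =
      atJ J (c.f (φ z)) (dmap (fun z => c.f (φ z)) z v) := by
  obtain ⟨i, hi⟩ := c.A.cover (φ z)
  rw [dmap_F c hφ hi, dmap_F c hφ hi]
  have h1 := (c.hol i).jhol _ ((c.A.c i).map_source hi) (deriv (fun w => c.A.c i (φ w)) z * v)
  rw [(c.A.c i).left_inv hi] at h1
  rw [← h1]
  congr 1
  ring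

omit [IsManifold 𝓘(ℝ, E4) ∞ M] in
/-- immersion: real and complex form -/
theorem imm_of_one (hJ2 : ∀ x v, atJ J x (atJ J x v) = -v) {u : ℂ → M} {z : ℂ}
    (hj : ∀ v : ℂ, dmap u z (Complex.I * v) = atJ J (u z) (dmap u z v))
    (h1 : dmap u z 1 ≠ 0) (v : ℂ) (hv : dmap u z v = 0) : v = 0 := by
  by_contra hne
  have h2 : v = v.re • (1 : ℂ) + v.im • (Complex.I * 1) := by
    apply Complex.ext <;> simp
  have h3 : v.re • dmap u z 1 + v.im • atJ J (u z) (dmap u z 1) = 0 := by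
    rw [← hj, ← dmap_smul, ← dmap_smul, ← dmap_add, ← h2, hv]
  have h4 : v.re • atJ J (u z) (dmap u z 1) - v.im • dmap u z 1 = 0 := by
    have := congrArg (atJ J (u z)) h3
    rw [map_add, map_smul, map_smul, hJ2, map_zero] at this
    rw [sub_eq_add_neg, ← smul_neg]
    exact this
  have h5 : (v.re ^ 2 + v.im ^ 2) • dmap u z 1 = 0 := by
    have h6 : (v.re ^ 2 + v.im ^ 2) • dmap u z 1 =
        v.re • (v.re • dmap u z 1 + v.im • atJ J (u z) (dmap u z 1)) -
          v.im • (v.re • atJ J (u z) (dmap u z 1) - v.im • dmap u z 1) := by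
      module
    rw [h6, h3, h4, smul_zero, smul_zero, sub_zero]
  rcases smul_eq_zero.1 h5 with h6 | h6
  · apply hne
    have h7 : v.re = 0 := by nlinarith [sq_nonneg v.re, sq_nonneg v.im]
    have h8 : v.im = 0 := by nlinarith [sq_nonneg v.re, sq_nonneg v.im]
    exact Complex.ext h7 h8
  · exact h1 h6

theorem imm_F (hJ2 : ∀ x v, atJ J x (atJ J x v) = -v)
    (himm : ∀ i, ∀ z ∈ (c.A.c i).target, dmap (fun z => c.f ((c.A.c i).symm z)) z 1 ≠ 0)
    {φ : ℂ → c.N} (hφ : c.A.Hol φ) (hφi : c.A.Imm φ) (z v : ℂ)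
    (hv : dmap (fun z => c.f (φ z)) z v = 0) : v = 0 := by
  obtain ⟨i, hi⟩ := c.A.cover (φ z)
  rw [dmap_F c hφ hi] at hv
  have ht := (c.A.c i).map_source hi
  have h1 := imm_of_one hJ2 ((c.hol i).jhol _ ht) (himm i _ ht) _ hv
  exact (mul_eq_zero.1 h1).resolve_left (hφi i z hi)

end Curve

/-! ### the sphere -/

section Sigma

variable {M : Type u} [TopologicalSpace M] [ChartedSpace E4 M] [IsManifold 𝓘(ℝ, E4) ∞ M]

open Classical in
omit [TopologicalSpace M] [ChartedSpace E4 M] [IsManifold 𝓘(ℝ, E4) ∞ M] in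
/-- the sphere made of the two discs `F`, `G` -/
def sgm (F G : ℂ → M) (y : E3) : M := if 0 < ‖y‖ + y 2 then F (zN y) else G 0

omit [TopologicalSpace M] [ChartedSpace E4 M] [IsManifold 𝓘(ℝ, E4) ∞ M] in
theorem sgm_N (F G : ℂ → M) {y : E3} (h : 0 < ‖y‖ + y 2) : sgm F G y = F (zE 1 y) := by
  rw [sgm, if_pos h, zE_one]

omit [TopologicalSpace M] [ChartedSpace E4 M] [IsManifold 𝓘(ℝ, E4) ∞ M] in
theorem sgm_S {F G : ℂ → M} (hFG : ∀ z, z ≠ 0 → F z = G z⁻¹) {y : E3} (h : 0 < ‖y‖ - y 2) :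
    sgm F G y = G (zE (-1) y) := by
  have hn := norm_sq_E3 y
  have hprod : y 0 ^ 2 + y 1 ^ 2 = (‖y‖ - y 2) * (‖y‖ + y 2) := by linear_combination -hn
  by_cases h1 : 0 < ‖y‖ + y 2
  · rw [sgm_N F G h1]
    have hpos : 0 < y 0 ^ 2 + y 1 ^ 2 := by rw [hprod]; positivity
    have h2 : zE 1 y * zE (-1) y = 1 := by
      apply Complex.ext
      · simp only [zE, Complex.mul_re, Complex.one_re, one_mul]
        have e1 : ‖y‖ + -1 * y 2 = ‖y‖ - y 2 := by ring
        rw [e1]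
        field_simp
        linear_combination hprod
      · simp only [zE, Complex.mul_im, Complex.one_im, one_mul]
        ring
    have h3 : zE 1 y ≠ 0 := by
      intro h4
      rw [h4, zero_mul] at h2
      exact zero_ne_one h2
    rw [hFG _ h3, ← eq_inv_of_mul_eq_one_right h2]
  · rw [sgm, if_neg h1]
    congr 1
    have h2 : y 0 ^ 2 + y 1 ^ 2 ≤ 0 := by
      rw [hprod]
      exact mul_nonpos_of_nonneg_of_nonpos h.le (not_lt.1 h1)
    have h3 : y 0 = 0 := by nlinarith [sq_nonneg (y 0), sq_nonneg (y 1)]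
    have h4 : y 1 = 0 := by nlinarith [sq_nonneg (y 0), sq_nonneg (y 1)]
    apply Complex.ext <;> simp [zE, h3, h4]

/-- a holomorphic immersed plane -/
structure Pl (J : EndF E4 M) (H : ℂ → M) : Prop where
  sm : ∀ z, ContMDiffAt 𝓘(ℝ, ℂ) 𝓘(ℝ, E4) ∞ H z
  jh : ∀ z v, dmap H z (Complex.I * v) = atJ J (H z) (dmap H z v)
  im : ∀ z v, dmap H z v = 0 → v = 0

omit [IsManifold 𝓘(ℝ, E4) ∞ M] in
/-- the sphere is locally one of the two discs in a stereographic coordinate. -/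
theorem sgm_loc {J : EndF E4 M} {F G : ℂ → M} (hF : Pl J F) (hG : Pl J G)
    (hFG : ∀ z, z ≠ 0 → F z = G z⁻¹) {y : E3} (hy : y ≠ 0) :
    ∃ (ε : ℝ) (H : ℂ → M), ε ^ 2 = 1 ∧ 0 < ‖y‖ + ε * y 2 ∧ Pl J H ∧
      sgm F G =ᶠ[𝓝 y] fun x => H (zE ε x) := by
  have hpos : 0 < ‖y‖ := norm_pos_iff.2 hy
  have hc2 : Continuous fun x : E3 => x 2 := (EuclideanSpace.proj 2 : E3 →L[ℝ] ℝ).continuous
  by_cases h : 0 < ‖y‖ + y 2
  · refine ⟨1, F, by norm_num, by linarith, hF, ?_⟩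
    have ho : IsOpen {x : E3 | 0 < ‖x‖ + x 2} :=
      isOpen_lt continuous_const (continuous_norm.add hc2)
    filter_upwards [ho.mem_nhds h] with x hx using sgm_N F G hx
  · have h' : 0 < ‖y‖ - y 2 := by linarith
    refine ⟨-1, G, by norm_num, by linarith, hG, ?_⟩
    have ho : IsOpen {x : E3 | 0 < ‖x‖ - x 2} :=
      isOpen_lt continuous_const (continuous_norm.sub hc2)
    filter_upwards [ho.mem_nhds h'] with x hx using sgm_S hFG hx

/-- the differential of the sphere at a unit vector -/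
theorem dmap_sgm {J : EndF E4 M} {F G : ℂ → M} (hF : Pl J F) (hG : Pl J G)
    (hFG : ∀ z, z ≠ 0 → F z = G z⁻¹) {y : E3} (hy : ‖y‖ = 1) :
    ∃ (H : ℂ → M) (z : ℂ) (L : E3 →L[ℝ] ℂ), Pl J H ∧ sgm F G y = H z ∧
      (∀ v, dmap (sgm F G) y v = dmap H z (L v)) ∧ ∀ v, L v = 0 → ∃ t : ℝ, v = t • y := by
  have hy0 : y ≠ 0 := by rintro rfl; simp at hy
  obtain ⟨ε, H, hε, hs, hH, hev⟩ := sgm_loc hF hG hFG hy0
  have hs' : 1 + ε * y 2 ≠ 0 := by rw [hy] at hs; exact hs.ne'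
  obtain ⟨L, hL, hLv⟩ := hasFDerivAt_zE ε hy hs'
  refine ⟨H, zE ε y, L, hH, hev.eq_of_nhds, fun v => ?_, fun v hv => ?_⟩
  · rw [dmap_congr hev, dmap_comp hL (hH.sm _)]
  · exact ker_zE hε hy hs' ((hLv v).symm.trans hv)

theorem embS_sgm {J : EndF E4 M} {F G : ℂ → M} (hF : Pl J F) (hG : Pl J G)
    (hFG : ∀ z, z ≠ 0 → F z = G z⁻¹) (hFi : Injective F) (hG0 : ∀ z, F z ≠ G 0) :
    EmbS (sgm F G) where
  smooth := by
    intro y hy
    obtain ⟨ε, H, hε, hs, hH, hev⟩ := sgm_loc hF hG hFG hy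
    have h1 : ContMDiffAt 𝓘(ℝ, E3) 𝓘(ℝ, E4) ∞ (fun x => H (zE ε x)) y :=
      ContMDiffAt.comp (g := H) y (hH.sm _) (contDiffAt_zE ε hy hs).contMDiffAt
    exact (h1.congr_of_eventuallyEq hev).contMDiffWithinAt
  hom := by
    intro t y ht hy
    have h1 : ‖t • y‖ + (t • y) 2 = t * (‖y‖ + y 2) := by
      have h2 : (t • y) 2 = t * y 2 := rfl
      rw [norm_smul, Real.norm_eq_abs, abs_of_pos ht, h2, mul_add]
    unfold sgm
    rw [h1, zN_smul ht]
    by_cases h : 0 < ‖y‖ + y 2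
    · rw [if_pos (mul_pos ht h), if_pos h]
    · rw [if_neg (fun h3 => h ((mul_pos_iff_of_pos_left ht).1 h3)), if_neg h]
  inj := by
    have key : ∀ y : E3, ‖y‖ = 1 → ¬ 0 < ‖y‖ + y 2 → y 0 = 0 ∧ y 1 = 0 ∧ y 2 = -1 := by
      intro y hy h
      have hn := norm_sq_E3 y
      rw [hy] at hn h
      have h2 : y 2 ≤ -1 := by linarith
      have h3 : y 2 = -1 := by nlinarith [sq_nonneg (y 0), sq_nonneg (y 1)]
      rw [h3] at hn
      refine ⟨?_, ?_, h3⟩ <;> nlinarith [sq_nonneg (y 0), sq_nonneg (y 1)]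
    intro y z hy hz h
    unfold sgm at h
    by_cases h1 : 0 < ‖y‖ + y 2
    · by_cases h2 : 0 < ‖z‖ + z 2
      · rw [if_pos h1, if_pos h2] at h
        have h3 := hFi h
        rw [← Ph_zN h1, ← Ph_zN h2, hy, hz, h3]
      · rw [if_pos h1, if_neg h2] at h
        exact absurd h (hG0 _)
    · by_cases h2 : 0 < ‖z‖ + z 2
      · rw [if_neg h1, if_pos h2] at h
        exact absurd h.symm (hG0 _)
      · obtain ⟨a0, a1, a2⟩ := key y hy h1
        obtain ⟨b0, b1, b2⟩ := key z hz h2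
        ext i
        fin_cases i
        · exact a0.trans b0.symm
        · exact a1.trans b1.symm
        · exact a2.trans b2.symm
  imm := by
    intro y v hy hv
    obtain ⟨H, z, L, hH, -, hd, hk⟩ := dmap_sgm hF hG hFG hy
    rw [hd] at hv
    exact hk v (hH.im z _ hv)

/-- anti-invariant alternating forms vanish on the tangent planes -/
theorem lag_sgm {J : EndF E4 M} (hJ2 : ∀ x v, atJ J x (atJ J x v) = -v) {F G : ℂ → M}
    (hF : Pl J F) (hG : Pl J G)
    (hFG : ∀ z, z ≠ 0 → F z = G z⁻¹) {y : E3} (hy : ‖y‖ = 1) {B : E4 →L[ℝ] E4 →L[ℝ] ℝ}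
    (hB : ∀ v, B v v = 0)
    (hBJ : ∀ u v, B (atJ J (sgm F G y) u) (atJ J (sgm F G y) v) = - B u v) (u v : E3) :
    B (dmap (sgm F G) y u) (dmap (sgm F G) y v) = 0 := by
  obtain ⟨H, z, L, hH, he, hd, -⟩ := dmap_sgm hF hG hFG hy
  rw [hd, hd, alt_cross hB (dmap H z) (dmap_add H z) (dmap_smul H z)]
  have h1 : dmap H z Complex.I = atJ J (sgm F G y) (dmap H z 1) := by
    rw [he, ← hH.jh, mul_one]
  have h2 := hBJ (dmap H z 1) (atJ J (sgm F G y) (dmap H z 1))
  rw [hJ2, map_neg] at h2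
  have h3 : B (atJ J (sgm F G y) (dmap H z 1)) (dmap H z 1) =
      - B (dmap H z 1) (atJ J (sgm F G y) (dmap H z 1)) := by
    have := hB (dmap H z 1 + atJ J (sgm F G y) (dmap H z 1))
    simp only [map_add, add_apply, hB] at this
    linarith
  rw [h3] at h2
  rw [h1]
  have h4 : B (dmap H z 1) (atJ J (sgm F G y) (dmap H z 1)) = 0 := by linarith
  rw [h4, mul_zero]

/-- the integral over the sphere -/
theorem sphI_sgm {J : EndF E4 M} {F G : ℂ → M} (hF : Pl J F) {b : F2 E4 M}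
    (hb : ∀ x v, at2 b x v v = 0) : sphI (sgm F G) b = ∫ z, pb F b z := by
  unfold sphI
  refine stereo (fun y : E3 => y 2 * at2 b (sgm F G y) (dmap (sgm F G) y (EuclideanSpace.single 0 1))
        (dmap (sgm F G) y (EuclideanSpace.single 1 1)) +
      y 0 * at2 b (sgm F G y) (dmap (sgm F G) y (EuclideanSpace.single 1 1))
        (dmap (sgm F G) y (EuclideanSpace.single 2 1)) +
      y 1 * at2 b (sgm F G y) (dmap (sgm F G) y (EuclideanSpace.single 2 1))
        (dmap (sgm F G) y (EuclideanSpace.single 0 1))) (pb F b) ?_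
  intro y hy hs
  have hs1 : 0 < ‖y‖ + y 2 := by rw [hy]; exact hs
  have hs' : 1 + 1 * y 2 ≠ 0 := by rw [one_mul]; exact hs.ne'
  obtain ⟨L, hL, hLv⟩ := hasFDerivAt_zE 1 hy hs'
  have hc2 : Continuous fun x : E3 => x 2 := (EuclideanSpace.proj 2 : E3 →L[ℝ] ℝ).continuous
  have ho : IsOpen {x : E3 | 0 < ‖x‖ + x 2} :=
    isOpen_lt continuous_const (continuous_norm.add hc2)
  have hev : sgm F G =ᶠ[𝓝 y] fun x => F (zE 1 x) := by
    filter_upwards [ho.mem_nhds hs1] with x hx using sgm_N F G hx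
  have hd : ∀ v, dmap (sgm F G) y v = dmap F (zE 1 y) (L v) := fun v => by
    rw [dmap_congr hev, dmap_comp hL (hF.sm _)]
  have hcr := alt_cross (hb (F (zE 1 y))) (dmap F (zE 1 y)) (dmap_add F _) (dmap_smul F _)
  have hpb : at2 b (F (zE 1 y)) (dmap F (zE 1 y) 1) (dmap F (zE 1 y) Complex.I) =
    pb F b (zE 1 y) := rfl
  have hk := kappa hy hs.ne' (Z := fun k => L (EuclideanSpace.single k 1)) (fun k => by
    have hin : inner ℝ y (EuclideanSpace.single k 1 : E3) = y k := by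
      rw [EuclideanSpace.inner_single_right]; simp
    simp only [hLv, hin, one_mul])
  simp only [hd, hev.eq_of_nhds]
  rw [hcr (L (EuclideanSpace.single 0 1)) (L (EuclideanSpace.single 1 1)),
    hcr (L (EuclideanSpace.single 1 1)) (L (EuclideanSpace.single 2 1)),
    hcr (L (EuclideanSpace.single 2 1)) (L (EuclideanSpace.single 0 1)), hpb, ← zE_one]
  simp only at hk
  rw [div_eq_mul_one_div, ← hk]
  ring

omit [IsManifold 𝓘(ℝ, E4) ∞ M] in
/-- positivity of a taming form on a holomorphic immersed plane -/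
theorem pb_pos {J : EndF E4 M} {F : ℂ → M} (hF : Pl J F) {b : F2 E4 M}
    (hb : ∀ x v, v ≠ 0 → 0 < at2 b x v (atJ J x v)) (z : ℂ) : 0 < pb F b z := by
  have h1 : dmap F z Complex.I = atJ J (F z) (dmap F z 1) := by
    rw [← hF.jh, mul_one]
  unfold pb
  rw [h1]
  exact hb _ _ fun h => one_ne_zero (hF.im z 1 h)

end Sigma

section Final

variable {M : Type u} [TopologicalSpace M] [T2Space M] [CompactSpace M]
  [ChartedSpace E4 M] [IsManifold 𝓘(ℝ, E4) ∞ M] {J : EndF E4 M}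

/-- `σ` parametrises the `J`-curve `c`. -/
structure SphOut (c : JCurve J) (σ : E3 → M) : Prop where
  emb : EmbS σ
  im : σ '' sphere (0 : E3) 1 = range c.f
  int : ∀ b : X2 M, sphI σ (b.1 : F2 E4 M) = c.T b
  lag : ∀ y : E3, ‖y‖ = 1 → ∀ B : E4 →L[ℝ] E4 →L[ℝ] ℝ, (∀ v, B v v = 0) →
    (∀ u v, B (atJ J (σ y) u) (atJ J (σ y) v) = - B u v) →
    ∀ u v : E3, B (dmap σ y u) (dmap σ y v) = 0
  pos : ∀ b : X2 M, (∀ x v, v ≠ 0 → 0 < at2 (b.1 : F2 E4 M) x v (atJ J x v)) → 0 < c.T b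

/-- **E1, spheres**: an embedded `JCurve` whose surface is the sphere. -/
theorem sph (hJ2 : ∀ x v, atJ J x (atJ J x v) = -v) (c : JCurve J) (hinj : Injective c.f)
    (himm : ∀ i, ∀ z ∈ (c.A.c i).target, dmap (fun z => c.f ((c.A.c i).symm z)) z 1 ≠ 0)
    (hS : c.A.IsSph) : ∃ σ : E3 → M, SphOut c σ := by
  obtain ⟨φ, ψ, hφ, hψ, hφi, hψi, hφj, hψj, hφψ, h0, hcov⟩ := hS
  set F : ℂ → M := fun z => c.f (φ z) with hFdef
  set G : ℂ → M := fun z => c.f (ψ z) with hGdef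
  have hF : Pl J F := ⟨smF c hφ, jhol_F c hφ, imm_F c hJ2 himm hφ hφi⟩
  have hG : Pl J G := ⟨smF c hψ, jhol_F c hψ, imm_F c hJ2 himm hψ hψi⟩
  have hFG : ∀ z, z ≠ 0 → F z = G z⁻¹ := fun z hz => by
    simp only [hFdef, hGdef, hφψ z hz]
  have hG0 : ∀ z, F z ≠ G 0 := fun z h => h0 ⟨z, hinj h⟩
  have hcur : ∀ b : X2 M, Integrable (pb F b.1) ∧ c.T b = ∫ z, pb F (b.1 : F2 E4 M) z := by
    intro b
    have h1 := cur_eq c isOpen_univ hφ.cont.continuousOn
      (fun i => (hφ.hol i).mono fun _ hz => hz.2) Subset.rfl MeasurableSet.univ hφj.injOn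
      (by
        refine (countable_singleton (ψ 0)).mono ?_
        intro x hx
        rcases hcov x with h | h
        · rw [image_univ] at hx
          exact absurd h hx
        · exact h) b
    rw [integrableOn_univ, Measure.restrict_univ] at h1
    exact h1
  refine ⟨sgm F G, embS_sgm hF hG hFG (hinj.comp hφj) hG0, ?_, fun b => ?_, ?_, ?_⟩
  · ext x
    constructor
    · rintro ⟨y, hy, rfl⟩
      unfold sgm
      split_ifs
      · exact ⟨_, rfl⟩
      · exact ⟨_, rfl⟩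
    · rintro ⟨x, rfl⟩
      rcases hcov x with ⟨z, rfl⟩ | rfl
      · refine ⟨st !₂[z.re, z.im, 0], by rw [mem_sphere_zero_iff_norm, norm_st], ?_⟩
        have hN := N_pos !₂[z.re, z.im, 0]
        rw [sgm, if_pos (by rw [norm_st, st_two]; positivity), zN_st]
        rfl
      · have hn : ‖(!₂[0, 0, -1] : E3)‖ = 1 := by
          rw [EuclideanSpace.norm_eq, Real.sqrt_eq_one, Fin.sum_univ_three]
          simp
        refine ⟨!₂[0, 0, -1], by rw [mem_sphere_zero_iff_norm, hn], ?_⟩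
        rw [sgm, if_neg (by rw [hn]; simp)]
  · have hb : Smooth2 (b.1 : F2 E4 M) := b.2
    rw [sphI_sgm hF hb.1, (hcur b).2]
  · intro y hy B hB hBJ u v
    exact lag_sgm hJ2 hF hG hFG hy hB hBJ u v
  · intro b hb
    rw [(hcur b).2, integral_pos_iff_support_of_nonneg (fun z => (pb_pos hF hb z).le) (hcur b).1]
    have h1 : support (pb F (b.1 : F2 E4 M)) = univ :=
      eq_univ_of_forall fun z => (pb_pos hF hb z).ne'
    rw [h1]
    simp

/-- **E1, spheres**, in the form used by the assembly. -/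
theorem jsph {w : Trip M} (hw : IsJ w J) (c : JCurve J) (hinj : Injective c.f)
    (himm : ∀ i, ∀ z ∈ (c.A.c i).target, dmap (fun z => c.f ((c.A.c i).symm z)) z 1 ≠ 0)
    (hS : c.A.IsSph) {d : H2 M} (hd : ∀ b : Z2 M, c.T b.1 = ip (w 0) d (cls b)) :
    ∃ σ : E3 → M, JSph w σ d ∧ SphOut c σ := by
  obtain ⟨σ, hσ⟩ := sph hw.sq c hinj himm hS
  refine ⟨σ, ⟨hσ.emb, fun y u v hy => ?_, fun y u v hy => ?_, fun b => ?_, ?_⟩, hσ⟩
  · exact hσ.lag y hy _ (fun v => (w 1).1.2.1 _ v) (fun u v => hw.anti1 _ u v) u v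
  · exact hσ.lag y hy _ (fun v => (w 2).1.2.1 _ v) (fun u v => hw.anti2 _ u v) u v
  · rw [hσ.int b.1, hd]
  · rw [← hd (w 0)]
    exact hσ.pos (w 0).1 fun x v hv => hw.tame x v hv

end Final

end

end Crest.Agent.R235.AdjE_83
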