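import Crest.Agent.R235.Wind2_688
import Crest.Agent.R235.SimJ_679
import Crest.Agent.R235.NWDefs_334
import Crest.Agent.R235.BranchProd_266

-- ▼ part R235/AdjPos_688
section

/-!
# Row 235 (S0364), package ADJ (helper43), leaf L4 = (A5): positivity of the local contributions
(helper688).  Everything is planar.
-/

set_option autoImplicit false

open Complex Set Filter Topology Metric MeasureTheory
open scoped Real

namespace Crest.Agent.R235.AdjPos_688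

open Crest.Agent.R235.Wind_688 Crest.Agent.R235.CauchyV_679 Crest.Agent.R235.Sim_679

noncomputable section

/-- `∂f` -/
def dlz (f : ℂ → ℂ) (z : ℂ) : ℂ := (2 : ℂ)⁻¹ * (fderiv ℝ f z 1 - I * fderiv ℝ f z I)

theorem db_def (f : ℂ → ℂ) (z : ℂ) : db f z = (2 : ℂ)⁻¹ * (fderiv ℝ f z 1 + I * fderiv ℝ f z I) :=
  rfl

theorem fderiv_eq (f : ℂ → ℂ) (z v : ℂ) :
    fderiv ℝ f z v = dlz f z * v + db f z * (starRingEnd ℂ) v := by
  have h1 : v = v.re • (1 : ℂ) + v.im • I := by apply Complex.ext <;> simp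
  have h2 : fderiv ℝ f z v = v.re * fderiv ℝ f z 1 + v.im * fderiv ℝ f z I := by
    conv_lhs => rw [h1]
    rw [map_add, map_smul, map_smul, Complex.real_smul, Complex.real_smul]
  have h3 : v = (v.re : ℂ) + v.im * I := (Complex.re_add_im v).symm
  have h4 : (starRingEnd ℂ) v = (v.re : ℂ) - v.im * I := by
    apply Complex.ext <;> simp
  rw [h2, dlz, db_def, h4]
  conv_rhs => rw [h3]
  have h5 : ((v.re : ℂ) + v.im * I).re = v.re := by simp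
  have h6 : ((v.re : ℂ) + v.im * I).im = v.im := by simp
  rw [h5, h6]
  linear_combination ((v.im : ℂ) * fderiv ℝ f z I) * Complex.I_sq

/-! ### (P1) -/

theorem isW_ge {H : ℂ → ℂ} {r C : ℝ} {M : ℕ} (hr : 0 < r)
    (hC1 : ContDiffOn ℝ 1 H (ball 0 r \ {0})) (h0 : ∀ s ∈ ball (0 : ℂ) r, s ≠ 0 → H s ≠ 0)
    (hdb : ∀ s ∈ ball (0 : ℂ) r, s ≠ 0 → ‖db H s‖ ≤ C * ‖H s‖)
    (hO : ∀ s ∈ ball (0 : ℂ) r, s ≠ 0 → ‖H s‖ ≤ C * ‖s‖ ^ M)
    (hD : ∀ s ∈ ball (0 : ℂ) r, s ≠ 0 → ‖fderiv ℝ H s‖ ≤ C) :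
    ∃ n : ℤ, (M : ℤ) ≤ n ∧ ∀ r', 0 < r' → r' < r → IsW H 0 r' n := by
  have hU : IsOpen (ball (0 : ℂ) r \ {0}) := isOpen_ball.sdiff isClosed_singleton
  have hC : 0 ≤ C := by
    have hs : ((r / 2 : ℝ) : ℂ) ∈ ball (0 : ℂ) r := by
      rw [mem_ball, dist_zero_right, Complex.norm_real, Real.norm_of_nonneg (by positivity)]
      linarith
    exact (norm_nonneg _).trans (hD _ hs (by exact_mod_cast (by positivity : (r / 2 : ℝ) ≠ 0)))
  set G : ℂ → ℂ := fun s => s ^ 2 * H s with hG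
  -- derivative of `G` off `0`
  have hGd : ∀ s ∈ ball (0 : ℂ) r, s ≠ 0 → HasFDerivAt G
      (s ^ 2 • fderiv ℝ H s + H s • ((2 * s) • (ContinuousLinearMap.id ℝ ℂ))) s := by
    intro s hs hs0
    have h1 : HasFDerivAt H (fderiv ℝ H s) s :=
      ((hC1.contDiffAt (hU.mem_nhds ⟨hs, hs0⟩)).differentiableAt one_ne_zero).hasFDerivAt
    have h2 : HasFDerivAt (fun s : ℂ => s ^ 2) ((2 * s) • (ContinuousLinearMap.id ℝ ℂ)) s := by
      have := (hasFDerivAt_id (𝕜 := ℝ) s).pow 2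
      refine this.congr_fderiv ?_
      ext v; simp
    exact h2.mul h1
  set G' : ℂ → ℂ →L[ℝ] ℂ := fun s =>
    s ^ 2 • fderiv ℝ H s + H s • ((2 * s) • (ContinuousLinearMap.id ℝ ℂ)) with hG'
  have hbd : ∀ s ∈ ball (0 : ℂ) r, ‖G s‖ ≤ C * ‖s‖ ^ (M + 2) := by
    intro s hs
    by_cases hs0 : s = 0
    · simp [hG, hs0]
    · rw [hG]
      simp only [norm_mul, norm_pow]
      rw [pow_add]
      nlinarith [hO s hs hs0, pow_nonneg (norm_nonneg s) 2]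
  have hG0 : HasFDerivAt G (G' 0) 0 := by
    have e : G' 0 = 0 := by ext v; simp [hG']
    rw [e, hasFDerivAt_iff_isLittleO_nhds_zero]
    simp only [zero_add, _root_.zero_apply, sub_zero]
    have h1 : G 0 = 0 := by simp [hG]
    simp only [h1, sub_zero]
    have h2 : G =O[𝓝 0] fun s : ℂ => ‖s‖ ^ 2 := by
      refine Asymptotics.IsBigO.of_bound (C * r ^ M) ?_
      filter_upwards [ball_mem_nhds (0 : ℂ) hr] with s hs
      refine (hbd s hs).trans ?_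
      rw [norm_pow, norm_norm, pow_add, ← mul_assoc]
      rw [mem_ball, dist_zero_right] at hs
      gcongr
    refine h2.trans_isLittleO ?_
    simpa using (Asymptotics.isLittleO_norm_pow_id (E' := ℂ) one_lt_two)
  have hG'c : ContinuousOn G' (ball 0 r) := by
    intro s hs
    refine ContinuousAt.continuousWithinAt ?_
    by_cases hs0 : s = 0
    · rw [hs0]
      have e : G' 0 = 0 := by ext v; simp [hG']
      rw [ContinuousAt, e]
      rw [tendsto_zero_iff_norm_tendsto_zero]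
      have h1 : Tendsto (fun s : ℂ => ‖s‖ ^ 2 * C + C * r ^ M * (2 * ‖s‖)) (𝓝 0) (𝓝 0) := by
        have : Continuous fun s : ℂ => ‖s‖ ^ 2 * C + C * r ^ M * (2 * ‖s‖) := by fun_prop
        have h2 := this.tendsto 0
        simpa using h2
      refine squeeze_zero_norm' ?_ h1
      filter_upwards [ball_mem_nhds (0 : ℂ) hr] with s hs
      rw [norm_norm]
      by_cases hs0 : s = 0
      · rw [hs0, e]; simp
      · rw [hG']
        refine (norm_add_le _ _).trans ?_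
        rw [norm_smul, norm_smul, norm_smul, norm_pow]
        have e1 : ‖(ContinuousLinearMap.id ℝ ℂ)‖ ≤ 1 := ContinuousLinearMap.norm_id_le
        have e2 : ‖(2 * s : ℂ)‖ = 2 * ‖s‖ := by simp
        rw [e2]
        have hsr : ‖s‖ ≤ r := by
          rw [mem_ball, dist_zero_right] at hs; exact hs.le
        have e3 : ‖H s‖ ≤ C * r ^ M := (hO s hs hs0).trans (by gcongr)
        have e4 := hD s hs hs0
        have e5 : ‖H s‖ * (2 * ‖s‖ * ‖(ContinuousLinearMap.id ℝ ℂ)‖) ≤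
            C * r ^ M * (2 * ‖s‖ * 1) := by gcongr
        have e6 : ‖s‖ ^ 2 * ‖fderiv ℝ H s‖ ≤ ‖s‖ ^ 2 * C := by gcongr
        linarith
    · have hm := hU.mem_nhds (show s ∈ ball (0 : ℂ) r \ {0} from ⟨hs, hs0⟩)
      have h1 : ContinuousAt (fderiv ℝ H) s :=
        (hC1.continuousOn_fderiv_of_isOpen hU le_rfl).continuousAt hm
      have h2 : ContinuousAt H s := hC1.continuousOn.continuousAt hm
      have h3 : ContinuousAt (fun s : ℂ => s ^ 2) s := by fun_prop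
      have h4 : ContinuousAt (fun s : ℂ => (2 * s) • (ContinuousLinearMap.id ℝ ℂ)) s := by
        fun_prop
      exact (h3.smul h1).add (h2.smul h4)
  have hGd' : ∀ s ∈ ball (0 : ℂ) r, HasFDerivAt G (G' s) s := by
    intro s hs
    by_cases hs0 : s = 0
    · rw [hs0]; exact hG0
    · exact hGd s hs hs0
  have hGC : ContDiffAt ℝ 1 G 0 :=
    contDiffAt_one_iff.2 ⟨G', ball 0 r, ball_mem_nhds _ hr, hG'c, hGd'⟩
  have hsub : Sim3_679.Sub G 0 := by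
    refine ⟨C, ?_⟩
    filter_upwards [ball_mem_nhds (0 : ℂ) hr] with s hs
    by_cases hs0 : s = 0
    · rw [hs0, db_def, hG0.fderiv]
      simp [hG', hG]
    · have e1 : db G s = s ^ 2 * db H s := by
        rw [db_def, db_def, (hGd s hs hs0).fderiv]
        simp only [_root_.add_apply, _root_.smul_apply, smul_eq_mul,
          ContinuousLinearMap.id_apply]
        linear_combination (H s * s) * Complex.I_sq
      rw [e1, norm_mul]
      have e2 : ‖G s‖ = ‖s ^ 2‖ * ‖H s‖ := by rw [hG]; exact norm_mul _ _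
      rw [e2]
      have := hdb s hs hs0
      nlinarith [norm_nonneg (s ^ 2)]
  rcases Sim3_679.lead hGC hsub with h1 | ⟨k, g, hg1, hg2, hg3⟩
  · exfalso
    obtain ⟨ε, hε, h1⟩ := Metric.eventually_nhds_iff_ball.1 h1
    set t : ℝ := min ε r / 2 with ht
    have ht0 : 0 < t := by have := lt_min hε hr; positivity
    have ht1 : t < ε := by have := min_le_left ε r; have := lt_min hε hr; linarith
    have ht2 : t < r := by have := min_le_right ε r; have := lt_min hε hr; linarith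
    have htn : ‖(t : ℂ)‖ = t := by rw [Complex.norm_real, Real.norm_of_nonneg ht0.le]
    have h2 := h1 (t : ℂ) (by rw [mem_ball, dist_zero_right, htn]; exact ht1)
    have h3 := h0 (t : ℂ) (by rw [mem_ball, dist_zero_right, htn]; exact ht2)
      (by exact_mod_cast ht0.ne')
    rw [hG] at h2
    exact (mul_ne_zero (pow_ne_zero 2 (by exact_mod_cast ht0.ne')) h3) h2
  · have hten : Tendsto (fun z => H z / (z - 0) ^ ((k : ℤ) - 2)) (𝓝[≠] 0) (𝓝 (g 0)) := by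
      have h2 : Tendsto g (𝓝[≠] 0) (𝓝 (g 0)) := hg1.tendsto.mono_left nhdsWithin_le_nhds
      refine h2.congr' ?_
      filter_upwards [nhdsWithin_le_nhds hg3, self_mem_nhdsWithin] with z hz1 hz2
      have hz0 : z ≠ 0 := hz2
      rw [sub_zero] at hz1 ⊢
      rw [hG] at hz1
      simp only [smul_eq_mul] at hz1
      rw [zpow_sub₀ hz0, zpow_natCast]
      have : (z : ℂ) ^ (2 : ℤ) = z ^ 2 := by norm_cast
      rw [this]
      have hk : z ^ k ≠ 0 := pow_ne_zero _ hz0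
      field_simp
      linear_combination -hz1
    refine ⟨(k : ℤ) - 2, ?_, fun r' h1 h2 => isW_of_tendsto hC1.continuousOn
      (fun z hz hz0 => h0 z hz hz0) hg2 hten h1 h2⟩
    by_contra hlt
    rw [not_le] at hlt
    have hk : k + 1 ≤ M + 2 := by omega
    apply hg2
    have h2 : Tendsto (fun z : ℂ => ‖g z‖) (𝓝[≠] 0) (𝓝 ‖g 0‖) :=
      (hg1.tendsto.mono_left nhdsWithin_le_nhds).norm
    have h3 : Tendsto (fun z : ℂ => C * ‖z‖ ^ (M + 2 - k)) (𝓝[≠] 0) (𝓝 0) := by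
      have : Continuous fun z : ℂ => C * ‖z‖ ^ (M + 2 - k) := by fun_prop
      have h4 := this.tendsto 0
      rw [norm_zero, zero_pow (by omega), mul_zero] at h4
      exact h4.mono_left nhdsWithin_le_nhds
    have h4 : ∀ᶠ z : ℂ in 𝓝[≠] 0, ‖g z‖ ≤ C * ‖z‖ ^ (M + 2 - k) := by
      filter_upwards [nhdsWithin_le_nhds hg3, self_mem_nhdsWithin,
        nhdsWithin_le_nhds (ball_mem_nhds (0 : ℂ) hr)] with z hz1 hz2 hz3
      have hz0 : z ≠ 0 := hz2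
      have h5 := hbd z hz3
      rw [hz1, sub_zero, norm_smul, norm_pow] at h5
      have h6 : ‖z‖ ^ (M + 2) = ‖z‖ ^ k * ‖z‖ ^ (M + 2 - k) := by
        rw [← pow_add]; congr 1; omega
      rw [h6] at h5
      have h7 : 0 < ‖z‖ ^ k := pow_pos (norm_pos_iff.2 hz0) _
      have h8 : ‖z‖ ^ k * ‖g z‖ ≤ ‖z‖ ^ k * (C * ‖z‖ ^ (M + 2 - k)) := by linarith
      exact le_of_mul_le_mul_left h8 h7
    have h5 := le_of_tendsto_of_tendsto h2 h3 h4
    exact norm_le_zero_iff.1 h5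

/-! ### real linear maps `v ↦ a v + b v̄` -/

theorem coef_unique {f : ℂ → ℂ} {s a b : ℂ}
    (h : ∀ v, fderiv ℝ f s v = a * v + b * (starRingEnd ℂ) v) : dlz f s = a ∧ db f s = b := by
  constructor
  · rw [dlz, h, h]
    simp only [map_one, conj_I]
    linear_combination (-(2 : ℂ)⁻¹ * a + (2 : ℂ)⁻¹ * b) * Complex.I_sq
  · rw [db_def, h, h]
    simp only [map_one, conj_I]
    linear_combination ((2 : ℂ)⁻¹ * a - (2 : ℂ)⁻¹ * b) * Complex.I_sq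

theorem norm_dlz_le (f : ℂ → ℂ) (s : ℂ) : ‖dlz f s‖ ≤ ‖fderiv ℝ f s‖ := by
  rw [dlz, norm_mul, norm_inv]
  have h1 : ‖fderiv ℝ f s 1‖ ≤ ‖fderiv ℝ f s‖ := by
    simpa using (fderiv ℝ f s).le_opNorm 1
  have h2 : ‖I * fderiv ℝ f s I‖ ≤ ‖fderiv ℝ f s‖ := by
    rw [norm_mul, norm_I, one_mul]
    simpa using (fderiv ℝ f s).le_opNorm I
  have h3 := norm_sub_le (fderiv ℝ f s 1) (I * fderiv ℝ f s I)
  have h4 : ‖(2 : ℂ)‖ = 2 := by simp
  rw [h4]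
  linarith

/-- the pair `(ζ, z)` is `J`-holomorphic at `s`: the forms `dζ + μ dζ̄`, `dz + β dζ̄` are of type
`(1,0)` -/
structure JC (μ β : ℂ × ℂ → ℂ) (ζ z : ℂ → ℂ) (s : ℂ) : Prop where
  eζ : db ζ s = -μ (ζ s, z s) * (starRingEnd ℂ) (dlz ζ s)
  ez : db z s = -β (ζ s, z s) * (starRingEnd ℂ) (dlz ζ s)

/-- `y` is a sheet over the (non holomorphic) parameter `ζ` -/
def GC (μ β : ℂ × ℂ → ℂ) (ζ y : ℂ → ℂ) (Λ : ℝ) (s : ℂ) : Prop :=
  ∃ l : ℂ, ‖l‖ ≤ Λ ∧ ∀ v, fderiv ℝ y s v =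
    l * (fderiv ℝ ζ s v + μ (ζ s, y s) * (starRingEnd ℂ) (fderiv ℝ ζ s v)) -
      β (ζ s, y s) * (starRingEnd ℂ) (fderiv ℝ ζ s v)

/-- **(P2)** another branch `(ζ', z')` read over `ζ` -/
theorem gc_of_curve {μ β : ℂ × ℂ → ℂ} {ζ ζ' z' σ y : ℂ → ℂ} {s : ℂ} {κ B K : ℝ}
    (hκ : κ < 1) (hJ : JC μ β ζ' z' (σ s)) (hp : dlz ζ' (σ s) ≠ 0)
    (hq : ‖dlz z' (σ s)‖ ≤ K * ‖dlz ζ' (σ s)‖)
    (hμ : ‖μ (ζ' (σ s), z' (σ s))‖ ≤ κ) (hβ : ‖β (ζ' (σ s), z' (σ s))‖ ≤ B)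
    (hσ : DifferentiableAt ℝ σ s) (hζ' : DifferentiableAt ℝ ζ' (σ s))
    (hz' : DifferentiableAt ℝ z' (σ s)) (h1 : ∀ᶠ t in 𝓝 s, ζ' (σ t) = ζ t)
    (h2 : ∀ᶠ t in 𝓝 s, y t = z' (σ t)) : GC μ β ζ y ((K + B * κ) / (1 - κ ^ 2)) s := by
  set p := dlz ζ' (σ s) with hpdef
  set q := dlz z' (σ s) with hqdef
  have e1 : ζ' (σ s) = ζ s := h1.self_of_nhds
  have e2 : y s = z' (σ s) := h2.self_of_nhds
  have hκ0 : 0 ≤ κ := (norm_nonneg _).trans hμ
  have hB0 : 0 ≤ B := (norm_nonneg _).trans hβ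
  set m : ℂ := μ (ζ s, y s) with hm
  set b : ℂ := β (ζ s, y s) with hb
  have em : μ (ζ' (σ s), z' (σ s)) = m := by rw [hm, ← e1, e2]
  have eb : β (ζ' (σ s), z' (σ s)) = b := by rw [hb, ← e1, e2]
  rw [em] at hμ
  rw [eb] at hβ
  have eζ := hJ.eζ
  have ez := hJ.ez
  rw [em] at eζ
  rw [eb] at ez
  have hd1 : ∀ v, fderiv ℝ ζ s v = fderiv ℝ ζ' (σ s) (fderiv ℝ σ s v) := by
    intro v
    have h3 : HasFDerivAt ζ ((fderiv ℝ ζ' (σ s)).comp (fderiv ℝ σ s)) s :=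
      (hζ'.hasFDerivAt.comp s hσ.hasFDerivAt).congr_of_eventuallyEq
        (by filter_upwards [h1] with t ht using ht.symm)
    rw [h3.fderiv]; rfl
  have hd2 : ∀ v, fderiv ℝ y s v = fderiv ℝ z' (σ s) (fderiv ℝ σ s v) := by
    intro v
    have h3 : HasFDerivAt y ((fderiv ℝ z' (σ s)).comp (fderiv ℝ σ s)) s :=
      (hz'.hasFDerivAt.comp s hσ.hasFDerivAt).congr_of_eventuallyEq
        (by filter_upwards [h2] with t ht using ht)
    rw [h3.fderiv]; rfl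
  -- `1 - |μ|²`
  have hmm : m * (starRingEnd ℂ) m = ((‖m‖ ^ 2 : ℝ) : ℂ) := by
    rw [Complex.mul_conj, Complex.normSq_eq_norm_sq]
  have hk2 : 0 < 1 - κ ^ 2 := by nlinarith
  have hm2 : 1 - κ ^ 2 ≤ 1 - ‖m‖ ^ 2 := by
    have : ‖m‖ ^ 2 ≤ κ ^ 2 := by gcongr
    linarith
  have hne : ((1 - ‖m‖ ^ 2 : ℝ) : ℂ) ≠ 0 := by
    exact_mod_cast (hk2.trans_le hm2).ne'
  refine ⟨(q - b * (starRingEnd ℂ) m * p) / (((1 - ‖m‖ ^ 2 : ℝ) : ℂ) * p), ?_, fun v => ?_⟩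
  · rw [norm_div, norm_mul, Complex.norm_real, Real.norm_of_nonneg (hk2.trans_le hm2).le]
    have hp0 : 0 < ‖p‖ := norm_pos_iff.2 hp
    rw [div_le_div_iff₀ (mul_pos (hk2.trans_le hm2) hp0) hk2]
    have h3 : ‖q - b * (starRingEnd ℂ) m * p‖ ≤ (K + B * κ) * ‖p‖ := by
      refine (norm_sub_le _ _).trans ?_
      rw [norm_mul, norm_mul, RCLike.norm_conj]
      have : ‖b‖ * ‖m‖ ≤ B * κ := by gcongr
      nlinarith
    have h4 : 0 ≤ (K + B * κ) * ‖p‖ := (norm_nonneg _).trans h3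
    calc ‖q - b * (starRingEnd ℂ) m * p‖ * (1 - κ ^ 2)
        ≤ ((K + B * κ) * ‖p‖) * (1 - κ ^ 2) := by gcongr
      _ ≤ ((K + B * κ) * ‖p‖) * (1 - ‖m‖ ^ 2) := by gcongr
      _ = (K + B * κ) * ((1 - ‖m‖ ^ 2) * ‖p‖) := by ring
  · rw [hd1, hd2]
    set w := fderiv ℝ σ s v with hw
    have f1 := fderiv_eq ζ' (σ s) w
    have f2 := fderiv_eq z' (σ s) w
    rw [eζ, ← hpdef] at f1
    rw [ez, ← hqdef, ← hpdef] at f2
    have f3 : fderiv ℝ ζ' (σ s) w + m * (starRingEnd ℂ) (fderiv ℝ ζ' (σ s) w) =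
        ((1 - ‖m‖ ^ 2 : ℝ) : ℂ) * p * w := by
      rw [f1]
      simp only [map_add, map_mul, map_neg, Complex.conj_conj]
      push_cast
      have hmm' : m * (starRingEnd ℂ) m = (‖m‖ : ℂ) ^ 2 := by rw [hmm]; push_cast; ring
      linear_combination (-p * w) * hmm'
    rw [f3, f2]
    have f4 : (starRingEnd ℂ) (fderiv ℝ ζ' (σ s) w) = (starRingEnd ℂ) p * (starRingEnd ℂ) w -
        (starRingEnd ℂ) m * p * w := by
      rw [f1]
      simp only [map_add, map_mul, map_neg, Complex.conj_conj]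
      ring
    rw [f4]
    field_simp
    ring

/-- **(P3)** the difference of two sheets -/
theorem diff_bound {μ β : ℂ × ℂ → ℂ} {ζ z y : ℂ → ℂ} {s : ℂ} {Λ L κ B C : ℝ}
    (hJ : JC μ β ζ z s) (hg : GC μ β ζ y Λ s) (hz : DifferentiableAt ℝ z s)
    (hy : DifferentiableAt ℝ y s) (hκ : ‖μ (ζ s, y s)‖ ≤ κ)
    (hB : ‖β (ζ s, y s)‖ ≤ B)
    (hμ : ‖μ (ζ s, z s) - μ (ζ s, y s)‖ ≤ L * ‖z s - y s‖)
    (hβ : ‖β (ζ s, z s) - β (ζ s, y s)‖ ≤ L * ‖z s - y s‖) (hC : ‖fderiv ℝ ζ s‖ ≤ C)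
    (hC' : ‖fderiv ℝ z s‖ ≤ C) :
    ‖db (fun t => z t - y t) s‖ ≤ C * (L + Λ * L) * ‖z s - y s‖ ∧
    ‖fderiv ℝ (fun t => z t - y t) s‖ ≤ C + (Λ * (C + κ * C) + B * C) := by
  obtain ⟨l, hl, hg⟩ := hg
  have hΛ : 0 ≤ Λ := (norm_nonneg _).trans hl
  have hC0 : 0 ≤ C := (norm_nonneg _).trans hC
  have hκ0 : 0 ≤ κ := (norm_nonneg _).trans hκ
  have hB0 : 0 ≤ B := (norm_nonneg _).trans hB
  set p := dlz ζ s with hp
  have hpC : ‖p‖ ≤ C := (norm_dlz_le _ _).trans hC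
  have e1 := hJ.eζ
  have e2 := hJ.ez
  have f1 := fderiv_eq ζ s
  rw [e1] at f1
  have hdb : db (fun t => z t - y t) s = (starRingEnd ℂ) p *
      (-(β (ζ s, z s) - β (ζ s, y s)) + l * (μ (ζ s, z s) - μ (ζ s, y s))) := by
    refine (coef_unique (a := dlz z s - (l * (p - μ (ζ s, y s) *
      (starRingEnd ℂ) (μ (ζ s, z s)) * p) + β (ζ s, y s) *
      (starRingEnd ℂ) (μ (ζ s, z s)) * p)) fun v => ?_).2
    rw [fderiv_fun_sub hz hy, _root_.sub_apply, hg, f1, fderiv_eq z s v, e2, ← hp]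
    simp only [map_add, map_mul, map_neg, Complex.conj_conj]
    ring
  constructor
  · rw [hdb, norm_mul, RCLike.norm_conj]
    have h1 : ‖-(β (ζ s, z s) - β (ζ s, y s)) + l * (μ (ζ s, z s) - μ (ζ s, y s))‖ ≤
        (L + Λ * L) * ‖z s - y s‖ := by
      refine (norm_add_le _ _).trans ?_
      rw [norm_neg, norm_mul]
      have : ‖l‖ * ‖μ (ζ s, z s) - μ (ζ s, y s)‖ ≤ Λ * (L * ‖z s - y s‖) := by gcongr
      linarith
    calc ‖p‖ * ‖-(β (ζ s, z s) - β (ζ s, y s)) + l * (μ (ζ s, z s) - μ (ζ s, y s))‖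
        ≤ C * ((L + Λ * L) * ‖z s - y s‖) := by gcongr
      _ = _ := by ring
  · have h3 : ‖fderiv ℝ y s‖ ≤ Λ * (C + κ * C) + B * C := by
      refine ContinuousLinearMap.opNorm_le_bound _ (by positivity) fun v => ?_
      rw [hg]
      have h4 : ‖fderiv ℝ ζ s v‖ ≤ C * ‖v‖ := (fderiv ℝ ζ s).le_of_opNorm_le hC v
      refine (norm_sub_le _ _).trans ?_
      rw [norm_mul, norm_mul, RCLike.norm_conj]
      have h5 : ‖fderiv ℝ ζ s v + μ (ζ s, y s) * (starRingEnd ℂ) (fderiv ℝ ζ s v)‖ ≤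
          C * ‖v‖ + κ * (C * ‖v‖) := by
        refine (norm_add_le _ _).trans ?_
        rw [norm_mul, RCLike.norm_conj]
        gcongr
      have h6 : ‖l‖ * ‖fderiv ℝ ζ s v + μ (ζ s, y s) * (starRingEnd ℂ) (fderiv ℝ ζ s v)‖ ≤
          Λ * (C * ‖v‖ + κ * (C * ‖v‖)) := by gcongr
      have h7 : ‖β (ζ s, y s)‖ * ‖fderiv ℝ ζ s v‖ ≤ B * (C * ‖v‖) := by gcongr
      linarith
    rw [fderiv_fun_sub hz hy]
    exact (norm_sub_le _ _).trans (add_le_add hC' h3)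

/-! ### products -/

theorem db_mul {f g : ℂ → ℂ} {s : ℂ} (hf : DifferentiableAt ℝ f s)
    (hg : DifferentiableAt ℝ g s) : db (fun t => f t * g t) s = f s * db g s + g s * db f s := by
  rw [db_def, db_def, db_def, fderiv_fun_mul hf hg]
  simp only [_root_.add_apply, _root_.smul_apply, smul_eq_mul]
  ring

theorem prod_bounds {ι : Type*} (F : ι → ℂ → ℂ) (s : ℂ) {c A : ℝ} (hA : 1 ≤ A)
    (hd : ∀ i, ContDiffAt ℝ 1 (F i) s) (h1 : ∀ i, ‖db (F i) s‖ ≤ c * ‖F i s‖)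
    (h2 : ∀ i, ‖F i s‖ ≤ A) (h3 : ∀ i, ‖fderiv ℝ (F i) s‖ ≤ A) (S : Finset ι) :
    ContDiffAt ℝ 1 (fun t => ∏ i ∈ S, F i t) s ∧
    ‖db (fun t => ∏ i ∈ S, F i t) s‖ ≤ S.card * c * ‖∏ i ∈ S, F i s‖ ∧
    ‖∏ i ∈ S, F i s‖ ≤ A ^ S.card ∧
    ‖fderiv ℝ (fun t => ∏ i ∈ S, F i t) s‖ ≤ S.card * A ^ S.card := by
  classical
  have hA0 : 0 ≤ A := zero_le_one.trans hA
  induction S using Finset.induction_on with
  | empty =>
    refine ⟨by simpa using contDiffAt_const, ?_, by simp, by simp⟩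
    have : db (fun _ : ℂ => (1 : ℂ)) s = 0 := by rw [db_def]; simp
    simp [this]
  | insert a S ha ih =>
    obtain ⟨i1, i2, i3, i4⟩ := ih
    simp only [Finset.prod_insert ha, Finset.card_insert_of_notMem ha]
    have hda := (hd a).differentiableAt one_ne_zero
    have hdS := i1.differentiableAt one_ne_zero
    refine ⟨(hd a).mul i1, ?_, ?_, ?_⟩
    · rw [db_mul hda hdS]
      refine (norm_add_le _ _).trans ?_
      rw [norm_mul, norm_mul, norm_mul]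
      have e1 : ‖F a s‖ * ‖db (fun t => ∏ i ∈ S, F i t) s‖ ≤
          ‖F a s‖ * (S.card * c * ‖∏ i ∈ S, F i s‖) := by gcongr
      have e2 : ‖∏ i ∈ S, F i s‖ * ‖db (F a) s‖ ≤ ‖∏ i ∈ S, F i s‖ * (c * ‖F a s‖) := by
        gcongr; exact h1 a
      push_cast
      linarith
    · rw [norm_mul, pow_succ']
      gcongr
      exact h2 a
    · rw [fderiv_fun_mul hda hdS]
      refine (norm_add_le _ _).trans ?_
      rw [norm_smul, norm_smul]
      have e1 : ‖F a s‖ * ‖fderiv ℝ (fun t => ∏ i ∈ S, F i t) s‖ ≤ A * (S.card * A ^ S.card) := by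
        gcongr; exact h2 a
      have e2 : ‖∏ i ∈ S, F i s‖ * ‖fderiv ℝ (F a) s‖ ≤ A ^ S.card * A := by
        gcongr; exact h3 a
      have e3 : A ^ (S.card + 1) = A ^ S.card * A := pow_succ _ _
      push_cast
      rw [e3]
      linarith

theorem db_congr {f g : ℂ → ℂ} {s : ℂ} (h : f =ᶠ[𝓝 s] g) : db f s = db g s := by
  rw [db_def, db_def, h.fderiv_eq]

/-- **(P4)** the winding number of the product of the differences is at least `m k'` -/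
theorem hwind {μ β : ℂ × ℂ → ℂ} {ζ z H : ℂ → ℂ} {r κ L B Λ C : ℝ} {m k' : ℕ} (hr : 0 < r)
    (hz1 : ContDiffOn ℝ 1 z (ball 0 r))
    (hJ : ∀ s ∈ ball (0 : ℂ) r, s ≠ 0 → JC μ β ζ z s) (hL : 0 ≤ L)
    (hζC : ∀ s ∈ ball (0 : ℂ) r, ‖fderiv ℝ ζ s‖ ≤ C) (hzC : ∀ s ∈ ball (0 : ℂ) r, ‖fderiv ℝ z s‖ ≤ C)
    (hzm : ∀ s ∈ ball (0 : ℂ) r, ‖z s‖ ≤ C * ‖s‖ ^ m)
    (hκ : ∀ s ∈ ball (0 : ℂ) r, ∀ w, ‖w‖ ≤ C * ‖s‖ ^ m → ‖μ (ζ s, w)‖ ≤ κ)
    (hB : ∀ s ∈ ball (0 : ℂ) r, ∀ w, ‖w‖ ≤ C * ‖s‖ ^ m → ‖β (ζ s, w)‖ ≤ B)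
    (hμ : ∀ s ∈ ball (0 : ℂ) r, ∀ w, ‖w‖ ≤ C * ‖s‖ ^ m →
      ‖μ (ζ s, z s) - μ (ζ s, w)‖ ≤ L * ‖z s - w‖)
    (hβ : ∀ s ∈ ball (0 : ℂ) r, ∀ w, ‖w‖ ≤ C * ‖s‖ ^ m →
      ‖β (ζ s, z s) - β (ζ s, w)‖ ≤ L * ‖z s - w‖)
    (hH0 : ∀ s ∈ ball (0 : ℂ) r, s ≠ 0 → H s ≠ 0)
    (hloc : ∀ s ∈ ball (0 : ℂ) r, s ≠ 0 → ∃ y : Fin k' → ℂ → ℂ,
      (∀ i, ContDiffAt ℝ 1 (y i) s ∧ GC μ β ζ (y i) Λ s ∧ ‖y i s‖ ≤ C * ‖s‖ ^ m) ∧
      H =ᶠ[𝓝 s] fun t => ∏ i, (z t - y i t)) :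
    ∃ n : ℤ, ((m * k' : ℕ) : ℤ) ≤ n ∧ ∀ r', 0 < r' → r' < r → IsW H 0 r' n := by
  have hU : IsOpen (ball (0 : ℂ) r \ {0}) := isOpen_ball.sdiff isClosed_singleton
  -- constants
  have hC0 : 0 ≤ C := (norm_nonneg _).trans (hζC 0 (mem_ball_self hr))
  set c : ℝ := C * (L + max Λ 0 * L) with hc
  have hc0 : 0 ≤ c := by positivity
  set A : ℝ := max 1 (max (2 * C * r ^ m)
    (C + (max Λ 0 * (C + max κ 0 * C) + max B 0 * C))) with hA
  have hA1 : 1 ≤ A := le_max_left _ _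
  set D : ℝ := max (k' * c) (max (k' * A ^ k') ((2 * C) ^ k')) with hD
  have key : ∀ s ∈ ball (0 : ℂ) r, s ≠ 0 → ContDiffAt ℝ 1 H s ∧ ‖db H s‖ ≤ D * ‖H s‖ ∧
      ‖H s‖ ≤ D * ‖s‖ ^ (m * k') ∧ ‖fderiv ℝ H s‖ ≤ D := by
    intro s hs hs0
    obtain ⟨y, hy, hHy⟩ := hloc s hs hs0
    have hsn := isOpen_ball.mem_nhds hs
    have hzs : ContDiffAt ℝ 1 z s := hz1.contDiffAt hsn
    have hfac : ∀ i, ContDiffAt ℝ 1 (fun t => z t - y i t) s := fun i => hzs.sub (hy i).1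
    have hsr : ‖s‖ ≤ r := by rw [mem_ball, dist_zero_right] at hs; exact hs.le
    have hdiff : ∀ i, ‖z s - y i s‖ ≤ 2 * C * ‖s‖ ^ m := fun i => by
      refine (norm_sub_le _ _).trans ?_
      have := hzm s hs
      have := (hy i).2.2
      linarith
    have hb : ∀ i, ‖db (fun t => z t - y i t) s‖ ≤ c * ‖z s - y i s‖ ∧
        ‖fderiv ℝ (fun t => z t - y i t) s‖ ≤ A := by
      intro i
      obtain ⟨h1, ⟨l, hl, hl2⟩, h3⟩ := hy i
      have h4 := diff_bound (Λ := max Λ 0) (κ := max κ 0) (B := max B 0) (hJ s hs hs0)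
        ⟨l, hl.trans (le_max_left _ _), hl2⟩ (hzs.differentiableAt one_ne_zero)
        (h1.differentiableAt one_ne_zero) ((hκ s hs _ h3).trans (le_max_left _ _))
        ((hB s hs _ h3).trans (le_max_left _ _)) (hμ s hs _ h3) (hβ s hs _ h3)
        (hζC s hs) (hzC s hs)
      exact ⟨h4.1, h4.2.trans ((le_max_right _ _).trans (le_max_right _ _))⟩
    have hAi : ∀ i, ‖z s - y i s‖ ≤ A := fun i => by
      refine (hdiff i).trans ?_
      refine le_trans ?_ ((le_max_left _ _).trans (le_max_right _ _))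
      gcongr
    obtain ⟨p1, p2, p3, p4⟩ := prod_bounds (fun i t => z t - y i t) s hA1 hfac
      (fun i => (hb i).1) hAi (fun i => (hb i).2) Finset.univ
    rw [Finset.card_univ, Fintype.card_fin] at p2 p4
    have hHs : H s = ∏ i, (z s - y i s) := hHy.self_of_nhds
    refine ⟨p1.congr_of_eventuallyEq hHy, ?_, ?_, ?_⟩
    · rw [db_congr hHy, hHs]
      refine p2.trans ?_
      gcongr
      exact le_max_left _ _
    · rw [hHs, norm_prod]
      calc ∏ i, ‖z s - y i s‖ ≤ ∏ _i : Fin k', (2 * C * ‖s‖ ^ m) :=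
            Finset.prod_le_prod (fun i _ => norm_nonneg _) fun i _ => hdiff i
        _ = (2 * C) ^ k' * ‖s‖ ^ (m * k') := by
            rw [Finset.prod_const, Finset.card_univ, Fintype.card_fin, mul_pow, ← pow_mul]
        _ ≤ D * ‖s‖ ^ (m * k') := by
            gcongr
            exact (le_max_right _ _).trans (le_max_right _ _)
    · rw [hHy.fderiv_eq]
      exact p4.trans ((le_max_left _ _).trans (le_max_right _ _))
  exact isW_ge (C := D) hr (fun s hs => (key s hs.1 hs.2).1.contDiffWithinAt) hH0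
    (fun s hs hs0 => (key s hs hs0).2.1) (fun s hs hs0 => (key s hs hs0).2.2.1)
    (fun s hs hs0 => (key s hs hs0).2.2.2)

/-- **(P5)** the winding number of the section -/
theorem gwind {ζ g G : ℂ → ℂ} {a : ℂ} {r C : ℝ} {m : ℕ} (hm : m ≠ 0) (ha : a ≠ 0) (hr : 0 < r)
    (hG : ContinuousAt G 0) (hG0 : G 0 ≠ 0) (hg : ContinuousOn g (ball 0 r \ {0}))
    (hg0 : ∀ s ∈ ball (0 : ℂ) r, s ≠ 0 → g s ≠ 0)
    (hgG : ∀ s ∈ ball (0 : ℂ) r, s ≠ 0 → g s = G s * dlz ζ s)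
    (hζ : ∀ s ∈ ball (0 : ℂ) r, ‖dlz ζ s - m * a * s ^ (m - 1)‖ ≤ C * ‖s‖ ^ m) :
    ∀ r', 0 < r' → r' < r → IsW g 0 r' (m - 1 : ℕ) := by
  intro r' h1 h2
  have hc : G 0 * (m * a) ≠ 0 :=
    mul_ne_zero hG0 (mul_ne_zero (by exact_mod_cast hm) ha)
  refine isW_of_tendsto hg hg0 hc ?_ h1 h2
  have e1 : Tendsto (fun s : ℂ => dlz ζ s / s ^ (m - 1)) (𝓝[≠] 0) (𝓝 (m * a)) := by
    rw [tendsto_iff_norm_sub_tendsto_zero]
    have h3 : Tendsto (fun s : ℂ => C * ‖s‖) (𝓝[≠] 0) (𝓝 0) := by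
      have : Continuous fun s : ℂ => C * ‖s‖ := by fun_prop
      have h4 := this.tendsto 0
      rw [norm_zero, mul_zero] at h4
      exact h4.mono_left nhdsWithin_le_nhds
    refine squeeze_zero' (Eventually.of_forall fun _ => norm_nonneg _) ?_ h3
    filter_upwards [nhdsWithin_le_nhds (ball_mem_nhds (0 : ℂ) hr), self_mem_nhdsWithin]
      with s hs hs0
    have hs0' : s ≠ 0 := hs0
    have hpow : s ^ (m - 1) ≠ 0 := pow_ne_zero _ hs0'
    have h5 : dlz ζ s / s ^ (m - 1) - m * a = (dlz ζ s - m * a * s ^ (m - 1)) / s ^ (m - 1) := by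
      field_simp
    rw [h5, norm_div, norm_pow, div_le_iff₀ (pow_pos (norm_pos_iff.2 hs0') _)]
    refine (hζ s hs).trans (le_of_eq ?_)
    obtain ⟨j, rfl⟩ := Nat.exists_eq_succ_of_ne_zero hm
    simp only [Nat.succ_eq_add_one, Nat.add_sub_cancel, pow_succ]
    ring
  have e2 : Tendsto (fun s : ℂ => G s * (dlz ζ s / s ^ (m - 1))) (𝓝[≠] 0) (𝓝 (G 0 * (m * a))) :=
    (hG.tendsto.mono_left nhdsWithin_le_nhds).mul e1
  refine e2.congr' ?_
  filter_upwards [nhdsWithin_le_nhds (ball_mem_nhds (0 : ℂ) hr), self_mem_nhdsWithin] with s hs hs0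
  rw [hgG s hs hs0, sub_zero, zpow_natCast, mul_div_assoc]

/-- from the derivative form of L1 -/
theorem dlz_of_fderiv {ζ : ℂ → ℂ} {s c : ℂ} {ε : ℝ}
    (h : ∀ v, ‖fderiv ℝ ζ s v - c * v‖ ≤ ε * ‖v‖) : ‖dlz ζ s - c‖ ≤ ε := by
  have e1 := h 1
  have e2 := h I
  rw [mul_one, norm_one, mul_one] at e1
  rw [norm_I, mul_one] at e2
  have e3 : dlz ζ s - c = (2 : ℂ)⁻¹ * ((fderiv ℝ ζ s 1 - c) - I * (fderiv ℝ ζ s I - c * I)) := by
    rw [dlz]
    linear_combination (-(2 : ℂ)⁻¹ * c) * Complex.I_sq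
  rw [e3, norm_mul, norm_inv]
  have e4 : ‖(2 : ℂ)‖ = 2 := by simp
  have e5 : ‖I * (fderiv ℝ ζ s I - c * I)‖ ≤ ε := by rw [norm_mul, norm_I, one_mul]; exact e2
  have e6 := norm_sub_le (fderiv ℝ ζ s 1 - c) (I * (fderiv ℝ ζ s I - c * I))
  rw [e4]
  linarith

/-- the section `-G (ζ_s + μ conj(ζ_s̄))` in terms of `∂ζ` -/
theorem sec_eq {μ β : ℂ × ℂ → ℂ} {ζ z : ℂ → ℂ} {s : ℂ} (hJ : JC μ β ζ z s) :
    dlz ζ s + μ (ζ s, z s) * (starRingEnd ℂ) (db ζ s) =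
      ((1 - ‖μ (ζ s, z s)‖ ^ 2 : ℝ) : ℂ) * dlz ζ s := by
  rw [hJ.eζ]
  simp only [map_mul, map_neg, Complex.conj_conj]
  have hmm : μ (ζ s, z s) * (starRingEnd ℂ) (μ (ζ s, z s)) = (‖μ (ζ s, z s)‖ : ℂ) ^ 2 := by
    rw [Complex.mul_conj, Complex.normSq_eq_norm_sq]; push_cast; ring
  push_cast
  linear_combination (-dlz ζ s) * hmm

end

end Crest.Agent.R235.AdjPos_688
end

-- ▼ part R235/AdjMu_688
section

/-!
# Row 235 (S0364), package ADJ (helper43), leaf L4, second part (helper688)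

An almost complex structure on a ball of `ℂ × ℂ` with holomorphically parametrised vertical discs:
the forms `dζ + μ dζ̄`, `dz + β dζ̄`.
-/

set_option autoImplicit false

open Complex Set Filter Topology Metric MeasureTheory
open scoped Real ContDiff

namespace Crest.Agent.R235.AdjMu_688

open Crest.Agent.R235.Wind_688 Crest.Agent.R235.CauchyV_679 Crest.Agent.R235.AdjPos_688
open Crest.Agent.R235.NWDefs_334

noncomputable section

local notation "cj" => starRingEnd ℂ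

/-- `a ↦ (T (a, 0)).1`, coefficients -/
def p1 (T : ℂ × ℂ →L[ℝ] ℂ × ℂ) : ℂ := (2 : ℂ)⁻¹ * ((T (1, 0)).1 - I * (T (I, 0)).1)
def p2 (T : ℂ × ℂ →L[ℝ] ℂ × ℂ) : ℂ := (2 : ℂ)⁻¹ * ((T (1, 0)).1 + I * (T (I, 0)).1)
def q1 (T : ℂ × ℂ →L[ℝ] ℂ × ℂ) : ℂ := (2 : ℂ)⁻¹ * ((T (1, 0)).2 - I * (T (I, 0)).2)
def q2 (T : ℂ × ℂ →L[ℝ] ℂ × ℂ) : ℂ := (2 : ℂ)⁻¹ * ((T (1, 0)).2 + I * (T (I, 0)).2)

/-- the Beltrami coefficients -/
def mu (T : ℂ × ℂ →L[ℝ] ℂ × ℂ) : ℂ := p2 T / (I - cj (p1 T))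
def be (T : ℂ × ℂ →L[ℝ] ℂ × ℂ) : ℂ := q2 T / (I - cj (p1 T))

theorem clm_expand (A : ℂ →L[ℝ] ℂ) (a : ℂ) :
    A a = (2 : ℂ)⁻¹ * (A 1 - I * A I) * a + (2 : ℂ)⁻¹ * (A 1 + I * A I) * cj a := by
  have h1 : a = a.re • (1 : ℂ) + a.im • I := by apply Complex.ext <;> simp
  have h2 : A a = a.re * A 1 + a.im * A I := by
    conv_lhs => rw [h1]
    rw [map_add, map_smul, map_smul, Complex.real_smul, Complex.real_smul]
  have h3 : a = (a.re : ℂ) + a.im * I := (Complex.re_add_im a).symm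
  have h4 : cj a = (a.re : ℂ) - a.im * I := by
    apply Complex.ext <;> simp
  rw [h2, h4]
  conv_rhs => rw [h3]
  have h5 : ((a.re : ℂ) + a.im * I).re = a.re := by simp
  have h6 : ((a.re : ℂ) + a.im * I).im = a.im := by simp
  rw [h5, h6]
  linear_combination ((a.im : ℂ) * A I) * Complex.I_sq

/-- vertical lines are `i`-invariant and `T² = -1` -/
structure VJ (T : ℂ × ℂ →L[ℝ] ℂ × ℂ) : Prop where
  leaf : ∀ a : ℂ, T (0, a) = (0, I * a)
  sq : ∀ v, T (T v) = -v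
  ne : I - cj (p1 T) ≠ 0

section lin

variable {T : ℂ × ℂ →L[ℝ] ℂ × ℂ}

theorem T_fst (h : ∀ a : ℂ, T (0, a) = (0, I * a)) (a b : ℂ) :
    (T (a, b)).1 = p1 T * a + p2 T * cj a := by
  have e1 : (T (a, b)).1 = (T (a, 0)).1 + (T (0, b)).1 := by
    have : ((a, b) : ℂ × ℂ) = (a, 0) + (0, b) := by simp
    rw [this, map_add]; rfl
  rw [e1, h b, add_zero]
  exact clm_expand ((ContinuousLinearMap.fst ℝ ℂ ℂ).comp
    (T.comp (ContinuousLinearMap.inl ℝ ℂ ℂ))) a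

theorem T_snd (h : ∀ a : ℂ, T (0, a) = (0, I * a)) (a b : ℂ) :
    (T (a, b)).2 = I * b + (q1 T * a + q2 T * cj a) := by
  have e1 : (T (a, b)).2 = (T (a, 0)).2 + (T (0, b)).2 := by
    have : ((a, b) : ℂ × ℂ) = (a, 0) + (0, b) := by simp
    rw [this, map_add]; rfl
  rw [e1, h b, add_comm]
  congr 1
  exact clm_expand ((ContinuousLinearMap.snd ℝ ℂ ℂ).comp
    (T.comp (ContinuousLinearMap.inl ℝ ℂ ℂ))) a

/-- coefficients of `v ↦ a v + b v̄ = 0` -/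
theorem coef_zero {a b : ℂ} (h : ∀ v : ℂ, a * v + b * cj v = 0) : a = 0 ∧ b = 0 := by
  have h1 := h 1
  have h2 := h I
  simp only [map_one, conj_I, mul_one] at h1 h2
  have h3 : I * (a * I + b * -I) = 0 := by rw [h2, mul_zero]
  have h4 : -a + b = 0 := by linear_combination h3 - (a - b) * Complex.I_sq
  constructor
  · linear_combination (2 : ℂ)⁻¹ * h1 - (2 : ℂ)⁻¹ * h4
  · linear_combination (2 : ℂ)⁻¹ * h1 + (2 : ℂ)⁻¹ * h4

theorem rel_p (hT : VJ T) : p1 T ^ 2 + p2 T * cj (p2 T) = -1 ∧ p2 T * (p1 T + cj (p1 T)) = 0 := by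
  have h : ∀ v : ℂ, (p1 T ^ 2 + p2 T * cj (p2 T) + 1) * v +
      (p2 T * (p1 T + cj (p1 T))) * cj v = 0 := by
    intro v
    have e1 := congrArg Prod.fst (hT.sq (v, 0))
    have e2 : T (v, 0) = ((T (v, 0)).1, (T (v, 0)).2) := rfl
    rw [e2, T_fst hT.leaf, T_fst hT.leaf] at e1
    simp only [Prod.fst_neg, map_add, map_mul, Complex.conj_conj] at e1
    linear_combination e1
  obtain ⟨h1, h2⟩ := coef_zero h
  exact ⟨by linear_combination h1, h2⟩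

theorem rel_q (hT : VJ T) : q1 T * (p1 T + I) + q2 T * cj (p2 T) = 0 ∧
    q1 T * p2 T + q2 T * (cj (p1 T) + I) = 0 := by
  have h : ∀ v : ℂ, (q1 T * (p1 T + I) + q2 T * cj (p2 T)) * v +
      (q1 T * p2 T + q2 T * (cj (p1 T) + I)) * cj v = 0 := by
    intro v
    have e1 := congrArg Prod.snd (hT.sq (v, 0))
    have e2 : T (v, 0) = ((T (v, 0)).1, (T (v, 0)).2) := rfl
    rw [e2, T_snd hT.leaf, T_fst hT.leaf, T_snd hT.leaf] at e1
    simp only [Prod.snd_neg, map_add, map_mul, Complex.conj_conj] at e1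
    linear_combination e1
  exact coef_zero h

/-- `p1` is imaginary -/
theorem p1_conj (hT : VJ T) : cj (p1 T) = -p1 T := by
  obtain ⟨h1, h2⟩ := rel_p hT
  rcases mul_eq_zero.1 h2 with h3 | h3
  · rw [h3, zero_mul, add_zero] at h1
    have h4 : (p1 T - I) * (p1 T + I) = 0 := by linear_combination h1 - Complex.I_sq
    rcases mul_eq_zero.1 h4 with h5 | h5
    · have : p1 T = I := by linear_combination h5
      rw [this, conj_I]
    · have : p1 T = -I := by linear_combination h5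
      rw [this, map_neg, conj_I]
  · linear_combination h3

/-- the form `dζ + μ dζ̄` is of type `(1,0)` -/
theorem th1 (hT : VJ T) (v : ℂ × ℂ) :
    (T v).1 + mu T * cj (T v).1 = I * (v.1 + mu T * cj v.1) := by
  obtain ⟨h1, h2⟩ := rel_p hT
  have h3 := p1_conj hT
  have h4 := hT.ne
  obtain ⟨a, b⟩ := v
  rw [T_fst hT.leaf]
  simp only [map_add, map_mul, Complex.conj_conj]
  rw [mu]
  rw [h3] at h4 ⊢
  have h5 : I - -p1 T ≠ 0 := h4
  field_simp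
  have h6 : p2 T * cj (p2 T) = -1 - p1 T ^ 2 := by linear_combination h1
  linear_combination (a : ℂ) * h6 - a * Complex.I_sq

theorem th2 (hT : VJ T) (v : ℂ × ℂ) :
    (T v).2 + be T * cj (T v).1 = I * (v.2 + be T * cj v.1) := by
  obtain ⟨h1, h2⟩ := rel_q hT
  have h3 := p1_conj hT
  have h4 := hT.ne
  obtain ⟨a, b⟩ := v
  rw [T_snd hT.leaf, T_fst hT.leaf]
  simp only [map_add, map_mul, Complex.conj_conj]
  rw [be]
  rw [h3] at h4 ⊢
  have h5 : I - -p1 T ≠ 0 := h4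
  field_simp
  linear_combination (a : ℂ) * h1

/-- complex linear forms killing the vertical direction -/
theorem form_eq (hT : VJ T) (A : ℂ × ℂ →L[ℝ] ℂ) (hA : ∀ v, A (T v) = I * A v)
    (h0 : A (0, 1) = 0) (v : ℂ × ℂ) :
    A v = (2 : ℂ)⁻¹ * (A (1, 0) - I * A (I, 0)) * (v.1 + mu T * cj v.1) := by
  have hI : A (0, I) = 0 := by
    have h1 := hA (0, 1)
    rw [hT.leaf, mul_one, h0, mul_zero] at h1
    exact h1
  have hv : ∀ a b : ℂ, A (a, b) = A (a, 0) := by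
    intro a b
    have e1 : ((a, b) : ℂ × ℂ) = (a, 0) + b.re • ((0 : ℂ), (1 : ℂ)) + b.im • ((0 : ℂ), I) := by
      refine Prod.ext ?_ ?_
      · simp
      · simp
    rw [e1, map_add, map_add, map_smul, map_smul, h0, hI]
    simp
  set α : ℂ := (2 : ℂ)⁻¹ * (A (1, 0) - I * A (I, 0)) with hα
  set β : ℂ := (2 : ℂ)⁻¹ * (A (1, 0) + I * A (I, 0)) with hβ
  have hab : ∀ a : ℂ, A (a, 0) = α * a + β * cj a := fun a =>
    clm_expand (A.comp (ContinuousLinearMap.inl ℝ ℂ ℂ)) a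
  have hc : ∀ a : ℂ, (α * p1 T + β * cj (p2 T) - I * α) * a +
      (α * p2 T + β * cj (p1 T) - I * β) * cj a = 0 := by
    intro a
    have e1 := hA (a, 0)
    have e2 : T (a, 0) = ((T (a, 0)).1, (T (a, 0)).2) := rfl
    rw [e2, hv, hab, hab, T_fst hT.leaf] at e1
    simp only [map_add, map_mul, Complex.conj_conj] at e1
    linear_combination e1
  obtain ⟨-, h2⟩ := coef_zero hc
  obtain ⟨a, b⟩ := v
  rw [hv, hab, mu]
  have h4 := hT.ne
  field_simp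
  linear_combination (-(cj a)) * h2

end lin

/-! ### the box -/

theorem contDiffOn_coef {J : ℂ × ℂ → ℂ × ℂ →L[ℝ] ℂ × ℂ} {s : Set (ℂ × ℂ)}
    (hJ : ContDiffOn ℝ ∞ J s) :
    ContDiffOn ℝ ∞ (fun x => p1 (J x)) s ∧ ContDiffOn ℝ ∞ (fun x => p2 (J x)) s ∧
      ContDiffOn ℝ ∞ (fun x => q2 (J x)) s := by
  have h : ∀ v : ℂ × ℂ, ContDiffOn ℝ ∞ (fun x => J x v) s := fun v =>
    hJ.clm_apply contDiffOn_const
  have h1 : ∀ v : ℂ × ℂ, ContDiffOn ℝ ∞ (fun x => (J x v).1) s := fun v => (h v).fst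
  have h2 : ∀ v : ℂ × ℂ, ContDiffOn ℝ ∞ (fun x => (J x v).2) s := fun v => (h v).snd
  refine ⟨?_, ?_, ?_⟩
  · exact contDiffOn_const.mul ((h1 _).sub (contDiffOn_const.mul (h1 _)))
  · exact contDiffOn_const.mul ((h1 _).add (contDiffOn_const.mul (h1 _)))
  · exact contDiffOn_const.mul ((h2 _).add (contDiffOn_const.mul (h2 _)))

/-- the data of a box of radius `δ` -/
structure MB (J : ℂ × ℂ → ℂ × ℂ →L[ℝ] ℂ × ℂ) (δ L : ℝ) : Prop where
  pos : 0 < δ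
  posL : 0 ≤ L
  vj : ∀ x ∈ ball (0 : ℂ × ℂ) δ, VJ (J x)
  smu : ContDiffOn ℝ ∞ (fun x => mu (J x)) (ball 0 δ)
  sbe : ContDiffOn ℝ ∞ (fun x => be (J x)) (ball 0 δ)
  mle : ∀ x ∈ ball (0 : ℂ × ℂ) δ, ‖mu (J x)‖ ≤ 1 / 2
  ble : ∀ x ∈ ball (0 : ℂ × ℂ) δ, ‖be (J x)‖ ≤ 1
  mlip : ∀ x ∈ ball (0 : ℂ × ℂ) δ, ∀ y ∈ ball (0 : ℂ × ℂ) δ,
    ‖mu (J x) - mu (J y)‖ ≤ L * ‖x - y‖
  blip : ∀ x ∈ ball (0 : ℂ × ℂ) δ, ∀ y ∈ ball (0 : ℂ × ℂ) δ,
    ‖be (J x) - be (J y)‖ ≤ L * ‖x - y‖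

theorem lip_of {f : ℂ × ℂ → ℂ} {R : ℝ} (hR : 0 < R) (hf : ContDiffOn ℝ ∞ f (ball 0 R)) :
    ∃ L : ℝ, 0 ≤ L ∧ ∀ x ∈ ball (0 : ℂ × ℂ) (R / 2), ∀ y ∈ ball (0 : ℂ × ℂ) (R / 2),
      ‖f x - f y‖ ≤ L * ‖x - y‖ := by
  have h1 : ContinuousOn (fderiv ℝ f) (closedBall 0 (R / 2)) :=
    (hf.continuousOn_fderiv_of_isOpen isOpen_ball (by norm_num)).mono
      (closedBall_subset_ball (by linarith))
  obtain ⟨L, hL⟩ := (isCompact_closedBall (0 : ℂ × ℂ) (R / 2)).exists_bound_of_continuousOn h1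
  refine ⟨max L 0, le_max_right _ _, fun x hx y hy => ?_⟩
  refine (convex_ball (0 : ℂ × ℂ) (R / 2)).norm_image_sub_le_of_norm_fderiv_le (𝕜 := ℝ)
    (fun z hz => ?_) (fun z hz => (hL z (ball_subset_closedBall hz)).trans (le_max_left _ _)) hy hx
  exact (hf.contDiffAt (isOpen_ball.mem_nhds (ball_subset_ball (by linarith) hz))).differentiableAt
    (by norm_num)

theorem exists_mb {J : ℂ × ℂ → ℂ × ℂ →L[ℝ] ℂ × ℂ} {R : ℝ} (hR : 0 < R)
    (hJ : ContDiffOn ℝ ∞ J (ball 0 R)) (hsq : ∀ x ∈ ball (0 : ℂ × ℂ) R, ∀ v, J x (J x v) = -v)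
    (hleaf : ∀ x ∈ ball (0 : ℂ × ℂ) R, ∀ a : ℂ, J x (0, a) = (0, I * a))
    (h0 : ∀ v, J 0 v = I • v) : ∃ δ L : ℝ, δ ≤ R ∧ MB J δ L := by
  obtain ⟨c1, c2, c3⟩ := contDiffOn_coef hJ
  have e1 : p1 (J 0) = I := by
    rw [p1, h0, h0]
    simp only [Prod.smul_fst, smul_eq_mul]
    linear_combination (-(2 : ℂ)⁻¹ * I) * Complex.I_sq
  have e2 : p2 (J 0) = 0 := by
    rw [p2, h0, h0]
    simp only [Prod.smul_fst, smul_eq_mul]
    linear_combination ((2 : ℂ)⁻¹ * I) * Complex.I_sq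
  have e3 : q2 (J 0) = 0 := by
    rw [q2, h0, h0]
    simp
  have hn0 : I - cj (p1 (J 0)) ≠ 0 := by
    rw [e1, conj_I]; simp
  -- shrink
  have hball : ball (0 : ℂ × ℂ) R ∈ 𝓝 (0 : ℂ × ℂ) := ball_mem_nhds _ hR
  have hc : ContinuousAt (fun x => I - cj (p1 (J x))) 0 :=
    continuousAt_const.sub (Complex.continuous_conj.continuousAt.comp
      (c1.continuousOn.continuousAt hball))
  have hcm : ContinuousAt (fun x => mu (J x)) 0 :=
    (c2.continuousOn.continuousAt hball).div hc hn0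
  have hcb : ContinuousAt (fun x => be (J x)) 0 :=
    (c3.continuousOn.continuousAt hball).div hc hn0
  have hm0 : mu (J 0) = 0 := by rw [mu, e2, zero_div]
  have hb0 : be (J 0) = 0 := by rw [be, e3, zero_div]
  have f1 : ∀ᶠ x in 𝓝 (0 : ℂ × ℂ), I - cj (p1 (J x)) ≠ 0 := hc.eventually_ne hn0
  have f2 : ∀ᶠ x in 𝓝 (0 : ℂ × ℂ), ‖mu (J x)‖ < 1 / 2 :=
    ContinuousAt.eventually_lt hcm.norm continuousAt_const (by rw [hm0]; norm_num)
  have f3 : ∀ᶠ x in 𝓝 (0 : ℂ × ℂ), ‖be (J x)‖ < 1 :=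
    ContinuousAt.eventually_lt hcb.norm continuousAt_const (by rw [hb0]; norm_num)
  obtain ⟨δ, hδ, hd⟩ := Metric.eventually_nhds_iff_ball.1 (f1.and (f2.and (f3.and hball)))
  have hdR : ball (0 : ℂ × ℂ) δ ⊆ ball 0 R := fun x hx => (hd x hx).2.2.2
  have smu : ContDiffOn ℝ ∞ (fun x => mu (J x)) (ball 0 δ) := by
    have h1 : ContDiffOn ℝ ∞ (fun x => I - cj (p1 (J x))) (ball 0 δ) :=
      contDiffOn_const.sub ((Complex.conjCLE.contDiff).comp_contDiffOn (c1.mono hdR))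
    have h2 := (c2.mono hdR).mul (h1.inv fun x hx => (hd x hx).1)
    exact h2.congr fun x _ => by rw [mu, div_eq_mul_inv]; rfl
  have sbe : ContDiffOn ℝ ∞ (fun x => be (J x)) (ball 0 δ) := by
    have h1 : ContDiffOn ℝ ∞ (fun x => I - cj (p1 (J x))) (ball 0 δ) :=
      contDiffOn_const.sub ((Complex.conjCLE.contDiff).comp_contDiffOn (c1.mono hdR))
    have h2 := (c3.mono hdR).mul (h1.inv fun x hx => (hd x hx).1)
    exact h2.congr fun x _ => by rw [be, div_eq_mul_inv]; rfl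
  obtain ⟨L1, hL1, hl1⟩ := lip_of hδ smu
  obtain ⟨L2, hL2, hl2⟩ := lip_of hδ sbe
  set δ' : ℝ := min (δ / 2) R with hδ'
  have hs : ball (0 : ℂ × ℂ) δ' ⊆ ball 0 (δ / 2) := ball_subset_ball (min_le_left _ _)
  have hs' : ball (0 : ℂ × ℂ) δ' ⊆ ball 0 δ := hs.trans (ball_subset_ball (by linarith))
  refine ⟨δ', max L1 L2, min_le_right _ _, ⟨lt_min (by positivity) hR, hL1.trans (le_max_left _ _),
    fun x hx => ⟨hleaf x (hdR (hs' hx)), hsq x (hdR (hs' hx)), (hd x (hs' hx)).1⟩,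
    smu.mono hs', sbe.mono hs', fun x hx => (hd x (hs' hx)).2.1.le,
    fun x hx => (hd x (hs' hx)).2.2.1.le, fun x hx y hy => ?_, fun x hx y hy => ?_⟩⟩
  · refine (hl1 x (hs hx) y (hs hy)).trans ?_
    gcongr; exact le_max_left _ _
  · refine (hl2 x (hs hx) y (hs hy)).trans ?_
    gcongr; exact le_max_right _ _

/-- `J`-holomorphic maps satisfy the Beltrami system -/
theorem jc_of {T : ℂ × ℂ →L[ℝ] ℂ × ℂ} (hT : VJ T) {J : ℂ × ℂ → ℂ × ℂ →L[ℝ] ℂ × ℂ}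
    {u : ℂ → ℂ × ℂ} {s : ℂ} (hTs : J (u s) = T) (hd : DifferentiableAt ℝ u s)
    (hu : ∀ v : ℂ, fderiv ℝ u s (I * v) = J (u s) (fderiv ℝ u s v)) :
    JC (fun x => mu (J x)) (fun x => be (J x)) (fun s => (u s).1) (fun s => (u s).2) s := by
  have hf1 : ∀ v, fderiv ℝ (fun s => (u s).1) s v = (fderiv ℝ u s v).1 := fun v => by
    have h : HasFDerivAt (fun s => (u s).1) ((ContinuousLinearMap.fst ℝ ℂ ℂ).comp (fderiv ℝ u s)) s :=
      hasFDerivAt_fst.comp s hd.hasFDerivAt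
    rw [h.fderiv]; rfl
  have hf2 : ∀ v, fderiv ℝ (fun s => (u s).2) s v = (fderiv ℝ u s v).2 := fun v => by
    have h : HasFDerivAt (fun s => (u s).2) ((ContinuousLinearMap.snd ℝ ℂ ℂ).comp (fderiv ℝ u s)) s :=
      hasFDerivAt_snd.comp s hd.hasFDerivAt
    rw [h.fderiv]; rfl
  set p := dlz (fun s => (u s).1) s with hp
  set d := db (fun s => (u s).1) s with hdd
  set q := dlz (fun s => (u s).2) s with hq
  set e := db (fun s => (u s).2) s with he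
  have g1 : ∀ v, (fderiv ℝ u s v).1 = p * v + d * cj v := fun v => by
    rw [← hf1, AdjPos_688.fderiv_eq]
  have g2 : ∀ v, (fderiv ℝ u s v).2 = q * v + e * cj v := fun v => by
    rw [← hf2, AdjPos_688.fderiv_eq]
  have h1 : ∀ v : ℂ, (0 : ℂ) * v + (d + mu T * cj p) * cj v = 0 := by
    intro v
    have h2 := th1 hT (fderiv ℝ u s v)
    rw [← hTs, ← hu v, hTs, g1, g1] at h2
    simp only [map_add, map_mul, map_neg, Complex.conj_conj, conj_I] at h2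
    have h3 : I * ((d + mu T * cj p) * cj v) = 0 := by
      linear_combination (-(2 : ℂ)⁻¹) * h2
    have h4 := (mul_eq_zero.1 h3).resolve_left I_ne_zero
    rw [h4]; ring
  have h1' : ∀ v : ℂ, (0 : ℂ) * v + (e + be T * cj p) * cj v = 0 := by
    intro v
    have h2 := th2 hT (fderiv ℝ u s v)
    rw [← hTs, ← hu v, hTs, g1, g1, g2, g2] at h2
    simp only [map_add, map_mul, map_neg, Complex.conj_conj, conj_I] at h2
    have h3 : I * ((e + be T * cj p) * cj v) = 0 := by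
      linear_combination (-(2 : ℂ)⁻¹) * h2
    have h4 := (mul_eq_zero.1 h3).resolve_left I_ne_zero
    rw [h4]; ring
  have k1 := (coef_zero h1).2
  have k2 := (coef_zero h1').2
  refine ⟨?_, ?_⟩
  · show d = -mu (J ((u s).1, (u s).2)) * cj p
    have : J ((u s).1, (u s).2) = T := hTs
    rw [this]; linear_combination k1
  · show e = -be (J ((u s).1, (u s).2)) * cj p
    have : J ((u s).1, (u s).2) = T := hTs
    rw [this]; linear_combination k2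

/-! ### the first component of a disc: isolated zeros -/

theorem db_conj {f : ℂ → ℂ} {s : ℂ} (hf : DifferentiableAt ℝ f s) :
    db (fun t => cj (f t)) s = cj (dlz f s) := by
  refine (coef_unique (a := cj (db f s)) (b := cj (dlz f s)) fun v => ?_).2
  have h1 : HasFDerivAt (fun t => cj (f t)) ((Complex.conjCLE : ℂ →L[ℝ] ℂ).comp (fderiv ℝ f s)) s :=
    (Complex.conjCLE : ℂ →L[ℝ] ℂ).hasFDerivAt.comp s hf.hasFDerivAt
  rw [h1.fderiv]
  show cj (fderiv ℝ f s v) = _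
  rw [AdjPos_688.fderiv_eq]
  simp only [map_add, map_mul, Complex.conj_conj]
  ring

theorem zeta_isolated {J : ℂ × ℂ → ℂ × ℂ →L[ℝ] ℂ × ℂ} {δ L : ℝ} (hB : MB J δ L) {u : ℂ → ℂ × ℂ}
    {r : ℝ} (hr : 0 < r) (hu : ContDiffOn ℝ 2 u (ball 0 r)) (hub : ∀ s ∈ ball (0 : ℂ) r, u s ∈ ball 0 δ)
    (hJ : JHol J u (ball 0 r)) :
    (∀ᶠ s in 𝓝 (0 : ℂ), (u s).1 = 0) ∨ ∀ᶠ s in 𝓝[≠] (0 : ℂ), (u s).1 ≠ 0 := by
  set ζ : ℂ → ℂ := fun s => (u s).1 with hζ
  set m : ℂ → ℂ := fun s => mu (J (u s)) with hm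
  set ξ : ℂ → ℂ := fun s => ζ s + m s * cj (ζ s) with hξ
  have h0 := ball_mem_nhds (0 : ℂ) hr
  have hζc : ContDiffOn ℝ 2 ζ (ball 0 r) := hu.fst
  have hmc : ContDiffOn ℝ 2 m (ball 0 r) :=
    ((hB.smu.of_le (WithTop.coe_le_coe.2 le_top)).comp hu hub)
  have hξc : ContDiffOn ℝ 2 ξ (ball 0 r) :=
    hζc.add (hmc.mul (Complex.conjCLE.contDiff.comp_contDiffOn hζc))
  have hlow : ∀ s ∈ ball (0 : ℂ) r, ‖ζ s‖ ≤ 2 * ‖ξ s‖ := by
    intro s hs
    have h1 : ζ s = ξ s - m s * cj (ζ s) := by rw [hξ]; ring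
    have h2 : ‖ζ s‖ ≤ ‖ξ s‖ + ‖m s * cj (ζ s)‖ := by
      conv_lhs => rw [h1]
      exact norm_sub_le _ _
    rw [norm_mul, RCLike.norm_conj] at h2
    have h3 : ‖m s‖ ≤ 1 / 2 := hB.mle _ (hub s hs)
    nlinarith [norm_nonneg (ζ s)]
  have hdbm : ∃ C, ∀ᶠ s in 𝓝 (0 : ℂ), ‖db m s‖ ≤ C := by
    have h1 : ContinuousAt (fderiv ℝ m) 0 :=
      (hmc.continuousOn_fderiv_of_isOpen isOpen_ball (by norm_num)).continuousAt h0
    have h2 : ∀ᶠ s in 𝓝 (0 : ℂ), ‖fderiv ℝ m s‖ < ‖fderiv ℝ m 0‖ + 1 :=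
      h1.norm.eventually (Iio_mem_nhds (by linarith))
    refine ⟨‖fderiv ℝ m 0‖ + 1, ?_⟩
    filter_upwards [h2] with s hs
    rw [db_def, norm_mul, norm_inv]
    have h3 : ‖fderiv ℝ m s 1‖ ≤ ‖fderiv ℝ m s‖ := by
      simpa using (fderiv ℝ m s).le_opNorm 1
    have h4 : ‖I * fderiv ℝ m s I‖ ≤ ‖fderiv ℝ m s‖ := by
      rw [norm_mul, norm_I, one_mul]
      simpa using (fderiv ℝ m s).le_opNorm I
    have h5 := norm_add_le (fderiv ℝ m s 1) (I * fderiv ℝ m s I)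
    have h6 : ‖(2 : ℂ)‖ = 2 := by simp
    rw [h6]; linarith
  obtain ⟨C, hC⟩ := hdbm
  have hsub : Sim3_679.Sub ξ 0 := by
    refine ⟨2 * max C 0, ?_⟩
    filter_upwards [hC, h0] with s hs hsr
    have hn := isOpen_ball.mem_nhds hsr
    have d1 : DifferentiableAt ℝ ζ s := (hζc.contDiffAt hn).differentiableAt (by norm_num)
    have d2 : DifferentiableAt ℝ m s := (hmc.contDiffAt hn).differentiableAt (by norm_num)
    have d3 : DifferentiableAt ℝ (fun t => cj (ζ t)) s :=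
      (Complex.conjCLE : ℂ →L[ℝ] ℂ).differentiableAt.comp s d1
    have hjc := jc_of (hB.vj _ (hub s hsr)) rfl (hJ s hsr).1 (hJ s hsr).2
    have e1 : db ζ s = -m s * cj (dlz ζ s) := hjc.eζ
    have e2 : db ξ s = db m s * cj (ζ s) := by
      have h1 : db ξ s = db ζ s + db (fun t => m t * cj (ζ t)) s := by
        have d4 : DifferentiableAt ℝ (fun t => m t * cj (ζ t)) s := d2.mul d3
        rw [db_def, db_def, db_def, hξ, fderiv_fun_add d1 d4]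
        simp only [_root_.add_apply]
        ring
      rw [h1, db_mul d2 d3, db_conj d1, e1]; ring
    rw [e2, norm_mul, RCLike.norm_conj]
    have := hlow s hsr
    calc ‖db m s‖ * ‖ζ s‖ ≤ max C 0 * (2 * ‖ξ s‖) := by
          gcongr
          exact hs.trans (le_max_left _ _)
      _ = 2 * max C 0 * ‖ξ s‖ := by ring
  rcases Sim3_679.isolated ((hξc.contDiffAt h0).of_le (by norm_num)) hsub with h | h
  · left
    filter_upwards [h, h0] with s hs hsr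
    have := hlow s hsr
    rw [hs, norm_zero, mul_zero] at this
    exact norm_le_zero_iff.1 this
  · right
    filter_upwards [h] with s hs h1
    apply hs
    have h2 : ζ s = 0 := h1
    rw [hξ]; simp [h2]

end

end Crest.Agent.R235.AdjMu_688
end

-- ▼ part R235/AdjSheet_688

/-!
# Row 235 (S0364), package ADJ (helper43), leaf L4, third part (helper688)

The sheets of the branches of a curve in a foliation box and the winding numbers of products of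
differences of sheets.  Everything is planar.
-/

set_option autoImplicit false

open Complex Set Filter Topology Metric MeasureTheory
open scoped Real ContDiff

namespace Crest.Agent.R235.AdjSheet_688

open Crest.Agent.R235.Wind_688 Crest.Agent.R235.CauchyV_679 Crest.Agent.R235.AdjPos_688
open Crest.Agent.R235.NWDefs_334 Crest.Agent.R235.AdjMu_688 Crest.Agent.R235.BrNF_266
open Crest.Agent.R235.RootProd_266 Crest.Agent.R235.BranchProd_266

noncomputable section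

/-- a branch in a foliation box, with its normal form `e` -/
structure Br (J : ℂ × ℂ → ℂ × ℂ →L[ℝ] ℂ × ℂ) (v : ℂ → ℂ × ℂ) (r1 : ℝ) (m : ℕ) (a : ℂ) (C : ℝ)
    (e : OpenPartialHomeomorph ℂ ℂ) : Prop where
  r1_pos : 0 < r1
  smooth : ContDiffOn ℝ ∞ v (ball 0 r1)
  hol : JHol J v (ball 0 r1)
  m_pos : 1 ≤ m
  a_ne : a ≠ 0
  C_nonneg : 0 ≤ C
  ζ0 : ∀ s ∈ ball (0 : ℂ) r1, ‖(v s).1 - a * s ^ m‖ ≤ C * ‖s‖ ^ (m + 1)
  ζ1 : ∀ s ∈ ball (0 : ℂ) r1,
    ‖fderiv ℝ (fun s => (v s).1) s - mulc (m * a * s ^ (m - 1))‖ ≤ C * ‖s‖ ^ m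
  z0 : ∀ s ∈ ball (0 : ℂ) r1, ‖(v s).2‖ ≤ C * ‖s‖ ^ m
  z1 : ∀ s ∈ ball (0 : ℂ) r1, ‖fderiv ℝ (fun s => (v s).2) s‖ ≤ C * ‖s‖ ^ (m - 1)
  src : e.source ⊆ ball 0 r1
  mem0 : (0 : ℂ) ∈ e.source
  zero : e 0 = 0
  cs : ContDiffOn ℝ 1 e.symm e.target
  c1 : ContDiffOn ℝ 1 e e.source
  pow : ∀ s ∈ e.source, e s ^ m = (v s).1

/-- the second coordinate in the normal form -/
def Zf (v : ℂ → ℂ × ℂ) (e : OpenPartialHomeomorph ℂ ℂ) (w : ℂ) : ℂ := (v (e.symm w)).2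

section one

variable {J : ℂ × ℂ → ℂ × ℂ →L[ℝ] ℂ × ℂ} {v : ℂ → ℂ × ℂ} {r1 : ℝ} {m : ℕ} {a : ℂ} {C : ℝ}
  {e : OpenPartialHomeomorph ℂ ℂ}

theorem Br.v0 (B : Br J v r1 m a C e) : v 0 = 0 := by
  have h0 : (0 : ℂ) ∈ ball (0 : ℂ) r1 := mem_ball_self B.r1_pos
  have hm : m ≠ 0 := by have := B.m_pos; omega
  have h1 := B.ζ0 0 h0
  have h2 := B.z0 0 h0
  rw [zero_pow hm, norm_zero, zero_pow (by omega), mul_zero, mul_zero, sub_zero] at h1
  rw [norm_zero, zero_pow hm, mul_zero] at h2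
  exact Prod.ext (norm_le_zero_iff.1 h1) (norm_le_zero_iff.1 h2)

theorem Br.contAt (B : Br J v r1 m a C e) : ContinuousAt v 0 :=
  B.smooth.continuousOn.continuousAt (ball_mem_nhds _ B.r1_pos)

theorem Br.symm0 (B : Br J v r1 m a C e) : e.symm 0 = 0 := by
  have := e.left_inv B.mem0
  rwa [B.zero] at this

theorem Br.mem0t (B : Br J v r1 m a C e) : (0 : ℂ) ∈ e.target := by
  have := e.map_source B.mem0
  rwa [B.zero] at this

theorem Br.low (B : Br J v r1 m a C e) {s : ℂ} (hs : s ∈ ball (0 : ℂ) r1)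
    (hC : C * ‖s‖ ≤ ‖a‖ / 2) : ‖a‖ / 2 * ‖s‖ ^ m ≤ ‖(v s).1‖ := by
  have h1 := B.ζ0 s hs
  have h2 : ‖a * s ^ m‖ ≤ ‖(v s).1‖ + ‖(v s).1 - a * s ^ m‖ := by
    have : a * s ^ m = (v s).1 - ((v s).1 - a * s ^ m) := by ring
    conv_lhs => rw [this]
    exact norm_sub_le _ _
  rw [norm_mul, norm_pow] at h2
  have h3 : C * ‖s‖ ^ (m + 1) ≤ ‖a‖ / 2 * ‖s‖ ^ m := by
    calc C * ‖s‖ ^ (m + 1) = (C * ‖s‖) * ‖s‖ ^ m := by rw [pow_succ]; ring
      _ ≤ ‖a‖ / 2 * ‖s‖ ^ m := by gcongr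
  linarith

theorem Br.dlz_sub (B : Br J v r1 m a C e) {s : ℂ} (hs : s ∈ ball (0 : ℂ) r1) :
    ‖dlz (fun s => (v s).1) s - m * a * s ^ (m - 1)‖ ≤ C * ‖s‖ ^ m := by
  refine dlz_of_fderiv fun w => ?_
  have h1 := (fderiv ℝ (fun s => (v s).1) s - mulc (m * a * s ^ (m - 1))).le_of_opNorm_le
    (B.ζ1 s hs) w
  rwa [_root_.sub_apply, mulc_apply] at h1

theorem Br.dlow (B : Br J v r1 m a C e) {s : ℂ} (hs : s ∈ ball (0 : ℂ) r1)
    (hC : C * ‖s‖ ≤ ‖a‖ / 2) : ‖a‖ / 2 * ‖s‖ ^ (m - 1) ≤ ‖dlz (fun s => (v s).1) s‖ := by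
  have h1 := B.dlz_sub hs
  set d := dlz (fun s => (v s).1) s with hd
  have h2 : ‖(m : ℂ) * a * s ^ (m - 1)‖ ≤ ‖d‖ + ‖d - m * a * s ^ (m - 1)‖ := by
    have : (m : ℂ) * a * s ^ (m - 1) = d - (d - m * a * s ^ (m - 1)) := by ring
    conv_lhs => rw [this]
    exact norm_sub_le _ _
  rw [norm_mul, norm_mul, norm_pow, Complex.norm_natCast] at h2
  have h3 : C * ‖s‖ ^ m ≤ ‖a‖ / 2 * ‖s‖ ^ (m - 1) := by
    have h4 : ‖s‖ ^ m = ‖s‖ * ‖s‖ ^ (m - 1) := by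
      rw [← pow_succ']; congr 1; have := B.m_pos; omega
    rw [h4]
    calc C * (‖s‖ * ‖s‖ ^ (m - 1)) = (C * ‖s‖) * ‖s‖ ^ (m - 1) := by ring
      _ ≤ ‖a‖ / 2 * ‖s‖ ^ (m - 1) := by gcongr
  have h5 : (1 : ℝ) ≤ m := by exact_mod_cast B.m_pos
  have h6 : ‖a‖ * ‖s‖ ^ (m - 1) ≤ m * ‖a‖ * ‖s‖ ^ (m - 1) := by
    rw [mul_assoc]
    exact le_mul_of_one_le_left (by positivity) h5
  linarith

/-- **the sheets of a branch** -/
theorem sheet {δ L : ℝ} (hB : MB J δ L) (B : Br J v r1 m a C e) :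
    ∃ η > (0 : ℝ), ∃ D Λ : ℝ, 0 ≤ D ∧ ∀ (ζ om : ℂ → ℂ) (s : ℂ), ContDiffAt ℝ 1 om s →
      (∀ᶠ t in 𝓝 s, om t ^ m = ζ t) → om s ≠ 0 → ‖om s‖ < η →
      ContDiffAt ℝ 1 (fun t => Zf v e (om t)) s ∧
      GC (fun x => mu (J x)) (fun x => be (J x)) ζ (fun t => Zf v e (om t)) Λ s ∧
      ‖Zf v e (om s)‖ ≤ D * ‖ζ s‖ := by
  have hap : 0 < ‖a‖ := norm_pos_iff.2 B.a_ne
  have hC1 : 0 < 2 * C + 1 := by have := B.C_nonneg; linarith
  -- the radius
  have hev : ∀ᶠ s in 𝓝 (0 : ℂ), s ∈ ball (0 : ℂ) r1 ∧ v s ∈ ball (0 : ℂ × ℂ) δ ∧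
      C * ‖s‖ ≤ ‖a‖ / 2 := by
    refine Filter.Eventually.and (ball_mem_nhds _ B.r1_pos) (Filter.Eventually.and ?_ ?_)
    · refine B.contAt.preimage_mem_nhds ?_
      rw [B.v0]; exact ball_mem_nhds _ hB.pos
    · have h1 : Tendsto (fun s : ℂ => C * ‖s‖) (𝓝 0) (𝓝 0) := by
        have h2 : Continuous fun s : ℂ => C * ‖s‖ := by fun_prop
        simpa using h2.tendsto 0
      exact h1.eventually (Iic_mem_nhds (by positivity))
  have hes : ContinuousAt e.symm 0 := e.symm.continuousAt (by simpa using B.mem0t)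
  have hev2 : ∀ᶠ w in 𝓝 (0 : ℂ), w ∈ e.target ∧ (e.symm w ∈ ball (0 : ℂ) r1 ∧
      v (e.symm w) ∈ ball (0 : ℂ × ℂ) δ ∧ C * ‖e.symm w‖ ≤ ‖a‖ / 2) := by
    refine Filter.Eventually.and (e.open_target.mem_nhds B.mem0t) ?_
    have h1 : Tendsto e.symm (𝓝 0) (𝓝 0) := by
      have := hes.tendsto
      rwa [B.symm0] at this
    exact h1.eventually hev
  obtain ⟨η, hη, hη2⟩ := Metric.eventually_nhds_iff_ball.1 hev2
  refine ⟨η, hη, 2 * C / ‖a‖, ((2 * C / ‖a‖) + 1 * (1 / 2)) / (1 - (1 / 2) ^ 2),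
    by have := B.C_nonneg; positivity, fun ζ om s hom hpow hne hlt => ?_⟩
  obtain ⟨ht, hr, hδ, hCa⟩ := hη2 (om s) (by rwa [mem_ball, dist_zero_right])
  set σ : ℂ → ℂ := fun t => e.symm (om t) with hσ
  have hσs : σ s ∈ e.source := e.map_target ht
  have hσ0 : σ s ≠ 0 := by
    intro h0
    apply hne
    have h1 : e (σ s) = om s := e.right_inv ht
    rw [← h1, h0, B.zero]
  have hσd : ContDiffAt ℝ 1 σ s := by
    have h1 : ContDiffAt ℝ 1 e.symm (om s) := B.cs.contDiffAt (e.open_target.mem_nhds ht)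
    exact h1.comp s hom
  have hvd : ContDiffAt ℝ ∞ v (σ s) := B.smooth.contDiffAt (isOpen_ball.mem_nhds hr)
  have hv1 : ContDiffAt ℝ ∞ (fun s => (v s).1) (σ s) := hvd.fst
  have hv2 : ContDiffAt ℝ ∞ (fun s => (v s).2) (σ s) := hvd.snd
  have h1 : ∀ᶠ t in 𝓝 s, (fun s => (v s).1) (σ t) = ζ t := by
    filter_upwards [hpow, hom.continuousAt.preimage_mem_nhds (e.open_target.mem_nhds ht)]
      with t h2 h3
    have h4 := B.pow (σ t) (e.map_target h3)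
    have h5 : e (σ t) = om t := e.right_inv h3
    rw [h5, h2] at h4
    exact h4.symm
  have hlow := B.low hr hCa
  have hdlow := B.dlow hr hCa
  have hs0 : 0 < ‖σ s‖ := norm_pos_iff.2 hσ0
  refine ⟨?_, ?_, ?_⟩
  · exact (hv2.of_le (by exact_mod_cast le_top)).comp s hσd
  · refine gc_of_curve (κ := 1 / 2) (B := 1) (K := 2 * C / ‖a‖) (σ := σ)
      (ζ' := fun s => (v s).1) (z' := fun s => (v s).2) (by norm_num) ?_ ?_ ?_
      (hB.mle _ hδ) (hB.ble _ hδ) (hσd.differentiableAt one_ne_zero)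
      (hv1.differentiableAt (by simp)) (hv2.differentiableAt (by simp)) h1
      (Eventually.of_forall fun t => rfl)
    · exact jc_of (hB.vj _ hδ) rfl (B.hol _ hr).1 (B.hol _ hr).2
    · intro h2
      rw [h2, norm_zero] at hdlow
      have : 0 < ‖a‖ / 2 * ‖σ s‖ ^ (m - 1) := by positivity
      linarith
    · have h2 : ‖dlz (fun s => (v s).2) (σ s)‖ ≤ C * ‖σ s‖ ^ (m - 1) :=
        (norm_dlz_le _ _).trans (B.z1 _ hr)
      refine h2.trans ?_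
      calc C * ‖σ s‖ ^ (m - 1) = (2 * C / ‖a‖) * (‖a‖ / 2 * ‖σ s‖ ^ (m - 1)) := by
            field_simp
        _ ≤ _ := by
            have := B.C_nonneg
            gcongr
  · have h2 : ‖Zf v e (om s)‖ ≤ C * ‖σ s‖ ^ m := B.z0 _ hr
    have h3 : ζ s = (v (σ s)).1 := h1.self_of_nhds.symm
    rw [h3]
    refine h2.trans ?_
    calc C * ‖σ s‖ ^ m = (2 * C / ‖a‖) * (‖a‖ / 2 * ‖σ s‖ ^ m) := by
            field_simp
        _ ≤ _ := by
            have := B.C_nonneg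
            gcongr

end one

/-! ### finitely many branches -/

theorem exists_pos_le {n : ℕ} {f : Fin n → ℝ} (hf : ∀ i, 0 < f i) : ∃ η > 0, ∀ i, η ≤ f i := by
  have h : ∀ᶠ x in 𝓝[>] (0 : ℝ), ∀ i, x ≤ f i := by
    rw [Filter.eventually_all]
    intro i
    exact nhdsWithin_le_nhds (Iic_mem_nhds (hf i))
  obtain ⟨x, hx, hx0⟩ := (h.and self_mem_nhdsWithin).exists
  exact ⟨x, hx0, hx⟩

theorem exists_ge {n : ℕ} (f : Fin n → ℝ) : ∃ D, 0 ≤ D ∧ ∀ i, f i ≤ D := by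
  obtain ⟨D, hD⟩ := (Set.finite_range f).bddAbove
  exact ⟨max D 0, le_max_right _ _, fun i => (hD (mem_range_self i)).trans (le_max_left _ _)⟩

section many

variable {J : ℂ × ℂ → ℂ × ℂ →L[ℝ] ℂ × ℂ} {n : ℕ} {v : Fin n → ℂ → ℂ × ℂ} {r1 : ℝ}
  {m : Fin n → ℕ} {a : Fin n → ℂ} {C : ℝ} {e : Fin n → OpenPartialHomeomorph ℂ ℂ}

/-- **winding number of a product of differences of sheets** -/
theorem windS {δ L : ℝ} (hB : MB J δ L) (B : ∀ c, Br J (v c) r1 (m c) (a c) C (e c))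
    {u : ℂ → ℂ × ℂ} {r C' : ℝ} {M k' : ℕ} (hM : 1 ≤ M) (hr : 0 < r)
    (hu : ContDiffOn ℝ 1 u (ball 0 r)) (hJ : JHol J u (ball 0 r))
    (h1 : ∀ s ∈ ball (0 : ℂ) r, ‖(u s).1‖ ≤ C' * ‖s‖ ^ M)
    (h2 : ∀ s ∈ ball (0 : ℂ) r, ‖(u s).2‖ ≤ C' * ‖s‖ ^ M) {H : ℂ → ℂ}
    (hH0 : ∀ s ∈ ball (0 : ℂ) r, s ≠ 0 → H s ≠ 0)
    (hloc : ∀ s ∈ ball (0 : ℂ) r, s ≠ 0 → ∃ (c : Fin k' → Fin n) (om : Fin k' → ℂ → ℂ),
      (∀ i, ContDiffAt ℝ 1 (om i) s ∧ om i s ≠ 0 ∧ ∀ᶠ t in 𝓝 s, om i t ^ m (c i) = (u t).1) ∧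
      H =ᶠ[𝓝 s] fun t => ∏ i, ((u t).2 - Zf (v (c i)) (e (c i)) (om i t))) :
    ∃ r0 > 0, r0 ≤ r ∧ ∃ N : ℤ, ((M * k' : ℕ) : ℤ) ≤ N ∧
      ∀ r', 0 < r' → r' < r0 → IsW H 0 r' N := by
  choose η hη D Λ hD hsh using fun c => sheet hB (B c)
  obtain ⟨D0, hD0, hDle⟩ := exists_ge D
  obtain ⟨Λ0, hΛ0, hΛle⟩ := exists_ge Λ
  have h00 : (0 : ℂ) ∈ ball (0 : ℂ) r := mem_ball_self hr
  have hMne : M ≠ 0 := by omega
  have hu0 : u 0 = 0 := by
    have e1 := h1 0 h00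
    have e2 := h2 0 h00
    rw [norm_zero, zero_pow hMne, mul_zero] at e1 e2
    exact Prod.ext (norm_le_zero_iff.1 e1) (norm_le_zero_iff.1 e2)
  have hC' : 0 ≤ C' := by
    by_contra hneg
    have hs : ((r / 2 : ℝ) : ℂ) ∈ ball (0 : ℂ) r := by
      rw [mem_ball, dist_zero_right, Complex.norm_real, Real.norm_of_nonneg (by positivity)]
      linarith
    have e1 := (norm_nonneg _).trans (h1 _ hs)
    have e2 : 0 < ‖((r / 2 : ℝ) : ℂ)‖ ^ M := by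
      rw [Complex.norm_real, Real.norm_of_nonneg (by positivity)]; positivity
    nlinarith
  have huc : ContinuousAt u 0 := hu.continuousOn.continuousAt (ball_mem_nhds _ hr)
  have hdc : ContinuousAt (fderiv ℝ u) 0 :=
    (hu.continuousOn_fderiv_of_isOpen isOpen_ball le_rfl).continuousAt (ball_mem_nhds _ hr)
  set C1 : ℝ := ‖fderiv ℝ u 0‖ + 1 with hC1
  set E : ℝ := max C' (max C1 (D0 * C')) with hE
  have hE0 : 0 ≤ E := hC'.trans (le_max_left _ _)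
  have hev : ∀ᶠ s in 𝓝 (0 : ℂ), ‖fderiv ℝ u s‖ < C1 ∧ u s ∈ ball (0 : ℂ × ℂ) δ ∧
      E * ‖s‖ ^ M < δ ∧ ∀ c, ‖(u s).1‖ < η c ^ m c := by
    refine Filter.Eventually.and ?_ (Filter.Eventually.and ?_ (Filter.Eventually.and ?_ ?_))
    · exact hdc.norm.eventually (Iio_mem_nhds (by rw [hC1]; linarith))
    · refine huc.preimage_mem_nhds ?_
      rw [hu0]; exact ball_mem_nhds _ hB.pos
    · have e1 : Continuous fun s : ℂ => E * ‖s‖ ^ M := by fun_prop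
      have e2 := e1.tendsto 0
      rw [norm_zero, zero_pow hMne, mul_zero] at e2
      exact e2.eventually (Iio_mem_nhds hB.pos)
    · rw [Filter.eventually_all]
      intro c
      have e1 : ContinuousAt (fun s => ‖(u s).1‖) 0 := (continuous_fst.continuousAt.comp huc).norm
      have e2 : ‖(u 0).1‖ = 0 := by rw [hu0]; simp
      refine e1.eventually (Iio_mem_nhds ?_)
      show ‖(u 0).1‖ < _
      rw [e2]
      exact pow_pos (hη c) _
  obtain ⟨r2, hr2, hr3⟩ := Metric.eventually_nhds_iff_ball.1 hev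
  set r0 : ℝ := min r r2 with hr0
  have hr00 : 0 < r0 := lt_min hr hr2
  have hs1 : ball (0 : ℂ) r0 ⊆ ball 0 r := ball_subset_ball (min_le_left _ _)
  have hs2 : ball (0 : ℂ) r0 ⊆ ball 0 r2 := ball_subset_ball (min_le_right _ _)
  have hfd : ∀ s ∈ ball (0 : ℂ) r0, DifferentiableAt ℝ u s := fun s hs =>
    (hu.contDiffAt (isOpen_ball.mem_nhds (hs1 hs))).differentiableAt one_ne_zero
  have hf1 : ∀ s ∈ ball (0 : ℂ) r0, ‖fderiv ℝ (fun s => (u s).1) s‖ ≤ E := by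
    intro s hs
    have h : HasFDerivAt (fun s => (u s).1) ((ContinuousLinearMap.fst ℝ ℂ ℂ).comp (fderiv ℝ u s))
      s := hasFDerivAt_fst.comp s (hfd s hs).hasFDerivAt
    rw [h.fderiv]
    have h3 : ‖(ContinuousLinearMap.fst ℝ ℂ ℂ).comp (fderiv ℝ u s)‖ ≤ ‖fderiv ℝ u s‖ := by
      refine ContinuousLinearMap.opNorm_le_bound _ (norm_nonneg _) fun w => ?_
      exact (norm_fst_le (fderiv ℝ u s w)).trans ((fderiv ℝ u s).le_opNorm w)
    exact h3.trans ((hr3 s (hs2 hs)).1.le.trans ((le_max_left _ _).trans (le_max_right _ _)))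
  have hf2 : ∀ s ∈ ball (0 : ℂ) r0, ‖fderiv ℝ (fun s => (u s).2) s‖ ≤ E := by
    intro s hs
    have h : HasFDerivAt (fun s => (u s).2) ((ContinuousLinearMap.snd ℝ ℂ ℂ).comp (fderiv ℝ u s))
      s := hasFDerivAt_snd.comp s (hfd s hs).hasFDerivAt
    rw [h.fderiv]
    have h3 : ‖(ContinuousLinearMap.snd ℝ ℂ ℂ).comp (fderiv ℝ u s)‖ ≤ ‖fderiv ℝ u s‖ := by
      refine ContinuousLinearMap.opNorm_le_bound _ (norm_nonneg _) fun w => ?_
      exact (norm_snd_le (fderiv ℝ u s w)).trans ((fderiv ℝ u s).le_opNorm w)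
    exact h3.trans ((hr3 s (hs2 hs)).1.le.trans ((le_max_left _ _).trans (le_max_right _ _)))
  have hmem : ∀ s ∈ ball (0 : ℂ) r0, ∀ w : ℂ, ‖w‖ ≤ E * ‖s‖ ^ M →
      ((u s).1, w) ∈ ball (0 : ℂ × ℂ) δ := by
    intro s hs w hw
    obtain ⟨-, e2, e3, -⟩ := hr3 s (hs2 hs)
    rw [mem_ball, dist_zero_right] at e2 ⊢
    exact max_lt ((norm_fst_le (u s)).trans_lt e2) (hw.trans_lt e3)
  have hbeta : ∀ s ∈ ball (0 : ℂ) r0, ∀ w : ℂ, ‖(u s) - ((u s).1, w)‖ = ‖(u s).2 - w‖ := by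
    intro s _ w
    have : (u s) - ((u s).1, w) = (0, (u s).2 - w) := by
      refine Prod.ext ?_ rfl
      simp
    rw [this, Prod.norm_def]
    simp
  suffices h : ∃ N : ℤ, ((M * k' : ℕ) : ℤ) ≤ N ∧ ∀ r', 0 < r' → r' < r0 → IsW H 0 r' N by
    obtain ⟨N, hN, hW⟩ := h
    exact ⟨r0, hr00, min_le_left _ _, N, hN, hW⟩
  refine hwind (μ := fun x => mu (J x)) (β := fun x => be (J x))
    (ζ := fun s => (u s).1) (z := fun s => (u s).2) (H := H) (κ := 1 / 2) (L := L) (B := 1)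
    (Λ := Λ0) (C := E) (m := M) (k' := k') hr00 ((hu.mono hs1).snd) ?_ hB.posL hf1 hf2 ?_ ?_ ?_ ?_
    ?_ (fun s hs hs0 => hH0 s (hs1 hs) hs0) ?_
  · intro s hs _
    exact jc_of (hB.vj _ (hr3 s (hs2 hs)).2.1) rfl (hJ s (hs1 hs)).1 (hJ s (hs1 hs)).2
  · intro s hs
    refine (h2 s (hs1 hs)).trans ?_
    gcongr
    exact le_max_left _ _
  · intro s hs w hw
    exact hB.mle _ (hmem s hs w hw)
  · intro s hs w hw
    exact hB.ble _ (hmem s hs w hw)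
  · intro s hs w hw
    have := hB.mlip _ (hr3 s (hs2 hs)).2.1 _ (hmem s hs w hw)
    rw [hbeta s hs w] at this
    exact this
  · intro s hs w hw
    have := hB.blip _ (hr3 s (hs2 hs)).2.1 _ (hmem s hs w hw)
    rw [hbeta s hs w] at this
    exact this
  · intro s hs hs0
    obtain ⟨c, om, hom, hH⟩ := hloc s (hs1 hs) hs0
    refine ⟨fun i t => Zf (v (c i)) (e (c i)) (om i t), fun i => ?_, hH⟩
    obtain ⟨o1, o2, o3⟩ := hom i
    have hlt : ‖om i s‖ < η (c i) := by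
      have e1 := (hr3 s (hs2 hs)).2.2.2 (c i)
      rw [← o3.self_of_nhds, norm_pow] at e1
      exact lt_of_pow_lt_pow_left₀ _ (hη _).le e1
    obtain ⟨q1, ⟨l, hl, hl2⟩, q3⟩ := hsh (c i) (fun s => (u s).1) (om i) s o1 o3 o2 hlt
    refine ⟨q1, ⟨l, hl.trans (hΛle _), hl2⟩, ?_⟩
    refine q3.trans ?_
    calc D (c i) * ‖(u s).1‖ ≤ D0 * (C' * ‖s‖ ^ M) := by
          have := hDle (c i)
          have := h1 s (hs1 hs)
          gcongr
      _ = (D0 * C') * ‖s‖ ^ M := by ring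
      _ ≤ E * ‖s‖ ^ M := by
          gcongr
          exact (le_max_right _ _).trans (le_max_right _ _)

theorem windT {δ L : ℝ} (hB : MB J δ L) (B : ∀ c, Br J (v c) r1 (m c) (a c) C (e c))
    {u : ℂ → ℂ × ℂ} {r C' : ℝ} {M : ℕ} (hM : 1 ≤ M) (hr : 0 < r)
    (hu : ContDiffOn ℝ 1 u (ball 0 r)) (hJ : JHol J u (ball 0 r))
    (h1 : ∀ s ∈ ball (0 : ℂ) r, ‖(u s).1‖ ≤ C' * ‖s‖ ^ M)
    (h2 : ∀ s ∈ ball (0 : ℂ) r, ‖(u s).2‖ ≤ C' * ‖s‖ ^ M) {H : ℂ → ℂ}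
    (hH0 : ∀ s ∈ ball (0 : ℂ) r, s ≠ 0 → H s ≠ 0) (T : Finset (Σ _ : Fin n, ℕ))
    (hloc : ∀ s ∈ ball (0 : ℂ) r, s ≠ 0 → ∃ (om : (Σ _ : Fin n, ℕ) → ℂ → ℂ),
      (∀ p ∈ T, ContDiffAt ℝ 1 (om p) s ∧ om p s ≠ 0 ∧
        ∀ᶠ t in 𝓝 s, om p t ^ m p.1 = (u t).1) ∧
      H =ᶠ[𝓝 s] fun t => ∏ p ∈ T, ((u t).2 - Zf (v p.1) (e p.1) (om p t))) :
    ∃ r0 > 0, r0 ≤ r ∧ ∃ N : ℤ, ((M * T.card : ℕ) : ℤ) ≤ N ∧
      ∀ r', 0 < r' → r' < r0 → IsW H 0 r' N := by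
  refine windS hB B hM hr hu hJ h1 h2 hH0 fun s hs hs0 => ?_
  obtain ⟨om, hom, hH⟩ := hloc s hs hs0
  refine ⟨fun i => (T.equivFin.symm i).1.1, fun i => om (T.equivFin.symm i).1,
    fun i => hom _ (T.equivFin.symm i).2, ?_⟩
  filter_upwards [hH] with t ht
  rw [ht]
  have e1 := Equiv.prod_comp T.equivFin.symm
    (fun p : T => ((u t).2 - Zf (v p.1.1) (e p.1.1) (om p.1 t)))
  rw [e1]
  exact (Finset.prod_coe_sort T fun p => ((u t).2 - Zf (v p.1) (e p.1) (om p t))).symm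

/-- the roots of a nonzero number -/
theorem exists_root_ne {k : ℕ} (hk : k ≠ 0) {ζ : ℂ} (h : ζ ≠ 0) : ∃ w : ℂ, w ^ k = ζ ∧ w ≠ 0 := by
  obtain ⟨w, hw⟩ := exists_root hk ζ
  refine ⟨w, hw, ?_⟩
  rintro rfl
  rw [zero_pow hk] at hw
  exact h hw.symm

theorem contDiffAt_bt_comp {k : ℕ} {w : ℂ} (hw : w ≠ 0) (j : ℕ) {f : ℂ → ℂ} {s : ℂ}
    (hf : ContDiffAt ℝ 1 f s) (h : f s = w ^ k) :
    ContDiffAt ℝ 1 (fun t => xi k ^ j * bt k w (f t)) s := by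
  have h1 : ContDiffAt ℝ 1 (bt k w) (w ^ k) :=
    (analyticAt_bt (self_mem_cutPlane hw)).contDiffAt.restrict_scalars ℝ
  rw [← h] at h1
  exact contDiffAt_const.mul (h1.comp s hf)

/-- **winding number along another curve** -/
theorem windF {δ L : ℝ} (hB : MB J δ L) (B : ∀ c, Br J (v c) r1 (m c) (a c) C (e c))
    {u : ℂ → ℂ × ℂ} {r C' : ℝ} {M : ℕ} (hM : 1 ≤ M) (hr : 0 < r)
    (hu : ContDiffOn ℝ 1 u (ball 0 r)) (hJ : JHol J u (ball 0 r))
    (h1 : ∀ s ∈ ball (0 : ℂ) r, ‖(u s).1‖ ≤ C' * ‖s‖ ^ M)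
    (h2 : ∀ s ∈ ball (0 : ℂ) r, ‖(u s).2‖ ≤ C' * ‖s‖ ^ M)
    (hne : ∀ s ∈ ball (0 : ℂ) r, s ≠ 0 → (u s).1 ≠ 0)
    (hH0 : ∀ s ∈ ball (0 : ℂ) r, s ≠ 0 →
      bp m (fun c => Zf (v c) (e c)) (u s).1 (u s).2 ≠ 0) :
    ∃ r0 > 0, r0 ≤ r ∧ ∃ N : ℤ, ((M * ∑ c, m c : ℕ) : ℤ) ≤ N ∧
      ∀ r', 0 < r' → r' < r0 →
        IsW (fun s => bp m (fun c => Zf (v c) (e c)) (u s).1 (u s).2) 0 r' N := by
  have hm : ∀ c, m c ≠ 0 := fun c => by have := (B c).m_pos; omega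
  set T : Finset (Σ _ : Fin n, ℕ) := Finset.univ.sigma (fun c => Finset.range (m c)) with hT
  have hc : T.card = ∑ c, m c := by simp [hT]
  rw [← hc]
  refine windT hB B hM hr hu hJ h1 h2 hH0 T fun s hs hs0 => ?_
  have hus : ContDiffAt ℝ 1 u s := hu.contDiffAt (isOpen_ball.mem_nhds hs)
  choose w hw hw0 using fun c => exists_root_ne (hm c) (hne s hs hs0)
  refine ⟨fun p t => xi (m p.1) ^ p.2 * bt (m p.1) (w p.1) (u t).1, fun p _ => ⟨?_, ?_, ?_⟩, ?_⟩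
  · exact contDiffAt_bt_comp (hw0 p.1) p.2 hus.fst (hw p.1).symm
  · exact mul_ne_zero (xi_pow_ne (hm _) _) (bt_ne (hm _) (hw0 _) (hne s hs hs0))
  · refine Eventually.of_forall fun t => ?_
    rw [mul_pow, xi_pow_pow (hm _), one_mul, bt_pow (hm _) (hw0 _)]
  · refine Eventually.of_forall fun t => ?_
    show bp m (fun c => Zf (v c) (e c)) (u t).1 (u t).2 = _
    rw [bp, hT]
    refine Eq.trans ?_ (Finset.prod_sigma _ _ _).symm
    refine Finset.prod_congr rfl fun c _ => ?_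
    exact rp_bt (hm c) _ (hw0 c) _ _

theorem Br.pt {v : ℂ → ℂ × ℂ} {r1 : ℝ} {m : ℕ} {a : ℂ} {C : ℝ} {e : OpenPartialHomeomorph ℂ ℂ}
    (B : Br J v r1 m a C e) {w : ℂ} (hw : w ∈ e.target) : v (e.symm w) = (w ^ m, Zf v e w) := by
  refine Prod.ext ?_ rfl
  have h1 := B.pow _ (e.map_target hw)
  rw [e.right_inv hw] at h1
  exact h1.symm

/-- a common radius of the targets -/
theorem exists_tgt (B : ∀ c, Br J (v c) r1 (m c) (a c) C (e c)) :
    ∃ η > 0, ∀ c, ball (0 : ℂ) η ⊆ (e c).target := by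
  have h : ∀ c, ∃ η > 0, ball (0 : ℂ) η ⊆ (e c).target := fun c =>
    Metric.isOpen_iff.1 (e c).open_target 0 (B c).mem0t
  choose η hη hη2 using h
  obtain ⟨η0, h0, h1⟩ := exists_pos_le hη
  exact ⟨η0, h0, fun c => (ball_subset_ball (h1 c)).trans (hη2 c)⟩

theorem mem_tgt {η : ℝ} (hη : 0 < η) {k : ℕ} {w ζ : ℂ} (hw : w ^ k = ζ) (h : ‖ζ‖ < η ^ k) :
    w ∈ ball (0 : ℂ) η := by
  rw [mem_ball, dist_zero_right]
  rw [← hw, norm_pow] at h
  exact lt_of_pow_lt_pow_left₀ _ hη.le h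

/-- **winding number of the factor of the derivative along a branch** -/
theorem windHb {δ L : ℝ} (hB : MB J δ L) (B : ∀ c, Br J (v c) r1 (m c) (a c) C (e c))
    (sep : ∀ i j, ∀ s ∈ ball (0 : ℂ) r1, ∀ t ∈ ball (0 : ℂ) r1, v i s = v j t → s ≠ 0 →
      i = j ∧ s = t) (b : Fin n) :
    ∃ r0 > 0, ball 0 r0 ⊆ (e b).source ∧
      (∀ s ∈ ball (0 : ℂ) r0, s ≠ 0 → hb m (fun c => Zf (v c) (e c)) b (e b s) ≠ 0) ∧
      ∃ N : ℤ, ((m b * (∑ c, m c - 1) : ℕ) : ℤ) ≤ N ∧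
      ∀ r', 0 < r' → r' < r0 →
        IsW (fun s => hb m (fun c => Zf (v c) (e c)) b (e b s)) 0 r' N := by
  have hm : ∀ c, m c ≠ 0 := fun c => by have := (B c).m_pos; omega
  obtain ⟨η, hη, htgt⟩ := exists_tgt B
  -- the radius
  have hvc : ContinuousAt (v b) 0 := (B b).contAt
  have hev : ∀ᶠ s in 𝓝 (0 : ℂ), s ∈ (e b).source ∧ ∀ c, ‖(v b s).1‖ < η ^ m c := by
    refine Filter.Eventually.and ((e b).open_source.mem_nhds (B b).mem0) ?_
    rw [Filter.eventually_all]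
    intro c
    have e1 : ContinuousAt (fun s => ‖(v b s).1‖) 0 := (continuous_fst.continuousAt.comp hvc).norm
    refine e1.eventually (Iio_mem_nhds ?_)
    show ‖(v b 0).1‖ < _
    rw [(B b).v0]
    simpa using pow_pos hη _
  obtain ⟨r, hr, hrr⟩ := Metric.eventually_nhds_iff_ball.1 hev
  have hsrc : ball (0 : ℂ) r ⊆ (e b).source := fun s hs => (hrr s hs).1
  have hball : ball (0 : ℂ) r ⊆ ball 0 r1 := hsrc.trans (B b).src
  set Z : Fin n → ℂ → ℂ := fun c => Zf (v c) (e c) with hZ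
  have hes : ∀ s ∈ ball (0 : ℂ) r, s ≠ 0 → e b s ≠ 0 := by
    intro s hs hs0 h0
    apply hs0
    have h1 := (e b).left_inv (hsrc hs)
    rw [h0, (B b).symm0] at h1
    exact h1.symm
  have hZb : ∀ s ∈ ball (0 : ℂ) r, Z b (e b s) = (v b s).2 := by
    intro s hs
    show (v b ((e b).symm (e b s))).2 = _
    rw [(e b).left_inv (hsrc hs)]
  have hpw : ∀ s ∈ ball (0 : ℂ) r, e b s ^ m b = (v b s).1 := fun s hs => (B b).pow s (hsrc hs)
  have hpt : ∀ s ∈ ball (0 : ℂ) r, s ≠ 0 → ∀ c w, w ^ m c = (v b s).1 → (v b s).2 = Z c w →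
      b = c ∧ w = e c s := by
    intro s hs hs0 c w hw1 hw2
    have h1 := htgt c (mem_tgt hη hw1 ((hrr s hs).2 c))
    have h2 : v b s = v c ((e c).symm w) := by
      rw [(B c).pt h1]
      exact Prod.ext hw1.symm hw2
    obtain ⟨h3, h4⟩ := sep b c s (hball hs) _ ((B c).src ((e c).map_target h1)) h2 hs0
    refine ⟨h3, ?_⟩
    rw [h4, (e c).right_inv h1]
  have hH0 : ∀ s ∈ ball (0 : ℂ) r, s ≠ 0 → hb m Z b (e b s) ≠ 0 := by
    intro s hs hs0 h0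
    rw [hb] at h0
    rcases mul_eq_zero.1 h0 with h1 | h1
    · obtain ⟨c, hc, h2⟩ := Finset.prod_eq_zero_iff.1 h1
      rw [hpw s hs, hZb s hs] at h2
      obtain ⟨w, hw1, hw2⟩ := (rp_eq_zero (hm c) _ _ _).1 h2
      exact (Finset.ne_of_mem_erase hc) (hpt s hs hs0 c w hw1 hw2).1.symm
    · rw [hk] at h1
      obtain ⟨j, hj, h2⟩ := Finset.prod_eq_zero_iff.1 h1
      rw [Finset.mem_Ico] at hj
      rw [hZb s hs] at h2
      have h3 : (xi (m b) ^ j * e b s) ^ m b = (v b s).1 := by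
        rw [mul_pow, xi_pow_pow (hm b), one_mul, hpw s hs]
      have h4 := (hpt s hs hs0 b _ h3 (sub_eq_zero.1 h2)).2
      have h5 : xi (m b) ^ j = 1 := by
        have h6 := hes s hs hs0
        have h7 : (xi (m b) ^ j - 1) * e b s = 0 := by linear_combination h4
        rcases mul_eq_zero.1 h7 with h8 | h8
        · linear_combination h8
        · exact absurd h8 h6
      exact (xi_prim (hm b)).pow_ne_one_of_pos_of_lt (by omega) hj.2 h5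
  set T : Finset (Σ _ : Fin n, ℕ) :=
    Finset.univ.sigma (fun c => if c = b then Finset.Ico 1 (m b) else Finset.range (m c)) with hT
  have hcard : T.card = ∑ c, m c - 1 := by
    have e1 : T.card = ∑ c, (if c = b then m b - 1 else m c) := by
      rw [hT, Finset.card_sigma]
      refine Finset.sum_congr rfl fun c _ => ?_
      split_ifs <;> simp
    rw [e1, ← Finset.add_sum_erase _ _ (Finset.mem_univ b),
      ← Finset.add_sum_erase Finset.univ m (Finset.mem_univ b), if_pos rfl]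
    have e2 : ∑ c ∈ Finset.univ.erase b, (if c = b then m b - 1 else m c) =
        ∑ c ∈ Finset.univ.erase b, m c :=
      Finset.sum_congr rfl fun c hc => if_neg (Finset.ne_of_mem_erase hc)
    rw [e2]
    have := (B b).m_pos
    omega
  rw [← hcard]
  -- bounds
  have hvr : ∀ s ∈ ball (0 : ℂ) r, ‖s‖ ≤ r1 := fun s hs => by
    have := hball hs
    rw [mem_ball, dist_zero_right] at this
    exact this.le
  suffices h : ∃ r0 > 0, r0 ≤ r ∧ ∃ N : ℤ, ((m b * T.card : ℕ) : ℤ) ≤ N ∧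
      ∀ r', 0 < r' → r' < r0 → IsW (fun s => hb m Z b (e b s)) 0 r' N by
    obtain ⟨r0, hr0, hr0r, N, hN, hW⟩ := h
    exact ⟨r0, hr0, (ball_subset_ball hr0r).trans hsrc,
      fun s hs hs0 => hH0 s (ball_subset_ball hr0r hs) hs0, N, hN, hW⟩
  have hCn := (B b).C_nonneg
  have hr1 := (B b).r1_pos
  refine windT hB B (u := v b) (r := r)
    (C' := ‖a b‖ + C * r1 + C) (M := m b) (B b).m_pos hr
    (((B b).smooth.mono hball).of_le (by exact_mod_cast le_top))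
    (fun s hs => (B b).hol s (hball hs)) ?_ ?_ (H := fun s => hb m Z b (e b s)) hH0 T ?_
  · intro s hs
    have h1 := (B b).ζ0 s (hball hs)
    have h2 : ‖(v b s).1‖ ≤ ‖(v b s).1 - a b * s ^ m b‖ + ‖a b * s ^ m b‖ := by
      have : (v b s).1 = ((v b s).1 - a b * s ^ m b) + a b * s ^ m b := by ring
      conv_lhs => rw [this]
      exact norm_add_le _ _
    rw [norm_mul, norm_pow] at h2
    have h3 : C * ‖s‖ ^ (m b + 1) ≤ C * r1 * ‖s‖ ^ m b := by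
      rw [pow_succ]
      have := hvr s hs
      calc C * (‖s‖ ^ m b * ‖s‖) ≤ C * (‖s‖ ^ m b * r1) := by gcongr
        _ = C * r1 * ‖s‖ ^ m b := by ring
    have h4 : 0 ≤ C * ‖s‖ ^ m b := by positivity
    linarith
  · intro s hs
    refine ((B b).z0 s (hball hs)).trans ?_
    have h4 : 0 ≤ (‖a b‖ + C * r1) * ‖s‖ ^ m b := by positivity
    linarith
  · intro s hs hs0
    have hbs := hes s hs hs0
    have hζne : (v b s).1 ≠ 0 := by
      rw [← hpw s hs]; exact pow_ne_zero _ hbs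
    choose w hw hw0 using fun c => exists_root_ne (hm c) hζne
    have hnb : ball (0 : ℂ) r ∈ 𝓝 s := isOpen_ball.mem_nhds hs
    have hvs : ContDiffAt ℝ 1 (v b) s :=
      ((B b).smooth.contDiffAt (isOpen_ball.mem_nhds (hball hs))).of_le (by exact_mod_cast le_top)
    have hecs : ContDiffAt ℝ 1 (e b) s :=
      (B b).c1.contDiffAt ((e b).open_source.mem_nhds (hsrc hs))
    refine ⟨fun p t => if p.1 = b then xi (m b) ^ p.2 * e b t else
      xi (m p.1) ^ p.2 * bt (m p.1) (w p.1) (v b t).1, fun p _ => ?_, ?_⟩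
    · by_cases hp : p.1 = b
      · simp only [if_pos hp]
        refine ⟨contDiffAt_const.mul hecs, mul_ne_zero (xi_pow_ne (hm _) _) hbs, ?_⟩
        filter_upwards [hnb] with t ht
        rw [hp, mul_pow, xi_pow_pow (hm _), one_mul, hpw t ht]
      · simp only [if_neg hp]
        refine ⟨contDiffAt_bt_comp (hw0 p.1) p.2 hvs.fst (hw p.1).symm,
          mul_ne_zero (xi_pow_ne (hm _) _) (bt_ne (hm _) (hw0 _) hζne),
          Eventually.of_forall fun t => ?_⟩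
        rw [mul_pow, xi_pow_pow (hm _), one_mul, bt_pow (hm _) (hw0 _)]
    · filter_upwards [hnb] with t ht
      rw [hb, hT]
      refine Eq.trans ?_ (Finset.prod_sigma _ _ _).symm
      rw [← Finset.prod_erase_mul _ _ (Finset.mem_univ b), hpw t ht, hZb t ht]
      congr 1
      · refine Finset.prod_congr rfl fun c hc => ?_
        have hcb := Finset.ne_of_mem_erase hc
        rw [if_neg hcb, rp_bt (hm c) _ (hw0 c)]
        refine Finset.prod_congr rfl fun j _ => ?_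
        simp only [if_neg hcb]
        rfl
      · rw [if_pos rfl, hk]
        refine Finset.prod_congr rfl fun j _ => ?_
        rw [hZb t ht]
        simp only [if_pos]
        rfl

end many

end

end Crest.Agent.R235.AdjSheet_688
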