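import Crest.Agent.R235.Top_837

/-!
Row 235 (S0364), helper844: the package-level Props consumed by the top theorem
(`Top_844.lean`: `CONE, HKCONE, ROOT, DICH, BPLUS, KUM, TOR, LATK, LATT ⇒ MAIN`), over the common
definitions `Defs_837`.  VERSION 2 (20:05Z): only NC pairs (helper861 #1632).  No homotopy lifting, no `π₁`: the property "joined inside the classes to
a hyperkaehler triple" is constant on path components of the space of all positive triples.
-/

set_option autoImplicit false
set_option maxSynthPendingDepth 3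

open Set Function Filter MeasureTheory
open scoped Manifold ContDiff Topology

universe u

namespace Crest.Agent.R235

open Crest.Agent.R240 Crest.Agent.R240.Ch

noncomputable section

section Defs

variable {M : Type u} [TopologicalSpace M] [T2Space M] [CompactSpace M]
  [ChartedSpace E4 M] [IsManifold 𝓘(ℝ, E4) ∞ M]

/-- the class of `w`. -/
def clw (w : Trip M) : Fin 3 → H2 M := fun i => cls (w i)

/-- a frame of classes spans a positive definite three-space (orientation of `F`). -/
def PosCls (F : Z2 M) (c : Fin 3 → H2 M) : Prop :=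
  ∀ a : Fin 3 → ℝ, a ≠ 0 → 0 < ip F (∑ i, a i • c i) (∑ i, a i • c i)

/-- the roots which matter: none for torus type. -/
def Rt (F : Z2 M) : Set (H2 M) := {d | K3Type F ∧ d ∈ Root F}

/-- the dangerous classes: integral classes of square `≥ 0`, and roots. -/
def Dg (F : Z2 M) : Set (H2 M) := {e | e ∈ HZ M ∧ e ≠ 0 ∧ (0 ≤ ip F e e ∨ e ∈ Rt F)}

/-- the pair `(c i, i ≠ k)` is NC: no dangerous class is orthogonal to it (so the almost complex
structure of such a pair has no curves). -/
def NC (F : Z2 M) (c : Fin 3 → H2 M) (k : Fin 3) : Prop :=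
  ∀ e ∈ Dg F, ∃ i, i ≠ k ∧ ip F e (c i) ≠ 0

/-- CLASS CONDITION for replacing the `k`-th class of the frame `c` by `x`: the segment of frames
stays positive, and the fixed pair is NC. -/
def CCond (F : Z2 M) (c : Fin 3 → H2 M) (k : Fin 3) (x : H2 M) : Prop :=
  (∀ t ∈ Icc (0 : ℝ) 1, PosCls F (fun i => (1 - t) • c i + t • update c k x i)) ∧ NC F c k

/-- sixteen disjoint roots whose sum is divisible by two. -/
structure KumConf (F : Z2 M) (d : Fin 16 → H2 M) : Prop where
  root : ∀ i, d i ∈ Root F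
  orth : ∀ i j, i ≠ j → ip F (d i) (d j) = 0
  half : ((1 : ℝ) / 2) • ∑ i, d i ∈ HZ M

/-- the classes `b` (with `b 1`, `b 2` the pair and `b 0` the third one) are in Kummer position
for `d`. -/
structure KumPos (F : Z2 M) (d : Fin 16 → H2 M) (b : Fin 3 → H2 M) : Prop where
  conf : KumConf F d
  perp1 : ∀ i, ip F (d i) (b 1) = 0
  perp2 : ∀ i, ip F (d i) (b 2) = 0
  only : ∀ e ∈ Root F, ip F e (b 1) = 0 → ip F e (b 2) = 0 → ∃ i, e = d i ∨ e = - d i
  pos : ∀ i, 0 < ip F (d i) (b 0)
  gen : ∀ e ∈ HZ M, e ≠ 0 → ip F e (b 0) ≠ 0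

/-- the classes `b` are in elliptic position for the isotropic class `e`. -/
structure TorPos (F : Z2 M) (e : H2 M) (b : Fin 3 → H2 M) : Prop where
  int : e ∈ HZ M
  iso : ip F e e = 0
  perp1 : ip F e (b 1) = 0
  perp2 : ip F e (b 2) = 0
  only : ∀ c ∈ HZ M, ip F c (b 1) = 0 → ip F c (b 2) = 0 → ∃ n : ℤ, c = (n : ℝ) • e
  pos : 0 < ip F e (b 0)
  gen : ∀ c ∈ HZ M, c ≠ 0 → ip F c (b 0) ≠ 0

end Defs

/-- CONE (owner 844; from HBN, EXJ, CLS, NEGN, BPLUS): closed forms in the classes allowed by the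
class condition. -/
def CONE : Prop :=
  ∀ (M : Type u) [TopologicalSpace M] [T2Space M] [CompactSpace M] [ConnectedSpace M]
    [ChartedSpace E4 M] [IsManifold 𝓘(ℝ, E4) ∞ M] (w : Trip M), Pos3 w →
    ∀ (k : Fin 3) (x : H2 M), CCond (w 0) (clw w) k x →
    ∃ a : Z2 M, cls a = x ∧ Seg w (update w k a)

/-- HKCONE (from STF by normalisation; owner 844): the same, hyperkaehler. -/
def HKCONE : Prop :=
  ∀ (M : Type u) [TopologicalSpace M] [T2Space M] [CompactSpace M] [ConnectedSpace M]
    [ChartedSpace E4 M] [IsManifold 𝓘(ℝ, E4) ∞ M] (w : Trip M), Pos3 w → HK w →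
    ∀ (k : Fin 3) (x : H2 M), CCond (w 0) (clw w) k x →
    ∃ a : Z2 M, cls a = x ∧ Seg w (update w k a) ∧ HK (update w k a)

/-- NEGN (CUR + REG + ADJ): if the pair `(w 1, w 2)` is NC, positive closed currents have square
`≥ 0` (their density vanishes almost everywhere, because a curve `C` has integral class orthogonal
to the pair, so `C² < 0`, and adjunction gives `C² = -2`, K3 type, `C` a root). -/
def NEGN : Prop :=
  ∀ (M : Type u) [TopologicalSpace M] [T2Space M] [CompactSpace M] [ConnectedSpace M]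
    [ChartedSpace E4 M] [IsManifold 𝓘(ℝ, E4) ∞ M] (w : Trip M) (J : EndF E4 M), Pos3 w → IsJ w J →
    NC (w 0) (clw w) 0 →
    ∀ (S : X2 M →ₗ[ℝ] ℝ) (s : H2 M), PCur J S →
    (∀ b : Z2 M, S b.1 = ip (w 0) s (cls b)) → 0 ≤ ip (w 0) s s

/-- STF: the normalised form of HKCONE.  `w` is a hyperkaehler triple with
`W (w i) (w j) = δ i j * s`, the pair `(w 1, w 2)` is NC, `c` is a class orthogonal to the pair,
in the same positive cone as `w 0`. -/
def STF : Prop :=
  ∀ (M : Type u) [TopologicalSpace M] [T2Space M] [CompactSpace M] [ConnectedSpace M]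
    [ChartedSpace E4 M] [IsManifold 𝓘(ℝ, E4) ∞ M] (w : Trip M), Pos3 w →
    (∀ x : M, ∃ s : ℝ, ∀ i j, W (val (w i) x) (val (w j) x) = if i = j then s else 0) →
    NC (w 0) (clw w) 0 →
    ∀ c : H2 M, 0 < ip (w 0) c c → 0 < ip (w 0) c (cls (w 0)) → ip (w 0) c (cls (w 1)) = 0 →
    ip (w 0) c (cls (w 2)) = 0 →
    ∃ a : Z2 M, cls a = c ∧ Seg w (update w 0 a) ∧ HK (update w 0 a)

/-- KUM: triples whose classes are in Kummer position are joined to hyperkaehler triples
(the classes may vary along the path). -/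
def KUM : Prop :=
  ∀ (M : Type u) [TopologicalSpace M] [T2Space M] [CompactSpace M] [ConnectedSpace M]
    [ChartedSpace E4 M] [IsManifold 𝓘(ℝ, E4) ∞ M] (w : Trip M) (d : Fin 16 → H2 M), Pos3 w →
    K3Type (w 0) → KumPos (w 0) d (clw w) → ∃ w' : Trip M, PL w w' ∧ HK w'


/-- LATK (lattices): a positive frame in Kummer position exists, in the right component. -/
def LATK : Prop :=
  ∀ (M : Type u) [TopologicalSpace M] [T2Space M] [CompactSpace M] [ConnectedSpace M]
    [ChartedSpace E4 M] [IsManifold 𝓘(ℝ, E4) ∞ M] (w : Trip M), Pos3 w → K3Type (w 0) →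
    ∃ (d : Fin 16 → H2 M) (b : Fin 3 → H2 M), Frame w b ∧ KumPos (w 0) d b


end

end Crest.Agent.R235
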