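import Crest.Agent.R235.Ip2_288
import Crest.Agent.R235.Props_844
import Crest.Agent.R235.LatS_723

/-!
Row 235 (S0364), helper723: `b⁺ = 3` from the dichotomy (`bplus_of_dich`).
-/

set_option autoImplicit false
set_option maxSynthPendingDepth 3

open Set Function Filter MeasureTheory
open scoped Manifold ContDiff Topology

universe u

namespace Crest.Agent.R235

open Crest.Agent.R240 Crest.Agent.R240.Ch Crest.Agent.R240.Int

namespace BPlus_723

noncomputable section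

/-- the index type of the K3 lattice -/
abbrev IK : Type := Fin 3 × Fin 2 ⊕ Fin 2 × Fin 8

theorem gK3_form (x y : IK → ℝ) :
    ∑ a, ∑ b, x a * y b * (gK3 a b : ℝ) =
      (∑ i : Fin 3, (x (Sum.inl (i, 0)) * y (Sum.inl (i, 1)) +
        x (Sum.inl (i, 1)) * y (Sum.inl (i, 0)))) -
      ∑ j : Fin 2, ∑ s : Fin 8, ∑ t : Fin 8, x (Sum.inr (j, s)) * y (Sum.inr (j, t)) *
        (CartanMatrix.E₈ s t : ℝ) := by
  have h1 : ∀ a : Fin 3 × Fin 2, ∑ b, x (Sum.inl a) * y b * (gK3 (Sum.inl a) b : ℝ) =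
      x (Sum.inl a) * y (Sum.inl (a.1, 1 - a.2)) := by
    rintro ⟨i, s⟩
    rw [Fintype.sum_sum_type, Fintype.sum_prod_type]
    simp only [gK3, Int.cast_zero, mul_zero, Finset.sum_const_zero, add_zero]
    rw [Finset.sum_eq_single i]
    · fin_cases s <;> simp [Fin.sum_univ_two]
    · intro j _ hj
      refine Finset.sum_eq_zero fun t _ => ?_
      rw [if_neg]
      · simp
      · rintro ⟨h, _⟩
        exact hj h.symm
    · intro h
      exact absurd (Finset.mem_univ _) h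
  have h2 : ∀ a : Fin 2 × Fin 8, ∑ b, x (Sum.inr a) * y b * (gK3 (Sum.inr a) b : ℝ) =
      - ∑ t : Fin 8, x (Sum.inr a) * y (Sum.inr (a.1, t)) * (CartanMatrix.E₈ a.2 t : ℝ) := by
    rintro ⟨i, s⟩
    rw [Fintype.sum_sum_type, Fintype.sum_prod_type, Fintype.sum_prod_type]
    simp only [gK3, Int.cast_zero, mul_zero, Finset.sum_const_zero, zero_add]
    rw [Finset.sum_eq_single i]
    · rw [← Finset.sum_neg_distrib]
      refine Finset.sum_congr rfl fun t _ => ?_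
      simp
    · intro j _ hj
      refine Finset.sum_eq_zero fun t _ => ?_
      rw [if_neg (fun h => hj h.symm)]
      simp
    · intro h
      exact absurd (Finset.mem_univ _) h
  rw [Fintype.sum_sum_type]
  simp only [h1, h2]
  rw [Fintype.sum_prod_type, Fintype.sum_prod_type]
  simp only [Fin.sum_univ_two, Finset.sum_neg_distrib]
  simp only [sub_zero, sub_self]
  ring

variable {M : Type u} [TopologicalSpace M] [T2Space M] [CompactSpace M]
  [ChartedSpace E4 M] [IsManifold 𝓘(ℝ, E4) ∞ M]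

/-- coordinates of the negative definite subspace of the K3 lattice -/
def psiK : ((Fin 3 → ℝ) × (Fin 2 × Fin 8 → ℝ)) →ₗ[ℝ] (IK → ℝ) where
  toFun n := fun a => match a with
    | Sum.inl (i, s) => if s = 0 then n.1 i else - n.1 i
    | Sum.inr p => n.2 p
  map_add' a b := by
    funext c
    rcases c with ⟨i, s⟩ | p
    · by_cases h : s = 0
      · simp [h]
      · simp [h]; ring
    · rfl
  map_smul' r a := by
    funext c
    rcases c with ⟨i, s⟩ | p
    · by_cases h : s = 0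
      · simp [h]
      · simp [h]
    · rfl

/-- the pairing in coordinates of a basis. -/
theorem ipB_basis {F : Z2 M} (hF : Vol (F.1.1 : F2 E4 M)) {ι : Type} [Fintype ι]
    (e : Module.Basis ι ℝ (H2 M)) (G : ι → ι → ℝ) (hG : ∀ i j, ip F (e i) (e j) = G i j)
    (x y : ι → ℝ) :
    ipB F hF (e.equivFun.symm x) (e.equivFun.symm y) = ∑ a, ∑ b, x a * y b * G a b := by
  rw [Module.Basis.equivFun_symm_apply, Module.Basis.equivFun_symm_apply]
  simp only [map_sum, LinearMap.sum_apply, map_smul, LinearMap.smul_apply, smul_eq_mul,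
    Finset.mul_sum, ipB_apply, hG]
  rw [Finset.sum_comm]
  refine Finset.sum_congr rfl fun a _ => Finset.sum_congr rfl fun b _ => ?_
  ring

theorem neg_K3 {F : Z2 M} (hF : Vol (F.1.1 : F2 E4 M)) (h : K3Type F) (c : Fin 3 → H2 M)
    (hc : PosCls F c) (x : H2 M) (hx : ∀ i, ip F x (c i) = 0) (h0 : x ≠ 0) : ip F x x < 0 := by
  obtain ⟨_, e, hG, _⟩ := h
  have : FiniteDimensional ℝ (H2 M) := e.finiteDimensional_of_finite
  have hdim : Module.finrank ℝ (H2 M) = 22 := by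
    rw [Module.finrank_eq_card_basis e]
    rfl
  refine LatS_723.neg_of_sylvester (N := (Fin 3 → ℝ) × (Fin 2 × Fin 8 → ℝ)) (ipB F hF)
    (fun x y => ip_comm F x y) (e.equivFun.symm.toLinearMap ∘ₗ psiK) ?_ (k := 3) ?_ c hc x hx h0
  · intro n hn
    simp only [LinearMap.comp_apply, LinearEquiv.coe_coe]
    rw [ipB_basis hF e (fun i j => (gK3 i j : ℝ)) hG, gK3_form]
    have h1 : ∀ i, psiK n (Sum.inl (i, 0)) = n.1 i := fun i => by simp [psiK]
    have h2 : ∀ i, psiK n (Sum.inl (i, 1)) = - n.1 i := fun i => by simp [psiK]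
    have h3 : ∀ p, psiK n (Sum.inr p) = n.2 p := fun p => rfl
    simp only [h1, h2, h3]
    have h4 : ∀ j : Fin 2, 0 ≤ ∑ s : Fin 8, ∑ t : Fin 8, n.2 (j, s) * n.2 (j, t) *
        (CartanMatrix.E₈ s t : ℝ) := fun j => LatS_723.e8_nonneg (fun s => n.2 (j, s))
    by_cases hn1 : n.1 = 0
    · have hn2 : n.2 ≠ 0 := fun h => hn (Prod.ext hn1 h)
      obtain ⟨⟨j, s⟩, hjs⟩ : ∃ p, n.2 p ≠ 0 := by
        by_contra hcon
        push Not at hcon
        exact hn2 (funext hcon)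
      have h5 : 0 < ∑ s : Fin 8, ∑ t : Fin 8, n.2 (j, s) * n.2 (j, t) *
          (CartanMatrix.E₈ s t : ℝ) :=
        LatS_723.e8_pos (fun s => n.2 (j, s)) (fun h => hjs (congrFun h s))
      have h6 : 0 < ∑ j : Fin 2, ∑ s : Fin 8, ∑ t : Fin 8, n.2 (j, s) * n.2 (j, t) *
          (CartanMatrix.E₈ s t : ℝ) :=
        Finset.sum_pos' (fun j _ => h4 j) ⟨j, Finset.mem_univ _, h5⟩
      simp only [hn1, Pi.zero_apply, neg_zero, mul_zero, add_zero,
        Finset.sum_const_zero, zero_sub]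
      linarith
    · obtain ⟨i, hi⟩ : ∃ i, n.1 i ≠ 0 := by
        by_contra hcon
        push Not at hcon
        exact hn1 (funext hcon)
      have h5 : ∑ i : Fin 3, (n.1 i * - n.1 i + - n.1 i * n.1 i) < 0 := by
        have h7 : ∀ i, n.1 i * - n.1 i + - n.1 i * n.1 i ≤ 0 := fun i => by nlinarith [sq_nonneg (n.1 i)]
        refine Finset.sum_neg' (fun i _ => h7 i) ⟨i, Finset.mem_univ _, ?_⟩
        have := mul_self_pos.2 hi
        nlinarith
      have h6 : 0 ≤ ∑ j : Fin 2, ∑ s : Fin 8, ∑ t : Fin 8, n.2 (j, s) * n.2 (j, t) *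
          (CartanMatrix.E₈ s t : ℝ) := Finset.sum_nonneg fun j _ => h4 j
      linarith
  · rw [hdim]
    simp

/-- integer determinants of selection matrices -/
def DZ (i j k l : Fin 4) : ℤ :=
  Matrix.det (fun m : Fin 4 => (Pi.single (![i, j, k, l] m) 1 : Fin 4 → ℤ))

theorem det_eq_DZ (i j k l : Fin 4) :
    Matrix.det (fun m : Fin 4 => (Pi.single (![i, j, k, l] m) 1 : Fin 4 → ℝ)) = (DZ i j k l : ℝ) := by
  have h2 : (fun m : Fin 4 => (Pi.single (![i, j, k, l] m) 1 : Fin 4 → ℝ)) =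
      (Int.castRingHom ℝ).mapMatrix
        (fun m : Fin 4 => (Pi.single (![i, j, k, l] m) 1 : Fin 4 → ℤ)) := by
    funext m n
    show (Pi.single (![i, j, k, l] m) 1 : Fin 4 → ℝ) n =
      (((Pi.single (![i, j, k, l] m) 1 : Fin 4 → ℤ) n : ℤ) : ℝ)
    by_cases hmn : n = ![i, j, k, l] m
    · subst hmn
      simp
    · simp [hmn]
  rw [h2]
  exact (RingHom.map_det (Int.castRingHom ℝ)
    (fun m : Fin 4 => (Pi.single (![i, j, k, l] m) 1 : Fin 4 → ℤ))).symm

theorem DZ_ff (i j : Fin 4) : DZ 0 i 0 j = 0 := by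
  revert i j; decide

theorem DZ_tab : DZ 0 1 2 3 = 1 ∧ DZ 0 1 1 3 = 0 ∧ DZ 0 1 1 2 = 0 ∧ DZ 0 2 2 3 = 0 ∧
    DZ 0 2 1 3 = -1 ∧ DZ 0 2 1 2 = 0 ∧ DZ 0 3 2 3 = 0 ∧ DZ 0 3 1 3 = 0 ∧ DZ 0 3 1 2 = 1 ∧
    DZ 2 3 2 3 = 0 ∧ DZ 2 3 1 3 = 0 ∧ DZ 2 3 1 2 = 0 ∧ DZ 1 3 2 3 = 0 ∧ DZ 1 3 1 3 = 0 ∧
    DZ 1 3 1 2 = 0 ∧ DZ 1 2 2 3 = 0 ∧ DZ 1 2 1 3 = 0 ∧ DZ 1 2 1 2 = 0 := by
  decide

omit [TopologicalSpace M] [T2Space M] [CompactSpace M] [ChartedSpace E4 M]
  [IsManifold 𝓘(ℝ, E4) ∞ M] in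
theorem wedG_anti (s t : F1 E4 M) : (wedG t s : F2 E4 M) = - wedG s t := by
  funext x
  show (((at1 t x).smulRight (at1 s x) - (at1 s x).smulRight (at1 t x) : Bil)) =
    - ((at1 s x).smulRight (at1 t x) - (at1 t x).smulRight (at1 s x) : Bil)
  abel

theorem key {V : Type*} [AddCommGroup V] [Module ℝ V] (A : Fin 4 → Fin 4 → V)
    (hanti : ∀ i j, A j i = - A i j) (hdiag : ∀ i, A i i = 0) (ε : ℝ) (hε : ε * ε = 1)
    (n : Fin 4 → Fin 4 → ℝ) :
    ∑ i, ∑ j, n i j • A i j =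
      ∑ i, (![n 0 1 - n 1 0, n 0 2 - n 2 0, n 0 3 - n 3 0] : Fin 3 → ℝ) i •
        (![A 0 1, A 0 2, A 0 3] : Fin 3 → V) i +
      ∑ i, (![ε * (n 2 3 - n 3 2), (-ε) * (n 1 3 - n 3 1), ε * (n 1 2 - n 2 1)] : Fin 3 → ℝ) i •
        (![ε • A 2 3, (-ε) • A 1 3, ε • A 1 2] : Fin 3 → V) i := by
  have e23 : (ε * (n 2 3 - n 3 2)) • (ε • A 2 3) = (n 2 3 - n 3 2) • A 2 3 := by
    rw [smul_smul]; congr 1; linear_combination (n 2 3 - n 3 2) * hε
  have e13 : ((-ε) * (n 1 3 - n 3 1)) • ((-ε) • A 1 3) = (n 1 3 - n 3 1) • A 1 3 := by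
    rw [smul_smul]; congr 1; linear_combination (n 1 3 - n 3 1) * hε
  have e12 : (ε * (n 1 2 - n 2 1)) • (ε • A 1 2) = (n 1 2 - n 2 1) • A 1 2 := by
    rw [smul_smul]; congr 1; linear_combination (n 1 2 - n 2 1) * hε
  simp only [Fin.sum_univ_four, Fin.sum_univ_three, Matrix.cons_val_zero, Matrix.cons_val_one,
    Matrix.cons_val_two, Matrix.head_cons, Matrix.tail_cons, e23, e13, e12,
    hdiag, hanti 0 1, hanti 0 2, hanti 0 3, hanti 1 2, hanti 1 3, hanti 2 3]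
  module

theorem key_int {V : Type*} [AddCommGroup V] [Module ℝ V] (A : Fin 4 → Fin 4 → V)
    (hanti : ∀ i j, A j i = - A i j) (hdiag : ∀ i, A i i = 0) (ε : ℤ) (hε : ε * ε = 1) :
    {c : V | ∃ n : Fin 4 → Fin 4 → ℤ, c = ∑ i, ∑ j, (n i j : ℝ) • A i j} =
      {c | ∃ m n : Fin 3 → ℤ, c = ∑ i, (m i : ℝ) • (![A 0 1, A 0 2, A 0 3] : Fin 3 → V) i +
        ∑ i, (n i : ℝ) • (![(ε : ℝ) • A 2 3, (-ε : ℝ) • A 1 3, (ε : ℝ) • A 1 2] :
          Fin 3 → V) i} := by
  have hεr : (ε : ℝ) * (ε : ℝ) = 1 := by exact_mod_cast hε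
  ext c
  constructor
  · rintro ⟨n, hn⟩
    refine ⟨![n 0 1 - n 1 0, n 0 2 - n 2 0, n 0 3 - n 3 0],
      ![ε * (n 2 3 - n 3 2), (-ε) * (n 1 3 - n 3 1), ε * (n 1 2 - n 2 1)], ?_⟩
    refine (hn.trans (key A hanti hdiag ε hεr fun i j => (n i j : ℝ))).trans ?_
    congr 1
    · refine Finset.sum_congr rfl fun i _ => ?_
      congr 1
      fin_cases i <;> simp
    · refine Finset.sum_congr rfl fun i _ => ?_
      congr 1
      fin_cases i <;> simp
  · rintro ⟨m, n, hc⟩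
    refine ⟨fun i j => (![![0, m 0, m 1, m 2], ![0, 0, ε * n 2, (-ε) * n 1],
      ![0, 0, 0, ε * n 0], ![0, 0, 0, 0]] : Fin 4 → Fin 4 → ℤ) i j, ?_⟩
    rw [hc]
    symm
    refine (key A hanti hdiag ε hεr fun i j => (((![![0, m 0, m 1, m 2],
      ![0, 0, ε * n 2, (-ε) * n 1], ![0, 0, 0, ε * n 0], ![0, 0, 0, 0]] :
        Fin 4 → Fin 4 → ℤ) i j : ℤ) : ℝ)).trans ?_
    congr 1
    · refine Finset.sum_congr rfl fun i _ => ?_
      congr 1
      fin_cases i <;> simp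
    · refine Finset.sum_congr rfl fun i _ => ?_
      congr 1
      fin_cases i <;> simp [← mul_assoc, hεr]

/-- hyperbolic basis of a torus type space. -/
theorem T4_hyp {F : Z2 M} (hF : Vol (F.1.1 : F2 E4 M)) (h : T4Type F) :
    ∃ f g : Fin 3 → H2 M, (∀ i j, ip F (f i) (f j) = 0) ∧ (∀ i j, ip F (g i) (g j) = 0) ∧
      (∀ i j, ip F (f i) (g j) = if i = j then 1 else 0) ∧
      (∀ c : H2 M, ∃ x y : Fin 3 → ℝ, c = ∑ i, x i • f i + ∑ i, y i • g i) ∧
      HZ M = {c | ∃ m n : Fin 3 → ℤ, c = ∑ i, (m i : ℝ) • f i + ∑ i, (n i : ℝ) • g i} := by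
  obtain ⟨s, hs, -, a, ha, hG, habs, hspan, hHZ⟩ := h
  set A : Fin 4 → Fin 4 → H2 M := fun i j => cls (a i j) with hA
  obtain ⟨ε, hε, hε2⟩ : ∃ ε : ℤ, pI F (a 0 1) (a 2 3) = ε ∧ ε * ε = 1 := by
    rcases eq_or_eq_neg_of_abs_eq habs with h | h
    · exact ⟨1, by rw [h]; simp, by norm_num⟩
    · exact ⟨-1, by rw [h]; simp, by norm_num⟩
  have hεr : (ε : ℝ) * (ε : ℝ) = 1 := by exact_mod_cast hε2
  have hGA : ∀ i j k l, ip F (A i j) (A k l) = (DZ i j k l : ℝ) * ε := by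
    intro i j k l
    rw [hA]
    show ip F (cls (a i j)) (cls (a k l)) = _
    rw [ip_cls hF, hG, det_eq_DZ, hε]
  have hanti : ∀ i j, A j i = - A i j := by
    intro i j
    show cls (a j i) = - cls (a i j)
    rw [← map_neg]
    congr 1
    apply Z2_ext
    intro x
    show at2 ((a j i).1.1 : F2 E4 M) x = - at2 ((a i j).1.1 : F2 E4 M) x
    rw [ha, ha, wedG_anti]
    rfl
  have hdiag : ∀ i, A i i = 0 := by
    intro i
    have h1 : A i i = - A i i := hanti i i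
    have h2 : (2 : ℝ) • A i i = 0 := by
      rw [two_smul]
      nth_rewrite 1 [h1]
      exact neg_add_cancel _
    calc A i i = (1 / 2 : ℝ) • ((2 : ℝ) • A i i) := by rw [smul_smul]; norm_num
      _ = 0 := by rw [h2, smul_zero]
  obtain ⟨t1, t2, t3, t4, t5, t6, t7, t8, t9, t10, t11, t12, t13, t14, t15, t16, t17, t18⟩ :=
    DZ_tab
  refine ⟨![A 0 1, A 0 2, A 0 3],
    ![(ε : ℝ) • A 2 3, (-ε : ℝ) • A 1 3, (ε : ℝ) • A 1 2], ?_, ?_, ?_, ?_, ?_⟩
  · intro i j
    fin_cases i <;> fin_cases j <;> simp [hGA, DZ_ff]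
  · intro i j
    fin_cases i <;> fin_cases j <;>
      simp [hGA, ip_smul_left hF, ip_smul_right hF, ip_neg_left hF, ip_neg_right hF, t10, t11,
        t12, t13, t14, t15, t16, t17, t18]
  · intro i j
    fin_cases i <;> fin_cases j <;>
      simp [hGA, ip_smul_right hF, ip_neg_right hF, t1, t2, t3, t4, t5, t6, t7, t8, t9, hεr]
  · intro c
    obtain ⟨n, hn⟩ := hspan c
    exact ⟨_, _, hn.trans (key A hanti hdiag ε hεr n)⟩
  · rw [hHZ]
    exact key_int A hanti hdiag ε hε2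

/-- the pairing in hyperbolic coordinates. -/
theorem hyp_pair {F : Z2 M} (hF : Vol (F.1.1 : F2 E4 M)) {f g : Fin 3 → H2 M}
    (hff : ∀ i j, ip F (f i) (f j) = 0) (hgg : ∀ i j, ip F (g i) (g j) = 0)
    (hfg : ∀ i j, ip F (f i) (g j) = if i = j then 1 else 0) (x y x' y' : Fin 3 → ℝ) :
    ip F (∑ i, x i • f i + ∑ i, y i • g i) (∑ i, x' i • f i + ∑ i, y' i • g i) =
      ∑ i, (x i * y' i + y i * x' i) := by
  have hgf : ∀ i j, ip F (g i) (f j) = if i = j then 1 else 0 := by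
    intro i j
    rw [ip_comm, hfg]
    simp only [eq_comm]
  rw [ip_add_left hF, ip_add_right hF, ip_add_right hF]
  simp only [ip_sum_left hF, ip_sum_right hF, ip_smul_left hF, ip_smul_right hF, hff, hgg, hfg,
    hgf, mul_zero, Finset.sum_const_zero, zero_add, add_zero, mul_ite, mul_one,
    Finset.sum_ite_eq, Finset.mem_univ, if_true]
  rw [← Finset.sum_add_distrib]

theorem neg_T4 {F : Z2 M} (hF : Vol (F.1.1 : F2 E4 M)) (h : T4Type F) (c : Fin 3 → H2 M)
    (hc : PosCls F c) (x : H2 M) (hx : ∀ i, ip F x (c i) = 0) (h0 : x ≠ 0) : ip F x x < 0 := by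
  obtain ⟨f, g, hff, hgg, hfg, hspan, _⟩ := T4_hyp hF h
  let Φ : ((Fin 3 → ℝ) × (Fin 3 → ℝ)) →ₗ[ℝ] H2 M :=
    LinearMap.coprod (Fintype.linearCombination ℝ f) (Fintype.linearCombination ℝ g)
  have hΦ : ∀ p, Φ p = ∑ i, p.1 i • f i + ∑ i, p.2 i • g i := by
    intro p
    simp [Φ, Fintype.linearCombination_apply]
  have hsurj : Function.Surjective Φ := by
    intro c
    obtain ⟨x, y, hxy⟩ := hspan c
    exact ⟨(x, y), by rw [hΦ, hxy]⟩
  have hfd : FiniteDimensional ℝ (H2 M) := Module.Finite.of_surjective Φ hsurj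
  have hdim : Module.finrank ℝ (H2 M) ≤ 6 := by
    have h1 := LinearMap.finrank_le_finrank_of_surjective (f := Φ) hsurj
    rw [Module.finrank_prod, Module.finrank_fin_fun] at h1
    exact h1
  refine LatS_723.neg_of_sylvester (N := Fin 3 → ℝ) (ipB F hF)
    (fun x y => ip_comm F x y) (Φ ∘ₗ LinearMap.prod LinearMap.id (-LinearMap.id)) ?_ (k := 3) ?_
    c hc x hx h0
  · intro n hn
    have h1 : (Φ ∘ₗ LinearMap.prod LinearMap.id (-LinearMap.id)) n =
        ∑ i, n i • f i + ∑ i, (-n i) • g i := by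
      rw [LinearMap.comp_apply, hΦ]
      rfl
    rw [h1, ipB_apply, hyp_pair hF hff hgg hfg]
    obtain ⟨i, hi⟩ : ∃ i, n i ≠ 0 := by
      by_contra hcon
      push Not at hcon
      exact hn (funext hcon)
    have h7 : ∀ i, n i * - n i + - n i * n i ≤ 0 := fun i => by
      nlinarith [sq_nonneg (n i)]
    refine Finset.sum_neg' (fun i _ => h7 i) ⟨i, Finset.mem_univ _, ?_⟩
    have := mul_self_pos.2 hi
    nlinarith
  · rw [Module.finrank_fin_fun]
    exact hdim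

/-- both types: the orthogonal complement of a positive frame is negative definite. -/
theorem neg_of_type {F : Z2 M} (hF : Vol (F.1.1 : F2 E4 M)) (h : K3Type F ∨ T4Type F)
    (c : Fin 3 → H2 M) (hc : PosCls F c) (x : H2 M) (hx : ∀ i, ip F x (c i) = 0)
    (h0 : x ≠ 0) : ip F x x < 0 := by
  rcases h with h | h
  · exact neg_K3 hF h c hc x hx h0
  · exact neg_T4 hF h c hc x hx h0

theorem posCls_of_pos3 [Nonempty M] {w : Trip M} (hw : Pos3 w) : PosCls (w 0) (clw w) :=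
  fun _ ha => hw.ip_comb_pos 0 ha

/-- the two conditions on a frame of classes -/
theorem posCls_iff {F : Z2 M} (hF : Vol (F.1.1 : F2 E4 M)) (b : Fin 3 → H2 M) :
    PosCls F b ↔ (Matrix.of fun i j => ip F (b i) (b j)).PosDef := by
  have hq : ∀ a : Fin 3 → ℝ, ip F (∑ i, a i • b i) (∑ i, a i • b i) =
      star a ⬝ᵥ ((Matrix.of fun i j => ip F (b i) (b j)).mulVec a) := by
    intro a
    rw [ip_sum_left hF]
    simp only [ip_sum_right hF, ip_smul_left hF, ip_smul_right hF]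
    simp only [dotProduct, Matrix.mulVec, Matrix.of_apply, Finset.mul_sum, star_trivial]
    refine Finset.sum_congr rfl fun j _ => Finset.sum_congr rfl fun k _ => ?_
    ring
  constructor
  · intro h
    refine Matrix.PosDef.of_dotProduct_mulVec_pos ?_ ?_
    · ext j k
      simp [Matrix.conjTranspose_apply, ip_comm F (b j) (b k)]
    · intro c hc
      rw [← hq]
      exact h c hc
  · intro h a ha
    rw [hq]
    exact h.dotProduct_mulVec_pos ha


end

end BPlus_723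


end Crest.Agent.R235
private theorem rz_3630cf45c9 : type_of% @_root_.Crest.Agent.R235.gK3.eq_1 := @_root_.Crest.Agent.R235.gK3.eq_1
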