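import Crest.Agent.R235.AdjBox_43
import Crest.Agent.R235.AdjGen_83
import Crest.Agent.R235.BranchProd_266
import Crest.Agent.R235.Field_910

-- ▼ part R235/BoxA_266
section

/-!
Row 235 (S0364), package ADJ, leaf L2 (helper266), part 3: the planar data of a foliation box.

`Pl B` for `B : FBox c p V`: the coordinates `e j` in which `ζ_j = (e j)^{m_j}`, with common radius
`ρ` and constant `K`, and a radius `δ` such that all points of the curve in `Θ (ball 0 δ)` lie on the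
branches `v j '' (e j).source`.
-/

set_option autoImplicit false
set_option maxSynthPendingDepth 3

open Set Function Filter MeasureTheory Metric
open scoped Manifold ContDiff Topology

universe u

namespace Crest.Agent.R235.BoxL2_266

open Crest.Agent.R240 Crest.Agent.R240.Ch Crest.Agent.R240.Int
open Crest.Agent.R235 Crest.Agent.R235.Glob_370 Crest.Agent.R235.Wind_688
open Crest.Agent.R235.NWDefs_334 Crest.Agent.R235.BrNF_266 Crest.Agent.R235.Adj
open Crest.Agent.R235.RootProd_266 Crest.Agent.R235.BranchProd_266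

noncomputable section

/-! ### shrinking a normal form -/

/-- restriction of the target of a local homeomorphism to a ball. -/
def shr (e : OpenPartialHomeomorph ℂ ℂ) (ρ : ℝ) : OpenPartialHomeomorph ℂ ℂ :=
  (e.symm.restrOpen (ball 0 ρ) isOpen_ball).symm


theorem shr_symm (e : OpenPartialHomeomorph ℂ ℂ) (ρ : ℝ) : ((shr e ρ).symm : ℂ → ℂ) = e.symm :=
  rfl

theorem shr_target (e : OpenPartialHomeomorph ℂ ℂ) (ρ : ℝ) :
    (shr e ρ).target = e.target ∩ ball 0 ρ := rfl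

theorem shr_source_sub (e : OpenPartialHomeomorph ℂ ℂ) (ρ : ℝ) : (shr e ρ).source ⊆ e.source := by
  intro s hs
  have h1 : (shr e ρ) s ∈ (shr e ρ).target := (shr e ρ).map_source hs
  have h2 : (shr e ρ).symm ((shr e ρ) s) = s := (shr e ρ).left_inv hs
  rw [← h2]
  exact e.map_target h1.1

theorem NF.shrink {n : ℕ∞} {f : ℂ → ℂ} {m : ℕ} {e : OpenPartialHomeomorph ℂ ℂ} {b : ℂ}
    {ρ K ρ' K' : ℝ} (h : NF n f m e b ρ K) (h0 : 0 < ρ') (h1 : ρ' ≤ ρ) (hK : K ≤ K') :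
    NF n f m (shr e ρ') b ρ' K' := by
  have hsub : ball (0 : ℂ) ρ' ⊆ ball 0 ρ := ball_subset_ball h1
  have ht : (shr e ρ').target = ball 0 ρ' := by
    rw [shr_target, h.tgt]
    exact inter_eq_right.2 hsub
  have hs0 : (0 : ℂ) ∈ (shr e ρ').source := by
    have h2 : (0 : ℂ) ∈ (shr e ρ').target := by
      rw [ht]
      exact mem_ball_self h0
    have h3 := (shr e ρ').map_target h2
    have h4 : (shr e ρ').symm 0 = 0 := by
      rw [shr_symm]
      have := e.left_inv h.src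
      rwa [h.zero] at this
    rwa [h4] at h3
  have hss := shr_source_sub e ρ'
  exact
    { b0 := h.b0
      ρ0 := h0
      K0 := h.K0.trans_le hK
      tgt := ht
      src := hs0
      zero := h.zero
      c1 := h.c1.mono hss
      c1s := h.c1s.mono hsub
      cn := h.cn.mono (sdiff_subset_sdiff_left hss)
      cns := h.cns.mono (sdiff_subset_sdiff_left hsub)
      pow := fun s hs => h.pow s (hss hs)
      bd := fun s hs => (h.bd s (hss hs)).trans (by gcongr)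
      dbd := fun s hs => (h.dbd s (hss hs)).trans (by gcongr)
      bds := fun w hw => (h.bds w (hsub hw)).trans (by gcongr)
      dbds := fun w hw => (h.dbds w (hsub hw)).trans (by gcongr) }

section Basic

variable {M : Type u} [TopologicalSpace M] [ChartedSpace E4 M] [IsManifold 𝓘(ℝ, E4) ∞ M]
variable {J : EndF E4 M} {c : JCurve J} {p : M} {V : Set M}

/-- the planar data of a foliation box. -/
structure Pl (B : FBox c p V) where
  /-- the coordinates of the branches -/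
  e : Fin (c.L p).n → OpenPartialHomeomorph ℂ ℂ
  /-- the leading coefficients -/
  b : Fin (c.L p).n → ℂ
  ρ : ℝ
  K : ℝ
  ρ_pos : 0 < ρ
  ρ_le : ρ ≤ 1
  K_pos : 0 < K
  nf : ∀ j, NF ⊤ (fun s => (B.v j s).1) (B.m j) (e j) (b j) ρ K
  bm : ∀ j, b j ^ B.m j = B.a j
  src : ∀ j, (e j).source ⊆ ball 0 B.r1
  δ : ℝ
  δ_pos : 0 < δ
  δ_le : δ ≤ B.ρ
  δ_lt : ∀ j, δ ≤ ρ ^ B.m j
  sheets : ∀ j, ∀ s ∈ ball (0 : ℂ) B.r1, B.v j s ∈ ball (0 : ℂ × ℂ) δ → s ∈ (e j).source

/-- `Θ (v j s) = u j s`. -/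
theorem Θ_v (B : FBox c p V) (j : Fin (c.L p).n) {s : ℂ} (hs : s ∈ ball (0 : ℂ) B.r1) :
    B.Θ (B.v j s) = (c.L p).u j s := by
  rw [B.v_eq]
  exact B.Θ.right_inv (B.inT j s hs)

theorem v_mem (B : FBox c p V) (j : Fin (c.L p).n) {s : ℂ} (hs : s ∈ ball (0 : ℂ) B.r1) :
    B.v j s ∈ ball (0 : ℂ × ℂ) B.R := by
  rw [B.v_eq, ← B.source]
  exact B.Θ.map_target (B.inT j s hs)

theorem Θ0_source (B : FBox c p V) : (0 : ℂ × ℂ) ∈ B.Θ.source := by
  rw [B.source]
  exact mem_ball_self B.R_pos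

theorem p_mem (B : FBox c p V) : p ∈ B.Θ.target := by
  have h := B.Θ.map_source (Θ0_source B)
  rwa [B.centre] at h

theorem symm_p (B : FBox c p V) : B.Θ.symm p = 0 := by
  have h := B.Θ.left_inv (Θ0_source B)
  rwa [B.centre] at h

theorem v_zero (B : FBox c p V) (j : Fin (c.L p).n) : B.v j 0 = 0 := by
  rw [B.v_eq, (c.L p).centre j, symm_p]

/-- a finite set of positive numbers has a positive lower bound. -/
theorem exists_pos_le {n : ℕ} (f : Fin n → ℝ) (hf : ∀ i, 0 < f i) :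
    ∃ x > 0, x ≤ 1 ∧ ∀ i, x ≤ f i := by
  have h : ∀ s : Finset (Fin n), ∃ x > 0, x ≤ 1 ∧ ∀ i ∈ s, x ≤ f i := by
    intro s
    induction s using Finset.induction_on with
    | empty => exact ⟨1, one_pos, le_rfl, by simp⟩
    | insert a s _ ih =>
      obtain ⟨x, hx, hx1, h⟩ := ih
      refine ⟨min x (f a), lt_min hx (hf a), (min_le_left _ _).trans hx1, fun i hi => ?_⟩
      rcases Finset.mem_insert.1 hi with rfl | hi
      · exact min_le_right _ _
      · exact (min_le_left _ _).trans (h i hi)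
  obtain ⟨x, hx, hx1, h⟩ := h Finset.univ
  exact ⟨x, hx, hx1, fun i => h i (Finset.mem_univ i)⟩

theorem exists_ub {n : ℕ} (f : Fin n → ℝ) : ∃ x > 0, ∀ i, f i ≤ x := by
  refine ⟨∑ i, |f i| + 1, by positivity, fun i => ?_⟩
  have h1 : |f i| ≤ ∑ i, |f i| :=
    Finset.single_le_sum (f := fun i => |f i|) (fun _ _ => abs_nonneg _) (Finset.mem_univ i)
  linarith [le_abs_self (f i)]

/-- **the planar data exist.** -/
theorem exists_pl [T2Space M] (B : FBox c p V) : Nonempty (Pl B) := by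
  have h1 : ∀ j, ∃ (e : OpenPartialHomeomorph ℂ ℂ) (b : ℂ) (ρ K : ℝ), b ^ B.m j = B.a j ∧
      e.source ⊆ ball 0 B.r1 ∧ NF ⊤ (fun s => (B.v j s).1) (B.m j) e b ρ K := by
    intro j
    have hs : ContDiffOn ℝ ((⊤ : ℕ∞) : WithTop ℕ∞) (fun s => (B.v j s).1) (ball 0 B.r1) :=
      (B.v_smooth j).fst
    exact branch_nf (Nat.one_le_iff_ne_zero.1 (B.m_pos j)) (B.a_ne j) B.r1_pos le_top hs (B.ζ0 j)
      (B.ζ1 j)
  choose e b ρ K hb hsrc hnf using h1
  obtain ⟨ρ0, hρ0, hρ1, hρ⟩ := exists_pos_le ρ fun j => (hnf j).ρ0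
  obtain ⟨K0, hK0, hK⟩ := exists_ub K
  have hnf' : ∀ j, NF ⊤ (fun s => (B.v j s).1) (B.m j) (shr (e j) ρ0) (b j) ρ0 K0 := fun j =>
    NF.shrink (hnf j) hρ0 (hρ j) (hK j)
  -- the neighbourhood
  have : LocallyCompactSpace M := ChartedSpace.locallyCompactSpace E4 M
  obtain ⟨C, hC, hCU, hCc⟩ := local_compact_nhds ((c.L p).openU.mem_nhds (c.L p).mem)
  have h2 : ∀ j, ∃ W ∈ 𝓝 p, ∀ s ∈ ball (0 : ℂ) 1, (c.L p).u j s ∈ W → s ∈ (shr (e j) ρ0).source := by
    intro j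
    obtain ⟨r, hr1, hr⟩ := (c.L p).proper j C hCc hCU
    set A : Set ℂ := closedBall (0 : ℂ) r \ (shr (e j) ρ0).source with hA
    have hAc : IsCompact A := (isCompact_closedBall 0 r).diff (shr (e j) ρ0).open_source
    have hcont : ContinuousOn ((c.L p).u j) A :=
      ((c.L p).disc j).hol.smooth.continuousOn.mono
        (sdiff_subset.trans (closedBall_subset_ball hr1))
    have hcl : IsClosed ((c.L p).u j '' A) := (hAc.image_of_continuousOn hcont).isClosed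
    have hp : p ∉ (c.L p).u j '' A := by
      rintro ⟨s, hs, h⟩
      have hs1 : s ∈ ball (0 : ℂ) 1 := closedBall_subset_ball hr1 hs.1
      have h3 : s = 0 := ((c.L p).disc j).inj hs1 (mem_ball_self one_pos)
        (h.trans ((c.L p).centre j).symm)
      subst h3
      exact hs.2 (hnf' j).src
    refine ⟨C ∩ ((c.L p).u j '' A)ᶜ, inter_mem hC (hcl.isOpen_compl.mem_nhds hp), ?_⟩
    rintro s hs ⟨hsC, hsA⟩
    by_contra h
    exact hsA ⟨s, ⟨by simpa using hr s hs hsC, h⟩, rfl⟩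
  choose W hW hWs using h2
  have hWn : (⋂ j, W j) ∈ 𝓝 p := by
    rw [Filter.iInter_mem]
    exact hW
  have hpre : B.Θ ⁻¹' (⋂ j, W j) ∈ 𝓝 (0 : ℂ × ℂ) := by
    refine (B.Θ.continuousAt (Θ0_source B)).preimage_mem_nhds ?_
    rw [B.centre]
    exact hWn
  obtain ⟨δ1, hδ1, hδW⟩ := Metric.mem_nhds_iff.1 hpre
  obtain ⟨δ2, hδ2, -, hδ2'⟩ := exists_pos_le (fun j => ρ0 ^ B.m j) fun j => by positivity
  refine ⟨⟨fun j => shr (e j) ρ0, b, ρ0, K0, hρ0, hρ1, hK0, hnf', hb,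
    fun j => (shr_source_sub _ _).trans (hsrc j), min (min δ1 δ2) B.ρ,
    lt_min (lt_min hδ1 hδ2) B.ρ_pos, min_le_right _ _,
    fun j => ((min_le_left _ _).trans (min_le_right _ _)).trans (hδ2' j), ?_⟩⟩
  intro j s hs hv
  refine hWs j s (ball_subset_ball B.r1_le hs) ?_
  have h3 : B.v j s ∈ ball (0 : ℂ × ℂ) δ1 :=
    ball_subset_ball ((min_le_left _ _).trans (min_le_left _ _)) hv
  have h4 : B.Θ (B.v j s) ∈ ⋂ j, W j := hδW h3
  rw [Θ_v B j hs] at h4
  exact mem_iInter.1 h4 j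

end Basic

end

end Crest.Agent.R235.BoxL2_266
end

-- ▼ part R235/BoxB_266
section

/-!
Row 235 (S0364), package ADJ, leaf L2 (helper266), part 4: the function `G = ∏ (z - Z_b w)` of a
foliation box in the coordinates `(ζ, z)`: basic properties and local sheets.
-/

set_option autoImplicit false
set_option maxSynthPendingDepth 3

open Set Function Filter MeasureTheory Metric
open scoped Manifold ContDiff Topology

universe u

namespace Crest.Agent.R235.BoxL2_266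

open Crest.Agent.R240 Crest.Agent.R240.Ch Crest.Agent.R240.Int
open Crest.Agent.R235 Crest.Agent.R235.Glob_370 Crest.Agent.R235.Wind_688
open Crest.Agent.R235.NWDefs_334 Crest.Agent.R235.BrNF_266 Crest.Agent.R235.Adj
open Crest.Agent.R235.RootProd_266 Crest.Agent.R235.BranchProd_266

noncomputable section


section Basic

variable {M : Type u} [TopologicalSpace M] [ChartedSpace E4 M] [IsManifold 𝓘(ℝ, E4) ∞ M]
variable {J : EndF E4 M} {c : JCurve J} {p : M} {V : Set M} {B : FBox c p V}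

namespace Pl

variable (P : Pl B)

/-- the second coordinate of the branch `j` as a function of `w = e j s`. -/
def Z (j : Fin (c.L p).n) (w : ℂ) : ℂ := (B.v j ((P.e j).symm w)).2

/-- the local equation in the coordinates `(ζ, z)`. -/
def G (x : ℂ × ℂ) : ℂ := bp B.m P.Z x.1 x.2

/-- the local equation on `M`. -/
def F (x : M) : ℂ := P.G (B.Θ.symm x)

variable {P}

theorem m_ne (B : FBox c p V) (j : Fin (c.L p).n) : B.m j ≠ 0 :=
  Nat.one_le_iff_ne_zero.1 (B.m_pos j)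

theorem symm_mem {j : Fin (c.L p).n} {w : ℂ} (hw : w ∈ ball (0 : ℂ) P.ρ) :
    (P.e j).symm w ∈ (P.e j).source :=
  (P.e j).map_target (by rw [(P.nf j).tgt]; exact hw)

theorem symm_mem' {j : Fin (c.L p).n} {w : ℂ} (hw : w ∈ ball (0 : ℂ) P.ρ) :
    (P.e j).symm w ∈ ball (0 : ℂ) B.r1 := P.src j (symm_mem hw)

theorem e_mem {j : Fin (c.L p).n} {s : ℂ} (hs : s ∈ (P.e j).source) :
    P.e j s ∈ ball (0 : ℂ) P.ρ := by
  rw [← (P.nf j).tgt]
  exact (P.e j).map_source hs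

theorem e_symm {j : Fin (c.L p).n} {w : ℂ} (hw : w ∈ ball (0 : ℂ) P.ρ) :
    P.e j ((P.e j).symm w) = w := (P.e j).right_inv (by rw [(P.nf j).tgt]; exact hw)

theorem symm_zero (j : Fin (c.L p).n) : (P.e j).symm 0 = 0 := by
  have h := (P.e j).left_inv (P.nf j).src
  rwa [(P.nf j).zero] at h

theorem e_ne {j : Fin (c.L p).n} {s : ℂ} (hs : s ∈ (P.e j).source) (h0 : s ≠ 0) :
    P.e j s ≠ 0 := by
  intro h
  have h1 := (P.e j).left_inv hs
  rw [h, symm_zero] at h1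
  exact h0 h1.symm


theorem v_symm {j : Fin (c.L p).n} {w : ℂ} (hw : w ∈ ball (0 : ℂ) P.ρ) :
    B.v j ((P.e j).symm w) = (w ^ B.m j, P.Z j w) := by
  have h1 := (P.nf j).pow _ (symm_mem hw)
  rw [e_symm hw] at h1
  exact Prod.ext h1.symm rfl

theorem v_eq {j : Fin (c.L p).n} {s : ℂ} (hs : s ∈ (P.e j).source) :
    B.v j s = (P.e j s ^ B.m j, P.Z j (P.e j s)) := by
  rw [← v_symm (e_mem hs), (P.e j).left_inv hs]

theorem Z_zero (j : Fin (c.L p).n) : P.Z j 0 = 0 := by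
  rw [Z, symm_zero, v_zero]
  rfl

theorem Z_c1 (j : Fin (c.L p).n) : ContDiffOn ℝ 1 (P.Z j) (ball 0 P.ρ) := by
  have h1 : ContDiffOn ℝ 1 (fun s => (B.v j s).2) (ball 0 B.r1) :=
    ((B.v_smooth j).snd).of_le (by simp)
  exact h1.comp (P.nf j).c1s fun _ hw => symm_mem' hw

theorem Z_cn (j : Fin (c.L p).n) : ContDiffOn ℝ ∞ (P.Z j) (ball 0 P.ρ \ {0}) :=
  ((B.v_smooth j).snd).comp (P.nf j).cns fun _ hw => symm_mem' hw.1

theorem Z_cont (j : Fin (c.L p).n) : ContinuousOn (P.Z j) (ball 0 P.ρ) := (Z_c1 j).continuousOn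

theorem Z_smoothAt {j : Fin (c.L p).n} {w : ℂ} (hw : w ∈ ball (0 : ℂ) P.ρ) (h0 : w ≠ 0) :
    ContDiffAt ℝ ∞ (P.Z j) w :=
  (Z_cn j).contDiffAt ((isOpen_ball.sdiff isClosed_singleton).mem_nhds ⟨hw, h0⟩)

theorem Z_diffAt {j : Fin (c.L p).n} {w : ℂ} (hw : w ∈ ball (0 : ℂ) P.ρ) :
    DifferentiableAt ℝ (P.Z j) w :=
  ((Z_c1 j).contDiffAt (isOpen_ball.mem_nhds hw)).differentiableAt (by simp)

theorem root_mem {j : Fin (c.L p).n} {w ζ : ℂ} (hζ : ‖ζ‖ < P.δ) (h : w ^ B.m j = ζ) :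
    w ∈ ball (0 : ℂ) P.ρ := by
  rw [mem_ball_zero_iff, ← norm_root_lt (m_ne B j) P.ρ_pos.le, h]
  exact hζ.trans_le (P.δ_lt j)

theorem norm_fst_lt {x : ℂ × ℂ} (hx : x ∈ ball (0 : ℂ × ℂ) P.δ) : ‖x.1‖ < P.δ :=
  (norm_fst_le x).trans_lt (mem_ball_zero_iff.1 hx)

/-! ### sizes -/



/-! ### basic properties of `G` -/

theorem G_continuousAt {x : ℂ × ℂ} (hx : ‖x.1‖ < P.δ) : ContinuousAt P.G x :=
  continuousAt_bp (fun j => m_ne B j) P.ρ_pos.le (fun j => Z_cont j)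
    fun j => hx.trans_le (P.δ_lt j)

theorem G_smoothAt {x : ℂ × ℂ} (hx : ‖x.1‖ < P.δ) (h0 : x.1 ≠ 0) : ContDiffAt ℝ ∞ P.G x := by
  refine contDiffAt_bp (k := ⊤) (fun j => m_ne B j) h0 fun j w hw => ?_
  refine Z_smoothAt (root_mem hx hw) ?_
  rintro rfl
  rw [zero_pow (m_ne B j)] at hw
  exact h0 hw.symm

/-- the zeros of `G` are the points of the branches. -/
theorem G_eq_zero {x : ℂ × ℂ} (hx : ‖x.1‖ < P.δ) :
    P.G x = 0 ↔ ∃ j, ∃ s ∈ (P.e j).source, B.v j s = x := by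
  unfold G
  rw [bp_eq_zero fun j => m_ne B j]
  constructor
  · rintro ⟨j, w, h1, h2⟩
    have hw := root_mem (P := P) hx h1
    refine ⟨j, (P.e j).symm w, symm_mem hw, ?_⟩
    rw [v_symm hw]
    exact Prod.ext h1 h2.symm
  · rintro ⟨j, s, hs, h⟩
    refine ⟨j, P.e j s, ?_, ?_⟩
    · rw [← h, v_eq hs]
    · rw [← h, v_eq hs]

/-! ### local sheets -/



variable {w₀ : Fin (c.L p).n → ℂ} {ζ₀ : ℂ}










/-! ### the sheets along a branch -/






end Pl

end Basic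

end

end Crest.Agent.R235.BoxL2_266
end

-- ▼ part R235/BoxC_266

/-!
Row 235 (S0364), package ADJ, leaf L2 (helper266), part 5: the local function `F = G ∘ Θ⁻¹` on `M`:
the fields `cont`, `zero`, `E`, `closedE`, `smooth`, `E_sub`, `reg`, `κ_eq` of `Adj.Box`.
-/

set_option autoImplicit false
set_option maxSynthPendingDepth 3

open Set Function Filter MeasureTheory Metric
open scoped Manifold ContDiff Topology

universe u

namespace Crest.Agent.R235.BoxL2_266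

open Crest.Agent.R240 Crest.Agent.R240.Ch Crest.Agent.R240.Int
open Crest.Agent.R235 Crest.Agent.R235.Glob_370 Crest.Agent.R235.Wind_688
open Crest.Agent.R235.NWDefs_334 Crest.Agent.R235.BrNF_266 Crest.Agent.R235.Adj
open Crest.Agent.R235.RootProd_266 Crest.Agent.R235.BranchProd_266

noncomputable section

section Basic

variable {M : Type u} [TopologicalSpace M] [ChartedSpace E4 M] [IsManifold 𝓘(ℝ, E4) ∞ M]
variable {J : EndF E4 M} {c : JCurve J} {p : M} {V : Set M} {B : FBox c p V}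

/-- the neighbourhoods. -/
def UU (B : FBox c p V) (δ : ℝ) : Set M := B.Θ.target ∩ B.Θ.symm ⁻¹' ball (0 : ℂ × ℂ) δ

theorem isOpen_UU (B : FBox c p V) (δ : ℝ) : IsOpen (UU B δ) :=
  B.Θ.symm.isOpen_inter_preimage isOpen_ball

theorem p_mem_UU (B : FBox c p V) {δ : ℝ} (hδ : 0 < δ) : p ∈ UU B δ := by
  refine ⟨p_mem B, ?_⟩
  rw [mem_preimage, symm_p]
  exact mem_ball_self hδ

theorem UU_subV (B : FBox c p V) (δ : ℝ) : UU B δ ⊆ V := fun _ hx => (B.target hx.1).1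

theorem UU_subL (B : FBox c p V) (δ : ℝ) : UU B δ ⊆ (c.L p).U := fun _ hx => (B.target hx.1).2

theorem UU_mono (B : FBox c p V) {δ δ' : ℝ} (h : δ ≤ δ') : UU B δ ⊆ UU B δ' :=
  fun _ hx => ⟨hx.1, ball_subset_ball h hx.2⟩

theorem Θ_mem_UU (B : FBox c p V) {δ : ℝ} (hδ : δ ≤ B.R) {y : ℂ × ℂ}
    (hy : y ∈ ball (0 : ℂ × ℂ) δ) : B.Θ y ∈ UU B δ := by
  have hs : y ∈ B.Θ.source := by
    rw [B.source]
    exact ball_subset_ball hδ hy
  refine ⟨B.Θ.map_source hs, ?_⟩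
  rw [mem_preimage, B.Θ.left_inv hs]
  exact hy

namespace Pl

variable (P : Pl B)

theorem δ_le_R : P.δ ≤ B.R := P.δ_le.trans B.ρ_le

theorem F_continuousOn : ContinuousOn P.F (UU B P.δ) := by
  intro x hx
  have h1 : ContinuousAt B.Θ.symm x := B.Θ.symm.continuousAt hx.1
  have h2 : ContinuousAt P.G (B.Θ.symm x) := G_continuousAt (norm_fst_lt hx.2)
  exact (ContinuousAt.comp (f := B.Θ.symm) (g := P.G) h2 h1).continuousWithinAt

theorem F_zero {x : M} (hx : x ∈ UU B P.δ) : P.F x = 0 ↔ x ∈ range c.f := by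
  unfold F
  rw [G_eq_zero (norm_fst_lt hx.2)]
  constructor
  · rintro ⟨j, s, hs, h⟩
    have h1 : (c.L p).u j s = x := by
      rw [← Θ_v B j (P.src j hs), h]
      exact B.Θ.right_inv hx.1
    refine ⟨c.φ p j s, ?_⟩
    rw [c.φ_f p j s (ball_subset_ball B.r1_le (P.src j hs)), h1]
  · intro h
    have h1 : B.Θ.symm x ∈ ball (0 : ℂ × ℂ) B.ρ := ball_subset_ball P.δ_le hx.2
    have h2 : B.Θ (B.Θ.symm x) ∈ range c.f := by
      rw [B.Θ.right_inv hx.1]
      exact h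
    obtain ⟨j, s, hs, h3⟩ := B.near _ h1 h2
    exact ⟨j, s, P.sheets j s hs (by rw [h3]; exact hx.2), h3⟩

variable (B) in
/-- the exceptional leaf. -/
def EE : Set M := {x | x ∈ B.Θ.target ∧ (B.Θ.symm x).1 = 0 ∧ ¬ ∀ j, B.m j = 1}

theorem isOpen_sdiff_EE (B : FBox c p V) (δ : ℝ) : IsOpen (UU B δ \ EE B) := by
  by_cases h : ∀ j, B.m j = 1
  · have : UU B δ \ EE B = UU B δ := by
      ext x
      exact ⟨fun hx => hx.1, fun hx => ⟨hx, fun hE => hE.2.2 h⟩⟩
    rw [this]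
    exact isOpen_UU B δ
  · have : UU B δ \ EE B = B.Θ.target ∩ B.Θ.symm ⁻¹' (ball (0 : ℂ × ℂ) δ ∩ {y | y.1 ≠ 0}) := by
      ext x
      exact ⟨fun hx => ⟨hx.1.1, hx.1.2, fun h0 => hx.2 ⟨hx.1.1, h0, h⟩⟩,
        fun hx => ⟨⟨hx.1, hx.2.1⟩, fun hE => hx.2.2 hE.2.1⟩⟩
    rw [this]
    refine B.Θ.symm.isOpen_inter_preimage (isOpen_ball.inter ?_)
    exact isOpen_ne.preimage continuous_fst

theorem EE_sub {x : M} (hx : x ∈ UU B P.δ) (hE : x ∈ EE B) (hc : x ∈ range c.f) : x = p := by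
  have h1 := (P.F_zero hx).2 hc
  unfold F at h1
  rw [G_eq_zero (norm_fst_lt hx.2)] at h1
  obtain ⟨j, s, hs, h⟩ := h1
  have h2 : (B.v j s).1 = 0 := by
    rw [h]
    exact hE.2.1
  rw [v_eq hs] at h2
  have h3 : P.e j s = 0 := pow_eq_zero_iff (m_ne B j) |>.1 h2
  have h4 : s = 0 := by
    by_contra h5
    exact e_ne hs h5 h3
  rw [h4, v_zero] at h
  rw [← B.Θ.right_inv hx.1, ← h, B.centre]

/-- in the unramified case the branch function is smooth at `0` too. -/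
theorem Z_smoothAt_one {j : Fin (c.L p).n} (hm : B.m j = 1) {w : ℂ}
    (hw : w ∈ ball (0 : ℂ) P.ρ) : ContDiffAt ℝ ∞ (P.Z j) w := by
  by_cases h0 : w = 0
  · subst h0
    have hs0 : (0 : ℂ) ∈ (P.e j).source := (P.nf j).src
    have ht0 : (0 : ℂ) ∈ (P.e j).target := by
      rw [(P.nf j).tgt]
      exact hw
    have h1 : ContDiffAt ℝ ∞ (P.e j) 0 := by
      have h2 : ContDiffAt ℝ ∞ (fun s => (B.v j s).1) 0 :=
        ((B.v_smooth j).fst).contDiffAt (isOpen_ball.mem_nhds (mem_ball_self B.r1_pos))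
      refine h2.congr_of_eventuallyEq ?_
      filter_upwards [(P.e j).open_source.mem_nhds hs0] with s hs
      have := (P.nf j).pow s hs
      rwa [hm, pow_one] at this
    have h2 : fderiv ℝ (P.e j) 0 = mulc (P.b j) := by
      have h3 := (P.nf j).dbd 0 hs0
      rw [norm_zero, mul_zero] at h3
      exact sub_eq_zero.1 (norm_le_zero_iff.1 h3)
    have h3 : HasFDerivAt (P.e j) (mulE (P.b j) (P.nf j).b0 : ℂ →L[ℝ] ℂ) ((P.e j).symm 0) := by
      rw [symm_zero, mulE_coe, ← h2]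
      exact (h1.differentiableAt (by simp)).hasFDerivAt
    have h4 : ContDiffAt ℝ ∞ (P.e j).symm 0 :=
      (P.e j).contDiffAt_symm ht0 h3 (by rw [symm_zero]; exact h1)
    have h5 : ContDiffAt ℝ ∞ (fun s => (B.v j s).2) ((P.e j).symm 0) := by
      rw [symm_zero]
      exact ((B.v_smooth j).snd).contDiffAt (isOpen_ball.mem_nhds (mem_ball_self B.r1_pos))
    exact ContDiffAt.comp (f := (P.e j).symm) (g := fun s => (B.v j s).2) 0 h5 h4
  · exact Z_smoothAt hw h0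

theorem G_smoothAt_one (hm : ∀ j, B.m j = 1) {x : ℂ × ℂ} (hx : ‖x.1‖ < P.δ) :
    ContDiffAt ℝ ∞ P.G x := by
  refine contDiffAt_bp_one (k := ⊤) hm fun j => ?_
  refine Z_smoothAt_one P (hm j) ?_
  refine root_mem (j := j) hx ?_
  rw [hm j, pow_one]

theorem F_smooth {x : M} (hx : x ∈ UU B P.δ) (hE : x ∉ EE B) : SmAt P.F x := by
  have h1 : ContDiffAt ℝ ∞ P.G (B.Θ.symm x) := by
    by_cases h : (B.Θ.symm x).1 = 0
    · have hm : ∀ j, B.m j = 1 := by
        by_contra h2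
        exact hE ⟨hx.1, h, h2⟩
      exact G_smoothAt_one P hm (norm_fst_lt hx.2)
    · exact G_smoothAt (norm_fst_lt hx.2) h
  have h2 : ContMDiffAt 𝓘(ℝ, E4) 𝓘(ℝ, ℂ × ℂ) ∞ B.Θ.symm x :=
    B.smooth_symm.contMDiffAt (B.Θ.open_target.mem_nhds hx.1)
  exact ContMDiffAt.comp x (g := P.G) h1.contMDiffAt h2

variable (B) in
theorem EE_reg (h : ∀ j, dmap ((c.L p).u j) 0 1 ≠ 0) : EE B = ∅ := by
  have hm : ∀ j, B.m j = 1 := by
    intro j
    by_contra hj
    have hj2 : 2 ≤ B.m j := by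
      have := B.m_pos j
      omega
    have h0 := mem_ball_self (x := (0 : ℂ)) B.r1_pos
    have h1 := B.ζ1 j 0 h0
    have h2 := B.z1 j 0 h0
    have e1 : B.m j - 1 ≠ 0 := by omega
    simp only [norm_zero, zero_pow (m_ne B j), zero_pow e1, mul_zero] at h1 h2
    have h1' : fderiv ℝ (fun s => (B.v j s).1) 0 = 0 := by
      have := norm_le_zero_iff.1 h1
      rw [sub_eq_zero] at this
      rw [this]
      ext
      simp
    have h2' : fderiv ℝ (fun s => (B.v j s).2) 0 = 0 := norm_le_zero_iff.1 h2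
    have hvd : DifferentiableAt ℝ (B.v j) 0 :=
      ((B.v_smooth j).contDiffAt (isOpen_ball.mem_nhds h0)).differentiableAt (by simp)
    have h3 : fderiv ℝ (B.v j) 0 = 0 := by
      ext v
      · have := hvd.hasFDerivAt.fst.fderiv
        rw [h1'] at this
        have h4 := DFunLike.congr_fun this v
        simpa using h4.symm
      · have := hvd.hasFDerivAt.snd.fderiv
        rw [h2'] at this
        have h4 := DFunLike.congr_fun this v
        simpa using h4.symm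
    refine h j ?_
    have hc : (c.L p).u j =ᶠ[𝓝 0] fun s => B.Θ (B.v j s) := by
      filter_upwards [isOpen_ball.mem_nhds h0] with s hs
      exact (Θ_v B j hs).symm
    have hΘ : ContMDiffAt 𝓘(ℝ, ℂ × ℂ) 𝓘(ℝ, E4) ∞ B.Θ (B.v j 0) := by
      refine B.smooth.contMDiffAt (isOpen_ball.mem_nhds ?_)
      rw [v_zero]
      exact mem_ball_self B.R_pos
    rw [AdjGen_83.dmap_congr hc, AdjGen_83.dmap_comp hvd.hasFDerivAt hΘ, h3]
    exact AdjGen_83.dmap_zero _ _
  rw [Set.eq_empty_iff_forall_notMem]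
  exact fun x hx => hx.2.2 hm

/-! ### the factor `κ` -/

/-- the differential of `Θ⁻¹` in the preferred chart at `x`. -/
def DS (B : FBox c p V) (x : M) : E4 →L[ℝ] ℂ × ℂ :=
  fderiv ℝ (fun y : E4 => B.Θ.symm ((chartAt E4 x).symm y)) (chartAt E4 x x)

theorem hasFDerivAt_DS {x : M} (hx : x ∈ B.Θ.target) :
    HasFDerivAt (fun y : E4 => B.Θ.symm ((chartAt E4 x).symm y)) (DS B x) (chartAt E4 x x) := by
  have h1 : ContMDiffAt 𝓘(ℝ, E4) 𝓘(ℝ, ℂ × ℂ) ∞ B.Θ.symm ((chartAt E4 x).symm (chartAt E4 x x)) := by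
    rw [(chartAt E4 x).left_inv (mem_chart_source E4 x)]
    exact B.smooth_symm.contMDiffAt (B.Θ.open_target.mem_nhds hx)
  have h2 : ContMDiffAt 𝓘(ℝ, E4) 𝓘(ℝ, E4) ∞ (chartAt E4 x).symm (chartAt E4 x x) :=
    (contMDiffOn_chart_symm (I := 𝓘(ℝ, E4)) (x := x)).contMDiffAt
      ((chartAt E4 x).open_target.mem_nhds (mem_chart_target E4 x))
  have h3 : ContMDiffAt 𝓘(ℝ, E4) 𝓘(ℝ, ℂ × ℂ) ∞
      (fun y : E4 => B.Θ.symm ((chartAt E4 x).symm y)) (chartAt E4 x x) := h1.comp _ h2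
  exact (h3.contDiffAt.differentiableAt (by simp)).hasFDerivAt

theorem Θ_smoothAt {y : ℂ × ℂ} (hy : y ∈ ball (0 : ℂ × ℂ) B.R) :
    ContMDiffAt 𝓘(ℝ, ℂ × ℂ) 𝓘(ℝ, E4) ∞ B.Θ y := B.smooth.contMDiffAt (isOpen_ball.mem_nhds hy)

theorem symm_mem_ball {x : M} (hx : x ∈ B.Θ.target) : B.Θ.symm x ∈ ball (0 : ℂ × ℂ) B.R := by
  rw [← B.source]
  exact B.Θ.map_target hx

/-- `dΘ (DS v) = v`. -/
theorem dmap_DS {x : M} (hx : x ∈ B.Θ.target) (v : E4) :
    dmap B.Θ (B.Θ.symm x) (DS B x v) = v := by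
  set y := B.Θ.symm x with hy
  have hxy : B.Θ y = x := B.Θ.right_inv hx
  have h1 : HasFDerivAt (fun q : ℂ × ℂ => chartAt E4 x (B.Θ q))
      (fderiv ℝ (fun q : ℂ × ℂ => chartAt E4 x (B.Θ q)) y) y := by
    have h2 : B.Θ y ∈ (chartAt E4 x).source := by
      rw [hxy]
      exact mem_chart_source E4 x
    exact (AdjGen_83.diffAt_chart (Θ_smoothAt (symm_mem_ball hx)) h2).hasFDerivAt
  have h2 := hasFDerivAt_DS (B := B) hx
  have h3 : (chartAt E4 x).symm (chartAt E4 x x) = x :=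
    (chartAt E4 x).left_inv (mem_chart_source E4 x)
  have h1' : HasFDerivAt (fun q : ℂ × ℂ => chartAt E4 x (B.Θ q))
      (fderiv ℝ (fun q : ℂ × ℂ => chartAt E4 x (B.Θ q)) y)
      (B.Θ.symm ((chartAt E4 x).symm (chartAt E4 x x))) := by
    rw [h3]
    exact h1
  have h4 := HasFDerivAt.comp (g := fun q : ℂ × ℂ => chartAt E4 x (B.Θ q))
    (f := fun y : E4 => B.Θ.symm ((chartAt E4 x).symm y)) (chartAt E4 x x) h1' h2
  have h5 : ((fun q : ℂ × ℂ => chartAt E4 x (B.Θ q)) ∘ fun y : E4 =>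
      B.Θ.symm ((chartAt E4 x).symm y)) =ᶠ[𝓝 (chartAt E4 x x)] fun y => y := by
    have h6 : ContinuousAt (chartAt E4 x).symm (chartAt E4 x x) :=
      (chartAt E4 x).continuousAt_symm (mem_chart_target E4 x)
    have h7 : ∀ᶠ y in 𝓝 (chartAt E4 x x), (chartAt E4 x).symm y ∈ B.Θ.target := by
      refine h6.eventually_mem (B.Θ.open_target.mem_nhds ?_)
      rw [h3]
      exact hx
    filter_upwards [h7, (chartAt E4 x).open_target.mem_nhds (mem_chart_target E4 x)] with q h8 h9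
    show chartAt E4 x (B.Θ (B.Θ.symm ((chartAt E4 x).symm q))) = q
    rw [B.Θ.right_inv h8, (chartAt E4 x).right_inv h9]
  have h6 := (h4.congr_of_eventuallyEq h5.symm).unique (hasFDerivAt_id (chartAt E4 x x))
  have h7 := DFunLike.congr_fun h6 v
  unfold dmap
  rw [hxy]
  exact h7

/-- the differential of `F` from the differential of `G`. -/
theorem dC_F {x : M} (hx : x ∈ B.Θ.target) {L : ℂ × ℂ →L[ℝ] ℂ}
    (hL : HasFDerivAt P.G L (B.Θ.symm x)) (v : E4) : dC P.F x v = L (DS B x v) := by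
  have h2 := hasFDerivAt_DS (B := B) hx
  have h3 : (chartAt E4 x).symm (chartAt E4 x x) = x :=
    (chartAt E4 x).left_inv (mem_chart_source E4 x)
  have hL' : HasFDerivAt P.G L (B.Θ.symm ((chartAt E4 x).symm (chartAt E4 x x))) := by
    rw [h3]
    exact hL
  have h4 := HasFDerivAt.comp (g := P.G)
    (f := fun y : E4 => B.Θ.symm ((chartAt E4 x).symm y)) (chartAt E4 x x) hL' h2
  unfold dC
  exact DFunLike.congr_fun h4.fderiv v

/-- two sheets at the same point coincide. -/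
theorem sheet_inj {a b : Fin (c.L p).n} {s t : ℂ} (hs : s ∈ (P.e a).source)
    (ht : t ∈ (P.e b).source) (h : B.v a s = B.v b t) (hs0 : s ≠ 0) : a = b ∧ s = t := by
  have h1 : (c.L p).u a s = (c.L p).u b t := by
    rw [← Θ_v B a (P.src a hs), ← Θ_v B b (P.src b ht), h]
  have hs1 := ball_subset_ball B.r1_le (P.src a hs)
  have ht1 := ball_subset_ball B.r1_le (P.src b ht)
  by_cases hab : a = b
  · subst hab
    exact ⟨rfl, ((c.L p).disc a).inj hs1 ht1 h1⟩
  · exact absurd ((c.L p).disj a b hab s hs1 t ht1 h1) hs0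

theorem rp_other_ne {b : Fin (c.L p).n} {s : ℂ} (hs : s ∈ (P.e b).source) (hs0 : s ≠ 0)
    (hζ : ‖(B.v b s).1‖ < P.δ) {a : Fin (c.L p).n} (hab : a ≠ b) :
    rp (B.m a) (P.Z a) (P.e b s ^ B.m b) (P.Z b (P.e b s)) ≠ 0 := by
  intro h
  obtain ⟨w, h1, h2⟩ := (rp_eq_zero (m_ne B a) _ _ _).1 h
  have hv := v_eq hs
  have hw : w ∈ ball (0 : ℂ) P.ρ := by
    refine root_mem (j := a) ?_ h1
    rw [hv] at hζ
    exact hζ
  have h3 : B.v b s = B.v a ((P.e a).symm w) := by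
    rw [hv, v_symm hw, h1, h2]
  exact hab (sheet_inj P hs (symm_mem hw) h3 hs0).1.symm



/-- the derivative of `G` at a point of the branch `b`. -/
theorem hasFDerivAt_G {b : Fin (c.L p).n} {s : ℂ} (hs : s ∈ (P.e b).source) (hs0 : s ≠ 0)
    (hζ : ‖(B.v b s).1‖ < P.δ) :
    HasFDerivAt P.G (hb B.m P.Z b (P.e b s) •
      dsh (B.m b) (P.Z b) (P.e b s ^ B.m b) (P.e b s)) (B.v b s) := by
  have hv := v_eq hs
  have hζ' : ‖P.e b s ^ B.m b‖ < P.δ := by
    rw [hv] at hζ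
    exact hζ
  rw [hv]
  refine hasFDerivAt_bp_zero (fun j => m_ne B j) (e_ne hs hs0) (fun a w h => ?_) fun a hab => ?_
  · exact Z_diffAt (root_mem hζ' h)
  · exact rp_other_ne P hs hs0 hζ hab

end Pl

end Basic

end

end Crest.Agent.R235.BoxL2_266
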