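import Crest.Agent.R235.BoxC_266
import Crest.Agent.R235.AdjPair_43

-- ▼ part R235/BoxD_266
section

/-!
Row 235 (S0364), package ADJ, leaf L2 (helper266), part 6: the factor `κ`,
`dF = κ σ(·, ∂u)` along the branches (field `κ_eq` of `Adj.Box`).
-/

set_option autoImplicit false
set_option maxSynthPendingDepth 3

open Set Function Filter MeasureTheory Metric
open scoped Manifold ContDiff Topology

universe u

namespace Crest.Agent.R235.BoxL2_266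

open Crest.Agent.R240 Crest.Agent.R240.Ch Crest.Agent.R240.Int
open Crest.Agent.R235 Crest.Agent.R235.Glob_370 Crest.Agent.R235.Wind_688
open Crest.Agent.R235.NWDefs_334 Crest.Agent.R235.BrNF_266 Crest.Agent.R235.Adj
open Crest.Agent.R235.RootProd_266 Crest.Agent.R235.BranchProd_266
open Crest.Agent.R235.Field_910

noncomputable section

section Basic

variable {M : Type u} [TopologicalSpace M] [ChartedSpace E4 M] [IsManifold 𝓘(ℝ, E4) ∞ M]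
variable {J : EndF E4 M} {c : JCurve J} {p : M} {V : Set M} {B : FBox c p V}

/-- the leaf direction. -/
def ez (B : FBox c p V) (y : ℂ × ℂ) : E4 := dmap B.Θ y (0, 1)

/-- `g_j(s) = σ(e_z, ∂u_j)`. -/
def gg (w : Trip M) (B : FBox c p V) (j : Fin (c.L p).n) (s : ℂ) : ℂ :=
  sg w J ((c.L p).u j s) (ez B (B.v j s)) (dmap ((c.L p).u j) s 1)

/-- `dΘ(0, a) = a e_z` for complex `a`. -/
theorem dmap_leaf {y : ℂ × ℂ} (hy : y ∈ ball (0 : ℂ × ℂ) B.R) (a : ℂ) :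
    dmap B.Θ y (0, a) = a.re • ez B y + a.im • atJ J (B.Θ y) (ez B y) := by
  have h1 : dmap B.Θ y (0, Complex.I) = atJ J (B.Θ y) (ez B y) := by
    have h2 := B.conj y hy (0, 1)
    rw [B.leaf y hy 1, mul_one] at h2
    exact h2
  have h3 : ((0 : ℂ), a) = a.re • ((0 : ℂ), (1 : ℂ)) + a.im • ((0 : ℂ), Complex.I) := by
    ext <;> simp
  rw [h3, AdjGen_83.dmap_add, AdjGen_83.dmap_smul, AdjGen_83.dmap_smul, h1]
  rfl

omit [IsManifold 𝓘(ℝ, E4) ∞ M] in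
/-- `dmap u` is complex linear. -/
theorem dmap_jhol {u : ℂ → M} {O : Set ℂ} (hu : IsJHol J u O) {s : ℂ} (hs : s ∈ O) (a : ℂ) :
    dmap u s a = a.re • dmap u s 1 + a.im • atJ J (u s) (dmap u s 1) := by
  have e1 : a = a.re • (1 : ℂ) + a.im • Complex.I := by
    apply Complex.ext <;> simp
  have e2 : dmap u s Complex.I = atJ J (u s) (dmap u s 1) := by
    have := hu.jhol s hs 1
    rwa [mul_one] at this
  conv_lhs => rw [e1]
  rw [AdjGen_83.dmap_add, AdjGen_83.dmap_smul, AdjGen_83.dmap_smul, e2]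

variable {w : Trip M}

theorem sg_self (hJ : IsJ w J) (x : M) (a : E4) : sg w J x a a = 0 := by
  have hA : Alt (val (w 1) x) := (val_smooth (w 1)).1 x
  have h1 := hJ.anti1 x (atJ J x a) a
  rw [hJ.sq] at h1
  have h2 : val (w 1) x (atJ J x a) a = 0 := by
    have h3 := hA.swap (atJ J x a) a
    simp only [map_neg, neg_apply] at h1
    linarith
  unfold Adj.sg
  rw [h2, hA a]
  simp

/-- the vector fields along a `J`-disc which are tangent to it are killed by `σ(·, ∂u)`. -/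
theorem sg_tangent (hJ : IsJ w J) {u : ℂ → M} {O : Set ℂ} (hu : IsJHol J u O) {s : ℂ} (hs : s ∈ O)
    (a : ℂ) : sg w J (u s) (dmap u s a) (dmap u s 1) = 0 := by
  rw [dmap_jhol hu hs a, sg_comb, sg_J_left hJ, sg_self hJ]
  simp

theorem sg_leaf (hJ : IsJ w J) {y : ℂ × ℂ} (hy : y ∈ ball (0 : ℂ × ℂ) B.R) (a : ℂ) (b : E4) :
    sg w J (B.Θ y) (dmap B.Θ y (0, a)) b = a * sg w J (B.Θ y) (ez B y) b := by
  rw [dmap_leaf hy, sg_comb, sg_J_left hJ]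
  conv_rhs => rw [← Complex.re_add_im a]
  ring

/-- nondegeneracy of `σ`. -/
theorem sg_nondeg (hw : Pos3 w) {x : M} {b : E4} (hb : b ≠ 0) : ∃ a : E4, sg w J x a b ≠ 0 := by
  by_contra hcon
  push Not at hcon
  apply hb
  have hA : Alt (val (w 1) x) := (val_smooth (w 1)).1 x
  refine nd hA (hw.W_ne' 1 x) ?_
  intro v
  rw [hA.swap]
  have h := congrArg Complex.re (hcon v)
  unfold Adj.sg at h
  simp only [Complex.sub_re, Complex.ofReal_re, Complex.mul_re, Complex.I_re, Complex.I_im,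
    Complex.ofReal_im, Complex.zero_re] at h
  linarith

namespace Pl

variable (P : Pl B)

theorem hol (j : Fin (c.L p).n) : IsJHol J ((c.L p).u j) (ball 0 1) := ((c.L p).disc j).hol

/-- a vector tangent to the sheet comes from the disc. -/
theorem dmap_sheet {b : Fin (c.L p).n} {s : ℂ} (hs : s ∈ (P.e b).source) (hs0 : s ≠ 0)
    (hζ : ‖(B.v b s).1‖ < P.δ) (a : ℂ) :
    ∃ a' : ℂ, dmap B.Θ (B.v b s) (a, fderiv ℝ (P.Z b) (P.e b s)
      (P.e b s / (B.m b * P.e b s ^ B.m b) * a)) = dmap ((c.L p).u b) s a' := by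
  set w₁ := P.e b s with hw₁
  have hw₁0 : w₁ ≠ 0 := e_ne hs hs0
  have hv : B.v b s = (w₁ ^ B.m b, P.Z b w₁) := v_eq hs
  set ζ := w₁ ^ B.m b with hζd
  have hζ0 : ζ ≠ 0 := pow_ne_zero _ hw₁0
  have hζ' : ‖ζ‖ < P.δ := by
    rw [hv] at hζ
    exact hζ
  have hbt0 : bt (B.m b) w₁ ζ = w₁ := bt_self hw₁0
  have hcut : ζ ∈ cutPlane (B.m b) w₁ := self_mem_cutPlane hw₁0
  have hbtd : HasFDerivAt (bt (B.m b) w₁) (mc (w₁ / (B.m b * ζ))) ζ := by
    have h1 := hasDerivAt_bt (m_ne B b) hw₁0 hcut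
    rw [hbt0] at h1
    refine (h1.hasFDerivAt.restrictScalars ℝ).congr_fderiv ?_
    ext
    simp [mul_comm]
  have hwm : w₁ ∈ ball (0 : ℂ) P.ρ := e_mem hs
  -- the graph
  have hZd : HasFDerivAt (P.Z b) (fderiv ℝ (P.Z b) w₁) (bt (B.m b) w₁ ζ) := by
    rw [hbt0]
    exact (Z_diffAt hwm).hasFDerivAt
  have hφ : HasFDerivAt (fun ξ : ℂ => (ξ, P.Z b (bt (B.m b) w₁ ξ)))
      ((ContinuousLinearMap.id ℝ ℂ).prod ((fderiv ℝ (P.Z b) w₁).comp (mc (w₁ / (B.m b * ζ))))) ζ :=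
    (hasFDerivAt_id ζ).prodMk (hZd.comp ζ hbtd)
  have hφ0 : (ζ, P.Z b (bt (B.m b) w₁ ζ)) = B.v b s := by rw [hbt0, hv]
  have hΘ : ContMDiffAt 𝓘(ℝ, ℂ × ℂ) 𝓘(ℝ, E4) ∞ B.Θ (ζ, P.Z b (bt (B.m b) w₁ ζ)) := by
    rw [hφ0]
    exact Θ_smoothAt (v_mem B b (P.src b hs))
  have h1 := AdjGen_83.dmap_comp (u := B.Θ) hφ hΘ a
  -- the disc
  have hsym : ContDiffAt ℝ ∞ (P.e b).symm (bt (B.m b) w₁ ζ) := by
    rw [hbt0]
    exact (P.nf b).cns.contDiffAt ((isOpen_ball.sdiff isClosed_singleton).mem_nhds ⟨hwm, hw₁0⟩)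
  have hτ : HasFDerivAt (fun ξ : ℂ => (P.e b).symm (bt (B.m b) w₁ ξ))
      ((fderiv ℝ (P.e b).symm (bt (B.m b) w₁ ζ)).comp (mc (w₁ / (B.m b * ζ)))) ζ :=
    ((hsym.differentiableAt (by simp)).hasFDerivAt).comp ζ hbtd
  have hτ0 : (P.e b).symm (bt (B.m b) w₁ ζ) = s := by
    rw [hbt0]
    exact (P.e b).left_inv hs
  have hs1 : s ∈ ball (0 : ℂ) 1 := ball_subset_ball B.r1_le (P.src b hs)
  have hu : ContMDiffAt 𝓘(ℝ, ℂ) 𝓘(ℝ, E4) ∞ ((c.L p).u b) ((P.e b).symm (bt (B.m b) w₁ ζ)) := by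
    rw [hτ0]
    exact (hol b).smooth.contMDiffAt (isOpen_ball.mem_nhds hs1)
  have h2 := AdjGen_83.dmap_comp (u := (c.L p).u b) hτ hu a
  -- they agree near `ζ`
  have hev : (fun ξ : ℂ => B.Θ (ξ, P.Z b (bt (B.m b) w₁ ξ))) =ᶠ[𝓝 ζ]
      fun ξ => (c.L p).u b ((P.e b).symm (bt (B.m b) w₁ ξ)) := by
    have h3 : ∀ᶠ ξ in 𝓝 ζ, bt (B.m b) w₁ ξ ∈ ball (0 : ℂ) P.ρ := by
      refine hbtd.continuousAt.eventually_mem (isOpen_ball.mem_nhds ?_)
      rw [hbt0]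
      exact hwm
    filter_upwards [h3] with ξ hξ
    have h4 := v_symm (P := P) (j := b) hξ
    rw [bt_pow (m_ne B b) hw₁0] at h4
    rw [← h4, Θ_v B b (symm_mem' hξ)]
  have h3 := AdjGen_83.dmap_congr hev a
  rw [h1, h2, hφ0, hτ0] at h3
  exact ⟨_, h3⟩

/-- **the key identity**: `σ(dΘ(X), ∂u) = dsh(X) g`. -/
theorem sg_key (hJ : IsJ w J) {b : Fin (c.L p).n} {s : ℂ} (hs : s ∈ (P.e b).source)
    (hs0 : s ≠ 0) (hζ : ‖(B.v b s).1‖ < P.δ) (X : ℂ × ℂ) :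
    sg w J ((c.L p).u b s) (dmap B.Θ (B.v b s) X) (dmap ((c.L p).u b) s 1) =
      dsh (B.m b) (P.Z b) (P.e b s ^ B.m b) (P.e b s) X * gg w B b s := by
  have hs1 : s ∈ ball (0 : ℂ) 1 := ball_subset_ball B.r1_le (P.src b hs)
  obtain ⟨a', ha'⟩ := dmap_sheet P hs hs0 hζ X.1
  set T : ℂ := fderiv ℝ (P.Z b) (P.e b s) (P.e b s / (B.m b * P.e b s ^ B.m b) * X.1) with hT
  have hdec : X = (X.1, T) + ((0 : ℂ), X.2 - T) := by
    ext <;> simp
  have hdsh : dsh (B.m b) (P.Z b) (P.e b s ^ B.m b) (P.e b s) X = X.2 - T := dsh_apply _ _ _ _ _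
  have hvm := v_mem B b (P.src b hs)
  have hΘv : B.Θ (B.v b s) = (c.L p).u b s := Θ_v B b (P.src b hs)
  have h1 : dmap B.Θ (B.v b s) X =
      (1 : ℝ) • dmap ((c.L p).u b) s a' + (1 : ℝ) • dmap B.Θ (B.v b s) (0, X.2 - T) := by
    conv_lhs => rw [hdec]
    rw [AdjGen_83.dmap_add, ha', one_smul, one_smul]
  rw [h1, sg_comb, sg_tangent hJ (hol b) hs1, hdsh, gg]
  have h2 := sg_leaf (w := w) hJ hvm (X.2 - T) (dmap ((c.L p).u b) s 1)
  rw [hΘv] at h2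
  rw [h2]
  simp

/-- `g_j ≠ 0` off the centre. -/
theorem gg_ne (hw : Pos3 w) (hJ : IsJ w J) {b : Fin (c.L p).n} {s : ℂ}
    (hs : s ∈ (P.e b).source) (hs0 : s ≠ 0) (hζ : ‖(B.v b s).1‖ < P.δ) : gg w B b s ≠ 0 := by
  intro h
  have hs1 : s ∈ ball (0 : ℂ) 1 := ball_subset_ball B.r1_le (P.src b hs)
  have hne : dmap ((c.L p).u b) s 1 ≠ 0 := by
    intro h0
    exact one_ne_zero (((c.L p).disc b).imm s hs1 hs0 1 h0)
  obtain ⟨a, ha⟩ := sg_nondeg (J := J) hw (x := (c.L p).u b s) hne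
  have hT := B.inT b s (P.src b hs)
  have h1 := dmap_DS (B := B) hT a
  have h2 : B.Θ.symm ((c.L p).u b s) = B.v b s := (B.v_eq b s).symm
  rw [h2] at h1
  have h3 := sg_key (w := w) P hJ hs hs0 hζ (DS B ((c.L p).u b s) a)
  rw [h1, h, mul_zero] at h3
  exact ha h3

/-- the factor. -/
def kap (w : Trip M) (b : Fin (c.L p).n) (s : ℂ) : ℂ :=
  hb B.m P.Z b (P.e b s) / gg w B b s


/-- **κ_eq**: `dF = κ σ(·, ∂u)` along the branches. -/
theorem kap_eq (hw : Pos3 w) (hJ : IsJ w J) {b : Fin (c.L p).n} {s : ℂ}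
    (hs : s ∈ (P.e b).source) (hs0 : s ≠ 0) (hζ : ‖(B.v b s).1‖ < P.δ) (X : E4) :
    dC P.F ((c.L p).u b s) X =
      P.kap w b s * sg w J ((c.L p).u b s) X (dmap ((c.L p).u b) s 1) := by
  have hT := B.inT b s (P.src b hs)
  have h2 : B.Θ.symm ((c.L p).u b s) = B.v b s := (B.v_eq b s).symm
  have h3 := hasFDerivAt_G P hs hs0 hζ
  rw [← h2] at h3
  rw [dC_F P hT h3]
  have h1 := dmap_DS (B := B) hT X
  rw [h2] at h1
  have h4 := sg_key (w := w) P hJ hs hs0 hζ (DS B ((c.L p).u b s) X)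
  rw [h1] at h4
  rw [h4, kap]
  have hg := gg_ne P hw hJ hs hs0 hζ
  show hb B.m P.Z b (P.e b s) * dsh (B.m b) (P.Z b) (P.e b s ^ B.m b) (P.e b s)
    (DS B ((c.L p).u b s) X) = _
  field_simp

/-- radius of validity. -/
theorem exists_r0 {δ : ℝ} (hδ : 0 < δ) : ∃ r0 : ℝ, 0 < r0 ∧ r0 ≤ B.r1 ∧
    ∀ j, ∀ s ∈ ball (0 : ℂ) r0, s ∈ (P.e j).source ∧ B.v j s ∈ ball (0 : ℂ × ℂ) δ ∧
      (c.L p).u j s ∈ UU B δ := by
  have h1 : ∀ j, ∃ r : ℝ, 0 < r ∧ r ≤ B.r1 ∧ ∀ s ∈ ball (0 : ℂ) r,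
      s ∈ (P.e j).source ∧ B.v j s ∈ ball (0 : ℂ × ℂ) δ := by
    intro j
    have h0 := mem_ball_self (x := (0 : ℂ)) B.r1_pos
    have h2 : ContinuousAt (B.v j) 0 :=
      ((B.v_smooth j).contDiffAt (isOpen_ball.mem_nhds h0)).continuousAt
    have h3 : ∀ᶠ s in 𝓝 (0 : ℂ), B.v j s ∈ ball (0 : ℂ × ℂ) δ := by
      refine h2.eventually_mem (isOpen_ball.mem_nhds ?_)
      rw [v_zero]
      exact mem_ball_self hδ
    obtain ⟨r, hr, hr2⟩ := Metric.eventually_nhds_iff_ball.1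
      (h3.and ((P.e j).open_source.mem_nhds (P.nf j).src))
    refine ⟨min r B.r1, lt_min hr B.r1_pos, min_le_right _ _, fun s hs => ?_⟩
    have := hr2 s (ball_subset_ball (min_le_left _ _) hs)
    exact ⟨this.2, this.1⟩
  choose r hr hr1 hr2 using h1
  obtain ⟨r0, hr0, -, hr0'⟩ := exists_pos_le r hr
  refine ⟨min r0 B.r1, lt_min hr0 B.r1_pos, min_le_right _ _, fun j s hs => ?_⟩
  have hsj : s ∈ ball (0 : ℂ) (r j) := ball_subset_ball ((min_le_left _ _).trans (hr0' j)) hs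
  have hs1 : s ∈ ball (0 : ℂ) B.r1 := ball_subset_ball (min_le_right _ _) hs
  obtain ⟨h3, h4⟩ := hr2 j s hsj
  refine ⟨h3, h4, B.inT j s hs1, ?_⟩
  rw [mem_preimage, ← B.v_eq]
  exact h4

theorem norm_fst_lt' {x : ℂ × ℂ} {δ : ℝ} (hδ : δ ≤ P.δ) (hx : x ∈ ball (0 : ℂ × ℂ) δ) :
    ‖x.1‖ < P.δ := norm_fst_lt (ball_subset_ball hδ hx)

end Pl

end Basic

end

end Crest.Agent.R235.BoxL2_266
end

-- ▼ part R235/BoxE_266

/-!
Row 235 (S0364), package ADJ (helper266): assembly of `Adj.Box` / `Adj.BOXP` from the foliation box,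
the weak formula (`WEAKP`, helper250) and the winding numbers (`WINDP`, helper688).
-/

set_option autoImplicit false
set_option maxSynthPendingDepth 3

open Set Function Filter MeasureTheory Metric
open scoped Manifold ContDiff Topology

universe u

namespace Crest.Agent.R235.BoxL2_266

open Crest.Agent.R240 Crest.Agent.R240.Ch Crest.Agent.R240.Int
open Crest.Agent.R235 Crest.Agent.R235.Glob_370 Crest.Agent.R235.Wind_688
open Crest.Agent.R235.NWDefs_334 Crest.Agent.R235.BrNF_266 Crest.Agent.R235.Adj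
open Crest.Agent.R235.RootProd_266 Crest.Agent.R235.BranchProd_266

noncomputable section

/-- the two descriptions of the neighbourhoods. -/
theorem UU_eq_image {M : Type u} [TopologicalSpace M] [ChartedSpace E4 M]
    [IsManifold 𝓘(ℝ, E4) ∞ M] {J : EndF E4 M} {c : JCurve J} {p : M} {V : Set M}
    (B : FBox c p V) {δ : ℝ} (hδ : δ ≤ B.R) : UU B δ = B.Θ '' ball (0 : ℂ × ℂ) δ := by
  ext x
  constructor
  · rintro ⟨h1, h2⟩
    exact ⟨B.Θ.symm x, h2, B.Θ.right_inv h1⟩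
  · rintro ⟨y, hy, rfl⟩
    exact Θ_mem_UU B hδ hy

section Closed

variable {M : Type u} [TopologicalSpace M] [T2Space M] [CompactSpace M]
  [ChartedSpace E4 M] [IsManifold 𝓘(ℝ, E4) ∞ M]
variable {J : EndF E4 M} {c : JCurve J} {p : M} {V : Set M} {B : FBox c p V}

/-- **the Box from its pieces.** -/
def mkBox {w : Trip M} (hw : Pos3 w) (hJ : IsJ w J) (P : Pl B) {δ : ℝ} (hδ : 0 < δ)
    (hδP : δ ≤ P.δ) {r0 : ℝ} (hr : 0 < r0) (hr1 : r0 ≤ B.r1)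
    (h : ∀ j, ∀ s ∈ ball (0 : ℂ) r0, s ∈ (P.e j).source ∧ B.v j s ∈ ball (0 : ℂ × ℂ) δ ∧
      (c.L p).u j s ∈ UU B δ)
    (weak : ∀ χ : M → ℝ, SmoothF E4 χ → tsupport χ ⊆ UU B δ → ∀ (η : Z2 M) (b : X2 M),
      (b.1 : F2 E4 M) = fmul χ (η.1.1 : F2 E4 M) →
      c.T b = II (w 0) (wedG (dArg P.F) (dF χ)) (η.1.1 : F2 E4 M))
    (m : Fin (c.L p).n → ℤ)
    (wind : ∀ j, ∀ r : ℝ, 0 < r → r < r0 → IsW (P.kap w j) 0 r (m j))
    (m_nonneg : ∀ j, 0 ≤ m j)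
    (m_pos : ∀ j, (1 < (c.L p).n ∨ dmap ((c.L p).u j) 0 1 = 0) → 1 ≤ m j)
    (other : p ∈ range c.f → ∀ v : ℂ → M, IsDisc J v → v 0 = p →
      (∀ z ∈ ball (0 : ℂ) 1, v z ∈ range c.f → z = 0) →
      ∃ n : ℤ, 1 ≤ n ∧ WAt (fun z => P.F (v z)) 0 n) : Box w c p V where
  U := UU B δ
  openU := isOpen_UU B δ
  mem := p_mem_UU B hδ
  subV := UU_subV B δ
  subL := UU_subL B δ
  F := P.F
  cont := P.F_continuousOn.mono (UU_mono B hδP)
  zero := fun _ hx => P.F_zero (UU_mono B hδP hx)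
  E := Pl.EE B
  closedE := Pl.isOpen_sdiff_EE B δ
  smooth := fun _ hx hE => P.F_smooth (UU_mono B hδP hx) hE
  E_sub := fun _ hx hE hc => P.EE_sub (UU_mono B hδP hx) hE hc
  reg := fun _ h => Pl.EE_reg B h
  weak := weak
  κ := P.kap w
  r0 := r0
  r0_pos := hr
  r0_le := hr1.trans B.r1_le
  inU := fun j z hz => (h j z hz).2.2
  κ_eq := fun j z hz hz0 v =>
    P.kap_eq hw hJ (h j z hz).1 hz0 (Pl.norm_fst_lt' P hδP (h j z hz).2.1) v
  m := m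
  wind := wind
  m_nonneg := m_nonneg
  m_pos := m_pos
  other := other

end Closed

/-- **WEAKP** (owner helper250): the weak equation of `(1/2π) d arg F` in small neighbourhoods. -/
def WEAKP : Prop :=
  ∀ (M : Type u) [TopologicalSpace M] [T2Space M] [CompactSpace M] [ConnectedSpace M]
    [ChartedSpace E4 M] [IsManifold 𝓘(ℝ, E4) ∞ M] (w : Trip M) (J : EndF E4 M), Pos3 w → IsJ w J →
    ∀ (c : JCurve J) (p : M) (V : Set M) (B : FBox c p V) (P : Pl B), ∃ δ0 : ℝ, 0 < δ0 ∧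
      ∀ δ : ℝ, 0 < δ → δ ≤ δ0 → ∀ χ : M → ℝ, SmoothF E4 χ → tsupport χ ⊆ UU B δ →
        ∀ (η : Z2 M) (b : X2 M), (b.1 : F2 E4 M) = fmul χ (η.1.1 : F2 E4 M) →
          c.T b = II (w 0) (wedG (dArg P.F) (dF χ)) (η.1.1 : F2 E4 M)

/-- **WINDP** (owner helper688): the winding numbers of `κ` and of `F` along another disc. -/
def WINDP : Prop :=
  ∀ (M : Type u) [TopologicalSpace M] [T2Space M] [CompactSpace M] [ConnectedSpace M]
    [ChartedSpace E4 M] [IsManifold 𝓘(ℝ, E4) ∞ M] (w : Trip M) (J : EndF E4 M), Pos3 w → IsJ w J →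
    ∀ (c : JCurve J) (p : M) (V : Set M) (B : FBox c p V) (P : Pl B), ∃ r1 : ℝ, 0 < r1 ∧
      ∃ m : Fin (c.L p).n → ℤ, (∀ j, ∀ r : ℝ, 0 < r → r < r1 → IsW (P.kap w j) 0 r (m j)) ∧
        (∀ j, 0 ≤ m j) ∧
        (∀ j, (1 < (c.L p).n ∨ dmap ((c.L p).u j) 0 1 = 0) → 1 ≤ m j) ∧
        (p ∈ range c.f → ∀ v : ℂ → M, IsDisc J v → v 0 = p →
          (∀ z ∈ ball (0 : ℂ) 1, v z ∈ range c.f → z = 0) →
          ∃ n : ℤ, 1 ≤ n ∧ WAt (fun z => P.F (v z)) 0 n)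

/-- the box of a foliation box. -/
theorem exists_box (hW : WEAKP.{u}) (hN : WINDP.{u}) {M : Type u} [TopologicalSpace M] [T2Space M]
    [CompactSpace M] [ConnectedSpace M] [ChartedSpace E4 M] [IsManifold 𝓘(ℝ, E4) ∞ M]
    {w : Trip M} {J : EndF E4 M} (hw : Pos3 w) (hJ : IsJ w J) {c : JCurve J} {p : M} {V : Set M}
    (B : FBox c p V) : ∃ X : Box w c p V, X.E ⊆ Pl.EE B ∧ X.U ⊆ B.Θ.target := by
  obtain ⟨P⟩ := exists_pl B
  obtain ⟨δ0, hδ0, hweak⟩ := hW M w J hw hJ c p V B P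
  obtain ⟨r1, hr1, m, hm1, hm2, hm3, hm4⟩ := hN M w J hw hJ c p V B P
  set δ : ℝ := min P.δ δ0 with hδ
  have hδp : 0 < δ := lt_min P.δ_pos hδ0
  obtain ⟨r2, hr2, hr2B, hr2h⟩ := Pl.exists_r0 P hδp
  refine ⟨mkBox hw hJ P hδp (min_le_left _ _) (lt_min hr1 hr2) ((min_le_right _ _).trans hr2B)
    (fun j s hs => hr2h j s (ball_subset_ball (min_le_right _ _) hs))
    (hweak δ hδp (min_le_right _ _)) m
    (fun j r h1 h2 => hm1 j r h1 (h2.trans_le (min_le_left _ _))) hm2 hm3 hm4,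
    Subset.rfl, fun x hx => hx.1⟩

/-- **BOXP** from FBOXP, WEAKP, WINDP. -/
theorem boxp_of (hF : FBOXP.{u}) (hW : WEAKP.{u}) (hN : WINDP.{u}) : BOXP.{u} := by
  intro M _ _ _ _ _ _ w J hw hJ c c' p V hV hpV hp
  obtain ⟨B, hB⟩ := hF M J hJ.smooth hJ.sq c c' p V hV hpV hp
  obtain ⟨X, hX, hXU⟩ := exists_box hW hN hw hJ B
  refine ⟨X, fun x hxU hxE hxc => ?_⟩
  have hE := hX hxE
  have h1 : B.Θ.symm x ∈ ball (0 : ℂ × ℂ) B.R := symm_mem_ball' B hE.1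
  have h2 : B.Θ (B.Θ.symm x) ∈ range c'.f := by
    rw [B.Θ.right_inv hE.1]
    exact hxc
  have h3 := hB _ h1 hE.2.1 h2
  rw [← B.Θ.right_inv hE.1, h3, B.centre]
where
  symm_mem_ball' {M : Type u} [TopologicalSpace M] [ChartedSpace E4 M] [IsManifold 𝓘(ℝ, E4) ∞ M]
      {J : EndF E4 M} {c : JCurve J} {p : M} {V : Set M} (B : FBox c p V) {x : M}
      (hx : x ∈ B.Θ.target) : B.Θ.symm x ∈ ball (0 : ℂ × ℂ) B.R := by
    rw [← B.source]
    exact B.Θ.map_target hx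

end

end Crest.Agent.R235.BoxL2_266
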