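import Crest.Agent.R235.Br281_819
import Crest.Agent.R281.Al4_830
import Crest.Agent.R281.KpK_487
import Crest.Agent.R281.HkM1_835
import Crest.Agent.R281.Nef4_252

-- ▼ part R235/Br281b_819
section

/-!
# R235, BRIDGE 281 (helper819), part 2: the wedge product of Kaehler and (2,0) forms on `ℂ²`

* `Bc : E4 →L[ℝ] Cn 2`, `Bi` : the standard real coordinates
* `pl D τ`          : pull back of a bilinear form on `Cn 2`
* `W_pl`            : `W (pl D τ) (pl D η) = det * W (pl Bc τ) (pl Bc η)`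
* `W_kah`           : `W = 2 det g` for the form of the Hermitian matrix `g`
* `W_sym`           : `W = 2 ‖det S‖` for the real part of the antisymmetric matrix `S`
-/

set_option autoImplicit false
set_option maxSynthPendingDepth 3

open Set Filter Topology Complex
open scoped Manifold ContDiff ComplexConjugate

namespace Crest.Agent.R235.Br281b_819

open Crest.Agent.R240 Crest.Agent.R275.Geo Crest.Agent.R275.Core144

noncomputable section

/-- real coordinates on `ℂ²` -/
def Bc : E4 →L[ℝ] Cn 2 :=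
  LinearMap.toContinuousLinearMap
    { toFun := fun x => WithLp.toLp 2 ![(x 0 : ℂ) + (x 1 : ℂ) * I, (x 2 : ℂ) + (x 3 : ℂ) * I]
      map_add' := fun x y => by
        ext a
        fin_cases a <;> simp <;> ring
      map_smul' := fun c x => by
        ext a
        fin_cases a <;> simp <;> ring }


/-- the inverse -/
def Bi : Cn 2 →L[ℝ] E4 :=
  LinearMap.toContinuousLinearMap
    { toFun := fun z => WithLp.toLp 2 ![(z 0).re, (z 0).im, (z 1).re, (z 1).im]
      map_add' := fun x y => by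
        ext a
        fin_cases a <;> simp
      map_smul' := fun c x => by
        ext a
        fin_cases a <;> simp }

theorem Bc_Bi (z : Cn 2) : Bc (Bi z) = z := by
  ext a
  fin_cases a
  · exact Complex.re_add_im _
  · exact Complex.re_add_im _


/-- pull back of a bilinear form -/
def pl (D : E4 →L[ℝ] Cn 2) (τ : Cn 2 →L[ℝ] Cn 2 →L[ℝ] ℝ) : Bil := τ.bilinearComp D D

@[simp] theorem pl_apply (D : E4 →L[ℝ] Cn 2) (τ : Cn 2 →L[ℝ] Cn 2 →L[ℝ] ℝ) (u v : E4) :
    pl D τ u v = τ (D u) (D v) := rfl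

theorem pl_eq (D : E4 →L[ℝ] Cn 2) (τ : Cn 2 →L[ℝ] Cn 2 →L[ℝ] ℝ) :
    pl D τ = pull (Bi.comp D) (pl Bc τ) := by
  ext u v
  rw [pull_apply, pl_apply, pl_apply, ContinuousLinearMap.comp_apply,
    ContinuousLinearMap.comp_apply, Bc_Bi, Bc_Bi]

theorem alt_pl {τ : Cn 2 →L[ℝ] Cn 2 →L[ℝ] ℝ} (h : ∀ u v, τ u v = - τ v u)
    (D : E4 →L[ℝ] Cn 2) : Alt (pl D τ) := by
  intro v
  have := h (D v) (D v)
  show τ (D v) (D v) = 0
  linarith

theorem W_pl {τ η : Cn 2 →L[ℝ] Cn 2 →L[ℝ] ℝ} (h : ∀ u v, τ u v = - τ v u)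
    (h' : ∀ u v, η u v = - η v u) (D : E4 →L[ℝ] Cn 2) :
    W (pl D τ) (pl D η) =
      LinearMap.det ((Bi.comp D : E4 →L[ℝ] E4) : E4 →ₗ[ℝ] E4) * W (pl Bc τ) (pl Bc η) := by
  rw [pl_eq D τ, pl_eq D η, W_pull (alt_pl h Bc) (alt_pl h' Bc)]

theorem Bc_ee (i : Fin 4) : Bc (ee i) = WithLp.toLp 2
    ![if i = 0 then 1 else if i = 1 then I else 0, if i = 2 then 1 else if i = 3 then I else 0] := by
  ext a
  fin_cases i <;> fin_cases a <;> simp [Bc, ee]

theorem W_kah {g : Matrix (Fin 2) (Fin 2) ℂ} (hg : g.IsHermitian)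
    {τ : Cn 2 →L[ℝ] Cn 2 →L[ℝ] ℝ}
    (h : ∀ u v, τ u v = (I * Crest.Agent.R281.HkR_835.hb g u v).re) :
    W (pl Bc τ) (pl Bc τ) = 2 * g.det.re := by
  have e00 : (g 0 0).im = 0 := by
    have := congrFun (congrFun hg 0) 0
    rw [Matrix.conjTranspose_apply] at this
    have := congrArg Complex.im this
    simp at this
    linarith
  have e11 : (g 1 1).im = 0 := by
    have := congrFun (congrFun hg 1) 1
    rw [Matrix.conjTranspose_apply] at this
    have := congrArg Complex.im this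
    simp at this
    linarith
  have e10 : g 1 0 = conj (g 0 1) := by
    have := congrFun (congrFun hg 1) 0
    rw [Matrix.conjTranspose_apply] at this
    exact this.symm
  have h10r : (g 1 0).re = (g 0 1).re := by rw [e10, Complex.conj_re]
  have h10i : (g 1 0).im = - (g 0 1).im := by rw [e10, Complex.conj_im]
  have hent : ∀ i j, ent (pl Bc τ) i j = (I * Crest.Agent.R281.HkR_835.hb g (Bc (ee i)) (Bc (ee j))).re :=
    fun i j => h _ _
  unfold W
  simp only [hent, Bc_ee, Crest.Agent.R281.HkR_835.hb, Fin.sum_univ_two]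
  simp [Matrix.det_fin_two, e00, e11, h10r, h10i]
  ring

theorem W_sym {S : Matrix (Fin 2) (Fin 2) ℂ} (hS : S.transpose = -S)
    {τ : Cn 2 →L[ℝ] Cn 2 →L[ℝ] ℝ}
    (h : ∀ u v, τ u v = (Crest.Agent.R281.HkR_835.sb S u v).re) :
    W (pl Bc τ) (pl Bc τ) = 2 * ‖S.det‖ := by
  have e00 : S 0 0 = 0 := by
    have := congrFun (congrFun hS 0) 0
    rw [Matrix.transpose_apply, Matrix.neg_apply] at this
    have h2 : (2 : ℂ) * S 0 0 = 0 := by linear_combination this
    simpa using h2
  have e11 : S 1 1 = 0 := by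
    have := congrFun (congrFun hS 1) 1
    rw [Matrix.transpose_apply, Matrix.neg_apply] at this
    have h2 : (2 : ℂ) * S 1 1 = 0 := by linear_combination this
    simpa using h2
  have e10 : S 1 0 = - S 0 1 := by
    have := congrFun (congrFun hS 0) 1
    rw [Matrix.transpose_apply, Matrix.neg_apply] at this
    exact this
  have hdet : S.det = S 0 1 ^ 2 := by
    rw [Matrix.det_fin_two, e00, e11, e10]
    ring
  have hn : ‖S.det‖ = (S 0 1).re ^ 2 + (S 0 1).im ^ 2 := by
    rw [hdet, norm_pow, ← Complex.normSq_eq_norm_sq, Complex.normSq_apply]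
    ring
  have hent : ∀ i j, ent (pl Bc τ) i j = (Crest.Agent.R281.HkR_835.sb S (Bc (ee i)) (Bc (ee j))).re :=
    fun i j => h _ _
  rw [hn]
  unfold W
  simp only [hent, Bc_ee, Crest.Agent.R281.HkR_835.sb, Fin.sum_univ_two]
  simp [e00, e11, e10]
  ring

end

end Crest.Agent.R235.Br281b_819
end

-- ▼ part R235/Br281c_819

/-!
# R235, BRIDGE 281 (helper819), part 3: Yau's theorem in the language of real charts, dimension 4

* `yauF` : `J : AJ C` with a Kaehler form `om` and a closed pair `s1 + i s2` of type (2,0)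
  (`HD J om s1 s2`), `F` smooth ==> a Kaehler form `om'` in the class of `om` with
  `om' ∧ om' = exp (F + c) s1 ∧ s1`
-/

set_option autoImplicit false
set_option maxSynthPendingDepth 3
set_option linter.unusedSectionVars false

open Set Filter Topology Complex
open scoped Manifold ContDiff Matrix ComplexConjugate ComplexOrder

namespace Crest.Agent.R235.Br281c_819

open Crest.Agent.R240 Crest.Agent.R275.Geo Crest.Agent.R275.Core144 Crest.Agent.R275.GC293
open Crest.Agent.R273 Crest.Agent.R273.Hess_333 Crest.Agent.R273.HessB_333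
open Crest.Agent.R273.Defs_333 Crest.Agent.R273.HM_333 Crest.Agent.R273.Kah_333
open Crest.Agent.R273.Vol_333 Crest.Agent.R273.Vm_333
open Crest.Agent.R281.Defs_273 (H2 HSymp)
open Crest.Agent.R281.HkR_835 hiding pb pb_apply
open Crest.Agent.R281.HkR_835.Cmp
open Crest.Agent.R281.Ti_846 hiding pb pb_apply
open Crest.Agent.R281.NefO_476 Crest.Agent.R281.Nef_252
open Crest.Agent.R281.Al_830 Crest.Agent.R281.HkP2_508
open Crest.Agent.R281.Dif_268 (Eqv)
open Crest.Agent.R235.Br281b_819

noncomputable section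

variable {X : Type} [TopologicalSpace X] {C : RCh E4 X}

theorem sm_of_cmp {A : Atl 2 X} (h : Cmp C (ofAtl A)) {F : X → ℝ} (hF : Sm C F) : A.Sm F := by
  intro j z hz
  obtain ⟨i, hi⟩ := exists_mov (C' := ofAtl A) C (j := j) hz
  refine ContDiffAt.contDiffWithinAt ?_
  have h1 : (fun y => F ((A.e j).symm y)) =ᶠ[𝓝 z]
      fun y => uc C F i (mt C (ofAtl A) i j y) := by
    filter_upwards [(isOpen_mov C (ofAtl A) i j).mem_nhds hi] with y hy
    exact congrArg F ((C.e i).left_inv hy.2).symm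
  have h2 : ContDiffAt ℝ ∞ (mt C (ofAtl A) i j) z :=
    (h.s i j).contDiffAt ((isOpen_mov C (ofAtl A) i j).mem_nhds hi)
  have h3 : ContDiffAt ℝ ∞ (uc C F i) (mt C (ofAtl A) i j z) := hF.at (mt_mem hi).1
  exact (h3.comp z h2).congr_of_eventuallyEq h1

theorem finrank_E4 : Module.finrank ℝ E4 = 2 * 2 := by
  rw [finrank_euclideanSpace]
  rfl

theorem yauF [T2Space X] [CompactSpace X] [ConnectedSpace X] {J : AJ C} {om s1 s2 : F2 C}
    (D : HD J om s1 s2) {F : X → ℝ} (hF : Sm C F) :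
    ∃ (om' : F2 C) (c : ℝ), Ex (om' - om) ∧ T11 J om' ∧ Pos J om' ∧
      ∀ i, ∀ z ∈ (C.e i).target, W (om'.w i z) (om'.w i z) =
        Real.exp (F ((C.e i).symm z) + c) * W (s1.w i z) (s1.w i z) := by
  obtain ⟨A, hfin, hgood, ⟨PA⟩, h, hI⟩ := exists_atlas (d := 2) finrank_E4 D.cx
  set K : Kah A := D.K hI h with hK
  set S : HSymp A := D.S hI h with hS
  obtain ⟨u, c, hu, hY⟩ := Crest.Agent.R281.KpK_487.yau_kah A K
    (fun x => F x + ratio (volK K) (volS S) x)
    (fun i => (sm_of_cmp h hF i).add (sm_ratio (volK K) (volS S) i))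
  have hp : ∀ i, ∀ x ∈ (A.e i).source, (K.g i x + hsf A u i x).PosDef :=
    fun i x hx => (hY i x hx).1
  set K' : Kah A := addK K u hu hp with hK'
  set om' : F2 C := h.symm.F (ofKah K').f2 with hom'
  -- reading in the charts of `A`
  have hrd : ∀ {i : C.ι} {j : A.ι} {z : E4}, z ∈ mov (ofAtl A) C j i → ∀ a b : E4,
      om'.w i z a b = (ofKah K').f2.w j (mt (ofAtl A) C j i z)
        (fderiv ℝ (mt (ofAtl A) C j i) z a) (fderiv ℝ (mt (ofAtl A) C j i) z b) := by
    intro i j z hz a b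
    exact h.symm.F_w _ hz a b
  have hex : Ex (om' - om) := by
    have e1 : Ex ((ofKah K').f2 - (ofKah K).f2) := ex_of_hsf hu fun i x _ => rfl
    have e2 : Ex (h.symm.F ((ofKah K').f2 - (ofKah K).f2)) :=
      Crest.Agent.R281.HkR_835.ex_F h.symm e1
    have e3 : Ex (h.symm.F (ofKah K').f2 - h.symm.F (ofKah K).f2) :=
      (Crest.Agent.R281.HkR_835.F_sub h.symm _ _).ex e2
    have e4 : Eqv (h.symm.F (ofKah K).f2) om := by
      refine Eqv.trans (w' := h.symm.F (h.F om)) ?_ (Crest.Agent.R281.HkR_835.F_F h om)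
      refine F_eqv fun j z hz a b => ?_
      rw [D.K_f2 hI h hz]
    refine Eqv.ex (w := h.symm.F (ofKah K').f2 - h.symm.F (ofKah K).f2) ?_ e3
    intro i z hz a b
    have := e4 i z hz a b
    show (h.symm.F (ofKah K').f2).w i z a b - (h.symm.F (ofKah K).f2).w i z a b =
      om'.w i z a b - om.w i z a b
    rw [this]
  have h11 : T11 J om' := by
    intro i z hz a b
    obtain ⟨j, hj⟩ := exists_mov (C' := C) (ofAtl A) (j := i) hz
    rw [hrd hj, hrd hj, hI.back h hj, hI.back h hj]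
    exact K11.f2_inv _ (mt_mem hj).1 _ _
  have hpos : Pos J om' := by
    intro i z hz v hv
    obtain ⟨j, hj⟩ := exists_mov (C' := C) (ofAtl A) (j := i) hz
    rw [hrd hj, hI.back h hj]
    refine ((pos_f2 (ofKah K')).2 fun i x hx => K'.pos i x hx) j _ (mt_mem hj).1 _ fun h0 => hv ?_
    exact h.symm.inj hj (by rw [h0, map_zero])
  refine ⟨om', c, hex, h11, hpos, fun i z hz => ?_⟩
  obtain ⟨j, hj⟩ := exists_mov (C' := C) (ofAtl A) (j := i) hz
  set z' := mt (ofAtl A) C j i z with hz'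
  have hzt : z' ∈ (A.e j).target := (mt_mem hj).1
  set Dm := fderiv ℝ (mt (ofAtl A) C j i) z with hDm
  have hx : (A.e j).symm z' = (C.e i).symm z := (A.e j).left_inv hj.2
  have hxs : (C.e i).symm z ∈ (A.e j).source := hj.2
  have e1 : om'.w i z = pl Dm ((ofKah K').f2.w j z') := by
    ext a b
    rw [hrd hj]
    rfl
  have e2 : s1.w i z = pl Dm ((h.F s1).w j z') := by
    ext a b
    have := Crest.Agent.R281.HkR_835.F_F h s1 i z hz a b
    rw [← this, h.symm.F_w _ hj]
    rfl
  have a1 : ∀ u v, (ofKah K').f2.w j z' u v = - (ofKah K').f2.w j z' v u :=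
    fun u v => (ofKah K').f2.alt j z' hzt u v
  have a2 : ∀ u v, (h.F s1).w j z' u v = - (h.F s1).w j z' v u :=
    fun u v => (h.F s1).alt j z' hzt u v
  have w1 : W (pl Bc ((ofKah K').f2.w j z')) (pl Bc ((ofKah K').f2.w j z')) =
      2 * (K'.g j ((C.e i).symm z)).det.re :=
    W_kah (K'.pos j _ hxs).isHermitian fun u v => by
      rw [K11.f2_w _ hzt, hx]
      rfl
  have w2 : W (pl Bc ((h.F s1).w j z')) (pl Bc ((h.F s1).w j z')) =
      2 * ‖(S.s j ((C.e i).symm z)).det‖ :=
    W_sym (S.alt j _ hxs) fun u v => by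
      have h3 := D.S0_sb hI h hzt u v
      have h4 : sl (D.S0 hI h) j z' = S.s j ((C.e i).symm z) := by
        show (D.S0 hI h).s j ((A.e j).symm z') = _
        rw [hx]
        rfl
      rw [h4] at h3
      rw [h3]
      simp
  rw [e1, e2, W_pl a1 a1, W_pl a2 a2, w1, w2]
  have h5 := (hY j _ hxs).2
  have h6 : (K'.g j ((C.e i).symm z)).det.re =
      Real.exp (F ((C.e i).symm z) + ratio (volK K) (volS S) ((C.e i).symm z) + c) *
        (K.g j ((C.e i).symm z)).det.re := by
    have : (K'.g j ((C.e i).symm z)).det =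
      (K.g j ((C.e i).symm z) + hsf A u j ((C.e i).symm z)).det := rfl
    rw [this, h5, Complex.re_ofReal_mul]
  have h7 : ‖(S.s j ((C.e i).symm z)).det‖ =
      Real.exp (ratio (volK K) (volS S) ((C.e i).symm z)) * (K.g j ((C.e i).symm z)).det.re :=
    w_ratio (volK K) (volS S) hxs
  rw [h6, h7]
  have h8 : F ((C.e i).symm z) + ratio (volK K) (volS S) ((C.e i).symm z) + c =
    (F ((C.e i).symm z) + c) + ratio (volK K) (volS S) ((C.e i).symm z) := by ring
  rw [h8, Real.exp_add (F ((C.e i).symm z) + c)]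
  ring

end

end Crest.Agent.R235.Br281c_819
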