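import Crest.Agent.R235.Br281_819
import Crest.Agent.R240.Lin4
import Crest.Agent.R235.Br281c_819

-- ▼ part R235/Br281d_819
section

/-!
# R235, BRIDGE 281 (helper819), part 4: pointwise algebra of anti-invariant pairs; the global sign

* `inv_spos`  : the invariant part of a taming form is strictly positive
* `anti_W`    : `W b c = 2 (p p' + q q') det⁻¹` in a frame
* `pair_sign` : `b`, `c` anti-invariant, `W b b = W c c ≠ 0`, `W b c = 0` ==> `c = ± b (J ·, ·)`
* `anti_nd`   : an anti-invariant form with `W b b ≠ 0` is nondegenerate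
* `W_inv_anti`: `W a b = 0` for `a` invariant, `b` anti-invariant
* `glob_sign` : the sign is constant on a connected manifold
-/

set_option autoImplicit false
set_option maxSynthPendingDepth 3

open Set Filter Topology
open scoped Manifold ContDiff

namespace Crest.Agent.R235.Br281d_819

open Crest.Agent.R240 Crest.Agent.R240.Ch Crest.Agent.R235 Crest.Agent.R235.Br281_819

noncomputable section

section pw

variable {J : E4 →L[ℝ] E4} {b c : Bil}

theorem inv_spos (hJ : ∀ v, J (J v) = -v) (hb : Alt b) (ht : ∀ v, v ≠ 0 → 0 < b v (J v)) :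
    SPos J (invp J b) where
  alt := hb.invp J
  inv u v := by
    rw [invp_apply, invp_apply, hJ, hJ, neg_neg_apply]
    ring
  pos v hv := by
    rw [invp_apply, hJ, map_neg, hb.swap (J v) v]
    have := ht v hv
    linarith

/-- the entries of an anti-invariant form in a frame -/
theorem anti_ent {A : E4 ≃L[ℝ] E4} (hA : ∀ v, J (A v) = A (J0 v)) (hb : Alt b)
    (h : ∀ u v, b (J u) (J v) = - b u v) :
    ent (pull A b) 0 1 = 0 ∧ ent (pull A b) 2 3 = 0 ∧ ent (pull A b) 1 3 = - ent (pull A b) 0 2 ∧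
      ent (pull A b) 1 2 = ent (pull A b) 0 3 := by
  have hb' : Alt (pull A b) := hb.pull A
  have h0 : ∀ u v, (pull A b) (J0 u) (J0 v) = - (pull A b) u v := by
    intro u v
    rw [pull_apply, pull_apply]
    show b (A (J0 u)) (A (J0 v)) = - b (A u) (A v)
    rw [← hA, ← hA, h]
  have j0 : J0 (ee 0) = ee 1 := by ext i; fin_cases i <;> simp
  have j1 : J0 (ee 1) = - ee 0 := by ext i; fin_cases i <;> simp
  have j2 : J0 (ee 2) = ee 3 := by ext i; fin_cases i <;> simp
  have j3 : J0 (ee 3) = - ee 2 := by ext i; fin_cases i <;> simp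
  have e1 := h0 (ee 0) (ee 1)
  have e2 := h0 (ee 2) (ee 3)
  have e3 := h0 (ee 0) (ee 2)
  have e4 := h0 (ee 0) (ee 3)
  rw [j0, j1, map_neg] at e1
  rw [j2, j3, map_neg] at e2
  rw [j0, j2] at e3
  rw [j0, j3, map_neg] at e4
  have s1 := hb'.swap (ee 1) (ee 0)
  have s2 := hb'.swap (ee 3) (ee 2)
  refine ⟨?_, ?_, ?_, ?_⟩
  · show (pull A b) (ee 0) (ee 1) = 0
    linarith
  · show (pull A b) (ee 2) (ee 3) = 0
    linarith
  · exact e3
  · show (pull A b) (ee 1) (ee 2) = (pull A b) (ee 0) (ee 3)
    linarith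

theorem W_anti {A : E4 ≃L[ℝ] E4} (hA : ∀ v, J (A v) = A (J0 v)) (hb : Alt b) (hc : Alt c)
    (h : ∀ u v, b (J u) (J v) = - b u v) (h' : ∀ u v, c (J u) (J v) = - c u v) :
    LinearMap.det ((A : E4 →L[ℝ] E4) : E4 →ₗ[ℝ] E4) * W b c =
      2 * (ent (pull A b) 0 2 * ent (pull A c) 0 2 + ent (pull A b) 0 3 * ent (pull A c) 0 3) := by
  obtain ⟨b1, b2, b3, b4⟩ := anti_ent hA hb h
  obtain ⟨c1, c2, c3, c4⟩ := anti_ent hA hc h'
  have := W_pull hb hc (A : E4 →L[ℝ] E4)
  rw [← this]
  unfold W
  have e : ∀ i j, ent (pull ((A : E4 ≃L[ℝ] E4) : E4 →L[ℝ] E4) b) i j = ent (pull A b) i j :=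
    fun _ _ => rfl
  rw [b1, b2, b3, b4, c1, c2, c3, c4]
  ring

theorem det_ne (A : E4 ≃L[ℝ] E4) :
    LinearMap.det ((A : E4 →L[ℝ] E4) : E4 →ₗ[ℝ] E4) ≠ 0 := by
  have h : LinearMap.det (A.toLinearEquiv : E4 →ₗ[ℝ] E4) ≠ 0 :=
    (LinearEquiv.isUnit_det' A.toLinearEquiv).ne_zero
  exact h

/-- the form `b (J ·, ·)` -/
theorem pair_sign {A : E4 ≃L[ℝ] E4} (hA : ∀ v, J (A v) = A (J0 v)) (hb : Alt b) (hc : Alt c)
    (hJ : ∀ v, J (J v) = -v)
    (h : ∀ u v, b (J u) (J v) = - b u v) (h' : ∀ u v, c (J u) (J v) = - c u v)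
    (h0 : W b b ≠ 0) (h1 : W b b = W c c) (h2 : W b c = 0) :
    (∀ u v, c u v = b (J u) v) ∨ (∀ u v, c u v = - b (J u) v) := by
  have e1 := W_anti hA hb hb h h
  have e2 := W_anti hA hc hc h' h'
  have e3 := W_anti hA hb hc h h'
  rw [h2, mul_zero] at e3
  rw [← h1] at e2
  have hd := det_ne A
  set d := LinearMap.det ((A : E4 →L[ℝ] E4) : E4 →ₗ[ℝ] E4)
  obtain ⟨b1, b2, b3, b4⟩ := anti_ent hA hb h
  obtain ⟨c1, c2, c3, c4⟩ := anti_ent hA hc h'
  set p := ent (pull A b) 0 2 with hp
  set q := ent (pull A b) 0 3 with hq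
  set p' := ent (pull A c) 0 2 with hp'
  set q' := ent (pull A c) 0 3 with hq'
  have hn : p * p + q * q ≠ 0 := by
    intro h3
    rw [h3, mul_zero] at e1
    exact (mul_ne_zero hd h0) e1
  -- `J`-twisted form
  set β : Bil := b.comp J with hβ
  have hβa : ∀ u v, β u v = b (J u) v := fun _ _ => rfl
  have hβalt : Alt β := by
    intro v
    have e := h v (J v)
    rw [hJ v, map_neg] at e
    have e' := hb.swap v (J v)
    rw [hβa]
    linarith
  have j0 : J0 (ee 0) = ee 1 := by ext i; fin_cases i <;> simp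
  have j1 : J0 (ee 1) = - ee 0 := by ext i; fin_cases i <;> simp
  have j2 : J0 (ee 2) = ee 3 := by ext i; fin_cases i <;> simp
  have hent : ∀ i j, ent (pull A β) i j = (pull A b) (J0 (ee i)) (ee j) := by
    intro i j
    unfold ent
    rw [pull_apply, pull_apply, hβa]
    show b (J (A (ee i))) (A (ee j)) = b (A (J0 (ee i))) (A (ee j))
    rw [hA]
  have hb' : Alt (pull A b) := hb.pull A
  have t01 : ent (pull A β) 0 1 = 0 := by rw [hent, j0]; exact hb' _
  have t02 : ent (pull A β) 0 2 = q := by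
    rw [hent, j0]; exact b4
  have t03 : ent (pull A β) 0 3 = -p := by
    rw [hent, j0]; exact b3
  have t12 : ent (pull A β) 1 2 = -p := by
    rw [hent, j1, map_neg]; rfl
  have t13 : ent (pull A β) 1 3 = -q := by
    rw [hent, j1, map_neg]; rfl
  have t23 : ent (pull A β) 2 3 = 0 := by rw [hent, j2]; exact hb' _
  have hinj : ∀ {x y : Bil}, pull A x = pull A y → ∀ u v, x u v = y u v := by
    intro x y hxy u v
    have e := congrArg (fun T : Bil => T (A.symm u) (A.symm v)) hxy
    simp only [pull_apply] at e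
    have e2 : ∀ w, ((A : E4 ≃L[ℝ] E4) : E4 →L[ℝ] E4) (A.symm w) = w := fun w => A.apply_symm_apply w
    rw [e2, e2] at e
    exact e
  -- `(p', q') = ± (q, -p)`
  have k1 : p' * p' + q' * q' = p * p + q * q := by linarith
  have k2 : p * p' + q * q' = 0 := by linarith
  have k3 : (p' * q - q' * p) ^ 2 = (p * p + q * q) ^ 2 := by
    have : (p' * q - q' * p) ^ 2 = (p * p + q * q) * (p' * p' + q' * q') -
      (p * p' + q * q') ^ 2 := by ring
    rw [this, k1, k2]
    ring
  have k4 : (p' * q - q' * p = p * p + q * q) ∨ (p' * q - q' * p = -(p * p + q * q)) :=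
    sq_eq_sq_iff_eq_or_eq_neg.1 k3
  rcases k4 with k4 | k4
  · have e5 : p' = q := by
      have : (p * p + q * q) * (p' - q) = 0 := by linear_combination q * k4 + p * k2
      rcases mul_eq_zero.1 this with h5 | h5
      · exact absurd h5 hn
      · linarith
    have e6 : q' = -p := by
      have : (p * p + q * q) * (q' + p) = 0 := by linear_combination q * k2 - p * k4
      rcases mul_eq_zero.1 this with h5 | h5
      · exact absurd h5 hn
      · linarith
    left
    intro u v
    rw [← hβa]
    refine hinj (alt_ext (hc.pull A) (hβalt.pull A) ?_ ?_ ?_ ?_ ?_ ?_) u v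
    · exact c1.trans t01.symm
    · exact (hp'.symm.trans e5).trans t02.symm
    · exact (hq'.symm.trans e6).trans t03.symm
    · exact (c4.trans e6).trans t12.symm
    · exact (c3.trans (by rw [e5])).trans t13.symm
    · exact c2.trans t23.symm
  · have e5 : p' = -q := by
      have : (p * p + q * q) * (p' + q) = 0 := by linear_combination q * k4 + p * k2
      rcases mul_eq_zero.1 this with h5 | h5
      · exact absurd h5 hn
      · linarith
    have e6 : q' = p := by
      have : (p * p + q * q) * (q' - p) = 0 := by linear_combination q * k2 - p * k4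
      rcases mul_eq_zero.1 this with h5 | h5
      · exact absurd h5 hn
      · linarith
    right
    intro u v
    rw [← hβa]
    have hneg : ∀ i j, ent (pull A (-β)) i j = - ent (pull A β) i j := by
      intro i j
      unfold ent
      rw [pull_apply, pull_apply]
      rfl
    refine hinj (x := c) (y := -β) (alt_ext (hc.pull A) (hβalt.neg.pull A) ?_ ?_ ?_ ?_ ?_ ?_) u v
    · rw [hneg, t01, neg_zero]; exact c1
    · rw [hneg, t02]; exact hp'.symm.trans e5
    · rw [hneg, t03, neg_neg]; exact hq'.symm.trans e6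
    · rw [hneg, t12, neg_neg]; exact c4.trans e6
    · rw [hneg, t13, neg_neg]; exact c3.trans (by rw [e5, neg_neg])
    · rw [hneg, t23, neg_zero]; exact c2

theorem anti_nd {A : E4 ≃L[ℝ] E4} (hA : ∀ v, J (A v) = A (J0 v)) (hb : Alt b)
    (h : ∀ u v, b (J u) (J v) = - b u v) (h0 : W b b ≠ 0) {u : E4} (hu : ∀ v, b u v = 0) :
    u = 0 := by
  have e1 := W_anti hA hb hb h h
  obtain ⟨b1, b2, b3, b4⟩ := anti_ent hA hb h
  set p := ent (pull A b) 0 2 with hp
  set q := ent (pull A b) 0 3 with hq
  have hn : p * p + q * q ≠ 0 := by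
    intro h3
    rw [h3, mul_zero] at e1
    exact (mul_ne_zero (det_ne A) h0) e1
  have hb' : Alt (pull A b) := hb.pull A
  set w := A.symm u with hw
  have hwv : ∀ v, (pull A b) w v = 0 := by
    intro v
    rw [pull_apply]
    have : ((A : E4 ≃L[ℝ] E4) : E4 →L[ℝ] E4) w = u := A.apply_symm_apply u
    rw [this]
    exact hu _
  have g0 := hwv (ee 0)
  have g1 := hwv (ee 1)
  have g2 := hwv (ee 2)
  have g3 := hwv (ee 3)
  rw [alt_expand hb'] at g0 g1 g2 g3
  rw [b1, b2, b3, b4] at g0 g1 g2 g3
  simp at g0 g1 g2 g3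
  have k0 : w 0 = 0 := by
    have : (p * p + q * q) * w 0 = 0 := by linear_combination p * g2 + q * g3
    exact (mul_eq_zero.1 this).resolve_left hn
  have k1 : w 1 = 0 := by
    have : (p * p + q * q) * w 1 = 0 := by linear_combination q * g2 - p * g3
    exact (mul_eq_zero.1 this).resolve_left hn
  have k2 : w 2 = 0 := by
    have : (p * p + q * q) * w 2 = 0 := by linear_combination - p * g0 - q * g1
    exact (mul_eq_zero.1 this).resolve_left hn
  have k3 : w 3 = 0 := by
    have : (p * p + q * q) * w 3 = 0 := by linear_combination - q * g0 + p * g1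
    exact (mul_eq_zero.1 this).resolve_left hn
  have h9 : w = 0 := by
    ext i
    fin_cases i
    exacts [k0, k1, k2, k3]
  have : A w = u := A.apply_symm_apply u
  rw [← this, h9, map_zero]

theorem W_inv_anti (hb : Alt b) (hc : Alt c)
    (h : ∀ u v, b (J u) (J v) = b u v) (h' : ∀ u v, c (J u) (J v) = - c u v)
    (h0 : W b b ≠ 0) : W b c = 0 := by
  have e1 : pull J b = b := by ext u v; rw [pull_apply, h]
  have e2 : pull J c = -c := by ext u v; rw [pull_apply, h']; rfl
  have e3 := W_pull hb hb J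
  have e4 := W_pull hb hc J
  rw [e1] at e3 e4
  rw [e2] at e4
  have e5 : W b (-c) = - W b c := by
    have := W_smul_right (-1) b c
    simpa using this
  rw [e5] at e4
  have e6 : LinearMap.det (J : E4 →ₗ[ℝ] E4) = 1 := by
    have : (LinearMap.det (J : E4 →ₗ[ℝ] E4) - 1) * W b b = 0 := by linarith
    rcases mul_eq_zero.1 this with h7 | h7
    · linarith
    · exact absurd h7 h0
  rw [e6] at e4
  linarith

end pw

/-! ### the global sign -/

section glob

variable {M : Type} [TopologicalSpace M] [ChartedSpace E4 M] [IsManifold 𝓘(ℝ, E4) ∞ M]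

theorem isClosed_tw {J : EndF E4 M} (hJ : SmoothJ J) (a b : Z2 M) (r : ℝ) :
    IsClosed {x : M | ∀ u v, val b x u v = r * val a x (atJ J x u) v} := by
  rw [← isOpen_compl_iff, isOpen_iff_mem_nhds]
  intro x hx
  have hx' : ¬ ∀ u v, val b x u v = r * val a x (atJ J x u) v := hx
  push Not at hx'
  obtain ⟨u, v, huv⟩ := hx'
  set y0 := chartAt E4 x x with hy0
  have hy0t : y0 ∈ (chartAt E4 x).target := mem_chart_target E4 x
  set f : E4 → ℝ := fun y => rep x (b.1.1 : F2 E4 M) y u v -
    r * rep x (a.1.1 : F2 E4 M) y (repJ x J y u) v with hf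
  have hfc : ContinuousAt f y0 := by
    have h1 : ContinuousAt (rep x (b.1.1 : F2 E4 M)) y0 := (b.1.2.at hy0t).continuousAt
    have h2 : ContinuousAt (rep x (a.1.1 : F2 E4 M)) y0 := (a.1.2.at hy0t).continuousAt
    have h3 : ContinuousAt (repJ x J) y0 := (hJ.at hy0t).continuousAt
    exact ((h1.clm_apply continuousAt_const).clm_apply continuousAt_const).sub
      (continuousAt_const.mul ((h2.clm_apply (h3.clm_apply continuousAt_const)).clm_apply
        continuousAt_const))
  have hf0 : f y0 ≠ 0 := by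
    intro h0
    apply huv
    have e1 := toF_val b x u v
    have e2 := toA_self J hJ x u
    have e3 := toF_val a x (atJ J x u) v
    rw [← e1, ← e3]
    rw [toA_J] at e2
    have : f y0 = (toF b).w x (chartAt E4 x x) u v -
        r * (toF a).w x (chartAt E4 x x) (atJ J x u) v := by
      rw [← e2]
      rfl
    linarith
  have hnb : ∀ᶠ y in 𝓝 y0, f y ≠ 0 := hfc.eventually_ne hf0
  have hcc : ContinuousAt (chartAt E4 x) x :=
    (chartAt E4 x).continuousAt (mem_chart_source E4 x)
  filter_upwards [hcc.eventually hnb, (chartAt E4 x).open_source.mem_nhds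
    (mem_chart_source E4 x)] with z hz hzs
  intro hP
  apply hz
  have hzt := (chartAt E4 x).map_source hzs
  have h4 := toF_pair (p := x) (z := chartAt E4 x z) b u v
  have h5 := toF_pair (p := x) (z := chartAt E4 x z) a ((toA J hJ).J x (chartAt E4 x z) u) v
  have h6 := toA_apply J hJ hzt u
  rw [(chartAt E4 x).left_inv hzs] at h4 h5 h6
  have h7 : f (chartAt E4 x z) = (toF b).w x (chartAt E4 x z) u v -
      r * (toF a).w x (chartAt E4 x z) ((toA J hJ).J x (chartAt E4 x z) u) v := rfl
  have hP' : ∀ u v, val b z u v = r * val a z (atJ J z u) v := hP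
  rw [h7, h4, h5, h6, hP']
  ring

/-- **the global sign** -/
theorem glob_sign [ConnectedSpace M] {w : Trip M} {J : EndF E4 M} (hJ : IsJ w J)
    (h11 : ∀ x, W (val (w 1) x) (val (w 1) x) = W (val (w 2) x) (val (w 2) x))
    (h12 : ∀ x, W (val (w 1) x) (val (w 2) x) = 0)
    (h0 : ∀ x, W (val (w 1) x) (val (w 1) x) ≠ 0) :
    ∃ r : ℝ, (r = 1 ∨ r = -1) ∧ ∀ x u v, val (w 2) x u v = r * val (w 1) x (atJ J x u) v := by
  have hpt : ∀ x, (∀ u v, val (w 2) x u v = 1 * val (w 1) x (atJ J x u) v) ∨
      (∀ u v, val (w 2) x u v = (-1) * val (w 1) x (atJ J x u) v) := by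
    intro x
    have a0 : Alt (val (w 0) x) := (w 0).1.2.1 x
    have a1 : Alt (val (w 1) x) := (w 1).1.2.1 x
    have a2 : Alt (val (w 2) x) := (w 2).1.2.1 x
    obtain ⟨A, hA⟩ := exists_frame (hJ.sq x) (inv_spos (hJ.sq x) a0 (hJ.tame x))
    rcases pair_sign hA.cplx a1 a2 (hJ.sq x) (hJ.anti1 x) (hJ.anti2 x) (h0 x) (h11 x) (h12 x)
      with h | h
    · left
      intro u v
      rw [h, one_mul]
    · right
      intro u v
      rw [h]
      ring
  have hc1 := isClosed_tw hJ.smooth (w 1) (w 2) 1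
  have hc2 := isClosed_tw hJ.smooth (w 1) (w 2) (-1)
  have hun : (Set.univ : Set M) ⊆
      {x : M | ∀ u v, val (w 2) x u v = 1 * val (w 1) x (atJ J x u) v} ∪
      {x : M | ∀ u v, val (w 2) x u v = (-1) * val (w 1) x (atJ J x u) v} :=
    fun x _ => hpt x
  have hpre : IsPreconnected (Set.univ : Set M) := isPreconnected_univ
  have hdis : Set.univ ∩ ({x : M | ∀ u v, val (w 2) x u v = 1 * val (w 1) x (atJ J x u) v} ∩
      {x : M | ∀ u v, val (w 2) x u v = (-1) * val (w 1) x (atJ J x u) v}) = ∅ := by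
    ext x
    simp only [mem_inter_iff, mem_univ, true_and, mem_setOf_eq, mem_empty_iff_false, iff_false,
      not_and]
    intro h1 h2
    apply h0 x
    have : ∀ u v, val (w 1) x u v = 0 := by
      intro u v
      have e1 := h1 (atJ J x u) v
      have e2 := h2 (atJ J x u) v
      rw [hJ.sq x u, map_neg, neg_apply] at e1 e2
      linarith
    have e : val (w 1) x = 0 := by ext u v; exact this u v
    rw [e]
    unfold W
    simp [ent]
  have := isPreconnected_closed_iff.1 hpre _ _ hc1 hc2 hun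
  by_cases hA : (Set.univ ∩ {x : M | ∀ u v,
      val (w 2) x u v = 1 * val (w 1) x (atJ J x u) v}).Nonempty
  · by_cases hB : (Set.univ ∩ {x : M | ∀ u v,
        val (w 2) x u v = (-1) * val (w 1) x (atJ J x u) v}).Nonempty
    · have h9 := this hA hB
      rw [hdis] at h9
      exact absurd h9 Set.not_nonempty_empty
    · refine ⟨1, Or.inl rfl, fun x => ?_⟩
      rcases hpt x with h | h
      · exact h
      · exact absurd ⟨x, mem_univ x, h⟩ hB
  · refine ⟨-1, Or.inr rfl, fun x => ?_⟩
    rcases hpt x with h | h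
    · exact absurd ⟨x, mem_univ x, h⟩ hA
    · exact h

end glob

end

end Crest.Agent.R235.Br281d_819
end

-- ▼ part R235/Br281e_819
section

/-!
# R235, BRIDGE 281 (helper819), part 5: Yau's theorem and the hyperkaehler move over `Defs_837`

* `JInv J a`, `JPos J a` : `a` is `J`-invariant, positive
* `yau`    : prescribed volume in a Kaehler class
* `hkmove` : `w` hyperkaehler, `J` its pair structure, `a` Kaehler for `J` ==> there is `a'` in the
             class of `a` such that `update w 0 a'` is hyperkaehler; the segment is positive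
-/

set_option autoImplicit false
set_option maxSynthPendingDepth 3

open Set Filter Topology
open scoped Manifold ContDiff

namespace Crest.Agent.R235.Br281e_819

open Crest.Agent.R240 Crest.Agent.R240.Ch Crest.Agent.R235 Crest.Agent.R235.Br281_819
open Crest.Agent.R235.Br281d_819

noncomputable section

variable {M : Type} [TopologicalSpace M] [ChartedSpace E4 M] [IsManifold 𝓘(ℝ, E4) ∞ M]

/-- `a` is `J`-invariant -/
def JInv (J : EndF E4 M) (a : Z2 M) : Prop :=
  ∀ x u v, val a x (atJ J x u) (atJ J x v) = val a x u v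

/-- `a` tames `J` -/
def JPos (J : EndF E4 M) (a : Z2 M) : Prop := ∀ x v, v ≠ 0 → 0 < val a x v (atJ J x v)

theorem alt_val (a : Z2 M) (x : M) : Alt (val a x) := a.1.2.1 x

theorem JPos.W_ne {J : EndF E4 M} (hsq : ∀ x v, atJ J x (atJ J x v) = -v) {a : Z2 M}
    (hi : JInv J a) (hp : JPos J a) (x : M) : W (val a x) (val a x) ≠ 0 := by
  have hS : SPos (atJ J x) (val a x) := ⟨alt_val a x, hi x, hp x⟩
  obtain ⟨A, hA⟩ := exists_frame (hsq x) hS
  exact hA.W_ne (alt_val a x)

variable [T2Space M] [CompactSpace M] [ConnectedSpace M]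

/-- **Yau's theorem** on a four-manifold with a closed pair -/
theorem yau {w : Trip M} {J : EndF E4 M} (hJ : IsJ w J)
    (h11 : ∀ x, W (val (w 1) x) (val (w 1) x) = W (val (w 2) x) (val (w 2) x))
    (h12 : ∀ x, W (val (w 1) x) (val (w 2) x) = 0)
    (h0 : ∀ x, W (val (w 1) x) (val (w 1) x) ≠ 0)
    {a : Z2 M} (hi : JInv J a) (hp : JPos J a) {F : M → ℝ} (hF : SmoothF E4 F) :
    ∃ (a' : Z2 M) (c : ℝ), cls a' = cls a ∧ JInv J a' ∧ JPos J a' ∧
      (∀ x, W (val a' x) (val a' x) = Real.exp (F x + c) * W (val (w 1) x) (val (w 1) x)) ∧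
      (∀ x, W (val a' x) (val (w 1) x) = 0) ∧ ∀ x, W (val a' x) (val (w 2) x) = 0 := by
  obtain ⟨r, hr, hg⟩ := glob_sign hJ h11 h12 h0
  have hrr : r * r = 1 := by rcases hr with rfl | rfl <;> norm_num
  have hs2 : ∀ x u v, val ((-r) • w 2) x u v = - val (w 1) x (atJ J x u) v := by
    intro x u v
    rw [val_smul, smul_apply, smul_apply, smul_eq_mul, hg]
    linear_combination (- val (w 1) x (atJ J x u) v) * hrr
  have D : Crest.Agent.R281.Al_830.HD (toA J hJ.smooth) (toF a) (toF (w 1))
      (toF ((-r) • w 2)) := by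
    refine ⟨(sq_iff hJ.smooth).2 hJ.sq, (t11_iff hJ.smooth).2 hi, (pos_iff hJ.smooth).2 hp,
      fun p z hz u v => ?_, fun p z hz u hu => ?_⟩
    · have e1 := toF_pair (p := (show M from p)) (z := z) (w 1)
        ((toA J hJ.smooth).J (show M from p) z u) v
      have e2 := toF_pair (p := (show M from p)) (z := z) ((-r) • w 2) u v
      have e3 := toA_apply J hJ.smooth (p := (show M from p)) hz u
      have e4 := hs2 ((chartAt E4 (show M from p)).symm z)
        (tcc (show M from p) ((chartAt E4 (show M from p)).symm z)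
          ((chartAt E4 (show M from p)).symm z) u)
        (tcc (show M from p) ((chartAt E4 (show M from p)).symm z)
          ((chartAt E4 (show M from p)).symm z) v)
      rw [e3] at e1
      exact e1.trans (by rw [e2, e4, neg_neg])
    · set x := (chartAt E4 (show M from p)).symm z with hx
      have hxs : x ∈ (chartAt E4 (show M from p)).source := symm_mem hz
      obtain ⟨A, hA⟩ := exists_frame (hJ.sq x) (inv_spos (hJ.sq x) (alt_val (w 0) x) (hJ.tame x))
      refine tcc_bij hxs ?_
      refine anti_nd hA.cplx (alt_val (w 1) x) (hJ.anti1 x) (h0 x) fun v => ?_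
      have e1 := hu (tcc x (show M from p) x v)
      have e2 := toF_pair (p := (show M from p)) (z := z) (w 1) u (tcc x (show M from p) x v)
      rw [← hx, tcc_cancel' hxs] at e2
      exact e2.symm.trans e1
  obtain ⟨om', c, hex, ht, hpo, hW⟩ := Crest.Agent.R235.Br281c_819.yauF D (F := F) (fun p => hF p)
  have hc : cls (ofF om') = cls a := by
    have := cls_ofF_eq_iff.2 hex
    rwa [ofF_toF] at this
  have ht' : JInv J (ofF om') := (t11_iff hJ.smooth).1
    (fun p z hz u v => by
      have e := toF_ofF om'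
      rw [e p z hz, e p z hz]
      exact ht p z hz u v)
  have hp' : JPos J (ofF om') := (pos_iff hJ.smooth).1
    (fun p z hz v hv => by
      have e := toF_ofF om'
      rw [e p z hz]
      exact hpo p z hz v hv)
  have hne : ∀ x, W (val (ofF om') x) (val (ofF om') x) ≠ 0 := fun x => hp'.W_ne hJ.sq ht' x
  refine ⟨ofF om', c, hc, ht', hp', fun x => ?_, fun x => ?_, fun x => ?_⟩
  · have h := hW x _ (mem_chart_target E4 x)
    have e1 : om'.w x (chartAt E4 x x) = val (ofF om') x := rfl
    have e2 : (toF (w 1)).w x (chartAt E4 x x) = val (w 1) x := by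
      ext u v
      exact toF_val _ _ _ _
    have e3 : ((RC M).e x).symm (chartAt E4 x x) = x := (chartAt E4 x).left_inv (mem_chart_source E4 x)
    rw [e1, e2, e3] at h
    exact h
  · exact W_inv_anti (alt_val _ x) (alt_val _ x) (ht' x) (hJ.anti1 x) (hne x)
  · exact W_inv_anti (alt_val _ x) (alt_val _ x) (ht' x) (hJ.anti2 x) (hne x)

end

end Crest.Agent.R235.Br281e_819
end

-- ▼ part R235/Br281f_819

/-!
# R235, BRIDGE 281 (helper819), part 6: the hyperkaehler move over `Defs_837`

* `pos_pt`      : (pointwise) a tamed form and a nondegenerate anti-invariant pair give `Pos3`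
* `seg_of_isJ`  : `w` positive, `J` its structure, `a` tames `J` ==> `Seg w (update w 0 a)`
* `hkmove`      : `w` hyperkaehler (ANY Gram matrix), `J` its structure, `a` Kaehler for `J` ==>
                  there is `a'` in the class of `a`, Kaehler for `J`, with
                  `Seg w (update w 0 a')`, `HK (update w 0 a')`, `IsJ (update w 0 a') J`
-/

set_option autoImplicit false
set_option maxSynthPendingDepth 3

open Set Filter Topology Function
open scoped Manifold ContDiff

namespace Crest.Agent.R235.Br281f_819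

open Crest.Agent.R240 Crest.Agent.R240.Ch Crest.Agent.R235 Crest.Agent.R235.Br281_819
open Crest.Agent.R235.Br281d_819 Crest.Agent.R235.Br281e_819

noncomputable section

section Pointwise

variable {J : E4 →L[ℝ] E4} {F b c : Bil}

/-- positivity of a tamed form plus an anti-invariant form -/
theorem pos_pt (hJ : ∀ v, J (J v) = -v) (hF : Alt F) (ht : ∀ v, v ≠ 0 → 0 < F v (J v))
    (hb : Alt b) (h : ∀ u v, b (J u) (J v) = - b u v) {r : ℝ} (hr : r ≠ 0) :
    W (r • F + b) (r • F + b) ≠ 0 := by
  have hS := inv_spos hJ hF ht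
  obtain ⟨A, hA⟩ := exists_frame hJ hS
  -- the anti-invariant part
  set Q : Bil := r • antip J F + b with hQ
  have hQalt : Alt Q := fun u => by
    have e1 := hF.antip J u
    have e2 := hb u
    show r • antip J F u u + b u u = 0
    rw [e1, e2, smul_zero, add_zero]
  have hQanti : ∀ u v, Q (J u) (J v) = - Q u v := by
    intro u v
    show r • antip J F (J u) (J v) + b (J u) (J v) = - (r • antip J F u v + b u v)
    rw [antip_anti hJ F u v, h u v, smul_neg]
    ring
  have hsum : r • F + b = r • invp J F + Q := by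
    rw [hQ, ← add_assoc, ← smul_add, invp_add_antip]
  clear_value Q
  have hWF : W (invp J F) (invp J F) ≠ 0 := hA.W_ne hS.alt
  have hmix : W (invp J F) Q = 0 := W_inv_anti hS.alt hQalt hS.inv hQanti hWF
  have e0 := W_pull hS.alt hS.alt (A : E4 →L[ℝ] E4)
  rw [hA.pull_form, W_om0] at e0
  have e1 := W_anti hA.cplx hQalt hQalt hQanti hQanti
  intro h0
  rw [hsum, W_add_left, W_add_right, W_add_right, W_smul_left, W_smul_right, W_smul_left,
    W_comm Q, W_smul_left, hmix] at h0
  have e2 : LinearMap.det ((A : E4 →L[ℝ] E4) : E4 →ₗ[ℝ] E4) *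
      (r * (r * W (invp J F) (invp J F)) + r * 0 + (r * 0 + W Q Q)) = 0 := by
    rw [h0, mul_zero]
  have e3 : r * r * (LinearMap.det ((A : E4 →L[ℝ] E4) : E4 →ₗ[ℝ] E4) *
      W (invp J F) (invp J F)) + LinearMap.det ((A : E4 →L[ℝ] E4) : E4 →ₗ[ℝ] E4) * W Q Q = 0 := by
    linarith
  rw [e1, ← e0] at e3
  have e4 : 0 < r * r := mul_self_pos.2 hr
  nlinarith [mul_self_nonneg (ent (pull (A : E4 →L[ℝ] E4) Q) 0 2),
    mul_self_nonneg (ent (pull (A : E4 →L[ℝ] E4) Q) 0 3)]

end Pointwise

variable {M : Type} [TopologicalSpace M] [ChartedSpace E4 M] [IsManifold 𝓘(ℝ, E4) ∞ M]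

/-- `a` tames `J` -/
def Tame (J : EndF E4 M) (a : Z2 M) : Prop := ∀ x v, v ≠ 0 → 0 < val a x v (atJ J x v)

/-- positivity from taming -/
theorem pos3_of_isJ {w : Trip M} {J : EndF E4 M} (hJ : IsJ w J)
    (h0 : ∀ x (c : Fin 3 → ℝ), c 0 = 0 → c ≠ 0 →
      W (∑ i, c i • val (w i) x) (∑ i, c i • val (w i) x) ≠ 0) : Pos3 w := by
  intro x c hc
  by_cases h : c 0 = 0
  · exact h0 x c h hc
  · have e : ∑ i, c i • val (w i) x = c 0 • val (w 0) x + (c 1 • val (w 1) x + c 2 • val (w 2) x) := by
      rw [Fin.sum_univ_three, add_assoc]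
    rw [e]
    refine pos_pt (hJ.sq x) (alt_val (w 0) x) (hJ.tame x) ?_ ?_ h
    · intro u
      show c 1 • val (w 1) x u u + c 2 • val (w 2) x u u = 0
      rw [alt_val (w 1) x u, alt_val (w 2) x u, smul_zero, smul_zero, add_zero]
    · intro u v
      show c 1 • val (w 1) x _ _ + c 2 • val (w 2) x _ _ = - (c 1 • val (w 1) x u v + c 2 • val (w 2) x u v)
      rw [hJ.anti1, hJ.anti2, smul_neg, smul_neg]
      ring

/-- the structure of the pair does not depend on the third form -/
theorem isJ_update {w : Trip M} {J : EndF E4 M} (hJ : IsJ w J) {a : Z2 M} (ha : Tame J a) :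
    IsJ (update w 0 a) J :=
  ⟨hJ.smooth, hJ.sq, fun x u v => by
      rw [update_of_ne (by decide : (1 : Fin 3) ≠ 0)]; exact hJ.anti1 x u v,
    fun x u v => by
      rw [update_of_ne (by decide : (2 : Fin 3) ≠ 0)]; exact hJ.anti2 x u v,
    fun x v hv => by rw [update_self]; exact ha x v hv⟩

/-- replacing the third form of a positive triple by a form taming the structure of the pair -/
theorem seg_of_isJ {w : Trip M} {J : EndF E4 M} (hw : Pos3 w) (hJ : IsJ w J) {a : Z2 M}
    (ha : Tame J a) : Seg w (update w 0 a) := by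
  intro t h0 h1
  have e0 : seg w (update w 0 a) t 0 = (1 - t) • w 0 + t • a := by
    unfold seg; rw [update_self]
  have e1 : seg w (update w 0 a) t 1 = w 1 := by
    unfold seg
    rw [update_of_ne (by decide : (1 : Fin 3) ≠ 0), ← add_smul, sub_add_cancel, one_smul]
  have e2 : seg w (update w 0 a) t 2 = w 2 := by
    unfold seg
    rw [update_of_ne (by decide : (2 : Fin 3) ≠ 0), ← add_smul, sub_add_cancel, one_smul]
  have hJ' : IsJ (seg w (update w 0 a) t) J := by
    refine ⟨hJ.smooth, hJ.sq, fun x u v => ?_, fun x u v => ?_, fun x v hv => ?_⟩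
    · rw [e1]; exact hJ.anti1 x u v
    · rw [e2]; exact hJ.anti2 x u v
    · rw [e0]
      show 0 < (1 - t) * val (w 0) x v (atJ J x v) + t * val a x v (atJ J x v)
      have g1 := hJ.tame x v hv
      have g2 := ha x v hv
      rcases h0.lt_or_eq with ht | ht
      · have : 0 ≤ (1 - t) * val (w 0) x v (atJ J x v) := mul_nonneg (by linarith) g1.le
        have : 0 < t * val a x v (atJ J x v) := mul_pos ht g2
        linarith
      · rw [← ht]; linarith
  refine pos3_of_isJ hJ' fun x c hc hne => ?_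
  have e : ∑ i, c i • val (seg w (update w 0 a) t i) x = ∑ i, c i • val (w i) x := by
    rw [Fin.sum_univ_three, Fin.sum_univ_three, e1, e2, hc, zero_smul, zero_smul]
  rw [e]
  exact hw x c hne

theorem Pos3.ne (w : Trip M) (hw : Pos3 w) (k : Fin 3) (x : M) :
    W (val (w k) x) (val (w k) x) ≠ 0 := by
  have h := hw x (Pi.single k 1) (by
    intro h
    have := congrFun h k
    rw [Pi.single_eq_same] at this
    exact one_ne_zero this)
  have e : ∑ i, (Pi.single k 1 : Fin 3 → ℝ) i • val (w i) x = val (w k) x := by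
    rw [Finset.sum_eq_single k]
    · rw [Pi.single_eq_same, one_smul]
    · intro i _ hi
      rw [Pi.single_eq_of_ne hi, zero_smul]
    · intro h; exact absurd (Finset.mem_univ _) h
  rwa [e] at h

/-- the two-by-two determinant -/
theorem posDef_two {G : Matrix (Fin 3) (Fin 3) ℝ} (hG : G.PosDef) :
    0 < G 1 1 ∧ 0 < G 1 1 * G 2 2 - G 1 2 * G 1 2 ∧ G 2 1 = G 1 2 := by
  have hs : G 2 1 = G 1 2 := by
    have := congrFun (congrFun hG.isHermitian 1) 2
    simpa [Matrix.conjTranspose_apply] using this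
  have h1 : 0 < G 1 1 := by
    have := hG.dotProduct_mulVec_pos (x := ![0, 1, 0]) (by
      intro h; have := congrFun h 1; simp at this)
    simpa [Matrix.mulVec, dotProduct, Fin.sum_univ_three] using this
  refine ⟨h1, ?_, hs⟩
  have h2 := hG.dotProduct_mulVec_pos (x := ![0, - G 1 2, G 1 1]) (by
      intro h
      have := congrFun h 2
      simp at this
      exact h1.ne' this)
  have h3 : 0 < G 1 1 * (G 1 1 * G 2 2 - G 1 2 * G 1 2) := by
    have e : star ![0, - G 1 2, G 1 1] ⬝ᵥ (G.mulVec ![0, - G 1 2, G 1 1]) =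
        G 1 1 * (G 1 1 * G 2 2 - G 1 2 * G 1 2) := by
      simp [Matrix.mulVec, dotProduct, Fin.sum_univ_three, hs]
      ring
    rwa [e] at h2
  exact (mul_pos_iff_of_pos_left h1).1 h3

/-- the block matrix -/
theorem posDef_block {G : Matrix (Fin 3) (Fin 3) ℝ} (hG : G.PosDef) {r : ℝ} (hr : 0 < r) :
    (Matrix.of fun i j : Fin 3 => if i = 0 then (if j = 0 then r else 0) else
      (if j = 0 then 0 else G i j)).PosDef := by
  refine Matrix.PosDef.of_dotProduct_mulVec_pos ?_ fun x hx => ?_
  · ext i j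
    have hij : G j i = G i j := by
      have := congrFun (congrFun hG.isHermitian i) j
      simpa [Matrix.conjTranspose_apply] using this
    by_cases hi : i = 0 <;> by_cases hj : j = 0 <;>
      simp [Matrix.conjTranspose_apply, Matrix.of_apply, hi, hj, hij]
  · have e : star x ⬝ᵥ ((Matrix.of fun i j : Fin 3 => if i = 0 then (if j = 0 then r else 0) else
      (if j = 0 then 0 else G i j)).mulVec x) = r * (x 0 * x 0) +
        star ![0, x 1, x 2] ⬝ᵥ (G.mulVec ![0, x 1, x 2]) := by
      simp [Matrix.mulVec, dotProduct, Fin.sum_univ_three]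
      ring
    rw [e]
    by_cases h : (![0, x 1, x 2] : Fin 3 → ℝ) = 0
    · have h1 : x 1 = 0 := by simpa using congrFun h 1
      have h2 : x 2 = 0 := by simpa using congrFun h 2
      have h0 : x 0 ≠ 0 := by
        intro h0
        apply hx
        funext i
        fin_cases i
        · exact h0
        · exact h1
        · exact h2
      rw [h]
      simp only [Matrix.mulVec_zero, dotProduct_zero, add_zero]
      exact mul_pos hr (mul_self_pos.2 h0)
    · have := hG.dotProduct_mulVec_pos h
      have h0 : 0 ≤ r * (x 0 * x 0) := mul_nonneg hr.le (mul_self_nonneg _)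
      linarith

/-- Gram-Schmidt for the pair -/
theorem gs_eq {A B C : ℝ} (h : 0 < A * C - B * B) :
    (-(B / Real.sqrt (A * C - B * B))) * ((-(B / Real.sqrt (A * C - B * B))) * A) +
      (-(B / Real.sqrt (A * C - B * B))) * ((A / Real.sqrt (A * C - B * B)) * B) +
      ((A / Real.sqrt (A * C - B * B)) * ((-(B / Real.sqrt (A * C - B * B))) * B) +
        (A / Real.sqrt (A * C - B * B)) * ((A / Real.sqrt (A * C - B * B)) * C)) = A := by
  have hsD : 0 < Real.sqrt (A * C - B * B) := Real.sqrt_pos.2 h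
  have hDD : Real.sqrt (A * C - B * B) ^ 2 = A * C - B * B := Real.sq_sqrt h.le
  set r := Real.sqrt (A * C - B * B) with hr
  clear_value r
  field_simp
  rw [hDD]
  ring

/-- the Gram matrix after the move -/
theorem hk_update {w : Trip M} {a' : Z2 M} {G : Matrix (Fin 3) (Fin 3) ℝ} (hG : G.PosDef)
    (hs : ∀ x : M, ∃ s : ℝ, ∀ i j, W (val (w i) x) (val (w j) x) = s * G i j)
    {r : ℝ} (hr : 0 < r)
    (h0 : ∀ x, W (val a' x) (val a' x) = r * W (val (w 1) x) (val (w 1) x))
    (h1 : ∀ x, W (val a' x) (val (w 1) x) = 0) (h2 : ∀ x, W (val a' x) (val (w 2) x) = 0) :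
    HK (update w 0 a') := by
  obtain ⟨g1, g2, g3⟩ := posDef_two hG
  refine ⟨_, posDef_block hG (r := r * G 1 1) (mul_pos hr g1), fun x => ?_⟩
  obtain ⟨s, hs⟩ := hs x
  have hW' : W (val a' x) (val a' x) = s * (r * G 1 1) := by
    rw [h0, hs]; ring
  have u0 : (update w 0 a') 0 = a' := update_self _ _ _
  have u1 : (update w 0 a') 1 = w 1 := update_of_ne (by decide : (1 : Fin 3) ≠ 0) _ _
  have u2 : (update w 0 a') 2 = w 2 := update_of_ne (by decide : (2 : Fin 3) ≠ 0) _ _
  have ui : ∀ i : Fin 3, i ≠ 0 → (update w 0 a') i = w i := fun i hi => update_of_ne hi _ _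
  have hz : ∀ i : Fin 3, i ≠ 0 → W (val a' x) (val (w i) x) = 0 := by
    intro i hi
    fin_cases i
    · exact absurd rfl hi
    · exact h1 x
    · exact h2 x
  refine ⟨s, fun i j => ?_⟩
  by_cases hi : i = 0
  · subst hi
    by_cases hj : j = 0
    · subst hj
      rw [u0, hW', Matrix.of_apply, if_pos rfl, if_pos rfl]
    · rw [u0, ui j hj, hz j hj, Matrix.of_apply, if_pos rfl, if_neg hj, mul_zero]
  · by_cases hj : j = 0
    · subst hj
      rw [u0, ui i hi, W_comm, hz i hi, Matrix.of_apply, if_neg hi, if_pos rfl, mul_zero]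
    · rw [ui i hi, ui j hj, hs, Matrix.of_apply, if_neg hi, if_neg hj]

variable [T2Space M] [CompactSpace M] [ConnectedSpace M]

/-- **the hyperkaehler move**: the third form of a hyperkaehler triple (any Gram matrix) can be
moved to any class which is Kaehler for the complex structure of the pair -/
theorem hkmove {w : Trip M} {J : EndF E4 M} (hw : Pos3 w) (hk : HK w) (hJ : IsJ w J)
    {a : Z2 M} (hi : JInv J a) (hp : JPos J a) :
    ∃ a' : Z2 M, cls a' = cls a ∧ JInv J a' ∧ JPos J a' ∧ Seg w (update w 0 a') ∧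
      HK (update w 0 a') ∧ IsJ (update w 0 a') J := by
  obtain ⟨G, hG, hs⟩ := hk
  obtain ⟨g1, g2, g3⟩ := posDef_two hG
  obtain ⟨al, be, hgs, hgo⟩ : ∃ al be : ℝ,
      al * (al * G 1 1) + al * (be * G 1 2) + (be * (al * G 1 2) + be * (be * G 2 2)) = G 1 1 ∧
      al * G 1 1 + be * G 1 2 = 0 :=
    ⟨_, _, gs_eq g2, by ring⟩
  set w2 : Z2 M := al • w 1 + be • w 2 with hw2
  set w' : Trip M := ![w 0, w 1, w2] with hw'
  have hJ' : IsJ w' J := by
    refine ⟨hJ.smooth, hJ.sq, hJ.anti1, fun x u v => ?_, hJ.tame⟩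
    show al • val (w 1) x _ _ + be • val (w 2) x _ _ = -(al • val (w 1) x u v + be • val (w 2) x u v)
    rw [hJ.anti1, hJ.anti2, smul_neg, smul_neg]
    ring
  have k11 : ∀ x, W (val (w' 1) x) (val (w' 1) x) = W (val (w' 2) x) (val (w' 2) x) := by
    intro x
    obtain ⟨s, hs⟩ := hs x
    show W (val (w 1) x) (val (w 1) x) =
      W (al • val (w 1) x + be • val (w 2) x) (al • val (w 1) x + be • val (w 2) x)
    rw [W_add_left, W_add_right, W_add_right, W_smul_left, W_smul_left, W_smul_left, W_smul_left,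
      W_smul_right, W_smul_right, W_smul_right, W_smul_right, hs, hs, hs, hs, g3]
    linear_combination (-s) * hgs
  have k12 : ∀ x, W (val (w' 1) x) (val (w' 2) x) = 0 := by
    intro x
    obtain ⟨s, hs⟩ := hs x
    show W (val (w 1) x) (al • val (w 1) x + be • val (w 2) x) = 0
    rw [W_add_right, W_smul_right, W_smul_right, hs, hs]
    linear_combination s * hgo
  have k0 : ∀ x, W (val (w' 1) x) (val (w' 1) x) ≠ 0 := fun x => Pos3.ne w hw 1 x
  have hF : SmoothF E4 (fun _ : M => (0 : ℝ)) := fun p => contDiffOn_const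
  obtain ⟨a', c, hc, ht, hpo, hW, h1, h2⟩ := yau hJ' k11 k12 k0 hi hp hF
  have ha' : Tame J a' := hpo
  have h3 : ∀ x, W (val a' x) (val (w 2) x) = 0 := fun x =>
    W_inv_anti (alt_val _ x) (alt_val _ x) (ht x) (hJ.anti2 x) (hpo.W_ne hJ.sq ht x)
  refine ⟨a', hc, ht, hpo, seg_of_isJ hw hJ ha', ?_, isJ_update hJ ha'⟩
  exact hk_update hG hs (Real.exp_pos c) (fun x => by rw [hW x, zero_add]; rfl) h1 h3

end

end Crest.Agent.R235.Br281f_819
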