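import Mathlib
import Crest.Agent.R235.Defs_837

/-!
Row 235 (S0364), block HZ (helper524): the Weil formula.  From local primitives of a closed two-form
`a` (Čech data) with constants `c`, `a - τ c` is exact, `τ c = ∑ c_ijk ψ_i dψ_j ∧ dψ_k`.
-/

set_option autoImplicit false
set_option maxSynthPendingDepth 3
set_option linter.unusedSectionVars false

open Set Function Filter
open scoped Manifold ContDiff Topology

namespace Crest.Agent.R235.Weil_524

open Crest.Agent.R240 Crest.Agent.R240.Ch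

noncomputable section

section General

variable {E : Type*} [NormedAddCommGroup E] [NormedSpace ℝ E]
variable {M : Type*} [TopologicalSpace M] [ChartedSpace E M] [IsManifold 𝓘(ℝ, E) ∞ M]

/-! ### finite sums -/

omit [IsManifold 𝓘(ℝ, E) ∞ M] in
theorem smoothF_sum {ι : Type*} {s : Finset ι} {f : ι → M → ℝ} (h : ∀ i ∈ s, SmoothF E (f i)) :
    SmoothF E (fun x => ∑ i ∈ s, f i x) := by
  intro p
  have h1 : ContDiffOn ℝ ∞ (fun y => ∑ i ∈ s, repF p (f i) y) (chartAt E p).target :=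
    ContDiffOn.sum fun i hi => h i hi p
  exact h1

theorem smooth1_sum {ι : Type*} {s : Finset ι} {f : ι → F1 E M} (h : ∀ i ∈ s, Smooth1 (f i)) :
    Smooth1 (∑ i ∈ s, f i) := by
  classical
  induction s using Finset.induction_on with
  | empty => simpa using smooth1_zero
  | insert i s hi ih =>
    rw [Finset.sum_insert hi]
    exact (h i (Finset.mem_insert_self i s)).add
      (ih fun j hj => h j (Finset.mem_insert_of_mem hj))


theorem dG_zero : dG (0 : F1 E M) = 0 := by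
  have h := dG_smul (0 : ℝ) (smooth1_zero (E := E) (M := M))
  simpa using h

theorem dG_sum {ι : Type*} {s : Finset ι} {f : ι → F1 E M} (h : ∀ i ∈ s, Smooth1 (f i)) :
    dG (∑ i ∈ s, f i) = ∑ i ∈ s, dG (f i) := by
  classical
  induction s using Finset.induction_on with
  | empty => simpa using dG_zero
  | insert i s hi ih =>
    have h1 : ∀ j ∈ s, Smooth1 (f j) := fun j hj => h j (Finset.mem_insert_of_mem hj)
    rw [Finset.sum_insert hi, Finset.sum_insert hi,
      dG_add (h i (Finset.mem_insert_self i s)) (smooth1_sum h1), ih h1]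

omit [IsManifold 𝓘(ℝ, E) ∞ M] in
theorem at1_sum {ι : Type*} (s : Finset ι) (f : ι → F1 E M) (x : M) :
    at1 (∑ i ∈ s, f i) x = ∑ i ∈ s, at1 (f i) x := Finset.sum_apply x s f

omit [IsManifold 𝓘(ℝ, E) ∞ M] in
theorem at2_sum {ι : Type*} (s : Finset ι) (f : ι → F2 E M) (x : M) :
    at2 (∑ i ∈ s, f i) x = ∑ i ∈ s, at2 (f i) x := Finset.sum_apply x s f

/-! ### the differential of a function at a point -/

omit [IsManifold 𝓘(ℝ, E) ∞ M] in
/-- the differential depends on the germ. -/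
theorem dF_congr {f g : M → ℝ} {x : M} (h : f =ᶠ[𝓝 x] g) :
    at1 (dF (E := E) f) x = at1 (dF (E := E) g) x := by
  have h1 : repF (E := E) x f =ᶠ[𝓝 (chartAt E x x)] repF x g := by
    have hc : ContinuousAt (chartAt E x).symm (chartAt E x x) :=
      (chartAt E x).continuousAt_symm (mem_chart_target E x)
    have h2 : Tendsto (chartAt E x).symm (𝓝 (chartAt E x x)) (𝓝 x) := by
      have := hc.tendsto
      rwa [(chartAt E x).left_inv (mem_chart_source E x)] at this
    exact h2.eventually h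
  exact h1.fderiv_eq

omit [IsManifold 𝓘(ℝ, E) ∞ M] in
theorem dF_const (c : ℝ) (x : M) : at1 (dF (E := E) (fun _ : M => c)) x = 0 := by
  show fderiv ℝ (fun _ : E => c) _ = 0
  simp

omit [IsManifold 𝓘(ℝ, E) ∞ M] in
theorem dF_eq_zero_of_notMem {f : M → ℝ} {x : M} (h : x ∉ tsupport f) :
    at1 (dF (E := E) f) x = 0 := by
  have h1 : f =ᶠ[𝓝 x] fun _ => 0 := by
    filter_upwards [(isClosed_tsupport f).isOpen_compl.mem_nhds h] with y hy
    exact image_eq_zero_of_notMem_tsupport hy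
  rw [dF_congr h1, dF_const]

omit [IsManifold 𝓘(ℝ, E) ∞ M] in
theorem dF_sum {ι : Type*} {s : Finset ι} {f : ι → M → ℝ} (h : ∀ i ∈ s, SmoothF E (f i)) (x : M) :
    at1 (dF (E := E) (fun x => ∑ i ∈ s, f i x)) x = ∑ i ∈ s, at1 (dF (E := E) (f i)) x := by
  show fderiv ℝ (fun y => ∑ i ∈ s, repF x (f i) y) _ = _
  rw [fderiv_fun_sum fun i hi => ((h i hi).at (mem_chart_target E x)).differentiableAt
    infty_ne_zero]
  rfl

omit [IsManifold 𝓘(ℝ, E) ∞ M] in
/-- the differentials of a partition of unity sum up to zero. -/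
theorem sum_dF_eq_zero {ι : Type*} [Fintype ι] {ψ : ι → M → ℝ} (hψ : ∀ i, SmoothF E (ψ i))
    (hsum : ∀ x, ∑ i, ψ i x = 1) (x : M) : ∑ i, at1 (dF (E := E) (ψ i)) x = 0 := by
  rw [← dF_sum fun i _ => hψ i]
  have h : (fun x => ∑ i, ψ i x) = fun _ : M => (1 : ℝ) := funext hsum
  rw [h, dF_const]

/-! ### the Weil form -/

/-- `τ c = ∑ c_ijk ψ_i dψ_j ∧ dψ_k`. -/
def tauF {ι : Type*} [Fintype ι] (ψ : ι → M → ℝ) (c : ι → ι → ι → ℝ) : F2 E M :=
  ∑ i, ∑ j, ∑ k, c i j k • fmul (ψ i) (wedG (dF (ψ j)) (dF (ψ k)))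

omit [IsManifold 𝓘(ℝ, E) ∞ M] in
theorem tauF_apply {ι : Type*} [Fintype ι] (ψ : ι → M → ℝ) (c : ι → ι → ι → ℝ) (x : M) (u v : E) :
    at2 (tauF (E := E) ψ c) x u v = ∑ i, ∑ j, ∑ k, c i j k * (ψ i x *
      (at1 (dF (E := E) (ψ j)) x u * at1 (dF (E := E) (ψ k)) x v -
        at1 (dF (E := E) (ψ k)) x u * at1 (dF (E := E) (ψ j)) x v)) := by
  unfold tauF
  simp only [at2_sum, sum_apply]
  rfl


/-! ### the primitive -/

/-- the primitive of `a - τ c`. -/
def prim {ι : Type*} [Fintype ι] (ψ : ι → M → ℝ) (A : ι → F1 E M) (f : ι → ι → M → ℝ) : F1 E M :=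
  (∑ i, fmul1 (ψ i) (A i)) + (-1 : ℝ) • ∑ i, ∑ j, fmul1 (fun x => f i j x * ψ i x) (dF (ψ j))

variable {ι : Type*} [Fintype ι] {ψ : ι → M → ℝ} {A : ι → F1 E M} {f : ι → ι → M → ℝ}

theorem smooth1_prim (hψ : ∀ i, SmoothF E (ψ i)) (hA : ∀ i, Smooth1 (A i))
    (hf : ∀ i j, SmoothF E (f i j)) : Smooth1 (prim ψ A f) :=
  (smooth1_sum fun i _ => Smooth1.fmul (hψ i) (hA i)).add
    (Smooth1.smul _ (smooth1_sum fun i _ => smooth1_sum fun j _ =>
      Smooth1.fmul ((hf i j).mul (hψ i)) (Smooth1.dF (hψ j))))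

omit [IsManifold 𝓘(ℝ, E) ∞ M] in
theorem dF_mul {f g : M → ℝ} (hf : SmoothF E f) (hg : SmoothF E g) (x : M) :
    at1 (dF (E := E) (fun x => f x * g x)) x =
      f x • at1 (dF (E := E) g) x + g x • at1 (dF (E := E) f) x := by
  show fderiv ℝ (fun y => repF x f y * repF x g y) _ = _
  rw [fderiv_fun_mul ((hf.at (mem_chart_target E x)).differentiableAt infty_ne_zero)
    ((hg.at (mem_chart_target E x)).differentiableAt infty_ne_zero)]
  rw [repF_chart (mem_chart_source E x), repF_chart (mem_chart_source E x)]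
  rfl

/-- the differential of the primitive at a point. -/
theorem at2_dG_prim (hψ : ∀ i, SmoothF E (ψ i)) (hA : ∀ i, Smooth1 (A i))
    (hf : ∀ i j, SmoothF E (f i j)) (x : M) (u v : E) :
    at2 (dG (prim ψ A f)) x u v =
      ∑ i, ((at1 (dF (E := E) (ψ i)) x u * at1 (A i) x v -
        at1 (A i) x u * at1 (dF (E := E) (ψ i)) x v) + ψ i x * at2 (dG (A i)) x u v) -
      ∑ i, ∑ j, ((f i j x * at1 (dF (E := E) (ψ i)) x u + ψ i x * at1 (dF (E := E) (f i j)) x u) *
          at1 (dF (E := E) (ψ j)) x v -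
        at1 (dF (E := E) (ψ j)) x u *
          (f i j x * at1 (dF (E := E) (ψ i)) x v + ψ i x * at1 (dF (E := E) (f i j)) x v)) := by
  have h1 : ∀ i ∈ (Finset.univ : Finset ι), Smooth1 (fmul1 (ψ i) (A i)) :=
    fun i _ => Smooth1.fmul (hψ i) (hA i)
  have h2 : ∀ i ∈ (Finset.univ : Finset ι), ∀ j ∈ (Finset.univ : Finset ι),
      Smooth1 (fmul1 (fun x => f i j x * ψ i x) (dF (E := E) (ψ j))) :=
    fun i _ j _ => Smooth1.fmul ((hf i j).mul (hψ i)) (Smooth1.dF (hψ j))
  have h3 : ∀ i ∈ (Finset.univ : Finset ι),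
      Smooth1 (∑ j, fmul1 (fun x => f i j x * ψ i x) (dF (E := E) (ψ j))) :=
    fun i hi => smooth1_sum (h2 i hi)
  unfold prim
  rw [dG_add (smooth1_sum h1) (Smooth1.smul _ (smooth1_sum h3)), dG_smul _ (smooth1_sum h3),
    dG_sum h1, dG_sum h3]
  have e1 : ∀ i, dG (fmul1 (ψ i) (A i)) = wedG (dF (ψ i)) (A i) + fmul (ψ i) (dG (A i)) :=
    fun i => dG_fmul1 (hψ i) (hA i)
  have e2 : ∀ i, dG (∑ j, fmul1 (fun x => f i j x * ψ i x) (dF (E := E) (ψ j))) =
      ∑ j, wedG (dF (E := E) (fun x => f i j x * ψ i x)) (dF (ψ j)) := by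
    intro i
    rw [dG_sum (h2 i (Finset.mem_univ i))]
    refine Finset.sum_congr rfl fun j _ => ?_
    rw [dG_fmul1 ((hf i j).mul (hψ i)) (Smooth1.dF (hψ j)), dG_dF (hψ j)]
    funext x
    show _ + (f i j x * ψ i x) • (0 : E →L[ℝ] E →L[ℝ] ℝ) = _
    rw [smul_zero, add_zero]
  rw [Finset.sum_congr rfl fun i _ => e1 i, Finset.sum_congr rfl fun i _ => e2 i]
  have e3 : ∀ (a b : F2 E M), at2 (a + (-1 : ℝ) • b) x u v = at2 a x u v - at2 b x u v := by
    intro a b
    show at2 a x u v + (-1 : ℝ) * at2 b x u v = _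
    ring
  rw [e3]
  simp only [at2_sum, sum_apply]
  congr 1
  refine Finset.sum_congr rfl fun i _ => Finset.sum_congr rfl fun j _ => ?_
  show at1 (dF (E := E) (fun x => f i j x * ψ i x)) x u * at1 (dF (E := E) (ψ j)) x v -
    at1 (dF (E := E) (ψ j)) x u * at1 (dF (E := E) (fun x => f i j x * ψ i x)) x v = _
  rw [dF_mul (hf i j) (hψ i)]
  rfl

/-- **the Weil formula**: `a = τ c + d (prim)`. -/
theorem weil (hψ : ∀ i, SmoothF E (ψ i)) (hsum : ∀ x, ∑ i, ψ i x = 1)
    (hA : ∀ i, Smooth1 (A i)) (hf : ∀ i j, SmoothF E (f i j)) {a : F2 E M} {c : ι → ι → ι → ℝ}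
    (h1 : ∀ i x, x ∈ tsupport (ψ i) → at2 (dG (A i)) x = at2 a x)
    (h2 : ∀ i j x, x ∈ tsupport (ψ i) → x ∈ tsupport (ψ j) →
      at1 (A i) x - at1 (A j) x = at1 (dF (E := E) (f i j)) x)
    (h3 : ∀ i j k x, x ∈ tsupport (ψ i) → x ∈ tsupport (ψ j) → x ∈ tsupport (ψ k) →
      f j k x - f i k x + f i j x = c i j k) :
    a = tauF ψ c + dG (prim ψ A f) := by
  funext x
  refine ContinuousLinearMap.ext fun u => ContinuousLinearMap.ext fun v => ?_
  show at2 a x u v = at2 (tauF (E := E) ψ c) x u v + at2 (dG (prim ψ A f)) x u v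
  rw [tauF_apply, at2_dG_prim hψ hA hf]
  set P : ι → ℝ := fun i => ψ i x with hP
  set Du : ι → ℝ := fun i => at1 (dF (E := E) (ψ i)) x u with hDu
  set Dv : ι → ℝ := fun i => at1 (dF (E := E) (ψ i)) x v with hDv
  have sP : ∑ i, P i = 1 := hsum x
  have sDu : ∑ i, Du i = 0 := by
    have := congrArg (fun L : E →L[ℝ] ℝ => L u) (sum_dF_eq_zero (E := E) hψ hsum x)
    simpa [sum_apply] using this
  have sDv : ∑ i, Dv i = 0 := by
    have := congrArg (fun L : E →L[ℝ] ℝ => L v) (sum_dF_eq_zero (E := E) hψ hsum x)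
    simpa [sum_apply] using this
  have zP : ∀ i, x ∉ tsupport (ψ i) → P i = 0 := fun i hi =>
    image_eq_zero_of_notMem_tsupport (f := ψ i) hi
  have zDu : ∀ i, x ∉ tsupport (ψ i) → Du i = 0 := fun i hi => by
    rw [hDu]; beta_reduce; rw [dF_eq_zero_of_notMem hi]; rfl
  have zDv : ∀ i, x ∉ tsupport (ψ i) → Dv i = 0 := fun i hi => by
    rw [hDv]; beta_reduce; rw [dF_eq_zero_of_notMem hi]; rfl
  -- step 1: the cocycle
  have s1 : ∑ i, ∑ j, ∑ k, c i j k * (P i * (Du j * Dv k - Du k * Dv j)) =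
      ∑ j, ∑ k, f j k x * (Du j * Dv k - Du k * Dv j) := by
    have e : ∀ i j k, c i j k * (P i * (Du j * Dv k - Du k * Dv j)) =
        (f j k x - f i k x + f i j x) * (P i * (Du j * Dv k - Du k * Dv j)) := by
      intro i j k
      by_cases hi : x ∈ tsupport (ψ i)
      · by_cases hj : x ∈ tsupport (ψ j)
        · by_cases hk : x ∈ tsupport (ψ k)
          · rw [h3 i j k x hi hj hk]
          · rw [zDu k hk, zDv k hk]; ring
        · rw [zDu j hj, zDv j hj]; ring
      · rw [zP i hi]; ring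
    simp only [e]
    have e1 : ∀ i j k, (f j k x - f i k x + f i j x) * (P i * (Du j * Dv k - Du k * Dv j)) =
        P i * (f j k x * (Du j * Dv k - Du k * Dv j)) -
        (P i * f i k x * Dv k * Du j - P i * f i k x * Du k * Dv j) +
        (P i * f i j x * Du j * Dv k - P i * f i j x * Dv j * Du k) := by
      intro i j k; ring
    simp only [e1, Finset.sum_add_distrib, Finset.sum_sub_distrib]
    have t1 : ∑ i, ∑ j, ∑ k, P i * (f j k x * (Du j * Dv k - Du k * Dv j)) =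
        ∑ j, ∑ k, f j k x * (Du j * Dv k - Du k * Dv j) := by
      simp only [← Finset.mul_sum]
      rw [← Finset.sum_mul, sP, one_mul]
    have t2 : ∑ i, ∑ j, ∑ k, P i * f i k x * Dv k * Du j = 0 := by
      refine Finset.sum_eq_zero fun i _ => ?_
      rw [Finset.sum_comm]
      refine Finset.sum_eq_zero fun k _ => ?_
      rw [← Finset.mul_sum, sDu, mul_zero]
    have t3 : ∑ i, ∑ j, ∑ k, P i * f i k x * Du k * Dv j = 0 := by
      refine Finset.sum_eq_zero fun i _ => ?_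
      rw [Finset.sum_comm]
      refine Finset.sum_eq_zero fun k _ => ?_
      rw [← Finset.mul_sum, sDv, mul_zero]
    have t4 : ∑ i, ∑ j, ∑ k, P i * f i j x * Du j * Dv k = 0 := by
      refine Finset.sum_eq_zero fun i _ => Finset.sum_eq_zero fun j _ => ?_
      rw [← Finset.mul_sum, sDv, mul_zero]
    have t5 : ∑ i, ∑ j, ∑ k, P i * f i j x * Dv j * Du k = 0 := by
      refine Finset.sum_eq_zero fun i _ => Finset.sum_eq_zero fun j _ => ?_
      rw [← Finset.mul_sum, sDu, mul_zero]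
    rw [t1, t2, t3, t4, t5]; ring
  -- step 2
  have s2 : ∑ i, ((Du i * at1 (A i) x v - at1 (A i) x u * Dv i) + P i * at2 (dG (A i)) x u v) =
      ∑ i, (Du i * at1 (A i) x v - at1 (A i) x u * Dv i) + at2 a x u v := by
    rw [Finset.sum_add_distrib]
    congr 1
    have e : ∀ i, P i * at2 (dG (A i)) x u v = P i * at2 a x u v := by
      intro i
      by_cases hi : x ∈ tsupport (ψ i)
      · rw [h1 i x hi]
      · rw [zP i hi]; ring
    simp only [e]
    rw [← Finset.sum_mul, sP, one_mul]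
  -- step 3
  have s3 : ∑ i, ∑ j, ((f i j x * Du i + P i * at1 (dF (E := E) (f i j)) x u) * Dv j -
      Du j * (f i j x * Dv i + P i * at1 (dF (E := E) (f i j)) x v)) =
      ∑ i, ∑ j, f i j x * (Du i * Dv j - Du j * Dv i) +
        ∑ j, (Du j * at1 (A j) x v - at1 (A j) x u * Dv j) := by
    have e : ∀ i j, (f i j x * Du i + P i * at1 (dF (E := E) (f i j)) x u) * Dv j -
        Du j * (f i j x * Dv i + P i * at1 (dF (E := E) (f i j)) x v) =
        f i j x * (Du i * Dv j - Du j * Dv i) +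
        (P i * at1 (A i) x u * Dv j - P i * at1 (A i) x v * Du j) +
        P i * (Du j * at1 (A j) x v - at1 (A j) x u * Dv j) := by
      intro i j
      by_cases hi : x ∈ tsupport (ψ i)
      · by_cases hj : x ∈ tsupport (ψ j)
        · have h := h2 i j x hi hj
          have hu : at1 (dF (E := E) (f i j)) x u = at1 (A i) x u - at1 (A j) x u := by
            rw [← h]; rfl
          have hv : at1 (dF (E := E) (f i j)) x v = at1 (A i) x v - at1 (A j) x v := by
            rw [← h]; rfl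
          rw [hu, hv]; ring
        · rw [zDu j hj, zDv j hj]; ring
      · rw [zP i hi]; ring
    simp only [e, Finset.sum_add_distrib, Finset.sum_sub_distrib]
    have t1 : ∑ i, ∑ j, P i * at1 (A i) x u * Dv j = 0 := by
      refine Finset.sum_eq_zero fun i _ => ?_
      rw [← Finset.mul_sum, sDv, mul_zero]
    have t2 : ∑ i, ∑ j, P i * at1 (A i) x v * Du j = 0 := by
      refine Finset.sum_eq_zero fun i _ => ?_
      rw [← Finset.mul_sum, sDu, mul_zero]
    have t3 : ∑ i, ∑ j, P i * (Du j * at1 (A j) x v - at1 (A j) x u * Dv j) =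
        ∑ j, Du j * at1 (A j) x v - ∑ j, at1 (A j) x u * Dv j := by
      simp only [← Finset.mul_sum]
      rw [← Finset.sum_mul, sP, one_mul, Finset.sum_sub_distrib]
    rw [t1, t2, t3]; ring
  rw [s1, s2, s3]
  ring

end General

section Four

variable {M : Type*} [TopologicalSpace M] [ChartedSpace E4 M] [IsManifold 𝓘(ℝ, E4) ∞ M]
  {ι : Type*} [Fintype ι] {ψ : ι → M → ℝ} {A : ι → F1 E4 M} {f : ι → ι → M → ℝ}

/-- **WEIL**: `a - τ c` is exact. -/
theorem isEx_sub_tauF (hψ : ∀ i, SmoothF E4 (ψ i)) (hsum : ∀ x, ∑ i, ψ i x = 1)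
    (hA : ∀ i, Smooth1 (A i)) (hf : ∀ i j, SmoothF E4 (f i j)) {a : F2 E4 M} {c : ι → ι → ι → ℝ}
    (h1 : ∀ i x, x ∈ tsupport (ψ i) → at2 (dG (A i)) x = at2 a x)
    (h2 : ∀ i j x, x ∈ tsupport (ψ i) → x ∈ tsupport (ψ j) →
      at1 (A i) x - at1 (A j) x = at1 (dF (E := E4) (f i j)) x)
    (h3 : ∀ i j k x, x ∈ tsupport (ψ i) → x ∈ tsupport (ψ j) → x ∈ tsupport (ψ k) →
      f j k x - f i k x + f i j x = c i j k) :
    IsEx (a - tauF ψ c) := by
  have h := weil hψ hsum hA hf h1 h2 h3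
  have h4 : a - tauF ψ c = dG (prim ψ A f) := by
    rw [sub_eq_iff_eq_add']
    exact h
  rw [h4]
  exact isEx_dG (smooth1_prim hψ hA hf)

end Four

end

end Crest.Agent.R235.Weil_524
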