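import Mathlib
import Crest.Agent.R240.TopAll
import Crest.Agent.R240.N8

/-!
Row 235 (S0364), helper195: T1, the intersection inequality for positive closed `J`-currents,
in the language of the data `D : Dat M` of R240.
-/

set_option autoImplicit false
set_option maxSynthPendingDepth 3

open Set Function Filter MeasureTheory Metric
open scoped Manifold ContDiff Topology ENNReal

namespace Crest.Agent.R235.T1_195

open Crest.Agent.R240 Crest.Agent.R240.Ch Crest.Agent.R240.En4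

noncomputable section

variable {M : Type*} [MetricSpace M] [CompactSpace M] [ChartedSpace E4 M]
    [IsManifold 𝓘(ℝ, E4) ∞ M] [MeasurableSpace M] [BorelSpace M]

/-- a positive closed current of bidegree (1,1), with its trace measure. -/
structure Cur (D : Dat M) (Φ : X2 M →ₗ[ℝ] ℝ) (s : Measure M) : Prop where
  inv : D.IsInv Φ
  nonneg : D.IsNonneg Φ
  closed : Dat.KillsExact Φ
  rm : D.IsRM Φ s

theorem exists_cur (D : Dat M) {Φ : X2 M →ₗ[ℝ] ℝ} (h1 : D.IsInv Φ) (h2 : D.IsNonneg Φ)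
    (h3 : Dat.KillsExact Φ) : ∃ s, Cur D Φ s := by
  obtain ⟨s, hs⟩ := N24.n4 D Φ h2
  exact ⟨s, h1, h2, h3, hs⟩

theorem Cur.growth {D : Dat M} {Φ : X2 M →ₗ[ℝ] ℝ} {s : Measure M} (h : Cur D Φ s) :
    Dat.Growth2 s :=
  N5P.n5'_of D D.n8 (node_N9 D) (Fund.fund D) Φ s h.inv h.nonneg h.closed h.rm

theorem Cur.fin {D : Dat M} {Φ : X2 M →ₗ[ℝ] ℝ} {s : Measure M} (h : Cur D Φ s) :
    IsFiniteMeasure s := h.rm.fin

/-- the smoothing `η` of the current `Φ` at the scale `e`, with density `g`. -/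
structure Sm {D : Dat M} {𝒰 : Cover M} (S : SmPack D 𝒰) (C : ℝ) (Φ : X2 M →ₗ[ℝ] ℝ)
    (s : Measure M) (e : ℝ) (η : X2 M) (g : M → ℝ) : Prop where
  closed : η ∈ Z2 M
  rep : ∀ b : X2 M, Φ (S.A e S.one b) = D.I (η : F2 E4 M) (b : F2 E4 M)
  smooth : SmoothF E4 g
  nonneg : ∀ x, 0 ≤ g x
  avg : ∀ f, SmoothF E4 f → ∫ x, S.a e f x ∂s = ∫ x, f x * g x ∂D.μ
  gle : ∀ x, g x ≤ C * (s.real (ball x (C * e)) / e ^ 4)
  nr : ∀ x, D.nr (η : F2 E4 M) x ≤ C * g x
  low : GeF D.J D.F (η : F2 E4 M) (fun x => - (C * e ^ 2 * g x))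
  anti : ∀ x, D.nr (D.pi'' η : F2 E4 M) x ≤ C * e * g x
  tr_le : ∀ x, qG D.F (η : F2 E4 M) D.F x ≤ C * g x
  le_tr : ∀ x, (1 - C * e) * g x ≤ qG D.F (η : F2 E4 M) D.F x

/-- (T1a): the smoothing. -/
theorem smoothing {D : Dat M} {𝒰 : Cover M} (S : SmPack D 𝒰) :
    ∃ C : ℝ, 1 ≤ C ∧ ∀ (Φ : X2 M →ₗ[ℝ] ℝ) (s : Measure M), Cur D Φ s →
      ∀ e, 0 < e → e ≤ S.e0 → ∃ (η : X2 M) (g : M → ℝ), Sm S C Φ s e η g := by
  obtain ⟨C1, hC1, hT⟩ := tpart D S (N5P.nrcm D 𝒰)
  obtain ⟨Cm, hCm, hm⟩ := S.repm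
  refine ⟨max C1 Cm, hC1.trans (le_max_left _ _), fun Φ s hΦ e he hee => ?_⟩
  have hfin := hΦ.fin
  have h1 : C1 ≤ max C1 Cm := le_max_left _ _
  have h2 : Cm ≤ max C1 Cm := le_max_right _ _
  obtain ⟨g, hgS, hg0, hgs, hgle, -⟩ := hm s hΦ.fin e he hee
  obtain ⟨T, hT0, hT1, -, hT3, hT4, hT5, hT6⟩ :=
    hT Φ s hΦ.rm e he hee g hgS hg0 hgs S.one (S.one_mem 0)
  refine ⟨T, g, ?_, ?_, hgS, hg0, hgs, ?_, ?_, ?_, ?_, ?_, ?_⟩
  · refine Fund.fund D T fun b hb => ?_
    rw [← hT0, ← hΦ.inv]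
    exact hΦ.closed _ (S.exact e S.one he hee b hb)
  · intro b
    rw [hΦ.inv]
    exact hT0 b
  · intro x
    refine (hgle x).trans ?_
    have h3 : s.real (ball x (Cm * e)) ≤ s.real (ball x (max C1 Cm * e)) :=
      measureReal_mono (ball_subset_ball (by gcongr)) (measure_ne_top s _)
    have h4 : 0 ≤ s.real (ball x (Cm * e)) := measureReal_nonneg
    calc Cm / e ^ 4 * s.real (ball x (Cm * e)) = Cm * (s.real (ball x (Cm * e)) / e ^ 4) := by
          ring
      _ ≤ _ := by gcongr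
  · intro x
    refine (hT1 x).trans ?_
    have := hg0 x
    gcongr
  · refine GeF.mono D hT3 fun x => ?_
    have := hg0 x
    have h5 : C1 * e ^ 2 * g x ≤ max C1 Cm * e ^ 2 * g x := by gcongr
    linarith
  · intro x
    refine (hT4 x).trans ?_
    have := hg0 x
    gcongr
  · intro x
    refine (hT5 x).trans ?_
    have := hg0 x
    gcongr
  · intro x
    refine le_trans ?_ (hT6 rfl x)
    have := hg0 x
    gcongr

/-- lower bound of a current on a form with a lower bound. -/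
theorem Cur.lower {D : Dat M} {Φ : X2 M →ₗ[ℝ] ℝ} {s : Measure M} (h : Cur D Φ s) (b : X2 M)
    (k : M → ℝ) (hk : Continuous k) (hb : GeF D.J D.F (b : F2 E4 M) k) : ∫ x, k x ∂s ≤ Φ b := by
  rw [h.inv]
  exact h.rm.lower b k hk hb

/-- (T1b): a current against the smoothing of another one, with a weight `v ≥ 0`. -/
theorem pair_lower {D : Dat M} {𝒰 : Cover M} {S : SmPack D 𝒰} {C : ℝ} (hC : 1 ≤ C)
    {Φ Φ' : X2 M →ₗ[ℝ] ℝ} {s s' : Measure M} (hΦ' : Cur D Φ' s') [IsFiniteMeasure s]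
    {e : ℝ} (he : 0 < e) {η : X2 M} {g : M → ℝ} (h : Sm S C Φ s e η g)
    {v : M → ℝ} (hv : Continuous v) (hv0 : ∀ x, 0 ≤ v x)
    {b : X2 M} (hb : ∀ x, at2 (b : F2 E4 M) x = v x • at2 (η : F2 E4 M) x) :
    - (C ^ 2 * ∫ x, v x * (s.real (ball x (C * e)) / e ^ 2) ∂s') ≤ Φ' b := by
  have hfin' := hΦ'.fin
  have hgc : Continuous g := sF_continuous h.smooth
  have hge : GeF D.J D.F (b : F2 E4 M) (fun x => - (C * e ^ 2 * (v x * g x))) := by
    intro x w
    have h1 := h.low x w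
    simp only at h1
    rw [hb x]
    simp only [smul_apply, smul_eq_mul]
    have h2 := mul_le_mul_of_nonneg_left h1 (hv0 x)
    calc -(C * e ^ 2 * (v x * g x)) * at2 D.F x w (atJ D.J x w)
        = v x * (-(C * e ^ 2 * g x) * at2 D.F x w (atJ D.J x w)) := by ring
      _ ≤ _ := h2
  have h1 := hΦ'.lower b _ (by fun_prop) hge
  refine le_trans ?_ h1
  rw [integral_neg, integral_const_mul]
  apply neg_le_neg
  have hC0 : 0 ≤ C := by linarith
  obtain ⟨V, hV⟩ := (isCompact_univ (X := M)).exists_bound_of_continuousOn hv.continuousOn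
  have hmeas : Measurable fun x : M => s.real (ball x (C * e)) :=
    (MeasDens.measurable_meas_ball s (C * e)).ennreal_toReal
  have hint : Integrable (fun x => v x * (s.real (ball x (C * e)) / e ^ 2)) s' := by
    refine Integrable.of_bound (C := V * (s.real univ / e ^ 2))
      (hv.measurable.mul (hmeas.div_const _)).aestronglyMeasurable
      (Eventually.of_forall fun x => ?_)
    rw [norm_mul]
    have h2 : ‖v x‖ ≤ V := hV x (mem_univ x)
    have h3 : ‖s.real (ball x (C * e)) / e ^ 2‖ ≤ s.real univ / e ^ 2 := by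
      rw [Real.norm_of_nonneg (by positivity)]
      have h5 : s.real (ball x (C * e)) ≤ s.real univ :=
        measureReal_mono (subset_univ _) (measure_ne_top s _)
      gcongr
    have h4 : 0 ≤ V := (norm_nonneg _).trans h2
    gcongr
  calc C * e ^ 2 * ∫ x, v x * g x ∂s'
      = ∫ x, C * e ^ 2 * (v x * g x) ∂s' := (integral_const_mul _ _).symm
    _ ≤ ∫ x, C ^ 2 * (v x * (s.real (ball x (C * e)) / e ^ 2)) ∂s' := by
        refine integral_mono (((integrable_s hfin' (hv.mul hgc))).const_mul _) (hint.const_mul _) ?_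
        intro x
        have h2 := h.gle x
        have h3 := hv0 x
        show C * e ^ 2 * (v x * g x) ≤ C ^ 2 * (v x * (s.real (ball x (C * e)) / e ^ 2))
        calc C * e ^ 2 * (v x * g x)
            ≤ C * e ^ 2 * (v x * (C * (s.real (ball x (C * e)) / e ^ 4))) := by gcongr
          _ = C ^ 2 * (v x * (s.real (ball x (C * e)) / e ^ 2)) := by
              field_simp
    _ = _ := integral_const_mul _ _

/-- the smoothings of `b` converge to `b` on every current. -/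
theorem tendsto_A {D : Dat M} {𝒰 : Cover M} (S : SmPack D 𝒰) {Φ : X2 M →ₗ[ℝ] ℝ} {s : Measure M}
    (h : Cur D Φ s) (b : X2 M) :
    Tendsto (fun e => Φ (S.A e S.one b)) (𝓝[>] 0) (𝓝 (Φ b)) := by
  have hfin := h.fin
  obtain ⟨C0, hC0⟩ := N5P.nrcm D 𝒰
  obtain ⟨C, hC⟩ := S.approx 0
  have key : ∀ e, 0 < e → e ≤ S.e0 → |Φ (S.A e S.one b) - Φ b| ≤
      2 * (s.real univ * (|C0| * (|C| * e * |𝒰.cm 1 (b : F2 E4 M)|))) := by
    intro e he hee
    have h1 : Φ (S.A e S.one b) - Φ b = Φ (D.pi' (S.A e S.one b - b)) := by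
      rw [← h.inv, map_sub]
    rw [h1]
    refine (h.rm.bound _).trans ?_
    have h2 : ∫ x, D.nr ((S.A e S.one b - b : X2 M) : F2 E4 M) x ∂s ≤
        ∫ _x, |C0| * (|C| * e * |𝒰.cm 1 (b : F2 E4 M)|) ∂s := by
      refine integral_mono (integrable_s hfin (cont_nr D (S.A e S.one b - b).2))
        (integrable_const _) fun x => ?_
      refine (hC0 _ x).trans ?_
      have h3 := (hC e he hee b).2
      have h4 : (0 : ℝ) ≤ 𝒰.cm 0 ((S.A e S.one b - b : X2 M) : F2 E4 M) := cm_nonneg _ _ _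
      calc C0 * 𝒰.cm 0 ((S.A e S.one b - b : X2 M) : F2 E4 M)
          ≤ |C0| * 𝒰.cm 0 ((S.A e S.one b - b : X2 M) : F2 E4 M) := by
            gcongr; exact le_abs_self _
        _ ≤ |C0| * (C * e * 𝒰.cm (0 + 1) (b : F2 E4 M)) := by gcongr
        _ ≤ |C0| * (|C| * e * |𝒰.cm 1 (b : F2 E4 M)|) := by
            have h5 := cm_nonneg 𝒰 1 (b : F2 E4 M)
            rw [abs_of_nonneg h5]
            gcongr
            exact le_abs_self _
    rw [integral_const, smul_eq_mul] at h2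
    linarith
  rw [tendsto_iff_dist_tendsto_zero]
  have hlim : Tendsto (fun e : ℝ => 2 * (s.real univ * (|C0| * (|C| * e *
      |𝒰.cm 1 (b : F2 E4 M)|)))) (𝓝[>] 0) (𝓝 0) := by
    have h6 : Continuous fun e : ℝ => 2 * (s.real univ * (|C0| * (|C| * e *
      |𝒰.cm 1 (b : F2 E4 M)|))) := by fun_prop
    have h7 := (h6.tendsto 0).mono_left (nhdsWithin_le_nhds (s := Ioi (0 : ℝ)))
    simpa using h7
  refine squeeze_zero' (Eventually.of_forall fun _ => dist_nonneg) ?_ hlim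
  filter_upwards [Ioc_mem_nhdsGT S.e0_pos] with e he
  rw [Real.dist_eq]
  exact key e he.1 he.2

/-- `β` represents the class of `Φ`. -/
def Rep (D : Dat M) (Φ : X2 M →ₗ[ℝ] ℝ) (β : X2 M) : Prop :=
  β ∈ Z2 M ∧ ∀ b ∈ Z2 M, Φ b = D.I (β : F2 E4 M) (b : F2 E4 M)

/-- the value of `Φ'` on the smoothing of `Φ`. -/
theorem pair_rep {D : Dat M} {𝒰 : Cover M} {S : SmPack D 𝒰} {C : ℝ}
    {Φ Φ' : X2 M →ₗ[ℝ] ℝ} {s : Measure M} {β' : X2 M} (hβ' : Rep D Φ' β')
    {e : ℝ} {η : X2 M} {g : M → ℝ} (h : Sm S C Φ s e η g) :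
    Φ' η = Φ (S.A e S.one β') := by
  rw [hβ'.2 η h.closed, h.rep]
  exact Int.IG_comm _ _ _ _

/-- (T1c): the intersection inequality. -/
theorem t1 (D : Dat M) : ∃ C : ℝ, 0 ≤ C ∧ ∀ (Φ Φ' : X2 M →ₗ[ℝ] ℝ) (s s' : Measure M)
    (β β' : X2 M), Cur D Φ s → Cur D Φ' s' → Rep D Φ β → Rep D Φ' β' →
    ∀ f : M → ℝ, Integrable f s' →
      (∀ᵐ x ∂s', ∀ ε : ℝ, 0 < ε → ∀ᶠ r in 𝓝[>] (0 : ℝ), s.real (ball x r) / r ^ 2 ≤ f x + ε) →
      - (C * ∫ x, f x ∂s') ≤ D.I (β : F2 E4 M) (β' : F2 E4 M) := by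
  obtain ⟨𝒰⟩ := Int.node_COV D
  obtain ⟨S⟩ := D.n8 𝒰
  obtain ⟨K, hK, hS⟩ := smoothing S
  refine ⟨K ^ 4, by positivity, fun Φ Φ' s s' β β' h h' hβ hβ' f hf hd => ?_⟩
  have hfin := h.fin
  have hfin' := h'.fin
  have hK0 : 0 < K := by linarith
  obtain ⟨G, hG⟩ := h.growth
  -- the limit
  have hlim : Tendsto (fun e => Φ (S.A e S.one β')) (𝓝[>] 0)
      (𝓝 (D.I (β : F2 E4 M) (β' : F2 E4 M))) := by
    rw [← hβ.2 β' hβ'.1]
    exact tendsto_A S h β'
  -- the error
  set φ : ℝ → M → ℝ := fun e x => max (s.real (ball x (K * e)) / e ^ 2 - K ^ 2 * f x) 0 with hφ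
  have hmeas : ∀ e : ℝ, Measurable fun x : M => s.real (ball x (K * e)) := fun e =>
    (MeasDens.measurable_meas_ball s (K * e)).ennreal_toReal
  have hbd : ∀ e, 0 < e → ∀ x, s.real (ball x (K * e)) / e ^ 2 ≤ K ^ 2 * G := by
    intro e he x
    rw [div_le_iff₀ (by positivity)]
    calc _ ≤ G * (K * e) ^ 2 := hG x (K * e) (by positivity)
      _ = _ := by ring
  have hφ0 : Tendsto (fun e => ∫ x, φ e x ∂s') (𝓝[>] 0) (𝓝 0) := by
    have h1 : Tendsto (fun e => ∫ x, φ e x ∂s') (𝓝[>] 0) (𝓝 (∫ _x, (0 : ℝ) ∂s')) := by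
      refine tendsto_integral_filter_of_dominated_convergence (fun x => K ^ 2 * |G| + K ^ 2 * |f x|)
        ?_ ?_ ?_ ?_
      · refine Eventually.of_forall fun e => ?_
        have h2 : AEStronglyMeasurable (fun x : M => s.real (ball x (K * e)) / e ^ 2) s' :=
          ((hmeas e).div_const _).aestronglyMeasurable
        exact (h2.sub (hf.1.const_mul _)).sup aestronglyMeasurable_const
      · filter_upwards [self_mem_nhdsWithin] with e he
        refine Eventually.of_forall fun x => ?_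
        have h2 := hbd e he x
        have h3 : K ^ 2 * G ≤ K ^ 2 * |G| := by gcongr; exact le_abs_self _
        have h4 : -(K ^ 2 * |f x|) ≤ K ^ 2 * f x := by
          rw [← mul_neg]; gcongr; exact neg_abs_le _
        rw [Real.norm_of_nonneg (le_max_right _ _)]
        refine max_le (by linarith) (by positivity)
      · exact ((integrable_const _).add (hf.abs.const_mul _))
      · filter_upwards [hd] with x hx
        rw [Metric.tendsto_nhds]
        intro ε hε
        have h2 := hx (ε / (2 * K ^ 2)) (by positivity)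
        have h3 : Tendsto (fun e : ℝ => K * e) (𝓝[>] 0) (𝓝[>] 0) := by
          refine tendsto_nhdsWithin_iff.2 ⟨?_, ?_⟩
          · have h4 : Continuous fun e : ℝ => K * e := by fun_prop
            have h5 := (h4.tendsto 0).mono_left (nhdsWithin_le_nhds (s := Ioi (0 : ℝ)))
            simpa using h5
          · filter_upwards [self_mem_nhdsWithin] with e he
            exact mul_pos hK0 he
        filter_upwards [h3.eventually h2, self_mem_nhdsWithin] with e he he0
        have he0' : (0 : ℝ) < e := he0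
        rw [Real.dist_eq, sub_zero, abs_of_nonneg (le_max_right _ _)]
        refine max_lt ?_ hε
        have h4 : s.real (ball x (K * e)) / e ^ 2 =
            K ^ 2 * (s.real (ball x (K * e)) / (K * e) ^ 2) := by
          field_simp
        rw [h4]
        have h5 : K ^ 2 * (s.real (ball x (K * e)) / (K * e) ^ 2) ≤
            K ^ 2 * (f x + ε / (2 * K ^ 2)) := by gcongr
        have h6 : K ^ 2 * (f x + ε / (2 * K ^ 2)) = K ^ 2 * f x + ε / 2 := by
          field_simp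
        linarith
    simpa using h1
  -- conclusion
  have hlim2 : Tendsto (fun e => - (K ^ 2 * (K ^ 2 * ∫ x, f x ∂s' + ∫ x, φ e x ∂s'))) (𝓝[>] 0)
      (𝓝 (- (K ^ 2 * (K ^ 2 * ∫ x, f x ∂s' + 0)))) :=
    ((tendsto_const_nhds.add hφ0).const_mul _).neg
  have hfinal := le_of_tendsto_of_tendsto hlim2 hlim ?_
  · calc -(K ^ 4 * ∫ x, f x ∂s') = -(K ^ 2 * (K ^ 2 * ∫ x, f x ∂s' + 0)) := by ring
      _ ≤ _ := hfinal
  · filter_upwards [Ioc_mem_nhdsGT S.e0_pos] with e he
    obtain ⟨η, g, hη⟩ := hS Φ s h e he.1 he.2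
    have h1 := pair_lower hK h' he.1 hη (v := fun _ => 1) continuous_const (fun _ => zero_le_one)
      (b := η) (fun x => by simp)
    rw [pair_rep hβ' hη] at h1
    refine le_trans ?_ h1
    apply neg_le_neg
    simp only [one_mul]
    have h2 : Integrable (fun x => s.real (ball x (K * e)) / e ^ 2) s' := by
      refine Integrable.of_bound (C := K ^ 2 * G)
        ((hmeas e).div_const _).aestronglyMeasurable (Eventually.of_forall fun x => ?_)
      rw [Real.norm_of_nonneg (by positivity)]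
      exact hbd e he.1 x
    have h3 : Integrable (φ e) s' := (h2.sub (hf.const_mul _)).pos_part
    have h4 : ∫ x, s.real (ball x (K * e)) / e ^ 2 ∂s' ≤
        K ^ 2 * ∫ x, f x ∂s' + ∫ x, φ e x ∂s' := by
      rw [← integral_const_mul, ← integral_add (hf.const_mul _) h3]
      refine integral_mono h2 ((hf.const_mul _).add h3) fun x => ?_
      have h5 := le_max_left (s.real (ball x (K * e)) / e ^ 2 - K ^ 2 * f x) 0
      show _ ≤ K ^ 2 * f x + φ e x
      simp only [hφ]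
      linarith
    gcongr

/-! ### diffuse currents -/

/-- a current whose density vanishes almost everywhere with respect to the other one. -/
theorem t1_zero (D : Dat M) {Φ Φ' : X2 M →ₗ[ℝ] ℝ} {s s' : Measure M} {β β' : X2 M}
    (h : Cur D Φ s) (h' : Cur D Φ' s') (hβ : Rep D Φ β) (hβ' : Rep D Φ' β')
    (hz : ∀ᵐ x ∂s', Tendsto (fun r : ℝ => s.real (ball x r) / r ^ 2) (𝓝[>] 0) (𝓝 0)) :
    0 ≤ D.I (β : F2 E4 M) (β' : F2 E4 M) := by
  obtain ⟨C, -, hC⟩ := t1 D
  have h1 := hC Φ Φ' s s' β β' h h' hβ hβ' (fun _ => 0) (integrable_zero _ _ _) ?_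
  · simpa using h1
  · filter_upwards [hz] with x hx ε hε
    filter_upwards [(Metric.tendsto_nhds.1 hx) ε hε] with r hr
    rw [Real.dist_eq, sub_zero] at hr
    linarith [le_abs_self (s.real (ball x r) / r ^ 2)]

omit [ChartedSpace E4 M] [IsManifold 𝓘(ℝ, E4) ∞ M] in
/-- the density of a diffuse current vanishes almost everywhere with respect to any measure with
quadratic growth. -/
theorem zeroDens_ae {s s' : Measure M} [IsFiniteMeasure s] (hz : Dat.ZeroDens s)
    (hg : Dat.Growth2 s') [IsFiniteMeasure s'] :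
    ∀ᵐ x ∂s', Tendsto (fun r : ℝ => s.real (ball x r) / r ^ 2) (𝓝[>] 0) (𝓝 0) := by
  obtain ⟨C', hC'⟩ := hg
  have hs' := growth_ennreal hC'
  have h0 : ∀ᵐ x ∂s, Tendsto (fun r => MeasDens.th s x r) (𝓝[>] (0 : ℝ)) (𝓝 0) := by
    filter_upwards [hz] with x hx
    exact th_tendsto hx
  have h1 : ∀ᵐ x ∂s', Tendsto (fun r => MeasDens.th s x r) (𝓝[>] (0 : ℝ)) (𝓝 0) := by
    apply MeasDens.vitali_null s s' hs'
      (G := {x | Tendsto (fun r => MeasDens.th s x r) (𝓝[>] (0 : ℝ)) (𝓝 0)})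
    · exact h0
    · intro x hx; exact hx
  filter_upwards [h1] with x hx
  have h3 := (ENNReal.tendsto_toReal ENNReal.zero_ne_top).comp hx
  rw [ENNReal.toReal_zero] at h3
  refine h3.congr' ?_
  filter_upwards [self_mem_nhdsWithin] with r hr
  have hr' : (0 : ℝ) < r := hr
  simp only [Function.comp, MeasDens.th]
  rw [ENNReal.toReal_div, ENNReal.toReal_ofReal (by positivity)]
  rfl

/-- a diffuse current has non-negative intersection with every current. -/
theorem t1_diffuse (D : Dat M) {Φ Φ' : X2 M →ₗ[ℝ] ℝ} {s s' : Measure M} {β β' : X2 M}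
    (h : Cur D Φ s) (h' : Cur D Φ' s') (hβ : Rep D Φ β) (hβ' : Rep D Φ' β')
    (hz : Dat.ZeroDens s) : 0 ≤ D.I (β : F2 E4 M) (β' : F2 E4 M) := by
  have := h.fin
  have := h'.fin
  exact t1_zero D h h' hβ hβ' (zeroDens_ae hz h'.growth)

/-! ### the measure `Φ' ∧ η_e` is bounded -/


/-! ### the upper density -/







end

end Crest.Agent.R235.T1_195
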