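import Mathlib
import Crest.Agent.R240.Iface
import Crest.Agent.R240.Met
import Crest.Agent.R240.TopAll
import Crest.Agent.R240.ChDens
import Crest.Agent.R240.IntPair
import Crest.Agent.R240.En4L
import Crest.Agent.R235.T1_195
import Crest.Agent.R240.PotGeo
import Crest.Agent.R235.GrowthU_4
import Crest.Agent.R240.Pol3

-- ▼ part R235/Atoms_4
section

/-!
Row 235 (S0364), helper4: block ATOMS of the Siu decomposition (#1747 (7)), interface-free part.

* `finite_atoms`, `ae_atom`: a density function whose sublevel measures are quantised from below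
  is purely atomic on `{ν ≥ a}`;
* `tendsto_kernel_compl`: Besicovitch for kernels of size `r⁻²`.
-/

set_option autoImplicit false

open Set Function Filter MeasureTheory Metric
open scoped Topology ENNReal NNReal

namespace Crest.Agent.R235.Atoms_4

noncomputable section

section Atoms

variable {X : Type*} [MeasurableSpace X]

/-- a finite Borel measure on `ℝ` all of whose values are `0` or `≥ k` lives on its atoms. -/
theorem null_of_noAtoms (m : Measure ℝ) [IsFiniteMeasure m] {k : ℝ≥0∞} (hk : 0 < k)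
    (h : ∀ A, MeasurableSet A → m A = 0 ∨ k ≤ m A) {E : Set ℝ}
    (h0 : ∀ t ∈ E, m {t} = 0) : m E = 0 := by
  refine measure_null_of_locally_null E fun t ht => ?_
  have h1 : Tendsto (fun n : ℕ => m (ball t (1 / ((n : ℝ) + 1)))) atTop
      (𝓝 (m (⋂ n : ℕ, ball t (1 / ((n : ℝ) + 1))))) := by
    refine tendsto_measure_iInter_atTop (fun n => measurableSet_ball.nullMeasurableSet) ?_
      ⟨0, measure_ne_top _ _⟩
    intro n n' hn
    refine ball_subset_ball ?_
    apply one_div_le_one_div_of_le (by positivity)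
    have : (n : ℝ) ≤ n' := by exact_mod_cast hn
    linarith
  have h2 : (⋂ n : ℕ, ball t (1 / ((n : ℝ) + 1))) = {t} := by
    ext s
    simp only [mem_iInter, mem_ball, mem_singleton_iff]
    constructor
    · intro hs
      by_contra hne
      have hd : 0 < dist s t := dist_pos.2 hne
      obtain ⟨n, hn⟩ := exists_nat_one_div_lt hd
      exact absurd (hs n) (not_lt.2 hn.le)
    · rintro rfl n
      rw [dist_self]
      positivity
  rw [h2, h0 t ht] at h1
  obtain ⟨n, hn⟩ := ((tendsto_order.1 h1).2 k hk).exists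
  refine ⟨ball t (1 / ((n : ℝ) + 1)), mem_nhdsWithin_of_mem_nhds (ball_mem_nhds t (by positivity)),
    ?_⟩
  rcases h _ (measurableSet_ball (x := t) (ε := 1 / ((n : ℝ) + 1))) with h3 | h3
  · exact h3
  · exact absurd hn (not_lt.2 h3)

/-- `{t ≥ a | t is an atom}` is finite. -/
theorem finite_atoms (s : Measure X) [IsFiniteMeasure s] {ν : X → ℝ} (hν : Measurable ν)
    {a : ℝ} {k : ℝ≥0∞} (hk : 0 < k)
    (h : ∀ A, MeasurableSet A → A ⊆ Ici a → s (ν ⁻¹' A) = 0 ∨ k ≤ s (ν ⁻¹' A)) :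
    {t : ℝ | a ≤ t ∧ s (ν ⁻¹' {t}) ≠ 0}.Finite := by
  classical
  by_contra hinf
  have hinf' : {t : ℝ | a ≤ t ∧ s (ν ⁻¹' {t}) ≠ 0}.Infinite := hinf
  have hks : k ≠ ⊤ := by
    obtain ⟨t, ht⟩ := hinf'.nonempty
    rcases h {t} (measurableSet_singleton t) (by simpa using ht.1) with h1 | h1
    · exact absurd h1 ht.2
    · exact ne_top_of_le_ne_top (measure_ne_top _ _) h1
  have h1 : ∀ n : ℕ, (n : ℝ≥0∞) * k ≤ s univ := by
    intro n
    obtain ⟨F, hF, hFn⟩ := hinf'.exists_subset_card_eq n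
    have h2 : s (ν ⁻¹' (F : Set ℝ)) = ∑ t ∈ F, s (ν ⁻¹' {t}) := by
      have : ν ⁻¹' (F : Set ℝ) = ⋃ t ∈ F, ν ⁻¹' {t} := by
        ext x; simp
      rw [this, measure_biUnion_finset]
      · intro t _ t' _ htt
        refine Disjoint.preimage _ ?_
        simpa using htt
      · intro t _
        exact hν (measurableSet_singleton t)
    calc (n : ℝ≥0∞) * k = ∑ _t ∈ F, k := by rw [Finset.sum_const, hFn, nsmul_eq_mul]
      _ ≤ ∑ t ∈ F, s (ν ⁻¹' {t}) := by
          refine Finset.sum_le_sum fun t ht => ?_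
          have htF := hF ht
          rcases h {t} (measurableSet_singleton t) (by simpa using htF.1) with h1 | h1
          · exact absurd h1 htF.2
          · exact h1
      _ = s (ν ⁻¹' (F : Set ℝ)) := h2.symm
      _ ≤ s univ := measure_mono (subset_univ _)
  obtain ⟨n, hn⟩ := ENNReal.exists_nat_mul_gt hk.ne' (measure_ne_top s univ)
  exact absurd (h1 n) (not_le.2 hn)

/-- almost every point of `{ν ≥ a}` is in an atom. -/
theorem ae_atom (s : Measure X) [IsFiniteMeasure s] {ν : X → ℝ} (hν : Measurable ν)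
    {a : ℝ} {k : ℝ≥0∞} (hk : 0 < k)
    (h : ∀ A, MeasurableSet A → A ⊆ Ici a → s (ν ⁻¹' A) = 0 ∨ k ≤ s (ν ⁻¹' A)) :
    ∀ᵐ x ∂s, a ≤ ν x → s (ν ⁻¹' {ν x}) ≠ 0 := by
  have hfin := finite_atoms s hν hk h
  set F : Set ℝ := {t : ℝ | a ≤ t ∧ s (ν ⁻¹' {t}) ≠ 0} with hF
  have hFm : MeasurableSet F := hfin.measurableSet
  set m : Measure ℝ := (s.map ν).restrict (Ici a) with hm
  have hmA : ∀ A, MeasurableSet A → m A = s (ν ⁻¹' (A ∩ Ici a)) := by
    intro A hA
    rw [hm, Measure.restrict_apply hA, Measure.map_apply hν (hA.inter measurableSet_Ici)]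
  have h1 : m (Ici a \ F) = 0 := by
    refine null_of_noAtoms m hk (fun A hA => ?_) ?_
    · rw [hmA A hA]
      exact h _ (hA.inter measurableSet_Ici) inter_subset_right
    · rintro t ⟨hta, htF⟩
      rw [hmA _ (measurableSet_singleton t)]
      by_contra hne
      apply htF
      refine ⟨hta, fun h0 => hne ?_⟩
      exact measure_mono_null (preimage_mono inter_subset_left) h0
  rw [hmA _ (measurableSet_Ici.diff hFm)] at h1
  rw [ae_iff]
  refine measure_mono_null ?_ h1
  intro x hx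
  simp only [mem_ofPred_eq, Classical.not_imp, not_not] at hx
  refine ⟨⟨hx.1, fun hxF => hxF.2 hx.2⟩, hx.1⟩

/-- ENUMERATION: distinct values `c i > 0` (`i ∈ I ⊆ ℕ`), finitely many above every positive
level, such that a.e. point of `{ν > 0}` has `ν x = c i` for some `i`. -/
theorem exists_enum (s : Measure X) [IsFiniteMeasure s] {ν : X → ℝ} (hν : Measurable ν)
    (h : ∀ a : ℝ, 0 < a → ∃ k : ℝ≥0∞, 0 < k ∧
      ∀ A, MeasurableSet A → A ⊆ Ici a → s (ν ⁻¹' A) = 0 ∨ k ≤ s (ν ⁻¹' A)) :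
    ∃ F : Set ℝ, F.Countable ∧ (∀ t ∈ F, 0 < t ∧ s (ν ⁻¹' {t}) ≠ 0) ∧
      (∀ a : ℝ, 0 < a → (F ∩ Ici a).Finite) ∧
      ∀ᵐ x ∂s, 0 < ν x → ν x ∈ F := by
  set F : Set ℝ := {t : ℝ | 0 < t ∧ s (ν ⁻¹' {t}) ≠ 0} with hF
  have hfin : ∀ a : ℝ, 0 < a → (F ∩ Ici a).Finite := by
    intro a ha
    obtain ⟨k, hk, hk'⟩ := h a ha
    refine (finite_atoms s hν hk hk').subset ?_
    rintro t ⟨⟨_, h2⟩, h3⟩
    exact ⟨h3, h2⟩
  refine ⟨F, ?_, fun t ht => ht, hfin, ?_⟩
  · have : F ⊆ ⋃ n : ℕ, F ∩ Ici (1 / ((n : ℝ) + 1)) := by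
      intro t ht
      obtain ⟨n, hn⟩ := exists_nat_one_div_lt ht.1
      exact mem_iUnion.2 ⟨n, ht, hn.le⟩
    refine (countable_iUnion fun n => ?_).mono this
    exact (hfin _ (by positivity)).countable
  · have h1 : ∀ n : ℕ, ∀ᵐ x ∂s, 1 / ((n : ℝ) + 1) ≤ ν x → s (ν ⁻¹' {ν x}) ≠ 0 := by
      intro n
      obtain ⟨k, hk, hk'⟩ := h (1 / ((n : ℝ) + 1)) (by positivity)
      exact ae_atom s hν hk hk'
    filter_upwards [ae_all_iff.2 h1] with x hx hpos
    obtain ⟨n, hn⟩ := exists_nat_one_div_lt hpos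
    exact ⟨hpos, hx n hn.le⟩

end Atoms

end

end Crest.Agent.R235.Atoms_4
end

-- ▼ part R235/AtomsB_4
section

/-!
Row 235 (S0364), helper4: block ATOMS of the Siu decomposition (#1747 (7)), Besicovitch
differentiation on a closed manifold with a metric bi-Lipschitz to the charts.
-/

set_option autoImplicit false
set_option maxSynthPendingDepth 3

open Set Function Filter MeasureTheory Metric
open scoped Manifold ContDiff Topology ENNReal NNReal

namespace Crest.Agent.R235.AtomsB_4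

open Crest.Agent.R240

noncomputable section

/-- Besicovitch in a finite dimensional space, in the form `o(r²)`. -/
theorem compl_small {E : Type*} [NormedAddCommGroup E] [NormedSpace ℝ E] [FiniteDimensional ℝ E]
    [MeasurableSpace E] [BorelSpace E] (μ : Measure E) [IsFiniteMeasure μ] {A : Set E}
    (hA : MeasurableSet A) :
    ∀ᵐ x ∂μ, x ∈ A → ∀ C : ℝ, (∀ r : ℝ, 0 < r → μ.real (closedBall x r) ≤ C * r ^ 2) →
      Tendsto (fun r : ℝ => μ.real (Aᶜ ∩ closedBall x r) / r ^ 2) (𝓝[>] 0) (𝓝 0) := by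
  have hB := Besicovitch.ae_tendsto_measure_inter_div_of_measurableSet μ hA.compl
  filter_upwards [hB] with x hx hxA C hC
  have h0 : (Aᶜ).indicator (1 : E → ℝ≥0∞) x = 0 := by simp [hxA]
  rw [h0] at hx
  have h1 : Tendsto (fun r : ℝ => (μ (Aᶜ ∩ closedBall x r) / μ (closedBall x r)).toReal)
      (𝓝[>] 0) (𝓝 0) := by
    have h := (ENNReal.tendsto_toReal ENNReal.zero_ne_top).comp hx
    rw [ENNReal.toReal_zero] at h
    exact h
  have h2 : Tendsto (fun r : ℝ => (μ (Aᶜ ∩ closedBall x r) / μ (closedBall x r)).toReal * C)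
      (𝓝[>] 0) (𝓝 0) := by simpa using h1.mul_const C
  refine squeeze_zero' (Eventually.of_forall fun r => by positivity) ?_ h2
  filter_upwards [self_mem_nhdsWithin] with r hr
  have hr : 0 < r := hr
  rw [div_le_iff₀ (by positivity), mul_assoc, ENNReal.toReal_div]
  have h3 := hC r hr
  have h4 : 0 ≤ μ.real (Aᶜ ∩ closedBall x r) := measureReal_nonneg
  rcases (measureReal_nonneg (μ := μ) (s := closedBall x r)).eq_or_lt with h5 | h5
  · have h6 : μ.real (Aᶜ ∩ closedBall x r) ≤ μ.real (closedBall x r) :=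
      measureReal_mono inter_subset_right
    have h7 : μ.real (Aᶜ ∩ closedBall x r) = 0 := le_antisymm (h6.trans h5.symm.le) h4
    rw [h7]
    have h8 : 0 ≤ C * r ^ 2 := h5.le.trans h3
    simp only [measureReal_def] at h7
    rw [h7]
    simp
  · calc μ.real (Aᶜ ∩ closedBall x r)
        = μ.real (Aᶜ ∩ closedBall x r) / μ.real (closedBall x r) * μ.real (closedBall x r) := by
          field_simp
      _ ≤ μ.real (Aᶜ ∩ closedBall x r) / μ.real (closedBall x r) * (C * r ^ 2) := by gcongr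

variable {M : Type*} [MetricSpace M] [CompactSpace M] [ChartedSpace E4 M]
    [IsManifold 𝓘(ℝ, E4) ∞ M] [MeasurableSpace M] [BorelSpace M]

omit [IsManifold 𝓘(ℝ, E4) ∞ M] in
/-- Besicovitch on a closed manifold. -/
theorem dens_compl (hb : Met.BiLip E4 M) {s : Measure M} [IsFiniteMeasure s]
    (hs : Dat.Growth2 s) {A : Set M} (hA : MeasurableSet A) :
    ∀ᵐ x ∂s, x ∈ A → Tendsto (fun r : ℝ => s.real (Aᶜ ∩ ball x r) / r ^ 2) (𝓝[>] 0) (𝓝 0) := by
  obtain ⟨G, hG⟩ := hs
  -- local statement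
  have hloc : ∀ p : M, ∃ V : Set M, IsOpen V ∧ p ∈ V ∧ ∀ᵐ x ∂s, x ∈ V → x ∈ A →
      Tendsto (fun r : ℝ => s.real (Aᶜ ∩ ball x r) / r ^ 2) (𝓝[>] 0) (𝓝 0) := by
    intro p
    set φ := chartAt E4 p with hφ
    have hpt : φ p ∈ φ.target := mem_chart_target E4 p
    obtain ⟨ρ, hρ, hρt⟩ := Metric.nhds_basis_closedBall.mem_iff.1 (φ.open_target.mem_nhds hpt)
    set K := closedBall (φ p) ρ with hK
    obtain ⟨c, C, hc, hC, hbl⟩ := hb p K (isCompact_closedBall _ _) hρt
    set V : Set M := φ.source ∩ φ ⁻¹' ball (φ p) ρ with hV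
    have hVo : IsOpen V := φ.isOpen_inter_preimage isOpen_ball
    set Wc : Set M := φ.source ∩ φ ⁻¹' K with hW
    have hVW : V ⊆ Wc := fun x hx => ⟨hx.1, ball_subset_closedBall hx.2⟩
    have hWK : Wc = φ.symm '' K := (φ.symm_image_eq_source_inter_preimage hρt).symm
    have hWcomp : IsCompact Wc := by
      rw [hWK]
      exact (isCompact_closedBall _ _).image_of_continuousOn (φ.continuousOn_symm.mono hρt)
    have hWm : MeasurableSet Wc := hWcomp.isClosed.measurableSet
    have hφm : AEMeasurable φ (s.restrict Wc) :=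
      (φ.continuousOn.mono inter_subset_left).aemeasurable hWm
    set μ : Measure E4 := (s.restrict Wc).map φ with hμ
    have hμfin : IsFiniteMeasure μ := by rw [hμ]; infer_instance
    -- the set `A` in the chart
    set A' : Set E4 := (fun y : K => (y : E4)) '' {y : K | φ.symm (y : E4) ∈ A} with hA'
    have hA'm : MeasurableSet A' := by
      refine MeasurableSet.subtype_image isClosed_closedBall.measurableSet ?_
      have hcont : Continuous fun y : K => φ.symm (y : E4) :=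
        (φ.continuousOn_symm.mono hρt).domRestrict
      exact hcont.measurable hA
    have hmem : ∀ x ∈ Wc, (φ x ∈ A' ↔ x ∈ A) := by
      intro x hx
      constructor
      · rintro ⟨y, hy, hyx⟩
        have : φ.symm (y : E4) = x := by
          rw [show (y : E4) = φ x from hyx]; exact φ.left_inv hx.1
        rw [← this]; exact hy
      · intro hxA
        exact ⟨⟨φ x, hx.2⟩, by simpa [φ.left_inv hx.1] using hxA, rfl⟩
    have hμB : ∀ B : Set E4, MeasurableSet B → μ.real B = s.real (φ ⁻¹' B ∩ Wc) := by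
      intro B hB
      rw [measureReal_def, hμ, Measure.map_apply_of_aemeasurable hφm hB,
        Measure.restrict_apply' hWm, ← measureReal_def]
    have hae := ae_of_ae_map hφm (compl_small μ hA'm)
    rw [ae_restrict_iff' hWm] at hae
    refine ⟨V, hVo, ⟨mem_chart_source E4 p, mem_ball_self hρ⟩, ?_⟩
    filter_upwards [hae] with x hx hxV hxA
    have hxW := hVW hxV
    have h1 := hx hxW ((hmem x hxW).2 hxA) (G * (2 * C) ^ 2) ?_
    swap
    · intro r hr
      rw [hμB _ measurableSet_closedBall]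
      have hsub : φ ⁻¹' closedBall (φ x) r ∩ Wc ⊆ ball x (2 * C * r) := by
        rintro z ⟨hz1, hz2⟩
        have h2 := (hbl (φ z) hz2.2 (φ x) hxW.2).2
        rw [φ.left_inv hz2.1, φ.left_inv hxW.1] at h2
        have h3 : ‖φ z - φ x‖ ≤ r := by
          rw [← dist_eq_norm]; exact hz1
        rw [mem_ball]
        calc dist z x ≤ C * ‖φ z - φ x‖ := h2
          _ ≤ C * r := by gcongr
          _ < 2 * C * r := by nlinarith [mul_pos hC hr]
      calc s.real (φ ⁻¹' closedBall (φ x) r ∩ Wc) ≤ s.real (ball x (2 * C * r)) :=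
            measureReal_mono hsub
        _ ≤ G * (2 * C * r) ^ 2 := hG x _ (by positivity)
        _ = G * (2 * C) ^ 2 * r ^ 2 := by ring
    -- rescale
    have h4 : Tendsto (fun r : ℝ => r / c) (𝓝[>] 0) (𝓝[>] 0) := by
      refine tendsto_nhdsWithin_iff.2 ⟨?_, ?_⟩
      · have : Tendsto (fun r : ℝ => r / c) (𝓝 0) (𝓝 (0 / c)) := tendsto_id.div_const c
        rw [zero_div] at this
        exact this.mono_left nhdsWithin_le_nhds
      · filter_upwards [self_mem_nhdsWithin] with r hr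
        exact div_pos hr hc
    have h5 := (h1.comp h4).const_mul (1 / c ^ 2)
    rw [mul_zero] at h5
    refine squeeze_zero' (Eventually.of_forall fun r => by positivity) ?_ h5
    obtain ⟨δ, hδ, hδV⟩ := Metric.isOpen_iff.1 hVo x hxV
    have h6 : ∀ᶠ r : ℝ in 𝓝[>] 0, r < δ :=
      mem_nhdsWithin_of_mem_nhds (Iio_mem_nhds hδ)
    filter_upwards [self_mem_nhdsWithin, h6] with r hr hrδ
    have hr : 0 < r := hr
    have hsub : Aᶜ ∩ ball x r ⊆ φ ⁻¹' (A'ᶜ ∩ closedBall (φ x) (r / c)) ∩ Wc := by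
      rintro z ⟨hz1, hz2⟩
      have hzW : z ∈ Wc := hVW (hδV (ball_subset_ball hrδ.le hz2))
      refine ⟨⟨fun h => hz1 ((hmem z hzW).1 h), ?_⟩, hzW⟩
      have h2 := (hbl (φ z) hzW.2 (φ x) hxW.2).1
      rw [φ.left_inv hzW.1, φ.left_inv hxW.1] at h2
      have h3 : ‖φ z - φ x‖ ≤ r / c := by
        rw [le_div_iff₀ hc, mul_comm]
        exact h2.trans (le_of_lt hz2)
      rw [← dist_eq_norm] at h3
      exact h3
    have h7 : s.real (Aᶜ ∩ ball x r) ≤ μ.real (A'ᶜ ∩ closedBall (φ x) (r / c)) := by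
      rw [hμB _ (hA'm.compl.inter measurableSet_closedBall)]
      exact measureReal_mono hsub
    show s.real (Aᶜ ∩ ball x r) / r ^ 2 ≤
      1 / c ^ 2 * (μ.real (A'ᶜ ∩ closedBall (φ x) (r / c)) / (r / c) ^ 2)
    have h8 : 1 / c ^ 2 * (μ.real (A'ᶜ ∩ closedBall (φ x) (r / c)) / (r / c) ^ 2) =
        μ.real (A'ᶜ ∩ closedBall (φ x) (r / c)) / r ^ 2 := by
      field_simp
    rw [h8]
    gcongr
  choose V hVo hpV hV using hloc
  obtain ⟨t, ht⟩ := isCompact_univ.elim_finite_subcover V hVo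
    (fun x _ => mem_iUnion.2 ⟨x, hpV x⟩)
  have h1 : ∀ᵐ x ∂s, ∀ p ∈ t, x ∈ V p → x ∈ A →
      Tendsto (fun r : ℝ => s.real (Aᶜ ∩ ball x r) / r ^ 2) (𝓝[>] 0) (𝓝 0) :=
    (ae_ball_iff t.countable_toSet).2 fun p _ => hV p
  filter_upwards [h1] with x hx hxA
  obtain ⟨p, hp, hxp⟩ := mem_iUnion₂.1 (ht (mem_univ x))
  exact hx p hp hxp hxA

end

end Crest.Agent.R235.AtomsB_4
end

-- ▼ part R235/CurDens_4
section

/-!
Row 235 (S0364), helper4: GLOBAL DENSITY of a positive (1,1)-current on `M`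
(`Φ b = ∫ q(τ_x, b_x) ds`, `τ` a positive `J`-invariant two-form of trace one), and the
multiplication of a current by a bounded Borel function `h ≥ 0`.
-/

set_option autoImplicit false
set_option maxSynthPendingDepth 3
set_option linter.unusedSectionVars false

open Set Function Filter MeasureTheory Metric
open scoped Manifold ContDiff Topology ENNReal

namespace Crest.Agent.R235.CurDens_4

open Crest.Agent.R240 Crest.Agent.R240.Ch Crest.Agent.R240.Pol Crest.Agent.R240.En4
  Crest.Agent.R240.Vm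

noncomputable section

/-! ### pointwise algebra -/

theorem pos_add {J : E4 →L[ℝ] E4} {P Q : Bil} (hP : Pos J P) (hQ : Pos J Q) : Pos J (P + Q) where
  alt v := by
    show P v v + Q v v = 0
    rw [hP.alt v, hQ.alt v, add_zero]
  inv u v := by
    show P (J u) (J v) + Q (J u) (J v) = P u v + Q u v
    rw [hP.inv, hQ.inv]
  nonneg v := by
    show 0 ≤ P v (J v) + Q v (J v)
    exact add_nonneg (hP.nonneg v) (hQ.nonneg v)

theorem pos_zero {J : E4 →L[ℝ] E4} : Pos J 0 where
  alt _ := rfl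
  inv _ _ := rfl
  nonneg _ := le_rfl

theorem pos_sum {J : E4 →L[ℝ] E4} {ι : Type*} (t : Finset ι) (P : ι → Bil)
    (h : ∀ i ∈ t, Pos J (P i)) : Pos J (∑ i ∈ t, P i) := by
  classical
  induction t using Finset.induction_on with
  | empty => simpa using pos_zero
  | insert a t ha ih =>
    rw [Finset.sum_insert ha]
    exact pos_add (h a (Finset.mem_insert_self a t))
      (ih fun i hi => h i (Finset.mem_insert_of_mem hi))

theorem q_sum_left (F : Bil) {ι : Type*} (t : Finset ι) (P : ι → Bil) (b : Bil) :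
    q F (∑ i ∈ t, P i) b = ∑ i ∈ t, q F (P i) b := by
  classical
  induction t using Finset.induction_on with
  | empty => simpa using q_zero_left F b
  | insert a t ha ih => rw [Finset.sum_insert ha, Finset.sum_insert ha, q_add_left, ih]

/-- `|q(P,b)| ≤ 2 q(P,F) |b|` for `P ≥ 0`. -/
theorem abs_q_pos_le {J : E4 →L[ℝ] E4} (hJ : ∀ v, J (J v) = -v) {F : Bil} (hF : SPos J F)
    {P b : Bil} (hP : Pos J P) (hb : Alt b) : |q F P b| ≤ 2 * (q F P F * nr J F b) := by
  have h1 := (pos_iff hJ hF hP.alt hP.inv).1 hP.nonneg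
  have h2 : nsq J F P ≤ 2 * q F P F ^ 2 := by
    rw [nsq_inv hJ hF hP.inv]
    linarith [h1.2]
  have h3 := q_cs hJ hF hP.alt hb
  have h4 := nsq_nonneg hJ hF hb
  have h5 : q F P b ^ 2 ≤ (2 * (q F P F * nr J F b)) ^ 2 := by
    have h6 : (nr J F b) ^ 2 = nsq J F b := Real.sq_sqrt h4
    have h7 : (2 * (q F P F * nr J F b)) ^ 2 = 4 * q F P F ^ 2 * nsq J F b := by
      rw [← h6]; ring
    rw [h7]
    have h8 : nsq J F P * nsq J F b ≤ 2 * q F P F ^ 2 * nsq J F b :=
      mul_le_mul_of_nonneg_right h2 h4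
    have h9 : 0 ≤ q F P F ^ 2 * nsq J F b := by positivity
    linarith
  refine abs_le_of_sq_le_sq h5 ?_
  have := h1.1
  have : 0 ≤ nr J F b := Real.sqrt_nonneg _
  positivity

/-- lower bound: `b' ≥ k F` gives `q(P, b) ≥ k q(P,F)`. -/
theorem q_pos_pos {J : E4 →L[ℝ] E4} (hJ : ∀ v, J (J v) = -v) {F : Bil} (hF : SPos J F)
    {P Q : Bil} (hP : Pos J P) (hQ : Pos J Q) : 0 ≤ q F P Q := by
  obtain ⟨A, hA⟩ := exists_frame hJ hF
  rw [hA.q_eq hF.alt hP.alt hQ.alt]
  have h1 : ∀ {P : Bil}, Pos J P → Pos J0 (pull (A : E4 →L[ℝ] E4) P) := by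
    intro P hP
    refine ⟨hP.alt.pull _, hA.pull_inv hP.inv, fun v => ?_⟩
    have := hP.nonneg (A v)
    rw [hA.cplx] at this
    exact this
  obtain ⟨a1, a2, a3⟩ := pos0_ent (hP.alt.pull _) (hA.pull_inv hP.inv) (h1 hP).nonneg
  obtain ⟨b1, b2, b3⟩ := pos0_ent (hQ.alt.pull _) (hA.pull_inv hQ.inv) (h1 hQ).nonneg
  rw [W_inv0 (hA.pull_inv hP.inv) (hA.pull_inv hQ.inv)]
  generalize ent (pull (A : E4 →L[ℝ] E4) P) 0 1 = p at *
  generalize ent (pull (A : E4 →L[ℝ] E4) P) 2 3 = q at *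
  generalize ent (pull (A : E4 →L[ℝ] E4) P) 0 2 = x at *
  generalize ent (pull (A : E4 →L[ℝ] E4) P) 0 3 = y at *
  generalize ent (pull (A : E4 →L[ℝ] E4) Q) 0 1 = r at *
  generalize ent (pull (A : E4 →L[ℝ] E4) Q) 2 3 = s at *
  generalize ent (pull (A : E4 →L[ℝ] E4) Q) 0 2 = z at *
  generalize ent (pull (A : E4 →L[ℝ] E4) Q) 0 3 = w at *
  have k1 : (x * z + y * w) ^ 2 ≤ (p * q) * (r * s) := by
    calc (x * z + y * w) ^ 2 ≤ (x ^ 2 + y ^ 2) * (z ^ 2 + w ^ 2) := by
          nlinarith [sq_nonneg (x * w - y * z)]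
      _ ≤ (p * q) * (r * s) := by
          apply mul_le_mul a3 b3 (by positivity) (by positivity)
  have k2 : (x * z + y * w) ^ 2 ≤ ((p * s + q * r) / 2) ^ 2 := by
    nlinarith [sq_nonneg (p * s - q * r)]
  have k3 : |x * z + y * w| ≤ (p * s + q * r) / 2 := by
    apply abs_le_of_sq_le_sq k2
    have := mul_nonneg a1 b2
    have := mul_nonneg a2 b1
    linarith
  have k4 := (abs_le.1 k3).2
  linarith

/-! ### partition of unity with nonnegative functions -/

section PU

variable (M : Type*) [TopologicalSpace M] [T2Space M] [CompactSpace M]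
  [ChartedSpace E4 M] [IsManifold 𝓘(ℝ, E4) ∞ M]

theorem exists_ballPU_nn : ∃ P : BallPU M, ∀ i x, 0 ≤ P.χ i x := by
  classical
  have h1 : ∀ x : M, ∃ R : ℝ, 0 < R ∧ closedBall (chartAt E4 x x) (3 * R) ⊆
      (chartAt E4 x).target := by
    intro x
    obtain ⟨ε, hε, h⟩ := Metric.isOpen_iff.1 (chartAt E4 x).open_target (chartAt E4 x x)
      (mem_chart_target E4 x)
    refine ⟨ε / 6, by positivity, ?_⟩
    refine (closedBall_subset_ball (by linarith)).trans h
  choose R hR hRs using h1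
  let U : M → Set M := fun x => (chartAt E4 x).symm '' ball (chartAt E4 x x) (R x)
  have hsub : ∀ x, ball (chartAt E4 x x) (R x) ⊆ (chartAt E4 x).target := fun x =>
    (ball_subset_closedBall.trans (closedBall_subset_closedBall (by linarith [hR x]))).trans
      (hRs x)
  have hU : ∀ x, IsOpen (U x) := fun x =>
    (chartAt E4 x).isOpen_image_symm_of_subset_target isOpen_ball (hsub x)
  have hxU : ∀ x, x ∈ U x := fun x =>
    ⟨chartAt E4 x x, mem_ball_self (hR x), (chartAt E4 x).left_inv (mem_chart_source E4 x)⟩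
  obtain ⟨f, hf⟩ := SmoothPartitionOfUnity.exists_isSubordinate 𝓘(ℝ, E4)
    (isClosed_univ (X := M)) U hU (fun x _ => mem_iUnion.2 ⟨x, hxU x⟩)
  have hfin : {i | (support (f i)).Nonempty}.Finite :=
    f.locallyFinite.finite_nonempty_of_compact
  have hts : ∀ i, tsupport (f i) ⊆ (chartAt E4 i).source := by
    intro i x hx
    obtain ⟨y, hy, rfl⟩ := hf i hx
    exact symm_mem (hsub i hy)
  refine ⟨⟨hfin.toFinset, fun x => chartAt E4 x x, R, fun i => chartAt E4 i '' tsupport (f i),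
    fun i => f i, hR, hRs, ?_, ?_, ?_, ?_, ?_⟩, fun i x => f.nonneg i x⟩
  · intro i
    exact ((isClosed_tsupport (f i)).isCompact).image_of_continuousOn
      ((chartAt E4 i).continuousOn.mono (hts i))
  · rintro i _ ⟨x, hx, rfl⟩
    obtain ⟨y, hy, rfl⟩ := hf i hx
    rwa [(chartAt E4 i).right_inv (hsub i hy)]
  · intro i
    exact (smoothF_iff _).1 (f i).contMDiff
  · intro i x hx
    by_contra hne
    apply hx
    have hxt : x ∈ tsupport (f i) := subset_tsupport _ hne
    exact ⟨chartAt E4 i x, ⟨x, hxt, rfl⟩, (chartAt E4 i).left_inv (hts i hxt)⟩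
  · intro x
    have h2 := f.sum_eq_one (mem_univ x)
    rw [finsum_eq_sum_of_support_subset] at h2
    · exact h2
    · intro p hp
      rw [Set.Finite.coe_toFinset]
      exact ⟨x, hp⟩

end PU

/-! ### the density -/

section Main

variable {M : Type*} [MetricSpace M] [CompactSpace M] [ChartedSpace E4 M]
    [IsManifold 𝓘(ℝ, E4) ∞ M] [MeasurableSpace M] [BorelSpace M]

/-- `τ` is the (global) density of the positive (1,1)-current `Φ` with trace measure `s`. -/
structure Den (D : Dat M) (Φ : X2 M →ₗ[ℝ] ℝ) (s : Measure M) (τ : F2 E4 M) : Prop where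
  pos : PosG D.J τ
  tr : ∀ x, qG D.F τ D.F x = 1
  meas : ∀ b : X2 M, AEStronglyMeasurable (qG D.F τ (b : F2 E4 M)) s
  rep : ∀ b : X2 M, Φ b = ∫ x, qG D.F τ (b : F2 E4 M) x ∂s

theorem Den.abs_le {D : Dat M} {Φ : X2 M →ₗ[ℝ] ℝ} {s : Measure M} {τ : F2 E4 M}
    (h : Den D Φ s τ) (b : X2 M) (x : M) :
    |qG D.F τ (b : F2 E4 M) x| ≤ 2 * D.nr (b : F2 E4 M) x := by
  have h1 := abs_q_pos_le (D.sq x) (ChDens.spos D x) (h.pos x) (b.2.1 x)
  have h2 := h.tr x
  unfold qG at h2
  rw [h2, one_mul] at h1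
  exact h1


theorem qG_mulX (D : Dat M) (τ : F2 E4 M) (f : SF M) (b : X2 M) (x : M) :
    qG D.F τ ((mulX M f b : X2 M) : F2 E4 M) x = f x * qG D.F τ (b : F2 E4 M) x :=
  q_smul_right _ _ _ _

theorem mulX_sum (P : BallPU M) (χ : M → SF M) (hχ : ∀ i x, χ i x = P.χ i x) (b : X2 M) :
    b = ∑ i ∈ P.t, mulX M (χ i) b := by
  apply Subtype.ext
  rw [Submodule.coe_sum]
  funext x
  rw [Finset.sum_apply]
  have : ∀ i ∈ P.t, ((mulX M (χ i) b : X2 M) : F2 E4 M) x = P.χ i x • (b : F2 E4 M) x := by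
    intro i _
    rw [← hχ i x]
    rfl
  rw [Finset.sum_congr rfl this, ← Finset.sum_smul, P.sum_one, one_smul]

/-- **existence of the global density.** -/
theorem exists_den (D : Dat M) {Φ : X2 M →ₗ[ℝ] ℝ} {s : Measure M} (hinv : D.IsInv Φ)
    (hnn : D.IsNonneg Φ) (hRM : D.IsRM Φ s) : ∃ τ : F2 E4 M, Den D Φ s τ := by
  classical
  have hfin := hRM.fin
  obtain ⟨P, hPnn⟩ := exists_ballPU_nn M
  have hCD : ∀ i : M, _ := fun i => ChDens.chartDens D Φ s hinv hnn hRM i (P.x0 i) (P.R i)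
    (P.R_pos i) (P.sub i)
  choose φ hφm hφp hφn hφb hform using hCD
  have h2sub : ∀ i, closedBall (P.x0 i) (2 * P.R i) ⊆ (chartAt E4 i).target := fun i =>
    (closedBall_subset_closedBall (by linarith [P.R_pos i])).trans (P.sub i)
  have hK2 : ∀ i, P.K i ⊆ closedBall (P.x0 i) (2 * P.R i) := fun i =>
    (P.K_sub i).trans (ball_subset_closedBall.trans
      (closedBall_subset_closedBall (by linarith [P.R_pos i])))
  have hKt : ∀ i, P.K i ⊆ (chartAt E4 i).target := fun i => (hK2 i).trans (h2sub i)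
  set β : M → E4 → Bil := fun i y =>
    if y ∈ P.K i then P.χ i ((chartAt E4 i).symm y) • φ i y else 0 with hβ
  have hβpos : ∀ i, PosG D.J (ext2 i (β i)) := by
    intro i
    refine DensM.pos_ext2 fun y hy => ?_
    simp only [hβ]
    split_ifs with h
    · exact Pos.smul (hφp i y (hK2 i h)) (hPnn i _)
    · exact pos_zero
  -- the key computation
  have hkey : ∀ (i : M) (b : F2 E4 M), (∀ x, Alt (at2 b x)) → ∀ x,
      qG D.F (ext2 i (β i)) b x = (core i (closedBall (P.x0 i) (2 * P.R i))).indicator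
        (fun x => P.χ i x * q (rep i D.F (chartAt E4 i x)) (φ i (chartAt E4 i x))
          (rep i b (chartAt E4 i x))) x := by
    intro i b hb x
    by_cases hx : x ∈ (chartAt E4 i).source
    · rw [Int.qG_chart' (ChDens.vol D) (fun x => (hβpos i x).alt) hb hx,
        DensM.rep_ext2_self ((chartAt E4 i).map_source hx)]
      simp only [hβ]
      rw [(chartAt E4 i).left_inv hx]
      by_cases hxK : chartAt E4 i x ∈ P.K i
      · rw [if_pos hxK, indicator_of_mem ((Pol.mem_core_iff (h2sub i) hx).2 (hK2 i hxK)),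
          q_smul_left]
      · rw [if_neg hxK, q_zero_left]
        have h0 : P.χ i x = 0 := by
          apply P.off i x
          intro h
          exact hxK ((Pol.mem_core_iff (hKt i) hx).1 h)
        by_cases hxc : x ∈ core i (closedBall (P.x0 i) (2 * P.R i))
        · rw [indicator_of_mem hxc, h0, zero_mul]
        · rw [indicator_of_notMem hxc]
    · rw [indicator_of_notMem (fun h => hx (core_sub (h2sub i) h))]
      unfold qG
      rw [DensM.at2_ext2_notMem hx, q_zero_left]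
  set τ : F2 E4 M := ∑ i ∈ P.t, ext2 i (β i) with hτ
  have hτx : ∀ x, at2 τ x = ∑ i ∈ P.t, at2 (ext2 i (β i)) x := by
    intro x
    show τ x = _
    rw [hτ, Finset.sum_apply]
    rfl
  have hτq : ∀ (b : F2 E4 M) (x : M), qG D.F τ b x = ∑ i ∈ P.t, qG D.F (ext2 i (β i)) b x := by
    intro b x
    unfold qG
    rw [hτx, q_sum_left]
  -- measurability of the pieces
  have hmeas : ∀ (i : M) (b : X2 M),
      AEStronglyMeasurable (qG D.F (ext2 i (β i)) (b : F2 E4 M)) s := by
    intro i b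
    have h1 : qG D.F (ext2 i (β i)) (b : F2 E4 M) =
        (core i (closedBall (P.x0 i) (2 * P.R i))).indicator
        (fun x => P.χ i x * q (rep i D.F (chartAt E4 i x)) (φ i (chartAt E4 i x))
          (rep i (b : F2 E4 M) (chartAt E4 i x))) := funext fun x => hkey i b b.2.1 x
    have hAm := core_meas (isCompact_closedBall (P.x0 i) (2 * P.R i)) (h2sub i)
    rw [h1, aestronglyMeasurable_indicator_iff hAm]
    have hχc : Continuous (P.χ i) := by
      have := (smoothF_iff (P.χ i)).2 (P.smooth i)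
      exact this.continuous
    refine hχc.aestronglyMeasurable.mul ?_
    -- a global measurable version of the representation of `b`
    obtain ⟨r, hr, hr1, hr2, hr3⟩ := exists_retr (P.x0 i) (P.R_pos i)
    have hbr : Continuous fun y => rep i (b : F2 E4 M) (r y) := by
      rw [continuous_iff_continuousAt]
      intro y
      have hy : r y ∈ (chartAt E4 i).target := P.sub i (ball_subset_closedBall (hr2 y))
      have h2 : ContinuousAt (rep i (b : F2 E4 M)) (r y) :=
        ((b.2.2 i).continuousOn).continuousAt ((chartAt E4 i).open_target.mem_nhds hy)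
      exact h2.comp hr.continuous.continuousAt
    have h3 := aesm_integrand (ChDens.smF D) (P.R_pos i) (P.sub i) s (hφm i) hbr.measurable
    have h4 := h3.comp_aemeasurable (aemeas_chart (isCompact_closedBall _ _) (h2sub i) s)
    refine h4.congr ?_
    rw [EventuallyEq, ae_restrict_iff' hAm]
    refine Eventually.of_forall fun x hx => ?_
    have hy := chart_core_mem (h2sub i) hx
    simp only [comp_apply]
    rw [hr1 _ hy]
  have habs : ∀ (i : M) (b : X2 M) (x : M),
      |qG D.F (ext2 i (β i)) (b : F2 E4 M) x| ≤ 2 * (P.χ i x * D.nr (b : F2 E4 M) x) := by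
    intro i b x
    have h1 := abs_q_pos_le (D.sq x) (ChDens.spos D x) (hβpos i x) (b.2.1 x)
    have h2 : q (at2 D.F x) (at2 (ext2 i (β i)) x) (at2 D.F x) ≤ P.χ i x := by
      have h3 := hkey i D.F (fun x => (ChDens.spos D x).alt) x
      unfold qG at h3
      rw [h3]
      by_cases hxc : x ∈ core i (closedBall (P.x0 i) (2 * P.R i))
      · rw [indicator_of_mem hxc, hφn i _ (chart_core_mem (h2sub i) hxc), mul_one]
      · rw [indicator_of_notMem hxc]
        exact hPnn i x
    refine h1.trans ?_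
    have h4 : 0 ≤ D.nr (b : F2 E4 M) x := Real.sqrt_nonneg _
    have h5 : nr (atJ D.J x) (at2 D.F x) (at2 (b : F2 E4 M) x) = D.nr (b : F2 E4 M) x := rfl
    rw [h5]
    gcongr
  have hint : ∀ (i : M) (b : X2 M), Integrable (qG D.F (ext2 i (β i)) (b : F2 E4 M)) s := by
    intro i b
    have hχc : Continuous (P.χ i) := ((smoothF_iff (P.χ i)).2 (P.smooth i)).continuous
    have hc : Continuous fun x => 2 * (P.χ i x * D.nr (b : F2 E4 M) x) :=
      continuous_const.mul (hχc.mul (En4.cont_nr D b.2))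
    refine Integrable.mono' (hc.integrable_of_hasCompactSupport
      (HasCompactSupport.of_compactSpace _)) (hmeas i b) ?_
    exact Eventually.of_forall fun x => habs i b x
  refine ⟨τ, ⟨?_, ?_, ?_, ?_⟩⟩
  · intro x
    rw [hτx]
    exact pos_sum _ _ fun i _ => hβpos i x
  · intro x
    rw [hτq]
    have h1 : ∀ i ∈ P.t, qG D.F (ext2 i (β i)) D.F x = P.χ i x := by
      intro i _
      rw [hkey i D.F (fun x => (ChDens.spos D x).alt) x]
      by_cases hxc : x ∈ core i (closedBall (P.x0 i) (2 * P.R i))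
      · rw [indicator_of_mem hxc, hφn i _ (chart_core_mem (h2sub i) hxc), mul_one]
      · rw [indicator_of_notMem hxc]
        symm
        apply P.off i x
        rintro ⟨y, hy, rfl⟩
        exact hxc ⟨y, hK2 i hy, rfl⟩
    rw [Finset.sum_congr rfl h1, P.sum_one]
  · intro b
    have h1 : qG D.F τ (b : F2 E4 M) =
        fun x => ∑ i ∈ P.t, qG D.F (ext2 i (β i)) (b : F2 E4 M) x := funext fun x => hτq _ x
    rw [h1]
    exact Finset.aestronglyMeasurable_fun_sum _ fun i _ => hmeas i b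
  · intro b
    let χ : M → SF M := fun i => ⟨P.χ i, (smoothF_iff _).2 (P.smooth i)⟩
    have h1 : ∀ i ∈ P.t, Φ (mulX M (χ i) b) =
        ∫ x, qG D.F (ext2 i (β i)) (b : F2 E4 M) x ∂s := by
      intro i _
      rw [hform i _ (by
        intro x hx
        rw [at2_mulX]
        have h3 : χ i x = 0 := by
          apply P.off i x
          rintro ⟨y, hy, rfl⟩
          exact hx ⟨y, hK2 i hy, rfl⟩
        rw [h3]
        exact bzero_smul _),
        ← integral_indicator (core_meas (isCompact_closedBall _ _) (h2sub i))]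
      congr 1
      funext x
      rw [hkey i _ b.2.1 x]
      by_cases hxc : x ∈ core i (closedBall (P.x0 i) (2 * P.R i))
      · rw [indicator_of_mem hxc, indicator_of_mem hxc, mulX_coe, Vm.rep_fmul,
          (chartAt E4 i).left_inv (core_sub (h2sub i) hxc), q_smul_right]
        rfl
      · rw [indicator_of_notMem hxc, indicator_of_notMem hxc]
    conv_lhs => rw [mulX_sum P χ (fun i x => rfl) b]
    rw [map_sum, Finset.sum_congr rfl h1, ← integral_finsetSum _ fun i _ => hint i b]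
    congr 1
    funext x
    rw [hτq]

end Main

end

end Crest.Agent.R235.CurDens_4
end

-- ▼ part R235/CurMul_4
section

/-!
Row 235 (S0364), helper4: currents given by a density, `Φ b = ∫ q(τ_x, b_x) ds`: the calculus of
multiplication of a positive (1,1)-current by bounded Borel functions / restriction to Borel sets.
-/

set_option autoImplicit false
set_option maxSynthPendingDepth 3
set_option linter.unusedSectionVars false

open Set Function Filter MeasureTheory Metric
open scoped Manifold ContDiff Topology ENNReal NNReal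

namespace Crest.Agent.R235.CurDens_4

open Crest.Agent.R240 Crest.Agent.R240.Ch Crest.Agent.R240.Pol Crest.Agent.R240.En4
  Crest.Agent.R240.Vm Crest.Agent.R235.T1_195

noncomputable section

variable {M : Type*} [MetricSpace M] [CompactSpace M] [ChartedSpace E4 M]
    [IsManifold 𝓘(ℝ, E4) ∞ M] [MeasurableSpace M] [BorelSpace M]

/-- `τ` is a density field: positive, of trace one, measurable for `s`. -/
structure Dn (D : Dat M) (s : Measure M) (τ : F2 E4 M) : Prop where
  pos : PosG D.J τ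
  tr : ∀ x, qG D.F τ D.F x = 1
  meas : ∀ b : X2 M, AEStronglyMeasurable (qG D.F τ (b : F2 E4 M)) s

variable {D : Dat M} {s s' : Measure M} {τ : F2 E4 M}

theorem Den.dn {Φ : X2 M →ₗ[ℝ] ℝ} (h : Den D Φ s τ) : Dn D s τ := ⟨h.pos, h.tr, h.meas⟩

theorem Dn.ac (h : Dn D s τ) (hs : s' ≪ s) : Dn D s' τ :=
  ⟨h.pos, h.tr, fun b => (h.meas b).mono_ac hs⟩

theorem Dn.restrict (h : Dn D s τ) (A : Set M) : Dn D (s.restrict A) τ :=
  ⟨h.pos, h.tr, fun b => (h.meas b).restrict⟩

theorem Dn.smul (h : Dn D s τ) (c : ℝ≥0∞) : Dn D (c • s) τ :=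
  h.ac (Measure.smul_absolutelyContinuous)


theorem Dn.abs_le (h : Dn D s τ) (b : X2 M) (x : M) :
    |qG D.F τ (b : F2 E4 M) x| ≤ 2 * D.nr (b : F2 E4 M) x := by
  have h1 := abs_q_pos_le (D.sq x) (ChDens.spos D x) (h.pos x) (b.2.1 x)
  have h2 := h.tr x
  unfold qG at h2
  rw [h2, one_mul] at h1
  exact h1

theorem exists_nr_bd (D : Dat M) (b : X2 M) : ∃ C : ℝ, 0 ≤ C ∧ ∀ x, D.nr (b : F2 E4 M) x ≤ C := by
  obtain ⟨C, hC⟩ := (isCompact_univ.image (En4.cont_nr D b.2)).isBounded.bddAbove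
  exact ⟨max C 0, le_max_right _ _, fun x => (hC ⟨x, mem_univ _, rfl⟩).trans (le_max_left _ _)⟩

theorem Dn.integrable (h : Dn D s τ) [IsFiniteMeasure s] (b : X2 M) :
    Integrable (qG D.F τ (b : F2 E4 M)) s := by
  obtain ⟨C, hC0, hC⟩ := exists_nr_bd D b
  refine Integrable.mono' (integrable_const (2 * C)) (h.meas b) ?_
  refine Eventually.of_forall fun x => (h.abs_le b x).trans ?_
  have := hC x
  linarith

/-- the current with density `τ` and trace measure `s`. -/
def Dn.cur (h : Dn D s τ) [IsFiniteMeasure s] : X2 M →ₗ[ℝ] ℝ where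
  toFun b := ∫ x, qG D.F τ (b : F2 E4 M) x ∂s
  map_add' b c := by
    rw [← integral_add (h.integrable b) (h.integrable c)]
    congr 1
    funext x
    exact q_add_right _ _ _ _
  map_smul' r b := by
    rw [RingHom.id_apply, smul_eq_mul, ← integral_const_mul]
    congr 1
    funext x
    exact q_smul_right _ _ _ _

theorem Dn.cur_apply (h : Dn D s τ) [IsFiniteMeasure s] (b : X2 M) :
    h.cur b = ∫ x, qG D.F τ (b : F2 E4 M) x ∂s := rfl

theorem Dn.den (h : Dn D s τ) [IsFiniteMeasure s] : Den D h.cur s τ :=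
  ⟨h.pos, h.tr, h.meas, fun _ => rfl⟩


theorem Dn.q_pi (h : Dn D s τ) (b : X2 M) (x : M) :
    qG D.F τ ((D.pi' b : X2 M) : F2 E4 M) x = qG D.F τ (b : F2 E4 M) x := by
  have h1 := q_split (D.sq x) (ChDens.spos D x) (h.pos x).alt (b.2.1 x)
  have h2 : antip (atJ D.J x) (at2 τ x) = 0 := antip_of_inv (h.pos x).inv
  have h3 : invp (atJ D.J x) (at2 τ x) = at2 τ x := invp_of_inv (h.pos x).inv
  rw [h2, h3, q_zero_left, add_zero] at h1
  exact h1.symm

theorem Dn.inv (h : Dn D s τ) [IsFiniteMeasure s] : D.IsInv h.cur := by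
  intro b
  rw [h.cur_apply, h.cur_apply]
  congr 1
  funext x
  exact (h.q_pi b x).symm

theorem Dn.nonneg (h : Dn D s τ) [IsFiniteMeasure s] : D.IsNonneg h.cur := by
  intro P hP
  rw [h.cur_apply]
  refine integral_nonneg fun x => ?_
  exact q_pos_pos (D.sq x) (ChDens.spos D x) (h.pos x) (hP x)

theorem Dn.ge (h : Dn D s τ) {b : F2 E4 M} {x : M} (hb : Alt (at2 b x)) {k : ℝ}
    (hk : ∀ v, k * at2 D.F x v (atJ D.J x v) ≤ at2 b x v (atJ D.J x v)) :
    k ≤ q (at2 D.F x) (at2 τ x) (invp (atJ D.J x) (at2 b x)) := by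
  have hF := ChDens.spos D x
  have hpos : Pos (atJ D.J x) (invp (atJ D.J x) (at2 b x) + (-k) • at2 D.F x) := by
    have e : ∀ u v, (invp (atJ D.J x) (at2 b x) + (-k) • at2 D.F x) u v =
      invp (atJ D.J x) (at2 b x) u v + (-k) * at2 D.F x u v := fun _ _ => rfl
    refine ⟨fun v => ?_, fun u v => ?_, fun v => ?_⟩
    · rw [e, hb.invp _ v, hF.alt v]; ring
    · rw [e, e, invp_inv (D.sq x), hF.inv]
    · rw [e, invp_diag (D.sq x) hb v]
      linarith [hk v]
  have h1 := q_pos_pos (D.sq x) hF (h.pos x) hpos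
  rw [q_add_right, q_smul_right] at h1
  have h2 : q (at2 D.F x) (at2 τ x) (at2 D.F x) = 1 := h.tr x
  rw [h2] at h1
  linarith

theorem Dn.rm (h : Dn D s τ) [hfin : IsFiniteMeasure s] : D.IsRM h.cur s where
  fin := hfin
  trace f hf b hb := by
    rw [h.cur_apply]
    congr 1
    funext x
    have h1 : at2 (b : F2 E4 M) x = f x • at2 D.F x := by rw [hb]; rfl
    unfold qG
    rw [h1, q_smul_right]
    have h2 : q (at2 D.F x) (at2 τ x) (at2 D.F x) = 1 := h.tr x
    rw [h2, mul_one]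
  bound b := by
    rw [h.cur_apply]
    have h1 : ∀ x, |qG D.F τ ((D.pi' b : X2 M) : F2 E4 M) x| ≤ 2 * D.nr (b : F2 E4 M) x := by
      intro x
      rw [h.q_pi b x]
      exact h.abs_le b x
    have hc : Integrable (fun x => 2 * D.nr (b : F2 E4 M) x) s :=
      (continuous_const.mul (En4.cont_nr D b.2)).integrable_of_hasCompactSupport
        (HasCompactSupport.of_compactSpace _)
    rw [← integral_const_mul]
    exact (abs_integral_le_integral_abs).trans
      (integral_mono (h.integrable _).abs hc h1)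
  lower b k hk hge := by
    rw [h.cur_apply]
    refine integral_mono (hk.integrable_of_hasCompactSupport
      (HasCompactSupport.of_compactSpace _)) (h.integrable _) fun x => ?_
    exact h.ge (b.2.1 x) (hge x)

/-- a density current which kills the exact forms is a `Cur`. -/
theorem Dn.toCur (h : Dn D s τ) [IsFiniteMeasure s] (hcl : Dat.KillsExact h.cur) :
    Cur D h.cur s := ⟨h.inv, h.nonneg, hcl, h.rm⟩

theorem cur_exists_den {Φ : X2 M →ₗ[ℝ] ℝ} (h : Cur D Φ s) : ∃ τ, Den D Φ s τ :=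
  exists_den D h.inv h.nonneg h.rm

/-! ### restriction to a Borel set -/



end

end Crest.Agent.R235.CurDens_4
end

-- ▼ part R235/AtomsC_4
section

/-!
Row 235 (S0364), helper4: block ATOMS of the Siu decomposition (#1747 (7)): from
"`1_A(ν) S` is closed for every Borel `A`" to the decomposition `S = Σ c_i C_i + S''`.
-/

set_option autoImplicit false
set_option maxSynthPendingDepth 3
set_option linter.unusedSectionVars false

open Set Function Filter MeasureTheory Metric
open scoped Manifold ContDiff Topology ENNReal NNReal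

namespace Crest.Agent.R235.AtomsC_4

open Crest.Agent.R240 Crest.Agent.R240.Ch Crest.Agent.R240.En4
  Crest.Agent.R235.T1_195 Crest.Agent.R235.CurDens_4

noncomputable section

/-! ### kernels of size `r⁻²` -/

section Ker

variable {M : Type*} [MetricSpace M] [MeasurableSpace M]

/-- `f r y ≈ r⁻² 1_{d(x,y) ≲ r}` for small `r` (the constants may depend on `x`). -/
structure KerAt (f : ℝ → M → ℝ) (x : M) (K c r0 : ℝ) : Prop where
  K0 : 0 < K
  c0 : 0 < c
  r00 : 0 < r0
  upper : ∀ r y, 0 < r → r ≤ r0 → f r y ≤ K / r ^ 2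
  supp : ∀ r y, 0 < r → r ≤ r0 → c * r ≤ dist x y → f r y = 0
  lower : ∀ r y, 0 < r → r ≤ r0 → c * dist x y ≤ r → 1 / (K * r ^ 2) ≤ f r y

/-- a kernel of size `r⁻²`. -/
structure IsKer (k : ℝ → M → M → ℝ) : Prop where
  meas : ∀ r x, Measurable (k r x)
  nonneg : ∀ r x y, 0 ≤ k r x y
  at' : ∀ x, ∃ K c r0 : ℝ, KerAt (fun r => k r x) x K c r0

/-- the density at scale `r`. -/
def nuR (k : ℝ → M → M → ℝ) (s : Measure M) (r : ℝ) (x : M) : ℝ := ∫ y, k r x y ∂s

/-- `ν` is the density of `s` (limit of the densities at scale `r`). -/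
def IsNu (k : ℝ → M → M → ℝ) (s : Measure M) (ν : M → ℝ) : Prop :=
  ∀ x, Tendsto (fun r => nuR k s r x) (𝓝[>] 0) (𝓝 (ν x))

variable {k : ℝ → M → M → ℝ}

theorem IsKer.integrable (hk : IsKer k) (s : Measure M) [IsFiniteMeasure s] {x : M} {K c r0 : ℝ}
    (hx : KerAt (fun r => k r x) x K c r0) {r : ℝ}
    (hr : 0 < r) (hr0 : r ≤ r0) : Integrable (k r x) s := by
  refine Integrable.mono' (integrable_const (K / r ^ 2)) (hk.meas r x).aestronglyMeasurable ?_
  refine Eventually.of_forall fun y => ?_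
  rw [Real.norm_of_nonneg (hk.nonneg r x y)]
  exact hx.upper r y hr hr0


theorem nuR_nonneg (hk : IsKer k) (s : Measure M) (r : ℝ) (x : M) : 0 ≤ nuR k s r x :=
  integral_nonneg fun y => hk.nonneg r x y

theorem IsNu.nonneg (hk : IsKer k) {s : Measure M} {ν : M → ℝ} (h : IsNu k s ν) (x : M) :
    0 ≤ ν x := ge_of_tendsto (h x) (Eventually.of_forall fun r => nuR_nonneg hk s r x)

theorem ev_le {r0 : ℝ} (hr0 : 0 < r0) : ∀ᶠ r : ℝ in 𝓝[>] 0, 0 < r ∧ r ≤ r0 := by
  filter_upwards [self_mem_nhdsWithin, mem_nhdsWithin_of_mem_nhds (Iic_mem_nhds hr0)] with r h1 h2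
    using ⟨h1, h2⟩

theorem tendsto_scale {c : ℝ} (hc : 0 < c) :
    Tendsto (fun r : ℝ => c * r) (𝓝[>] 0) (𝓝[>] 0) := by
  refine tendsto_nhdsWithin_iff.2 ⟨?_, ?_⟩
  · have : Tendsto (fun r : ℝ => c * r) (𝓝 0) (𝓝 (c * 0)) := tendsto_id.const_mul c
    rw [mul_zero] at this
    exact this.mono_left nhdsWithin_le_nhds
  · filter_upwards [self_mem_nhdsWithin] with r hr
    exact mul_pos hc hr

/-- the density of a multiple. -/
theorem IsNu.smul {s : Measure M} {ν : M → ℝ} (h : IsNu k s ν) (a : ℝ≥0∞) :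
    IsNu k (a • s) (fun x => a.toReal * ν x) := by
  intro x
  have h1 : (fun r => nuR k (a • s) r x) = fun r => a.toReal * nuR k s r x := by
    funext r
    unfold nuR
    rw [integral_smul_measure, smul_eq_mul]
  rw [h1]
  exact (h x).const_mul _

end Ker

section Main

variable {M : Type*} [MetricSpace M] [CompactSpace M] [ChartedSpace E4 M]
    [IsManifold 𝓘(ℝ, E4) ∞ M] [MeasurableSpace M] [BorelSpace M]

variable {k : ℝ → M → M → ℝ}

/-- the part of the density at `x ∈ A` coming from the complement of `A` is negligible. -/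
theorem tendsto_compl (hk : IsKer k) (hb : Met.BiLip E4 M) {s : Measure M}
    [IsFiniteMeasure s] (hs : Dat.Growth2 s) {A : Set M} (hA : MeasurableSet A) :
    ∀ᵐ x ∂s, x ∈ A → Tendsto (fun r => nuR k s r x - nuR k (s.restrict A) r x) (𝓝[>] 0) (𝓝 0) := by
  filter_upwards [AtomsB_4.dens_compl hb hs hA] with x hx hxA
  obtain ⟨K, c, r0, hkx⟩ := hk.at' x
  have h1 := hx hxA
  have h5 := (h1.comp (tendsto_scale hkx.c0)).const_mul (K * c ^ 2)
  rw [mul_zero] at h5
  have h6 : ∀ᶠ r : ℝ in 𝓝[>] 0, nuR k s r x - nuR k (s.restrict A) r x =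
      ∫ y in Aᶜ, k r x y ∂s := by
    filter_upwards [ev_le hkx.r00] with r hr
    unfold nuR
    have := integral_add_compl hA (hk.integrable s hkx hr.1 hr.2)
    linarith
  refine Tendsto.congr' (h6.mono fun r hr => hr.symm) ?_
  refine squeeze_zero' (Eventually.of_forall fun r => integral_nonneg fun y => hk.nonneg r x y)
    ?_ h5
  filter_upwards [ev_le hkx.r00] with r hr
  have hr1 := hr.1
  have h7 : ∫ y in Aᶜ, k r x y ∂s ≤ ∫ y in Aᶜ, (ball x (c * r)).indicator (fun _ => K / r ^ 2) y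
      ∂s := by
    refine integral_mono (hk.integrable _ hkx hr.1 hr.2)
      ((integrable_const _).indicator measurableSet_ball) fun y => ?_
    by_cases hy : y ∈ ball x (c * r)
    · rw [indicator_of_mem hy]
      exact hkx.upper r y hr.1 hr.2
    · rw [indicator_of_notMem hy]
      rw [mem_ball, not_lt, dist_comm] at hy
      exact (hkx.supp r y hr.1 hr.2 hy).le
  refine h7.trans (le_of_eq ?_)
  rw [integral_indicator measurableSet_ball, setIntegral_const, smul_eq_mul,
    measureReal_restrict_apply measurableSet_ball, inter_comm]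
  show _ = K * c ^ 2 * (s.real (Aᶜ ∩ ball x (c * r)) / (c * r) ^ 2)
  have := hkx.c0
  field_simp

/-- the density of the restriction. -/
theorem nu_restrict (hk : IsKer k) (hb : Met.BiLip E4 M) {s : Measure M}
    [IsFiniteMeasure s] (hs : Dat.Growth2 s) {A : Set M} (hA : MeasurableSet A) {ν ν' : M → ℝ}
    (hν : IsNu k s ν) (hν' : IsNu k (s.restrict A) ν') : ∀ᵐ x ∂s, x ∈ A → ν' x = ν x := by
  filter_upwards [tendsto_compl hk hb hs hA] with x hx hxA
  have h1 := hx hxA
  have h2 := (hν x).sub (hν' x)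
  have h3 := tendsto_nhds_unique h1 h2
  linarith

/-- the density of a ball of radius `r` is bounded by the kernel density. -/
theorem ball_le (hk : IsKer k) (s : Measure M) [IsFiniteMeasure s] {x : M} {K c r0 : ℝ}
    (hkx : KerAt (fun r => k r x) x K c r0) {r : ℝ} (hr : 0 < r) (hr0 : c * r ≤ r0) :
    s.real (ball x r) / r ^ 2 ≤ K * c ^ 2 * nuR k s (c * r) x := by
  have hc := hkx.c0
  have hK := hkx.K0
  have h7 : s.real (ball x r) * (1 / (K * (c * r) ^ 2)) ≤ nuR k s (c * r) x := by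
    have h8 : ∫ y, (ball x r).indicator (fun _ => 1 / (K * (c * r) ^ 2)) y ∂s ≤
        ∫ y, k (c * r) x y ∂s := by
      refine integral_mono ((integrable_const _).indicator measurableSet_ball)
        (hk.integrable s hkx (mul_pos hc hr) hr0) fun y => ?_
      by_cases hy : y ∈ ball x r
      · rw [indicator_of_mem hy]
        refine hkx.lower _ y (mul_pos hc hr) hr0 ?_
        rw [mem_ball, dist_comm] at hy
        gcongr
      · rw [indicator_of_notMem hy]
        exact hk.nonneg _ _ _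
    rw [integral_indicator measurableSet_ball, setIntegral_const, smul_eq_mul] at h8
    exact h8
  have h9 : s.real (ball x r) / r ^ 2 =
      K * c ^ 2 * (s.real (ball x r) * (1 / (K * (c * r) ^ 2))) := by
    field_simp
  rw [h9]
  gcongr

/-- a point of density zero. -/
theorem tendsto_ball_of_zero (hk : IsKer k) {s : Measure M} [IsFiniteMeasure s]
    {ν : M → ℝ} (hν : IsNu k s ν) {x : M} (hx : ν x = 0) :
    Tendsto (fun r : ℝ => s.real (ball x r) / r ^ 2) (𝓝[>] 0) (𝓝 0) := by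
  obtain ⟨K, c, r0, hkx⟩ := hk.at' x
  have h1 := hν x
  rw [hx] at h1
  have h5 := (h1.comp (tendsto_scale hkx.c0)).const_mul (K * c ^ 2)
  rw [mul_zero] at h5
  refine squeeze_zero' (Eventually.of_forall fun r => by positivity) ?_ h5
  have h6 : ∀ᶠ r : ℝ in 𝓝[>] 0, 0 < c * r ∧ c * r ≤ r0 :=
    (tendsto_scale hkx.c0).eventually (ev_le hkx.r00)
  filter_upwards [self_mem_nhdsWithin, h6] with r hr hr'
  exact ball_le hk s hkx hr hr'.2

variable {D : Dat M}

/-- INPUT of the block, for ONE current (density field `τ`, trace measure `s`, density `ν`):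
for every Borel set `A ⊆ ℝ`, `1_A(ν) S` is closed and its density exists everywhere;
if it is `≥ a > 0` at one point, the mass is `≥ κ(a) > 0` (monotonicity). -/
structure Inp (k : ℝ → M → M → ℝ) {s : Measure M} {τ : F2 E4 M} (h : Dn D s τ)
    [IsFiniteMeasure s] (ν : M → ℝ) : Prop where
  ker : IsKer k
  closed : ∀ A : Set ℝ, MeasurableSet A → Dat.KillsExact (h.restrict (ν ⁻¹' A)).cur
  meas : Measurable ν
  nu : IsNu k s ν
  lim : ∀ A : Set ℝ, MeasurableSet A → ∃ ν' : M → ℝ, IsNu k (s.restrict (ν ⁻¹' A)) ν'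
  quant : ∀ a : ℝ, 0 < a → ∃ κ : ℝ, 0 < κ ∧ ∀ A : Set ℝ, MeasurableSet A → ∀ ν' : M → ℝ,
    IsNu k (s.restrict (ν ⁻¹' A)) ν' → ∀ x, a ≤ ν' x → κ ≤ s.real (ν ⁻¹' A)

/-- a closed positive current of density one almost everywhere. -/
structure One (D : Dat M) (k : ℝ → M → M → ℝ) (Φ : X2 M →ₗ[ℝ] ℝ) (s : Measure M) : Prop where
  cur : Cur D Φ s
  one : ∃ ν : M → ℝ, IsNu k s ν ∧ ∀ᵐ x ∂s, ν x = 1

section Inp

variable {s : Measure M} {τ : F2 E4 M} {h : Dn D s τ} [IsFiniteMeasure s] {ν : M → ℝ}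

theorem Inp.closed' (H : Inp k h ν) : Dat.KillsExact h.cur := by
  intro b hb
  have h1 := H.closed univ MeasurableSet.univ b hb
  rw [Dn.cur_apply] at h1
  rw [Dn.cur_apply]
  simpa using h1

/-- quantisation. -/
theorem Inp.quant' (H : Inp k h ν) {a : ℝ} (ha : 0 < a) : ∃ κ : ℝ≥0∞, 0 < κ ∧
    ∀ A : Set ℝ, MeasurableSet A → A ⊆ Ici a → s (ν ⁻¹' A) = 0 ∨ κ ≤ s (ν ⁻¹' A) := by
  obtain ⟨κ, hκ, hq⟩ := H.quant a ha
  refine ⟨ENNReal.ofReal κ, ENNReal.ofReal_pos.2 hκ, fun A hA hAa => ?_⟩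
  rcases eq_or_ne (s (ν ⁻¹' A)) 0 with h0 | h0
  · exact Or.inl h0
  · right
    have hB : MeasurableSet (ν ⁻¹' A) := H.meas hA
    obtain ⟨ν', hν'⟩ := H.lim A hA
    have hgr : Dat.Growth2 s := (h.toCur H.closed').growth
    have h1 := nu_restrict H.ker D.bl hgr hB H.nu hν'
    have h2 : ∃ᵐ x ∂s, x ∈ ν ⁻¹' A := by
      rw [Filter.Frequently, ae_iff]
      simp only [not_not]
      exact h0
    obtain ⟨x, hxA, hx⟩ := (h2.and_eventually h1).exists
    have h3 : a ≤ ν x := hAa hxA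
    rw [← hx hxA] at h3
    rw [← ENNReal.ofReal_toReal (measure_ne_top s (ν ⁻¹' A))]
    exact ENNReal.ofReal_le_ofReal (hq A hA ν' hν' x h3)

end Inp

/-- the component of multiplicity `t`: `C_t = t⁻¹ 1_{ν = t} S`, as a measure. -/
def cm (s : Measure M) (ν : M → ℝ) (t : ℝ) : Measure M :=
  (ENNReal.ofReal t⁻¹) • s.restrict (ν ⁻¹' {t})

instance (s : Measure M) [IsFiniteMeasure s] (ν : M → ℝ) (t : ℝ) : IsFiniteMeasure (cm s ν t) := by
  unfold cm
  exact Measure.smul_finite _ ENNReal.ofReal_ne_top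

theorem cm_dn {s : Measure M} {τ : F2 E4 M} (h : Dn D s τ) (ν : M → ℝ) (t : ℝ) :
    Dn D (cm s ν t) τ := (h.restrict _).smul _

theorem cm_cur {s : Measure M} [IsFiniteMeasure s] {τ : F2 E4 M} (h : Dn D s τ) (ν : M → ℝ)
    {t : ℝ} (ht : 0 < t) (b : X2 M) :
    (cm_dn h ν t).cur b = t⁻¹ * (h.restrict (ν ⁻¹' {t})).cur b := by
  rw [Dn.cur_apply, Dn.cur_apply]
  unfold cm
  rw [integral_smul_measure, smul_eq_mul, ENNReal.toReal_ofReal (by positivity)]

/-- the component of multiplicity `t` is closed, of density one. -/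
theorem one_cm {s : Measure M} {τ : F2 E4 M} {h : Dn D s τ}
    [IsFiniteMeasure s] {ν : M → ℝ} (H : Inp k h ν) {t : ℝ} (ht : 0 < t) :
    One D k (cm_dn h ν t).cur (cm s ν t) := by
  have hcl := H.closed'
  have hνm := H.meas
  have hν := H.nu
  have hB : MeasurableSet (ν ⁻¹' {t}) := hνm (measurableSet_singleton t)
  have hclB := H.closed {t} (measurableSet_singleton t)
  have hcurB : Cur D (h.restrict (ν ⁻¹' {t})).cur (s.restrict (ν ⁻¹' {t})) :=
    (h.restrict _).toCur hclB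
  have hscl : Dat.KillsExact (cm_dn h ν t).cur := by
    intro b hb
    rw [cm_cur h ν ht, hclB b hb, mul_zero]
  refine ⟨(cm_dn h ν t).toCur hscl, ?_⟩
  obtain ⟨ν', hν'⟩ := H.lim {t} (measurableSet_singleton t)
  refine ⟨_, hν'.smul (ENNReal.ofReal t⁻¹), ?_⟩
  have h1 := nu_restrict H.ker D.bl (h.toCur hcl).growth hB hν hν'
  have h2 : ∀ᵐ x ∂(s.restrict (ν ⁻¹' {t})), (ENNReal.ofReal t⁻¹).toReal * ν' x = 1 := by
    rw [ae_restrict_iff' hB]
    filter_upwards [h1] with x hx hxB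
    rw [hx hxB, ENNReal.toReal_ofReal (by positivity), show ν x = t from hxB]
    field_simp
  exact Measure.smul_absolutelyContinuous.ae_le h2

/-- **SIU DECOMPOSITION.**  `F` = the set of multiplicities (countable, locally finite in
`(0, ∞)`), `C_t` (`t ∈ F`) closed positive of density one, and for every `a > 0`
`S = Σ_{t ∈ F, t ≥ a} t C_t + 1_{ν < a} S`; `S = Σ_t t C_t + S''`, `S''` of density zero. -/
theorem siu {s : Measure M} {τ : F2 E4 M} {h : Dn D s τ}
    [IsFiniteMeasure s] {ν : M → ℝ} (H : Inp k h ν) :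
    ∃ F : Set ℝ, F.Countable ∧ (∀ t ∈ F, 0 < t ∧ s (ν ⁻¹' {t}) ≠ 0) ∧
      (∀ t ∈ F, One D k (cm_dn h ν t).cur (cm s ν t)) ∧
      (∀ a : ℝ, 0 < a → (F ∩ Ici a).Finite) ∧ (∀ᵐ x ∂s, 0 < ν x → ν x ∈ F) ∧
      (∀ a : ℝ, 0 < a → ∀ Fa : Finset ℝ, (Fa : Set ℝ) = F ∩ Ici a → ∀ b : X2 M,
        h.cur b = ∑ t ∈ Fa, t * (cm_dn h ν t).cur b + (h.restrict (ν ⁻¹' Iio a)).cur b) ∧
      (∀ b : X2 M, HasSum (fun t : F => (t : ℝ) * (cm_dn h ν t).cur b)
        (h.cur b - (h.restrict (ν ⁻¹' Iic 0)).cur b)) ∧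
      Cur D (h.restrict (ν ⁻¹' Iic 0)).cur (s.restrict (ν ⁻¹' Iic 0)) ∧
      Dat.ZeroDens (s.restrict (ν ⁻¹' Iic 0)) := by
  have hνm := H.meas
  have hν := H.nu
  obtain ⟨F, hFc, hF1, hF2, hF3⟩ := Atoms_4.exists_enum s hνm (fun a ha => H.quant' ha)
  have hone : ∀ t ∈ F, One D k (cm_dn h ν t).cur (cm s ν t) := fun t ht =>
    one_cm H (hF1 t ht).1
  have hcm : ∀ (b : X2 M) (t : ℝ), 0 < t → t * (cm_dn h ν t).cur b =
      ∫ x in ν ⁻¹' {t}, qG D.F τ (b : F2 E4 M) x ∂s := by
    intro b t ht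
    rw [cm_cur h ν ht, ← mul_assoc, mul_inv_cancel₀ ht.ne', one_mul]
    rfl
  refine ⟨F, hFc, hF1, hone, hF2, hF3, ?_, ?_, ?_, ?_⟩
  · intro a ha Fa hFa b
    have h1 : ∑ t ∈ Fa, t * (cm_dn h ν t).cur b =
        ∫ x in ⋃ t ∈ Fa, ν ⁻¹' {t}, qG D.F τ (b : F2 E4 M) x ∂s := by
      rw [integral_biUnion_finset Fa (fun t _ => hνm (measurableSet_singleton t))
        (fun t _ t' _ htt => Disjoint.preimage _ (by simpa using htt))
        (fun t _ => (h.integrable b).integrableOn)]
      refine Finset.sum_congr rfl fun t ht => hcm b t ?_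
      have : t ∈ (Fa : Set ℝ) := ht
      rw [hFa] at this
      exact (hF1 t this.1).1
    have h2 : (⋃ t ∈ Fa, ν ⁻¹' {t} : Set M) =ᵐ[s] ((ν ⁻¹' Iio a)ᶜ : Set M) := by
      refine eventuallyEq_set.2 ?_
      filter_upwards [hF3] with x hx
      simp only [mem_iUnion, mem_preimage, mem_singleton_iff, exists_prop, mem_compl_iff, mem_Iio,
        not_lt]
      constructor
      · rintro ⟨t, ht, rfl⟩
        have : ν x ∈ (Fa : Set ℝ) := ht
        rw [hFa] at this
        exact this.2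
      · intro hxa
        refine ⟨ν x, ?_, rfl⟩
        have : ν x ∈ (Fa : Set ℝ) := by
          rw [hFa]
          exact ⟨hx (ha.trans_le hxa), hxa⟩
        exact this
    rw [h1, setIntegral_congr_set h2, h.cur_apply, Dn.cur_apply, add_comm]
    exact (integral_add_compl (hνm measurableSet_Iio) (h.integrable b)).symm
  · intro b
    have : Countable F := hFc.to_subtype
    have h1 : HasSum (fun t : F => ∫ x in ν ⁻¹' {(t : ℝ)}, qG D.F τ (b : F2 E4 M) x ∂s)
        (∫ x in ⋃ t : F, ν ⁻¹' {(t : ℝ)}, qG D.F τ (b : F2 E4 M) x ∂s) := by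
      refine hasSum_integral_iUnion (fun t => hνm (measurableSet_singleton _)) ?_
        (h.integrable b).integrableOn
      intro t t' htt
      refine Disjoint.preimage _ ?_
      have : (t : ℝ) ≠ t' := fun h => htt (Subtype.ext h)
      simpa using this
    have h2 : (⋃ t : F, ν ⁻¹' {(t : ℝ)} : Set M) =ᵐ[s] ((ν ⁻¹' Iic 0)ᶜ : Set M) := by
      refine eventuallyEq_set.2 ?_
      filter_upwards [hF3] with x hx
      simp only [mem_iUnion, mem_preimage, mem_singleton_iff, mem_compl_iff, mem_Iic,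
        not_le]
      constructor
      · rintro ⟨t, ht⟩
        rw [ht]
        exact (hF1 t t.2).1
      · intro hx0
        exact ⟨⟨ν x, hx hx0⟩, rfl⟩
    have h3 : (∫ x in ⋃ t : F, ν ⁻¹' {(t : ℝ)}, qG D.F τ (b : F2 E4 M) x ∂s) =
        h.cur b - (h.restrict (ν ⁻¹' Iic 0)).cur b := by
      rw [setIntegral_congr_set h2, h.cur_apply, Dn.cur_apply]
      exact eq_sub_of_add_eq' (integral_add_compl (hνm measurableSet_Iic) (h.integrable b))
    have h4 : (fun t : F => (t : ℝ) * (cm_dn h ν t).cur b) =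
        fun t : F => ∫ x in ν ⁻¹' {(t : ℝ)}, qG D.F τ (b : F2 E4 M) x ∂s :=
      funext fun t => hcm b t (hF1 t t.2).1
    rw [← h3, h4]
    exact h1
  · exact (h.restrict _).toCur (H.closed _ measurableSet_Iic)
  · unfold Dat.ZeroDens
    rw [ae_restrict_iff' (hνm measurableSet_Iic)]
    refine Eventually.of_forall fun x hx => ?_
    have hx0 : ν x = 0 := le_antisymm hx (hν.nonneg H.ker x)
    refine squeeze_zero' (Eventually.of_forall fun r => by positivity)
      ?_ (tendsto_ball_of_zero H.ker hν hx0)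
    filter_upwards [self_mem_nhdsWithin] with r hr
    have hr : 0 < r := hr
    gcongr
    exact ENNReal.toReal_mono (measure_ne_top _ _) (Measure.restrict_apply_le _ _)

end Main

end

end Crest.Agent.R235.AtomsC_4
end

-- ▼ part R235/DenM_4
section

/-!
Row 235 (S0364), helper4: the density `s{y : g_x(Δ,Δ) < r²}/(π r²)` in the preferred chart at `x`
(frozen metric) is given by an `IsKer` kernel.
-/

set_option autoImplicit false
set_option maxSynthPendingDepth 3
set_option linter.unusedSectionVars false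

open Set Function Filter MeasureTheory Metric
open scoped Manifold ContDiff Topology ENNReal NNReal

namespace Crest.Agent.R235.DenM_4

open Crest.Agent.R240 Crest.Agent.R240.Ch Crest.Agent.R240.En4 Crest.Agent.R240.Pot
  Crest.Agent.R235.T1_195 Crest.Agent.R235.CurDens_4 Crest.Agent.R235.AtomsC_4

noncomputable section

variable {M : Type*} [MetricSpace M] [CompactSpace M] [ChartedSpace E4 M]
    [IsManifold 𝓘(ℝ, E4) ∞ M] [MeasurableSpace M] [BorelSpace M]

/-- the frozen metric at `x`, in the preferred chart. -/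
def gx (D : Dat M) (x : M) (v : E4) : ℝ := at2 D.F x v (atJ D.J x v)

/-- the ellipsoid of radius `r` at `x`. -/
def ell (D : Dat M) (x : M) (r : ℝ) : Set M :=
  {y | y ∈ (chartAt E4 x).source ∧ gx D x (chartAt E4 x y - chartAt E4 x x) < r ^ 2}

theorem continuous_gx (D : Dat M) (x : M) : Continuous (gx D x) := by
  unfold gx
  exact ((at2 D.F x).continuous.clm_apply (atJ D.J x).continuous)

theorem isOpen_ell (D : Dat M) (x : M) (r : ℝ) : IsOpen (ell D x r) := by
  have h : ell D x r = (chartAt E4 x).source ∩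
      (chartAt E4 x) ⁻¹' {z | gx D x (z - chartAt E4 x x) < r ^ 2} := rfl
  rw [h]
  refine (chartAt E4 x).isOpen_inter_preimage ?_
  exact isOpen_lt ((continuous_gx D x).comp (continuous_id.sub continuous_const)) continuous_const

/-- two-sided bounds of the frozen metric. -/
theorem exists_gx_bd (D : Dat M) (x : M) : ∃ m L : ℝ, 0 < m ∧ 0 < L ∧ ∀ v : E4,
    m * ‖v‖ ^ 2 ≤ gx D x v ∧ gx D x v ≤ L * ‖v‖ ^ 2 := by
  have hc : ContinuousOn (gx D x) (sphere (0 : E4) 1) := (continuous_gx D x).continuousOn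
  have hne : (sphere (0 : E4) 1).Nonempty := by
    exact NormedSpace.sphere_nonempty.2 zero_le_one
  obtain ⟨v0, hv0, hmin⟩ := (isCompact_sphere (0 : E4) 1).exists_isMinOn hne hc
  obtain ⟨v1, hv1, hmax⟩ := (isCompact_sphere (0 : E4) 1).exists_isMaxOn hne hc
  have hpos : ∀ v : E4, v ≠ 0 → 0 < gx D x v := fun v hv => (ChDens.spos D x).pos v hv
  have hn0 : v0 ≠ 0 := by
    rintro rfl
    simp at hv0
  have hn1 : v1 ≠ 0 := by
    rintro rfl
    simp at hv1
  have hom : ∀ (t : ℝ) (v : E4), gx D x (t • v) = t ^ 2 * gx D x v := by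
    intro t v
    unfold gx
    simp only [map_smul, smul_apply, smul_eq_mul]
    ring
  refine ⟨gx D x v0, gx D x v1, hpos v0 hn0, hpos v1 hn1, fun v => ?_⟩
  rcases eq_or_ne v 0 with rfl | hv
  · have : gx D x 0 = 0 := by
      unfold gx
      simp
    rw [this]
    simp
  · have hnv : 0 < ‖v‖ := norm_pos_iff.2 hv
    have h1 : ‖v‖⁻¹ • v ∈ sphere (0 : E4) 1 := by
      rw [mem_sphere_zero_iff_norm, norm_smul, norm_inv, norm_norm, inv_mul_cancel₀ hnv.ne']
    have h2 : gx D x v = ‖v‖ ^ 2 * gx D x (‖v‖⁻¹ • v) := by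
      rw [hom]
      field_simp
    have h3 : gx D x v0 ≤ gx D x (‖v‖⁻¹ • v) := hmin h1
    have h4 : gx D x (‖v‖⁻¹ • v) ≤ gx D x v1 := hmax h1
    rw [h2]
    constructor
    · rw [mul_comm]
      gcongr
    · rw [mul_comm (gx D x v1)]
      gcongr

/-- the ellipsoids are comparable with the balls. -/
theorem exists_ell_bd (D : Dat M) (x : M) : ∃ c r0 : ℝ, 0 < c ∧ 0 < r0 ∧ ∀ r, 0 < r → r ≤ r0 →
    ell D x r ⊆ ball x (c * r) ∧ ∀ y, c * dist x y ≤ r → y ∈ ell D x r := by
  set φ := chartAt E4 x with hφ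
  have hxs := mem_chart_source E4 x
  obtain ⟨ρ, hρ, hρt⟩ := Metric.nhds_basis_closedBall.mem_iff.1
    (φ.open_target.mem_nhds (mem_chart_target E4 x))
  obtain ⟨c1, C1, hc1, hC1, hbl⟩ := D.bl x (closedBall (φ x) ρ) (isCompact_closedBall _ _) hρt
  obtain ⟨m, L, hm, hL, hg⟩ := exists_gx_bd D x
  -- a ball inside the chart ball
  have hV : IsOpen (φ.source ∩ φ ⁻¹' ball (φ x) ρ) := φ.isOpen_inter_preimage isOpen_ball
  obtain ⟨δ, hδ, hδV⟩ := Metric.isOpen_iff.1 hV x ⟨hxs, mem_ball_self hρ⟩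
  set c : ℝ := C1 / √m + 2 * (√L / c1) + 1 with hcdef
  have hsm : 0 < √m := Real.sqrt_pos.2 hm
  have hsL : 0 < √L := Real.sqrt_pos.2 hL
  have hc : 0 < c := by positivity
  have hcc1 : C1 / √m < c := by
    have : 0 < 2 * (√L / c1) := by positivity
    linarith
  have hcc2 : √L / c1 < c := by
    have : 0 < √L / c1 := by positivity
    have : 0 < C1 / √m := by positivity
    linarith
  refine ⟨c, min (√m * ρ) (c * δ / 2), hc, by positivity, fun r hr hr0 => ⟨?_, ?_⟩⟩
  · rintro y ⟨hys, hyg⟩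
    have h1 := (hg (φ y - φ x)).1
    have h2 : (√m * ‖φ y - φ x‖) ^ 2 < r ^ 2 := by
      rw [mul_pow, Real.sq_sqrt hm.le]
      exact h1.trans_lt hyg
    have h3 : √m * ‖φ y - φ x‖ < r := lt_of_pow_lt_pow_left₀ 2 hr.le h2
    have h4 : ‖φ y - φ x‖ ≤ ρ := by
      have : √m * ‖φ y - φ x‖ ≤ √m * ρ := h3.le.trans (hr0.trans (min_le_left _ _))
      exact le_of_mul_le_mul_left this hsm
    have h5 := (hbl (φ y) (by rw [mem_closedBall, dist_eq_norm]; exact h4) (φ x)
      (mem_closedBall_self hρ.le)).2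
    rw [φ.left_inv hys, φ.left_inv hxs] at h5
    rw [mem_ball]
    calc dist y x ≤ C1 * ‖φ y - φ x‖ := h5
      _ = C1 / √m * (√m * ‖φ y - φ x‖) := by field_simp
      _ ≤ C1 / √m * r := by gcongr
      _ < c * r := by gcongr
  · intro y hy
    have hyd : dist x y < δ := by
      have h1 : c * dist x y ≤ c * (δ / 2) := by
        have := hr0.trans (min_le_right _ _)
        linarith
      have h2 : dist x y ≤ δ / 2 := le_of_mul_le_mul_left h1 hc
      linarith
    obtain ⟨hys, hyb⟩ := hδV (show y ∈ ball x δ by rw [mem_ball, dist_comm]; exact hyd)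
    refine ⟨hys, ?_⟩
    have h5 := (hbl (φ y) (ball_subset_closedBall hyb) (φ x) (mem_closedBall_self hρ.le)).1
    rw [φ.left_inv hys, φ.left_inv hxs] at h5
    have h6 := (hg (φ y - φ x)).2
    have h7 : gx D x (φ y - φ x) ≤ (√L / c1 * dist x y) ^ 2 := by
      have h8 : ‖φ y - φ x‖ ≤ dist x y / c1 := by
        rw [le_div_iff₀ hc1, mul_comm, dist_comm x y]
        exact h5
      calc gx D x (φ y - φ x) ≤ L * ‖φ y - φ x‖ ^ 2 := h6
        _ ≤ L * (dist x y / c1) ^ 2 := by gcongr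
        _ = (√L / c1 * dist x y) ^ 2 := by
          rw [mul_pow, div_pow, div_pow, Real.sq_sqrt hL.le]
          ring
    refine h7.trans_lt ?_
    rcases (dist_nonneg (x := x) (y := y)).eq_or_lt with h0 | h0
    · rw [← h0, mul_zero, zero_pow two_ne_zero]
      positivity
    · have h9 : √L / c1 * dist x y < r := by
        calc √L / c1 * dist x y < c * dist x y := by gcongr
          _ ≤ r := hy
      exact pow_lt_pow_left₀ h9 (by positivity) two_ne_zero

/-- the kernel of the density. -/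
def kM (D : Dat M) (r : ℝ) (x : M) : M → ℝ := (ell D x r).indicator fun _ => 1 / (Real.pi * r ^ 2)

theorem isKer_kM (D : Dat M) : IsKer (kM D) where
  meas r x := measurable_const.indicator (isOpen_ell D x r).measurableSet
  nonneg r x y := indicator_nonneg (fun _ _ => by positivity) _
  at' x := by
    obtain ⟨c, r0, hc, hr0, h⟩ := exists_ell_bd D x
    have hpi := Real.pi_pos
    have hpi3 := Real.pi_gt_three
    refine ⟨Real.pi, c, r0, hpi, hc, hr0, ?_, ?_, ?_⟩
    · intro r y hr hrr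
      unfold kM
      refine (indicator_le_self' (fun _ _ => by positivity) y).trans ?_
      rw [div_le_div_iff₀ (by positivity) (by positivity)]
      have h1 : 0 < r ^ 2 := by positivity
      have h2 : 1 ≤ Real.pi * Real.pi := by nlinarith
      nlinarith [mul_le_mul_of_nonneg_right h2 h1.le]
    · intro r y hr hrr hy
      unfold kM
      rw [indicator_of_notMem]
      intro hmem
      have := (h r hr hrr).1 hmem
      rw [mem_ball, dist_comm] at this
      exact absurd this (not_lt.2 hy)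
    · intro r y hr hrr hy
      unfold kM
      rw [indicator_of_mem ((h r hr hrr).2 y hy)]

theorem nuR_kM (D : Dat M) (s : Measure M) (r : ℝ) (x : M) :
    nuR (kM D) s r x = s.real (ell D x r) / (Real.pi * r ^ 2) := by
  unfold nuR kM
  rw [integral_indicator (isOpen_ell D x r).measurableSet, setIntegral_const, smul_eq_mul]
  ring

end

end Crest.Agent.R235.DenM_4
end

-- ▼ part R235/ChInd_4

/-!
Row 235 (S0364), helper4: CHIND, the two-dimensional density (frozen metric) does not depend on the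
chart.
-/

set_option autoImplicit false
set_option maxSynthPendingDepth 3
set_option linter.unusedSectionVars false

open Set Function Filter MeasureTheory Metric
open scoped Manifold ContDiff Topology ENNReal NNReal

namespace Crest.Agent.R235.DenM_4

open Crest.Agent.R240 Crest.Agent.R240.Ch Crest.Agent.R240.En4 Crest.Agent.R240.Pot
  Crest.Agent.R235.T1_195 Crest.Agent.R235.CurDens_4 Crest.Agent.R235.AtomsC_4

noncomputable section

/-! ### the abstract squeeze -/

theorem tendsto_dens_of_sandwich {A B : ℝ → ℝ} {θ : ℝ}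
    (hB : ∀ r, 0 ≤ B r)
    (h1 : ∀ ε : ℝ, 0 < ε → ∀ᶠ r in 𝓝[>] (0 : ℝ), A r ≤ B ((1 + ε) * r))
    (h2 : ∀ ε : ℝ, 0 < ε → ∀ᶠ r in 𝓝[>] (0 : ℝ), B r ≤ A ((1 + ε) * r))
    (h : Tendsto (fun r => B r / (Real.pi * r ^ 2)) (𝓝[>] 0) (𝓝 θ)) :
    Tendsto (fun r => A r / (Real.pi * r ^ 2)) (𝓝[>] 0) (𝓝 θ) := by
  have hpi := Real.pi_pos
  have hθ : 0 ≤ θ := ge_of_tendsto h (Eventually.of_forall fun r => by
    have := hB r
    positivity)
  have hsc : ∀ c : ℝ, 0 < c → Tendsto (fun r => B (c * r) / (Real.pi * r ^ 2)) (𝓝[>] 0)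
      (𝓝 (c ^ 2 * θ)) := by
    intro c hc
    have h3 := (h.comp (tendsto_scale hc)).const_mul (c ^ 2)
    refine h3.congr' ?_
    filter_upwards [self_mem_nhdsWithin] with r hr
    have hr : 0 < r := hr
    simp only [comp_apply]
    field_simp
  refine tendsto_order.2 ⟨fun a ha => ?_, fun a ha => ?_⟩
  · -- lower bound
    have h3 : ContinuousAt (fun ε : ℝ => ((1 + ε)⁻¹) ^ 2 * θ) 0 := by
      have : ContinuousAt (fun ε : ℝ => (1 + ε)⁻¹) 0 :=
        (continuousAt_const.add continuousAt_id).inv₀ (by norm_num)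
      exact (this.pow 2).mul continuousAt_const
    have h4 : ∀ᶠ ε : ℝ in 𝓝[>] 0, a < ((1 + ε)⁻¹) ^ 2 * θ := by
      refine (h3.mono_left nhdsWithin_le_nhds).eventually_const_lt ?_
      simpa using ha
    obtain ⟨ε, hε1, hε0⟩ := (h4.and self_mem_nhdsWithin).exists
    have hε0 : 0 < ε := hε0
    have hc : 0 < (1 + ε)⁻¹ := by positivity
    have h5 := (hsc _ hc).eventually_const_lt hε1
    have h6 := (tendsto_scale hc).eventually (h2 ε hε0)
    filter_upwards [h5, h6, self_mem_nhdsWithin] with r hr1 hr2 hr0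
    have hr0 : 0 < r := hr0
    refine hr1.trans_le ?_
    have h7 : (1 + ε) * ((1 + ε)⁻¹ * r) = r := by field_simp
    rw [h7] at hr2
    gcongr
  · have h3 : ContinuousAt (fun ε : ℝ => (1 + ε) ^ 2 * θ) 0 :=
      ((continuousAt_const.add continuousAt_id).pow 2).mul continuousAt_const
    have h4 : ∀ᶠ ε : ℝ in 𝓝[>] 0, (1 + ε) ^ 2 * θ < a := by
      refine (h3.mono_left nhdsWithin_le_nhds).eventually_lt_const ?_
      simpa using ha
    obtain ⟨ε, hε1, hε0⟩ := (h4.and self_mem_nhdsWithin).exists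
    have hε0 : 0 < ε := hε0
    have hc : 0 < 1 + ε := by positivity
    have h5 := (hsc _ hc).eventually_lt_const hε1
    filter_upwards [h5, h1 ε hε0, self_mem_nhdsWithin] with r hr1 hr2 hr0
    have hr0 : 0 < r := hr0
    refine lt_of_le_of_lt ?_ hr1
    gcongr

variable {M : Type*} [MetricSpace M] [CompactSpace M] [ChartedSpace E4 M]
    [IsManifold 𝓘(ℝ, E4) ∞ M] [MeasurableSpace M] [BorelSpace M]

/-! ### the frozen metric in another chart -/

/-- the frozen metric at `x` in the chart `p`. -/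
def gp (D : Dat M) (p x : M) (v : E4) : ℝ :=
  rep p D.F (chartAt E4 p x) v (repJ p D.J (chartAt E4 p x) v)

theorem gp_eq {D : Dat M} {p x : M} (hx : x ∈ (chartAt E4 p).source) (v : E4) :
    gp D p x v = gx D x (tcc p x x v) := by
  unfold gp gx
  rw [rep_apply, repJ_apply, (chartAt E4 p).left_inv hx, tcc_cancel' hx]


/-- the ellipsoid in the chart `p`. -/
def ellP (D : Dat M) (p x : M) (r : ℝ) : Set M :=
  {y | y ∈ (chartAt E4 p).source ∧ gp D p x (chartAt E4 p y - chartAt E4 p x) < r ^ 2}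


theorem continuous_gp (D : Dat M) (p x : M) : Continuous (gp D p x) := by
  unfold gp
  exact ((rep p D.F (chartAt E4 p x)).continuous.clm_apply
    (repJ p D.J (chartAt E4 p x)).continuous)


/-- Young's inequality. -/
theorem gx_young (D : Dat M) (x : M) (a b : E4) {ε : ℝ} (hε : 0 < ε) :
    gx D x (a + b) ≤ (1 + ε) * gx D x a + (1 + 1 / ε) * gx D x b := by
  have hnn : ∀ v, 0 ≤ gx D x v := by
    intro v
    obtain ⟨m, L, hm, hL, h⟩ := exists_gx_bd D x
    exact le_trans (by positivity) (h v).1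
  have h1 := hnn (ε • a - b)
  have e1 : gx D x (ε • a - b) = ε ^ 2 * gx D x a -
      ε * (at2 D.F x a (atJ D.J x b) + at2 D.F x b (atJ D.J x a)) + gx D x b := by
    unfold gx
    simp only [map_sub, map_smul, sub_apply, smul_apply, smul_eq_mul]
    ring
  have e2 : gx D x (a + b) = gx D x a +
      (at2 D.F x a (atJ D.J x b) + at2 D.F x b (atJ D.J x a)) + gx D x b := by
    unfold gx
    simp only [map_add, add_apply]
    ring
  rw [e1] at h1
  rw [e2]
  set t := at2 D.F x a (atJ D.J x b) + at2 D.F x b (atJ D.J x a)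
  have h2 : t ≤ ε * gx D x a + 1 / ε * gx D x b := by
    have h3 : ε * t ≤ ε * (ε * gx D x a + 1 / ε * gx D x b) := by
      have : ε * (ε * gx D x a + 1 / ε * gx D x b) = ε ^ 2 * gx D x a + gx D x b := by
        field_simp
      rw [this]
      linarith
    exact le_of_mul_le_mul_left h3 hε
  linarith

/-- comparison of the frozen metric in two charts near `x`. -/
theorem exists_cmp (D : Dat M) {p x : M} (hx : x ∈ (chartAt E4 p).source) {ε : ℝ} (hε : 0 < ε) :
    ∃ δ : ℝ, 0 < δ ∧ ∀ y ∈ ball x δ, y ∈ (chartAt E4 p).source ∧ y ∈ (chartAt E4 x).source ∧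
      gx D x (chartAt E4 x y - chartAt E4 x x) ≤
        (1 + ε) * gp D p x (chartAt E4 p y - chartAt E4 p x) ∧
      gp D p x (chartAt E4 p y - chartAt E4 p x) ≤
        (1 + ε) * gx D x (chartAt E4 x y - chartAt E4 x x) := by
  obtain ⟨m, L, hm, hL, hg⟩ := exists_gx_bd D x
  have hxs := mem_chart_source E4 x
  set T : E4 →L[ℝ] E4 := tcc p x x with hT
  set T' : E4 →L[ℝ] E4 := tcc x p x with hT'
  have hTT : ∀ v, T' (T v) = v := fun v => by
    rw [hT, hT', tcc_comp hx hxs hx, tcc_self hx]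
  set κ : ℝ := ‖T'‖ + 1 with hκ
  have hκ0 : 0 < κ := by positivity
  have hκv : ∀ v, ‖v‖ ≤ κ * ‖T v‖ := by
    intro v
    calc ‖v‖ = ‖T' (T v)‖ := by rw [hTT]
      _ ≤ ‖T'‖ * ‖T v‖ := T'.le_opNorm _
      _ ≤ κ * ‖T v‖ := by gcongr; linarith
  -- the constant of the linear approximation
  set e1 : ℝ := ε / 2 with he1
  have he10 : 0 < e1 := by positivity
  set C : ℝ := (1 + 1 / e1) * (L / m) * κ ^ 2 with hC
  have hC0 : 0 < C := by positivity
  obtain ⟨η, hη, hηC, hηκ⟩ : ∃ η : ℝ, 0 < η ∧ 4 * C * η ^ 2 ≤ e1 ∧ η * κ ≤ 1 / 2 := by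
    refine ⟨min (√(e1 / (4 * C))) (1 / (2 * κ)), by positivity, ?_, ?_⟩
    · have h1 : (min (√(e1 / (4 * C))) (1 / (2 * κ))) ^ 2 ≤ (√(e1 / (4 * C))) ^ 2 :=
        pow_le_pow_left₀ (by positivity) (min_le_left _ _) 2
      rw [Real.sq_sqrt (by positivity)] at h1
      calc 4 * C * (min (√(e1 / (4 * C))) (1 / (2 * κ))) ^ 2 ≤ 4 * C * (e1 / (4 * C)) := by
            gcongr
        _ = e1 := by field_simp
    · calc min (√(e1 / (4 * C))) (1 / (2 * κ)) * κ ≤ 1 / (2 * κ) * κ := by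
            gcongr
            exact min_le_right _ _
        _ = 1 / 2 := by field_simp
  have hder : HasFDerivAt (chartAt E4 x ∘ (chartAt E4 p).symm) T (chartAt E4 p x) := by
    have h1 : ContDiffAt ℝ ∞ (trans (E := E4) p x) (chartAt E4 p x) :=
      trans_contDiffAt ((chartAt E4 p).map_source hx) (by
        rw [(chartAt E4 p).left_inv hx]; exact hxs)
    have h2 := (h1.differentiableAt (by simp)).hasFDerivAt
    rw [hT, tcc_eq_fderiv]
    exact h2
  rw [hasFDerivAt_iff_isLittleO_nhds_zero, Asymptotics.isLittleO_iff] at hder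
  have h3 := hder hη
  have hcont : ContinuousAt (fun y => chartAt E4 p y - chartAt E4 p x) x :=
    ((chartAt E4 p).continuousAt hx).sub continuousAt_const
  have h4 : Tendsto (fun y => chartAt E4 p y - chartAt E4 p x) (𝓝 x) (𝓝 0) := by
    have := hcont.tendsto
    rwa [sub_self] at this
  have h5 := h4.eventually h3
  have h6 : ∀ᶠ y in 𝓝 x, y ∈ (chartAt E4 p).source := (chartAt E4 p).open_source.mem_nhds hx
  have h7 : ∀ᶠ y in 𝓝 x, y ∈ (chartAt E4 x).source := (chartAt E4 x).open_source.mem_nhds hxs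
  obtain ⟨δ, hδ, hδ'⟩ := Metric.eventually_nhds_iff.1 (h5.and (h6.and h7))
  refine ⟨δ, hδ, fun y hy => ?_⟩
  obtain ⟨hy1, hy2, hy3⟩ := hδ' hy
  refine ⟨hy2, hy3, ?_⟩
  set V : E4 := chartAt E4 p y - chartAt E4 p x with hV
  set W : E4 := chartAt E4 x y - chartAt E4 x x with hW
  have h8 : ‖W - T V‖ ≤ η * ‖V‖ := by
    have e : chartAt E4 p x + V = chartAt E4 p y := by rw [hV]; abel
    rw [e] at hy1
    simp only [comp_apply] at hy1
    rw [(chartAt E4 p).left_inv hy2, (chartAt E4 p).left_inv hx] at hy1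
    exact hy1
  have hVT : ‖V‖ ≤ κ * ‖T V‖ := hκv V
  have hVW : ‖V‖ ≤ 2 * κ * ‖W‖ := by
    have h9 : ‖T V‖ ≤ ‖W‖ + η * ‖V‖ := by
      calc ‖T V‖ = ‖W - (W - T V)‖ := by congr 1; abel
        _ ≤ ‖W‖ + ‖W - T V‖ := norm_sub_le _ _
        _ ≤ _ := by gcongr
    have h10 : ‖V‖ ≤ κ * ‖W‖ + η * κ * ‖V‖ := by
      calc ‖V‖ ≤ κ * ‖T V‖ := hVT
        _ ≤ κ * (‖W‖ + η * ‖V‖) := by gcongr
        _ = _ := by ring
    have h11 : η * κ * ‖V‖ ≤ 1 / 2 * ‖V‖ := by gcongr
    linarith
  have hgW := hg W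
  have hgT := hg (T V)
  have hgd : gx D x (W - T V) ≤ L * (η * ‖V‖) ^ 2 := by
    refine (hg _).2.trans ?_
    gcongr
  have hgd' : gx D x (T V - W) ≤ L * (η * ‖V‖) ^ 2 := by
    refine (hg _).2.trans ?_
    rw [norm_sub_rev]
    gcongr
  rw [gp_eq hx]
  have hbound : ∀ N : ℝ, 0 ≤ N → ∀ G : ℝ, m * N ^ 2 ≤ G → ‖V‖ ≤ 2 * κ * N →
      (1 + 1 / e1) * (L * (η * ‖V‖) ^ 2) ≤ e1 * G := by
    intro N hN G hG hVN
    have hN2 : N ^ 2 ≤ G / m := by
      rw [le_div_iff₀ hm]
      linarith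
    calc (1 + 1 / e1) * (L * (η * ‖V‖) ^ 2) ≤ (1 + 1 / e1) * (L * (η * (2 * κ * N)) ^ 2) := by
          gcongr
      _ = (1 + 1 / e1) * L * κ ^ 2 * 4 * η ^ 2 * N ^ 2 := by ring
      _ ≤ (1 + 1 / e1) * L * κ ^ 2 * 4 * η ^ 2 * (G / m) := by gcongr
      _ = 4 * C * η ^ 2 * G := by
          rw [hC]
          field_simp
      _ ≤ e1 * G := by
          have : 0 ≤ G := le_trans (by positivity) hG
          gcongr
  constructor
  · have h12 := gx_young D x (T V) (W - T V) he10
    have e : T V + (W - T V) = W := by abel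
    rw [e] at h12
    have h13 := hbound ‖T V‖ (norm_nonneg _) _ hgT.1 (by
      have : 0 ≤ ‖T V‖ := norm_nonneg _
      nlinarith)
    have h14 : (1 + 1 / e1) * gx D x (W - T V) ≤ (1 + 1 / e1) * (L * (η * ‖V‖) ^ 2) := by
      gcongr
    have h15 : (1 + ε) * gx D x (T V) = (1 + e1) * gx D x (T V) + e1 * gx D x (T V) := by
      rw [he1]; ring
    rw [h15]
    linarith
  · have h12 := gx_young D x W (T V - W) he10
    have e : W + (T V - W) = T V := by abel
    rw [e] at h12
    have h13 := hbound ‖W‖ (norm_nonneg _) _ hgW.1 hVW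
    have h14 : (1 + 1 / e1) * gx D x (T V - W) ≤ (1 + 1 / e1) * (L * (η * ‖V‖) ^ 2) := by
      gcongr
    have h15 : (1 + ε) * gx D x W = (1 + e1) * gx D x W + e1 * gx D x W := by
      rw [he1]; ring
    rw [h15]
    linarith

/-- the ellipsoids in the chart `p` shrink to the point. -/
theorem exists_ellP_bd (D : Dat M) {p x : M} (hx : x ∈ (chartAt E4 p).source) :
    ∃ c r0 : ℝ, 0 < c ∧ 0 < r0 ∧ ∀ r, 0 < r → r ≤ r0 → ellP D p x r ⊆ ball x (c * r) := by
  set φ := chartAt E4 p with hφ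
  obtain ⟨ρ, hρ, hρt⟩ := Metric.nhds_basis_closedBall.mem_iff.1
    (φ.open_target.mem_nhds (φ.map_source hx))
  obtain ⟨c1, C1, hc1, hC1, hbl⟩ := D.bl p (closedBall (φ x) ρ) (isCompact_closedBall _ _) hρt
  obtain ⟨m, L, hm, hL, hg⟩ := exists_gx_bd D x
  set T : E4 →L[ℝ] E4 := tcc p x x with hT
  set T' : E4 →L[ℝ] E4 := tcc x p x with hT'
  have hTT : ∀ v, T' (T v) = v := fun v => by
    rw [hT, hT', tcc_comp hx (mem_chart_source E4 x) hx, tcc_self hx]
  set κ : ℝ := ‖T'‖ + 1 with hκ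
  have hκ0 : 0 < κ := by positivity
  have hκv : ∀ v, ‖v‖ ≤ κ * ‖T v‖ := by
    intro v
    calc ‖v‖ = ‖T' (T v)‖ := by rw [hTT]
      _ ≤ ‖T'‖ * ‖T v‖ := T'.le_opNorm _
      _ ≤ κ * ‖T v‖ := by gcongr; linarith
  have hsm : 0 < √m := Real.sqrt_pos.2 hm
  have hkey : ∀ (v : E4) (r : ℝ), 0 < r → gp D p x v < r ^ 2 → ‖v‖ < κ / √m * r := by
    intro v r hr h
    rw [gp_eq hx] at h
    have h2 : (√m * ‖T v‖) ^ 2 < r ^ 2 := by
      rw [mul_pow, Real.sq_sqrt hm.le]
      exact (hg (T v)).1.trans_lt h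
    have h3 : √m * ‖T v‖ < r := lt_of_pow_lt_pow_left₀ 2 hr.le h2
    calc ‖v‖ ≤ κ * ‖T v‖ := hκv v
      _ = κ / √m * (√m * ‖T v‖) := by field_simp
      _ < κ / √m * r := by gcongr
  refine ⟨C1 * (κ / √m), √m / κ * ρ, by positivity, by positivity, fun r hr hr0 => ?_⟩
  rintro y ⟨hys, hyg⟩
  have h1 := hkey _ r hr hyg
  have h4 : ‖φ y - φ x‖ ≤ ρ := by
    refine h1.le.trans ?_
    calc κ / √m * r ≤ κ / √m * (√m / κ * ρ) := by gcongr
      _ = ρ := by field_simp
  have h5 := (hbl (φ y) (by rw [mem_closedBall, dist_eq_norm]; exact h4) (φ x)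
    (mem_closedBall_self hρ.le)).2
  rw [φ.left_inv hys, φ.left_inv hx] at h5
  rw [mem_ball]
  calc dist y x ≤ C1 * ‖φ y - φ x‖ := h5
    _ < C1 * (κ / √m * r) := by gcongr
    _ = C1 * (κ / √m) * r := by ring

theorem ev_ball {c r0 δ : ℝ} (hc : 0 < c) (hr0 : 0 < r0) (hδ : 0 < δ) :
    ∀ᶠ r : ℝ in 𝓝[>] 0, 0 < r ∧ r ≤ r0 ∧ c * r ≤ δ := by
  have h1 : 0 < min r0 (δ / c) := by positivity
  filter_upwards [ev_le h1] with r hr
  refine ⟨hr.1, hr.2.trans (min_le_left _ _), ?_⟩
  have := hr.2.trans (min_le_right _ _)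
  rwa [le_div_iff₀ hc, mul_comm] at this

/-- **CHIND**. -/
theorem den_indep (D : Dat M) {p x : M} (hx : x ∈ (chartAt E4 p).source) (s : Measure M)
    [IsFiniteMeasure s] {θ : ℝ} :
    Tendsto (fun r => s.real (ellP D p x r) / (Real.pi * r ^ 2)) (𝓝[>] 0) (𝓝 θ) ↔
    Tendsto (fun r => s.real (ell D x r) / (Real.pi * r ^ 2)) (𝓝[>] 0) (𝓝 θ) := by
  have hsq : ∀ ε r : ℝ, 0 < ε → 0 < r → (1 + ε) * r ^ 2 ≤ ((1 + ε) * r) ^ 2 := by
    intro ε r hε hr
    rw [mul_pow]
    have : (1 + ε) ≤ (1 + ε) ^ 2 := by nlinarith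
    gcongr
  have h1 : ∀ ε : ℝ, 0 < ε → ∀ᶠ r in 𝓝[>] (0 : ℝ), ellP D p x r ⊆ ell D x ((1 + ε) * r) := by
    intro ε hε
    obtain ⟨δ, hδ, hc⟩ := exists_cmp D hx hε
    obtain ⟨c, r0, hc0, hr0, hsub⟩ := exists_ellP_bd D hx
    filter_upwards [ev_ball hc0 hr0 hδ] with r hr
    intro y hy
    have hyb := (ball_subset_ball hr.2.2) (hsub r hr.1 hr.2.1 hy)
    obtain ⟨a1, a2, a3, a4⟩ := hc y hyb
    refine ⟨a2, ?_⟩
    have hy2 : gp D p x (chartAt E4 p y - chartAt E4 p x) < r ^ 2 := hy.2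
    have : (1 + ε) * gp D p x (chartAt E4 p y - chartAt E4 p x) < (1 + ε) * r ^ 2 := by gcongr
    exact (a3.trans_lt this).trans_le (hsq ε r hε hr.1)
  have h2 : ∀ ε : ℝ, 0 < ε → ∀ᶠ r in 𝓝[>] (0 : ℝ), ell D x r ⊆ ellP D p x ((1 + ε) * r) := by
    intro ε hε
    obtain ⟨δ, hδ, hc⟩ := exists_cmp D hx hε
    obtain ⟨c, r0, hc0, hr0, hsub⟩ := exists_ell_bd D x
    filter_upwards [ev_ball hc0 hr0 hδ] with r hr
    intro y hy
    have hyb := (ball_subset_ball hr.2.2) ((hsub r hr.1 hr.2.1).1 hy)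
    obtain ⟨a1, a2, a3, a4⟩ := hc y hyb
    refine ⟨a1, ?_⟩
    have hy2 : gx D x (chartAt E4 x y - chartAt E4 x x) < r ^ 2 := hy.2
    have : (1 + ε) * gx D x (chartAt E4 x y - chartAt E4 x x) < (1 + ε) * r ^ 2 := by gcongr
    exact (a4.trans_lt this).trans_le (hsq ε r hε hr.1)
  have h1' : ∀ ε : ℝ, 0 < ε → ∀ᶠ r in 𝓝[>] (0 : ℝ),
      s.real (ellP D p x r) ≤ s.real (ell D x ((1 + ε) * r)) := fun ε hε =>
    (h1 ε hε).mono fun r hr => measureReal_mono hr
  have h2' : ∀ ε : ℝ, 0 < ε → ∀ᶠ r in 𝓝[>] (0 : ℝ),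
      s.real (ell D x r) ≤ s.real (ellP D p x ((1 + ε) * r)) := fun ε hε =>
    (h2 ε hε).mono fun r hr => measureReal_mono hr
  constructor
  · exact tendsto_dens_of_sandwich (fun _ => measureReal_nonneg)
      h2' h1'
  · exact tendsto_dens_of_sandwich (fun _ => measureReal_nonneg)
      h1' h2'

end

end Crest.Agent.R235.DenM_4
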