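import Mathlib
import Crest.Agent.R240.LocPolesFin
import Crest.Agent.R240.Lin5
import Crest.Agent.R235.CurDefs_132
import Crest.Agent.R240.Loc5B
import Crest.Agent.R240.TopAll
import Crest.Agent.R240.MonoM4
import Crest.Agent.R235.ChInd_4

-- ▼ part R235/QLog_195
section

/-!
Row 235 (S0364), helper195: (Q'), the local logarithmic bound
`∬_{|x-y|<e} W(φ_x, φ_y)^+ ds ds ≤ C e⁴ log(1/e)` for a closed positive current in a ball of `E4`,
from Lemma P of R240.
-/

set_option autoImplicit false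
set_option maxSynthPendingDepth 3

open MeasureTheory Metric Set Filter Topology
open scoped ContDiff ENNReal

namespace Crest.Agent.R235.QLog_195

open Crest.Agent.R240 Crest.Agent.R240.En Crest.Agent.R240.Loc5

noncomputable section

/-! ### the logarithmic bound of the potential -/

/-- `(d+e)^{-2}` is dominated by a dyadic sum. -/
theorem inv_sq_le_sum {d e : ℝ} (hd : 0 ≤ d) (he : 0 < e) {N : ℕ} (hN : (1 / 2 : ℝ) ^ N ≤ e) :
    1 / (d + e) ^ 2 ≤ 1 + ∑ k ∈ Finset.range (N + 1),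
      (if d < (1 / 2 : ℝ) ^ k then (4 : ℝ) ^ (k + 1) else 0) := by
  have hnn : ∀ k ∈ Finset.range (N + 1), 0 ≤ (if d < (1 / 2 : ℝ) ^ k then (4 : ℝ) ^ (k + 1) else 0) := by
    intro k _
    split_ifs <;> positivity
  have hp : ∀ k : ℕ, ((1 / 2 : ℝ) ^ (k + 1)) ^ 2 * (4 : ℝ) ^ (k + 1) = 1 := by
    intro k
    rw [← pow_mul, mul_comm (k + 1) 2, pow_mul, ← mul_pow]
    norm_num
  by_cases h1 : 1 ≤ d
  · have h2 : 1 / (d + e) ^ 2 ≤ 1 := by
      rw [div_le_one (by positivity)]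
      nlinarith
    have h3 := Finset.sum_nonneg hnn
    linarith
  push Not at h1
  -- the largest k ≤ N with d < 2^{-k}
  by_cases h2 : d < (1 / 2 : ℝ) ^ N
  · have h3 := Finset.single_le_sum hnn (Finset.mem_range.2 (Nat.lt_succ_self N))
    simp only [h2, if_true] at h3
    have h4 : 1 / (d + e) ^ 2 ≤ (4 : ℝ) ^ (N + 1) := by
      rw [div_le_iff₀ (by positivity)]
      have h5 := hp N
      have h6 : (1 / 2 : ℝ) ^ (N + 1) ≤ d + e := by
        have : (1 / 2 : ℝ) ^ (N + 1) ≤ (1 / 2 : ℝ) ^ N :=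
          pow_le_pow_of_le_one (by norm_num) (by norm_num) (Nat.le_succ N)
        linarith
      have h7 : ((1 / 2 : ℝ) ^ (N + 1)) ^ 2 ≤ (d + e) ^ 2 := by gcongr
      have h8 : (0 : ℝ) < 4 ^ (N + 1) := by positivity
      nlinarith
    linarith
  · push Not at h2
    obtain ⟨k, hk1, hk2⟩ : ∃ k, d < (1 / 2 : ℝ) ^ k ∧ ¬ d < (1 / 2 : ℝ) ^ (k + 1) := by
      by_contra hcon
      push Not at hcon
      have h3 : ∀ k : ℕ, d < (1 / 2 : ℝ) ^ k := by
        intro k
        induction k with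
        | zero => simpa using h1
        | succ k ih => exact hcon k ih
      exact absurd (h3 N) (not_lt.2 h2)
    push Not at hk2
    have hkN : k < N := by
      by_contra hcon
      push Not at hcon
      have : (1 / 2 : ℝ) ^ k ≤ (1 / 2 : ℝ) ^ N :=
        pow_le_pow_of_le_one (by norm_num) (by norm_num) hcon
      linarith
    have h3 := Finset.single_le_sum hnn (Finset.mem_range.2 (hkN.trans (Nat.lt_succ_self N)))
    simp only [hk1, if_true] at h3
    have h4 : 1 / (d + e) ^ 2 ≤ (4 : ℝ) ^ (k + 1) := by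
      rw [div_le_iff₀ (by positivity)]
      have h5 := hp k
      have h7 : ((1 / 2 : ℝ) ^ (k + 1)) ^ 2 ≤ (d + e) ^ 2 := by
        gcongr
        linarith
      have h8 : (0 : ℝ) < 4 ^ (k + 1) := by positivity
      nlinarith
    linarith

theorem wE_log (s : Measure E4) [IsFiniteMeasure s] {C : ℝ} (hC : 0 ≤ C)
    (hgr : ∀ y r, 0 < r → s (ball y r) ≤ ENNReal.ofReal (C * r ^ 2)) :
    ∃ C' : ℝ, 0 ≤ C' ∧ ∀ (c : E4) (R e : ℝ) (x : E4), 0 < e → e ≤ 1 / 2 →
      1 + Pot.wE s c R e 2 x ≤ C' * Real.log (1 / e) := by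
  have hl2 : 0 < Real.log 2 := Real.log_pos (by norm_num)
  have hsu : 0 ≤ s.real univ := measureReal_nonneg
  refine ⟨(1 + s.real univ + 12 * C) / Real.log 2, by positivity, fun c R e x he hee => ?_⟩
  set N : ℕ := ⌈Real.log (1 / e) / Real.log 2⌉₊ with hN
  have hN1 : Real.log (1 / e) / Real.log 2 ≤ N := Nat.le_ceil _
  have hle : Real.log 2 ≤ Real.log (1 / e) := by
    apply Real.log_le_log (by norm_num)
    rw [le_div_iff₀ he]
    linarith
  have h0 : 1 ≤ Real.log (1 / e) / Real.log 2 := by rw [le_div_iff₀ hl2]; linarith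
  have hN2 : (N : ℝ) < Real.log (1 / e) / Real.log 2 + 1 := Nat.ceil_lt_add_one (by linarith)
  have hNe : (1 / 2 : ℝ) ^ N ≤ e := by
    rw [div_le_iff₀ hl2] at hN1
    have h1 : Real.log (1 / e) ≤ Real.log ((2 : ℝ) ^ N) := by rw [Real.log_pow]; exact hN1
    have h2 : 1 / e ≤ (2 : ℝ) ^ N := (Real.log_le_log_iff (by positivity) (by positivity)).1 h1
    rw [div_pow, one_pow, div_le_iff₀ (by positivity)]
    rw [div_le_iff₀ he] at h2
    linarith
  have hgr' : ∀ r, 0 < r → s.real (ball x r) ≤ C * r ^ 2 := fun r hr =>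
    ENNReal.toReal_le_of_le_ofReal (by positivity) (hgr x r hr)
  -- pointwise
  have hpt : ∀ y, 1 / (‖x - y‖ + e) ^ 2 ≤ 1 + ∑ k ∈ Finset.range (N + 1),
      (ball x ((1 / 2 : ℝ) ^ k)).indicator (fun _ => (4 : ℝ) ^ (k + 1)) y := by
    intro y
    refine (inv_sq_le_sum (norm_nonneg _) he hNe).trans (le_of_eq ?_)
    congr 1
    refine Finset.sum_congr rfl fun k _ => ?_
    by_cases h : ‖x - y‖ < (1 / 2 : ℝ) ^ k
    · rw [if_pos h, indicator_of_mem]
      rw [mem_ball, dist_comm, dist_eq_norm]; exact h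
    · rw [if_neg h, indicator_of_notMem]
      rw [mem_ball, dist_comm, dist_eq_norm]; exact h
  have hI : Integrable (fun y => 1 + ∑ k ∈ Finset.range (N + 1),
      (ball x ((1 / 2 : ℝ) ^ k)).indicator (fun _ => (4 : ℝ) ^ (k + 1)) y) s := by
    refine (integrable_const _).add (integrable_finsetSum _ fun k _ => ?_)
    exact (integrable_const _).indicator measurableSet_ball
  have hint : Integrable (fun y => 1 / (‖x - y‖ + e) ^ 2) s := by
    refine Integrable.of_bound (C := 1 / e ^ 2) ?_ (ae_of_all _ fun y => ?_)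
    · have : Measurable fun y : E4 => 1 / (‖x - y‖ + e) ^ 2 := by fun_prop
      exact this.aestronglyMeasurable
    · rw [Real.norm_of_nonneg (by positivity)]
      have := norm_nonneg (x - y)
      gcongr
      linarith
  have h1 : Pot.wE s c R e 2 x ≤ ∫ y, 1 / (‖x - y‖ + e) ^ 2 ∂s := by
    unfold Pot.wE
    exact setIntegral_le_integral hint (ae_of_all _ fun y => by positivity)
  have h2 : ∫ y, 1 / (‖x - y‖ + e) ^ 2 ∂s ≤ s.real univ + 4 * C * (N + 1) := by
    refine (integral_mono hint hI hpt).trans ?_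
    rw [integral_add (integrable_const _) (integrable_finsetSum _ fun k _ =>
      (integrable_const _).indicator measurableSet_ball), integral_const, smul_eq_mul, mul_one,
      integral_finsetSum _ fun k _ => (integrable_const _).indicator measurableSet_ball]
    have h3 : ∀ k ∈ Finset.range (N + 1),
        ∫ y, (ball x ((1 / 2 : ℝ) ^ k)).indicator (fun _ => (4 : ℝ) ^ (k + 1)) y ∂s ≤ 4 * C := by
      intro k _
      rw [integral_indicator measurableSet_ball, setIntegral_const, smul_eq_mul]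
      have h4 := hgr' ((1 / 2 : ℝ) ^ k) (by positivity)
      have h5 : (0 : ℝ) < 4 ^ (k + 1) := by positivity
      calc s.real (ball x ((1 / 2 : ℝ) ^ k)) * 4 ^ (k + 1)
          ≤ C * ((1 / 2 : ℝ) ^ k) ^ 2 * 4 ^ (k + 1) := by gcongr
        _ = 4 * C * (((1 / 2 : ℝ) ^ k) ^ 2 * 4 ^ k) := by ring
        _ = 4 * C := by
          rw [← pow_mul, mul_comm k 2, pow_mul, ← mul_pow]
          norm_num
    have h4 := Finset.sum_le_sum h3
    rw [Finset.sum_const, Finset.card_range, nsmul_eq_mul] at h4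
    push_cast at h4
    linarith
  rw [div_mul_eq_mul_div, le_div_iff₀ hl2]
  have h3 : ((N : ℝ) + 1) * Real.log 2 ≤ 3 * Real.log (1 / e) := by
    have h4 : ((N : ℝ) + 1) ≤ 3 * (Real.log (1 / e) / Real.log 2) := by linarith
    calc ((N : ℝ) + 1) * Real.log 2 ≤ 3 * (Real.log (1 / e) / Real.log 2) * Real.log 2 := by gcongr
      _ = _ := by field_simp
  have h5 : (1 + Pot.wE s c R e 2 x) * Real.log 2 ≤
      (1 + s.real univ + 4 * C * (N + 1)) * Real.log 2 :=
    mul_le_mul_of_nonneg_right (by linarith) hl2.le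
  refine h5.trans ?_
  have h6 : 4 * C * ((N : ℝ) + 1) * Real.log 2 ≤ 12 * C * Real.log (1 / e) := by
    have := mul_le_mul_of_nonneg_left h3 (by positivity : (0 : ℝ) ≤ 4 * C)
    linarith
  have h7 : (1 + s.real univ) * Real.log 2 ≤ (1 + s.real univ) * Real.log (1 / e) := by gcongr
  linarith

/-! ### positivity of the pairing of nearby positive forms -/

/-- `q(P,R) ≥ - C |J - J₁|²` for `P ≥ 0` (`J`), `R ≥ 0` (`J₁`). -/
theorem q_near {J J1 : E4 →L[ℝ] E4} {F : Bil} {m M : ℝ} (h : Bd J F m M)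
    (hJ1 : ∀ v, J1 (J1 v) = -v) {P R : Bil} (hP : Pos J P) (hR : Pos J1 R) :
    - (‖J - J1‖ ^ 2 * ‖J1‖ * ‖R‖ / m * q F P F) ≤ q F P R := by
  have hm := h.m_pos
  set s : ℝ := ‖J - J1‖ ^ 2 * ‖J1‖ * ‖R‖ / m with hs
  have hs0 : 0 ≤ s := by positivity
  have h1 : Pos J (invp J R + s • F) := by
    refine h.pos_add (hR.alt.invp J) (invp_inv h.sq R) (fun v => ?_) hs0
    rw [invp_diag h.sq hR.alt]
    refine le_trans ?_ (Q_lower (J := J) hJ1 hR v)
    have e : s * m = ‖J - J1‖ ^ 2 * ‖J1‖ * ‖R‖ := by rw [hs]; field_simp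
    rw [e]
    have : 0 ≤ ‖J - J1‖ ^ 2 * ‖J1‖ * ‖R‖ * ‖v‖ ^ 2 := by positivity
    linarith
  have h2 := h.q_pos_pos hP h1
  rw [q_add_right, q_smul_right, ← h.q_inv_left hP.alt hP.inv hR.alt] at h2
  linarith

/-! ### the mollifier -/

/-- a mollifier which is bounded below on the ball of radius `1/2`. -/
theorem exists_moll' : ∃ (ρ : E4 → ℝ) (κ : ℝ), Moll ρ ∧ 0 < κ ∧ ∀ z, ‖z‖ ≤ 1 / 2 → κ ≤ ρ z := by
  let f : ContDiffBump (0 : E4) := ⟨1/2, 1, by norm_num, by norm_num⟩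
  have hI : 0 < ∫ x, f x := f.integral_pos
  refine ⟨f.normed volume, (∫ x, f x)⁻¹, ⟨f.contDiff_normed, fun z => f.nonneg_normed z,
    fun z hz => ?_, f.integral_normed⟩, by positivity, fun z hz => ?_⟩
  · have h1 : z ∉ Function.support (f.normed volume) := by
      rw [f.support_normed_eq]
      simp only [mem_ball, dist_zero_right, not_lt]
      exact hz
    simpa using h1
  · rw [ContDiffBump.normed_def, f.one_of_mem_closedBall (by
      rw [mem_closedBall, dist_zero_right]; exact hz), one_div]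


theorem wed_zero_left (ξ : Cov) : wed 0 ξ = 0 := by
  ext v w; simp

theorem W_zero_right (b : Bil) : W b 0 = 0 := by simp [W, ent_zero]

section main

variable {J : E4 → E4 →L[ℝ] E4} {F : E4 → Bil} {φ : E4 → Bil} {m M L LJ w0 c0 σ : ℝ}

/-- the symmetry `W(φ, dζ ∧ Jc du) = W(φ, du ∧ Jc dζ)`. -/
theorem W_wedJ_symm (hC : Cst J F m M L LJ w0 c0 σ) {P : Bil} {x : E4} (hP : Pos (J x) P)
    (ξ η : Cov) : W P (wed ξ (Jc (J x) η)) = W P (wed η (Jc (J x) ξ)) := by
  have h1 := (hC.bd x).q_wedJ_symm hP.alt hP.inv ξ η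
  unfold q at h1
  have h2 := (hC.bd x).W_ne
  rwa [div_left_inj' h2] at h1

/-- closedness tested with `ζ • α`. -/
theorem test_smul {s : Measure E4} [IsFiniteMeasure s] {φ₁ : E4 → Bil} (hm : Measurable φ₁)
    {B : ℝ} (hB : ∀ y, ‖φ₁ y‖ ≤ B) {U : Set E4}
    (hcl : ∀ S : E4 → Cov, ContDiff ℝ ∞ S → HasCompactSupport S → tsupport S ⊆ U →
      ∫ y, W (φ₁ y) (d1 S y) ∂s = 0)
    {f : E4 → ℝ} {α : E4 → Cov} (hf : ContDiff ℝ ∞ f) (hα : ContDiff ℝ ∞ α)
    (hc : HasCompactSupport fun y => f y • α y) (hs : tsupport (fun y => f y • α y) ⊆ U)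
    (hc1 : HasCompactSupport fun y => f y • d1 α y) :
    ∫ y, f y * W (φ₁ y) (d1 α y) ∂s = - ∫ y, W (φ₁ y) (wed (fderiv ℝ f y) (α y)) ∂s := by
  have hfα : ContDiff ℝ ∞ fun y => f y • α y := hf.smul hα
  have h0 := hcl _ hfα hc hs
  have hd : ∀ y, d1 (fun z => f z • α z) y = wed (fderiv ℝ f y) (α y) + f y • d1 α y := fun y =>
    d1_smul (hf.differentiable (by simp) y) (hα.differentiable (by simp) y)
  have hbd : ∀ {b : E4 → Bil}, Continuous b → HasCompactSupport b →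
      Integrable (fun y => W (φ₁ y) (b y)) s := by
    intro b hb hbc
    obtain ⟨K, hK⟩ := hbc.exists_bound_of_continuous hb
    refine Integrable.of_bound (C := 6 * (B * K)) (measurable_W hm hb.measurable).aestronglyMeasurable
      (ae_of_all _ fun y => ?_)
    rw [Real.norm_eq_abs]
    refine (Loc5.abs_W_le _ _).trans ?_
    have h1 := hB y
    have h2 := hK y
    have h3 : 0 ≤ B := (norm_nonneg _).trans h1
    gcongr
  have i2 : Integrable (fun y => W (φ₁ y) (f y • d1 α y)) s :=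
    hbd (hf.continuous.smul (contDiff_d1 hα).continuous) hc1
  have i0 : Integrable (fun y => W (φ₁ y) (d1 (fun z => f z • α z) y)) s :=
    hbd (contDiff_d1 hfα).continuous
      (hc.of_isClosed_subset (isClosed_tsupport _) (tsupport_d1 _))
  have h3 : ∀ y, W (φ₁ y) (wed (fderiv ℝ f y) (α y)) =
      W (φ₁ y) (d1 (fun z => f z • α z) y) - W (φ₁ y) (f y • d1 α y) := by
    intro y
    rw [hd, W_add_right]
    ring
  simp_rw [h3]
  rw [integral_sub i0 i2, h0, zero_sub, neg_neg]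
  refine integral_congr_ae (ae_of_all _ fun y => ?_)
  simp only
  rw [W_smul_right]

/-- integrability of the pairing with a compactly supported continuous form. -/
theorem integrable_pair {s : Measure E4} [IsFiniteMeasure s] {φ₁ : E4 → Bil} (hm : Measurable φ₁)
    {B : ℝ} (hB : ∀ y, ‖φ₁ y‖ ≤ B) {b : E4 → Bil} (hb : Continuous b) (hbc : HasCompactSupport b) :
    Integrable (fun y => W (φ₁ y) (b y)) s := by
  obtain ⟨K, hK⟩ := hbc.exists_bound_of_continuous hb
  refine Integrable.of_bound (C := 6 * (B * K)) (measurable_W hm hb.measurable).aestronglyMeasurable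
    (ae_of_all _ fun y => ?_)
  rw [Real.norm_eq_abs]
  refine (Loc5.abs_W_le _ _).trans ?_
  have h1 := hB y
  have h2 := hK y
  have h3 : 0 ≤ B := (norm_nonneg _).trans h1
  gcongr

theorem fderiv_zero_off {ζ : E4 → ℝ} {x : E4} (hx : x ∉ tsupport ζ) : fderiv ℝ ζ x = 0 := by
  have h1 : ζ =ᶠ[𝓝 x] fun _ => 0 := notMem_tsupport_iff_eventuallyEq.mp hx
  rw [h1.fderiv_eq]; simp

/-- `Jc dζ`. -/
def gam (J : E4 → E4 →L[ℝ] E4) (ζ : E4 → ℝ) (x : E4) : Cov := Jc (J x) (fderiv ℝ ζ x)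

theorem gam_smooth (hJ : ContDiff ℝ ∞ J) {ζ : E4 → ℝ} (hζ : ContDiff ℝ ∞ ζ) :
    ContDiff ℝ ∞ (gam J ζ) := contDiff_Jc' hJ (hζ.fderiv_right (m := ∞) le_rfl)

theorem gam_supp {ζ : E4 → ℝ} : tsupport (gam J ζ) ⊆ tsupport ζ :=
  closure_minimal (fun x hx => by
    by_contra h
    refine hx ?_
    show Jc (J x) (fderiv ℝ ζ x) = 0
    rw [fderiv_zero_off h]
    ext v; simp) (isClosed_tsupport ζ)

/-- term 1: closedness tested with `ζ • α`, `ζ` compactly supported. -/
theorem test_cut {s : Measure E4} [IsFiniteMeasure s] {φ₁ : E4 → Bil} (hm : Measurable φ₁)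
    {B : ℝ} (hB : ∀ y, ‖φ₁ y‖ ≤ B) {U : Set E4}
    (hcl : ∀ S : E4 → Cov, ContDiff ℝ ∞ S → HasCompactSupport S → tsupport S ⊆ U →
      ∫ y, W (φ₁ y) (d1 S y) ∂s = 0)
    {ζ : E4 → ℝ} {α : E4 → Cov} (hζ : ContDiff ℝ ∞ ζ) (hζc : HasCompactSupport ζ)
    (hζR : tsupport ζ ⊆ U) (hα : ContDiff ℝ ∞ α) :
    ∫ y, ζ y * W (φ₁ y) (d1 α y) ∂s = - ∫ y, W (φ₁ y) (wed (fderiv ℝ ζ y) (α y)) ∂s := by
  have h1 : HasCompactSupport fun y => ζ y • α y := hζc.smul_right
  have h2 : tsupport (fun y => ζ y • α y) ⊆ U := (tsupport_smul_subset_left ζ α).trans hζR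
  have h3 : HasCompactSupport fun y => ζ y • d1 α y := hζc.smul_right
  exact test_smul hm hB hcl hζ hα h1 h2 h3

/-- term 2: closedness tested with `u • α`, `α` compactly supported. -/
theorem test_cut' {s : Measure E4} [IsFiniteMeasure s] {φ₁ : E4 → Bil} (hm : Measurable φ₁)
    {B : ℝ} (hB : ∀ y, ‖φ₁ y‖ ≤ B) {U : Set E4}
    (hcl : ∀ S : E4 → Cov, ContDiff ℝ ∞ S → HasCompactSupport S → tsupport S ⊆ U →
      ∫ y, W (φ₁ y) (d1 S y) ∂s = 0)
    {u : E4 → ℝ} {α : E4 → Cov} (hu : ContDiff ℝ ∞ u) (hα : ContDiff ℝ ∞ α)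
    (hc : HasCompactSupport α) (hs : tsupport α ⊆ U) :
    ∫ y, u y * W (φ₁ y) (d1 α y) ∂s = - ∫ y, W (φ₁ y) (wed (fderiv ℝ u y) (α y)) ∂s := by
  have h1 : HasCompactSupport fun y => u y • α y :=
    hc.of_isClosed_subset (isClosed_tsupport _) (tsupport_smul_subset_right u α)
  have h2 : tsupport (fun y => u y • α y) ⊆ U := (tsupport_smul_subset_right u α).trans hs
  have hd : HasCompactSupport (d1 α) := hc.of_isClosed_subset (isClosed_tsupport _) (tsupport_d1 _)
  have h3 : HasCompactSupport fun y => u y • d1 α y :=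
    hd.of_isClosed_subset (isClosed_tsupport _) (tsupport_smul_subset_right u (d1 α))
  exact test_smul hm hB hcl hu hα h1 h2 h3

theorem integrable_cut {s : Measure E4} [IsFiniteMeasure s] {φ₁ : E4 → Bil} (hm : Measurable φ₁)
    {B : ℝ} (hB : ∀ y, ‖φ₁ y‖ ≤ B) {ζ : E4 → ℝ} {α : E4 → Cov} (hζ : ContDiff ℝ ∞ ζ)
    (hζc : HasCompactSupport ζ) (hα : ContDiff ℝ ∞ α) :
    Integrable (fun y => ζ y * W (φ₁ y) (d1 α y)) s := by
  have h3 : HasCompactSupport fun y => ζ y • d1 α y := hζc.smul_right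
  have h4 : Continuous fun y => ζ y • d1 α y := hζ.continuous.smul (contDiff_d1 hα).continuous
  have h := integrable_pair (s := s) hm hB h4 h3
  have h5 : (fun y => ζ y * W (φ₁ y) (d1 α y)) = fun y => W (φ₁ y) (ζ y • d1 α y) := by
    funext y
    rw [W_smul_right]
  rw [h5]
  exact h

/-- the identity `∫ ζ W(φ, d(Jc du) + da) = ∫ u W(φ, d Jc dζ) - ∫ W(φ, dζ ∧ a)`. -/
theorem energy_id (hJ : ContDiff ℝ ∞ J) (hC : Cst J F m M L LJ w0 c0 σ)
    {s : Measure E4} [IsFiniteMeasure s] {φ₁ : E4 → Bil} (hm : Measurable φ₁)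
    {B : ℝ} (hB : ∀ y, ‖φ₁ y‖ ≤ B) (pφ : ∀ y, Pos (J y) (φ₁ y)) {U : Set E4}
    (hcl : ∀ S : E4 → Cov, ContDiff ℝ ∞ S → HasCompactSupport S → tsupport S ⊆ U →
      ∫ y, W (φ₁ y) (d1 S y) ∂s = 0) {ζ : E4 → ℝ}
    (hζ : ContDiff ℝ ∞ ζ) (hζc : HasCompactSupport ζ) (hζR : tsupport ζ ⊆ U)
    {u : E4 → ℝ} {a : E4 → Cov} (hu : ContDiff ℝ ∞ u) (ha : ContDiff ℝ ∞ a) :
    ∫ x, ζ x * W (φ₁ x) (d1 (gam J u) x + d1 a x) ∂s =
      ∫ y, u y * W (φ₁ y) (d1 (gam J ζ) y) ∂s - ∫ y, W (φ₁ y) (wed (fderiv ℝ ζ y) (a y)) ∂s := by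
  have hγs : ContDiff ℝ ∞ (gam J ζ) := gam_smooth hJ hζ
  have hβs : ContDiff ℝ ∞ (gam J u) := gam_smooth hJ hu
  have hγc : HasCompactSupport (gam J ζ) := hζc.of_isClosed_subset (isClosed_tsupport _) gam_supp
  have t1 := test_cut hm hB hcl hζ hζc hζR hβs
  have t2 := test_cut hm hB hcl hζ hζc hζR ha
  have t3 := test_cut' hm hB hcl hu hγs hγc (gam_supp.trans hζR)
  have hβγ : ∀ y, W (φ₁ y) (wed (fderiv ℝ ζ y) (gam J u y)) =
      W (φ₁ y) (wed (fderiv ℝ u y) (gam J ζ y)) := fun y => W_wedJ_symm hC (pφ y) _ _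
  have t4 : ∫ y, W (φ₁ y) (wed (fderiv ℝ ζ y) (gam J u y)) ∂s =
      ∫ y, W (φ₁ y) (wed (fderiv ℝ u y) (gam J ζ y)) ∂s :=
    integral_congr_ae (ae_of_all _ hβγ)
  have i1 := integrable_cut (s := s) hm hB hζ hζc hβs
  have i2 := integrable_cut (s := s) hm hB hζ hζc ha
  have h1 : ∫ x, ζ x * W (φ₁ x) (d1 (gam J u) x + d1 a x) ∂s =
      ∫ x, (ζ x * W (φ₁ x) (d1 (gam J u) x) + ζ x * W (φ₁ x) (d1 a x)) ∂s := by
    refine integral_congr_ae (ae_of_all _ fun x => ?_)
    show ζ x * W (φ₁ x) (d1 (gam J u) x + d1 a x) =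
      ζ x * W (φ₁ x) (d1 (gam J u) x) + ζ x * W (φ₁ x) (d1 a x)
    rw [W_add_right, mul_add]
  rw [h1, integral_add i1 i2, t1, t2, t3, t4, ← sub_eq_add_neg]

/-- bound of an integral over the support. -/
theorem integral_bound {s : Measure E4} [IsFiniteMeasure s] {f : E4 → ℝ} {K : ℝ}
    (h : ∀ x, |f x| ≤ K) : |∫ x, f x ∂s| ≤ K * s.real univ := by
  have h1 : ‖∫ x, f x ∂s‖ ≤ K * s.real univ :=
    norm_integral_le_of_norm_le_const (ae_of_all _ fun x => by rw [Real.norm_eq_abs]; exact h x)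
  rwa [Real.norm_eq_abs] at h1

/-- **the energy bound**: the current against its mollification is `O(log(1/e))`. -/
theorem energy (hBg : Bg J F) (hC : Cst J F m M L LJ w0 c0 σ) {x0 : E4} {R : ℝ} (hR : 0 < R)
    {s : Measure E4} [IsFiniteMeasure s] {Cg : ℝ} (hCg : 0 ≤ Cg)
    (hgr : ∀ y r, 0 < r → s (ball y r) ≤ ENNReal.ofReal (Cg * r ^ 2)) (hd : Dens J F φ)
    (hcl : ClosedIn F s φ (ball x0 (2 * R))) {ρ : E4 → ℝ} (hρ : Moll ρ) {ζ : E4 → ℝ}
    (hζ : ContDiff ℝ ∞ ζ) (hζc : HasCompactSupport ζ) (hζR : tsupport ζ ⊆ ball x0 R) :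
    ∃ C e0 : ℝ, 0 ≤ C ∧ 0 < e0 ∧ e0 ≤ 1 / 2 ∧ ∀ e, 0 < e → e ≤ e0 →
      |∫ x, ζ x * W (ph1 σ F φ x) (Ph s (ph1 σ F φ) (Pot.rhoE ρ e) x) ∂s| ≤
        C * Real.log (1 / e) := by
  have hM : 0 < M := (hC.bd 0).M_pos
  have hc0 := hC.c0pos
  have hRR : ball x0 R ⊆ ball x0 (2 * R) := ball_subset_ball (by linarith)
  have hR2 : 2 * R / 2 = R := by ring
  have mφ : Measurable (ph1 σ F φ) := ph1_meas hBg hd
  have bφ := ph1_bound hC hd
  have pφ := ph1_pos hC hd
  have hcl' : ∀ S : E4 → Cov, ContDiff ℝ ∞ S → HasCompactSupport S →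
      tsupport S ⊆ ball x0 (2 * R) → ∫ y, W (ph1 σ F φ y) (d1 S y) ∂s = 0 :=
    fun S hS hSc hSU => ph1_closed hC hcl S hS hSc hSU
  obtain ⟨C1, e1, hC1, he1, hPe⟩ := Pot.p4 J F hBg.smJ hBg.smF hBg.sq hBg.pos x0 (2 * R)
    (by positivity) s inferInstance _ mφ _ 1 bφ one_pos pφ (ph1_tr hC hd)
    hcl' ρ hρ.sm hρ.nn hρ.supp hρ.int
  rw [hR2] at hPe
  generalize ph1 σ F φ = φ₁ at mφ bφ pφ hcl' hPe ⊢
  obtain ⟨B1, hB1, bφ'⟩ : ∃ B1 : ℝ, 0 ≤ B1 ∧ ∀ y, ‖φ₁ y‖ ≤ B1 :=
    ⟨c0⁻¹ * (2 * M), by positivity, bφ⟩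
  clear bφ
  obtain ⟨C2, hC2, hlog⟩ := wE_log s hCg hgr
  have hsr : 0 ≤ s.real univ := measureReal_nonneg
  obtain ⟨K1, hK1, hK1'⟩ : ∃ K1 : ℝ, 0 ≤ K1 ∧ ∀ x, ‖d1 (gam J ζ) x‖ ≤ K1 := by
    have hdγc : HasCompactSupport (d1 (gam J ζ)) :=
      (hζc.of_isClosed_subset (isClosed_tsupport _) gam_supp).of_isClosed_subset
        (isClosed_tsupport _) (tsupport_d1 _)
    obtain ⟨K1, hK1⟩ :=
      hdγc.exists_bound_of_continuous (contDiff_d1 (gam_smooth hBg.smJ hζ)).continuous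
    exact ⟨K1, (norm_nonneg _).trans (hK1 0), hK1⟩
  obtain ⟨K2, hK2, hK2'⟩ : ∃ K2 : ℝ, 0 ≤ K2 ∧ ∀ x, ‖fderiv ℝ ζ x‖ ≤ K2 := by
    have hdζc : HasCompactSupport (fderiv ℝ ζ) := hζc.fderiv (𝕜 := ℝ)
    obtain ⟨K2, hK2⟩ := hdζc.exists_bound_of_continuous
      (hζ.fderiv_right (m := ∞) le_rfl).continuous
    exact ⟨K2, (norm_nonneg _).trans (hK2 0), hK2⟩
  refine ⟨s.real univ * (12 * B1 * K1 * C1 * C2) + s.real univ * (12 * B1 * K2 * C1 * C2),
    min e1 (1 / 2), by positivity, lt_min he1 (by norm_num), min_le_right _ _,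
    fun e he hee => ?_⟩
  have hee1 : e ≤ e1 := hee.trans (min_le_left _ _)
  have hee2 : e ≤ 1 / 2 := hee.trans (min_le_right _ _)
  obtain ⟨u, a, hu, ha, hua⟩ := hPe e he hee1
  have hlg : 0 ≤ Real.log (1 / e) := Real.log_nonneg (by rw [le_div_iff₀ he]; linarith)
  have hwl : ∀ x, 1 + Pot.wE s x0 (2 * R) e 2 x ≤ C2 * Real.log (1 / e) := fun x =>
    hlog x0 (2 * R) e x he hee2
  have hw0 : ∀ x, 0 ≤ Pot.wE s x0 (2 * R) e 2 x := fun x => wE_nonneg s x0 (2 * R) he 2 x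
  obtain ⟨ℓ, hℓ, hℓ0⟩ : ∃ ℓ : ℝ, ℓ = C1 * (C2 * Real.log (1 / e)) ∧ 0 ≤ ℓ :=
    ⟨_, rfl, by positivity⟩
  have hub : ∀ x ∈ ball x0 R, |u x| ≤ 2 * ℓ := by
    intro x hx
    have h1 := hua x hx
    have h2 := hwl x
    have h3 := hw0 x
    have h4 : 0 ≤ Pot.wE s x0 (2 * R) e 2 x / C1 := by positivity
    have h5 : C1 * (1 + Pot.wE s x0 (2 * R) e 2 x) ≤ ℓ := by
      rw [hℓ]
      gcongr
    have h6 : C1 ≤ C1 * (1 + Pot.wE s x0 (2 * R) e 2 x) := le_mul_of_one_le_right hC1.le (by linarith)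
    rw [abs_le]
    constructor <;> linarith [h1.2.1, h1.2.2.1]
  have hab : ∀ x ∈ ball x0 R, ‖a x‖ ≤ ℓ := by
    intro x hx
    refine (hua x hx).2.2.2.1.trans ?_
    have := hwl x
    rw [hℓ]
    gcongr
  have hmain : ∫ x, ζ x * W (φ₁ x) (Ph s φ₁ (Pot.rhoE ρ e) x) ∂s =
      ∫ x, ζ x * W (φ₁ x) (d1 (gam J u) x + d1 a x) ∂s := by
    refine integral_congr_ae (ae_of_all _ fun x => ?_)
    simp only
    by_cases hx : x ∈ tsupport ζ
    · have h2 : Ph s φ₁ (Pot.rhoE ρ e) x = d1 (gam J u) x + d1 a x := (hua x (hζR hx)).1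
      rw [h2]
    · rw [image_eq_zero_of_notMem_tsupport hx, zero_mul, zero_mul]
  rw [hmain, energy_id hBg.smJ hC mφ bφ' pφ hcl' hζ hζc (hζR.trans hRR) hu ha]
  have b1 : |∫ y, u y * W (φ₁ y) (d1 (gam J ζ) y) ∂s| ≤
      2 * ℓ * (6 * (B1 * K1)) * s.real univ := by
    refine integral_bound fun y => ?_
    by_cases hy : y ∈ tsupport ζ
    · rw [abs_mul]
      have h1 := hub y (hζR hy)
      have h2 := Loc5.abs_W_le (φ₁ y) (d1 (gam J ζ) y)
      have h3 := bφ' y
      have h4 := hK1' y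
      have h5 : 6 * (‖φ₁ y‖ * ‖d1 (gam J ζ) y‖) ≤ 6 * (B1 * K1) := by gcongr
      exact mul_le_mul h1 (h2.trans h5) (abs_nonneg _) (by positivity)
    · have h1 : d1 (gam J ζ) y = 0 := d1_zero_off fun h => hy (gam_supp h)
      rw [h1, W_zero_right, mul_zero, abs_zero]
      positivity
  have b2 : |∫ y, W (φ₁ y) (wed (fderiv ℝ ζ y) (a y)) ∂s| ≤
      6 * (B1 * (2 * K2 * ℓ)) * s.real univ := by
    refine integral_bound fun y => ?_
    by_cases hy : y ∈ tsupport ζ
    · refine (Loc5.abs_W_le _ _).trans ?_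
      have h1 := hab y (hζR hy)
      have h2 := norm_wed_le (fderiv ℝ ζ y) (a y)
      have h3 := bφ' y
      have h4 := hK2' y
      have h5 : 2 * ‖fderiv ℝ ζ y‖ * ‖a y‖ ≤ 2 * K2 * ℓ := by gcongr
      have h6 := h2.trans h5
      gcongr
    · rw [fderiv_zero_off hy, wed_zero_left, W_zero_right, abs_zero]
      positivity
  refine (abs_sub _ _).trans ((add_le_add b1 b2).trans (le_of_eq ?_))
  rw [hℓ]
  ring

end main

end

end Crest.Agent.R235.QLog_195
end

-- ▼ part R235/QLog2_195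
section

/-!
Row 235 (S0364), helper195: (Q') for a closed positive current in a ball of `E4` (`LC.qq` of
`CurDefs_132`), from the energy bound of `QLog_195`.
-/

set_option autoImplicit false
set_option maxSynthPendingDepth 3

open MeasureTheory Metric Set Filter Topology
open scoped ContDiff ENNReal

namespace Crest.Agent.R235.QLog_195

open Crest.Agent.R240 Crest.Agent.R240.En Crest.Agent.R240.Loc5

noncomputable section

section main

variable {J : E4 → E4 →L[ℝ] E4} {F : E4 → Bil} {φ : E4 → Bil} {m M L LJ w0 c0 σ : ℝ}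

/-- the constant of the lower bound. -/
def cA (m M L LJ c0 : ℝ) : ℝ := L ^ 2 * LJ * (c0⁻¹ * (2 * M)) / m

theorem LJ_nonneg (hC : Cst J F m M L LJ w0 c0 σ) : 0 ≤ LJ := (norm_nonneg _).trans (hC.nJ 0)

theorem w0_nonneg (hC : Cst J F m M L LJ w0 c0 σ) : 0 ≤ w0 :=
  hC.c0pos.le.trans ((hC.lo 0).trans (hC.hi 0))

theorem cA_nonneg (hC : Cst J F m M L LJ w0 c0 σ) : 0 ≤ cA m M L LJ c0 := by
  have h1 := LJ_nonneg hC
  have h2 := (hC.bd 0).m_pos
  have h3 := (hC.bd 0).M_pos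
  have h4 := hC.c0pos
  unfold cA
  positivity

/-- `g(x,y) = q_x(φ_x, φ₁_y) + A |x-y|²`. -/
def gg (A σ : ℝ) (F φ : E4 → Bil) (x y : E4) : ℝ :=
  q (F x) (φ x) (ph1 σ F φ y) + A * ‖x - y‖ ^ 2

theorem gg_nonneg (hC : Cst J F m M L LJ w0 c0 σ) (hd : Dens J F φ) (x y : E4) :
    0 ≤ gg (cA m M L LJ c0) σ F φ x y := by
  have h1 := q_near (hC.bd x) (hC.bd y).sq (hd.pos x) (ph1_pos hC hd y)
  rw [hd.nrm x, mul_one] at h1
  have hm := (hC.bd x).m_pos
  have h2 : ‖J x - J y‖ ^ 2 ≤ L ^ 2 * ‖x - y‖ ^ 2 := by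
    rw [← mul_pow]
    exact pow_le_pow_left₀ (norm_nonneg _) (hC.lip x y) 2
  have h3 : ‖J x - J y‖ ^ 2 * ‖J y‖ * ‖ph1 σ F φ y‖ / m ≤ cA m M L LJ c0 * ‖x - y‖ ^ 2 := by
    unfold cA
    rw [div_mul_eq_mul_div]
    refine div_le_div_of_nonneg_right ?_ hm.le
    have h4 := hC.nJ y
    have h5 := ph1_bound hC hd y
    have h6 := LJ_nonneg hC
    calc ‖J x - J y‖ ^ 2 * ‖J y‖ * ‖ph1 σ F φ y‖
        ≤ (L ^ 2 * ‖x - y‖ ^ 2) * LJ * (c0⁻¹ * (2 * M)) := by gcongr
      _ = _ := by ring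
  unfold gg
  linarith

theorem q_ph1 (hC : Cst J F m M L LJ w0 c0 σ) (x : E4) (c : Bil) :
    q (F x) (φ x) c = σ * W (ph1 σ F φ x) c := by
  rw [W_ph1 hC.sg, ← mul_assoc, sigma_sq hC.sg, one_mul]

theorem q_q1 (hC : Cst J F m M L LJ w0 c0 σ) (x y : E4) :
    q (F x) (φ x) (φ y) = σ * W (F y) (F y) * q (F x) (φ x) (ph1 σ F φ y) := by
  have h1 : σ * W (F y) (F y) ≠ 0 := (hC.c0pos.trans_le (hC.lo y)).ne'
  unfold ph1
  rw [q_smul_right, ← mul_assoc, mul_inv_cancel₀ h1, one_mul]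

theorem abs_q_le_gg (hC : Cst J F m M L LJ w0 c0 σ) (hd : Dens J F φ) (x y : E4) :
    |q (F x) (φ x) (φ y)| ≤ w0 * (gg (cA m M L LJ c0) σ F φ x y +
      cA m M L LJ c0 * ‖x - y‖ ^ 2) := by
  have hA := cA_nonneg hC
  have h0 := gg_nonneg hC hd x y
  have h1 : 0 ≤ σ * W (F y) (F y) := hC.c0pos.le.trans (hC.lo y)
  rw [q_q1 hC, abs_mul, abs_of_nonneg h1]
  have h2 : 0 ≤ cA m M L LJ c0 * ‖x - y‖ ^ 2 := by positivity
  have h3 : |q (F x) (φ x) (ph1 σ F φ y)| ≤ gg (cA m M L LJ c0) σ F φ x y +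
      cA m M L LJ c0 * ‖x - y‖ ^ 2 := by
    have h4 : q (F x) (φ x) (ph1 σ F φ y) = gg (cA m M L LJ c0) σ F φ x y -
      cA m M L LJ c0 * ‖x - y‖ ^ 2 := by unfold gg; ring
    rw [h4, abs_le]
    constructor <;> linarith
  exact mul_le_mul (hC.hi y) h3 (abs_nonneg _) (w0_nonneg hC)

theorem abs_q_bound (hC : Cst J F m M L LJ w0 c0 σ) (hd : Dens J F φ) (x y : E4) :
    |q (F x) (φ x) (φ y)| ≤ w0 * (6 * ((c0⁻¹ * (2 * M)) * (c0⁻¹ * (2 * M)))) := by
  have h1 : 0 ≤ σ * W (F y) (F y) := hC.c0pos.le.trans (hC.lo y)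
  rw [q_q1 hC, abs_mul, abs_of_nonneg h1, q_ph1 hC, abs_mul]
  have h2 : |σ| = 1 := by
    rcases hC.sg with h | h <;> rw [h] <;> norm_num
  rw [h2, one_mul]
  have h3 := Loc5.abs_W_le (ph1 σ F φ x) (ph1 σ F φ y)
  have h4 := ph1_bound hC hd x
  have h5 := ph1_bound hC hd y
  have h6 : 6 * (‖ph1 σ F φ x‖ * ‖ph1 σ F φ y‖) ≤ 6 * ((c0⁻¹ * (2 * M)) * (c0⁻¹ * (2 * M))) := by
    have h7 : 0 ≤ c0⁻¹ * (2 * M) := (norm_nonneg _).trans h4
    gcongr
  exact mul_le_mul (hC.hi y) (h3.trans h6) (abs_nonneg _) (w0_nonneg hC)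

theorem gg_meas (hB : Bg J F) (hd : Dens J F φ) (A : ℝ) (x : E4) :
    Measurable fun y => gg A σ F φ x y := by
  unfold gg q
  have h1 : Measurable fun y => W (φ x) (ph1 σ F φ y) :=
    measurable_W measurable_const (ph1_meas hB hd)
  have h2 : Measurable fun y : E4 => A * ‖x - y‖ ^ 2 := by fun_prop
  exact (h1.div_const _).add h2


/-- measurability of the mollification. -/
theorem Ph_meas {s : Measure E4} [IsFiniteMeasure s] {φ₁ : E4 → Bil} (hφ : Measurable φ₁) {e : ℝ}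
    {k : E4 → ℝ} (hk : Ker e k) : Measurable (Ph s φ₁ k) := by
  have h1 : Measurable fun z : E4 × E4 => k (z.1 - z.2) • φ₁ z.2 :=
    (hk.cont.measurable.comp (measurable_fst.sub measurable_snd)).smul (hφ.comp measurable_snd)
  have h2 : StronglyMeasurable (Function.uncurry fun (x : E4) (y : E4) => k (x - y) • φ₁ y) :=
    h1.stronglyMeasurable
  exact (h2.integral_prod_right (ν := s)).measurable

/-- the mollifier against `g(x, ·)`. -/
theorem moll_gg (hB : Bg J F) (hC : Cst J F m M L LJ w0 c0 σ) (hd : Dens J F φ)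
    {s : Measure E4} [IsFiniteMeasure s] {Cg : ℝ} (hCg : 0 ≤ Cg)
    (hgr : ∀ y r, 0 < r → s (ball y r) ≤ ENNReal.ofReal (Cg * r ^ 2))
    {ρ : E4 → ℝ} (hρ : Moll ρ) {κ : ℝ} (hκ : 0 < κ) (hκ' : ∀ z, ‖z‖ ≤ 1 / 2 → κ ≤ ρ z)
    {B : ℝ} (hB0 : 0 ≤ B) (hBρ : ∀ e, 0 < e → ∀ z, Pot.rhoE ρ e z ≤ B * (e ^ 4)⁻¹)
    {e : ℝ} (he : 0 < e) (x : E4) :
    κ * (e ^ 4)⁻¹ * ∫ y in ball x (e / 2), gg (cA m M L LJ c0) σ F φ x y ∂s ≤
      σ * W (ph1 σ F φ x) (Ph s (ph1 σ F φ) (Pot.rhoE ρ e) x) + cA m M L LJ c0 * (B * Cg) := by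
  have hk := hρ.ker he
  set A := cA m M L LJ c0 with hA
  have hA0 : 0 ≤ A := cA_nonneg hC
  have mφ : Measurable (ph1 σ F φ) := ph1_meas hB hd
  have bφ := ph1_bound hC hd
  set k := Pot.rhoE ρ e with hk'
  -- integrability
  have ig1 : Integrable (fun y => k (x - y) * (σ * W (ph1 σ F φ x) (ph1 σ F φ y))) s := by
    refine Integrable.of_bound (C := B * (e ^ 4)⁻¹ * (6 * ((c0⁻¹ * (2 * M)) * (c0⁻¹ * (2 * M)))))
      ?_ (ae_of_all _ fun y => ?_)
    · have h1 : Measurable fun y => k (x - y) := hk.cont.measurable.comp (by fun_prop)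
      have h2 : Measurable fun y => W (ph1 σ F φ x) (ph1 σ F φ y) :=
        measurable_W measurable_const mφ
      exact (h1.mul (h2.const_mul σ)).aestronglyMeasurable
    · rw [Real.norm_eq_abs, abs_mul, abs_of_nonneg (hk.nonneg _), abs_mul]
      have h2 : |σ| = 1 := by rcases hC.sg with h | h <;> rw [h] <;> norm_num
      rw [h2, one_mul]
      have h3 := Loc5.abs_W_le (ph1 σ F φ x) (ph1 σ F φ y)
      have h4 := bφ x
      have h5 := bφ y
      have h6 : 6 * (‖ph1 σ F φ x‖ * ‖ph1 σ F φ y‖) ≤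
          6 * ((c0⁻¹ * (2 * M)) * (c0⁻¹ * (2 * M))) := by
        have h7 : 0 ≤ c0⁻¹ * (2 * M) := (norm_nonneg _).trans h4
        gcongr
      exact mul_le_mul (hBρ e he _) (h3.trans h6) (abs_nonneg _) (by positivity)
  have hkd : ∀ y, k (x - y) * (A * ‖x - y‖ ^ 2) ≤ A * e ^ 2 * k (x - y) := by
    intro y
    by_cases hy : ‖x - y‖ < e
    · have h1 : ‖x - y‖ ^ 2 ≤ e ^ 2 := pow_le_pow_left₀ (norm_nonneg _) hy.le 2
      have h2 := hk.nonneg (x - y)
      calc k (x - y) * (A * ‖x - y‖ ^ 2) ≤ k (x - y) * (A * e ^ 2) := by gcongr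
        _ = _ := by ring
    · rw [hk.supp _ (not_lt.1 hy)]
      simp
  have ik := integrable_k (s := s) hk x
  have ig2 : Integrable (fun y => k (x - y) * (A * ‖x - y‖ ^ 2)) s := by
    refine (ik.const_mul (A * e ^ 2)).mono' ?_ (ae_of_all _ fun y => ?_)
    · have h1 : Measurable fun y => k (x - y) := hk.cont.measurable.comp (by fun_prop)
      have h2 : Measurable fun y : E4 => A * ‖x - y‖ ^ 2 := by fun_prop
      exact (h1.mul h2).aestronglyMeasurable
    · have h2 := hk.nonneg (x - y)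
      rw [Real.norm_of_nonneg (by positivity)]
      exact hkd y
  have hpt : ∀ y, k (x - y) * gg A σ F φ x y =
      k (x - y) * (σ * W (ph1 σ F φ x) (ph1 σ F φ y)) + k (x - y) * (A * ‖x - y‖ ^ 2) := by
    intro y
    unfold gg
    rw [q_ph1 hC]
    ring
  have igg : Integrable (fun y => k (x - y) * gg A σ F φ x y) s := by
    simp_rw [hpt]
    exact ig1.add ig2
  -- the left side
  have h1 : κ * (e ^ 4)⁻¹ * ∫ y in ball x (e / 2), gg A σ F φ x y ∂s ≤
      ∫ y, k (x - y) * gg A σ F φ x y ∂s := by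
    rw [← integral_const_mul]
    refine le_trans ?_ (setIntegral_le_integral (s := ball x (e / 2)) igg (ae_of_all _ fun y => ?_))
    · refine integral_mono_of_nonneg (ae_of_all _ fun y => ?_) igg.integrableOn ?_
      · have := gg_nonneg hC hd x y
        show 0 ≤ κ * (e ^ 4)⁻¹ * gg A σ F φ x y
        positivity
      · refine (ae_restrict_iff' measurableSet_ball).2 (ae_of_all _ fun y hy => ?_)
        refine mul_le_mul_of_nonneg_right ?_ (gg_nonneg hC hd x y)
        rw [hk']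
        unfold Pot.rhoE
        rw [mul_comm κ]
        refine mul_le_mul_of_nonneg_left (hκ' _ ?_) (by positivity)
        rw [mem_ball, dist_comm, dist_eq_norm] at hy
        rw [norm_smul, Real.norm_of_nonneg (by positivity), inv_mul_eq_div, div_le_iff₀ he]
        linarith
    · exact mul_nonneg (hk.nonneg _) (gg_nonneg hC hd x y)
  refine h1.trans ?_
  simp_rw [hpt]
  rw [integral_add ig1 ig2]
  have h2 : ∫ y, k (x - y) * (σ * W (ph1 σ F φ x) (ph1 σ F φ y)) ∂s =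
      σ * W (ph1 σ F φ x) (Ph s (ph1 σ F φ) k x) := by
    rw [W_comm, W_Ph mφ bφ hk, ← integral_const_mul]
    refine integral_congr_ae (ae_of_all _ fun y => ?_)
    show k (x - y) * (σ * W (ph1 σ F φ x) (ph1 σ F φ y)) =
      σ * (k (x - y) * W (ph1 σ F φ y) (ph1 σ F φ x))
    rw [W_comm (ph1 σ F φ x)]
    ring
  have h3 : ∫ y, k (x - y) * (A * ‖x - y‖ ^ 2) ∂s ≤ A * (B * Cg) := by
    refine (integral_mono ig2 (ik.const_mul (A * e ^ 2)) hkd).trans ?_
    rw [integral_const_mul]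
    have h4 := pe_le (s := s) (B := 1) zero_le_one hk he (hBρ e he) hB0 hCg hgr x
    unfold pe at h4
    rw [one_mul, one_mul] at h4
    calc A * e ^ 2 * ∫ y, k (x - y) ∂s = A * (e ^ 2 * ∫ y, k (x - y) ∂s) := by ring
      _ ≤ A * (B * Cg) := by gcongr
  rw [h2]
  linarith

set_option maxHeartbeats 1000000 in
/-- **(Q') on a ball**, closedness on `ball x0 (2R)`, estimate on a compact subset of `ball x0 R`. -/
theorem qq_ball (hB : Bg J F) (hC : Cst J F m M L LJ w0 c0 σ) (hd : Dens J F φ)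
    {s : Measure E4} [IsFiniteMeasure s] {Cg : ℝ} (hCg : 0 ≤ Cg)
    (hgr : ∀ y r, 0 < r → s (ball y r) ≤ ENNReal.ofReal (Cg * r ^ 2)) {x0 : E4} {R : ℝ}
    (hR : 0 < R) (hcl : ClosedIn F s φ (ball x0 (2 * R))) {K : Set E4} (hK : IsClosed K)
    (hKR : K ⊆ ball x0 R) :
    ∃ Q : ℝ, 0 ≤ Q ∧ ∀ r, 0 < r → r ≤ 1 →
      ∫ x in K, ∫ y in ball x r, |q (F x) (φ x) (φ y)| ∂s ∂s ≤
        Q * (r ^ 4 * (1 + |Real.log r|)) := by
  obtain ⟨ρ, κ, hρ, hκ, hκ'⟩ := exists_moll'
  obtain ⟨B, hB0, hBρ⟩ := hρ.bound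
  obtain ⟨ζ0, hζ0, hζ0c, hζ0R, hζ0K⟩ := exists_cut hR hK hKR
  -- a nonnegative cut-off
  obtain ⟨ζ, hζ, hζc, hζR, hζK, hζn⟩ : ∃ ζ : E4 → ℝ, ContDiff ℝ ∞ ζ ∧ HasCompactSupport ζ ∧
      tsupport ζ ⊆ ball x0 R ∧ (∀ x ∈ K, ζ x = 1) ∧ ∀ x, 0 ≤ ζ x := by
    have h1 : tsupport (fun x => ζ0 x ^ 2) ⊆ tsupport ζ0 := by
      refine closure_mono fun x hx => ?_
      rw [Function.mem_support] at hx ⊢
      intro h
      exact hx (by rw [h]; norm_num)
    refine ⟨fun x => ζ0 x ^ 2, hζ0.pow 2, hζ0c.of_isClosed_subset (isClosed_tsupport _) h1,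
      h1.trans hζ0R, fun x hx => ?_, fun x => sq_nonneg _⟩
    show ζ0 x ^ 2 = 1
    rw [hζ0K x hx]; norm_num
  obtain ⟨C1, e0, hC1, he0, he0', hen⟩ := energy hB hC hR hCg hgr hd hcl hρ hζ hζc hζR
  set A := cA m M L LJ c0 with hA
  have hA0 : 0 ≤ A := cA_nonneg hC
  have hw0 := w0_nonneg hC
  have mφ : Measurable (ph1 σ F φ) := ph1_meas hB hd
  have bφ := ph1_bound hC hd
  have hsr : 0 ≤ s.real univ := measureReal_nonneg
  obtain ⟨Z, hZ⟩ := hζc.exists_bound_of_continuous hζ.continuous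
  have hZ0 : 0 ≤ Z := (norm_nonneg _).trans (hZ x0)
  have hζZ : ∀ x, ζ x ≤ Z := fun x => (le_abs_self _).trans (hZ x)
  have iζ : Integrable ζ s := Integrable.of_bound hζ.continuous.aestronglyMeasurable Z
    (ae_of_all _ hZ)
  have iζle : ∫ x, ζ x ∂s ≤ Z * s.real univ := by
    have h := integral_mono iζ (integrable_const Z) hζZ
    rwa [integral_const, smul_eq_mul, mul_comm] at h
  have iζ0 : 0 ≤ ∫ x, ζ x ∂s := integral_nonneg hζn
  set Bq : ℝ := w0 * (6 * ((c0⁻¹ * (2 * M)) * (c0⁻¹ * (2 * M)))) with hBq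
  have hBq0 : 0 ≤ Bq := (abs_nonneg _).trans (abs_q_bound hC hd x0 x0)
  -- the two constants
  set Q1 : ℝ := w0 * (16 / κ) * (C1 + A * (B * Cg) * (Z * s.real univ)) +
    w0 * A * Cg * s.real univ with hQ1
  set Q2 : ℝ := Bq * s.real univ * s.real univ * (2 / e0) ^ 4 with hQ2
  have hQ10 : 0 ≤ Q1 := by positivity
  have hQ20 : 0 ≤ Q2 := by positivity
  refine ⟨Q1 + Q2, by positivity, fun r hr hr1 => ?_⟩
  have hlr : 0 ≤ |Real.log r| := abs_nonneg _
  have hr4 : 0 ≤ r ^ 4 * (1 + |Real.log r|) := by positivity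
  by_cases hre : 2 * r ≤ e0
  · -- small r
    have he : 0 < 2 * r := by positivity
    have hpt := moll_gg hB hC hd hCg hgr hρ hκ hκ' hB0 hBρ he
    have hm : ∀ x, 0 ≤ σ * W (ph1 σ F φ x) (Ph s (ph1 σ F φ) (Pot.rhoE ρ (2 * r)) x) +
        A * (B * Cg) := fun x =>
      le_trans (mul_nonneg (by positivity) (integral_nonneg fun y => gg_nonneg hC hd x y)) (hpt x)
    have hin : ∀ x, ∫ y in ball x r, |q (F x) (φ x) (φ y)| ∂s ≤
        w0 * ((16 * r ^ 4 / κ) * (σ * W (ph1 σ F φ x) (Ph s (ph1 σ F φ) (Pot.rhoE ρ (2 * r)) x) +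
          A * (B * Cg))) + w0 * A * Cg * r ^ 4 := by
      intro x
      have hpx := hpt x
      rw [show 2 * r / 2 = r by ring] at hpx
      have ig : IntegrableOn (fun y => gg A σ F φ x y) (ball x r) s := by
        refine Integrable.of_bound (C := 1 * (6 * ((c0⁻¹ * (2 * M)) * (c0⁻¹ * (2 * M)))) + A * r ^ 2)
          (gg_meas hB hd A x).aestronglyMeasurable ?_
        refine (ae_restrict_iff' measurableSet_ball).2 (ae_of_all _ fun y hy => ?_)
        rw [mem_ball, dist_comm, dist_eq_norm] at hy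
        unfold gg
        refine (norm_add_le _ _).trans (add_le_add ?_ ?_)
        · rw [Real.norm_eq_abs, q_ph1 hC, abs_mul]
          have h2 : |σ| ≤ 1 := by rcases hC.sg with h | h <;> rw [h] <;> norm_num
          have h3 := Loc5.abs_W_le (ph1 σ F φ x) (ph1 σ F φ y)
          have h4 := bφ x
          have h5 := bφ y
          have h6 : 6 * (‖ph1 σ F φ x‖ * ‖ph1 σ F φ y‖) ≤
              6 * ((c0⁻¹ * (2 * M)) * (c0⁻¹ * (2 * M))) := by
            have h7 : 0 ≤ c0⁻¹ * (2 * M) := (norm_nonneg _).trans h4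
            gcongr
          exact mul_le_mul h2 (h3.trans h6) (abs_nonneg _) zero_le_one
        · rw [Real.norm_of_nonneg (by positivity)]
          gcongr
      have i2 : IntegrableOn (fun y => w0 * (gg A σ F φ x y + A * r ^ 2)) (ball x r) s :=
        (ig.add (integrable_const _)).const_mul _
      have h1 : ∫ y in ball x r, |q (F x) (φ x) (φ y)| ∂s ≤
          ∫ y in ball x r, w0 * (gg A σ F φ x y + A * r ^ 2) ∂s := by
        refine integral_mono_of_nonneg (ae_of_all _ fun y => abs_nonneg _) i2 ?_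
        refine (ae_restrict_iff' measurableSet_ball).2 (ae_of_all _ fun y hy => ?_)
        rw [mem_ball, dist_comm, dist_eq_norm] at hy
        refine (abs_q_le_gg hC hd x y).trans ?_
        have h5 : A * ‖x - y‖ ^ 2 ≤ A * r ^ 2 := by gcongr
        exact mul_le_mul_of_nonneg_left (by linarith) hw0
      refine h1.trans ?_
      rw [integral_const_mul, integral_add ig (integrable_const _), setIntegral_const, smul_eq_mul]
      have h2 : ∫ y in ball x r, gg A σ F φ x y ∂s ≤ (16 * r ^ 4 / κ) *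
          (σ * W (ph1 σ F φ x) (Ph s (ph1 σ F φ) (Pot.rhoE ρ (2 * r)) x) + A * (B * Cg)) := by
        have h3 : κ * ((2 * r) ^ 4)⁻¹ * ((16 * r ^ 4 / κ) * ∫ y in ball x r, gg A σ F φ x y ∂s) =
            ∫ y in ball x r, gg A σ F φ x y ∂s := by
          field_simp
          ring
        calc ∫ y in ball x r, gg A σ F φ x y ∂s
            = (16 * r ^ 4 / κ) * (κ * ((2 * r) ^ 4)⁻¹ * ∫ y in ball x r, gg A σ F φ x y ∂s) := by
              field_simp
              ring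
          _ ≤ _ := by gcongr
      have h3 : s.real (ball x r) ≤ Cg * r ^ 2 :=
        ENNReal.toReal_le_of_le_ofReal (by positivity) (hgr x r hr)
      calc w0 * (∫ y in ball x r, gg A σ F φ x y ∂s + s.real (ball x r) * (A * r ^ 2))
          ≤ w0 * ((16 * r ^ 4 / κ) *
          (σ * W (ph1 σ F φ x) (Ph s (ph1 σ F φ) (Pot.rhoE ρ (2 * r)) x) + A * (B * Cg)) +
            Cg * r ^ 2 * (A * r ^ 2)) := by gcongr
        _ = _ := by ring
    -- the dominating function
    have mP := Ph_meas (s := s) mφ (hρ.ker he)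
    have mW : Measurable fun x => W (ph1 σ F φ x) (Ph s (ph1 σ F φ) (Pot.rhoE ρ (2 * r)) x) :=
      measurable_W mφ mP
    have bP : ∀ x, ‖Ph s (ph1 σ F φ) (Pot.rhoE ρ (2 * r)) x‖ ≤
        B * ((2 * r) ^ 4)⁻¹ * (c0⁻¹ * (2 * M)) * s.real univ := by
      intro x
      unfold Ph
      refine norm_integral_le_of_norm_le_const (ae_of_all _ fun y => ?_)
      rw [norm_smul, Real.norm_of_nonneg ((hρ.ker he).nonneg _)]
      exact mul_le_mul (hBρ _ he _) (bφ y) (norm_nonneg _) (by positivity)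
    have iT : Integrable (fun x => ζ x * W (ph1 σ F φ x)
        (Ph s (ph1 σ F φ) (Pot.rhoE ρ (2 * r)) x)) s := by
      refine Integrable.of_bound (C := Z * (6 * ((c0⁻¹ * (2 * M)) *
        (B * ((2 * r) ^ 4)⁻¹ * (c0⁻¹ * (2 * M)) * s.real univ))))
        (hζ.continuous.measurable.mul mW).aestronglyMeasurable (ae_of_all _ fun x => ?_)
      rw [norm_mul]
      refine mul_le_mul (hZ x) ?_ (norm_nonneg _) hZ0
      rw [Real.norm_eq_abs]
      refine (Loc5.abs_W_le _ _).trans ?_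
      have h4 := bφ x
      have h5 := bP x
      have h7 : 0 ≤ c0⁻¹ * (2 * M) := (norm_nonneg _).trans h4
      gcongr
    obtain ⟨T, hT⟩ : ∃ T : E4 → ℝ, T = fun x => ζ x * W (ph1 σ F φ x)
        (Ph s (ph1 σ F φ) (Pot.rhoE ρ (2 * r)) x) := ⟨_, rfl⟩
    have hTx : ∀ x, T x = ζ x * W (ph1 σ F φ x) (Ph s (ph1 σ F φ) (Pot.rhoE ρ (2 * r)) x) :=
      fun x => by rw [hT]
    have hTe : |∫ x, T x ∂s| ≤ C1 * Real.log (1 / (2 * r)) := by
      rw [hT]
      exact hen _ he hre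
    rw [← hT] at iT
    obtain ⟨c1, hc1⟩ : ∃ c1 : ℝ, c1 = w0 * (16 * r ^ 4 / κ) := ⟨_, rfl⟩
    have hc10 : 0 ≤ c1 := by rw [hc1]; positivity
    obtain ⟨G, hG⟩ : ∃ G : E4 → ℝ, G = fun x =>
      c1 * (σ * T x + A * (B * Cg) * ζ x) + w0 * A * Cg * r ^ 4 := ⟨_, rfl⟩
    have iG : Integrable G s := by
      rw [hG]
      exact (((iT.const_mul σ).add (iζ.const_mul _)).const_mul c1).add (integrable_const _)
    have hG0 : ∀ x, 0 ≤ G x := by
      intro x
      have h1 := mul_nonneg (hζn x) (hm x)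
      have h2 : G x = c1 * (ζ x * (σ * W (ph1 σ F φ x)
          (Ph s (ph1 σ F φ) (Pot.rhoE ρ (2 * r)) x) + A * (B * Cg))) + w0 * A * Cg * r ^ 4 := by
        rw [hG]
        show c1 * (σ * T x + A * (B * Cg) * ζ x) + w0 * A * Cg * r ^ 4 = _
        rw [hTx]
        ring
      rw [h2]
      positivity
    have hGK : ∀ x ∈ K, ∫ y in ball x r, |q (F x) (φ x) (φ y)| ∂s ≤ G x := by
      intro x hx
      refine (hin x).trans (le_of_eq ?_)
      rw [hG]
      show _ = c1 * (σ * T x + A * (B * Cg) * ζ x) + w0 * A * Cg * r ^ 4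
      rw [hTx, hζK x hx, hc1]
      ring
    have h1 : ∫ x in K, ∫ y in ball x r, |q (F x) (φ x) (φ y)| ∂s ∂s ≤ ∫ x in K, G x ∂s := by
      refine integral_mono_of_nonneg (ae_of_all _ fun x => integral_nonneg fun y => abs_nonneg _)
        iG.integrableOn ?_
      exact (ae_restrict_iff' hK.measurableSet).2 (ae_of_all _ hGK)
    have h2 : ∫ x in K, G x ∂s ≤ ∫ x, G x ∂s := setIntegral_le_integral iG (ae_of_all _ hG0)
    have h3 : ∫ x, G x ∂s = c1 * (σ * ∫ x, T x ∂s + A * (B * Cg) * ∫ x, ζ x ∂s) +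
        w0 * A * Cg * r ^ 4 * s.real univ := by
      have j1 : Integrable (fun x => σ * T x) s := iT.const_mul σ
      have j2 : Integrable (fun x => A * (B * Cg) * ζ x) s := iζ.const_mul _
      have j3 : Integrable (fun x => c1 * (σ * T x + A * (B * Cg) * ζ x)) s :=
        (j1.add j2).const_mul c1
      rw [hG, integral_add j3 (integrable_const _), integral_const_mul, integral_add j1 j2,
        integral_const_mul, integral_const_mul, integral_const, smul_eq_mul]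
      ring
    have h4 : σ * ∫ x, T x ∂s ≤ C1 * |Real.log r| := by
      have h5 : σ * ∫ x, T x ∂s ≤ |∫ x, T x ∂s| := by
        refine (le_abs_self _).trans (le_of_eq ?_)
        rw [abs_mul]
        rcases hC.sg with h | h <;> rw [h] <;> norm_num
      have h6 : Real.log (1 / (2 * r)) ≤ |Real.log r| := by
        rw [one_div, Real.log_inv, Real.log_mul (by norm_num) hr.ne']
        have h7 : 0 < Real.log 2 := Real.log_pos (by norm_num)
        have h8 := neg_le_abs (Real.log r)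
        linarith
      exact h5.trans (hTe.trans (mul_le_mul_of_nonneg_left h6 hC1))
    have h5 : A * (B * Cg) * ∫ x, ζ x ∂s ≤ A * (B * Cg) * (Z * s.real univ) := by gcongr
    calc ∫ x in K, ∫ y in ball x r, |q (F x) (φ x) (φ y)| ∂s ∂s
        ≤ c1 * (σ * ∫ x, T x ∂s + A * (B * Cg) * ∫ x, ζ x ∂s) +
          w0 * A * Cg * r ^ 4 * s.real univ := h1.trans (h2.trans (le_of_eq h3))
      _ ≤ c1 * (C1 * |Real.log r| + A * (B * Cg) * (Z * s.real univ)) +
          w0 * A * Cg * r ^ 4 * s.real univ := by gcongr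
      _ ≤ c1 * ((C1 + A * (B * Cg) * (Z * s.real univ)) * (1 + |Real.log r|)) +
          w0 * A * Cg * r ^ 4 * s.real univ * (1 + |Real.log r|) := by
        have h6 : 0 ≤ A * (B * Cg) * (Z * s.real univ) := by positivity
        have h7 : 0 ≤ w0 * A * Cg * r ^ 4 * s.real univ := by positivity
        have h8 : C1 * |Real.log r| + A * (B * Cg) * (Z * s.real univ) ≤
            (C1 + A * (B * Cg) * (Z * s.real univ)) * (1 + |Real.log r|) := by
          have h9 := mul_nonneg h6 hlr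
          nlinarith
        have h10 := mul_nonneg h7 hlr
        have h11 := mul_le_mul_of_nonneg_left h8 hc10
        linarith
      _ = Q1 * (r ^ 4 * (1 + |Real.log r|)) := by
        rw [hQ1, hc1]
        ring
      _ ≤ (Q1 + Q2) * (r ^ 4 * (1 + |Real.log r|)) := by
        refine mul_le_mul_of_nonneg_right ?_ hr4
        linarith
  · push Not at hre
    have h1 : ∀ x, ∫ y in ball x r, |q (F x) (φ x) (φ y)| ∂s ≤ Bq * s.real univ := by
      intro x
      have h2 : ∫ y in ball x r, |q (F x) (φ x) (φ y)| ∂s ≤ ∫ _y in ball x r, Bq ∂s :=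
        integral_mono_of_nonneg (ae_of_all _ fun y => abs_nonneg _) (integrable_const _)
          (ae_of_all _ fun y => abs_q_bound hC hd x y)
      rw [setIntegral_const, smul_eq_mul] at h2
      have h3 : s.real (ball x r) ≤ s.real univ := measureReal_mono (subset_univ _)
      calc _ ≤ s.real (ball x r) * Bq := h2
        _ ≤ s.real univ * Bq := by gcongr
        _ = _ := mul_comm _ _
    have h2 : ∫ x in K, ∫ y in ball x r, |q (F x) (φ x) (φ y)| ∂s ∂s ≤
        ∫ _x in K, Bq * s.real univ ∂s :=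
      integral_mono_of_nonneg (ae_of_all _ fun x => integral_nonneg fun y => abs_nonneg _)
        (integrable_const _) (ae_of_all _ h1)
    rw [setIntegral_const, smul_eq_mul] at h2
    have h3 : s.real K ≤ s.real univ := measureReal_mono (subset_univ _)
    have h4 : 1 ≤ (2 / e0) ^ 4 * r ^ 4 := by
      rw [← mul_pow]
      refine one_le_pow₀ ?_
      rw [div_mul_eq_mul_div, le_div_iff₀ he0]
      linarith
    calc _ ≤ s.real K * (Bq * s.real univ) := h2
      _ ≤ s.real univ * (Bq * s.real univ) := by gcongr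
      _ = Bq * s.real univ * s.real univ * 1 := by ring
      _ ≤ Bq * s.real univ * s.real univ * ((2 / e0) ^ 4 * r ^ 4) := by gcongr
      _ = Q2 * r ^ 4 := by rw [hQ2]; ring
      _ ≤ Q2 * (r ^ 4 * (1 + |Real.log r|)) := by
        refine mul_le_mul_of_nonneg_left ?_ hQ20
        have : 0 ≤ r ^ 4 := by positivity
        nlinarith
      _ ≤ (Q1 + Q2) * (r ^ 4 * (1 + |Real.log r|)) := by
        refine mul_le_mul_of_nonneg_right ?_ hr4
        linarith

/-- measurability of the inner integral. -/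
theorem in_meas (hB : Bg J F) (hd : Dens J F φ) {s : Measure E4} [IsFiniteMeasure s] (r : ℝ) :
    Measurable fun x => ∫ y in ball x r, |q (F x) (φ x) (φ y)| ∂s := by
  have h1 : Measurable fun z : E4 × E4 => |q (F z.1) (φ z.1) (φ z.2)| := by
    unfold q
    have h2 : Measurable fun z : E4 × E4 => W (φ z.1) (φ z.2) :=
      measurable_W (hd.meas.comp measurable_fst) (hd.meas.comp measurable_snd)
    have h3 : Measurable fun z : E4 × E4 => W (F z.1) (F z.1) :=
      (continuous_WW hB).measurable.comp measurable_fst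
    exact (h2.div h3).abs
  have h4 : MeasurableSet {z : E4 × E4 | dist z.2 z.1 < r} :=
    (isOpen_lt (by fun_prop) continuous_const).measurableSet
  have h5 := h1.indicator h4
  have h6 : StronglyMeasurable (Function.uncurry fun (x : E4) (y : E4) =>
      ({z : E4 × E4 | dist z.2 z.1 < r}.indicator fun z => |q (F z.1) (φ z.1) (φ z.2)|) (x, y)) :=
    h5.stronglyMeasurable
  have h7 := (h6.integral_prod_right (ν := s)).measurable
  have h8 : (fun x => ∫ y in ball x r, |q (F x) (φ x) (φ y)| ∂s) = fun x => ∫ y,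
      ({z : E4 × E4 | dist z.2 z.1 < r}.indicator fun z => |q (F z.1) (φ z.1) (φ z.2)|) (x, y)
        ∂s := by
    funext x
    rw [← integral_indicator measurableSet_ball]
    refine integral_congr_ae (ae_of_all _ fun y => ?_)
    show (ball x r).indicator (fun y => |q (F x) (φ x) (φ y)|) y =
      {z : E4 × E4 | dist z.2 z.1 < r}.indicator (fun z => |q (F z.1) (φ z.1) (φ z.2)|) (x, y)
    by_cases hy : dist y x < r
    · have hm : ((x, y) : E4 × E4) ∈ {z : E4 × E4 | dist z.2 z.1 < r} := hy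
      rw [indicator_of_mem (mem_ball.2 hy), indicator_of_mem hm]
    · have hm : ((x, y) : E4 × E4) ∉ {z : E4 × E4 | dist z.2 z.1 < r} := hy
      rw [indicator_of_notMem (fun h => hy (mem_ball.1 h)), indicator_of_notMem hm]
  rw [h8]
  exact h7

/-- **(Q')**: the field `qq` of `CurDefs_132.LC`. -/
theorem qq_of (hB : Bg J F) (hd : Dens J F φ) {s : Measure E4} [IsFiniteMeasure s] {Cg : ℝ}
    (hCg : 0 ≤ Cg) (hgr : ∀ y r, 0 < r → s (ball y r) ≤ ENNReal.ofReal (Cg * r ^ 2)) {x0 : E4}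
    {R : ℝ} (hR : 0 < R) (hR1 : R ≤ 1) (hcl : ClosedIn F s φ (ball x0 (4 * R))) :
    ∃ Q : ℝ, 0 ≤ Q ∧ ∀ r, 0 < r → r ≤ R →
      ∫ x in ball x0 (3 * R), ∫ y in ball x r, |q (F x) (φ x) (φ y)| ∂s ∂s ≤
        Q * r ^ 4 * (1 + |Real.log r|) := by
  obtain ⟨m, M, L, LJ, w0, c0, σ, hC⟩ := exists_cst hB
  obtain ⟨t, ht, htf, htc⟩ := (isCompact_closedBall x0 (3 * R)).finite_cover_balls
    (show 0 < R / 4 by positivity)
  have hloc : ∀ c ∈ t, ∃ Q : ℝ, 0 ≤ Q ∧ ∀ r, 0 < r → r ≤ 1 →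
      ∫ x in closedBall c (R / 4), ∫ y in ball x r, |q (F x) (φ x) (φ y)| ∂s ∂s ≤
        Q * (r ^ 4 * (1 + |Real.log r|)) := by
    intro c hc
    have hcl' : ClosedIn F s φ (ball c (2 * (R / 2))) := fun S hS hSc hSU =>
      hcl S hS hSc (hSU.trans (ball_subset_ball' (by
        have := mem_closedBall.1 (ht hc)
        linarith)))
    exact qq_ball hB hC hd hCg hgr (by positivity) hcl' isClosed_closedBall
      (closedBall_subset_ball (by linarith))
  choose! Q hQ0 hQ using hloc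
  refine ⟨∑ c ∈ htf.toFinset, Q c, Finset.sum_nonneg fun c hc => hQ0 c (htf.mem_toFinset.1 hc),
    fun r hr hrR => ?_⟩
  have hr1 : r ≤ 1 := hrR.trans hR1
  obtain ⟨f, hf⟩ : ∃ f : E4 → ℝ, f = fun x => ∫ y in ball x r, |q (F x) (φ x) (φ y)| ∂s :=
    ⟨_, rfl⟩
  have hf0 : ∀ x, 0 ≤ f x := fun x => by
    rw [hf]; exact integral_nonneg fun y => abs_nonneg _
  have hfm : Measurable f := by rw [hf]; exact in_meas hB hd r
  have hfb : ∀ x, f x ≤ s.real univ * (w0 * (6 * ((c0⁻¹ * (2 * M)) * (c0⁻¹ * (2 * M))))) := by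
    intro x
    have hb0 : 0 ≤ w0 * (6 * ((c0⁻¹ * (2 * M)) * (c0⁻¹ * (2 * M)))) :=
      (abs_nonneg _).trans (abs_q_bound hC hd x0 x0)
    rw [hf]
    have h2 : ∫ y in ball x r, |q (F x) (φ x) (φ y)| ∂s ≤
        ∫ _y in ball x r, w0 * (6 * ((c0⁻¹ * (2 * M)) * (c0⁻¹ * (2 * M)))) ∂s :=
      integral_mono_of_nonneg (ae_of_all _ fun y => abs_nonneg _) (integrable_const _)
        (ae_of_all _ fun y => abs_q_bound hC hd x y)
    rw [setIntegral_const, smul_eq_mul] at h2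
    have h3 : s.real (ball x r) ≤ s.real univ := measureReal_mono (subset_univ _)
    exact h2.trans (mul_le_mul_of_nonneg_right h3 hb0)
  have hfi : Integrable f s := Integrable.of_bound hfm.aestronglyMeasurable _
    (ae_of_all _ fun x => by rw [Real.norm_of_nonneg (hf0 x)]; exact hfb x)
  have h1 : ∫ x in ball x0 (3 * R), f x ∂s ≤
      ∑ c ∈ htf.toFinset, ∫ x in closedBall c (R / 4), f x ∂s := by
    have h2 : ∀ c ∈ htf.toFinset, ∫ x in closedBall c (R / 4), f x ∂s =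
        ∫ x, (closedBall c (R / 4)).indicator f x ∂s := fun c _ =>
      (integral_indicator isClosed_closedBall.measurableSet).symm
    rw [Finset.sum_congr rfl h2, ← integral_finsetSum _ fun c _ =>
      hfi.indicator isClosed_closedBall.measurableSet, ← integral_indicator measurableSet_ball]
    refine integral_mono (hfi.indicator measurableSet_ball) (integrable_finsetSum _ fun c _ =>
      hfi.indicator isClosed_closedBall.measurableSet) fun x => ?_
    have hnn : ∀ c ∈ htf.toFinset, 0 ≤ (closedBall c (R / 4)).indicator f x := fun c _ =>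
      indicator_nonneg (fun x _ => hf0 x) x
    by_cases hx : x ∈ ball x0 (3 * R)
    · rw [indicator_of_mem hx]
      obtain ⟨c, hc, hxc⟩ := mem_iUnion₂.1 (htc (ball_subset_closedBall hx))
      have h3 := Finset.single_le_sum hnn (htf.mem_toFinset.2 hc)
      rwa [indicator_of_mem (ball_subset_closedBall hxc)] at h3
    · rw [indicator_of_notMem hx]
      exact Finset.sum_nonneg hnn
  have h2 : ∑ c ∈ htf.toFinset, ∫ x in closedBall c (R / 4), f x ∂s ≤
      ∑ c ∈ htf.toFinset, Q c * (r ^ 4 * (1 + |Real.log r|)) := by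
    refine Finset.sum_le_sum fun c hc => ?_
    rw [hf]
    exact hQ c (htf.mem_toFinset.1 hc) r hr hr1
  rw [← Finset.sum_mul] at h2
  rw [hf] at h1
  rw [mul_assoc]
  rw [hf] at h2
  exact h1.trans h2

/-- the same with the growth of `s.real`. -/
theorem qq_of' (hB : Bg J F) (hd : Dens J F φ) {s : Measure E4} [IsFiniteMeasure s] {Cg : ℝ}
    (hCg : 0 ≤ Cg) (hgr : ∀ y r, 0 < r → s.real (ball y r) ≤ Cg * r ^ 2) {x0 : E4}
    {R : ℝ} (hR : 0 < R) (hR1 : R ≤ 1) (hcl : ClosedIn F s φ (ball x0 (4 * R))) :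
    ∃ Q : ℝ, 0 ≤ Q ∧ ∀ r, 0 < r → r ≤ R →
      ∫ x in ball x0 (3 * R), ∫ y in ball x r, |q (F x) (φ x) (φ y)| ∂s ∂s ≤
        Q * r ^ 4 * (1 + |Real.log r|) := by
  refine qq_of hB hd hCg (fun y r hr => ?_) hR hR1 hcl
  rw [← ofReal_measureReal (measure_ne_top s (ball y r))]
  exact ENNReal.ofReal_le_ofReal (hgr y r hr)

end main

end

end Crest.Agent.R235.QLog_195
end

-- ▼ part R235/MkLC_4
section

/-!
Row 235 (S0364), PACKAGE CUR, node MKLC (helper4): background data `Bg J F`, `dF = 0` on a ball, a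
normalised positive density closed in the ball and growth give a local datum `LC`.
-/

set_option autoImplicit false
set_option maxSynthPendingDepth 3

open Set Function Filter MeasureTheory Metric
open scoped ContDiff ENNReal Manifold Topology

namespace Crest.Agent.R235.MkLC_4

open Crest.Agent.R240 Crest.Agent.R240.En Crest.Agent.R240.Pot Crest.Agent.R235.CurDefs_132

noncomputable section

variable {V : Type*} [NormedAddCommGroup V] [NormedSpace ℝ V]

omit [NormedSpace ℝ V] in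
/-- a continuous function constant outside a ball is bounded. -/
theorem bdd_of_cst {g : E4 → V} (hg : Continuous g) {R : ℝ} {g0 : V}
    (h : ∀ y, R ≤ ‖y‖ → g y = g0) : ∃ L : ℝ, 0 ≤ L ∧ ∀ y, ‖g y‖ ≤ L := by
  obtain ⟨C, hC⟩ := (isCompact_closedBall (0 : E4) R).exists_bound_of_continuousOn hg.continuousOn
  refine ⟨max |C| ‖g0‖, by positivity, fun y => ?_⟩
  rcases le_or_gt R ‖y‖ with h1 | h1
  · rw [h y h1]
    exact le_max_right _ _
  · refine (hC y ?_).trans ((le_abs_self C).trans (le_max_left _ _))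
    rw [mem_closedBall, dist_zero_right]
    exact h1.le

theorem fderiv_cst {g : E4 → V} {R : ℝ} {g0 : V} (h : ∀ y, R ≤ ‖y‖ → g y = g0) :
    ∀ y, R + 1 ≤ ‖y‖ → fderiv ℝ g y = 0 := by
  intro y hy
  have h1 : g =ᶠ[𝓝 y] fun _ => g0 := by
    have : ∀ᶠ z in 𝓝 y, R < ‖z‖ :=
      continuous_norm.continuousAt.eventually_const_lt (by linarith : R < ‖y‖)
    filter_upwards [this] with z hz using h z hz.le
  rw [h1.fderiv_eq]
  simp

/-- **MKLC**. -/
theorem mkLC {J : E4 → E4 →L[ℝ] E4} {F : E4 → Bil} (hB : Bg J F) {φ : E4 → Bil}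
    (hd : Dens J F φ) {s : Measure E4} [hfin : IsFiniteMeasure s] {C : ℝ} (hC : 0 ≤ C)
    (hgr : ∀ y r, 0 < r → s.real (ball y r) ≤ C * r ^ 2) {x0 : E4} {R : ℝ} (hR : 0 < R)
    (hR1 : R ≤ 1) (hcl : ClosedIn F s φ (ball x0 (4 * R))) (hF : ∀ y ∈ ball x0 (4 * R), Cl F y) :
    ∃ D : LC, D.J = J ∧ D.F = F ∧ D.x0 = x0 ∧ D.R = R ∧ D.s = s ∧ D.φ = φ ∧ D.C = C := by
  obtain ⟨m, M', L0, LJ, w0, c0, σ, hcst⟩ := Crest.Agent.R240.Loc5.exists_cst hB
  obtain ⟨R', J0, F0, hc⟩ := hB.cst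
  have hJc : ∀ y, R' ≤ ‖y‖ → J y = J0 := fun y hy => (hc y hy).1
  have hFc : ∀ y, R' ≤ ‖y‖ → F y = F0 := fun y hy => (hc y hy).2
  have hJ1 : ContDiff ℝ ∞ (fderiv ℝ J) := hB.smJ.fderiv_right (by simp)
  have hF1 : ContDiff ℝ ∞ (fderiv ℝ F) := hB.smF.fderiv_right (by simp)
  have hJ2 : ContDiff ℝ ∞ (fderiv ℝ (fderiv ℝ J)) := hJ1.fderiv_right (by simp)
  have hF2 : ContDiff ℝ ∞ (fderiv ℝ (fderiv ℝ F)) := hF1.fderiv_right (by simp)
  obtain ⟨a1, a10, ha1⟩ := bdd_of_cst hB.smJ.continuous hJc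
  obtain ⟨a2, a20, ha2⟩ := bdd_of_cst hB.smF.continuous hFc
  obtain ⟨a3, a30, ha3⟩ := bdd_of_cst hJ1.continuous (fderiv_cst hJc)
  obtain ⟨a4, a40, ha4⟩ := bdd_of_cst hF1.continuous (fderiv_cst hFc)
  obtain ⟨a5, a50, ha5⟩ := bdd_of_cst hJ2.continuous (fderiv_cst (fderiv_cst hJc))
  obtain ⟨a6, a60, ha6⟩ := bdd_of_cst hF2.continuous (fderiv_cst (fderiv_cst hFc))
  obtain ⟨Q, hQ0, hQ⟩ := QLog_195.qq_of' hB hd hC hgr hR hR1 hcl
  set L : ℝ := 1 + a1 + a2 + a3 + a4 + a5 + a6 with hL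
  refine ⟨{ J := J, F := F, m := m, M := M', L := L, x0 := x0, R := R, s := s, C := C, Q := Q,
            φ := φ, smJ := hB.smJ, smF := hB.smF, bd := hcst.bd,
            bJ := fun y => (ha1 y).trans (by rw [hL]; linarith),
            bF := fun y => (ha2 y).trans (by rw [hL]; linarith),
            bJ1 := fun y => (ha3 y).trans (by rw [hL]; linarith),
            bF1 := fun y => (ha4 y).trans (by rw [hL]; linarith),
            bJ2 := fun y => (ha5 y).trans (by rw [hL]; linarith),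
            bF2 := fun y => (ha6 y).trans (by rw [hL]; linarith),
            R_pos := hR, R_le := hR1, L_ge := by rw [hL]; linarith, C_nn := hC, Q_nn := hQ0,
            cl := hF, fin := hfin, gr := hgr, meas := hd.meas, pos := hd.pos, nrm := hd.nrm,
            closed := hcl, qq := hQ }, rfl, rfl, rfl, rfl, rfl, rfl, rfl⟩

end

end Crest.Agent.R235.MkLC_4
end

-- ▼ part R235/ChLC_4

/-!
Row 235 (S0364), PACKAGE CUR, node CHLC (helper4): the local datum `LC` of a positive closed current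
on `M` in a ball of a chart.
-/

set_option autoImplicit false
set_option maxSynthPendingDepth 3
set_option linter.unusedSectionVars false

open Set Function Filter MeasureTheory Metric
open scoped Manifold ContDiff Topology ENNReal NNReal

namespace Crest.Agent.R235.ChLC_4

open Crest.Agent.R240 Crest.Agent.R240.Ch Crest.Agent.R240.En4 Crest.Agent.R240.Pot
  Crest.Agent.R240.Pol Crest.Agent.R240.Vm
  Crest.Agent.R235.T1_195 Crest.Agent.R235.CurDens_4 Crest.Agent.R235.AtomsC_4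
  Crest.Agent.R235.CurDefs_132

noncomputable section

variable {M : Type*} [MetricSpace M] [CompactSpace M] [ChartedSpace E4 M]
    [IsManifold 𝓘(ℝ, E4) ∞ M] [MeasurableSpace M] [BorelSpace M]

/-- `L` is the local datum, in the ball `B(x0, 2R₀)` of the chart `p`, of the current with trace
measure `s` and density `τ`. -/
structure ChRep (D : Dat M) (s : Measure M) (τ : F2 E4 M) (p : M) (x0 : E4) (R₀ : ℝ)
    (L : LC) : Prop where
  x0_eq : L.x0 = x0
  R_eq : L.R = R₀ / 2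
  s_eq : L.s = chMeas p (closedBall x0 (2 * R₀)) s
  J_eq : ∀ y ∈ closedBall x0 (2 * R₀), L.J y = repJ p D.J y
  F_eq : ∀ y ∈ closedBall x0 (2 * R₀), L.F y = rep p D.F y
  int : ∀ b : X2 M, (∀ x, x ∉ core p (closedBall x0 (2 * R₀)) → at2 (b : F2 E4 M) x = 0) →
    ∀ᵐ x ∂s, x ∈ core p (closedBall x0 (2 * R₀)) → qG D.F τ (b : F2 E4 M) x =
      q (rep p D.F (chartAt E4 p x)) (L.φ (chartAt E4 p x)) (rep p (b : F2 E4 M) (chartAt E4 p x))

/-- the integrand of the chart formula for a smooth form. -/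
theorem aesm_core (D : Dat M) {p : M} {x0 : E4} {R : ℝ} (hR : 0 < R)
    (hsub : closedBall x0 (3 * R) ⊆ (chartAt E4 p).target) (s : Measure M) {φ : E4 → Bil}
    (hφ : Measurable φ) (b : X2 M) :
    AEStronglyMeasurable ((core p (closedBall x0 (2 * R))).indicator fun x =>
      q (rep p D.F (chartAt E4 p x)) (φ (chartAt E4 p x))
        (rep p (b : F2 E4 M) (chartAt E4 p x))) s := by
  have h2sub : closedBall x0 (2 * R) ⊆ (chartAt E4 p).target :=
    (closedBall_subset_closedBall (by linarith)).trans hsub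
  have h2c : IsCompact (closedBall x0 (2 * R)) := isCompact_closedBall _ _
  have hAm := core_meas h2c h2sub
  rw [aestronglyMeasurable_indicator_iff hAm]
  obtain ⟨r, hr, hr1, hr2, hr3⟩ := exists_retr x0 hR
  have hbr : Continuous fun y => rep p (b : F2 E4 M) (r y) := by
    rw [continuous_iff_continuousAt]
    intro y
    have hy : r y ∈ (chartAt E4 p).target := hsub (ball_subset_closedBall (hr2 y))
    have h2 : ContinuousAt (rep p (b : F2 E4 M)) (r y) :=
      ((b.2.2 p).continuousOn).continuousAt ((chartAt E4 p).open_target.mem_nhds hy)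
    exact h2.comp hr.continuous.continuousAt
  have h3 := aesm_integrand (ChDens.smF D) hR hsub s hφ hbr.measurable
  have h4 := h3.comp_aemeasurable (aemeas_chart h2c h2sub s)
  refine h4.congr ?_
  rw [EventuallyEq, ae_restrict_iff' hAm]
  refine Eventually.of_forall fun x hx => ?_
  have hy := chart_core_mem h2sub hx
  simp only [comp_apply]
  rw [hr1 _ hy]

/-- the chart density is the representation of the global density. -/
theorem ae_eq_chart (D : Dat M) {Φ : X2 M →ₗ[ℝ] ℝ} {s : Measure M} [IsFiniteMeasure s]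
    {τ : F2 E4 M} (hτ : Den D Φ s τ) {p : M} {x0 : E4} {R : ℝ} (hR : 0 < R)
    (hsub : closedBall x0 (3 * R) ⊆ (chartAt E4 p).target) {φ : E4 → Bil} (hφ : Measurable φ)
    {C : ℝ} (hφb : ∀ y ∈ closedBall x0 (2 * R), ‖φ y‖ ≤ C)
    (hform : ∀ b : X2 M, (∀ x, x ∉ core p (closedBall x0 (2 * R)) → at2 (b : F2 E4 M) x = 0) →
      Φ b = ∫ x in core p (closedBall x0 (2 * R)),
        q (rep p D.F (chartAt E4 p x)) (φ (chartAt E4 p x))
          (rep p (b : F2 E4 M) (chartAt E4 p x)) ∂s)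
    (b : X2 M) (hb : ∀ x, x ∉ core p (closedBall x0 (2 * R)) → at2 (b : F2 E4 M) x = 0) :
    ∀ᵐ x ∂s, x ∈ core p (closedBall x0 (2 * R)) → qG D.F τ (b : F2 E4 M) x =
      q (rep p D.F (chartAt E4 p x)) (φ (chartAt E4 p x))
        (rep p (b : F2 E4 M) (chartAt E4 p x)) := by
  have h2sub : closedBall x0 (2 * R) ⊆ (chartAt E4 p).target :=
    (closedBall_subset_closedBall (by linarith)).trans hsub
  have h2c : IsCompact (closedBall x0 (2 * R)) := isCompact_closedBall _ _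
  have hAm := core_meas h2c h2sub
  set A := core p (closedBall x0 (2 * R)) with hA
  set g : M → ℝ := A.indicator fun x => q (rep p D.F (chartAt E4 p x)) (φ (chartAt E4 p x))
    (rep p (b : F2 E4 M) (chartAt E4 p x)) with hg
  have hgm : AEStronglyMeasurable g s := aesm_core D hR hsub s hφ b
  obtain ⟨Cq, hCq0, hCq⟩ := bdd_q (p := p) h2c h2sub (J := D.J) (Pol.smF D)
    (fun y hy => spos_rep (sposF D) (h2sub hy)) (fun y hy v => repJ_sq D.sq (h2sub hy) v) hφb
    (((b.2.2 p).continuousOn).mono h2sub)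
  have hgb : ∀ x, |g x| ≤ Cq := by
    intro x
    by_cases hx : x ∈ A
    · rw [hg, indicator_of_mem hx]
      exact hCq _ (chart_core_mem h2sub hx)
    · rw [hg, indicator_of_notMem hx, abs_zero]
      exact hCq0
  have hgi : Integrable g s :=
    Integrable.mono' (integrable_const Cq) hgm (Eventually.of_forall hgb)
  have h1 := ae_eq_of_integral_contMDiff_smul_eq 𝓘(ℝ, E4)
    (hτ.dn.integrable b).locallyIntegrable hgi.locallyIntegrable (by
    intro f hf _
    let f' : SF M := ⟨f, hf⟩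
    have e1 : Φ (mulX M f' b) = ∫ x, f x • qG D.F τ (b : F2 E4 M) x ∂s := by
      rw [hτ.rep]
      congr 1
      funext x
      rw [qG_mulX]
      rfl
    rw [← e1, hform _ (by
      intro x hx
      rw [at2_mulX, hb x hx, smul_zero]), ← integral_indicator hAm]
    congr 1
    funext x
    by_cases hx : x ∈ A
    · rw [hg, indicator_of_mem hx, indicator_of_mem hx, mulX_coe, Vm.rep_fmul,
        (chartAt E4 p).left_inv (core_sub h2sub hx), q_smul_right]
      rfl
    · rw [hg, indicator_of_notMem hx, indicator_of_notMem hx, smul_zero])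
  filter_upwards [h1] with x hx hxA
  rw [hx, hg, indicator_of_mem hxA]

/-- **CHLC**. -/
theorem exists_chRep (D : Dat M) (hF : D.FX ∈ Z2 M) {Φ : X2 M →ₗ[ℝ] ℝ} {s : Measure M}
    (hΦ : Cur D Φ s) {τ : F2 E4 M} (hτ : Den D Φ s τ) {p : M} {x0 : E4} {R₀ : ℝ} (hR : 0 < R₀)
    (hR1 : R₀ ≤ 2) (hsub : closedBall x0 (3 * R₀) ⊆ (chartAt E4 p).target) :
    ∃ L : LC, ChRep D s τ p x0 R₀ L := by
  classical
  have hfin := hΦ.fin
  obtain ⟨φ, hφm, hφp, hφn, ⟨Cφ, hCφ⟩, hform⟩ :=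
    ChDens.chartDens D Φ s hΦ.inv hΦ.nonneg hΦ.rm p x0 R₀ hR hsub
  have h2sub : closedBall x0 (2 * R₀) ⊆ (chartAt E4 p).target :=
    (closedBall_subset_closedBall (by linarith)).trans hsub
  have h2c : IsCompact (closedBall x0 (2 * R₀)) := isCompact_closedBall _ _
  obtain ⟨r, hr, hr1, hr2, hr3⟩ := exists_retr x0 hR
  have hrU : ∀ y, r y ∈ (chartAt E4 p).target := fun y => hsub (ball_subset_closedBall (hr2 y))
  have hbg := bg_comp (chartAt E4 p).open_target (D.smJ p) ((Pol.smF D).2 p)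
    (fun y hy v => repJ_sq D.sq hy v) (fun y hy => spos_rep (sposF D) hy) hr hrU hr3
  set K : Set E4 := closedBall x0 (2 * R₀) with hK
  have hKm : MeasurableSet K := isClosed_closedBall.measurableSet
  set φ' : E4 → Bil := fun y => if y ∈ K then φ y else rep p D.F (r y) with hφ'
  have hφK : ∀ y ∈ K, φ' y = φ y := fun y hy => by simp only [hφ', if_pos hy]
  have hd : Dens (fun y => repJ p D.J (r y)) (fun y => rep p D.F (r y)) φ' := by
    refine ⟨?_, ?_, ?_⟩
    · exact Measurable.ite hKm hφm hbg.smF.continuous.measurable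
    · intro y
      by_cases hy : y ∈ K
      · rw [hφK y hy, hr1 y hy]
        exact hφp y hy
      · simp only [hφ', if_neg hy]
        have h := hbg.pos y
        exact ⟨h.alt, h.inv, fun v => by
          by_cases hv : v = 0
          · simp [hv]
          · exact (h.pos v hv).le⟩
    · intro y
      by_cases hy : y ∈ K
      · rw [hφK y hy, hr1 y hy]
        exact hφn y hy
      · simp only [hφ', if_neg hy]
        exact q_self_of_spos (hbg.sq y) (hbg.pos y)
  have hae : ∀ᵐ y ∂(chMeas p K s), y ∈ K := by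
    rw [ae_iff]
    exact chMeas_compl h2c h2sub s
  -- growth
  obtain ⟨C, hC⟩ := hΦ.growth
  have hs : ∀ x r, 0 < r → s (ball x r) ≤ ENNReal.ofReal (C * r ^ 2) := by
    intro x r hr
    rw [← ENNReal.ofReal_toReal (measure_ne_top s (ball x r))]
    exact ENNReal.ofReal_le_ofReal (hC x r hr)
  obtain ⟨C', hC'⟩ := chMeas_ball_le D.bl h2c h2sub hs
  have hgr : ∀ y r, 0 < r → (chMeas p K s).real (ball y r) ≤ |C'| * r ^ 2 := by
    intro y r hr
    refine ENNReal.toReal_le_of_le_ofReal (by positivity) ((hC' y r hr).trans ?_)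
    exact ENNReal.ofReal_le_ofReal (by gcongr; exact le_abs_self _)
  -- closedness
  have hclos : ClosedIn (fun y => rep p D.F (r y)) (chMeas p K s) φ'
      (ball x0 (4 * (R₀ / 2))) := by
    intro S hS hSc hSs
    have hSs : tsupport S ⊆ ball x0 (2 * R₀) := by
      have : 4 * (R₀ / 2) = 2 * R₀ := by ring
      rwa [this] at hSs
    have hSt : tsupport S ⊆ (chartAt E4 p).target :=
      (hSs.trans ball_subset_closedBall).trans h2sub
    have hS0 : ∀ y, y ∉ tsupport S → S y = 0 := fun y hy => image_eq_zero_of_notMem_tsupport hy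
    have hsm : Smooth1 (ext1 p S) := Pol.smooth1_ext1 hSc.isCompact hSt hS hS0
    have hrep1 : ∀ y ∈ (chartAt E4 p).target, rep1 p (ext1 p S) y = S y :=
      fun y hy => Pol.rep1_ext1_self hy S
    have hz := hΦ.closed ⟨dG (ext1 p S), Smooth2.dG hsm⟩
      ⟨ext1 p S, hsm, fun q y hy => rep_dG hsm hy⟩
    rw [hform _ (by
      intro x hx
      apply dG_zero_of_off hSc.isCompact hSt (fun x hx => Pol.at1_ext1_zero hS0 hx)
      intro h
      apply hx
      obtain ⟨y, hy, rfl⟩ := h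
      exact ⟨y, ball_subset_closedBall (hSs hy), rfl⟩)] at hz
    have hSm : Measurable (En.d1 S) := by
      have h1 : Continuous (fderiv ℝ S) := hS.continuous_fderiv (by simp)
      have h2 : Continuous fun y => fderiv ℝ S y - (fderiv ℝ S y).flip :=
        h1.sub ((ContinuousLinearMap.flipₗᵢ ℝ E4 E4 ℝ).continuous.comp h1)
      exact h2.measurable
    have e1 : ∫ y, q (rep p D.F (r y)) (φ' y) (En.d1 S y) ∂(chMeas p K s) =
        ∫ y, q (rep p D.F y) (φ y) (En.d1 S y) ∂(chMeas p K s) := by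
      apply integral_congr_ae
      filter_upwards [hae] with y hy
      simp only [hφK y hy, hr1 y hy]
    rw [e1, integral_chMeas h2c h2sub s (aesm_integrand (Pol.smF D) hR hsub s hφm hSm), ← hz]
    apply setIntegral_congr_fun (core_meas h2c h2sub)
    intro x hx
    have hy := h2sub (chart_core_mem h2sub hx)
    simp only
    rw [rep_eq_d1 hsm hrep1 hy]
  have hCl : ∀ y ∈ ball x0 (4 * (R₀ / 2)), En.Cl (fun y => rep p D.F (r y)) y := by
    intro y hy
    have hy : y ∈ ball x0 (2 * R₀) := by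
      have : 4 * (R₀ / 2) = 2 * R₀ := by ring
      rwa [this] at hy
    refine En.Cl_congr (c := rep p D.F) ?_ ?_
    · filter_upwards [isOpen_ball.mem_nhds hy] with z hz
      rw [hr1 z (ball_subset_closedBall hz)]
    · exact MonoM.cl_of_closed (Pol.smF D) hF (h2sub (ball_subset_closedBall hy))
  obtain ⟨L, hLJ, hLF, hLx, hLR, hLs, hLφ, hLC⟩ := MkLC_4.mkLC hbg hd (abs_nonneg C') hgr
    (half_pos hR) (by linarith) hclos hCl
  refine ⟨L, hLx, hLR, hLs, fun y hy => ?_, fun y hy => ?_, fun b hb => ?_⟩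
  · rw [hLJ]
    simp only
    rw [hr1 y hy]
  · rw [hLF]
    simp only
    rw [hr1 y hy]
  · filter_upwards [ae_eq_chart D hτ hR hsub hφm hCφ hform b hb] with x hx hxA
    rw [hx hxA, hLφ, hφK _ (chart_core_mem h2sub hxA)]

end

end Crest.Agent.R235.ChLC_4
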