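import Crest.Agent.R235.CurB_288
import Crest.Agent.R235.Props_844

/-!
Row 235 (helper288): `CONE` (version 2 of `Props_844`) from `HBN`, `EXJ`, `CLS`, `NEGN`, `BPLUS`;
Sylvester's lemma for arbitrary positive frames; `Rt`, `Dg`, `K3Type` only depend on the
orientation.
-/

set_option autoImplicit false
set_option maxSynthPendingDepth 3

open Set Function Filter MeasureTheory
open scoped Manifold ContDiff Topology

universe u

namespace Crest.Agent.R235.Cone_288

open Crest.Agent.R240 Crest.Agent.R240.Ch Crest.Agent.R240.Int Crest.Agent.R235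
open Crest.Agent.R235.CurB_288

noncomputable section

section Cls

variable {M : Type u} [TopologicalSpace M] [T2Space M] [CompactSpace M]
  [ChartedSpace E4 M] [IsManifold 𝓘(ℝ, E4) ∞ M]

/-! ### orientation dependence -/

theorem k3Type_congr {F G : Z2 M} (h : ∀ a b : H2 M, ip F a b = ip G a b) :
    K3Type F ↔ K3Type G := by
  unfold K3Type
  simp only [h]


theorem root_congr {F G : Z2 M} (h : ∀ a b : H2 M, ip F a b = ip G a b) : Root F = Root G := by
  unfold Root
  simp only [h]

theorem rt_congr {F G : Z2 M} (h : ∀ a b : H2 M, ip F a b = ip G a b) : Rt F = Rt G := by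
  unfold Rt
  rw [root_congr h]
  ext d
  simp only [mem_ofPred_eq, k3Type_congr h]

theorem dg_congr {F G : Z2 M} (h : ∀ a b : H2 M, ip F a b = ip G a b) : Dg F = Dg G := by
  unfold Dg
  rw [rt_congr h]
  simp only [h]

theorem posCls_congr {F G : Z2 M} (h : ∀ a b : H2 M, ip F a b = ip G a b) (c : Fin 3 → H2 M) :
    PosCls F c ↔ PosCls G c := by
  unfold PosCls
  simp only [h]

theorem nc_congr {F G : Z2 M} (h : ∀ a b : H2 M, ip F a b = ip G a b) (c : Fin 3 → H2 M)
    (k : Fin 3) : NC F c k ↔ NC G c k := by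
  unfold NC
  rw [dg_congr h]
  simp only [h]

theorem ccond_congr {F G : Z2 M} (h : ∀ a b : H2 M, ip F a b = ip G a b) (c : Fin 3 → H2 M)
    (k : Fin 3) (x : H2 M) : CCond F c k x ↔ CCond G c k x := by
  unfold CCond
  simp only [posCls_congr h, nc_congr h]

/-! ### Sylvester -/

/-- a nonzero class orthogonal to some positive frame has negative square. -/
theorem sylvester {w : Trip M} (hw : Pos3 w)
    (hB : ∀ c : H2 M, (∀ i, ip (w 0) c (cls (w i)) = 0) → c ≠ 0 → ip (w 0) c c < 0)
    {p : Fin 3 → H2 M} (hp : PosCls (w 0) p) {s : H2 M} (hs0 : s ≠ 0)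
    (hs : ∀ i, ip (w 0) s (p i) = 0) : ip (w 0) s s < 0 := by
  by_contra hneg
  have hss : 0 ≤ ip (w 0) s s := not_lt.1 hneg
  have hV := hw.vol 0
  -- four vectors and three conditions
  let L : ((Fin 3 → ℝ) × ℝ) →ₗ[ℝ] H2 M :=
    { toFun := fun q => ∑ i, q.1 i • p i + q.2 • s
      map_add' := by
        intro q q'
        simp only [Prod.fst_add, Prod.snd_add, Pi.add_apply, add_smul, Finset.sum_add_distrib]
        abel
      map_smul' := by
        intro r q
        simp only [Prod.smul_fst, Prod.smul_snd, Pi.smul_apply, smul_eq_mul, mul_smul,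
          RingHom.id_apply, smul_add, Finset.smul_sum] }
  let T : ((Fin 3 → ℝ) × ℝ) →ₗ[ℝ] (Fin 3 → ℝ) :=
    LinearMap.pi fun i => ((ipB (w 0) hV).flip (cls (w i))).comp L
  have hdim : Module.finrank ℝ (Fin 3 → ℝ) < Module.finrank ℝ ((Fin 3 → ℝ) × ℝ) := by
    rw [Module.finrank_prod]; simp
  obtain ⟨q, hq, hq0⟩ : ∃ q, T q = 0 ∧ q ≠ 0 := by
    have h1 := LinearMap.ker_ne_bot_of_finrank_lt (f := T) hdim
    obtain ⟨q, hq, h2⟩ := Submodule.exists_mem_ne_zero_of_ne_bot h1
    exact ⟨q, hq, h2⟩
  have hz : ∀ i, ip (w 0) (L q) (cls (w i)) = 0 := fun i => congrFun hq i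
  set P := ∑ i, q.1 i • p i with hP
  have hsP : ip (w 0) s P = 0 := by
    rw [hP, ip_sum_right hV]
    refine Finset.sum_eq_zero fun i _ => ?_
    rw [ip_smul_right hV, hs i, mul_zero]
  have hLq : L q = P + q.2 • s := rfl
  have hsq : ip (w 0) (L q) (L q) = ip (w 0) P P + q.2 ^ 2 * ip (w 0) s s := by
    rw [hLq, ip_add_left hV, ip_add_right hV, ip_add_right hV, ip_smul_right hV, ip_smul_left hV,
      ip_smul_left hV, ip_smul_right hV, ip_comm (w 0) P s, hsP]
    ring
  have hPP : 0 ≤ ip (w 0) P P := by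
    by_cases h : q.1 = 0
    · have : P = 0 := by
        rw [hP]; simp [h]
      rw [this, ip_zero_left hV]
    · exact (hp q.1 h).le
  by_cases hL : L q = 0
  · have h1 : ip (w 0) (L q) (L q) = 0 := by rw [hL, ip_zero_left hV]
    have h2 : q.1 = 0 := by
      by_contra h
      have h3 := hp q.1 h
      have h4 : 0 ≤ q.2 ^ 2 * ip (w 0) s s := mul_nonneg (sq_nonneg _) hss
      rw [hsq] at h1
      linarith
    have h3 : q.2 ≠ 0 := fun h => hq0 (Prod.ext h2 h)
    have h4 : P = 0 := by rw [hP]; simp [h2]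
    rw [hLq, h4, zero_add] at hL
    exact hs0 ((smul_eq_zero.1 hL).resolve_left h3)
  · have h1 := hB (L q) hz hL
    have h4 : 0 ≤ q.2 ^ 2 * ip (w 0) s s := mul_nonneg (sq_nonneg _) hss
    rw [hsq] at h1
    linarith

/-- a class of square `≥ 0` orthogonal to the pair and positive on `c 0` is positive on every `x`
such that the segment of frames is positive. -/
theorem pos_of_segment {w : Trip M} (hw : Pos3 w)
    (hB : ∀ c : H2 M, (∀ i, ip (w 0) c (cls (w i)) = 0) → c ≠ 0 → ip (w 0) c c < 0)
    {x : H2 M} (hx : ∀ t ∈ Icc (0 : ℝ) 1,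
      PosCls (w 0) (fun i => (1 - t) • clw w i + t • update (clw w) 0 x i))
    {s : H2 M} (h1 : ip (w 0) s (cls (w 1)) = 0) (h2 : ip (w 0) s (cls (w 2)) = 0)
    (h0 : 0 < ip (w 0) s (cls (w 0))) (hss : 0 ≤ ip (w 0) s s) : 0 < ip (w 0) s x := by
  by_contra hneg
  have hV := hw.vol 0
  have hle : ip (w 0) s x ≤ 0 := not_lt.1 hneg
  set u := ip (w 0) s (cls (w 0)) with hu
  set v := ip (w 0) s x with hv
  have hd : 0 < u - v := by linarith
  set t := u / (u - v) with ht
  have ht0 : 0 ≤ t := div_nonneg h0.le hd.le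
  have ht1 : t ≤ 1 := by rw [ht, div_le_one hd]; linarith
  have hs0 : s ≠ 0 := by
    rintro rfl
    rw [hu, ip_zero_left hV] at h0
    exact lt_irrefl _ h0
  have h3 := sylvester hw hB (hx t ⟨ht0, ht1⟩) hs0 (fun i => by
    rw [ip_add_right hV, ip_smul_right hV, ip_smul_right hV]
    fin_cases i
    · simp only [Fin.zero_eta, update_self]
      change (1 - t) * u + t * v = 0
      rw [ht]
      field_simp
      ring
    · have e : update (clw w) 0 x 1 = cls (w 1) := by rw [update_of_ne (by decide)]; rfl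
      change (1 - t) * ip (w 0) s (cls (w 1)) + t * ip (w 0) s (update (clw w) 0 x 1) = 0
      rw [e, h1]; ring
    · have e : update (clw w) 0 x 2 = cls (w 2) := by rw [update_of_ne (by decide)]; rfl
      change (1 - t) * ip (w 0) s (cls (w 2)) + t * ip (w 0) s (update (clw w) 0 x 2) = 0
      rw [e, h2]; ring)
  linarith

end Cls

/-- CONE for the index `0`. -/
theorem cone_zero (hH : HBN.{u}) (hE : EXJ.{u}) (hC : CLS.{u}) (hN : NEGN.{u}) (hB : BPLUS.{u})
    (M : Type u) [TopologicalSpace M] [T2Space M] [CompactSpace M] [ConnectedSpace M]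
    [ChartedSpace E4 M] [IsManifold 𝓘(ℝ, E4) ∞ M] (w : Trip M) (hw : Pos3 w) (x : H2 M)
    (hx : CCond (w 0) (clw w) 0 x) : ∃ a : Z2 M, cls a = x ∧ Seg w (update w 0 a) := by
  obtain ⟨J, hJ⟩ := hE M w hw
  obtain ⟨a0, ha0⟩ := cls_surj x
  obtain ⟨a, ha, ht⟩ := hH M w J hJ a0 (fun S hS hS0 => by
    obtain ⟨s, hs⟩ := hC M w J hw hJ S hS
    have h0 : 0 < ip (w 0) s (cls (w 0)) := by
      rw [← hs]; exact cur_pos hJ hS hS0
    have h1 : ip (w 0) s (cls (w 1)) = 0 := by
      rw [← hs]; exact cur_anti hJ hS.inv (by decide)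
    have h2 : ip (w 0) s (cls (w 2)) = 0 := by
      rw [← hs]; exact cur_anti hJ hS.inv (by decide)
    have h3 := hN M w J hw hJ hx.2 S s hS hs
    rw [hs, ha0]
    exact pos_of_segment hw (hB M w hw) hx.1 h1 h2 h0 h3)
  exact ⟨a, ha.trans ha0, seg_of_tame hw hJ ht⟩

/-- **CONE**. -/
theorem cone_of (hH : HBN.{u}) (hE : EXJ.{u}) (hC : CLS.{u}) (hN : NEGN.{u}) (hB : BPLUS.{u}) :
    CONE.{u} := by
  intro M _ _ _ _ _ _ w hw k x hx
  set σ : Equiv.Perm (Fin 3) := Equiv.swap 0 k with hσ
  have hσ0 : σ 0 = k := Equiv.swap_apply_left 0 k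
  set w' : Trip M := fun i => w (σ i) with hw'
  have hP' : Pos3 w' := hw.perm σ
  have hip : ∀ a b : H2 M, ip (w' 0) a b = ip (w 0) a b := fun a b => hw.ip_eq (σ 0) 0 a b
  have hx' : CCond (w' 0) (clw w') 0 x := by
    rw [ccond_congr hip]
    refine ⟨fun t ht a ha => ?_, fun e he => ?_⟩
    · have h1 := hx.1 t ht (fun i => a (σ.symm i)) (by
        intro h0
        apply ha
        funext i
        have := congrFun h0 (σ i)
        simpa using this)
      have e : ∑ i, a i • ((1 - t) • clw w' i + t • update (clw w') 0 x i) =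
          ∑ i, a (σ.symm i) • ((1 - t) • clw w i + t • update (clw w) k x i) := by
        refine Eq.trans (Finset.sum_congr rfl fun i _ => ?_) (Equiv.sum_comp σ (fun i =>
          a (σ.symm i) • ((1 - t) • clw w i + t • update (clw w) k x i)))
        rw [Equiv.symm_apply_apply]
        have h2 : clw w' i = clw w (σ i) := rfl
        have h3 : update (clw w') 0 x i = update (clw w) k x (σ i) := by
          by_cases h : i = 0
          · subst h
            rw [update_self, hσ0, update_self]
          · have h4 : σ i ≠ k := by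
              intro h5
              apply h
              apply σ.injective
              rw [h5, hσ0]
            rw [update_of_ne h, update_of_ne h4]
            rfl
        rw [h2, h3]
      rw [e]
      exact h1
    · obtain ⟨i, hi, h1⟩ := hx.2 e he
      refine ⟨σ.symm i, ?_, ?_⟩
      · intro h
        apply hi
        rw [← hσ0, ← h, Equiv.apply_symm_apply]
      · change ip (w 0) e (cls (w (σ (σ.symm i)))) ≠ 0
        rw [Equiv.apply_symm_apply]
        exact h1
  obtain ⟨a, ha, hseg⟩ := cone_zero hH hE hC hN hB M w' hP' x hx'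
  refine ⟨a, ha, Seg.of_perm σ ?_⟩
  have e : (fun i => update w k a (σ i) : Trip M) = update w' 0 a := by
    funext i
    by_cases h : i = 0
    · subst h
      rw [hσ0, update_self, update_self]
    · have h4 : σ i ≠ k := by
        intro h5
        apply h
        apply σ.injective
        rw [h5, hσ0]
      rw [update_of_ne h, update_of_ne h4]
  rw [e]
  exact hseg

end

end Crest.Agent.R235.Cone_288
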