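import Mathlib
import Crest.Agent.R235.Defs_837
import Crest.Agent.R275.GC_293

/-!
Row 235 (S0364), package HZ (helper470): good covers of a compact smooth four-manifold.

`RGC M` : finitely many open sets `B i`, each inside the domain of the chart `chartAt E4 (p i)`,
such that `B i ∩ B j` is convex in the chart of `i` for all `i, j`, with a smooth partition of
unity `ψ`.  `exists_rgc` : existence, subordinate to any open cover.
-/

set_option autoImplicit false
set_option maxSynthPendingDepth 3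

open Set Function Filter
open scoped Manifold ContDiff Topology

universe u

namespace Crest.Agent.R235

open Crest.Agent.R240 Crest.Agent.R240.Ch

noncomputable section

/-- a good cover by coordinate sets with a smooth partition of unity. -/
structure RGC (M : Type u) [TopologicalSpace M] [ChartedSpace E4 M] where
  /-- number of sets -/
  n : ℕ
  /-- base points of the charts -/
  p : Fin n → M
  /-- the sets -/
  B : Fin n → Set M
  isOpen : ∀ i, IsOpen (B i)
  conv : ∀ i j, Convex ℝ (chartAt E4 (p i) '' (B i ∩ B j))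
  /-- the outer layer -/
  C : Fin n → Set M
  openC : ∀ i, IsOpen (C i)
  clos : ∀ i, closure (B i) ⊆ C i
  subC : ∀ i, C i ⊆ (chartAt E4 (p i)).source
  convC : ∀ i, Convex ℝ (chartAt E4 (p i) '' C i)
  /-- the partition of unity -/
  ψ : Fin n → M → ℝ
  smooth : ∀ i, SmoothF E4 (ψ i)
  nonneg : ∀ i x, 0 ≤ ψ i x
  supp : ∀ i, tsupport (ψ i) ⊆ B i
  sum : ∀ x, ∑ i, ψ i x = 1

namespace RGC

variable {M : Type u} [TopologicalSpace M] [ChartedSpace E4 M] (G : RGC M)

theorem sub (i : Fin G.n) : G.B i ⊆ (chartAt E4 (G.p i)).source :=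
  subset_closure.trans ((G.clos i).trans (G.subC i))

theorem cover (x : M) : ∃ i, x ∈ G.B i := by
  by_contra h
  push Not at h
  have h0 : ∀ i, G.ψ i x = 0 := fun i =>
    image_eq_zero_of_notMem_tsupport fun hx => h i (G.supp i hx)
  have := G.sum x
  simp [h0] at this


/-- the intersection of the sets with indices in the list -/
def inter (J : List (Fin G.n)) : Set M := {x | ∀ i ∈ J, x ∈ G.B i}












end RGC

section aux

/-- bare data of a good cover with charts in the atlas -/
theorem exists_cov_aux {M : Type u} [TopologicalSpace M] [ChartedSpace E4 M] [CompactSpace M]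
    [T2Space M]
    (hT : ∀ e ∈ atlas E4 M, ∀ e' ∈ atlas E4 M, ContDiffOn ℝ 2 (e.symm ≫ₕ e') (e.symm ≫ₕ e').source)
    {κ : Type*} (O : κ → Set M) (hO : ∀ k, IsOpen (O k)) (hOc : ∀ x, ∃ k, x ∈ O k) :
    ∃ (n : ℕ) (e : Fin n → OpenPartialHomeomorph M E4) (B C : Fin n → Set M),
      (∀ i, e i ∈ atlas E4 M) ∧ (∀ i, IsOpen (B i)) ∧ (∀ i, IsOpen (C i)) ∧
      (∀ i, closure (B i) ⊆ C i) ∧ (∀ i, C i ⊆ (e i).source) ∧
      (∀ i j, Convex ℝ (e i '' (B i ∩ B j))) ∧ (∀ i, Convex ℝ (e i '' C i)) ∧
      (∀ x, ∃ i, x ∈ B i) ∧ (∀ i, ∃ k, C i ⊆ O k) := by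
  obtain ⟨G, hG⟩ := R275.GC293.exists_goodCover hT O hO hOc
  have hrR := G.r_lt
  have hr := G.r_pos
  refine ⟨G.n, G.e, fun i => R275.GC293.cball (G.e i) (G.c i) G.r,
    fun i => R275.GC293.cball (G.e i) (G.c i) G.R, G.e_mem,
    fun i => R275.GC293.isOpen_cball _ _ _, fun i => R275.GC293.isOpen_cball _ _ _,
    fun i => ?_, fun i => R275.GC293.cball_subset_source _ _ _,
    fun i j => ?_, fun i => ?_, fun x => ?_, hG⟩
  · have hcb : Metric.closedBall (G.e i (G.c i)) G.r ⊆ (G.e i).target :=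
      (Metric.closedBall_subset_closedBall hrR.le).trans (G.ball_sub i)
    have hK : IsCompact ((G.e i).symm '' Metric.closedBall (G.e i (G.c i)) G.r) :=
      (isCompact_closedBall _ _).image_of_continuousOn ((G.e i).continuousOn_symm.mono hcb)
    have h1 : R275.GC293.cball (G.e i) (G.c i) G.r ⊆
        (G.e i).symm '' Metric.closedBall (G.e i (G.c i)) G.r := fun x hx =>
      ⟨G.e i x, Metric.ball_subset_closedBall hx.2, (G.e i).left_inv hx.1⟩
    refine (closure_minimal h1 hK.isClosed).trans ?_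
    rintro _ ⟨y, hy, rfl⟩
    refine ⟨(G.e i).map_target (hcb hy), ?_⟩
    rw [mem_preimage, (G.e i).right_inv (hcb hy)]
    exact Metric.closedBall_subset_ball hrR hy
  · by_cases hne : (R275.GC293.cball (G.e i) (G.c i) G.r ∩
        R275.GC293.cball (G.e j) (G.c j) G.r).Nonempty
    · have hne' : (R275.GC293.cball (G.e i) (G.c i) G.R ∩
          R275.GC293.cball (G.e j) (G.c j) G.R).Nonempty :=
        hne.mono (inter_subset_inter (R275.GC293.cball_mono _ _ hrR.le)
          (R275.GC293.cball_mono _ _ hrR.le))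
      have h1 := (G.meet i j hne' G.r hrR.le).2
      have h2 : (G.e i) '' (R275.GC293.cball (G.e i) (G.c i) G.r ∩
          R275.GC293.cball (G.e j) (G.c j) G.r) =
          Metric.ball (G.e i (G.c i)) G.r ∩ (G.e i) '' R275.GC293.cball (G.e j) (G.c j) G.r := by
        ext y
        constructor
        · rintro ⟨x, hx, rfl⟩
          exact ⟨hx.1.2, ⟨x, hx.2, rfl⟩⟩
        · rintro ⟨hy, ⟨x, hx, rfl⟩⟩
          have hxs : x ∈ (G.e i).source := by
            have h3 := (G.meet i j hne' G.r hrR.le).1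
            exact h3 ⟨G.e j x, Metric.ball_subset_closedBall hx.2, (G.e j).left_inv hx.1⟩
          exact ⟨x, ⟨⟨hxs, hy⟩, hx⟩, rfl⟩
      rw [h2]
      exact (convex_ball _ _).inter h1
    · rw [not_nonempty_iff_eq_empty.1 hne, image_empty]
      exact convex_empty
  · rw [R275.GC293.image_cball (Metric.ball_subset_closedBall.trans (G.ball_sub i))]
    exact convex_ball _ _
  · obtain ⟨i, hi⟩ := G.cover x
    exact ⟨i, R275.GC293.cball_mono _ _ (by linarith) hi⟩

end aux

section exist

variable (M : Type u) [TopologicalSpace M] [T2Space M] [CompactSpace M]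
  [ChartedSpace E4 M] [IsManifold 𝓘(ℝ, E4) ∞ M]

/-- `M` as a charted space with atlas the preferred charts. -/
@[reducible] def chSp : ChartedSpace E4 M where
  atlas := range fun x : M => chartAt E4 x
  chartAt x := chartAt E4 x
  mem_chart_source x := mem_chart_source E4 x
  chart_mem_atlas x := mem_range_self x

omit [T2Space M] [CompactSpace M] in
theorem contDiffOn_trans_E4 (x x' : M) :
    ContDiffOn ℝ 2 ((chartAt E4 x).symm ≫ₕ chartAt E4 x')
      ((chartAt E4 x).symm ≫ₕ chartAt E4 x').source := by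
  have h := StructureGroupoid.compatible (contDiffGroupoid ∞ 𝓘(ℝ, E4))
    (chart_mem_atlas E4 x) (chart_mem_atlas E4 x')
  rw [contDiffGroupoid, mem_groupoid_of_pregroupoid] at h
  have h2 : ContDiffOn ℝ ∞ ((chartAt E4 x).symm ≫ₕ chartAt E4 x')
      ((chartAt E4 x).symm ≫ₕ chartAt E4 x').source := by
    simpa [contDiffPregroupoid] using h.1
  exact h2.of_le (by exact_mod_cast (ENat.LEInfty.out : (2 : WithTop ℕ∞) ≤ (∞ : WithTop ℕ∞)))

omit [IsManifold 𝓘(ℝ, E4) ∞ M] in
theorem exists_cov_chartAt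
    (hT : ∀ x x' : M, ContDiffOn ℝ 2 ((chartAt E4 x).symm ≫ₕ chartAt E4 x')
      ((chartAt E4 x).symm ≫ₕ chartAt E4 x').source)
    {κ : Type*} (O : κ → Set M) (hO : ∀ k, IsOpen (O k)) (hOc : ∀ x, ∃ k, x ∈ O k) :
    ∃ (n : ℕ) (p : Fin n → M) (B C : Fin n → Set M),
      (∀ i, IsOpen (B i)) ∧ (∀ i, IsOpen (C i)) ∧ (∀ i, closure (B i) ⊆ C i) ∧
      (∀ i, C i ⊆ (chartAt E4 (p i)).source) ∧
      (∀ i j, Convex ℝ (chartAt E4 (p i) '' (B i ∩ B j))) ∧
      (∀ i, Convex ℝ (chartAt E4 (p i) '' C i)) ∧ (∀ x, ∃ i, x ∈ B i) ∧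
      (∀ i, ∃ k, C i ⊆ O k) := by
  obtain ⟨n, e, B, C, h1, h2, h3, h4, h5, h6, h7, h8, h9⟩ := @exists_cov_aux M _ (chSp M) _ _ (by
    rintro _ ⟨x, rfl⟩ _ ⟨x', rfl⟩
    exact hT x x') κ O hO hOc
  have hp : ∀ i, ∃ x : M, chartAt E4 x = e i := fun i => h1 i
  choose p hp using hp
  refine ⟨n, p, B, C, h2, h3, h4, fun i => ?_, fun i j => ?_, fun i => ?_, h8, h9⟩
  · rw [hp i]; exact h5 i
  · rw [hp i]; exact h6 i j
  · rw [hp i]; exact h7 i

/-- **existence of good covers**, subordinate to a given open cover. -/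
theorem exists_rgc {κ : Type*} (O : κ → Set M) (hO : ∀ k, IsOpen (O k))
    (hOc : ∀ x, ∃ k, x ∈ O k) : ∃ G : RGC M, ∀ i, ∃ k, G.C i ⊆ O k := by
  obtain ⟨n, p, B, C, hBo, hCo, hcl, hCs, hconv, hconvC, hcov, hBO⟩ :=
    exists_cov_chartAt M (contDiffOn_trans_E4 M) O hO hOc
  obtain ⟨f, hf⟩ := SmoothPartitionOfUnity.exists_isSubordinate 𝓘(ℝ, E4) isClosed_univ B hBo
    (fun x _ => mem_iUnion.2 (hcov x))
  refine ⟨{ n := n
            p := p
            B := B
            isOpen := hBo
            conv := hconv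
            C := C
            openC := hCo
            clos := hcl
            subC := hCs
            convC := hconvC
            ψ := fun i => f i
            smooth := fun i => (smoothF_iff _).1 (f i).contMDiff
            nonneg := fun i x => f.nonneg i x
            supp := fun i => hf i
            sum := fun x => ?_ }, fun i => hBO i⟩
  have h1 := f.sum_eq_one (mem_univ x)
  rwa [finsum_eq_sum_of_fintype] at h1

theorem nonempty_rgc : Nonempty (RGC M) := by
  obtain ⟨G, -⟩ := exists_rgc M (fun _ : Unit => (univ : Set M)) (fun _ => isOpen_univ)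
    fun _ => ⟨(), mem_univ _⟩
  exact ⟨G⟩

end exist

end

end Crest.Agent.R235
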