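import Mathlib
import Crest.Agent.R235.HZLat_524

/-!
Row 235 (S0364), block HZ (helper524): products of integral closed one-forms.

`Int1 G s f m` : `s = d f_i` on `B i`, `f_i - f_j = m_ij ∈ ℤ`; then `s ∧ t` has Čech data
`A_i = f_i t`, `F_ij = m_ij g_j`, with the integral cocycle `m_ij n_jk`: `cup_data`,
`cls_wed_mem : cls (s ∧ t) ∈ Lt G`.
-/

set_option autoImplicit false
set_option maxSynthPendingDepth 3
set_option linter.unusedSectionVars false

open Set Function Filter
open scoped Manifold ContDiff Topology

universe u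

namespace Crest.Agent.R235.Cup1_524

open Crest.Agent.R240 Crest.Agent.R240.Ch Tau_692 Cdr_524 Loc_524 HZLat_524 R275.TopK106

noncomputable section

section General

variable {E : Type} [NormedAddCommGroup E] [NormedSpace ℝ E] [FiniteDimensional ℝ E]
variable {M : Type*} [TopologicalSpace M] [ChartedSpace E M] [IsManifold 𝓘(ℝ, E) ∞ M]
  [T2Space M] [CompactSpace M]



end General

section Four

variable {M : Type u} [TopologicalSpace M] [ChartedSpace E4 M] [IsManifold 𝓘(ℝ, E4) ∞ M]
  [T2Space M] [CompactSpace M]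

/-- local integral data of a closed one-form. -/
structure Int1 (G : RGC M) (s : F1 E4 M) (f : Fin G.n → M → ℝ) (m : Fin G.n → Fin G.n → ℤ) :
    Prop where
  sm : ∀ i x, x ∈ G.B i → SmAtF E4 (f i) x
  d : ∀ i x, x ∈ G.B i → at1 (dF (E := E4) (f i)) x = at1 s x
  c : ∀ i j x, x ∈ G.B i → x ∈ G.B j → f i x - f j x = m i j




end Four

end

end Crest.Agent.R235.Cup1_524
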