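import Crest.Agent.R235.CurDefs_132
import Crest.Agent.R240.En2
import Crest.Agent.R240.Kern
import Mathlib

-- ▼ part R235/CurMon_956
section

/-!
Row 235 (S0364), PACKAGE CUR, node MON (helper956): almost monotonicity of `nuR` and integrability of
the deficit.  `theorem mon : GEO1 → GEO3 → LIN1' → LIN4 → MON0 → MON`.
-/

set_option autoImplicit false
set_option maxSynthPendingDepth 3

open Set Function Filter MeasureTheory Metric
open scoped ContDiff ENNReal Manifold Topology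

namespace Crest.Agent.R235.CurMon_956

open Crest.Agent.R240 Crest.Agent.R240.En Crest.Agent.R240.Pot Crest.Agent.R240.Kern
open Crest.Agent.R235.CurDefs_132

noncomputable section

/-! ### measurability -/

lemma meas_ent {f : E4 → Bil} (hf : Measurable f) (i j : Fin 4) :
    Measurable fun y => ent (f y) i j := by
  have hc : Continuous fun b : Bil => b (ee i) (ee j) := by fun_prop
  exact hc.measurable.comp hf

lemma meas_W {f g : E4 → Bil} (hf : Measurable f) (hg : Measurable g) :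
    Measurable fun y => W (f y) (g y) := by
  unfold W
  exact ((((((meas_ent hf 0 1).mul (meas_ent hg 2 3)).sub ((meas_ent hf 0 2).mul (meas_ent hg 1 3))).add
    ((meas_ent hf 0 3).mul (meas_ent hg 1 2))).add ((meas_ent hf 1 2).mul (meas_ent hg 0 3))).sub
    ((meas_ent hf 1 3).mul (meas_ent hg 0 2))).add ((meas_ent hf 2 3).mul (meas_ent hg 0 1))

lemma meas_q {F b c : E4 → Bil} (hF : Measurable F) (hb : Measurable b) (hc : Measurable c) :
    Measurable fun y => q (F y) (b y) (c y) :=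
  (meas_W hb hc).div (meas_W hF hF)

/-! ### cut-offs -/

lemma cut_le_one {δ : ℝ} {K : ℝ → ℝ} (hK : Cut δ K) (t : ℝ) : K t ≤ 1 := by
  rcases le_total t 1 with h | h
  · rw [hK.one t h]
  · exact (hK.anti h).trans_eq (hK.one 1 le_rfl)

lemma cut_nonneg {δ : ℝ} {K : ℝ → ℝ} (hK : Cut δ K) (t : ℝ) : 0 ≤ K t := by
  rcases le_total (1 + δ) t with h | h
  · rw [hK.zero t h]
  · exact (hK.zero (1 + δ) le_rfl).symm.le.trans (hK.anti h)

/-! ### the radius of the support -/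

section
variable (D : LC)

/-- `rho2 < 2 ρ²` implies `‖y - x‖ < ra ρ`. -/
def ra : ℝ := √(2 / D.m)

lemma m_pos : 0 < D.m := (D.bd 0).m_pos

lemma M_pos : 0 < D.M := (D.bd 0).M_pos

lemma ra_pos : 0 < ra D := Real.sqrt_pos.2 (div_pos two_pos (m_pos D))

lemma ra_sq : ra D ^ 2 = 2 / D.m := Real.sq_sqrt (div_pos two_pos (m_pos D)).le

lemma lt_of_rho2 (hG : GEO1) {x y : E4} {ρ : ℝ} (hρ : 0 < ρ) (h : D.rho2 x y < 2 * ρ ^ 2) :
    ‖y - x‖ < ra D * ρ := by
  have h1 := ((hG D).2.1 x y).1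
  have hm := m_pos D
  have h2 : ‖y - x‖ ^ 2 < (ra D * ρ) ^ 2 := by
    rw [mul_pow, ra_sq, div_mul_eq_mul_div, lt_div_iff₀ hm]
    linarith
  exact lt_of_pow_lt_pow_left₀ 2 (mul_pos (ra_pos D) hρ).le h2

lemma rho2_nonneg (hG : GEO1) (x y : E4) : 0 ≤ D.rho2 x y := by
  have h1 := ((hG D).2.1 x y).1
  have hm := m_pos D
  exact (by positivity : 0 ≤ D.m * ‖y - x‖ ^ 2).trans h1


lemma sm_rho (hG : GEO1) (x : E4) : ContDiff ℝ ∞ fun y => D.rho2 x y := by
  have h1 : ContDiff ℝ ∞ fun y : E4 => (x, y) := contDiff_const.prodMk contDiff_id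
  exact ContDiff.comp (g := fun z : E4 × E4 => D.rho2 z.1 z.2) (f := fun y : E4 => (x, y))
    (hG D).1 h1

lemma sm_dy (hG : GEO1) (x : E4) : ContDiff ℝ ∞ fun y => D.dy x y :=
  (sm_rho D hG x).fderiv_right (m := ∞) (by simp)

lemma sm_Jdy (hG : GEO1) (x : E4) : ContDiff ℝ ∞ fun y => Jc (D.J y) (D.dy x y) := by
  unfold Jc
  exact ((sm_dy D hG x).clm_comp D.smJ).neg

lemma cont_wed (hG : GEO1) (x : E4) :
    Continuous fun y => wed (D.dy x y) (Jc (D.J y) (D.dy x y)) :=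
  continuous_wed (sm_dy D hG x).continuous (sm_Jdy D hG x).continuous

lemma meas_De (hG : GEO1) (x : E4) : Measurable fun y => D.De x y := by
  have hc := (cont_wed D hG x).measurable
  have hF := D.smF.continuous.measurable
  exact ((meas_q hF hF hc).const_mul 2).sub (meas_q hF D.meas hc)

lemma De_nonneg (hL : LIN1') (x y : E4) : 0 ≤ D.De x y :=
  (hL (D.J y) (D.F y) D.m D.M (D.bd y) (D.φ y) (D.pos y) (D.nrm y) (D.dy x y) 0).1

/-- bound of the deficit -/
lemma De_le (hG : GEO1) (hL4 : LIN4) : ∃ C : ℝ, 0 ≤ C ∧ ∀ x y, ‖y - x‖ ≤ 1 →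
    D.De x y ≤ C * ‖y - x‖ ^ 2 := by
  obtain ⟨C1, hC1, h1⟩ := (hG D).2.2
  obtain ⟨C4, hC4, h4⟩ := hL4 D.m D.M D.L
  refine ⟨C4 * C1 ^ 2, by positivity, fun x y hxy => ?_⟩
  have a1 := (h4 (D.J y) (D.F y) (D.bd y) (D.bJ y) (D.φ y) (D.pos y) (D.nrm y)).2.2.2.1 (D.dy x y)
  have a2 := (h1 x y hxy).2.1
  have a3 : ‖D.dy x y‖ ^ 2 ≤ (C1 * ‖y - x‖) ^ 2 := pow_le_pow_left₀ (norm_nonneg _) a2 2
  calc D.De x y ≤ C4 * ‖D.dy x y‖ ^ 2 := a1
    _ ≤ C4 * (C1 * ‖y - x‖) ^ 2 := by gcongr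
    _ = _ := by ring

/-- growth -/
lemma growth (y : E4) {r : ℝ} (hr : 0 < r) :
    D.s (ball y r) ≤ ENNReal.ofReal (D.C * r ^ (1 + 1)) := by
  have := D.fin
  have h := D.gr y r hr
  rw [← ENNReal.ofReal_toReal (measure_ne_top D.s (ball y r))]
  exact ENNReal.ofReal_le_ofReal h

/-- `0 ≤ nuR ≤ C ra²`. -/
lemma nuR_bd (hG : GEO1) {δ : ℝ} {K : ℝ → ℝ} (hδ1 : δ ≤ 1) (hK : Cut δ K) (x : E4) {r : ℝ}
    (hr : 0 < r) : 0 ≤ D.nuR K r x ∧ D.nuR K r x ≤ D.C * ra D ^ 2 := by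
  have := D.fin
  have h0 : 0 ≤ ∫ y, K (D.rho2 x y / r ^ 2) ∂D.s := integral_nonneg fun y => cut_nonneg hK _
  refine ⟨mul_nonneg (by positivity) h0, ?_⟩
  have h1 : ∫ y, K (D.rho2 x y / r ^ 2) ∂D.s ≤ D.C * (ra D * r) ^ 2 := by
    have h2 : ∫ y, K (D.rho2 x y / r ^ 2) ∂D.s ≤
        ∫ y, (ball x (ra D * r)).indicator (fun _ => (1:ℝ)) y ∂D.s := by
      refine integral_mono_of_nonneg (Eventually.of_forall fun y => cut_nonneg hK _)
        ((integrable_const (1:ℝ)).indicator measurableSet_ball) (Eventually.of_forall fun y => ?_)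
      simp only
      by_cases hy : y ∈ ball x (ra D * r)
      · rw [indicator_of_mem hy]
        exact cut_le_one hK _
      · rw [indicator_of_notMem hy, hK.zero _ ?_]
        rw [mem_ball, dist_eq_norm, not_lt] at hy
        have h3 : 2 * r ^ 2 ≤ D.rho2 x y := by
          by_contra hc
          exact absurd (lt_of_rho2 D hG hr (not_le.1 hc)) (not_lt.2 hy)
        rw [le_div_iff₀ (by positivity)]
        nlinarith [sq_nonneg r]
    rw [integral_indicator measurableSet_ball, integral_const, smul_eq_mul, mul_one,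
      measureReal_restrict_apply_univ] at h2
    exact h2.trans (D.gr x _ (mul_pos (ra_pos D) hr))
  calc D.nuR K r x ≤ (r ^ 2)⁻¹ * (D.C * (ra D * r) ^ 2) :=
        mul_le_mul_of_nonneg_left h1 (by positivity)
    _ = D.C * ra D ^ 2 := by field_simp

/-- the exact identity behind the monotonicity formula, pointwise. -/
lemma point_id (hG : GEO1) {f : ℝ → ℝ} (hf : ContDiff ℝ ∞ f) (x y : E4) :
    q (D.F y) (D.φ y) (d1 (fun z => f (D.rho2 x z) • Jc (D.J z) (D.dy x z)) y) =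
      deriv f (D.rho2 x y) * (2 * q (D.F y) (D.F y) (wed (D.dy x y) (Jc (D.J y) (D.dy x y)))
        - D.De x y) + f (D.rho2 x y) * q (D.F y) (D.φ y) (d1 (fun z => Jc (D.J z) (D.dy x z)) y) := by
  have h1 : HasFDerivAt (fun z => D.rho2 x z) (D.dy x y) y :=
    ((sm_rho D hG x).differentiable (by simp) y).hasFDerivAt
  have h2 : HasDerivAt f (deriv f (D.rho2 x y)) (D.rho2 x y) :=
    (hf.differentiable (by simp) _).hasDerivAt
  have h3 : HasFDerivAt (fun z => f (D.rho2 x z)) (deriv f (D.rho2 x y) • D.dy x y) y :=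
    h2.comp_hasFDerivAt y h1
  rw [d1_smul h3.differentiableAt ((sm_Jdy D hG x).differentiable (by simp) y), h3.fderiv,
    En.wed_smul_left, q_add_right, q_smul_right, q_smul_right]
  have h4 : q (D.F y) (D.φ y) (wed (D.dy x y) (Jc (D.J y) (D.dy x y))) =
      2 * q (D.F y) (D.F y) (wed (D.dy x y) (Jc (D.J y) (D.dy x y))) - D.De x y := by
    unfold LC.De defi
    ring
  rw [h4]

end

/-- outside the support -/
lemma deriv_zero {f : ℝ → ℝ} {r r' δ : ℝ} {K : ℝ → ℝ} (hδ1 : δ ≤ 1) (hK : Cut δ K)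
    (hr : 0 < r) (hrr : r < r') (hf0 : ∀ t, 2 * r' ^ 2 ≤ t → f t = 0)
    (hfi : ∀ t, f t + t * deriv f t = ((r ^ 2)⁻¹ * K (t / r ^ 2) - (r' ^ 2)⁻¹ * K (t / r' ^ 2)) / 2)
    {t : ℝ} (ht : 2 * r' ^ 2 ≤ t) : deriv f t = 0 := by
  have hr' : 0 < r' := hr.trans hrr
  have h0 : 0 < t := lt_of_lt_of_le (by positivity) ht
  have h1 := hfi t
  have h2 : r ^ 2 ≤ r' ^ 2 := pow_le_pow_left₀ hr.le hrr.le 2
  rw [hf0 t ht, hK.zero (t / r ^ 2) ?_, hK.zero (t / r' ^ 2) ?_] at h1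
  · simp only [mul_zero, sub_zero, zero_div, zero_add] at h1
    exact (mul_eq_zero.1 h1).resolve_left h0.ne'
  · rw [le_div_iff₀ (by positivity)]
    nlinarith
  · rw [le_div_iff₀ (by positivity)]
    nlinarith

/-- the profiles of `MON0`, with constants. -/
def Prof (K : ℝ → ℝ) (C0 c : ℝ) : Prop := ∀ r r' : ℝ, 0 < r → r < r' → ∃ f : ℝ → ℝ,
  ContDiff ℝ ∞ f ∧ (∀ t, 2 * r' ^ 2 ≤ t → f t = 0) ∧
    (∀ t, f t + t * deriv f t = ((r ^ 2)⁻¹ * K (t / r ^ 2) - (r' ^ 2)⁻¹ * K (t / r' ^ 2)) / 2) ∧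
    (∀ t, 0 < t → |f t| ≤ C0 / t ∧ |deriv f t| ≤ C0 / t ^ 2) ∧ (∀ t, 0 ≤ t → deriv f t ≤ 0) ∧
    ∀ t, 2 * r ^ 2 ≤ t → t ≤ r' ^ 2 → c / t ^ 2 ≤ - deriv f t

/-- the inequalities of `GEO3` for one `D`, with the constant. -/
def Geo3 (D : LC) (C3 : ℝ) : Prop := ∀ x y, ‖y - x‖ ≤ 1 →
  |2 * q (D.F y) (D.F y) (wed (D.dy x y) (Jc (D.J y) (D.dy x y))) - 4 * D.rho2 x y|
      ≤ C3 * ‖y - x‖ ^ 3 ∧
  |q (D.F y) (D.φ y) (d1 (fun z => Jc (D.J z) (D.dy x z)) y) - 4| ≤ C3 * ‖y - x‖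

/-- the error constant: depends only on `m`, the growth constant and `C0`, `C3`. -/
def c5 (m C C0 C3 : ℝ) : ℝ := (C0 * C3 / m ^ 2 + C0 * C3 / m) * (4 * C * √(2 / m))

/-- **the monotonicity identity**, integrated, with explicit constants -/
theorem key_u (hG : GEO1) (hL : LIN1') (hL4 : LIN4) (D : LC) {δ : ℝ}
    {K : ℝ → ℝ} (hδ1 : δ ≤ 1) (hK : Cut δ K) {C0 c C3 : ℝ} (hC0 : 0 ≤ C0) (hC3 : 0 ≤ C3)
    (hf : Prof K C0 c) (h3 : Geo3 D C3) :
    ∀ x ∈ ball D.x0 (3 * D.R), ∀ r r' : ℝ, 0 < r → r < r' → ra D * r' < D.R →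
      ∃ g : ℝ → ℝ, Continuous g ∧ (∀ t, 0 ≤ t → 0 ≤ g t) ∧
        (∀ t, 2 * r ^ 2 ≤ t → t ≤ r' ^ 2 → c / t ^ 2 ≤ g t) ∧
        Integrable (fun y => g (D.rho2 x y) * D.De x y) D.s ∧
        ∫ y, g (D.rho2 x y) * D.De x y ∂D.s ≤
          2 * (D.nuR K r' x - D.nuR K r x) + c5 D.m D.C C0 C3 * r' := by
  have hfin := D.fin
  obtain ⟨CD, hCD, hDe⟩ := De_le D hG hL4
  have hm := m_pos D
  have hra := ra_pos D
  set C4 : ℝ := C0 * C3 / D.m ^ 2 + C0 * C3 / D.m with hC4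
  have hC4n : 0 ≤ C4 := by positivity
  have hc5 : c5 D.m D.C C0 C3 = C4 * (4 * D.C * ra D) := rfl
  rw [hc5]
  intro x hx r r' hr hrr hR
  have hr' : 0 < r' := hr.trans hrr
  obtain ⟨f, hfs, hf0, hfi, hfb, hfa, hfc⟩ := hf r r' hr hrr
  have hd0 : ∀ t, 2 * r' ^ 2 ≤ t → deriv f t = 0 := fun t ht => deriv_zero hδ1 hK hr hrr hf0 hfi ht
  have hdc : Continuous (deriv f) := hfs.continuous_deriv (by simp)
  have hρc : Continuous fun y => D.rho2 x y := (sm_rho D hG x).continuous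
  have hF := D.smF.continuous.measurable
  have hout : ∀ y, y ∉ ball x (ra D * r') → 2 * r' ^ 2 ≤ D.rho2 x y := by
    intro y hy
    rw [mem_ball, dist_eq_norm, not_lt] at hy
    by_contra hcc
    exact absurd (lt_of_rho2 D hG hr' (not_le.1 hcc)) (not_lt.2 hy)
  have hle1 : ∀ y ∈ ball x (ra D * r'), ‖y - x‖ ≤ 1 := by
    intro y hy
    rw [mem_ball, dist_eq_norm] at hy
    have := D.R_le
    linarith
  set A : E4 → ℝ := fun y => 2 * q (D.F y) (D.F y) (wed (D.dy x y) (Jc (D.J y) (D.dy x y))) with hA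
  set B : E4 → ℝ := fun y => q (D.F y) (D.φ y) (d1 (fun z => Jc (D.J z) (D.dy x z)) y) with hB
  have mA : Measurable A := (meas_q hF hF (cont_wed D hG x).measurable).const_mul 2
  have mB : Measurable B := meas_q hF D.meas
    (continuous_d1 ((sm_Jdy D hG x).of_le (by simp))).measurable
  have mDe := meas_De D hG x
  -- the pieces
  set U : E4 → ℝ := fun y => - deriv f (D.rho2 x y) * D.De x y with hU
  set k : E4 → ℝ := fun y => 2 * ((r ^ 2)⁻¹ * K (D.rho2 x y / r ^ 2)) -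
    2 * ((r' ^ 2)⁻¹ * K (D.rho2 x y / r' ^ 2)) with hk
  set E : E4 → ℝ := fun y => deriv f (D.rho2 x y) * (A y - 4 * D.rho2 x y) +
    f (D.rho2 x y) * (B y - 4) with hE
  have hsum : ∀ y, q (D.F y) (D.φ y) (d1 (fun z => f (D.rho2 x z) • Jc (D.J z) (D.dy x z)) y) =
      U y + k y + E y := by
    intro y
    rw [point_id D hG hfs x y]
    have h1 := hfi (D.rho2 x y)
    have h2 : k y = 4 * (f (D.rho2 x y) + D.rho2 x y * deriv f (D.rho2 x y)) := by
      rw [h1, hk]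
      ring
    rw [h2, hU, hE, hA, hB]
    ring
  -- bounds
  have hEb : ∀ y, ‖E y‖ₑ ≤ (ball x (ra D * r')).indicator
      (fun y => ENNReal.ofReal C4 * Kern.ker 1 (dist x y)) y := by
    intro y
    by_cases hy : y ∈ ball x (ra D * r')
    · rw [indicator_of_mem hy]
      have hy1 := hle1 y hy
      obtain ⟨b1, b2⟩ := h3 x y hy1
      rcases (norm_nonneg (y - x)).eq_or_lt with h | h
      · -- at the centre
        have hyx : y = x := by
          rw [← sub_eq_zero]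
          exact norm_eq_zero.1 h.symm
        rw [← h] at b1 b2
        have e1 : A y - 4 * D.rho2 x y = 0 := by
          have : |A y - 4 * D.rho2 x y| ≤ C3 * 0 ^ 3 := b1
          have h2 : |A y - 4 * D.rho2 x y| ≤ 0 := by simpa using this
          exact abs_nonpos_iff.1 h2
        have e2 : B y - 4 = 0 := by
          have : |B y - 4| ≤ C3 * 0 := b2
          have h2 : |B y - 4| ≤ 0 := by simpa using this
          exact abs_nonpos_iff.1 h2
        have e3 : E y = 0 := by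
          simp only [hE, e1, e2, mul_zero, add_zero]
        rw [e3, enorm_zero]
        exact bot_le
      · have hρ := ((hG D).2.1 x y).1
        have hρ0 : 0 < D.rho2 x y := lt_of_lt_of_le (by positivity) hρ
        obtain ⟨f1, f2⟩ := hfb _ hρ0
        have g1 : |deriv f (D.rho2 x y)| ≤ C0 / (D.m * ‖y - x‖ ^ 2) ^ 2 :=
          f2.trans (by gcongr)
        have g2 : |f (D.rho2 x y)| ≤ C0 / (D.m * ‖y - x‖ ^ 2) := f1.trans (by gcongr)
        have g3 : |E y| ≤ C4 * ‖y - x‖⁻¹ := by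
          calc |E y| ≤ |deriv f (D.rho2 x y)| * |A y - 4 * D.rho2 x y| +
                |f (D.rho2 x y)| * |B y - 4| := by
                rw [← abs_mul, ← abs_mul]
                exact abs_add_le _ _
            _ ≤ C0 / (D.m * ‖y - x‖ ^ 2) ^ 2 * (C3 * ‖y - x‖ ^ 3) +
                C0 / (D.m * ‖y - x‖ ^ 2) * (C3 * ‖y - x‖) := by
                gcongr
            _ = C4 * ‖y - x‖⁻¹ := by
                rw [hC4]
                field_simp
        rw [dist_comm, dist_eq_norm, ker_of_pos 1 h, pow_one, ← ENNReal.ofReal_mul hC4n,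
          Real.enorm_eq_ofReal_abs]
        exact ENNReal.ofReal_le_ofReal g3
    · rw [indicator_of_notMem hy]
      have := hout y hy
      have e3 : E y = 0 := by
        simp only [hE, hd0 _ this, hf0 _ this, zero_mul, add_zero]
      rw [e3, enorm_zero]
  have hEl : ∫⁻ y, ‖E y‖ₑ ∂D.s ≤ ENNReal.ofReal (C4 * (4 * D.C * ra D) * r') := by
    calc ∫⁻ y, ‖E y‖ₑ ∂D.s ≤ ∫⁻ y, (ball x (ra D * r')).indicator
          (fun y => ENNReal.ofReal C4 * Kern.ker 1 (dist x y)) y ∂D.s := lintegral_mono hEb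
      _ = ENNReal.ofReal C4 * ∫⁻ y in ball x (ra D * r'), Kern.ker 1 (dist x y) ∂D.s := by
          rw [lintegral_indicator measurableSet_ball, lintegral_const_mul]
          exact (measurable_ker 1).comp (by fun_prop)
      _ ≤ ENNReal.ofReal C4 * ENNReal.ofReal (2 ^ (1 + 1) * D.C * (ra D * r') ^ 1) := by
          gcongr
          exact setLIntegral_ker D.s x (b := 1) (c := 1) le_rfl (fun r hr => growth D x hr) D.C_nn
            (mul_pos hra hr')
      _ = _ := by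
          rw [← ENNReal.ofReal_mul hC4n]
          congr 1
          ring
  have mE : Measurable E :=
    ((hdc.measurable.comp hρc.measurable).mul (mA.sub (hρc.measurable.const_mul 4))).add
      ((hfs.continuous.measurable.comp hρc.measurable).mul (mB.sub_const 4))
  have iE : Integrable E D.s := ⟨mE.aestronglyMeasurable, lt_of_le_of_lt hEl ENNReal.ofReal_lt_top⟩
  have hEi : |∫ y, E y ∂D.s| ≤ C4 * (4 * D.C * ra D) * r' := by
    have h1 := (enorm_integral_le_lintegral_enorm (μ := D.s) E).trans hEl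
    rw [Real.enorm_eq_ofReal_abs] at h1
    exact (ENNReal.ofReal_le_ofReal_iff (by have := D.C_nn; positivity)).1 h1
  -- `U`
  have mU : Measurable U := ((hdc.measurable.comp hρc.measurable).neg).mul mDe
  have iU : Integrable U D.s := by
    obtain ⟨Bg, hBg⟩ := (isCompact_Icc (a := (0:ℝ)) (b := 2 * r' ^ 2)).exists_bound_of_continuousOn
      hdc.continuousOn
    refine Integrable.of_bound (C := |Bg| * CD) mU.aestronglyMeasurable
      (Eventually.of_forall fun y => ?_)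
    by_cases hy : y ∈ ball x (ra D * r')
    · have hy1 := hle1 y hy
      have a1 := De_nonneg D hL x y
      have a2 : D.De x y ≤ CD := (hDe x y hy1).trans (by
        have : ‖y - x‖ ^ 2 ≤ 1 := pow_le_one₀ (norm_nonneg _) hy1
        nlinarith)
      have a3 : ‖deriv f (D.rho2 x y)‖ ≤ |Bg| := by
        by_cases hh : D.rho2 x y ≤ 2 * r' ^ 2
        · exact (hBg _ ⟨rho2_nonneg D hG x y, hh⟩).trans (le_abs_self _)
        · rw [hd0 _ (not_le.1 hh).le, norm_zero]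
          exact abs_nonneg _
      rw [hU]
      simp only
      rw [norm_mul, norm_neg, Real.norm_of_nonneg a1]
      gcongr
    · rw [hU]
      simp only
      rw [hd0 _ (hout y hy)]
      simp only [neg_zero, zero_mul, norm_zero]
      positivity
  -- `k`
  have iK : ∀ ρ : ℝ, Integrable (fun y => K (D.rho2 x y / ρ ^ 2)) D.s := by
    intro ρ
    refine Integrable.of_bound (C := 1)
      ((hK.smooth.continuous.comp (hρc.div_const _)).aestronglyMeasurable)
      (Eventually.of_forall fun y => ?_)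
    rw [Real.norm_of_nonneg (cut_nonneg hK _)]
    exact cut_le_one hK _
  have ik : Integrable k D.s := (((iK r).const_mul _).const_mul _).sub (((iK r').const_mul _).const_mul _)
  have hki : ∫ y, k y ∂D.s = 2 * (D.nuR K r x - D.nuR K r' x) := by
    rw [hk]
    rw [integral_sub (((iK r).const_mul _).const_mul _) (((iK r').const_mul _).const_mul _),
      integral_const_mul, integral_const_mul, integral_const_mul, integral_const_mul]
    unfold LC.nuR
    ring
  -- closedness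
  have hcl : ∫ y, q (D.F y) (D.φ y) (d1 (fun z => f (D.rho2 x z) • Jc (D.J z) (D.dy x z)) y) ∂D.s
      = 0 := by
    have hsup : support (fun z => f (D.rho2 x z) • Jc (D.J z) (D.dy x z)) ⊆
        closedBall x (ra D * r') := by
      intro z hz
      by_contra hc1
      have hz1 : z ∉ ball x (ra D * r') := fun h => hc1 (ball_subset_closedBall h)
      apply hz
      simp only [hf0 _ (hout z hz1), zero_smul]
    have hts : tsupport (fun z => f (D.rho2 x z) • Jc (D.J z) (D.dy x z)) ⊆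
        closedBall x (ra D * r') := closure_minimal hsup isClosed_closedBall
    refine D.closed _ ?_ ?_ ?_
    · exact (hfs.comp (sm_rho D hG x)).smul (sm_Jdy D hG x)
    · exact HasCompactSupport.intro (isCompact_closedBall x (ra D * r')) fun z hz => by
        by_contra h
        exact hz (hsup h)
    · refine hts.trans fun z hz => ?_
      rw [mem_closedBall] at hz
      rw [mem_ball] at hx ⊢
      have := dist_triangle z x D.x0
      linarith
  simp only [hsum] at hcl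
  rw [integral_add (f := fun y => U y + k y) (g := E) (iU.add ik) iE, integral_add iU ik, hki] at hcl
  refine ⟨fun t => - deriv f t, hdc.neg, fun t ht => by have := hfa t ht; linarith,
    fun t h1 h2 => hfc t h1 h2, iU, ?_⟩
  have h5 := (abs_le.1 hEi).1
  have h6 : ∫ y, - deriv f (D.rho2 x y) * D.De x y ∂D.s = ∫ y, U y ∂D.s := rfl
  rw [h6]
  linarith

/-- the largest radius -/
def rr0 (m R : ℝ) : ℝ := R / (2 * √(2 / m))

/-- the radius `r1` -/
def rr1 (m M R : ℝ) : ℝ := min (rr0 m R) (rr0 m R / √M)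

/-- the final constant -/
def c7 (m M C R C0 c C3 : ℝ) : ℝ := c5 m C C0 C3 + C * √(2 / m) ^ 2 +
  M ^ 2 / c * (2 * (C * √(2 / m) ^ 2) + c5 m C C0 C3 * rr0 m R)

/-- **MON with uniform constants**: `C7 = c7 m M C R C0 c C3`, `r1 = rr1 m M R`. -/
theorem mon_u (hG : GEO1) (hL : LIN1') (hL4 : LIN4) (D : LC) {δ : ℝ}
    {K : ℝ → ℝ} (hδ1 : δ ≤ 1) (hK : Cut δ K) {C0 c C3 : ℝ} (hC0 : 0 ≤ C0) (hC3 : 0 ≤ C3)
    (hc : 0 < c) (hf : Prof K C0 c) (h3 : Geo3 D C3) :
    0 ≤ c7 D.m D.M D.C D.R C0 c C3 ∧ 0 < rr1 D.m D.M D.R ∧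
    (∀ x ∈ ball D.x0 (3 * D.R), ∀ r r', 0 < r → r < r' → r' ≤ rr1 D.m D.M D.R →
      D.nuR K r x ≤ D.nuR K r' x + c7 D.m D.M D.C D.R C0 c C3 * r') ∧
    (∀ x, ∀ r, 0 < r → 0 ≤ D.nuR K r x ∧ D.nuR K r x ≤ c7 D.m D.M D.C D.R C0 c C3) ∧
    ∀ x ∈ ball D.x0 (3 * D.R),
      ∫⁻ y in ball x (rr1 D.m D.M D.R), ENNReal.ofReal (D.De x y / ‖y - x‖ ^ 4) ∂D.s ≤
        ENNReal.ofReal (c7 D.m D.M D.C D.R C0 c C3) := by
  have hfin := D.fin
  have hkey := key_u hG hL hL4 D hδ1 hK hC0 hC3 hf h3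
  have hm := m_pos D
  have hM := M_pos D
  have hra := ra_pos D
  have hRp := D.R_pos
  have hCn := D.C_nn
  set C5 : ℝ := c5 D.m D.C C0 C3 with hC5d
  have hC5 : 0 ≤ C5 := by
    rw [hC5d, c5]
    positivity
  set r0 : ℝ := rr0 D.m D.R with hr0
  have hr0' : r0 = D.R / (2 * ra D) := rfl
  have hr0p : 0 < r0 := by rw [hr0']; positivity
  have hr0R : ∀ r', r' ≤ r0 → ra D * r' < D.R := by
    intro r' h
    have : ra D * r' ≤ ra D * r0 := by gcongr
    have h2 : ra D * r0 = D.R / 2 := by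
      rw [hr0']
      field_simp
    linarith
  set r1 : ℝ := rr1 D.m D.M D.R with hr1
  have hr1' : r1 = min r0 (r0 / √D.M) := rfl
  have hr1p : 0 < r1 := by rw [hr1']; exact lt_min hr0p (div_pos hr0p (Real.sqrt_pos.2 hM))
  set C6 : ℝ := 2 * (D.C * ra D ^ 2) + C5 * r0 with hC6
  have hC6n : 0 ≤ C6 := by positivity
  set C7 : ℝ := c7 D.m D.M D.C D.R C0 c C3 with hC7d
  have hC7 : C7 = C5 + D.C * ra D ^ 2 + D.M ^ 2 / c * C6 := rfl
  have hC7n : 0 ≤ C7 := by rw [hC7]; positivity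
  refine ⟨hC7n, hr1p, ?_, ?_, ?_⟩
  · intro x hx r r' hr hrr hr'
    have hr'p : 0 < r' := hr.trans hrr
    obtain ⟨g, -, hg0, -, -, hgi⟩ := hkey x hx r r' hr hrr
      (hr0R r' (hr'.trans (by rw [hr1']; exact min_le_left _ _)))
    have h1 : 0 ≤ ∫ y, g (D.rho2 x y) * D.De x y ∂D.s :=
      integral_nonneg fun y => mul_nonneg (hg0 _ (rho2_nonneg D hG x y)) (De_nonneg D hL x y)
    have h2 : C5 * r' ≤ C7 * r' := by
      refine mul_le_mul_of_nonneg_right ?_ hr'p.le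
      rw [hC7]
      have : 0 ≤ D.M ^ 2 / c * C6 := by positivity
      have : 0 ≤ D.C * ra D ^ 2 := by positivity
      linarith
    have h3 : 0 ≤ C7 * r' := by positivity
    linarith
  · intro x r hr
    obtain ⟨h1, h2⟩ := nuR_bd D hG hδ1 hK x hr
    refine ⟨h1, h2.trans ?_⟩
    rw [hC7]
    have : 0 ≤ D.M ^ 2 / c * C6 := by positivity
    linarith
  · intro x hx
    have hρc : Continuous fun y => D.rho2 x y := (sm_rho D hG x).continuous
    have mDe := meas_De D hG x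
    set G : E4 → ℝ≥0∞ := fun y => ENNReal.ofReal (D.De x y / ‖y - x‖ ^ 4) with hGdef
    have mG : Measurable G := (mDe.div (by fun_prop)).ennreal_ofReal
    -- the small radii
    set rn : ℕ → ℝ := fun n => r0 / (n + 2) with hrn
    have hrnp : ∀ n, 0 < rn n := fun n => by
      simp only [hrn]
      positivity
    have hrnl : ∀ n, rn n < r0 := fun n => by
      simp only [hrn]
      rw [div_lt_iff₀ (by positivity)]
      have : (0:ℝ) ≤ n := n.cast_nonneg
      nlinarith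
    have hrna : ∀ n k, n ≤ k → rn k ≤ rn n := fun n k h => by
      simp only [hrn]
      gcongr
    have hrnt : Tendsto rn atTop (𝓝 0) := by
      have h1 : Tendsto (fun n : ℕ => ((n : ℝ) + 2)) atTop atTop :=
        tendsto_atTop_add_const_right _ _ tendsto_natCast_atTop_atTop
      exact h1.const_div_atTop r0
    set S : ℕ → Set E4 := fun n => ball x r1 ∩ {y | 2 * rn n ^ 2 ≤ D.rho2 x y} with hS
    have mS : ∀ n, MeasurableSet (S n) := fun n =>
      measurableSet_ball.inter (measurableSet_le measurable_const hρc.measurable)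
    have hSm : Monotone S := by
      intro n k hnk y hy
      refine ⟨hy.1, ?_⟩
      have h1 : rn k ^ 2 ≤ rn n ^ 2 := pow_le_pow_left₀ (hrnp k).le (hrna n k hnk) 2
      have h2 : 2 * rn n ^ 2 ≤ D.rho2 x y := hy.2
      show 2 * rn k ^ 2 ≤ D.rho2 x y
      linarith
    have hterm : ∀ n, ∫⁻ y in S n, G y ∂D.s ≤ ENNReal.ofReal C7 := by
      intro n
      obtain ⟨g, hgc, hg0, hgl, hgi, hgb⟩ := hkey x hx (rn n) r0 (hrnp n) (hrnl n)
        (hr0R r0 le_rfl)
      have h1 : ∀ y ∈ S n, G y ≤ ENNReal.ofReal (D.M ^ 2 / c * (g (D.rho2 x y) * D.De x y)) := by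
        intro y hy
        refine ENNReal.ofReal_le_ofReal ?_
        have hy2 : 2 * rn n ^ 2 ≤ D.rho2 x y := hy.2
        have hρ0 : 0 < D.rho2 x y := lt_of_lt_of_le (by have := hrnp n; positivity) hy2
        have hρM := ((hG D).2.1 x y).2
        have hd0 : 0 < ‖y - x‖ := by
          rcases (norm_nonneg (y - x)).eq_or_lt with h | h
          · rw [← h] at hρM
            simp only [ne_eq, OfNat.ofNat_ne_zero, not_false_eq_true, zero_pow, mul_zero] at hρM
            linarith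
          · exact h
        have hy1 : ‖y - x‖ < r1 := by
          have := hy.1
          rwa [mem_ball, dist_eq_norm] at this
        have hρr : D.rho2 x y ≤ r0 ^ 2 := by
          refine hρM.trans ?_
          have h2 : ‖y - x‖ ≤ r0 / √D.M := hy1.le.trans (by rw [hr1']; exact min_le_right _ _)
          have h3 : ‖y - x‖ ^ 2 ≤ (r0 / √D.M) ^ 2 := pow_le_pow_left₀ (norm_nonneg _) h2 2
          rw [div_pow, Real.sq_sqrt hM.le, le_div_iff₀ hM] at h3
          linarith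
        have h4 := hgl _ hy2 hρr
        have h5 : D.rho2 x y ^ 2 ≤ (D.M * ‖y - x‖ ^ 2) ^ 2 := pow_le_pow_left₀ hρ0.le hρM 2
        have h6 := De_nonneg D hL x y
        have h7 : 1 / ‖y - x‖ ^ 4 ≤ D.M ^ 2 / c * g (D.rho2 x y) := by
          have h8 : D.M ^ 2 / c * (c / D.rho2 x y ^ 2) ≤ D.M ^ 2 / c * g (D.rho2 x y) :=
            mul_le_mul_of_nonneg_left h4 (by positivity)
          refine le_trans ?_ h8
          have h9 : D.M ^ 2 / c * (c / D.rho2 x y ^ 2) = D.M ^ 2 / D.rho2 x y ^ 2 := by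
            field_simp
          rw [h9, div_le_div_iff₀ (by positivity) (by positivity)]
          calc 1 * D.rho2 x y ^ 2 ≤ (D.M * ‖y - x‖ ^ 2) ^ 2 := by rw [one_mul]; exact h5
            _ = D.M ^ 2 * ‖y - x‖ ^ 4 := by ring
        calc D.De x y / ‖y - x‖ ^ 4 = 1 / ‖y - x‖ ^ 4 * D.De x y := by ring
          _ ≤ D.M ^ 2 / c * g (D.rho2 x y) * D.De x y := mul_le_mul_of_nonneg_right h7 h6
          _ = _ := by ring
      have hnn : ∀ y, 0 ≤ D.M ^ 2 / c * (g (D.rho2 x y) * D.De x y) := fun y =>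
        mul_nonneg (by positivity)
          (mul_nonneg (hg0 _ (rho2_nonneg D hG x y)) (De_nonneg D hL x y))
      calc ∫⁻ y in S n, G y ∂D.s
          ≤ ∫⁻ y in S n, ENNReal.ofReal (D.M ^ 2 / c * (g (D.rho2 x y) * D.De x y)) ∂D.s :=
            setLIntegral_mono' (mS n) h1
        _ ≤ ∫⁻ y, ENNReal.ofReal (D.M ^ 2 / c * (g (D.rho2 x y) * D.De x y)) ∂D.s :=
            setLIntegral_le_lintegral _ _
        _ = ENNReal.ofReal (∫ y, D.M ^ 2 / c * (g (D.rho2 x y) * D.De x y) ∂D.s) :=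
            (ofReal_integral_eq_lintegral_ofReal (hgi.const_mul _)
              (Eventually.of_forall hnn)).symm
        _ ≤ ENNReal.ofReal C7 := by
            refine ENNReal.ofReal_le_ofReal ?_
            rw [integral_const_mul]
            have b1 := (nuR_bd D hG hδ1 hK x hr0p).2
            have b2 := (nuR_bd D hG hδ1 hK x (hrnp n)).1
            have b3 : ∫ y, g (D.rho2 x y) * D.De x y ∂D.s ≤ C6 := by
              rw [hC6]
              linarith
            have b4 : D.M ^ 2 / c * ∫ y, g (D.rho2 x y) * D.De x y ∂D.s ≤ D.M ^ 2 / c * C6 :=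
              mul_le_mul_of_nonneg_left b3 (by positivity)
            have b5 : 0 ≤ D.C * ra D ^ 2 := by positivity
            rw [hC7]
            linarith
    -- the union
    have hU : ∫⁻ y in ⋃ n, S n, G y ∂D.s ≤ ENNReal.ofReal C7 := by
      rw [setLIntegral_iUnion_of_directed G (hSm.directed_le)]
      exact iSup_le hterm
    refine le_trans ?_ hU
    rw [← lintegral_indicator measurableSet_ball,
      ← lintegral_indicator (MeasurableSet.iUnion mS)]
    refine lintegral_mono fun y => ?_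
    by_cases hy : y ∈ ball x r1
    · by_cases hyx : y = x
      · rw [indicator_of_mem hy]
        have : ENNReal.ofReal (D.De x y / ‖y - x‖ ^ 4) = 0 := by
          rw [hyx, sub_self, norm_zero]
          simp
        rw [this]
        exact bot_le
      · have hρ : 0 < D.rho2 x y := by
          have h1 := ((hG D).2.1 x y).1
          have h2 : 0 < ‖y - x‖ := norm_pos_iff.2 (sub_ne_zero.2 hyx)
          exact lt_of_lt_of_le (by positivity) h1
        have h2 : Tendsto (fun n => 2 * rn n ^ 2) atTop (𝓝 (2 * 0 ^ 2)) :=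
          (hrnt.pow 2).const_mul 2
        have h3 : ∀ᶠ n in atTop, 2 * rn n ^ 2 < D.rho2 x y :=
          h2.eventually_lt_const (by simpa using hρ)
        obtain ⟨n, hn⟩ := h3.exists
        have h4 : y ∈ ⋃ n, S n := mem_iUnion.2 ⟨n, hy, hn.le⟩
        rw [indicator_of_mem hy, indicator_of_mem h4]
    · rw [indicator_of_notMem hy]
      exact bot_le

/-- **MON** -/
theorem mon (hG : GEO1) (hG3 : GEO3) (hL : LIN1') (hL4 : LIN4) (h0 : MON0) : MON := by
  intro D δ K hδ hδ1 hK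
  obtain ⟨C0, c, hC0, hc, hf⟩ := h0 δ K hδ hδ1 hK
  obtain ⟨C3, hC3, h3⟩ := hG3 D
  obtain ⟨a1, a2, a3, a4, a5⟩ := mon_u hG hL hL4 D hδ1 hK hC0 hC3 hc hf h3
  exact ⟨_, _, a1, a2, a3, a4, a5⟩

end

end Crest.Agent.R235.CurMon_956
end

-- ▼ part R235/CurGeo1_679

/-!
Row 235 (S0364), PACKAGE CUR, GEO1 (helper679): the kernel `rho2`, its first derivatives in closed
form, bounds for the metric and its first two derivatives.
-/

set_option autoImplicit false
set_option maxSynthPendingDepth 3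

open Set Function Filter MeasureTheory Metric
open scoped ContDiff ENNReal Manifold Topology

namespace Crest.Agent.R235.CurGeo1_679

open Crest.Agent.R240 Crest.Agent.R240.En Crest.Agent.R240.Pot Crest.Agent.R235.CurDefs_132

noncomputable section

/-- the bilinear map `(F, J) ↦ gm J F`. -/
def gmB : Bil →L[ℝ] (E4 →L[ℝ] E4) →L[ℝ] Bil :=
  LinearMap.mkContinuous₂
    (LinearMap.mk₂ ℝ (fun (F : Bil) (J : E4 →L[ℝ] E4) => gm J F)
      (by intro F F' J; ext v w; simp [gm_apply])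
      (by intro c F J; ext v w; simp [gm_apply])
      (by intro F J J'; ext v w; simp [gm_apply])
      (by intro c F J; ext v w; simp [gm_apply])) 1
    (by
      intro F J
      refine ContinuousLinearMap.opNorm_le_bound₂ _ (by positivity) fun v w => ?_
      calc ‖gm J F v w‖ = ‖F v (J w)‖ := rfl
        _ ≤ ‖F‖ * ‖v‖ * ‖J w‖ := F.le_opNorm₂ v (J w)
        _ ≤ ‖F‖ * ‖v‖ * (‖J‖ * ‖w‖) := by gcongr; exact J.le_opNorm w
        _ = 1 * ‖F‖ * ‖J‖ * ‖v‖ * ‖w‖ := by ring)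

@[simp] theorem gmB_apply (F : Bil) (J : E4 →L[ℝ] E4) : gmB F J = gm J F := rfl

theorem norm_gmB_le : ‖gmB‖ ≤ 1 := LinearMap.mkContinuous₂_norm_le _ zero_le_one _

theorem norm_gm_le (F : Bil) (J : E4 →L[ℝ] E4) : ‖gm J F‖ ≤ ‖F‖ * ‖J‖ := by
  have h := gmB.le_opNorm₂ F J
  rw [gmB_apply] at h
  calc ‖gm J F‖ ≤ ‖gmB‖ * ‖F‖ * ‖J‖ := h
    _ ≤ 1 * ‖F‖ * ‖J‖ := by gcongr; exact norm_gmB_le
    _ = ‖F‖ * ‖J‖ := by ring

section LC

variable (D : LC)


theorem G_symm (y v w : E4) : D.G y v w = D.G y w v := gm_symm (D.bd y).sq (D.bd y).spos v w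

theorem G_lo (y v : E4) : D.m * ‖v‖ ^ 2 ≤ D.G y v v := (D.bd y).lo v

theorem G_hi (y v : E4) : D.G y v v ≤ D.M * ‖v‖ ^ 2 := (D.bd y).hi v

theorem G_smooth : ContDiff ℝ ∞ D.G := gm_contDiff D.smJ D.smF



theorem diff_G : Differentiable ℝ D.G := (G_smooth D).differentiable (by simp)

theorem smooth_dG : ContDiff ℝ ∞ (fderiv ℝ D.G) := (G_smooth D).fderiv_right (by simp)

theorem diff_dG : Differentiable ℝ (fderiv ℝ D.G) := (smooth_dG D).differentiable (by simp)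


theorem L_nn : 0 ≤ D.L := zero_le_one.trans D.L_ge

theorem norm_G_le (y : E4) : ‖D.G y‖ ≤ 4 * D.L ^ 2 := by
  have h := norm_gm_le (D.F y) (D.J y)
  have h2 := D.bF y
  have h3 := D.bJ y
  have h4 := L_nn D
  calc ‖D.G y‖ ≤ ‖D.F y‖ * ‖D.J y‖ := h
    _ ≤ D.L * D.L := by gcongr
    _ ≤ 4 * D.L ^ 2 := by nlinarith

theorem norm_itF (y : E4) (n : ℕ) (hn : n ≤ 2) : ‖iteratedFDeriv ℝ n D.F y‖ ≤ D.L := by
  interval_cases n
  · rw [norm_iteratedFDeriv_zero]; exact D.bF y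
  · rw [norm_iteratedFDeriv_one]; exact D.bF1 y
  · rw [← norm_iteratedFDeriv_fderiv, norm_iteratedFDeriv_one]; exact D.bF2 y

theorem norm_itJ (y : E4) (n : ℕ) (hn : n ≤ 2) : ‖iteratedFDeriv ℝ n D.J y‖ ≤ D.L := by
  interval_cases n
  · rw [norm_iteratedFDeriv_zero]; exact D.bJ y
  · rw [norm_iteratedFDeriv_one]; exact D.bJ1 y
  · rw [← norm_iteratedFDeriv_fderiv, norm_iteratedFDeriv_one]; exact D.bJ2 y

theorem norm_itG (y : E4) (n : ℕ) (hn : n ≤ 2) : ‖iteratedFDeriv ℝ n D.G y‖ ≤ 4 * D.L ^ 2 := by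
  have h2 : (fun y => gmB (D.F y) (D.J y)) = D.G := rfl
  have h := gmB.norm_iteratedFDeriv_le_of_bilinear (N := ∞) D.smF D.smJ y (n := n)
    (by exact_mod_cast le_top)
  rw [h2] at h
  have hL := L_nn D
  refine h.trans ?_
  have h3 : ∀ i ∈ Finset.range (n + 1), ((n.choose i : ℕ) : ℝ) * ‖iteratedFDeriv ℝ i D.F y‖ *
      ‖iteratedFDeriv ℝ (n - i) D.J y‖ ≤ (n.choose i : ℕ) * (D.L * D.L) := by
    intro i hi
    rw [Finset.mem_range] at hi
    rw [mul_assoc]
    gcongr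
    · exact norm_itF D y i (by omega)
    · exact norm_itJ D y (n - i) (by omega)
  calc ‖gmB‖ * ∑ i ∈ Finset.range (n + 1), ((n.choose i : ℕ) : ℝ) * ‖iteratedFDeriv ℝ i D.F y‖ *
      ‖iteratedFDeriv ℝ (n - i) D.J y‖
      ≤ 1 * ∑ i ∈ Finset.range (n + 1), ((n.choose i : ℕ) : ℝ) * (D.L * D.L) :=
        mul_le_mul norm_gmB_le (Finset.sum_le_sum h3)
          (Finset.sum_nonneg fun i _ => by positivity) zero_le_one
    _ = (2 : ℝ) ^ n * (D.L * D.L) := by
        rw [one_mul, ← Finset.sum_mul]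
        congr 1
        exact_mod_cast Nat.sum_range_choose n
    _ ≤ 4 * D.L ^ 2 := by
        have : (2 : ℝ) ^ n ≤ 2 ^ 2 := pow_le_pow_right₀ (by norm_num) hn
        nlinarith [mul_nonneg hL hL]

theorem norm_dG_le (y : E4) : ‖fderiv ℝ D.G y‖ ≤ 4 * D.L ^ 2 := by
  have h := norm_itG D y 1 (by norm_num)
  rwa [norm_iteratedFDeriv_one] at h

theorem norm_ddG_le (y : E4) : ‖fderiv ℝ (fderiv ℝ D.G) y‖ ≤ 4 * D.L ^ 2 := by
  have h := norm_itG D y 2 le_rfl
  rwa [← norm_iteratedFDeriv_fderiv, norm_iteratedFDeriv_one] at h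

/-! ### the kernel -/

theorem rho2_def (x y : E4) :
    D.rho2 x y = (D.G x (y - x) (y - x) + D.G y (y - x) (y - x)) / 2 := rfl

theorem rho2_symm (x y : E4) : D.rho2 x y = D.rho2 y x := by
  rw [rho2_def, rho2_def, ← neg_sub y x]
  simp only [map_neg, neg_apply, neg_neg]
  ring

theorem rho2_smooth : ContDiff ℝ ∞ (fun z : E4 × E4 => D.rho2 z.1 z.2) := by
  have hG := G_smooth D
  have h1 : ContDiff ℝ ∞ (fun z : E4 × E4 => z.2 - z.1) := contDiff_snd.sub contDiff_fst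
  exact ((((hG.comp contDiff_fst).clm_apply h1).clm_apply h1).add
    (((hG.comp contDiff_snd).clm_apply h1).clm_apply h1)).div_const 2

theorem rho2_lo (x y : E4) : D.m * ‖y - x‖ ^ 2 ≤ D.rho2 x y := by
  have h1 := G_lo D x (y - x)
  have h2 := G_lo D y (y - x)
  rw [rho2_def]; linarith

theorem rho2_hi (x y : E4) : D.rho2 x y ≤ D.M * ‖y - x‖ ^ 2 := by
  have h1 := G_hi D x (y - x)
  have h2 := G_hi D y (y - x)
  rw [rho2_def]; linarith

/-- the second differential in operator form. -/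
theorem hasFDerivAt_rho2 (x y : E4) : HasFDerivAt (fun z => D.rho2 x z)
    ((2 : ℝ)⁻¹ • ((fderiv ℝ D.G y).flip (y - x)).flip (y - x) + (D.G x (y - x) + D.G y (y - x)))
    y := by
  have hd : HasFDerivAt (fun z : E4 => z - x) (ContinuousLinearMap.id ℝ E4) y :=
    (hasFDerivAt_id y).sub_const x
  have hG : HasFDerivAt D.G (fderiv ℝ D.G y) y := (diff_G D y).hasFDerivAt
  have h1 : HasFDerivAt (fun z => D.G x (z - x)) ((D.G x).comp (ContinuousLinearMap.id ℝ E4)) y :=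
    (D.G x).hasFDerivAt.comp y hd
  have h2 := h1.clm_apply hd
  have h3 := (hG.clm_apply hd).clm_apply hd
  have h4 := (h2.add h3).mul_const (2 : ℝ)⁻¹
  have h5 : (fun z => D.rho2 x z) = fun z =>
      (D.G x (z - x) (z - x) + D.G z (z - x) (z - x)) * (2 : ℝ)⁻¹ := by
    funext z; rw [rho2_def, div_eq_mul_inv]
  rw [h5]
  refine h4.congr_fderiv ?_
  ext v
  have s1 := G_symm D x v (y - x)
  have s2 := G_symm D y v (y - x)
  simp [-map_sub, s1, s2]
  ring

theorem dy_eq (x y : E4) : D.dy x y =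
    (2 : ℝ)⁻¹ • ((fderiv ℝ D.G y).flip (y - x)).flip (y - x) + (D.G x (y - x) + D.G y (y - x)) :=
  (hasFDerivAt_rho2 D x y).fderiv

theorem dx_eq (x y : E4) : D.dx x y = D.dy y x := by
  unfold LC.dx LC.dy
  congr 1
  funext z
  exact rho2_symm D z y

/-- **`d_y rho2`.** -/
theorem dy_apply (x y v : E4) : D.dy x y v =
    fderiv ℝ D.G y v (y - x) (y - x) / 2 + (D.G x (y - x) v + D.G y (y - x) v) := by
  rw [dy_eq]
  simp
  ring


theorem dy_smooth2 : ContDiff ℝ ∞ (fun z : E4 × E4 => D.dy z.1 z.2) := by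
  have h1 : ContDiff ℝ ∞ (Function.uncurry fun (p : E4 × E4) (w : E4) => D.rho2 p.1 w) :=
    (rho2_smooth D).comp ((contDiff_fst.comp contDiff_fst).prodMk contDiff_snd)
  exact h1.fderiv contDiff_snd (by simp)

theorem dy_smooth (x : E4) : ContDiff ℝ ∞ (fun z => D.dy x z) := by
  have h : ContDiff ℝ ∞ (fun z : E4 => (x, z)) := contDiff_const.prodMk contDiff_id
  exact ContDiff.comp (g := fun z : E4 × E4 => D.dy z.1 z.2) (f := fun z : E4 => (x, z))
    (dy_smooth2 D) h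


/-- **derivative of `d_y rho2`.** -/
theorem fderiv_dy (x y w v : E4) : fderiv ℝ (fun z => D.dy x z) y w v =
      fderiv ℝ (fderiv ℝ D.G) y w v (y - x) (y - x) / 2 + fderiv ℝ D.G y v (y - x) w +
        fderiv ℝ D.G y w (y - x) v + (D.G x w v + D.G y w v) := by
  have hdy : HasFDerivAt (fun z => D.dy x z) (fderiv ℝ (fun z => D.dy x z) y) y :=
    ((dy_smooth D x).differentiable (by simp) y).hasFDerivAt
  have h0 : HasFDerivAt (fun z => D.dy x z v)
      ((fderiv ℝ (fun z => D.dy x z) y).flip v) y := by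
    have := hdy.clm_apply (hasFDerivAt_const v y)
    simpa using this
  have hd : HasFDerivAt (fun z : E4 => z - x) (ContinuousLinearMap.id ℝ E4) y :=
    (hasFDerivAt_id y).sub_const x
  have hG : HasFDerivAt D.G (fderiv ℝ D.G y) y := (diff_G D y).hasFDerivAt
  have hdG : HasFDerivAt (fderiv ℝ D.G) (fderiv ℝ (fderiv ℝ D.G) y) y :=
    (diff_dG D y).hasFDerivAt
  have h1 : HasFDerivAt (fun z => D.G x (z - x)) ((D.G x).comp (ContinuousLinearMap.id ℝ E4)) y :=
    (D.G x).hasFDerivAt.comp y hd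
  have h2 := h1.clm_apply (hasFDerivAt_const v y)
  have h3 := (hG.clm_apply hd).clm_apply (hasFDerivAt_const v y)
  have h4 := ((hdG.clm_apply (hasFDerivAt_const v y)).clm_apply hd).clm_apply hd
  have h5 := (h4.mul_const (2 : ℝ)⁻¹).add (h2.add h3)
  have h6 : (fun z => D.dy x z v) = fun z => fderiv ℝ D.G z v (z - x) (z - x) * (2 : ℝ)⁻¹ +
      (D.G x (z - x) v + D.G z (z - x) v) := by
    funext z; rw [dy_apply, div_eq_mul_inv]
  rw [h6] at h0
  have h7 := congrArg (fun T : Cov => T w) (h0.unique h5)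
  have hs : ∀ a b c : E4, fderiv ℝ D.G y a b c = fderiv ℝ D.G y a c b := by
    intro a b c
    have e1 : fderiv ℝ (fun z => D.G z b c) y a = fderiv ℝ D.G y a b c := by
      have := (hG.clm_apply (hasFDerivAt_const b y)).clm_apply (hasFDerivAt_const c y)
      rw [this.fderiv]; simp
    have e2 : fderiv ℝ (fun z => D.G z c b) y a = fderiv ℝ D.G y a c b := by
      have := (hG.clm_apply (hasFDerivAt_const c y)).clm_apply (hasFDerivAt_const b y)
      rw [this.fderiv]; simp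
    rw [← e1, ← e2]
    congr 2
    funext z
    exact G_symm D z b c
  have s1 := hs v w (y - x)
  simp [-map_sub, s1] at h7
  rw [h7]
  ring


theorem norm_dy_le (x y : E4) (h : ‖y - x‖ ≤ 1) : ‖D.dy x y‖ ≤ 12 * D.L ^ 2 * ‖y - x‖ := by
  have hL : 0 ≤ D.L ^ 2 := sq_nonneg _
  refine ContinuousLinearMap.opNorm_le_bound _ (by positivity) fun v => ?_
  rw [dy_apply]
  have a1 : |fderiv ℝ D.G y v (y - x) (y - x)| ≤ 4 * D.L ^ 2 * ‖v‖ * ‖y - x‖ * ‖y - x‖ := by
    calc |fderiv ℝ D.G y v (y - x) (y - x)| ≤ ‖fderiv ℝ D.G y v (y - x)‖ * ‖y - x‖ :=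
          (fderiv ℝ D.G y v (y - x)).le_opNorm _
      _ ≤ ‖fderiv ℝ D.G y v‖ * ‖y - x‖ * ‖y - x‖ := by
          gcongr; exact (fderiv ℝ D.G y v).le_opNorm _
      _ ≤ 4 * D.L ^ 2 * ‖v‖ * ‖y - x‖ * ‖y - x‖ := by
          gcongr; exact (fderiv ℝ D.G y).le_of_opNorm_le (norm_dG_le D y) v
  have a2 : ∀ z, |D.G z (y - x) v| ≤ 4 * D.L ^ 2 * ‖y - x‖ * ‖v‖ := by
    intro z
    calc |D.G z (y - x) v| ≤ ‖D.G z‖ * ‖y - x‖ * ‖v‖ := (D.G z).le_opNorm₂ _ _
      _ ≤ 4 * D.L ^ 2 * ‖y - x‖ * ‖v‖ := by gcongr; exact norm_G_le D z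
  have b1 := abs_le.1 a1
  have b2 := abs_le.1 (a2 x)
  have b3 := abs_le.1 (a2 y)
  have c1 : 4 * D.L ^ 2 * ‖v‖ * ‖y - x‖ * ‖y - x‖ ≤ 4 * D.L ^ 2 * ‖y - x‖ * ‖v‖ := by
    have : 4 * D.L ^ 2 * ‖v‖ * ‖y - x‖ * ‖y - x‖ ≤ 4 * D.L ^ 2 * ‖v‖ * ‖y - x‖ * 1 := by gcongr
    linarith
  rw [Real.norm_eq_abs, abs_le]
  constructor <;> linarith [b1.1, b1.2, b2.1, b2.2, b3.1, b3.2]

theorem norm_dx_le (x y : E4) (h : ‖y - x‖ ≤ 1) : ‖D.dx x y‖ ≤ 12 * D.L ^ 2 * ‖y - x‖ := by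
  rw [dx_eq, norm_sub_rev]
  exact norm_dy_le D y x (by rwa [norm_sub_rev])

theorem norm_fderiv_dy_le (x y : E4) (h : ‖y - x‖ ≤ 1) :
    ‖fderiv ℝ (fun z => D.dy x z) y‖ ≤ 20 * D.L ^ 2 := by
  have hL : 0 ≤ D.L ^ 2 := sq_nonneg _
  refine ContinuousLinearMap.opNorm_le_bound₂ _ (by positivity) fun w v => ?_
  rw [fderiv_dy]
  have a1 : |fderiv ℝ (fderiv ℝ D.G) y w v (y - x) (y - x)| ≤ 4 * D.L ^ 2 * ‖w‖ * ‖v‖ := by
    calc |fderiv ℝ (fderiv ℝ D.G) y w v (y - x) (y - x)|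
        ≤ ‖fderiv ℝ (fderiv ℝ D.G) y w v (y - x)‖ * ‖y - x‖ :=
          (fderiv ℝ (fderiv ℝ D.G) y w v (y - x)).le_opNorm _
      _ ≤ ‖fderiv ℝ (fderiv ℝ D.G) y w v‖ * ‖y - x‖ * ‖y - x‖ := by
          gcongr; exact (fderiv ℝ (fderiv ℝ D.G) y w v).le_opNorm _
      _ ≤ (4 * D.L ^ 2 * ‖w‖ * ‖v‖) * 1 * 1 := by
          gcongr
          calc ‖fderiv ℝ (fderiv ℝ D.G) y w v‖ ≤ ‖fderiv ℝ (fderiv ℝ D.G) y w‖ * ‖v‖ :=
                (fderiv ℝ (fderiv ℝ D.G) y w).le_opNorm _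
            _ ≤ 4 * D.L ^ 2 * ‖w‖ * ‖v‖ := by
                gcongr
                exact (fderiv ℝ (fderiv ℝ D.G) y).le_of_opNorm_le (norm_ddG_le D y) w
      _ = _ := by ring
  have a3 : ∀ a b : E4, |fderiv ℝ D.G y a (y - x) b| ≤ 4 * D.L ^ 2 * ‖a‖ * ‖b‖ := by
    intro a b
    calc |fderiv ℝ D.G y a (y - x) b| ≤ ‖fderiv ℝ D.G y a (y - x)‖ * ‖b‖ :=
          (fderiv ℝ D.G y a (y - x)).le_opNorm _
      _ ≤ (‖fderiv ℝ D.G y a‖ * ‖y - x‖) * ‖b‖ := by
          gcongr; exact (fderiv ℝ D.G y a).le_opNorm _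
      _ ≤ (4 * D.L ^ 2 * ‖a‖ * 1) * ‖b‖ := by
          gcongr; exact (fderiv ℝ D.G y).le_of_opNorm_le (norm_dG_le D y) a
      _ = _ := by ring
  have a2 : ∀ z, |D.G z w v| ≤ 4 * D.L ^ 2 * ‖w‖ * ‖v‖ := by
    intro z
    calc |D.G z w v| ≤ ‖D.G z‖ * ‖w‖ * ‖v‖ := (D.G z).le_opNorm₂ _ _
      _ ≤ 4 * D.L ^ 2 * ‖w‖ * ‖v‖ := by gcongr; exact norm_G_le D z
  have b1 := abs_le.1 a1
  have b2 := abs_le.1 (a2 x)
  have b3 := abs_le.1 (a2 y)
  have b4 := abs_le.1 (a3 v w)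
  have b5 := abs_le.1 (a3 w v)
  have c0 : 4 * D.L ^ 2 * ‖v‖ * ‖w‖ = 4 * D.L ^ 2 * ‖w‖ * ‖v‖ := by ring
  have c1 : 0 ≤ D.L ^ 2 * ‖w‖ * ‖v‖ := by positivity
  rw [Real.norm_eq_abs, abs_le]
  constructor <;> linarith [b1.1, b1.2, b2.1, b2.2, b3.1, b3.2, b4.1, b4.2, b5.1, b5.2]

end LC

/-- **GEO1**. -/
theorem geo1 : GEO1 := by
  intro D
  have hL : 0 ≤ D.L ^ 2 := sq_nonneg _
  refine ⟨rho2_smooth D, fun x y => ⟨rho2_lo D x y, rho2_hi D x y⟩, 20 * D.L ^ 2, by positivity,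
    fun x y h => ⟨(norm_dx_le D x y h).trans ?_, (norm_dy_le D x y h).trans ?_,
      norm_fderiv_dy_le D x y h⟩⟩
  all_goals
    gcongr
    norm_num

end

end Crest.Agent.R235.CurGeo1_679
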