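import Mathlib
import Crest.Agent.R235.LimtA_225
import Crest.Agent.R240.TopAll

/-!
Row 235 (S0364), package TOR / SWC, helper225: node LIMT, part D.
Comparison of the trace measures of one current for two data `D`, `D'` with the same `J`;
data with a closed `J`-invariant form.
-/

set_option autoImplicit false
set_option maxSynthPendingDepth 3

open Set Function Filter MeasureTheory Metric
open scoped Manifold ContDiff Topology

universe u

namespace Crest.Agent.R235.Limt

open Crest.Agent.R240 Crest.Agent.R240.Ch Crest.Agent.R235 Crest.Agent.R235.Swc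

noncomputable section

variable {M : Type u} [MetricSpace M] [CompactSpace M] [ChartedSpace E4 M]
    [IsManifold 𝓘(ℝ, E4) ∞ M] [MeasurableSpace M] [BorelSpace M]

/-- data with the same `J` whose taming form is `J`-invariant (S0371). -/
theorem exists_closedF (D : Dat M) : ∃ D' : Dat M, D'.J = D.J ∧ D'.F = D'.al := by
  obtain ⟨c, hc1, hc2, hc3⟩ := Dat.sposG_of_goal D (D.goal_of_N8 D.n8)
  obtain ⟨D', h1, h2⟩ := Int.exists_dat D.bl D.smJ D.sq hc1 hc2 fun x v hv => (hc3 x).pos v hv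
  refine ⟨D', h1, ?_⟩
  show bp D'.J D'.al = D'.al
  rw [h1, h2]
  exact N2.bp_of_inv fun x u v => (hc3 x).inv u v

/-- comparison of the trace measures. -/
theorem comp {D D' : Dat M} (h : D'.J = D.J) : ∃ C : ℝ, 0 < C ∧
    ∀ (S : X2 M →ₗ[ℝ] ℝ) (s s' : Measure M), T1_195.Cur D S s → T1_195.Cur D' S s' →
    ∀ f : M → ℝ, SmoothF E4 f → (∀ x, 0 ≤ f x) → ∫ x, f x ∂s' ≤ C * ∫ x, f x ∂s := by
  obtain ⟨r, hr, hle⟩ := Hbn_195.unit_global D.smJ (Int.dat_smF D) (Int.dat_smF D')
    fun x v hv => (Int.dat_sposF D x).pos v hv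
  refine ⟨r + 1, by linarith, fun S s s' hs hs' f hf hf0 => ?_⟩
  have h1 : ∫ x, f x ∂s' = S (fX D' hf) := int_eq hs' hf
  have h2 : ∫ x, f x ∂s = S (fX D hf) := int_eq hs hf
  have h3 : 0 ≤ S ((r + 1) • fX D hf - fX D' hf) := by
    refine hs.nonneg _ fun x => ?_
    have e : at2 (((r + 1) • fX D hf - fX D' hf : X2 M) : F2 E4 M) x =
        (r + 1) • (f x • at2 D.F x) - f x • at2 D'.F x := rfl
    have hD := Int.dat_sposF D x
    have hD' := Int.dat_sposF D' x
    refine ⟨?_, ?_, ?_⟩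
    · rw [e]
      intro v
      have a1 := hD.alt v
      have a2 := hD'.alt v
      show (r + 1) * (f x * at2 D.F x v v) - f x * at2 D'.F x v v = 0
      rw [a1, a2]; simp
    · rw [e]
      intro u v
      have a1 := hD.inv u v
      have a2 := hD'.inv u v
      rw [h] at a2
      show (r + 1) * (f x * at2 D.F x (atJ D.J x u) (atJ D.J x v)) -
        f x * at2 D'.F x (atJ D.J x u) (atJ D.J x v) =
        (r + 1) * (f x * at2 D.F x u v) - f x * at2 D'.F x u v
      rw [a1, a2]
    · rw [e]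
      intro v
      have a1 := hle x v
      have a2 : 0 ≤ at2 D.F x v (atJ D.J x v) := by
        by_cases hv : v = 0
        · rw [hv]; simp
        · exact (hD.pos v hv).le
      show 0 ≤ (r + 1) * (f x * at2 D.F x v (atJ D.J x v)) - f x * at2 D'.F x v (atJ D.J x v)
      have a3 : f x * at2 D'.F x v (atJ D.J x v) ≤
          f x * (r * at2 D.F x v (atJ D.J x v)) := mul_le_mul_of_nonneg_left a1 (hf0 x)
      have a4 : 0 ≤ f x * at2 D.F x v (atJ D.J x v) := mul_nonneg (hf0 x) a2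
      nlinarith
  rw [map_sub, map_smul, smul_eq_mul] at h3
  rw [h1, h2]
  linarith

/-- the ball version. -/
theorem comp_ball {D D' : Dat M} (h : D'.J = D.J) : ∃ C : ℝ, 0 < C ∧
    ∀ (S : X2 M →ₗ[ℝ] ℝ) (s s' : Measure M), T1_195.Cur D S s → T1_195.Cur D' S s' →
    ∀ (x : M) (r R : ℝ), r < R → s'.real (ball x r) ≤ C * s.real (ball x R) := by
  obtain ⟨C, hC, h1⟩ := comp h
  refine ⟨C, hC, fun S s s' hs hs' x r R hrR => ?_⟩
  have := hs.fin
  have := hs'.fin
  obtain ⟨χ, hχs, hχ0, hχ1, hχe, hχz⟩ := exists_cut x hrR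
  refine (le_int hχs hχ0 measurableSet_ball fun z hz => hχe z (ball_subset_closedBall hz)).trans ?_
  refine (h1 S s s' hs hs' χ hχs hχ0).trans ?_
  exact mul_le_mul_of_nonneg_left (int_le hχs hχ1 measurableSet_ball hχz) hC.le

theorem sup_of {D D' : Dat M} (h : D'.J = D.J) {S : X2 M →ₗ[ℝ] ℝ} {s s' : Measure M}
    (hs : T1_195.Cur D S s) (hs' : T1_195.Cur D' S s') {x : M} (hx : Sup s' x) : Sup s x := by
  obtain ⟨C, hC, h1⟩ := comp_ball h
  intro r hr
  have h2 := hx (r / 2) (by linarith)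
  have h3 := h1 S s s' hs hs' x (r / 2) r (by linarith)
  by_contra hcon
  have h4 : C * s.real (ball x r) ≤ 0 := mul_nonpos_of_nonneg_of_nonpos hC.le (not_lt.1 hcon)
  linarith

/-- `LowDens` does not depend on the data. -/
theorem lowDens_of {D D' : Dat M} (h : D'.J = D.J) {S : X2 M →ₗ[ℝ] ℝ} {s s' : Measure M}
    (hs : T1_195.Cur D S s) (hs' : T1_195.Cur D' S s') (hl : LowDens s') : LowDens s := by
  obtain ⟨C, hC, h1⟩ := comp_ball h
  obtain ⟨κ, r0, hκ, hr0, hl⟩ := hl
  refine ⟨κ / (4 * C), r0, by positivity, hr0, fun x hx r hr hrr => ?_⟩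
  have h2 := hl x (sup_of h.symm hs' hs hx) (r / 2) (by linarith) (by linarith)
  have h3 := h1 S s s' hs hs' x (r / 2) r (by linarith)
  have h4 : κ * (r / 2) ^ 2 ≤ C * s.real (ball x r) := h2.trans h3
  have h5 : κ / (4 * C) * r ^ 2 = κ * (r / 2) ^ 2 / C := by
    field_simp
    ring
  rw [h5, div_le_iff₀ hC]
  linarith

end

end Crest.Agent.R235.Limt
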