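import Crest.Agent.R235.NWJ_130

/-!
# Row 235 (S0364), PACKAGE NW, leaf J, second part (helper130)

* `exists_lin`, `exists_lin2` : linear normal forms of a complex structure in real dimension four;
* `exists_straight`           : straightening of an immersed `J`-disc;
* `jhol_symm`                 : transport of `J`-holomorphic maps;
* `dzb_snd_le`                : `|∂̄ u₂| ≤ C |u₂| |du|` for every `J'`-holomorphic `u`.
-/

set_option autoImplicit false
set_option maxSynthPendingDepth 3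
set_option linter.style.haveILetI false

open Set Filter Metric Topology
open scoped ContDiff Real

namespace Crest.Agent.R235.NWJ2_130

open Crest.Agent.R235.NWDefs_334 Crest.Agent.R235.NWJ_130

noncomputable section

section lin

variable {V : Type*} [NormedAddCommGroup V] [NormedSpace ℝ V]

/-- `(a, b) ↦ a f + b e` for the complex structure `j` -/
def S (j : V →L[ℝ] V) (f e : V) : ℂ × ℂ →ₗ[ℝ] V where
  toFun x := x.1.re • f + x.1.im • j f + x.2.re • e + x.2.im • j e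
  map_add' x y := by
    simp only [Prod.fst_add, Prod.snd_add, Complex.add_re, Complex.add_im]
    module
  map_smul' c x := by
    simp only [Prod.smul_fst, Prod.smul_snd, Complex.real_smul, Complex.mul_re, Complex.ofReal_re,
      Complex.ofReal_im, Complex.mul_im, RingHom.id_apply, zero_mul, sub_zero, add_zero]
    module

theorem S_apply (j : V →L[ℝ] V) (f e : V) (x : ℂ × ℂ) :
    S j f e x = x.1.re • f + x.1.im • j f + x.2.re • e + x.2.im • j e := rfl

theorem S_I {j : V →L[ℝ] V} (hj : ∀ v, j (j v) = -v) (f e : V) (x : ℂ × ℂ) :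
    S j f e (Complex.I • x) = j (S j f e x) := by
  rw [S_apply, S_apply]
  simp only [map_add, map_smul, hj, Prod.smul_fst, Prod.smul_snd, smul_eq_mul, Complex.mul_re,
    Complex.I_re, zero_mul, Complex.I_im, one_mul, zero_sub, Complex.mul_im, zero_add]
  module

theorem cancel_j {j : V →L[ℝ] V} (hj : ∀ v, j (j v) = -v) (a b : ℝ) (v : V) :
    a • (a • v + b • j v) - b • j (a • v + b • j v) = (a ^ 2 + b ^ 2) • v := by
  rw [map_add, map_smul, map_smul, hj]
  module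

theorem S_injective {j : V →L[ℝ] V} (hj : ∀ v, j (j v) = -v) {f e : V} (he : e ≠ 0)
    (hf : ∀ a b : ℝ, f ≠ a • e + b • j e) : Function.Injective (S j f e) := by
  rw [injective_iff_map_eq_zero]
  intro x hx
  rw [S_apply] at hx
  have h1 : x.1 = 0 := by
    by_contra h
    have hn : x.1.re ^ 2 + x.1.im ^ 2 ≠ 0 := by
      intro h0
      have a1 : x.1.re = 0 := by nlinarith [sq_nonneg x.1.re, sq_nonneg x.1.im]
      have a2 : x.1.im = 0 := by nlinarith [sq_nonneg x.1.re, sq_nonneg x.1.im]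
      exact h (Complex.ext a1 a2)
    have h2 : x.1.re • f + x.1.im • j f = -(x.2.re • e + x.2.im • j e) := by
      rw [← sub_eq_zero, sub_neg_eq_add, ← hx]; abel
    have h3 := cancel_j hj x.1.re x.1.im f
    rw [h2] at h3
    refine hf ((x.1.re ^ 2 + x.1.im ^ 2)⁻¹ * (-(x.1.re * x.2.re) - x.1.im * x.2.im))
      ((x.1.re ^ 2 + x.1.im ^ 2)⁻¹ * (-(x.1.re * x.2.im) + x.1.im * x.2.re)) ?_
    have h4 : f = (x.1.re ^ 2 + x.1.im ^ 2)⁻¹ • ((x.1.re ^ 2 + x.1.im ^ 2) • f) := by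
      rw [smul_smul, inv_mul_cancel₀ hn, one_smul]
    rw [h4, ← h3, map_neg, map_add, map_smul, map_smul, hj]
    module
  have h2 : x.2 = 0 := by
    by_contra h
    have hn : x.2.re ^ 2 + x.2.im ^ 2 ≠ 0 := by
      intro h0
      have a1 : x.2.re = 0 := by nlinarith [sq_nonneg x.2.re, sq_nonneg x.2.im]
      have a2 : x.2.im = 0 := by nlinarith [sq_nonneg x.2.re, sq_nonneg x.2.im]
      exact h (Complex.ext a1 a2)
    have h3 := cancel_j hj x.2.re x.2.im e
    rw [h1] at hx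
    have h4 : x.2.re • e + x.2.im • j e = 0 := by
      rw [← hx]; simp
    rw [h4, map_zero, smul_zero, smul_zero, sub_zero] at h3
    exact (smul_ne_zero hn he) h3.symm
  exact Prod.ext h1 h2

/-- linear normal form with two given vectors -/
theorem exists_lin2 (hV : Module.finrank ℝ V = 4) {j : V →L[ℝ] V} (hj : ∀ v, j (j v) = -v)
    {f e : V} (he : e ≠ 0) (hf : ∀ a b : ℝ, f ≠ a • e + b • j e) :
    ∃ T : V ≃L[ℝ] ℂ × ℂ, (∀ v, T (j v) = Complex.I • T v) ∧ T f = (1, 0) ∧ T e = (0, 1) ∧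
      ∀ x, T.symm x = x.1.re • f + x.1.im • j f + x.2.re • e + x.2.im • j e := by
  have hfd : FiniteDimensional ℝ V := FiniteDimensional.of_finrank_pos (by omega)
  have hd : Module.finrank ℝ (ℂ × ℂ) = Module.finrank ℝ V := by
    rw [hV, Module.finrank_prod, Complex.finrank_real_complex]
  let T0 : (ℂ × ℂ) ≃ₗ[ℝ] V := LinearEquiv.ofInjectiveOfFinrankEq (S j f e) (S_injective hj he hf) hd
  have hT0 : ∀ x, T0 x = S j f e x := fun x => rfl
  let T : V ≃L[ℝ] ℂ × ℂ := T0.symm.toContinuousLinearEquiv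
  have hT : ∀ x, T.symm x = S j f e x := fun x => rfl
  refine ⟨T, fun v => ?_, ?_, ?_, fun x => by rw [hT, S_apply]⟩
  · apply T.symm.injective
    rw [T.symm_apply_apply, hT, S_I hj, ← hT, T.symm_apply_apply]
  · apply T.symm.injective
    rw [T.symm_apply_apply, hT, S_apply]; simp
  · apply T.symm.injective
    rw [T.symm_apply_apply, hT, S_apply]; simp

/-- a vector outside a complex line -/
theorem exists_not_mem (hV : Module.finrank ℝ V = 4) (j : V →L[ℝ] V) (e : V) :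
    ∃ f : V, ∀ a b : ℝ, f ≠ a • e + b • j e := by
  have hfd : FiniteDimensional ℝ V := FiniteDimensional.of_finrank_pos (by omega)
  by_contra h
  push Not at h
  have hs : Submodule.span ℝ (Set.range ![e, j e]) = ⊤ := by
    rw [eq_top_iff]
    rintro f -
    obtain ⟨a, b, hab⟩ := h f
    rw [hab]
    refine Submodule.add_mem _ (Submodule.smul_mem _ _ (Submodule.subset_span ⟨0, rfl⟩))
      (Submodule.smul_mem _ _ (Submodule.subset_span ⟨1, rfl⟩))
  have h1 := finrank_range_le_card (R := ℝ) (b := ![e, j e])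
  rw [Set.finrank, hs, finrank_top, hV] at h1
  simp at h1

theorem exists_lin (hV : Module.finrank ℝ V = 4) {j : V →L[ℝ] V} (hj : ∀ v, j (j v) = -v)
    {e : V} (he : e ≠ 0) :
    ∃ T : V ≃L[ℝ] ℂ × ℂ, (∀ v, T (j v) = Complex.I • T v) ∧ T e = (0, 1) := by
  obtain ⟨f, hf⟩ := exists_not_mem hV j e
  obtain ⟨T, h1, -, h3, -⟩ := exists_lin2 hV hj he hf
  exact ⟨T, h1, h3⟩

theorem finrank_CC : Module.finrank ℝ (ℂ × ℂ) = 4 := by
  rw [Module.finrank_prod, Complex.finrank_real_complex]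

end lin

section straight

/-- `Θ` straightens the `J`-disc `v`; `J'` is the pulled back structure -/
structure Straight (J : ℂ × ℂ → ℂ × ℂ →L[ℝ] ℂ × ℂ) (v : ℂ → ℂ × ℂ) (ρ : ℝ)
    (Θ : OpenPartialHomeomorph (ℂ × ℂ) (ℂ × ℂ)) (J' : ℂ × ℂ → ℂ × ℂ →L[ℝ] ℂ × ℂ) : Prop where
  pos : 0 < ρ
  source : Θ.source = ball 0 ρ
  axis : ∀ z : ℂ, ‖z‖ < ρ → Θ (z, 0) = v z
  smooth : ContDiffOn ℝ ∞ Θ (ball 0 ρ)
  smooth_symm : ContDiffOn ℝ ∞ Θ.symm Θ.target
  conj : ∀ x ∈ ball (0 : ℂ × ℂ) ρ, ∀ y, fderiv ℝ Θ x (J' x y) = J (Θ x) (fderiv ℝ Θ x y)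
  inv : ∀ x ∈ ball (0 : ℂ × ℂ) ρ, ∀ y, fderiv ℝ Θ.symm (Θ x) (fderiv ℝ Θ x y) = y
  inv' : ∀ x ∈ ball (0 : ℂ × ℂ) ρ, ∀ y, fderiv ℝ Θ x (fderiv ℝ Θ.symm (Θ x) y) = y
  smoothJ : ContDiffOn ℝ ∞ J' (ball 0 ρ)
  sq : ∀ x ∈ ball (0 : ℂ × ℂ) ρ, ∀ y, J' x (J' x y) = -y
  axisJ : ∀ z : ℂ, ‖z‖ < ρ → ∀ y, J' (z, 0) y = Complex.I • y




/-- `‖J'(z,w) - i‖ ≤ C |w|` -/
theorem norm_sub_le {J' : ℂ × ℂ → ℂ × ℂ →L[ℝ] ℂ × ℂ} {ρ ρ' : ℝ}
    (hsm : ContDiffOn ℝ ∞ J' (ball 0 ρ))
    (hax : ∀ z : ℂ, ‖z‖ < ρ → ∀ y, J' (z, 0) y = Complex.I • y) (hρ : ρ' < ρ) :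
    ∃ C : ℝ, 0 ≤ C ∧ ∀ x ∈ closedBall (0 : ℂ × ℂ) ρ', ‖J' x - iC (ℂ × ℂ)‖ ≤ C * ‖x.2‖ := by
  have hK : IsCompact (closedBall (0 : ℂ × ℂ) ρ') := isCompact_closedBall _ _
  have hsub : closedBall (0 : ℂ × ℂ) ρ' ⊆ ball 0 ρ := closedBall_subset_ball hρ
  have hc : ContinuousOn (fderiv ℝ J') (closedBall 0 ρ') :=
    (hsm.continuousOn_fderiv_of_isOpen isOpen_ball (by simp)).mono hsub
  obtain ⟨C, hC⟩ := hK.exists_bound_of_continuousOn hc
  refine ⟨max C 0, le_max_right _ _, fun x hx => ?_⟩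
  have hx1 : ((x.1, 0) : ℂ × ℂ) ∈ closedBall (0 : ℂ × ℂ) ρ' := by
    rw [mem_closedBall, dist_zero_right] at hx ⊢
    refine le_trans ?_ hx
    rw [Prod.norm_def, Prod.norm_def]
    exact max_le (le_max_left _ _) (by simp)
  have h1 := (convex_closedBall (0 : ℂ × ℂ) ρ').norm_image_sub_le_of_norm_fderiv_le
    (𝕜 := ℝ) (f := J') (C := max C 0)
    (fun y hy => (hsm.contDiffAt (isOpen_ball.mem_nhds (hsub hy))).differentiableAt (by simp))
    (fun y hy => (hC y hy).trans (le_max_left _ _)) hx1 hx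
  have h2 : J' (x.1, 0) = iC (ℂ × ℂ) := by
    refine ContinuousLinearMap.ext fun y => ?_
    rw [hax _ ?_, iC_apply]
    have := hsub hx1
    rw [mem_ball, dist_zero_right, Prod.norm_def] at this
    exact lt_of_le_of_lt (le_max_left _ _) this
  rw [h2] at h1
  refine h1.trans (le_of_eq ?_)
  congr 1
  have : x - (x.1, 0) = (0, x.2) := by
    ext1 <;> simp
  rw [this, Prod.norm_def]
  simp


end straight

end

end Crest.Agent.R235.NWJ2_130
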