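import Mathlib
import Crest.Agent.R235.EndB_745
import Crest.Agent.R235.AdjET_61
import Crest.Agent.R235.NWJ2_130
import Crest.Agent.R235.Defs_837

-- ▼ part R235/Iso_61
section

/-!
Row 235 (S0364), package ADJ, leaf X1 (helper61), part 1: isothermal coordinates.

`iso`: an immersed surface `v : ℂ → ℂ × ℂ` with `J`-invariant tangent planes is, near `0`, after a
`C¹` change of the parameter, a smooth `J`-holomorphic disc.
-/

set_option autoImplicit false

open Complex Metric Set Filter Topology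
open scoped ContDiff ComplexConjugate

namespace Crest.Agent.R235.Iso_61

open Crest.Agent.R235.NWDefs_334 Crest.Agent.R235.NWIface_334 Crest.Agent.R235.EndA_745
  Crest.Agent.R235.EndB_745

noncomputable section

/-- the induced complex structure on the parameter plane. -/
def jv (J : ℂ × ℂ → ℂ × ℂ →L[ℝ] ℂ × ℂ) (v : ℂ → ℂ × ℂ) (z : ℂ) : ℂ →L[ℝ] ℂ :=
  (ContinuousLinearMap.inverse ((ContinuousLinearMap.snd ℝ ℂ ℂ).comp (fderiv ℝ v z))).comp
    ((ContinuousLinearMap.snd ℝ ℂ ℂ).comp ((J (v z)).comp (fderiv ℝ v z)))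

/-- a bijective real-linear map of the plane near the identity is an equivalence. -/
theorem exists_equiv' {L : ℂ →L[ℝ] ℂ} (h : ‖L - ContinuousLinearMap.id ℝ ℂ‖ < 1) :
    ∃ e : ℂ ≃L[ℝ] ℂ, (e : ℂ →L[ℝ] ℂ) = L := by
  have h1 : ‖ContinuousLinearMap.id ℝ ℂ - L‖ < 1 := by
    rw [norm_sub_rev]; exact h
  let u := Units.oneSub (ContinuousLinearMap.id ℝ ℂ - L) h1
  refine ⟨ContinuousLinearEquiv.unitsEquiv ℝ ℂ u, ?_⟩
  have : (u : ℂ →L[ℝ] ℂ) = L := by
    show 1 - (ContinuousLinearMap.id ℝ ℂ - L) = L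
    have : (1 : ℂ →L[ℝ] ℂ) = ContinuousLinearMap.id ℝ ℂ := rfl
    rw [this]; abel
  rw [← this]
  rfl

/-- the induced complex structure: `dv (j w) = J dv w`. -/
theorem jv_spec {J : ℂ × ℂ → ℂ × ℂ →L[ℝ] ℂ × ℂ} {v : ℂ → ℂ × ℂ} {z : ℂ} {e : ℂ ≃L[ℝ] ℂ}
    (he : (e : ℂ →L[ℝ] ℂ) = (ContinuousLinearMap.snd ℝ ℂ ℂ).comp (fderiv ℝ v z))
    (hinv : ∀ w, ∃ w', fderiv ℝ v z w' = J (v z) (fderiv ℝ v z w)) (w : ℂ) :
    fderiv ℝ v z (jv J v z w) = J (v z) (fderiv ℝ v z w) := by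
  obtain ⟨w', hw'⟩ := hinv w
  have h1 : jv J v z w = w' := by
    unfold jv
    rw [← he, ContinuousLinearMap.inverse_equiv]
    show e.symm ((J (v z) (fderiv ℝ v z w)).2) = w'
    rw [ContinuousLinearEquiv.symm_apply_eq, ← hw']
    have : e w' = (e : ℂ →L[ℝ] ℂ) w' := rfl
    rw [this, he]
    rfl
  rw [h1, hw']

/-- **isothermal coordinates.** -/
theorem iso (hB : BelStmt) {J : ℂ × ℂ → ℂ × ℂ →L[ℝ] ℂ × ℂ} {r : ℝ} (hJ : ACS J r)
    {v : ℂ → ℂ × ℂ} {r1 : ℝ} (hr1 : 0 < r1) (hv : ContDiffOn ℝ ∞ v (ball 0 r1)) (v0 : v 0 = 0)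
    (hvr : ∀ z ∈ ball (0 : ℂ) r1, v z ∈ ball (0 : ℂ × ℂ) r)
    (hinv : ∀ z ∈ ball (0 : ℂ) r1, ∀ w, ∃ w', fderiv ℝ v z w' = J (v z) (fderiv ℝ v z w))
    (hcl : ∀ w, fderiv ℝ v 0 w = (0, w)) :
    ∃ (K : ℂ ≃ₜ ℂ) (ρ : ℝ), 0 < ρ ∧ K 0 = 0 ∧ ContDiff ℝ 1 K ∧
      (∀ t ∈ ball (0 : ℂ) ρ, K t ∈ ball (0 : ℂ) r1) ∧
      (∀ t, ∃ e : ℂ ≃L[ℝ] ℂ, (e : ℂ →L[ℝ] ℂ) = fderiv ℝ K t) ∧
      JHol J (fun t => v (K t)) (ball 0 ρ) := by
  have h0r1 : (0 : ℂ) ∈ ball (0 : ℂ) r1 := mem_ball_self hr1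
  have hvat : ∀ z ∈ ball (0 : ℂ) r1, ContDiffAt ℝ ∞ v z := fun z hz =>
    hv.contDiffAt (isOpen_ball.mem_nhds hz)
  set B : ℂ → ℂ →L[ℝ] ℂ := fun z => (ContinuousLinearMap.snd ℝ ℂ ℂ).comp (fderiv ℝ v z) with hBdef
  have hfd : ∀ z ∈ ball (0 : ℂ) r1, ContDiffAt ℝ ∞ (fderiv ℝ v) z := fun z hz =>
    (hvat z hz).fderiv_right (m := ∞) (by simp)
  have hBc : ∀ z ∈ ball (0 : ℂ) r1, ContDiffAt ℝ ∞ B z := fun z hz =>
    contDiffAt_const.clm_comp (hfd z hz)
  have hB0 : B 0 = ContinuousLinearMap.id ℝ ℂ := by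
    refine ContinuousLinearMap.ext fun w => ?_
    show (fderiv ℝ v 0 w).2 = w
    rw [hcl]
  -- near `0` the map `B z` is invertible
  have hBn : ∀ᶠ z in 𝓝 (0 : ℂ), ‖B z - ContinuousLinearMap.id ℝ ℂ‖ < 1 := by
    have hc : ContinuousAt (fun z => ‖B z - ContinuousLinearMap.id ℝ ℂ‖) 0 :=
      ((hBc 0 h0r1).continuousAt.sub continuousAt_const).norm
    refine hc.eventually_lt continuousAt_const ?_
    rw [hB0]; simp
  have hj0 : ∀ w, jv J v 0 w = Complex.I * w := by
    intro w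
    unfold jv
    have e1 : (ContinuousLinearMap.snd ℝ ℂ ℂ).comp (fderiv ℝ v 0) =
        ((ContinuousLinearEquiv.refl ℝ ℂ : ℂ ≃L[ℝ] ℂ) : ℂ →L[ℝ] ℂ) := hB0
    rw [e1, ContinuousLinearMap.inverse_equiv]
    show (J (v 0) (fderiv ℝ v 0 w)).2 = Complex.I * w
    rw [hcl, v0, hJ.zero]
    rfl
  have hjc : ContDiffAt ℝ ∞ (jv J v) 0 := by
    have h1 : ContDiffAt ℝ ∞ (fun z => ContinuousLinearMap.inverse (B z)) 0 := by
      have h2 : ContDiffAt ℝ ∞ (ContinuousLinearMap.inverse : (ℂ →L[ℝ] ℂ) → (ℂ →L[ℝ] ℂ)) (B 0) := by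
        rw [hB0]
        exact contDiffAt_map_inverse (ContinuousLinearEquiv.refl ℝ ℂ)
      exact h2.comp (0 : ℂ) (hBc 0 h0r1)
    have h3 : ContDiffAt ℝ ∞ (fun z => J (v z)) 0 := by
      refine ContDiffAt.comp (g := J) (f := v) (0 : ℂ) ?_ (hvat 0 h0r1)
      exact hJ.smooth.contDiffAt (isOpen_ball.mem_nhds (hvr 0 h0r1))
    exact h1.clm_comp (contDiffAt_const.clm_comp (h3.clm_comp (hfd 0 h0r1)))
  have hdj0 : dl (jv J v 0) = Complex.I ∧ dbl (jv J v 0) = 0 :=
    dl_of_apply (p := Complex.I) (q := 0) fun w => by rw [hj0]; ring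
  -- the coefficient
  set ν : ℂ → ℂ := fun z => dbl (jv J v z) / (Complex.I + dl (jv J v z)) with hν
  have hdl : ContDiffAt ℝ ∞ (fun z => dl (jv J v z)) 0 := by
    have h1 : ContDiffAt ℝ ∞ (fun z => jv J v z 1) 0 := hjc.clm_apply contDiffAt_const
    have h2 : ContDiffAt ℝ ∞ (fun z => jv J v z Complex.I) 0 := hjc.clm_apply contDiffAt_const
    show ContDiffAt ℝ ∞ (fun z => (2 : ℂ)⁻¹ • (jv J v z 1 - Complex.I • jv J v z Complex.I)) 0
    exact (h1.sub (h2.const_smul Complex.I)).const_smul _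
  have hdbl : ContDiffAt ℝ ∞ (fun z => dbl (jv J v z)) 0 := by
    have h1 : ContDiffAt ℝ ∞ (fun z => jv J v z 1) 0 := hjc.clm_apply contDiffAt_const
    have h2 : ContDiffAt ℝ ∞ (fun z => jv J v z Complex.I) 0 := hjc.clm_apply contDiffAt_const
    show ContDiffAt ℝ ∞ (fun z => (2 : ℂ)⁻¹ • (jv J v z 1 + Complex.I • jv J v z Complex.I)) 0
    exact (h1.add (h2.const_smul Complex.I)).const_smul _
  have hden : Complex.I + dl (jv J v 0) ≠ 0 := by
    rw [hdj0.1]
    intro h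
    have := congrArg Complex.im h
    simp at this
  have hνc : ContDiffAt ℝ ∞ ν 0 := by
    have h1 : ContDiffAt ℝ ∞ (fun z => Complex.I + dl (jv J v z)) 0 := contDiffAt_const.add hdl
    have h2 : ContDiffAt ℝ ∞ (fun z => dbl (jv J v z) * (Complex.I + dl (jv J v z))⁻¹) 0 :=
      hdbl.mul (h1.inv hden)
    simpa only [hν, div_eq_mul_inv] using h2
  have hν0 : ν 0 = 0 := by rw [hν]; simp only; rw [hdj0.2, zero_div]
  have hνG : HG 1 ν := HG.of_contDiffAt one_pos le_rfl (hνc.of_le (by simp))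
  obtain ⟨K, hK, hKs, hK0, hKb, hKl, hKe, hKz, -, ρ, hρ, hKeq⟩ :=
    bel_coord hB hνG hν0 (b := 1 / 2) (by norm_num) (by norm_num) (by norm_num)
  -- the good neighbourhood of `0` in the `z`-plane
  have hgood : ∀ᶠ z in 𝓝 (0 : ℂ), z ∈ ball (0 : ℂ) r1 ∧
      ‖B z - ContinuousLinearMap.id ℝ ℂ‖ < 1 ∧
      ‖dbl (jv J v z)‖ < ‖Complex.I + dl (jv J v z)‖ := by
    have hb0 : ∀ᶠ z in 𝓝 (0 : ℂ), z ∈ ball (0 : ℂ) r1 := isOpen_ball.mem_nhds h0r1
    refine hb0.and (hBn.and ?_)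
    refine ContinuousAt.eventually_lt hdbl.continuousAt.norm
      (continuousAt_const.add hdl.continuousAt).norm ?_
    rw [hdj0.2, norm_zero]
    exact norm_pos_iff.2 hden
  have hgoodK : ∀ᶠ t in 𝓝 (0 : ℂ), K t ∈ ball (0 : ℂ) r1 ∧
      ‖B (K t) - ContinuousLinearMap.id ℝ ℂ‖ < 1 ∧
      ‖dbl (jv J v (K t))‖ < ‖Complex.I + dl (jv J v (K t))‖ := by
    have hc : Tendsto K (𝓝 0) (𝓝 0) := by
      have := K.continuous.continuousAt (x := 0)
      rwa [ContinuousAt, hK0] at this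
    exact hc.eventually hgood
  obtain ⟨ρ1, hρ1, hb⟩ := Metric.eventually_nhds_iff_ball.1 hgoodK
  refine ⟨K, min ρ ρ1, lt_min hρ hρ1, hK0, hK, fun t ht => ?_, hKe, fun t ht => ?_⟩
  · exact (hb t (ball_subset_ball (min_le_right _ _) ht)).1
  · have htρ : t ∈ ball (0 : ℂ) ρ := ball_subset_ball (min_le_left _ _) ht
    obtain ⟨h1, h2, h3⟩ := hb t (ball_subset_ball (min_le_right _ _) ht)
    have hKd : HasFDerivAt K (fderiv ℝ K t) t :=
      ((hK.differentiable (by norm_num)) t).hasFDerivAt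
    have hvd : HasFDerivAt v (fderiv ℝ v (K t)) (K t) :=
      ((hvat _ h1).differentiableAt (by simp)).hasFDerivAt
    have hcomp := hvd.comp t hKd
    have hcomp' : HasFDerivAt (fun t => v (K t)) ((fderiv ℝ v (K t)).comp (fderiv ℝ K t)) t := hcomp
    refine ⟨hcomp'.differentiableAt, fun s => ?_⟩
    rw [hcomp'.fderiv]
    obtain ⟨e, he⟩ := exists_equiv' h2
    have hspec := jv_spec (J := J) he (hinv _ h1)
    -- `j j = -1`
    have hinj : ∀ w, fderiv ℝ v (K t) w = 0 → w = 0 := by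
      intro w hw
      have : e w = 0 := by
        have e2 : e w = (e : ℂ →L[ℝ] ℂ) w := rfl
        rw [e2, he]
        show (fderiv ℝ v (K t) w).2 = 0
        rw [hw]; rfl
      exact (map_eq_zero_iff e e.injective).1 this
    have hjj : ∀ w, jv J v (K t) (jv J v (K t) w) = - w := by
      intro w
      have h5 : fderiv ℝ v (K t) (jv J v (K t) (jv J v (K t) w) + w) = 0 := by
        rw [map_add, hspec, hspec, hJ.sq _ (hvr _ h1)]
        simp
      have := hinj _ h5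
      exact eq_neg_of_add_eq_zero_left this
    -- the equation
    have hkey : ∀ s, fderiv ℝ K t (Complex.I * s) = jv J v (K t) (fderiv ℝ K t s) := by
      set D := fderiv ℝ K t with hD
      set j := jv J v (K t) with hj
      set α := dl j with hα
      set β := dbl j with hβ
      have hp : dbl D = - ν (K t) * conj (dl D) := hKeq t htρ
      have hden2 : Complex.I + α ≠ 0 := norm_pos_iff.1 (lt_of_le_of_lt (norm_nonneg _) h3)
      have hνK : ν (K t) = β / (Complex.I + α) := rfl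
      -- the defect `X s = D (i s) - j (D s)` is complex linear
      set x0 := Complex.I * dl D - α * dl D - β * conj (dbl D) with hx0
      have hX : ∀ s, D (Complex.I * s) - j (D s) = x0 * s := by
        intro s
        have hq : - Complex.I * dbl D - α * dbl D - β * conj (dl D) = 0 := by
          rw [hp, hνK]
          field_simp
          ring
        rw [apply_eq D (Complex.I * s), apply_eq j (D s), apply_eq D s]
        simp only [map_add, map_mul, Complex.conj_I, Complex.conj_conj]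
        rw [← hα, ← hβ, hx0]
        linear_combination (conj s) * hq
      -- `X i = - j X`
      have hXi : ∀ s, x0 * (Complex.I * s) = - j (x0 * s) := by
        intro s
        rw [← hX (Complex.I * s), ← hX s, map_sub, hjj]
        have e1 : Complex.I * (Complex.I * s) = -s := by
          rw [← mul_assoc, Complex.I_mul_I]; ring
        rw [e1, map_neg]
        ring
      have h6 := hXi 1
      rw [mul_one, mul_one, apply_eq j x0, ← hα, ← hβ] at h6
      have h7 : (Complex.I + α) * x0 = - (β * conj x0) := by linear_combination h6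
      have h8 : x0 = 0 := by
        by_contra hne
        have h9 := congrArg norm h7
        rw [norm_mul, norm_neg, norm_mul, RCLike.norm_conj] at h9
        have h10 : ‖Complex.I + α‖ = ‖β‖ := mul_right_cancel₀ (norm_ne_zero_iff.2 hne) h9
        rw [h10] at h3
        exact lt_irrefl _ h3
      intro s
      have := hX s
      rw [h8, zero_mul] at this
      exact sub_eq_zero.1 this
    show fderiv ℝ v (K t) (fderiv ℝ K t (Complex.I * s)) =
      J (v (K t)) (fderiv ℝ v (K t) (fderiv ℝ K t s))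
    rw [hkey, hspec]

end

end Crest.Agent.R235.Iso_61
end

-- ▼ part R235/EmbLoc_61
section

/-!
Row 235 (S0364), package ADJ, leaf X1 (helper61), part 2: an embedded surface with `J`-invariant
tangent planes, given by a smooth parametrisation `s : D → M`, has a local form (`LocForm`) with
its current.
-/

set_option autoImplicit false
set_option maxSynthPendingDepth 3

open Set Function Filter MeasureTheory Metric
open scoped Manifold ContDiff Topology

universe u

namespace Crest.Agent.R235.EmbLoc_61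

open Crest.Agent.R240 Crest.Agent.R240.Ch Crest.Agent.R235.Glob_370 Crest.Agent.R235.Dm_61
open Crest.Agent.R235.AdjET_61 Crest.Agent.R235.NWDefs_334 Crest.Agent.R235.NWIface_334

noncomputable section

variable {M : Type u} [TopologicalSpace M] [ChartedSpace E4 M] [IsManifold 𝓘(ℝ, E4) ∞ M]

/-- a parametrised piece of an embedded `J`-surface `S` with current `C`. -/
structure Patch (J : EndF E4 M) (F : F2 E4 M) (S : Set M) (C : X2 M →ₗ[ℝ] ℝ) (p : M) where
  /-- the parametrisation -/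
  s : ℂ → M
  /-- its domain -/
  D : Set ℂ
  openD : IsOpen D
  /-- the centre -/
  z0 : ℂ
  mem : z0 ∈ D
  val : s z0 = p
  smooth : ContMDiffOn 𝓘(ℝ, ℂ) 𝓘(ℝ, E4) ∞ s D
  inj : InjOn s D
  imm : ∀ z ∈ D, ∀ v, dmap s z v = 0 → v = 0
  jinv : ∀ z ∈ D, ∀ v, ∃ v', dmap s z v' = atJ J (s z) (dmap s z v)
  op : ∀ O ⊆ D, IsOpen O → ∃ U, IsOpen U ∧ S ∩ U = s '' O
  pos : ∀ z ∈ D, 0 < pb s F z
  cur : ∀ b : X2 M, C b = ∫ z in D, pb s (b.1 : F2 E4 M) z

/-- a real linear map of the plane by its values. -/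
theorem eq_lam (L : ℂ →L[ℝ] ℂ) : L = lam (L 1) (L Complex.I) := by
  refine ContinuousLinearMap.ext fun v => ?_
  rw [lam_apply]
  have h : v = v.re • (1 : ℂ) + v.im • Complex.I := by
    apply Complex.ext <;> simp
  conv_lhs => rw [h]
  rw [map_add, map_smul, map_smul, Complex.real_smul, Complex.real_smul]

/-- `pb (s ∘ G) = det G' pb s`. -/
theorem pb_comp_real {s : ℂ → M} {G : ℂ → ℂ} {G' : ℂ →L[ℝ] ℂ} {t : ℂ}
    (h : ContMDiffAt 𝓘(ℝ, ℂ) 𝓘(ℝ, E4) ∞ s (G t)) (hG : HasFDerivAt G G' t) {b : F2 E4 M}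
    (hb : Smooth2 b) : pb (fun t => s (G t)) b t = G'.det * pb s b (G t) := by
  have h1 : ∀ v, dmap (fun t => s (G t)) t v = dmap s (G t) (G' v) := fun v => dmap_comp' h hG v
  have h2 : pb (fun t => s (G t)) b t =
      at2 b (s (G t)) (dmap s (G t) (G' 1)) (dmap s (G t) (G' Complex.I)) := by
    unfold pb
    rw [h1, h1]
  rw [h2, at2_dmap_comb hb, eq_lam G', det_lam, ← eq_lam G']
  ring

section main

variable {J : EndF E4 M} {F : F2 E4 M} {S : Set M} {C : X2 M →ₗ[ℝ] ℝ} {p : M}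

/-- the linear change of the parameter at the centre. -/
theorem exists_A (P : Patch J F S C p) (hJ2 : ∀ x v, atJ J x (atJ J x v) = -v) :
    ∃ (T : E4 ≃L[ℝ] ℂ × ℂ) (A : ℂ ≃L[ℝ] ℂ),
      (∀ v, T (atJ J p v) = Complex.I • T v) ∧ ∀ w, T (dmap P.s P.z0 (A w)) = (0, w) := by
  have he : dmap P.s P.z0 1 ≠ 0 := fun h => one_ne_zero (P.imm _ P.mem 1 h)
  have hfin : Module.finrank ℝ E4 = 4 := by simp
  obtain ⟨T, hT, hTe⟩ := NWJ2_130.exists_lin hfin (j := atJ J p) (hJ2 p) he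
  obtain ⟨a, ha⟩ := P.jinv _ P.mem 1
  rw [P.val] at ha
  have hk : ∀ w : ℂ, T (dmap P.s P.z0 (lam 1 a w)) = (0, w) := by
    intro w
    have e1 : lam 1 a w = w.re • (1 : ℂ) + w.im • a := by
      rw [lam_apply, Complex.real_smul, Complex.real_smul]
    rw [e1, dmap_add, dmap_smul, dmap_smul, ha, map_add, map_smul, map_smul, hT, hTe]
    apply Prod.ext
    · simp
    · simp only [Prod.smul_mk, Prod.mk_add_mk, smul_zero, smul_eq_mul, mul_one,
        Complex.real_smul]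
      exact Complex.re_add_im w
  have hinj : Injective (lam 1 a : ℂ →ₗ[ℝ] ℂ) := by
    intro w w' h
    have h' : lam 1 a w = lam 1 a w' := h
    have h1 := hk w
    rw [h', hk w'] at h1
    exact (congrArg Prod.snd h1).symm
  refine ⟨T, (LinearEquiv.ofInjectiveEndo (lam 1 a : ℂ →ₗ[ℝ] ℂ) hinj).toContinuousLinearEquiv,
    hT, fun w => ?_⟩
  exact hk w

/-- the almost complex structure in linear coordinates at `p`. -/
def JT (J : EndF E4 M) (p : M) (T : E4 ≃L[ℝ] ℂ × ℂ) (x : ℂ × ℂ) : ℂ × ℂ →L[ℝ] ℂ × ℂ :=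
  (T : E4 →L[ℝ] ℂ × ℂ).comp ((repJ p J (chartAt E4 p p + T.symm x)).comp
    (T.symm : ℂ × ℂ →L[ℝ] E4))

theorem repJ_sq (hJ2 : ∀ x v, atJ J x (atJ J x v) = -v) {y : E4}
    (hy : y ∈ (chartAt E4 p).target) (v : E4) : repJ p J y (repJ p J y v) = -v := by
  rw [repJ_apply, repJ_apply, tcc_cancel' (symm_mem hy), hJ2, map_neg]
  have h := tcc_comp (w := p) (x := (chartAt E4 p).symm y) (y := p) (z := (chartAt E4 p).symm y)
    (symm_mem hy) (mem_chart_source E4 _) (symm_mem hy) v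
  rw [h, tcc_self (symm_mem hy)]

theorem acs_JT (hJ : SmoothJ J) (hJ2 : ∀ x v, atJ J x (atJ J x v) = -v) {T : E4 ≃L[ℝ] ℂ × ℂ}
    (hT : ∀ v, T (atJ J p v) = Complex.I • T v) : ∃ r : ℝ, ACS (JT J p T) r ∧
      ∀ x ∈ ball (0 : ℂ × ℂ) r, chartAt E4 p p + T.symm x ∈ (chartAt E4 p).target := by
  have hc : Continuous fun x : ℂ × ℂ => chartAt E4 p p + T.symm x :=
    continuous_const.add T.symm.continuous
  have h0 : chartAt E4 p p + T.symm (0 : ℂ × ℂ) ∈ (chartAt E4 p).target := by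
    rw [map_zero, add_zero]; exact (chartAt E4 p).map_source (mem_chart_source E4 p)
  have hn : ∀ᶠ x in 𝓝 (0 : ℂ × ℂ), chartAt E4 p p + T.symm x ∈ (chartAt E4 p).target :=
    hc.continuousAt.eventually_mem ((chartAt E4 p).open_target.mem_nhds h0)
  obtain ⟨r, hr, hb⟩ := Metric.eventually_nhds_iff_ball.1 hn
  refine ⟨r, ⟨hr, ?_, ?_, ?_⟩, hb⟩
  · have h1 : ContDiffOn ℝ ∞ (fun x : ℂ × ℂ => repJ p J (chartAt E4 p p + T.symm x)) (ball 0 r) := by
      refine (hJ p).comp (g := repJ p J) (f := fun x : ℂ × ℂ => chartAt E4 p p + T.symm x) ?_ hb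
      exact (contDiff_const.add T.symm.contDiff).contDiffOn
    exact contDiffOn_const.clm_comp (h1.clm_comp contDiffOn_const)
  · intro x hx v
    show T (repJ p J _ (T.symm (T (repJ p J _ (T.symm v))))) = -v
    rw [T.symm_apply_apply, repJ_sq hJ2 (hb x hx), map_neg, T.apply_symm_apply]
  · intro v
    show T (repJ p J (chartAt E4 p p + T.symm 0) (T.symm v)) = Complex.I • v
    rw [map_zero, add_zero]
    have h := apply_eq_repJ (mem_chart_source E4 p) J (T.symm v)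
    rw [tcc_self (mem_chart_source E4 p), tcc_self (mem_chart_source E4 p)] at h
    rw [← h, hT, T.apply_symm_apply]

/-- **local form of an embedded `J`-surface.** -/
theorem loc_form [T2Space M] (hB : BelStmt) (hR : RegStmt) (hJ : SmoothJ J)
    (hJ2 : ∀ x v, atJ J x (atJ J x v) = -v) (hF : Smooth2 F)
    (hFt : ∀ x v, v ≠ 0 → 0 < at2 F x v (atJ J x v)) (P : Patch J F S C p) :
    ∃ L : LocForm J S p, L.Cur C := by
  obtain ⟨T, A, hT, hTA⟩ := exists_A P hJ2
  obtain ⟨r, hacs, hrt⟩ := acs_JT hJ hJ2 hT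
  -- the affine change of the parameter
  set α : ℂ → ℂ := fun z => P.z0 + A z with hα
  have hα0 : α 0 = P.z0 := by simp [hα]
  have hαc : Continuous α := continuous_const.add A.continuous
  have hαd : ∀ z, HasFDerivAt α (A : ℂ →L[ℝ] ℂ) z := fun z =>
    (A.hasFDerivAt (x := z)).const_add P.z0
  have hαinj : Injective α := fun z w h => A.injective (add_left_cancel h)
  have hsat : ∀ z ∈ P.D, ContMDiffAt 𝓘(ℝ, ℂ) 𝓘(ℝ, E4) ∞ P.s z := fun z hz =>
    P.smooth.contMDiffAt (P.openD.mem_nhds hz)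
  set v : ℂ → ℂ × ℂ := fun z => T (chartAt E4 p (P.s (α z)) - chartAt E4 p p) with hv
  have hv0 : v 0 = 0 := by
    rw [hv]; simp only; rw [hα0, P.val, sub_self, map_zero]
  -- the good neighbourhood of `0`
  have hsc : ContinuousAt (fun z => P.s (α z)) 0 := by
    refine ContinuousAt.comp (g := P.s) (f := α) ?_ hαc.continuousAt
    rw [hα0]
    exact (hsat _ P.mem).continuousAt
  have hgood : ∀ᶠ z in 𝓝 (0 : ℂ), α z ∈ P.D ∧ P.s (α z) ∈ (chartAt E4 p).source := by
    refine (hαc.continuousAt.eventually_mem (P.openD.mem_nhds ?_)).and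
      (hsc.eventually_mem ((chartAt E4 p).open_source.mem_nhds ?_))
    · rw [hα0]; exact P.mem
    · rw [hα0, P.val]; exact mem_chart_source E4 p
  obtain ⟨r0, hr0, hb0⟩ := Metric.eventually_nhds_iff_ball.1 hgood
  have hchart : ∀ z, α z ∈ P.D → P.s (α z) ∈ (chartAt E4 p).source →
      ContDiffAt ℝ ∞ (fun z => chartAt E4 p (P.s (α z))) z := by
    intro z hz1 hz2
    exact ContDiffAt.comp (g := fun z => chartAt E4 p (P.s z)) (f := α) z
      (contDiffAt_chart (hsat _ hz1) hz2) (contDiff_const.add A.contDiff).contDiffAt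
  have hvs : ∀ z, α z ∈ P.D → P.s (α z) ∈ (chartAt E4 p).source → ContDiffAt ℝ ∞ v z := by
    intro z hz1 hz2
    exact T.contDiff.contDiffAt.comp z ((hchart z hz1 hz2).sub contDiffAt_const)
  have hvc : ContinuousAt v 0 := (hvs 0 (hb0 0 (mem_ball_self hr0)).1
    (hb0 0 (mem_ball_self hr0)).2).continuousAt
  have hgood2 : ∀ᶠ z in 𝓝 (0 : ℂ), v z ∈ ball (0 : ℂ × ℂ) r := by
    refine hvc.eventually_mem (isOpen_ball.mem_nhds ?_)
    rw [hv0]; exact mem_ball_self hacs.pos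
  obtain ⟨r1, hr1, hb1⟩ := Metric.eventually_nhds_iff_ball.1 (hgood.and hgood2)
  have hvsm : ContDiffOn ℝ ∞ v (ball 0 r1) := fun z hz =>
    (hvs z (hb1 z hz).1.1 (hb1 z hz).1.2).contDiffWithinAt
  -- the differential of `v`
  have hvd : ∀ z, α z ∈ P.D → P.s (α z) ∈ (chartAt E4 p).source → ∀ w,
      fderiv ℝ v z w = T (tcc (P.s (α z)) p (P.s (α z)) (dmap P.s (α z) (A w))) := by
    intro z hz1 hz2 w
    have h1 : HasFDerivAt (fun z => chartAt E4 p (P.s z))
        (fderiv ℝ (fun z => chartAt E4 p (P.s z)) (α z)) (α z) :=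
      ((contDiffAt_chart (hsat _ hz1) hz2).differentiableAt (by simp)).hasFDerivAt
    have h2 : HasFDerivAt (fun z => chartAt E4 p (P.s (α z)) - chartAt E4 p p)
        ((fderiv ℝ (fun z => chartAt E4 p (P.s z)) (α z)).comp (A : ℂ →L[ℝ] ℂ)) z :=
      (h1.comp z (hαd z)).sub_const _
    have h3 : HasFDerivAt v _ z := (T : E4 →L[ℝ] ℂ × ℂ).hasFDerivAt.comp z h2
    rw [h3.fderiv, ← fderiv_chart (hsat _ hz1) hz2]
    rfl
  have hinv : ∀ z ∈ ball (0 : ℂ) r1, ∀ w, ∃ w',
      fderiv ℝ v z w' = JT J p T (v z) (fderiv ℝ v z w) := by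
    intro z hz w
    obtain ⟨⟨hz1, hz2⟩, hz3⟩ := hb1 z hz
    obtain ⟨w1, hw1⟩ := P.jinv _ hz1 (A w)
    refine ⟨A.symm w1, ?_⟩
    rw [hvd z hz1 hz2, hvd z hz1 hz2, A.apply_symm_apply, hw1]
    show _ = T (repJ p J (chartAt E4 p p + T.symm (v z)) (T.symm (T _)))
    have e1 : chartAt E4 p p + T.symm (v z) = chartAt E4 p (P.s (α z)) := by
      rw [hv]; simp
    rw [e1, T.symm_apply_apply, ← apply_eq_repJ hz2]
  have hcl : ∀ w, fderiv ℝ v 0 w = (0, w) := by
    intro w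
    rw [hvd 0 (hb0 0 (mem_ball_self hr0)).1 (hb0 0 (mem_ball_self hr0)).2, hα0, P.val,
      tcc_self (mem_chart_source E4 p)]
    exact hTA w
  obtain ⟨K, ρ, hρ, hK0, hKC, hKb, hKe, hKJ⟩ := Iso_61.iso hB hacs hr1 hvsm hv0
    (fun z hz => (hb1 z hz).2) hinv hcl
  -- smoothness of the disc
  have hu0C1 : ContDiffOn ℝ 1 (fun t => v (K t)) (ball 0 ρ) :=
    (hvsm.of_le (by simp)).comp hKC.contDiffOn hKb
  have hu0 : ContDiffOn ℝ ∞ (fun t => v (K t)) (ball 0 ρ) :=
    hR (JT J p T) (ball 0 r) isOpen_ball hacs.smooth hacs.sq (fun t => v (K t)) (ball 0 ρ)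
      isOpen_ball hu0C1 (fun t ht => (hb1 _ (hKb t ht)).2) hKJ
  -- the disc
  set m : ℂ → ℂ := fun t => (ρ / 2) • t with hm
  have hmd : ∀ t, HasFDerivAt m ((ρ / 2) • ContinuousLinearMap.id ℝ ℂ) t := fun t =>
    (hasFDerivAt_id t).const_smul (ρ / 2)
  have hmb : ∀ t ∈ ball (0 : ℂ) 2, m t ∈ ball (0 : ℂ) ρ := by
    intro t ht
    rw [mem_ball_zero_iff] at ht ⊢
    rw [hm]; simp only
    rw [norm_smul, Real.norm_eq_abs, abs_of_pos (by linarith)]
    nlinarith
  have hminj : Injective m := by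
    intro x y h
    have h' : (ρ / 2) • x = (ρ / 2) • y := h
    exact smul_right_injective ℂ (by positivity : ρ / 2 ≠ 0) h'
  have hmc : Continuous m := continuous_const_smul (ρ / 2)
  set G : ℂ → ℂ := fun t => α (K (m t)) with hG
  have hGc : Continuous G := hαc.comp (K.continuous.comp hmc)
  have hGinj : Injective G := hαinj.comp (K.injective.comp hminj)
  have hGD : ∀ t ∈ ball (0 : ℂ) 2, G t ∈ P.D := fun t ht => (hb1 _ (hKb _ (hmb t ht))).1.1
  have hGs : ∀ t ∈ ball (0 : ℂ) 2, P.s (G t) ∈ (chartAt E4 p).source := fun t ht =>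
    (hb1 _ (hKb _ (hmb t ht))).1.2
  have hGd : ∀ t, HasFDerivAt G ((A : ℂ →L[ℝ] ℂ).comp ((fderiv ℝ K (m t)).comp
      ((ρ / 2) • ContinuousLinearMap.id ℝ ℂ))) t := by
    intro t
    have h1 : HasFDerivAt K (fderiv ℝ K (m t)) (m t) :=
      ((hKC.differentiable (by norm_num)) _).hasFDerivAt
    exact (hαd _).comp t (h1.comp t (hmd t))
  have h12 : ball (0 : ℂ) 1 ⊆ ball 0 2 := ball_subset_ball (by norm_num)
  set u : ℂ → M := fun t => P.s (G t) with hu
  have huc : ∀ t ∈ ball (0 : ℂ) 2, ContinuousAt u t := fun t ht =>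
    ContinuousAt.comp (g := P.s) (f := G) (hsat _ (hGD t ht)).continuousAt hGc.continuousAt
  have hchu : ∀ t, chartAt E4 p (u t) = chartAt E4 p p + T.symm (v (K (m t))) := by
    intro t
    rw [hv]; simp [hu, hG]
  have hcu : ∀ t ∈ ball (0 : ℂ) 2, ContDiffAt ℝ ∞ (fun t => chartAt E4 p (u t)) t := by
    intro t ht
    have h1 : ContDiffAt ℝ ∞ (fun t => v (K t)) (m t) :=
      hu0.contDiffAt (isOpen_ball.mem_nhds (hmb t ht))
    have h2 : ContDiffAt ℝ ∞ m t := contDiffAt_id.const_smul (ρ / 2)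
    have h3 : ContDiffAt ℝ ∞ (fun t => v (K (m t))) t :=
      ContDiffAt.comp (g := fun t => v (K t)) (f := m) t h1 h2
    have h4 : (fun t => chartAt E4 p (u t)) = fun t => chartAt E4 p p + T.symm (v (K (m t))) :=
      funext hchu
    rw [h4]
    exact contDiffAt_const.add (T.symm.contDiff.contDiffAt.comp t h3)
  have husm : ∀ t ∈ ball (0 : ℂ) 2, ContMDiffAt 𝓘(ℝ, ℂ) 𝓘(ℝ, E4) ∞ u t := fun t ht =>
    contMDiffAt_of_chart (huc t ht) (hGs t ht) (hcu t ht)
  have hdm : ∀ t ∈ ball (0 : ℂ) 2, ∀ w, tcc (u t) p (u t) (dmap u t w) =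
      T.symm (fderiv ℝ (fun t => v (K t)) (m t) ((ρ / 2) • w)) := by
    intro t ht w
    rw [← fderiv_chart (husm t ht) (hGs t ht)]
    have h1 : HasFDerivAt (fun t => v (K t)) (fderiv ℝ (fun t => v (K t)) (m t)) (m t) :=
      ((hu0.contDiffAt (isOpen_ball.mem_nhds (hmb t ht))).differentiableAt (by simp)).hasFDerivAt
    have h2 : HasFDerivAt (fun t => v (K (m t))) _ t :=
      HasFDerivAt.comp (g := fun t => v (K t)) (f := m) t h1 (hmd t)
    have h3 : HasFDerivAt (fun t => chartAt E4 p p + T.symm (v (K (m t)))) _ t :=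
      ((T.symm : ℂ × ℂ →L[ℝ] E4).hasFDerivAt.comp t h2).const_add _
    have h4 : (fun t => chartAt E4 p (u t)) = fun t => chartAt E4 p p + T.symm (v (K (m t))) :=
      funext hchu
    rw [h4, h3.fderiv]
    rfl
  have hjh : ∀ t ∈ ball (0 : ℂ) 2, ∀ w : ℂ,
      dmap u t (Complex.I * w) = atJ J (u t) (dmap u t w) := by
    intro t ht w
    refine tcc_inj (hGs t ht) ?_
    have h1 := (hKJ (m t) (hmb t ht)).2 ((ρ / 2) • w)
    have h2 : (ρ / 2) • (Complex.I * w) = Complex.I * ((ρ / 2) • w) := by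
      rw [mul_smul_comm]
    have h3 : tcc (u t) p (u t) (dmap u t (Complex.I * w)) = T.symm (JT J p T (v (K (m t)))
        (fderiv ℝ (fun t => v (K t)) (m t) ((ρ / 2) • w))) := by
      rw [hdm t ht, h2, h1]
    have h4 : T.symm (JT J p T (v (K (m t)))
        (fderiv ℝ (fun t => v (K t)) (m t) ((ρ / 2) • w))) =
        repJ p J (chartAt E4 p p + T.symm (v (K (m t))))
          (T.symm (fderiv ℝ (fun t => v (K t)) (m t) ((ρ / 2) • w))) :=
      T.symm_apply_apply _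
    rw [h3, h4, ← hdm t ht, ← hchu, apply_eq_repJ (hGs t ht)]
  have hdu : ∀ t ∈ ball (0 : ℂ) 2, ∀ w, dmap u t w =
      dmap P.s (G t) (A (fderiv ℝ K (m t) ((ρ / 2) • w))) := by
    intro t ht w
    exact dmap_comp' (σ := P.s) (τ := G) (hsat _ (hGD t ht)) (hGd t) w
  have himm : ∀ t ∈ ball (0 : ℂ) 2, ∀ w, dmap u t w = 0 → w = 0 := by
    intro t ht w hw
    rw [hdu t ht] at hw
    have h1 := P.imm _ (hGD t ht) _ hw
    have h2 : fderiv ℝ K (m t) ((ρ / 2) • w) = 0 := (map_eq_zero_iff A A.injective).1 h1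
    obtain ⟨e, he⟩ := hKe (m t)
    rw [← he] at h2
    have h3 : (ρ / 2) • w = 0 := (map_eq_zero_iff e e.injective).1 h2
    exact (smul_eq_zero.1 h3).resolve_left (by positivity)
  -- the open set
  set O : Set ℂ := G '' ball 0 1 with hO
  have hOo : IsOpen O := by
    have e1 : O = (fun z => P.z0 + z) '' (A '' (K '' (m '' ball 0 1))) := by
      rw [hO, image_image, image_image, image_image]
    rw [e1]
    refine (Homeomorph.addLeft P.z0).isOpenMap _ (A.toHomeomorph.isOpenMap _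
      (K.isOpenMap _ ?_))
    exact (Homeomorph.smulOfNeZero (ρ / 2) (by positivity)).isOpenMap _ isOpen_ball
  have hOD : O ⊆ P.D := by
    rintro _ ⟨t, ht, rfl⟩
    exact hGD t (h12 ht)
  obtain ⟨U, hUo, hUS⟩ := P.op O hOD hOo
  have himg : P.s '' O = u '' ball 0 1 := by rw [hO, image_image]
  have hSD : P.s '' P.D ⊆ S := by
    obtain ⟨U', -, hU'⟩ := P.op P.D Subset.rfl P.openD
    rw [← hU']; exact inter_subset_left
  have hu0p : u 0 = p := by
    show P.s (α (K ((ρ / 2) • (0 : ℂ)))) = p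
    rw [smul_zero, hK0, hα0, P.val]
  have hpU : p ∈ U := by
    have h1 : p ∈ S ∩ U := by
      rw [hUS, himg]
      exact ⟨0, mem_ball_self one_pos, hu0p⟩
    exact h1.2
  -- points of `D` mapped to `U` are in `O`
  have hDU : ∀ z ∈ P.D, P.s z ∈ U → z ∈ O := by
    intro z hz hzU
    have h1 : P.s z ∈ S ∩ U := ⟨hSD ⟨z, hz, rfl⟩, hzU⟩
    rw [hUS] at h1
    obtain ⟨z', hz', h2⟩ := h1
    rwa [← P.inj (hOD hz') hz h2]
  have hproper : ∀ K' : Set M, IsCompact K' → K' ⊆ U →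
      ∃ r < (1 : ℝ), ∀ z ∈ ball (0 : ℂ) 1, u z ∈ K' → ‖z‖ ≤ r := by
    intro K' hK' hKU
    have hcl : closedBall (0 : ℂ) 1 ⊆ ball 0 2 := closedBall_subset_ball (by norm_num)
    have hcu : ContinuousOn u (closedBall (0 : ℂ) 1) := fun t ht =>
      (huc t (hcl ht)).continuousWithinAt
    have hZ : IsCompact (closedBall (0 : ℂ) 1 ∩ u ⁻¹' K') :=
      (isCompact_closedBall (0 : ℂ) 1).of_isClosed_subset
        (hcu.preimage_isClosed_of_isClosed isClosed_closedBall hK'.isClosed) inter_subset_left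
    have hlt : ∀ z ∈ closedBall (0 : ℂ) 1 ∩ u ⁻¹' K', ‖z‖ < 1 := by
      rintro z ⟨hz, hzK⟩
      have h1 : G z ∈ O := hDU _ (hGD z (hcl hz)) (hKU hzK)
      obtain ⟨z', hz', h2⟩ := h1
      rw [← hGinj h2]
      exact mem_ball_zero_iff.1 hz'
    rcases (closedBall (0 : ℂ) 1 ∩ u ⁻¹' K').eq_empty_or_nonempty with he | hne
    · refine ⟨0, one_pos, fun z hz hzK => ?_⟩
      have : z ∈ closedBall (0 : ℂ) 1 ∩ u ⁻¹' K' := ⟨ball_subset_closedBall hz, hzK⟩
      rw [he] at this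
      exact absurd this (notMem_empty z)
    · obtain ⟨z1, hz1, hmax⟩ := hZ.exists_isMaxOn hne continuous_norm.continuousOn
      exact ⟨‖z1‖, hlt z1 hz1, fun z hz hzK => hmax ⟨ball_subset_closedBall hz, hzK⟩⟩
  let L : LocForm J S p :=
    { U := U
      openU := hUo
      mem := hpU
      n := 1
      u := fun _ => u
      disc := fun _ =>
        { hol := ⟨fun t ht => (husm t (h12 ht)).contMDiffWithinAt, fun t ht w => hjh t (h12 ht) w⟩
          inj := fun x hx y hy h => hGinj (P.inj (hGD x (h12 hx)) (hGD y (h12 hy)) h)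
          imm := fun t ht _ w hw => himm t (h12 ht) w hw }
      centre := fun _ => hu0p
      disj := fun i j hij => absurd (Subsingleton.elim i j) hij
      supp := by
        rw [hUS, himg]
        exact (iUnion_const _).symm
      proper := fun _ K' hK' hKU => hproper K' hK' hKU }
  refine ⟨L, ?_⟩
  intro b K' hK' hKU hb
  show C b = ∑ _j : Fin 1, ∫ z in ball (0 : ℂ) 1, pb u (b.1 : F2 E4 M) z
  rw [Finset.sum_const, Finset.card_univ, Fintype.card_fin, one_smul, P.cur b]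
  have h1 : ∫ z in P.D, pb P.s (b.1 : F2 E4 M) z = ∫ z in O, pb P.s (b.1 : F2 E4 M) z := by
    refine setIntegral_eq_of_subset_of_forall_sdiff_eq_zero P.openD.measurableSet hOD ?_
    rintro z ⟨hz, hzO⟩
    have h2 : P.s z ∉ K' := fun h => hzO (hDU z hz (hKU h))
    unfold pb
    rw [hb _ h2]
    rfl
  have h3 := integral_image_eq_integral_abs_det_fderiv_smul volume
    (measurableSet_ball (x := (0 : ℂ)) (ε := 1))
    (fun t _ => (hGd t).hasFDerivWithinAt) (hGinj.injOn) (fun z => pb P.s (b.1 : F2 E4 M) z)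
  rw [h1, h3]
  refine setIntegral_congr_fun measurableSet_ball fun t ht => ?_
  have ht2 := h12 ht
  have h4 := pb_comp_real (hsat _ (hGD t ht2)) (hGd t) b.2
  have h5 := pb_comp_real (hsat _ (hGD t ht2)) (hGd t) hF
  have h6 : 0 < pb u F t := by
    have h7 : dmap u t 1 ≠ 0 := fun h => one_ne_zero (himm t ht2 1 h)
    have h8 := hFt (u t) _ h7
    have h9 := hjh t ht2 1
    rw [mul_one] at h9
    rw [← h9] at h8
    exact h8
  have h10 := P.pos _ (hGD t ht2)
  have h11 : 0 < ((A : ℂ →L[ℝ] ℂ).comp ((fderiv ℝ K (m t)).comp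
      ((ρ / 2) • ContinuousLinearMap.id ℝ ℂ))).det := by
    by_contra hcon
    rw [not_lt] at hcon
    have h12 : pb u F t ≤ 0 := by
      show pb (fun t => P.s (G t)) F t ≤ 0
      rw [h5]
      exact mul_nonpos_of_nonpos_of_nonneg hcon h10.le
    exact absurd h6 (not_lt.2 h12)
  show |_| • pb P.s (b.1 : F2 E4 M) (G t) = pb (fun t => P.s (G t)) (b.1 : F2 E4 M) t
  rw [h4, abs_of_pos h11, smul_eq_mul]

end main

end

end Crest.Agent.R235.EmbLoc_61
end

-- ▼ part R235/Lag_61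

/-!
Row 235 (S0364), package ADJ, leaf X1 (helper61), part 3: linear algebra.  A plane of `E4` on which
`w 1` and `w 2` vanish is `J`-invariant.
-/

set_option autoImplicit false
set_option maxSynthPendingDepth 3

open Set Function
open scoped Manifold ContDiff Topology

universe u

namespace Crest.Agent.R235.Lag_61

open Crest.Agent.R240 Crest.Agent.R240.Ch

noncomputable section

theorem b_ee0 {b : Bil} (hb : Alt b) (X : E4) :
    b X (ee 0) = - X 1 * ent b 0 1 - X 2 * ent b 0 2 - X 3 * ent b 0 3 := by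
  rw [alt_expand hb]; simp [ee]; ring

theorem b_ee1 {b : Bil} (hb : Alt b) (X : E4) :
    b X (ee 1) = X 0 * ent b 0 1 - X 2 * ent b 1 2 - X 3 * ent b 1 3 := by
  rw [alt_expand hb]; simp [ee]; ring

theorem b_ee2 {b : Bil} (hb : Alt b) (X : E4) :
    b X (ee 2) = X 0 * ent b 0 2 + X 1 * ent b 1 2 - X 3 * ent b 2 3 := by
  rw [alt_expand hb]; simp [ee]; ring

theorem b_ee3 {b : Bil} (hb : Alt b) (X : E4) :
    b X (ee 3) = X 0 * ent b 0 3 + X 1 * ent b 1 3 + X 2 * ent b 2 3 := by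
  rw [alt_expand hb]; simp [ee]

/-- a two-form with non-zero square is nondegenerate. -/
theorem nondeg {b : Bil} (hb : Alt b) (hW : W b b ≠ 0) {X : E4} (h : ∀ v, b X v = 0) : X = 0 := by
  have h0 := h (ee 0)
  have h1 := h (ee 1)
  have h2 := h (ee 2)
  have h3 := h (ee 3)
  rw [b_ee0 hb] at h0
  rw [b_ee1 hb] at h1
  rw [b_ee2 hb] at h2
  rw [b_ee3 hb] at h3
  have hW' : W b b = 2 * (ent b 0 1 * ent b 2 3 - ent b 0 2 * ent b 1 3 + ent b 0 3 * ent b 1 2) := by
    unfold W; ring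
  have e0 : W b b * X 0 = 0 := by
    rw [hW']; linear_combination 2 * ent b 2 3 * h1 - 2 * ent b 1 3 * h2 + 2 * ent b 1 2 * h3
  have e1 : W b b * X 1 = 0 := by
    rw [hW']; linear_combination -2 * ent b 2 3 * h0 - 2 * ent b 0 2 * h3 + 2 * ent b 0 3 * h2
  have e2 : W b b * X 2 = 0 := by
    rw [hW']; linear_combination 2 * ent b 1 3 * h0 + 2 * ent b 0 1 * h3 - 2 * ent b 0 3 * h1
  have e3 : W b b * X 3 = 0 := by
    rw [hW']; linear_combination -2 * ent b 1 2 * h0 - 2 * ent b 0 1 * h2 + 2 * ent b 0 2 * h1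
  ext i
  fin_cases i
  · exact (mul_eq_zero.1 e0).resolve_left hW
  · exact (mul_eq_zero.1 e1).resolve_left hW
  · exact (mul_eq_zero.1 e2).resolve_left hW
  · exact (mul_eq_zero.1 e3).resolve_left hW

/-- `J X` is in the span of `X` and `Y` if `w₁`, `w₂` vanish on the plane. -/
theorem lag {b c : Bil} (hb : Alt b) (hc : Alt c)
    (hW : ∀ s t : ℝ, (s ≠ 0 ∨ t ≠ 0) → W (s • b + t • c) (s • b + t • c) ≠ 0)
    {j : E4 →L[ℝ] E4} (hj : ∀ v, j (j v) = -v) (hbj : ∀ u v, b (j u) (j v) = - b u v)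
    (hcj : ∀ u v, c (j u) (j v) = - c u v) {X Y : E4} (hX : X ≠ 0)
    (hbX : b X Y = 0) (hcX : c X Y = 0) : ∃ α β : ℝ, Y = α • X + β • j X := by
  -- the map `v ↦ (b X v, c X v)`
  let φ : E4 →ₗ[ℝ] ℝ × ℝ := ((b X : E4 →L[ℝ] ℝ) : E4 →ₗ[ℝ] ℝ).prod ((c X : E4 →L[ℝ] ℝ) : E4 →ₗ[ℝ] ℝ)
  have hφ : ∀ v, φ v = (b X v, c X v) := fun v => rfl
  have hsurj : LinearMap.range φ = ⊤ := by
    by_contra hne
    -- a non-zero functional vanishing on the range
    obtain ⟨f, hf0, hf⟩ := Submodule.exists_le_ker_of_lt_top (LinearMap.range φ)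
      (lt_top_iff_ne_top.2 hne)
    have h1 : ∀ v, f (1, 0) * b X v + f (0, 1) * c X v = 0 := by
      intro v
      have h2 : f (φ v) = 0 := hf ⟨v, rfl⟩
      rw [hφ] at h2
      have h3 : ((b X v, c X v) : ℝ × ℝ) = b X v • ((1, 0) : ℝ × ℝ) + c X v • ((0, 1) : ℝ × ℝ) := by
        simp
      rw [h3, map_add, map_smul, map_smul, smul_eq_mul, smul_eq_mul] at h2
      linarith
    have h4 : f (1, 0) ≠ 0 ∨ f (0, 1) ≠ 0 := by
      by_contra hcon
      push Not at hcon
      apply hf0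
      ext
      · simpa using hcon.1
      · simpa using hcon.2
    have halt : Alt (f (1, 0) • b + f (0, 1) • c) := by
      intro v
      show f (1, 0) * b v v + f (0, 1) * c v v = 0
      rw [hb v, hc v]; ring
    exact hX (nondeg halt (hW _ _ h4) h1)
  have hker : Module.finrank ℝ (LinearMap.ker φ) = 2 := by
    have h1 := LinearMap.finrank_range_add_finrank_ker φ
    rw [hsurj, finrank_top] at h1
    simp at h1
    omega
  have hbs : ∀ u v, b u v = - b v u := fun u v => hb.swap u v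
  have hXX : b X (j X) = 0 := by
    have h1 := hbj X (j X)
    rw [hj, map_neg, hbs (j X) X] at h1
    linarith
  have hcs : ∀ u v, c u v = - c v u := fun u v => hc.swap u v
  have hcXX : c X (j X) = 0 := by
    have h1 := hcj X (j X)
    rw [hj, map_neg, hcs (j X) X] at h1
    linarith
  -- `X`, `j X` are independent
  have hind : LinearIndependent ℝ ![X, j X] := by
    rw [LinearIndependent.pair_iff]
    intro s t hst
    have h1 : s • j X - t • X = 0 := by
      have := congrArg j hst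
      rw [map_add, map_smul, map_smul, hj, map_zero, smul_neg] at this
      rw [sub_eq_add_neg]; exact this
    have h2 : (s ^ 2 + t ^ 2) • X = 0 := by
      have e : (s ^ 2 + t ^ 2) • X = s • (s • X + t • j X) - t • (s • j X - t • X) := by module
      rw [e, hst, h1, smul_zero, smul_zero, sub_zero]
    have h3 := (smul_eq_zero.1 h2).resolve_right hX
    constructor
    · nlinarith [sq_nonneg s, sq_nonneg t]
    · nlinarith [sq_nonneg s, sq_nonneg t]
  have hle : Submodule.span ℝ (Set.range ![X, j X]) ≤ LinearMap.ker φ := by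
    rw [Submodule.span_le]
    rintro _ ⟨i, rfl⟩
    fin_cases i
    · show φ X = 0
      rw [hφ, hb X, hc X]; rfl
    · show φ (j X) = 0
      rw [hφ, hXX, hcXX]; rfl
  have heq : Submodule.span ℝ (Set.range ![X, j X]) = LinearMap.ker φ := by
    refine Submodule.eq_of_le_of_finrank_eq hle ?_
    rw [hker, finrank_span_eq_card hind]
    rfl
  have hY : Y ∈ Submodule.span ℝ (Set.range ![X, j X]) := by
    rw [heq, LinearMap.mem_ker, hφ, hbX, hcX]; rfl
  have hr : Set.range ![X, j X] = {X, j X} := by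
    simp [Matrix.range_cons, Matrix.range_empty, Set.pair_comm]
  rw [hr, Submodule.mem_span_pair] at hY
  obtain ⟨α, β, h⟩ := hY
  exact ⟨α, β, h.symm⟩

variable {M : Type u} [TopologicalSpace M] [ChartedSpace E4 M] [IsManifold 𝓘(ℝ, E4) ∞ M]

/-- the pair `(w 1, w 2)` on a plane. -/
theorem lag_trip {w : Trip M} (hw : Pos3 w) {J : EndF E4 M} (hJ : IsJ w J) (x : M) {X Y : E4}
    (hX : X ≠ 0) (h1 : val (w 1) x X Y = 0) (h2 : val (w 2) x X Y = 0) :
    ∃ α β : ℝ, Y = α • X + β • atJ J x X := by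
  refine lag (b := val (w 1) x) (c := val (w 2) x) ((w 1).1.2.1 x) ((w 2).1.2.1 x) ?_
    (hJ.sq x) (hJ.anti1 x) (hJ.anti2 x) hX h1 h2
  intro s t hst
  have h := hw x ![0, s, t] (by
    intro h0
    rcases hst with h' | h'
    · exact h' (congrFun h0 1)
    · exact h' (congrFun h0 2))
  rw [Fin.sum_univ_three] at h
  simpa using h

end

end Crest.Agent.R235.Lag_61
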