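import Mathlib
import Crest.Agent.R235.Lag_61_Mg
import Crest.Agent.R235.AdjET2_61

/-!
Row 235 (S0364), package ADJ, leaf X1 (helper61), part 4: an embedded `J`-torus (`JTor`) has a local
form with its current at every point.
-/

set_option autoImplicit false
set_option maxSynthPendingDepth 3
set_option linter.unusedSectionVars false

open Set Function Filter MeasureTheory Metric
open scoped Manifold ContDiff Topology

universe u

namespace Crest.Agent.R235.TorPatch_61

open Crest.Agent.R240 Crest.Agent.R240.Ch Crest.Agent.R235.Glob_370 Crest.Agent.R235.Dm_61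
open Crest.Agent.R235.AdjET_61 Crest.Agent.R235.NWDefs_334 Crest.Agent.R235.NWIface_334
open Crest.Agent.R235.EmbLoc_61

noncomputable section

/-! ### doubly periodic functions -/

/-- the rectangle `(a, a+1] × (b, b+1]`. -/
def Qc (a b : ℝ) : Set ℂ := {z | z.re ∈ Ioc a (a + 1) ∧ z.im ∈ Ioc b (b + 1)}

theorem int_Qc {g : ℂ → ℝ} (hg : Continuous g) (a b : ℝ) :
    ∫ z in Qc a b, g z = ∫ x in a..a + 1, ∫ y in b..b + 1, g (x + y * Complex.I) := by
  have h1 := Complex.volume_preserving_equiv_real_prod.symm.setIntegral_preimage_emb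
    Complex.measurableEquivRealProd.symm.measurableEmbedding g (Qc a b)
  have hpre : Complex.measurableEquivRealProd.symm ⁻¹' (Qc a b) =
      (Ioc a (a + 1) : Set ℝ) ×ˢ (Ioc b (b + 1) : Set ℝ) := by
    ext ⟨x, y⟩
    rfl
  rw [hpre] at h1
  rw [← h1]
  have hG : Continuous fun q : ℝ × ℝ => g (Complex.measurableEquivRealProd.symm q) := by
    have : (fun q : ℝ × ℝ => g (Complex.measurableEquivRealProd.symm q)) =
        fun q : ℝ × ℝ => g (q.1 + q.2 * Complex.I) := by
      funext q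
      congr 1
      apply Complex.ext
      · show q.1 = _
        simp
      · show q.2 = _
        simp
    rw [this]
    fun_prop
  have hint : IntegrableOn (fun q : ℝ × ℝ => g (Complex.measurableEquivRealProd.symm q))
      ((Ioc a (a + 1) : Set ℝ) ×ˢ (Ioc b (b + 1) : Set ℝ)) (volume.prod volume) := by
    have hc : IsCompact ((Icc a (a + 1) : Set ℝ) ×ˢ (Icc b (b + 1) : Set ℝ)) :=
      isCompact_Icc.prod isCompact_Icc
    exact (hG.continuousOn.integrableOn_compact hc).mono_set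
      (prod_mono Ioc_subset_Icc_self Ioc_subset_Icc_self)
  have h2 := setIntegral_prod (μ := (volume : Measure ℝ)) (ν := (volume : Measure ℝ))
    (fun q : ℝ × ℝ => g (Complex.measurableEquivRealProd.symm q)) hint
  rw [Measure.volume_eq_prod, h2, intervalIntegral.integral_of_le (by linarith)]
  refine setIntegral_congr_fun measurableSet_Ioc fun x _ => ?_
  rw [intervalIntegral.integral_of_le (by linarith)]
  refine setIntegral_congr_fun measurableSet_Ioc fun y _ => ?_
  show g _ = g _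
  congr 1
  apply Complex.ext
  · show x = _
    simp
  · show y = _
    simp

/-- integrals of doubly periodic functions over unit squares. -/
theorem int_shift {g : ℂ → ℝ} (hg : Continuous g) (h1 : ∀ z, g (z + 1) = g z)
    (hI : ∀ z, g (z + Complex.I) = g z) (a b a' b' : ℝ) :
    ∫ z in Qc a b, g z = ∫ z in Qc a' b', g z := by
  rw [int_Qc hg, int_Qc hg]
  have hin : ∀ x : ℝ, ∫ y in b..b + 1, g (x + y * Complex.I) =
      ∫ y in b'..b' + 1, g (x + y * Complex.I) := by
    intro x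
    have hp : Periodic (fun y : ℝ => g (x + y * Complex.I)) 1 := by
      intro y
      show g _ = g _
      rw [← hI (x + y * Complex.I)]
      congr 1
      push_cast
      ring
    exact hp.intervalIntegral_add_eq b b'
  simp_rw [hin]
  have hp : Periodic (fun x : ℝ => ∫ y in b'..b' + 1, g (x + y * Complex.I)) 1 := by
    intro x
    show (∫ y in b'..b' + 1, g (((x + 1 : ℝ) : ℂ) + y * Complex.I)) = _
    congr 1
    funext y
    rw [← h1 (x + y * Complex.I)]
    congr 1
    push_cast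
    ring
  exact hp.intervalIntegral_add_eq a a'

/-- the open rectangle. -/
def Qop (a b : ℝ) : Set ℂ := {z | z.re ∈ Ioo a (a + 1) ∧ z.im ∈ Ioo b (b + 1)}

theorem Qop_ae (a b : ℝ) : (Qop a b : Set ℂ) =ᵐ[volume] Qc a b := by
  have h1 : (Set.pi univ (fun i : Fin 2 => Ioo (![a, b] i) (![a + 1, b + 1] i))) =ᵐ[volume]
      (Set.pi univ (fun i : Fin 2 => Ioc (![a, b] i) (![a + 1, b + 1] i))) :=
    (Measure.univ_pi_Ioo_ae_eq_Icc (μ := fun _ : Fin 2 => (volume : Measure ℝ))
      (f := ![a, b]) (g := ![a + 1, b + 1])).trans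
    (Measure.univ_pi_Ioc_ae_eq_Icc (μ := fun _ : Fin 2 => (volume : Measure ℝ))
      (f := ![a, b]) (g := ![a + 1, b + 1])).symm
  have h2 := Complex.volume_preserving_equiv_pi.quasiMeasurePreserving.preimage_ae_eq h1
  have hQ : Complex.measurableEquivPi ⁻¹'
      (Set.pi univ (fun i : Fin 2 => Ioo (![a, b] i) (![a + 1, b + 1] i))) = Qop a b := by
    ext z
    simp [Qop, Set.mem_pi, Fin.forall_fin_two]
  have hQ2 : Complex.measurableEquivPi ⁻¹'
      (Set.pi univ (fun i : Fin 2 => Ioc (![a, b] i) (![a + 1, b + 1] i))) = Qc a b := by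
    ext z
    simp [Qc, Set.mem_pi, Fin.forall_fin_two]
  rwa [hQ, hQ2] at h2

/-- the linear identification of the plane with `Ep`. -/
def E : ℂ ≃L[ℝ] Ep := Complex.orthonormalBasisOneI.repr.toContinuousLinearEquiv

theorem E_apply (z : ℂ) : E z = WithLp.toLp 2 ![z.re, z.im] := by
  ext i
  show Complex.orthonormalBasisOneI.repr z i = _
  fin_cases i <;> simp

theorem E_zero (z : ℂ) : E z 0 = z.re := by rw [E_apply]; rfl
theorem E_one (z : ℂ) : E z 1 = z.im := by rw [E_apply]; rfl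

theorem E_1 : E 1 = EuclideanSpace.single 0 1 := by
  ext i
  fin_cases i
  · exact (E_zero 1).trans (by simp)
  · exact (E_one 1).trans (by simp)

theorem E_I : E Complex.I = EuclideanSpace.single 1 1 := by
  ext i
  fin_cases i
  · exact (E_zero _).trans (by simp)
  · exact (E_one _).trans (by simp)

/-! ### the torus -/

section Tor

variable {M : Type u} [TopologicalSpace M] [ChartedSpace E4 M] [IsManifold 𝓘(ℝ, E4) ∞ M]

/-- the torus map on the complex plane. -/
def ts (σ : Ep → M) (z : ℂ) : M := σ (E z)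

variable {σ : Ep → M}

theorem ts_smooth (h : EmbT σ) (z : ℂ) : ContMDiffAt 𝓘(ℝ, ℂ) 𝓘(ℝ, E4) ∞ (ts σ) z :=
  ContMDiffAt.comp (g := σ) (f := E) z (h.smooth _) E.contDiff.contDiffAt.contMDiffAt

theorem dmap_ts (h : EmbT σ) (z v : ℂ) : dmap (ts σ) z v = dmap σ (E z) (E v) :=
  dmap_comp' (σ := σ) (τ := E) (h.smooth _) (E.hasFDerivAt) v

theorem pb_ts (h : EmbT σ) (b : F2 E4 M) (z : ℂ) : pb (ts σ) b z =
    at2 b (σ (E z)) (dmap σ (E z) (EuclideanSpace.single 0 1))
      (dmap σ (E z) (EuclideanSpace.single 1 1)) := by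
  unfold pb
  rw [dmap_ts h, dmap_ts h, E_1, E_I]
  rfl

theorem ts_per (h : EmbT σ) (z : ℂ) (m n : ℤ) : ts σ (z + m + n * Complex.I) = ts σ z := by
  unfold ts
  rw [← h.per (E z) ![m, n]]
  congr 1
  rw [E_apply, E_apply]
  ext i
  fin_cases i <;> simp

theorem ts_inj (h : EmbT σ) {z w : ℂ} (hzw : ts σ z = ts σ w) :
    ∃ m n : ℤ, w = z + m + n * Complex.I := by
  obtain ⟨k, hk⟩ := h.inj _ _ hzw
  refine ⟨k 0, k 1, ?_⟩
  have h0 := congrFun (congrArg WithLp.ofLp hk) 0
  have h1 := congrFun (congrArg WithLp.ofLp hk) 1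
  have e0 : w.re = z.re + k 0 := by
    rw [← E_zero, ← E_zero]; exact h0
  have e1 : w.im = z.im + k 1 := by
    rw [← E_one, ← E_one]; exact h1
  apply Complex.ext
  · rw [e0]; simp
  · rw [e1]; simp

theorem pb_ts_per (h : EmbT σ) (b : F2 E4 M) (z : ℂ) (m n : ℤ) :
    pb (ts σ) b (z + m + n * Complex.I) = pb (ts σ) b z := by
  have e1 : pb (fun w => ts σ (w + m + n * Complex.I)) b z = pb (ts σ) b z := by
    have : (fun w => ts σ (w + m + n * Complex.I)) = ts σ := funext fun w => ts_per h w m n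
    rw [this]
  rw [← e1]
  have hd : HasDerivAt (fun w : ℂ => w + m + n * Complex.I) 1 z :=
    ((hasDerivAt_id z).add_const _).add_const _
  -- only alternation is not needed: direct chain rule
  have h1 : ∀ v : ℂ, dmap (fun w => ts σ (w + m + n * Complex.I)) z v =
      dmap (ts σ) (z + m + n * Complex.I) v := by
    intro v
    rw [dmap_comp' (σ := ts σ) (τ := fun w : ℂ => w + m + n * Complex.I) (ts_smooth h _)
      (hasFDerivAt_lam hd), lam_mul, mul_one]
  unfold pb
  rw [h1, h1]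

theorem pb_ts_cont (h : EmbT σ) {b : F2 E4 M} (hb : Smooth2 b) : Continuous (pb (ts σ) b) := by
  rw [← continuousOn_univ]
  exact (contDiffOn_pb isOpen_univ (fun z _ => (ts_smooth h z).contMDiffWithinAt) hb).continuousOn

/-- the integral over the torus is the integral over any unit square. -/
theorem torI_sq (h : EmbT σ) {b : F2 E4 M} (hb : Smooth2 b) (x y : ℝ) :
    torI σ b = ∫ z in Qop x y, pb (ts σ) b z := by
  have hper1 : ∀ z, pb (ts σ) b (z + 1) = pb (ts σ) b z := fun z => by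
    have := pb_ts_per h b z 1 0
    simpa using this
  have hperI : ∀ z, pb (ts σ) b (z + Complex.I) = pb (ts σ) b z := fun z => by
    have := pb_ts_per h b z 0 1
    simpa using this
  rw [setIntegral_congr_set (Qop_ae x y), int_shift (pb_ts_cont h hb) hper1 hperI x y 0 0]
  have h3 := Complex.volume_preserving_equiv_pi.setIntegral_preimage_emb
    Complex.measurableEquivPi.measurableEmbedding
    (fun y : Fin 2 → ℝ => at2 b (σ (WithLp.toLp 2 y))
      (dmap σ (WithLp.toLp 2 y) (EuclideanSpace.single 0 1))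
      (dmap σ (WithLp.toLp 2 y) (EuclideanSpace.single 1 1)))
    (Set.pi univ (fun _ => Icc (0 : ℝ) 1))
  have h4 : torI σ b = ∫ z in Complex.measurableEquivPi ⁻¹' (Set.pi univ (fun _ => Icc (0 : ℝ) 1)),
      pb (ts σ) b z := by
    unfold torI
    rw [← h3]
    refine setIntegral_congr_fun
      (Complex.measurableEquivPi.measurable (MeasurableSet.univ_pi fun _ => measurableSet_Icc)) ?_
    intro z _
    show _ = pb (ts σ) b z
    rw [pb_ts h, E_apply]
    rfl
  rw [h4]
  refine setIntegral_congr_set ?_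
  have h1 := (Measure.univ_pi_Ioc_ae_eq_Icc (μ := fun _ : Fin 2 => (volume : Measure ℝ))
    (f := fun _ => 0) (g := fun _ => 1)).symm
  rw [← Set.pi_univ_Icc] at h1
  have h2 := Complex.volume_preserving_equiv_pi.quasiMeasurePreserving.preimage_ae_eq h1
  have hQ2 : Complex.measurableEquivPi ⁻¹'
      (Set.pi univ (fun i : Fin 2 => Ioc (0 : ℝ) 1)) = Qc 0 0 := by
    ext z
    simp [Qc, Set.mem_pi, Fin.forall_fin_two]
  rw [hQ2] at h2
  exact h2

/-- the current of the torus. -/
def torL (σ : Ep → M) (h : EmbT σ) : X2 M →ₗ[ℝ] ℝ where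
  toFun b := torI σ (b.1 : F2 E4 M)
  map_add' b c := by
    have hint : ∀ b : X2 M, IntegrableOn (pb (ts σ) (b.1 : F2 E4 M)) (Qop 0 0) := by
      intro b
      have hQb : Qop 0 0 ⊆ closedBall (0 : ℂ) 2 := by
        intro z hz
        rw [mem_closedBall_zero_iff]
        have h1 := hz.1.1
        have h2 := hz.1.2
        have h3 := hz.2.1
        have h4 := hz.2.2
        calc ‖z‖ ≤ |z.re| + |z.im| := Complex.norm_le_abs_re_add_abs_im z
          _ ≤ 1 + 1 := add_le_add (abs_le.2 ⟨by linarith, by linarith⟩)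
              (abs_le.2 ⟨by linarith, by linarith⟩)
          _ = 2 := by norm_num
      exact ((pb_ts_cont h b.2).continuousOn.integrableOn_compact
        (isCompact_closedBall 0 2)).mono_set hQb
    rw [torI_sq h (b + c).2 0 0, torI_sq h b.2 0 0, torI_sq h c.2 0 0,
      ← integral_add (hint b) (hint c)]
    rfl
  map_smul' r b := by
    rw [torI_sq h (r • b).2 0 0, torI_sq h b.2 0 0, RingHom.id_apply, smul_eq_mul,
      ← integral_const_mul]
    rfl

end Tor

section Closed

variable {M : Type u} [TopologicalSpace M] [T2Space M] [CompactSpace M]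
  [ChartedSpace E4 M] [IsManifold 𝓘(ℝ, E4) ∞ M]

variable {σ : Ep → M} {w : Trip M} {J : EndF E4 M} {e : H2 M}

theorem imm_ts (h : EmbT σ) (z v : ℂ) (hv : dmap (ts σ) z v = 0) : v = 0 := by
  rw [dmap_ts h] at hv
  exact (map_eq_zero_iff E E.injective).1 (h.imm _ _ hv)

/-- the frame `X, Y = α X + β J X`. -/
theorem frame (hw : Pos3 w) (hJ : IsJ w J) (h : JTor w σ e) (z : ℂ) :
    ∃ α β : ℝ, β ≠ 0 ∧ dmap (ts σ) z Complex.I =
      α • dmap (ts σ) z 1 + β • atJ J (ts σ z) (dmap (ts σ) z 1) := by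
  have hX : dmap (ts σ) z 1 ≠ 0 := fun h0 => one_ne_zero (imm_ts h.emb z 1 h0)
  have h1 : val (w 1) (ts σ z) (dmap (ts σ) z 1) (dmap (ts σ) z Complex.I) = 0 := by
    rw [dmap_ts h.emb, dmap_ts h.emb]; exact h.lag1 _ _ _
  have h2 : val (w 2) (ts σ z) (dmap (ts σ) z 1) (dmap (ts σ) z Complex.I) = 0 := by
    rw [dmap_ts h.emb, dmap_ts h.emb]; exact h.lag2 _ _ _
  obtain ⟨α, β, hab⟩ := Lag_61.lag_trip hw hJ (ts σ z) hX h1 h2
  refine ⟨α, β, ?_, hab⟩
  intro hβ
  rw [hβ, zero_smul, add_zero] at hab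
  have h3 : dmap (ts σ) z (Complex.I - (α : ℂ)) = 0 := by
    have e1 : Complex.I - (α : ℂ) = Complex.I + (-α) • (1 : ℂ) := by
      rw [Complex.real_smul]; push_cast; ring
    rw [e1, dmap_add, dmap_smul, hab, neg_smul, add_neg_cancel]
  have h4 := imm_ts h.emb _ _ h3
  have := congrArg Complex.im h4
  simp at this

theorem jinv_ts (hw : Pos3 w) (hJ : IsJ w J) (h : JTor w σ e) (z v : ℂ) :
    ∃ v', dmap (ts σ) z v' = atJ J (ts σ z) (dmap (ts σ) z v) := by
  obtain ⟨α, β, hβ, hab⟩ := frame hw hJ h z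
  set X := dmap (ts σ) z 1 with hX
  -- `J X = β⁻¹ (Y - α X)`
  have hJX : atJ J (ts σ z) X = dmap (ts σ) z ((β⁻¹ : ℝ) • (Complex.I + (-α) • (1 : ℂ))) := by
    rw [dmap_smul, dmap_add, dmap_smul, hab, ← hX]
    have : α • X + β • atJ J (ts σ z) X + -α • X = β • atJ J (ts σ z) X := by module
    rw [this, smul_smul, inv_mul_cancel₀ hβ, one_smul]
  have hJY : atJ J (ts σ z) (dmap (ts σ) z Complex.I) =
      dmap (ts σ) z (α • ((β⁻¹ : ℝ) • (Complex.I + (-α) • (1 : ℂ))) + (-β) • (1 : ℂ)) := by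
    rw [hab, map_add, map_smul, map_smul, hJ.sq, dmap_add, dmap_smul (ts σ) z α, ← hJX,
      dmap_smul (ts σ) z (-β), ← hX]
    module
  refine ⟨v.re • ((β⁻¹ : ℝ) • (Complex.I + (-α) • (1 : ℂ))) +
    v.im • (α • ((β⁻¹ : ℝ) • (Complex.I + (-α) • (1 : ℂ))) + (-β) • (1 : ℂ)), ?_⟩
  rw [dmap_add, dmap_smul, dmap_smul _ _ v.im, ← hJX, ← hJY, ← map_smul, ← map_smul, ← map_add,
    hX, ← dmap_smul, ← dmap_smul, ← dmap_add]
  congr 2
  apply Complex.ext <;> simp

/-- orientation. -/
theorem pos_ts (hw : Pos3 w) (hJ : IsJ w J) (h : JTor w σ e) (z : ℂ) :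
    0 < pb (ts σ) ((w 0).1.1 : F2 E4 M) z := by
  have hc := pb_ts_cont h.emb (w 0).1.2
  have hne : ∀ z, pb (ts σ) ((w 0).1.1 : F2 E4 M) z ≠ 0 := by
    intro z
    obtain ⟨α, β, hβ, hab⟩ := frame hw hJ h z
    have hX : dmap (ts σ) z 1 ≠ 0 := fun h0 => one_ne_zero (imm_ts h.emb z 1 h0)
    have ht := hJ.tame (ts σ z) _ hX
    have : pb (ts σ) ((w 0).1.1 : F2 E4 M) z =
        β * val (w 0) (ts σ z) (dmap (ts σ) z 1) (atJ J (ts σ z) (dmap (ts σ) z 1)) := by
      unfold pb
      rw [hab, map_add, map_smul, map_smul]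
      have h0 : at2 ((w 0).1.1 : F2 E4 M) (ts σ z) (dmap (ts σ) z 1) (dmap (ts σ) z 1) = 0 :=
        (w 0).1.2.1 _ _
      rw [h0, smul_zero, zero_add]
      rfl
    rw [this]
    exact mul_ne_zero hβ ht.ne'
  by_contra hneg
  have hneg' : pb (ts σ) ((w 0).1.1 : F2 E4 M) z < 0 := lt_of_le_of_ne (not_lt.1 hneg) (hne z)
  have hall : ∀ z', pb (ts σ) ((w 0).1.1 : F2 E4 M) z' < 0 := by
    intro z'
    by_contra h1
    have h2 : 0 ≤ pb (ts σ) ((w 0).1.1 : F2 E4 M) z' := not_lt.1 h1
    have hmem : (0 : ℝ) ∈ Set.range (pb (ts σ) ((w 0).1.1 : F2 E4 M)) := by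
      have := isPreconnected_univ.intermediate_value (mem_univ z) (mem_univ z') hc.continuousOn
      have h3 := this ⟨hneg'.le, h2⟩
      rwa [image_univ] at h3
    obtain ⟨z'', hz''⟩ := hmem
    exact hne z'' hz''
  have hp := h.pos
  rw [← h.rep, torI_sq h.emb (w 0).1.2 0 0] at hp
  have hle : ∫ z in Qop 0 0, pb (ts σ) ((w 0).1.1 : F2 E4 M) z ≤ 0 :=
    integral_nonpos fun z => (hall z).le
  exact absurd hp (not_lt.2 hle)

theorem Qop_open (a b : ℝ) : IsOpen (Qop a b) :=
  (isOpen_Ioo.preimage Complex.continuous_re).inter (isOpen_Ioo.preimage Complex.continuous_im)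

theorem injOn_ts (h : EmbT σ) (a b : ℝ) : InjOn (ts σ) (Qop a b) := by
  intro z hz z' hz' hzz
  obtain ⟨m, n, hmn⟩ := ts_inj h hzz
  have e0 : z'.re = z.re + m := by rw [hmn]; simp
  have e1 : z'.im = z.im + n := by rw [hmn]; simp
  have hm : m = 0 := by
    have f1 : (m : ℝ) < 1 := by linarith [hz.1.1, hz'.1.2]
    have f2 : (-1 : ℝ) < m := by linarith [hz.1.2, hz'.1.1]
    have f3 : m < 1 := by exact_mod_cast f1
    have f4 : -1 < m := by exact_mod_cast f2
    omega
  have hn : n = 0 := by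
    have f1 : (n : ℝ) < 1 := by linarith [hz.2.1, hz'.2.2]
    have f2 : (-1 : ℝ) < n := by linarith [hz.2.2, hz'.2.1]
    have f3 : n < 1 := by exact_mod_cast f1
    have f4 : -1 < n := by exact_mod_cast f2
    omega
  rw [hmn, hm, hn]; simp

/-- `range σ` is the image of the closed unit square. -/
theorem range_eq (h : EmbT σ) (R : Set ℂ) (hR : ∀ z, ∀ m n : ℤ, z ∈ R → z + m + n * Complex.I ∈ R) :
    ts σ '' R = ts σ '' (R ∩ {z | z.re ∈ Icc (0 : ℝ) 1 ∧ z.im ∈ Icc (0 : ℝ) 1}) := by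
  refine Subset.antisymm ?_ (image_mono inter_subset_left)
  rintro _ ⟨z, hz, rfl⟩
  refine ⟨z + (-⌊z.re⌋ : ℤ) + (-⌊z.im⌋ : ℤ) * Complex.I, ⟨hR z _ _ hz, ?_⟩, ts_per h z _ _⟩
  have h1 := Int.fract_nonneg z.re
  have h2 := (Int.fract_lt_one z.re).le
  have h3 := Int.fract_nonneg z.im
  have h4 := (Int.fract_lt_one z.im).le
  simp only [Int.fract] at h1 h2 h3 h4
  constructor
  · constructor <;> simp <;> linarith
  · constructor <;> simp <;> linarith

theorem isCompact_square : IsCompact {z : ℂ | z.re ∈ Icc (0 : ℝ) 1 ∧ z.im ∈ Icc (0 : ℝ) 1} := by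
  refine (isCompact_closedBall (0 : ℂ) 2).of_isClosed_subset ?_ ?_
  · exact (isClosed_Icc.preimage Complex.continuous_re).inter
      (isClosed_Icc.preimage Complex.continuous_im)
  · rintro z ⟨h1, h2⟩
    rw [mem_closedBall_zero_iff]
    calc ‖z‖ ≤ |z.re| + |z.im| := Complex.norm_le_abs_re_add_abs_im z
      _ ≤ 1 + 1 := add_le_add (abs_le.2 ⟨by linarith [h1.1], h1.2⟩)
          (abs_le.2 ⟨by linarith [h2.1], h2.2⟩)
      _ = 2 := by norm_num

theorem range_ts (σ : Ep → M) : range (ts σ) = range σ := by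
  unfold ts
  exact E.surjective.range_comp σ

theorem isClosed_range (h : EmbT σ) : IsClosed (range σ) := by
  have hc : Continuous (ts σ) := continuous_iff_continuousAt.2 fun z => (ts_smooth h z).continuousAt
  rw [← range_ts σ, ← image_univ, range_eq h univ (fun _ _ _ _ => mem_univ _), univ_inter]
  exact (isCompact_square.image hc).isClosed

theorem op_ts (h : EmbT σ) {O : Set ℂ} (hO : IsOpen O) :
    ∃ U, IsOpen U ∧ range σ ∩ U = ts σ '' O := by
  have hc : Continuous (ts σ) := continuous_iff_continuousAt.2 fun z => (ts_smooth h z).continuousAt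
  -- the saturated open set
  set O' : Set ℂ := {z | ∃ m n : ℤ, z + m + n * Complex.I ∈ O} with hO'
  have hO'o : IsOpen O' := by
    have : O' = ⋃ m : ℤ, ⋃ n : ℤ, (fun z : ℂ => z + m + n * Complex.I) ⁻¹' O := by
      ext z; simp [hO']
    rw [this]
    exact isOpen_iUnion fun m => isOpen_iUnion fun n => hO.preimage (by fun_prop)
  have hsat : ∀ z, ∀ m n : ℤ, z ∈ O'ᶜ → z + m + n * Complex.I ∈ O'ᶜ := by
    intro z m n hz hz'
    obtain ⟨m', n', h1⟩ := hz'
    apply hz
    refine ⟨m + m', n + n', ?_⟩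
    convert h1 using 1
    push_cast
    ring
  have hcl : IsClosed (ts σ '' O'ᶜ) := by
    rw [range_eq h _ hsat]
    exact ((isCompact_square.inter_left hO'o.isClosed_compl).image hc).isClosed
  refine ⟨(ts σ '' O'ᶜ)ᶜ, hcl.isOpen_compl, ?_⟩
  ext x
  constructor
  · rintro ⟨hx1, hx2⟩
    rw [← range_ts] at hx1
    obtain ⟨z, rfl⟩ := hx1
    have hz : z ∈ O' := by
      by_contra hz
      exact hx2 ⟨z, hz, rfl⟩
    obtain ⟨m, n, hmn⟩ := hz
    exact ⟨_, hmn, ts_per h z m n⟩
  · rintro ⟨z, hz, rfl⟩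
    refine ⟨by rw [← range_ts]; exact ⟨z, rfl⟩, ?_⟩
    rintro ⟨z', hz', hzz⟩
    obtain ⟨m, n, hmn⟩ := ts_inj h hzz
    apply hz'
    refine ⟨m, n, ?_⟩
    rw [← hmn]; exact hz

/-- **the patch of an embedded `J`-torus.** -/
def patch (hw : Pos3 w) (hJ : IsJ w J) (h : JTor w σ e) (z0 : ℂ) :
    Patch J ((w 0).1.1 : F2 E4 M) (range σ) (torL σ h.emb) (ts σ z0) where
  s := ts σ
  D := Qop (z0.re - 1 / 2) (z0.im - 1 / 2)
  openD := Qop_open _ _
  z0 := z0
  mem := ⟨⟨by linarith, by linarith⟩, ⟨by linarith, by linarith⟩⟩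
  val := rfl
  smooth := fun z _ => (ts_smooth h.emb z).contMDiffWithinAt
  inj := injOn_ts h.emb _ _
  imm := fun z _ v hv => imm_ts h.emb z v hv
  jinv := fun z _ v => jinv_ts hw hJ h z v
  op := fun _ _ hO => op_ts h.emb hO
  pos := fun z _ => pos_ts hw hJ h z
  cur := fun b => torI_sq h.emb b.2 _ _

/-- **local forms of an embedded `J`-torus.** -/
theorem loc_tor (hB : BelStmt) (hR : RegStmt) (hw : Pos3 w) (hJ : IsJ w J) (h : JTor w σ e)
    (p : M) : ∃ L : LocForm J (range σ) p, L.Cur (torL σ h.emb) := by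
  by_cases hp : p ∈ range σ
  · rw [← range_ts] at hp
    obtain ⟨z0, rfl⟩ := hp
    exact loc_form hB hR hJ.smooth hJ.sq (w 0).1.2 (fun x v hv => hJ.tame x v hv)
      (patch hw hJ h z0)
  · let L : LocForm J (range σ) p :=
      { U := (range σ)ᶜ
        openU := (isClosed_range h.emb).isOpen_compl
        mem := hp
        n := 0
        u := fun _ _ => p
        disc := fun j => j.elim0
        centre := fun j => j.elim0
        disj := fun j => j.elim0
        supp := by simp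
        proper := fun j => j.elim0 }
    refine ⟨L, ?_⟩
    intro b K hK hKU hb
    show torI σ (b.1 : F2 E4 M) = ∑ j : Fin 0, _
    rw [Finset.univ_eq_empty, Finset.sum_empty, torI_sq h.emb b.2 0 0]
    refine integral_eq_zero_of_ae (Filter.Eventually.of_forall fun z => ?_)
    have h2 : ts σ z ∉ K := fun hz => hKU hz ⟨E z, rfl⟩
    show pb (ts σ) (b.1 : F2 E4 M) z = 0
    unfold pb
    rw [hb _ h2]
    rfl

end Closed

end

end Crest.Agent.R235.TorPatch_61
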