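import Crest.Agent.R235.FlatDef_607
import Mathlib
import Crest.Agent.R235.CurGeo1_679_Mg
import Crest.Agent.R235.CurGeo3_52
import Crest.Agent.R235.CurLin4_253_Mg
import Crest.Agent.R235.LimtD_225
import Crest.Agent.R235.GrowthU_4
import Crest.Agent.R235.TorPatch_61
import Crest.Agent.R235.LimtA_225
import Crest.Agent.R235.Pull_129
import Crest.Agent.R235.Ip_288
import Crest.Agent.R240.IntBall

-- ▼ part R235/FlatLow_400
section

/-!
Row 235 (S0364), PACKAGE REG, block FLATW, leaf FLAT-10 (task 388), helper400: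
lower bound of the mass on the support, `MON → GEO1 → LOWM`.
-/

set_option autoImplicit false
set_option maxSynthPendingDepth 3

open Set Function Filter MeasureTheory Metric
open scoped ContDiff ENNReal Manifold Topology

namespace Crest.Agent.R235.FlatLow_400

open Crest.Agent.R240 Crest.Agent.R240.En Crest.Agent.R240.Pot
open Crest.Agent.R235.CurDefs_132 Crest.Agent.R235.Flat

noncomputable section

/-- a cut-off profile. -/
def K0 (t : ℝ) : ℝ := Real.smoothTransition (2 - t)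

theorem cut_K0 : Cut 1 K0 where
  smooth := (Real.smoothTransition.contDiff (n := (⊤ : ℕ∞))).comp (by fun_prop)
  anti := fun a b h => Real.smoothTransition.monotone (by linarith)
  one := fun t h => Real.smoothTransition.one_of_one_le (by linarith)
  zero := fun t h => Real.smoothTransition.zero_of_nonpos (by linarith)

theorem K0_nonneg (t : ℝ) : 0 ≤ K0 t := Real.smoothTransition.nonneg _
theorem K0_le_one (t : ℝ) : K0 t ≤ 1 := Real.smoothTransition.le_one _

theorem continuous_K0 : Continuous K0 := cut_K0.smooth.continuous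

variable (D : LC)


theorem cont_right {f : E4 → E4 → ℝ} (h : Continuous fun z : E4 × E4 => f z.1 z.2) (x : E4) :
    Continuous fun y => f x y :=
  h.comp (continuous_const.prodMk continuous_id : Continuous fun y : E4 => (x, y))

theorem cont_rho2 (hG : GEO1) (x : E4) : Continuous fun y => D.rho2 x y :=
  cont_right (f := D.rho2) (hG D).1.continuous x

theorem integrable_K (hG : GEO1) (x : E4) (r : ℝ) :
    Integrable (fun y => K0 (D.rho2 x y / r ^ 2)) D.s := by
  have := D.fin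
  refine Integrable.of_bound (C := 1) ?_ ?_
  · exact (continuous_K0.comp ((cont_rho2 D hG x).div_const _)).aestronglyMeasurable
  · refine Eventually.of_forall fun y => ?_
    rw [Real.norm_of_nonneg (K0_nonneg _)]
    exact K0_le_one _


/-- upper bound of the mollified ratio. -/
theorem nuR_le (hG : GEO1) (x : E4) {r c : ℝ} (hr : 0 < r) (hc : 0 < c)
    (hcm : D.m * c ^ 2 = 2) :
    D.nuR K0 r x ≤ (r ^ 2)⁻¹ * D.s.real (ball x (c * r)) := by
  have := D.fin
  have hm := (D.bd x).m_pos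
  unfold LC.nuR
  refine mul_le_mul_of_nonneg_left ?_ (by positivity)
  have h1 : D.s.real (ball x (c * r)) =
      ∫ y, indicator (ball x (c * r)) (fun _ => (1 : ℝ)) y ∂D.s := by
    rw [integral_indicator measurableSet_ball]
    simp
  rw [h1]
  refine integral_mono (integrable_K D hG x r)
    ((integrable_const 1).indicator measurableSet_ball) ?_
  intro y
  by_cases hy : y ∈ ball x (c * r)
  · rw [indicator_of_mem hy]
    exact K0_le_one _
  · rw [indicator_of_notMem hy]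
    have h2 : c * r ≤ ‖y - x‖ := by
      rw [mem_ball, dist_eq_norm, not_lt] at hy
      exact hy
    have h3 := ((hG D).2.1 x y).1
    have h4 : 2 * r ^ 2 ≤ D.rho2 x y := by
      calc 2 * r ^ 2 = D.m * (c * r) ^ 2 := by rw [mul_pow, ← mul_assoc, hcm]
        _ ≤ D.m * ‖y - x‖ ^ 2 := by gcongr
        _ ≤ _ := h3
    have h5 : K0 (D.rho2 x y / r ^ 2) = 0 := by
      refine cut_K0.zero _ ?_
      rw [le_div_iff₀ (by positivity)]
      linarith
    show K0 (D.rho2 x y / r ^ 2) ≤ 0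
    rw [h5]



end

end Crest.Agent.R235.FlatLow_400
end

-- ▼ part R235/LimtU_225
section

/-!
Row 235 (S0364), package TOR / SWC, helper225: node LIMT, part U.
Lower bound of the mass of small balls with constants depending only on the geometry and on the
growth constant.
-/

set_option autoImplicit false
set_option maxSynthPendingDepth 3

open Set Function Filter MeasureTheory Metric
open scoped ContDiff ENNReal Manifold Topology

namespace Crest.Agent.R235.LimtU_225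

open Crest.Agent.R240 Crest.Agent.R240.En Crest.Agent.R240.Pot
open Crest.Agent.R235.CurDefs_132 Crest.Agent.R235.FlatLow_400 Crest.Agent.R235.CurMon_956

noncomputable section

variable (D : LC)

/-- lower bound of the mollified ratio by the mass of a ball. -/
theorem nuR_ge_ball (hG : GEO1) (x : E4) {r ρ : ℝ} (hr : 0 < r) (hρ : D.M * ρ ^ 2 = r ^ 2) :
    (r ^ 2)⁻¹ * D.s.real (ball x ρ) ≤ D.nuR K0 r x := by
  have := D.fin
  have hM := (D.bd x).M_pos
  unfold LC.nuR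
  refine mul_le_mul_of_nonneg_left ?_ (by positivity)
  have h1 : D.s.real (ball x ρ) = ∫ y, indicator (ball x ρ) (fun _ => (1 : ℝ)) y ∂D.s := by
    rw [integral_indicator measurableSet_ball]
    simp
  rw [h1]
  refine integral_mono ((integrable_const 1).indicator measurableSet_ball)
    (integrable_K D hG x r) ?_
  intro y
  by_cases hy : y ∈ ball x ρ
  · rw [indicator_of_mem hy]
    have hy' : ‖y - x‖ < ρ := by rwa [mem_ball, dist_eq_norm] at hy
    have h3 := ((hG D).2.1 x y).2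
    have h4 : D.rho2 x y ≤ r ^ 2 := by
      have h5 : ‖y - x‖ ^ 2 ≤ ρ ^ 2 := by
        have := norm_nonneg (y - x)
        gcongr
      calc D.rho2 x y ≤ D.M * ‖y - x‖ ^ 2 := h3
        _ ≤ D.M * ρ ^ 2 := by gcongr
        _ = r ^ 2 := hρ
    have h8 : K0 (D.rho2 x y / r ^ 2) = 1 := by
      refine cut_K0.one _ ?_
      rw [div_le_one (by positivity)]
      exact h4
    show (1 : ℝ) ≤ K0 (D.rho2 x y / r ^ 2)
    rw [h8]
  · rw [indicator_of_notMem hy]
    exact K0_nonneg _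

/-- **uniform lower bound.** -/
theorem low_u (h0 : MON0) (m M L R Cg c0 : ℝ) (hm : 0 < m) (hM : 0 < M) (hR : 0 < R)
    (hc0 : 0 < c0) :
    ∃ κ r2 : ℝ, 0 < κ ∧ 0 < r2 ∧ ∀ D : LC, D.m = m → D.M = M → D.L = L → D.R = R → D.C = Cg →
      ∀ x ∈ ball D.x0 (3 * D.R), (∀ᶠ r in 𝓝[>] (0 : ℝ), c0 * r ^ 2 ≤ D.s.real (ball x r)) →
      ∀ r, 0 < r → r ≤ r2 → κ * r ^ 2 ≤ D.s.real (ball x r) := by
  have hG : GEO1 := CurGeo1_679.geo1
  obtain ⟨C0, c', hC0, hc', hprof⟩ := h0 1 K0 one_pos le_rfl cut_K0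
  set C3 : ℝ := CurGeo3_52.c3 m M L with hC3
  set C7 : ℝ := |c7 m M Cg R C0 c' C3| with hC7
  have hC7n : 0 ≤ C7 := abs_nonneg _
  have hrr1 : 0 < rr1 m M R := by
    unfold rr1 rr0
    positivity
  set a : ℝ := c0 / M with ha
  have ha0 : 0 < a := by positivity
  set c : ℝ := √(2 / m) with hc
  have hcp : 0 < c := Real.sqrt_pos.2 (by positivity)
  have hc2 : m * c ^ 2 = 2 := by
    rw [hc, Real.sq_sqrt (by positivity)]
    field_simp
  set r2 : ℝ := min (rr1 m M R) (a / (2 * (C7 + 1))) with hr2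
  have hr20 : 0 < r2 := lt_min hrr1 (by positivity)
  refine ⟨a / 2 / c ^ 2, c * r2, by positivity, by positivity, ?_⟩
  rintro D rfl rfl rfl rfl rfl x hx hev r hr hrr
  have := D.fin
  have hprofD : Prof K0 C0 c' := hprof
  have hmon := mon_u hG CurLin1_785.lin1' CurLin4_253.LIN4_proof D le_rfl cut_K0 hC0
    (CurGeo3_52.c3_nonneg D) hc' hprofD (fun x y h => CurGeo3_52.geo3_u D x y h)
  obtain ⟨h70, -, hmono, -, -⟩ := hmon
  set t : ℝ := r / c with ht
  have ht0 : 0 < t := by positivity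
  have htr : t ≤ r2 := by
    rw [ht, div_le_iff₀ hcp]
    linarith
  have hrt : r = c * t := by
    rw [ht]
    field_simp
  -- small radii
  set k : ℝ := √(1 / D.M) with hk
  have hk0 : 0 < k := Real.sqrt_pos.2 (by positivity)
  have hk2 : D.M * k ^ 2 = 1 := by
    rw [hk, Real.sq_sqrt (by positivity)]
    field_simp
  have h2 : Tendsto (fun r : ℝ => k * r) (𝓝[>] 0) (𝓝[>] 0) := by
    refine tendsto_nhdsWithin_iff.2 ⟨?_, ?_⟩
    · have : Tendsto (fun r : ℝ => k * r) (𝓝 0) (𝓝 (k * 0)) :=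
        (continuous_const.mul continuous_id).tendsto 0
      rw [mul_zero] at this
      exact this.mono_left nhdsWithin_le_nhds
    · filter_upwards [self_mem_nhdsWithin] with r hr
      exact mul_pos hk0 hr
  have h3 : ∀ᶠ u in 𝓝[>] (0 : ℝ), u < t :=
    mem_nhdsWithin_of_mem_nhds (Iio_mem_nhds ht0)
  obtain ⟨u, hu1, hu2, hu0⟩ := ((h2.eventually hev).and (h3.and self_mem_nhdsWithin)).exists
  have hu0' : 0 < u := hu0
  have h4 : a ≤ D.nuR K0 u x := by
    refine le_trans ?_ (nuR_ge_ball D hG x hu0' (ρ := k * u) (by rw [mul_pow, ← mul_assoc, hk2, one_mul]))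
    have h5 : a = (u ^ 2)⁻¹ * (c0 * (k * u) ^ 2) := by
      have h6 : k ^ 2 = 1 / D.M := by
        field_simp
        linarith
      rw [mul_pow, h6, ha]
      field_simp
    rw [h5]
    exact mul_le_mul_of_nonneg_left hu1 (by positivity)
  have h5 := hmono x hx u t hu0' hu2 (htr.trans (min_le_left _ _))
  have h6 : c7 D.m D.M D.C D.R C0 c' C3 * t ≤ a / 2 := by
    have h7 : t ≤ a / (2 * (C7 + 1)) := htr.trans (min_le_right _ _)
    rw [le_div_iff₀ (by positivity)] at h7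
    have h8 : c7 D.m D.M D.C D.R C0 c' C3 ≤ C7 := le_abs_self _
    nlinarith
  have h7 : a / 2 ≤ D.nuR K0 t x := by
    have e : CurGeo3_52.c3 D.m D.M D.L = C3 := rfl
    rw [e] at h5
    linarith
  have h8 := nuR_le D hG x ht0 hcp hc2
  have h9 : a / 2 ≤ (t ^ 2)⁻¹ * D.s.real (ball x (c * t)) := h7.trans h8
  rw [inv_mul_eq_div, le_div_iff₀ (by positivity)] at h9
  calc a / 2 / c ^ 2 * r ^ 2 = a / 2 * t ^ 2 := by
        rw [hrt]
        field_simp
    _ ≤ D.s.real (ball x (c * t)) := h9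
    _ = D.s.real (ball x r) := by rw [← hrt]

end

end Crest.Agent.R235.LimtU_225
end

-- ▼ part R235/LimtE_225
section

/-!
Row 235 (S0364), package TOR / SWC, helper225: node LIMT, assembly.
`CHLCU, MON0, TORCUR, LB ⇒ LIMT`.
-/

set_option autoImplicit false
set_option maxSynthPendingDepth 3

open Set Function Filter MeasureTheory Metric
open scoped Manifold ContDiff Topology

universe u

namespace Crest.Agent.R235.Limt

open Crest.Agent.R240 Crest.Agent.R240.Ch Crest.Agent.R235 Crest.Agent.R235.Swc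
open Crest.Agent.R235.CurDefs_132

noncomputable section

/-- **CHLCU** (helper4): local data of the currents with geometry independent of the current. -/
def CHLCU : Prop :=
  ∀ (M : Type u) [MetricSpace M] [CompactSpace M] [ConnectedSpace M] [ChartedSpace E4 M]
    [IsManifold 𝓘(ℝ, E4) ∞ M] [MeasurableSpace M] [BorelSpace M] (D : Dat M), D.F = D.al →
    ∀ x : M, ∃ (m K L R : ℝ) (Cf : ℝ → ℝ), 0 < m ∧ 0 < K ∧ 0 < R ∧
      closedBall (chartAt E4 x x) (4 * R) ⊆ (chartAt E4 x).target ∧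
      ∀ (S : X2 M →ₗ[ℝ] ℝ) (s : Measure M), T1_195.Cur D S s → ∀ Cg : ℝ, 0 ≤ Cg →
        (∀ (y : M) (r : ℝ), 0 < r → s.real (ball y r) ≤ Cg * r ^ 2) →
        ∃ E : LC, E.m = m ∧ E.M = K ∧ E.L = L ∧ E.R = R ∧ E.C = Cf Cg ∧
          E.x0 = chartAt E4 x x ∧ ∀ A : Set E4, MeasurableSet A → A ⊆ ball E.x0 (4 * R) →
            E.s A = s ((chartAt E4 x).symm '' A)

/-- **TORCUR** (helper129): the current of a `J`-torus. -/
def TORCUR : Prop :=
  ∀ (M : Type u) [TopologicalSpace M] [T2Space M] [CompactSpace M] [ConnectedSpace M]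
    [ChartedSpace E4 M] [IsManifold 𝓘(ℝ, E4) ∞ M] (w : Trip M) (J : EndF E4 M), Pos3 w → IsJ w J →
    ∀ (f : H2 M) (σ : Ep → M), JTor w σ f →
    ∃ T : X2 M →ₗ[ℝ] ℝ, PCur J T ∧ ∀ b : X2 M, T b = torI σ (b.1 : F2 E4 M)

/-- **LB** (helper129): asymptotic lower bound of the area of small balls, and the support. -/
def LB : Prop :=
  ∀ (M : Type u) [MetricSpace M] [CompactSpace M] [ConnectedSpace M] [ChartedSpace E4 M]
    [IsManifold 𝓘(ℝ, E4) ∞ M] [MeasurableSpace M] [BorelSpace M] (D : Dat M) (w : Trip M),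
    Pos3 w → IsJ w D.J → ∃ k : ℝ, 0 < k ∧ ∀ (f : H2 M) (σ : Ep → M), JTor w σ f →
      ∀ (T : X2 M →ₗ[ℝ] ℝ) (s : Measure M), T1_195.Cur D T s →
      (∀ b : X2 M, T b = torI σ (b.1 : F2 E4 M)) →
      (∀ y : Ep, ∀ᶠ r in 𝓝[>] (0 : ℝ), k * r ^ 2 ≤ s.real (ball (σ y) r)) ∧
        ∀ x : M, Sup s x → x ∈ range σ

section Met

variable {M : Type u} [MetricSpace M] [CompactSpace M] [ConnectedSpace M] [ChartedSpace E4 M]
    [IsManifold 𝓘(ℝ, E4) ∞ M] [MeasurableSpace M] [BorelSpace M]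

/-- the uniform lower bound near a point. -/
theorem near (hC : CHLCU.{u}) (h0 : MON0) (D : Dat M) (hF : D.F = D.al) (x : M) (k Cg : ℝ)
    (hk : 0 < k) (hCg : 0 ≤ Cg) :
    ∃ U : Set M, IsOpen U ∧ x ∈ U ∧ ∃ κ r2 : ℝ, 0 < κ ∧ 0 < r2 ∧
      ∀ (S : X2 M →ₗ[ℝ] ℝ) (s : Measure M), T1_195.Cur D S s →
        (∀ (y : M) (r : ℝ), 0 < r → s.real (ball y r) ≤ Cg * r ^ 2) →
        ∀ y ∈ U, (∀ᶠ r in 𝓝[>] (0 : ℝ), k * r ^ 2 ≤ s.real (ball y r)) →
        ∀ r, 0 < r → r ≤ r2 → κ * r ^ 2 ≤ s.real (ball y r) := by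
  obtain ⟨m, K, L, R, Cf, hm, hK, hR, hsub, hE⟩ := hC M D hF x
  set e := chartAt E4 x with he
  set p : E4 := e x with hp
  have hBt : ball p (4 * R) ⊆ e.target := ball_subset_closedBall.trans hsub
  obtain ⟨c, C, hc, hCp, hbl⟩ := D.bl x (closedBall p (2 * R)) (isCompact_closedBall _ _)
    ((closedBall_subset_closedBall (by linarith)).trans hsub)
  -- the neighbourhoods
  have hopen : ∀ ρ, ρ ≤ 4 * R → IsOpen (e.symm '' ball p ρ) := fun ρ hρ =>
    e.isOpen_image_symm_of_subset_target isOpen_ball ((ball_subset_ball hρ).trans hBt)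
  have hcpt : IsCompact (e.symm '' closedBall p R) := by
    refine (isCompact_closedBall p R).image_of_continuousOn (e.continuousOn_symm.mono ?_)
    exact (closedBall_subset_closedBall (by linarith)).trans hsub
  have hcs : e.symm '' closedBall p R ⊆ e.symm '' ball p (2 * R) :=
    image_mono (closedBall_subset_ball (by linarith))
  obtain ⟨δ, hδ, hδ2⟩ := hcpt.exists_thickening_subset_open (hopen (2 * R) (by linarith)) hcs
  obtain ⟨κ, r2, hκ, hr2, hlow⟩ := LimtU_225.low_u h0 m K L R (Cf Cg) (k * c ^ 2) hm hK hR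
    (by positivity)
  refine ⟨e.symm '' ball p R, hopen R (by linarith), ?_, κ / C ^ 2, C * min r2 R, by positivity,
    mul_pos hCp (lt_min hr2 hR), ?_⟩
  · exact ⟨p, mem_ball_self hR, e.left_inv (mem_chart_source E4 x)⟩
  intro S s hS hgr y hy hev r hr hrr
  have := hS.fin
  obtain ⟨q, hq, rfl⟩ := hy
  obtain ⟨E, hEm, hEK, hEL, hER, hEC, hEx, hEs⟩ := hE S s hS Cg hCg hgr
  have hEfin := E.fin
  have hqR : q ∈ closedBall p R := ball_subset_closedBall hq
  have hq2 : q ∈ closedBall p (2 * R) := closedBall_subset_closedBall (by linarith) hqR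
  -- measures
  have hEs' : ∀ ρ, ρ ≤ 2 * R → E.s.real (ball q ρ) = s.real (e.symm '' ball q ρ) := by
    intro ρ hρ
    have h1 : ball q ρ ⊆ ball E.x0 (4 * R) := by
      intro z hz
      rw [hEx, mem_ball]
      rw [mem_ball] at hz hq
      have := dist_triangle z q p
      linarith
    show (E.s _).toReal = (s _).toReal
    rw [hEs _ measurableSet_ball h1]
  -- asymptotic bound in the chart
  have hasy : ∀ᶠ ρ in 𝓝[>] (0 : ℝ), k * c ^ 2 * ρ ^ 2 ≤ E.s.real (ball q ρ) := by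
    have h2 : Tendsto (fun ρ : ℝ => c * ρ) (𝓝[>] 0) (𝓝[>] 0) := by
      refine tendsto_nhdsWithin_iff.2 ⟨?_, ?_⟩
      · have : Tendsto (fun r : ℝ => c * r) (𝓝 0) (𝓝 (c * 0)) :=
          (continuous_const.mul continuous_id).tendsto 0
        rw [mul_zero] at this
        exact this.mono_left nhdsWithin_le_nhds
      · filter_upwards [self_mem_nhdsWithin] with r hr
        exact mul_pos hc hr
    have h3 : ∀ᶠ ρ in 𝓝[>] (0 : ℝ), ρ < min R (δ / c) :=
      mem_nhdsWithin_of_mem_nhds (Iio_mem_nhds (lt_min hR (by positivity)))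
    filter_upwards [h2.eventually hev, h3, self_mem_nhdsWithin] with ρ h4 h5 h6
    have h6' : 0 < ρ := h6
    have h7 : ρ < R := h5.trans_le (min_le_left _ _)
    have h8 : ρ < δ / c := h5.trans_le (min_le_right _ _)
    rw [hEs' ρ (by linarith)]
    have h9 : ball (e.symm q) (c * ρ) ⊆ e.symm '' ball q ρ := by
      intro z hz
      have h10 : z ∈ e.symm '' ball p (2 * R) := by
        refine hδ2 (mem_thickening_iff.2 ⟨e.symm q, ⟨q, hqR, rfl⟩, ?_⟩)
        rw [mem_ball] at hz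
        rw [lt_div_iff₀ hc] at h8
        linarith
      obtain ⟨z', hz', rfl⟩ := h10
      refine ⟨z', ?_, rfl⟩
      have h11 := (hbl z' (ball_subset_closedBall hz') q hq2).1
      rw [mem_ball] at hz
      rw [mem_ball, dist_eq_norm]
      have h12 : c * ‖z' - q‖ < c * ρ := lt_of_le_of_lt h11 hz
      exact lt_of_mul_lt_mul_left h12 hc.le
    calc k * c ^ 2 * ρ ^ 2 = k * (c * ρ) ^ 2 := by ring
      _ ≤ s.real (ball (e.symm q) (c * ρ)) := h4
      _ ≤ s.real (e.symm '' ball q ρ) := measureReal_mono h9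
  have hxq : q ∈ ball E.x0 (3 * E.R) := by
    rw [hEx, hER]
    exact ball_subset_ball (by linarith) hq
  have h1 := hlow E hEm hEK hEL hER hEC q hxq hasy (r / C) (by positivity) (by
    rw [div_le_iff₀ hCp]
    have := min_le_left r2 R
    calc r ≤ C * min r2 R := hrr
      _ ≤ C * r2 := by gcongr
      _ = r2 * C := mul_comm _ _)
  have hrC : r / C ≤ R := by
    rw [div_le_iff₀ hCp]
    have := min_le_right r2 R
    calc r ≤ C * min r2 R := hrr
      _ ≤ C * R := by gcongr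
      _ = R * C := mul_comm _ _
  rw [hEs' (r / C) (by linarith)] at h1
  have h2 : e.symm '' ball q (r / C) ⊆ ball (e.symm q) r := by
    rintro _ ⟨z, hz, rfl⟩
    have hz2 : z ∈ closedBall p (2 * R) := by
      rw [mem_closedBall]
      rw [mem_ball] at hz hq
      have := dist_triangle z q p
      linarith
    have h3 := (hbl z hz2 q hq2).2
    rw [mem_ball]
    rw [mem_ball, dist_eq_norm, lt_div_iff₀ hCp] at hz
    calc dist (e.symm z) (e.symm q) ≤ C * ‖z - q‖ := h3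
      _ < r := by linarith
  calc κ / C ^ 2 * r ^ 2 = κ * (r / C) ^ 2 := by
        field_simp
    _ ≤ s.real (e.symm '' ball q (r / C)) := h1
    _ ≤ s.real (ball (e.symm q) r) := measureReal_mono h2

/-- the uniform lower bound. -/
theorem unif (hC : CHLCU.{u}) (h0 : MON0) (D : Dat M) (hF : D.F = D.al) (k Cg : ℝ)
    (hk : 0 < k) (hCg : 0 ≤ Cg) :
    ∃ κ r2 : ℝ, 0 < κ ∧ 0 < r2 ∧
      ∀ (S : X2 M →ₗ[ℝ] ℝ) (s : Measure M), T1_195.Cur D S s →
        (∀ (y : M) (r : ℝ), 0 < r → s.real (ball y r) ≤ Cg * r ^ 2) →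
        ∀ y : M, (∀ᶠ r in 𝓝[>] (0 : ℝ), k * r ^ 2 ≤ s.real (ball y r)) →
        ∀ r, 0 < r → r ≤ r2 → κ * r ^ 2 ≤ s.real (ball y r) := by
  choose U hUo hxU κ r2 hκ hr2 h using fun x : M => near hC h0 D hF x k Cg hk hCg
  obtain ⟨t, ht⟩ := isCompact_univ.elim_nhds_subcover U fun x _ => (hUo x).mem_nhds (hxU x)
  obtain ⟨x0⟩ : Nonempty M := inferInstance
  have htne : t.Nonempty := by
    obtain ⟨p, hp, -⟩ := mem_iUnion₂.1 (ht.2 (mem_univ x0))
    exact ⟨p, hp⟩
  refine ⟨t.inf' htne κ, t.inf' htne r2, ?_, ?_, ?_⟩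
  · rw [Finset.lt_inf'_iff]; exact fun p _ => hκ p
  · rw [Finset.lt_inf'_iff]; exact fun p _ => hr2 p
  intro S s hS hg y hy r hr hrr
  obtain ⟨p, hp, hyp⟩ := mem_iUnion₂.1 (ht.2 (mem_univ y))
  have h1 := h p S s hS hg y hyp hy r hr (hrr.trans (Finset.inf'_le _ hp))
  refine le_trans ?_ h1
  have : t.inf' htne κ ≤ κ p := Finset.inf'_le _ hp
  gcongr

end Met

/-- **LIMT.** -/
theorem limt_of (hC : CHLCU.{u}) (h0 : MON0) (hT : TORCUR.{u}) (hB : LB.{u}) : LIMT.{u} := by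
  intro M _ _ _ _ _ _ _ D w hw hJ hal f x hx
  obtain ⟨D', hD'J, hD'F⟩ := exists_closedF D
  have hJ' : IsJ w D'.J := by rw [hD'J]; exact hJ
  obtain ⟨k, hk, hlb⟩ := hB M D' w hw hJ'
  obtain ⟨K, hK, hgrow⟩ := GrowthU_4.growthU D'
  -- the sequence
  obtain ⟨y, hy, hyx⟩ := mem_closure_iff_seq_limit.1 hx
  choose σ hσ hyσ using hy
  choose T hTP hTe using fun n => hT M w D'.J hw hJ' f (σ n) (hσ n)
  have hcur : ∀ n, ∃ s, T1_195.Cur D' (T n) s := fun n => T1_195.exists_cur D'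
    (fun b => (hTP n).inv b (D'.pi' b) fun x => rfl) (fun P hP => (hTP n).nonneg P hP)
    (hTP n).closed
  choose s hs using hcur
  have hcls : ∀ n (b : Z2 M), T n b.1 = ip (w 0) f (cls b) := fun n b => by
    rw [hTe n, (hσ n).rep b]
  -- the mass
  set a : Z2 M := ⟨⟨D'.al, D'.sm_al⟩, D'.cl_al⟩ with ha
  have hmass : ∀ n, (s n).real univ = ip (w 0) f (cls a) := by
    intro n
    have := (hs n).fin
    have h1 : SmoothF E4 (fun _ : M => (1 : ℝ)) := (smoothF_iff _).1 contMDiff_const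
    have h2 := int_eq (hs n) h1
    have h3 : fX D' h1 = a.1 := by
      apply Subtype.ext
      funext x
      show (1 : ℝ) • D'.F x = D'.al x
      rw [one_smul, hD'F]
    rw [h3, hcls n a] at h2
    rw [← h2]
    simp
  have hpos0 : 0 ≤ ip (w 0) f (cls a) := by rw [← hmass 0]; exact measureReal_nonneg
  set Cg : ℝ := K * ip (w 0) f (cls a) with hCg
  have hCg0 : 0 ≤ Cg := mul_nonneg hK.le hpos0
  obtain ⟨κ, r2, hκ, hr2, hun⟩ := unif hC h0 D' hD'F k Cg hk hCg0
  have hg : ∀ n (y : M) (r : ℝ), 0 < r → (s n).real (ball y r) ≤ Cg * r ^ 2 := by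
    intro n y r hr
    have := hgrow (T n) (s n) (hs n) y r hr
    rwa [hmass n] at this
  have hlow : ∀ n x, Sup (s n) x → ∀ r, 0 < r → r ≤ r2 → κ * r ^ 2 ≤ (s n).real (ball x r) := by
    intro n z hz
    obtain ⟨h1, h2⟩ := hlb f (σ n) (hσ n) (T n) (s n) (hs n) (hTe n)
    obtain ⟨q, rfl⟩ := h2 z hz
    exact hun (T n) (s n) (hs n) (hg n) _ (h1 q)
  have hsup : ∀ n, Sup (s n) (y n) := by
    intro n r hr
    obtain ⟨h1, -⟩ := hlb f (σ n) (hσ n) (T n) (s n) (hs n) (hTe n)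
    obtain ⟨q, hq⟩ := hyσ n
    have h2 : ∀ᶠ ρ in 𝓝[>] (0 : ℝ), ρ < r := mem_nhdsWithin_of_mem_nhds (Iio_mem_nhds hr)
    obtain ⟨ρ, h3, h4, h5⟩ := ((h1 q).and (h2.and self_mem_nhdsWithin)).exists
    have h5' : 0 < ρ := h5
    have := (hs n).fin
    rw [hq] at h3
    have h6 : (s n).real (ball (y n) ρ) ≤ (s n).real (ball (y n) r) :=
      measureReal_mono (ball_subset_ball h4.le)
    have h7 : 0 < k * ρ ^ 2 := by positivity
    linarith
  obtain ⟨S, t, hSP, hSt, hlim, hlD, hSx⟩ := lim_low (D := D') hJ' T s hs hTP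
    (ip (w 0) f (cls (w 0))) (fun n => (hcls n (w 0)).le) κ r2 hκ hr2 hlow y hsup x hyx
  have hSP' : PCur D.J S := by rw [← hD'J]; exact hSP
  obtain ⟨s', hs'⟩ := T1_195.exists_cur D (fun b => hSP'.inv b (D.pi' b) fun x => rfl)
    (fun P hP => hSP'.nonneg P hP) hSP'.closed
  refine ⟨S, s', hs', fun b => ?_, lowDens_of hD'J hs' hSt hlD, sup_of hD'J hs' hSt hSx⟩
  have h1 := hlim b.1
  have e : (fun n => T n b.1) = fun _ => ip (w 0) f (cls b) := funext fun n => hcls n b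
  rw [e] at h1
  exact tendsto_nhds_unique h1 tendsto_const_nhds

end

end Crest.Agent.R235.Limt
end

-- ▼ part R235/LimtT_129

/-!
Row 235 (S0364), package TOR / SWC, node LIMT, leaf LIMT-T (helper129).

* `torcur` : a `J`-torus defines a closed positive current;
* `lb`     : uniform lower bound `k r²` of the area of a `J`-torus in small balls centred on it,
             and its support is the torus.
-/

set_option autoImplicit false
set_option maxSynthPendingDepth 3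
set_option linter.unusedSectionVars false

open Set Function Filter MeasureTheory Metric
open scoped Manifold ContDiff Topology

universe u

namespace Crest.Agent.R235.LimtT_129

open Crest.Agent.R240 Crest.Agent.R240.Ch Crest.Agent.R235 Crest.Agent.R235.Glob_370
open Crest.Agent.R235.TorPatch_61 Crest.Agent.R235.Swc Crest.Agent.R235.Pull_129

noncomputable section

section T1

variable {M : Type u} [TopologicalSpace M] [T2Space M] [CompactSpace M]
  [ChartedSpace E4 M] [IsManifold 𝓘(ℝ, E4) ∞ M]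

variable {σ : Ep → M} {w : Trip M} {J : EndF E4 M} {e : H2 M}

/-- an alternating form on the frame `X, αX + βJX`. -/
lemma pb_frame {b : F2 E4 M} (hb : ∀ x, Alt (at2 b x)) {z : ℂ} {α β : ℝ}
    (hab : dmap (ts σ) z Complex.I =
      α • dmap (ts σ) z 1 + β • atJ J (ts σ z) (dmap (ts σ) z 1)) :
    pb (ts σ) b z = β * at2 b (ts σ z) (dmap (ts σ) z 1) (atJ J (ts σ z) (dmap (ts σ) z 1)) := by
  unfold pb
  rw [hab, map_add, map_smul, map_smul, hb (ts σ z) (dmap (ts σ) z 1), smul_zero, zero_add,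
    smul_eq_mul]

/-- the frame, with its orientation. -/
theorem frame_pos (hw : Pos3 w) (hJ : IsJ w J) (h : JTor w σ e) (z : ℂ) :
    ∃ α β : ℝ, 0 < β ∧ dmap (ts σ) z Complex.I =
      α • dmap (ts σ) z 1 + β • atJ J (ts σ z) (dmap (ts σ) z 1) := by
  obtain ⟨α, β, hβ, hab⟩ := frame hw hJ h z
  have hX : dmap (ts σ) z 1 ≠ 0 := fun h0 => one_ne_zero (imm_ts h.emb z 1 h0)
  have h1 := pos_ts hw hJ h z
  rw [pb_frame (J := J) (w 0).1.2.1 hab] at h1
  have h2 : 0 < at2 ((w 0).1.1 : F2 E4 M) (ts σ z) (dmap (ts σ) z 1)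
      (atJ J (ts σ z) (dmap (ts σ) z 1)) := hJ.tame _ _ hX
  exact ⟨α, β, pos_of_mul_pos_left h1 h2.le, hab⟩

/-- **T1**: the current of a `J`-torus. -/
theorem torcur (hw : Pos3 w) (hJ : IsJ w J) (hs : JTor w σ e) :
    ∃ T : X2 M →ₗ[ℝ] ℝ, PCur J T ∧ ∀ b : X2 M, T b = torI σ (b.1 : F2 E4 M) := by
  refine ⟨torL σ hs.emb, ⟨?_, ?_, ?_⟩, fun b => rfl⟩
  · intro b c hbc
    show torI σ (b.1 : F2 E4 M) = torI σ (c.1 : F2 E4 M)
    rw [torI_sq hs.emb b.2 0 0, torI_sq hs.emb c.2 0 0]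
    congr 1
    funext z
    obtain ⟨α, β, -, hab⟩ := frame_pos hw hJ hs z
    rw [pb_frame (J := J) b.2.1 hab, pb_frame (J := J) c.2.1 hab, ← hbc, invp_apply, hJ.sq,
      map_neg]
    have h1 := Alt.swap (b.2.1 (ts σ z)) (atJ J (ts σ z) (dmap (ts σ) z 1)) (dmap (ts σ) z 1)
    rw [h1]
    ring
  · intro b hb
    show 0 ≤ torI σ (b.1 : F2 E4 M)
    rw [torI_sq hs.emb b.2 0 0]
    refine integral_nonneg fun z => ?_
    obtain ⟨α, β, hβ, hab⟩ := frame_pos hw hJ hs z
    show 0 ≤ pb (ts σ) (b.1 : F2 E4 M) z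
    rw [pb_frame (J := J) b.2.1 hab]
    exact mul_nonneg hβ.le ((hb _).nonneg _)
  · intro b hb
    show torI σ (b.1 : F2 E4 M) = 0
    have h1 : cls (⟨b, IsEx.closed2 hb⟩ : Z2 M) = 0 :=
      (Submodule.Quotient.mk_eq_zero (B2 M)).2 hb
    have h2 := hs.rep (⟨b, IsEx.closed2 hb⟩ : Z2 M)
    rw [h1, ip_zero_right (hw.vol 0)] at h2
    exact h2

end T1

/-! ### the area of a sheared box -/

/-- the sheared box. -/
def Pg (z0 : ℂ) (α a b : ℝ) : Set ℂ :=
  {z | |(z - z0).re + α * (z - z0).im| < a ∧ |(z - z0).im| < b}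

lemma Pg_open (z0 : ℂ) (α a b : ℝ) : IsOpen (Pg z0 α a b) := by
  have h1 : Continuous fun z : ℂ => |(z - z0).re + α * (z - z0).im| := by
    have h2 : Continuous fun z : ℂ => (z - z0).re := Complex.continuous_re.comp (by fun_prop)
    have h3 : Continuous fun z : ℂ => (z - z0).im := Complex.continuous_im.comp (by fun_prop)
    exact (h2.add (h3.const_mul α)).abs
  have h4 : Continuous fun z : ℂ => |(z - z0).im| :=
    (Complex.continuous_im.comp (by fun_prop : Continuous fun z : ℂ => z - z0)).abs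
  exact (isOpen_lt h1 continuous_const).inter (isOpen_lt h4 continuous_const)

lemma vol_Pg (z0 : ℂ) (α : ℝ) {a b : ℝ} (ha : 0 < a) (_hb : 0 < b) :
    volume (Pg z0 α a b) = ENNReal.ofReal (4 * a * b) := by
  have h1 := (Complex.volume_preserving_equiv_real_prod.symm).measure_preimage
    (Pg_open z0 α a b).measurableSet.nullMeasurableSet
  rw [← h1]
  have hS : Complex.measurableEquivRealProd.symm ⁻¹' (Pg z0 α a b) =
      {q : ℝ × ℝ | |(q.1 - z0.re) + α * (q.2 - z0.im)| < a ∧ |q.2 - z0.im| < b} := by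
    ext q
    rfl
  rw [hS]
  have hSm : MeasurableSet
      {q : ℝ × ℝ | |(q.1 - z0.re) + α * (q.2 - z0.im)| < a ∧ |q.2 - z0.im| < b} := by
    have hc1 : Continuous fun q : ℝ × ℝ => |(q.1 - z0.re) + α * (q.2 - z0.im)| := by fun_prop
    have hc2 : Continuous fun q : ℝ × ℝ => |q.2 - z0.im| := by fun_prop
    exact ((isOpen_lt hc1 continuous_const).inter (isOpen_lt hc2 continuous_const)).measurableSet
  rw [Measure.volume_eq_prod, Measure.prod_apply_symm hSm]
  have h2 : ∀ y : ℝ, volume ((fun x : ℝ => (x, y)) ⁻¹'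
      {q : ℝ × ℝ | |(q.1 - z0.re) + α * (q.2 - z0.im)| < a ∧ |q.2 - z0.im| < b}) =
      (ball z0.im b).indicator (fun _ => ENNReal.ofReal (2 * a)) y := by
    intro y
    by_cases hy : y ∈ ball z0.im b
    · rw [indicator_of_mem hy]
      have e : ((fun x : ℝ => (x, y)) ⁻¹'
          {q : ℝ × ℝ | |(q.1 - z0.re) + α * (q.2 - z0.im)| < a ∧ |q.2 - z0.im| < b}) =
          ball (z0.re - α * (y - z0.im)) a := by
        ext x
        rw [mem_ball, Real.dist_eq] at *
        constructor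
        · rintro ⟨h, -⟩
          convert h using 2
          ring
        · intro h
          refine ⟨?_, hy⟩
          convert h using 2
          ring
      rw [e, Real.volume_ball]
    · rw [indicator_of_notMem hy]
      have e : ((fun x : ℝ => (x, y)) ⁻¹'
          {q : ℝ × ℝ | |(q.1 - z0.re) + α * (q.2 - z0.im)| < a ∧ |q.2 - z0.im| < b}) = ∅ := by
        ext x
        simp only [mem_preimage, mem_ofPred_eq, mem_empty_iff_false, iff_false, not_and]
        intro _ h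
        exact hy (by rw [mem_ball, Real.dist_eq]; exact h)
      rw [e, measure_empty]
  simp_rw [h2]
  rw [lintegral_indicator measurableSet_ball, setLIntegral_const, Real.volume_ball,
    ← ENNReal.ofReal_mul (by positivity)]
  congr 1
  ring

/-- sheared boxes in the domain of a map. -/
lemma local_area {h : ℂ → E4} {h' : ℂ →L[ℝ] E4} {z0 : ℂ} (hd : HasFDerivAt h h' z0) {X1 : E4}
    {α β : ℝ} (hβ : 0 < β) (hI : h' Complex.I = α • h' 1 + β • X1) (hX : h' 1 ≠ 0)
    (hX1 : X1 ≠ 0) {N : Set ℂ} (hN : N ∈ 𝓝 z0) :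
    ∃ η0 : ℝ, 0 < η0 ∧ ∀ η : ℝ, 0 < η → η < η0 → ∃ P : Set ℂ, MeasurableSet P ∧ P ⊆ N ∧
      (∀ z ∈ P, ‖h z - h z0‖ ≤ 3 * η) ∧
      volume.real P = 4 * η ^ 2 / (β * ‖h' 1‖ * ‖X1‖) := by
  have hX0 : 0 < ‖h' 1‖ := norm_pos_iff.2 hX
  have hX10 : 0 < ‖X1‖ := norm_pos_iff.2 hX1
  set C3 : ℝ := 1 / ‖h' 1‖ + (|α| + 1) / (β * ‖X1‖) with hC3
  have hC30 : 0 < C3 := by positivity
  have hε : ∀ᶠ z in 𝓝 z0, ‖h z - h z0 - h' (z - z0)‖ ≤ 1 / C3 * ‖z - z0‖ :=
    hd.isLittleO.def (by positivity)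
  obtain ⟨ρ, hρ, hρ2⟩ := Metric.eventually_nhds_iff_ball.1 (hε.and (eventually_mem_set.2 hN))
  refine ⟨ρ / C3, by positivity, fun η hη hη2 => ?_⟩
  set a : ℝ := η / ‖h' 1‖ with ha
  set b : ℝ := η / (β * ‖X1‖) with hb
  have ha0 : 0 < a := by positivity
  have hb0 : 0 < b := by positivity
  have hsmall : ∀ z ∈ Pg z0 α a b, ‖z - z0‖ < C3 * η := by
    rintro z ⟨h1, h2⟩
    have h3 : |(z - z0).re| < a + |α| * b := by
      have h4 : |(z - z0).re| ≤ |(z - z0).re + α * (z - z0).im| + |α| * |(z - z0).im| := by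
        have e : (z - z0).re = ((z - z0).re + α * (z - z0).im) - α * (z - z0).im := by ring
        calc |(z - z0).re| = |((z - z0).re + α * (z - z0).im) - α * (z - z0).im| := by rw [← e]
          _ ≤ |(z - z0).re + α * (z - z0).im| + |α * (z - z0).im| := abs_sub _ _
          _ = _ := by rw [abs_mul]
      have h5 : |α| * |(z - z0).im| ≤ |α| * b := mul_le_mul_of_nonneg_left h2.le (abs_nonneg _)
      linarith
    calc ‖z - z0‖ ≤ |(z - z0).re| + |(z - z0).im| := Complex.norm_le_abs_re_add_abs_im _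
      _ < (a + |α| * b) + b := add_lt_add h3 h2
      _ = C3 * η := by rw [ha, hb, hC3]; field_simp; ring
  have hsub : ∀ z ∈ Pg z0 α a b, z ∈ ball z0 ρ := by
    intro z hz
    rw [mem_ball, dist_eq_norm]
    have h1 : C3 * η < C3 * (ρ / C3) := mul_lt_mul_of_pos_left hη2 hC30
    have h2 : C3 * (ρ / C3) = ρ := by field_simp
    linarith [hsmall z hz]
  refine ⟨Pg z0 α a b, (Pg_open z0 α a b).measurableSet, fun z hz => (hρ2 z (hsub z hz)).2,
    fun z hz => ?_, ?_⟩
  · have h1 := (hρ2 z (hsub z hz)).1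
    have h2 : 1 / C3 * ‖z - z0‖ ≤ η := by
      have h3 := mul_le_mul_of_nonneg_left (hsmall z hz).le
        (show (0 : ℝ) ≤ 1 / C3 by positivity)
      have h4 : 1 / C3 * (C3 * η) = η := by field_simp
      linarith
    have h5 : h' (z - z0) = ((z - z0).re + α * (z - z0).im) • h' 1 +
        ((z - z0).im * β) • X1 := by
      have e : z - z0 = (z - z0).re • (1 : ℂ) + (z - z0).im • Complex.I := by
        apply Complex.ext <;> simp
      conv_lhs => rw [e]
      rw [map_add, map_smul, map_smul, hI]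
      module
    have h6 : ‖h' (z - z0)‖ ≤ 2 * η := by
      rw [h5]
      have h7 : |(z - z0).re + α * (z - z0).im| * ‖h' 1‖ ≤ a * ‖h' 1‖ :=
        mul_le_mul_of_nonneg_right hz.1.le hX0.le
      have h8 : |(z - z0).im| * β * ‖X1‖ ≤ b * β * ‖X1‖ := by
        have := hz.2.le
        gcongr
      have h9 : a * ‖h' 1‖ = η := by rw [ha]; field_simp
      have h10 : b * β * ‖X1‖ = η := by rw [hb]; field_simp
      calc ‖((z - z0).re + α * (z - z0).im) • h' 1 + ((z - z0).im * β) • X1‖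
          ≤ ‖((z - z0).re + α * (z - z0).im) • h' 1‖ + ‖((z - z0).im * β) • X1‖ :=
            norm_add_le _ _
        _ = |(z - z0).re + α * (z - z0).im| * ‖h' 1‖ + |(z - z0).im| * β * ‖X1‖ := by
            rw [norm_smul, norm_smul, Real.norm_eq_abs, Real.norm_eq_abs, abs_mul,
              abs_of_pos hβ]
        _ ≤ 2 * η := by linarith
    calc ‖h z - h z0‖ = ‖(h z - h z0 - h' (z - z0)) + h' (z - z0)‖ := by congr 1; abel
      _ ≤ ‖h z - h z0 - h' (z - z0)‖ + ‖h' (z - z0)‖ := norm_add_le _ _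
      _ ≤ 3 * η := by linarith
  · rw [Measure.real, vol_Pg z0 α ha0 hb0, ENNReal.toReal_ofReal (by positivity), ha, hb]
    field_simp

section T2

variable {M : Type u} [MetricSpace M] [CompactSpace M] [ChartedSpace E4 M]
  [IsManifold 𝓘(ℝ, E4) ∞ M] [MeasurableSpace M] [BorelSpace M]

/-- uniform bounds on the cores of a finite atlas. -/
lemma exists_consts (D : Dat M) (A : FA E4 M) : ∃ cF CJ : ℝ, 0 < cF ∧ 0 < CJ ∧
    ∀ i, ∀ y ∈ A.K i, (∀ v, cF * ‖v‖ ^ 2 ≤ rep (A.c i) D.F y v (repJ (A.c i) D.J y v)) ∧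
      ‖repJ (A.c i) D.J y‖ ≤ CJ := by
  have hpos : ∀ i, ∀ y ∈ A.K i, ∀ v, v ≠ 0 →
      0 < rep (A.c i) D.F y v (repJ (A.c i) D.J y v) := by
    intro i y hy v hv
    rw [rep_J_eq_apply (A.K_sub i hy)]
    exact (Int.dat_sposF D _).pos _ (tcc_ne_zero (A.K_sub i hy) hv)
  choose c hc hcv using fun i => unif_pos_quad
    (Smooth2.continuousOn (Int.dat_smF D) (A.c i)) (SmoothJ.continuousOn D.smJ (A.c i))
    (A.isCompact_K i) (A.K_sub i) (hpos i)
  choose B hB using fun i => (A.isCompact_K i).exists_bound_of_continuousOn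
    ((SmoothJ.continuousOn D.smJ (A.c i)).mono (A.K_sub i))
  obtain ⟨c', hc', hc'2⟩ : ∃ c' : ℝ, 0 < c' ∧ ∀ i, c' ≤ c i := by
    rcases isEmpty_or_nonempty (Fin A.n) with h | h
    · exact ⟨1, one_pos, fun i => (h.false i).elim⟩
    · refine ⟨Finset.univ.inf' Finset.univ_nonempty c, ?_,
        fun i => Finset.inf'_le _ (Finset.mem_univ i)⟩
      rw [Finset.lt_inf'_iff]; exact fun i _ => hc i
  refine ⟨c', 1 + ∑ i, |B i|, hc', ?_, fun i y hy => ⟨fun v => ?_, ?_⟩⟩
  · have : 0 ≤ ∑ i, |B i| := Finset.sum_nonneg fun i _ => abs_nonneg _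
    linarith
  · exact (mul_le_mul_of_nonneg_right (hc'2 i) (sq_nonneg _)).trans (hcv i y hy v)
  · have h1 := Finset.single_le_sum (f := fun i => |B i|) (fun i _ => abs_nonneg _)
      (Finset.mem_univ i)
    have h2 := (hB i y hy).trans (le_abs_self _)
    have h3 : |B i| ≤ ∑ i, |B i| := h1
    linarith

/-- the integral of a multiple of `F` over the torus. -/
lemma int_tor {D : Dat M} {w : Trip M} {f : H2 M} {σ : Ep → M} (hs : JTor w σ f)
    {T : X2 M →ₗ[ℝ] ℝ} {s : Measure M} (hT : T1_195.Cur D T s)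
    (hTt : ∀ b : X2 M, T b = torI σ (b.1 : F2 E4 M)) {χ : M → ℝ} (hχ : SmoothF E4 χ) (x y : ℝ) :
    ∫ x, χ x ∂s = ∫ z in Qop x y, χ (ts σ z) * pb (ts σ) (D.F : F2 E4 M) z := by
  rw [Limt.int_eq hT hχ, hTt, torI_sq hs.emb (Limt.fX D hχ).2 x y]
  rfl

/-- the support of the current of a torus is contained in the torus. -/
lemma sup_tor {D : Dat M} {w : Trip M} {f : H2 M} {σ : Ep → M} (hs : JTor w σ f)
    {T : X2 M →ₗ[ℝ] ℝ} {s : Measure M} (hT : T1_195.Cur D T s)
    (hTt : ∀ b : X2 M, T b = torI σ (b.1 : F2 E4 M)) {x : M} (hx : Sup s x) : x ∈ range σ := by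
  by_contra hcon
  have := hT.fin
  obtain ⟨r, hr, hr2⟩ := Metric.isOpen_iff.1 (isClosed_range hs.emb).isOpen_compl x hcon
  obtain ⟨χ, hχ, hχ0, hχ1, hχe, hχz⟩ := Limt.exists_cut x (r := r / 2) (R := r) (by linarith)
  have h1 : s.real (ball x (r / 2)) ≤ ∫ y, χ y ∂s :=
    Limt.le_int hχ hχ0 measurableSet_ball fun y hy => hχe y (ball_subset_closedBall hy)
  rw [int_tor hs hT hTt hχ 0 0] at h1
  have h2 : ∫ z in Qop 0 0, χ (ts σ z) * pb (ts σ) (D.F : F2 E4 M) z = 0 := by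
    refine integral_eq_zero_of_ae (Eventually.of_forall fun z => ?_)
    show χ (ts σ z) * pb (ts σ) (D.F : F2 E4 M) z = 0
    rw [hχz (ts σ z) fun hz => hr2 hz ⟨E z, rfl⟩, zero_mul]
  rw [h2] at h1
  exact absurd (hx (r / 2) (by linarith)) (not_lt.2 h1)

lemma Qop_sub (z0 : ℂ) : Qop (z0.re - 1 / 2) (z0.im - 1 / 2) ⊆ closedBall z0 1 := by
  rintro z ⟨h1, h2⟩
  rw [mem_closedBall, dist_eq_norm]
  have h3 : |(z - z0).re| ≤ 1 / 2 := by
    rw [Complex.sub_re, abs_le]
    exact ⟨by linarith [h1.1], by linarith [h1.2]⟩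
  have h4 : |(z - z0).im| ≤ 1 / 2 := by
    rw [Complex.sub_im, abs_le]
    exact ⟨by linarith [h2.1], by linarith [h2.2]⟩
  linarith [Complex.norm_le_abs_re_add_abs_im (z - z0)]

/-- **T2**: the uniform lower bound. -/
theorem lb (D : Dat M) {w : Trip M} (hw : Pos3 w) (hJ : IsJ w D.J) :
    ∃ k : ℝ, 0 < k ∧ ∀ (f : H2 M) (σ : Ep → M), JTor w σ f →
      ∀ (T : X2 M →ₗ[ℝ] ℝ) (s : Measure M), T1_195.Cur D T s →
      (∀ b : X2 M, T b = torI σ (b.1 : F2 E4 M)) →
      (∀ y : Ep, ∀ᶠ r in 𝓝[>] (0 : ℝ), k * r ^ 2 ≤ s.real (ball (σ y) r)) ∧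
      ∀ x, Sup s x → x ∈ range σ := by
  obtain ⟨A⟩ := exists_FA (E := E4) (M := M)
  obtain ⟨c, C, δ, hc, hC, hδ, hbl, hcov⟩ := Int.exists_unif D.bl A
  obtain ⟨cF, CJ, hcF, hCJ, hcons⟩ := exists_consts D A
  refine ⟨cF / (18 * C ^ 2 * CJ), by positivity, fun f σ hs T s hT hTt =>
    ⟨fun y => ?_, fun x hx => sup_tor hs hT hTt hx⟩⟩
  have hfin := hT.fin
  -- the point
  obtain ⟨z0, hz0⟩ : ∃ z0 : ℂ, E z0 = y := E.surjective y
  have hx0 : σ y = ts σ z0 := by rw [← hz0]; rfl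
  rw [hx0]
  obtain ⟨i, hi⟩ := hcov (ts σ z0)
  set p := A.c i with hp
  have hsub : ∀ {u}, u ∈ ball (ts σ z0) δ → u ∈ (chartAt E4 p).source := fun hu => (hi hu).1
  have hKi : ∀ {u}, u ∈ ball (ts σ z0) δ → chartAt E4 p u ∈ A.K i := fun hu =>
    interior_subset (hi hu).2
  have hb0 : ts σ z0 ∈ ball (ts σ z0) δ := mem_ball_self hδ
  have hsm := ts_smooth hs.emb z0
  set h : ℂ → E4 := inC p (ts σ) with hh
  have hhd : DifferentiableAt ℝ h z0 :=
    (inC_contDiffAt hsm (hsub hb0)).differentiableAt (by simp)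
  obtain ⟨α, β, hβ, hab⟩ := frame_pos hw hJ hs z0
  set X : E4 := fderiv ℝ h z0 1 with hX
  have hXe : X = tcc (ts σ z0) p (ts σ z0) (dmap (ts σ) z0 1) := fderiv_inC hsm (hsub hb0) 1
  set j := repJ p D.J (chartAt E4 p (ts σ z0)) with hj
  have hYe : fderiv ℝ h z0 Complex.I = α • X + β • j X := by
    have h1 : fderiv ℝ h z0 Complex.I =
        tcc (ts σ z0) p (ts σ z0) (dmap (ts σ) z0 Complex.I) := fderiv_inC hsm (hsub hb0) _
    rw [h1, hab, map_add, map_smul, map_smul, ← hXe, hXe, hj,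
      ← apply_eq_repJ (hsub hb0)]
  have hXne : X ≠ 0 := by
    intro h0
    rw [hXe] at h0
    have h1 : dmap (ts σ) z0 1 = 0 := by
      have h2 := tcc_inj (E := E4) (hsub hb0) (u := dmap (ts σ) z0 1) (v := 0)
        (by rw [h0, map_zero])
      exact h2
    exact one_ne_zero (imm_ts hs.emb z0 1 h1)
  obtain ⟨hq, hjb⟩ := hcons i _ (hKi hb0)
  have hjX : j X ≠ 0 := by
    intro h0
    have h1 := hq X
    rw [← hp, ← hj, h0, map_zero] at h1
    have h2 : 0 < cF * ‖X‖ ^ 2 := by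
      have := norm_pos_iff.2 hXne
      positivity
    linarith
  have hX0 : 0 < ‖X‖ := norm_pos_iff.2 hXne
  have hjX0 : 0 < ‖j X‖ := norm_pos_iff.2 hjX
  -- the density at the centre
  have hFalt : ∀ x, Alt (at2 (D.F : F2 E4 M) x) := (Int.dat_smF D).1
  have hdens : β * (cF * ‖X‖ ^ 2) ≤ pb (ts σ) (D.F : F2 E4 M) z0 := by
    rw [pb_frame hFalt hab, apply_J_eq_rep (hsub hb0), ← hXe]
    exact mul_le_mul_of_nonneg_left (hq X) hβ.le
  have hd0 : 0 < pb (ts σ) (D.F : F2 E4 M) z0 := lt_of_lt_of_le (by positivity) hdens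
  have hnn : ∀ z, 0 ≤ pb (ts σ) (D.F : F2 E4 M) z := by
    intro z
    obtain ⟨α, β, hβ, hab⟩ := frame_pos hw hJ hs z
    rw [pb_frame hFalt hab]
    have hv : dmap (ts σ) z 1 ≠ 0 := fun h0 => one_ne_zero (imm_ts hs.emb z 1 h0)
    exact mul_nonneg hβ.le ((Int.dat_sposF D _).pos _ hv).le
  have hcont : Continuous (pb (ts σ) (D.F : F2 E4 M)) := pb_ts_cont hs.emb (Int.dat_smF D)
  -- the good neighbourhood
  set N : Set ℂ := {z | z ∈ Qop (z0.re - 1 / 2) (z0.im - 1 / 2) ∧ ts σ z ∈ ball (ts σ z0) δ ∧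
    pb (ts σ) (D.F : F2 E4 M) z0 / 2 < pb (ts σ) (D.F : F2 E4 M) z} with hN
  have hNn : N ∈ 𝓝 z0 := by
    have e1 : ∀ᶠ z in 𝓝 z0, z ∈ Qop (z0.re - 1 / 2) (z0.im - 1 / 2) :=
      (Qop_open _ _).mem_nhds ⟨⟨by linarith, by linarith⟩, ⟨by linarith, by linarith⟩⟩
    have e2 : ∀ᶠ z in 𝓝 z0, ts σ z ∈ ball (ts σ z0) δ :=
      hsm.continuousAt.eventually (isOpen_ball.mem_nhds hb0)
    have e3 : ∀ᶠ z in 𝓝 z0, pb (ts σ) (D.F : F2 E4 M) z0 / 2 < pb (ts σ) (D.F : F2 E4 M) z :=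
      hcont.continuousAt.eventually (lt_mem_nhds (by linarith))
    filter_upwards [e1, e2, e3] with z h1 h2 h3
    exact ⟨h1, h2, h3⟩
  obtain ⟨η0, hη0, hP⟩ := local_area hhd.hasFDerivAt hβ hYe hXne hjX hNn
  filter_upwards [Ioo_mem_nhdsGT (show (0 : ℝ) < 6 * C * η0 by positivity)] with r hr
  obtain ⟨P, hPm, hPN, hPh, hPv⟩ := hP (r / (6 * C)) (by have := hr.1; positivity)
    (by rw [div_lt_iff₀ (by positivity)]; linarith [hr.2])
  have hr0 : 0 < r := hr.1
  obtain ⟨χ, hχ, hχ0, hχ1, hχe, hχz⟩ :=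
    Limt.exists_cut (ts σ z0) (r := r / 2) (R := r) (by linarith)
  have h1 : ∫ y, χ y ∂s ≤ s.real (ball (ts σ z0) r) := Limt.int_le hχ hχ1 measurableSet_ball hχz
  rw [int_tor hs hT hTt hχ (z0.re - 1 / 2) (z0.im - 1 / 2)] at h1
  have hcχ : Continuous fun z => χ (ts σ z) :=
    ((smoothF_iff _).2 hχ).continuous.comp
      (continuous_iff_continuousAt.2 fun z => (ts_smooth hs.emb z).continuousAt)
  have hint : IntegrableOn (fun z => χ (ts σ z) * pb (ts σ) (D.F : F2 E4 M) z)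
      (Qop (z0.re - 1 / 2) (z0.im - 1 / 2)) :=
    ((hcχ.mul hcont).continuousOn.integrableOn_compact (isCompact_closedBall z0 1)).mono_set
      (Qop_sub z0)
  have hPQ : P ⊆ Qop (z0.re - 1 / 2) (z0.im - 1 / 2) := fun z hz => (hPN hz).1
  have h2 : ∫ z in P, χ (ts σ z) * pb (ts σ) (D.F : F2 E4 M) z ≤
      ∫ z in Qop (z0.re - 1 / 2) (z0.im - 1 / 2), χ (ts σ z) * pb (ts σ) (D.F : F2 E4 M) z :=
    setIntegral_mono_set hint
      (Eventually.of_forall fun z => mul_nonneg (hχ0 _) (hnn z)) hPQ.eventuallyLE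
  have hPfin : volume P ≠ ⊤ := by
    have h3 : P ⊆ closedBall z0 1 := hPQ.trans (Qop_sub z0)
    exact ((measure_mono h3).trans_lt measure_closedBall_lt_top).ne
  have h3 : ∫ _ in P, pb (ts σ) (D.F : F2 E4 M) z0 / 2 ≤
      ∫ z in P, χ (ts σ z) * pb (ts σ) (D.F : F2 E4 M) z := by
    refine setIntegral_mono_on (integrableOn_const hPfin) (hint.mono_set hPQ) hPm
      fun z hz => ?_
    have h4 : ts σ z ∈ closedBall (ts σ z0) (r / 2) := by
      have h5 := (hbl i _ (hKi (hPN hz).2.1) _ (hKi hb0)).2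
      rw [← hp, (chartAt E4 p).left_inv (hsub (hPN hz).2.1),
        (chartAt E4 p).left_inv (hsub hb0)] at h5
      have h6 : ‖chartAt E4 p (ts σ z) - chartAt E4 p (ts σ z0)‖ ≤ 3 * (r / (6 * C)) :=
        hPh z hz
      rw [mem_closedBall]
      refine h5.trans ((mul_le_mul_of_nonneg_left h6 hC.le).trans (le_of_eq ?_))
      field_simp
      ring
    rw [hχe _ h4, one_mul]
    exact (hPN hz).2.2.le
  rw [setIntegral_const, hPv, smul_eq_mul] at h3
  refine le_trans ?_ (h3.trans (h2.trans h1))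
  have hjle : ‖j X‖ ≤ CJ * ‖X‖ :=
    (ContinuousLinearMap.le_opNorm _ _).trans (mul_le_mul_of_nonneg_right hjb hX0.le)
  have h7 : 4 * (r / (6 * C)) ^ 2 / (β * ‖X‖ * ‖j X‖) * (β * (cF * ‖X‖ ^ 2) / 2) ≤
      4 * (r / (6 * C)) ^ 2 / (β * ‖X‖ * ‖j X‖) * (pb (ts σ) (D.F : F2 E4 M) z0 / 2) := by
    gcongr
  refine le_trans ?_ h7
  have h8 : 4 * (r / (6 * C)) ^ 2 / (β * ‖X‖ * ‖j X‖) * (β * (cF * ‖X‖ ^ 2) / 2) =
      cF * r ^ 2 / (18 * C ^ 2) * (‖X‖ / ‖j X‖) := by
    field_simp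
    ring
  have h9 : 1 / CJ ≤ ‖X‖ / ‖j X‖ := by
    rw [div_le_div_iff₀ hCJ hjX0]
    linarith
  rw [h8]
  calc cF / (18 * C ^ 2 * CJ) * r ^ 2 = cF * r ^ 2 / (18 * C ^ 2) * (1 / CJ) := by
        field_simp
    _ ≤ _ := mul_le_mul_of_nonneg_left h9 (by positivity)

end T2

end

end Crest.Agent.R235.LimtT_129
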