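import Crest.Agent.R235.T1A_195
import Crest.Agent.R235.GlobDefs_370

/-!
Row 235 (S0364), helper489: THE CURVES CHAIN, Props.

Siu on `M` (`SIUM`), Lebesgue points (`LEBM`) ⟹ `CUR3` (decomposition into currents of density one
plus a rest of small density); `REGC` (regularity of currents of density one) and
`Glob_370.GLOB` ⟹ `JDEC` (consumer helper844), `T2S` (consumer helper215).

`D : Dat M` with `AK D`: the taming form `D.al` is `J`-invariant, so `D.F = D.al` is closed.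
`Cur D Φ s` (T1_195): `Φ` is a positive closed current with trace measure `s`.
-/

set_option autoImplicit false
set_option maxSynthPendingDepth 3

open Set Function Filter MeasureTheory Metric
open scoped Manifold ContDiff Topology ENNReal

universe u

namespace Crest.Agent.R235.Curves_489

open Crest.Agent.R240 Crest.Agent.R240.Ch Crest.Agent.R235 Crest.Agent.R235.T1_195
  Crest.Agent.R235.Glob_370

noncomputable section

section

variable {M : Type u} [MetricSpace M] [CompactSpace M] [ChartedSpace E4 M]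
    [IsManifold 𝓘(ℝ, E4) ∞ M] [MeasurableSpace M] [BorelSpace M]

/-- the taming form is `J`-invariant (almost Kaehler). -/
def AK (D : Dat M) : Prop :=
  ∀ x u v, at2 D.al x (atJ D.J x u) (atJ D.J x v) = at2 D.al x u v

/-- the ball of radius `r` of the frozen metric `F_x(·, J_x ·)` in the preferred chart at `x`. -/
def gball (D : Dat M) (x : M) (r : ℝ) : Set M :=
  {y | y ∈ (chartAt E4 x).source ∧
    at2 D.F x (chartAt E4 x y - chartAt E4 x x)
      (atJ D.J x (chartAt E4 x y - chartAt E4 x x)) < r ^ 2}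

/-- `θ` is the density of `s` at `x`. -/
def IsDen (D : Dat M) (s : Measure M) (x : M) (θ : ℝ) : Prop :=
  Tendsto (fun r : ℝ => s.real (gball D x r) / (Real.pi * r ^ 2)) (𝓝[>] 0) (𝓝 θ)

/-- the support of a measure. -/
def msupp (s : Measure M) : Set M := {x | ∀ U : Set M, IsOpen U → x ∈ U → 0 < s U}

end



/-- **CUR3**: finitely many currents of density exactly one, and a rest of density `< a`. -/
def CUR3 : Prop :=
  ∀ (M : Type u) [MetricSpace M] [CompactSpace M] [ChartedSpace E4 M]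
    [IsManifold 𝓘(ℝ, E4) ∞ M] [MeasurableSpace M] [BorelSpace M] (D : Dat M), AK D →
    ∀ (Φ : X2 M →ₗ[ℝ] ℝ) (s : Measure M), Cur D Φ s → ∀ a : ℝ, 0 < a →
    ∃ (n : ℕ) (t : Fin n → ℝ) (C : Fin n → X2 M →ₗ[ℝ] ℝ) (m : Fin n → Measure M)
      (Φ' : X2 M →ₗ[ℝ] ℝ) (s' : Measure M),
      (∀ i, a ≤ t i ∧ Cur D (C i) (m i) ∧ m i ≠ 0 ∧ ∀ᵐ x ∂(m i), IsDen D (m i) x 1) ∧
      Cur D Φ' s' ∧ (∀ᵐ x ∂s', ∃ θ, 0 ≤ θ ∧ θ < a ∧ IsDen D s' x θ ∧ IsDen D s x θ) ∧
      Φ = ∑ i, t i • C i + Φ' ∧ s = ∑ i, ENNReal.ofReal (t i) • m i + s'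

/-- **REGC** (regularity; producers helper522, helper607): a current with density one almost
everywhere is locally a finite sum of `J`-discs. -/
def REGC : Prop :=
  ∀ (M : Type u) [MetricSpace M] [CompactSpace M] [ChartedSpace E4 M]
    [IsManifold 𝓘(ℝ, E4) ∞ M] [MeasurableSpace M] [BorelSpace M] (D : Dat M), AK D →
    ∀ (C : X2 M →ₗ[ℝ] ℝ) (s : Measure M), Cur D C s → (∀ᵐ x ∂s, IsDen D s x 1) →
    ∀ p : M, ∃ L : LocForm D.J (msupp s) p, L.Cur C

/-- **JDEC** (Dat form): no positive density at all, or one curve splits off. -/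
def JDECD : Prop :=
  ∀ (M : Type u) [MetricSpace M] [CompactSpace M] [ConnectedSpace M] [ChartedSpace E4 M]
    [IsManifold 𝓘(ℝ, E4) ∞ M] [MeasurableSpace M] [BorelSpace M] (D : Dat M), AK D →
    ∀ (Φ : X2 M →ₗ[ℝ] ℝ) (s : Measure M), Cur D Φ s →
    Dat.ZeroDens s ∨ ∃ (c : JCurve D.J) (a : ℝ) (Φ' : X2 M →ₗ[ℝ] ℝ), 0 < a ∧ c.T ≠ 0 ∧
      PCur D.J Φ' ∧ Φ = a • c.T + Φ'

/-- **T2SD** (Dat form): density `≥ ε` at every point of the support: a finite sum of curves. -/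
def T2SD : Prop :=
  ∀ (M : Type u) [MetricSpace M] [CompactSpace M] [ConnectedSpace M] [ChartedSpace E4 M]
    [IsManifold 𝓘(ℝ, E4) ∞ M] [MeasurableSpace M] [BorelSpace M] (D : Dat M), AK D →
    ∀ (Φ : X2 M →ₗ[ℝ] ℝ) (s : Measure M), Cur D Φ s →
    (∃ ε > 0, ∀ᵐ x ∂s, ∃ᶠ r in 𝓝[>] (0 : ℝ), ε * r ^ 2 ≤ s.real (ball x r)) →
    ∃ (m : ℕ) (c : Fin m → JCurve D.J) (a : Fin m → ℝ), (∀ i, 0 < a i) ∧
      Φ = ∑ i, a i • (c i).T ∧ msupp s = ⋃ i, range (c i).f

end

end Crest.Agent.R235.Curves_489
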