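import Mathlib
import Crest.Agent.R235.ChLC_4
import Crest.Agent.R235.LimtT_129_Mg
import Crest.Agent.R235.CurMon0_311
import Crest.Agent.R235.SiuM_4

-- ▼ part R235/ChLCU_225
section

/-!
Row 235 (S0364), package TOR / SWC, helper225: the chart data `LC` of helper4 with geometry
independent of the current (`CHLCU`), and `limt : LIMT`.
-/

set_option autoImplicit false
set_option maxSynthPendingDepth 3
set_option linter.unusedSectionVars false

open Set Function Filter MeasureTheory Metric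
open scoped Manifold ContDiff Topology ENNReal NNReal

universe u

namespace Crest.Agent.R235.Limt

open Crest.Agent.R240 Crest.Agent.R240.Ch Crest.Agent.R240.En4 Crest.Agent.R240.Pot
  Crest.Agent.R240.Pol Crest.Agent.R240.Vm
  Crest.Agent.R235.T1_195 Crest.Agent.R235.CurDefs_132 Crest.Agent.R235.MkLC_4

noncomputable section

/-- the bounds of the geometry. -/
theorem exists_bounds {J : E4 → E4 →L[ℝ] E4} {F : E4 → Bil} (hB : Bg J F) :
    ∃ m M' L : ℝ, 0 < m ∧ 0 < M' ∧ 1 ≤ L ∧ (∀ y, Bd (J y) (F y) m M') ∧ (∀ y, ‖J y‖ ≤ L) ∧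
      (∀ y, ‖F y‖ ≤ L) ∧ (∀ y, ‖fderiv ℝ J y‖ ≤ L) ∧ (∀ y, ‖fderiv ℝ F y‖ ≤ L) ∧
      (∀ y, ‖fderiv ℝ (fderiv ℝ J) y‖ ≤ L) ∧ (∀ y, ‖fderiv ℝ (fderiv ℝ F) y‖ ≤ L) := by
  obtain ⟨m, M', L0, LJ, w0, c0, σ, hcst⟩ := Crest.Agent.R240.Loc5.exists_cst hB
  obtain ⟨R', J0, F0, hc⟩ := hB.cst
  have hJc : ∀ y, R' ≤ ‖y‖ → J y = J0 := fun y hy => (hc y hy).1
  have hFc : ∀ y, R' ≤ ‖y‖ → F y = F0 := fun y hy => (hc y hy).2
  have hJ1 : ContDiff ℝ ∞ (fderiv ℝ J) := hB.smJ.fderiv_right (by simp)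
  have hF1 : ContDiff ℝ ∞ (fderiv ℝ F) := hB.smF.fderiv_right (by simp)
  have hJ2 : ContDiff ℝ ∞ (fderiv ℝ (fderiv ℝ J)) := hJ1.fderiv_right (by simp)
  have hF2 : ContDiff ℝ ∞ (fderiv ℝ (fderiv ℝ F)) := hF1.fderiv_right (by simp)
  obtain ⟨a1, a10, ha1⟩ := bdd_of_cst hB.smJ.continuous hJc
  obtain ⟨a2, a20, ha2⟩ := bdd_of_cst hB.smF.continuous hFc
  obtain ⟨a3, a30, ha3⟩ := bdd_of_cst hJ1.continuous (fderiv_cst hJc)
  obtain ⟨a4, a40, ha4⟩ := bdd_of_cst hF1.continuous (fderiv_cst hFc)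
  obtain ⟨a5, a50, ha5⟩ := bdd_of_cst hJ2.continuous (fderiv_cst (fderiv_cst hJc))
  obtain ⟨a6, a60, ha6⟩ := bdd_of_cst hF2.continuous (fderiv_cst (fderiv_cst hFc))
  exact ⟨m, M', 1 + a1 + a2 + a3 + a4 + a5 + a6, (hcst.bd 0).m_pos, (hcst.bd 0).M_pos,
    by linarith, hcst.bd, fun y => (ha1 y).trans (by linarith),
    fun y => (ha2 y).trans (by linarith), fun y => (ha3 y).trans (by linarith),
    fun y => (ha4 y).trans (by linarith), fun y => (ha5 y).trans (by linarith),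
    fun y => (ha6 y).trans (by linarith)⟩

theorem chlcu : CHLCU.{u} := by
  intro M _ _ _ _ _ _ _ D hDF p
  classical
  -- `F` is closed
  have hF : D.FX ∈ Z2 M := by
    show Closed2 (D.FX : F2 E4 M)
    have h1 : (D.FX : F2 E4 M) = D.al := hDF
    rw [h1]
    exact D.cl_al
  set x0 : E4 := chartAt E4 p p with hx0
  -- the radius
  obtain ⟨R₀, hR, hR1, hsub⟩ : ∃ R₀ : ℝ, 0 < R₀ ∧ R₀ ≤ 2 ∧
      closedBall x0 (3 * R₀) ⊆ (chartAt E4 p).target := by
    obtain ⟨ε, hε, h⟩ := Metric.isOpen_iff.1 (chartAt E4 p).open_target x0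
      (mem_chart_target E4 p)
    refine ⟨min 2 (ε / 6), lt_min (by norm_num) (by positivity), min_le_left _ _, ?_⟩
    refine (closedBall_subset_ball ?_).trans h
    have : min 2 (ε / 6) ≤ ε / 6 := min_le_right _ _
    linarith
  have h2sub : closedBall x0 (2 * R₀) ⊆ (chartAt E4 p).target :=
    (closedBall_subset_closedBall (by linarith)).trans hsub
  have h2c : IsCompact (closedBall x0 (2 * R₀)) := isCompact_closedBall _ _
  obtain ⟨r, hr, hr1, hr2, hr3⟩ := exists_retr x0 hR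
  have hrU : ∀ y, r y ∈ (chartAt E4 p).target := fun y => hsub (ball_subset_closedBall (hr2 y))
  have hbg := bg_comp (chartAt E4 p).open_target (D.smJ p) ((Pol.smF D).2 p)
    (fun y hy v => repJ_sq D.sq hy v) (fun y hy => spos_rep (sposF D) hy) hr hrU hr3
  obtain ⟨m, M', L, hm, hM', hL1, hbd, b1, b2, b3, b4, b5, b6⟩ := exists_bounds hbg
  set K : Set E4 := closedBall x0 (2 * R₀) with hK
  have hKm : MeasurableSet K := isClosed_closedBall.measurableSet
  obtain ⟨c, C, hc, hC, h1, -⟩ := bilip_core D.bl h2c h2sub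
  refine ⟨m, M', L, R₀ / 2, fun Cg => Cg * (2 * c⁻¹) ^ 2, hm, hM', by positivity, ?_, ?_⟩
  · have : 4 * (R₀ / 2) = 2 * R₀ := by ring
    rw [this]
    exact h2sub
  intro Φ s hΦ Cg hCg hCgr
  have hfin := hΦ.fin
  obtain ⟨φ, hφm, hφp, hφn, ⟨Cφ, hCφ⟩, hform⟩ :=
    ChDens.chartDens D Φ s hΦ.inv hΦ.nonneg hΦ.rm p x0 R₀ hR hsub
  set φ' : E4 → Bil := fun y => if y ∈ K then φ y else rep p D.F (r y) with hφ'
  have hφK : ∀ y ∈ K, φ' y = φ y := fun y hy => by simp only [hφ', if_pos hy]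
  have hd : Dens (fun y => repJ p D.J (r y)) (fun y => rep p D.F (r y)) φ' := by
    refine ⟨?_, ?_, ?_⟩
    · exact Measurable.ite hKm hφm hbg.smF.continuous.measurable
    · intro y
      by_cases hy : y ∈ K
      · rw [hφK y hy, hr1 y hy]
        exact hφp y hy
      · simp only [hφ', if_neg hy]
        have h := hbg.pos y
        exact ⟨h.alt, h.inv, fun v => by
          by_cases hv : v = 0
          · simp [hv]
          · exact (h.pos v hv).le⟩
    · intro y
      by_cases hy : y ∈ K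
      · rw [hφK y hy, hr1 y hy]
        exact hφn y hy
      · simp only [hφ', if_neg hy]
        exact q_self_of_spos (hbg.sq y) (hbg.pos y)
  have hae : ∀ᵐ y ∂(chMeas p K s), y ∈ K := by
    rw [ae_iff]
    exact chMeas_compl h2c h2sub s
  -- growth
  have hs : ∀ x r, 0 < r → s (ball x r) ≤ ENNReal.ofReal (Cg * r ^ 2) := by
    intro x r hr
    rw [← ENNReal.ofReal_toReal (measure_ne_top s (ball x r))]
    exact ENNReal.ofReal_le_ofReal (hCgr x r hr)
  have hgr : ∀ y r, 0 < r → (chMeas p K s).real (ball y r) ≤ Cg * (2 * c⁻¹) ^ 2 * r ^ 2 := by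
    intro y r hr
    refine ENNReal.toReal_le_of_le_ofReal (by positivity) ?_
    exact map_ball_le (core_meas h2c h2sub) (aemeas_chart h2c h2sub s) hc h1 hs y r hr
  -- closedness
  have hclos : ClosedIn (fun y => rep p D.F (r y)) (chMeas p K s) φ'
      (ball x0 (4 * (R₀ / 2))) := by
    intro S hS hSc hSs
    have hSs : tsupport S ⊆ ball x0 (2 * R₀) := by
      have : 4 * (R₀ / 2) = 2 * R₀ := by ring
      rwa [this] at hSs
    have hSt : tsupport S ⊆ (chartAt E4 p).target :=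
      (hSs.trans ball_subset_closedBall).trans h2sub
    have hS0 : ∀ y, y ∉ tsupport S → S y = 0 := fun y hy => image_eq_zero_of_notMem_tsupport hy
    have hsm : Smooth1 (ext1 p S) := Pol.smooth1_ext1 hSc.isCompact hSt hS hS0
    have hrep1 : ∀ y ∈ (chartAt E4 p).target, rep1 p (ext1 p S) y = S y :=
      fun y hy => Pol.rep1_ext1_self hy S
    have hz := hΦ.closed ⟨dG (ext1 p S), Smooth2.dG hsm⟩
      ⟨ext1 p S, hsm, fun q y hy => rep_dG hsm hy⟩
    rw [hform _ (by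
      intro x hx
      apply dG_zero_of_off hSc.isCompact hSt (fun x hx => Pol.at1_ext1_zero hS0 hx)
      intro h
      apply hx
      obtain ⟨y, hy, rfl⟩ := h
      exact ⟨y, ball_subset_closedBall (hSs hy), rfl⟩)] at hz
    have hSm : Measurable (En.d1 S) := by
      have h1 : Continuous (fderiv ℝ S) := hS.continuous_fderiv (by simp)
      have h2 : Continuous fun y => fderiv ℝ S y - (fderiv ℝ S y).flip :=
        h1.sub ((ContinuousLinearMap.flipₗᵢ ℝ E4 E4 ℝ).continuous.comp h1)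
      exact h2.measurable
    have e1 : ∫ y, q (rep p D.F (r y)) (φ' y) (En.d1 S y) ∂(chMeas p K s) =
        ∫ y, q (rep p D.F y) (φ y) (En.d1 S y) ∂(chMeas p K s) := by
      apply integral_congr_ae
      filter_upwards [hae] with y hy
      simp only [hφK y hy, hr1 y hy]
    rw [e1, integral_chMeas h2c h2sub s (aesm_integrand (Pol.smF D) hR hsub s hφm hSm), ← hz]
    apply setIntegral_congr_fun (core_meas h2c h2sub)
    intro x hx
    have hy := h2sub (chart_core_mem h2sub hx)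
    simp only
    rw [rep_eq_d1 hsm hrep1 hy]
  have hCl : ∀ y ∈ ball x0 (4 * (R₀ / 2)), En.Cl (fun y => rep p D.F (r y)) y := by
    intro y hy
    have hy : y ∈ ball x0 (2 * R₀) := by
      have : 4 * (R₀ / 2) = 2 * R₀ := by ring
      rwa [this] at hy
    refine En.Cl_congr (c := rep p D.F) ?_ ?_
    · filter_upwards [isOpen_ball.mem_nhds hy] with z hz
      rw [hr1 z (ball_subset_closedBall hz)]
    · exact MonoM.cl_of_closed (Pol.smF D) hF (h2sub (ball_subset_closedBall hy))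
  obtain ⟨E, hLJ, hLF, hLx, hLR, hLs, hLφ, hLC⟩ := MkLC_4.mkLC hbg hd
    (by positivity : (0 : ℝ) ≤ Cg * (2 * c⁻¹) ^ 2) hgr
    (half_pos hR) (by linarith) hclos hCl
  have hJe : ∀ y, E.J y = repJ p D.J (r y) := fun y => by rw [hLJ]
  have hFe : ∀ y, E.F y = rep p D.F (r y) := fun y => by rw [hLF]
  refine ⟨{ E with
      m := m, M := M', L := L
      bd := fun y => by rw [hJe, hFe]; exact hbd y
      bJ := fun y => by rw [hLJ]; exact b1 y
      bF := fun y => by rw [hLF]; exact b2 y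
      bJ1 := fun y => by rw [hLJ]; exact b3 y
      bF1 := fun y => by rw [hLF]; exact b4 y
      bJ2 := fun y => by rw [hLJ]; exact b5 y
      bF2 := fun y => by rw [hLF]; exact b6 y
      L_ge := hL1 }, rfl, rfl, rfl, hLR, hLC, hLx, ?_⟩
  intro A hA hAs
  show E.s A = _
  have hAK : A ⊆ K := by
    refine hAs.trans ?_
    show ball E.x0 _ ⊆ _
    rw [hLx]
    have : 4 * (R₀ / 2) = 2 * R₀ := by ring
    rw [this]
    exact ball_subset_closedBall
  rw [hLs]
  unfold chMeas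
  rw [Measure.map_apply_of_aemeasurable (aemeas_chart h2c h2sub s) hA,
    Measure.restrict_apply' (core_meas h2c h2sub)]
  congr 1
  ext x
  constructor
  · rintro ⟨hx1, hx2⟩
    exact ⟨chartAt E4 p x, hx1, (chartAt E4 p).left_inv (core_sub h2sub hx2)⟩
  · rintro ⟨y, hy, rfl⟩
    refine ⟨?_, ⟨y, hAK hy, rfl⟩⟩
    show chartAt E4 p ((chartAt E4 p).symm y) ∈ A
    rw [(chartAt E4 p).right_inv (h2sub (hAK hy))]
    exact hy

theorem torcur : TORCUR.{u} := fun _ _ _ _ _ _ _ _ _ hw hJ _ _ hσ =>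
  LimtT_129.torcur hw hJ hσ

theorem lb : LB.{u} := fun _ _ _ _ _ _ _ _ D _ hw hJ => LimtT_129.lb D hw hJ

/-- **LIMT.** -/
theorem limt : Swc.LIMT.{u} := limt_of chlcu CurMon0_311.mon0 torcur lb

end

end Crest.Agent.R235.Limt
end

-- ▼ part R235/Cur3_4

/-!
Row 235 (S0364), PACKAGE CUR, nodes QUANT, CUR3 (helper4): quantisation of the mass, and the
decomposition `S = Σ t_i C_i + S'`, `C_i` of density one, `S'` of density `< a`.
-/

set_option autoImplicit false
set_option maxSynthPendingDepth 3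
set_option linter.unusedSectionVars false

open Set Function Filter MeasureTheory Metric
open scoped Manifold ContDiff Topology ENNReal NNReal

universe u

namespace Crest.Agent.R235.Cur3_4

open Crest.Agent.R240 Crest.Agent.R240.Ch Crest.Agent.R240.En4 Crest.Agent.R240.Pol
  Crest.Agent.R235.T1_195 Crest.Agent.R235.CurDens_4 Crest.Agent.R235.AtomsC_4
  Crest.Agent.R235.CurDefs_132 Crest.Agent.R235.DenM_4 Crest.Agent.R235.ChLC_4
  Crest.Agent.R235.Curves_489

noncomputable section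

section

variable {M : Type u} [MetricSpace M] [CompactSpace M] [ChartedSpace E4 M]
    [IsManifold 𝓘(ℝ, E4) ∞ M] [MeasurableSpace M] [BorelSpace M]

/-- the ellipsoids in a fixed chart, uniformly in a ball. -/
theorem exists_ellP_unif (D : Dat M) {p : M} {x0 : E4} {R : ℝ} (hR : 0 < R)
    (hsub : closedBall x0 (3 * R) ⊆ (chartAt E4 p).target) : ∃ c : ℝ, 0 < c ∧
      ∀ x ∈ (chartAt E4 p).source, chartAt E4 p x ∈ ball x0 R →
        ∀ᶠ r in 𝓝[>] (0 : ℝ), ellP D p x r ⊆ ball x (c * r) := by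
  have h2sub : closedBall x0 (2 * R) ⊆ (chartAt E4 p).target :=
    (closedBall_subset_closedBall (by linarith)).trans hsub
  obtain ⟨m, M', hbd⟩ := ChDens.exists_Bd D p (isCompact_closedBall x0 (2 * R)) h2sub
  obtain ⟨c1, C1, hc1, hC1, hbl⟩ := D.bl p (closedBall x0 (2 * R)) (isCompact_closedBall _ _) h2sub
  have hm : 0 < m := (hbd x0 (mem_closedBall_self (by positivity))).m_pos
  have hsm : 0 < √m := Real.sqrt_pos.2 hm
  refine ⟨C1 / √m, by positivity, fun x hx hy => ?_⟩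
  filter_upwards [ev_le (show 0 < √m * R by positivity)] with r hr
  rintro z ⟨hzs, hzg⟩
  have hyc : chartAt E4 p x ∈ closedBall x0 (2 * R) :=
    ball_subset_closedBall (ball_subset_ball (by linarith) hy)
  have h1 : m * ‖chartAt E4 p z - chartAt E4 p x‖ ^ 2 ≤
      gp D p x (chartAt E4 p z - chartAt E4 p x) := (hbd _ hyc).lo _
  have h2 : (√m * ‖chartAt E4 p z - chartAt E4 p x‖) ^ 2 < r ^ 2 := by
    rw [mul_pow, Real.sq_sqrt hm.le]
    exact h1.trans_lt hzg
  have h3 : √m * ‖chartAt E4 p z - chartAt E4 p x‖ < r := lt_of_pow_lt_pow_left₀ 2 hr.1.le h2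
  have h4 : ‖chartAt E4 p z - chartAt E4 p x‖ ≤ R :=
    le_of_mul_le_mul_left (h3.le.trans hr.2) hsm
  have hzc : chartAt E4 p z ∈ closedBall x0 (2 * R) := by
    rw [mem_closedBall, dist_eq_norm]
    rw [mem_ball, dist_eq_norm] at hy
    calc ‖chartAt E4 p z - x0‖ = ‖(chartAt E4 p z - chartAt E4 p x) + (chartAt E4 p x - x0)‖ := by
          rw [sub_add_sub_cancel]
      _ ≤ ‖chartAt E4 p z - chartAt E4 p x‖ + ‖chartAt E4 p x - x0‖ := norm_add_le _ _
      _ ≤ 2 * R := by linarith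
  have h5 := (hbl _ hzc _ hyc).2
  rw [(chartAt E4 p).left_inv hzs, (chartAt E4 p).left_inv hx] at h5
  rw [mem_ball]
  calc dist z x ≤ C1 * ‖chartAt E4 p z - chartAt E4 p x‖ := h5
    _ = C1 / √m * (√m * ‖chartAt E4 p z - chartAt E4 p x‖) := by field_simp
    _ < C1 / √m * r := by gcongr

/-- **QUANT**: the density is at most a constant times the mass. -/
theorem exists_quant (D : Dat M) : ∃ B : ℝ, 0 < B ∧ ∀ (Φ : X2 M →ₗ[ℝ] ℝ) (s : Measure M),
    Cur D Φ s → ∀ (x : M) (θ : ℝ),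
      Tendsto (fun r => s.real (ell D x r) / (Real.pi * r ^ 2)) (𝓝[>] 0) (𝓝 θ) →
      θ ≤ B * s.real univ := by
  classical
  obtain ⟨K, hK, hgr⟩ := GrowthU_4.growthU D
  obtain ⟨P, -⟩ := exists_ballPU_le M
  have h1 : ∀ i : M, _ := fun i => exists_ellP_unif D (P.R_pos i) (P.sub i)
  choose c hc hce using h1
  have hpi := Real.pi_pos
  refine ⟨∑ i ∈ P.t, K * c i ^ 2 / Real.pi + 1, ?_, fun Φ s hΦ x θ hθ => ?_⟩
  · have : 0 ≤ ∑ i ∈ P.t, K * c i ^ 2 / Real.pi := Finset.sum_nonneg fun i _ => by positivity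
    linarith
  have hfin := hΦ.fin
  obtain ⟨i, hi, hx⟩ := pc_cover P x
  have h2 := (den_indep D hx.1 s).2 hθ
  have h3 : θ ≤ K * c i ^ 2 / Real.pi * s.real univ := by
    refine le_of_tendsto h2 ?_
    filter_upwards [hce i x hx.1 hx.2, self_mem_nhdsWithin] with r hr hr0
    have hr0 : 0 < r := hr0
    have hci := hc i
    have h4 : s.real (ellP D i x r) ≤ K * s.real univ * (c i * r) ^ 2 :=
      (measureReal_mono hr (measure_ne_top s _)).trans (hgr Φ s hΦ x _ (by positivity))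
    rw [div_le_iff₀ (by positivity)]
    calc s.real (ellP D i x r) ≤ K * s.real univ * (c i * r) ^ 2 := h4
      _ = K * c i ^ 2 / Real.pi * s.real univ * (Real.pi * r ^ 2) := by field_simp
  have h5 : K * c i ^ 2 / Real.pi ≤ ∑ i ∈ P.t, K * c i ^ 2 / Real.pi :=
    Finset.single_le_sum (f := fun i => K * c i ^ 2 / Real.pi) (fun i _ => by positivity) hi
  have h6 : 0 ≤ s.real univ := measureReal_nonneg
  calc θ ≤ K * c i ^ 2 / Real.pi * s.real univ := h3
    _ ≤ (∑ i ∈ P.t, K * c i ^ 2 / Real.pi + 1) * s.real univ := by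
      gcongr
      linarith

/-- the input of the Siu decomposition. -/
theorem exists_inp (hS : SIUL) {D : Dat M} (hAK : AK D) {Φ : X2 M →ₗ[ℝ] ℝ} {s : Measure M}
    [IsFiniteMeasure s] (hΦ : Cur D Φ s) {τ : F2 E4 M} (hτ : Den D Φ s τ) :
    ∃ Θ : M → ℝ, Inp (kM D) hτ.dn Θ := by
  obtain ⟨Θ, hΘm, -, hΘd, hΘc⟩ := sium0 hS D (SiuM_4.FX_mem hAK) hΦ hτ
  obtain ⟨B, hB, hBq⟩ := exists_quant D
  refine ⟨Θ, isKer_kM D, hΘc, hΘm, (SiuM_4.isNu_iff D s Θ).2 hΘd, fun A hA => ?_,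
    fun a ha => ⟨a / B, by positivity, fun A hA ν' hν' x hx => ?_⟩⟩
  · obtain ⟨Θ', -, -, hΘ', -⟩ := sium0 hS D (SiuM_4.FX_mem hAK)
      ((hτ.dn.restrict (Θ ⁻¹' A)).toCur (hΘc A hA)) (hτ.dn.restrict (Θ ⁻¹' A)).den
    exact ⟨Θ', (SiuM_4.isNu_iff D _ Θ').2 hΘ'⟩
  · have h1 := hBq _ _ ((hτ.dn.restrict (Θ ⁻¹' A)).toCur (hΘc A hA)) x (ν' x)
      ((SiuM_4.isNu_iff D _ ν').1 hν' x)
    rw [measureReal_restrict_apply MeasurableSet.univ, univ_inter] at h1
    rw [div_le_iff₀ hB, mul_comm]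
    exact hx.trans h1

end

theorem sum_enum {β : Type*} [AddCommMonoid β] (Fa : Finset ℝ) (f : ℝ → β) :
    ∑ i, f (Fa.equivFin.symm i : ℝ) = ∑ x ∈ Fa, f x := by
  rw [← Finset.sum_coe_sort Fa f]
  exact Equiv.sum_comp Fa.equivFin.symm (fun x : Fa => f x)

/-- **CUR3**. -/
theorem cur3_of (hS : SIUL) : CUR3.{u} := by
  classical
  intro M _ _ _ _ _ _ D hAK Φ s hΦ a ha
  have hfin := hΦ.fin
  obtain ⟨τ, hτ⟩ := cur_exists_den hΦ
  obtain ⟨Θ, H⟩ := exists_inp hS hAK hΦ hτ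
  obtain ⟨F, hFc, hF1, hone, hFf, hFae, hdec, -, -, -⟩ := siu H
  set Fa : Finset ℝ := (hFf a ha).toFinset with hFa
  have hFa' : (Fa : Set ℝ) = F ∩ Ici a := by rw [hFa, Finite.coe_toFinset]
  have hmem : ∀ t ∈ Fa, t ∈ F ∧ a ≤ t := by
    intro t ht
    have : t ∈ (Fa : Set ℝ) := ht
    rw [hFa'] at this
    exact this
  set e := Fa.equivFin with he
  set t : Fin Fa.card → ℝ := fun i => (e.symm i : ℝ) with ht
  have htm : ∀ i, t i ∈ Fa := fun i => (e.symm i).2
  have hm := H.meas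
  have hpos : ∀ i, 0 < t i := fun i => ha.trans_le (hmem _ (htm i)).2
  have hres : ∀ c : ℝ, 0 < c → ENNReal.ofReal c • cm s Θ c = s.restrict (Θ ⁻¹' {c}) := by
    intro c hc
    unfold cm
    rw [smul_smul, ← ENNReal.ofReal_mul hc.le, mul_inv_cancel₀ hc.ne', ENNReal.ofReal_one,
      one_smul]
  refine ⟨Fa.card, t, fun i => (cm_dn hτ.dn Θ (t i)).cur, fun i => cm s Θ (t i),
    (hτ.dn.restrict (Θ ⁻¹' Iio a)).cur, s.restrict (Θ ⁻¹' Iio a), fun i => ?_,
    (hτ.dn.restrict _).toCur (H.closed _ measurableSet_Iio), ?_, ?_, ?_⟩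
  · have h1 := hone (t i) (hmem _ (htm i)).1
    refine ⟨(hmem _ (htm i)).2, h1.cur, ?_, ?_⟩
    · intro h0
      have h0 : cm s Θ (t i) = 0 := h0
      have h2 := hres (t i) (hpos i)
      rw [h0, smul_zero] at h2
      apply (hF1 (t i) (hmem _ (htm i)).1).2
      have h3 := congrArg (fun μ : Measure M => μ univ) h2
      simp only [Measure.restrict_apply MeasurableSet.univ, univ_inter] at h3
      rw [← h3]
      rfl
    · obtain ⟨ν, hν, hν1⟩ := h1.one
      filter_upwards [hν1] with x hx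
      rw [← hx]
      exact (SiuM_4.isNu_iff D _ ν).1 hν x
  · obtain ⟨ν', hν'⟩ := H.lim (Iio a) measurableSet_Iio
    have h1 := nu_restrict H.ker D.bl hΦ.growth (hm measurableSet_Iio) H.nu hν'
    rw [ae_restrict_iff' (hm measurableSet_Iio)]
    filter_upwards [h1] with x hx hxa
    have h2 := hx hxa
    refine ⟨Θ x, H.nu.nonneg H.ker x, hxa, ?_, (SiuM_4.isNu_iff D s Θ).1 H.nu x⟩
    rw [← h2]
    exact (SiuM_4.isNu_iff D _ ν').1 hν' x
  · ext b
    have h1 := hdec a ha Fa hFa' b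
    have h2 : Φ b = hτ.dn.cur b := by rw [hτ.rep]; rfl
    rw [h2, h1, LinearMap.add_apply, LinearMap.sum_apply]
    congr 1
    rw [← sum_enum Fa (fun c => c * (cm_dn hτ.dn Θ c).cur b)]
    rfl
  · have h1 : ∑ i, ENNReal.ofReal (t i) • cm s Θ (t i) = ∑ i, s.restrict (Θ ⁻¹' {t i}) :=
      Finset.sum_congr rfl fun i _ => hres (t i) (hpos i)
    rw [h1, sum_enum Fa (fun c => s.restrict (Θ ⁻¹' {c}))]
    have h2 : ∑ c ∈ Fa, s.restrict (Θ ⁻¹' {c}) = s.restrict (⋃ c ∈ Fa, Θ ⁻¹' {c}) := by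
      rw [Measure.restrict_biUnion_finset]
      · rw [Measure.sum_fintype, Finset.sum_coe_sort Fa (fun c => s.restrict (Θ ⁻¹' {c}))]
      · intro c _ c' _ hcc
        exact Disjoint.preimage _ (by simpa using hcc)
      · intro c
        exact hm (measurableSet_singleton c)
    have h3 : (⋃ c ∈ Fa, Θ ⁻¹' {c} : Set M) =ᵐ[s] ((Θ ⁻¹' Iio a)ᶜ : Set M) := by
      refine eventuallyEq_set.2 ?_
      filter_upwards [hFae] with x hx
      simp only [mem_iUnion, mem_preimage, mem_singleton_iff, exists_prop, mem_compl_iff, mem_Iio,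
        not_lt]
      constructor
      · rintro ⟨c, hc, rfl⟩
        exact (hmem _ hc).2
      · intro hxa
        refine ⟨Θ x, ?_, rfl⟩
        have : Θ x ∈ (Fa : Set ℝ) := by
          rw [hFa']
          exact ⟨hx (ha.trans_le hxa), hxa⟩
        exact this
    rw [h2, Measure.restrict_congr_set h3, add_comm]
    exact (Measure.restrict_add_restrict_compl (hm measurableSet_Iio)).symm

end

end Crest.Agent.R235.Cur3_4
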