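import Crest.Agent.R235.Ip2_288
import Crest.Agent.R240.Lin4

/-!
Row 235 (helper288): COMMON API over `Defs_837`, part 3: taming forms (`seg_of_tame`), openness of
positivity in finite dimensional families, permutations of the triple.
-/

set_option autoImplicit false
set_option maxSynthPendingDepth 3

open Set Function Filter MeasureTheory
open scoped Manifold ContDiff Topology ENNReal

universe u

namespace Crest.Agent.R235

open Crest.Agent.R240 Crest.Agent.R240.Ch Crest.Agent.R240.Int

noncomputable section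

/-! ### pointwise algebra of a tamed structure -/

section Lin

variable {J : E4 →L[ℝ] E4} {F : Bil}

theorem spos_invp (hJ : ∀ v, J (J v) = -v) (hF : Alt F) (ht : ∀ v, v ≠ 0 → 0 < F v (J v)) :
    SPos J (invp J F) where
  alt := hF.invp J
  inv := invp_inv hJ F
  pos v hv := by rw [invp_diag hJ hF]; exact ht v hv

theorem q_self_one (hJ : ∀ v, J (J v) = -v) (hF : SPos J F) : q F F F = 1 := by
  obtain ⟨A, hA⟩ := exists_frame hJ hF
  exact div_self (hA.W_ne hF.alt)

theorem q_anti_nonneg (hJ : ∀ v, J (J v) = -v) (hF : SPos J F) {c : Bil} (hc' : Alt c)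
    (hc : ∀ u v, c (J u) (J v) = - c u v) : 0 ≤ q F c c := by
  obtain ⟨A, hA⟩ := exists_frame hJ hF
  rw [hA.q_eq hF.alt hc' hc', W_anti0 (hc'.pull _) (hc'.pull _) (hA.pull_anti hc)
    (hA.pull_anti hc)]
  nlinarith [sq_nonneg (ent (pull (A : E4 →L[ℝ] E4) c) 0 2),
    sq_nonneg (ent (pull (A : E4 →L[ℝ] E4) c) 0 3)]

theorem q_inv_anti (hJ : ∀ v, J (J v) = -v) (hF : SPos J F) {b c : Bil} (hb' : Alt b)
    (hc' : Alt c) (hb : ∀ u v, b (J u) (J v) = b u v) (hc : ∀ u v, c (J u) (J v) = - c u v) :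
    q F b c = 0 := by
  obtain ⟨A, hA⟩ := exists_frame hJ hF
  rw [hA.q_eq hF.alt hb' hc', W_mixed0 (hc'.pull _) (hA.pull_inv hb) (hA.pull_anti hc), zero_div]

/-- a taming form plus an anti-invariant form: the square is at least that of the invariant part. -/
theorem q_tame_add (hJ : ∀ v, J (J v) = -v) (hF : Alt F) (ht : ∀ v, v ≠ 0 → 0 < F v (J v))
    {N : Bil} (hN' : Alt N) (hN : ∀ u v, N (J u) (J v) = - N u v) (r : ℝ) :
    r ^ 2 ≤ q (invp J F) (r • F + N) (r • F + N) := by
  have hS := spos_invp hJ hF ht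
  set P := invp J F with hP
  have hA' : Alt (r • antip J F + N) := ((hF.antip J).smul r).add hN'
  have hA : ∀ u v, (r • antip J F + N) (J u) (J v) = - (r • antip J F + N) u v := by
    intro u v
    have h1 := antip_anti hJ F u v
    have h2 := hN u v
    simp only [add_apply, smul_apply, smul_eq_mul, h1, h2]
    ring
  have e : r • F + N = r • P + (r • antip J F + N) := by
    rw [← add_assoc, ← smul_add, hP, invp_add_antip]
  have hPinv : ∀ u v, P (J u) (J v) = P u v := invp_inv hJ F
  have hm : q P P (r • antip J F + N) = 0 := q_inv_anti hJ hS hS.alt hA' hPinv hA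
  have hn : 0 ≤ q P (r • antip J F + N) (r • antip J F + N) := q_anti_nonneg hJ hS hA' hA
  rw [e]
  generalize r • antip J F + N = N' at hm hn
  have h1 : q P (r • P) (r • P) = r * (r * q P P P) := by rw [q_smul_left, q_smul_right]
  have h2 : q P (r • P) N' = r * q P P N' := q_smul_left _ _ _ _
  have h3 : q P N' (r • P) = r * q P P N' := by rw [q_comm, h2]
  rw [q_add_left, q_add_right, q_add_right, h1, h2, h3, hm, q_self_one hJ hS]
  nlinarith

end Lin

section Basic

variable {M : Type u} [TopologicalSpace M] [ChartedSpace E4 M] [IsManifold 𝓘(ℝ, E4) ∞ M]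

theorem IsJ.anti_comb {w : Trip M} {J : EndF E4 M} (hJ : IsJ w J) (a b : ℝ) (x : M) (u v : E4) :
    (a • val (w 1) x + b • val (w 2) x) (atJ J x u) (atJ J x v) =
      - (a • val (w 1) x + b • val (w 2) x) u v := by
  have h1 := hJ.anti1 x u v
  have h2 := hJ.anti2 x u v
  simp only [add_apply, smul_apply, smul_eq_mul, h1, h2]
  ring

/-- replacing the first form by a taming one keeps positivity. -/
theorem pos3_update_of_tame {w : Trip M} {J : EndF E4 M} (hw : Pos3 w) (hJ : IsJ w J) {a : Z2 M}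
    (ha : ∀ x v, v ≠ 0 → 0 < val a x v (atJ J x v)) : Pos3 (update w 0 a) := by
  intro x c hc
  have e : ∑ i, c i • val (update w 0 a i) x =
      c 0 • val a x + (c 1 • val (w 1) x + c 2 • val (w 2) x) := by
    rw [Fin.sum_univ_three]
    simp only [update_self, ne_eq, Fin.isValue, one_ne_zero, not_false_eq_true, update_of_ne,
      Fin.reduceEq]
    rw [add_assoc]
  rw [e]
  by_cases h0 : c 0 = 0
  · rw [h0, zero_smul, zero_add]
    have h1 := hw x c hc
    rwa [Fin.sum_univ_three, h0, zero_smul, zero_add] at h1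
  · have h1 := q_tame_add (hJ.sq x) (val_alt a x) (ha x)
      (((val_alt (w 1) x).smul (c 1)).add ((val_alt (w 2) x).smul (c 2)))
      (hJ.anti_comb (c 1) (c 2) x) (c 0)
    have h2 : 0 < c 0 ^ 2 := by positivity
    intro h3
    rw [q, h3, zero_div] at h1
    linarith

theorem IsJ.tame_combo {w : Trip M} {J : EndF E4 M} (hJ : IsJ w J) {a : Z2 M}
    (ha : ∀ x v, v ≠ 0 → 0 < val a x v (atJ J x v)) {s t : ℝ} (hs : 0 ≤ s) (ht : 0 ≤ t)
    (hst : 0 < s + t) (x : M) (v : E4) (hv : v ≠ 0) :
    0 < val (s • w 0 + t • a) x v (atJ J x v) := by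
  have h1 := hJ.tame x v hv
  have h2 := ha x v hv
  have e : val (s • w 0 + t • a) x v (atJ J x v) =
      s * val (w 0) x v (atJ J x v) + t * val a x v (atJ J x v) := rfl
  rw [e]
  rcases hs.lt_or_eq with h | h
  · have := mul_pos h h1
    have := mul_nonneg ht h2.le
    linarith
  · rw [← h] at hst ⊢
    have := mul_pos (by linarith : 0 < t) h2
    linarith

theorem seg_update_zero (w : Trip M) (a : Z2 M) (t : ℝ) :
    seg w (update w 0 a) t = update w 0 ((1 - t) • w 0 + t • a) := by
  funext i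
  by_cases h : i = 0
  · subst h; simp [seg]
  · simp only [seg, update_of_ne h]
    rw [← add_smul, sub_add_cancel, one_smul]

/-- the segment to a taming form is positive. -/
theorem seg_of_tame {w : Trip M} {J : EndF E4 M} (hw : Pos3 w) (hJ : IsJ w J) {a : Z2 M}
    (ha : ∀ x v, v ≠ 0 → 0 < val a x v (atJ J x v)) : Seg w (update w 0 a) := by
  intro t h0 h1
  rw [seg_update_zero]
  exact pos3_update_of_tame hw hJ fun x v hv =>
    hJ.tame_combo ha (by linarith) h0 (by linarith) x v hv

theorem IsJ.update_zero {w : Trip M} {J : EndF E4 M} (hJ : IsJ w J) {a : Z2 M}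
    (ha : ∀ x v, v ≠ 0 → 0 < val a x v (atJ J x v)) : IsJ (update w 0 a) J where
  smooth := hJ.smooth
  sq := hJ.sq
  anti1 x u v := by simpa using hJ.anti1 x u v
  anti2 x u v := by simpa using hJ.anti2 x u v
  tame x v hv := by simpa using ha x v hv


/-! ### permutations -/

theorem Pos3.perm {w : Trip M} (hw : Pos3 w) (σ : Equiv.Perm (Fin 3)) :
    Pos3 (fun i => w (σ i) : Trip M) := by
  intro x c hc
  have e : ∑ i, c i • val (w (σ i)) x = ∑ i, c (σ.symm i) • val (w i) x := by
    rw [← Equiv.sum_comp σ (fun i => c (σ.symm i) • val (w i) x)]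
    simp
  rw [e]
  refine hw x _ fun h0 => hc ?_
  funext i
  have := congrFun h0 (σ i)
  simpa using this

theorem Seg.perm {w w' : Trip M} (h : Seg w w') (σ : Equiv.Perm (Fin 3)) :
    Seg (fun i => w (σ i) : Trip M) (fun i => w' (σ i) : Trip M) := fun t h0 h1 =>
  (h t h0 h1).perm σ

theorem Pos3.of_perm {w : Trip M} (σ : Equiv.Perm (Fin 3)) (h : Pos3 (fun i => w (σ i) : Trip M)) :
    Pos3 w := by
  have := h.perm σ.symm
  simpa using this

theorem Seg.of_perm {w w' : Trip M} (σ : Equiv.Perm (Fin 3))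
    (h : Seg (fun i => w (σ i) : Trip M) (fun i => w' (σ i) : Trip M)) : Seg w w' :=
  fun t h0 h1 => Pos3.of_perm σ (h t h0 h1)

/-! ### openness -/

section Open

variable [CompactSpace M] {ι : Type*} [Fintype ι]

/-- the triple with coefficients `A` in the family `v`. -/
def fam (v : ι → Z2 M) (A : Fin 3 → ι → ℝ) : Trip M := fun i => ∑ p, A i p • v p

omit [CompactSpace M] in
theorem fam_seg (v : ι → Z2 M) (A B : Fin 3 → ι → ℝ) (t : ℝ) :
    seg (fam v A) (fam v B) t = fam v ((1 - t) • A + t • B) := by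
  funext i
  simp only [seg, fam, Finset.smul_sum, smul_smul, ← Finset.sum_add_distrib, ← add_smul]
  rfl

theorem isOpen_fam (v : ι → Z2 M) : IsOpen {A : Fin 3 → ι → ℝ | Pos3 (fam v A)} := by
  rw [isOpen_iff_eventually]
  intro A0 hA0
  have hA0 : Pos3 (fam v A0) := hA0
  set F : F2 E4 M := ((fam v A0 0).1.1 : F2 E4 M) with hF
  have hvol : Vol F := hA0.vol 0
  have hcq : ∀ p p' : ι, Continuous (qG F ((v p).1.1 : F2 E4 M) ((v p').1.1 : F2 E4 M)) :=
    fun p p' => continuous_qG hvol (cont2_coe _) (cont2_coe _)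
  -- the quadratic form
  have hexp : ∀ (a : ι → ℝ) (x : M), q (at2 F x) (∑ p, a p • val (v p) x) (∑ p, a p • val (v p) x)
      = ∑ p, ∑ p', a p * a p' * qG F ((v p).1.1 : F2 E4 M) ((v p').1.1 : F2 E4 M) x := by
    intro a x
    have hl : ∀ (s : Finset ι) (c : Bil), q (at2 F x) (∑ p ∈ s, a p • val (v p) x) c =
        ∑ p ∈ s, a p * q (at2 F x) (val (v p) x) c := by
      intro s c
      classical
      induction s using Finset.induction_on with
      | empty => simp [q, W, ent]
      | insert i s hi ih => rw [Finset.sum_insert hi, Finset.sum_insert hi, q_add_left,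
          q_smul_left, ih]
    rw [hl]
    refine Finset.sum_congr rfl fun p _ => ?_
    rw [q_comm, hl, Finset.mul_sum]
    refine Finset.sum_congr rfl fun p' _ => ?_
    rw [q_comm, mul_assoc]
    rfl
  set f : (Fin 3 → ι → ℝ) × (M × (Fin 3 → ℝ)) → ℝ := fun z =>
    ∑ p, ∑ p', (∑ i, z.2.2 i * z.1 i p) * (∑ i, z.2.2 i * z.1 i p') *
      qG F ((v p).1.1 : F2 E4 M) ((v p').1.1 : F2 E4 M) z.2.1 with hf
  have hfc : Continuous f := by
    refine continuous_finsetSum _ fun p _ => continuous_finsetSum _ fun p' _ => ?_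
    refine Continuous.mul (by fun_prop) ((hcq p p').comp (by fun_prop))
  have hfq : ∀ (A : Fin 3 → ι → ℝ) (x : M) (c : Fin 3 → ℝ), f (A, x, c) =
      q (at2 F x) (∑ i, c i • val (fam v A i) x) (∑ i, c i • val (fam v A i) x) := by
    intro A x c
    have e : ∑ i, c i • val (fam v A i) x = ∑ p, (∑ i, c i * A i p) • val (v p) x := by
      have h1 : ∀ i, val (fam v A i) x = ∑ p, A i p • val (v p) x := by
        intro i
        unfold fam
        rw [val_sum]; rfl
      simp only [h1, Finset.smul_sum, smul_smul, Finset.sum_smul]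
      rw [Finset.sum_comm]
    rw [e, hexp]
  have hK : IsCompact ((univ : Set M) ×ˢ Metric.sphere (0 : Fin 3 → ℝ) 1) :=
    isCompact_univ.prod (isCompact_sphere _ _)
  have hpos : ∀ z ∈ (univ : Set M) ×ˢ Metric.sphere (0 : Fin 3 → ℝ) 1, 0 < f (A0, z) := by
    rintro ⟨x, c⟩ ⟨-, hc⟩
    have hc0 : c ≠ 0 := by
      rintro rfl
      simp at hc
    rw [hfq, ← val_comb]
    exact q_pos_of_mul_pos (hA0.mul_pos_comb 0 hc0 x)
  have hev := hK.eventually_forall_of_forall_eventually (x₀ := A0)
    (P := fun A z => 0 < f (A, z)) (fun z hz => by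
      have := hfc.continuousAt (x := (A0, z))
      exact this.eventually (lt_mem_nhds (hpos z hz)))
  filter_upwards [hev] with A hA
  intro x c hc
  have hn : 0 < ‖c‖ := norm_pos_iff.2 hc
  have h1 := hA (x, ‖c‖⁻¹ • c) ⟨mem_univ _, by
    rw [mem_sphere_zero_iff_norm, norm_smul, norm_inv, norm_norm, inv_mul_cancel₀ hn.ne']⟩
  rw [hfq] at h1
  intro h0
  have e : ∑ i, (‖c‖⁻¹ • c) i • val (fam v A i) x = ‖c‖⁻¹ • ∑ i, c i • val (fam v A i) x := by
    rw [Finset.smul_sum]
    refine Finset.sum_congr rfl fun i _ => ?_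
    rw [smul_smul]; rfl
  rw [e, q, W_smul_left, W_smul_right, h0] at h1
  simp at h1

/-- nearby coefficients are joined by positive segments. -/
theorem fam_seg_near (v : ι → Z2 M) {A0 : Fin 3 → ι → ℝ} (h : Pos3 (fam v A0)) :
    ∃ δ : ℝ, 0 < δ ∧ ∀ A B : Fin 3 → ι → ℝ, dist A A0 < δ → dist B A0 < δ →
      Seg (fam v A) (fam v B) := by
  obtain ⟨δ, hδ, hb⟩ := Metric.isOpen_iff.1 (isOpen_fam v) A0 h
  refine ⟨δ, hδ, fun A B hA hB t h0 h1 => ?_⟩
  rw [fam_seg]
  refine hb ((convex_ball A0 δ) hA hB (by linarith) h0 (by ring))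

/-- small perturbations of a positive triple in finitely many directions. -/
theorem Pos3.near {n : ℕ} {w : Trip M} (hw : Pos3 w) (u : Fin n → Trip M) :
    ∃ δ : ℝ, 0 < δ ∧ ∀ s s' : Fin n → ℝ, (∀ k, |s k| < δ) → (∀ k, |s' k| < δ) →
      Seg (fun i => w i + ∑ k, s k • u k i : Trip M) (fun i => w i + ∑ k, s' k • u k i) := by
  classical
  -- the family: `w i`, `u k i`
  let v : Fin 3 × Option (Fin n) → Z2 M := fun p =>
    match p.2 with
    | none => w p.1
    | some k => u k p.1
  let A : (Fin n → ℝ) → Fin 3 → Fin 3 × Option (Fin n) → ℝ := fun s i p =>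
    if p.1 = i then (match p.2 with
      | none => 1
      | some k => s k) else 0
  have hA : ∀ s, fam v (A s) = fun i => w i + ∑ k, s k • u k i := by
    intro s
    funext i
    unfold fam
    rw [Fintype.sum_prod_type, Finset.sum_eq_single i]
    · rw [Fintype.sum_option]
      simp [A, v]
    · intro j _ hj
      simp [A, hj]
    · intro h; exact absurd (Finset.mem_univ i) h
  have hA0 : Pos3 (fam v (A 0)) := by
    rw [hA]
    simpa using hw
  obtain ⟨δ, hδ, h⟩ := fam_seg_near v hA0
  refine ⟨δ, hδ, fun s s' hs hs' => ?_⟩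
  have hd : ∀ s : Fin n → ℝ, (∀ k, |s k| < δ) → dist (A s) (A 0) < δ := by
    intro s hs
    rw [dist_pi_lt_iff hδ]
    intro i
    rw [dist_pi_lt_iff hδ]
    rintro ⟨j, k⟩
    by_cases hji : j = i
    · cases k with
      | none => simpa [A, hji] using hδ
      | some k =>
        simp only [A, hji, if_true]
        rw [Real.dist_eq]
        simpa using hs k
    · simpa [A, hji] using hδ
  have := h _ _ (hd s hs) (hd s' hs')
  rwa [hA, hA] at this

end Open

end Basic

end

end Crest.Agent.R235
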