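import Crest.Agent.R235.Defs_837

/-!
Row 235 (S0364), helper837: TOP SKELETON.  Every package output is a `Prop` (all manifolds `M`),
and `main_of` derives the theorem from them.
-/

set_option autoImplicit false
set_option maxSynthPendingDepth 3

open Set Function Filter MeasureTheory
open scoped Manifold ContDiff Topology

universe u

namespace Crest.Agent.R235

open Crest.Agent.R240 Crest.Agent.R240.Ch

noncomputable section

/-- the theorem in terms of polygonal paths. -/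
def MAIN : Prop :=
  ∀ (M : Type u) [TopologicalSpace M] [T2Space M] [CompactSpace M] [ConnectedSpace M]
    [ChartedSpace E4 M] [IsManifold 𝓘(ℝ, E4) ∞ M] (w : Trip M), Pos3 w →
    ∃ w' : Trip M, Joined w w' ∧ HK w'

/-! ### topology (TOP, IND, LAT, SWC for the cup ring) -/


/-- the signature of `H²` is `(3, *)`: a class orthogonal to `w` has square `≤ 0`, `= 0` only
for the class `0` (`b⁺ = 3`); consequence of `DICH`. -/
def BPLUS : Prop :=
  ∀ (M : Type u) [TopologicalSpace M] [T2Space M] [CompactSpace M] [ConnectedSpace M]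
    [ChartedSpace E4 M] [IsManifold 𝓘(ℝ, E4) ∞ M] (w : Trip M), Pos3 w →
    ∀ c : H2 M, (∀ i, ip (w 0) c (cls (w i)) = 0) → c ≠ 0 → ip (w 0) c c < 0

/-! ### Seiberg-Witten (SWAN, IND, FD) -/

/-- ROOT: no positive triple is orthogonal to a root. -/
def ROOT : Prop :=
  ∀ (M : Type u) [TopologicalSpace M] [T2Space M] [CompactSpace M] [ConnectedSpace M]
    [ChartedSpace E4 M] [IsManifold 𝓘(ℝ, E4) ∞ M] (w : Trip M), Pos3 w → K3Type (w 0) →
    ∀ d ∈ Root (w 0), ∃ i, ip (w 0) d (cls (w i)) ≠ 0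

/-! ### currents and curves (CUR, REG, ADJ) -/

/-- Hahn-Banach: a class positive on all non-zero positive closed currents is a taming class. -/
def HBN : Prop :=
  ∀ (M : Type u) [TopologicalSpace M] [T2Space M] [CompactSpace M] [ConnectedSpace M]
    [ChartedSpace E4 M] [IsManifold 𝓘(ℝ, E4) ∞ M] (w : Trip M) (J : EndF E4 M), IsJ w J →
    ∀ c : Z2 M, (∀ S : X2 M →ₗ[ℝ] ℝ, PCur J S → S ≠ 0 → 0 < S c.1) →
    ∃ a : Z2 M, cls a = cls c ∧ ∀ x v, v ≠ 0 → 0 < val a x v (atJ J x v)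

/-- the pair determines `J`. -/
def EXJ : Prop :=
  ∀ (M : Type u) [TopologicalSpace M] [T2Space M] [CompactSpace M] [ConnectedSpace M]
    [ChartedSpace E4 M] [IsManifold 𝓘(ℝ, E4) ∞ M] (w : Trip M), Pos3 w → ∃ J, IsJ w J

/-- every current has a class. -/
def CLS : Prop :=
  ∀ (M : Type u) [TopologicalSpace M] [T2Space M] [CompactSpace M] [ConnectedSpace M]
    [ChartedSpace E4 M] [IsManifold 𝓘(ℝ, E4) ∞ M] (w : Trip M) (J : EndF E4 M), Pos3 w → IsJ w J →
    ∀ S : X2 M →ₗ[ℝ] ℝ, PCur J S → ∃ s : H2 M, ∀ b : Z2 M, S b.1 = ip (w 0) s (cls b)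

/-- NEGK (K3 type): a positive closed current of negative square contains a multiple of an
embedded `J`-sphere whose class is a root. -/
def NEGK : Prop :=
  ∀ (M : Type u) [TopologicalSpace M] [T2Space M] [CompactSpace M] [ConnectedSpace M]
    [ChartedSpace E4 M] [IsManifold 𝓘(ℝ, E4) ∞ M] (w : Trip M) (J : EndF E4 M), Pos3 w → IsJ w J →
    K3Type (w 0) → ∀ (S : X2 M →ₗ[ℝ] ℝ) (s : H2 M), PCur J S →
    (∀ b : Z2 M, S b.1 = ip (w 0) s (cls b)) → ip (w 0) s s < 0 →
    ∃ (σ : E3 → M) (d : H2 M) (t : ℝ) (S' : X2 M →ₗ[ℝ] ℝ), JSph w σ d ∧ d ∈ Root (w 0) ∧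
      0 < t ∧ ip (w 0) s d < 0 ∧ PCur J S' ∧
      ∀ b : X2 M, S b = t * sphI σ (b.1 : F2 E4 M) + S' b


/-- `J`-spheres: distinct embedded `J`-spheres have intersection number `≥ 0`, and are disjoint if
it is `0`. -/
def DISJ : Prop :=
  ∀ (M : Type u) [TopologicalSpace M] [T2Space M] [CompactSpace M] [ConnectedSpace M]
    [ChartedSpace E4 M] [IsManifold 𝓘(ℝ, E4) ∞ M] (w : Trip M), Pos3 w →
    ∀ (σ τ : E3 → M) (d e : H2 M), JSph w σ d → JSph w τ e → d ≠ e → 0 ≤ ip (w 0) d e ∧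
      (ip (w 0) d e = 0 → ∀ y z : E3, y ≠ 0 → z ≠ 0 → σ y ≠ τ z)


/-! ### class moving (MOVE) -/






/-! ### existence of `J`-spheres for simple roots -/

/-- SPH: a simple root perpendicular to the pair is an embedded `J`-sphere. -/
def SPH : Prop :=
  ∀ (M : Type u) [TopologicalSpace M] [T2Space M] [CompactSpace M] [ConnectedSpace M]
    [ChartedSpace E4 M] [IsManifold 𝓘(ℝ, E4) ∞ M] (w : Trip M), Pos3 w → K3Type (w 0) →
    ∀ d ∈ Root (w 0), ip (w 0) d (cls (w 1)) = 0 → ip (w 0) d (cls (w 2)) = 0 →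
    0 < ip (w 0) d (cls (w 0)) →
    (∀ d' ∈ Root (w 0), ip (w 0) d' (cls (w 1)) = 0 → ip (w 0) d' (cls (w 2)) = 0 →
      0 < ip (w 0) d' (cls (w 0)) → d' ≠ d → 0 ≤ ip (w 0) d' d) →
    ∃ σ : E3 → M, JSph w σ d

/-! ### geometry (FIB, KUM, HKP) -/




/-! ### assembly -/


end

end Crest.Agent.R235
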