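import Mathlib
import Crest.Agent.R235.Top_837
import Crest.Agent.R240.HB
import Crest.Agent.R235.Ip3_288

-- ▼ part R235/Hbn_195
section

/-!
Row 235 (S0364), helper195: HBN (Hahn-Banach, Sullivan): a class which is positive on all non-zero
positive closed currents contains a taming form.
-/

set_option autoImplicit false
set_option maxSynthPendingDepth 3

open Set Function Filter MeasureTheory
open scoped Manifold ContDiff Topology

universe u

namespace Crest.Agent.R235.Hbn_195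

open Crest.Agent.R240 Crest.Agent.R240.Ch Crest.Agent.R235

noncomputable section

section A

variable {M : Type u} [TopologicalSpace M] [ChartedSpace E4 M] [IsManifold 𝓘(ℝ, E4) ∞ M]

/-- `b(v, J v)` in a chart. -/
lemma rep_JJ (J : EndF E4 M) (b : F2 E4 M) (p : M) {y : E4} (hy : y ∈ (chartAt E4 p).target)
    (v : E4) : rep p b y v (repJ p J y v) =
      at2 b ((chartAt E4 p).symm y) (tcc p ((chartAt E4 p).symm y) ((chartAt E4 p).symm y) v)
        (atJ J ((chartAt E4 p).symm y)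
          (tcc p ((chartAt E4 p).symm y) ((chartAt E4 p).symm y) v)) := by
  rw [rep_apply, repJ_apply, tcc_cancel' (symm_mem hy)]

lemma at_JJ (J : EndF E4 M) (b : F2 E4 M) {p x : M} (hx : x ∈ (chartAt E4 p).source) (v : E4) :
    at2 b x v (atJ J x v) = rep p b (chartAt E4 p x) (tcc x p x v)
      (repJ p J (chartAt E4 p x) (tcc x p x v)) := by
  rw [apply_eq_rep hx, apply_eq_repJ hx]

/-- local order unit. -/
lemma unit_local {J : EndF E4 M} (hJs : SmoothJ J) {a b : F2 E4 M} (ha : Smooth2 a)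
    (hb : Smooth2 b) (hpos : ∀ x v, v ≠ 0 → 0 < at2 a x v (atJ J x v)) (p : M) :
    ∃ U ∈ 𝓝 p, ∃ r : ℝ, 0 ≤ r ∧
      ∀ x ∈ U, ∀ v, at2 b x v (atJ J x v) ≤ r * at2 a x v (atJ J x v) := by
  have hy0 : chartAt E4 p p ∈ (chartAt E4 p).target :=
    (chartAt E4 p).map_source (mem_chart_source E4 p)
  obtain ⟨ρ, hρ, hball⟩ := Metric.isOpen_iff.1 (chartAt E4 p).open_target _ hy0
  set K : Set E4 := Metric.closedBall (chartAt E4 p p) (ρ / 2) with hK
  have hKt : K ⊆ (chartAt E4 p).target := fun y hy =>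
    hball (Metric.mem_ball.2 (lt_of_le_of_lt (Metric.mem_closedBall.1 hy) (by linarith)))
  have hKc : IsCompact K := isCompact_closedBall _ _
  set S : Set E4 := Metric.sphere (0 : E4) 1 with hS
  have hSc : IsCompact S := isCompact_sphere _ _
  have hcont : ∀ c : F2 E4 M, Smooth2 c →
      ContinuousOn (fun z : E4 × E4 => rep p c z.1 z.2 (repJ p J z.1 z.2)) (K ×ˢ S) := by
    intro c hc
    have h1 : ContinuousOn (fun z : E4 × E4 => rep p c z.1) (K ×ˢ S) :=
      ((hc.2 p).continuousOn.mono hKt).comp continuousOn_fst (fun z hz => hz.1)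
    have h2 : ContinuousOn (fun z : E4 × E4 => repJ p J z.1) (K ×ˢ S) :=
      ((hJs p).continuousOn.mono hKt).comp continuousOn_fst (fun z hz => hz.1)
    exact (h1.clm_apply continuousOn_snd).clm_apply (h2.clm_apply continuousOn_snd)
  have hposK : ∀ z ∈ K ×ˢ S, 0 < rep p a z.1 z.2 (repJ p J z.1 z.2) := by
    rintro ⟨y, v⟩ ⟨hy, hv⟩
    rw [rep_JJ J a p (hKt hy)]
    apply hpos
    intro h0
    have h1 := tcc_cancel' (E := E4) (symm_mem (hKt hy))
      (tcc p ((chartAt E4 p).symm y) ((chartAt E4 p).symm y) v)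
    have h2 := tcc_cancel (E := E4) (symm_mem (hKt hy)) v
    rw [h0, map_zero] at h2
    rw [← h2] at hv
    simp [hS] at hv
  have hKS : IsCompact (K ×ˢ S) := hKc.prod hSc
  obtain ⟨m, hm, hmle⟩ : ∃ m : ℝ, 0 < m ∧
      ∀ z ∈ K ×ˢ S, m ≤ rep p a z.1 z.2 (repJ p J z.1 z.2) := by
    rcases (K ×ˢ S).eq_empty_or_nonempty with h | h
    · exact ⟨1, one_pos, fun z hz => by rw [h] at hz; exact hz.elim⟩
    · obtain ⟨z0, hz0, hmin⟩ := hKS.exists_isMinOn h (hcont a ha)
      exact ⟨_, hposK z0 hz0, fun z hz => hmin hz⟩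
  obtain ⟨C, hC⟩ := hKS.exists_bound_of_continuousOn (hcont b hb)
  have hC' : ∀ z ∈ K ×ˢ S, rep p b z.1 z.2 (repJ p J z.1 z.2) ≤
      (|C| / m) * rep p a z.1 z.2 (repJ p J z.1 z.2) := by
    intro z hz
    have h1 := (le_abs_self _).trans ((hC z hz).trans (le_abs_self C))
    refine h1.trans ?_
    rw [div_mul_eq_mul_div, le_div_iff₀ hm]
    exact mul_le_mul_of_nonneg_left (hmle z hz) (abs_nonneg C)
  refine ⟨(chartAt E4 p).source ∩ (chartAt E4 p) ⁻¹' K, ?_, |C| / m, by positivity, ?_⟩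
  · refine inter_mem ((chartAt E4 p).open_source.mem_nhds (mem_chart_source E4 p)) ?_
    exact (chartAt E4 p).continuousAt (mem_chart_source E4 p)
      (Metric.closedBall_mem_nhds _ (by linarith))
  · rintro x ⟨hx, hxK⟩ v
    rw [at_JJ J a hx, at_JJ J b hx]
    set u : E4 := tcc x p x v with hu
    rcases eq_or_ne u 0 with h0 | h0
    · rw [h0]; simp
    · have hn : 0 < ‖u‖ := norm_pos_iff.2 h0
      have h1 := hC' (chartAt E4 p x, ‖u‖⁻¹ • u) ⟨hxK, by
        rw [hS, mem_sphere_zero_iff_norm, norm_smul, norm_inv, norm_norm, inv_mul_cancel₀ hn.ne']⟩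
      simp only [map_smul, smul_apply, smul_eq_mul] at h1
      have h2 : ∀ r : ℝ, ‖u‖ ^ 2 * (‖u‖⁻¹ * (‖u‖⁻¹ * r)) = r := by
        intro r; field_simp
      have h3 := mul_le_mul_of_nonneg_left h1 (sq_nonneg ‖u‖)
      rw [h2] at h3
      calc _ ≤ _ := h3
        _ = _ := by
          rw [show ‖u‖ ^ 2 * (|C| / m * (‖u‖⁻¹ * (‖u‖⁻¹ *
            (rep p a (chartAt E4 p x) u) (repJ p J (chartAt E4 p x) u)))) =
            |C| / m * (‖u‖ ^ 2 * (‖u‖⁻¹ * (‖u‖⁻¹ *
            (rep p a (chartAt E4 p x) u) (repJ p J (chartAt E4 p x) u)))) by ring, h2]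

/-- the taming form is an order unit. -/
lemma unit_global [CompactSpace M] {J : EndF E4 M} (hJs : SmoothJ J) {a b : F2 E4 M}
    (ha : Smooth2 a) (hb : Smooth2 b) (hpos : ∀ x v, v ≠ 0 → 0 < at2 a x v (atJ J x v)) :
    ∃ r : ℝ, 0 ≤ r ∧ ∀ x v, at2 b x v (atJ J x v) ≤ r * at2 a x v (atJ J x v) := by
  choose U hU r hr hle using fun p => unit_local hJs ha hb hpos p
  obtain ⟨t, ht⟩ := isCompact_univ.elim_nhds_subcover U (fun x _ => hU x)
  refine ⟨∑ p ∈ t, r p, Finset.sum_nonneg fun p _ => hr p, fun x v => ?_⟩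
  have hx : x ∈ ⋃ p ∈ t, U p := ht.2 (mem_univ x)
  obtain ⟨p, hp, hxp⟩ := mem_iUnion₂.1 hx
  refine (hle p x hxp v).trans ?_
  have h1 : r p ≤ ∑ p ∈ t, r p := Finset.single_le_sum (fun p _ => hr p) hp
  have h2 : 0 ≤ at2 a x v (atJ J x v) := by
    rcases eq_or_ne v 0 with h | h
    · rw [h]; simp
    · exact (hpos x v h).le
  exact mul_le_mul_of_nonneg_right h1 h2

end A

section B

set_option linter.unusedSectionVars false

variable {M : Type u} [TopologicalSpace M] [T2Space M] [CompactSpace M] [ConnectedSpace M]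
  [ChartedSpace E4 M] [IsManifold 𝓘(ℝ, E4) ∞ M]

/-- `b(v, J v)` of an element of `X2 M`. -/
def ev (J : EndF E4 M) (x : M) (v : E4) (b : X2 M) : ℝ :=
  at2 (b.1 : F2 E4 M) x v (atJ J x v)

lemma ev_add (J : EndF E4 M) (x : M) (v : E4) (b c : X2 M) :
    ev J x v (b + c) = ev J x v b + ev J x v c := rfl

lemma ev_sub (J : EndF E4 M) (x : M) (v : E4) (b c : X2 M) :
    ev J x v (b - c) = ev J x v b - ev J x v c := rfl

lemma ev_smul (J : EndF E4 M) (x : M) (v : E4) (r : ℝ) (b : X2 M) :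
    ev J x v (r • b) = r * ev J x v b := rfl

lemma ev_neg (J : EndF E4 M) (x : M) (v : E4) (b : X2 M) :
    ev J x v (-b) = - ev J x v b := rfl

lemma ev_zero (J : EndF E4 M) (x : M) (v : E4) : ev J x v (0 : X2 M) = 0 := rfl

/-- exact forms are closed. -/
lemma closed_of_ex {b : X2 M} (hb : b ∈ EX2 M) : b ∈ Z2 M := by
  obtain ⟨s, hs, hsa⟩ := isEx_iff.1 (show IsEx (b : F2 E4 M) from hb)
  rw [mem_Z2]
  have h : (b.1 : F2 E4 M) = dG s := hsa
  rw [h]
  exact Closed2.dG hs

theorem hbn_core (a0 : X2 M) (J : EndF E4 M) (hJs : SmoothJ J)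
    (hpos : ∀ x v, v ≠ 0 → 0 < ev J x v a0)
    (hsq : ∀ x v, atJ J x (atJ J x v) = -v)
    (c : X2 M) (hc : ∀ S : X2 M →ₗ[ℝ] ℝ, PCur J S → S ≠ 0 → 0 < S c) :
    ∃ e ∈ EX2 M, ∀ x v, v ≠ 0 → 0 < ev J x v (c + e) := by
  have hev0 : ∀ (x : M) (b : X2 M), ev J x 0 b = 0 := by
    intro x b; unfold ev; simp
  have hpos0 : ∀ x v, 0 ≤ ev J x v a0 := by
    intro x v
    rcases eq_or_ne v 0 with h | h
    · rw [h, hev0]
    · exact (hpos x v h).le
  have hunit : ∀ b : X2 M, ∃ r : ℝ, 0 ≤ r ∧ ∀ x v, ev J x v b ≤ r * ev J x v a0 :=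
    fun b => unit_global hJs a0.2 b.2 hpos
  by_contra hcon
  push Not at hcon
  obtain ⟨Φ, hΦ⟩ := HB.exists_linear_of_rel
    (fun (x : X2 M) (r : ℝ) => ∃ e ∈ EX2 M, ∃ s : ℝ, 0 ≤ s ∧
      ∀ (y : M) (v : E4), ev J y v (x - s • c - e) ≤ r * ev J y v a0)
    (by
      intro x
      obtain ⟨r, -, hr⟩ := hunit x
      exact ⟨r, 0, (EX2 M).zero_mem, 0, le_rfl, by simpa using hr⟩)
    (by
      rintro x y r s ⟨e, he, t, ht, h1⟩ ⟨e', he', t', ht', h2⟩
      refine ⟨e + e', (EX2 M).add_mem he he', t + t', add_nonneg ht ht', fun z v => ?_⟩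
      have h3 : x + y - (t + t') • c - (e + e') = (x - t • c - e) + (y - t' • c - e') := by
        rw [add_smul]; abel
      rw [h3, ev_add, add_mul]
      exact add_le_add (h1 z v) (h2 z v))
    (by
      rintro k hk x r ⟨e, he, t, ht, h1⟩
      refine ⟨k • e, (EX2 M).smul_mem k he, k * t, mul_nonneg hk.le ht, fun z v => ?_⟩
      have h3 : k • x - (k * t) • c - k • e = k • (x - t • c - e) := by
        rw [smul_sub, smul_sub, smul_smul]
      rw [h3, ev_smul, mul_assoc]
      exact mul_le_mul_of_nonneg_left (h1 z v) hk.le)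
    (by
      rintro r ⟨e, he, s, hs, h1⟩
      by_contra hr
      push Not at hr
      -- `s c + e` is strictly positive
      have h2 : ∀ (y : M) (v : E4), v ≠ 0 → 0 < ev J y v (s • c + e) := by
        intro y v hv
        have h3 := h1 y v
        have h4 : (0 : X2 M) - s • c - e = -(s • c + e) := by abel
        rw [h4, ev_neg] at h3
        have := mul_neg_of_neg_of_pos hr (hpos y v hv)
        linarith
      rcases hs.lt_or_eq with hs0 | hs0
      · obtain ⟨x, v, hv, hle⟩ := hcon (s⁻¹ • e) ((EX2 M).smul_mem _ he)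
        have h5 := h2 x v hv
        have h6 : s • c + e = s • (c + s⁻¹ • e) := by
          rw [smul_add, smul_smul, mul_inv_cancel₀ hs0.ne', one_smul]
        rw [h6, ev_smul] at h5
        have := mul_nonpos_of_nonneg_of_nonpos hs hle
        linarith
      · -- an exact strictly positive form
        rw [← hs0] at h2
        simp only [zero_smul, zero_add] at h2
        obtain ⟨k, hk, hk2⟩ : ∃ k : ℝ, 0 ≤ k ∧
            ∀ x v, ev J x v (-c) ≤ k * ev J x v e := by
          exact unit_global hJs e.2 (-c).2 h2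
        obtain ⟨x, v, hv, hle⟩ := hcon ((k + 1) • e) ((EX2 M).smul_mem _ he)
        have h5 := h2 x v hv
        have h6 := hk2 x v
        rw [ev_neg] at h6
        rw [ev_add, ev_smul] at hle
        linarith)
  -- the current
  have hex : ∀ b ∈ EX2 M, Φ b = 0 := by
    intro b hb
    have h1 := hΦ b 0 ⟨b, hb, 0, le_rfl, fun y v => by
      rw [zero_smul, sub_zero, sub_self, ev_zero, zero_mul]⟩
    have h2 := hΦ (-b) 0 ⟨-b, (EX2 M).neg_mem hb, 0, le_rfl, fun y v => by
      rw [zero_smul, sub_zero, sub_self, ev_zero, zero_mul]⟩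
    rw [map_neg] at h2
    linarith
  have hnn : ∀ b : X2 M, (∀ x v, 0 ≤ ev J x v b) → 0 ≤ Φ b := by
    intro b hb
    have h1 := hΦ (-b) 0 ⟨0, (EX2 M).zero_mem, 0, le_rfl, fun y v => by
      rw [zero_smul, sub_zero, sub_zero, ev_neg, zero_mul]
      linarith [hb y v]⟩
    rw [map_neg] at h1
    linarith
  have hS : PCur J Φ := by
    refine ⟨fun b b' hbb => ?_, fun b hb => ?_, fun b hb => hex b hb⟩
    · have h0 : ∀ x v, ev J x v (b - b') = 0 := by
        intro x v
        rw [ev_sub]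
        have h1 : ev J x v b' = at2 (b'.1 : F2 E4 M) x v (atJ J x v) := rfl
        rw [h1, ← hbb x, invp_apply, hsq]
        have h2 : at2 (b.1 : F2 E4 M) x (atJ J x v) (-v) = at2 (b.1 : F2 E4 M) x v (atJ J x v) := by
          have h3 : Alt (at2 (b.1 : F2 E4 M) x) := b.2.1 x
          rw [map_neg, h3.swap]; ring
        rw [h2]
        unfold ev
        ring
      have h1 := hnn (b - b') (fun x v => (h0 x v).ge)
      have h2 := hnn (-(b - b')) (fun x v => by rw [ev_neg, h0, neg_zero])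
      rw [map_neg, map_sub] at h2
      rw [map_sub] at h1
      linarith
    · exact hnn b (fun x v => (hb x).nonneg v)
  have hne : Φ ≠ 0 := by
    intro h
    have h1 := hΦ (-a0) (-1) ⟨0, (EX2 M).zero_mem, 0, le_rfl, fun y v => by
      rw [zero_smul, sub_zero, sub_zero, ev_neg, neg_one_mul]⟩
    rw [h] at h1
    simp only [LinearMap.zero_apply] at h1
    linarith
  have h1 := hc Φ hS hne
  have h2 := hΦ c 0 ⟨0, (EX2 M).zero_mem, 1, zero_le_one, fun y v => by
    rw [one_smul, sub_self, sub_zero, ev_zero, zero_mul]⟩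
  linarith

end B

/-- HBN. -/
theorem hbn : HBN.{u} := by
  intro M i1 i2 i3 i4 i5 i6 w J hJ c hc
  have hpos : ∀ (x : M) (v : E4), v ≠ 0 → 0 < ev J x v (w 0).1 := fun x v hv => hJ.tame x v hv
  obtain ⟨e, he, h⟩ := hbn_core (w 0).1 J hJ.smooth hpos hJ.sq c.1 hc
  have hz : e ∈ Z2 M := closed_of_ex he
  obtain ⟨a, ha⟩ : ∃ a : Z2 M, a = c + (⟨e, hz⟩ : Z2 M) := ⟨_, rfl⟩
  have ha1 : a.1 = c.1 + e := by rw [ha]; rfl
  refine ⟨a, ?_, fun x v hv => ?_⟩
  · rw [ha, map_add]
    have h0 : cls (⟨e, hz⟩ : Z2 M) = 0 := (Submodule.Quotient.mk_eq_zero _).2 he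
    rw [h0, add_zero]
  · have h2 := h x v hv
    rw [← ha1] at h2
    exact h2

end

end Crest.Agent.R235.Hbn_195
end

-- ▼ part R235/CurB_288

/-!
Row 235 (helper288): positive closed currents (`PCur`): sign on semi-positive forms, mass bound,
`S ≠ 0 → 0 < S (w 0)`, cone operations, compactness of the normalised currents `SS w J` (pointwise
convergence), Krein-Milman (`exists_extreme`), splitting at extreme points (`extreme_split`).
-/

set_option autoImplicit false
set_option maxSynthPendingDepth 3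

open Set Function Filter MeasureTheory
open scoped Manifold ContDiff Topology

universe u

namespace Crest.Agent.R235.CurB_288

open Crest.Agent.R240 Crest.Agent.R240.Ch Crest.Agent.R240.Int Crest.Agent.R235
open Crest.Agent.R235.Hbn_195

noncomputable section

/-! ### positive closed currents -/

section Cur

variable {M : Type u} [TopologicalSpace M] [T2Space M] [CompactSpace M] [ConnectedSpace M]
  [ChartedSpace E4 M] [IsManifold 𝓘(ℝ, E4) ∞ M]

omit [T2Space M] [CompactSpace M] [ConnectedSpace M] in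
theorem nonneg_of_ev {J : EndF E4 M} (hJs : SmoothJ J) (hsq : ∀ x v, atJ J x (atJ J x v) = -v)
    {S : X2 M →ₗ[ℝ] ℝ} (hS : PCur J S) {b : X2 M}
    (hb : ∀ x v, 0 ≤ at2 (b.1 : F2 E4 M) x v (atJ J x v)) : 0 ≤ S b := by
  have h1 : S b = S (invM J hJs b) := hS.inv b (invM J hJs b) fun x => rfl
  rw [h1]
  refine hS.nonneg _ fun x => ⟨?_, ?_, fun v => ?_⟩
  · exact Alt.invp (b.2.1 x) _
  · exact invp_inv (hsq x) _
  · change 0 ≤ invp (atJ J x) (at2 (b.1 : F2 E4 M) x) v (atJ J x v)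
    rw [invp_diag (hsq x) (b.2.1 x)]
    exact hb x v

omit [T2Space M] [ConnectedSpace M] in
/-- mass bound. -/
theorem mass_bound {w : Trip M} {J : EndF E4 M} (hJ : IsJ w J) (b : X2 M) :
    ∃ r : ℝ, 0 ≤ r ∧ ∀ S : X2 M →ₗ[ℝ] ℝ, PCur J S → |S b| ≤ r * S (w 0).1 := by
  obtain ⟨r1, hr1, h1⟩ := unit_global hJ.smooth (smooth2_coe (w 0)) b.2 hJ.tame
  obtain ⟨r2, hr2, h2⟩ := unit_global hJ.smooth (smooth2_coe (w 0)) (-b).2 hJ.tame
  refine ⟨max r1 r2, le_max_of_le_left hr1, fun S hS => ?_⟩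
  have h0 : 0 ≤ S (w 0).1 := nonneg_of_ev hJ.smooth hJ.sq hS fun x v => by
    rcases eq_or_ne v 0 with h | h
    · rw [h]; simp
    · exact (hJ.tame x v h).le
  have h3 : 0 ≤ S (r1 • (w 0).1 - b) := nonneg_of_ev hJ.smooth hJ.sq hS fun x v => by
    have := h1 x v
    change 0 ≤ r1 * at2 ((w 0).1.1 : F2 E4 M) x v (atJ J x v) - at2 (b.1 : F2 E4 M) x v (atJ J x v)
    linarith
  have h4 : 0 ≤ S (r2 • (w 0).1 - (-b)) := nonneg_of_ev hJ.smooth hJ.sq hS fun x v => by
    have := h2 x v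
    change 0 ≤ r2 * at2 ((w 0).1.1 : F2 E4 M) x v (atJ J x v) -
      at2 ((-b : X2 M).1 : F2 E4 M) x v (atJ J x v)
    linarith
  rw [map_sub, map_smul, smul_eq_mul] at h3 h4
  rw [map_neg] at h4
  have h5 : r1 * S (w 0).1 ≤ max r1 r2 * S (w 0).1 := mul_le_mul_of_nonneg_right (le_max_left _ _) h0
  have h6 : r2 * S (w 0).1 ≤ max r1 r2 * S (w 0).1 := mul_le_mul_of_nonneg_right (le_max_right _ _) h0
  rw [abs_le]
  constructor <;> linarith

omit [T2Space M] [ConnectedSpace M] in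
theorem cur_pos {w : Trip M} {J : EndF E4 M} (hJ : IsJ w J) {S : X2 M →ₗ[ℝ] ℝ} (hS : PCur J S)
    (h0 : S ≠ 0) : 0 < S (w 0).1 := by
  by_contra h
  apply h0
  ext b
  obtain ⟨r, hr, h1⟩ := mass_bound hJ b
  have h2 := h1 S hS
  have h3 : r * S (w 0).1 ≤ 0 := mul_nonpos_of_nonneg_of_nonpos hr (not_lt.1 h)
  have h4 : |S b| = 0 := le_antisymm (h2.trans h3) (abs_nonneg _)
  simpa using h4

omit [T2Space M] [CompactSpace M] [ConnectedSpace M] in
theorem PCur.add {J : EndF E4 M} {S T : X2 M →ₗ[ℝ] ℝ} (hS : PCur J S) (hT : PCur J T) :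
    PCur J (S + T) where
  inv b c h := by rw [LinearMap.add_apply, LinearMap.add_apply, hS.inv b c h, hT.inv b c h]
  nonneg b h := add_nonneg (hS.nonneg b h) (hT.nonneg b h)
  closed b h := by rw [LinearMap.add_apply, hS.closed b h, hT.closed b h, add_zero]

omit [T2Space M] [CompactSpace M] [ConnectedSpace M] in
theorem PCur.smul {J : EndF E4 M} {S : X2 M →ₗ[ℝ] ℝ} (hS : PCur J S) {r : ℝ} (hr : 0 ≤ r) :
    PCur J (r • S) where
  inv b c h := by rw [LinearMap.smul_apply, LinearMap.smul_apply, hS.inv b c h]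
  nonneg b h := mul_nonneg hr (hS.nonneg b h)
  closed b h := by rw [LinearMap.smul_apply, hS.closed b h, smul_zero]

omit [T2Space M] [CompactSpace M] [ConnectedSpace M] in
/-- currents kill the pair. -/
theorem cur_anti {w : Trip M} {J : EndF E4 M} (hJ : IsJ w J) {S : X2 M →ₗ[ℝ] ℝ}
    (hS : ∀ b c : X2 M, (∀ x, invp (atJ J x) (at2 (b.1 : F2 E4 M) x) = at2 (c.1 : F2 E4 M) x) →
      S b = S c) {i : Fin 3} (hi : i ≠ 0) : S (w i).1 = 0 := by
  have h : S (w i).1 = S 0 := hS _ _ fun x => by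
    have h1 : invp (atJ J x) (val (w i) x) = 0 := by
      apply invp_of_anti
      intro u v
      fin_cases i
      · exact absurd rfl hi
      · exact hJ.anti1 x u v
      · exact hJ.anti2 x u v
    exact h1
  rw [h, map_zero]

/-- the normalised currents. -/
def SS (w : Trip M) (J : EndF E4 M) : Set (X2 M → ℝ) :=
  {f | (∀ b c, f (b + c) = f b + f c) ∧ (∀ (r : ℝ) b, f (r • b) = r * f b) ∧
    (∀ b c : X2 M, (∀ x, invp (atJ J x) (at2 (b.1 : F2 E4 M) x) = at2 (c.1 : F2 E4 M) x) →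
      f b = f c) ∧
    (∀ b : X2 M, PosG J (b.1 : F2 E4 M) → 0 ≤ f b) ∧
    (∀ b : X2 M, IsEx (b.1 : F2 E4 M) → f b = 0) ∧ f (w 0).1 = 1}

omit [T2Space M] [CompactSpace M] [ConnectedSpace M] in
theorem mem_SS {w : Trip M} {J : EndF E4 M} {f : X2 M → ℝ} :
    f ∈ SS w J ↔ ∃ S : X2 M →ₗ[ℝ] ℝ, PCur J S ∧ S (w 0).1 = 1 ∧ (S : X2 M → ℝ) = f := by
  constructor
  · rintro ⟨h1, h2, h3, h4, h5, h6⟩
    exact ⟨{ toFun := f, map_add' := h1, map_smul' := h2 }, ⟨h3, h4, h5⟩, h6, rfl⟩
  · rintro ⟨S, hS, h1, rfl⟩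
    exact ⟨fun b c => map_add S b c, fun r b => map_smul S r b, hS.inv, hS.nonneg, hS.closed, h1⟩

omit [T2Space M] [ConnectedSpace M] in
theorem isCompact_SS {w : Trip M} {J : EndF E4 M} (hJ : IsJ w J) : IsCompact (SS w J) := by
  choose r hr h using fun b : X2 M => mass_bound hJ b
  have hK : IsCompact (Set.pi univ fun b : X2 M => Icc (-(r b)) (r b)) :=
    isCompact_univ_pi fun b => isCompact_Icc
  refine hK.of_isClosed_subset ?_ ?_
  · have e : SS w J = (⋂ b : X2 M, ⋂ c : X2 M, {f | f (b + c) = f b + f c}) ∩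
        ((⋂ r : ℝ, ⋂ b : X2 M, {f | f (r • b) = r * f b}) ∩
        ((⋂ b : X2 M, ⋂ c : X2 M, ⋂ _ : ∀ x, invp (atJ J x) (at2 (b.1 : F2 E4 M) x) =
          at2 (c.1 : F2 E4 M) x, {f | f b = f c}) ∩
        ((⋂ b : X2 M, ⋂ _ : PosG J (b.1 : F2 E4 M), {f | 0 ≤ f b}) ∩
        ((⋂ b : X2 M, ⋂ _ : IsEx (b.1 : F2 E4 M), {f | f b = 0}) ∩
          {f | f (w 0).1 = 1})))) := by
      ext f
      simp only [SS, mem_ofPred_eq, mem_inter_iff, mem_iInter]
    rw [e]
    refine IsClosed.inter (isClosed_iInter fun b => isClosed_iInter fun c => ?_)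
      (IsClosed.inter (isClosed_iInter fun r => isClosed_iInter fun b => ?_)
      (IsClosed.inter (isClosed_iInter fun b => isClosed_iInter fun c => isClosed_iInter fun _ => ?_)
      (IsClosed.inter (isClosed_iInter fun b => isClosed_iInter fun _ => ?_)
      (IsClosed.inter (isClosed_iInter fun b => isClosed_iInter fun _ => ?_) ?_))))
    · exact isClosed_eq (continuous_apply _) (by fun_prop)
    · exact isClosed_eq (continuous_apply _) (continuous_const.mul (continuous_apply _))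
    · exact isClosed_eq (continuous_apply _) (continuous_apply _)
    · exact isClosed_le continuous_const (continuous_apply _)
    · exact isClosed_eq (continuous_apply _) continuous_const
    · exact isClosed_eq (continuous_apply _) continuous_const
  · intro f hf b _
    obtain ⟨S, hS, h1, rfl⟩ := mem_SS.1 hf
    have h2 := h b S hS
    rw [h1, mul_one, abs_le] at h2
    exact h2



end Cur

end

end Crest.Agent.R235.CurB_288
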