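import Mathlib
import Crest.Agent.R235.CurDefs_132
import Crest.Agent.R240.Lin6
import Crest.Agent.R240.SmInt
import Crest.Agent.R240.Lin5
import Crest.Agent.R240.Ch3

-- ▼ part R235/CurSiul_531
section

/-!
Row 235 (S0364), PACKAGE CUR, helper531: the assembly `LIM, CLO, GEO1, LIN4 → SIUL`
(ball densities from the mollified ratios, and the passage from smooth to Borel `h`).
-/

set_option autoImplicit false
set_option maxSynthPendingDepth 3

open Set Function Filter MeasureTheory Metric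
open scoped ContDiff ENNReal Topology

namespace Crest.Agent.R235.CurSiul_531

open Crest.Agent.R240 Crest.Agent.R240.En Crest.Agent.R240.Pot Crest.Agent.R235.CurDefs_132

/-! ### A. from smooth to Borel functions of `Θ` -/

/-- the smooth approximation of the indicator of `Iic a`. -/
noncomputable def stp (a : ℝ) (k : ℕ) (t : ℝ) : ℝ := Real.smoothTransition (1 - k * (t - a))

theorem stp_smooth (a : ℝ) (k : ℕ) : ContDiff ℝ ∞ (stp a k) := by
  unfold stp
  exact Real.smoothTransition.contDiff.comp (by fun_prop)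

theorem stp_bound (a : ℝ) (k : ℕ) (t : ℝ) : |stp a k t| ≤ 1 := by
  unfold stp
  rw [abs_of_nonneg (Real.smoothTransition.nonneg _)]
  exact Real.smoothTransition.le_one _

theorem stp_lim (a t : ℝ) :
    Tendsto (fun k : ℕ => stp a k t) atTop (𝓝 ((Iic a).indicator (fun _ => (1 : ℝ)) t)) := by
  by_cases h : t ≤ a
  · have : ∀ k : ℕ, stp a k t = 1 := by
      intro k
      apply Real.smoothTransition.one_of_one_le
      have : (k : ℝ) * (t - a) ≤ 0 := mul_nonpos_of_nonneg_of_nonpos (by positivity) (by linarith)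
      linarith
    simp only [this, indicator_of_mem (mem_Iic.2 h)]
    exact tendsto_const_nhds
  · rw [indicator_of_notMem (by simpa using h)]
    push Not at h
    obtain ⟨n, hn⟩ := exists_nat_gt (1 / (t - a))
    refine tendsto_const_nhds.congr' ?_
    filter_upwards [eventually_ge_atTop n] with k hk
    symm
    apply Real.smoothTransition.zero_of_nonpos
    have h1 : 0 < t - a := by linarith
    have h2 : 1 < n * (t - a) := by rwa [div_lt_iff₀ h1] at hn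
    have h3 : (n : ℝ) * (t - a) ≤ k * (t - a) := by
      apply mul_le_mul_of_nonneg_right _ h1.le
      exact_mod_cast hk
    linarith

theorem int_Iic {X : Type*} [MeasurableSpace X] (s : Measure X) (Θ : X → ℝ)
    (hΘ : Measurable Θ) (f : X → ℝ) (hf : Integrable f s)
    (h0 : ∀ H : ℝ → ℝ, ContDiff ℝ ∞ H → ∫ y, H (Θ y) * f y ∂s = 0) (a : ℝ) :
    ∫ y in Θ ⁻¹' Iic a, f y ∂s = 0 := by
  have h1 : Tendsto (fun k : ℕ => ∫ y, stp a k (Θ y) * f y ∂s) atTop
      (𝓝 (∫ y, (Iic a).indicator (fun _ => (1 : ℝ)) (Θ y) * f y ∂s)) := by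
    refine tendsto_integral_of_dominated_convergence (fun y => |f y|) ?_ hf.abs ?_ ?_
    · intro k
      exact (((stp_smooth a k).continuous.measurable.comp hΘ).aestronglyMeasurable).mul hf.1
    · intro k
      refine ae_of_all _ fun y => ?_
      rw [norm_mul, Real.norm_eq_abs, Real.norm_eq_abs]
      calc |stp a k (Θ y)| * |f y| ≤ 1 * |f y| :=
            mul_le_mul_of_nonneg_right (stp_bound _ _ _) (abs_nonneg _)
        _ = |f y| := one_mul _
    · refine ae_of_all _ fun y => ?_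
      exact (stp_lim a (Θ y)).mul_const _
  have h2 : ∀ k : ℕ, ∫ y, stp a k (Θ y) * f y ∂s = 0 := fun k => h0 _ (stp_smooth a k)
  simp only [h2] at h1
  have h3 := tendsto_nhds_unique h1 tendsto_const_nhds
  rw [← h3, ← integral_indicator (hΘ measurableSet_Iic)]
  refine integral_congr_ae (ae_of_all _ fun y => ?_)
  by_cases hy : Θ y ≤ a
  · simp [indicator, hy]
  · simp [indicator, hy]

theorem int_meas {X : Type*} [MeasurableSpace X] (s : Measure X) (Θ : X → ℝ)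
    (hΘ : Measurable Θ) (f : X → ℝ) (hf : Integrable f s)
    (h0 : ∀ H : ℝ → ℝ, ContDiff ℝ ∞ H → ∫ y, H (Θ y) * f y ∂s = 0) (A : Set ℝ)
    (hA : MeasurableSet A) :
    ∫ y in Θ ⁻¹' A, f y ∂s = 0 := by
  have htot : ∫ y, f y ∂s = 0 := by
    have := h0 (fun _ => 1) contDiff_const
    simpa using this
  induction A, hA using MeasurableSpace.induction_on_inter
    (s := range (Iic : ℝ → Set ℝ)) (borel_eq_generateFrom_Iic ℝ ▸ (BorelSpace.measurable_eq (α := ℝ)))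
    isPiSystem_Iic with
  | empty => simp
  | basic t ht =>
    obtain ⟨a, rfl⟩ := ht
    exact int_Iic s Θ hΘ f hf h0 a
  | compl t ht ih =>
    rw [preimage_compl, setIntegral_compl (hΘ ht) hf, ih, htot, sub_zero]
  | iUnion g hd hm ih =>
    rw [preimage_iUnion, integral_iUnion (fun i => hΘ (hm i)) ?_ hf.integrableOn]
    · simp [ih]
    · intro i j hij
      exact Disjoint.preimage Θ (hd hij)

theorem borel {X : Type*} {m0 : MeasurableSpace X} (s : Measure X) [IsFiniteMeasure s] (Θ : X → ℝ)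
    (hΘ : Measurable Θ) (f : X → ℝ) (hf : Integrable f s)
    (h0 : ∀ H : ℝ → ℝ, ContDiff ℝ ∞ H → ∫ y, H (Θ y) * f y ∂s = 0)
    (h : ℝ → ℝ) (hh : Measurable h) (hb : ∃ B, ∀ t, |h t| ≤ B) :
    ∫ y, h (Θ y) * f y ∂s = 0 := by
  obtain ⟨B, hB⟩ := hb
  have hmle : MeasurableSpace.comap Θ inferInstance ≤ m0 := hΘ.comap_le
  have hc : 0 =ᵐ[s] s[f | MeasurableSpace.comap Θ inferInstance] := by
    refine ae_eq_condExp_of_forall_setIntegral_eq hmle hf ?_ ?_ ?_
    · intro t _ _; exact (integrable_zero _ _ _).integrableOn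
    · rintro t ⟨A, hA, rfl⟩ _
      simp only [Pi.zero_apply, integral_zero]
      exact (int_meas s Θ hΘ f hf h0 A hA).symm
    · exact aestronglyMeasurable_zero
  have hg : StronglyMeasurable[MeasurableSpace.comap Θ inferInstance] (fun y => h (Θ y)) := by
    have : Measurable[MeasurableSpace.comap Θ inferInstance] (fun y => h (Θ y)) :=
      hh.comp (comap_measurable Θ)
    exact this.stronglyMeasurable
  have hgf : Integrable ((fun y => h (Θ y)) * f) s := by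
    refine hf.bdd_mul (c := B) (hh.comp hΘ).aestronglyMeasurable (ae_of_all _ fun y => ?_)
    simpa [Real.norm_eq_abs] using hB (Θ y)
  have hp := condExp_mul_of_stronglyMeasurable_left hg hgf hf
  have h1 : ∫ y, ((fun y => h (Θ y)) * f) y ∂s = 0 := by
    rw [← integral_condExp hmle (f := (fun y => h (Θ y)) * f)]
    rw [integral_congr_ae (hp.trans ((EventuallyEq.refl _ _).mul hc.symm))]
    simp
  simpa using h1

/-! ### B. cut-offs and the sandwich -/

theorem exists_cut (δ : ℝ) (hδ : 0 < δ) : ∃ K, Cut δ K := by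
  refine ⟨fun t => Real.smoothTransition ((1 + δ - t) / δ), ?_, ?_, ?_, ?_⟩
  · exact Real.smoothTransition.contDiff.comp (by fun_prop)
  · intro a b hab
    exact Real.smoothTransition.monotone (by gcongr)
  · intro t ht
    apply Real.smoothTransition.one_of_one_le
    rw [le_div_iff₀ hδ]; linarith
  · intro t ht
    apply Real.smoothTransition.zero_of_nonpos
    exact div_nonpos_of_nonpos_of_nonneg (by linarith) hδ.le

theorem Cut.nonneg {δ : ℝ} {K : ℝ → ℝ} (h : Cut δ K) (t : ℝ) : 0 ≤ K t := by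
  rw [← h.zero (max t (1 + δ)) (le_max_right _ _)]
  exact h.anti (le_max_left _ _)

theorem Cut.le_one {δ : ℝ} {K : ℝ → ℝ} (h : Cut δ K) (t : ℝ) : K t ≤ 1 := by
  rw [← h.one (min t 1) (min_le_right _ _)]
  exact h.anti (min_le_left _ _)

theorem sandwich {N δ : ℕ → ℝ} (hδ : ∀ n, 0 < δ n) (hδ0 : Tendsto δ atTop (𝓝 0))
    (hN : ∀ n, 0 ≤ N n) {a : ℝ → ℝ} (up lo : ℕ → ℝ → ℝ)
    (hup : ∀ n, ∀ᶠ r in 𝓝[>] (0 : ℝ), a r ≤ up n r)
    (hlo : ∀ n, ∀ᶠ r in 𝓝[>] (0 : ℝ), lo n r ≤ a r)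
    (hupt : ∀ n, Tendsto (up n) (𝓝[>] 0) (𝓝 (N n)))
    (hlot : ∀ n, Tendsto (lo n) (𝓝[>] 0) (𝓝 (N n / (1 + δ n)))) :
    Tendsto a (𝓝[>] 0) (𝓝 (⨅ n, N n)) ∧ Tendsto N atTop (𝓝 (⨅ n, N n)) ∧
      ∀ n m, N n ≤ (1 + δ n) * N m := by
  have hbd : BddBelow (range N) := ⟨0, by rintro _ ⟨n, rfl⟩; exact hN n⟩
  have h1 : ∀ n m, N n / (1 + δ n) ≤ N m := fun n m =>
    le_of_tendsto_of_tendsto (hlot n) (hupt m) ((hlo n).mp ((hup m).mono fun r h h' => h'.trans h))
  have h2 : ∀ n, N n / (1 + δ n) ≤ ⨅ m, N m := fun n => le_ciInf (h1 n)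
  have h3 : ∀ n, ⨅ m, N m ≤ N n := fun n => ciInf_le hbd n
  have h1δ : ∀ n, 0 < 1 + δ n := fun n => by have := hδ n; linarith
  have hlim : Tendsto N atTop (𝓝 (⨅ n, N n)) := by
    refine tendsto_of_tendsto_of_tendsto_of_le_of_le (g := fun _ => ⨅ n, N n)
      (h := fun n => (1 + δ n) * ⨅ n, N n) tendsto_const_nhds ?_ h3 ?_
    · have : Tendsto (fun n => (1 + δ n) * ⨅ n, N n) atTop (𝓝 ((1 + 0) * ⨅ n, N n)) :=
        (tendsto_const_nhds.add hδ0).mul_const _
      simpa using this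
    · intro n
      have := h2 n
      rw [div_le_iff₀ (h1δ n)] at this
      simpa [mul_comm] using this
  have hlim2 : Tendsto (fun n => N n / (1 + δ n)) atTop (𝓝 (⨅ n, N n)) := by
    have : Tendsto (fun n => N n / (1 + δ n)) atTop (𝓝 ((⨅ n, N n) / (1 + 0))) :=
      hlim.div (tendsto_const_nhds.add hδ0) (by norm_num)
    simpa using this
  refine ⟨tendsto_order.2 ⟨?_, ?_⟩, hlim, ?_⟩
  · intro b hb
    obtain ⟨n, hn⟩ := ((tendsto_order.1 hlim2).1 b hb).exists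
    filter_upwards [(tendsto_order.1 (hlot n)).1 b hn, hlo n] with r h h'
    exact h.trans_le h'
  · intro b hb
    obtain ⟨n, hn⟩ := ((tendsto_order.1 hlim).2 b hb).exists
    filter_upwards [(tendsto_order.1 (hupt n)).2 b hn, hup n] with r h h'
    exact h'.trans_lt h
  · intro n m
    have := h1 n m
    rw [div_le_iff₀ (h1δ n)] at this
    linarith

/-! ### C. geometry of `rho2` -/

theorem rho_G (D : LC) (x y : E4) :
    |D.rho2 x y - D.G x (y - x) (y - x)| ≤ D.L ^ 2 * ‖y - x‖ ^ 3 := by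
  have hL : 0 ≤ D.L := by linarith [D.L_ge]
  have hJ : ‖D.J y - D.J x‖ ≤ D.L * ‖y - x‖ := by
    refine Convex.norm_image_sub_le_of_norm_fderiv_le (s := univ)
      (fun z _ => D.smJ.differentiable (by simp) z) (fun z _ => D.bJ1 z) convex_univ (mem_univ _)
      (mem_univ _)
  have hF : ‖D.F y - D.F x‖ ≤ D.L * ‖y - x‖ := by
    refine Convex.norm_image_sub_le_of_norm_fderiv_le (s := univ)
      (fun z _ => D.smF.differentiable (by simp) z) (fun z _ => D.bF1 z) convex_univ (mem_univ _)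
      (mem_univ _)
  set v := y - x with hv
  have h1 : D.rho2 x y - D.G x v v =
      ((D.F y - D.F x) v (D.J y v) + D.F x v ((D.J y - D.J x) v)) / 2 := by
    simp only [LC.rho2, LC.G, gm_apply, ← hv, sub_apply, map_sub]
    ring
  have h2 : |(D.F y - D.F x) v (D.J y v)| ≤ D.L ^ 2 * ‖v‖ ^ 3 := by
    calc |(D.F y - D.F x) v (D.J y v)| ≤ ‖D.F y - D.F x‖ * ‖v‖ * ‖D.J y v‖ := by
          rw [← Real.norm_eq_abs]
          exact ContinuousLinearMap.le_opNorm₂ _ _ _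
      _ ≤ (D.L * ‖v‖) * ‖v‖ * (D.L * ‖v‖) := by
          gcongr
          exact ((D.J y).le_opNorm v).trans (by gcongr; exact D.bJ y)
      _ = D.L ^ 2 * ‖v‖ ^ 3 := by ring
  have h3 : |D.F x v ((D.J y - D.J x) v)| ≤ D.L ^ 2 * ‖v‖ ^ 3 := by
    calc |D.F x v ((D.J y - D.J x) v)| ≤ ‖D.F x‖ * ‖v‖ * ‖(D.J y - D.J x) v‖ := by
          rw [← Real.norm_eq_abs]
          exact ContinuousLinearMap.le_opNorm₂ _ _ _
      _ ≤ D.L * ‖v‖ * (D.L * ‖v‖ * ‖v‖) := by
          gcongr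
          · exact D.bF x
          · exact ((D.J y - D.J x).le_opNorm v).trans (by gcongr)
      _ = D.L ^ 2 * ‖v‖ ^ 3 := by ring
  rw [h1, abs_div, abs_of_pos (by norm_num : (0 : ℝ) < 2), div_le_iff₀ (by norm_num)]
  calc _ ≤ |(D.F y - D.F x) v (D.J y v)| + |D.F x v ((D.J y - D.J x) v)| := abs_add_le _ _
    _ ≤ _ := by linarith

theorem cube {m r t : ℝ} (hm : 0 < m) (hr : 0 < r) (ht : 0 ≤ t) (h : m * t ^ 2 < r ^ 2) :
    t ^ 3 ≤ r ^ 3 / √m ^ 3 := by
  have hs : 0 < √m := Real.sqrt_pos.2 hm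
  have h1 : √m * t < r := by
    refine lt_of_pow_lt_pow_left₀ 2 hr.le ?_
    rw [mul_pow, Real.sq_sqrt hm.le]; exact h
  have h2 : t ≤ r / √m := by
    rw [le_div_iff₀ hs]; linarith
  calc t ^ 3 ≤ (r / √m) ^ 3 := by gcongr
    _ = r ^ 3 / √m ^ 3 := div_pow _ _ _

theorem incl (D : LC) (hm : ∀ x y, D.m * ‖y - x‖ ^ 2 ≤ D.rho2 x y) :
    ∃ k : ℝ, 0 ≤ k ∧ ∀ x : E4, ∀ r, 0 < r →
      {y | D.G x (y - x) (y - x) < r ^ 2} ⊆ {y | D.rho2 x y < r ^ 2 * (1 + k * r)} ∧
      (k * r ≤ 1 → {y | D.rho2 x y < r ^ 2 * (1 - k * r)} ⊆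
        {y | D.G x (y - x) (y - x) < r ^ 2}) := by
  have hmp : 0 < D.m := (D.bd 0).m_pos
  have hs : 0 < √D.m := Real.sqrt_pos.2 hmp
  refine ⟨D.L ^ 2 / √D.m ^ 3, by positivity, fun x r hr => ⟨?_, ?_⟩⟩
  · intro y hy
    simp only [mem_ofPred_eq] at hy ⊢
    have h1 := (D.bd x).lo (y - x)
    have h2 : D.m * ‖y - x‖ ^ 2 < r ^ 2 := h1.trans_lt hy
    have h3 := cube hmp hr (norm_nonneg _) h2
    have h4 := (abs_le.1 (rho_G D x y)).2
    have h5 : D.L ^ 2 * ‖y - x‖ ^ 3 ≤ D.L ^ 2 * (r ^ 3 / √D.m ^ 3) := by gcongr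
    have h6 : D.L ^ 2 * (r ^ 3 / √D.m ^ 3) = r ^ 2 * (D.L ^ 2 / √D.m ^ 3 * r) := by ring
    linarith
  · intro hk y hy
    simp only [mem_ofPred_eq] at hy ⊢
    have h1 := hm x y
    have h7 : 0 ≤ D.L ^ 2 / √D.m ^ 3 * r := by positivity
    have h8 : r ^ 2 * (1 - D.L ^ 2 / √D.m ^ 3 * r) ≤ r ^ 2 := by
      have : 0 ≤ r ^ 2 * (D.L ^ 2 / √D.m ^ 3 * r) := by positivity
      linarith
    have h2 : D.m * ‖y - x‖ ^ 2 < r ^ 2 := by linarith
    have h3 := cube hmp hr (norm_nonneg _) h2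
    have h4 := (abs_le.1 (rho_G D x y)).1
    have h5 : D.L ^ 2 * ‖y - x‖ ^ 3 ≤ D.L ^ 2 * (r ^ 3 / √D.m ^ 3) := by gcongr
    have h6 : D.L ^ 2 * (r ^ 3 / √D.m ^ 3) = r ^ 2 * (D.L ^ 2 / √D.m ^ 3 * r) := by ring
    linarith

section nuR

variable (D : LC) {δ : ℝ} {K : ℝ → ℝ} (hK : Cut δ K) (x : E4)
  (hc : Continuous fun y => D.rho2 x y)

include hK hc

theorem integrable_K (ρ : ℝ) : Integrable (fun y => K (D.rho2 x y / ρ ^ 2)) D.s := by
  have := D.fin
  refine Integrable.of_bound (C := 1) ?_ (ae_of_all _ fun y => ?_)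
  · exact (hK.smooth.continuous.comp (hc.div_const _)).aestronglyMeasurable
  · rw [Real.norm_eq_abs, abs_of_nonneg (Cut.nonneg hK _)]
    exact Cut.le_one hK _

theorem nuR_lo {ρ : ℝ} (hρ : 0 < ρ) :
    D.s.real {y | D.rho2 x y < ρ ^ 2} ≤ ρ ^ 2 * D.nuR K ρ x := by
  have := D.fin
  have hms : MeasurableSet {y | D.rho2 x y < ρ ^ 2} :=
    (isOpen_lt hc continuous_const).measurableSet
  have h0 : ρ ^ 2 * D.nuR K ρ x = ∫ y, K (D.rho2 x y / ρ ^ 2) ∂D.s := by
    unfold LC.nuR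
    field_simp
  rw [h0, ← integral_indicator_one hms]
  refine integral_mono ((integrable_const (1 : ℝ)).indicator hms) (integrable_K D hK x hc ρ) ?_
  intro y
  by_cases hy : D.rho2 x y < ρ ^ 2
  · have h1 : K (D.rho2 x y / ρ ^ 2) = 1 := by
      apply hK.one
      rw [div_le_one (by positivity)]
      exact hy.le
    simp [indicator, hy, h1]
  · simp only [indicator, mem_ofPred_eq, hy, if_false]
    exact Cut.nonneg hK _

theorem nuR_hi {ρ : ℝ} (hρ : 0 < ρ) :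
    ρ ^ 2 * D.nuR K ρ x ≤ D.s.real {y | D.rho2 x y < (1 + δ) * ρ ^ 2} := by
  have := D.fin
  have hms : MeasurableSet {y | D.rho2 x y < (1 + δ) * ρ ^ 2} :=
    (isOpen_lt hc continuous_const).measurableSet
  have h0 : ρ ^ 2 * D.nuR K ρ x = ∫ y, K (D.rho2 x y / ρ ^ 2) ∂D.s := by
    unfold LC.nuR
    field_simp
  rw [h0, ← integral_indicator_one hms]
  refine integral_mono (integrable_K D hK x hc ρ) ((integrable_const (1 : ℝ)).indicator hms) ?_
  intro y
  by_cases hy : D.rho2 x y < (1 + δ) * ρ ^ 2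
  · simp only [indicator, mem_ofPred_eq, hy, if_true, Pi.one_apply]
    exact Cut.le_one hK _
  · have h1 : K (D.rho2 x y / ρ ^ 2) = 0 := by
      apply hK.zero
      rw [le_div_iff₀ (by positivity)]
      linarith
    simp [indicator, hy, h1]

end nuR

/-! ### D. densities -/

theorem tendsto_fac {g : ℝ → ℝ} (hg : ContinuousAt g 0) {c : ℝ} (hc : 0 < c) (h0 : g 0 = c) :
    Tendsto (fun r => r * √(g r)) (𝓝[>] 0) (𝓝[>] 0) := by
  refine tendsto_nhdsWithin_iff.2 ⟨?_, ?_⟩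
  · have h1 : ContinuousAt (fun r => r * √(g r)) 0 :=
      continuousAt_id.mul (Real.continuous_sqrt.continuousAt.comp hg)
    have h2 : Tendsto (fun r => r * √(g r)) (𝓝 0) (𝓝 (0 * √(g 0))) := h1.tendsto
    rw [zero_mul] at h2
    exact h2.mono_left nhdsWithin_le_nhds
  · have h1 : ∀ᶠ r in 𝓝 (0 : ℝ), 0 < g r := by
      refine hg.eventually (lt_mem_nhds ?_)
      rw [h0]; exact hc
    filter_upwards [nhdsWithin_le_nhds h1, self_mem_nhdsWithin] with r hr hr'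
    exact mul_pos hr' (Real.sqrt_pos.2 hr)

theorem dens (D : LC) (hGEO : GEO1) (N : ℕ → E4 → ℝ) (K : ℕ → ℝ → ℝ) (δ : ℕ → ℝ)
    (hδ : ∀ n, 0 < δ n) (hδ0 : Tendsto δ atTop (𝓝 0)) (hK : ∀ n, Cut (δ n) (K n)) (x : E4)
    (hN0 : ∀ n, 0 ≤ N n x) (hN : ∀ n, Tendsto (fun r => D.nuR (K n) r x) (𝓝[>] 0) (𝓝 (N n x))) :
    Tendsto (fun r : ℝ => D.s.real {y | D.G x (y - x) (y - x) < r ^ 2} / r ^ 2) (𝓝[>] 0)
      (𝓝 (⨅ n, N n x)) ∧ Tendsto (fun n => N n x) atTop (𝓝 (⨅ n, N n x)) ∧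
      ∀ n m, N n x ≤ (1 + δ n) * N m x := by
  have := D.fin
  obtain ⟨hsm, hbd, -⟩ := hGEO D
  have hc : Continuous fun y => D.rho2 x y := by
    have h : Continuous ((fun z : E4 × E4 => D.rho2 z.1 z.2) ∘ fun y => (x, y)) :=
      hsm.continuous.comp (Continuous.prodMk_right x)
    exact h
  obtain ⟨k, hk, hincl⟩ := incl D fun x y => (hbd x y).1
  refine sandwich (N := fun n => N n x) (δ := δ)
    (a := fun r : ℝ => D.s.real {y | D.G x (y - x) (y - x) < r ^ 2} / r ^ 2) hδ hδ0 hN0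
    (fun n r => (1 + k * r) * D.nuR (K n) (r * √(1 + k * r)) x)
    (fun n r => ((1 - k * r) / (1 + δ n)) * D.nuR (K n) (r * √((1 - k * r) / (1 + δ n))) x)
    ?_ ?_ ?_ ?_
  · intro n
    filter_upwards [self_mem_nhdsWithin] with r (hr : 0 < r)
    have h1 : 0 < 1 + k * r := by positivity
    have h2 : 0 < r * √(1 + k * r) := by positivity
    have h3 := nuR_lo D (hK n) x hc h2
    have h4 : (r * √(1 + k * r)) ^ 2 = r ^ 2 * (1 + k * r) := by
      rw [mul_pow, Real.sq_sqrt h1.le]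
    rw [h4] at h3
    have h5 := measureReal_mono (μ := D.s) (hincl x r hr).1
    rw [div_le_iff₀ (by positivity)]
    linarith
  · intro n
    have hev : ∀ᶠ r in 𝓝[>] (0 : ℝ), k * r < 1 := by
      have : Tendsto (fun r : ℝ => k * r) (𝓝[>] 0) (𝓝 (k * 0)) :=
        (tendsto_const_nhds.mul tendsto_id).mono_left nhdsWithin_le_nhds
      rw [mul_zero] at this
      exact this.eventually (gt_mem_nhds one_pos)
    filter_upwards [self_mem_nhdsWithin, hev] with r (hr : 0 < r) hkr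
    have hδn := hδ n
    have h1 : 0 < (1 - k * r) / (1 + δ n) := div_pos (by linarith) (by linarith)
    have h2 : 0 < r * √((1 - k * r) / (1 + δ n)) := by positivity
    have h3 := nuR_hi D (hK n) x hc h2
    have h4 : (r * √((1 - k * r) / (1 + δ n))) ^ 2 = r ^ 2 * ((1 - k * r) / (1 + δ n)) := by
      rw [mul_pow, Real.sq_sqrt h1.le]
    have h5 : (1 + δ n) * (r * √((1 - k * r) / (1 + δ n))) ^ 2 = r ^ 2 * (1 - k * r) := by
      rw [h4]; field_simp
    rw [h5, h4] at h3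
    have h6 := measureReal_mono (μ := D.s) ((hincl x r hr).2 hkr.le)
    rw [le_div_iff₀ (by positivity)]
    linarith
  · intro n
    have h1 : Tendsto (fun r => r * √(1 + k * r)) (𝓝[>] 0) (𝓝[>] 0) :=
      tendsto_fac (g := fun r => 1 + k * r) (by fun_prop) one_pos (by simp)
    have h2 : Tendsto (fun r : ℝ => 1 + k * r) (𝓝[>] 0) (𝓝 (1 + k * 0)) :=
      (Continuous.tendsto (by fun_prop) _).mono_left nhdsWithin_le_nhds
    have := h2.mul ((hN n).comp h1)
    simpa using this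
  · intro n
    have hδn := hδ n
    have h1 : Tendsto (fun r => r * √((1 - k * r) / (1 + δ n))) (𝓝[>] 0) (𝓝[>] 0) :=
      tendsto_fac (g := fun r => (1 - k * r) / (1 + δ n)) (c := 1 / (1 + δ n)) (by fun_prop)
        (by positivity) (by simp)
    have h2 : Tendsto (fun r : ℝ => (1 - k * r) / (1 + δ n)) (𝓝[>] 0)
        (𝓝 ((1 - k * 0) / (1 + δ n))) :=
      (Continuous.tendsto (by fun_prop) _).mono_left nhdsWithin_le_nhds
    have h3 := h2.mul ((hN n).comp h1)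
    have h4 : (1 - k * 0) / (1 + δ n) * N n x = N n x / (1 + δ n) := by ring
    rw [h4] at h3
    exact h3

/-! ### E. the integrand -/

theorem meas_q (D : LC) {b : E4 → Bil} (hb : Measurable b) :
    Measurable fun y => q (D.F y) (D.φ y) (b y) := by
  have he : ∀ {c : E4 → Bil}, Measurable c → ∀ i j, Measurable fun y => ent (c y) i j := by
    intro c hc i j
    exact (hc.apply_continuousLinearMap (ee i)).apply_continuousLinearMap (ee j)
  have hW : ∀ {c d : E4 → Bil}, Measurable c → Measurable d →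
      Measurable fun y => W (c y) (d y) := by
    intro c d hc hd
    unfold W
    exact ((((((he hc 0 1).mul (he hd 2 3)).sub ((he hc 0 2).mul (he hd 1 3))).add
      ((he hc 0 3).mul (he hd 1 2))).add ((he hc 1 2).mul (he hd 0 3))).sub
      ((he hc 1 3).mul (he hd 0 2))).add ((he hc 2 3).mul (he hd 0 1))
  have hF : Measurable D.F := D.smF.continuous.measurable
  exact (hW D.meas hb).div (hW hF hF)

theorem d1_cont {S : E4 → Cov} (hS : ContDiff ℝ ∞ S) : Continuous (d1 S) := by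
  have h1 : Continuous (fderiv ℝ S) := hS.continuous_fderiv (by simp)
  have h2 : Continuous fun y => (fderiv ℝ S y).flip :=
    (ContinuousLinearMap.flipₗᵢ ℝ E4 E4 ℝ).continuous.comp h1
  exact h1.sub h2

theorem d1_zero {S : E4 → Cov} {y : E4} (hy : y ∉ tsupport S) : d1 S y = 0 := by
  unfold d1
  rw [fderiv_of_notMem_tsupport ℝ hy]
  ext u v; simp

theorem q_zero (F b : Bil) : q F b 0 = 0 := by
  simp [q, W, ent_zero]

theorem integrand (D : LC) (hL : LIN4) {S : E4 → Cov} (hS : ContDiff ℝ ∞ S)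
    (hc : HasCompactSupport S) : Integrable (fun y => q (D.F y) (D.φ y) (d1 S y)) D.s := by
  have := D.fin
  obtain ⟨C, hC, hC2⟩ := hL D.m D.M D.L
  have h1 : HasCompactSupport (d1 S) := by
    refine hc.mono' ?_
    intro y hy
    by_contra h
    exact hy (d1_zero h)
  obtain ⟨B, hB⟩ := h1.exists_bound_of_continuous (d1_cont hS)
  refine Integrable.of_bound (C := C * B) (meas_q D (d1_cont hS).measurable).aestronglyMeasurable
    (ae_of_all _ fun y => ?_)
  rw [Real.norm_eq_abs]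
  refine ((hC2 (D.J y) (D.F y) (D.bd y) (D.bJ y) (D.φ y) (D.pos y) (D.nrm y)).2.1 _
    (alt_d1 S y)).trans ?_
  gcongr
  exact hB y

/-! ### F. the theorem -/

theorem siul (hLIM : LIM) (hCLO : CLO) (hGEO : GEO1) (hLIN : LIN4) : SIUL := by
  intro D
  have := D.fin
  have hR := D.R_pos
  set δ : ℕ → ℝ := fun n => 1 / ((n : ℝ) + 1) with hδdef
  have hδ : ∀ n, 0 < δ n := fun n => by simp only [hδdef]; positivity
  have hδ1 : ∀ n, δ n ≤ 1 := fun n => by
    simp only [hδdef]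
    rw [div_le_one (by positivity)]
    have : (0 : ℝ) ≤ n := by positivity
    linarith
  have hδ0 : Tendsto δ atTop (𝓝 0) := tendsto_one_div_add_atTop_nhds_zero_nat
  choose K hK using fun n => exists_cut (δ n) (hδ n)
  choose N hNm hNb hNt using fun n => hLIM D (δ n) (K n) (hδ n) (hδ1 n) (hK n)
  choose C hC using hNb
  have hsub : ball D.x0 (2 * D.R) ⊆ ball D.x0 (3 * D.R) := ball_subset_ball (by linarith)
  have hd : ∀ x ∈ ball D.x0 (2 * D.R), _ := fun x hx =>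
    dens D hGEO N K δ hδ hδ0 hK x (fun n => (hC n x).1) (fun n => hNt n x (hsub hx))
  set T : E4 → ℝ := fun x => ⨅ n, N n x with hT
  have hTm : Measurable T := Measurable.iInf hNm
  have hT0 : ∀ x, 0 ≤ T x := fun x => le_ciInf fun n => (hC n x).1
  have hTC : ∀ x, T x ≤ C 0 := fun x =>
    (ciInf_le ⟨0, by rintro _ ⟨n, rfl⟩; exact (hC n x).1⟩ 0).trans (hC 0 x).2
  have hpi := Real.pi_pos
  have hΘm : Measurable fun x => T x / Real.pi := hTm.div_const _
  refine ⟨fun x => T x / Real.pi, hΘm, ⟨C 0 / Real.pi, fun x => ⟨by have := hT0 x; positivity, ?_⟩⟩,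
    ?_, ?_⟩
  · exact div_le_div_of_nonneg_right (hTC x) hpi.le
  · intro x hx
    have h1 := (hd x hx).1
    unfold IsDenE
    have h2 : (fun r : ℝ => D.s.real {y | D.G x (y - x) (y - x) < r ^ 2} / (Real.pi * r ^ 2)) =
        fun r : ℝ => (D.s.real {y | D.G x (y - x) (y - x) < r ^ 2} / r ^ 2) / Real.pi := by
      funext r; rw [div_div, mul_comm]
    rw [h2]
    exact h1.div_const _
  · intro h hh hhb S hS hSc hSs
    refine borel D.s (fun x => T x / Real.pi) hΘm _ (integrand D hLIN hS hSc) ?_ h hh hhb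
    intro H hH
    -- smooth `H`
    have hz : ∀ n, ∫ y, H (N n y / Real.pi) * q (D.F y) (D.φ y) (d1 S y) ∂D.s = 0 := by
      intro n
      exact hCLO D (δ n) (K n) (hδ n) (hδ1 n) (hK n) (N n) (hNm n)
        (fun x hx => hNt n x (hsub hx)) (fun t => H (t / Real.pi))
        (hH.comp (contDiff_id.div_const _)) S hS hSc hSs
    obtain ⟨B, hB⟩ := (isCompact_Icc (a := (0 : ℝ)) (b := 2 * C 0 / Real.pi)).exists_bound_of_continuousOn
      hH.continuous.continuousOn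
    have hlim : Tendsto (fun n => ∫ y, H (N n y / Real.pi) * q (D.F y) (D.φ y) (d1 S y) ∂D.s)
        atTop (𝓝 (∫ y, H (T y / Real.pi) * q (D.F y) (D.φ y) (d1 S y) ∂D.s)) := by
      refine tendsto_integral_of_dominated_convergence
        (fun y => B * |q (D.F y) (D.φ y) (d1 S y)|) ?_
        ((integrand D hLIN hS hSc).abs.const_mul B) ?_ ?_
      · intro n
        exact ((hH.continuous.measurable.comp ((hNm n).div_const _)).aestronglyMeasurable).mul
          (integrand D hLIN hS hSc).1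
      · intro n
        refine ae_of_all _ fun y => ?_
        by_cases hy : y ∈ ball D.x0 (2 * D.R)
        · rw [norm_mul, Real.norm_eq_abs (q _ _ _)]
          refine mul_le_mul_of_nonneg_right (hB _ ⟨?_, ?_⟩) (abs_nonneg _)
          · have := (hC n y).1; positivity
          · have h1 := (hd y hy).2.2 n 0
            have h2 : (1 + δ n) * N 0 y ≤ 2 * C 0 := by
              have h3 := hC 0 y
              have h4 := hδ1 n
              have h5 := hδ n
              nlinarith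
            exact div_le_div_of_nonneg_right (h1.trans h2) hpi.le
        · have : d1 S y = 0 := d1_zero fun h => hy (hSs h)
          rw [this, q_zero]; simp
      · refine ae_of_all _ fun y => ?_
        by_cases hy : y ∈ ball D.x0 (2 * D.R)
        · refine Tendsto.mul_const _ ?_
          exact (hH.continuous.tendsto _).comp ((hd y hy).2.1.div_const _)
        · have : d1 S y = 0 := d1_zero fun h => hy (hSs h)
          rw [this, q_zero]; simp
    simp only [hz] at hlim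
    exact tendsto_nhds_unique hlim tendsto_const_nhds

end Crest.Agent.R235.CurSiul_531
end

-- ▼ part R235/CurLin3_400
section

/-!
Row 235 (S0364), PACKAGE CUR (132), task 342, helper400: `LIN3` (from `LIN2`) and `LIN3'`:
two nearby almost complex structures, the error is quadratic.
-/

set_option autoImplicit false
set_option maxSynthPendingDepth 3

namespace Crest.Agent.R235.CurLin3_400

open Crest.Agent.R240 Crest.Agent.R240.En Crest.Agent.R240.Pot
open Crest.Agent.R235.CurDefs_132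

noncomputable section

/-- upper bound: `φ(w, J1 w) ≤ 2 φ(w, J0 w) + ‖φ‖ ‖J1‖ ‖J0 - J1‖² ‖w‖²`. -/
theorem diag_le {J0 J1 : E4 →L[ℝ] E4} (hJ1 : ∀ v, J1 (J1 v) = -v) {X : Bil} (hX : Pos J1 X)
    (w : E4) : X w (J1 w) ≤ 2 * X w (J0 w) + ‖X‖ * ‖J1‖ * (‖J0 - J1‖ * ‖w‖) ^ 2 := by
  set u := (J0 - J1) w with hu
  have e : X w (J0 w) = X w (J1 w) + X w u := by
    have : J0 w = J1 w + u := by rw [hu]; simp
    rw [this, map_add]
  have h1 := hX.cs hJ1 w u
  have a1 := hX.nonneg w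
  have a2 := hX.nonneg u
  have h3 := (abs_le.1 (Bd.abs_diag_le J1 X u)).2
  have h4 : ‖u‖ ≤ ‖J0 - J1‖ * ‖w‖ := (J0 - J1).le_opNorm w
  have h2 : X u (J1 u) ≤ ‖X‖ * ‖J1‖ * (‖J0 - J1‖ * ‖w‖) ^ 2 :=
    h3.trans (by gcongr)
  have h6 : |X w u| ≤ (X w (J1 w) + X u (J1 u)) / 2 := by
    apply abs_le_of_sq_le_sq _ (by positivity)
    nlinarith [sq_nonneg (X w (J1 w) - X u (J1 u))]
  have h7 := (abs_le.1 h6).1
  rw [e]
  linarith

/-- the positive form `b = (φ1)' + c t² F0`. -/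
theorem pos_b {J0 J1 : E4 →L[ℝ] E4} {F0 F1 : Bil} {m M L t : ℝ} (h0 : Bd J0 F0 m M)
    (h1 : Bd J1 F1 m M) (hL1 : ‖J1‖ ≤ L) {φ1 : Bil} (hp1 : Pos J1 φ1) (hn1 : q F1 φ1 F1 = 1)
    (ht : ‖J1 - J0‖ ≤ t) : Pos J0 (invp J0 φ1 + (L * M / (2 * m) * t ^ 2) • F0) := by
  have hm := h0.m_pos
  have hM := h0.M_pos
  have hL : 0 ≤ L := (norm_nonneg _).trans hL1
  have ht0 : 0 ≤ t := (norm_nonneg _).trans ht
  refine ⟨(hp1.alt.invp J0).add (h0.spos.alt.smul _), ?_, ?_⟩
  · intro u v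
    have e : ∀ a b : E4, (invp J0 φ1 + (L * M / (2 * m) * t ^ 2) • F0) a b =
        invp J0 φ1 a b + (L * M / (2 * m) * t ^ 2) * F0 a b := fun a b => rfl
    rw [e, e, invp_inv h0.sq, h0.spos.inv]
  · intro v
    have e : (invp J0 φ1 + (L * M / (2 * m) * t ^ 2) • F0) v (J0 v) =
        invp J0 φ1 v (J0 v) + (L * M / (2 * m) * t ^ 2) * F0 v (J0 v) := rfl
    rw [e, invp_diag h0.sq hp1.alt]
    have h2 := Q_lower (J := J0) h1.sq hp1 v
    have h3 : ‖φ1‖ ≤ 2 * M := by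
      have := h1.norm_le_q hp1
      rw [hn1, mul_one] at this
      exact this
    have h4 : ‖J0 - J1‖ ≤ t := by rw [norm_sub_rev]; exact ht
    have h5 : 1 / 4 * ‖J0 - J1‖ ^ 2 * ‖J1‖ * ‖φ1‖ * ‖v‖ ^ 2 ≤
        1 / 4 * t ^ 2 * L * (2 * M) * ‖v‖ ^ 2 := by gcongr
    have h6 : (L * M / (2 * m) * t ^ 2) * (m * ‖v‖ ^ 2) ≤
        (L * M / (2 * m) * t ^ 2) * F0 v (J0 v) := by
      have := h0.lo v
      gcongr
    have h7 : (L * M / (2 * m) * t ^ 2) * (m * ‖v‖ ^ 2) =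
        1 / 4 * t ^ 2 * L * (2 * M) * ‖v‖ ^ 2 := by
      field_simp
      ring
    linarith

theorem q_b {J0 J1 : E4 →L[ℝ] E4} {F0 F1 : Bil} {m M L t : ℝ} (h0 : Bd J0 F0 m M)
    {φ0 φ1 : Bil} (hp0 : Pos J0 φ0) (hn0 : q F0 φ0 F0 = 1) (hp1 : Pos J1 φ1) :
    q F0 φ0 (invp J0 φ1 + (L * M / (2 * m) * t ^ 2) • F0) =
      q F0 φ0 φ1 + L * M / (2 * m) * t ^ 2 := by
  rw [q_add_right, q_smul_right, hn0, mul_one, ← h0.q_inv_left hp0.alt hp0.inv hp1.alt]


/-- bound of the vector `wv`. -/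
theorem norm_wv_le {J : E4 →L[ℝ] E4} {F : Bil} {m M : ℝ} (h : Bd J F m M) {φ : Bil}
    (hp : Pos J φ) (hn : q F φ F = 1) (θ : Cov) : ‖wv F φ θ‖ ≤ 48 * M / m ^ 2 * ‖θ‖ := by
  have hm := h.m_pos
  have hM := h.M_pos
  have h3 : ‖φ‖ ≤ 2 * M := by
    have := h.norm_le_q hp
    rw [hn, mul_one] at this
    exact this
  have hpr : ∀ i : Fin 4, ‖pr i‖ ≤ 1 := by
    intro i
    refine ContinuousLinearMap.opNorm_le_bound _ zero_le_one ?_
    intro v
    rw [one_mul]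
    exact PiLp.norm_apply_le v i
  have hk : ∀ i : Fin 4, ‖q F φ (wed (pr i) θ) • ee i‖ ≤ 12 * M / m ^ 2 * ‖θ‖ := by
    intro i
    rw [norm_smul, norm_ee, mul_one, Real.norm_eq_abs]
    have h4 := h.abs_q_le hp.alt (wed_alt (pr i) θ)
    have h5 : ‖wed (pr i) θ‖ ≤ 2 * ‖θ‖ := by
      have h6 := norm_wed_le (pr i) θ
      have h7 : 2 * ‖pr i‖ * ‖θ‖ ≤ 2 * 1 * ‖θ‖ := by
        have := hpr i
        gcongr
      linarith
    calc |q F φ (wed (pr i) θ)| ≤ 3 / m ^ 2 * (‖φ‖ * ‖wed (pr i) θ‖) := h4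
      _ ≤ 3 / m ^ 2 * ((2 * M) * (2 * ‖θ‖)) := by gcongr
      _ = 12 * M / m ^ 2 * ‖θ‖ := by ring
  unfold wv
  calc ‖∑ i : Fin 4, q F φ (wed (pr i) θ) • ee i‖
      ≤ ∑ i : Fin 4, ‖q F φ (wed (pr i) θ) • ee i‖ := norm_sum_le _ _
    _ ≤ ∑ _i : Fin 4, 12 * M / m ^ 2 * ‖θ‖ := Finset.sum_le_sum fun i _ => hk i
    _ = 48 * M / m ^ 2 * ‖θ‖ := by
      rw [Finset.sum_const, Finset.card_univ, Fintype.card_fin]
      simp only [nsmul_eq_mul]
      push_cast
      ring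

theorem lin3 (H : LIN2) : LIN3 := by
  intro m M L
  -- constants
  set c : ℝ := L * M / (2 * m) with hc
  set K : ℝ := 2 * (3 / m ^ 2 * (2 * M * (2 * L))) with hK
  set D : ℝ := 2 * M * L * (48 * M / m ^ 2) ^ 2 with hD
  refine ⟨|2 * K * (1 + c) + D|, abs_nonneg _, ?_⟩
  intro J0 J1 F0 F1 h0 h1 hL0 hL1 φ0 φ1 hp0 hn0 hp1 hn1 t ht θ
  have hm := h0.m_pos
  have hM := h0.M_pos
  have hL : 0 ≤ L := (norm_nonneg _).trans hL1
  have ht0 : 0 ≤ t := (norm_nonneg _).trans ht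
  have hc0 : 0 ≤ c := by rw [hc]; positivity
  have hK0 : 0 ≤ K := by rw [hK]; positivity
  have hD0 : 0 ≤ D := by rw [hD]; positivity
  set w := wv F0 φ0 θ with hw
  set b := invp J0 φ1 + (c * t ^ 2) • F0 with hb
  have hpb : Pos J0 b := pos_b h0 h1 hL1 hp1 hn1 ht
  have hqb : q F0 φ0 b = q F0 φ0 φ1 + c * t ^ 2 :=
    q_b (J1 := J1) (F1 := F1) h0 hp0 hn0 hp1
  have h2 := H J0 F0 m M h0 φ0 b hp0 hn0 hpb θ
  rw [← hw, hqb] at h2
  have hqb0 : 0 ≤ q F0 φ0 φ1 + c * t ^ 2 := by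
    rw [← hqb]; exact h0.q_pos_pos hp0 hpb
  -- `|θ|²`
  have h3 : 2 * q F0 F0 (wed θ (Jc J0 θ)) ≤ K * ‖θ‖ ^ 2 := by
    have h4 := (abs_le.1 (h0.abs_q_le h0.spos.alt (wed_alt θ (Jc J0 θ)))).2
    have h5 : ‖F0‖ ≤ 2 * M := by
      have hF : Pos J0 F0 := ⟨h0.spos.alt, h0.spos.inv, fun v => by
        have := h0.lo v
        exact le_trans (by positivity) this⟩
      have := h0.norm_le_q hF
      rw [h0.q_self, mul_one] at this
      exact this
    have h6 : ‖wed θ (Jc J0 θ)‖ ≤ 2 * L * ‖θ‖ ^ 2 := by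
      have h7 := norm_wed_le θ (Jc J0 θ)
      have h8 := norm_Jc_le J0 θ
      calc ‖wed θ (Jc J0 θ)‖ ≤ 2 * ‖θ‖ * ‖Jc J0 θ‖ := h7
        _ ≤ 2 * ‖θ‖ * (‖θ‖ * L) := by
            have : ‖θ‖ * ‖J0‖ ≤ ‖θ‖ * L := by gcongr
            gcongr
            linarith
        _ = _ := by ring
    calc 2 * q F0 F0 (wed θ (Jc J0 θ)) ≤ 2 * (3 / m ^ 2 * (‖F0‖ * ‖wed θ (Jc J0 θ)‖)) := by
          linarith
      _ ≤ 2 * (3 / m ^ 2 * ((2 * M) * (2 * L * ‖θ‖ ^ 2))) := by gcongr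
      _ = K * ‖θ‖ ^ 2 := by rw [hK]; ring
  have h4 : b w (J0 w) ≤ K * ‖θ‖ ^ 2 * (q F0 φ0 φ1 + c * t ^ 2) :=
    h2.trans (by gcongr)
  have h5 : φ1 w (J0 w) ≤ b w (J0 w) := by
    have e : b w (J0 w) = invp J0 φ1 w (J0 w) + (c * t ^ 2) * F0 w (J0 w) := rfl
    rw [e, invp_diag h0.sq hp1.alt]
    have h6 : 0 ≤ F0 w (J0 w) := le_trans (by positivity) (h0.lo w)
    have : 0 ≤ (c * t ^ 2) * F0 w (J0 w) := by positivity
    linarith
  have h6 := diag_le (J0 := J0) h1.sq hp1 w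
  have h7 : ‖φ1‖ * ‖J1‖ * (‖J0 - J1‖ * ‖w‖) ^ 2 ≤ D * ‖θ‖ ^ 2 * t ^ 2 := by
    have h8 : ‖φ1‖ ≤ 2 * M := by
      have := h1.norm_le_q hp1
      rw [hn1, mul_one] at this
      exact this
    have h9 : ‖w‖ ≤ 48 * M / m ^ 2 * ‖θ‖ := norm_wv_le h0 hp0 hn0 θ
    have h10 : ‖J0 - J1‖ ≤ t := by rw [norm_sub_rev]; exact ht
    calc ‖φ1‖ * ‖J1‖ * (‖J0 - J1‖ * ‖w‖) ^ 2
        ≤ (2 * M) * L * (t * (48 * M / m ^ 2 * ‖θ‖)) ^ 2 := by gcongr
      _ = D * ‖θ‖ ^ 2 * t ^ 2 := by rw [hD]; ring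
  have h8 : q F0 φ0 φ1 ≤ |q F0 φ0 φ1| := le_abs_self _
  have h9 : 0 ≤ |q F0 φ0 φ1| := abs_nonneg _
  have hθ : 0 ≤ ‖θ‖ ^ 2 := by positivity
  have ht2 : 0 ≤ t ^ 2 := by positivity
  calc φ1 w (J1 w) ≤ 2 * (K * ‖θ‖ ^ 2 * (q F0 φ0 φ1 + c * t ^ 2)) + D * ‖θ‖ ^ 2 * t ^ 2 := by
        linarith
    _ ≤ 2 * (K * ‖θ‖ ^ 2 * (|q F0 φ0 φ1| + c * t ^ 2)) + D * ‖θ‖ ^ 2 * t ^ 2 := by gcongr
    _ ≤ (2 * K * (1 + c) + D) * ‖θ‖ ^ 2 * (|q F0 φ0 φ1| + t ^ 2) := by
        have e : (2 * K * (1 + c) + D) * ‖θ‖ ^ 2 * (|q F0 φ0 φ1| + t ^ 2) -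
            (2 * (K * ‖θ‖ ^ 2 * (|q F0 φ0 φ1| + c * t ^ 2)) + D * ‖θ‖ ^ 2 * t ^ 2) =
            (2 * K * c + D) * ‖θ‖ ^ 2 * |q F0 φ0 φ1| + 2 * K * ‖θ‖ ^ 2 * t ^ 2 := by ring
        have : 0 ≤ (2 * K * c + D) * ‖θ‖ ^ 2 * |q F0 φ0 φ1| + 2 * K * ‖θ‖ ^ 2 * t ^ 2 := by
          positivity
        linarith
    _ ≤ |2 * K * (1 + c) + D| * ‖θ‖ ^ 2 * (|q F0 φ0 φ1| + t ^ 2) := by
        have := le_abs_self (2 * K * (1 + c) + D)
        gcongr

end

end Crest.Agent.R235.CurLin3_400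
end

-- ▼ part R235/CurClo_505
section

/-!
Row 235 (S0364), PACKAGE CUR, leaf CLO (helper505): `H(ν) S` is closed.
-/

set_option autoImplicit false
set_option maxSynthPendingDepth 3

open Set Function Filter MeasureTheory Metric
open scoped ContDiff ENNReal Manifold Topology

namespace Crest.Agent.R235.CurClo_505

open Crest.Agent.R240 Crest.Agent.R240.En Crest.Agent.R240.Pot Crest.Agent.R235.CurDefs_132

noncomputable section

/-! ### measurability -/

theorem meas_ent {X : Type*} [MeasurableSpace X] {f : X → Bil} (hf : Measurable f)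
    (i j : Fin 4) : Measurable fun x => ent (f x) i j := by
  have h : Continuous fun b : Bil => b (ee i) (ee j) := by fun_prop
  exact h.measurable.comp hf

theorem meas_W {X : Type*} [MeasurableSpace X] {f g : X → Bil}
    (h : ∀ i j, Measurable fun x => ent (f x) i j)
    (h' : ∀ i j, Measurable fun x => ent (g x) i j) : Measurable fun x => W (f x) (g x) := by
  unfold W
  exact (((((((h 0 1).mul (h' 2 3)).sub ((h 0 2).mul (h' 1 3))).add ((h 0 3).mul (h' 1 2))).add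
    ((h 1 2).mul (h' 0 3))).sub ((h 1 3).mul (h' 0 2))).add ((h 2 3).mul (h' 0 1)))

theorem meas_q {X : Type*} [MeasurableSpace X] {f g k : X → Bil}
    (hf : ∀ i j, Measurable fun x => ent (f x) i j)
    (hg : ∀ i j, Measurable fun x => ent (g x) i j)
    (hk : ∀ i j, Measurable fun x => ent (k x) i j) : Measurable fun x => q (f x) (g x) (k x) :=
  (meas_W hg hk).div (meas_W hf hf)

theorem meas_wed {X : Type*} [MeasurableSpace X] {a b : X → Cov}
    (ha : ∀ i, Measurable fun x => a x (ee i)) (hb : ∀ i, Measurable fun x => b x (ee i))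
    (i j : Fin 4) : Measurable fun x => ent (wed (a x) (b x)) i j := by
  unfold ent
  simp only [wed_apply]
  exact ((ha i).mul (hb j)).sub ((hb i).mul (ha j))

namespace LC

variable (D : LC)

theorem meas_F : Measurable D.F := D.smF.continuous.measurable


theorem alt_φ (y : E4) : Alt (D.φ y) := (D.pos y).alt

theorem cont_dy (h : GEO1) : Continuous fun p : E4 × E4 => D.dy p.1 p.2 := by
  obtain ⟨hc, -, -⟩ := h D
  have h1 : ∀ p : E4 × E4, D.dy p.1 p.2 =
      (fderiv ℝ (fun z : E4 × E4 => D.rho2 z.1 z.2) p).comp (ContinuousLinearMap.inr ℝ E4 E4) := by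
    intro p
    have h2 : HasFDerivAt (fun z : E4 × E4 => D.rho2 z.1 z.2)
        (fderiv ℝ (fun z : E4 × E4 => D.rho2 z.1 z.2) (p.1, p.2)) (p.1, p.2) :=
      ((hc.differentiable (by simp)) _).hasFDerivAt
    have h3 : HasFDerivAt (fun z : E4 => (p.1, z)) (ContinuousLinearMap.inr ℝ E4 E4) p.2 :=
      hasFDerivAt_prodMk_right p.1 p.2
    exact (h2.comp p.2 h3).fderiv
  have h4 : Continuous fun p : E4 × E4 =>
      (fderiv ℝ (fun z : E4 × E4 => D.rho2 z.1 z.2) p).comp (ContinuousLinearMap.inr ℝ E4 E4) :=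
    (hc.continuous_fderiv (by simp)).clm_comp continuous_const
  simpa only [h1] using h4

theorem meas_De (h : GEO1) : Measurable fun p : E4 × E4 => D.De p.1 p.2 := by
  have hdy := cont_dy D h
  have e1 : ∀ i, Measurable fun p : E4 × E4 => D.dy p.1 p.2 (ee i) := fun i =>
    (hdy.clm_apply continuous_const).measurable
  have e2 : ∀ i, Measurable fun p : E4 × E4 => Jc (D.J p.2) (D.dy p.1 p.2) (ee i) := by
    intro i
    simp only [Jc_apply]
    have : Continuous fun p : E4 × E4 => D.dy p.1 p.2 (D.J p.2 (ee i)) :=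
      hdy.clm_apply ((D.smJ.continuous.comp continuous_snd).clm_apply continuous_const)
    exact this.measurable.neg
  have e3 := meas_ent ((meas_F D).comp (measurable_snd (α := E4) (β := E4)))
  have e4 := meas_ent (D.meas.comp (measurable_snd (α := E4) (β := E4)))
  unfold LC.De defi
  exact ((meas_q e3 e3 (meas_wed e1 e2)).const_mul 2).sub (meas_q e3 e4 (meas_wed e1 e2))

theorem meas_qx : Measurable fun p : E4 × E4 => D.qx p.1 p.2 := by
  unfold LC.qx
  exact meas_q (meas_ent ((meas_F D).comp measurable_fst)) (meas_ent (D.meas.comp measurable_fst))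
    (meas_ent (D.meas.comp measurable_snd))

/-- the integrand of `GRA`. -/
def gi (x y : E4) : ℝ := √(D.De x y) * √(|D.qx x y| + ‖y - x‖ ^ 2)

theorem meas_gi (h : GEO1) : Measurable fun p : E4 × E4 => gi D p.1 p.2 := by
  unfold gi
  have h1 := (meas_De D h).sqrt
  have h2 : Measurable fun p : E4 × E4 => ‖p.2 - p.1‖ ^ 2 := by fun_prop
  have h3 := (((meas_qx D).norm.add h2)).sqrt
  exact h1.mul h3

/-- the inner integral as a function of the centre is measurable. -/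
theorem meas_inner {g : E4 × E4 → ℝ} (hg : Measurable g) (ρ : ℝ) :
    Measurable fun x => ∫ y in ball x ρ, g (x, y) ∂D.s := by
  have := D.fin
  have h1 : MeasurableSet {p : E4 × E4 | dist p.2 p.1 < ρ} :=
    measurableSet_lt (by fun_prop) measurable_const
  have h2 : StronglyMeasurable ({p : E4 × E4 | dist p.2 p.1 < ρ}.indicator g) :=
    (hg.indicator h1).stronglyMeasurable
  have h3 := h2.integral_prod_right' (ν := D.s)
  have h4 : (fun x => ∫ y in ball x ρ, g (x, y) ∂D.s) =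
      fun x => ∫ y, {p : E4 × E4 | dist p.2 p.1 < ρ}.indicator g (x, y) ∂D.s := by
    funext x
    rw [← integral_indicator measurableSet_ball]
    rfl
  rw [h4]
  exact h3.measurable

theorem bd_gi (h : GEO1) (h4 : LIN4) : ∃ B : ℝ, 0 ≤ B ∧ ∀ x y, ‖y - x‖ ≤ 1 → |gi D x y| ≤ B := by
  obtain ⟨-, -, C, hC, hb⟩ := h D
  obtain ⟨Cq, hCq, h4'⟩ := h4 D.m D.M D.L
  have hφ := fun y => h4' (D.J y) (D.F y) (D.bd y) (D.bJ y) (D.φ y) (D.pos y) (D.nrm y)
  refine ⟨√(Cq * C ^ 2) * √(Cq * Cq + 1), by positivity, fun x y hxy => ?_⟩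
  have hn : (0 : ℝ) ≤ ‖y - x‖ := norm_nonneg _
  unfold gi
  rw [abs_of_nonneg (by positivity)]
  refine mul_le_mul (Real.sqrt_le_sqrt ?_) (Real.sqrt_le_sqrt ?_) (Real.sqrt_nonneg _)
    (Real.sqrt_nonneg _)
  · refine ((hφ y).2.2.2.1 _).trans ?_
    have h1 := (hb x y hxy).2.1
    have h2 : ‖D.dy x y‖ ≤ C := h1.trans (by nlinarith)
    have h3 : ‖D.dy x y‖ ^ 2 ≤ C ^ 2 := by gcongr
    exact mul_le_mul_of_nonneg_left h3 hCq
  · have h1 : |D.qx x y| ≤ Cq * Cq :=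
      ((hφ x).2.1 _ (alt_φ D y)).trans (mul_le_mul_of_nonneg_left (hφ y).1 hCq)
    have h2 : ‖y - x‖ ^ 2 ≤ 1 := by nlinarith
    linarith

theorem int_gi (h : GEO1) (h4 : LIN4) {ρ : ℝ} (hρ : ρ ≤ 1) (A : Set E4) :
    IntegrableOn (fun x => ∫ y in ball x ρ, gi D x y ∂D.s) A D.s := by
  have := D.fin
  obtain ⟨B, hB0, hB⟩ := bd_gi D h h4
  refine Integrable.of_bound (C := B * D.s.real univ) ?_ ?_
  · exact (meas_inner D (meas_gi D h) ρ).aestronglyMeasurable
  · refine Eventually.of_forall fun x => ?_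
    have h1 : ‖∫ y in ball x ρ, gi D x y ∂D.s‖ ≤ B * D.s.real (ball x ρ) := by
      refine norm_setIntegral_le_of_norm_le_const (measure_lt_top _ _) fun y hy => ?_
      rw [Real.norm_eq_abs]
      refine hB x y ?_
      rw [mem_ball, dist_eq_norm] at hy
      linarith
    refine h1.trans (mul_le_mul_of_nonneg_left ?_ hB0)
    exact measureReal_mono (subset_univ _)

/-- integrability of the pairing with a continuous compactly supported form. -/
theorem int_q (h4 : LIN4) {β : E4 → Bil} (hc : Continuous β) (hs : HasCompactSupport β)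
    (ha : ∀ y, Alt (β y)) : Integrable (fun y => q (D.F y) (D.φ y) (β y)) D.s := by
  have := D.fin
  obtain ⟨Cq, hCq, h4'⟩ := h4 D.m D.M D.L
  have hφ := fun y => h4' (D.J y) (D.F y) (D.bd y) (D.bJ y) (D.φ y) (D.pos y) (D.nrm y)
  obtain ⟨B, hB⟩ := hs.exists_bound_of_continuous hc
  refine Integrable.of_bound (C := Cq * B) ?_ ?_
  · exact (meas_q (meas_ent (meas_F D)) (meas_ent D.meas)
      (meas_ent hc.measurable)).aestronglyMeasurable
  · refine Eventually.of_forall fun y => ?_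
    rw [Real.norm_eq_abs]
    exact ((hφ y).2.1 _ (ha y)).trans (mul_le_mul_of_nonneg_left (hB y) hCq)

end LC

theorem cont_d1 {S : E4 → Cov} (hS : ContDiff ℝ ∞ S) : Continuous (d1 S) := by
  have h1 : Continuous (fderiv ℝ S) := hS.continuous_fderiv (by simp)
  have h2 : Continuous fun y => (fderiv ℝ S y).flip :=
    (ContinuousLinearMap.flipₗᵢ ℝ E4 E4 ℝ).continuous.comp h1
  exact h1.sub h2

theorem d1_zero_of_notMem {S : E4 → Cov} {y : E4} (hy : y ∉ tsupport S) : d1 S y = 0 := by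
  have h1 : fderiv ℝ S y = 0 := by
    by_contra h
    exact hy (support_fderiv_subset ℝ h)
  unfold d1
  rw [h1]
  ext u v
  simp

theorem cpt_d1 {S : E4 → Cov} (hS : HasCompactSupport S) : HasCompactSupport (d1 S) := by
  refine HasCompactSupport.intro hS fun y hy => d1_zero_of_notMem hy

theorem tsupp_smul (g : E4 → ℝ) (S : E4 → Cov) : tsupport (fun y => g y • S y) ⊆ tsupport S := by
  refine closure_mono fun y hy h0 => hy ?_
  simp only [h0, smul_zero]

theorem cpt_smul {g : E4 → ℝ} {S : E4 → Cov} (hS : HasCompactSupport S) :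
    HasCompactSupport fun y => g y • S y := by
  refine HasCompactSupport.intro hS fun y hy => ?_
  rw [image_eq_zero_of_notMem_tsupport hy, smul_zero]

theorem q_smul_right' (F b c : Bil) (t : ℝ) : q F b (t • c) = t * q F b c := by
  unfold q; rw [W_smul_right]; ring

/-- **CLO.** -/
theorem clo (hgra : GRA) (hgri : GRI) (hmon : MON) (h4 : LIN4) (hgeo : GEO1) : CLO := by
  intro D δ K hδ hδ1 hK ν hν hlim H hH S hS hSc hSs
  have := D.fin
  obtain ⟨C0, r0, hC0, hr0, -, hb, -⟩ := hmon D δ K hδ hδ1 hK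
  obtain ⟨C1, r1, a, hC1, hr1, ha, hg⟩ := hgra D δ K hδ hδ1 hK
  obtain ⟨Cq, hCq, h4'⟩ := h4 D.m D.M D.L
  have hφ := fun y => h4' (D.J y) (D.F y) (D.bd y) (D.bJ y) (D.φ y) (D.pos y) (D.nrm y)
  obtain ⟨B0, hB0⟩ : ∃ B, ∀ t ∈ Icc 0 C0, ‖H t‖ ≤ B :=
    isCompact_Icc.exists_bound_of_continuousOn hH.continuous.continuousOn
  obtain ⟨B1, hB1⟩ : ∃ B, ∀ t ∈ Icc 0 C0, ‖deriv H t‖ ≤ B :=
    isCompact_Icc.exists_bound_of_continuousOn (hH.continuous_deriv (by simp)).continuousOn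
  obtain ⟨BS, hBS⟩ := hSc.exists_bound_of_continuous hS.continuous
  have hB1' : 0 ≤ B1 := (norm_nonneg _).trans (hB1 0 ⟨le_rfl, hC0⟩)
  have hBS' : 0 ≤ BS := (norm_nonneg _).trans (hBS 0)
  have hmem : ∀ x r, 0 < r → D.nuR K r x ∈ Icc 0 C0 := fun x r hr => hb x r hr
  have hdS : Integrable (fun y => q (D.F y) (D.φ y) (d1 S y)) D.s :=
    LC.int_q D h4 (cont_d1 hS) (cpt_d1 hSc) (fun y => alt_d1 S y)
  have hmq : Measurable fun y => q (D.F y) (D.φ y) (d1 S y) :=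
    meas_q (meas_ent (LC.meas_F D)) (meas_ent D.meas) (meas_ent (cont_d1 hS).measurable)
  -- claim A
  have hA : Tendsto (fun r => ∫ y, H (D.nuR K r y) * q (D.F y) (D.φ y) (d1 S y) ∂D.s) (𝓝[>] 0)
      (𝓝 (∫ y, H (ν y) * q (D.F y) (D.φ y) (d1 S y) ∂D.s)) := by
    refine tendsto_integral_filter_of_dominated_convergence
      (fun y => B0 * ‖q (D.F y) (D.φ y) (d1 S y)‖) ?_ ?_ (hdS.norm.const_mul B0) ?_
    · have h1 : ∀ᶠ r in 𝓝[>] (0 : ℝ), r ∈ Ioc 0 r1 := Ioc_mem_nhdsGT hr1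
      filter_upwards [h1] with r hr
      have h2 : Continuous (D.nuR K r) := (hg r hr.1 hr.2).1.continuous
      exact ((hH.continuous.comp h2).measurable.mul hmq).aestronglyMeasurable
    · filter_upwards [self_mem_nhdsWithin] with r hr
      refine Eventually.of_forall fun y => ?_
      rw [norm_mul]
      exact mul_le_mul_of_nonneg_right (hB0 _ (hmem y r hr)) (norm_nonneg _)
    · refine Eventually.of_forall fun y => ?_
      by_cases hy : y ∈ tsupport S
      · have h1 := hlim y (hSs hy)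
        exact ((hH.continuous.tendsto _).comp h1).mul_const _
      · have h1 : q (D.F y) (D.φ y) (d1 S y) = 0 := by
          rw [d1_zero_of_notMem hy]
          have := q_smul_right' (D.F y) (D.φ y) 0 0
          rwa [zero_smul, zero_mul] at this
        simp only [h1, mul_zero]
        exact tendsto_const_nhds
  -- claim B
  have hB : ∀ r, 0 < r → r ≤ r1 → a * r ≤ 1 →
      ‖∫ y, H (D.nuR K r y) * q (D.F y) (D.φ y) (d1 S y) ∂D.s‖ ≤
        B1 * C1 * BS * ((r ^ 4)⁻¹ * (∫ x in ball D.x0 (2 * D.R), ∫ y in ball x (a * r),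
          √(D.De x y) * √(|D.qx x y| + ‖y - x‖ ^ 2) ∂D.s ∂D.s) + r * D.s.real univ) := by
    intro r hr hrr har
    obtain ⟨hf, hgr⟩ := hg r hr hrr
    set f := D.nuR K r with hfdef
    have hT : ContDiff ℝ ∞ fun y => H (f y) • S y := (hH.comp hf).smul hS
    have hTc : HasCompactSupport fun y => H (f y) • S y := cpt_smul hSc
    have hTs : tsupport (fun y => H (f y) • S y) ⊆ ball D.x0 (4 * D.R) := by
      refine (tsupp_smul (fun y => H (f y)) S).trans (hSs.trans (ball_subset_ball ?_))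
      have := D.R_pos
      linarith
    have hcl := D.closed _ hT hTc hTs
    have hfd : ∀ y, fderiv ℝ (fun z => H (f z)) y = deriv H (f y) • fderiv ℝ f y := by
      intro y
      have h1 : HasDerivAt H (deriv H (f y)) (f y) :=
        ((hH.differentiable (by simp)) _).hasDerivAt
      have h2 : HasFDerivAt f (fderiv ℝ f y) y := ((hf.differentiable (by simp)) _).hasFDerivAt
      exact (h1.comp_hasFDerivAt y h2).fderiv
    have hexp : ∀ y, q (D.F y) (D.φ y) (d1 (fun y => H (f y) • S y) y) =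
        deriv H (f y) * q (D.F y) (D.φ y) (wed (fderiv ℝ f y) (S y)) +
          H (f y) * q (D.F y) (D.φ y) (d1 S y) := by
      intro y
      have h1 : d1 (fun y => H (f y) • S y) y =
          wed (fderiv ℝ (fun z => H (f z)) y) (S y) + H (f y) • d1 S y :=
        d1_smul ((hH.comp hf).differentiable (by simp) y) (hS.differentiable (by simp) y)
      rw [h1, hfd, En.wed_smul_left, q_add_right, q_smul_right', q_smul_right']
    have hint : Integrable (fun y => q (D.F y) (D.φ y) (d1 (fun y => H (f y) • S y) y)) D.s :=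
      LC.int_q D h4 (cont_d1 hT) (cpt_d1 hTc) (fun y => alt_d1 _ y)
    have hint2 : Integrable (fun y => H (f y) * q (D.F y) (D.φ y) (d1 S y)) D.s := by
      refine Integrable.mono' (hdS.norm.const_mul B0)
        ((hH.continuous.comp hf.continuous).measurable.mul hmq).aestronglyMeasurable
        (Eventually.of_forall fun y => ?_)
      rw [norm_mul]
      exact mul_le_mul_of_nonneg_right (hB0 _ (hmem y r hr)) (norm_nonneg _)
    have hint1 : Integrable
        (fun y => deriv H (f y) * q (D.F y) (D.φ y) (wed (fderiv ℝ f y) (S y))) D.s := by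
      have h1 := hint.sub hint2
      refine h1.congr (Eventually.of_forall fun y => ?_)
      simp only [Pi.sub_apply]
      rw [hexp]; ring
    have hsum : ∫ y, H (f y) * q (D.F y) (D.φ y) (d1 S y) ∂D.s =
        - ∫ y, deriv H (f y) * q (D.F y) (D.φ y) (wed (fderiv ℝ f y) (S y)) ∂D.s := by
      have h1 : ∫ y, q (D.F y) (D.φ y) (d1 (fun y => H (f y) • S y) y) ∂D.s =
          (∫ y, deriv H (f y) * q (D.F y) (D.φ y) (wed (fderiv ℝ f y) (S y)) ∂D.s) +
            ∫ y, H (f y) * q (D.F y) (D.φ y) (d1 S y) ∂D.s := by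
        rw [← integral_add hint1 hint2]
        exact integral_congr_ae (Eventually.of_forall fun y => hexp y)
      rw [hcl] at h1
      linarith
    rw [hsum, norm_neg]
    set I : E4 → ℝ := fun x => ∫ y in ball x (a * r),
      √(D.De x y) * √(|D.qx x y| + ‖y - x‖ ^ 2) ∂D.s with hI
    have hIi : IntegrableOn I (ball D.x0 (2 * D.R)) D.s :=
      LC.int_gi D hgeo h4 har (ball D.x0 (2 * D.R))
    have hci : IntegrableOn (fun _ : E4 => r) (ball D.x0 (2 * D.R)) D.s :=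
      integrableOn_const (measure_ne_top _ _)
    have hbi : IntegrableOn (fun y => B1 * C1 * BS * ((r ^ 4)⁻¹ * I y + r))
        (ball D.x0 (2 * D.R)) D.s := ((hIi.const_mul _).add hci).const_mul _
    refine (norm_integral_le_of_norm_le (hbi.integrable_indicator measurableSet_ball)
      (Eventually.of_forall fun y => ?_)).trans ?_
    · by_cases hy : y ∈ ball D.x0 (2 * D.R)
      · rw [indicator_of_mem hy, norm_mul]
        have h1 := hB1 _ (hmem y r hr)
        have h2 := hgr y hy (S y)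
        rw [← Real.norm_eq_abs] at h2
        have h3 : C1 * ‖S y‖ * ((r ^ 4)⁻¹ * I y + r) ≤ C1 * BS * ((r ^ 4)⁻¹ * I y + r) := by
          have h4 : 0 ≤ I y := integral_nonneg fun z => by positivity
          have := hBS y
          gcongr
        calc ‖deriv H (f y)‖ * ‖q (D.F y) (D.φ y) (wed (fderiv ℝ f y) (S y))‖
            ≤ B1 * (C1 * BS * ((r ^ 4)⁻¹ * I y + r)) :=
              mul_le_mul h1 (h2.trans h3) (norm_nonneg _) hB1'
          _ = _ := by ring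
      · have hS0 : S y = 0 := by
          by_contra h
          exact hy (hSs (subset_tsupport _ h))
        rw [indicator_of_notMem hy, hS0]
        have h1 : wed (fderiv ℝ f y) 0 = (0 : ℝ) • wed (fderiv ℝ f y) 0 := by
          rw [← En.wed_smul_right, smul_zero]
        rw [h1, q_smul_right', zero_mul, mul_zero, norm_zero]
    · rw [integral_indicator measurableSet_ball, integral_const_mul,
        integral_add (hIi.const_mul _) hci, integral_const_mul, setIntegral_const, smul_eq_mul]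
      have h1 : D.s.real (ball D.x0 (2 * D.R)) ≤ D.s.real univ := measureReal_mono (subset_univ _)
      have h2 : D.s.real (ball D.x0 (2 * D.R)) * r ≤ r * D.s.real univ := by nlinarith
      gcongr
  -- conclusion
  obtain ⟨ρ, hρ, hρ0, h1⟩ := hgri D a ha
  have hρn : Tendsto ρ atTop (𝓝[>] 0) :=
    tendsto_nhdsWithin_iff.2 ⟨hρ0, Eventually.of_forall hρ⟩
  have hC : Tendsto (fun k => ∫ y, H (D.nuR K (ρ k) y) * q (D.F y) (D.φ y) (d1 S y) ∂D.s) atTop
      (𝓝 0) := by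
    have h2 : Tendsto (fun k => ρ k * D.s.real univ) atTop (𝓝 0) := by
      have h3 := hρ0.mul_const (D.s.real univ)
      rwa [zero_mul] at h3
    have h3 := (h1.add h2).const_mul (B1 * C1 * BS)
    rw [add_zero, mul_zero] at h3
    refine squeeze_zero_norm' ?_ h3
    have e1 : ∀ᶠ r in 𝓝[>] (0 : ℝ), r ∈ Ioc 0 r1 := Ioc_mem_nhdsGT hr1
    have e2 : ∀ᶠ r in 𝓝[>] (0 : ℝ), r ∈ Ioc 0 (1 / a) := Ioc_mem_nhdsGT (by positivity)
    filter_upwards [hρn.eventually e1, hρn.eventually e2] with k hr hr'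
    refine hB (ρ k) hr.1 hr.2 ?_
    have := hr'.2
    rw [le_div_iff₀ ha] at this
    linarith
  exact tendsto_nhds_unique (hA.comp hρn) hC

end

end Crest.Agent.R235.CurClo_505
end

-- ▼ part R235/CurGra_109
section

/-!
Row 235 (S0364), PACKAGE CUR, helper109: the tangential gradient of `nuR`
(`GRA` of `CurDefs_132`).

* `gra : LIN1' → LIN3 → LIN4 → GEO1 → GEO2 → GRA`
* reusable: `Cut` facts, measurability and integrability of `q`-expressions, `hasFDerivAt_nuR`,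
  `contDiff_nuR`, the identity `ident` obtained by testing closedness with `K(ρ²/r²) F(V,·)`.
-/

set_option autoImplicit false
set_option maxSynthPendingDepth 3

open Set Function Filter MeasureTheory Metric
open scoped ContDiff ENNReal Topology

namespace Crest.Agent.R235.CurGra_109

open Crest.Agent.R240 Crest.Agent.R240.En Crest.Agent.R240.Pot Crest.Agent.R235.CurDefs_132

noncomputable section

/-! ### profiles -/

section Kcut

variable {δ : ℝ} {K : ℝ → ℝ}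

lemma cut_nonneg (h : Cut δ K) (t : ℝ) : 0 ≤ K t := by
  have := h.anti (le_max_left t (1 + δ))
  rwa [h.zero _ (le_max_right _ _)] at this

lemma cut_le_one (h : Cut δ K) (t : ℝ) : K t ≤ 1 := by
  have := h.anti (min_le_left t 1)
  rwa [h.one _ (min_le_right _ _)] at this

lemma cut_deriv_gt (h : Cut δ K) {t : ℝ} (ht : 1 + δ < t) : deriv K t = 0 := by
  have : K =ᶠ[𝓝 t] fun _ => (0 : ℝ) := by
    filter_upwards [lt_mem_nhds ht] with u hu using h.zero u hu.le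
  rw [this.deriv_eq]; simp

lemma cut_deriv_lt (h : Cut δ K) {t : ℝ} (ht : t < 1) : deriv K t = 0 := by
  have : K =ᶠ[𝓝 t] fun _ => (1 : ℝ) := by
    filter_upwards [gt_mem_nhds ht] with u hu using h.one u hu.le
  rw [this.deriv_eq]; simp

lemma cut_cont (h : Cut δ K) : Continuous (deriv K) :=
  h.smooth.continuous_deriv (by norm_num)

lemma cut_bound (h : Cut δ K) : ∃ C : ℝ, 0 ≤ C ∧ ∀ t, |deriv K t| ≤ C := by
  obtain ⟨C, hC⟩ := (isCompact_Icc (a := (1 : ℝ)) (b := 1 + δ)).exists_bound_of_continuousOn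
    (cut_cont h).continuousOn
  refine ⟨max C 0, le_max_right _ _, fun t => ?_⟩
  by_cases h1 : t < 1
  · rw [cut_deriv_lt h h1]; simp
  · by_cases h2 : 1 + δ < t
    · rw [cut_deriv_gt h h2]; simp
    · exact (hC t ⟨not_lt.1 h1, not_lt.1 h2⟩).trans (le_max_left _ _)

end Kcut

/-! ### measurability -/

lemma cont_ent (i j : Fin 4) : Continuous fun b : Bil => ent b i j := by
  unfold ent; fun_prop

lemma meas_ent {b : E4 → Bil} (hb : Measurable b) (i j : Fin 4) :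
    Measurable fun y => ent (b y) i j := (cont_ent i j).measurable.comp hb

lemma meas_W {b c : E4 → Bil} (hb : Measurable b) (hc : Measurable c) :
    Measurable fun y => W (b y) (c y) := by
  have h1 := fun i j => meas_ent hb i j
  have h2 := fun i j => meas_ent hc i j
  unfold W
  exact ((((((h1 0 1).mul (h2 2 3)).sub ((h1 0 2).mul (h2 1 3))).add
    ((h1 0 3).mul (h2 1 2))).add ((h1 1 2).mul (h2 0 3))).sub
    ((h1 1 3).mul (h2 0 2))).add ((h1 2 3).mul (h2 0 1))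

lemma meas_q {F φ b : E4 → Bil} (hF : Measurable F) (hφ : Measurable φ) (hb : Measurable b) :
    Measurable fun y => q (F y) (φ y) (b y) := by
  unfold q
  exact (meas_W hφ hb).div (meas_W hF hF)

lemma q_add_right (F b c d : Bil) : q F b (c + d) = q F b c + q F b d := by
  unfold q; rw [W_add_right]; ring

lemma q_smul_right (F b : Bil) (r : ℝ) (c : Bil) : q F b (r • c) = r * q F b c := by
  unfold q; rw [W_smul_right]; ring

/-! ### the kernel and its derivatives -/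

variable (D : LC)

lemma cont_F : Continuous D.F := D.smF.continuous
lemma cont_J : Continuous D.J := D.smJ.continuous

section geo

variable {D} (hρ : ContDiff ℝ ∞ (fun z : E4 × E4 => D.rho2 z.1 z.2))
include hρ

lemma sm_rho2_r (x : E4) : ContDiff ℝ ∞ (fun y => D.rho2 x y) := by
  have h : ContDiff ℝ ∞ (fun y : E4 => (x, y)) := contDiff_const.prodMk contDiff_id
  exact ContDiff.comp (g := fun z : E4 × E4 => D.rho2 z.1 z.2) (f := fun y : E4 => (x, y)) hρ h

lemma sm_rho2_l (y : E4) : ContDiff ℝ ∞ (fun x => D.rho2 x y) := by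
  have h : ContDiff ℝ ∞ (fun x : E4 => (x, y)) := contDiff_id.prodMk contDiff_const
  exact ContDiff.comp (g := fun z : E4 × E4 => D.rho2 z.1 z.2) (f := fun x : E4 => (x, y)) hρ h

lemma dy_eq (x y : E4) : D.dy x y =
    (fderiv ℝ (fun z : E4 × E4 => D.rho2 z.1 z.2) (x, y)).comp
      (ContinuousLinearMap.inr ℝ E4 E4) := by
  have h1 : HasFDerivAt (fun z : E4 × E4 => D.rho2 z.1 z.2)
      (fderiv ℝ (fun z : E4 × E4 => D.rho2 z.1 z.2) (x, y)) (x, y) :=
    (hρ.differentiable (by norm_num) (x, y)).hasFDerivAt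
  have h2 : HasFDerivAt (fun z : E4 => (x, z)) (ContinuousLinearMap.inr ℝ E4 E4) y :=
    hasFDerivAt_prodMk_right x y
  exact (h1.comp y h2).fderiv

lemma dx_eq (x y : E4) : D.dx x y =
    (fderiv ℝ (fun z : E4 × E4 => D.rho2 z.1 z.2) (x, y)).comp
      (ContinuousLinearMap.inl ℝ E4 E4) := by
  have h1 : HasFDerivAt (fun z : E4 × E4 => D.rho2 z.1 z.2)
      (fderiv ℝ (fun z : E4 × E4 => D.rho2 z.1 z.2) (x, y)) (x, y) :=
    (hρ.differentiable (by norm_num) (x, y)).hasFDerivAt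
  have h2 : HasFDerivAt (fun z : E4 => (z, y)) (ContinuousLinearMap.inl ℝ E4 E4) x :=
    hasFDerivAt_prodMk_left x y
  exact (h1.comp x h2).fderiv

lemma cont_dy (x : E4) : Continuous (fun y => D.dy x y) := by
  simp_rw [dy_eq hρ]
  have h : Continuous (fderiv ℝ (fun z : E4 × E4 => D.rho2 z.1 z.2)) :=
    hρ.continuous_fderiv (by norm_num)
  exact (h.comp (Continuous.prodMk continuous_const continuous_id)).clm_comp continuous_const

lemma cont_dx (x : E4) : Continuous (fun y => D.dx x y) := by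
  simp_rw [dx_eq hρ]
  have h : Continuous (fderiv ℝ (fun z : E4 × E4 => D.rho2 z.1 z.2)) :=
    hρ.continuous_fderiv (by norm_num)
  exact (h.comp (Continuous.prodMk continuous_const continuous_id)).clm_comp continuous_const

/-- the `y`-derivative of the cut-off -/
lemma fd_cut_y {δ : ℝ} {K : ℝ → ℝ} (hK : Cut δ K) (r : ℝ) (x y : E4) :
    fderiv ℝ (fun y => K (D.rho2 x y / r ^ 2)) y =
      (deriv K (D.rho2 x y / r ^ 2) * (r ^ 2)⁻¹) • D.dy x y := by
  have h1 : HasFDerivAt (fun y => D.rho2 x y) (D.dy x y) y :=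
    ((sm_rho2_r hρ x).differentiable (by norm_num) y).hasFDerivAt
  have h2 : HasFDerivAt (fun y => D.rho2 x y / r ^ 2) ((r ^ 2)⁻¹ • D.dy x y) y := by
    simp_rw [div_eq_mul_inv]
    exact h1.mul_const ((r ^ 2)⁻¹)
  have h3 : HasDerivAt K (deriv K (D.rho2 x y / r ^ 2)) (D.rho2 x y / r ^ 2) :=
    (hK.smooth.differentiable (by norm_num) _).hasDerivAt
  have h4 := h3.comp_hasFDerivAt y h2
  rw [smul_smul] at h4
  exact h4.fderiv

/-- the `x`-derivative of the cut-off -/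
lemma fd_cut_x {δ : ℝ} {K : ℝ → ℝ} (hK : Cut δ K) (r : ℝ) (x y : E4) :
    fderiv ℝ (fun x => K (D.rho2 x y / r ^ 2)) x =
      (deriv K (D.rho2 x y / r ^ 2) * (r ^ 2)⁻¹) • D.dx x y := by
  have h1 : HasFDerivAt (fun x => D.rho2 x y) (D.dx x y) x :=
    ((sm_rho2_l hρ y).differentiable (by norm_num) x).hasFDerivAt
  have h2 : HasFDerivAt (fun x => D.rho2 x y / r ^ 2) ((r ^ 2)⁻¹ • D.dx x y) x := by
    simp_rw [div_eq_mul_inv]
    exact h1.mul_const ((r ^ 2)⁻¹)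
  have h3 : HasDerivAt K (deriv K (D.rho2 x y / r ^ 2)) (D.rho2 x y / r ^ 2) :=
    (hK.smooth.differentiable (by norm_num) _).hasDerivAt
  have h4 := h3.comp_hasFDerivAt x h2
  rw [smul_smul] at h4
  exact h4.fderiv

lemma sm_cut {δ : ℝ} {K : ℝ → ℝ} (hK : Cut δ K) (r : ℝ) :
    ContDiff ℝ ∞ (fun z : E4 × E4 => K (D.rho2 z.1 z.2 / r ^ 2)) :=
  hK.smooth.comp (hρ.div_const _)

end geo

lemma m_pos : 0 < D.m := (D.bd 0).m_pos

/-- the support radius factor -/
def aa : ℝ := √(2 / D.m)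

lemma aa_pos : 0 < aa D := Real.sqrt_pos.2 (div_pos two_pos (m_pos D))

lemma aa_sq : aa D ^ 2 = 2 / D.m := Real.sq_sqrt (div_pos two_pos (m_pos D)).le

variable {D}

lemma lt_of_rho {x y : E4} (hlo : D.m * ‖y - x‖ ^ 2 ≤ D.rho2 x y) {δ r : ℝ} (hδ : δ ≤ 1)
    (hr : 0 < r) (h : D.rho2 x y / r ^ 2 < 1 + δ) : ‖y - x‖ < aa D * r := by
  have hm := m_pos D
  have h1 : D.rho2 x y < 2 * r ^ 2 := by
    rw [div_lt_iff₀ (by positivity)] at h
    nlinarith [sq_nonneg r]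
  have h2 : ‖y - x‖ ^ 2 < (aa D * r) ^ 2 := by
    rw [mul_pow, aa_sq, div_mul_eq_mul_div, lt_div_iff₀ hm]
    linarith
  exact lt_of_pow_lt_pow_left₀ 2 (mul_nonneg (aa_pos D).le hr.le) h2

lemma K_zero {x y : E4} (hlo : D.m * ‖y - x‖ ^ 2 ≤ D.rho2 x y) {δ r : ℝ} (hδ : δ ≤ 1)
    (hr : 0 < r) {K : ℝ → ℝ} (hK : Cut δ K) (h : aa D * r ≤ ‖y - x‖) :
    K (D.rho2 x y / r ^ 2) = 0 := by
  by_contra h0
  have h1 : D.rho2 x y / r ^ 2 < 1 + δ := by
    by_contra h2
    exact h0 (hK.zero _ (not_lt.1 h2))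
  exact absurd (lt_of_rho hlo hδ hr h1) (not_lt.2 h)

lemma cut_deriv_ge {δ : ℝ} {K : ℝ → ℝ} (h : Cut δ K) {t : ℝ} (ht : 1 + δ ≤ t) :
    deriv K t = 0 := by
  have hcl : IsClosed {t | deriv K t = 0} := isClosed_eq (cut_cont h) continuous_const
  have h1 : closure (Ioi (1 + δ)) ⊆ {t | deriv K t = 0} :=
    hcl.closure_subset_iff.2 fun u hu => cut_deriv_gt h hu
  rw [closure_Ioi] at h1
  exact h1 ht

lemma dK_zero {x y : E4} (hlo : D.m * ‖y - x‖ ^ 2 ≤ D.rho2 x y) {δ r : ℝ} (hδ : δ ≤ 1)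
    (hr : 0 < r) {K : ℝ → ℝ} (hK : Cut δ K) (h : aa D * r ≤ ‖y - x‖) :
    deriv K (D.rho2 x y / r ^ 2) = 0 := by
  by_contra h0
  have h1 : D.rho2 x y / r ^ 2 < 1 + δ := by
    by_contra h2
    exact h0 (cut_deriv_ge hK (not_lt.1 h2))
  exact absurd (lt_of_rho hlo hδ hr h1) (not_lt.2 h)

/-- smoothness of `nuR` and its gradient. -/
theorem nuR_deriv (hρ : ContDiff ℝ ∞ (fun z : E4 × E4 => D.rho2 z.1 z.2))
    (hlo : ∀ x y, D.m * ‖y - x‖ ^ 2 ≤ D.rho2 x y) {δ r : ℝ} (hδ : δ ≤ 1) (hr : 0 < r)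
    {K : ℝ → ℝ} (hK : Cut δ K) : ContDiff ℝ ∞ (D.nuR K r) ∧ ∀ x w,
      fderiv ℝ (D.nuR K r) x w =
        (r ^ 2)⁻¹ * ∫ y, deriv K (D.rho2 x y / r ^ 2) * (r ^ 2)⁻¹ * D.dx x y w ∂D.s := by
  have := D.fin
  have hg := sm_cut hρ hK r
  set g : E4 × E4 → ℝ := fun z => K (D.rho2 z.1 z.2 / r ^ 2) with hgd
  have hgo : ContDiffOn ℝ ∞ g univ := hg.contDiffOn
  -- the set on which everything lives
  have hfar : ∀ x1 x : E4, x ∈ ball x1 1 → ∀ y, y ∉ closedBall x1 (1 + aa D * r) →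
      aa D * r ≤ ‖y - x‖ := by
    intro x1 x hx y hy
    rw [mem_closedBall, not_le, dist_eq_norm] at hy
    rw [mem_ball, dist_eq_norm] at hx
    have : ‖y - x1‖ ≤ ‖y - x‖ + ‖x - x1‖ := norm_sub_le_norm_sub_add_norm_sub y x x1
    linarith
  have hloc : ∀ x1 x : E4, x ∈ ball x1 1 →
      D.nuR K r x = (r ^ 2)⁻¹ * ∫ y in closedBall x1 (1 + aa D * r), g (x, y) ∂D.s := by
    intro x1 x hx
    unfold LC.nuR
    congr 1
    exact (setIntegral_eq_integral_of_forall_compl_eq_zero fun y hy =>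
      K_zero (hlo x y) hδ hr hK (hfar x1 x hx y hy)).symm
  have hsub : ∀ x1 : E4, ball x1 1 ×ˢ closedBall x1 (1 + aa D * r) ⊆ (univ : Set (E4 × E4)) :=
    fun _ => subset_univ _
  constructor
  · refine contDiff_iff_contDiffAt.2 fun x1 => ?_
    have h1 := SmJ.contDiffOn_integral (s := univ) isOpen_univ (U := ball x1 1) isOpen_ball
      (isCompact_closedBall x1 (1 + aa D * r)) (hsub x1) D.s hgo
    have h2 := (contDiffOn_const (c := (r ^ 2)⁻¹)).mul h1
    have h3 := h2.contDiffAt (ball_mem_nhds x1 one_pos)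
    refine h3.congr_of_eventuallyEq ?_
    filter_upwards [ball_mem_nhds x1 one_pos] with x hx using hloc x1 x hx
  · intro x w
    have h1 := SmJ.hasFDerivAt_integral (s := univ) isOpen_univ (U := ball x 1) isOpen_ball
      (isCompact_closedBall x (1 + aa D * r)) (hsub x) D.s hgo (mem_ball_self one_pos)
    have h2 := h1.const_mul ((r ^ 2)⁻¹)
    have h3 : HasFDerivAt (D.nuR K r)
        ((r ^ 2)⁻¹ • ∫ y in closedBall x (1 + aa D * r), SmJ.dx g (x, y) ∂D.s) x := by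
      refine h2.congr_of_eventuallyEq ?_
      filter_upwards [ball_mem_nhds x one_pos] with x' hx' using hloc x x' hx'
    rw [h3.fderiv]
    have hdx : ∀ y, SmJ.dx g (x, y) = (deriv K (D.rho2 x y / r ^ 2) * (r ^ 2)⁻¹) • D.dx x y := by
      intro y
      rw [← fd_cut_x hρ hK r x y]
      have a1 : HasFDerivAt g (fderiv ℝ g (x, y)) (x, y) :=
        (hg.differentiable (by norm_num) (x, y)).hasFDerivAt
      have a2 : HasFDerivAt (fun z : E4 => (z, y)) (ContinuousLinearMap.inl ℝ E4 E4) x :=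
        hasFDerivAt_prodMk_left x y
      exact ((a1.comp x a2).fderiv).symm
    simp_rw [hdx]
    have hc : Continuous fun y => (deriv K (D.rho2 x y / r ^ 2) * (r ^ 2)⁻¹) • D.dx x y := by
      have b1 : Continuous fun y => deriv K (D.rho2 x y / r ^ 2) :=
        (cut_cont hK).comp ((sm_rho2_r hρ x).continuous.div_const _)
      exact (b1.mul continuous_const).smul (cont_dx hρ x)
    have hint : IntegrableOn (fun y => (deriv K (D.rho2 x y / r ^ 2) * (r ^ 2)⁻¹) • D.dx x y)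
        (closedBall x (1 + aa D * r)) D.s :=
      hc.continuousOn.integrableOn_compact (isCompact_closedBall _ _)
    rw [smul_apply, smul_eq_mul, ContinuousLinearMap.integral_apply hint]
    congr 1
    simp only [smul_apply, smul_eq_mul]
    refine setIntegral_eq_integral_of_forall_compl_eq_zero fun y hy => ?_
    rw [dK_zero (hlo x y) hδ hr hK (hfar x x (mem_ball_self one_pos) y hy)]
    ring

/-! ### the test form -/

variable (D) in
lemma sm_bet (w : E4) (A : E4 →L[ℝ] E4) (x : E4) : ContDiff ℝ ∞ (D.bet w A x) := by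
  unfold LC.bet
  exact D.smF.clm_apply (contDiff_const.add (A.contDiff.comp (contDiff_id.sub contDiff_const)))

variable (D) in
/-- the test 1-form `K(ρ²/r²) F(w + A(y-x), ·)`. -/
def tst (K : ℝ → ℝ) (r : ℝ) (w : E4) (A : E4 →L[ℝ] E4) (x : E4) : E4 → Cov :=
  fun y => K (D.rho2 x y / r ^ 2) • D.bet w A x y

lemma sm_K (hρ : ContDiff ℝ ∞ (fun z : E4 × E4 => D.rho2 z.1 z.2)) {δ : ℝ} {K : ℝ → ℝ}
    (hK : Cut δ K) (r : ℝ) (x : E4) : ContDiff ℝ ∞ (fun y => K (D.rho2 x y / r ^ 2)) :=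
  hK.smooth.comp ((sm_rho2_r hρ x).div_const _)

lemma sm_tst (hρ : ContDiff ℝ ∞ (fun z : E4 × E4 => D.rho2 z.1 z.2)) {δ : ℝ} {K : ℝ → ℝ}
    (hK : Cut δ K) (r : ℝ) (w : E4) (A : E4 →L[ℝ] E4) (x : E4) :
    ContDiff ℝ ∞ (tst D K r w A x) :=
  (sm_K hρ hK r x).smul (sm_bet D w A x)

lemma supp_tst (hlo : ∀ x y, D.m * ‖y - x‖ ^ 2 ≤ D.rho2 x y) {δ r : ℝ} (hδ : δ ≤ 1)
    (hr : 0 < r) {K : ℝ → ℝ} (hK : Cut δ K) (w : E4) (A : E4 →L[ℝ] E4) (x : E4) :
    tsupport (tst D K r w A x) ⊆ closedBall x (aa D * r) := by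
  refine closure_minimal (fun y hy => ?_) isClosed_closedBall
  rw [mem_closedBall, dist_eq_norm]
  by_contra h
  apply hy
  change K (D.rho2 x y / r ^ 2) • D.bet w A x y = 0
  rw [K_zero (hlo x y) hδ hr hK (not_le.1 h).le, zero_smul]

lemma cpt_tst (hlo : ∀ x y, D.m * ‖y - x‖ ^ 2 ≤ D.rho2 x y) {δ r : ℝ} (hδ : δ ≤ 1)
    (hr : 0 < r) {K : ℝ → ℝ} (hK : Cut δ K) (w : E4) (A : E4 →L[ℝ] E4) (x : E4) :
    HasCompactSupport (tst D K r w A x) :=
  (isCompact_closedBall x (aa D * r)).of_isClosed_subset (isClosed_tsupport _)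
    (supp_tst hlo hδ hr hK w A x)

/-- closedness tested with `tst`. -/
lemma tst_closed (hρ : ContDiff ℝ ∞ (fun z : E4 × E4 => D.rho2 z.1 z.2))
    (hlo : ∀ x y, D.m * ‖y - x‖ ^ 2 ≤ D.rho2 x y) {δ r : ℝ} (hδ : δ ≤ 1)
    (hr : 0 < r) {K : ℝ → ℝ} (hK : Cut δ K) (w : E4) (A : E4 →L[ℝ] E4) {x : E4}
    (hx : x ∈ ball D.x0 (2 * D.R)) (har : aa D * r ≤ D.R) :
    ∫ y, q (D.F y) (D.φ y) (d1 (tst D K r w A x) y) ∂D.s = 0 := by
  refine D.closed _ (sm_tst hρ hK r w A x) (cpt_tst hlo hδ hr hK w A x)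
    ((supp_tst hlo hδ hr hK w A x).trans fun y hy => ?_)
  rw [mem_closedBall] at hy
  rw [mem_ball] at hx ⊢
  have := dist_triangle y x D.x0
  have := D.R_pos
  linarith

/-- `d(K F(V,·))`. -/
lemma d1_tst (hρ : ContDiff ℝ ∞ (fun z : E4 × E4 => D.rho2 z.1 z.2)) {δ : ℝ} {K : ℝ → ℝ}
    (hK : Cut δ K) (r : ℝ) (w : E4) (A : E4 →L[ℝ] E4) (x y : E4) :
    q (D.F y) (D.φ y) (d1 (tst D K r w A x) y) =
      deriv K (D.rho2 x y / r ^ 2) * (r ^ 2)⁻¹ *
        q (D.F y) (D.φ y) (wed (D.dy x y) (D.bet w A x y)) +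
      K (D.rho2 x y / r ^ 2) * q (D.F y) (D.φ y) (d1 (D.bet w A x) y) := by
  have h1 : DifferentiableAt ℝ (fun y => K (D.rho2 x y / r ^ 2)) y :=
    (sm_K hρ hK r x).differentiable (by norm_num) y
  have h2 : DifferentiableAt ℝ (D.bet w A x) y :=
    (sm_bet D w A x).differentiable (by norm_num) y
  have h3 : d1 (tst D K r w A x) y = wed (fderiv ℝ (fun y => K (D.rho2 x y / r ^ 2)) y)
      (D.bet w A x y) + K (D.rho2 x y / r ^ 2) • d1 (D.bet w A x) y := d1_smul h1 h2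
  rw [h3, fd_cut_y hρ hK, En.wed_smul_left, q_add_right, q_smul_right, q_smul_right]

/-! ### boundedness and integrability -/

lemma cont_d1 {S : E4 → Cov} (hS : ContDiff ℝ ∞ S) : Continuous (d1 S) := by
  have h : Continuous (fderiv ℝ S) := hS.continuous_fderiv (by norm_num)
  unfold d1
  exact h.sub ((ContinuousLinearMap.flipₗᵢ ℝ E4 E4 ℝ).continuous.comp h)

lemma bdd_d1 {S : E4 → Cov} (hS : ContDiff ℝ ∞ S) (hc : HasCompactSupport S) :
    ∃ B, ∀ y, ‖d1 S y‖ ≤ B := by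
  have h1 : HasCompactSupport (d1 S) := by
    refine (hc.fderiv (𝕜 := ℝ)).mono' ?_
    refine subset_trans (fun y hy => ?_) subset_closure
    intro h0
    apply hy
    simp [d1, h0]
  obtain ⟨B, hB⟩ := h1.exists_bound_of_continuous (cont_d1 hS)
  exact ⟨B, hB⟩

lemma lip_J (x y : E4) : ‖D.J y - D.J x‖ ≤ D.L * ‖y - x‖ :=
  convex_univ.norm_image_sub_le_of_norm_fderiv_le (𝕜 := ℝ)
    (fun z _ => D.smJ.differentiable (by norm_num) z) (fun z _ => D.bJ1 z) (mem_univ x)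
    (mem_univ y)

lemma pos_add {J : E4 →L[ℝ] E4} {P : Bil} (hP : Pos J P) (u v : E4) :
    P (u + v) (J (u + v)) ≤ 2 * P u (J u) + 2 * P v (J v) := by
  have h := hP.nonneg (u - v)
  simp only [map_sub, map_add, sub_apply, add_apply] at h ⊢
  linarith

lemma meas_De (hρ : ContDiff ℝ ∞ (fun z : E4 × E4 => D.rho2 z.1 z.2)) (x : E4) :
    Measurable fun y => D.De x y := by
  have h1 := cont_dy hρ x
  have h2 : Continuous fun y => Jc (D.J y) (D.dy x y) := by
    unfold Jc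
    exact (h1.clm_comp (cont_J D)).neg
  have h3 : Continuous fun y => wed (D.dy x y) (Jc (D.J y) (D.dy x y)) := by
    unfold wed
    exact (((ContinuousLinearMap.smulRightL ℝ E4 (E4 →L[ℝ] ℝ)).continuous.comp h1).clm_apply
      h2).sub (((ContinuousLinearMap.smulRightL ℝ E4 (E4 →L[ℝ] ℝ)).continuous.comp
      h2).clm_apply h1)
  have hF := (cont_F D).measurable
  unfold LC.De defi
  exact ((meas_q hF hF h3.measurable).const_mul 2).sub (meas_q hF D.meas h3.measurable)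

lemma meas_qx (x : E4) : Measurable fun y => D.qx x y := by
  unfold LC.qx
  exact meas_q measurable_const measurable_const D.meas

/-- the error weight of `GRA`. -/
def ZZ (D : LC) (x y : E4) : ℝ := √(D.De x y) * √(|D.qx x y| + ‖y - x‖ ^ 2)

lemma ZZ_nonneg (x y : E4) : 0 ≤ ZZ D x y := mul_nonneg (Real.sqrt_nonneg _) (Real.sqrt_nonneg _)

lemma meas_ZZ (hρ : ContDiff ℝ ∞ (fun z : E4 × E4 => D.rho2 z.1 z.2)) (x : E4) :
    Measurable fun y => ZZ D x y := by
  have h1 := (meas_De hρ x).sqrt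
  have h2 : Measurable fun y => |D.qx x y| + ‖y - x‖ ^ 2 := by
    have h3 : Continuous fun y : E4 => ‖y - x‖ ^ 2 := by fun_prop
    exact ((meas_qx x).abs).add h3.measurable
  exact h1.mul h2.sqrt

set_option maxHeartbeats 2000000 in
/-- **GRA**: the tangential gradient of `nuR`. -/
theorem gra (h1 : LIN1') (h3 : LIN3) (h4 : LIN4) (g1 : GEO1) (g2 : GEO2) : GRA := by
  intro D δ K _ hδ hK
  have := D.fin
  have hm := m_pos D
  obtain ⟨hρ, hlohi, c1, hc1, hgeo1⟩ := g1 D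
  obtain ⟨c2, hc2, hgeo2⟩ := g2 D
  obtain ⟨c3, hc3, hl3⟩ := h3 D.m D.M D.L
  obtain ⟨c4, hc4, hl4⟩ := h4 D.m D.M D.L
  obtain ⟨ck, hck, hkb⟩ := cut_bound hK
  have hlo : ∀ x y, D.m * ‖y - x‖ ^ 2 ≤ D.rho2 x y := fun x y => (hlohi x y).1
  have ha := aa_pos D
  have hL : 1 ≤ D.L := D.L_ge
  have hCn : 0 ≤ D.C := D.C_nn
  set a := aa D with had
  set c5 : ℝ := 2 * c3 * (1 + D.L ^ 2) + 2 * c4 * D.L * (c2 * c4) ^ 2 with hc5d
  have hc5 : 0 ≤ c5 := by positivity
  set c6 : ℝ := ck * c2 * c4 * a ^ 3 + ck * √c5 + c2 * c4 * a with hc6d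
  have hc6 : 0 ≤ c6 := by positivity
  have hfin : 0 ≤ c6 * (1 + D.C * a ^ 2) := by positivity
  refine ⟨c6 * (1 + D.C * a ^ 2), min (D.R / a) (1 / a), a, hfin,
    lt_min (div_pos D.R_pos ha) (by positivity), ha, ?_⟩
  intro r hr hr1
  have haR : a * r ≤ D.R := by
    have := hr1.trans (min_le_left _ _)
    rw [le_div_iff₀ ha] at this
    linarith
  have ha1 : a * r ≤ 1 := by
    have := hr1.trans (min_le_right _ _)
    rw [le_div_iff₀ ha] at this
    linarith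
  obtain ⟨hsm, hfd⟩ := nuR_deriv hρ hlo hδ hr hK
  refine ⟨hsm, ?_⟩
  intro x hx θ
  obtain ⟨-, -, hwb, -, hwq⟩ := hl4 (D.J x) (D.F x) (D.bd x) (D.bJ x) (D.φ x) (D.pos x) (D.nrm x)
  rw [hwq, hfd]
  set w := wv (D.F x) (D.φ x) θ with hwd
  have hw : ‖w‖ ≤ c4 * ‖θ‖ := hwb θ
  obtain ⟨A, hA, hA1, hA2⟩ := hgeo2 x w
  -- pointwise quantities
  set kp : E4 → ℝ := fun y => deriv K (D.rho2 x y / r ^ 2) * (r ^ 2)⁻¹ with hkp
  set kk : E4 → ℝ := fun y => K (D.rho2 x y / r ^ 2) with hkk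
  set P : E4 → ℝ := fun y => q (D.F y) (D.φ y) (wed (D.dy x y) (D.bet w A x y)) with hP
  set E : E4 → ℝ := fun y => q (D.F y) (D.φ y) (d1 (D.bet w A x) y) with hE
  set T : E4 → ℝ := fun y => q (D.F y) (D.φ y) (d1 (tst D K r w A x) y) with hT
  have hT0 : ∫ y, T y ∂D.s = 0 := tst_closed hρ hlo hδ hr hK w A hx haR
  have hTe : ∀ y, T y = kp y * P y + kk y * E y := fun y => d1_tst hρ hK r w A x y
  have hTi : Integrable T D.s := by
    obtain ⟨B, hB⟩ := bdd_d1 (sm_tst hρ hK r w A x) (cpt_tst hlo hδ hr hK w A x)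
    refine Integrable.of_bound (meas_q (cont_F D).measurable D.meas
      (cont_d1 (sm_tst hρ hK r w A x)).measurable).aestronglyMeasurable (c4 * B)
      (Eventually.of_forall fun y => ?_)
    obtain ⟨-, hq, -⟩ := hl4 (D.J y) (D.F y) (D.bd y) (D.bJ y) (D.φ y) (D.pos y) (D.nrm y)
    exact (hq _ (alt_d1 _ _)).trans (mul_le_mul_of_nonneg_left (hB y) hc4)
  have hIi : Integrable (fun y => kp y * D.dx x y w) D.s := by
    have b1 : Continuous fun y => deriv K (D.rho2 x y / r ^ 2) :=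
      (cut_cont hK).comp ((sm_rho2_r hρ x).continuous.div_const _)
    have b2 : Continuous fun y => kp y * D.dx x y w :=
      (b1.mul continuous_const).mul ((cont_dx hρ x).clm_apply continuous_const)
    refine b2.integrable_of_hasCompactSupport ?_
    refine HasCompactSupport.intro (isCompact_closedBall x (a * r)) fun y hy => ?_
    rw [mem_closedBall, not_le, dist_eq_norm] at hy
    simp only [hkp]
    rw [dK_zero (hlo x y) hδ hr hK hy.le]
    ring
  -- the vector at `y`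
  have hV : ∀ y, ‖y - x‖ ≤ 1 → D.φ y (w + A (y - x)) (D.J y (w + A (y - x))) ≤
      c5 * ‖θ‖ ^ 2 * (|D.qx x y| + ‖y - x‖ ^ 2) := by
    intro y _
    have e1 := pos_add (D.pos y) w (A (y - x))
    have e2 : D.φ y w (D.J y w) ≤ c3 * ‖θ‖ ^ 2 * (|D.qx x y| + (D.L * ‖y - x‖) ^ 2) :=
      hl3 (D.J x) (D.J y) (D.F x) (D.F y) (D.bd x) (D.bd y) (D.bJ x) (D.bJ y) (D.φ x) (D.φ y)
        (D.pos x) (D.nrm x) (D.pos y) (D.nrm y) _ (lip_J x y) θ
    obtain ⟨hφ, -⟩ := hl4 (D.J y) (D.F y) (D.bd y) (D.bJ y) (D.φ y) (D.pos y) (D.nrm y)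
    have e3 : ‖A (y - x)‖ ≤ c2 * c4 * ‖θ‖ * ‖y - x‖ := by
      refine (A.le_opNorm _).trans ?_
      refine mul_le_mul_of_nonneg_right ?_ (norm_nonneg _)
      calc ‖A‖ ≤ c2 * ‖w‖ := hA
        _ ≤ c2 * (c4 * ‖θ‖) := mul_le_mul_of_nonneg_left hw hc2
        _ = c2 * c4 * ‖θ‖ := by ring
    have e4 : D.φ y (A (y - x)) (D.J y (A (y - x))) ≤
        c4 * D.L * (c2 * c4 * ‖θ‖ * ‖y - x‖) ^ 2 := by
      have f1 := (D.φ y).le_opNorm₂ (A (y - x)) (D.J y (A (y - x)))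
      have f2 : ‖D.J y (A (y - x))‖ ≤ D.L * ‖A (y - x)‖ :=
        ((D.J y).le_opNorm _).trans (mul_le_mul_of_nonneg_right (D.bJ y) (norm_nonneg _))
      calc D.φ y (A (y - x)) (D.J y (A (y - x)))
          ≤ ‖D.φ y (A (y - x)) (D.J y (A (y - x)))‖ := Real.le_norm_self _
        _ ≤ ‖D.φ y‖ * ‖A (y - x)‖ * ‖D.J y (A (y - x))‖ := f1
        _ ≤ c4 * ‖A (y - x)‖ * (D.L * ‖A (y - x)‖) := by gcongr
        _ = c4 * D.L * ‖A (y - x)‖ ^ 2 := by ring
        _ ≤ c4 * D.L * (c2 * c4 * ‖θ‖ * ‖y - x‖) ^ 2 := by gcongr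
    have e5 : c3 * ‖θ‖ ^ 2 * (|D.qx x y| + (D.L * ‖y - x‖) ^ 2) ≤
        c3 * (1 + D.L ^ 2) * ‖θ‖ ^ 2 * (|D.qx x y| + ‖y - x‖ ^ 2) := by
      have : |D.qx x y| + (D.L * ‖y - x‖) ^ 2 ≤ (1 + D.L ^ 2) * (|D.qx x y| + ‖y - x‖ ^ 2) := by
        nlinarith [abs_nonneg (D.qx x y), mul_nonneg (sq_nonneg D.L) (abs_nonneg (D.qx x y)),
          sq_nonneg ‖y - x‖]
      calc c3 * ‖θ‖ ^ 2 * (|D.qx x y| + (D.L * ‖y - x‖) ^ 2)
          ≤ c3 * ‖θ‖ ^ 2 * ((1 + D.L ^ 2) * (|D.qx x y| + ‖y - x‖ ^ 2)) :=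
            mul_le_mul_of_nonneg_left this (by positivity)
        _ = _ := by ring
    have e6 : c4 * D.L * (c2 * c4 * ‖θ‖ * ‖y - x‖) ^ 2 ≤
        c4 * D.L * (c2 * c4) ^ 2 * ‖θ‖ ^ 2 * (|D.qx x y| + ‖y - x‖ ^ 2) := by
      calc c4 * D.L * (c2 * c4 * ‖θ‖ * ‖y - x‖) ^ 2
          = c4 * D.L * (c2 * c4) ^ 2 * ‖θ‖ ^ 2 * ‖y - x‖ ^ 2 := by ring
        _ ≤ _ := mul_le_mul_of_nonneg_left (by linarith [abs_nonneg (D.qx x y)])
            (by positivity)
    calc D.φ y (w + A (y - x)) (D.J y (w + A (y - x)))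
        ≤ 2 * (c3 * (1 + D.L ^ 2) * ‖θ‖ ^ 2 * (|D.qx x y| + ‖y - x‖ ^ 2)) +
          2 * (c4 * D.L * (c2 * c4) ^ 2 * ‖θ‖ ^ 2 * (|D.qx x y| + ‖y - x‖ ^ 2)) := by
          linarith
      _ = c5 * ‖θ‖ ^ 2 * (|D.qx x y| + ‖y - x‖ ^ 2) := by rw [hc5d]; ring
  -- the error `N`
  have hN : ∀ y, ‖y - x‖ ≤ 1 → |D.dy x y (w + A (y - x)) - P y| ≤ √c5 * ‖θ‖ * ZZ D x y := by
    intro y hy
    obtain ⟨hd, -, hn⟩ := h1 (D.J y) (D.F y) D.m D.M (D.bd y) (D.φ y) (D.pos y) (D.nrm y)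
      (D.dy x y) (w + A (y - x))
    have hd' : 0 ≤ D.De x y := hd
    have hn' : (D.dy x y (w + A (y - x)) - P y) ^ 2 ≤
        D.De x y * (D.φ y (w + A (y - x)) (D.J y (w + A (y - x))) / 2) := hn
    have hs : 0 ≤ |D.qx x y| + ‖y - x‖ ^ 2 := by positivity
    refine abs_le_of_sq_le_sq ?_ (mul_nonneg (by positivity) (ZZ_nonneg x y))
    calc (D.dy x y (w + A (y - x)) - P y) ^ 2
        ≤ D.De x y * (D.φ y (w + A (y - x)) (D.J y (w + A (y - x))) / 2) := hn'
      _ ≤ D.De x y * (c5 * ‖θ‖ ^ 2 * (|D.qx x y| + ‖y - x‖ ^ 2)) := by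
          refine mul_le_mul_of_nonneg_left ?_ hd'
          have := hV y hy
          have : 0 ≤ c5 * ‖θ‖ ^ 2 * (|D.qx x y| + ‖y - x‖ ^ 2) := by positivity
          linarith
      _ = (√c5 * ‖θ‖ * ZZ D x y) ^ 2 := by
          unfold ZZ
          rw [mul_pow, mul_pow, mul_pow, Real.sq_sqrt hc5, Real.sq_sqrt hd', Real.sq_sqrt hs]
          ring
  -- the integrand
  have hb : ∀ y, |kp y * D.dx x y w + T y| ≤
      (ball x (a * r)).indicator (fun y => c6 * ‖θ‖ * ((r ^ 2)⁻¹ * ZZ D x y + r)) y := by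
    intro y
    by_cases hy : y ∈ ball x (a * r)
    · rw [indicator_of_mem hy]
      rw [mem_ball, dist_eq_norm] at hy
      have hy1 : ‖y - x‖ ≤ 1 := hy.le.trans ha1
      have hyb : y ∈ ball D.x0 (4 * D.R) := by
        rw [mem_ball] at hx ⊢
        have h5 := dist_triangle y x D.x0
        rw [dist_eq_norm y x] at h5
        have := D.R_pos
        linarith
      have ei : kp y * D.dx x y w + T y = kp y * (D.dx x y w + D.dy x y (w + A (y - x)))
          - kp y * (D.dy x y (w + A (y - x)) - P y) + kk y * E y := by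
        rw [hTe]; ring
      have f1 : |kp y| ≤ ck * (r ^ 2)⁻¹ := by
        simp only [hkp]
        rw [abs_mul, abs_of_pos (inv_pos.2 (pow_pos hr 2))]
        exact mul_le_mul_of_nonneg_right (hkb _) (by positivity)
      have f2 : |D.dx x y w + D.dy x y (w + A (y - x))| ≤ c2 * (c4 * ‖θ‖) * (a * r) ^ 3 := by
        refine (hA1 y hy1).trans ?_
        gcongr
      have f3 := hN y hy1
      have f4 : |kk y| ≤ 1 := by
        simp only [hkk]
        rw [abs_of_nonneg (cut_nonneg hK _)]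
        exact cut_le_one hK _
      have f5 : |E y| ≤ c2 * (c4 * ‖θ‖) * (a * r) := by
        refine (hA2 y hyb hy1).trans ?_
        gcongr
      rw [ei]
      have hr2 : 0 < r ^ 2 := by positivity
      calc |kp y * (D.dx x y w + D.dy x y (w + A (y - x)))
            - kp y * (D.dy x y (w + A (y - x)) - P y) + kk y * E y|
          ≤ |kp y| * |D.dx x y w + D.dy x y (w + A (y - x))|
            + |kp y| * |D.dy x y (w + A (y - x)) - P y| + |kk y| * |E y| := by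
            rw [← abs_mul, ← abs_mul, ← abs_mul]
            exact (abs_add_le _ _).trans (add_le_add (abs_sub _ _) le_rfl)
        _ ≤ (ck * (r ^ 2)⁻¹) * (c2 * (c4 * ‖θ‖) * (a * r) ^ 3)
            + (ck * (r ^ 2)⁻¹) * (√c5 * ‖θ‖ * ZZ D x y) + 1 * (c2 * (c4 * ‖θ‖) * (a * r)) := by
            gcongr
        _ = ‖θ‖ * ((ck * c2 * c4 * a ^ 3 + c2 * c4 * a) * r
            + (ck * √c5) * ((r ^ 2)⁻¹ * ZZ D x y)) := by
            field_simp
            ring
        _ ≤ c6 * ‖θ‖ * ((r ^ 2)⁻¹ * ZZ D x y + r) := by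
            have g1 : ck * c2 * c4 * a ^ 3 + c2 * c4 * a ≤ c6 := by
              rw [hc6d]
              have : 0 ≤ ck * √c5 := by positivity
              linarith
            have g2 : ck * √c5 ≤ c6 := by
              rw [hc6d]
              have : 0 ≤ ck * c2 * c4 * a ^ 3 := by positivity
              have : 0 ≤ c2 * c4 * a := by positivity
              linarith
            have g3 : 0 ≤ (r ^ 2)⁻¹ * ZZ D x y := mul_nonneg (by positivity) (ZZ_nonneg x y)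
            calc ‖θ‖ * ((ck * c2 * c4 * a ^ 3 + c2 * c4 * a) * r
                + (ck * √c5) * ((r ^ 2)⁻¹ * ZZ D x y))
                ≤ ‖θ‖ * (c6 * r + c6 * ((r ^ 2)⁻¹ * ZZ D x y)) := by gcongr
              _ = _ := by ring
    · rw [indicator_of_notMem hy]
      rw [mem_ball, dist_eq_norm, not_lt] at hy
      rw [hTe]
      simp only [hkp, hkk]
      rw [dK_zero (hlo x y) hδ hr hK hy, K_zero (hlo x y) hδ hr hK hy]
      simp
  -- integrability of the bound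
  have hZi : IntegrableOn (fun y => ZZ D x y) (ball x (a * r)) D.s := by
    refine Integrable.of_bound (meas_ZZ hρ x).aestronglyMeasurable
      (√(c4 * (c1 * 1) ^ 2) * √(c4 * c4 + 1)) ?_
    refine (ae_restrict_iff' measurableSet_ball).2 (Eventually.of_forall fun y hy => ?_)
    rw [mem_ball, dist_eq_norm] at hy
    have hy1 : ‖y - x‖ ≤ 1 := hy.le.trans ha1
    rw [Real.norm_of_nonneg (ZZ_nonneg x y)]
    obtain ⟨hφ, -, -, hdef, -⟩ :=
      hl4 (D.J y) (D.F y) (D.bd y) (D.bJ y) (D.φ y) (D.pos y) (D.nrm y)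
    obtain ⟨-, hqx, -⟩ :=
      hl4 (D.J x) (D.F x) (D.bd x) (D.bJ x) (D.φ x) (D.pos x) (D.nrm x)
    unfold ZZ
    refine mul_le_mul (Real.sqrt_le_sqrt ?_) (Real.sqrt_le_sqrt ?_) (Real.sqrt_nonneg _)
      (Real.sqrt_nonneg _)
    · refine (hdef (D.dy x y)).trans ?_
      have := (hgeo1 x y hy1).2.1
      gcongr
      exact this.trans (mul_le_mul_of_nonneg_left hy1 hc1)
    · have k1 : |D.qx x y| ≤ c4 * c4 :=
        (hqx (D.φ y) (D.pos y).alt).trans (mul_le_mul_of_nonneg_left hφ hc4)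
      have k2 : ‖y - x‖ ^ 2 ≤ 1 := by
        have := norm_nonneg (y - x)
        nlinarith
      linarith
  have hbi : IntegrableOn (fun y => c6 * ‖θ‖ * ((r ^ 2)⁻¹ * ZZ D x y + r)) (ball x (a * r))
      D.s := by
    refine Integrable.const_mul ?_ _
    refine Integrable.add (hZi.const_mul _) ?_
    exact integrable_const r
  -- conclusion
  have hmain : |∫ y, kp y * D.dx x y w ∂D.s| ≤
      c6 * ‖θ‖ * ((r ^ 2)⁻¹ * ∫ y in ball x (a * r), ZZ D x y ∂D.s) +
        c6 * ‖θ‖ * (r * (D.C * (a * r) ^ 2)) := by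
    have k1 : ∫ y, kp y * D.dx x y w ∂D.s = ∫ y, (kp y * D.dx x y w + T y) ∂D.s := by
      rw [integral_add hIi hTi, hT0, add_zero]
    rw [k1]
    have k2 : |∫ y, (kp y * D.dx x y w + T y) ∂D.s| ≤
        ∫ y, (ball x (a * r)).indicator (fun y => c6 * ‖θ‖ * ((r ^ 2)⁻¹ * ZZ D x y + r)) y
          ∂D.s := by
      rw [← Real.norm_eq_abs]
      refine norm_integral_le_of_norm_le ?_ (Eventually.of_forall fun y => ?_)
      · exact (integrable_indicator_iff measurableSet_ball).2 hbi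
      · rw [Real.norm_eq_abs]; exact hb y
    refine k2.trans ?_
    rw [integral_indicator measurableSet_ball, integral_const_mul, integral_add
      (hZi.const_mul _) (integrable_const r), integral_const_mul, setIntegral_const, mul_add,
      smul_eq_mul]
    have k3 : D.s.real (ball x (a * r)) ≤ D.C * (a * r) ^ 2 := D.gr x _ (mul_pos ha hr)
    have k4 : D.s.real (ball x (a * r)) * r ≤ r * (D.C * (a * r) ^ 2) := by
      rw [mul_comm]; exact mul_le_mul_of_nonneg_left k3 hr.le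
    gcongr
  have hI : ∀ y, deriv K (D.rho2 x y / r ^ 2) * (r ^ 2)⁻¹ * D.dx x y w = kp y * D.dx x y w :=
    fun y => rfl
  simp_rw [hI]
  rw [abs_mul, abs_of_pos (inv_pos.2 (pow_pos hr 2))]
  set I := ∫ y in ball x (a * r), ZZ D x y ∂D.s with hId
  have hI0 : 0 ≤ I := integral_nonneg fun y => ZZ_nonneg x y
  have hIe : (∫ y in ball x (a * r), √(D.De x y) * √(|D.qx x y| + ‖y - x‖ ^ 2) ∂D.s) = I := rfl
  rw [hIe]
  have hr2 : 0 < r ^ 2 := by positivity
  calc (r ^ 2)⁻¹ * |∫ y, kp y * D.dx x y w ∂D.s|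
      ≤ (r ^ 2)⁻¹ * (c6 * ‖θ‖ * ((r ^ 2)⁻¹ * I) + c6 * ‖θ‖ * (r * (D.C * (a * r) ^ 2))) :=
        mul_le_mul_of_nonneg_left hmain (inv_pos.2 hr2).le
    _ = c6 * ‖θ‖ * ((r ^ 4)⁻¹ * I) + c6 * (D.C * a ^ 2) * ‖θ‖ * r := by
        field_simp
    _ ≤ c6 * (1 + D.C * a ^ 2) * ‖θ‖ * ((r ^ 4)⁻¹ * I + r) := by
        have u1 : 0 ≤ c6 * (D.C * a ^ 2) * ‖θ‖ * ((r ^ 4)⁻¹ * I) := by positivity
        have u2 : 0 ≤ c6 * ‖θ‖ * r := by positivity
        nlinarith

end

end Crest.Agent.R235.CurGra_109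
end

-- ▼ part R235/CurGeo2_133

/-!
Row 235 (S0364), package CUR, leaf GEO2 (helper133): transport of a vector.
-/

set_option autoImplicit false
set_option maxSynthPendingDepth 3
set_option linter.unusedSectionVars false

open Set Function Filter MeasureTheory Metric
open scoped ContDiff ENNReal Manifold Topology

namespace Crest.Agent.R235.CurGeo2_133

open Crest.Agent.R240 Crest.Agent.R240.En Crest.Agent.R240.Pot Crest.Agent.R235.CurDefs_132

noncomputable section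

/-! ### generic -/

theorem lip_of_fderiv {V : Type*} [NormedAddCommGroup V] [NormedSpace ℝ V] {f : E4 → V} {L : ℝ}
    (hf : Differentiable ℝ f) (h : ∀ y, ‖fderiv ℝ f y‖ ≤ L) (x y : E4) :
    ‖f y - f x‖ ≤ L * ‖y - x‖ :=
  Convex.norm_image_sub_le_of_norm_fderiv_le (𝕜 := ℝ) (s := univ) (fun z _ => hf z)
    (fun z _ => h z) convex_univ (mem_univ _) (mem_univ _)

theorem bil_le {b : Bil} {C : ℝ} (hC : 0 ≤ C) (h : ∀ u v, |b u v| ≤ C * ‖u‖ * ‖v‖) : ‖b‖ ≤ C :=
  ContinuousLinearMap.opNorm_le_bound₂ _ hC fun u v => by rw [Real.norm_eq_abs]; exact h u v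

theorem abs_bil (b : Bil) (u v : E4) : |b u v| ≤ ‖b‖ * ‖u‖ * ‖v‖ := by
  rw [← Real.norm_eq_abs]; exact b.le_opNorm₂ u v

theorem abs_bil_le {b : Bil} {C : ℝ} (h : ‖b‖ ≤ C) (u v : E4) : |b u v| ≤ C * (‖u‖ * ‖v‖) := by
  refine (abs_bil b u v).trans ?_
  rw [mul_assoc]
  exact mul_le_mul_of_nonneg_right h (by positivity)

/-- the vector valued endomorphism with `g(A u, v) = b(u, v)` -/
theorem exists_endo {g : Bil} {m : ℝ} (hm : 0 < m) (hg : ∀ v, m * ‖v‖ ^ 2 ≤ g v v) (b : Bil) :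
    ∃ A : E4 →L[ℝ] E4, (∀ u v, g (A u) v = b u v) ∧ ‖A‖ ≤ ‖b‖ / m := by
  have hinj : Function.Injective (g : E4 →ₗ[ℝ] (E4 →L[ℝ] ℝ)) := by
    rw [← LinearMap.ker_eq_bot, LinearMap.ker_eq_bot']
    intro v hv
    have h1 : g v v = 0 := by
      have : g v = 0 := hv
      rw [this]; rfl
    have h2 := hg v
    rw [h1] at h2
    have h3 : ‖v‖ ^ 2 ≤ 0 := by
      by_contra hc
      push Not at hc
      have := mul_pos hm hc
      linarith
    have h4 : ‖v‖ = 0 := by nlinarith [norm_nonneg v]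
    exact norm_eq_zero.1 h4
  have hfr : Module.finrank ℝ E4 = Module.finrank ℝ (E4 →L[ℝ] ℝ) := by
    have e : (E4 →ₗ[ℝ] ℝ) ≃ₗ[ℝ] (E4 →L[ℝ] ℝ) := LinearMap.toContinuousLinearMap
    rw [← e.finrank_eq]
    exact (Subspace.dual_finrank_eq (K := ℝ) (V := E4)).symm
  set T : E4 ≃ₗ[ℝ] (E4 →L[ℝ] ℝ) := LinearEquiv.ofInjectiveOfFinrankEq _ hinj hfr with hT
  have hTa : ∀ v, T v = g v := fun v => rfl
  set A : E4 →L[ℝ] E4 := LinearMap.toContinuousLinearMap (T.symm.toLinearMap ∘ₗ (b : E4 →ₗ[ℝ] _))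
    with hA
  have hA1 : ∀ u, g (A u) = b u := by
    intro u
    have : A u = T.symm (b u) := rfl
    rw [this, ← hTa, LinearEquiv.apply_symm_apply]
  refine ⟨A, fun u v => by rw [hA1], ?_⟩
  apply ContinuousLinearMap.opNorm_le_bound _ (by positivity)
  intro u
  by_cases h0 : A u = 0
  · rw [h0, norm_zero]; positivity
  have hp : 0 < ‖A u‖ := norm_pos_iff.2 h0
  have h1 := hg (A u)
  rw [hA1] at h1
  have h2 := (le_abs_self _).trans (abs_bil b u (A u))
  have h3 : m * ‖A u‖ ≤ ‖b‖ * ‖u‖ := by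
    have : (m * ‖A u‖) * ‖A u‖ ≤ (‖b‖ * ‖u‖) * ‖A u‖ := by
      calc (m * ‖A u‖) * ‖A u‖ = m * ‖A u‖ ^ 2 := by ring
        _ ≤ _ := h1.trans h2
    exact le_of_mul_le_mul_right this hp
  rw [div_mul_eq_mul_div, le_div_iff₀ hm]
  linarith

section pt

variable (D : LC)

theorem L_nn : 0 ≤ D.L := zero_le_one.trans D.L_ge

theorem J_diff : Differentiable ℝ D.J := D.smJ.differentiable (by simp)
theorem F_diff : Differentiable ℝ D.F := D.smF.differentiable (by simp)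
theorem J1_diff : Differentiable ℝ (fderiv ℝ D.J) :=
  (D.smJ.fderiv_right (m := ∞) (by simp)).differentiable (by simp)
theorem F1_diff : Differentiable ℝ (fderiv ℝ D.F) :=
  (D.smF.fderiv_right (m := ∞) (by simp)).differentiable (by simp)

theorem J_lip (x y : E4) : ‖D.J y - D.J x‖ ≤ D.L * ‖y - x‖ := lip_of_fderiv (J_diff D) D.bJ1 x y
theorem F_lip (x y : E4) : ‖D.F y - D.F x‖ ≤ D.L * ‖y - x‖ := lip_of_fderiv (F_diff D) D.bF1 x y
theorem J1_lip (x y : E4) : ‖fderiv ℝ D.J y - fderiv ℝ D.J x‖ ≤ D.L * ‖y - x‖ :=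
  lip_of_fderiv (J1_diff D) D.bJ2 x y
theorem F1_lip (x y : E4) : ‖fderiv ℝ D.F y - fderiv ℝ D.F x‖ ≤ D.L * ‖y - x‖ :=
  lip_of_fderiv (F1_diff D) D.bF2 x y

theorem J1w_lip (x y w : E4) : ‖fderiv ℝ D.J y w - fderiv ℝ D.J x w‖ ≤ D.L * ‖y - x‖ * ‖w‖ := by
  have h := (fderiv ℝ D.J y - fderiv ℝ D.J x).le_opNorm w
  exact h.trans (mul_le_mul_of_nonneg_right (J1_lip D x y) (norm_nonneg _))

theorem F1w_lip (x y w : E4) : ‖fderiv ℝ D.F y w - fderiv ℝ D.F x w‖ ≤ D.L * ‖y - x‖ * ‖w‖ := by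
  have h := (fderiv ℝ D.F y - fderiv ℝ D.F x).le_opNorm w
  exact h.trans (mul_le_mul_of_nonneg_right (F1_lip D x y) (norm_nonneg _))

theorem J1w_le (y w : E4) : ‖fderiv ℝ D.J y w‖ ≤ D.L * ‖w‖ :=
  (fderiv ℝ D.J y).le_of_opNorm_le (D.bJ1 y) w

theorem F1w_le (y w : E4) : ‖fderiv ℝ D.F y w‖ ≤ D.L * ‖w‖ :=
  (fderiv ℝ D.F y).le_of_opNorm_le (D.bF1 y) w

theorem Jv_le (y v : E4) : ‖D.J y v‖ ≤ D.L * ‖v‖ := (D.J y).le_of_opNorm_le (D.bJ y) v

theorem G_apply (y u v : E4) : D.G y u v = D.F y u (D.J y v) := rfl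

theorem G_diff : Differentiable ℝ D.G := (gm_contDiff D.smJ D.smF).differentiable (by simp)

theorem G1_apply (y w u v : E4) : fderiv ℝ D.G y w u v =
    fderiv ℝ D.F y w u (D.J y v) + D.F y u (fderiv ℝ D.J y w v) := by
  have h1 : fderiv ℝ (fun z => D.G z u v) y w = fderiv ℝ D.G y w u v := by
    have := Ch.fderiv_pair (b := D.G) (Y := fun _ => u) (Z := fun _ => v) (y := y) (G_diff D y)
      (differentiableAt_const _) (differentiableAt_const _) w
    rw [this]; simp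
  have h2 : fderiv ℝ (fun z => D.F z u (D.J z v)) y w =
      fderiv ℝ D.F y w u (D.J y v) + D.F y u (fderiv ℝ D.J y w v) := by
    have := Ch.fderiv_pair (b := D.F) (Y := fun _ => u) (Z := fun z => D.J z v) (y := y)
      (F_diff D y) (differentiableAt_const _) ((J_diff D y).clm_apply (differentiableAt_const _)) w
    rw [this, fderiv_clm_apply (J_diff D y) (differentiableAt_const _)]
    simp
  rw [← h1, ← h2]
  rfl

theorem G_symm (y u v : E4) : D.G y u v = D.G y v u := gm_symm (D.bd y).sq (D.bd y).spos u v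

theorem G1_symm (y w u v : E4) : fderiv ℝ D.G y w u v = fderiv ℝ D.G y w v u := by
  have h : ∀ a b, fderiv ℝ (fun z => D.G z a b) y w = fderiv ℝ D.G y w a b := by
    intro a b
    have := Ch.fderiv_pair (b := D.G) (Y := fun _ => a) (Z := fun _ => b) (y := y) (G_diff D y)
      (differentiableAt_const _) (differentiableAt_const _) w
    rw [this]; simp
  rw [← h u v, ← h v u]
  congr 2
  funext z
  exact G_symm D z u v

theorem G1_le (y w : E4) : ‖fderiv ℝ D.G y w‖ ≤ 2 * D.L ^ 2 * ‖w‖ := by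
  have hL := L_nn D
  apply bil_le (by positivity)
  intro u v
  rw [G1_apply]
  have e1 := abs_bil_le (F1w_le D y w) u (D.J y v)
  have e2 := abs_bil_le (D.bF y) u (fderiv ℝ D.J y w v)
  have e3 := Jv_le D y v
  have e4 : ‖fderiv ℝ D.J y w v‖ ≤ D.L * ‖w‖ * ‖v‖ :=
    (fderiv ℝ D.J y w).le_of_opNorm_le (J1w_le D y w) v
  calc |fderiv ℝ D.F y w u (D.J y v) + D.F y u (fderiv ℝ D.J y w v)|
      ≤ D.L * ‖w‖ * (‖u‖ * ‖D.J y v‖) + D.L * (‖u‖ * ‖fderiv ℝ D.J y w v‖) :=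
        (abs_add_le _ _).trans (add_le_add e1 e2)
    _ ≤ D.L * ‖w‖ * (‖u‖ * (D.L * ‖v‖)) + D.L * (‖u‖ * (D.L * ‖w‖ * ‖v‖)) := by gcongr
    _ = 2 * D.L ^ 2 * ‖w‖ * ‖u‖ * ‖v‖ := by ring

theorem G_lip (x y : E4) : ‖D.G y - D.G x‖ ≤ 2 * D.L ^ 2 * ‖y - x‖ := by
  have hL := L_nn D
  apply lip_of_fderiv (G_diff D)
  intro z
  exact ContinuousLinearMap.opNorm_le_bound _ (by positivity) (G1_le D z)

theorem G1_lip (x y w : E4) :
    ‖fderiv ℝ D.G y w - fderiv ℝ D.G x w‖ ≤ 4 * D.L ^ 2 * ‖y - x‖ * ‖w‖ := by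
  have hL := L_nn D
  apply bil_le (by positivity)
  intro u v
  have e : (fderiv ℝ D.G y w - fderiv ℝ D.G x w) u v =
      (fderiv ℝ D.F y w - fderiv ℝ D.F x w) u (D.J y v)
      + fderiv ℝ D.F x w u ((D.J y - D.J x) v)
      + (D.F y - D.F x) u (fderiv ℝ D.J y w v)
      + D.F x u ((fderiv ℝ D.J y w - fderiv ℝ D.J x w) v) := by
    have : (fderiv ℝ D.G y w - fderiv ℝ D.G x w) u v =
      fderiv ℝ D.G y w u v - fderiv ℝ D.G x w u v := rfl
    rw [this, G1_apply, G1_apply]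
    simp only [sub_apply, map_sub]
    ring
  rw [e]
  have e1 := abs_bil_le (F1w_lip D x y w) u (D.J y v)
  have e2 := abs_bil_le (F1w_le D x w) u ((D.J y - D.J x) v)
  have e3 := abs_bil_le (F_lip D x y) u (fderiv ℝ D.J y w v)
  have e4 := abs_bil_le (D.bF x) u ((fderiv ℝ D.J y w - fderiv ℝ D.J x w) v)
  have f1 := Jv_le D y v
  have f2 : ‖(D.J y - D.J x) v‖ ≤ D.L * ‖y - x‖ * ‖v‖ :=
    (D.J y - D.J x).le_of_opNorm_le (J_lip D x y) v
  have f3 : ‖fderiv ℝ D.J y w v‖ ≤ D.L * ‖w‖ * ‖v‖ :=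
    (fderiv ℝ D.J y w).le_of_opNorm_le (J1w_le D y w) v
  have f4 : ‖(fderiv ℝ D.J y w - fderiv ℝ D.J x w) v‖ ≤ D.L * ‖y - x‖ * ‖w‖ * ‖v‖ :=
    (fderiv ℝ D.J y w - fderiv ℝ D.J x w).le_of_opNorm_le (J1w_lip D x y w) v
  calc _ ≤ |(fderiv ℝ D.F y w - fderiv ℝ D.F x w) u (D.J y v)|
        + |fderiv ℝ D.F x w u ((D.J y - D.J x) v)|
        + |(D.F y - D.F x) u (fderiv ℝ D.J y w v)|
        + |D.F x u ((fderiv ℝ D.J y w - fderiv ℝ D.J x w) v)| :=
        (abs_add_le _ _).trans (add_le_add_left ((abs_add_le _ _).trans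
          (add_le_add_left (abs_add_le _ _) _)) _)
    _ ≤ D.L * ‖y - x‖ * ‖w‖ * (‖u‖ * (D.L * ‖v‖))
        + D.L * ‖w‖ * (‖u‖ * (D.L * ‖y - x‖ * ‖v‖))
        + D.L * ‖y - x‖ * (‖u‖ * (D.L * ‖w‖ * ‖v‖))
        + D.L * (‖u‖ * (D.L * ‖y - x‖ * ‖w‖ * ‖v‖)) := by
        refine add_le_add (add_le_add (add_le_add (e1.trans ?_) (e2.trans ?_)) (e3.trans ?_))
          (e4.trans ?_)
        all_goals gcongr
    _ = 4 * D.L ^ 2 * ‖y - x‖ * ‖w‖ * ‖u‖ * ‖v‖ := by ring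

/-- `d_x rho2`. -/
theorem dx_apply (x y w : E4) : D.dx x y w =
    (fderiv ℝ D.G x w (y - x) (y - x) - 2 * D.G x (y - x) w - 2 * D.G y (y - x) w) / 2 := by
  have hd : ∀ z : E4, HasFDerivAt (fun z : E4 => y - z) (-ContinuousLinearMap.id ℝ E4) z := by
    intro z
    simpa using (hasFDerivAt_id z).const_sub y
  have h1 := Ch.fderiv_pair (b := D.G) (Y := fun z => y - z) (Z := fun z => y - z) (y := x)
    (G_diff D x) (hd x).differentiableAt (hd x).differentiableAt w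
  have h2 := Ch.fderiv_pair (b := fun _ => D.G y) (Y := fun z => y - z) (Z := fun z => y - z)
    (y := x) (differentiableAt_const _) (hd x).differentiableAt (hd x).differentiableAt w
  rw [(hd x).fderiv] at h1 h2
  simp only [fderiv_fun_const, Pi.zero_apply, zero_apply, zero_add, neg_apply,
    ContinuousLinearMap.id_apply, map_neg] at h1 h2
  have d1 : DifferentiableAt ℝ (fun z => D.G z (y - z) (y - z)) x :=
    ((G_diff D x).clm_apply (hd x).differentiableAt).clm_apply (hd x).differentiableAt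
  have d2 : DifferentiableAt ℝ (fun z => D.G y (y - z) (y - z)) x :=
    ((differentiableAt_const (D.G y)).clm_apply (hd x).differentiableAt).clm_apply
      (hd x).differentiableAt
  have e : D.dx x y w = (fderiv ℝ (fun z => D.G z (y - z) (y - z)) x w
      + fderiv ℝ (fun z => D.G y (y - z) (y - z)) x w) / 2 := by
    unfold LC.dx LC.rho2
    have h3 := ((d1.hasFDerivAt.add d2.hasFDerivAt).mul_const (2:ℝ)⁻¹).fderiv
    simp only [div_eq_mul_inv]
    have h4 : (fun z => (D.G z (y - z) (y - z) + D.G y (y - z) (y - z)) * (2:ℝ)⁻¹) =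
      (fun y_1 => ((fun z => D.G z (y - z) (y - z)) + fun z => D.G y (y - z) (y - z)) y_1 * (2:ℝ)⁻¹) := rfl
    rw [h4, h3]
    simp only [smul_apply, add_apply, smul_eq_mul]
    ring
  rw [e, h1, h2, G_symm D x w, G_symm D y w]
  ring

/-- `d_y rho2`. -/
theorem dy_apply (x y V : E4) : D.dy x y V =
    (2 * D.G x (y - x) V + fderiv ℝ D.G y V (y - x) (y - x) + 2 * D.G y (y - x) V) / 2 := by
  have hd : ∀ z : E4, HasFDerivAt (fun z : E4 => z - x) (ContinuousLinearMap.id ℝ E4) z := by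
    intro z
    simpa using (hasFDerivAt_id z).sub_const x
  have h1 := Ch.fderiv_pair (b := D.G) (Y := fun z => z - x) (Z := fun z => z - x) (y := y)
    (G_diff D y) (hd y).differentiableAt (hd y).differentiableAt V
  have h2 := Ch.fderiv_pair (b := fun _ => D.G x) (Y := fun z => z - x) (Z := fun z => z - x)
    (y := y) (differentiableAt_const _) (hd y).differentiableAt (hd y).differentiableAt V
  rw [(hd y).fderiv] at h1 h2
  simp only [fderiv_fun_const, Pi.zero_apply, zero_apply, zero_add,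
    ContinuousLinearMap.id_apply] at h1 h2
  have d1 : DifferentiableAt ℝ (fun z => D.G z (z - x) (z - x)) y :=
    ((G_diff D y).clm_apply (hd y).differentiableAt).clm_apply (hd y).differentiableAt
  have d2 : DifferentiableAt ℝ (fun z => D.G x (z - x) (z - x)) y :=
    ((differentiableAt_const (D.G x)).clm_apply (hd y).differentiableAt).clm_apply
      (hd y).differentiableAt
  have e : D.dy x y V = (fderiv ℝ (fun z => D.G x (z - x) (z - x)) y V
      + fderiv ℝ (fun z => D.G z (z - x) (z - x)) y V) / 2 := by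
    unfold LC.dy LC.rho2
    have h3 := ((d2.hasFDerivAt.add d1.hasFDerivAt).mul_const (2:ℝ)⁻¹).fderiv
    simp only [div_eq_mul_inv]
    have h4 : (fun z => (D.G x (z - x) (z - x) + D.G z (z - x) (z - x)) * (2:ℝ)⁻¹) =
      (fun y_1 => ((fun z => D.G x (z - x) (z - x)) + fun z => D.G z (z - x) (z - x)) y_1 * (2:ℝ)⁻¹) := rfl
    rw [h4, h3]
    simp only [smul_apply, add_apply, smul_eq_mul]
    ring
  rw [e, h1, h2, G_symm D x V, G_symm D y V]
  ring

/-- derivative of `J² = -1`. -/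
theorem JJ' (x w v : E4) :
    fderiv ℝ D.J x w (D.J x v) + D.J x (fderiv ℝ D.J x w v) = 0 := by
  have h1 : DifferentiableAt ℝ (fun z => D.J z v) x :=
    (J_diff D x).clm_apply (differentiableAt_const _)
  have h2 : fderiv ℝ (fun z => D.J z (D.J z v)) x w =
      fderiv ℝ D.J x w (D.J x v) + D.J x (fderiv ℝ D.J x w v) := by
    rw [fderiv_clm_apply (J_diff D x) h1,
      fderiv_clm_apply (J_diff D x) (differentiableAt_const _)]
    simp [add_comm]
  have h3 : (fun z => D.J z (D.J z v)) = fun _ => -v := by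
    funext z; exact (D.bd z).sq v
  rw [← h2, h3]
  simp

theorem F1_alt (y u : E4) : Alt (fderiv ℝ D.F y u) := by
  intro a
  have h := Ch.fderiv_pair (b := D.F) (Y := fun _ => a) (Z := fun _ => a) (y := y) (F_diff D y)
      (differentiableAt_const _) (differentiableAt_const _) u
  have h2 : (fun z => D.F z a a) = fun _ => 0 := by
    funext z; exact (D.bd z).spos.alt a
  rw [h2] at h
  simpa using h.symm

/-- the first estimate -/
theorem est1 {x w : E4} {A : E4 →L[ℝ] E4} {CA : ℝ}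
    (hA : ∀ u v, D.G x (A u) v = (-(1/2 : ℝ) • fderiv ℝ D.G x w) u v) (hn : ‖A‖ ≤ CA * ‖w‖)
    (y : E4) : |D.dx x y w + D.dy x y (w + A (y - x))|
      ≤ (2 * D.L ^ 2 + 3 * D.L ^ 2 * CA) * ‖w‖ * ‖y - x‖ ^ 3 := by
  have hL := L_nn D
  rw [dx_apply, dy_apply]
  set d := y - x with hd
  have hAd : ‖A d‖ ≤ CA * ‖w‖ * ‖d‖ := A.le_of_opNorm_le hn d
  have h1 : D.G x d (A d) = -(1/2) * fderiv ℝ D.G x w d d := by
    rw [G_symm D x d (A d), hA]; simp
  have e : (fderiv ℝ D.G x w d d - 2 * D.G x d w - 2 * D.G y d w) / 2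
      + (2 * D.G x d (w + A d) + fderiv ℝ D.G y (w + A d) d d + 2 * D.G y d (w + A d)) / 2
      = (1/2) * (fderiv ℝ D.G y w - fderiv ℝ D.G x w) d d + (1/2) * fderiv ℝ D.G y (A d) d d
        + (D.G y - D.G x) d (A d) := by
    simp only [map_add, add_apply, sub_apply]
    rw [h1]
    ring
  rw [e]
  have e1 := abs_bil_le (G1_lip D x y w) d d
  have e2 := abs_bil_le (G1_le D y (A d)) d d
  have e3 := abs_bil_le (G_lip D x y) d (A d)
  rw [← hd] at e1 e3
  have e2' : |fderiv ℝ D.G y (A d) d d| ≤ 2 * D.L ^ 2 * (CA * ‖w‖ * ‖d‖) * (‖d‖ * ‖d‖) :=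
    e2.trans (by gcongr)
  have e3' : |(D.G y - D.G x) d (A d)| ≤ 2 * D.L ^ 2 * ‖d‖ * (‖d‖ * (CA * ‖w‖ * ‖d‖)) :=
    e3.trans (by gcongr)
  have a1 := abs_add_le ((1/2) * (fderiv ℝ D.G y w - fderiv ℝ D.G x w) d d
    + (1/2) * fderiv ℝ D.G y (A d) d d) ((D.G y - D.G x) d (A d))
  have a2 := abs_add_le ((1/2) * (fderiv ℝ D.G y w - fderiv ℝ D.G x w) d d)
    ((1/2) * fderiv ℝ D.G y (A d) d d)
  have a3 : |(1/2) * (fderiv ℝ D.G y w - fderiv ℝ D.G x w) d d|
      = (1/2) * |(fderiv ℝ D.G y w - fderiv ℝ D.G x w) d d| := by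
    rw [abs_mul, abs_of_pos (by norm_num : (0:ℝ) < 1/2)]
  have a4 : |(1/2) * fderiv ℝ D.G y (A d) d d| = (1/2) * |fderiv ℝ D.G y (A d) d d| := by
    rw [abs_mul, abs_of_pos (by norm_num : (0:ℝ) < 1/2)]
  have fin : (2 * D.L ^ 2 + 3 * D.L ^ 2 * CA) * ‖w‖ * ‖d‖ ^ 3
      = (1/2) * (4 * D.L ^ 2 * ‖d‖ * ‖w‖ * (‖d‖ * ‖d‖))
        + (1/2) * (2 * D.L ^ 2 * (CA * ‖w‖ * ‖d‖) * (‖d‖ * ‖d‖))
        + 2 * D.L ^ 2 * ‖d‖ * (‖d‖ * (CA * ‖w‖ * ‖d‖)) := by ring
  rw [fin]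
  linarith

/-- the exterior derivative of the transported form -/
def BB (y V : E4) (A : E4 →L[ℝ] E4) : Bil :=
  fderiv ℝ D.F y V + (D.F y).comp A + ((D.F y).flip.comp A).flip

theorem BB_apply (y V : E4) (A : E4 →L[ℝ] E4) (u v : E4) :
    BB D y V A u v = fderiv ℝ D.F y V u v + D.F y (A u) v + D.F y u (A v) := rfl

theorem BB_alt (y V : E4) (A : E4 →L[ℝ] E4) : Alt (BB D y V A) := by
  intro v
  rw [BB_apply, F1_alt D y V v, (D.bd y).spos.alt.swap v (A v)]
  ring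

theorem d1_bet {x w y : E4} (A : E4 →L[ℝ] E4) (hc : Cl D.F y) :
    d1 (D.bet w A x) y = BB D y (w + A (y - x)) A := by
  have hV : HasFDerivAt (fun z : E4 => w + A (z - x)) A y := by
    have h1 : HasFDerivAt (fun z : E4 => z - x) (ContinuousLinearMap.id ℝ E4) y := by
      simpa using (hasFDerivAt_id y).sub_const x
    have h2 := (A.hasFDerivAt.comp y h1).const_add w
    simpa using h2
  have hb : ∀ u v, fderiv ℝ (D.bet w A x) y u v =
      fderiv ℝ D.F y u (w + A (y - x)) v + D.F y (A u) v := by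
    intro u v
    unfold LC.bet
    rw [fderiv_clm_apply (F_diff D y) hV.differentiableAt, hV.fderiv]
    simp [add_comm]
  ext u v
  rw [d1_apply, hb, hb, BB_apply]
  have c := hc u v (w + A (y - x))
  have a1 := (F1_alt D y u).swap (w + A (y - x)) v
  have a2 := (D.bd y).spos.alt.swap (A v) u
  rw [a1, a2]
  linarith

theorem BB_anti {x w : E4} {A : E4 →L[ℝ] E4}
    (hA : ∀ u v, D.G x (A u) v = (-(1/2 : ℝ) • fderiv ℝ D.G x w) u v) (u v : E4) :
    BB D x w A (D.J x u) (D.J x v) = - BB D x w A u v := by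
  have hJ := (D.bd x).sq
  have hF := (D.bd x).spos
  -- G' in terms of F
  have g : ∀ a b, fderiv ℝ D.G x w a b =
    fderiv ℝ D.F x w a (D.J x b) + D.F x a (fderiv ℝ D.J x w b) := G1_apply D x w
  have gs := G1_symm D x w
  have c1 : ∀ a b, D.F x (A a) b = (1/2) * fderiv ℝ D.G x w a (D.J x b) := by
    intro a b
    have h := hA a (-(D.J x b))
    rw [G_apply, map_neg, hJ, neg_neg] at h
    rw [h]
    simp only [smul_apply, map_neg, smul_eq_mul]
    ring
  have c2 : ∀ a b, D.F x a (A b) = -(1/2) * fderiv ℝ D.G x w (D.J x a) b := by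
    intro a b
    rw [hF.alt.swap, c1, gs b (D.J x a)]
    ring
  have c3 : ∀ a b, fderiv ℝ D.F x w a b = - fderiv ℝ D.G x w a (D.J x b)
      + D.F x a (fderiv ℝ D.J x w (D.J x b)) := by
    intro a b
    rw [g a (D.J x b), hJ, map_neg]
    ring
  have c4 : D.F x (D.J x u) (fderiv ℝ D.J x w v) = D.F x u (fderiv ℝ D.J x w (D.J x v)) := by
    have h1 := hF.inv (D.J x u) (fderiv ℝ D.J x w v)
    have h2 := JJ' D x w v
    have h3 : D.J x (fderiv ℝ D.J x w v) = - fderiv ℝ D.J x w (D.J x v) :=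
      (neg_eq_of_add_eq_zero_right h2).symm
    rw [hJ, h3] at h1
    rw [← h1]; simp
  rw [BB_apply, BB_apply, c1, c2, c3, c1, c2, c3]
  simp only [hJ, map_neg, neg_apply]
  rw [c4]
  ring

theorem BB_diff {x w y : E4} {A : E4 →L[ℝ] E4} {CA : ℝ} (hn : ‖A‖ ≤ CA * ‖w‖) (u v : E4) :
    |BB D y (w + A (y - x)) A u v - BB D x w A u v|
      ≤ (D.L * (1 + 3 * CA)) * ‖w‖ * ‖y - x‖ * (‖u‖ * ‖v‖) := by
  have hL := L_nn D
  have hAd : ‖A (y - x)‖ ≤ CA * ‖w‖ * ‖y - x‖ := A.le_of_opNorm_le hn (y - x)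
  have e : BB D y (w + A (y - x)) A u v - BB D x w A u v
      = (fderiv ℝ D.F y w - fderiv ℝ D.F x w) u v + fderiv ℝ D.F y (A (y - x)) u v
        + (D.F y - D.F x) (A u) v + (D.F y - D.F x) u (A v) := by
    rw [BB_apply, BB_apply]
    simp only [map_add, add_apply, sub_apply]
    ring
  have e1 := abs_bil_le (F1w_lip D x y w) u v
  have e2 := abs_bil_le (F1w_le D y (A (y - x))) u v
  have e3 := abs_bil_le (F_lip D x y) (A u) v
  have e4 := abs_bil_le (F_lip D x y) u (A v)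
  have f1 : ‖A u‖ ≤ CA * ‖w‖ * ‖u‖ := A.le_of_opNorm_le hn u
  have f2 : ‖A v‖ ≤ CA * ‖w‖ * ‖v‖ := A.le_of_opNorm_le hn v
  rw [e]
  calc _ ≤ |(fderiv ℝ D.F y w - fderiv ℝ D.F x w) u v| + |fderiv ℝ D.F y (A (y - x)) u v|
        + |(D.F y - D.F x) (A u) v| + |(D.F y - D.F x) u (A v)| :=
        (abs_add_le _ _).trans (add_le_add_left ((abs_add_le _ _).trans
          (add_le_add_left (abs_add_le _ _) _)) _)
    _ ≤ D.L * ‖y - x‖ * ‖w‖ * (‖u‖ * ‖v‖) + D.L * (CA * ‖w‖ * ‖y - x‖) * (‖u‖ * ‖v‖)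
        + D.L * ‖y - x‖ * ((CA * ‖w‖ * ‖u‖) * ‖v‖) + D.L * ‖y - x‖ * (‖u‖ * (CA * ‖w‖ * ‖v‖)) := by
        refine add_le_add (add_le_add (add_le_add e1 (e2.trans ?_)) (e3.trans ?_)) (e4.trans ?_)
        all_goals gcongr
    _ = _ := by ring

theorem BB_le {x w : E4} {A : E4 →L[ℝ] E4} {CA : ℝ} (hn : ‖A‖ ≤ CA * ‖w‖) (u v : E4) :
    |BB D x w A u v| ≤ (D.L * (1 + 2 * CA)) * ‖w‖ * (‖u‖ * ‖v‖) := by
  have hL := L_nn D
  have e1 := abs_bil_le (F1w_le D x w) u v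
  have e3 := abs_bil_le (D.bF x) (A u) v
  have e4 := abs_bil_le (D.bF x) u (A v)
  have f1 : ‖A u‖ ≤ CA * ‖w‖ * ‖u‖ := A.le_of_opNorm_le hn u
  have f2 : ‖A v‖ ≤ CA * ‖w‖ * ‖v‖ := A.le_of_opNorm_le hn v
  rw [BB_apply]
  calc _ ≤ |fderiv ℝ D.F x w u v| + |D.F x (A u) v| + |D.F x u (A v)| :=
        (abs_add_le _ _).trans (add_le_add_left (abs_add_le _ _) _)
    _ ≤ D.L * ‖w‖ * (‖u‖ * ‖v‖) + D.L * ((CA * ‖w‖ * ‖u‖) * ‖v‖)
        + D.L * (‖u‖ * (CA * ‖w‖ * ‖v‖)) := by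
        refine add_le_add (add_le_add e1 (e3.trans ?_)) (e4.trans ?_)
        all_goals gcongr
    _ = _ := by ring

theorem invp_le {x w y : E4} {A : E4 →L[ℝ] E4} {CA : ℝ} (hCA : 0 ≤ CA)
    (hA : ∀ u v, D.G x (A u) v = (-(1/2 : ℝ) • fderiv ℝ D.G x w) u v) (hn : ‖A‖ ≤ CA * ‖w‖) :
    ‖invp (D.J y) (BB D y (w + A (y - x)) A)‖ ≤
      ((D.L * (1 + 3 * CA)) * (1 + D.L ^ 2) + (D.L * (1 + 2 * CA)) * (2 * D.L ^ 2))
        * ‖w‖ * ‖y - x‖ := by
  have hL := L_nn D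
  apply bil_le (by positivity)
  intro u v
  rw [invp_apply]
  set B := BB D y (w + A (y - x)) A with hB
  set B0 := BB D x w A with hB0
  have an := BB_anti D hA u v
  rw [← hB0] at an
  have e : (B u v + B (D.J y u) (D.J y v)) / 2 = (1/2) * (B u v - B0 u v)
      + (1/2) * (B (D.J y u) (D.J y v) - B0 (D.J y u) (D.J y v))
      + (1/2) * B0 ((D.J y - D.J x) u) (D.J y v)
      + (1/2) * B0 (D.J x u) ((D.J y - D.J x) v) := by
    simp only [sub_apply, map_sub]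
    linarith
  have e1 := BB_diff D (x := x) (y := y) hn u v
  have e2 := BB_diff D (x := x) (y := y) hn (D.J y u) (D.J y v)
  have e3 := BB_le D (x := x) hn ((D.J y - D.J x) u) (D.J y v)
  have e4 := BB_le D (x := x) hn (D.J x u) ((D.J y - D.J x) v)
  rw [← hB, ← hB0] at e1 e2
  rw [← hB0] at e3 e4
  have f1 := Jv_le D y u
  have f2 := Jv_le D y v
  have f3 := Jv_le D x u
  have f4 : ‖(D.J y - D.J x) u‖ ≤ D.L * ‖y - x‖ * ‖u‖ :=
    (D.J y - D.J x).le_of_opNorm_le (J_lip D x y) u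
  have f5 : ‖(D.J y - D.J x) v‖ ≤ D.L * ‖y - x‖ * ‖v‖ :=
    (D.J y - D.J x).le_of_opNorm_le (J_lip D x y) v
  set c1 := D.L * (1 + 3 * CA) with hc1
  set c2 := D.L * (1 + 2 * CA) with hc2
  have hc1' : 0 ≤ c1 := by positivity
  have hc2' : 0 ≤ c2 := by positivity
  have e2' : |B (D.J y u) (D.J y v) - B0 (D.J y u) (D.J y v)| ≤
      c1 * ‖w‖ * ‖y - x‖ * ((D.L * ‖u‖) * (D.L * ‖v‖)) := e2.trans (by gcongr)
  have e3' : |B0 ((D.J y - D.J x) u) (D.J y v)| ≤
      c2 * ‖w‖ * ((D.L * ‖y - x‖ * ‖u‖) * (D.L * ‖v‖)) := e3.trans (by gcongr)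
  have e4' : |B0 (D.J x u) ((D.J y - D.J x) v)| ≤
      c2 * ‖w‖ * ((D.L * ‖u‖) * (D.L * ‖y - x‖ * ‖v‖)) := e4.trans (by gcongr)
  have h2 : ∀ t : ℝ, |(1/2) * t| = (1/2) * |t| := fun t => by
    rw [abs_mul, abs_of_pos (by norm_num : (0:ℝ) < 1/2)]
  rw [e]
  calc _ ≤ |(1/2) * (B u v - B0 u v)|
        + |(1/2) * (B (D.J y u) (D.J y v) - B0 (D.J y u) (D.J y v))|
        + |(1/2) * B0 ((D.J y - D.J x) u) (D.J y v)|
        + |(1/2) * B0 (D.J x u) ((D.J y - D.J x) v)| :=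
        (abs_add_le _ _).trans (add_le_add_left ((abs_add_le _ _).trans
          (add_le_add_left (abs_add_le _ _) _)) _)
    _ ≤ (1/2) * (c1 * ‖w‖ * ‖y - x‖ * (‖u‖ * ‖v‖))
        + (1/2) * (c1 * ‖w‖ * ‖y - x‖ * ((D.L * ‖u‖) * (D.L * ‖v‖)))
        + (1/2) * (c2 * ‖w‖ * ((D.L * ‖y - x‖ * ‖u‖) * (D.L * ‖v‖)))
        + (1/2) * (c2 * ‖w‖ * ((D.L * ‖u‖) * (D.L * ‖y - x‖ * ‖v‖))) := by
        rw [h2, h2, h2, h2]
        linarith
    _ = (1/2) * ((c1 * (1 + D.L ^ 2) + c2 * (2 * D.L ^ 2)) * ‖w‖ * ‖y - x‖ * ‖u‖ * ‖v‖) := by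
        ring
    _ ≤ (c1 * (1 + D.L ^ 2) + c2 * (2 * D.L ^ 2)) * ‖w‖ * ‖y - x‖ * ‖u‖ * ‖v‖ := by
        have : 0 ≤ (c1 * (1 + D.L ^ 2) + c2 * (2 * D.L ^ 2)) * ‖w‖ * ‖y - x‖ * ‖u‖ * ‖v‖ := by
          positivity
        linarith

end pt

/-- **GEO2** -/
theorem geo2 : GEO2 := by
  intro D
  have hL := L_nn D
  have hm : 0 < D.m := (D.bd 0).m_pos
  have hM : 0 < D.M := (D.bd 0).M_pos
  set CA : ℝ := D.L ^ 2 / D.m with hCA
  have hCA0 : 0 ≤ CA := by positivity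
  set C1 : ℝ := 2 * D.L ^ 2 + 3 * D.L ^ 2 * CA with hC1
  set C2 : ℝ := 3 / D.m ^ 2 * (2 * D.M) *
    ((D.L * (1 + 3 * CA)) * (1 + D.L ^ 2) + (D.L * (1 + 2 * CA)) * (2 * D.L ^ 2)) with hC2
  have h1 : 0 ≤ C1 := by positivity
  have h2 : 0 ≤ C2 := by positivity
  refine ⟨CA + C1 + C2, by positivity, fun x w => ?_⟩
  obtain ⟨A, hA, hn⟩ := exists_endo (g := D.G x) hm (fun v => (D.bd x).lo v)
    (-(1/2 : ℝ) • fderiv ℝ D.G x w)
  have hn' : ‖A‖ ≤ CA * ‖w‖ := by
    refine hn.trans ?_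
    have e1 : ‖-(1/2 : ℝ) • fderiv ℝ D.G x w‖ ≤ (1/2) * (2 * D.L ^ 2 * ‖w‖) := by
      refine bil_le (by positivity) fun u v => ?_
      have e2 := abs_bil_le (G1_le D x w) u v
      have e3 : (-(1/2 : ℝ) • fderiv ℝ D.G x w) u v = -((1/2) * fderiv ℝ D.G x w u v) := by
        simp only [smul_apply, smul_eq_mul]; ring
      rw [e3, abs_neg, abs_mul, abs_of_pos (by norm_num : (0:ℝ) < 1/2)]
      calc (1/2) * |fderiv ℝ D.G x w u v| ≤ (1/2) * (2 * D.L ^ 2 * ‖w‖ * (‖u‖ * ‖v‖)) :=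
            mul_le_mul_of_nonneg_left e2 (by norm_num)
        _ = _ := by ring
    calc ‖-(1/2 : ℝ) • fderiv ℝ D.G x w‖ / D.m ≤ ((1/2) * (2 * D.L ^ 2 * ‖w‖)) / D.m :=
          div_le_div_of_nonneg_right e1 hm.le
      _ = CA * ‖w‖ := by rw [hCA]; ring
  refine ⟨A, hn'.trans ?_, fun y _ => (est1 D hA hn' y).trans ?_, fun y hy _ => ?_⟩
  · exact mul_le_mul_of_nonneg_right (by linarith) (norm_nonneg _)
  · have h3 : C1 ≤ CA + C1 + C2 := by linarith
    exact mul_le_mul_of_nonneg_right (mul_le_mul_of_nonneg_right h3 (norm_nonneg _))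
      (by positivity)
  · rw [d1_bet D A (D.cl y hy),
      (D.bd y).q_inv_left (D.pos y).alt (D.pos y).inv (BB_alt D y _ A)]
    have e1 := (D.bd y).abs_q_le (D.pos y).alt ((BB_alt D y (w + A (y - x)) A).invp (D.J y))
    have e2 := (D.bd y).norm_le_q (D.pos y)
    rw [D.nrm y, mul_one] at e2
    have e3 := invp_le D (y := y) hCA0 hA hn'
    refine e1.trans ?_
    calc 3 / D.m ^ 2 * (‖D.φ y‖ * ‖invp (D.J y) (BB D y (w + A (y - x)) A)‖)
        ≤ 3 / D.m ^ 2 * ((2 * D.M) *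
          (((D.L * (1 + 3 * CA)) * (1 + D.L ^ 2) + (D.L * (1 + 2 * CA)) * (2 * D.L ^ 2))
            * ‖w‖ * ‖y - x‖)) := by gcongr
      _ = C2 * ‖w‖ * ‖y - x‖ := by rw [hC2]; ring
      _ ≤ (CA + C1 + C2) * ‖w‖ * ‖y - x‖ := by
          have h3 : C2 ≤ CA + C1 + C2 := by linarith
          exact mul_le_mul_of_nonneg_right (mul_le_mul_of_nonneg_right h3 (norm_nonneg _))
            (norm_nonneg _)

end

end Crest.Agent.R235.CurGeo2_133
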