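import Mathlib
import Crest.Agent.R235.LbA_453

/-!
Row 235 (S0364), package HZ, line bundles (helper453), file B:
local data (potentials `θ i`, transition functions `f i j`) with integral cocycle ⟹ a smooth
projection `p` of rank one whose Chern form is cohomologous to `-a`.
-/

set_option autoImplicit false
set_option linter.unusedSectionVars false
set_option maxSynthPendingDepth 3

open Set Function Filter Topology Complex
open scoped ContDiff ComplexConjugate Matrix Manifold

universe u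

namespace Crest.Agent.R235.Lb453

open Crest.Agent.R240 Crest.Agent.R240.Ch

noncomputable section

/-! ### the exponential -/

/-- `exp (2πi t)` -/
def ex (t : ℝ) : ℂ := Complex.exp (2 * Real.pi * I * t)

theorem ex_add (s t : ℝ) : ex (s + t) = ex s * ex t := by
  unfold ex
  rw [← Complex.exp_add]
  congr 1
  push_cast
  ring

theorem ex_zero : ex 0 = 1 := by simp [ex]

theorem ex_int (m : ℤ) : ex m = 1 := by
  unfold ex
  rw [Complex.exp_eq_one_iff]
  exact ⟨m, by push_cast; ring⟩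

theorem ex_neg (t : ℝ) : ex (-t) = conj (ex t) := by
  unfold ex
  rw [← Complex.exp_conj]
  congr 1
  simp only [map_mul, Complex.conj_ofReal, Complex.conj_I, map_ofNat]
  push_cast
  ring

theorem ex_mul_conj (t : ℝ) : conj (ex t) * ex t = 1 := by
  rw [← ex_neg, ← ex_add]
  simp [ex_zero]



theorem ex_eq_of_int {s t : ℝ} (h : ∃ m : ℤ, s - t = m) : ex s = ex t := by
  obtain ⟨m, hm⟩ := h
  have : s = t + m := by linarith
  rw [this, ex_add, ex_int, mul_one]

theorem ex_eq_iff {s t : ℝ} : ex s = ex t ↔ ∃ m : ℤ, s - t = m := by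
  refine ⟨fun h => ?_, ex_eq_of_int⟩
  unfold ex at h
  obtain ⟨m, hm⟩ := Complex.exp_eq_exp_iff_exists_int.1 h
  refine ⟨m, ?_⟩
  have h2 : (2 * Real.pi * I : ℂ) ≠ 0 := Complex.two_pi_I_ne_zero
  have h3 : (2 * Real.pi * I : ℂ) * ((s : ℂ) - t) = 2 * Real.pi * I * m := by
    linear_combination hm
  have h4 := mul_left_cancel₀ h2 h3
  have h5 : ((s - t : ℝ) : ℂ) = ((m : ℝ) : ℂ) := by push_cast; exact h4
  exact_mod_cast h5

theorem contDiff_ex : ContDiff ℝ ∞ ex := by
  unfold ex
  exact (contDiff_const.mul Complex.ofRealCLM.contDiff).cexp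

theorem hasDerivAt_ex (t : ℝ) : HasDerivAt ex (2 * Real.pi * I * ex t) t := by
  have h1 : HasDerivAt (fun t : ℝ => (2 * Real.pi * I : ℂ) * (t : ℂ)) (2 * Real.pi * I * 1) t :=
    (Complex.ofRealCLM.hasDerivAt (x := t)).const_mul _
  have h2 := h1.cexp
  unfold ex
  convert h2 using 1
  ring

theorem fderiv_ex {E : Type*} [NormedAddCommGroup E] [NormedSpace ℝ E] {f : E → ℝ} {y : E}
    (hf : DifferentiableAt ℝ f y) (u : E) :
    fderiv ℝ (fun z => ex (f z)) y u = 2 * Real.pi * I * ex (f y) * fderiv ℝ f y u := by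
  have h1 : HasFDerivAt (fun z => ex (f z))
      ((ContinuousLinearMap.toSpanSingleton ℝ (2 * Real.pi * I * ex (f y))).comp
        (fderiv ℝ f y)) y := by
    have h2 : HasFDerivAt ex
      (ContinuousLinearMap.toSpanSingleton ℝ (2 * Real.pi * I * ex (f y))) (f y) :=
      (hasDerivAt_ex (f y)).hasFDerivAt
    exact h2.comp y hf.hasFDerivAt
  rw [h1.fderiv]
  simp [ContinuousLinearMap.toSpanSingleton_apply]
  ring

/-! ### pointwise smoothness -/

variable {M : Type u} [TopologicalSpace M] [ChartedSpace E4 M] [IsManifold 𝓘(ℝ, E4) ∞ M]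

/-- smooth at `x` -/
def S0 (f : M → ℝ) (x : M) : Prop := ContDiffAt ℝ ∞ (repF x f) (chartAt E4 x x)

/-- smooth at `x` -/
def S1 (s : F1 E4 M) (x : M) : Prop := ContDiffAt ℝ ∞ (rep1 x s) (chartAt E4 x x)

omit [IsManifold 𝓘(ℝ, E4) ∞ M] in
/-- eventually near `x` gives eventually near its coordinates -/
theorem ev_chart {x : M} {P : M → Prop} (h : ∀ᶠ z in 𝓝 x, P z) :
    ∀ᶠ y in 𝓝 (chartAt E4 x x), P ((chartAt E4 x).symm y) := by
  have h1 : Tendsto (chartAt E4 x).symm (𝓝 (chartAt E4 x x)) (𝓝 x) := by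
    have := (chartAt E4 x).continuousAt_symm (mem_chart_target E4 x)
    unfold ContinuousAt at this
    rwa [(chartAt E4 x).left_inv (mem_chart_source E4 x)] at this
  exact h1.eventually h

omit [IsManifold 𝓘(ℝ, E4) ∞ M] in
theorem S0.congr {f g : M → ℝ} {x : M} (hf : S0 f x) (h : ∀ᶠ z in 𝓝 x, g z = f z) : S0 g x :=
  ContDiffAt.congr_of_eventuallyEq hf (ev_chart h)

theorem S1.congr {s t : F1 E4 M} {x : M} (hs : S1 s x) (h : ∀ᶠ z in 𝓝 x, at1 t z = at1 s z) :
    S1 t x := by
  refine ContDiffAt.congr_of_eventuallyEq hs ?_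
  filter_upwards [ev_chart h] with y hy
  unfold rep1
  rw [hy]


omit [IsManifold 𝓘(ℝ, E4) ∞ M] in
theorem _root_.Crest.Agent.R240.Ch.SmoothF.S0 {f : M → ℝ} (hf : SmoothF E4 f) (x : M) : S0 f x :=
  hf.at (mem_chart_target E4 x)

theorem _root_.Crest.Agent.R240.Ch.Smooth1.S1 {s : F1 E4 M} (hs : Smooth1 s) (x : M) : S1 s x :=
  hs.at (mem_chart_target E4 x)


theorem smooth1_of_S1 {s : F1 E4 M} (h : ∀ x, S1 s x) : Smooth1 s :=
  Smooth1.of_local fun x => ⟨x, mem_chart_source E4 x, h x⟩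

omit [IsManifold 𝓘(ℝ, E4) ∞ M] in
theorem S0.mul {f g : M → ℝ} {x : M} (hf : S0 f x) (hg : S0 g x) : S0 (fun z => f z * g z) x :=
  ContDiffAt.mul hf hg

omit [IsManifold 𝓘(ℝ, E4) ∞ M] in
theorem S0.sum {ι : Type*} {s : Finset ι} {f : ι → M → ℝ} {x : M} (hf : ∀ i ∈ s, S0 (f i) x) :
    S0 (fun z => ∑ i ∈ s, f i z) x := by
  have : repF (E := E4) x (fun z => ∑ i ∈ s, f i z) = fun y => ∑ i ∈ s, repF x (f i) y := rfl
  unfold S0
  rw [this]
  exact ContDiffAt.sum hf

/-- the value of `dF` at a point -/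
theorem at1_dF (f : M → ℝ) (x : M) (u : E4) :
    at1 (dF (E := E4) f) x u = fderiv ℝ (repF x f) (chartAt E4 x x) u := rfl

theorem dF_congr {f g : M → ℝ} {x : M} (h : ∀ᶠ z in 𝓝 x, f z = g z) :
    at1 (dF (E := E4) f) x = at1 (dF (E := E4) g) x := by
  have h1 : repF (E := E4) x f =ᶠ[𝓝 (chartAt E4 x x)] repF x g := ev_chart h
  show fderiv ℝ (repF x f) (chartAt E4 x x) = fderiv ℝ (repF x g) (chartAt E4 x x)
  rw [h1.fderiv_eq]

theorem dF_zero_of {f : M → ℝ} {x : M} (h : ∀ᶠ z in 𝓝 x, f z = 0) :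
    at1 (dF (E := E4) f) x = 0 := by
  rw [dF_congr (g := fun _ => 0) h]
  show fderiv ℝ (fun _ => (0 : ℝ)) (chartAt E4 x x) = 0
  simp

theorem dF_sq {f : M → ℝ} {x : M} (hf : S0 f x) (u : E4) :
    at1 (dF (E := E4) (fun z => f z ^ 2)) x u = 2 * f x * at1 (dF (E := E4) f) x u := by
  show fderiv ℝ (fun y => (repF x f y) ^ 2) (chartAt E4 x x) u = _
  have h1 : DifferentiableAt ℝ (repF x f) (chartAt E4 x x) := hf.differentiableAt infty_ne_zero
  rw [fderiv_fun_pow _ h1]
  simp only [smul_apply, smul_eq_mul, nsmul_eq_mul]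
  rw [repF_chart (mem_chart_source E4 x), at1_dF]
  norm_num

theorem dF_sum {ι : Type*} {s : Finset ι} {f : ι → M → ℝ} {x : M} (hf : ∀ i ∈ s, S0 (f i) x)
    (u : E4) :
    at1 (dF (E := E4) (fun z => ∑ i ∈ s, f i z)) x u = ∑ i ∈ s, at1 (dF (E := E4) (f i)) x u := by
  show fderiv ℝ (fun y => ∑ i ∈ s, repF x (f i) y) (chartAt E4 x x) u = _
  rw [fderiv_fun_sum fun i hi => (hf i hi).differentiableAt infty_ne_zero, sum_apply]
  rfl

/-- exterior derivative of a finite sum `∑ g_i s_i` at a point -/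
theorem dG_sum_fmul1 {ι : Type*} [Fintype ι] {g : ι → M → ℝ} {s : ι → F1 E4 M} {x : M}
    (h : ∀ i, (S0 (g i) x ∧ S1 (s i) x) ∨ ∀ᶠ z in 𝓝 x, g i z = 0) (u v : E4) :
    at2 (dG (fun z => ∑ i, g i z • s i z : F1 E4 M)) x u v =
      ∑ i, (at1 (dF (E := E4) (g i)) x u * at1 (s i) x v -
        at1 (dF (E := E4) (g i)) x v * at1 (s i) x u + g i x * at2 (dG (s i)) x u v) := by
  classical
  have hrep : rep1 x (fun z => ∑ i, g i z • s i z : F1 E4 M) =
      fun y => ∑ i, repF x (g i) y • rep1 x (s i) y := by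
    funext y
    ext w
    simp only [rep1_apply, at1, sum_apply, smul_apply, repF]
  have hd : ∀ i, DifferentiableAt ℝ (fun y => repF x (g i) y • rep1 x (s i) y)
      (chartAt E4 x x) := by
    intro i
    rcases h i with ⟨h1, h2⟩ | h1
    · exact (h1.differentiableAt infty_ne_zero).smul (h2.differentiableAt infty_ne_zero)
    · refine (differentiableAt_const (0 : E4 →L[ℝ] ℝ)).congr_of_eventuallyEq ?_
      filter_upwards [ev_chart h1] with y hy
      show g i ((chartAt E4 x).symm y) • _ = _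
      rw [hy, zero_smul]
  have hterm : ∀ i, d1 (fun y => repF x (g i) y • rep1 x (s i) y) (chartAt E4 x x) u v =
      at1 (dF (E := E4) (g i)) x u * at1 (s i) x v -
        at1 (dF (E := E4) (g i)) x v * at1 (s i) x u + g i x * at2 (dG (s i)) x u v := by
    intro i
    rcases h i with ⟨h1, h2⟩ | h1
    · rw [d1_smul (h1.differentiableAt infty_ne_zero) (h2.differentiableAt infty_ne_zero)]
      rw [repF_chart (mem_chart_source E4 x)]
      have e1 : ∀ w, rep1 x (s i) (chartAt E4 x x) w = at1 (s i) x w := by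
        intro w
        have h := apply_eq_rep1 (mem_chart_source E4 x) (s i) w
        rw [tcc_self (mem_chart_source E4 x)] at h
        exact h.symm
      rw [e1, e1]
      rfl
    · have h2 : (fun y => repF x (g i) y • rep1 x (s i) y) =ᶠ[𝓝 (chartAt E4 x x)]
          fun _ => 0 := by
        filter_upwards [ev_chart h1] with y hy
        show g i ((chartAt E4 x).symm y) • _ = _
        rw [hy, zero_smul]
      rw [d1_zero_of_ev h2, dF_zero_of h1, h1.self_of_nhds]
      simp
  show d1 (rep1 x _) (chartAt E4 x x) u v = _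
  rw [hrep]
  simp only [← hterm]
  simp only [d1_apply]
  rw [fderiv_fun_sum fun i _ => hd i]
  simp only [sum_apply, Finset.sum_sub_distrib]

end

end Crest.Agent.R235.Lb453
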