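import Mathlib
import Crest.Agent.R235.LbB_453

/-!
Row 235 (S0364), package HZ, line bundles (helper453), file C:
**Weil data with integral cocycle give a line bundle** (`lb0`): `p_ij = ρ_i ρ_j exp(2πi f_ij)`.
-/

set_option autoImplicit false
set_option linter.unusedSectionVars false
set_option maxSynthPendingDepth 3

open Set Function Filter Topology Complex
open scoped ContDiff ComplexConjugate Matrix Manifold

universe u

namespace Crest.Agent.R235.Lb453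

open Crest.Agent.R240 Crest.Agent.R240.Ch

noncomputable section

variable {M : Type u} [TopologicalSpace M] [ChartedSpace E4 M] [IsManifold 𝓘(ℝ, E4) ∞ M]

omit [IsManifold 𝓘(ℝ, E4) ∞ M] in
theorem ev_zero_of_notMem {f : M → ℝ} {x : M} (h : x ∉ tsupport f) : ∀ᶠ z in 𝓝 x, f z = 0 := by
  filter_upwards [(isClosed_tsupport f).isOpen_compl.mem_nhds h] with y hy
  exact image_eq_zero_of_notMem_tsupport hy

/-- the matrix-valued map -/
def pmat {n : ℕ} (ρ : Fin n → M → ℝ) (f : Fin n → Fin n → M → ℝ) (x : M) :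
    Matrix (Fin n) (Fin n) ℂ := fun i j => (ρ i x : ℂ) * (ρ j x : ℂ) * ex (f i j x)

variable {n : ℕ} {ρ : Fin n → M → ℝ} {A : Fin n → F1 E4 M} {f : Fin n → Fin n → M → ℝ}

/-- the frame over the set `ρ k ≠ 0` -/
def fr (ρ : Fin n → M → ℝ) (f : Fin n → Fin n → M → ℝ) (k : Fin n) (x : M) (i : Fin n) : ℂ :=
  (ρ i x : ℂ) * ex (f i k x)

omit [ChartedSpace E4 M] [IsManifold 𝓘(ℝ, E4) ∞ M] in
theorem fr_unit (hsum : ∀ x, ∑ i, ρ i x ^ 2 = 1) (k : Fin n) (x : M) :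
    ∑ i, conj (fr ρ f k x i) * fr ρ f k x i = 1 := by
  have h : ∀ i, conj (fr ρ f k x i) * fr ρ f k x i = ((ρ i x ^ 2 : ℝ) : ℂ) := by
    intro i
    unfold fr
    rw [map_mul, Complex.conj_ofReal]
    have := ex_mul_conj (f i k x)
    push_cast
    linear_combination ((ρ i x : ℂ) ^ 2) * this
  simp only [h]
  rw [← Complex.ofReal_sum, hsum x]
  simp

omit [ChartedSpace E4 M] [IsManifold 𝓘(ℝ, E4) ∞ M] in
theorem pmat_eq_pr (h3 : ∀ i j k x, x ∈ tsupport (ρ i) → x ∈ tsupport (ρ j) → x ∈ tsupport (ρ k) →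
      ∃ m : ℤ, f j k x - f i k x + f i j x = m) {k : Fin n} {x : M} (hk : x ∈ tsupport (ρ k)) :
    pmat ρ f x = pr (fr ρ f k x) := by
  ext i j
  unfold pmat pr fr
  rw [map_mul, Complex.conj_ofReal]
  by_cases hi : x ∈ tsupport (ρ i)
  · by_cases hj : x ∈ tsupport (ρ j)
    · obtain ⟨m, hm⟩ := h3 i j k x hi hj hk
      have h : ex (f i j x) = ex (f i k x) * conj (ex (f j k x)) := by
        rw [← ex_neg, ← ex_add]
        refine ex_eq_of_int ⟨m, ?_⟩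
        linarith
      rw [h]; ring
    · rw [image_eq_zero_of_notMem_tsupport hj]; simp
  · rw [image_eq_zero_of_notMem_tsupport hi]; simp

theorem cont_of_smoothF {g : M → ℝ} (hg : SmoothF E4 g) : Continuous g :=
  ((smoothF_iff g).2 hg).continuous

theorem contMDiff_ex {g : M → ℝ} (hg : SmoothF E4 g) :
    ContMDiff 𝓘(ℝ, E4) 𝓘(ℝ, ℂ) ∞ (fun x => ex (g x)) :=
  contDiff_ex.contMDiff.comp ((smoothF_iff g).2 hg)

theorem contMDiff_ofReal {g : M → ℝ} (hg : SmoothF E4 g) :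
    ContMDiff 𝓘(ℝ, E4) 𝓘(ℝ, ℂ) ∞ (fun x => (g x : ℂ)) :=
  Complex.ofRealCLM.contDiff.contMDiff.comp ((smoothF_iff g).2 hg)

theorem contMDiff_mulC {g h : M → ℂ} (hg : ContMDiff 𝓘(ℝ, E4) 𝓘(ℝ, ℂ) ∞ g)
    (hh : ContMDiff 𝓘(ℝ, E4) 𝓘(ℝ, ℂ) ∞ h) : ContMDiff 𝓘(ℝ, E4) 𝓘(ℝ, ℂ) ∞ (fun x => g x * h x) :=
  (contDiff_fst.mul contDiff_snd : ContDiff ℝ ∞ (fun p : ℂ × ℂ => p.1 * p.2)).contMDiff.comp
    (hg.prodMk_space hh)

/-- **`p` is a line bundle** -/
theorem isLine_pmat (hρ : ∀ i, SmoothF E4 (ρ i)) (hsum : ∀ x, ∑ i, ρ i x ^ 2 = 1)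
    (hf : ∀ i j, SmoothF E4 (f i j))
    (h3 : ∀ i j k x, x ∈ tsupport (ρ i) → x ∈ tsupport (ρ j) → x ∈ tsupport (ρ k) →
      ∃ m : ℤ, f j k x - f i k x + f i j x = m) : IsLine (pmat ρ f) := by
  have hk : ∀ x, ∃ k, x ∈ tsupport (ρ k) := by
    intro x
    by_contra h
    push Not at h
    have := hsum x
    simp [fun i => image_eq_zero_of_notMem_tsupport (h i)] at this
  refine ⟨fun i j => ?_, fun x => ?_, fun x => ?_, fun x => ?_⟩
  · exact contMDiff_mulC (contMDiff_mulC (contMDiff_ofReal (hρ i)) (contMDiff_ofReal (hρ j)))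
      (contMDiff_ex (hf i j))
  · obtain ⟨k, hk⟩ := hk x
    rw [pmat_eq_pr h3 hk, pr_idem (fr_unit hsum k x)]
  · obtain ⟨k, hk⟩ := hk x
    rw [pmat_eq_pr h3 hk, pr_herm]
  · obtain ⟨k, hk⟩ := hk x
    rw [pmat_eq_pr h3 hk, pr_trace (fr_unit hsum k x)]

/-- the global one-form `∑ ρ_i² A_i` -/
def Th (ρ : Fin n → M → ℝ) (A : Fin n → F1 E4 M) : F1 E4 M := fun x => ∑ i, (ρ i x ^ 2) • A i x

theorem smooth_sq {g : M → ℝ} (hg : SmoothF E4 g) : SmoothF E4 (fun x => g x ^ 2) := by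
  have := hg.mul hg
  simpa [pow_two] using this

theorem smooth1_Th (hρ : ∀ i, SmoothF E4 (ρ i)) (hA : ∀ i, Smooth1 (A i)) : Smooth1 (Th ρ A) := by
  intro p
  have h : rep1 p (Th ρ A) = fun y => ∑ i, repF p (fun x => ρ i x ^ 2) y • rep1 p (A i) y := by
    funext y
    ext w
    simp only [rep1_apply, at1, Th, sum_apply, smul_apply, repF]
  rw [h]
  exact ContDiffOn.sum fun i _ => (smooth_sq (hρ i) p).smul (hA i p)

/-- exterior derivative of `Th` -/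
theorem dG_Th (hρ : ∀ i, SmoothF E4 (ρ i)) (hsum : ∀ x, ∑ i, ρ i x ^ 2 = 1)
    (hA : ∀ i, Smooth1 (A i)) {a : F2 E4 M}
    (h1 : ∀ i x, x ∈ tsupport (ρ i) → at2 (dG (A i)) x = at2 a x) (x : M) (u v : E4) :
    at2 (dG (Th ρ A)) x u v = at2 a x u v +
      ∑ i, 2 * ρ i x * (at1 (dF (E := E4) (ρ i)) x u * at1 (A i) x v -
        at1 (dF (E := E4) (ρ i)) x v * at1 (A i) x u) := by
  have h := dG_sum_fmul1 (g := fun i x => ρ i x ^ 2) (s := A) (x := x)
    (fun i => Or.inl ⟨(smooth_sq (hρ i)).S0 x, (hA i).S1 x⟩) u v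
  have h' : at2 (dG (Th ρ A)) x u v = at2 (dG (fun z => ∑ i, (ρ i z ^ 2) • A i z : F1 E4 M)) x u v :=
    rfl
  rw [h', h]
  have e : ∀ i, at1 (dF (E := E4) (fun x => ρ i x ^ 2)) x u * at1 (A i) x v -
        at1 (dF (E := E4) (fun x => ρ i x ^ 2)) x v * at1 (A i) x u +
        ρ i x ^ 2 * at2 (dG (A i)) x u v =
      2 * ρ i x * (at1 (dF (E := E4) (ρ i)) x u * at1 (A i) x v -
        at1 (dF (E := E4) (ρ i)) x v * at1 (A i) x u) + ρ i x ^ 2 * at2 a x u v := by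
    intro i
    rw [dF_sq ((hρ i).S0 x), dF_sq ((hρ i).S0 x)]
    by_cases hi : x ∈ tsupport (ρ i)
    · rw [h1 i x hi]; ring
    · rw [image_eq_zero_of_notMem_tsupport hi]; ring
  simp only [e]
  rw [Finset.sum_add_distrib, ← Finset.sum_mul, hsum x]
  ring

/-- `∑ ρ_i dρ_i = 0` -/
theorem sum_rho_drho (hρ : ∀ i, SmoothF E4 (ρ i)) (hsum : ∀ x, ∑ i, ρ i x ^ 2 = 1) (x : M)
    (u : E4) : ∑ i, 2 * ρ i x * at1 (dF (E := E4) (ρ i)) x u = 0 := by
  have h1 : at1 (dF (E := E4) (fun z => ∑ i, ρ i z ^ 2)) x u = 0 := by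
    have : (fun z => ∑ i, ρ i z ^ 2) = fun _ : M => (1 : ℝ) := funext hsum
    rw [this]
    show fderiv ℝ (fun _ => (1 : ℝ)) (chartAt E4 x x) u = 0
    simp
  rw [dF_sum fun i _ => (smooth_sq (hρ i)).S0 x] at h1
  rw [← h1]
  exact Finset.sum_congr rfl fun i _ => (dF_sq ((hρ i).S0 x) u).symm

/-- **the Chern form of `p`** -/
theorem chern_pmat (hρ : ∀ i, SmoothF E4 (ρ i)) (hsum : ∀ x, ∑ i, ρ i x ^ 2 = 1)
    (hf : ∀ i j, SmoothF E4 (f i j))
    (h2 : ∀ i j x, x ∈ tsupport (ρ i) → x ∈ tsupport (ρ j) →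
      at1 (A i) x - at1 (A j) x = at1 (dF (E := E4) (f i j)) x)
    (h3 : ∀ i j k x, x ∈ tsupport (ρ i) → x ∈ tsupport (ρ j) → x ∈ tsupport (ρ k) →
      ∃ m : ℤ, f j k x - f i k x + f i j x = m) (x : M) (u v : E4) :
    (Complex.I / (2 * Real.pi)) *
      (pmat ρ f x * (dmat (pmat ρ f) x u * dmat (pmat ρ f) x v -
        dmat (pmat ρ f) x v * dmat (pmat ρ f) x u)).trace =
      ((- ∑ i, 2 * ρ i x * (at1 (dF (E := E4) (ρ i)) x u * at1 (A i) x v -
        at1 (dF (E := E4) (ρ i)) x v * at1 (A i) x u) : ℝ) : ℂ) := by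
  classical
  obtain ⟨k, hk⟩ : ∃ k, ρ k x ≠ 0 := by
    by_contra h
    push Not at h
    have := hsum x
    simp [h] at this
  have hkx : x ∈ tsupport (ρ k) := subset_tsupport _ hk
  have hev : ∀ᶠ z in 𝓝 x, z ∈ tsupport (ρ k) := by
    have : ∀ᶠ z in 𝓝 x, ρ k z ≠ 0 := (cont_of_smoothF (hρ k)).continuousAt.eventually_ne hk
    filter_upwards [this] with z hz using subset_tsupport _ hz
  -- the frame in the chart
  set y0 := chartAt E4 x x with hy0
  set V : E4 → Fin n → ℂ := fun y => fr ρ f k ((chartAt E4 x).symm y) with hV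
  have hdρ : ∀ i, DifferentiableAt ℝ (repF (E := E4) x (ρ i)) y0 := fun i =>
    ((hρ i).S0 x).differentiableAt infty_ne_zero
  have hdf : ∀ i j, DifferentiableAt ℝ (repF (E := E4) x (f i j)) y0 := fun i j =>
    ((hf i j).S0 x).differentiableAt infty_ne_zero
  have hVi : ∀ i, (fun y => V y i) =
      fun y => ((repF x (ρ i) y : ℝ) : ℂ) * ex (repF x (f i k) y) := fun i => rfl
  have hde : ∀ i, DifferentiableAt ℝ (fun y => ex (repF x (f i k) y)) y0 := fun i =>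
    (contDiff_ex.contDiffAt.differentiableAt infty_ne_zero).comp y0 (hdf i k)
  have hdr : ∀ i, DifferentiableAt ℝ (fun y => ((repF x (ρ i) y : ℝ) : ℂ)) y0 := fun i =>
    Complex.ofRealCLM.differentiableAt.comp y0 (hdρ i)
  have hVd : ∀ i, DifferentiableAt ℝ (fun y => V y i) y0 := fun i => by
    rw [hVi i]; exact (hdr i).fun_mul (hde i)
  have hdr' : ∀ i w, fderiv ℝ (fun y => ((repF x (ρ i) y : ℝ) : ℂ)) y0 w =
      ((at1 (dF (E := E4) (ρ i)) x w : ℝ) : ℂ) := by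
    intro i w
    have h : HasFDerivAt (fun y => ((repF x (ρ i) y : ℝ) : ℂ))
        (Complex.ofRealCLM.comp (fderiv ℝ (repF x (ρ i)) y0)) y0 :=
      Complex.ofRealCLM.hasFDerivAt.comp y0 (hdρ i).hasFDerivAt
    rw [h.fderiv]
    rfl
  have hfd : ∀ i w, fderiv ℝ (fun y => V y i) y0 w =
      (((at1 (dF (E := E4) (ρ i)) x w : ℝ) : ℂ) +
        2 * Real.pi * I * (ρ i x : ℂ) * ((at1 (dF (E := E4) (f i k)) x w : ℝ) : ℂ)) *
        ex (f i k x) := by
    intro i w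
    rw [hVi i, fderiv_fun_mul (hdr i) (hde i)]
    simp only [add_apply, smul_apply, smul_eq_mul, hdr' i]
    rw [fderiv_ex (hdf i k), repF_chart (mem_chart_source E4 x),
      repF_chart (mem_chart_source E4 x)]
    rw [← at1_dF]
    ring
  -- p = V V^* near y0
  have hpev : ∀ᶠ y in 𝓝 y0, pmat ρ f ((chartAt E4 x).symm y) = pr (V y) := by
    filter_upwards [ev_chart hev] with y hy
    exact pmat_eq_pr h3 hy
  have hp0 : pmat ρ f x = pr (V y0) := by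
    have := hpev.self_of_nhds
    rwa [hy0, (chartAt E4 x).left_inv (mem_chart_source E4 x)] at this
  have hdm : ∀ w, dmat (pmat ρ f) x w = Matrix.of fun i j => fderiv ℝ (fun z => pr (V z) i j) y0 w := by
    intro w
    ext i j
    have h : (fun y : E4 => pmat ρ f ((chartAt E4 x).symm y) i j) =ᶠ[𝓝 y0]
        fun z => pr (V z) i j := by
      filter_upwards [hpev] with y hy
      rw [hy]
    show fderiv ℝ (fun y : E4 => pmat ρ f ((chartAt E4 x).symm y) i j) (chartAt E4 x x) w = _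
    rw [← hy0, h.fderiv_eq]
    rfl
  have hunit : ∀ᶠ z in 𝓝 y0, ∑ i, conj (V z i) * V z i = 1 :=
    Eventually.of_forall fun z => fr_unit hsum k _
  rw [hdm, hdm, hp0, curv_pr hVd hunit]
  simp only [hfd]
  -- the sum
  have hterm : ∀ i, conj ((((at1 (dF (E := E4) (ρ i)) x u : ℝ) : ℂ) +
        2 * Real.pi * I * (ρ i x : ℂ) * ((at1 (dF (E := E4) (f i k)) x u : ℝ) : ℂ)) *
        ex (f i k x)) * ((((at1 (dF (E := E4) (ρ i)) x v : ℝ) : ℂ) +
        2 * Real.pi * I * (ρ i x : ℂ) * ((at1 (dF (E := E4) (f i k)) x v : ℝ) : ℂ)) *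
        ex (f i k x)) - conj ((((at1 (dF (E := E4) (ρ i)) x v : ℝ) : ℂ) +
        2 * Real.pi * I * (ρ i x : ℂ) * ((at1 (dF (E := E4) (f i k)) x v : ℝ) : ℂ)) *
        ex (f i k x)) * ((((at1 (dF (E := E4) (ρ i)) x u : ℝ) : ℂ) +
        2 * Real.pi * I * (ρ i x : ℂ) * ((at1 (dF (E := E4) (f i k)) x u : ℝ) : ℂ)) *
        ex (f i k x)) =
      (2 * Real.pi * I) * (((2 * ρ i x * (at1 (dF (E := E4) (ρ i)) x u * (at1 (A i) x v - at1 (A k) x v)
        - at1 (dF (E := E4) (ρ i)) x v * (at1 (A i) x u - at1 (A k) x u)) : ℝ)) : ℂ) := by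
    intro i
    have hc : conj (2 * (Real.pi : ℂ) * I) = -(2 * Real.pi * I) := by
      simp only [map_mul, Complex.conj_ofReal, Complex.conj_I, map_ofNat]
      ring
    simp only [map_mul, map_add, Complex.conj_ofReal, Complex.conj_I, map_ofNat]
    have he := ex_mul_conj (f i k x)
    by_cases hi : x ∈ tsupport (ρ i)
    · have h := h2 i k x hi hkx
      have hu : at1 (dF (E := E4) (f i k)) x u = at1 (A i) x u - at1 (A k) x u := by
        rw [← h]; rfl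
      have hv : at1 (dF (E := E4) (f i k)) x v = at1 (A i) x v - at1 (A k) x v := by
        rw [← h]; rfl
      rw [hu, hv]
      push_cast
      generalize conj (ex (f i k x)) = E1 at *
      generalize ex (f i k x) = E2 at *
      generalize (at1 (dF (E := E4) (ρ i)) x u : ℂ) = ru
      generalize (at1 (dF (E := E4) (ρ i)) x v : ℂ) = rv
      generalize (at1 (A i) x u : ℂ) = au
      generalize (at1 (A i) x v : ℂ) = av
      generalize (at1 (A k) x u : ℂ) = ku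
      generalize (at1 (A k) x v : ℂ) = kv
      generalize (ρ i x : ℂ) = r
      linear_combination (4 * Real.pi * I * r * (ru * (av - kv) - rv * (au - ku))) * he
    · rw [image_eq_zero_of_notMem_tsupport hi, dF_zero_of (ev_zero_of_notMem hi)]
      simp
  rw [Finset.sum_congr rfl fun i _ => hterm i, ← Finset.mul_sum, ← Complex.ofReal_sum]
  have hI : Complex.I / (2 * Real.pi) * (2 * Real.pi * I) = -1 := by
    have : (Real.pi : ℂ) ≠ 0 := by exact_mod_cast Real.pi_ne_zero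
    field_simp
    exact Complex.I_sq
  rw [← mul_assoc, hI, neg_one_mul, ← Complex.ofReal_neg]
  congr 1
  rw [neg_inj]
  have su := sum_rho_drho hρ hsum x u
  have sv := sum_rho_drho hρ hsum x v
  have e : ∀ i, 2 * ρ i x * (at1 (dF (E := E4) (ρ i)) x u * (at1 (A i) x v - at1 (A k) x v)
        - at1 (dF (E := E4) (ρ i)) x v * (at1 (A i) x u - at1 (A k) x u)) =
      2 * ρ i x * (at1 (dF (E := E4) (ρ i)) x u * at1 (A i) x v -
        at1 (dF (E := E4) (ρ i)) x v * at1 (A i) x u) -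
      (2 * ρ i x * at1 (dF (E := E4) (ρ i)) x u) * at1 (A k) x v +
      (2 * ρ i x * at1 (dF (E := E4) (ρ i)) x v) * at1 (A k) x u := by
    intro i; ring
  simp only [e, Finset.sum_add_distrib, Finset.sum_sub_distrib, ← Finset.sum_mul, su, sv]
  ring

/-- an exact closed form -/
def exZ (s : F1 E4 M) (hs : Smooth1 s) : Z2 M := ⟨⟨dG s, Smooth2.dG hs⟩, Closed2.dG hs⟩

theorem cls_exZ (s : F1 E4 M) (hs : Smooth1 s) : cls (exZ s hs) = 0 := by
  unfold cls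
  rw [Submodule.mkQ_apply, Submodule.Quotient.mk_eq_zero]
  exact isEx_dG hs


/-- **integral Weil data give a line bundle with the right Chern class** -/
theorem lb0 (hρ : ∀ i, SmoothF E4 (ρ i)) (hsum : ∀ x, ∑ i, ρ i x ^ 2 = 1)
    (hA : ∀ i, Smooth1 (A i)) (hf : ∀ i j, SmoothF E4 (f i j)) (a : Z2 M)
    (h1 : ∀ i x, x ∈ tsupport (ρ i) → at2 (dG (A i)) x = at2 (a.1.1 : F2 E4 M) x)
    (h2 : ∀ i j x, x ∈ tsupport (ρ i) → x ∈ tsupport (ρ j) →
      at1 (A i) x - at1 (A j) x = at1 (dF (E := E4) (f i j)) x)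
    (h3 : ∀ i j k x, x ∈ tsupport (ρ i) → x ∈ tsupport (ρ j) → x ∈ tsupport (ρ k) →
      ∃ m : ℤ, f j k x - f i k x + f i j x = m) :
    IsLine (pmat ρ f) ∧ IsChern (pmat ρ f) (a - exZ (Th ρ A) (smooth1_Th hρ hA)) := by
  refine ⟨isLine_pmat hρ hsum hf h3, fun x u v => ?_⟩
  rw [chern_pmat (A := A) hρ hsum hf h2 h3, Complex.ofReal_re]
  have h := dG_Th hρ hsum hA h1 x u v
  show at2 (a.1.1 : F2 E4 M) x u v - at2 (dG (Th ρ A)) x u v = _
  rw [h]
  ring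

variable [T2Space M] [CompactSpace M]

omit [T2Space M] [CompactSpace M] in
/-- **integral Weil data: the class is in `HZ`** (partition with squares) -/
theorem cls_mem_HZ' [T2Space M] [CompactSpace M] (hρ : ∀ i, SmoothF E4 (ρ i))
    (hsum : ∀ x, ∑ i, ρ i x ^ 2 = 1)
    (hA : ∀ i, Smooth1 (A i)) (hf : ∀ i j, SmoothF E4 (f i j)) (a : Z2 M)
    (h1 : ∀ i x, x ∈ tsupport (ρ i) → at2 (dG (A i)) x = at2 (a.1.1 : F2 E4 M) x)
    (h2 : ∀ i j x, x ∈ tsupport (ρ i) → x ∈ tsupport (ρ j) →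
      at1 (A i) x - at1 (A j) x = at1 (dF (E := E4) (f i j)) x)
    (h3 : ∀ i j k x, x ∈ tsupport (ρ i) → x ∈ tsupport (ρ j) → x ∈ tsupport (ρ k) →
      ∃ m : ℤ, f j k x - f i k x + f i j x = m) : cls a ∈ HZ M := by
  obtain ⟨hL, hC⟩ := lb0 hρ hsum hA hf a h1 h2 h3
  exact ⟨n, _, _, hL, hC, by rw [map_sub, cls_exZ, sub_zero]⟩

/-- the normalised partition `ψ_i / √(∑ ψ_j²)` -/
def nrm (ψ : Fin n → M → ℝ) (i : Fin n) (x : M) : ℝ := ψ i x / √(∑ j, ψ j x ^ 2)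

omit [T2Space M] [CompactSpace M] [ChartedSpace E4 M] [IsManifold 𝓘(ℝ, E4) ∞ M] in
theorem sumsq_pos {ψ : Fin n → M → ℝ} (hψ : ∀ x, ∑ i, ψ i x = 1) (x : M) :
    0 < ∑ j, ψ j x ^ 2 := by
  by_contra h
  have h0 : ∑ j, ψ j x ^ 2 = 0 := le_antisymm (not_lt.1 h) (Finset.sum_nonneg fun i _ => sq_nonneg _)
  have h1 := (Finset.sum_eq_zero_iff_of_nonneg fun i _ => sq_nonneg (ψ i x)).1 h0
  have h2 := hψ x
  rw [Finset.sum_eq_zero fun i hi => pow_eq_zero_iff (two_ne_zero) |>.1 (h1 i hi)] at h2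
  exact zero_ne_one h2

omit [T2Space M] [CompactSpace M] [ChartedSpace E4 M] [IsManifold 𝓘(ℝ, E4) ∞ M] in
theorem nrm_sum {ψ : Fin n → M → ℝ} (hψ : ∀ x, ∑ i, ψ i x = 1) (x : M) :
    ∑ i, nrm ψ i x ^ 2 = 1 := by
  unfold nrm
  have h := sumsq_pos hψ x
  simp only [div_pow, Real.sq_sqrt h.le]
  rw [← Finset.sum_div, div_self h.ne']

omit [T2Space M] [CompactSpace M] [ChartedSpace E4 M] [IsManifold 𝓘(ℝ, E4) ∞ M] in
theorem nrm_supp (ψ : Fin n → M → ℝ) (i : Fin n) : tsupport (nrm ψ i) ⊆ tsupport (ψ i) := by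
  refine closure_mono fun x hx => ?_
  rw [mem_support] at hx ⊢
  intro h
  exact hx (by unfold nrm; rw [h, zero_div])

omit [T2Space M] [CompactSpace M] in
theorem nrm_smooth {ψ : Fin n → M → ℝ} (hs : ∀ i, SmoothF E4 (ψ i)) (hψ : ∀ x, ∑ i, ψ i x = 1)
    (i : Fin n) : SmoothF E4 (nrm ψ i) := by
  intro p
  have h1 : ContDiffOn ℝ ∞ (fun y => ∑ j, (repF p (ψ j) y) ^ 2) (chartAt E4 p).target :=
    ContDiffOn.sum fun j _ => (hs j p).pow 2
  have h2 : ContDiffOn ℝ ∞ (fun y => √(∑ j, (repF p (ψ j) y) ^ 2)) (chartAt E4 p).target :=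
    h1.sqrt fun y _ => (sumsq_pos hψ _).ne'
  exact (hs i p).div h2 fun y _ => (Real.sqrt_pos.2 (sumsq_pos hψ _)).ne'

/-- **integral Weil data (524's hypotheses): the class is in `HZ`** -/
theorem cls_mem_HZ {ψ : Fin n → M → ℝ} (hψ : ∀ i, SmoothF E4 (ψ i)) (hsum : ∀ x, ∑ i, ψ i x = 1)
    (hA : ∀ i, Smooth1 (A i)) (hf : ∀ i j, SmoothF E4 (f i j)) (a : Z2 M)
    (h1 : ∀ i x, x ∈ tsupport (ψ i) → at2 (dG (A i)) x = at2 (a.1.1 : F2 E4 M) x)
    (h2 : ∀ i j x, x ∈ tsupport (ψ i) → x ∈ tsupport (ψ j) →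
      at1 (A i) x - at1 (A j) x = at1 (dF (E := E4) (f i j)) x)
    (h3 : ∀ i j k x, x ∈ tsupport (ψ i) → x ∈ tsupport (ψ j) → x ∈ tsupport (ψ k) →
      ∃ m : ℤ, f j k x - f i k x + f i j x = m) : cls a ∈ HZ M :=
  cls_mem_HZ' (nrm_smooth hψ hsum) (nrm_sum hsum) hA hf a
    (fun i x hi => h1 i x (nrm_supp ψ i hi))
    (fun i j x hi hj => h2 i j x (nrm_supp ψ i hi) (nrm_supp ψ j hj))
    (fun i j k x hi hj hk => h3 i j k x (nrm_supp ψ i hi) (nrm_supp ψ j hj) (nrm_supp ψ k hk))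

end

end Crest.Agent.R235.Lb453
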