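import Mathlib
import Crest.Agent.R235.LbC_453
import Crest.Agent.R235.Cdr_524
import Crest.Agent.R275.GC2_293

-- ▼ part R235/LbE_453
section

/-!
Row 235 (S0364), package HZ, line bundles (helper453), file E: a projection of rank one is
`s s^*` locally; local calculus for complex functions on `M`.
-/

set_option autoImplicit false
set_option linter.unusedSectionVars false
set_option maxSynthPendingDepth 3

open Set Function Filter Topology Complex
open scoped ContDiff ComplexConjugate Matrix Manifold ComplexOrder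

universe u

namespace Crest.Agent.R235.Lb453

open Crest.Agent.R240 Crest.Agent.R240.Ch Crest.Agent.R235.Loc_524

noncomputable section

/-! ### linear algebra -/

section lin

variable {N : ℕ} {P : Matrix (Fin N) (Fin N) ℂ}

/-- the normalised column -/
def col (P : Matrix (Fin N) (Fin N) ℂ) (m : Fin N) (l : Fin N) : ℂ :=
  P l m * (((√((P m m).re))⁻¹ : ℝ) : ℂ)

theorem herm_apply (hh : P.conjTranspose = P) (i j : Fin N) : conj (P j i) = P i j := by
  have := congrFun (congrFun hh i) j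
  rwa [Matrix.conjTranspose_apply] at this

theorem diag_eq (hi : P * P = P) (hh : P.conjTranspose = P) (m : Fin N) :
    P m m = ((∑ l, Complex.normSq (P l m) : ℝ) : ℂ) := by
  have h := congrFun (congrFun hi m) m
  rw [Matrix.mul_apply] at h
  rw [← h, Complex.ofReal_sum]
  refine Finset.sum_congr rfl fun l _ => ?_
  rw [← herm_apply hh m l, Complex.normSq_eq_conj_mul_self]

theorem diag_real (hi : P * P = P) (hh : P.conjTranspose = P) (m : Fin N) :
    P m m = (((P m m).re : ℝ) : ℂ) := by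
  rw [diag_eq hi hh m, Complex.ofReal_re]

theorem diag_pos (hi : P * P = P) (hh : P.conjTranspose = P) {m : Fin N} (hm : P m m ≠ 0) :
    0 < (P m m).re := by
  have h := diag_eq hi hh m
  have h0 : 0 ≤ (P m m).re := by
    rw [h, Complex.ofReal_re]
    exact Finset.sum_nonneg fun l _ => Complex.normSq_nonneg _
  refine lt_of_le_of_ne h0 fun h1 => hm ?_
  rw [diag_real hi hh m, ← h1, Complex.ofReal_zero]

theorem eq_rank_one (hi : P * P = P) (hh : P.conjTranspose = P) (ht : P.trace = 1) {m : Fin N}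
    (hm : P m m ≠ 0) (i j : Fin N) : P i j = P i m * P m j / P m m := by
  set q : Matrix (Fin N) (Fin N) ℂ := Matrix.of fun i j => P i j - P i m * P m j / P m m with hq
  have hP : ∀ a b, ∑ k, P a k * P k b = P a b := fun a b => by
    have := congrFun (congrFun hi a) b
    rwa [Matrix.mul_apply] at this
  have hqh : q.conjTranspose = q := by
    ext a b
    rw [Matrix.conjTranspose_apply]
    simp only [hq, Matrix.of_apply]
    rw [star_def, map_sub, map_div₀, map_mul, herm_apply hh, herm_apply hh, herm_apply hh,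
      herm_apply hh]
    ring
  have hqq : q * q = q := by
    ext a b
    rw [Matrix.mul_apply]
    simp only [hq, Matrix.of_apply]
    have e : ∀ k, (P a k - P a m * P m k / P m m) * (P k b - P k m * P m b / P m m) =
        P a k * P k b - (P a k * P k m) * (P m b / P m m) - (P a m / P m m) * (P m k * P k b) +
          (P a m / P m m) * (P m k * P k m) * (P m b / P m m) := by
      intro k; ring
    simp only [e, Finset.sum_add_distrib, Finset.sum_sub_distrib, ← Finset.sum_mul,
      ← Finset.mul_sum, hP]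
    field_simp
    ring
  have hqt : q.trace = 0 := by
    have h1 : q.trace = P.trace - ∑ a, P a m * P m a / P m m := by
      simp [Matrix.trace, hq, Finset.sum_sub_distrib]
    have h2 : ∑ a, P a m * P m a / P m m = 1 := by
      rw [← Finset.sum_div, div_eq_one_iff_eq hm]
      rw [← hP m m]
      exact Finset.sum_congr rfl fun a _ => mul_comm _ _
    rw [h1, h2, ht, sub_self]
  have hq0 : q = 0 := by
    have h1 : (q.conjTranspose * q).trace = 0 := by rw [hqh, hqq, hqt]
    exact Matrix.trace_conjTranspose_mul_self_eq_zero_iff.1 h1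
  have h2 := congrFun (congrFun hq0 i) j
  simp only [hq, Matrix.of_apply, Matrix.zero_apply] at h2
  exact sub_eq_zero.1 h2

theorem eq_pr_col (hi : P * P = P) (hh : P.conjTranspose = P) (ht : P.trace = 1) {m : Fin N}
    (hm : P m m ≠ 0) : P = pr (col P m) := by
  have hp := diag_pos hi hh hm
  have hs : (((√((P m m).re))⁻¹ : ℝ) : ℂ) * (((√((P m m).re))⁻¹ : ℝ) : ℂ) = (P m m)⁻¹ := by
    conv_rhs => rw [diag_real hi hh m]
    rw [← Complex.ofReal_mul, ← Complex.ofReal_inv, ← mul_inv, Real.mul_self_sqrt hp.le]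
  ext i j
  rw [eq_rank_one hi hh ht hm i j]
  unfold pr col
  rw [map_mul, Complex.conj_ofReal, herm_apply hh m j]
  calc P i m * P m j / P m m = P i m * P m j * (P m m)⁻¹ := by ring
    _ = _ := by rw [← hs]; ring

theorem col_unit (hi : P * P = P) (hh : P.conjTranspose = P) {m : Fin N} (hm : P m m ≠ 0) :
    ∑ l, conj (col P m l) * col P m l = 1 := by
  have hp := diag_pos hi hh hm
  have h := diag_eq hi hh m
  have e : ∀ l, conj (col P m l) * col P m l =
      ((Complex.normSq (P l m) * ((P m m).re)⁻¹ : ℝ) : ℂ) := by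
    intro l
    unfold col
    rw [map_mul, Complex.conj_ofReal]
    have hs : (((√((P m m).re))⁻¹ : ℝ) : ℂ) * (((√((P m m).re))⁻¹ : ℝ) : ℂ) =
        ((((P m m).re)⁻¹ : ℝ) : ℂ) := by
      rw [← Complex.ofReal_mul, ← mul_inv, Real.mul_self_sqrt hp.le]
    rw [Complex.ofReal_mul, Complex.normSq_eq_conj_mul_self]
    linear_combination (conj (P l m) * P l m) * hs
  simp only [e]
  rw [← Complex.ofReal_sum, ← Finset.sum_mul]
  have h2 : ∑ l, Complex.normSq (P l m) = (P m m).re := by rw [h, Complex.ofReal_re]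
  rw [h2, mul_inv_cancel₀ hp.ne', Complex.ofReal_one]

/-- two unit vectors with the same projection -/
theorem pr_eq_pr {s t : Fin N → ℂ} (ht : ∑ l, conj (t l) * t l = 1)
    (h : pr s = pr t) (l : Fin N) : t l = (∑ k, conj (s k) * t k) * s l := by
  have h1 : ∑ k, pr s l k * t k = ∑ k, pr t l k * t k := by rw [h]
  have h2 : ∑ k, pr t l k * t k = t l := by
    unfold pr
    have : ∀ k, t l * conj (t k) * t k = t l * (conj (t k) * t k) := fun k => by ring
    simp only [this, ← Finset.mul_sum, ht, mul_one]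
  have h3 : ∑ k, pr s l k * t k = (∑ k, conj (s k) * t k) * s l := by
    unfold pr
    rw [Finset.sum_mul]
    exact Finset.sum_congr rfl fun k _ => by ring
  rw [← h2, ← h1, h3]

theorem norm_ip {s t : Fin N → ℂ} (hs : ∑ l, conj (s l) * s l = 1)
    (ht : ∑ l, conj (t l) * t l = 1) (h : pr s = pr t) :
    conj (∑ k, conj (s k) * t k) * (∑ k, conj (s k) * t k) = 1 := by
  set g := ∑ k, conj (s k) * t k with hg
  have h1 : ∀ l, t l = g * s l := fun l => pr_eq_pr ht h l
  have h2 : ∑ l, conj (t l) * t l = conj g * g * ∑ l, conj (s l) * s l := by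
    rw [Finset.mul_sum]
    refine Finset.sum_congr rfl fun l _ => ?_
    rw [h1 l, map_mul]
    ring
  rw [hs, ht, mul_one] at h2
  exact h2.symm

/-- cocycle property of the transition functions -/
theorem ip_mul_ip {s t w : Fin N → ℂ} (ht : ∑ l, conj (t l) * t l = 1)
    (hst : pr s = pr t) :
    (∑ k, conj (s k) * t k) * (∑ k, conj (t k) * w k) = ∑ k, conj (s k) * w k := by
  have h1 : ∑ k, conj (s k) * w k = ∑ k, conj (s k) * w k := rfl
  have hs' : ∀ l, s l = (∑ k, conj (t k) * s k) * t l ∨ True := fun l => Or.inr trivial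
  -- `s` in terms of `t` : needs `|s| = 1`, avoided by using the projection
  have h2 : ∀ j, ∑ k, conj (s k) * pr t k j = (∑ k, conj (s k) * t k) * conj (t j) := by
    intro j
    rw [Finset.sum_mul]
    exact Finset.sum_congr rfl fun k _ => by unfold pr; ring
  have h3 : ∀ j, ∑ k, conj (s k) * pr s k j = (∑ k, conj (s k) * s k) * conj (s j) := by
    intro j
    rw [Finset.sum_mul]
    exact Finset.sum_congr rfl fun k _ => by unfold pr; ring
  have hss : ∑ k, conj (s k) * s k = 1 := by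
    have e1 : (pr s).trace = (pr t).trace := by rw [hst]
    have e2 : ∀ v : Fin N → ℂ, (pr v).trace = ∑ k, conj (v k) * v k := fun v => by
      rw [Matrix.trace]
      exact Finset.sum_congr rfl fun k _ => by simp [pr, mul_comm]
    rw [e2, e2, ht] at e1
    exact e1
  have h4 : ∀ j, conj (s j) = (∑ k, conj (s k) * t k) * conj (t j) := by
    intro j
    rw [← h2 j, ← hst, h3 j, hss, one_mul]
  rw [Finset.mul_sum]
  refine Finset.sum_congr rfl fun k _ => ?_
  rw [h4 k]
  ring

end lin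

end

end Crest.Agent.R235.Lb453
end

-- ▼ part R235/LbF_453
section

/-!
Row 235 (S0364), package HZ, line bundles (helper453), file F: local calculus of complex functions
on `M`; the connection form of a local section; its differential is the Chern form.
-/

set_option autoImplicit false
set_option linter.unusedSectionVars false
set_option maxSynthPendingDepth 3

open Set Function Filter Topology Complex
open scoped ContDiff ComplexConjugate Matrix Manifold ComplexOrder

universe u

namespace Crest.Agent.R235.Lb453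

open Crest.Agent.R240 Crest.Agent.R240.Ch Crest.Agent.R235.Loc_524

noncomputable section

variable {M : Type u} [TopologicalSpace M] [ChartedSpace E4 M] [IsManifold 𝓘(ℝ, E4) ∞ M]

/-- a complex function in the chart at `x` -/
def rc (x : M) (g : M → ℂ) (y : E4) : ℂ := g ((chartAt E4 x).symm y)

/-- smooth at `x` -/
def SC (g : M → ℂ) (x : M) : Prop := ContDiffAt ℝ ∞ (rc x g) (chartAt E4 x x)

/-- the differential -/
def dC (g : M → ℂ) (x : M) (u : E4) : ℂ := fderiv ℝ (rc x g) (chartAt E4 x x) u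

omit [IsManifold 𝓘(ℝ, E4) ∞ M] in
theorem rc_self (x : M) (g : M → ℂ) : rc x g (chartAt E4 x x) = g x := by
  unfold rc; rw [(chartAt E4 x).left_inv (mem_chart_source E4 x)]

theorem sc_of_contMDiff {g : M → ℂ} (hg : ContMDiff 𝓘(ℝ, E4) 𝓘(ℝ, ℂ) ∞ g) (x : M) : SC g x :=
  (contMDiffAt_of_eq (F := ℂ) (mem_chart_source E4 x) (g := g) (f := rc x g) (fun z hz => by
    unfold rc; rw [(chartAt E4 x).left_inv hz])).1 (hg x)

omit [IsManifold 𝓘(ℝ, E4) ∞ M] in
theorem SC.re {g : M → ℂ} {x : M} (h : SC g x) : SmAtF E4 (fun z => (g z).re) x :=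
  Complex.reCLM.contDiff.contDiffAt.comp _ h

omit [IsManifold 𝓘(ℝ, E4) ∞ M] in
theorem SC.im {g : M → ℂ} {x : M} (h : SC g x) : SmAtF E4 (fun z => (g z).im) x :=
  Complex.imCLM.contDiff.contDiffAt.comp _ h

omit [IsManifold 𝓘(ℝ, E4) ∞ M] in
theorem SC.mul {g h : M → ℂ} {x : M} (hg : SC g x) (hh : SC h x) : SC (fun z => g z * h z) x :=
  ContDiffAt.mul hg hh

omit [IsManifold 𝓘(ℝ, E4) ∞ M] in
theorem SC.conj {g : M → ℂ} {x : M} (hg : SC g x) : SC (fun z => conj (g z)) x :=
  (Complex.conjCLE : ℂ →L[ℝ] ℂ).contDiff.contDiffAt.comp _ hg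

omit [IsManifold 𝓘(ℝ, E4) ∞ M] in
theorem SC.sum {ι : Type*} {s : Finset ι} {g : ι → M → ℂ} {x : M} (h : ∀ i ∈ s, SC (g i) x) :
    SC (fun z => ∑ i ∈ s, g i z) x := by
  have : rc x (fun z => ∑ i ∈ s, g i z) = fun y => ∑ i ∈ s, rc x (g i) y := rfl
  unfold SC
  rw [this]
  exact ContDiffAt.sum h

omit [IsManifold 𝓘(ℝ, E4) ∞ M] in
theorem SC.congr {g h : M → ℂ} {x : M} (hg : SC g x) (e : ∀ᶠ z in 𝓝 x, h z = g z) : SC h x :=
  ContDiffAt.congr_of_eventuallyEq hg (ev_chart e)

omit [IsManifold 𝓘(ℝ, E4) ∞ M] in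
theorem SC.diff {g : M → ℂ} {x : M} (h : SC g x) : DifferentiableAt ℝ (rc x g) (chartAt E4 x x) :=
  h.differentiableAt infty_ne_zero

omit [IsManifold 𝓘(ℝ, E4) ∞ M] in
theorem dC_re {g : M → ℂ} {x : M} (h : SC g x) (u : E4) :
    at1 (dF (E := E4) (fun z => (g z).re)) x u = (dC g x u).re := by
  have h1 : HasFDerivAt (fun y => (rc x g y).re)
      (Complex.reCLM.comp (fderiv ℝ (rc x g) (chartAt E4 x x))) (chartAt E4 x x) :=
    Complex.reCLM.hasFDerivAt.comp _ h.diff.hasFDerivAt
  show fderiv ℝ (fun y => (rc x g y).re) (chartAt E4 x x) u = _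
  rw [h1.fderiv]
  rfl

omit [IsManifold 𝓘(ℝ, E4) ∞ M] in
theorem dC_im {g : M → ℂ} {x : M} (h : SC g x) (u : E4) :
    at1 (dF (E := E4) (fun z => (g z).im)) x u = (dC g x u).im := by
  have h1 : HasFDerivAt (fun y => (rc x g y).im)
      (Complex.imCLM.comp (fderiv ℝ (rc x g) (chartAt E4 x x))) (chartAt E4 x x) :=
    Complex.imCLM.hasFDerivAt.comp _ h.diff.hasFDerivAt
  show fderiv ℝ (fun y => (rc x g y).im) (chartAt E4 x x) u = _
  rw [h1.fderiv]
  rfl

omit [IsManifold 𝓘(ℝ, E4) ∞ M] in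
theorem dC_congr {g h : M → ℂ} {x : M} (e : ∀ᶠ z in 𝓝 x, h z = g z) (u : E4) :
    dC h x u = dC g x u := by
  have : rc x h =ᶠ[𝓝 (chartAt E4 x x)] rc x g := ev_chart e
  unfold dC
  rw [this.fderiv_eq]

omit [IsManifold 𝓘(ℝ, E4) ∞ M] in
theorem dC_mul {g h : M → ℂ} {x : M} (hg : SC g x) (hh : SC h x) (u : E4) :
    dC (fun z => g z * h z) x u = g x * dC h x u + h x * dC g x u := by
  show fderiv ℝ (fun y => rc x g y * rc x h y) (chartAt E4 x x) u = _
  rw [fderiv_fun_mul hg.diff hh.diff]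
  simp only [add_apply, smul_apply, smul_eq_mul, rc_self]
  rfl

omit [IsManifold 𝓘(ℝ, E4) ∞ M] in
theorem dC_ex {f : M → ℝ} {x : M} (hf : SmAtF E4 f x) (u : E4) :
    dC (fun z => ex (f z)) x u = 2 * Real.pi * I * ex (f x) * at1 (dF (E := E4) f) x u := by
  show fderiv ℝ (fun y => ex (repF x f y)) (chartAt E4 x x) u = _
  rw [fderiv_ex (hf.differentiableAt infty_ne_zero), repF_chart (mem_chart_source E4 x)]
  rfl

/-- `df` is smooth where `f` is smooth on an open set -/
theorem smAt1_dF {f : M → ℝ} {U : Set M} (hU : IsOpen U) (hf : ∀ x ∈ U, SmAtF E4 f x) {x : M}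
    (hx : x ∈ U) : SmAt1 (dF (E := E4) f) x := by
  have h : rep1 x (dF (E := E4) f) =ᶠ[𝓝 (chartAt E4 x x)] fderiv ℝ (repF x f) := by
    filter_upwards [ev_chart (hU.mem_nhds hx),
      (chartAt E4 x).open_target.mem_nhds (mem_chart_target E4 x)] with y hy hyt
    exact rep1_dF_at hyt (hf _ hy)
  exact ((hf x hx).fderiv_right (m := ∞) (by simp)).congr_of_eventuallyEq h

theorem dG_dF_loc {f : M → ℝ} {U : Set M} (hU : IsOpen U) (hf : ∀ x ∈ U, SmAtF E4 f x) {x : M}
    (hx : x ∈ U) : at2 (dG (dF (E := E4) f)) x = 0 := by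
  have h : rep1 x (dF (E := E4) f) =ᶠ[𝓝 (chartAt E4 x x)] fderiv ℝ (repF x f) := by
    filter_upwards [ev_chart (hU.mem_nhds hx),
      (chartAt E4 x).open_target.mem_nhds (mem_chart_target E4 x)] with y hy hyt
    exact rep1_dF_at hyt (hf _ hy)
  show d1 (rep1 x (dF (E := E4) f)) (chartAt E4 x x) = 0
  rw [d1_congr h, d1_fderiv (hf x hx)]

/-- the connection form of the local section `s` : `(i/2π) ⟨s, ds⟩` -/
def conn {N : ℕ} (s : M → Fin N → ℂ) : F1 E4 M :=
  fun x => ∑ l, ((2 * Real.pi)⁻¹ : ℝ) • ((s x l).im • dF (E := E4) (fun z => (s z l).re) x -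
    (s x l).re • dF (E := E4) (fun z => (s z l).im) x)

theorem conn_apply {N : ℕ} {s : M → Fin N → ℂ} {x : M} (hs : ∀ l, SC (fun z => s z l) x)
    (u : E4) :
    at1 (conn s) x u = ((I / (2 * Real.pi)) * ∑ l, conj (s x l) * dC (fun z => s z l) x u).re := by
  have h1 : at1 (conn s) x u = ∑ l, (2 * Real.pi)⁻¹ *
      ((s x l).im * at1 (dF (E := E4) (fun z => (s z l).re)) x u -
        (s x l).re * at1 (dF (E := E4) (fun z => (s z l).im)) x u) := by
    unfold conn at1
    rw [sum_apply]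
    rfl
  have h2 : (I / (2 * Real.pi)) * ∑ l, conj (s x l) * dC (fun z => s z l) x u =
      (((2 * Real.pi)⁻¹ : ℝ) : ℂ) * ∑ l, I * (conj (s x l) * dC (fun z => s z l) x u) := by
    rw [← Finset.mul_sum]
    push_cast
    ring
  rw [h1, h2, Complex.re_ofReal_mul, Complex.re_sum, Finset.mul_sum]
  refine Finset.sum_congr rfl fun l _ => ?_
  rw [dC_re (hs l), dC_im (hs l)]
  congr 1
  simp only [Complex.mul_re, Complex.I_re, Complex.I_im, Complex.mul_im, Complex.conj_re,
    Complex.conj_im]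
  ring

theorem smAt1_conn {N : ℕ} {s : M → Fin N → ℂ} {U : Set M} (hU : IsOpen U)
    (hs : ∀ x ∈ U, ∀ l, SC (fun z => s z l) x) {x : M} (hx : x ∈ U) : SmAt1 (conn s) x := by
  have e : rep1 x (conn s) = fun y => ∑ l, ((2 * Real.pi)⁻¹ : ℝ) •
      (repF x (fun z => (s z l).im) y • rep1 x (dF (E := E4) (fun z => (s z l).re)) y -
        repF x (fun z => (s z l).re) y • rep1 x (dF (E := E4) (fun z => (s z l).im)) y) := by
    funext y
    ext w
    rw [rep1_apply]
    unfold conn at1
    rw [sum_apply, sum_apply]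
    rfl
  unfold SmAt1
  rw [e]
  refine ContDiffAt.sum fun l _ => ContDiffAt.const_smul _ (ContDiffAt.sub ?_ ?_)
  · exact ContDiffAt.smul (hs x hx l).im (smAt1_dF hU (fun z hz => (hs z hz l).re) hx)
  · exact ContDiffAt.smul (hs x hx l).re (smAt1_dF hU (fun z hz => (hs z hz l).im) hx)

/-- the differential of the connection form -/
theorem dG_conn {N : ℕ} {s : M → Fin N → ℂ} {U : Set M} (hU : IsOpen U)
    (hs : ∀ x ∈ U, ∀ l, SC (fun z => s z l) x) {x : M} (hx : x ∈ U) (u v : E4) :
    at2 (dG (conn s)) x u v = ((I / (2 * Real.pi)) *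
      ∑ l, (conj (dC (fun z => s z l) x u) * dC (fun z => s z l) x v -
        conj (dC (fun z => s z l) x v) * dC (fun z => s z l) x u)).re := by
  -- as a sum over `Fin N × Bool`
  set g : Fin N × Bool → M → ℝ := fun q z =>
    if q.2 then (2 * Real.pi)⁻¹ * (s z q.1).im else -(2 * Real.pi)⁻¹ * (s z q.1).re with hg
  set t : Fin N × Bool → F1 E4 M := fun q =>
    if q.2 then dF (E := E4) (fun z => (s z q.1).re) else dF (E := E4) (fun z => (s z q.1).im) with ht
  have hgt : ∀ q, S0 (g q) x ∧ S1 (t q) x := by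
    rintro ⟨l, b⟩
    cases b
    · refine ⟨?_, ?_⟩
      · exact (contDiffAt_const (c := -(2 * Real.pi)⁻¹)).mul (hs x hx l).re
      · exact smAt1_dF hU (fun z hz => (hs z hz l).im) hx
    · refine ⟨?_, ?_⟩
      · exact (contDiffAt_const (c := (2 * Real.pi)⁻¹)).mul (hs x hx l).im
      · exact smAt1_dF hU (fun z hz => (hs z hz l).re) hx
  have e : (conn s) = (fun z => ∑ q, g q z • t q z : F1 E4 M) := by
    funext z
    rw [Fintype.sum_prod_type]
    unfold conn
    refine Finset.sum_congr rfl fun l _ => ?_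
    rw [Fintype.sum_bool]
    simp only [hg, ht, if_true, Bool.false_eq_true, if_false]
    rw [smul_sub, smul_smul, smul_smul, neg_mul, neg_smul, sub_eq_add_neg]
  rw [e, dG_sum_fmul1 (fun q => Or.inl (hgt q)), Fintype.sum_prod_type]
  have h2 : (I / (2 * Real.pi)) * ∑ l, (conj (dC (fun z => s z l) x u) * dC (fun z => s z l) x v -
        conj (dC (fun z => s z l) x v) * dC (fun z => s z l) x u) =
      (((2 * Real.pi)⁻¹ : ℝ) : ℂ) * ∑ l, I * (conj (dC (fun z => s z l) x u) *
        dC (fun z => s z l) x v - conj (dC (fun z => s z l) x v) * dC (fun z => s z l) x u) := by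
    rw [← Finset.mul_sum]
    push_cast
    ring
  rw [h2, Complex.re_ofReal_mul, Complex.re_sum, Finset.mul_sum]
  refine Finset.sum_congr rfl fun l _ => ?_
  rw [Fintype.sum_bool]
  have d1 : ∀ w, at1 (dF (E := E4) (g (l, true))) x w = (2 * Real.pi)⁻¹ * (dC (fun z => s z l) x w).im := by
    intro w
    rw [← dC_im (hs x hx l)]
    show fderiv ℝ (fun y => (2 * Real.pi)⁻¹ * repF x (fun z => (s z l).im) y) _ w = _
    rw [fderiv_const_mul ((hs x hx l).im.differentiableAt infty_ne_zero)]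
    rfl
  have d2 : ∀ w, at1 (dF (E := E4) (g (l, false))) x w =
      -(2 * Real.pi)⁻¹ * (dC (fun z => s z l) x w).re := by
    intro w
    rw [← dC_re (hs x hx l)]
    show fderiv ℝ (fun y => -(2 * Real.pi)⁻¹ * repF x (fun z => (s z l).re) y) _ w = _
    rw [fderiv_const_mul ((hs x hx l).re.differentiableAt infty_ne_zero)]
    rfl
  have t1 : ∀ w, at1 (t (l, true)) x w = (dC (fun z => s z l) x w).re := fun w =>
    dC_re (hs x hx l) w
  have t2 : ∀ w, at1 (t (l, false)) x w = (dC (fun z => s z l) x w).im := fun w =>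
    dC_im (hs x hx l) w
  have z1 : at2 (dG (t (l, true))) x = 0 := dG_dF_loc hU (fun z hz => (hs z hz l).re) hx
  have z2 : at2 (dG (t (l, false))) x = 0 := dG_dF_loc hU (fun z hz => (hs z hz l).im) hx
  rw [d1, d1, d2, d2, t1, t1, t2, t2, z1, z2]
  simp only [zero_apply, mul_zero, add_zero]
  simp only [Complex.mul_re, Complex.I_re, Complex.I_im, Complex.sub_re, Complex.sub_im,
    Complex.mul_im, Complex.conj_re, Complex.conj_im]
  ring

end

end Crest.Agent.R235.Lb453
end

-- ▼ part R235/LbG_453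

/-!
Row 235 (S0364), package HZ, line bundles (helper453), file G: a line bundle has integral Čech data
on every cover with convex intersections over which its columns give non-zero sections.
-/

set_option autoImplicit false
set_option linter.unusedSectionVars false
set_option maxSynthPendingDepth 3

open Set Function Filter Topology Complex
open scoped ContDiff ComplexConjugate Matrix Manifold ComplexOrder

universe u

namespace Crest.Agent.R235.Lb453

open Crest.Agent.R240 Crest.Agent.R240.Ch Crest.Agent.R235.Loc_524 Crest.Agent.R235.Cdr_524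

noncomputable section

variable {M : Type u} [TopologicalSpace M] [ChartedSpace E4 M] [IsManifold 𝓘(ℝ, E4) ∞ M]

/-! ### local logarithms -/

theorem log_loc {g : M → ℂ} {p : M} {U : Set M} (hU : IsOpen U)
    (hs : U ⊆ (chartAt E4 p).source) (hconv : Convex ℝ (chartAt E4 p '' U))
    (hsm : ∀ x ∈ U, SC g x) (h1 : ∀ x ∈ U, conj (g x) * g x = 1) :
    ∃ f : M → ℝ, (∀ x ∈ U, SmAtF E4 f x) ∧ ∀ x ∈ U, ex (f x) = g x := by
  obtain ⟨ho, ht, hi⟩ := image_facts hU hs
  set G : E4 → ℂ := fun y => g ((chartAt E4 p).symm y) with hG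
  have hgs : ContDiffOn ℝ ∞ G (chartAt E4 p '' U) := by
    rintro _ ⟨x, hx, rfl⟩
    have h2 : ContMDiffAt 𝓘(ℝ, E4) 𝓘(ℝ, ℂ) ∞ g x :=
      (contMDiffAt_of_eq (F := ℂ) (mem_chart_source E4 x) (g := g) (f := rc x g) (fun z hz => by
        unfold rc; rw [(chartAt E4 x).left_inv hz])).2 (hsm x hx)
    have h3 := (contMDiffAt_of_eq (F := ℂ) (hs hx) (g := g) (f := G) (fun z hz => by
        rw [hG]; beta_reduce; rw [(chartAt E4 p).left_inv hz])).1 h2
    exact h3.contDiffWithinAt
  have h0 : ∀ y ∈ chartAt E4 p '' U, G y ≠ 0 := by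
    rintro _ ⟨x, hx, rfl⟩ h
    rw [hG] at h
    beta_reduce at h
    rw [(chartAt E4 p).left_inv (hs hx)] at h
    have := h1 x hx
    rw [h, mul_zero] at this
    exact zero_ne_one this
  obtain ⟨φ, hφ, hφ'⟩ := R275.GC293.exists_smooth_log hconv ho hgs h0
  set F : E4 → ℝ := fun y => (2 * Real.pi)⁻¹ * (φ y).im with hF
  have hFs : ContDiffOn ℝ ∞ F (chartAt E4 p '' U) :=
    contDiffOn_const.mul (Complex.imCLM.contDiff.comp_contDiffOn hφ)
  have hev : ∀ x ∈ U, repF p (extF p F) =ᶠ[𝓝 (chartAt E4 p x)] F := by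
    intro x hx
    filter_upwards [ho.mem_nhds (mem_image_of_mem _ hx)] with y hy
    exact repF_extF_self (ht hy) F
  refine ⟨extF p F, fun x hx => smAtF_of_chart (hs hx)
    ((hFs.contDiffAt (ho.mem_nhds (mem_image_of_mem _ hx))).congr_of_eventuallyEq (hev x hx)),
    fun x hx => ?_⟩
  rw [extF_of_mem (hs hx)]
  have hy : chartAt E4 p x ∈ chartAt E4 p '' U := mem_image_of_mem _ hx
  have e1 := hφ' _ hy
  have e2 : G (chartAt E4 p x) = g x := by
    rw [hG]; beta_reduce; rw [(chartAt E4 p).left_inv (hs hx)]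
  rw [e2] at e1
  -- the real part of `φ` vanishes
  have e3 : (φ (chartAt E4 p x)).re = 0 := by
    have h2 := h1 x hx
    rw [← Complex.normSq_eq_conj_mul_self] at h2
    have h3 : Complex.normSq (g x) = 1 := by exact_mod_cast h2
    have h4 : ‖g x‖ = 1 := by
      rw [Complex.normSq_eq_norm_sq] at h3
      nlinarith [norm_nonneg (g x)]
    rw [← e1, Complex.norm_exp] at h4
    exact Real.exp_eq_one_iff _ |>.1 h4
  rw [← e1, hF]
  unfold ex
  congr 1
  have hpi : (Real.pi : ℂ) ≠ 0 := by exact_mod_cast Real.pi_ne_zero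
  push_cast
  apply Complex.ext
  · simp [e3, Complex.mul_re, Complex.mul_im]
  · have : (2 * (Real.pi : ℂ) * I * ((2 * (Real.pi : ℂ))⁻¹ * ((φ (chartAt E4 p x)).im : ℂ))) =
        I * ((φ (chartAt E4 p x)).im : ℂ) := by
      field_simp
    rw [this]
    simp

/-! ### comparison of two sections -/

/-- the connection forms of two sections with the same projection -/
theorem conn_sub {N : ℕ} {s t : M → Fin N → ℂ} {f : M → ℝ} {U : Set M} (hU : IsOpen U)
    (hs : ∀ x ∈ U, ∀ l, SC (fun z => s z l) x) (ht : ∀ x ∈ U, ∀ l, SC (fun z => t z l) x)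
    (hs1 : ∀ x ∈ U, ∑ l, conj (s x l) * s x l = 1) (ht1 : ∀ x ∈ U, ∑ l, conj (t x l) * t x l = 1)
    (hst : ∀ x ∈ U, pr (s x) = pr (t x)) (hf : ∀ x ∈ U, SmAtF E4 f x)
    (hfe : ∀ x ∈ U, ex (f x) = ∑ k, conj (s x k) * t x k) {x : M} (hx : x ∈ U) :
    at1 (conn s) x - at1 (conn t) x = at1 (dF (E := E4) f) x := by
  ext u
  show at1 (conn s) x u - at1 (conn t) x u = _
  rw [conn_apply (hs x hx), conn_apply (ht x hx)]
  have hte : ∀ l, ∀ᶠ z in 𝓝 x, t z l = ex (f z) * s z l := by
    intro l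
    filter_upwards [hU.mem_nhds hx] with z hz
    rw [hfe z hz]
    exact pr_eq_pr (ht1 z hz) (hst z hz) l
  have hex : SC (fun z => ex (f z)) x := contDiff_ex.contDiffAt.comp _ (hf x hx)
  have hd : ∀ l, dC (fun z => t z l) x u = ex (f x) * dC (fun z => s z l) x u +
      s x l * (2 * Real.pi * I * ex (f x) * at1 (dF (E := E4) f) x u) := by
    intro l
    rw [dC_congr (hte l), dC_mul hex (hs x hx l), dC_ex (hf x hx)]
  have htx : ∀ l, t x l = ex (f x) * s x l := fun l => (hte l).self_of_nhds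
  have key : ∑ l, conj (t x l) * dC (fun z => t z l) x u =
      (∑ l, conj (s x l) * dC (fun z => s z l) x u) +
        2 * Real.pi * I * at1 (dF (E := E4) f) x u := by
    have e : ∀ l, conj (t x l) * dC (fun z => t z l) x u =
        conj (s x l) * dC (fun z => s z l) x u +
          (conj (s x l) * s x l) * (2 * Real.pi * I * at1 (dF (E := E4) f) x u) := by
      intro l
      rw [hd l, htx l, map_mul]
      have := ex_mul_conj (f x)
      linear_combination (conj (s x l) * dC (fun z => s z l) x u +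
        conj (s x l) * s x l * (2 * Real.pi * I * at1 (dF (E := E4) f) x u)) * this
    simp only [e, Finset.sum_add_distrib, ← Finset.sum_mul, hs1 x hx, one_mul]
  rw [key, mul_add, Complex.add_re]
  have hpi : (Real.pi : ℂ) ≠ 0 := by exact_mod_cast Real.pi_ne_zero
  have e2 : I / (2 * (Real.pi : ℂ)) * (2 * Real.pi * I * (at1 (dF (E := E4) f) x u : ℂ)) =
      ((-(at1 (dF (E := E4) f) x u) : ℝ) : ℂ) := by
    field_simp
    push_cast
    rw [Complex.I_sq]
    ring
  rw [e2, Complex.ofReal_re]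
  ring

/-! ### local sections of a line bundle -/

variable {N : ℕ} {p : M → Matrix (Fin N) (Fin N) ℂ}

theorem sc_entry (hp : ∀ i j, ContMDiff 𝓘(ℝ, E4) 𝓘(ℝ, ℂ) ∞ (fun x => p x i j)) (i j : Fin N) (x : M) :
    SC (fun z => p z i j) x := sc_of_contMDiff (hp i j) x

theorem sc_col (hp : ∀ i j, ContMDiff 𝓘(ℝ, E4) 𝓘(ℝ, ℂ) ∞ (fun x => p x i j)) {m : Fin N} {x : M}
    (hx : 0 < (p x m m).re) (l : Fin N) : SC (fun z => col (p z) m l) x := by
  refine (sc_entry hp l m x).mul ?_
  have h1 : ContDiffAt ℝ ∞ (fun y => (rc x (fun z => p z m m) y).re) (chartAt E4 x x) :=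
    (sc_entry hp m m x).re
  have h2 : (rc x (fun z => p z m m) (chartAt E4 x x)).re ≠ 0 := by
    rw [rc_self]; exact hx.ne'
  have h3 := (h1.sqrt h2).inv (by
    rw [rc_self]; exact (Real.sqrt_pos.2 hx).ne')
  exact Complex.ofRealCLM.contDiff.contDiffAt.comp _ h3

/-- the set where the column `m` is non-zero -/
def Om (p : M → Matrix (Fin N) (Fin N) ℂ) (m : Fin N) : Set M := {x | 0 < (p x m m).re}

theorem isOpen_Om (hp : ∀ i j, ContMDiff 𝓘(ℝ, E4) 𝓘(ℝ, ℂ) ∞ (fun x => p x i j)) (m : Fin N) :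
    IsOpen (Om p m) :=
  isOpen_lt continuous_const (Complex.continuous_re.comp (hp m m).continuous)

section line

variable [T2Space M] [CompactSpace M]

theorem Om_cover (hp : IsLine p) (x : M) : ∃ m, x ∈ Om p m := by
  by_contra h
  push Not at h
  have h1 : ∀ m, (p x m m).re = 0 := fun m => by
    have h2 : ¬ 0 < (p x m m).re := h m
    have h3 := diag_eq (hp.idem x) (hp.herm x) m
    have h4 : 0 ≤ (p x m m).re := by
      rw [h3, Complex.ofReal_re]
      exact Finset.sum_nonneg fun l _ => Complex.normSq_nonneg _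
    linarith [not_lt.1 h2]
  have h2 := congrArg Complex.re (hp.rank x)
  rw [Matrix.trace, Complex.re_sum] at h2
  simp only [Matrix.diag_apply, h1, Finset.sum_const_zero, Complex.one_re] at h2
  exact zero_ne_one h2

theorem Om_ne {m : Fin N} {x : M} (hx : x ∈ Om p m) : p x m m ≠ 0 := by
  intro h
  have : 0 < (p x m m).re := hx
  rw [h] at this
  exact lt_irrefl _ this

theorem p_eq (hp : IsLine p) {m : Fin N} {x : M} (hx : x ∈ Om p m) :
    p x = pr (col (p x) m) := eq_pr_col (hp.idem x) (hp.herm x) (hp.rank x) (Om_ne hx)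

theorem unit_col (hp : IsLine p) {m : Fin N} {x : M} (hx : x ∈ Om p m) :
    ∑ l, conj (col (p x) m l) * col (p x) m l = 1 := col_unit (hp.idem x) (hp.herm x) (Om_ne hx)

/-- **the differential of the connection form is the Chern form** -/
theorem dG_conn_eq (hp : IsLine p) {a : Z2 M} (ha : IsChern p a) {m : Fin N} {x : M}
    (hx : x ∈ Om p m) :
    at2 (dG (conn fun z => col (p z) m)) x = at2 (a.1.1 : F2 E4 M) x := by
  ext u v
  rw [dG_conn (isOpen_Om hp.smooth m) (fun z hz l => sc_col hp.smooth hz l) hx]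
  have h := ha x u v
  have h' : at2 (a.1.1 : F2 E4 M) x u v = val a x u v := rfl
  rw [h', h]
  set y0 := chartAt E4 x x with hy0
  set V : E4 → Fin N → ℂ := fun y => col (p ((chartAt E4 x).symm y)) m with hV
  have hOe : ∀ᶠ z in 𝓝 x, z ∈ Om p m := (isOpen_Om hp.smooth m).mem_nhds hx
  have hpev : ∀ᶠ y in 𝓝 y0, p ((chartAt E4 x).symm y) = pr (V y) := by
    filter_upwards [ev_chart hOe] with y hy
    exact p_eq hp hy
  have hp0 : p x = pr (V y0) := by
    have := hpev.self_of_nhds
    rwa [hy0, (chartAt E4 x).left_inv (mem_chart_source E4 x)] at this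
  have hdm : ∀ w, dmat p x w = Matrix.of fun i j => fderiv ℝ (fun z => pr (V z) i j) y0 w := by
    intro w
    ext i j
    have h : (fun y : E4 => p ((chartAt E4 x).symm y) i j) =ᶠ[𝓝 y0] fun z => pr (V z) i j := by
      filter_upwards [hpev] with y hy
      rw [hy]
    show fderiv ℝ (fun y : E4 => p ((chartAt E4 x).symm y) i j) (chartAt E4 x x) w = _
    rw [← hy0, h.fderiv_eq]
    rfl
  have hunit : ∀ᶠ z in 𝓝 y0, ∑ i, conj (V z i) * V z i = 1 := by
    filter_upwards [ev_chart hOe] with y hy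
    exact unit_col hp hy
  have hVd : ∀ i, DifferentiableAt ℝ (fun y => V y i) y0 := fun i => (sc_col hp.smooth hx i).diff
  rw [hdm, hdm]
  nth_rewrite 1 [hp0]
  rw [curv_pr hVd hunit]
  rfl

/-- **a line bundle has integral Čech data** -/
theorem exists_cdata_line (hp : IsLine p) {a : Z2 M} (ha : IsChern p a) {n : ℕ} {c : Fin n → M}
    {B : Fin n → Set M} (hB : ∀ i, IsOpen (B i)) (hs : ∀ i, B i ⊆ (chartAt E4 (c i)).source)
    (hconv : ∀ i j, Convex ℝ (chartAt E4 (c i) '' (B i ∩ B j)))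
    (hm : ∀ i, ∃ m, B i ⊆ Om p m) :
    ∃ (A : Fin n → F1 E4 M) (f : Fin n → Fin n → M → ℝ) (k : Fin n → Fin n → Fin n → ℤ),
      CData B (a.1.1 : F2 E4 M) A f (fun i j l => (k i j l : ℝ)) := by
  choose m hm using hm
  set s : Fin n → M → Fin N → ℂ := fun i z => col (p z) (m i) with hsdef
  have hsm : ∀ i, ∀ x ∈ B i, ∀ l, SC (fun z => s i z l) x := fun i x hx l =>
    sc_col hp.smooth (hm i hx) l
  have hun : ∀ i, ∀ x ∈ B i, ∑ l, conj (s i x l) * s i x l = 1 := fun i x hx =>
    unit_col hp (hm i hx)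
  have hpr : ∀ i, ∀ x ∈ B i, p x = pr (s i x) := fun i x hx => p_eq hp (hm i hx)
  have hg : ∀ i j, ∀ x ∈ B i ∩ B j, SC (fun z => ∑ k, conj (s i z k) * s j z k) x :=
    fun i j x hx => SC.sum fun k _ => ((hsm i x hx.1 k).conj).mul (hsm j x hx.2 k)
  choose f hf1 hf2 using fun i j => log_loc (g := fun z => ∑ k, conj (s i z k) * s j z k)
    ((hB i).inter (hB j)) (inter_subset_left.trans (hs i)) (hconv i j) (hg i j)
    (fun x hx => norm_ip (hun i x hx.1) (hun j x hx.2) (by rw [← hpr i x hx.1, ← hpr j x hx.2]))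
  have hdf : ∀ i j, ∀ x, x ∈ B i → x ∈ B j →
      at1 (conn (s i)) x - at1 (conn (s j)) x = at1 (dF (E := E4) (f i j)) x := by
    intro i j x hi hj
    exact conn_sub ((hB i).inter (hB j)) (fun z hz => hsm i z hz.1) (fun z hz => hsm j z hz.2)
      (fun z hz => hun i z hz.1) (fun z hz => hun j z hz.2)
      (fun z hz => by rw [← hpr i z hz.1, ← hpr j z hz.2]) (hf1 i j) (hf2 i j) ⟨hi, hj⟩
  have hint : ∀ i j k, ∀ x ∈ B i ∩ B j ∩ B k, ∃ r : ℤ, f j k x - f i k x + f i j x = r := by
    rintro i j k x ⟨⟨hi, hj⟩, hk⟩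
    have e1 : ex (f i j x + f j k x) = ex (f i k x) := by
      rw [ex_add, hf2 i j x ⟨hi, hj⟩, hf2 j k x ⟨hj, hk⟩, hf2 i k x ⟨hi, hk⟩]
      exact ip_mul_ip (hun j x hj) (by rw [← hpr i x hi, ← hpr j x hj])
    obtain ⟨r, hr⟩ := ex_eq_iff.1 e1
    exact ⟨r, by linarith⟩
  have hc3 : ∀ i j k, ∃ r : ℤ, ∀ x ∈ B i ∩ B j ∩ B k, f j k x - f i k x + f i j x = r := by
    intro i j k
    have hs3 : B i ∩ B j ∩ B k ⊆ (chartAt E4 (c i)).source :=
      (inter_subset_left.trans inter_subset_left).trans (hs i)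
    have e : B i ∩ B j ∩ B k = (B i ∩ B j) ∩ (B i ∩ B k) := by
      ext x; simp only [mem_inter_iff]; tauto
    rcases (B i ∩ B j ∩ B k).eq_empty_or_nonempty with h0 | ⟨x0, hx0⟩
    · exact ⟨0, fun x hx => by rw [h0] at hx; exact hx.elim⟩
    obtain ⟨r, hr⟩ := const_loc (E := E4) (f := fun x => f j k x - f i k x + f i j x)
      (((hB i).inter (hB j)).inter (hB k)) hs3 (by
        rw [e]
        exact convex_image_inter (inter_subset_left.trans (hs i))
          (inter_subset_left.trans (hs i)) (hconv i j) (hconv i k)) (fun x hx =>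
        SmAtF.add ((hf1 j k x ⟨hx.1.2, hx.2⟩).sub (hf1 i k x ⟨hx.1.1, hx.2⟩)) (hf1 i j x hx.1))
      fun x hx => by
        have s1 := hf1 j k x ⟨hx.1.2, hx.2⟩
        have s2 := hf1 i k x ⟨hx.1.1, hx.2⟩
        have s3 := hf1 i j x hx.1
        rw [dF_add_at (s1.sub s2) s3, dF_sub_at s1 s2, ← hdf j k x hx.1.2 hx.2,
          ← hdf i k x hx.1.1 hx.2, ← hdf i j x hx.1.1 hx.1.2]
        abel
    obtain ⟨r', hr'⟩ := hint i j k x0 hx0
    refine ⟨r', fun x hx => ?_⟩
    rw [hr x hx, ← hr x0 hx0, hr']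
  choose k hk using hc3
  exact ⟨fun i => conn (s i), f, k,
    { smA := fun i x hx => smAt1_conn (hB i) (hsm i) hx
      dA := fun i x hx => dG_conn_eq hp ha (hm i hx)
      smf := fun i j x hi hj => hf1 i j x ⟨hi, hj⟩
      df := hdf
      coc := fun i j l x hi hj hl => hk i j l x ⟨⟨hi, hj⟩, hl⟩ }⟩

end line

end

end Crest.Agent.R235.Lb453
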