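import Mathlib
import Crest.Agent.R235.OAD_470
import Crest.Agent.R275.EOF_627
import Crest.Agent.R275.KZig_106
import Crest.Agent.R235.HZLat_524
import Crest.Agent.R235.LbH_453
import Crest.Agent.R235.Cup1_524

-- ▼ part R235/EvR_470
section

/-!
Row 235 (S0364), package HZ (helper470): the orientation functional of a closed oriented
four-manifold on Alexander-Spanier cochains, with the label formula in terms of `Int.I`.
-/

set_option autoImplicit false
set_option maxSynthPendingDepth 3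

open Set Function Filter MeasureTheory
open scoped Manifold ContDiff Topology

namespace Crest.Agent.R235

open Crest.Agent.R240 Crest.Agent.R240.Ch Crest.Agent.R240.Int
open Crest.Agent.R275 Crest.Agent.R275.StkR627 Crest.Agent.R275.OAt627 Crest.Agent.R275.OAJ627

noncomputable section

/-- a real chart as a complex chart. -/
def toC2 {M : Type*} [TopologicalSpace M] (e : Ch 4 M) :
    OpenPartialHomeomorph M (EuclideanSpace ℂ (Fin 2)) :=
  e.transHomeomorph OAG627.rl.symm.toHomeomorph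


theorem rch_toC2 {M : Type*} [TopologicalSpace M] (e : Ch 4 M) : OAG627.rch (toC2 e) = e := by
  refine OpenPartialHomeomorph.ext _ _ (fun x => ?_) (fun y => ?_) rfl
  · show OAG627.rl (OAG627.rl.symm (e x)) = e x
    rw [ContinuousLinearEquiv.apply_symm_apply]
  · show e.symm (OAG627.rl (OAG627.rl.symm y)) = e.symm y
    rw [ContinuousLinearEquiv.apply_symm_apply]

variable {M : Type} [TopologicalSpace M] [T2Space M] [CompactSpace M]
  [ChartedSpace E4 M] [IsManifold 𝓘(ℝ, E4) ∞ M]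

/-- the weight `∫ ψ_{t₀} dψ_{t₁} ∧ dψ_{t₂} ∧ dψ_{t₃} ∧ dψ_{t₄}`. -/
def RGC.wt (G : RGC M) (F : F2 E4 M) (t : Fin 5 → Fin G.n) : ℝ :=
  letI : MeasurableSpace M := borel M
  haveI : BorelSpace M := ⟨rfl⟩
  Int.I F (fmul (G.ψ (t 0)) (wedG (dF (G.ψ (t 1))) (dF (G.ψ (t 2)))))
    (wedG (dF (G.ψ (t 3))) (dF (G.ψ (t 4))))

/-- **the orientation functional**. -/
theorem RGC.exists_functional (G : RGC M) {F : F2 E4 M} (hF : Vol F) :
    ∃ E : (List M → ℤ) → ℝ, Zig470.Ev 3 E ∧
      (∀ i p, p ∈ G.C i → ∃ V ∈ 𝓝 p, closure V ⊆ (toC2 (G.ch F i)).source ∧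
        E (PD412.tauP (toC2 (G.ch F i)) p V) = 1) ∧
      ∀ lab : M → Fin G.n, ASConv293.Lab G.B lab → ∀ C : List (Fin G.n) → ℤ,
        (∀ l : List (Fin G.n), l.length = 6 → (∃ x, ∀ v ∈ l, x ∈ G.B v) → ASZ627.dl C l = 0) →
        E (fun l => C (l.map lab)) =
          ∑ t : Fin 5 → Fin G.n, (C [t 0, t 1, t 2, t 3, t 4] : ℝ) * G.wt F t := by
  classical
  letI : MeasurableSpace M := borel M
  haveI : BorelSpace M := ⟨rfl⟩
  haveI : LocallyCompactSpace M := ChartedSpace.locallyCompactSpace E4 M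
  haveI : SecondCountableTopology M := ChartedSpace.secondCountable_of_sigmaCompact E4 M
  haveI : TopologicalSpace.MetrizableSpace M := inferInstance
  let _ : MetricSpace M := TopologicalSpace.metrizableSpaceMetric M
  refine ⟨EOr627.EZ (EOG627.jd (G.OAt hF)), ⟨?_, ?_, ?_⟩, ?_, ?_⟩
  · intro φ ψ h1 h2 h3 h4
    exact EOr627.EZ_add h1 h3 h2 h4
  · intro φ ψ h
    exact EOr627.EZ_congr h
  · intro ψ h
    exact EOr627.EZ_dl h
  · intro i p hp
    have hp' : p ∈ (G.ch F i).source := by rw [G.ch_source]; exact hp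
    obtain ⟨V, hV, hVs, hVc⟩ := local_compact_nhds ((G.ch F i).open_source.mem_nhds hp')
    refine ⟨V, hV, ?_, ?_⟩
    · rw [hVc.isClosed.closure_eq]; exact hVs
    · have h1 := EOF627.tauP_eq (toC2 (G.ch F i)) p V
      rw [rch_toC2] at h1
      exact EOF627.E_TL (A := G.OAt hF) (e := G.ch F i) ((G.OAt hF).ok_e i) hp' hV hVc hVs
        fun l hl => h1 l hl
  · intro lab hlab C hC
    have hrob : ∀ x, ∀ᶠ y in 𝓝 x, x ∈ G.B (lab y) := by
      intro x
      obtain ⟨F', h1, h2⟩ := hlab x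
      filter_upwards [h2] with y hy
      exact h1 _ hy
    have key := EOr627.EZ_label (G := EOG627.jd (G.OAt hF)) (U := G.B) hrob
      (ψ := fun v => G.ψF hF v) (fun v => G.supp v) (locallyFinite_of_finite _)
      (fun x => by rw [finsum_eq_sum_of_fintype]; exact G.sum x) C hC Finset.univ
      (fun _ _ _ _ _ _ => Finset.mem_univ _) (fun v _ => ⟨univ, isCompact_univ, subset_univ _⟩)
    rw [key]
    let ee : (Fin 5 → (Finset.univ : Finset (Fin G.n))) ≃ (Fin 5 → Fin G.n) :=
      Equiv.arrowCongr (Equiv.refl _) (Equiv.subtypeUnivEquiv fun x => Finset.mem_univ x)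
    refine Fintype.sum_equiv ee _ _ fun v => ?_
    have e1 : List.ofFn (fun i => (v i : Fin G.n)) =
        [ee v 0, ee v 1, ee v 2, ee v 3, ee v 4] := by
      simp only [List.ofFn_succ, List.ofFn_zero]
      rfl
    rw [e1]
    congr 1
    have h1 := G.Jf_eq hF (f := fun k => G.ψ (ee v k)) (fun k => G.smooth _)
    exact h1

end

end Crest.Agent.R235
end

-- ▼ part R235/UniAbs_692
section

/-!
Row 235 (S0364), package HZ, leaf UNI-ABS (helper692; exact statement helper470 #1682): port of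
R275 (PDB_412, KAsm_106, KZig_106) from a complex atlas to a bare good cover.

`GoodU U e` : `U` an open cover, `U i ⊆ (e i).source`, `e i '' (U i ∩ U j)` convex.
For an evaluation functional `E` on closed Alexander-Spanier 4-cochains, normalised by the point
classes: `E` is integral, `IZ` (= `E` of the cup product) is an integral form on the 2-cocycles of
the nerve, additive, invariant under coboundaries, and unimodular (`IZ_dual`).
-/

set_option autoImplicit false
set_option linter.unusedSectionVars false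

open Set Filter Topology

namespace Crest.Agent.R235.UniAbs_692

open Crest.Agent.R275 Crest.Agent.R275.TopK106 Crest.Agent.R275.ASConv293
  Crest.Agent.R275.LnkCup692 Crest.Agent.R275.Zig470 Crest.Agent.R275.PD412
  Crest.Agent.R275.PDA412 Crest.Agent.R275.PDM412 Crest.Agent.R275.PDB412

noncomputable section

variable {M : Type*} [TopologicalSpace M] {ι : Type*}

/-- a good cover, with charts to `C2` -/
structure GoodU (U : ι → Set M) (e : ι → OpenPartialHomeomorph M C2) : Prop where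
  op : ∀ i, IsOpen (U i)
  cov : ∀ x, ∃ i, x ∈ U i
  sub : ∀ i, U i ⊆ (e i).source
  conv : ∀ i j, Convex ℝ (e i '' (U i ∩ U j))

/-- normalisation of a functional at all points -/
def NrmU (U : ι → Set M) (e : ι → OpenPartialHomeomorph M C2) (E : (List M → ℤ) → ℝ) : Prop :=
  ∀ i p, p ∈ U i → ∃ V ∈ 𝓝 p, closure V ⊆ (e i).source ∧ E (tauP (e i) p V) = 1

/-- intersection over a set of indices -/
def inU (U : ι → Set M) (s : Set ι) : Set M := {x | ∀ i ∈ s, x ∈ U i}

variable {U : ι → Set M} {e : ι → OpenPartialHomeomorph M C2}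

namespace GoodU

theorem isOpen_inU (h : GoodU U e) {s : Set ι} (hs : s.Finite) : IsOpen (inU U s) := by
  have : inU U s = ⋂ j ∈ s, U j := by ext x; simp [inU]
  rw [this]
  exact hs.isOpen_biInter fun j _ => h.op j

theorem image_inU (h : GoodU U e) {s : Set ι} {i : ι} (hi : i ∈ s) :
    e i '' inU U s = ⋂ j ∈ s, e i '' (U i ∩ U j) := by
  ext y
  simp only [mem_image, mem_iInter]
  constructor
  · rintro ⟨x, hx, rfl⟩ j hj
    exact ⟨x, ⟨hx i hi, hx j hj⟩, rfl⟩
  · intro hy
    obtain ⟨x, hx, rfl⟩ := hy i hi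
    refine ⟨x, fun j hj => ?_, rfl⟩
    obtain ⟨x', hx', hxx⟩ := hy j hj
    have h1 : x' = x := (e i).injOn (h.sub i hx'.1) (h.sub i hx.1) hxx
    rw [← h1]
    exact hx'.2

theorem convex_inU (h : GoodU U e) {s : Set ι} {i : ι} (hi : i ∈ s) :
    Convex ℝ (e i '' inU U s) := by
  rw [h.image_inU hi]
  exact convex_iInter₂ fun j _ => h.conv i j

theorem inU_sub (h : GoodU U e) {s : Set ι} {i : ι} (hi : i ∈ s) : inU U s ⊆ (e i).source :=
  fun _ hx => h.sub i (hx i hi)

theorem preconn (h : GoodU U e) {s : Set ι} {i : ι} (hi : i ∈ s) : IsPreconnected (inU U s) := by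
  have h1 : IsPreconnected (e i '' inU U s) := (h.convex_inU hi).isPreconnected
  have h2 : (e i).symm '' (e i '' inU U s) = inU U s := by
    rw [image_image]
    refine (image_congr fun x hx => ?_).trans (image_id _)
    exact (e i).left_inv (h.inU_sub hi hx)
  rw [← h2]
  refine h1.image _ ((e i).continuousOn_symm.mono ?_)
  rintro _ ⟨x, hx, rfl⟩
  exact (e i).map_source (h.inU_sub hi hx)

theorem as_inU (h : GoodU U e) {R : Type} [AddCommGroup R] {s : Set ι} (hs : s.Finite) {i : ι}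
    (hi : i ∈ s) : AS1 R (inU U s) ∧ AS2 R (inU U s) :=
  as_of_chart (e i) (h.isOpen_inU hs) (h.inU_sub hi) (h.convex_inU hi)

theorem as2 (h : GoodU U e) {R : Type} [AddCommGroup R] (i : ι) : AS2 R (U i) := by
  have h1 := (h.as_inU (R := R) (s := {i}) (by simp) (i := i) (by simp)).2
  have h2 : inU U {i} = U i := by ext x; simp [inU]
  rwa [h2] at h1


theorem as1' (h : GoodU U e) {R : Type} [AddCommGroup R] (i j : ι) : AS1 R (U i ∩ U j) := by
  have h1 := (h.as_inU (R := R) (s := {i, j}) (by simp) (i := i) (by simp)).1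
  have h2 : inU U {i, j} = U i ∩ U j := by ext x; simp [inU]
  rwa [h2] at h1


theorem pre3 (h : GoodU U e) (i j k : ι) : IsPreconnected (U i ∩ U j ∩ U k) := by
  have h1 := h.preconn (s := {i, j, k}) (i := i) (by simp)
  have h2 : inU U {i, j, k} = U i ∩ U j ∩ U k := by
    ext x
    simp only [inU, mem_ofPred_eq, mem_insert_iff, mem_singleton_iff, forall_eq_or_imp, forall_eq,
      mem_inter_iff]
    tauto
  rwa [h2] at h1

/-! ### local duality and integrality -/

variable [T2Space M] [LocallyCompactSpace M]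

theorem exists_locOn (h : GoodU U e) {E : (List M → ℤ) → ℝ} (hN : NrmU U e E) {s : Set ι}
    (hs : s.Finite) (hs0 : s.Nonempty) (hne : (inU U s).Nonempty) :
    ∃ T, LocOn 4 (inU U s) T ∧ E T = 1 := by
  obtain ⟨i, hi⟩ := hs0
  obtain ⟨p, hp⟩ := hne
  obtain ⟨V, hV, hVe, h1⟩ := hN i p (hp i hi)
  exact ⟨_, locOn_tauP (h.isOpen_inU hs) (h.inU_sub hi) (h.convex_inU hi) hp hV hVe, h1⟩

/-- input of 470's zigzag -/
theorem locW (h : GoodU U e) {E : (List M → ℤ) → ℝ} (hE : Ev 3 E) (hN : NrmU U e E)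
    (J : List ι) (hJ : J ≠ []) (hn : Nv U J) : LocW 3 E (UJ U J) := by
  have e1 : UJ U J = inU U {i | i ∈ J} := rfl
  have hfin : ({i | i ∈ J} : Set ι).Finite := J.finite_toSet
  have hne : ({i | i ∈ J} : Set ι).Nonempty := by
    obtain ⟨i, hi⟩ := List.exists_mem_of_ne_nil J hJ
    exact ⟨i, hi⟩
  unfold Nv at hn
  rw [e1] at hn ⊢
  obtain ⟨T, hT, hT1⟩ := h.exists_locOn hN hfin hne hn
  exact locW_of_locOn hE hT hT1

/-- **integrality** on closed `4`-cochains with compact support -/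
theorem integral (h : GoodU U e) {E : (List M → ℤ) → ℝ} (hE : Ev 3 E) (hN : NrmU U e E)
    {f : List M → ℤ} (hf : ASN627.Cl 4 f) (hK : IsCompact (ASN627.supp 4 f)) :
    ∃ m : ℤ, E f = m := by
  refine PDM412.integral (G := {W | ∃ s : Set ι, s.Finite ∧ s.Nonempty ∧ W = inU U s})
    (efun_of_ev hE) (fun f g h _ => hE.congr f g (eqN_iff.2 h)) ?_ ?_ ?_ ?_
    (zc_iff.2 ⟨hf, hK, subset_univ _⟩)
  · rintro _ ⟨s, hs, -, rfl⟩
    exact h.isOpen_inU hs
  · rintro _ ⟨s, hs, hs0, rfl⟩ _ ⟨t, ht, -, rfl⟩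
    refine ⟨s ∪ t, hs.union ht, hs0.mono subset_union_left, ?_⟩
    ext x
    simp only [inU, mem_inter_iff, mem_ofPred_eq, mem_union]
    exact ⟨fun h i hi => hi.elim (h.1 i) (h.2 i), fun h => ⟨fun i hi => h i (Or.inl hi),
      fun i hi => h i (Or.inr hi)⟩⟩
  · rintro _ ⟨s, hs, hs0, rfl⟩ hne
    exact h.exists_locOn hN hs hs0 hne
  · intro x
    obtain ⟨i, hi⟩ := h.cov x
    refine ⟨_, ⟨{i}, finite_singleton i, singleton_nonempty i, rfl⟩, ?_⟩
    rintro j rfl
    exact hi

end GoodU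

/-! ### the form -/

section form

variable {R : Type*} [AddCommGroup R] (O : OrE M R) {lab : M → ι}

/-- label pull-back of a nerve cochain -/
def lpU (lab : M → ι) (c : ι → ι → ι → ℤ) : List M → ℤ := fun l => of2 c (l.map lab)


/-- the intersection form on the cocycles of the nerve -/
def Ifm (lab : M → ι) (c c' : ι → ι → ι → ℤ) : R :=
  O.E (ASZ627.cup 2 (lpU lab c) (lpU lab c'))

theorem cl_lpU (hU : ∀ i, IsOpen (U i)) (hlab : Lab U lab) {c : ι → ι → ι → ℤ} (hc : IsZ2 U c) :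
    LnkCup692.Cl 3 (lpU lab c) := by
  intro p
  exact cl_label2 hU hlab hc p







end form

section dual

variable [CompactSpace M] [T2Space M] {E : (List M → ℤ) → ℝ} {lab : M → ι}

theorem rob_of_lab (h : Lab U lab) : Rob U lab := by
  intro x
  obtain ⟨F, h1, h2⟩ := h x
  exact h2.mono fun y hy => h1 _ hy

/-- **(1) integrality** -/
theorem integral' (h : GoodU U e) (D : Ev 3 E) (hN : NrmU U e E) :
    ∀ f, ASN627.Cl 4 f → ∃ m : ℤ, E f = m := fun _ hf =>
  h.integral D hN hf (ASN627.isClosed_supp _ _).isCompact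

/-- the integral orientation functional -/
def orU (h : GoodU U e) (D : Ev 3 E) (hN : NrmU U e E) : OrE M ℤ :=
  KZig106.orZ D (integral' h D hN)

/-- **(2)** the integral intersection form on the cocycles of the nerve -/
def IZ (h : GoodU U e) (D : Ev 3 E) (hN : NrmU U e E) (lab : M → ι)
    (c c' : ι → ι → ι → ℤ) : ℤ :=
  Ifm (orU h D hN) lab c c'

variable (h : GoodU U e) (D : Ev 3 E) (hN : NrmU U e E) (hlab : Lab U lab)

include hlab

theorem cl_cup (h : GoodU U e) {c c' : ι → ι → ι → ℤ} (hc : IsZ2 U c) (hc' : IsZ2 U c') :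
    ASN627.Cl 4 (ASZ627.cup 2 (lpU lab c) (lpU lab c')) :=
  LnkCup692.Cl.cup (p := 2) (q := 2) (cl_lpU h.op hlab hc) (cl_lpU h.op hlab hc')

theorem IZ_cast {c c' : ι → ι → ι → ℤ} (hc : IsZ2 U c) (hc' : IsZ2 U c') :
    ((IZ h D hN lab c c' : ℤ) : ℝ) = E (ASZ627.cup 2 (lpU lab c) (lpU lab c')) :=
  KZig106.orZ_cast D (integral' h D hN) (cl_cup hlab h hc hc')





/-- **(3) unimodularity** -/
theorem IZ_dual [Finite ι] (φ : TopK106.Z2 U →+ ℤ)
    (hφ : ∀ x : TopK106.Z2 U, IsB2 U x.1 → φ x = 0) :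
    ∃ c, IsZ2 U c ∧ ∀ x : TopK106.Z2 U, IZ h D hN lab x.1 c = φ x := by
  obtain ⟨z, hz1, hz2, hz3⟩ := exists_cycle_of_hom φ hφ
  obtain ⟨η, h1, -, -, h4⟩ := KZig106.exists_dual2 (U := U) (rob_of_lab hlab) D
    (h.locW D hN) z (fun σ hσ => hz1 σ (Finsupp.mem_support_iff.2 hσ)) (fun b => by
      have := ev2_d1 b z
      rw [hz2] at this
      simpa [ev2, d1] using this)
  obtain ⟨c, β, hc, -, hβ, -⟩ := as_to_nerve2 h.op (fun i => h.as2 i) (fun i j => h.as1' i j)
    (fun i j k => h.pre3 i j k) hlab h1 univ (fun v hv => absurd (mem_univ v) hv)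
  have hcZ : IsZ2 U c := hc
  refine ⟨c, hcZ, fun x => ?_⟩
  have hη' : LnkCup692.Cl 3 η := fun p => h1 p
  have hx : LnkCup692.Cl 3 (lpU lab x.1) := cl_lpU h.op hlab x.2
  have hcl : ASN627.Cl 4 (ASZ627.cup 2 (lpU lab x.1) η) :=
    LnkCup692.Cl.cup (p := 2) (q := 2) hx hη'
  have e1 := KZig106.orZ_cast D (integral' h D hN) hcl
  have e0 : E (ASZ627.cup 2 (lpU lab x.1) η) =
      ((z.sum fun σ a => a * x.1 σ.1 σ.2.1 σ.2.2 : ℤ) : ℝ) := h4 x.1 x.2
  rw [e0] at e1
  have e2 : (orU h D hN).E (ASZ627.cup 2 (lpU lab x.1) η) = φ x := by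
    have e3 : (orU h D hN).E (ASZ627.cup 2 (lpU lab x.1) η) =
        z.sum fun σ a => a * x.1 σ.1 σ.2.1 σ.2.2 := by exact_mod_cast e1
    rw [e3, ← hz3 x]
    rfl
  rw [← e2]
  unfold IZ Ifm
  refine ((orU h D hN).cup_congr hx hx hη' (N := fun _ => 0) (N' := of1 β) (fun p => ?_)
    (fun p => ?_)).symm
  · refine ⟨univ, univ_mem, fun l _ _ => ?_⟩
    beta_reduce
    rw [sub_self, ASZ627.dl_zero]
  · obtain ⟨W, hW, hh⟩ := hβ p
    refine ⟨W, hW, fun l hl hlen => ?_⟩
    have h2 := hh l hl hlen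
    beta_reduce at h2 ⊢
    rw [h2]
    unfold lpU
    ring

end dual

/-! ### robust labels -/

/-- robust labels from a finite family of functions with supports in the sets -/
theorem exists_lab [Finite ι] {ψ : ι → M → ℝ} (hs : ∀ i, tsupport (ψ i) ⊆ U i)
    (h1 : ∀ x, ∃ i, ψ i x ≠ 0) : ∃ lab : M → ι, Lab U lab ∧ ∀ x, ψ (lab x) x ≠ 0 := by
  classical
  have := Fintype.ofFinite ι
  choose lab hlab using h1
  refine ⟨lab, fun p => ?_, hlab⟩
  refine ⟨Finset.univ.filter fun i => p ∈ tsupport (ψ i), fun v hv => ?_, ?_⟩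
  · exact hs v (Finset.mem_filter.1 hv).2
  · have h3 : ∀ᶠ y in 𝓝 p, ∀ i ∈ (Finset.univ : Finset ι), p ∉ tsupport (ψ i) → ψ i y = 0 := by
      rw [Filter.eventually_all_finset]
      intro i _
      by_cases hi : p ∈ tsupport (ψ i)
      · exact Eventually.of_forall fun y h => absurd hi h
      · exact (notMem_tsupport_iff_eventuallyEq.1 hi).mono fun y hy _ => hy
    filter_upwards [h3] with y hy'
    rw [Finset.mem_filter]
    refine ⟨Finset.mem_univ _, ?_⟩
    by_contra h
    exact hlab y (hy' _ (Finset.mem_univ _) h)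

end

end Crest.Agent.R235.UniAbs_692
end

-- ▼ part R235/UniF_470
section

/-!
Row 235 (S0364), package HZ (helper470): the wedge pairing of integral Čech classes is integral and
unimodular on the nerve of every good cover (`uniall`).
-/

set_option autoImplicit false
set_option maxSynthPendingDepth 3

open Set Function Filter MeasureTheory
open scoped Manifold ContDiff Topology

namespace Crest.Agent.R235.UniF_470

open Crest.Agent.R240 Crest.Agent.R240.Ch
open Crest.Agent.R275 Crest.Agent.R275.TopK106 Crest.Agent.R275.ASConv293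
open UniAbs_692 HZLat_524 Tau_692

noncomputable section

/-! ### sums -/

theorem sum_cons {ι : Type*} [Fintype ι] {n : ℕ} (g : (Fin (n + 1) → ι) → ℝ) :
    ∑ t, g t = ∑ i, ∑ t : Fin n → ι, g (Fin.cons i t) := by
  rw [← Fintype.sum_prod_type']
  exact (Fintype.sum_equiv (Fin.consEquiv fun _ => ι) _ _ fun _ => rfl).symm

theorem sum5 {ι : Type*} [Fintype ι] (f : ι → ι → ι → ι → ι → ℝ) :
    ∑ t : Fin 5 → ι, f (t 0) (t 1) (t 2) (t 3) (t 4) =
      ∑ i, ∑ j, ∑ k, ∑ l, ∑ m, f i j k l m := by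
  rw [sum_cons]
  refine Finset.sum_congr rfl fun i _ => ?_
  rw [sum_cons]
  refine Finset.sum_congr rfl fun j _ => ?_
  rw [sum_cons]
  refine Finset.sum_congr rfl fun k _ => ?_
  rw [sum_cons]
  refine Finset.sum_congr rfl fun l _ => ?_
  rw [sum_cons]
  refine Finset.sum_congr rfl fun m _ => ?_
  rw [Fintype.sum_unique]
  rfl

/-! ### the cup product cochain -/

/-- the cup product on the nerve. -/
def cp {ι : Type*} (x y : ι → ι → ι → ℤ) : List ι → ℤ := ASZ627.cup 2 (of2 x) (of2 y)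

theorem cp_five {ι : Type*} (x y : ι → ι → ι → ℤ) (a b c d e : ι) :
    cp x y [a, b, c, d, e] = x a b c * y c d e := rfl

theorem dl_cp {M ι : Type*} {U : ι → Set M} {x y : ι → ι → ι → ℤ} (hx : IsZ2 U x)
    (hy : IsZ2 U y) (l : List ι) (hl : l.length = 6) (h : ∃ p, ∀ v ∈ l, p ∈ U v) :
    ASZ627.dl (cp x y) l = 0 := by
  obtain ⟨a, b, c, d, e, f, rfl⟩ : ∃ a b c d e f, l = [a, b, c, d, e, f] := by
    match l, hl with
    | [a, b, c, d, e, f], _ => exact ⟨a, b, c, d, e, f, rfl⟩
  obtain ⟨p, hp⟩ := h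
  have ha := hp a (by simp)
  have hb := hp b (by simp)
  have hc := hp c (by simp)
  have hd := hp d (by simp)
  have he := hp e (by simp)
  have hf := hp f (by simp)
  have h1 := hx a b c d ⟨p, ⟨⟨ha, hb⟩, hc⟩, hd⟩
  have h2 := hy c d e f ⟨p, ⟨⟨hc, hd⟩, he⟩, hf⟩
  simp only [ASZ627.dl_cons, ASZ627.dl_nil, cp_five]
  linear_combination (y d e f) * h1 + (x a b c) * h2

theorem cup_lpU {M ι : Type*} (lab : M → ι) (x y : ι → ι → ι → ℤ) :
    ASZ627.cup 2 (lpU lab x) (lpU lab y) = fun l => cp x y (l.map lab) := by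
  funext l
  show of2 x ((l.take 3).map lab) * of2 y ((l.drop 2).map lab) =
    of2 x ((l.map lab).take 3) * of2 y ((l.map lab).drop 2)
  rw [List.map_take, List.map_drop]

/-! ### the good cover with complex charts -/

variable {M : Type} [TopologicalSpace M] [T2Space M] [CompactSpace M]
  [ChartedSpace E4 M] [IsManifold 𝓘(ℝ, E4) ∞ M]

omit [T2Space M] [CompactSpace M] in
theorem goodU (G : RGC M) (F : F2 E4 M) : GoodU G.B fun i => toC2 (G.ch F i) := by
  refine ⟨G.isOpen, G.cover, fun i => ?_, fun i j => ?_⟩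
  · show G.B i ⊆ (G.ch F i).source
    rw [G.ch_source]
    exact subset_closure.trans (G.clos i)
  · have h1 : (fun x => toC2 (G.ch F i) x) '' (G.B i ∩ G.B j) =
        (fun y => OAG627.rl.symm (Ls (G.so F i) (G.so_mul_self i) y)) ''
          (chartAt E4 (G.p i) '' (G.B i ∩ G.B j)) := by
      rw [image_image]
      rfl
    show Convex ℝ ((fun x => toC2 (G.ch F i) x) '' (G.B i ∩ G.B j))
    rw [h1]
    exact (G.conv i j).is_linear_image
      ⟨fun a b => by rw [map_add, map_add], fun c a => by rw [map_smul, map_smul]⟩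

/-- **integrality and unimodularity**. -/
theorem uni (F : Ch.Z2 M) (hF : ∀ x, W (val F x) (val F x) ≠ 0) (G : RGC M) : UNI F G := by
  classical
  have hV := R235.vol_of_ne hF
  obtain ⟨E, D, hN, hlabel⟩ := G.exists_functional hV
  have hU := goodU G (F.1.1 : F2 E4 M)
  have hNU : NrmU G.B (fun i => toC2 (G.ch (F.1.1 : F2 E4 M) i)) E := fun i p hp =>
    hN i p (G.clos i (subset_closure hp))
  obtain ⟨lab, hlab, -⟩ := exists_lab (U := G.B) (ψ := G.ψ) G.supp fun x => by
    by_contra h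
    push Not at h
    have := G.sum x
    simp [h] at this
  have key : ∀ x y : TopK106.Z2 G.B,
      ((IZ hU D hNU lab x.1 y.1 : ℤ) : ℝ) = pI F (tz G x) (tz G y) := by
    intro x y
    rw [IZ_cast hU D hNU hlab x.2 y.2, cup_lpU,
      hlabel lab hlab (cp x.1 y.1) (dl_cp x.2 y.2)]
    letI : MeasurableSpace M := borel M
    haveI : BorelSpace M := ⟨rfl⟩
    have h1 := I_tau (pun G) hV (fun i j k => (x.1 i j k : ℝ)) (coc_of_isZ2 y.2)
    have h2 : pI F (tz G x) (tz G y) = Int.I (F.1.1 : F2 E4 M)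
        (tau (E := E4) G.ψ (fun i j k => (x.1 i j k : ℝ)))
        (tau (E := E4) G.ψ (fun i j k => (y.1 i j k : ℝ))) := rfl
    rw [h2, h1, ← sum5 fun i j k l m => (x.1 i j k : ℝ) * (y.1 k l m : ℝ) *
      Int.I (F.1.1 : F2 E4 M) (fmul (G.ψ i) (dd2 (E := E4) G.ψ j k)) (dd2 (E := E4) G.ψ l m)]
    refine Finset.sum_congr rfl fun t _ => ?_
    rw [cp_five]
    push_cast
    rfl
  constructor
  · intro x y
    exact ⟨_, (key x y).symm⟩
  · intro φ hφ
    obtain ⟨c, hc, hcx⟩ := IZ_dual hU D hNU hlab φ hφ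
    refine ⟨⟨c, hc⟩, fun x => ?_⟩
    rw [← key, hcx]

/-- **UNIALL** in universe 0. -/
theorem uniall : UNIALL.{0} := fun _ _ _ _ _ _ F hF G => uni F hF G

end

end Crest.Agent.R235.UniF_470
end

-- ▼ part R235/HZFin_524

/-!
Row 235 (S0364), block HZ (helper524): THE OUTPUT `HZLAT.{0}` is a theorem
(UNI: helper470, helper692; Chern classes: helper453; lattice: helper524, 785, 311).
-/

set_option autoImplicit false
set_option maxSynthPendingDepth 3

open Set Function Filter
open scoped Manifold ContDiff Topology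

namespace Crest.Agent.R235.HZFin_524

open Crest.Agent.R240 Crest.Agent.R240.Ch HZLat_524

/-- **OUTPUT OF THE BLOCK HZ**. -/
theorem hzlat : HZLAT.{0} := Lb453.hzlat_of_uniall UniF_470.uniall



end Crest.Agent.R235.HZFin_524
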