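import Crest.Agent.R235.RSBas_538
import Mathlib

-- ▼ part R235/RSDb_538
section

/-!
Row 235, package RS (helper538): Wirtinger calculus in the plane.
-/

set_option autoImplicit false

open Set Filter Topology Function Metric MeasureTheory

namespace Crest.Agent.R235.RS

noncomputable section

open Complex (I)

/-- `∂F/∂z̄` -/
def db (F : ℂ → ℂ) (z : ℂ) : ℂ := (fderiv ℝ F z 1 + I * fderiv ℝ F z I) / 2

/-- `∂F/∂z` -/
def dz (F : ℂ → ℂ) (z : ℂ) : ℂ := (fderiv ℝ F z 1 - I * fderiv ℝ F z I) / 2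

theorem db_eq_zero_iff {F : ℂ → ℂ} {z : ℂ} (h : DifferentiableAt ℝ F z) :
    db F z = 0 ↔ DifferentiableAt ℂ F z := by
  rw [differentiableAt_complex_iff_differentiableAt_real, and_iff_right h]
  unfold db
  rw [div_eq_zero_iff, or_iff_left (two_ne_zero), smul_eq_mul]
  constructor
  · intro h1
    linear_combination -I * h1 + (fderiv ℝ F z) I * Complex.I_mul_I
  · intro h1
    rw [h1]
    linear_combination (fderiv ℝ F z) 1 * Complex.I_mul_I

theorem db_congr {F G : ℂ → ℂ} {z : ℂ} (h : F =ᶠ[𝓝 z] G) : db F z = db G z := by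
  unfold db; rw [h.fderiv_eq]

theorem dz_congr {F G : ℂ → ℂ} {z : ℂ} (h : F =ᶠ[𝓝 z] G) : dz F z = dz G z := by
  unfold dz; rw [h.fderiv_eq]

theorem db_sub {F G : ℂ → ℂ} {z : ℂ} (hF : DifferentiableAt ℝ F z) (hG : DifferentiableAt ℝ G z) :
    db (fun w => F w - G w) z = db F z - db G z := by
  unfold db
  rw [fderiv_fun_sub hF hG]
  simp only [sub_apply]
  ring

theorem dz_sub {F G : ℂ → ℂ} {z : ℂ} (hF : DifferentiableAt ℝ F z) (hG : DifferentiableAt ℝ G z) :
    dz (fun w => F w - G w) z = dz F z - dz G z := by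
  unfold dz
  rw [fderiv_fun_sub hF hG]
  simp only [sub_apply]
  ring

/-- the real derivative of a holomorphic function -/
theorem fderiv_hol {T : ℂ → ℂ} {z : ℂ} (h : DifferentiableAt ℂ T z) (v : ℂ) :
    fderiv ℝ T z v = v * deriv T z := by
  have h1 : HasFDerivAt T ((ContinuousLinearMap.toSpanSingleton ℂ (deriv T z)).restrictScalars ℝ)
      z := (h.hasDerivAt.hasFDerivAt).restrictScalars ℝ
  rw [h1.fderiv]
  simp

/-- chain rule for `∂̄` -/
theorem db_comp {F T : ℂ → ℂ} {z : ℂ} (hF : DifferentiableAt ℝ F (T z))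
    (hT : DifferentiableAt ℂ T z) :
    db (fun w => F (T w)) z = db F (T z) * (starRingEnd ℂ) (deriv T z) := by
  have h1 : fderiv ℝ (fun w => F (T w)) z = (fderiv ℝ F (T z)).comp (fderiv ℝ T z) :=
    fderiv_comp (g := F) z hF (hT.restrictScalars ℝ)
  have h2 : ∀ v, fderiv ℝ (fun w => F (T w)) z v = fderiv ℝ F (T z) (v * deriv T z) := by
    intro v
    rw [h1, ContinuousLinearMap.comp_apply, fderiv_hol hT]
  have h3 : ∀ w : ℂ, fderiv ℝ F (T z) w =
      w.re * fderiv ℝ F (T z) 1 + w.im * fderiv ℝ F (T z) I := by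
    intro w
    have : w = w.re • (1 : ℂ) + w.im • I := by
      rw [Complex.real_smul, Complex.real_smul, mul_one]
      exact (Complex.re_add_im w).symm
    conv_lhs => rw [this]
    rw [map_add, map_smul, map_smul, Complex.real_smul, Complex.real_smul]
  unfold db
  rw [h2, h2, h3 (1 * _), h3 (I * _)]
  apply Complex.ext <;> simp <;> ring

/-- the conjugate of an antiholomorphic function -/
theorem diff_conj {F : ℂ → ℂ} {z : ℂ} (h : DifferentiableAt ℝ F z) (h0 : dz F z = 0) :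
    DifferentiableAt ℂ (fun w => (starRingEnd ℂ) (F w)) z := by
  have hd : HasFDerivAt (fun w => (starRingEnd ℂ) (F w))
      ((Complex.conjCLE : ℂ →L[ℝ] ℂ).comp (fderiv ℝ F z)) z :=
    (Complex.conjCLE : ℂ →L[ℝ] ℂ).hasFDerivAt.comp z h.hasFDerivAt
  rw [differentiableAt_complex_iff_differentiableAt_real]
  refine ⟨hd.differentiableAt, ?_⟩
  rw [hd.fderiv]
  have h1 : fderiv ℝ F z 1 = I * fderiv ℝ F z I := by
    unfold dz at h0
    rw [div_eq_zero_iff, or_iff_left (two_ne_zero), sub_eq_zero] at h0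
    exact h0
  simp only [ContinuousLinearMap.comp_apply, h1]
  apply Complex.ext <;> simp

/-- the complex Laplacian -/
def lapX (F : ℂ → ℂ) (z : ℂ) : ℂ :=
  iteratedFDeriv ℝ 2 F z ![1, 1] + iteratedFDeriv ℝ 2 F z ![I, I]

theorem fderiv_db {F : ℂ → ℂ} {z : ℂ} (hF : ContDiffAt ℝ 2 F z) :
    HasFDerivAt (db F) ((1 / 2 : ℂ) • ((ContinuousLinearMap.apply ℝ ℂ (1 : ℂ)).comp
      (fderiv ℝ (fderiv ℝ F) z) + I • (ContinuousLinearMap.apply ℝ ℂ I).comp
      (fderiv ℝ (fderiv ℝ F) z))) z := by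
  have h1 : DifferentiableAt ℝ (fderiv ℝ F) z :=
    (hF.fderiv_right (m := 1) (by norm_num)).differentiableAt (by norm_num)
  have h2 := h1.hasFDerivAt
  have h3 : HasFDerivAt (fun w => fderiv ℝ F w 1)
      ((ContinuousLinearMap.apply ℝ ℂ (1 : ℂ)).comp (fderiv ℝ (fderiv ℝ F) z)) z :=
    (ContinuousLinearMap.apply ℝ ℂ (1 : ℂ)).hasFDerivAt.comp z h2
  have h4 : HasFDerivAt (fun w => fderiv ℝ F w I)
      ((ContinuousLinearMap.apply ℝ ℂ I).comp (fderiv ℝ (fderiv ℝ F) z)) z :=
    (ContinuousLinearMap.apply ℝ ℂ I).hasFDerivAt.comp z h2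
  have h5 := (h3.add (h4.const_smul I)).const_smul (1 / 2 : ℂ)
  refine h5.congr_of_eventuallyEq (Filter.Eventually.of_forall fun w => ?_)
  simp only [db, Pi.smul_apply, Pi.add_apply, smul_eq_mul]
  ring

theorem dz_db {F : ℂ → ℂ} {z : ℂ} (hF : ContDiffAt ℝ 2 F z) : dz (db F) z = lapX F z / 4 := by
  have hs : IsSymmSndFDerivAt ℝ F z := hF.isSymmSndFDerivAt (by simp)
  unfold dz lapX
  rw [(fderiv_db hF).fderiv, iteratedFDeriv_two_apply, iteratedFDeriv_two_apply]
  have h := hs 1 I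
  simp only [smul_apply, add_apply,
    ContinuousLinearMap.comp_apply, ContinuousLinearMap.apply_apply, smul_eq_mul]
  simp only [Matrix.cons_val_zero, Matrix.cons_val_one]
  rw [h]
  linear_combination (-(fderiv ℝ (fderiv ℝ F) z I I) / 4) * Complex.I_mul_I

end

end Crest.Agent.R235.RS
end

-- ▼ part R272/TrTor1_732
section

/-!
# Compact connected translation manifolds are tori (row 272, leaf A-TOR)

`V` a real normed space, `M` a topological space with an atlas of charts to `V` whose transition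
maps are locally translations.  If `M` is compact, Hausdorff, connected and `V` is finite
dimensional, then `M` is the quotient of `V` by a lattice: there is an action of `V` on `M` which
is by translations in the charts, and it is transitive with discrete cocompact stabilisers.
-/

open Topology Set Filter Metric

namespace Crest.Agent.R272.TrTor1_732

universe u v w

/-- An atlas with values in `V` whose transition maps are locally translations. -/
structure TrAtl (V : Type u) [NormedAddCommGroup V] (M : Type v) [TopologicalSpace M] where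
  /-- index set -/
  ι : Type w
  /-- the charts -/
  e : ι → OpenPartialHomeomorph M V
  cover : ∀ x, ∃ i, x ∈ (e i).source
  tr : ∀ i j x, x ∈ (e i).source → x ∈ (e j).source → ∃ c : V, ∀ᶠ y in 𝓝 x, e j y = e i y + c

variable {V : Type u} [NormedAddCommGroup V] {M : Type v} [TopologicalSpace M]

/-- the chart `i` is defined at `y` and its image contains the ball of radius `δ` round the
image of `y`. -/
def Good (T : TrAtl.{u, v, w} V M) (δ : ℝ) (i : T.ι) (y : M) : Prop :=
  y ∈ (T.e i).source ∧ ball (T.e i y) δ ⊆ (T.e i).target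

theorem Good.mono {T : TrAtl.{u, v, w} V M} {δ δ' : ℝ} {i : T.ι} {y : M} (h : Good T δ i y)
    (hd : δ' ≤ δ) : Good T δ' i y :=
  ⟨h.1, (ball_subset_ball hd).trans h.2⟩

/-- Lebesgue number. -/
theorem exists_good [CompactSpace M] (T : TrAtl.{u, v, w} V M) :
    ∃ δ : ℝ, 0 < δ ∧ ∀ y, ∃ i, Good T δ i y := by
  have key : ∃ δ : ℝ, 0 < δ ∧ ∀ y ∈ (univ : Set M), ∃ i, Good T δ i y := by
    refine isCompact_univ.induction_on (p := fun S => ∃ δ : ℝ, 0 < δ ∧ ∀ y ∈ S, ∃ i, Good T δ i y)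
      ⟨1, one_pos, by simp⟩ ?_ ?_ ?_
    · rintro s t hst ⟨δ, hδ, h⟩
      exact ⟨δ, hδ, fun y hy => h y (hst hy)⟩
    · rintro s t ⟨δ, hδ, h⟩ ⟨δ', hδ', h'⟩
      refine ⟨min δ δ', lt_min hδ hδ', ?_⟩
      rintro y (hy | hy)
      · obtain ⟨i, hi⟩ := h y hy
        exact ⟨i, hi.mono (min_le_left _ _)⟩
      · obtain ⟨i, hi⟩ := h' y hy
        exact ⟨i, hi.mono (min_le_right _ _)⟩
    · intro x _
      obtain ⟨i, hi⟩ := T.cover x
      have hx : T.e i x ∈ (T.e i).target := (T.e i).map_source hi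
      obtain ⟨ε, hε, hb⟩ := Metric.isOpen_iff.1 (T.e i).open_target _ hx
      have hc : ContinuousAt (T.e i) x := (T.e i).continuousAt hi
      have h1 : (T.e i) ⁻¹' ball (T.e i x) (ε / 2) ∈ 𝓝 x :=
        hc (ball_mem_nhds _ (half_pos hε))
      have h2 : (T.e i).source ∈ 𝓝 x := (T.e i).open_source.mem_nhds hi
      refine ⟨(T.e i).source ∩ (T.e i) ⁻¹' ball (T.e i x) (ε / 2), ?_, ε / 2, half_pos hε, ?_⟩
      · exact mem_nhdsWithin_of_mem_nhds (inter_mem h2 h1)
      · rintro y ⟨hy1, hy2⟩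
        refine ⟨i, hy1, ?_⟩
        refine Subset.trans ?_ hb
        intro z hz
        have h3 : dist z (T.e i y) < ε / 2 := hz
        have h4 : dist (T.e i y) (T.e i x) < ε / 2 := hy2
        exact mem_ball.2 (lt_of_le_of_lt (dist_triangle _ _ _) (by linarith))
  obtain ⟨δ, hδ, h⟩ := key
  exact ⟨δ, hδ, fun y => h y (mem_univ y)⟩

theorem Good.mem_target {T : TrAtl.{u, v, w} V M} {δ : ℝ} {i : T.ι} {y : M} (h : Good T δ i y)
    {a : V} (ha : ‖a‖ < δ) : T.e i y + a ∈ (T.e i).target :=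
  h.2 (by simpa [mem_ball, dist_eq_norm] using ha)

variable [NormedSpace ℝ V]

/-- Uniqueness of the local translations. -/
theorem good_unique [T2Space M] {T : TrAtl.{u, v, w} V M} {δ : ℝ} {i j : T.ι} {y : M}
    (hi : Good T δ i y) (hj : Good T δ j y) {a : V} (ha : ‖a‖ < δ) :
    (T.e i).symm (T.e i y + a) = (T.e j).symm (T.e j y + a) := by
  have hδ : 0 < δ := lt_of_le_of_lt (norm_nonneg _) ha
  let B := ball (0 : V) δ
  have : PreconnectedSpace B :=
    Subtype.preconnectedSpace (convex_ball (0 : V) δ).isPreconnected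
  have hB : ∀ b : B, ‖(b : V)‖ < δ := fun b => mem_ball_zero_iff.1 b.2
  have cont : ∀ k, Good T δ k y → Continuous fun b : B => (T.e k).symm (T.e k y + (b : V)) := by
    intro k hk
    have h1 : Continuous fun b : B => T.e k y + (b : V) :=
      continuous_const.add continuous_subtype_val
    exact (T.e k).continuousOn_symm.comp_continuous h1 (fun b => hk.mem_target (hB b))
  let S : Set B := {b | (T.e i).symm (T.e i y + (b : V)) = (T.e j).symm (T.e j y + (b : V))}
  have hS : IsClosed S := isClosed_eq (cont i hi) (cont j hj)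
  have hSo : IsOpen S := by
    rw [isOpen_iff_mem_nhds]
    intro b hb
    have hb' : (T.e i).symm (T.e i y + (b : V)) = (T.e j).symm (T.e j y + (b : V)) := hb
    set x := (T.e i).symm (T.e i y + (b : V)) with hx
    have ei : T.e i x = T.e i y + (b : V) := (T.e i).right_inv (hi.mem_target (hB b))
    have ej : T.e j x = T.e j y + (b : V) := by
      rw [hb']; exact (T.e j).right_inv (hj.mem_target (hB b))
    have xi : x ∈ (T.e i).source := (T.e i).map_target (hi.mem_target (hB b))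
    have xj : x ∈ (T.e j).source := by
      rw [hb']; exact (T.e j).map_target (hj.mem_target (hB b))
    obtain ⟨c, hc⟩ := T.tr i j x xi xj
    have hcx : T.e j x = T.e i x + c := hc.self_of_nhds
    have hcc : c = T.e j y - T.e i y := by
      have : T.e j y + (b : V) = T.e i y + (b : V) + c := by rw [← ej, hcx, ei]
      have h2 : T.e j y = T.e i y + c := by
        have h3 : T.e j y + (b : V) = (T.e i y + c) + (b : V) := by rw [this]; abel
        exact add_right_cancel h3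
      rw [h2]; abel
    have h4 : ∀ᶠ z in 𝓝 x, z ∈ (T.e j).source := (T.e j).open_source.mem_nhds xj
    have h5 : ∀ᶠ z in 𝓝 x, z ∈ (T.e j).source ∧ T.e j z = T.e i z + c := h4.and hc
    have h6 : Tendsto (fun b' : B => (T.e i).symm (T.e i y + (b' : V))) (𝓝 b) (𝓝 x) :=
      (cont i hi).continuousAt
    filter_upwards [h6.eventually h5] with b' hb''
    obtain ⟨hs, he⟩ := hb''
    have h7 : T.e i ((T.e i).symm (T.e i y + (b' : V))) = T.e i y + (b' : V) :=
      (T.e i).right_inv (hi.mem_target (hB b'))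
    have h8 : T.e j ((T.e i).symm (T.e i y + (b' : V))) = T.e j y + (b' : V) := by
      rw [he, h7, hcc]; abel
    show (T.e i).symm (T.e i y + (b' : V)) = (T.e j).symm (T.e j y + (b' : V))
    rw [← h8, (T.e j).left_inv hs]
  have h0 : (⟨0, by simpa [B] using hδ⟩ : B) ∈ S := by
    show (T.e i).symm (T.e i y + (0 : V)) = (T.e j).symm (T.e j y + (0 : V))
    rw [add_zero, add_zero, (T.e i).left_inv hi.1, (T.e j).left_inv hj.1]
  have hu : S = univ := IsClopen.eq_univ ⟨hS, hSo⟩ ⟨_, h0⟩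
  have : (⟨a, by simpa [B] using ha⟩ : B) ∈ S := by rw [hu]; trivial
  exact this

section shift

variable (T : TrAtl.{u, v, w} V M) (δ : ℝ) (hg : ∀ y, ∃ i, Good T δ i y)

/-- the local translation by `a` -/
noncomputable def sh (a : V) (y : M) : M :=
  (T.e (hg y).choose).symm (T.e (hg y).choose y + a)

variable {T δ hg}

theorem sh_eq [T2Space M] {i : T.ι} {y : M} (hi : Good T δ i y) {a : V} (ha : ‖a‖ < δ) :
    sh T δ hg a y = (T.e i).symm (T.e i y + a) :=
  good_unique (hg y).choose_spec hi ha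

omit [NormedSpace ℝ V] in
theorem sh_zero (y : M) : sh T δ hg 0 y = y := by
  unfold sh
  rw [add_zero]
  exact (T.e _).left_inv (hg y).choose_spec.1

/-- the charts of `sh a y`. -/
theorem chart_sh [T2Space M] {i : T.ι} {y : M} (hi : Good T δ i y) {a : V} (ha : ‖a‖ < δ) :
    Good T (δ - ‖a‖) i (sh T δ hg a y) ∧ T.e i (sh T δ hg a y) = T.e i y + a := by
  rw [sh_eq hi ha]
  have h1 : T.e i ((T.e i).symm (T.e i y + a)) = T.e i y + a :=
    (T.e i).right_inv (hi.mem_target ha)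
  refine ⟨⟨(T.e i).map_target (hi.mem_target ha), ?_⟩, h1⟩
  rw [h1]
  refine Subset.trans ?_ hi.2
  intro z hz
  rw [mem_ball, dist_eq_norm] at hz ⊢
  calc ‖z - T.e i y‖ = ‖(z - (T.e i y + a)) + a‖ := by congr 1; abel
    _ ≤ ‖z - (T.e i y + a)‖ + ‖a‖ := norm_add_le _ _
    _ < δ := by linarith

theorem sh_sh [T2Space M] {a b : V} (hab : ‖a‖ + ‖b‖ < δ) (y : M) :
    sh T δ hg b (sh T δ hg a y) = sh T δ hg (a + b) y := by
  have ha : ‖a‖ < δ := by linarith [norm_nonneg b]
  have hb : ‖b‖ < δ - ‖a‖ := by linarith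
  have hab' : ‖a + b‖ < δ := lt_of_le_of_lt (norm_add_le _ _) hab
  obtain ⟨i, hi⟩ := hg y
  obtain ⟨h1, h2⟩ := chart_sh (hg := hg) hi ha
  obtain ⟨j, hj⟩ := hg (sh T δ hg a y)
  have hb' : ‖b‖ < δ := by linarith [norm_nonneg a]
  rw [sh_eq (hg := hg) hj hb', sh_eq (hg := hg) hi hab',
    good_unique (hj.mono (by linarith [norm_nonneg a])) h1 hb, h2, add_assoc]

theorem sh_comm [T2Space M] {a b : V} (hab : ‖a‖ + ‖b‖ < δ) :
    Function.Commute (sh T δ hg a) (sh T δ hg b) := by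
  intro y
  rw [sh_sh (by linarith) y, sh_sh hab y, add_comm]

theorem sh_two [T2Space M] {a : V} (ha : ‖a‖ + ‖a‖ < δ) :
    (sh T δ hg a)^[2] = sh T δ hg ((2 : ℝ) • a) := by
  funext y
  show sh T δ hg a (sh T δ hg a y) = _
  rw [sh_sh ha y, two_smul]

/-- norm of `v / 2^k`. -/
theorem norm_half_pow (a : V) (k : ℕ) : ‖((1 / 2 : ℝ) ^ k) • a‖ = (1 / 2 : ℝ) ^ k * ‖a‖ := by
  rw [norm_smul, Real.norm_of_nonneg (by positivity)]

theorem iter_step [T2Space M] {a : V} {k : ℕ} (hk : (1 / 2 : ℝ) ^ k * ‖a‖ < δ) :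
    (sh T δ hg (((1 / 2 : ℝ) ^ (k + 1)) • a))^[2 ^ (k + 1)]
      = (sh T δ hg (((1 / 2 : ℝ) ^ k) • a))^[2 ^ k] := by
  rw [pow_succ 2 k, mul_comm, Function.iterate_mul, sh_two, smul_smul]
  · congr 3
    rw [pow_succ]; ring
  · rw [norm_half_pow, pow_succ]
    linarith

theorem iter_indep [T2Space M] {a : V} {k : ℕ} (hk : (1 / 2 : ℝ) ^ k * ‖a‖ < δ) (l : ℕ)
    (hl : k ≤ l) :
    (sh T δ hg (((1 / 2 : ℝ) ^ l) • a))^[2 ^ l] = (sh T δ hg (((1 / 2 : ℝ) ^ k) • a))^[2 ^ k] := by
  induction l, hl using Nat.le_induction with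
  | base => rfl
  | succ l hl ih =>
    rw [iter_step, ih]
    refine lt_of_le_of_lt ?_ hk
    exact mul_le_mul_of_nonneg_right
      (pow_le_pow_of_le_one (by norm_num) (by norm_num) hl) (norm_nonneg _)

omit [NormedSpace ℝ V] in
theorem exists_small (hδ : 0 < δ) (a : V) : ∃ k : ℕ, (1 / 2 : ℝ) ^ k * ‖a‖ < δ := by
  have h1 : Tendsto (fun k : ℕ => (1 / 2 : ℝ) ^ k * ‖a‖) atTop (𝓝 (0 * ‖a‖)) :=
    (tendsto_pow_atTop_nhds_zero_of_lt_one (by norm_num) (by norm_num)).mul_const _
  rw [zero_mul] at h1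
  exact (h1.eventually (gt_mem_nhds hδ)).exists

end shift

/-- The translation action on a compact Hausdorff translation manifold. -/
theorem exists_act [CompactSpace M] [T2Space M] (T : TrAtl.{u, v, w} V M) :
    ∃ act : V → M → M, (∀ y, act 0 y = y) ∧ (∀ a b y, act (a + b) y = act a (act b y)) ∧
      ∃ δ : ℝ, 0 < δ ∧ (∀ y, ∃ i, Good T δ i y) ∧
        ∀ (i : T.ι) (y : M), Good T δ i y → ∀ a : V, ‖a‖ < δ →
          act a y ∈ (T.e i).source ∧ T.e i (act a y) = T.e i y + a := by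
  obtain ⟨δ, hδ, hg⟩ := exists_good T
  have hk := exists_small (V := V) hδ
  choose κ hκ using hk
  let act : V → M → M := fun a => (sh T δ hg (((1 / 2 : ℝ) ^ (κ a)) • a))^[2 ^ (κ a)]
  have act_def : ∀ (a : V) (k : ℕ), (1 / 2 : ℝ) ^ k * ‖a‖ < δ →
      act a = (sh T δ hg (((1 / 2 : ℝ) ^ k) • a))^[2 ^ k] := by
    intro a k hk
    rcases le_total k (κ a) with h | h
    · exact iter_indep hk _ h
    · exact (iter_indep (hκ a) _ h).symm
  have act_small : ∀ a : V, ‖a‖ < δ → act a = sh T δ hg a := by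
    intro a ha
    have := act_def a 0 (by simpa using ha)
    simpa using this
  refine ⟨act, ?_, ?_, δ, hδ, hg, ?_⟩
  · intro y
    rw [act_small 0 (by simpa using hδ)]
    exact sh_zero y
  · intro a b y
    obtain ⟨k1, hk1⟩ := exists_small (V := V) (half_pos hδ) a
    obtain ⟨k2, hk2⟩ := exists_small (V := V) (half_pos hδ) b
    set k := max k1 k2 with hk
    have hak : (1 / 2 : ℝ) ^ k * ‖a‖ < δ / 2 := by
      refine lt_of_le_of_lt ?_ hk1
      exact mul_le_mul_of_nonneg_right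
        (pow_le_pow_of_le_one (by norm_num) (by norm_num) (le_max_left _ _)) (norm_nonneg _)
    have hbk : (1 / 2 : ℝ) ^ k * ‖b‖ < δ / 2 := by
      refine lt_of_le_of_lt ?_ hk2
      exact mul_le_mul_of_nonneg_right
        (pow_le_pow_of_le_one (by norm_num) (by norm_num) (le_max_right _ _)) (norm_nonneg _)
    have hsum : ‖((1 / 2 : ℝ) ^ k) • b‖ + ‖((1 / 2 : ℝ) ^ k) • a‖ < δ := by
      rw [norm_half_pow, norm_half_pow]; linarith
    have hab : (1 / 2 : ℝ) ^ k * ‖a + b‖ < δ := by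
      calc (1 / 2 : ℝ) ^ k * ‖a + b‖ ≤ (1 / 2 : ℝ) ^ k * (‖a‖ + ‖b‖) :=
            mul_le_mul_of_nonneg_left (norm_add_le _ _) (by positivity)
        _ < δ := by rw [mul_add]; linarith
    rw [act_def (a + b) k hab, act_def a k (by linarith), act_def b k (by linarith)]
    have h1 : sh T δ hg (((1 / 2 : ℝ) ^ k) • (a + b))
        = (sh T δ hg (((1 / 2 : ℝ) ^ k) • a)) ∘ (sh T δ hg (((1 / 2 : ℝ) ^ k) • b)) := by
      funext z
      rw [Function.comp_apply, sh_sh hsum, smul_add, add_comm]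
    rw [h1, Function.Commute.comp_iterate (sh_comm (by linarith)), Function.comp_apply]
  · intro i y hi a ha
    rw [act_small a ha]
    obtain ⟨h1, h2⟩ := chart_sh (hg := hg) hi ha
    exact ⟨h1.1, h2⟩

/-- A bundled form of the translation action on a translation manifold. -/
structure TrAct (T : TrAtl.{u, v, w} V M) where
  /-- the action -/
  act : V → M → M
  zero : ∀ y, act 0 y = y
  add : ∀ a b y, act (a + b) y = act a (act b y)
  /-- Lebesgue number -/
  δ : ℝ
  δ_pos : 0 < δ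
  good : ∀ y, ∃ i, Good T δ i y
  chart : ∀ (i : T.ι) (y : M), Good T δ i y → ∀ a : V, ‖a‖ < δ →
          act a y ∈ (T.e i).source ∧ T.e i (act a y) = T.e i y + a

/-- the translation action exists. -/
theorem nonempty_trAct [CompactSpace M] [T2Space M] (T : TrAtl.{u, v, w} V M) :
    Nonempty (TrAct T) := by
  obtain ⟨act, h0, hadd, δ, hδ, hg, hc⟩ := exists_act T
  exact ⟨⟨act, h0, hadd, δ, hδ, hg, hc⟩⟩

namespace TrAct

variable {T : TrAtl.{u, v, w} V M} (A : TrAct T)

omit [NormedSpace ℝ V] in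
theorem act_symm {i : T.ι} {y : M} (hi : Good T A.δ i y) {a : V} (ha : ‖a‖ < A.δ) :
    A.act a y = (T.e i).symm (T.e i y + a) := by
  obtain ⟨h1, h2⟩ := A.chart i y hi a ha
  rw [← h2, (T.e i).left_inv h1]

omit [NormedSpace ℝ V] in
theorem neg_act (a : V) (y : M) : A.act (-a) (A.act a y) = y := by
  rw [← A.add, neg_add_cancel, A.zero]


omit [NormedSpace ℝ V] in
/-- continuity of the orbit map. -/
theorem continuous_orbit (x : M) : Continuous fun a : V => A.act a x := by
  rw [continuous_iff_continuousAt]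
  intro a
  obtain ⟨i, hi⟩ := A.good (A.act a x)
  have h1 : (fun b : V => A.act b x) =ᶠ[𝓝 a]
      fun b => (T.e i).symm (T.e i (A.act a x) + (b - a)) := by
    have : ∀ᶠ b in 𝓝 a, dist b a < A.δ := ball_mem_nhds a A.δ_pos
    filter_upwards [this] with b hb
    rw [dist_eq_norm] at hb
    rw [← A.act_symm hi hb, ← A.add, sub_add_cancel]
  have h2 : ContinuousAt (fun b => (T.e i).symm (T.e i (A.act a x) + (b - a))) a := by
    have h3 : T.e i (A.act a x) + (a - a) ∈ (T.e i).target := by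
      rw [sub_self, add_zero]; exact (T.e i).map_source hi.1
    have h4 : ContinuousAt (T.e i).symm (T.e i (A.act a x) + (a - a)) :=
      (T.e i).continuousAt_symm h3
    have h5 : ContinuousAt (fun b : V => T.e i (A.act a x) + (b - a)) a :=
      (continuous_const.add (continuous_id.sub continuous_const)).continuousAt
    exact ContinuousAt.comp (f := fun b : V => T.e i (A.act a x) + (b - a)) h4 h5
  exact h2.congr h1.symm

omit [NormedSpace ℝ V] in
/-- The orbit map is open. -/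
theorem image_mem_nhds (x : M) {U : Set V} {a : V} (hU : U ∈ 𝓝 a) :
    (fun b => A.act b x) '' U ∈ 𝓝 (A.act a x) := by
  obtain ⟨i, hi⟩ := A.good (A.act a x)
  set y := A.act a x with hy
  have h1 : (fun c : V => c + a) ⁻¹' U ∈ 𝓝 (0 : V) := by
    have h2 : ContinuousAt (fun c : V => c + a) 0 := by fun_prop
    apply h2; simpa using hU
  have h3 : ((fun c : V => c + a) ⁻¹' U) ∩ ball 0 A.δ ∈ 𝓝 (0 : V) :=
    inter_mem h1 (ball_mem_nhds _ A.δ_pos)
  have h4 : (T.e i).symm '' ((fun c => T.e i y + c) ''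
      (((fun c : V => c + a) ⁻¹' U) ∩ ball 0 A.δ)) ∈ 𝓝 y := by
    have h5 : (fun c => T.e i y + c) '' (((fun c : V => c + a) ⁻¹' U) ∩ ball 0 A.δ)
        ∈ 𝓝 (T.e i y) := by
      have := (Homeomorph.addLeft (T.e i y)).isOpenMap.image_mem_nhds h3
      simpa using this
    have h6 := (T.e i).symm.image_mem_nhds (x := T.e i y) ((T.e i).map_source hi.1) h5
    rwa [(T.e i).left_inv hi.1] at h6
  refine mem_of_superset h4 ?_
  rintro _ ⟨_, ⟨c, ⟨hc1, hc2⟩, rfl⟩, rfl⟩
  refine ⟨c + a, hc1, ?_⟩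
  show A.act (c + a) x = _
  rw [A.add, ← hy]
  exact A.act_symm hi (mem_ball_zero_iff.1 hc2)

omit [NormedSpace ℝ V] in
/-- `M` connected: the action is transitive. -/
theorem orbit_surjective [PreconnectedSpace M] (x : M) :
    Function.Surjective fun a : V => A.act a x := by
  have hopen : ∀ x : M, IsOpen (range fun a : V => A.act a x) := by
    intro x
    rw [isOpen_iff_mem_nhds]
    rintro _ ⟨a, rfl⟩
    have := A.image_mem_nhds x (U := univ) (a := a) univ_mem
    rwa [image_univ] at this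
  have hclosed : IsClosed (range fun a : V => A.act a x) := by
    rw [← isOpen_compl_iff, isOpen_iff_mem_nhds]
    intro y hy
    refine mem_of_superset ((hopen y).mem_nhds ⟨0, A.zero y⟩) ?_
    rintro _ ⟨a, rfl⟩ ⟨b, hb⟩
    apply hy
    refine ⟨-a + b, ?_⟩
    show A.act (-a + b) x = y
    rw [A.add]
    have hb' : A.act b x = A.act a y := hb
    rw [hb', A.neg_act]
  have := IsClopen.eq_univ ⟨hclosed, hopen x⟩ ⟨_, 0, rfl⟩
  exact range_eq_univ.1 this

/-- the stabiliser of `x` -/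
def stab (x : M) : Submodule ℤ V :=
  AddSubgroup.toIntSubmodule
    { carrier := {a | A.act a x = x}
      zero_mem' := A.zero x
      add_mem' := by
        intro a b (ha : _ = _) (hb : _ = _)
        show A.act (a + b) x = x
        rw [A.add, hb, ha]
      neg_mem' := by
        intro a (ha : _ = _)
        show A.act (-a) x = x
        conv_lhs => rw [← ha]
        exact A.neg_act a x }

omit [NormedSpace ℝ V] in
theorem mem_stab {x : M} {a : V} : a ∈ A.stab x ↔ A.act a x = x := Iff.rfl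

omit [NormedSpace ℝ V] in
theorem act_eq_iff (x : M) (a b : V) : A.act a x = A.act b x ↔ a - b ∈ A.stab x := by
  rw [mem_stab]
  constructor
  · intro h
    rw [sub_eq_neg_add, A.add, h, A.neg_act]
  · intro h
    have : A.act b (A.act (a - b) x) = A.act b x := by rw [h]
    rwa [← A.add, add_sub_cancel] at this

omit [NormedSpace ℝ V] in
theorem stab_small {x : M} {a : V} (ha : a ∈ A.stab x) (hs : ‖a‖ < A.δ) : a = 0 := by
  rw [mem_stab] at ha
  obtain ⟨i, hi⟩ := A.good x
  obtain ⟨_, h2⟩ := A.chart i x hi a hs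
  rw [ha] at h2
  simpa using h2

omit [NormedSpace ℝ V] in
theorem discrete_stab (x : M) : DiscreteTopology (A.stab x) := by
  rw [discreteTopology_iff_isOpen_singleton_zero]
  rw [Metric.isOpen_iff]
  intro y hy
  refine ⟨A.δ, A.δ_pos, ?_⟩
  intro z hz
  rw [mem_singleton_iff] at hy ⊢
  subst hy
  have h1 : ‖(z : V)‖ < A.δ := by
    have : dist z 0 < A.δ := hz
    rwa [dist_zero_right] at this
  exact Subtype.ext (A.stab_small z.2 h1)

omit [NormedSpace ℝ V] in
theorem cocompact [CompactSpace M] [PreconnectedSpace M] (x : M) :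
    ∃ R : ℝ, ∀ a : V, ∃ b : V, ‖b‖ < R ∧ a - b ∈ A.stab x := by
  have hopen : ∀ n : ℕ, IsOpen ((fun a : V => A.act a x) '' ball 0 n) := by
    intro n
    rw [isOpen_iff_mem_nhds]
    rintro _ ⟨a, ha, rfl⟩
    exact A.image_mem_nhds x (isOpen_ball.mem_nhds ha)
  have hcov : (univ : Set M) ⊆ ⋃ n : ℕ, (fun a : V => A.act a x) '' ball 0 n := by
    intro y _
    obtain ⟨a, rfl⟩ := A.orbit_surjective x y
    obtain ⟨n, hn⟩ := exists_nat_gt ‖a‖
    exact mem_iUnion.2 ⟨n, a, mem_ball_zero_iff.2 hn, rfl⟩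
  have hmono : Monotone fun n : ℕ => (fun a : V => A.act a x) '' ball (0 : V) n := by
    intro m n hmn
    exact image_mono (ball_subset_ball (by exact_mod_cast hmn))
  obtain ⟨n, hn⟩ := isCompact_univ.elim_directed_cover _ hopen hcov hmono.directed_le
  refine ⟨n, fun a => ?_⟩
  obtain ⟨b, hb, he⟩ := hn (mem_univ (A.act a x))
  exact ⟨b, mem_ball_zero_iff.1 hb, (A.act_eq_iff x a b).1 he.symm⟩

/-- the stabiliser spans `V` -/
theorem span_stab [FiniteDimensional ℝ V] [CompactSpace M] [PreconnectedSpace M] (x : M) :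
    Submodule.span ℝ (A.stab x : Set V) = ⊤ := by
  obtain ⟨R, hR⟩ := A.cocompact x
  by_contra hne
  obtain ⟨φ, hφ, hle⟩ := Submodule.exists_le_ker_of_lt_top _ (lt_top_iff_ne_top.2 hne)
  obtain ⟨v, hv⟩ : ∃ v, φ v ≠ 0 := by
    by_contra hcon
    push Not at hcon
    exact hφ (LinearMap.ext hcon)
  let φc : V →L[ℝ] ℝ := LinearMap.toContinuousLinearMap φ
  have hφc : ∀ z, φc z = φ z := fun z => rfl
  have hRpos : 0 ≤ R := by
    obtain ⟨b, hb, _⟩ := hR 0
    exact (norm_nonneg b).trans hb.le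
  have key : ∀ t : ℝ, |t * φ v| ≤ ‖φc‖ * R := by
    intro t
    obtain ⟨b, hb, hs⟩ := hR (t • v)
    have h1 : φ (t • v - b) = 0 := by
      have : t • v - b ∈ Submodule.span ℝ (A.stab x : Set V) := Submodule.subset_span hs
      exact LinearMap.mem_ker.1 (hle this)
    rw [map_sub, map_smul, sub_eq_zero, smul_eq_mul] at h1
    rw [h1, ← hφc, ← Real.norm_eq_abs]
    exact (φc.le_opNorm b).trans (mul_le_mul_of_nonneg_left hb.le (norm_nonneg _))
  have h2 := key ((‖φc‖ * R + 1) / φ v)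
  rw [div_mul_cancel₀ _ hv] at h2
  have h3 := le_abs_self (‖φc‖ * R + 1)
  linarith

theorem isZLattice_stab [FiniteDimensional ℝ V] [CompactSpace M] [PreconnectedSpace M] (x : M)
    [DiscreteTopology (A.stab x)] : IsZLattice ℝ (A.stab x) :=
  ⟨A.span_stab x⟩

/-- a lattice basis. -/
theorem exists_basis [FiniteDimensional ℝ V] [CompactSpace M] [PreconnectedSpace M] (x : M)
    {n : ℕ} (hn : Module.finrank ℝ V = n) :
    ∃ ω : Fin n → V, LinearIndependent ℝ ω ∧ A.stab x = Submodule.span ℤ (range ω) := by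
  have hd : DiscreteTopology (A.stab x) := A.discrete_stab x
  have hz : IsZLattice ℝ (A.stab x) := A.isZLattice_stab x
  have : Module.Finite ℤ (A.stab x) := ZLattice.module_finite ℝ (A.stab x)
  have : Module.Free ℤ (A.stab x) := ZLattice.module_free ℝ (A.stab x)
  have hr : Module.finrank ℤ (A.stab x) = n := by rw [ZLattice.rank ℝ, hn]
  let b := Module.finBasisOfFinrankEq ℤ (A.stab x) hr
  let B := b.ofZLatticeBasis ℝ (A.stab x)
  refine ⟨fun k => B k, B.linearIndependent, ?_⟩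
  exact (Module.Basis.ofZLatticeBasis_span ℝ (A.stab x) b).symm

end TrAct

/-- **Main theorem of the file.**  A compact connected Hausdorff translation manifold is a torus:
there are `f : V → M` surjective and a lattice basis `ω` with `f z = f w` iff `z - w` is in the
lattice, and `f` is a translation in the charts. -/
theorem exists_uniformization [FiniteDimensional ℝ V] [CompactSpace M] [T2Space M]
    [PreconnectedSpace M] (T : TrAtl.{u, v, w} V M) (x : M) {n : ℕ}
    (hn : Module.finrank ℝ V = n) :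
    ∃ (f : V → M) (ω : Fin n → V), LinearIndependent ℝ ω ∧ f 0 = x ∧ Continuous f ∧
      IsOpenMap f ∧ Function.Surjective f ∧
      (∀ z w, f z = f w ↔ z - w ∈ Submodule.span ℤ (range ω)) ∧
      (∀ z : V, ∀ i, f z ∈ (T.e i).source →
        ∀ᶠ z' in 𝓝 z, f z' ∈ (T.e i).source ∧ T.e i (f z') = T.e i (f z) + (z' - z)) := by
  obtain ⟨A⟩ := nonempty_trAct T
  obtain ⟨ω, hω, hs⟩ := A.exists_basis x hn
  refine ⟨fun a => A.act a x, ω, hω, A.zero x, A.continuous_orbit x, ?_, A.orbit_surjective x, ?_,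
    ?_⟩
  · exact IsOpenMap.of_nhds_le fun a => by
      intro S hS
      rw [mem_map] at hS
      exact mem_of_superset (A.image_mem_nhds x hS) (image_preimage_subset _ _)
  · intro z w
    rw [← hs]; exact A.act_eq_iff x z w
  · intro z i hz
    obtain ⟨j, hj⟩ := A.good (A.act z x)
    obtain ⟨c, hc⟩ := T.tr j i _ hj.1 hz
    have hcont : Tendsto (fun a => A.act a x) (𝓝 z) (𝓝 (A.act z x)) :=
      (A.continuous_orbit x).continuousAt
    have h1 : ∀ᶠ z' in 𝓝 z, dist z' z < A.δ := ball_mem_nhds z A.δ_pos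
    have h2 : ∀ᶠ z' in 𝓝 z, A.act z' x ∈ (T.e i).source :=
      hcont.eventually ((T.e i).open_source.mem_nhds hz)
    filter_upwards [h1, h2, hcont.eventually hc] with z' h3 h4 h5
    refine ⟨h4, ?_⟩
    rw [dist_eq_norm] at h3
    obtain ⟨_, h7⟩ := A.chart j _ hj (z' - z) h3
    rw [← A.add, sub_add_cancel] at h7
    rw [h5, h7, hc.self_of_nhds]
    abel

end Crest.Agent.R272.TrTor1_732
end

-- ▼ part R235/RSTor_538
section

/-!
Row 235, package RS (helper538): a closed Riemann surface with a holomorphic one-form without zeros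
is a torus.  The primitives of the one-form are charts with locally translational transition maps;
`Crest.Agent.R272.TrTor1_732.exists_uniformization` does the rest.
-/

set_option autoImplicit false

open Set Filter Topology Function Metric

universe u v

namespace Crest.Agent.R235.RS

noncomputable section

/-- local coordinates adapted to `h dz` -/
theorem prim_chart {U : Set ℂ} (hU : IsOpen U) {h : ℂ → ℂ} (hh : DifferentiableOn ℂ h U)
    {z0 : ℂ} (hz0 : z0 ∈ U) (hne : h z0 ≠ 0) :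
    ∃ E : OpenPartialHomeomorph ℂ ℂ, z0 ∈ E.source ∧ E.source ⊆ U ∧ E z0 = 0 ∧
      ∀ z ∈ E.source, HasDerivAt E (h z) z := by
  obtain ⟨ρ, hρ, hb⟩ := Metric.isOpen_iff.1 hU z0 hz0
  obtain ⟨H, hH0, hH⟩ := ((hh.mono hb).isExactOn_ball).with_val_at z0 0
  have hHd : DifferentiableOn ℂ H (ball z0 ρ) :=
    fun z hz => (hH z hz).differentiableAt.differentiableWithinAt
  have hHa : AnalyticAt ℂ H z0 := hHd.analyticAt (isOpen_ball.mem_nhds (mem_ball_self hρ))
  have hs : HasStrictDerivAt H (h z0) z0 := by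
    have h1 := hHa.hasStrictDerivAt
    rwa [(hH z0 (mem_ball_self hρ)).deriv] at h1
  have hf := hs.hasStrictFDerivAt_equiv hne
  refine ⟨(hf.toOpenPartialHomeomorph H).restrOpen (ball z0 ρ) isOpen_ball, ?_, ?_, ?_, ?_⟩
  · exact ⟨hf.mem_toOpenPartialHomeomorph_source, mem_ball_self hρ⟩
  · exact fun z hz => hb hz.2
  · exact hH0
  · intro z hz
    exact hH z hz.2

/-- a function with zero derivative near a point is locally constant -/
theorem eventually_const {F : ℂ → ℂ} {z0 : ℂ} (h : ∀ᶠ z in 𝓝 z0, HasDerivAt F 0 z) :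
    ∀ᶠ z in 𝓝 z0, F z = F z0 := by
  obtain ⟨δ, hδ, hb⟩ := Metric.eventually_nhds_iff_ball.1 h
  refine Metric.eventually_nhds_iff_ball.2 ⟨δ, hδ, fun w hw => ?_⟩
  have hd : DifferentiableOn ℂ F (ball z0 δ) :=
    fun w hw => (hb w hw).differentiableAt.differentiableWithinAt
  refine (convex_ball z0 δ).is_const_of_fderivWithin_eq_zero (𝕜 := ℂ) hd (fun w hw => ?_) hw
    (mem_ball_self hδ)
  rw [((hb w hw).hasFDerivAt.hasFDerivWithinAt).fderivWithin (isOpen_ball.uniqueDiffWithinAt hw)]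
  ext
  simp

namespace CAtl

variable {N : Type u} [TopologicalSpace N] {A : CAtl.{u, v} N} {ω : A.HForm}

/-- ω has no zeros -/
def NZ (ω : A.HForm) : Prop := ∀ i, ∀ z ∈ (A.c i).target, ω.h i z ≠ 0

/-- a primitive chart at `x` -/
structure PChart (ω : A.HForm) (x : N) where
  /-- the index -/
  i : A.ι
  /-- the chart of the plane -/
  E : OpenPartialHomeomorph ℂ ℂ
  mem : x ∈ (A.c i).source
  memE : A.c i x ∈ E.source
  sub : E.source ⊆ (A.c i).target
  der : ∀ z ∈ E.source, HasDerivAt E (ω.h i z) z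

theorem exists_pchart (hnz : NZ ω) (x : N) : Nonempty (PChart ω x) := by
  obtain ⟨i, hi⟩ := A.cover x
  have ht := (A.c i).map_source hi
  obtain ⟨E, hE0, hEU, hE1, hE⟩ := prim_chart (A.c i).open_target (ω.hol i) ht (hnz i _ ht)
  exact ⟨⟨i, E, hi, hE0, hEU, hE⟩⟩

/-- the chart of `N` -/
def PChart.e {x : N} (p : PChart ω x) : OpenPartialHomeomorph N ℂ := (A.c p.i).trans p.E

theorem PChart.mem_e {x : N} (p : PChart ω x) : x ∈ p.e.source := ⟨p.mem, p.memE⟩

theorem PChart.tr {x y : N} (p : PChart ω x) (q : PChart ω y) {w : N} (hp : w ∈ p.e.source)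
    (hq : w ∈ q.e.source) : ∃ c : ℂ, ∀ᶠ y in 𝓝 w, q.e y = p.e y + c := by
  have hp1 : w ∈ (A.c p.i).source := hp.1
  have hp2 : A.c p.i w ∈ p.E.source := hp.2
  have hq1 : w ∈ (A.c q.i).source := hq.1
  have hq2 : A.c q.i w ∈ q.E.source := hq.2
  have hd := A.c_mem_dom hp1 hq1
  have h1 : ∀ᶠ z in 𝓝 (A.c p.i w),
      HasDerivAt (fun z => q.E (A.tr p.i q.i z) - p.E z) 0 z := by
    have hc : Tendsto (A.tr p.i q.i) (𝓝 (A.c p.i w)) (𝓝 (A.c q.i w)) := by
      have := (A.tr_diffAt hd).continuousAt.tendsto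
      rwa [A.tr_c hp1] at this
    filter_upwards [(A.isOpen_dom p.i q.i).mem_nhds hd, p.E.open_source.mem_nhds hp2,
      hc.eventually (q.E.open_source.mem_nhds hq2)] with z hz1 hz2 hz3
    have h2 := HasDerivAt.comp z (q.der _ hz3) (A.tr_diffAt hz1).hasDerivAt
    have h3 := h2.sub (p.der z hz2)
    rw [← ω.tr p.i q.i z hz1, sub_self] at h3
    exact h3
  have h2 := eventually_const h1
  have hcp : Tendsto (A.c p.i) (𝓝 w) (𝓝 (A.c p.i w)) := (A.c p.i).continuousAt hp1
  refine ⟨q.E (A.tr p.i q.i (A.c p.i w)) - p.E (A.c p.i w), ?_⟩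
  filter_upwards [hcp.eventually h2, (A.c p.i).open_source.mem_nhds hp1] with y hy1 hy2
  show q.E (A.c q.i y) = p.E (A.c p.i y) + _
  rw [← hy1, A.tr_c hy2]
  ring

/-- the translation atlas of a one-form without zeros -/
def tatl (hnz : NZ ω) : R272.TrTor1_732.TrAtl.{0, u, u} ℂ N where
  ι := N
  e := fun x => (Classical.choice (exists_pchart hnz x)).e
  cover := fun x => ⟨x, (Classical.choice (exists_pchart hnz x)).mem_e⟩
  tr := fun i j _ hi hj => (Classical.choice (exists_pchart hnz i)).tr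
    (Classical.choice (exists_pchart hnz j)) hi hj

/-- **a closed Riemann surface with a one-form without zeros is a torus.** -/
theorem isTor_of_nz [T2Space N] [CompactSpace N] [ConnectedSpace N] (hnz : NZ ω) : A.IsTor := by
  obtain ⟨x⟩ := (inferInstance : Nonempty N)
  obtain ⟨P, o, ho, -, hPc, -, hPs, hPe, hPt⟩ :=
    R272.TrTor1_732.exists_uniformization (tatl hnz) x Complex.finrank_real_complex
  -- the local form of `P`
  have hder : ∀ z i, P z ∈ (A.c i).source →
      ∃ c : ℂ, c ≠ 0 ∧ HasDerivAt (fun w => A.c i (P w)) c z := by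
    intro z i hi
    set p : PChart ω (P z) := Classical.choice (exists_pchart hnz (P z)) with hp
    have h1 := hPt z (P z) p.mem_e
    have hd := A.c_mem_dom p.mem hi
    have h2 : HasDerivAt (fun w => p.e (P z) + (w - z)) 1 z := by
      simpa using ((hasDerivAt_id z).sub_const z).const_add (p.e (P z))
    have hnz' : ω.h p.i (A.c p.i (P z)) ≠ 0 := hnz _ _ ((A.c p.i).map_source p.mem)
    have hpe : p.e (P z) = p.E (A.c p.i (P z)) := rfl
    have ht : p.E (A.c p.i (P z)) ∈ p.E.target := p.E.map_source p.memE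
    have h3 : HasDerivAt p.E.symm (ω.h p.i (A.c p.i (P z)))⁻¹ (p.E (A.c p.i (P z))) := by
      refine p.E.hasDerivAt_symm ht hnz' ?_
      rw [p.E.left_inv p.memE]
      exact p.der _ p.memE
    have h4 : HasDerivAt (A.tr p.i i) (deriv (A.tr p.i i) (A.c p.i (P z)))
        (A.c p.i (P z)) := (A.tr_diffAt hd).hasDerivAt
    have h5 : HasDerivAt (fun w => p.E.symm (p.e (P z) + (w - z)))
        ((ω.h p.i (A.c p.i (P z)))⁻¹ * 1) z := by
      refine HasDerivAt.comp (h₂ := p.E.symm) z ?_ h2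
      simp only [sub_self, add_zero]
      rw [hpe]
      exact h3
    have h6 : HasDerivAt (fun w => A.tr p.i i (p.E.symm (p.e (P z) + (w - z))))
        (deriv (A.tr p.i i) (A.c p.i (P z)) * ((ω.h p.i (A.c p.i (P z)))⁻¹ * 1)) z := by
      refine HasDerivAt.comp (h₂ := A.tr p.i i) z ?_ h5
      simp only [sub_self, add_zero]
      rw [hpe, p.E.left_inv p.memE]
      exact h4
    refine ⟨_, ?_, h6.congr_of_eventuallyEq ?_⟩
    · rw [mul_one]
      exact mul_ne_zero (A.deriv_tr_ne hd) (inv_ne_zero hnz')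
    · filter_upwards [h1] with w hw
      have hw1 : P w ∈ (A.c p.i).source := hw.1.1
      have hw2 : A.c p.i (P w) ∈ p.E.source := hw.1.2
      have hw3 : p.E (A.c p.i (P w)) = p.e (P z) + (w - z) := hw.2
      rw [← hw3, p.E.left_inv hw2, A.tr_c hw1]
  -- the lattice
  have hspan : ∀ z w, P z = P w ↔ ∃ m n : ℤ, w = z + m * o 0 + n * o 1 := by
    intro z w
    rw [hPe z w]
    have hr : range o = {o 0, o 1} := by
      ext y
      simp only [mem_range, mem_insert_iff, mem_singleton_iff]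
      constructor
      · rintro ⟨i, rfl⟩
        fin_cases i
        · left; rfl
        · right; rfl
      · rintro (h | h)
        · exact ⟨0, h.symm⟩
        · exact ⟨1, h.symm⟩
    rw [hr, Submodule.mem_span_pair]
    constructor
    · rintro ⟨m, n, h⟩
      refine ⟨-m, -n, ?_⟩
      simp only [zsmul_eq_mul] at h
      push_cast
      linear_combination h
    · rintro ⟨m, n, h⟩
      refine ⟨-m, -n, ?_⟩
      simp only [zsmul_eq_mul]
      push_cast
      linear_combination h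
  have hHol : A.Hol P := by
    refine ⟨hPc, fun i z hz => ?_⟩
    obtain ⟨c, -, hc⟩ := hder z i hz
    exact hc.differentiableAt.differentiableWithinAt
  have hImm : A.Imm P := by
    intro i z hz
    obtain ⟨c, hc0, hc⟩ := hder z i hz
    rw [hc.deriv]
    exact hc0
  -- orientation
  have hor : (star (o 0) * o 1).im ≠ 0 := by
    intro h
    have h2 : ∀ s t : ℝ, s • o 0 + t • o 1 = 0 → s = 0 ∧ t = 0 := by
      intro s t hst
      have h3 := Fintype.linearIndependent_iff.1 ho ![s, t] (by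
        rw [Fin.sum_univ_two]
        exact hst)
      exact ⟨h3 0, h3 1⟩
    have h1 : (o 0).re * (o 1).im - (o 0).im * (o 1).re = 0 := by
      have := h
      simp only [Complex.star_def, Complex.mul_im, Complex.conj_re, Complex.conj_im] at this
      linarith
    by_cases h0 : o 0 = 0
    · have := (h2 1 0 (by rw [h0]; simp)).1
      exact one_ne_zero this
    · have h3 := h2 ((star (o 0) * o 1).re) (-(Complex.normSq (o 0))) (by
        have e1 : ((star (o 0) * o 1).re : ℂ) = star (o 0) * o 1 := by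
          apply Complex.ext
          · simp
          · rw [h]; simp
        rw [Complex.real_smul, Complex.real_smul, e1]
        push_cast
        rw [← Complex.mul_conj, Complex.star_def]
        ring)
      have h4 := h3.2
      rw [neg_eq_zero, Complex.normSq_eq_zero] at h4
      exact h0 h4
  rcases lt_or_gt_of_ne hor with hlt | hgt
  · refine ⟨o 1, o 0, P, ?_, hHol, hImm, hPs, fun z w => ?_⟩
    · simp only [Complex.star_def, Complex.mul_im, Complex.conj_re, Complex.conj_im] at hlt ⊢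
      linarith
    · rw [hspan]
      constructor
      · rintro ⟨m, n, h⟩
        exact ⟨n, m, by rw [h]; ring⟩
      · rintro ⟨m, n, h⟩
        exact ⟨n, m, by rw [h]; ring⟩
  · exact ⟨o 0, o 1, P, hgt, hHol, hImm, hPs, hspan⟩

end CAtl

end

end Crest.Agent.R235.RS
end

-- ▼ part R235/RSSph_538
section

/-!
Row 235, package RS (helper538): a closed Riemann surface with a meromorphic function which has
exactly one simple pole is the sphere.
-/

set_option autoImplicit false

open Set Filter Topology Function Metric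

universe u v

namespace Crest.Agent.R235.RS

noncomputable section

/-- holomorphic charts of the plane -/
theorem hol_chart {U : Set ℂ} (hU : IsOpen U) {W : ℂ → ℂ} (hW : DifferentiableOn ℂ W U)
    {z0 : ℂ} (hz0 : z0 ∈ U) (hne : deriv W z0 ≠ 0) :
    ∃ E : OpenPartialHomeomorph ℂ ℂ, z0 ∈ E.source ∧ E.source ⊆ U ∧
      (∀ z ∈ E.source, E z = W z) ∧ ∀ z ∈ E.source, ∃ d : ℂ, d ≠ 0 ∧ HasDerivAt E d z := by
  have hWa : AnalyticAt ℂ W z0 := hW.analyticAt (hU.mem_nhds hz0)
  have hs : HasStrictDerivAt W (deriv W z0) z0 := hWa.hasStrictDerivAt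
  have hf := hs.hasStrictFDerivAt_equiv hne
  have hd : ContinuousAt (deriv W) z0 := hWa.deriv.continuousAt
  have hV : {z | z ∈ U ∧ deriv W z ≠ 0} ∈ 𝓝 z0 := by
    filter_upwards [hU.mem_nhds hz0, hd.eventually_ne hne] with z h1 h2
    exact ⟨h1, h2⟩
  obtain ⟨V, hV1, hV2, hV3⟩ := _root_.mem_nhds_iff.1 hV
  refine ⟨(hf.toOpenPartialHomeomorph W).restrOpen V hV2, ?_, ?_, ?_, ?_⟩
  · exact ⟨hf.mem_toOpenPartialHomeomorph_source, hV3⟩
  · exact fun z hz => (hV1 hz.2).1
  · intro z hz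
    rfl
  · intro z hz
    exact ⟨deriv W z, (hV1 hz.2).2,
      (hW.differentiableAt (hU.mem_nhds (hV1 hz.2).1)).hasDerivAt⟩

namespace CAtl

variable {N : Type u} [TopologicalSpace N] {A : CAtl.{u, v} N}

/-- open mapping -/
theorem HAt.nhds_le {f : N → ℂ} {x : N} (h : A.HAt f x) (hn : ¬ ∀ᶠ y in 𝓝 x, f y = f x) :
    𝓝 (f x) ≤ map f (𝓝 x) := by
  obtain ⟨i, hi, h⟩ := h
  rcases h.eventually_constant_or_nhds_le_map_nhds with h1 | h1
  · exfalso
    apply hn
    have h2 : Tendsto (A.c i) (𝓝 x) (𝓝 (A.c i x)) := (A.c i).continuousAt hi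
    filter_upwards [h2.eventually h1, (A.c i).open_source.mem_nhds hi] with y hy hs
    rwa [(A.c i).left_inv hs, (A.c i).left_inv hi] at hy
  · simp only [(A.c i).left_inv hi] at h1
    refine h1.trans ?_
    rw [← A.nhds_symm hi, Filter.map_map]
    rfl

/-- nonzero derivative -/
def Reg (A : CAtl.{u, v} N) (f : N → ℂ) (x : N) : Prop :=
  ∃ i, x ∈ (A.c i).source ∧ deriv (fun z => f ((A.c i).symm z)) (A.c i x) ≠ 0

theorem Reg.not_const {f : N → ℂ} {x : N} (h : A.Reg f x) : ¬ ∀ᶠ y in 𝓝 x, f y = f x := by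
  intro hc
  obtain ⟨i, hi, h⟩ := h
  apply h
  have h2 : Tendsto (A.c i).symm (𝓝 (A.c i x)) (𝓝 x) := by
    rw [Filter.Tendsto, A.nhds_symm hi]
  have h3 : (fun z => f ((A.c i).symm z)) =ᶠ[𝓝 (A.c i x)] fun _ => f x := h2.eventually hc
  rw [h3.deriv_eq]
  exact deriv_const _ _

theorem HAt.eventually_reg {f : N → ℂ} {x : N} (h : A.HAt f x)
    (hn : ¬ ∀ᶠ y in 𝓝 x, f y = f x) : ∀ᶠ y in 𝓝 x, y ≠ x → A.Reg f y := by
  obtain ⟨i, hi, h⟩ := h
  have ht : Tendsto (A.c i) (𝓝 x) (𝓝 (A.c i x)) := (A.c i).continuousAt hi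
  rcases h.deriv.eventually_eq_zero_or_eventually_ne_zero with h1 | h1
  · exfalso
    apply hn
    have h2 : ∀ᶠ z in 𝓝 (A.c i x), HasDerivAt (fun z => f ((A.c i).symm z)) 0 z := by
      filter_upwards [h1, h.eventually_analyticAt] with z hz hz'
      have h3 := hz'.differentiableAt.hasDerivAt
      rwa [hz] at h3
    have h3 := eventually_const h2
    filter_upwards [ht.eventually h3, (A.c i).open_source.mem_nhds hi] with y hy hs
    rwa [(A.c i).left_inv hs, (A.c i).left_inv hi] at hy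
  · rw [eventually_nhdsWithin_iff] at h1
    filter_upwards [ht.eventually h1, (A.c i).open_source.mem_nhds hi] with y hy hs hne
    exact ⟨i, hs, hy fun h4 => hne ((A.c i).injOn hs hi h4)⟩

/-- a function with one simple pole `p0` -/
structure OnePole (A : CAtl.{u, v} N) (f : N → ℂ) (p0 : N) where
  /-- the chart at the pole -/
  i : A.ι
  /-- the local form of `1/f` -/
  E : OpenPartialHomeomorph ℂ ℂ
  hf : ∀ x, x ≠ p0 → A.HAt f x
  mem : p0 ∈ (A.c i).source
  memE : A.c i p0 ∈ E.source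
  sub : E.source ⊆ (A.c i).target
  zero : E (A.c i p0) = 0
  der : ∀ z ∈ E.source, ∃ d : ℂ, d ≠ 0 ∧ HasDerivAt E d z
  eq : ∀ z ∈ E.source, z ≠ A.c i p0 → f ((A.c i).symm z) = (E z)⁻¹

namespace OnePole

variable {f : N → ℂ} {p0 : N} (Q : OnePole A f p0)

/-- the neighbourhood of the pole -/
def D : Set N := {x | x ∈ (A.c Q.i).source ∧ A.c Q.i x ∈ Q.E.source}

theorem isOpen_D : IsOpen Q.D := (A.c Q.i).isOpen_inter_preimage Q.E.open_source

theorem mem_D : p0 ∈ Q.D := ⟨Q.mem, Q.memE⟩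

include Q in
theorem f_D {x : N} (hx : x ∈ Q.D) (hne : x ≠ p0) :
    Q.E (A.c Q.i x) ≠ 0 ∧ f x = (Q.E (A.c Q.i x))⁻¹ := by
  have h1 : A.c Q.i x ≠ A.c Q.i p0 := fun h => hne ((A.c Q.i).injOn hx.1 Q.mem h)
  have h2 := Q.eq _ hx.2 h1
  rw [(A.c Q.i).left_inv hx.1] at h2
  refine ⟨fun h3 => h1 (Q.E.injOn hx.2 Q.memE ?_), h2⟩
  rw [h3, Q.zero]

include Q in
theorem reg_D {x : N} (hx : x ∈ Q.D) (hne : x ≠ p0) : A.Reg f x := by
  refine ⟨Q.i, hx.1, ?_⟩
  have h1 : A.c Q.i x ≠ A.c Q.i p0 := fun h => hne ((A.c Q.i).injOn hx.1 Q.mem h)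
  have h2 : (fun z => f ((A.c Q.i).symm z)) =ᶠ[𝓝 (A.c Q.i x)] fun z => (Q.E z)⁻¹ := by
    filter_upwards [Q.E.open_source.mem_nhds hx.2, isOpen_ne.mem_nhds h1] with z hz hz'
    exact Q.eq z hz hz'
  rw [h2.deriv_eq]
  obtain ⟨d, hd, hd'⟩ := Q.der _ hx.2
  have h3 := (Q.f_D hx hne).1
  rw [(hd'.fun_inv h3).deriv]
  exact div_ne_zero (neg_ne_zero.2 hd) (pow_ne_zero 2 h3)

include Q in
/-- the pole -/
theorem infty (R : ℝ) : ∀ᶠ x in 𝓝 p0, x ≠ p0 → R < ‖f x‖ := by
  have hc : ContinuousAt (fun x => Q.E (A.c Q.i x)) p0 :=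
    ContinuousAt.comp (g := Q.E) (Q.E.continuousAt Q.memE) ((A.c Q.i).continuousAt Q.mem)
  have hpos : 0 < (|R| + 1)⁻¹ := inv_pos.2 (by positivity)
  have h1 : ∀ᶠ x in 𝓝 p0, ‖Q.E (A.c Q.i x)‖ < (|R| + 1)⁻¹ := by
    have h2 := hc.norm
    have h3 : ‖Q.E (A.c Q.i p0)‖ < (|R| + 1)⁻¹ := by rw [Q.zero, norm_zero]; exact hpos
    exact h2.eventually (gt_mem_nhds h3)
  filter_upwards [h1, Q.isOpen_D.mem_nhds Q.mem_D] with x hx hxD hne
  obtain ⟨h2, h3⟩ := Q.f_D hxD hne
  rw [h3, norm_inv]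
  have h4 : |R| + 1 < ‖Q.E (A.c Q.i x)‖⁻¹ := by
    rw [lt_inv_comm₀ (by positivity) (norm_pos_iff.2 h2)]
    exact hx
  linarith [le_abs_self R]

variable [T2Space N]

omit Q in
theorem isOpen_T : IsOpen {x | x ≠ p0 ∧ ∀ᶠ y in 𝓝 x, f y = f x} := by
  refine isOpen_iff_mem_nhds.2 fun x hx => ?_
  have h1 := eventually_eventually_nhds.2 hx.2
  filter_upwards [h1, isOpen_ne.mem_nhds hx.1] with y hy hne
  refine ⟨hne, ?_⟩
  have h2 : f y = f x := hy.self_of_nhds
  rw [h2]
  exact hy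

include Q in
theorem not_const [PreconnectedSpace N] {x : N} (hx : x ≠ p0) :
    ¬ ∀ᶠ y in 𝓝 x, f y = f x := by
  intro hc
  have hcl : IsClosed {x | x ≠ p0 ∧ ∀ᶠ y in 𝓝 x, f y = f x} := by
    rw [← isOpen_compl_iff]
    refine isOpen_iff_mem_nhds.2 fun y hy => ?_
    by_cases hyp : y = p0
    · subst hyp
      filter_upwards [Q.isOpen_D.mem_nhds Q.mem_D] with z hz hz'
      exact (Q.reg_D hz hz'.1).not_const hz'.2
    · have h1 : ¬ ∀ᶠ z in 𝓝 y, f z = f y := fun h => hy ⟨hyp, h⟩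
      filter_upwards [(Q.hf y hyp).eventually_reg h1] with z hz hz'
      by_cases hzy : z = y
      · subst hzy
        exact h1 hz'.2
      · exact (hz hzy).not_const hz'.2
  have h1 := isPreconnected_univ.subset_isClopen (t := {x | x ≠ p0 ∧ ∀ᶠ y in 𝓝 x, f y = f x})
    ⟨hcl, isOpen_T⟩ ⟨x, mem_univ _, hx, hc⟩
  exact (h1 (mem_univ p0)).1 rfl

variable [CompactSpace N]

include Q in
/-- `f` is proper on the complement of the pole -/
theorem closed_image {K : Set N} (hK : IsClosed K) :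
    IsClosed {c : ℂ | ∃ x ∈ K, x ≠ p0 ∧ f x = c} := by
  rw [← isOpen_compl_iff]
  refine isOpen_iff_mem_nhds.2 fun c hc => ?_
  obtain ⟨V, hV, hVo, hVp⟩ := _root_.mem_nhds_iff.1 (Q.infty (‖c‖ + 1))
  have hc1 : IsCompact (K \ V) := (hK.isCompact).diff hVo
  have hcont : ContinuousOn f (K \ V) := by
    intro x hx
    have hxp : x ≠ p0 := fun h => hx.2 (h ▸ hVp)
    exact (Q.hf x hxp).continuousAt.continuousWithinAt
  have hcl : IsClosed (f '' (K \ V)) := (hc1.image_of_continuousOn hcont).isClosed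
  have hcn : c ∉ f '' (K \ V) := by
    rintro ⟨x, hx, rfl⟩
    exact hc ⟨x, hx.1, fun h => hx.2 (h ▸ hVp), rfl⟩
  filter_upwards [hcl.isOpen_compl.mem_nhds hcn, ball_mem_nhds c one_pos] with d hd hd'
  rintro ⟨x, hx, hxp, rfl⟩
  by_cases hxV : x ∈ V
  · have h1 := hV hxV hxp
    rw [mem_ball, dist_eq_norm] at hd'
    have h2 : ‖f x‖ ≤ ‖f x - c‖ + ‖c‖ := by
      simpa using norm_add_le (f x - c) c
    linarith
  · exact hd ⟨x, ⟨hx, hxV⟩, rfl⟩

include Q in
/-- finitely many critical points -/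
theorem finite_crit [PreconnectedSpace N] : {x | x ≠ p0 ∧ ¬ A.Reg f x}.Finite := by
  have h : ((univ : Set N) ∩ {x | x ≠ p0 ∧ ¬ A.Reg f x}).Finite := by
    refine isCompact_univ.induction_on
      (p := fun s => (s ∩ {x | x ≠ p0 ∧ ¬ A.Reg f x}).Finite) ?_ ?_ ?_ ?_
    · simp
    · intro s t hst ht
      exact ht.subset (inter_subset_inter_left _ hst)
    · intro s t hs ht
      rw [union_inter_distrib_right]
      exact hs.union ht
    · intro x _
      have h1 : ∀ᶠ y in 𝓝 x, y ≠ x → y ≠ p0 → A.Reg f y := by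
        by_cases hx : x = p0
        · subst hx
          filter_upwards [Q.isOpen_D.mem_nhds Q.mem_D] with z hz h1 h2
          exact Q.reg_D hz h1
        · filter_upwards [(Q.hf x hx).eventually_reg (Q.not_const hx)] with z hz h1 h2
          exact hz h1
      refine ⟨_, mem_nhdsWithin_of_mem_nhds h1, (finite_singleton x).subset ?_⟩
      rintro y ⟨hy, hy1, hy2⟩
      by_contra hyx
      exact hy2 (hy hyx hy1)
  rwa [univ_inter] at h

/-- values with exactly one preimage -/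
def E1 (f : N → ℂ) (p0 : N) : Set ℂ := {c | ∃! x, x ≠ p0 ∧ f x = c}

include Q in
theorem large : ∃ R : ℝ, ∀ c : ℂ, R < ‖c‖ → c ∈ E1 f p0 := by
  have hcK : IsCompact (Q.Dᶜ) := Q.isOpen_D.isClosed_compl.isCompact
  have hcont : ContinuousOn f Q.Dᶜ := by
    intro x hx
    have hxp : x ≠ p0 := fun h => hx (h ▸ Q.mem_D)
    exact (Q.hf x hxp).continuousAt.continuousWithinAt
  obtain ⟨M, hM⟩ := hcK.exists_bound_of_continuousOn hcont
  have h0 : (0 : ℂ) ∈ Q.E.target := by
    rw [← Q.zero]; exact Q.E.map_source Q.memE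
  obtain ⟨ρ, hρ, hb⟩ := Metric.isOpen_iff.1 Q.E.open_target 0 h0
  refine ⟨max M ρ⁻¹, fun c hc => ?_⟩
  have hcM : M < ‖c‖ := (le_max_left _ _).trans_lt hc
  have hcρ : ρ⁻¹ < ‖c‖ := (le_max_right _ _).trans_lt hc
  have hcpos : 0 < ‖c‖ := (inv_pos.2 hρ).trans hcρ
  have hc0 : c ≠ 0 := norm_pos_iff.1 hcpos
  have hci : c⁻¹ ∈ Q.E.target := by
    apply hb
    rw [mem_ball, dist_zero_right, norm_inv]
    rw [inv_lt_comm₀ hcpos hρ]
    exact hcρ
  have hz := Q.E.map_target hci
  have hEz : Q.E (Q.E.symm c⁻¹) = c⁻¹ := Q.E.right_inv hci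
  have hz0 : Q.E.symm c⁻¹ ≠ A.c Q.i p0 := by
    intro h
    rw [h, Q.zero] at hEz
    exact inv_ne_zero hc0 hEz.symm
  refine ⟨(A.c Q.i).symm (Q.E.symm c⁻¹), ⟨?_, ?_⟩, ?_⟩
  · intro h
    apply hz0
    have h5 := congrArg (A.c Q.i) h
    rwa [(A.c Q.i).right_inv (Q.sub hz)] at h5
  · rw [Q.eq _ hz hz0, hEz, inv_inv]
  · rintro y ⟨hy, hyc⟩
    have hyD : y ∈ Q.D := by
      by_contra h
      have := hM y h
      rw [hyc] at this
      linarith
    obtain ⟨h1, h2⟩ := Q.f_D hyD hy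
    have h3 : Q.E (A.c Q.i y) = c⁻¹ := by
      rw [← hyc, h2, inv_inv]
    have h4 : A.c Q.i y = Q.E.symm c⁻¹ := by
      rw [← h3, Q.E.left_inv hyD.2]
    rw [← h4, (A.c Q.i).left_inv hyD.1]

variable [PreconnectedSpace N]

include Q in
theorem isClosed_E1 : IsClosed (E1 f p0) := by
  rw [← isOpen_compl_iff]
  refine isOpen_iff_mem_nhds.2 fun c hc => ?_
  by_cases hex : ∃ x ∈ (univ : Set N), x ≠ p0 ∧ f x = c
  · obtain ⟨x, -, hx, hxc⟩ := hex
    have h1 : ∃ y, y ≠ p0 ∧ f y = c ∧ y ≠ x := by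
      by_contra h
      push Not at h
      exact hc ⟨x, ⟨hx, hxc⟩, fun y hy => h y hy.1 hy.2⟩
    obtain ⟨y, hy, hyc, hyx⟩ := h1
    obtain ⟨U, V, hU, hV, hxU, hyV, hUV⟩ := t2_separation hyx.symm
    have o1 : f '' (U ∩ {x | x ≠ p0}) ∈ 𝓝 c := by
      rw [← hxc]
      exact (Q.hf x hx).nhds_le (Q.not_const hx)
        (image_mem_map ((hU.inter isOpen_ne).mem_nhds ⟨hxU, hx⟩))
    have o2 : f '' (V ∩ {x | x ≠ p0}) ∈ 𝓝 c := by
      rw [← hyc]
      exact (Q.hf y hy).nhds_le (Q.not_const hy)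
        (image_mem_map ((hV.inter isOpen_ne).mem_nhds ⟨hyV, hy⟩))
    filter_upwards [o1, o2] with d hd1 hd2 hd
    obtain ⟨a, ⟨ha1, ha2⟩, ha3⟩ := hd1
    obtain ⟨b, ⟨hb1, hb2⟩, hb3⟩ := hd2
    have hab : a = b := hd.unique ⟨ha2, ha3⟩ ⟨hb2, hb3⟩
    exact hUV.le_bot ⟨ha1, by rw [hab]; exact hb1⟩
  · have h1 := (Q.closed_image isClosed_univ).isOpen_compl.mem_nhds hex
    filter_upwards [h1] with d hd hd'
    obtain ⟨x, hx, -⟩ := hd'
    exact hd ⟨x, mem_univ _, hx⟩

include Q in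
theorem E1_univ : E1 f p0 = univ := by
  set C : Set ℂ := f '' {x | x ≠ p0 ∧ ¬ A.Reg f x} with hC
  have hCf : C.Finite := Q.finite_crit.image f
  have hcon : IsConnected Cᶜ := hCf.countable.isConnected_compl_of_one_lt_rank (by
    rw [Complex.rank_real_complex]
    exact_mod_cast Nat.one_lt_two)
  have hden : Dense Cᶜ := hCf.countable.dense_compl ℝ
  have hopen : IsOpen (E1 f p0 ∩ Cᶜ) := by
    refine isOpen_iff_mem_nhds.2 fun c hc => ?_
    obtain ⟨⟨x, ⟨hx, hxc⟩, hu⟩, hcC⟩ := hc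
    have hreg : A.Reg f x := by
      by_contra h
      exact hcC ⟨x, ⟨hx, h⟩, hxc⟩
    -- f is injective near x
    have hinj : ∃ U : Set N, IsOpen U ∧ x ∈ U ∧ InjOn f U ∧ U ⊆ {x | x ≠ p0} := by
      obtain ⟨i, hi, hd⟩ := hreg
      have ha := (Q.hf x hx).all hi
      obtain ⟨E, hE0, hE1, hE2, hE3⟩ := hol_chart (U := {z | AnalyticAt ℂ
        (fun z => f ((A.c i).symm z)) z}) (isOpen_analyticAt ℂ _)
        (W := fun z => f ((A.c i).symm z))
        (fun z hz => (show AnalyticAt ℂ _ z from hz).differentiableAt.differentiableWithinAt)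
        (z0 := A.c i x) ha hd
      refine ⟨((A.c i).source ∩ (A.c i) ⁻¹' E.source) ∩ {x | x ≠ p0},
        ((A.c i).isOpen_inter_preimage E.open_source).inter isOpen_ne, ⟨⟨hi, hE0⟩, hx⟩, ?_,
        fun y hy => hy.2⟩
      rintro y ⟨⟨hy1, hy2⟩, -⟩ z ⟨⟨hz1, hz2⟩, -⟩ hyz
      apply (A.c i).injOn hy1 hz1
      apply E.injOn hy2 hz2
      rw [hE2 _ hy2, hE2 _ hz2, (A.c i).left_inv hy1, (A.c i).left_inv hz1]
      exact hyz
    obtain ⟨U, hU, hxU, hUi, hUp⟩ := hinj
    have o1 : f '' U ∈ 𝓝 c := by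
      rw [← hxc]
      exact (Q.hf x hx).nhds_le (Q.not_const hx) (image_mem_map (hU.mem_nhds hxU))
    have o2 : {c : ℂ | ∃ x ∈ Uᶜ, x ≠ p0 ∧ f x = c}ᶜ ∈ 𝓝 c := by
      refine (Q.closed_image hU.isClosed_compl).isOpen_compl.mem_nhds ?_
      rintro ⟨y, hy1, hy2, hy3⟩
      have : y = x := hu y ⟨hy2, hy3⟩
      exact hy1 (by rw [this]; exact hxU)
    have o3 : Cᶜ ∈ 𝓝 c := hCf.isClosed.isOpen_compl.mem_nhds hcC
    filter_upwards [o1, o2, o3] with d hd1 hd2 hd3
    obtain ⟨y, hyU, hyd⟩ := hd1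
    refine ⟨⟨y, ⟨hUp hyU, hyd⟩, ?_⟩, hd3⟩
    rintro z ⟨hz1, hz2⟩
    have hzU : z ∈ U := by
      by_contra h
      exact hd2 ⟨z, h, hz1, hz2⟩
    exact hUi hzU hyU (hz2.trans hyd.symm)
  have hne : (Cᶜ ∩ (E1 f p0 ∩ Cᶜ)).Nonempty := by
    obtain ⟨R, hR⟩ := Q.large
    obtain ⟨R', hR'⟩ := hCf.isBounded.exists_norm_le
    have h1 : ((max (max R R') 0 + 1 : ℝ) : ℂ) ∈ Cᶜ := by
      intro h
      have h2 := hR' _ h
      rw [Complex.norm_real, Real.norm_of_nonneg (by positivity)] at h2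
      have := (le_max_right R R').trans (le_max_left (max R R') 0)
      linarith
    refine ⟨_, h1, hR _ ?_, h1⟩
    rw [Complex.norm_real, Real.norm_of_nonneg (by positivity)]
    have := (le_max_left R R').trans (le_max_left (max R R') 0)
    linarith
  have hsub : Cᶜ ⊆ E1 f p0 ∩ Cᶜ := by
    refine hcon.isPreconnected.subset_left_of_subset_union hopen Q.isClosed_E1.isOpen_compl ?_ ?_
      hne
    · rw [Set.disjoint_left]
      intro c hc hc'
      exact hc' hc.1
    · intro c hc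
      by_cases h : c ∈ E1 f p0
      · exact Or.inl ⟨h, hc⟩
      · exact Or.inr h
  have h1 : closure Cᶜ ⊆ E1 f p0 :=
    Q.isClosed_E1.closure_subset_iff.2 fun c hc => (hsub hc).1
  rw [hden.closure_eq] at h1
  exact univ_subset_iff.1 h1

end OnePole

end CAtl

end

end Crest.Agent.R235.RS
end

-- ▼ part R235/RSSph2_538
section

/-!
Row 235, package RS (helper538): a closed Riemann surface with a meromorphic function which has
exactly one simple pole is the sphere, part 2.
-/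

set_option autoImplicit false

open Set Filter Topology Function Metric

universe u v

namespace Crest.Agent.R235.RS

noncomputable section

namespace CAtl

variable {N : Type u} [TopologicalSpace N] {A : CAtl.{u, v} N}

/-- change of chart for maps from the plane -/
theorem diff_chart {φ : ℂ → N} {z : ℂ} (hc : ContinuousAt φ z) {i j : A.ι}
    (hi : φ z ∈ (A.c i).source) (hj : φ z ∈ (A.c j).source) {d : ℂ}
    (hd : HasDerivAt (fun w => A.c i (φ w)) d z) :
    HasDerivAt (fun w => A.c j (φ w)) (deriv (A.tr i j) (A.c i (φ z)) * d) z := by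
  have hdom := A.c_mem_dom hi hj
  have h1 := (A.tr_diffAt hdom).hasDerivAt
  have h2 := HasDerivAt.comp (h₂ := A.tr i j) z h1 hd
  refine h2.congr_of_eventuallyEq ?_
  filter_upwards [hc.eventually ((A.c i).open_source.mem_nhds hi)] with w hw
  show A.c j (φ w) = A.tr i j (A.c i (φ w))
  rw [A.tr_c hw]

/-- `φ` is a local holomorphic coordinate at `z` -/
def Loc (A : CAtl.{u, v} N) (φ : ℂ → N) (z : ℂ) : Prop :=
  ∃ i, φ z ∈ (A.c i).source ∧ ∃ d : ℂ, d ≠ 0 ∧ HasDerivAt (fun w => A.c i (φ w)) d z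

theorem hol_of_loc {φ : ℂ → N} (hc : Continuous φ) (h : ∀ z, A.Loc φ z) : A.Hol φ := by
  refine ⟨hc, fun i z hz => ?_⟩
  obtain ⟨j, hj, d, -, hd⟩ := h z
  exact (diff_chart hc.continuousAt hj hz hd).differentiableAt.differentiableWithinAt

theorem imm_of_loc {φ : ℂ → N} (hc : Continuous φ) (h : ∀ z, A.Loc φ z) : A.Imm φ := by
  intro i z hz
  obtain ⟨j, hj, d, hd0, hd⟩ := h z
  rw [(diff_chart hc.continuousAt hj hz hd).deriv]
  exact mul_ne_zero (A.deriv_tr_ne (A.c_mem_dom hj hz)) hd0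

namespace OnePole

variable {f : N → ℂ} {p0 : N} (Q : OnePole A f p0)

variable [T2Space N] [CompactSpace N] [PreconnectedSpace N]

include Q in
theorem exists_psi : ∃ ψ : ℂ → N, Continuous ψ ∧ (∀ c, ψ c ≠ p0) ∧ (∀ c, f (ψ c) = c) ∧
    ∀ x, x ≠ p0 → ψ (f x) = x := by
  have h : ∀ c : ℂ, ∃! x, x ≠ p0 ∧ f x = c := fun c => by
    have : c ∈ E1 f p0 := by rw [Q.E1_univ]; trivial
    exact this
  choose ψ hψ hu using h
  have e1 : ∀ x, x ≠ p0 → ψ (f x) = x := fun x hx => (hu (f x) x ⟨hx, rfl⟩).symm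
  refine ⟨ψ, ?_, fun c => (hψ c).1, fun c => (hψ c).2, e1⟩
  refine continuous_iff_isClosed.2 fun K hK => ?_
  have h1 : ψ ⁻¹' K = {c : ℂ | ∃ x ∈ K, x ≠ p0 ∧ f x = c} := by
    ext c
    constructor
    · intro hc
      exact ⟨ψ c, hc, (hψ c).1, (hψ c).2⟩
    · rintro ⟨x, hx, hxp, rfl⟩
      show ψ (f x) ∈ K
      rw [e1 x hxp]
      exact hx
  rw [h1]
  exact Q.closed_image hK

include Q in
/-- the inverse is holomorphic -/
theorem loc_psi {ψ : ℂ → N} (hc : Continuous ψ) (hp : ∀ c, ψ c ≠ p0) (hf : ∀ c, f (ψ c) = c)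
    (c : ℂ) : A.Loc ψ c := by
  -- points where the derivative of `f` does not vanish
  have reg : ∀ c, A.Reg f (ψ c) → A.Loc ψ c := by
    intro c hr
    obtain ⟨i, hi, hd⟩ := hr
    have ha := (Q.hf (ψ c) (hp c)).all hi
    refine ⟨i, hi, _, inv_ne_zero hd, ?_⟩
    have hcc : ContinuousAt (fun w => A.c i (ψ w)) c :=
      ContinuousAt.comp (g := A.c i) ((A.c i).continuousAt hi) hc.continuousAt
    refine HasDerivAt.of_local_left_inverse (f := fun z => f ((A.c i).symm z)) hcc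
      ha.differentiableAt.hasDerivAt hd ?_
    filter_upwards [hc.continuousAt.eventually ((A.c i).open_source.mem_nhds hi)] with w hw
    rw [(A.c i).left_inv hw, hf]
  -- finitely many other values
  have hfin : (f '' {x | x ≠ p0 ∧ ¬ A.Reg f x}).Finite := Q.finite_crit.image f
  have hev : ∀ᶠ w in 𝓝[≠] c, A.Reg f (ψ w) := by
    have h1 : (f '' {x | x ≠ p0 ∧ ¬ A.Reg f x} \ {c})ᶜ ∈ 𝓝 c := by
      refine (hfin.subset sdiff_subset).isClosed.isOpen_compl.mem_nhds ?_
      intro h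
      exact h.2 rfl
    rw [eventually_nhdsWithin_iff]
    filter_upwards [h1] with w hw hne
    by_contra h
    exact hw ⟨⟨ψ w, ⟨hp w, h⟩, hf w⟩, hne⟩
  obtain ⟨i, hi⟩ := A.cover (ψ c)
  have hcc : ContinuousAt (fun w => A.c i (ψ w)) c :=
    ContinuousAt.comp (g := A.c i) ((A.c i).continuousAt hi) hc.continuousAt
  have hs : ∀ᶠ w in 𝓝[≠] c, ψ w ∈ (A.c i).source :=
    (hc.continuousAt.eventually ((A.c i).open_source.mem_nhds hi)).filter_mono
      nhdsWithin_le_nhds
  have hdiff : ∀ᶠ w in 𝓝[≠] c, DifferentiableAt ℂ (fun w => A.c i (ψ w)) w := by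
    filter_upwards [hev, hs] with w hw hws
    obtain ⟨j, hj, d, -, hd⟩ := reg w hw
    exact (diff_chart hc.continuousAt hj hws hd).differentiableAt
  have ha := Complex.analyticAt_of_differentiable_on_punctured_nhds_of_continuousAt hdiff hcc
  refine ⟨i, hi, _, ?_, ha.differentiableAt.hasDerivAt⟩
  intro h0
  have h1 := ((Q.hf (ψ c) (hp c)).all hi).differentiableAt.hasDerivAt
  have h2 := HasDerivAt.comp (h₂ := fun z => f ((A.c i).symm z)) c h1
    ha.differentiableAt.hasDerivAt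
  rw [h0, mul_zero] at h2
  have h3 : ((fun z => f ((A.c i).symm z)) ∘ fun w => A.c i (ψ w)) =ᶠ[𝓝 c] id := by
    filter_upwards [hc.continuousAt.eventually ((A.c i).open_source.mem_nhds hi)] with w hw
    show f ((A.c i).symm (A.c i (ψ w))) = w
    rw [(A.c i).left_inv hw, hf]
  have h4 := (h2.congr_of_eventuallyEq h3.symm).unique (hasDerivAt_id c)
  exact zero_ne_one h4

include Q in
/-- **a closed Riemann surface with a meromorphic function with one simple pole is the sphere** -/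
theorem isSph : A.IsSph := by
  classical
  obtain ⟨ψ, hc, hp, hf, he⟩ := Q.exists_psi
  have hloc := Q.loc_psi hc hp hf
  set χ : ℂ → N := fun w => if w = 0 then p0 else ψ w⁻¹ with hχ
  have hχ0 : χ 0 = p0 := if_pos rfl
  have hχ1 : ∀ w, w ≠ 0 → χ w = ψ w⁻¹ := fun w hw => if_neg hw
  -- near zero
  have h0t : (0 : ℂ) ∈ Q.E.target := by rw [← Q.zero]; exact Q.E.map_source Q.memE
  have hsz : Q.E.symm 0 = A.c Q.i p0 := by rw [← Q.zero, Q.E.left_inv Q.memE]
  have hnear : ∀ w ∈ Q.E.target, χ w = (A.c Q.i).symm (Q.E.symm w) := by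
    intro w hw
    by_cases hw0 : w = 0
    · rw [hw0, hχ0, hsz, (A.c Q.i).left_inv Q.mem]
    · rw [hχ1 w hw0]
      have hz := Q.E.map_target hw
      have hEz : Q.E (Q.E.symm w) = w := Q.E.right_inv hw
      have hz0 : Q.E.symm w ≠ A.c Q.i p0 := by
        intro h
        rw [h, Q.zero] at hEz
        exact hw0 hEz.symm
      have h1 := Q.eq _ hz hz0
      rw [hEz] at h1
      rw [← h1]
      refine he _ fun h => hz0 ?_
      have h5 := congrArg (A.c Q.i) h
      rwa [(A.c Q.i).right_inv (Q.sub hz)] at h5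
  have hcχ : Continuous χ := by
    refine continuous_iff_continuousAt.2 fun w => ?_
    by_cases hw : w = 0
    · subst hw
      have h1 : ContinuousAt (fun w => (A.c Q.i).symm (Q.E.symm w)) 0 := by
        refine ContinuousAt.comp (g := (A.c Q.i).symm) ?_ (Q.E.symm.continuousAt h0t)
        exact (A.c Q.i).symm.continuousAt (Q.sub (Q.E.map_target h0t))
      refine h1.congr ?_
      filter_upwards [Q.E.open_target.mem_nhds h0t] with w hw
      exact (hnear w hw).symm
    · have h1 : ContinuousAt (fun w => ψ w⁻¹) w :=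
        ContinuousAt.comp (g := ψ) hc.continuousAt (continuousAt_inv₀ hw)
      refine h1.congr ?_
      filter_upwards [isOpen_ne.mem_nhds hw] with w' hw'
      exact (hχ1 w' hw').symm
  have hlχ : ∀ w, A.Loc χ w := by
    intro w
    by_cases hw : w = 0
    · subst hw
      refine ⟨Q.i, by rw [hχ0]; exact Q.mem, ?_⟩
      obtain ⟨d, hd, hd'⟩ := Q.der _ Q.memE
      refine ⟨d⁻¹, inv_ne_zero hd, ?_⟩
      have h1 : HasDerivAt Q.E.symm d⁻¹ 0 := by
        refine Q.E.hasDerivAt_symm h0t hd ?_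
        rw [hsz]
        exact hd'
      refine h1.congr_of_eventuallyEq ?_
      filter_upwards [Q.E.open_target.mem_nhds h0t] with w hw
      rw [hnear w hw, (A.c Q.i).right_inv (Q.sub (Q.E.map_target hw))]
    · obtain ⟨i, hi, d, hd, hd'⟩ := hloc w⁻¹
      refine ⟨i, by rw [hχ1 w hw]; exact hi, d * (-(w ^ 2)⁻¹), ?_, ?_⟩
      · exact mul_ne_zero hd (neg_ne_zero.2 (inv_ne_zero (pow_ne_zero 2 hw)))
      · have h1 := HasDerivAt.comp (h₂ := fun w => A.c i (ψ w)) w hd' (hasDerivAt_inv hw)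
        refine h1.congr_of_eventuallyEq ?_
        filter_upwards [isOpen_ne.mem_nhds hw] with w' hw'
        show A.c i (χ w') = A.c i (ψ w'⁻¹)
        rw [hχ1 w' hw']
  have hinjψ : Injective ψ := fun a b h => by rw [← hf a, ← hf b, h]
  refine ⟨ψ, χ, hol_of_loc hc hloc, hol_of_loc hcχ hlχ, imm_of_loc hc hloc, imm_of_loc hcχ hlχ,
    hinjψ, ?_, ?_, ?_, ?_⟩
  · intro a b hab
    by_cases ha : a = 0
    · by_cases hb : b = 0
      · rw [ha, hb]
      · rw [ha, hχ0, hχ1 b hb] at hab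
        exact absurd hab.symm (hp _)
    · by_cases hb : b = 0
      · rw [hb, hχ0, hχ1 a ha] at hab
        exact absurd hab (hp _)
      · rw [hχ1 a ha, hχ1 b hb] at hab
        exact inv_injective (hinjψ hab)
  · intro z hz
    rw [hχ1 _ (inv_ne_zero hz), inv_inv]
  · rw [hχ0]
    rintro ⟨c, hc⟩
    exact hp c hc
  · intro x
    by_cases hx : x = p0
    · right; rw [hχ0, hx]
    · left; exact ⟨f x, he x hx⟩

end OnePole

end CAtl

end

end Crest.Agent.R235.RS
end

-- ▼ part R235/RSMer1_538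
section

/-!
Row 235, package RS (helper538): if every holomorphic one-form vanishes, every `(0,1)`-form
supported in a chart is `∂̄` of a function (from `POISSON`).
-/

set_option autoImplicit false

open Set Filter Topology Function Metric MeasureTheory

universe u v

namespace Crest.Agent.R235.RS

noncomputable section

open Complex (I)

theorem integral_fderiv_zero {g : ℂ → ℂ} (hg : ContDiff ℝ 1 g)
    (hc : HasCompactSupport g) (v : ℂ) : ∫ x, fderiv ℝ g x v = 0 := by
  have hcont : Continuous fun x => fderiv ℝ g x v :=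
    (hg.continuous_fderiv one_ne_zero).clm_apply continuous_const
  have hcs : HasCompactSupport fun x => fderiv ℝ g x v := hc.fderiv_apply ℝ v
  have h := integral_smul_fderiv_eq_neg_fderiv_smul_of_integrable (μ := volume) (𝕜 := ℝ)
    (f := fun _ : ℂ => (1 : ℝ))
    (g := g) (v := v) (by simp) (by simpa using hcont.integrable_of_hasCompactSupport hcs)
    (by simpa using hg.continuous.integrable_of_hasCompactSupport hc)
    (fun x _ => differentiableAt_const _)
    (fun x _ => (hg.differentiable one_ne_zero).differentiableAt)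
  simpa using h

/-- `db` of a smooth function is smooth -/
theorem contDiff_db {F : ℂ → ℂ} (hF : ContDiff ℝ (⊤ : ℕ∞) F) : ContDiff ℝ (⊤ : ℕ∞) (db F) := by
  have h1 : ContDiff ℝ (⊤ : ℕ∞) (fderiv ℝ F) := hF.fderiv_right (by simp)
  unfold db
  exact ((h1.clm_apply contDiff_const).add
    (contDiff_const.mul (h1.clm_apply contDiff_const))).div_const 2

theorem contDiff_dz {F : ℂ → ℂ} (hF : ContDiff ℝ (⊤ : ℕ∞) F) : ContDiff ℝ (⊤ : ℕ∞) (dz F) := by
  have h1 : ContDiff ℝ (⊤ : ℕ∞) (fderiv ℝ F) := hF.fderiv_right (by simp)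
  unfold dz
  exact ((h1.clm_apply contDiff_const).sub
    (contDiff_const.mul (h1.clm_apply contDiff_const))).div_const 2

theorem tsupport_dz {F : ℂ → ℂ} : tsupport (dz F) ⊆ tsupport F := by
  refine closure_minimal (fun z hz => ?_) (isClosed_tsupport F)
  by_contra h
  apply hz
  have h1 : F =ᶠ[𝓝 z] fun _ => (0 : ℂ) := by
    filter_upwards [(isClosed_tsupport F).isOpen_compl.mem_nhds h] with w hw
    exact image_eq_zero_of_notMem_tsupport hw
  show dz F z = 0
  rw [dz_congr h1]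
  simp [dz]

theorem integral_dz {g : ℂ → ℂ} (hg : ContDiff ℝ (⊤ : ℕ∞) g) (hc : HasCompactSupport g) :
    ∫ x, dz g x = 0 := by
  have hg1 : ContDiff ℝ 1 g := hg.of_le (by exact_mod_cast le_top)
  have hcont : ∀ v : ℂ, Continuous fun x => fderiv ℝ g x v := fun v =>
    (hg1.continuous_fderiv one_ne_zero).clm_apply continuous_const
  have hint : ∀ v : ℂ, Integrable fun x => fderiv ℝ g x v := fun v =>
    (hcont v).integrable_of_hasCompactSupport (hc.fderiv_apply ℝ v)
  have h1 : ∫ x, dz g x = (∫ x, (fderiv ℝ g x 1 - I * fderiv ℝ g x I)) / 2 := by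
    unfold dz
    exact integral_div 2 _
  rw [h1, integral_sub (hint 1) ((hint I).const_mul I), integral_const_mul,
    integral_fderiv_zero hg1 hc, integral_fderiv_zero hg1 hc]
  simp

/-- the complex Laplacian from the real one -/
theorem lapX_cx {u₁ u₂ : ℂ → ℝ} {z : ℂ} (h₁ : ContDiffAt ℝ 2 u₁ z) (h₂ : ContDiffAt ℝ 2 u₂ z) :
    lapX (fun w => (u₁ w : ℂ) + u₂ w * I) z = CAtl.lap u₁ z + CAtl.lap u₂ z * I := by
  set L1 : ℝ →L[ℝ] ℂ := Complex.ofRealCLM with hL1
  set L2 : ℝ →L[ℝ] ℂ := Complex.ofRealCLM.smulRight I with hL2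
  have e : (fun w => (u₁ w : ℂ) + u₂ w * I) = (L1 ∘ u₁) + (L2 ∘ u₂) := by
    funext w
    simp [hL1, hL2]
  unfold lapX CAtl.lap
  rw [e, iteratedFDeriv_add_apply (L1.contDiff.contDiffAt.comp z h₁) (L2.contDiff.contDiffAt.comp z h₂),
    L1.iteratedFDeriv_comp_left h₁ le_rfl, L2.iteratedFDeriv_comp_left h₂ le_rfl]
  simp [hL1, hL2]
  ring

namespace CAtl

variable {N : Type u} [TopologicalSpace N] {A : CAtl.{u, v} N}

/-- a complex valued function in the chart `j` -/
def UU (A : CAtl.{u, v} N) (u₁ u₂ : N → ℝ) (j : A.ι) (z : ℂ) : ℂ :=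
  (u₁ ((A.c j).symm z) : ℂ) + u₂ ((A.c j).symm z) * I

theorem UU_smooth {u₁ u₂ : N → ℝ} (h₁ : A.Smooth u₁) (h₂ : A.Smooth u₂) {j : A.ι} {z : ℂ}
    (hz : z ∈ (A.c j).target) : ContDiffAt ℝ (⊤ : ℕ∞) (A.UU u₁ u₂ j) z := by
  have e1 := (h₁ j).contDiffAt ((A.c j).open_target.mem_nhds hz)
  have e2 := (h₂ j).contDiffAt ((A.c j).open_target.mem_nhds hz)
  exact (Complex.ofRealCLM.contDiff.contDiffAt.comp z e1).add
    ((Complex.ofRealCLM.contDiff.contDiffAt.comp z e2).mul contDiffAt_const)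

theorem UU_lap {u₁ u₂ : N → ℝ} (h₁ : A.Smooth u₁) (h₂ : A.Smooth u₂) {j : A.ι} {x : N}
    (hx : x ∈ (A.c j).source) : lapX (A.UU u₁ u₂ j) (A.c j x) =
      A.lapC u₁ j x + A.lapC u₂ j x * I := by
  have hz := (A.c j).map_source hx
  have e1 := ((h₁ j).contDiffAt ((A.c j).open_target.mem_nhds hz)).of_le
    (show (2 : WithTop ℕ∞) ≤ ((⊤ : ℕ∞) : WithTop ℕ∞) from ENat.LEInfty.out)
  have e2 := ((h₂ j).contDiffAt ((A.c j).open_target.mem_nhds hz)).of_le
    (show (2 : WithTop ℕ∞) ≤ ((⊤ : ℕ∞) : WithTop ℕ∞) from ENat.LEInfty.out)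
  exact lapX_cx e1 e2

theorem UU_diff {u₁ u₂ : N → ℝ} (h₁ : A.Smooth u₁) (h₂ : A.Smooth u₂) {j : A.ι} {z : ℂ}
    (hz : z ∈ (A.c j).target) : DifferentiableAt ℝ (A.UU u₁ u₂ j) z :=
  (UU_smooth h₁ h₂ hz).differentiableAt (by simp)

theorem UU_tr (u₁ u₂ : N → ℝ) {i j : A.ι} {z : ℂ}
    (hz : z ∈ A.dom i j) : A.UU u₁ u₂ i =ᶠ[𝓝 z] fun w => A.UU u₁ u₂ j (A.tr i j w) := by
  filter_upwards [(A.isOpen_dom i j).mem_nhds hz] with w hw
  unfold UU
  rw [A.symm_tr hw]

theorem UU_db {u₁ u₂ : N → ℝ} (h₁ : A.Smooth u₁) (h₂ : A.Smooth u₂) {i j : A.ι} {z : ℂ}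
    (hz : z ∈ A.dom i j) : db (A.UU u₁ u₂ i) z =
      db (A.UU u₁ u₂ j) (A.tr i j z) * (starRingEnd ℂ) (deriv (A.tr i j) z) := by
  rw [db_congr (UU_tr u₁ u₂ hz)]
  exact db_comp (UU_diff h₁ h₂ (A.tr_mem hz).1) (A.tr_diffAt hz)

open Classical in
/-- the coefficient in the chart `j` of the `(0,1)`-form `g dz̄` of the chart `i` -/
def gf (A : CAtl.{u, v} N) (i : A.ι) (g : ℂ → ℂ) (j : A.ι) (z : ℂ) : ℂ :=
  if z ∈ A.dom j i then g (A.tr j i z) * (starRingEnd ℂ) (deriv (A.tr j i) z) else 0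

theorem gf_self {i : A.ι} {g : ℂ → ℂ} {z : ℂ} (hz : z ∈ (A.c i).target) : A.gf i g i z = g z := by
  have h1 : z ∈ A.dom i i := ⟨hz, (A.c i).map_target hz⟩
  have h2 : A.tr i i =ᶠ[𝓝 z] id := by
    filter_upwards [(A.c i).open_target.mem_nhds hz] with w hw
    exact A.tr_self hw
  unfold gf
  rw [if_pos h1, h2.deriv_eq, A.tr_self hz]
  simp

theorem dom_comp {i j k : A.ι} {z : ℂ} (hz : z ∈ A.dom i j) :
    A.tr i j z ∈ A.dom j k ↔ z ∈ A.dom i k := by
  constructor
  · intro h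
    refine ⟨hz.1, ?_⟩
    have := h.2
    rwa [A.symm_tr hz] at this
  · intro h
    refine ⟨(A.tr_mem hz).1, ?_⟩
    rw [A.symm_tr hz]
    exact h.2

theorem deriv_tr_comp {i j k : A.ι} {z : ℂ} (hz : z ∈ A.dom i j) (hk : z ∈ A.dom i k) :
    deriv (A.tr i k) z = deriv (A.tr j k) (A.tr i j z) * deriv (A.tr i j) z := by
  have h1 := (A.tr_diffAt ((dom_comp hz).2 hk)).hasDerivAt
  have h2 := (A.tr_diffAt hz).hasDerivAt
  have h3 := HasDerivAt.comp (h₂ := A.tr j k) z h1 h2
  have h4 : A.tr i k =ᶠ[𝓝 z] (A.tr j k ∘ A.tr i j) := by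
    filter_upwards [(A.isOpen_dom i j).mem_nhds hz] with w hw
    exact (A.tr_tr hw).symm
  rw [h4.deriv_eq]
  exact h3.deriv

theorem gf_tr {k : A.ι} {g : ℂ → ℂ} {i j : A.ι} {z : ℂ} (hz : z ∈ A.dom i j) :
    A.gf k g i z = A.gf k g j (A.tr i j z) * (starRingEnd ℂ) (deriv (A.tr i j) z) := by
  unfold gf
  by_cases h : z ∈ A.dom i k
  · rw [if_pos h, if_pos ((dom_comp hz).2 h), A.tr_tr hz, deriv_tr_comp hz h, map_mul]
    ring
  · rw [if_neg h, if_neg (fun h' => h ((dom_comp hz).1 h')), zero_mul]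

theorem gf_zero [T2Space N] {k : A.ι} {g : ℂ → ℂ} (hc : HasCompactSupport g)
    (hs : tsupport g ⊆ (A.c k).target) {i : A.ι} {z : ℂ} (hz : z ∈ (A.c i).target)
    (hzk : z ∉ A.dom i k) : ∀ᶠ w in 𝓝 z, A.gf k g i w = 0 := by
  have hK : IsCompact ((A.c k).symm '' (tsupport g)) :=
    IsCompact.image_of_continuousOn hc ((A.c k).continuousOn_symm.mono hs)
  have hx : (A.c i).symm z ∉ (A.c k).symm '' (tsupport g) := by
    rintro ⟨w, hw, hw'⟩
    apply hzk
    refine ⟨hz, ?_⟩
    rw [← hw']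
    exact (A.c k).map_target (hs hw)
  have hc : ContinuousAt (A.c i).symm z := (A.c i).symm.continuousAt hz
  filter_upwards [hc.eventually (hK.isClosed.isOpen_compl.mem_nhds hx)] with w hw
  unfold gf
  split_ifs with h
  · rw [image_eq_zero_of_notMem_tsupport (f := g), zero_mul]
    intro h1
    apply hw
    refine ⟨_, h1, ?_⟩
    exact A.symm_tr h
  · rfl

/-- the coefficient of the one-form `conj (∂̄u - g dz̄)` -/
def hf (A : CAtl.{u, v} N) (u₁ u₂ : N → ℝ) (k : A.ι) (g : ℂ → ℂ) (j : A.ι) (z : ℂ) : ℂ :=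
  (starRingEnd ℂ) (db (A.UU u₁ u₂ j) z - A.gf k g j z)

theorem hf_tr {u₁ u₂ : N → ℝ} (h₁ : A.Smooth u₁) (h₂ : A.Smooth u₂) {k : A.ι} {g : ℂ → ℂ}
    {i j : A.ι} {z : ℂ} (hz : z ∈ A.dom i j) :
    A.hf u₁ u₂ k g i z = A.hf u₁ u₂ k g j (A.tr i j z) * deriv (A.tr i j) z := by
  unfold hf
  rw [UU_db h₁ h₂ hz, gf_tr hz, ← sub_mul, map_mul, Complex.conj_conj]

/-- the form is holomorphic in the chart `k` -/
theorem hf_self {u₁ u₂ : N → ℝ} (h₁ : A.Smooth u₁) (h₂ : A.Smooth u₂) {k : A.ι} {g : ℂ → ℂ}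
    (hg : ContDiff ℝ (⊤ : ℕ∞) g)
    (hl : ∀ x ∈ (A.c k).source, (A.lapC u₁ k x : ℂ) + A.lapC u₂ k x * I = 4 * dz g (A.c k x))
    {z : ℂ} (hz : z ∈ (A.c k).target) : DifferentiableAt ℂ (A.hf u₁ u₂ k g k) z := by
  have hU := UU_smooth h₁ h₂ hz
  have hU2 : ContDiffAt ℝ 2 (A.UU u₁ u₂ k) z := hU.of_le ENat.LEInfty.out
  have hd1 := (fderiv_db hU2).differentiableAt
  have hd2 : DifferentiableAt ℝ g z := (hg.differentiable (by simp)).differentiableAt
  have h3 : DifferentiableAt ℂ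
      (fun w => (starRingEnd ℂ) ((fun w => db (A.UU u₁ u₂ k) w - g w) w)) z := by
    refine diff_conj (hd1.sub hd2) ?_
    rw [dz_sub hd1 hd2]
    have h4 : dz (fun w => db (A.UU u₁ u₂ k) w) z = lapX (A.UU u₁ u₂ k) z / 4 := dz_db hU2
    rw [h4]
    have h5 := UU_lap h₁ h₂ ((A.c k).map_target hz)
    rw [(A.c k).right_inv hz] at h5
    have h6 := hl _ ((A.c k).map_target hz)
    rw [(A.c k).right_inv hz] at h6
    rw [h5, h6]
    ring
  refine h3.congr_of_eventuallyEq ?_
  filter_upwards [(A.c k).open_target.mem_nhds hz] with w hw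
  show (starRingEnd ℂ) (db (A.UU u₁ u₂ k) w - A.gf k g k w) = _
  rw [gf_self hw]

theorem hf_diff [T2Space N] {u₁ u₂ : N → ℝ} (h₁ : A.Smooth u₁) (h₂ : A.Smooth u₂) {k : A.ι}
    {g : ℂ → ℂ} (hg : ContDiff ℝ (⊤ : ℕ∞) g) (hc : HasCompactSupport g)
    (hs : tsupport g ⊆ (A.c k).target)
    (hl : ∀ x ∈ (A.c k).source, (A.lapC u₁ k x : ℂ) + A.lapC u₂ k x * I = 4 * dz g (A.c k x))
    (hl1 : ∀ j, ∀ x ∈ (A.c j).source, x ∉ (A.c k).source → A.lapC u₁ j x = 0)
    (hl2 : ∀ j, ∀ x ∈ (A.c j).source, x ∉ (A.c k).source → A.lapC u₂ j x = 0)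
    (j : A.ι) {z : ℂ} (hz : z ∈ (A.c j).target) : DifferentiableAt ℂ (A.hf u₁ u₂ k g j) z := by
  by_cases hzk : z ∈ A.dom j k
  · have h3 := hf_self h₁ h₂ hg hl (A.tr_mem hzk).1
    have h4 : DifferentiableAt ℂ
        (fun w => A.hf u₁ u₂ k g k (A.tr j k w) * deriv (A.tr j k) w) z := by
      refine DifferentiableAt.mul ?_ (A.tr_analyticAt hzk).deriv.differentiableAt
      exact DifferentiableAt.comp (g := A.hf u₁ u₂ k g k) z h3 (A.tr_diffAt hzk)
    refine h4.congr_of_eventuallyEq ?_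
    filter_upwards [(A.isOpen_dom j k).mem_nhds hzk] with w hw
    exact hf_tr h₁ h₂ hw
  · have hU := UU_smooth h₁ h₂ hz
    have hU2 : ContDiffAt ℝ 2 (A.UU u₁ u₂ j) z := hU.of_le ENat.LEInfty.out
    have hd1 := (fderiv_db hU2).differentiableAt
    have hx : (A.c j).symm z ∉ (A.c k).source := fun h => hzk ⟨hz, h⟩
    have h3 : DifferentiableAt ℂ (fun w => (starRingEnd ℂ) (db (A.UU u₁ u₂ j) w)) z := by
      refine diff_conj hd1 ?_
      rw [dz_db hU2]
      have h5 := UU_lap h₁ h₂ ((A.c j).map_target hz)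
      rw [(A.c j).right_inv hz, hl1 j _ ((A.c j).map_target hz) hx,
        hl2 j _ ((A.c j).map_target hz) hx] at h5
      rw [h5]
      simp
    refine h3.congr_of_eventuallyEq ?_
    filter_upwards [gf_zero hc hs hz hzk] with w hw
    show (starRingEnd ℂ) (db (A.UU u₁ u₂ j) w - A.gf k g j w) = _
    rw [hw, sub_zero]

/-- **solution of the `∂̄` equation** -/
theorem exists_db [T2Space N] (hP : A.POISSON) (h0 : ∀ ω : A.HForm, ω.IsZero) (k : A.ι)
    {g : ℂ → ℂ} (hg : ContDiff ℝ (⊤ : ℕ∞) g) (hc : HasCompactSupport g)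
    (hs : tsupport g ⊆ (A.c k).target) :
    ∃ u₁ u₂ : N → ℝ, A.Smooth u₁ ∧ A.Smooth u₂ ∧
      ∀ j, ∀ z ∈ (A.c j).target, db (A.UU u₁ u₂ j) z = A.gf k g j z := by
  have hρ : ContDiff ℝ (⊤ : ℕ∞) (fun z => 4 * dz g z) := contDiff_const.mul (contDiff_dz hg)
  have hρs : tsupport (fun z => 4 * dz g z) ⊆ tsupport g := by
    refine (closure_mono ?_).trans tsupport_dz
    intro z hz h
    apply hz
    show 4 * dz g z = 0
    rw [h, mul_zero]
  have hρc : HasCompactSupport fun z => 4 * dz g z :=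
    IsCompact.of_isClosed_subset hc (isClosed_tsupport _) hρs
  have hint : ∫ z, 4 * dz g z = 0 := by
    rw [integral_const_mul, integral_dz hg hc, mul_zero]
  have hi : Integrable (fun z => 4 * dz g z) := hρ.continuous.integrable_of_hasCompactSupport hρc
  have hre : ∫ z, (4 * dz g z).re = 0 := by
    have h1 := Complex.reCLM.integral_comp_comm hi
    rw [hint, map_zero] at h1
    exact h1
  have him : ∫ z, (4 * dz g z).im = 0 := by
    have h1 := Complex.imCLM.integral_comp_comm hi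
    rw [hint, map_zero] at h1
    exact h1
  have s1 : tsupport (fun z => (4 * dz g z).re) ⊆ tsupport fun z => 4 * dz g z := by
    refine closure_mono fun z hz h => hz ?_
    show (4 * dz g z).re = 0
    have h' : 4 * dz g z = 0 := h
    rw [h', Complex.zero_re]
  have s2 : tsupport (fun z => (4 * dz g z).im) ⊆ tsupport fun z => 4 * dz g z := by
    refine closure_mono fun z hz h => hz ?_
    show (4 * dz g z).im = 0
    have h' : 4 * dz g z = 0 := h
    rw [h', Complex.zero_im]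
  obtain ⟨u₁, h₁, hu1, hu1'⟩ := hP k (fun z => (4 * dz g z).re)
    (Complex.reCLM.contDiff.comp hρ) (IsCompact.of_isClosed_subset hρc (isClosed_tsupport _) s1)
    ((s1.trans hρs).trans hs) hre
  obtain ⟨u₂, h₂, hu2, hu2'⟩ := hP k (fun z => (4 * dz g z).im)
    (Complex.imCLM.contDiff.comp hρ) (IsCompact.of_isClosed_subset hρc (isClosed_tsupport _) s2)
    ((s2.trans hρs).trans hs) him
  refine ⟨u₁, u₂, h₁, h₂, ?_⟩
  have hl : ∀ x ∈ (A.c k).source, (A.lapC u₁ k x : ℂ) + A.lapC u₂ k x * I =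
      4 * dz g (A.c k x) := by
    intro x hx
    rw [hu1 x hx, hu2 x hx]
    exact Complex.re_add_im _
  intro j z hz
  have h3 := h0 ⟨A.hf u₁ u₂ k g, fun i w hw =>
    (hf_diff h₁ h₂ hg hc hs hl hu1' hu2' i hw).differentiableWithinAt,
    fun i j w hw => hf_tr h₁ h₂ hw⟩ j z hz
  have h4 : (starRingEnd ℂ) (db (A.UU u₁ u₂ j) z - A.gf k g j z) = 0 := h3
  rw [map_eq_zero, sub_eq_zero] at h4
  exact h4

end CAtl

end

end Crest.Agent.R235.RS
end

-- ▼ part R235/RSMer2_538

/-!
Row 235, package RS (helper538): if every holomorphic one-form vanishes there is a meromorphic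
function with one simple pole; the trichotomy (from `POISSON`).
-/

set_option autoImplicit false

open Set Filter Topology Function Metric MeasureTheory

universe u v

namespace Crest.Agent.R235.RS

noncomputable section

open Complex (I)

/-- `∂̄ (F G)` for holomorphic `G` -/
theorem db_mul_hol {F G : ℂ → ℂ} {z : ℂ} (hF : DifferentiableAt ℝ F z)
    (hG : DifferentiableAt ℂ G z) : db (fun w => F w * G w) z = db F z * G z := by
  have h1 := hF.hasFDerivAt.mul (hG.restrictScalars ℝ).hasFDerivAt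
  have h2 : ∀ v, fderiv ℝ (fun w => F w * G w) z v = F z * (v * deriv G z) +
      G z * fderiv ℝ F z v := by
    intro v
    have h3 : fderiv ℝ (fun w => F w * G w) z = F z • fderiv ℝ G z + G z • fderiv ℝ F z :=
      h1.fderiv
    rw [h3, add_apply, smul_apply, smul_apply, smul_eq_mul, smul_eq_mul, fderiv_hol hG]
  unfold db
  rw [h2, h2]
  linear_combination (F z * deriv G z / 2) * Complex.I_mul_I


/-- functions with `∂̄ = 0` near a point are analytic -/
theorem analyticAt_of_db {F : ℂ → ℂ} {z : ℂ} (h : ∀ᶠ w in 𝓝 z, DifferentiableAt ℝ F w)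
    (h0 : ∀ᶠ w in 𝓝 z, db F w = 0) : AnalyticAt ℂ F z := by
  have h1 : ∀ᶠ w in 𝓝 z, DifferentiableAt ℂ F w := by
    filter_upwards [h, h0] with w hw hw0
    exact (db_eq_zero_iff hw).1 hw0
  exact Complex.analyticAt_iff_eventually_differentiableAt.2 h1

namespace CAtl

variable {N : Type u} [TopologicalSpace N] {A : CAtl.{u, v} N}

/-- construction of the one-pole structure -/
theorem exists_onePole {f : N → ℂ} {p0 : N} (hf : ∀ x, x ≠ p0 → A.HAt f x) {i : A.ι}
    (hi : p0 ∈ (A.c i).source) {G : ℂ → ℂ} (hG : AnalyticAt ℂ G (A.c i p0))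
    (hfG : ∀ᶠ z in 𝓝 (A.c i p0), z ≠ A.c i p0 →
      f ((A.c i).symm z) = (z - A.c i p0)⁻¹ + G z) : Nonempty (OnePole A f p0) := by
  set z0 := A.c i p0 with hz0
  have hnz : ∀ᶠ z in 𝓝 z0, 1 + (z - z0) * G z ≠ 0 := by
    have h1 : ContinuousAt (fun z => 1 + (z - z0) * G z) z0 :=
      continuousAt_const.add ((continuousAt_id.sub continuousAt_const).mul hG.continuousAt)
    refine h1.eventually_ne ?_
    simp
  have hall : ∀ᶠ z in 𝓝 z0, z ∈ (A.c i).target ∧ AnalyticAt ℂ G z ∧ 1 + (z - z0) * G z ≠ 0 ∧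
      (z ≠ z0 → f ((A.c i).symm z) = (z - z0)⁻¹ + G z) := by
    filter_upwards [(A.c i).open_target.mem_nhds ((A.c i).map_source hi),
      hG.eventually_analyticAt, hnz, hfG] with z h1 h2 h3 h4
    exact ⟨h1, h2, h3, h4⟩
  obtain ⟨U, hU1, hU2, hU3⟩ := _root_.mem_nhds_iff.1 hall
  have hWd : ∀ z ∈ U, HasDerivAt (fun z => (z - z0) * (1 + (z - z0) * G z)⁻¹)
      (1 * (1 + (z - z0) * G z)⁻¹ + (z - z0) *
        (-(1 * G z + (z - z0) * deriv G z) / (1 + (z - z0) * G z) ^ 2)) z := by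
    intro z hz
    obtain ⟨-, h2, h3, -⟩ := hU1 hz
    have e1 : HasDerivAt (fun z => z - z0) 1 z := (hasDerivAt_id z).sub_const z0
    have e2 := (e1.mul h2.differentiableAt.hasDerivAt).const_add 1
    exact e1.mul (e2.fun_inv h3)
  have hW0 : deriv (fun z => (z - z0) * (1 + (z - z0) * G z)⁻¹) z0 ≠ 0 := by
    rw [(hWd z0 hU3).deriv]
    simp
  obtain ⟨E, hE0, hE1, hE2, hE3⟩ := hol_chart hU2
    (fun z hz => (hWd z hz).differentiableAt.differentiableWithinAt) hU3 hW0
  refine ⟨⟨i, E, hf, hi, hE0, fun z hz => (hU1 (hE1 hz)).1, ?_, hE3, ?_⟩⟩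
  · rw [hE2 _ hE0]
    simp
  · intro z hz hne
    obtain ⟨-, -, h3, h4⟩ := hU1 (hE1 hz)
    rw [h4 hne, hE2 z hz, mul_inv, inv_inv, mul_add, mul_one, ← mul_assoc,
      inv_mul_cancel₀ (sub_ne_zero.2 hne), one_mul]

/-- **no one-forms ⟹ a meromorphic function with one simple pole** -/
theorem exists_pole [T2Space N] (hP : A.POISSON) (h0 : ∀ ω : A.HForm, ω.IsZero) (p0 : N) :
    ∃ f : N → ℂ, Nonempty (OnePole A f p0) := by
  classical
  obtain ⟨k, hk⟩ := A.cover p0
  set z0 := A.c k p0 with hz0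
  have ht := (A.c k).map_source hk
  obtain ⟨r, hr, hb⟩ := Metric.nhds_basis_closedBall.mem_iff.1 ((A.c k).open_target.mem_nhds ht)
  let χ : ContDiffBump z0 := ⟨r / 2, r, half_pos hr, half_lt_self hr⟩
  set X : ℂ → ℂ := fun z => (χ z : ℂ) with hX
  have hXs : ContDiff ℝ (⊤ : ℕ∞) X := Complex.ofRealCLM.contDiff.comp χ.contDiff
  have hXsupp : tsupport X ⊆ closedBall z0 r := by
    refine (closure_mono ?_).trans χ.tsupport_eq.subset
    intro z hz h
    apply hz
    show (χ z : ℂ) = 0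
    have h' : χ z = 0 := h
    rw [h', Complex.ofReal_zero]
  have hX1 : ∀ z ∈ ball z0 (r / 2), X =ᶠ[𝓝 z] fun _ => (1 : ℂ) := by
    intro z hz
    filter_upwards [isOpen_ball.mem_nhds hz] with w hw
    show (χ w : ℂ) = 1
    rw [χ.one_of_mem_closedBall (ball_subset_closedBall hw), Complex.ofReal_one]
  have hXd : ∀ z, DifferentiableAt ℝ X z := fun z => (hXs.differentiable (by simp)).differentiableAt
  -- the form
  set g : ℂ → ℂ := fun z => db X z * (z - z0)⁻¹ with hg
  have hg0 : ∀ z ∈ ball z0 (r / 2), g z = 0 := by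
    intro z hz
    show db X z * (z - z0)⁻¹ = 0
    rw [db_congr (hX1 z hz)]
    simp [db]
  have hgs : ContDiff ℝ (⊤ : ℕ∞) g := by
    refine contDiff_iff_contDiffAt.2 fun z => ?_
    by_cases hz : z = z0
    · subst hz
      refine (contDiffAt_const (c := (0 : ℂ))).congr_of_eventuallyEq ?_
      filter_upwards [isOpen_ball.mem_nhds (mem_ball_self (half_pos hr))] with w hw
      exact hg0 w hw
    · refine (contDiff_db hXs).contDiffAt.mul ?_
      have h1 : ContDiffAt ℝ (⊤ : ℕ∞) (fun w : ℂ => w - z0) z :=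
        contDiffAt_id.sub contDiffAt_const
      exact h1.inv (sub_ne_zero.2 hz)
  have hgsupp : tsupport g ⊆ closedBall z0 r := by
    refine Subset.trans ?_ hXsupp
    refine closure_minimal (fun z hz => ?_) (isClosed_tsupport X)
    by_contra h
    apply hz
    have h1 : X =ᶠ[𝓝 z] fun _ => (0 : ℂ) := by
      filter_upwards [(isClosed_tsupport X).isOpen_compl.mem_nhds h] with w hw
      exact image_eq_zero_of_notMem_tsupport hw
    show db X z * (z - z0)⁻¹ = 0
    rw [db_congr h1]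
    simp [db]
  have hgc : HasCompactSupport g :=
    IsCompact.of_isClosed_subset (isCompact_closedBall z0 r) (isClosed_tsupport _) hgsupp
  obtain ⟨u₁, u₂, h₁, h₂, hdb⟩ := exists_db hP h0 k hgs hgc (hgsupp.trans hb)
  set kk : ℂ → ℂ := fun z => X z * (z - z0)⁻¹ with hkk
  set f : N → ℂ := fun x => if x ∈ (A.c k).source then
    kk (A.c k x) - A.UU u₁ u₂ k (A.c k x) else -((u₁ x : ℂ) + u₂ x * I) with hf
  have hfk : ∀ w ∈ (A.c k).target, f ((A.c k).symm w) = kk w - A.UU u₁ u₂ k w := by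
    intro w hw
    show (if _ then _ else _) = _
    rw [if_pos ((A.c k).map_target hw), (A.c k).right_inv hw]
  refine ⟨f, exists_onePole ?_ hk (G := fun w => -A.UU u₁ u₂ k w) ?_ ?_⟩
  · -- holomorphic outside the pole
    intro x hx
    by_cases hxk : x ∈ (A.c k).source
    · refine ⟨k, hxk, ?_⟩
      have hne : A.c k x ≠ z0 := fun h => hx ((A.c k).injOn hxk hk h)
      have hxt := (A.c k).map_source hxk
      have h1 : AnalyticAt ℂ (fun w => kk w - A.UU u₁ u₂ k w) (A.c k x) := by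
        have hkd : ∀ w, w ≠ z0 → DifferentiableAt ℝ kk w := by
          intro w hw
          exact (hXd w).mul (((differentiableAt_id.sub_const z0).inv
            (sub_ne_zero.2 hw)).restrictScalars ℝ (𝕜' := ℂ))
        refine analyticAt_of_db ?_ ?_
        · filter_upwards [(A.c k).open_target.mem_nhds hxt, isOpen_ne.mem_nhds hne] with w hw hw'
          exact (hkd w hw').sub (UU_diff h₁ h₂ hw)
        · filter_upwards [(A.c k).open_target.mem_nhds hxt, isOpen_ne.mem_nhds hne] with w hw hw'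
          have e1 : db kk w = db X w * (w - z0)⁻¹ :=
            db_mul_hol (G := fun w => (w - z0)⁻¹) (hXd w)
              ((differentiableAt_id.sub_const z0).inv (sub_ne_zero.2 hw'))
          rw [db_sub (hkd w hw') (UU_diff h₁ h₂ hw), hdb k w hw, gf_self hw, e1]
          exact sub_self _
      refine h1.congr ?_
      filter_upwards [(A.c k).open_target.mem_nhds hxt] with w hw
      exact (hfk w hw).symm
    · obtain ⟨j, hj⟩ := A.cover x
      refine ⟨j, hj, ?_⟩
      have hxt := (A.c j).map_source hj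
      have hnd : A.c j x ∉ A.dom j k := by
        intro h
        have := h.2
        rw [(A.c j).left_inv hj] at this
        exact hxk this
      have h1 : AnalyticAt ℂ (fun w => A.UU u₁ u₂ j w) (A.c j x) := by
        refine analyticAt_of_db ?_ ?_
        · filter_upwards [(A.c j).open_target.mem_nhds hxt] with w hw
          exact UU_diff h₁ h₂ hw
        · filter_upwards [(A.c j).open_target.mem_nhds hxt,
            gf_zero hgc (hgsupp.trans hb) hxt hnd] with w hw hw'
          exact (hdb j w hw).trans hw'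
      refine h1.neg.congr ?_
      have hK : IsCompact ((A.c k).symm '' closedBall z0 r) :=
        (isCompact_closedBall z0 r).image_of_continuousOn ((A.c k).continuousOn_symm.mono hb)
      have hxK : (A.c j).symm (A.c j x) ∉ (A.c k).symm '' closedBall z0 r := by
        rw [(A.c j).left_inv hj]
        rintro ⟨w, hw, hw'⟩
        exact hxk (hw' ▸ (A.c k).map_target (hb hw))
      have hcont : ContinuousAt (A.c j).symm (A.c j x) := (A.c j).symm.continuousAt hxt
      filter_upwards [hcont.eventually (hK.isClosed.isOpen_compl.mem_nhds hxK)] with w hw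
      show -A.UU u₁ u₂ j w = f ((A.c j).symm w)
      show _ = (if _ then _ else _)
      split_ifs with h
      · have hX0 : X (A.c k ((A.c j).symm w)) = 0 := by
          refine image_eq_zero_of_notMem_tsupport fun h2 => hw ⟨_, hXsupp h2, ?_⟩
          rw [(A.c k).left_inv h]
        show _ = X (A.c k ((A.c j).symm w)) * _ - _
        rw [hX0, zero_mul, zero_sub]
        unfold UU
        rw [(A.c k).left_inv h]
      · rfl
  · -- the regular part
    have h1 : AnalyticAt ℂ (fun w => A.UU u₁ u₂ k w) z0 := by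
      refine analyticAt_of_db ?_ ?_
      · filter_upwards [(A.c k).open_target.mem_nhds ht] with w hw
        exact UU_diff h₁ h₂ hw
      · filter_upwards [(A.c k).open_target.mem_nhds ht,
          isOpen_ball.mem_nhds (mem_ball_self (half_pos hr))] with w hw hw'
        exact (hdb k w hw).trans ((gf_self hw).trans (hg0 w hw'))
    exact h1.neg
  · filter_upwards [(A.c k).open_target.mem_nhds ht,
      isOpen_ball.mem_nhds (mem_ball_self (half_pos hr))] with w hw hw' hne
    rw [hfk w hw]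
    show X w * (w - z0)⁻¹ - _ = _
    rw [(hX1 w hw').self_of_nhds, one_mul, sub_eq_add_neg]

/-! ### zeros of one-forms -/

theorem HForm.mem_Z {ω : A.HForm} {x : N} {i : A.ι} (hi : x ∈ (A.c i).source) :
    x ∈ ω.Z ↔ ω.h i (A.c i x) = 0 := by
  constructor
  · rintro ⟨j, hj, h⟩
    have h1 := ω.tr i j _ (A.c_mem_dom hi hj)
    rw [A.tr_c hi, h, zero_mul] at h1
    exact h1
  · intro h
    exact ⟨i, hi, h⟩

theorem HForm.analyticAt (ω : A.HForm) {i : A.ι} {z : ℂ} (hz : z ∈ (A.c i).target) :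
    AnalyticAt ℂ (ω.h i) z :=
  (ω.hol i).analyticAt ((A.c i).open_target.mem_nhds hz)

/-- a one-form which is not zero has finitely many zeros -/
theorem HForm.finite_Z [T2Space N] [CompactSpace N] [PreconnectedSpace N] {ω : A.HForm}
    (h0 : ¬ ω.IsZero) : ω.Z.Finite := by
  -- the set of points near which the form vanishes
  set T : Set N := {x | ∀ᶠ y in 𝓝 x, y ∈ ω.Z} with hT
  have hTo : IsOpen T := isOpen_iff_mem_nhds.2 fun x hx => eventually_eventually_nhds.2 hx
  have key : ∀ x, x ∈ T ∨ ∀ᶠ y in 𝓝 x, y ≠ x → y ∉ ω.Z := by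
    intro x
    obtain ⟨i, hi⟩ := A.cover x
    have ha := ω.analyticAt ((A.c i).map_source hi)
    have ht : Tendsto (A.c i) (𝓝 x) (𝓝 (A.c i x)) := (A.c i).continuousAt hi
    rcases ha.eventually_eq_zero_or_eventually_ne_zero with h1 | h1
    · left
      show ∀ᶠ y in 𝓝 x, y ∈ ω.Z
      filter_upwards [ht.eventually h1, (A.c i).open_source.mem_nhds hi] with y hy hs
      exact ⟨i, hs, hy⟩
    · right
      rw [eventually_nhdsWithin_iff] at h1
      filter_upwards [ht.eventually h1, (A.c i).open_source.mem_nhds hi] with y hy hs hne hz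
      rw [HForm.mem_Z hs] at hz
      exact hy (fun h4 => hne ((A.c i).injOn hs hi h4)) hz
  have hTc : IsClosed T := by
    rw [← isOpen_compl_iff]
    refine isOpen_iff_mem_nhds.2 fun x hx => ?_
    have h1 := (key x).resolve_left hx
    filter_upwards [h1] with y hy hyT
    by_cases hyx : y = x
    · exact hx (hyx ▸ hyT)
    · exact hy hyx (show ∀ᶠ z in 𝓝 y, z ∈ ω.Z from hyT).self_of_nhds
  have hTe : T = ∅ := by
    by_contra hne
    obtain ⟨x, hx⟩ := nonempty_iff_ne_empty.2 hne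
    have h1 := isPreconnected_univ.subset_isClopen (t := T) ⟨hTc, hTo⟩ ⟨x, mem_univ _, hx⟩
    apply h0
    intro i z hz
    have h2 : (A.c i).symm z ∈ ω.Z :=
      (show ∀ᶠ y in 𝓝 ((A.c i).symm z), y ∈ ω.Z from h1 (mem_univ _)).self_of_nhds
    rw [HForm.mem_Z ((A.c i).map_target hz), (A.c i).right_inv hz] at h2
    exact h2
  have h : ((univ : Set N) ∩ ω.Z).Finite := by
    refine isCompact_univ.induction_on (p := fun s => (s ∩ ω.Z).Finite) ?_ ?_ ?_ ?_
    · simp
    · intro s t hst ht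
      exact ht.subset (inter_subset_inter_left _ hst)
    · intro s t hs ht
      rw [union_inter_distrib_right]
      exact hs.union ht
    · intro x _
      have h1 : ∀ᶠ y in 𝓝 x, y ≠ x → y ∉ ω.Z :=
        (key x).resolve_left (by rw [hTe]; exact notMem_empty x)
      refine ⟨_, mem_nhdsWithin_of_mem_nhds h1, (finite_singleton x).subset ?_⟩
      rintro y ⟨hy, hy1⟩
      by_contra hyx
      exact hy hyx hy1
  rwa [univ_inter] at h


end CAtl

end

end Crest.Agent.R235.RS
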