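import Mathlib
import Crest.Agent.R240.Ch5
import Crest.Agent.R235.RSBas_538
import Crest.Agent.R281.Ins2_615
import Crest.Agent.R249.Grn6_324

-- ▼ part R235/RSPois1_910
section

/-!
Row 235 (S0364), package RS (helper910), RS-1: the conformal factor of a closed Riemann surface.

`A.Sp` : the smooth manifold of the atlas `A`.
`exists_lam` : positive smooth `lam i` on the chart targets with `lam i = |tr'|² (lam j ∘ tr)`.
-/

set_option autoImplicit false
set_option linter.unusedSectionVars false

open Set Filter Topology Metric Manifold Function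
open scoped ContDiff Manifold
open Crest.Agent.R240.Ch

noncomputable section

namespace Crest.Agent.R235.RS

namespace CAtl

universe u v

section General

variable {N : Type u} [TopologicalSpace N] (A : CAtl.{u, v} N)

theorem q_isOpen_dom (i j : A.ι) : IsOpen (A.dom i j) :=
  (A.c i).isOpen_inter_preimage_symm (A.c j).open_source

theorem q_mem_dom {i j : A.ι} {x : N} (hi : x ∈ (A.c i).source) (hj : x ∈ (A.c j).source) :
    A.c i x ∈ A.dom i j :=
  ⟨(A.c i).map_source hi, by rw [(A.c i).left_inv hi]; exact hj⟩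

theorem q_tr_c {i j : A.ι} {x : N} (hi : x ∈ (A.c i).source) : A.tr i j (A.c i x) = A.c j x := by
  rw [tr, (A.c i).left_inv hi]

theorem q_tr_mem {i j : A.ι} {z : ℂ} (hz : z ∈ A.dom i j) : A.tr i j z ∈ (A.c j).target :=
  (A.c j).map_source hz.2

theorem q_symm_tr {i j : A.ι} {z : ℂ} (hz : z ∈ A.dom i j) :
    (A.c j).symm (A.tr i j z) = (A.c i).symm z := (A.c j).left_inv hz.2


theorem q_tr_tr {i j : A.ι} {z : ℂ} (hz : z ∈ A.dom i j) (k : A.ι) :
    A.tr j k (A.tr i j z) = A.tr i k z := by
  rw [tr, A.q_symm_tr hz]; rfl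

theorem q_tr_self {i : A.ι} {z : ℂ} (hz : z ∈ (A.c i).target) : A.tr i i z = z :=
  (A.c i).right_inv hz

theorem q_diffAt_tr {i j : A.ι} {z : ℂ} (hz : z ∈ A.dom i j) :
    DifferentiableAt ℂ (A.tr i j) z :=
  (A.hol i j).differentiableAt ((A.q_isOpen_dom i j).mem_nhds hz)

theorem q_deriv_tr_mul {i j k : A.ι} {z : ℂ} (hz : z ∈ A.dom i j) (hk : z ∈ A.dom i k) :
    deriv (A.tr i k) z = deriv (A.tr j k) (A.tr i j z) * deriv (A.tr i j) z := by
  have h1 : A.tr i j z ∈ A.dom j k := ⟨A.q_tr_mem hz, by rw [A.q_symm_tr hz]; exact hk.2⟩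
  have h2 : A.tr i k =ᶠ[𝓝 z] fun w => A.tr j k (A.tr i j w) := by
    filter_upwards [(A.q_isOpen_dom i j).mem_nhds hz] with w hw
    exact (A.q_tr_tr hw k).symm
  rw [h2.deriv_eq]
  exact deriv_comp z (A.q_diffAt_tr h1) (A.q_diffAt_tr hz)

theorem q_deriv_tr_self {i : A.ι} {z : ℂ} (hz : z ∈ (A.c i).target) : deriv (A.tr i i) z = 1 := by
  have h : A.tr i i =ᶠ[𝓝 z] id := by
    filter_upwards [(A.c i).open_target.mem_nhds hz] with w hw
    exact A.q_tr_self hw
  rw [h.deriv_eq, deriv_id]

theorem q_deriv_tr_ne {i j : A.ι} {z : ℂ} (hz : z ∈ A.dom i j) : deriv (A.tr i j) z ≠ 0 := by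
  have hii : z ∈ A.dom i i := ⟨hz.1, (A.c i).map_target hz.1⟩
  have h := A.q_deriv_tr_mul hz hii
  rw [A.q_deriv_tr_self hz.1] at h
  intro h0
  rw [h0, mul_zero] at h
  exact one_ne_zero h

theorem q_contDiffOn_tr (i j : A.ι) {n : WithTop ℕ∞} : ContDiffOn ℂ n (A.tr i j) (A.dom i j) :=
  DifferentiableOn.contDiffOn (A.hol i j) (A.q_isOpen_dom i j)

theorem q_contDiffAt_tr {i j : A.ι} {z : ℂ} (hz : z ∈ A.dom i j) {n : WithTop ℕ∞} :
    ContDiffAt ℝ n (A.tr i j) z :=
  ((A.q_contDiffOn_tr i j).contDiffAt ((A.q_isOpen_dom i j).mem_nhds hz)).restrict_scalars ℝ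

theorem q_contDiffAt_deriv_tr {i j : A.ι} {z : ℂ} (hz : z ∈ A.dom i j) {n : WithTop ℕ∞} :
    ContDiffAt ℝ n (deriv (A.tr i j)) z := by
  have h1 : DifferentiableOn ℂ (deriv (A.tr i j)) (A.dom i j) :=
    (A.hol i j).deriv (A.q_isOpen_dom i j)
  exact ((h1.contDiffOn (A.q_isOpen_dom i j)).contDiffAt
    ((A.q_isOpen_dom i j).mem_nhds hz)).restrict_scalars ℝ

end General

section Zero

variable {N : Type} [TopologicalSpace N] (A : CAtl.{0, 0} N)

/-- the manifold of the atlas `A` -/
def Sp (_A : CAtl.{0, 0} N) : Type := N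

instance topSp : TopologicalSpace A.Sp := inferInstanceAs (TopologicalSpace N)

instance [T2Space N] : T2Space A.Sp := inferInstanceAs (T2Space N)

instance [CompactSpace N] : CompactSpace A.Sp := inferInstanceAs (CompactSpace N)

/-- preferred chart -/
def ix (x : N) : A.ι := Classical.choose (A.cover x)

theorem ix_mem (x : N) : x ∈ (A.c (A.ix x)).source := Classical.choose_spec (A.cover x)

/-- the charts of `A.Sp` -/
def cs (i : A.ι) : OpenPartialHomeomorph A.Sp ℂ := A.c i

instance chSp : ChartedSpace ℂ A.Sp where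
  atlas := range A.cs
  chartAt x := A.cs (A.ix x)
  mem_chart_source x := A.ix_mem x
  chart_mem_atlas _ := ⟨_, rfl⟩

instance mfSp : IsManifold 𝓘(ℝ, ℂ) ∞ A.Sp := by
  refine isManifold_of_contDiffOn 𝓘(ℝ, ℂ) ∞ A.Sp ?_
  rintro e e' ⟨i, rfl⟩ ⟨j, rfl⟩
  have h : ContDiffOn ℝ ∞ (A.tr i j) (A.dom i j) := fun z hz =>
    (A.q_contDiffAt_tr hz).contDiffWithinAt
  refine (h.congr fun y hy => rfl).mono ?_
  rintro y ⟨hy, -⟩
  have h1 : y ∈ (A.cs i).target ∧ (A.cs i).symm y ∈ (A.cs j).source := by
    simpa [OpenPartialHomeomorph.trans_source] using hy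
  exact h1

theorem smooth_of_contMDiff {f : A.Sp → ℝ} (hf : ContMDiff 𝓘(ℝ, ℂ) 𝓘(ℝ, ℝ) ∞ f) :
    A.Smooth f := by
  intro i
  have h1 : A.cs i ∈ IsManifold.maximalAtlas 𝓘(ℝ, ℂ) ∞ A.Sp :=
    IsManifold.subset_maximalAtlas ⟨i, rfl⟩
  have h2 := contMDiffOn_symm_of_mem_maximalAtlas h1
  have h3 := hf.comp_contMDiffOn h2
  exact contMDiffOn_iff_contDiffOn.1 h3

variable [T2Space N] [CompactSpace N]

/-- **the conformal factor** -/
theorem exists_lam : ∃ lam : A.ι → ℂ → ℝ,
    (∀ i, ContDiffOn ℝ ∞ (lam i) (A.c i).target) ∧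
    (∀ i, ∀ z ∈ (A.c i).target, 0 < lam i z) ∧
    (∀ i j, ∀ z ∈ A.dom i j, lam i z = ‖deriv (A.tr i j) z‖ ^ 2 * lam j (A.tr i j z)) := by
  obtain ⟨F⟩ := exists_FA (E := ℂ) (M := A.Sp)
  -- the chart index of the `k`-th chart
  set κ : Fin F.n → A.ι := fun k => A.ix (F.c k) with hκ
  have hsrc : ∀ (k : Fin F.n) (x : N), x ∈ tsupport (F.χ k) → x ∈ (A.c (κ k)).source :=
    fun k x hx => (F.χ_supp k hx).1
  have hz0 : ∀ (k : Fin F.n) (x : N), x ∉ (A.c (κ k)).source → F.χ k x = 0 := fun k x hx =>
    image_eq_zero_of_notMem_tsupport (f := F.χ k) fun h => hx (hsrc k x h)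
  refine ⟨fun i z => ∑ k, F.χ k ((A.c i).symm z) * ‖deriv (A.tr i (κ k)) z‖ ^ 2, ?_, ?_, ?_⟩
  · intro i z hz
    refine ContDiffWithinAt.sum fun k _ => ?_
    refine ContDiffAt.contDiffWithinAt ?_
    by_cases hk : (A.c i).symm z ∈ (A.c (κ k)).source
    · have h1 : ContDiffAt ℝ ∞ (fun z => F.χ k ((A.c i).symm z)) z :=
        (A.smooth_of_contMDiff (F.χ_smooth k) i).contDiffAt ((A.c i).open_target.mem_nhds hz)
      have h2 : ContDiffAt ℝ ∞ (deriv (A.tr i (κ k))) z := A.q_contDiffAt_deriv_tr ⟨hz, hk⟩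
      exact h1.mul (h2.norm_sq ℝ)
    · have h1 : (A.c i).symm z ∉ tsupport (F.χ k) := fun h => hk (hsrc k _ h)
      have h2 : ∀ᶠ w in 𝓝 z, (A.c i).symm w ∉ tsupport (F.χ k) :=
        ((A.c i).continuousAt_symm hz).eventually
          ((isClosed_tsupport (F.χ k)).isOpen_compl.mem_nhds h1)
      refine (contDiffAt_const (c := (0 : ℝ))).congr_of_eventuallyEq ?_
      filter_upwards [h2] with w hw
      rw [image_eq_zero_of_notMem_tsupport (f := F.χ k) hw, zero_mul]
  · intro i z hz
    have hx := F.χ_sum ((A.c i).symm z)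
    obtain ⟨k, hk⟩ : ∃ k, 0 < F.χ k ((A.c i).symm z) := by
      by_contra hcon
      push Not at hcon
      have : ∑ k, F.χ k ((A.c i).symm z) ≤ 0 := Finset.sum_nonpos fun k _ => hcon k
      linarith
    have hks : (A.c i).symm z ∈ (A.c (κ k)).source := by
      by_contra h
      rw [hz0 k _ h] at hk
      exact lt_irrefl _ hk
    have h2 : 0 < F.χ k ((A.c i).symm z) * ‖deriv (A.tr i (κ k)) z‖ ^ 2 :=
      mul_pos hk (pow_pos (norm_pos_iff.2 (A.q_deriv_tr_ne ⟨hz, hks⟩)) 2)
    refine lt_of_lt_of_le h2 (Finset.single_le_sum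
      (f := fun k => F.χ k ((A.c i).symm z) * ‖deriv (A.tr i (κ k)) z‖ ^ 2) (fun l _ => ?_)
      (Finset.mem_univ k))
    exact mul_nonneg (F.χ_nonneg l _) (sq_nonneg _)
  · intro i j z hz
    rw [Finset.mul_sum]
    refine Finset.sum_congr rfl fun k _ => ?_
    rw [A.q_symm_tr hz]
    by_cases hk : (A.c i).symm z ∈ (A.c (κ k)).source
    · rw [A.q_deriv_tr_mul hz ⟨hz.1, hk⟩, norm_mul]
      ring
    · rw [hz0 k _ hk]; ring

end Zero

end CAtl

end Crest.Agent.R235.RS
end
end

-- ▼ part R235/RSPois2_910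
section

/-!
Row 235 (S0364), package RS (helper910), RS-2a: the Riemannian manifold `L.R.M` of a conformal
metric on a Riemann surface and its Laplacian in the charts.
-/

set_option autoImplicit false
set_option linter.unusedSectionVars false

open Set Filter Topology Metric Manifold Function Bundle
open scoped ContDiff Manifold
open Crest.GeometryTopology.CoordMetric
open Crest.Agent.R273.RMan_798

noncomputable section

namespace Crest.Agent.R235.RS

/-- the isometry `ℂ ≃ ℝ²` -/
def eC : ℂ ≃ₗᵢ[ℝ] EE 2 := Complex.orthonormalBasisOneI.repr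

theorem eC_one : eC 1 = EuclideanSpace.single 0 1 := by
  have h := Complex.orthonormalBasisOneI.repr_self 0
  rw [show Complex.orthonormalBasisOneI 0 = 1 by simp] at h
  exact h

theorem eC_I : eC Complex.I = EuclideanSpace.single 1 1 := by
  have h := Complex.orthonormalBasisOneI.repr_self 1
  rw [show Complex.orthonormalBasisOneI 1 = Complex.I by simp] at h
  exact h

theorem smul_one_bil (c : ℝ) (v w : EE 2) :
    ∑ a, ∑ b, (c • (1 : Matrix (Fin 2) (Fin 2) ℝ)) a b * v a * w b = c * inner ℝ v w := by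
  have h : inner ℝ v w = ∑ a, v a * w a := by
    rw [PiLp.inner_apply]
    exact Finset.sum_congr rfl fun a _ => by simp [mul_comm]
  rw [h, Finset.mul_sum]
  refine Finset.sum_congr rfl fun a _ => ?_
  rw [Finset.sum_eq_single a]
  · simp [mul_assoc]
  · intro b _ hb
    simp [Matrix.one_apply_ne hb.symm]
  · simp

/-- the Laplace-Beltrami operator of a conformal metric in dimension two -/
theorem laplaceBeltrami_conf {g : MetricField 2} {lam : EE 2 → ℝ} {y : EE 2}
    (hg : ∀ᶠ w in 𝓝 y, g w = lam w • (1 : Matrix (Fin 2) (Fin 2) ℝ) ∧ 0 < lam w)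
    {f : EE 2 → ℝ} (hf : ContDiffAt ℝ 2 f y) :
    laplaceBeltrami g f y = (lam y)⁻¹ * CAtl.lap (fun z => f (eC z)) (eC.symm y) := by
  have hdet : ∀ w, g w = lam w • (1 : Matrix (Fin 2) (Fin 2) ℝ) → 0 < lam w →
      Real.sqrt (g w).det = lam w := by
    intro w hw hl
    rw [hw, Matrix.det_smul, Matrix.det_one, Fintype.card_fin, mul_one, Real.sqrt_sq hl.le]
  have hin : ∀ w, g w = lam w • (1 : Matrix (Fin 2) (Fin 2) ℝ) → 0 < lam w → ∀ i,
      Real.sqrt (g w).det * ∑ j, inverseField g w i j * pderiv j f w = pderiv i f w := by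
    intro w hw hl i
    have h1 : inverseField g w = (lam w)⁻¹ • (1 : Matrix (Fin 2) (Fin 2) ℝ) := by
      rw [inverseField, hw]
      refine Matrix.inv_eq_left_inv ?_
      rw [smul_mul_smul_comm, one_mul, inv_mul_cancel₀ hl.ne', one_smul]
    rw [hdet w hw hl, h1, Finset.sum_eq_single i]
    · simp only [Matrix.smul_apply, Matrix.one_apply_eq, smul_eq_mul, mul_one]
      rw [← mul_assoc, mul_inv_cancel₀ hl.ne', one_mul]
    · intro j _ hj
      simp [Matrix.one_apply_ne hj.symm]
    · simp
  have hself := hg.self_of_nhds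
  unfold laplaceBeltrami
  rw [hdet y hself.1 hself.2, one_div]
  congr 1
  have hp : ∀ i, pderiv i (fun w => Real.sqrt (g w).det * ∑ j, inverseField g w i j * pderiv j f w) y
      = iteratedFDeriv ℝ 2 f y ![EuclideanSpace.single i 1, EuclideanSpace.single i 1] := by
    intro i
    have h1 : (fun w => Real.sqrt (g w).det * ∑ j, inverseField g w i j * pderiv j f w) =ᶠ[𝓝 y]
        fun w => fderiv ℝ f w (EuclideanSpace.single i 1) := by
      filter_upwards [hg] with w hw
      exact hin w hw.1 hw.2 i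
    rw [pderiv, h1.fderiv_eq, iteratedFDeriv_two_apply]
    have h2 : DifferentiableAt ℝ (fderiv ℝ f) y :=
      (hf.fderiv_right (m := 1) (by norm_num)).differentiableAt (by norm_num)
    rw [fderiv_clm_apply h2 (differentiableAt_const _)]
    simp
  have hl : ∀ v, iteratedFDeriv ℝ 2 (fun z => f (eC z)) (eC.symm y) ![v, v] =
      iteratedFDeriv ℝ 2 f y ![eC v, eC v] := by
    intro v
    have h1 := eC.toContinuousLinearEquiv.iteratedFDerivWithin_comp_right f uniqueDiffOn_univ
      (x := eC.symm y) (mem_univ _) 2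
    rw [preimage_univ, iteratedFDerivWithin_univ, iteratedFDerivWithin_univ] at h1
    have h2 := congrArg (fun T => T ![v, v]) h1
    refine Eq.trans h2 ?_
    simp only [ContinuousMultilinearMap.compContinuousLinearMap_apply]
    have h3 : eC.toContinuousLinearEquiv (eC.symm y) = y := eC.apply_symm_apply y
    rw [h3]
    congr 1
    funext k
    fin_cases k <;> rfl
  rw [Fin.sum_univ_two, hp, hp, CAtl.lap, hl, hl, eC_one, eC_I]

namespace CAtl

variable {N : Type} [TopologicalSpace N] (A : CAtl.{0, 0} N)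

/-- a smooth conformal metric `lam i |dz|²` -/
structure CMet where
  lam : A.ι → ℂ → ℝ
  sm : ∀ i, ContDiffOn ℝ ∞ (lam i) (A.c i).target
  pos : ∀ i, ∀ z ∈ (A.c i).target, 0 < lam i z
  tr : ∀ i j, ∀ z ∈ A.dom i j, lam i z = ‖deriv (A.tr i j) z‖ ^ 2 * lam j (A.tr i j z)

theorem exists_cmet [T2Space N] [CompactSpace N] : Nonempty A.CMet := by
  obtain ⟨lam, h1, h2, h3⟩ := A.exists_lam
  exact ⟨⟨lam, h1, h2, h3⟩⟩

/-- the charts into `ℝ²` -/
def cE (i : A.ι) : OpenPartialHomeomorph N (EE 2) := (A.c i).transHomeomorph eC.toHomeomorph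





theorem cE_trans (i j : A.ι) : (fun y => A.cE j ((A.cE i).symm y)) =
    fun y => eC (A.tr i j (eC.symm y)) := rfl

theorem fderiv_cE_trans {i j : A.ι} {y : EE 2} (hy : eC.symm y ∈ A.dom i j) (v : EE 2) :
    fderiv ℝ (fun y => A.cE j ((A.cE i).symm y)) y v =
      eC (deriv (A.tr i j) (eC.symm y) * eC.symm v) := by
  have h0 : DifferentiableAt ℂ (A.tr i j) (eC.symm y) := A.q_diffAt_tr hy
  have h1 : HasFDerivAt (A.tr i j)
      ((fderiv ℂ (A.tr i j) (eC.symm y)).restrictScalars ℝ) (eC.symm y) :=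
    h0.hasFDerivAt.restrictScalars ℝ
  have h2 : HasFDerivAt (fun y : EE 2 => eC.symm y)
      (eC.symm.toContinuousLinearEquiv : EE 2 →L[ℝ] ℂ) y :=
    (eC.symm.toContinuousLinearEquiv : EE 2 →L[ℝ] ℂ).hasFDerivAt
  have h3 := h1.comp y h2
  have h4 := (eC.toContinuousLinearEquiv : ℂ →L[ℝ] EE 2).hasFDerivAt.comp y h3
  rw [cE_trans]
  have h5 : HasFDerivAt (fun y => eC (A.tr i j (eC.symm y))) _ y := h4
  rw [h5.fderiv]
  show eC (fderiv ℂ (A.tr i j) (eC.symm y) (eC.symm v)) = _
  congr 1
  have h6 := (fderiv ℂ (A.tr i j) (eC.symm y)).map_smul (eC.symm v) 1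
  rw [smul_eq_mul, mul_one] at h6
  rw [h6, smul_eq_mul, mul_comm]
  rfl

variable {A}

/-- the Riemannian atlas of a conformal metric -/
def CMet.R (L : A.CMet) : RAtl 2 N where
  ι := A.ι
  c := A.cE
  cover := A.cover
  smt i j := by
    rintro y ⟨hy, hq⟩
    have h1 : ContDiffAt ℝ ∞ (A.tr i j) (eC.symm y) := A.q_contDiffAt_tr ⟨hy, hq⟩
    have h2 : ContDiffAt ℝ ∞ (fun y => eC (A.tr i j (eC.symm y))) y :=
      eC.contDiff.contDiffAt.comp y (h1.comp y eC.symm.contDiff.contDiffAt)
    exact h2.contDiffWithinAt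
  G i y := L.lam i (eC.symm y) • 1
  Gsm i a b := by
    have h1 : ContDiffOn ℝ ∞ (fun y => L.lam i (eC.symm y)) (A.cE i).target :=
      (L.sm i).comp eC.symm.contDiff.contDiffOn fun y hy => hy
    exact h1.mul contDiffOn_const
  Gpd i y hy := Matrix.PosDef.one.smul (L.pos i _ hy)
  Gtr i j x hx v w := by
    have hd : A.c i x ∈ A.dom i j := A.q_mem_dom hx.1 hx.2
    have e1 : eC.symm (A.cE i x) = A.c i x := eC.symm_apply_apply _
    have e2 : eC.symm (A.cE j x) = A.c j x := eC.symm_apply_apply _
    have hd' : eC.symm (A.cE i x) ∈ A.dom i j := by rw [e1]; exact hd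
    rw [smul_one_bil, smul_one_bil, A.fderiv_cE_trans hd', A.fderiv_cE_trans hd', e1, e2,
      L.tr i j _ hd, A.q_tr_c hx.1, LinearIsometryEquiv.inner_map_map]
    set a : ℂ := deriv (A.tr i j) (A.c i x)
    have h3 : inner ℝ (a * eC.symm v) (a * eC.symm w) = ‖a‖ ^ 2 * inner ℝ (eC.symm v) (eC.symm w) := by
      rw [← Complex.normSq_eq_norm_sq]
      simp only [Complex.inner, Complex.normSq_apply, map_mul, Complex.mul_re, Complex.mul_im,
        Complex.conj_re, Complex.conj_im]
      ring
    rw [h3, LinearIsometryEquiv.inner_map_map]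
    ring

end CAtl

end Crest.Agent.R235.RS
end
end

-- ▼ part R235/RSPois3_910
section

/-!
Row 235 (S0364), package RS (helper910), RS-2b: Laplacian and volume of the conformal metric in an
arbitrary chart.

* `smooth_iff`, `mLap_eq`
* `restrict_eq_nu` : `μHE[2]` restricted to the chart domain is `lam i · Lebesgue`
* `integral_chart` : integrals over measurable subsets of a chart domain
-/

set_option autoImplicit false
set_option linter.unusedSectionVars false
set_option maxSynthPendingDepth 3

open Set Filter Topology Metric Manifold Function Bundle MeasureTheory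
open scoped ContDiff Manifold
open Crest.GeometryTopology.CoordMetric Crest.GeometryTopology.PointedLimit
open Crest.Agent.R273.RMan_798

noncomputable section

namespace Crest.Agent.R235.RS

theorem det_smulC (a : ℂ) :
    ((ContinuousLinearMap.mul ℝ ℂ a : ℂ →L[ℝ] ℂ)).det = ‖a‖ ^ 2 := by
  rw [← Complex.normSq_eq_norm_sq, ← Algebra.norm_complex_apply, Algebra.norm_apply]
  rfl

namespace CAtl

variable {N : Type} [TopologicalSpace N] {A : CAtl.{0, 0} N} (L : A.CMet)


/-- smoothness in the two languages -/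
theorem smooth_iff {f : N → ℝ} :
    ContMDiff (𝓡 2) 𝓘(ℝ, ℝ) ∞ (fun p : L.R.M => f p) ↔ A.Smooth f := by
  constructor
  · intro h i z hz
    have hx : ((A.c i).symm z : N) ∈ (A.c i).source := (A.c i).map_target hz
    have h1 := (Crest.Agent.R281.Ins_615.contMDiffAt_iff L.R (le_refl _) (i := i)
      (x := ((A.c i).symm z : N)) hx).1 (h _)
    have h2 : L.R.ch i ((A.c i).symm z : N) = eC z := by
      show eC (A.c i ((A.c i).symm z)) = eC z
      rw [(A.c i).right_inv hz]
    rw [h2] at h1
    have h3 : ContDiffAt ℝ ∞ (fun w => (fun y : EE 2 => f ((A.c i).symm (eC.symm y))) (eC w)) z :=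
      h1.comp z eC.contDiff.contDiffAt
    simp only [LinearIsometryEquiv.symm_apply_apply] at h3
    exact h3.contDiffWithinAt
  · intro h
    rintro (x : N)
    obtain ⟨i, hi⟩ := A.cover x
    refine (Crest.Agent.R281.Ins_615.contMDiffAt_iff L.R (le_refl _) (i := i) (x := x) hi).2 ?_
    have h1 : ContDiffAt ℝ ∞ (fun z => f ((A.c i).symm z)) (A.c i x) :=
      (h i).contDiffAt ((A.c i).open_target.mem_nhds ((A.c i).map_source hi))
    have h2 : ContDiffAt ℝ ∞ (fun z => f ((A.c i).symm z)) (eC.symm (L.R.ch i x)) := by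
      show ContDiffAt ℝ ∞ (fun z => f ((A.c i).symm z)) (eC.symm (eC (A.c i x)))
      rw [eC.symm_apply_apply]; exact h1
    exact h2.comp _ eC.symm.contDiff.contDiffAt

/-- **the Laplacian in an arbitrary chart** -/
theorem mLap_eq {f : N → ℝ} (hf : A.Smooth f) {i : A.ι} {x : N} (hx : x ∈ (A.c i).source) :
    Crest.Agent.R247.Bo84.mLap 2 (fun p : L.R.M => f p) x = (L.lam i (A.c i x))⁻¹ * A.lapC f i x := by
  have hC : ContMDiffAt (𝓡 2) 𝓘(ℝ, ℝ) 2 (fun p : L.R.M => f p) x :=
    (((smooth_iff L).2 hf) x).of_le Crest.Agent.R247.Bo84.two_le_infty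
  rw [Crest.Agent.R281.Ins_615.mLap_chart L.R (i := i) hx hC]
  have hy : eC.symm (L.R.ch i x) = A.c i x := eC.symm_apply_apply _
  have h1 : ContDiffAt ℝ 2 (fun z => f ((A.c i).symm z)) (A.c i x) :=
    ((hf i).contDiffAt ((A.c i).open_target.mem_nhds ((A.c i).map_source hx))).of_le
      Crest.Agent.R247.Bo84.two_le_infty
  have h2 : ContDiffAt ℝ 2 (fun y : EE 2 => f ((L.R.ch i).symm y)) (L.R.ch i x) := by
    have h3 : ContDiffAt ℝ 2 (fun z => f ((A.c i).symm z)) (eC.symm (L.R.ch i x)) := by
      rw [hy]; exact h1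
    exact h3.comp _ eC.symm.contDiff.contDiffAt
  have hg : ∀ᶠ w in 𝓝 (L.R.ch i x), L.R.G i w = (fun y => L.lam i (eC.symm y)) w •
      (1 : Matrix (Fin 2) (Fin 2) ℝ) ∧ 0 < (fun y => L.lam i (eC.symm y)) w := by
    filter_upwards [(L.R.c i).open_target.mem_nhds ((L.R.c i).map_source hx)] with w hw
    exact ⟨rfl, L.pos i _ hw⟩
  rw [laplaceBeltrami_conf hg h2, hy]
  congr 1
  have h4 : (fun z => f ((L.R.ch i).symm (eC z))) = fun z => f ((A.c i).symm z) := by
    funext z
    show f ((A.c i).symm (eC.symm (eC z))) = _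
    rw [eC.symm_apply_apply]
  rw [h4]
  rfl

/-! ### the volume -/

/-- the preimage of a set in a chart target -/
def cim (A : CAtl.{0, 0} N) (i : A.ι) (E : Set N) : Set ℂ := (A.c i).target ∩ (A.c i).symm ⁻¹' E


variable [MeasurableSpace N] [BorelSpace N]

theorem measurableSet_cim (i : A.ι) {E : Set N} (hE : MeasurableSet E) :
    MeasurableSet (A.cim i E) := by
  have h := (A.c i).continuousOn_symm
  have hm : Measurable ((A.c i).target.domRestrict (A.c i).symm) :=
    (continuousOn_iff_continuous_domRestrict.mp h).measurable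
  have h2 : A.cim i E =
      Subtype.val '' (((A.c i).target.domRestrict (A.c i).symm) ⁻¹' E) := by
    ext y
    constructor
    · rintro ⟨hy, hys⟩
      exact ⟨⟨y, hy⟩, hys, rfl⟩
    · rintro ⟨⟨z, hz⟩, hzs, rfl⟩
      exact ⟨hz, hzs⟩
  rw [h2]
  exact MeasurableSet.subtype_image (A.c i).open_target.measurableSet (hm hE)

/-- change of charts -/
theorem lintegral_cim {i j : A.ι} {E : Set N} (hE : MeasurableSet E)
    (hi : E ⊆ (A.c i).source) (hj : E ⊆ (A.c j).source) :
    ∫⁻ z in A.cim i E, ENNReal.ofReal (L.lam i z) =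
      ∫⁻ z in A.cim j E, ENNReal.ofReal (L.lam j z) := by
  have hd : ∀ z ∈ A.cim i E, z ∈ A.dom i j := fun z hz => ⟨hz.1, hj hz.2⟩
  have himg : A.cim j E = A.tr i j '' (A.cim i E) := by
    ext w
    constructor
    · rintro ⟨hw, hwE⟩
      refine ⟨A.c i ((A.c j).symm w), ⟨(A.c i).map_source (hi hwE), ?_⟩, ?_⟩
      · rw [mem_preimage, (A.c i).left_inv (hi hwE)]; exact hwE
      · rw [A.q_tr_c (hi hwE), (A.c j).right_inv hw]
    · rintro ⟨z, hz, rfl⟩
      refine ⟨A.q_tr_mem (hd z hz), ?_⟩
      rw [mem_preimage, A.q_symm_tr (hd z hz)]; exact hz.2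
  have hinj : InjOn (A.tr i j) (A.cim i E) := by
    intro y hy z hz hyz
    have h1 : (A.c i).symm y = (A.c i).symm z := by
      rw [← A.q_symm_tr (hd y hy), ← A.q_symm_tr (hd z hz), hyz]
    exact (A.c i).symm.injOn hy.1 hz.1 h1
  have hder : ∀ z ∈ A.cim i E, HasFDerivWithinAt (A.tr i j)
      (ContinuousLinearMap.mul ℝ ℂ (deriv (A.tr i j) z)) (A.cim i E) z := by
    intro z hz
    have h1 : HasDerivAt (A.tr i j) (deriv (A.tr i j) z) z := (A.q_diffAt_tr (hd z hz)).hasDerivAt
    have h2 := h1.complexToReal_fderiv.hasFDerivWithinAt (s := A.cim i E)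
    convert h2 using 1
    ext <;> simp
  rw [himg, lintegral_image_eq_lintegral_abs_det_fderiv_mul volume (measurableSet_cim i hE) hder hinj]
  refine setLIntegral_congr_fun (measurableSet_cim i hE) fun z hz => ?_
  rw [det_smulC, abs_of_nonneg (sq_nonneg _), ← ENNReal.ofReal_mul (sq_nonneg _),
    ← L.tr i j z (hd z hz)]

/-- the density measure of a chart -/
def nu (i : A.ι) : Measure N :=
  Measure.map (A.c i).symm
    ((volume.restrict (A.c i).target).withDensity fun z => ENNReal.ofReal (L.lam i z))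

theorem aemeas_symm (i : A.ι) : AEMeasurable (A.c i).symm
    ((volume.restrict (A.c i).target).withDensity fun z => ENNReal.ofReal (L.lam i z)) := by
  have h : AEMeasurable (A.c i).symm (volume.restrict (A.c i).target) :=
    (A.c i).continuousOn_symm.aemeasurable (A.c i).open_target.measurableSet
  exact h.mono_ac (withDensity_absolutelyContinuous _ _)

theorem nu_apply (i : A.ι) {E : Set N} (hE : MeasurableSet E) :
    nu L i E = ∫⁻ z in A.cim i E, ENNReal.ofReal (L.lam i z) := by
  unfold nu
  rw [Measure.map_apply_of_aemeasurable (aemeas_symm L i) hE]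
  set ν := (volume.restrict (A.c i).target).withDensity fun z => ENNReal.ofReal (L.lam i z) with hν
  have h1 : ν ((A.c i).symm ⁻¹' E) = ν (A.cim i E) := by
    apply measure_congr
    have h0 : ∀ᵐ y ∂ν, y ∈ (A.c i).target := by
      have : ∀ᵐ y ∂(volume.restrict (A.c i).target), y ∈ (A.c i).target :=
        ae_restrict_mem (A.c i).open_target.measurableSet
      exact (withDensity_absolutelyContinuous _ _).ae_le this
    filter_upwards [h0] with y hy
    apply propext
    exact ⟨fun h => ⟨hy, h⟩, fun h => h.2⟩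
  rw [h1, hν, withDensity_apply _ (measurableSet_cim i hE),
    Measure.restrict_restrict (measurableSet_cim i hE)]
  congr 2
  ext y; constructor
  · rintro ⟨h, _⟩; exact h
  · intro h; exact ⟨h, h.1⟩

end CAtl

end Crest.Agent.R235.RS
end
end

-- ▼ part R235/RSPois4_910
section

/-!
Row 235 (S0364), package RS (helper910), RS-2c: the Riemannian volume of a conformal metric as a
measure on `N`, integrals over chart domains.

* `toM L : N ≃ₜ L.R.M`, `mu L : Measure N`
* `restrict_eq_nu` : `mu L` on the domain of chart `i` is `lam i · Lebesgue`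
* `integral_chart`
-/

set_option autoImplicit false
set_option linter.unusedSectionVars false
set_option linter.style.haveILetI false
set_option maxSynthPendingDepth 3

open Set Filter Topology Metric Manifold Function Bundle MeasureTheory
open scoped ContDiff Manifold
open Crest.GeometryTopology.CoordMetric Crest.GeometryTopology.PointedLimit
open Crest.Agent.R273.RMan_798

noncomputable section

namespace Crest.Agent.R235.RS

namespace CAtl

variable {N : Type} [TopologicalSpace N] {A : CAtl.{0, 0} N} (L : A.CMet)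

/-- the identity `N → L.R.M` -/
def toM : N ≃ₜ L.R.M where
  toFun x := x
  invFun x := x
  left_inv _ := rfl
  right_inv _ := rfl
  continuous_toFun := continuous_id
  continuous_invFun := continuous_id

variable [MeasurableSpace N] [BorelSpace N]


theorem emb_toM_symm : MeasurableEmbedding (toM L).symm := (toM L).symm.measurableEmbedding

variable [T2Space N] [ConnectedSpace N]

/-- the Riemannian volume, as a measure on `N` -/
def mu : Measure N :=
  Measure.map (toM L).symm (Measure.euclideanHausdorffMeasure 2 : Measure L.R.M)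

theorem mu_apply (F : Set N) :
    mu L F = (Measure.euclideanHausdorffMeasure 2 : Measure L.R.M) (toM L '' F) := by
  rw [mu, (emb_toM_symm L).map_apply]
  congr 1
  ext p
  constructor
  · intro hp
    exact ⟨_, hp, (toM L).apply_symm_apply p⟩
  · rintro ⟨q, hq, rfl⟩
    rw [mem_preimage, (toM L).symm_apply_apply]
    exact hq

/-- the volume of a measurable subset of a preferred chart domain -/
theorem mu_pref (x : N) {F : Set N} (hF : MeasurableSet F)
    (hs : F ⊆ (A.c (L.R.idx x)).source) :
    mu L F = ∫⁻ z in A.cim (L.R.idx x) F, ENNReal.ofReal (L.lam (L.R.idx x) z) := by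
  set j : A.ι := L.R.idx x with hj
  have hcm : MeasurableSet (A.cim j F) := measurableSet_cim j hF
  set B : Set (EE 2) := eC.symm ⁻¹' (A.cim j F) with hB
  have hBm : MeasurableSet B := eC.symm.continuous.measurable hcm
  have hBsub : B ⊆ (chartAt (EE 2) (toM L x)).target := fun a ha => ha.1
  have himg : (chartAt (EE 2) (toM L x)).symm '' B = toM L '' F := by
    ext p
    constructor
    · rintro ⟨a, ha, rfl⟩
      exact ⟨_, ha.2, rfl⟩
    · rintro ⟨q, hq, rfl⟩
      refine ⟨eC (A.c j q), ?_, ?_⟩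
      · show eC.symm (eC (A.c j q)) ∈ A.cim j F
        rw [eC.symm_apply_apply]
        exact ⟨(A.c j).map_source (hs hq), by rw [mem_preimage, (A.c j).left_inv (hs hq)]; exact hq⟩
      · have h1 : (chartAt (EE 2) (toM L x)).symm (eC (A.c j q)) =
            toM L ((A.c j).symm (eC.symm (eC (A.c j q)))) := rfl
        rw [h1, eC.symm_apply_apply, (A.c j).left_inv (hs hq)]
  rw [mu_apply, ← himg, Crest.Agent.R247.Ms322.muHE_symm_image (toM L x) hBsub hBm]
  have hmp : MeasurePreserving (eC.symm : EE 2 → ℂ) volume volume := eC.symm.measurePreserving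
  have hme : MeasurableEmbedding (eC.symm : EE 2 → ℂ) :=
    eC.symm.toHomeomorph.measurableEmbedding
  have h1 := hmp.setLIntegral_comp_preimage_emb hme (fun z => ENNReal.ofReal (L.lam j z)) (A.cim j F)
  rw [← h1]
  refine setLIntegral_congr_fun hBm fun a ha => ?_
  have h4 : Crest.Agent.R247.Ms322.dens (n := 2) (toM L x) a = L.lam j (eC.symm a) := by
    unfold Crest.Agent.R247.Ms322.dens
    rw [L.R.chartMetric_eq (toM L x) (hBsub ha)]
    have h2 : L.R.G (L.R.idx (toM L x)) a =
      L.lam j (eC.symm a) • (1 : Matrix (Fin 2) (Fin 2) ℝ) := rfl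
    have h3 : 0 < L.lam j (eC.symm a) := L.pos j _ ha.1
    rw [h2, Matrix.det_smul, Matrix.det_one, Fintype.card_fin, mul_one, Real.sqrt_sq h3.le]
  rw [h4]

variable [CompactSpace N]

/-- **the volume in an arbitrary chart** -/
theorem restrict_eq_nu (i : A.ι) : (mu L).restrict (A.c i).source = nu L i := by
  obtain ⟨t, ht⟩ := (isCompact_univ (X := N)).elim_finite_subcover
    (fun x : N => (A.c (L.R.idx x)).source) (fun x => (A.c _).open_source)
    (fun x _ => mem_iUnion.2 ⟨x, L.R.idx_mem x⟩)
  have hcov : ⋃ x ∈ (t : Set N), (A.c (L.R.idx x)).source = univ := by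
    refine eq_univ_of_forall fun x => ?_
    have := ht (mem_univ (x : N))
    simpa using this
  have hsm : ∀ k, MeasurableSet (A.c k).source := fun k => (A.c k).open_source.measurableSet
  have key : ∀ x ∈ (t : Set N),
      ((mu L).restrict (A.c i).source).restrict
        (A.c (L.R.idx x)).source = (nu L i).restrict (A.c (L.R.idx x)).source := by
    intro x _
    set j : A.ι := L.R.idx x with hj
    refine Measure.ext fun E hE => ?_
    rw [Measure.restrict_apply hE, Measure.restrict_apply hE,
      Measure.restrict_apply (hE.inter (hsm j))]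
    set F : Set N := E ∩ (A.c j).source ∩ (A.c i).source with hF
    have hFm : MeasurableSet F := (hE.inter (hsm j)).inter (hsm i)
    rw [mu_pref L x hFm (fun p hp => hp.1.2), nu_apply L i (hE.inter (hsm j))]
    have h1 : A.cim i (E ∩ (A.c j).source) = A.cim i F := by
      ext z
      constructor
      · rintro ⟨hz, hzE⟩
        exact ⟨hz, hzE, (A.c i).map_target hz⟩
      · rintro ⟨hz, hzE⟩
        exact ⟨hz, hzE.1⟩
    rw [h1]
    exact (lintegral_cim L (i := i) (j := j) (E := F) hFm (fun p hp => hp.2) (fun p hp => hp.1.2)).symm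
  have h1 := (Measure.restrict_biUnion_congr
    (μ := (mu L).restrict (A.c i).source)
    (ν := nu L i) (s := (t : Set N))
    (t := fun x : N => (A.c (L.R.idx x)).source) t.countable_toSet).2 key
  rwa [hcov, Measure.restrict_univ, Measure.restrict_univ] at h1

/-- **integrals over measurable subsets of a chart domain** -/
theorem integral_chart (i : A.ι) {E : Set N} (hE : MeasurableSet E)
    (hs : E ⊆ (A.c i).source) {h : N → ℝ} (hh : Continuous h) :
    ∫ x in E, h x ∂(mu L) = ∫ z in A.cim i E, L.lam i z * h ((A.c i).symm z) := by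
  have h0 : (mu L).restrict E = (nu L i).restrict E := by
    rw [← restrict_eq_nu, Measure.restrict_restrict hE, inter_eq_left.2 hs]
  rw [h0]
  have h1 := setIntegral_map (μ := (volume.restrict (A.c i).target).withDensity
    fun z => ENNReal.ofReal (L.lam i z)) (g := (A.c i).symm) (f := fun x : N => h x) hE
    hh.aestronglyMeasurable (aemeas_symm L i)
  refine Eq.trans h1 ?_
  have hτm : MeasurableSet (A.c i).target := (A.c i).open_target.measurableSet
  have hcm : MeasurableSet (A.cim i E) := measurableSet_cim i hE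
  have hlam : AEMeasurable (fun z => L.lam i z) (volume.restrict (A.c i).target) :=
    (L.sm i).continuousOn.aemeasurable hτm
  set ρ : ℂ → NNReal := fun z => Real.toNNReal (L.lam i z) with hρ
  have hρm : AEMeasurable ρ (volume.restrict (A.c i).target) := hlam.real_toNNReal
  -- replace the preimage by `cim`
  have h2 : ((volume.restrict (A.c i).target).withDensity
      fun z => ENNReal.ofReal (L.lam i z)).restrict ((A.c i).symm ⁻¹' E) =
      ((volume.restrict (A.cim i E)).withDensity fun z => (ρ z : ENNReal)) := by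
    have h3 : ((volume.restrict (A.c i).target).withDensity
        fun z => ENNReal.ofReal (L.lam i z)).restrict ((A.c i).symm ⁻¹' E) =
        ((volume.restrict (A.c i).target).withDensity
        fun z => ENNReal.ofReal (L.lam i z)).restrict (A.cim i E) := by
      refine Measure.restrict_congr_set ?_
      have h4 : ∀ᵐ y ∂((volume.restrict (A.c i).target).withDensity
          fun z => ENNReal.ofReal (L.lam i z)), y ∈ (A.c i).target :=
        (withDensity_absolutelyContinuous _ _).ae_le (ae_restrict_mem hτm)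
      filter_upwards [h4] with y hy
      apply propext
      exact ⟨fun h => ⟨hy, h⟩, fun h => h.2⟩
    rw [h3, restrict_withDensity hcm, Measure.restrict_restrict hcm]
    have h5 : A.cim i E ∩ (A.c i).target = A.cim i E := inter_eq_left.2 fun z hz => hz.1
    rw [h5]
    rfl
  rw [h2, integral_withDensity_eq_integral_smul₀]
  · refine setIntegral_congr_fun hcm fun z hz => ?_
    rw [hρ]
    simp only [NNReal.smul_def, Real.coe_toNNReal _ (L.pos i z hz.1).le, smul_eq_mul]
  · exact hρm.mono_measure (Measure.restrict_mono (fun z hz => hz.1) le_rfl)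

end CAtl

end Crest.Agent.R235.RS
end
end

-- ▼ part R235/RSPois5_910
section

/-!
Row 235 (S0364), package RS (helper910), RS-2d: `POISSON` and `STOKES` for an atlas in the lowest
universe.
-/

set_option autoImplicit false
set_option linter.unusedSectionVars false
set_option linter.style.haveILetI false
set_option maxSynthPendingDepth 3

open Set Filter Topology Metric Manifold Function Bundle MeasureTheory
open scoped ContDiff Manifold
open Crest.GeometryTopology.CoordMetric Crest.GeometryTopology.PointedLimit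
open Crest.Agent.R273.RMan_798

noncomputable section

namespace Crest.Agent.R235.RS

namespace CAtl

variable {N : Type} [TopologicalSpace N] {A : CAtl.{0, 0} N} (L : A.CMet)
variable [T2Space N] [ConnectedSpace N] [CompactSpace N]

instance compR : CompactSpace L.R.M := inferInstanceAs (CompactSpace N)

/-- the Laplacian of the conformal metric -/
def mlap (f : N → ℝ) (x : N) : ℝ :=
  Crest.Agent.R247.Bo84.mLap 2 (fun p : L.R.M => f ((toM L).symm p)) (toM L x)

theorem mlap_eq {f : N → ℝ} (hf : A.Smooth f) {i : A.ι} {x : N} (hx : x ∈ (A.c i).source) :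
    mlap L f x = (L.lam i (A.c i x))⁻¹ * A.lapC f i x :=
  mLap_eq L hf hx

theorem contMDiff_of_smooth {f : N → ℝ} (hf : A.Smooth f) :
    ContMDiff (𝓡 2) 𝓘(ℝ, ℝ) ∞ (fun p : L.R.M => f ((toM L).symm p)) := (smooth_iff L).2 hf




/-- **Poisson** -/
theorem poisson0 : A.POISSON := by
  intro i ρ hρ hρc hρs hρ0
  letI mN : MeasurableSpace N := borel N
  haveI bN : BorelSpace N := ⟨rfl⟩
  obtain ⟨L⟩ := A.exists_cmet
  classical
  set g : N → ℝ := fun x => if x ∈ (A.c i).source then (L.lam i (A.c i x))⁻¹ * ρ (A.c i x) else 0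
    with hg
  -- the compact support
  set Q : Set N := (A.c i).symm '' tsupport ρ with hQ
  have hQc : IsCompact Q := hρc.isCompact.image_of_continuousOn
    ((A.c i).continuousOn_symm.mono hρs)
  have hgQ : ∀ x, x ∉ Q → g x = 0 := by
    intro x hx
    simp only [hg]
    split_ifs with h
    · have h1 : A.c i x ∉ tsupport ρ := fun h2 => hx ⟨_, h2, (A.c i).left_inv h⟩
      rw [image_eq_zero_of_notMem_tsupport h1, mul_zero]
    · rfl
  have hgs : A.Smooth g := by
    intro j z hz
    refine ContDiffAt.contDiffWithinAt ?_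
    by_cases hx : (A.c j).symm z ∈ (A.c i).source
    · have hd : z ∈ A.dom j i := ⟨hz, hx⟩
      have h1 : ContDiffAt ℝ ∞ (A.tr j i) z := A.q_contDiffAt_tr hd
      have h2 : ContDiffAt ℝ ∞ (L.lam i) (A.tr j i z) :=
        (L.sm i).contDiffAt ((A.c i).open_target.mem_nhds (A.q_tr_mem hd))
      have h3 : ContDiffAt ℝ ∞ (fun w => (L.lam i (A.tr j i w))⁻¹ * ρ (A.tr j i w)) z :=
        ((h2.comp z h1).inv (L.pos i _ (A.q_tr_mem hd)).ne').mul (hρ.contDiffAt.comp z h1)
      refine h3.congr_of_eventuallyEq ?_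
      filter_upwards [(A.q_isOpen_dom j i).mem_nhds hd] with w hw
      simp only [hg]
      rw [if_pos hw.2]
      rfl
    · have h1 : (A.c j).symm z ∉ Q := by
        rintro ⟨w, hw, hwz⟩
        exact hx (hwz ▸ (A.c i).map_target (hρs hw))
      have h2 : ∀ᶠ w in 𝓝 z, (A.c j).symm w ∉ Q :=
        ((A.c j).continuousAt_symm hz).eventually (hQc.isClosed.isOpen_compl.mem_nhds h1)
      refine (contDiffAt_const (c := (0 : ℝ))).congr_of_eventuallyEq ?_
      filter_upwards [h2] with w hw
      exact hgQ _ hw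
  have hgM : ContMDiff (𝓡 2) 𝓘(ℝ, ℝ) ∞ (fun p : L.R.M => g ((toM L).symm p)) :=
    contMDiff_of_smooth L hgs
  have hgc : Continuous g := by
    have h1 := hgM.continuous
    exact h1.comp (toM L).continuous
  have hg0 : ∫ p, g ((toM L).symm p) ∂(Measure.euclideanHausdorffMeasure 2 : Measure L.R.M) = 0 := by
    have h1 : ∫ x, g x ∂(mu L) =
        ∫ p, g ((toM L).symm p) ∂(Measure.euclideanHausdorffMeasure 2 : Measure L.R.M) := by
      rw [mu, (emb_toM_symm L).integral_map]
    rw [← h1]
    have h2 : ∫ x, g x ∂(mu L) = ∫ x in (A.c i).source, g x ∂(mu L) := by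
      refine (setIntegral_eq_integral_of_forall_compl_eq_zero fun x hx => ?_).symm
      simp only [hg]
      rw [if_neg hx]
    rw [h2, integral_chart L i (A.c i).open_source.measurableSet subset_rfl hgc]
    have h3 : A.cim i (A.c i).source = (A.c i).target := by
      ext z; constructor
      · exact fun h => h.1
      · exact fun h => ⟨h, (A.c i).map_target h⟩
    rw [h3]
    have h4 : ∫ z in (A.c i).target, L.lam i z * g ((A.c i).symm z) =
        ∫ z in (A.c i).target, ρ z := by
      refine setIntegral_congr_fun (A.c i).open_target.measurableSet fun z hz => ?_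
      simp only [hg]
      rw [if_pos ((A.c i).map_target hz), (A.c i).right_inv hz, ← mul_assoc,
        mul_inv_cancel₀ (L.pos i z hz).ne', one_mul]
    rw [h4, setIntegral_eq_integral_of_forall_compl_eq_zero, hρ0]
    intro z hz
    exact image_eq_zero_of_notMem_tsupport fun h => hz (hρs h)
  obtain ⟨u, hu, hlap, -⟩ := Crest.Agent.R249.Grn324.exists_poisson (n := 2) (M := L.R.M) hgM hg0
  have hus : A.Smooth (fun x : N => u (toM L x)) := (smooth_iff L).1 hu
  have hl : ∀ x, mlap L (fun x : N => u (toM L x)) x = g x := fun x => hlap (toM L x)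
  have hlc : ∀ j, ∀ x ∈ (A.c j).source, A.lapC (fun x : N => u (toM L x)) j x =
      L.lam j (A.c j x) * g x := by
    intro j x hx
    rw [← hl x, mlap_eq L hus hx, ← mul_assoc,
      mul_inv_cancel₀ (L.pos j _ ((A.c j).map_source hx)).ne', one_mul]
  refine ⟨fun x : N => u (toM L x), hus, fun x hx => ?_, fun j x hx hxi => ?_⟩
  · rw [hlc i x hx]
    simp only [hg]
    rw [if_pos hx, ← mul_assoc, mul_inv_cancel₀ (L.pos i _ ((A.c i).map_source hx)).ne', one_mul]
  · rw [hlc j x hx]
    simp only [hg]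
    rw [if_neg hxi, mul_zero]

end CAtl

end Crest.Agent.R235.RS
end
end

-- ▼ part R235/RSPois6_910

/-!
Row 235 (S0364), package RS (helper910), RS-2e: `POISSON` and `STOKES` in all universes.
-/

set_option autoImplicit false
set_option linter.unusedSectionVars false
set_option linter.style.haveILetI false

open Set Filter Topology Metric Function MeasureTheory
open scoped ContDiff

noncomputable section

namespace Crest.Agent.R235.RS

universe u v

namespace CAtl

section Trans

variable {N : Type u} [TopologicalSpace N] (A : CAtl.{u, v} N)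
variable {N' : Type} [TopologicalSpace N'] (h : N' ≃ₜ N)

/-- the transported atlas; the index set is the set of charts -/
def pull : CAtl.{0, 0} N' where
  ι := {e : OpenPartialHomeomorph N' ℂ // ∃ i, h.transOpenPartialHomeomorph (A.c i) = e}
  c e := e.1
  cover x := by
    obtain ⟨i, hi⟩ := A.cover (h x)
    exact ⟨⟨_, i, rfl⟩, hi⟩
  hol := by
    rintro ⟨_, i, rfl⟩ ⟨_, j, rfl⟩
    refine ((A.hol i j).congr fun z hz => ?_).mono ?_
    · show A.c j (h (h.symm ((A.c i).symm z))) = A.c j ((A.c i).symm z)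
      rw [h.apply_symm_apply]
    · rintro z ⟨hz, hzj⟩
      refine ⟨hz, ?_⟩
      have h1 : h (h.symm ((A.c i).symm z)) ∈ (A.c j).source := hzj
      rwa [h.apply_symm_apply] at h1

/-- the index of the chart `i` -/
def pix (i : A.ι) : (A.pull h).ι := ⟨h.transOpenPartialHomeomorph (A.c i), i, rfl⟩

theorem pull_symm (i : A.ι) (z : ℂ) :
    h (((A.pull h).c (A.pix h i)).symm z) = (A.c i).symm z := by
  show h (h.symm ((A.c i).symm z)) = _
  rw [h.apply_symm_apply]


theorem smooth_of_pull {f : N' → ℝ} (hf : (A.pull h).Smooth f) :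
    A.Smooth (fun x => f (h.symm x)) := fun i => hf (A.pix h i)

theorem lapC_pull (f : N → ℝ) (i : A.ι) (x : N) :
    (A.pull h).lapC (fun x => f (h x)) (A.pix h i) (h.symm x) = A.lapC f i x := by
  have h1 : (fun z => f (h (((A.pull h).c (A.pix h i)).symm z))) = fun z => f ((A.c i).symm z) := by
    funext z
    rw [A.pull_symm]
  unfold lapC
  rw [h1]
  show lap _ (A.c i (h (h.symm x))) = _
  rw [h.apply_symm_apply]

theorem poisson_of_pull (H : (A.pull h).POISSON) : A.POISSON := by
  intro i ρ hρ hρc hρs hρ0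
  obtain ⟨f, hf, h1, h2⟩ := H (A.pix h i) ρ hρ hρc hρs hρ0
  have hl : ∀ j x, A.lapC (fun x => f (h.symm x)) j x =
      (A.pull h).lapC f (A.pix h j) (h.symm x) := by
    intro j x
    rw [← A.lapC_pull h]
    simp only [Homeomorph.symm_apply_apply]
  refine ⟨fun x => f (h.symm x), A.smooth_of_pull h hf, fun x hx => ?_, fun j x hx hxi => ?_⟩
  · rw [hl]
    have hx' : h.symm x ∈ ((A.pull h).c (A.pix h i)).source := by
      show h (h.symm x) ∈ (A.c i).source
      rwa [h.apply_symm_apply]
    rw [h1 _ hx']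
    show ρ (A.c i (h (h.symm x))) = _
    rw [h.apply_symm_apply]
  · rw [hl]
    refine h2 (A.pix h j) _ ?_ ?_
    · show h (h.symm x) ∈ (A.c j).source
      rwa [h.apply_symm_apply]
    · show ¬ h (h.symm x) ∈ (A.c i).source
      rwa [h.apply_symm_apply]


end Trans

section Small

variable {N : Type u} [TopologicalSpace N] (A : CAtl.{u, v} N)

include A in
theorem small_of_compact [CompactSpace N] : Small.{0} N := by
  obtain ⟨t, ht⟩ := (isCompact_univ (X := N)).elim_finite_subcover
    (fun i => (A.c i).source) (fun i => (A.c i).open_source)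
    (fun x _ => mem_iUnion.2 (A.cover x))
  have hs : Surjective (fun p : Fin t.card × ℂ => (A.c (t.equivFin.symm p.1 : A.ι)).symm p.2) := by
    intro x
    have h1 := ht (mem_univ x)
    simp only [mem_iUnion, exists_prop] at h1
    obtain ⟨i, hi, hx⟩ := h1
    refine ⟨(t.equivFin ⟨i, hi⟩, A.c i x), ?_⟩
    simp only [Equiv.symm_apply_apply]
    exact (A.c i).left_inv hx
  exact small_of_surjective hs

variable [T2Space N] [ConnectedSpace N] [CompactSpace N]

include A in
theorem exists_homeo : ∃ (N' : Type) (_ : TopologicalSpace N') (_ : T2Space N')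
    (_ : ConnectedSpace N') (_ : CompactSpace N'), Nonempty (N' ≃ₜ N) := by
  haveI := A.small_of_compact
  letI tN : TopologicalSpace (Shrink.{0} N) := TopologicalSpace.induced (equivShrink N).symm inferInstance
  let e : Shrink.{0} N ≃ₜ N := (equivShrink N).symm.toHomeomorphOfIsInducing ⟨rfl⟩
  exact ⟨Shrink.{0} N, tN, e.symm.t2Space, e.symm.surjective.connectedSpace e.symm.continuous,
    e.symm.compactSpace, ⟨e⟩⟩

/-- **POISSON** -/
theorem poisson : A.POISSON := by
  obtain ⟨N', i1, i2, i3, i4, ⟨e⟩⟩ := A.exists_homeo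
  exact A.poisson_of_pull e poisson0


end Small

end CAtl

end Crest.Agent.R235.RS
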