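import Mathlib
import Crest.Agent.R235.Defs_837
import Crest.Agent.R235.Ip_288
import Crest.Agent.R235.Ip2_288
import Crest.Agent.R235.T1_195

/-!
Row 235 (S0364), helper195: the bridge between `Defs_837` (`IsJ`, `PCur`, `pI`, `ip`) and the data
`D : Dat M` of R240.
-/

set_option autoImplicit false
set_option maxSynthPendingDepth 3

open Set Function Filter MeasureTheory Metric
open scoped Manifold ContDiff Topology ENNReal

universe u

namespace Crest.Agent.R235.T1A_195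

open Crest.Agent.R240 Crest.Agent.R240.Ch Crest.Agent.R240.En4 Crest.Agent.R235
  Crest.Agent.R235.T1_195

noncomputable section

/-- for a taming form `a`: `W(a,a)` has the sign of `W(a',a')`. -/
theorem W_mul_pos {J : E4 →L[ℝ] E4} (hJ : ∀ v, J (J v) = -v) {a : Bil} (ha : Alt a)
    (hF : SPos J (invp J a)) : 0 < W (invp J a) (invp J a) * W a a := by
  have hq : 0 < q (invp J a) a a := by
    have h1 := q_split hJ hF ha ha
    have h2 := nsq_nonneg hJ hF (ha.antip J)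
    rw [nsq_anti hJ hF (ha.antip J) (antip_anti hJ a)] at h2
    rw [h1, q_F_F hJ hF]
    linarith
  unfold q at hq
  rcases div_pos_iff.1 hq with ⟨h3, h4⟩ | ⟨h3, h4⟩
  · exact mul_pos h4 h3
  · exact mul_pos_of_neg_of_neg h4 h3

section

variable {M : Type u} [MetricSpace M] [CompactSpace M] [ChartedSpace E4 M]
    [IsManifold 𝓘(ℝ, E4) ∞ M] [MeasurableSpace M] [BorelSpace M]

/-- the data `D` of R240 belonging to `(w, J)`. -/
structure Bridge (w : Trip M) (J : EndF E4 M) (D : Dat M) : Prop where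
  J_eq : D.J = J
  al_eq : D.al = ((w 0).1.1 : F2 E4 M)

theorem exists_bridge (hb : Met.BiLip E4 M) {w : Trip M} {J : EndF E4 M} (hJ : IsJ w J) :
    ∃ D : Dat M, Bridge w J D := by
  obtain ⟨D, h1, h2⟩ := Int.exists_dat hb hJ.smooth hJ.sq (w 0).1.2 (w 0).2 hJ.tame
  exact ⟨D, h1, h2⟩

variable {w : Trip M} {J : EndF E4 M} {D : Dat M}

theorem Bridge.inv (h : Bridge w J D) {Φ : X2 M →ₗ[ℝ] ℝ} (hΦ : PCur J Φ) : D.IsInv Φ := by
  intro b
  refine hΦ.inv b (D.pi' b) fun x => ?_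
  rw [← h.J_eq]
  rfl

theorem Bridge.nonneg (h : Bridge w J D) {Φ : X2 M →ₗ[ℝ] ℝ} (hΦ : PCur J Φ) : D.IsNonneg Φ := by
  intro P hP
  refine hΦ.nonneg P ?_
  rw [← h.J_eq]
  exact hP

omit [CompactSpace M] [MeasurableSpace M] [BorelSpace M] in
theorem Bridge.closed {Φ : X2 M →ₗ[ℝ] ℝ} (hΦ : PCur J Φ) : Dat.KillsExact Φ := hΦ.closed

/-- a positive closed current has a trace measure. -/
theorem Bridge.exists_cur (h : Bridge w J D) {Φ : X2 M →ₗ[ℝ] ℝ} (hΦ : PCur J Φ) :
    ∃ s, Cur D Φ s := T1_195.exists_cur D (h.inv hΦ) (h.nonneg hΦ) (Bridge.closed hΦ)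

/-- conversely. -/
theorem Bridge.pcur (h : Bridge w J D) {Φ : X2 M →ₗ[ℝ] ℝ} {s : Measure M} (hΦ : Cur D Φ s) :
    PCur J Φ where
  inv := by
    intro b c hbc
    rw [hΦ.inv b]
    rw [hΦ.inv c]
    congr 1
    apply Subtype.ext
    funext x
    show invp (atJ D.J x) (at2 (b : F2 E4 M) x) = invp (atJ D.J x) (at2 (c : F2 E4 M) x)
    rw [h.J_eq, ← hbc x]
    exact (invp_of_inv (invp_inv (by rw [← h.J_eq]; exact D.sq x) _)).symm
  nonneg := by
    intro b hb
    refine hΦ.nonneg b ?_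
    show PosG D.J _
    rw [h.J_eq]
    exact hb
  closed := hΦ.closed

/-- the two orientations agree. -/
theorem Bridge.or (h : Bridge w J D) (x : M) :
    0 < W (at2 D.F x) (at2 D.F x) * W (val (w 0) x) (val (w 0) x) := by
  have h1 := W_mul_pos (J := atJ D.J x) (D.sq x) (a := at2 D.al x) (D.sm_al.1 x)
    (Int.dat_sposF D x)
  have h2 : at2 D.al x = val (w 0) x := by rw [h.al_eq]; rfl
  rw [h2] at h1
  have h3 : at2 D.F x = invp (atJ D.J x) (val (w 0) x) := by rw [← h2]; rfl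
  rw [h3]
  exact h1

theorem Bridge.vol (h : Bridge w J D) : Int.Vol ((w 0).1.1 : F2 E4 M) :=
  vol_of_ne fun x h0 => by
    have h1 := h.or x
    rw [h0, mul_zero] at h1
    exact lt_irrefl _ h1

/-- the pairing of `D` is the pairing of `w 0`. -/
theorem Bridge.I_eq (h : Bridge w J D) (b c : F2 E4 M) :
    Int.I ((w 0).1.1 : F2 E4 M) b c = D.I b c := by
  have h1 : D.I b c = Int.I D.F b c := Int.IG_eq_I (Int.dat_volF D) D.vol b c
  rw [h1]
  exact I_congr_orient (Int.dat_volF D) h.vol h.or b c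

theorem Bridge.pI_eq (h : Bridge w J D) (a b : Z2 M) :
    pI (w 0) a b = D.I (a.1.1 : F2 E4 M) (b.1.1 : F2 E4 M) := by
  obtain rfl : ‹MeasurableSpace M› = borel M := BorelSpace.measurable_eq
  let _ : MeasurableSpace M := borel M
  exact h.I_eq _ _

theorem Bridge.ip_eq (h : Bridge w J D) (a b : Z2 M) :
    ip (w 0) (cls a) (cls b) = D.I (a.1.1 : F2 E4 M) (b.1.1 : F2 E4 M) := by
  rw [ip_cls h.vol, h.pI_eq]

/-- the class of a current. -/
theorem Bridge.rep (h : Bridge w J D) {Φ : X2 M →ₗ[ℝ] ℝ} {a : Z2 M}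
    (ha : ∀ b : Z2 M, Φ b.1 = ip (w 0) (cls a) (cls b)) : Rep D Φ a.1 := by
  refine ⟨a.2, fun b hb => ?_⟩
  rw [ha ⟨b, hb⟩, h.ip_eq]

end

section



end

end

end Crest.Agent.R235.T1A_195
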