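import Crest.Agent.R235.Props_844
import Crest.Agent.R235.Ip2_288
import Crest.Agent.R235.LatKx_766

/-!
Row 235 (S0364), package KUM-B, helper504: WORD8.  The half words of a Kummer configuration: every
integral half sum `½ ∑_{i ∈ I} d i` has `card I = 0, 8` or `16`, and there is one with eight
elements (the code has dimension at least five, since the K3 lattice is unimodular of rank 22).
-/

set_option autoImplicit false
set_option maxSynthPendingDepth 3

open Set Function Filter MeasureTheory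
open scoped Manifold ContDiff Topology

universe u

namespace Crest.Agent.R235.Word8_504

open Crest.Agent.R240 Crest.Agent.R240.Ch Crest.Agent.R240.Int
open Crest.Agent.R235.LatKx_766

noncomputable section

/-! ### the lattice is unimodular -/





/-- the Gram matrix modulo two. -/
def g2 : Matrix IK IK (ZMod 2) := gK3.map (Int.castRingHom (ZMod 2))


/-! ### the code -/

/-- the configuration modulo two. -/
def n2 (n : Fin 16 → IK → ℤ) : Matrix (Fin 16) IK (ZMod 2) := fun i k => (n i k : ZMod 2)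






/-! ### squares -/

theorem qf_even (v : IK → ℤ) : ∃ m : ℤ, qf v v = 2 * m := by
  refine ⟨v (Sum.inl (0, 0)) * v (Sum.inl (0, 1)) + v (Sum.inl (1, 0)) * v (Sum.inl (1, 1)) +
    v (Sum.inl (2, 0)) * v (Sum.inl (2, 1)) -
    (v (Sum.inr (0, 0)) ^ 2 + v (Sum.inr (0, 1)) ^ 2 + v (Sum.inr (0, 2)) ^ 2 +
      v (Sum.inr (0, 3)) ^ 2 + v (Sum.inr (0, 4)) ^ 2 + v (Sum.inr (0, 5)) ^ 2 +
      v (Sum.inr (0, 6)) ^ 2 + v (Sum.inr (0, 7)) ^ 2
      - v (Sum.inr (0, 0)) * v (Sum.inr (0, 2)) - v (Sum.inr (0, 1)) * v (Sum.inr (0, 3))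
      - v (Sum.inr (0, 2)) * v (Sum.inr (0, 3)) - v (Sum.inr (0, 3)) * v (Sum.inr (0, 4))
      - v (Sum.inr (0, 4)) * v (Sum.inr (0, 5)) - v (Sum.inr (0, 5)) * v (Sum.inr (0, 6))
      - v (Sum.inr (0, 6)) * v (Sum.inr (0, 7))) -
    (v (Sum.inr (1, 0)) ^ 2 + v (Sum.inr (1, 1)) ^ 2 + v (Sum.inr (1, 2)) ^ 2 +
      v (Sum.inr (1, 3)) ^ 2 + v (Sum.inr (1, 4)) ^ 2 + v (Sum.inr (1, 5)) ^ 2 +
      v (Sum.inr (1, 6)) ^ 2 + v (Sum.inr (1, 7)) ^ 2
      - v (Sum.inr (1, 0)) * v (Sum.inr (1, 2)) - v (Sum.inr (1, 1)) * v (Sum.inr (1, 3))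
      - v (Sum.inr (1, 2)) * v (Sum.inr (1, 3)) - v (Sum.inr (1, 3)) * v (Sum.inr (1, 4))
      - v (Sum.inr (1, 4)) * v (Sum.inr (1, 5)) - v (Sum.inr (1, 5)) * v (Sum.inr (1, 6))
      - v (Sum.inr (1, 6)) * v (Sum.inr (1, 7))), ?_⟩
  simp only [qf, hy, e8]
  ring




/-! ### classes -/

section

variable {M : Type u} [TopologicalSpace M] [T2Space M] [CompactSpace M]
  [ChartedSpace E4 M] [IsManifold 𝓘(ℝ, E4) ∞ M]

/-- the class with coordinates `n`. -/
def cl (e : Module.Basis IK ℝ (H2 M)) (n : IK → ℤ) : H2 M := ∑ i, (n i : ℝ) • e i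





theorem ip_cl {F : Z2 M} (hF : Vol (F.1.1 : F2 E4 M)) (e : Module.Basis IK ℝ (H2 M))
    (hG : ∀ i j, ip F (e i) (e j) = gK3 i j) (x y : IK → ℤ) :
    ip F (cl e x) (cl e y) = (qf x y : ℤ) := by
  rw [← qf_eq (R := ℤ) x y, cl, cl, ip_sum_left hF, Int.cast_sum]
  refine Finset.sum_congr rfl fun i _ => ?_
  rw [ip_sum_right hF, Int.cast_sum]
  refine Finset.sum_congr rfl fun j _ => ?_
  rw [ip_smul_left hF, ip_smul_right hF, hG]
  push_cast
  ring



end



section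

variable {M : Type u} [TopologicalSpace M] [T2Space M] [CompactSpace M]
  [ChartedSpace E4 M] [IsManifold 𝓘(ℝ, E4) ∞ M] {F : Z2 M}






end

variable {M : Type u} [TopologicalSpace M] [T2Space M] [CompactSpace M]
  [ChartedSpace E4 M] [IsManifold 𝓘(ℝ, E4) ∞ M]



end

end Crest.Agent.R235.Word8_504
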