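import Crest.Agent.R235.Top_844
import Crest.Agent.R235.TyR_844
import Crest.Agent.R235.RSMer2_538
import Crest.Agent.R235.RSPois6_910
import Crest.Agent.R235.Wind2_688
import Crest.Agent.R235.AdjDefs_43
import Crest.Agent.R235.CurTopProps_844
import Crest.Agent.R235.T1A_195
import Crest.Agent.R235.CurB_288
import Crest.Agent.R235.AdjE_83
import Crest.Agent.R235.Sph0_464
import Crest.Agent.R235.Word8_504
import Crest.Agent.R235.HZFin_524

-- ▼ part R235/TopR_844
section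

/-!
Row 235 (S0364), helper844: THE TOP THEOREM with the real torus type `T4R`
(captain's decision 2 (1)): `main_of_props' : DICHR, EXJ, ROOT, CONE, HKCONE, LATK, KUM, LATTR, TORR ⇒ MAIN`,
and the versions of `swb_of`, `sys`, `joined_of`, `reach_Q`, `reach_all` with `TyOK F`
(`K3Type F`, `T4Type F` and `T4R F` all give `TyOK F`: `tyOK_of_type`, `tyOK_of`).
-/

set_option autoImplicit false
set_option maxSynthPendingDepth 3

open Set Function Filter MeasureTheory
open scoped Manifold ContDiff Topology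

universe u

namespace Crest.Agent.R235

open Crest.Agent.R240 Crest.Agent.R240.Ch Crest.Agent.R240.Int

noncomputable section

set_option linter.unusedSectionVars false

section Inst

variable {M : Type u} [TopologicalSpace M] [T2Space M] [CompactSpace M] [ConnectedSpace M]
  [ChartedSpace E4 M] [IsManifold 𝓘(ℝ, E4) ∞ M]

theorem swb_of' {F : Z2 M} (hF : Vol (F.1.1 : F2 E4 M)) {n : ℕ} (E : H2 M ≃ₗ[ℝ] (Fin n → ℝ))
    (hty : TyOK F)
    (hroot : ∀ w : Trip M, Pos3 w → K3Type (w 0) → ∀ d ∈ Root (w 0),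
      ∃ i, ip (w 0) d (cls (w i)) ≠ 0)
    {w : Trip M} (hw : w ∈ PO F) : ∀ d ∈ E '' Dg F, ∃ i, Bt F hF E d (E (clw w i)) ≠ 0 := by
  rintro _ ⟨e, he, rfl⟩
  by_contra hcon
  push Not at hcon
  have h0 : ∀ i, ip F e (cls (w i)) = 0 := by
    intro i
    have h1 := hcon i
    rw [Bt_apply, E.symm_apply_apply, E.symm_apply_apply] at h1
    exact h1
  have hneg : ip F e e < 0 := by
    have hpc := BPlus_723.posCls_of_pos3 hw.1
    rw [PosCls_congr (PO.ip_eq hF hw)] at hpc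
    exact hty.neg _ hpc e h0 he.2.1
  rcases he.2.2 with h1 | h1
  · exact absurd hneg (not_lt.2 h1)
  · have h2 : K3Type (w 0) := by rw [K3Type_congr (PO.ip_eq hF hw)]; exact h1.1
    have h3 : e ∈ Root (w 0) := by rw [Root_congr (PO.ip_eq hF hw)]; exact h1.2
    obtain ⟨i, hi⟩ := hroot w hw.1 h2 e h3
    rw [PO.ip_eq hF hw] at hi
    exact hi (h0 i)

/-- the data of the abstract argument. -/
def sys' (F : Z2 M) (hF : Vol (F.1.1 : F2 E4 M)) {n : ℕ} (E : H2 M ≃ₗ[ℝ] (Fin n → ℝ))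
    (hty : TyOK F)
    (hex : ∀ w : Trip M, Pos3 w → ∃ J, IsJ w J)
    (hroot : ∀ w : Trip M, Pos3 w → K3Type (w 0) → ∀ d ∈ Root (w 0),
      ∃ i, ip (w 0) d (cls (w i)) ≠ 0)
    (hcone : ∀ w : Trip M, Pos3 w → ∀ (k : Fin 3) (x : H2 M), CCond (w 0) (clw w) k x →
      ∃ a : Z2 M, cls a = x ∧ Seg w (update w k a))
    (hhk : ∀ w : Trip M, Pos3 w → HK w → ∀ (k : Fin 3) (x : H2 M), CCond (w 0) (clw w) k x →
      ∃ a : Z2 M, cls a = x ∧ Seg w (update w k a) ∧ HK (update w k a)) :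
    Mv.Sys (Z2 M) (Fin n → ℝ) where
  P := PO F
  P_act := fun g w hg hw => so_linear hw hg
  cl := clt E
  B := Bt F hF E
  B_symm := fun a b => ip_comm F _ _
  R := E '' Dg F
  R_cnt := (hty.cnt.mono fun e he => he.1).image _
  Hy := {w | w ∈ PO F ∧ HK w}
  Hy_sub := fun w hw => hw.1
  Hy_act := fun g w hg hw => ⟨so_linear hw.1 hg, hw.2.linear hg⟩
  cvx := by
    intro w hw k
    have : Mv.Tm (PO F) w k = {a : Z2 M | Seg w (update w k a)} := by
      ext a; exact tm_iff hw k a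
    rw [this]
    exact convex_tame hw.1 k hex
  opn := isOpen_PO F
  pos := fun w hw => pos_of hF E hw
  swb := fun w hw => swb_of' hF E hty hroot hw
  cone := by
    intro w hw k c hc
    obtain ⟨a, ha, hs⟩ := hcone w hw.1 k (E.symm c) (ccond_of hF E hw hc)
    exact ⟨a, (tm_iff hw k a).2 hs, by rw [clt_apply, ha, E.apply_symm_apply]⟩
  hkcone := by
    intro w hw k c hc
    obtain ⟨a, ha, hs, hk⟩ := hhk w hw.1.1 hw.2 k (E.symm c) (ccond_of hF E hw.1 hc)
    have h1 := (tm_iff hw.1 k a).2 hs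
    exact ⟨a, h1, by rw [clt_apply, ha, E.apply_symm_apply], Mv.Seg.right h1, hk⟩

theorem joined_of' {F : Z2 M} (hF : Vol (F.1.1 : F2 E4 M)) {n : ℕ} (E : H2 M ≃ₗ[ℝ] (Fin n → ℝ))
    (hty : TyOK F)
    (hex : ∀ w : Trip M, Pos3 w → ∃ J, IsJ w J)
    (hroot : ∀ w : Trip M, Pos3 w → K3Type (w 0) → ∀ d ∈ Root (w 0),
      ∃ i, ip (w 0) d (cls (w i)) ≠ 0)
    (hcone : ∀ w : Trip M, Pos3 w → ∀ (k : Fin 3) (x : H2 M), CCond (w 0) (clw w) k x →
      ∃ a : Z2 M, cls a = x ∧ Seg w (update w k a))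
    (hhk : ∀ w : Trip M, Pos3 w → HK w → ∀ (k : Fin 3) (x : H2 M), CCond (w 0) (clw w) k x →
      ∃ a : Z2 M, cls a = x ∧ Seg w (update w k a) ∧ HK (update w k a))
    {w : Trip M} (hw : w ∈ PO F) {b : Fin 3 → H2 M} (hb : PosCls F b)
    (hgen : ∀ e ∈ HZ M, e ≠ 0 → ip F e (b 0) ≠ 0)
    (hdet : 0 < (Matrix.of fun i j => ip F (b i) (cls (w j))).det)
    (htar : ∀ w' ∈ PO F, (∀ i, cls (w' i) = b i) → ∃ z : Trip M, PL w' z ∧ HK z) :
    ∃ z : Trip M, Joined w z ∧ HK z := by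
  have h1 : Mv.PosF (Bt F hF E) (fun i => E (b i)) := by
    intro a ha
    have h1 := hb a ha
    rw [Bt_apply, symm_comb]
    exact h1
  have h2 : ∀ d ∈ E '' Dg F, Bt F hF E d (E (b 0)) ≠ 0 := by
    rintro _ ⟨e, he, rfl⟩
    rw [Bt_apply, E.symm_apply_apply, E.symm_apply_apply]
    exact hgen e he.1 he.2.1
  have h3 : 0 < (Matrix.of fun i j => Bt F hF E (clt E (w i)) (E (b j))).det := by
    rw [← Matrix.det_transpose]
    have e : (Matrix.of fun i j => Bt F hF E (clt E (w i)) (E (b j))).transpose =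
        Matrix.of fun i j => ip F (b i) (cls (w j)) := by
      ext i j
      rw [Matrix.transpose_apply, Matrix.of_apply, Matrix.of_apply, Bt_apply, clt_apply,
        E.symm_apply_apply, E.symm_apply_apply, ip_comm]
    rw [e]
    exact hdet
  have h4 : ∀ w' ∈ PO F, (fun i => clt E (w' i)) = (fun i => E (b i)) →
      ∃ z ∈ {w : Trip M | w ∈ PO F ∧ HK w}, Relation.ReflTransGen (Mv.Seg (PO F)) w' z := by
    intro w' hw' hcl
    have h1 : ∀ i, cls (w' i) = b i := fun i => E.injective (congrFun hcl i)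
    obtain ⟨z, hz, hzk⟩ := htar w' hw' h1
    obtain ⟨h2, h3⟩ := path_of_pl hw' hz
    exact ⟨z, ⟨h2, hzk⟩, h3⟩
  obtain ⟨z, hz, hzH⟩ := (sys' F hF E hty hex hroot hcone hhk).main (w := w) hw h1 h2 h3 h4
  exact ⟨z, joined_of_mv E hz, hzH.2⟩




end Inst

/-- `BPLUS` from the real dichotomy. -/
theorem bplus_of_dichr (h : DICHR.{u}) : BPLUS.{u} := by
  intro M _ _ _ _ _ _ w hw c hc h0
  exact (tyOK_of (hw.vol 0) (h M w hw)).neg _ (BPlus_723.posCls_of_pos3 hw) c hc h0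

/-- THE TOP THEOREM, real torus type. -/
theorem main_of_props' (hD : DICHR.{u}) (hJ : EXJ.{u}) (hR : ROOT.{u}) (hC : CONE.{u})
    (hH : HKCONE.{u}) (hLK : LATK.{u}) (hK : KUM.{u}) (hLT : LATTR.{u}) (hT : TORR.{u}) :
    MAIN.{u} := by
  intro M _ _ _ _ _ _ w hw
  have hty := hD M w hw
  have hF : Vol ((w 0).1.1 : F2 E4 M) := hw.vol 0
  have hok : TyOK (w 0) := tyOK_of hF hty
  have hfin : Module.Finite ℝ (H2 M) := hok.fin
  have hwP : w ∈ PO (w 0) := ⟨hw, hw.so 0 0⟩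
  rcases hty with h | h
  · obtain ⟨d, b, hb, hd⟩ := hLK M w hw h
    refine joined_of' hF (Module.finBasis ℝ (H2 M)).equivFun hok (hJ M) (hR M) (hC M) (hH M)
      hwP ((BPlus_723.posCls_iff hF b).2 hb.pos) hd.gen hb.ori fun w' hw' hcl => ?_
    have h1 : clw w' = b := funext hcl
    refine hK M w' d hw'.1 ?_ ?_
    · rw [K3Type_congr (PO.ip_eq hF hw')]; exact h
    · rw [h1]; exact KumPos_congr (PO.ip_eq hF hw') hd
  · obtain ⟨e, b, hb, hd⟩ := hLT M w hw h
    refine joined_of' hF (Module.finBasis ℝ (H2 M)).equivFun hok (hJ M) (hR M) (hC M) (hH M)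
      hwP ((BPlus_723.posCls_iff hF b).2 hb.pos) hd.gen hb.ori fun w' hw' hcl => ?_
    have h1 : clw w' = b := funext hcl
    refine hT M w' e hw'.1 ?_ ?_
    · rw [T4R_congr (hw'.2.pI_eq hF (hw'.1.vol 0))]; exact h
    · rw [h1]; exact TorPos_congr (PO.ip_eq hF hw') hd

end

end Crest.Agent.R235
end

-- ▼ part R235/RSSec1_538
section

/-!
Row 235, package RS (helper538): smooth sections of `K` and winding numbers, part 1: one-forms.
-/

set_option autoImplicit false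

open Set Filter Topology Function Metric

universe u v

namespace Crest.Agent.R235.RS

noncomputable section

open Crest.Agent.R235.Wind_688

/-- winding number on all small circles (same as `Adj.WAt`) -/
def WA (F : ℂ → ℂ) (p : ℂ) (n : ℤ) : Prop := ∀ᶠ r in 𝓝[>] (0 : ℝ), IsW F p r n

/-- winding number from an asymptotic formula -/
theorem wa_of_tendsto {F : ℂ → ℂ} {p c : ℂ} {m : ℤ} (hF : ∀ᶠ z in 𝓝[≠] p, ContinuousAt F z)
    (h0 : ∀ᶠ z in 𝓝[≠] p, F z ≠ 0) (hc : c ≠ 0)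
    (h : Tendsto (fun z => F z / (z - p) ^ m) (𝓝[≠] p) (𝓝 c)) : WA F p m := by
  have h1 : ∀ᶠ z in 𝓝 p, z ≠ p → (ContinuousAt F z ∧ F z ≠ 0) := by
    have := hF.and h0
    rwa [eventually_nhdsWithin_iff] at this
  obtain ⟨R, hR, hb⟩ := Metric.eventually_nhds_iff_ball.1 h1
  have h2 : ∀ᶠ r in 𝓝[>] (0 : ℝ), r ∈ Ioo 0 R := Ioo_mem_nhdsGT hR
  filter_upwards [h2] with r hr
  refine isW_of_tendsto (R := R) (fun z hz => ?_) (fun z hz hz' => (hb z hz hz').2) hc h hr.1 hr.2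
  exact (hb z hz.1 hz.2).1.continuousWithinAt

theorem WA.conj {F : ℂ → ℂ} {p : ℂ} {n : ℤ} (h : WA F p n) :
    WA (fun z => (starRingEnd ℂ) (F z)) p (-n) := by
  filter_upwards [h] with r hr
  exact hr.conj

/-- slopes -/
theorem tendsto_slope' {f : ℂ → ℂ} {p d : ℂ} (h : HasDerivAt f d p) :
    Tendsto (fun z => (f z - f p) / (z - p)) (𝓝[≠] p) (𝓝 d) := by
  have h1 := hasDerivAt_iff_tendsto_slope.1 h
  refine h1.congr fun z => ?_
  rw [slope_def_field]

namespace CAtl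

variable {N : Type u} [TopologicalSpace N] {A : CAtl.{u, v} N}

/-- orders of one-forms -/
theorem HForm.exists_ord {ω : A.HForm} [T2Space N] [CompactSpace N] [PreconnectedSpace N]
    (h0 : ¬ ω.IsZero) (x : N) :
    ∃ n : ℤ, (x ∈ ω.Z → 1 ≤ n) ∧ ∀ i, x ∈ (A.c i).source → WA (ω.h i) (A.c i x) n := by
  obtain ⟨j, hj⟩ := A.cover x
  have ha := ω.analyticAt ((A.c j).map_source hj)
  have hnz : ¬ ∀ᶠ z in 𝓝 (A.c j x), ω.h j z = 0 := by
    intro h1
    -- infinitely many zeros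
    have hfin := HForm.finite_Z h0
    have h2 : ∀ᶠ z in 𝓝 (A.c j x), z ∈ (A.c j).target ∧ ω.h j z = 0 := by
      filter_upwards [h1, (A.c j).open_target.mem_nhds ((A.c j).map_source hj)] with z hz hz'
      exact ⟨hz', hz⟩
    have h3 : {z | z ∈ (A.c j).target ∧ ω.h j z = 0}.Infinite := infinite_of_mem_nhds _ h2
    apply h3
    refine Set.Finite.of_finite_image (f := (A.c j).symm) (hfin.subset ?_) ?_
    · rintro y ⟨z, ⟨hz, hz'⟩, rfl⟩
      exact ⟨j, (A.c j).map_target hz, by rwa [(A.c j).right_inv hz]⟩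
    · intro z hz w hw h
      exact (A.c j).symm.injOn hz.1 hw.1 h
  obtain ⟨n, g, hg, hg0, hgn⟩ := (ha.exists_eventuallyEq_pow_smul_nonzero_iff).2 hnz
  refine ⟨n, ?_, ?_⟩
  · intro hx
    rw [HForm.mem_Z hj] at hx
    have h1 := hgn.self_of_nhds
    rw [hx, sub_self, smul_eq_mul] at h1
    have h2 : n ≠ 0 := by
      rintro rfl
      rw [pow_zero, one_mul] at h1
      exact hg0 h1.symm
    exact_mod_cast Nat.one_le_iff_ne_zero.2 h2
  · intro i hi
    have hd := A.c_mem_dom hi hj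
    set p := A.c i x with hp
    set q := A.c j x with hq
    have htp : A.tr i j p = q := A.tr_c hi
    have hT := (A.tr_diffAt hd).hasDerivAt
    have hTc : Tendsto (A.tr i j) (𝓝 p) (𝓝 q) := by
      have := hT.continuousAt.tendsto
      rwa [htp] at this
    have hT' := A.deriv_tr_ne hd
    have hTd : Tendsto (deriv (A.tr i j)) (𝓝 p) (𝓝 (deriv (A.tr i j) p)) :=
      (A.tr_analyticAt hd).deriv.continuousAt.tendsto
    have hgT : Tendsto (fun z => g (A.tr i j z)) (𝓝 p) (𝓝 (g q)) :=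
      hg.continuousAt.tendsto.comp hTc
    have hform : ∀ᶠ z in 𝓝 p, ω.h i z =
        (A.tr i j z - q) ^ n * g (A.tr i j z) * deriv (A.tr i j) z := by
      filter_upwards [(A.isOpen_dom i j).mem_nhds hd, hTc.eventually hgn] with z hz hz'
      rw [ω.tr i j z hz, hz', smul_eq_mul]
    have hne : ∀ᶠ z in 𝓝[≠] p, ω.h i z ≠ 0 := by
      have h1 : ∀ᶠ z in 𝓝 p, g (A.tr i j z) ≠ 0 := hgT.eventually_ne hg0
      have h2 : ∀ᶠ z in 𝓝[≠] p, A.tr i j z ≠ q := by
        have := hT.eventually_ne (c := q) hT'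
        exact this
      filter_upwards [h2, h1.filter_mono nhdsWithin_le_nhds, hform.filter_mono nhdsWithin_le_nhds,
        ((A.isOpen_dom i j).mem_nhds hd : _ ∈ 𝓝 p) |> mem_nhdsWithin_of_mem_nhds] with z e1 e2 e3 e4
      rw [e3]
      exact mul_ne_zero (mul_ne_zero (pow_ne_zero _ (sub_ne_zero.2 e1)) e2) (A.deriv_tr_ne e4)
    refine wa_of_tendsto ?_ hne (c := (deriv (A.tr i j) p) ^ n * g q * deriv (A.tr i j) p) ?_ ?_
    · filter_upwards [((A.c i).open_target.mem_nhds ((A.c i).map_source hi) : _ ∈ 𝓝 p) |>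
        mem_nhdsWithin_of_mem_nhds] with z hz
      exact (ω.analyticAt hz).continuousAt
    · exact mul_ne_zero (mul_ne_zero (pow_ne_zero _ hT') hg0) hT'
    · have h1 : Tendsto (fun z => ((A.tr i j z - q) / (z - p)) ^ n * g (A.tr i j z) *
          deriv (A.tr i j) z) (𝓝[≠] p)
          (𝓝 ((deriv (A.tr i j) p) ^ n * g q * deriv (A.tr i j) p)) := by
        have h2 := tendsto_slope' hT
        rw [htp] at h2
        exact ((h2.pow n).mul (hgT.mono_left nhdsWithin_le_nhds)).mul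
          (hTd.mono_left nhdsWithin_le_nhds)
      refine h1.congr' ?_
      filter_upwards [hform.filter_mono nhdsWithin_le_nhds] with z hz
      rw [hz, zpow_natCast, div_pow]
      ring

/-- the refined trichotomy -/
theorem rs_cases [T2Space N] [CompactSpace N] [ConnectedSpace N] (A : CAtl.{u, v} N) :
    A.IsSph ∨ (A.IsTor ∧ ∃ ω : A.HForm, NZ ω) ∨
      ∃ ω : A.HForm, ω.Z.Nonempty ∧ ω.Z.Finite ∧ ¬ ω.IsZero := by
  by_cases h0 : ∀ ω : A.HForm, ω.IsZero
  · left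
    obtain ⟨p0⟩ := (inferInstance : Nonempty N)
    obtain ⟨f, ⟨Q⟩⟩ := exists_pole A.poisson h0 p0
    exact Q.isSph
  · right
    push Not at h0
    obtain ⟨ω, hω⟩ := h0
    by_cases hZ : ω.Z.Nonempty
    · exact Or.inr ⟨ω, hZ, HForm.finite_Z hω, hω⟩
    · left
      have hnz : NZ ω := by
        intro i z hz h
        refine hZ ⟨(A.c i).symm z, i, (A.c i).map_target hz, ?_⟩
        rw [(A.c i).right_inv hz]
        exact h
      exact ⟨isTor_of_nz hnz, ω, hnz⟩

end CAtl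

end

end Crest.Agent.R235.RS
end

-- ▼ part R235/RSSec2_538
section

/-!
Row 235, package RS (helper538): smooth sections of `K` and winding numbers, part 2: the section
`dt / (1 + |t|²)²` on the sphere.
-/

set_option autoImplicit false

open Set Filter Topology Function Metric

universe u v

namespace Crest.Agent.R235.RS

noncomputable section

open Crest.Agent.R235.Wind_688

namespace CAtl

variable {N : Type u} [TopologicalSpace N] {A : CAtl.{u, v} N}

/-- an injective holomorphic immersion of the plane is open -/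
theorem map_nhds_of_imm {φ : ℂ → N} (h : A.Hol φ) (h' : A.Imm φ) (z : ℂ) :
    map φ (𝓝 z) = 𝓝 (φ z) := by
  obtain ⟨i, hi⟩ := A.cover (φ z)
  have hV : φ ⁻¹' (A.c i).source ∈ 𝓝 z := h.cont.continuousAt ((A.c i).open_source.mem_nhds hi)
  have ha : AnalyticAt ℂ (fun w => A.c i (φ w)) z := (h.hol i).analyticAt hV
  have h1 : map (fun w => A.c i (φ w)) (𝓝 z) = 𝓝 (A.c i (φ z)) :=
    ha.hasStrictDerivAt.map_nhds_eq (h' i z hi)
  have h2 : map φ (𝓝 z) = map (A.c i).symm (map (fun w => A.c i (φ w)) (𝓝 z)) := by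
    rw [Filter.map_map]
    refine Filter.map_congr ?_
    filter_upwards [hV] with w hw
    show φ w = (A.c i).symm (A.c i (φ w))
    rw [(A.c i).left_inv hw]
  rw [h2, h1, A.nhds_symm hi]

variable {φ : ℂ → N}

theorem isOpen_range_imm (h : A.Hol φ) (h' : A.Imm φ) : IsOpen (range φ) := by
  refine isOpen_iff_mem_nhds.2 ?_
  rintro _ ⟨z, rfl⟩
  rw [← map_nhds_of_imm h h' z]
  exact range_mem_map

/-- the inverse in the chart `i` -/
def gi (A : CAtl.{u, v} N) (φ : ℂ → N) (i : A.ι) (w : ℂ) : ℂ := invFun φ ((A.c i).symm w)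

theorem gi_spec {i : A.ι} {w : ℂ} (hr : (A.c i).symm w ∈ range φ) :
    φ (A.gi φ i w) = (A.c i).symm w := invFun_eq hr

theorem ev_range (h : A.Hol φ) (h' : A.Imm φ) {i : A.ι} {w : ℂ}
    (hw : w ∈ (A.c i).target) (hr : (A.c i).symm w ∈ range φ) :
    ∀ᶠ y in 𝓝 w, y ∈ (A.c i).target ∧ (A.c i).symm y ∈ range φ := by
  have hc : ContinuousAt (A.c i).symm w := (A.c i).symm.continuousAt hw
  filter_upwards [(A.c i).open_target.mem_nhds hw,
    hc.eventually ((isOpen_range_imm h h').mem_nhds hr)] with y h1 h2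
  exact ⟨h1, h2⟩

theorem gi_cont (h : A.Hol φ) (h' : A.Imm φ) (hinj : Injective φ) {i : A.ι} {w : ℂ}
    (hw : w ∈ (A.c i).target) (hr : (A.c i).symm w ∈ range φ) : ContinuousAt (A.gi φ i) w := by
  have hc : ContinuousAt (A.c i).symm w := (A.c i).symm.continuousAt hw
  refine ContinuousAt.comp (g := invFun φ) ?_ hc
  obtain ⟨z, hz⟩ := hr
  rw [ContinuousAt, ← hz, ← map_nhds_of_imm h h' z, Filter.tendsto_map'_iff, invFun_comp hinj,
    leftInverse_invFun hinj z]
  exact tendsto_id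

theorem gi_deriv (h : A.Hol φ) (h' : A.Imm φ) (hinj : Injective φ) {i : A.ι} {w : ℂ}
    (hw : w ∈ (A.c i).target) (hr : (A.c i).symm w ∈ range φ) :
    ∃ d : ℂ, d ≠ 0 ∧ HasDerivAt (A.gi φ i) d w := by
  have hz : φ (A.gi φ i w) = (A.c i).symm w := gi_spec hr
  have hs : φ (A.gi φ i w) ∈ (A.c i).source := by rw [hz]; exact (A.c i).map_target hw
  have hV : φ ⁻¹' (A.c i).source ∈ 𝓝 (A.gi φ i w) :=
    h.cont.continuousAt ((A.c i).open_source.mem_nhds hs)
  have ha : HasDerivAt (fun w => A.c i (φ w)) (deriv (fun w => A.c i (φ w)) (A.gi φ i w))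
      (A.gi φ i w) := ((h.hol i).differentiableAt hV).hasDerivAt
  refine ⟨_, inv_ne_zero (h' i _ hs), HasDerivAt.of_local_left_inverse (gi_cont h h' hinj hw hr)
    ha (h' i _ hs) ?_⟩
  filter_upwards [ev_range h h' hw hr] with y hy
  rw [gi_spec hy.2, (A.c i).right_inv hy.1]

theorem gi_analyticAt (h : A.Hol φ) (h' : A.Imm φ) (hinj : Injective φ) {i : A.ι} {w : ℂ}
    (hw : w ∈ (A.c i).target) (hr : (A.c i).symm w ∈ range φ) : AnalyticAt ℂ (A.gi φ i) w := by
  refine Complex.analyticAt_iff_eventually_differentiableAt.2 ?_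
  filter_upwards [ev_range h h' hw hr] with y hy
  obtain ⟨d, -, hd⟩ := gi_deriv h h' hinj hy.1 hy.2
  exact hd.differentiableAt

theorem gi_deriv_ne (h : A.Hol φ) (h' : A.Imm φ) (hinj : Injective φ) {i : A.ι} {w : ℂ}
    (hw : w ∈ (A.c i).target) (hr : (A.c i).symm w ∈ range φ) : deriv (A.gi φ i) w ≠ 0 := by
  obtain ⟨d, hd, hd'⟩ := gi_deriv h h' hinj hw hr
  rwa [hd'.deriv]

theorem gi_tr {i j : A.ι} {z : ℂ} (hz : z ∈ A.dom i j) :
    A.gi φ i =ᶠ[𝓝 z] fun w => A.gi φ j (A.tr i j w) := by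
  filter_upwards [(A.isOpen_dom i j).mem_nhds hz] with w hw
  unfold gi
  rw [A.symm_tr hw]

theorem gi_deriv_tr (h : A.Hol φ) (h' : A.Imm φ) (hinj : Injective φ) {i j : A.ι} {z : ℂ}
    (hz : z ∈ A.dom i j) (hr : (A.c i).symm z ∈ range φ) :
    deriv (A.gi φ i) z = deriv (A.gi φ j) (A.tr i j z) * deriv (A.tr i j) z := by
  rw [(gi_tr hz).deriv_eq]
  have hr' : (A.c j).symm (A.tr i j z) ∈ range φ := by rwa [A.symm_tr hz]
  have h1 := (gi_analyticAt h h' hinj (A.tr_mem hz).1 hr').differentiableAt.hasDerivAt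
  exact (HasDerivAt.comp (h₂ := A.gi φ j) z h1 (A.tr_diffAt hz).hasDerivAt).deriv

open Classical in
/-- the section `dt/(1+|t|²)²` of `K` -/
def sec (A : CAtl.{u, v} N) (φ : ℂ → N) (i : A.ι) (w : ℂ) : ℂ :=
  if (A.c i).symm w ∈ range φ then
    deriv (A.gi φ i) w * (((1 + Complex.normSq (A.gi φ i w)) ^ 2 : ℝ) : ℂ)⁻¹ else 0

theorem sec_of {i : A.ι} {w : ℂ} (hr : (A.c i).symm w ∈ range φ) : A.sec φ i w =
    deriv (A.gi φ i) w * (((1 + Complex.normSq (A.gi φ i w)) ^ 2 : ℝ) : ℂ)⁻¹ := if_pos hr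

theorem q_ne (t : ℂ) : (((1 + Complex.normSq t) ^ 2 : ℝ) : ℂ) ≠ 0 := by
  have := Complex.normSq_nonneg t
  exact_mod_cast (show (0 : ℝ) < (1 + Complex.normSq t) ^ 2 by positivity).ne'

theorem q_smooth {g : ℂ → ℂ} {w : ℂ} (hg : ContDiffAt ℝ (⊤ : ℕ∞) g w) :
    ContDiffAt ℝ (⊤ : ℕ∞) (fun w => (((1 + Complex.normSq (g w)) ^ 2 : ℝ) : ℂ)⁻¹) w := by
  have h1 : ContDiffAt ℝ (⊤ : ℕ∞) (fun w => ((1 + Complex.normSq (g w)) ^ 2 : ℝ)) w := by
    have h2 : ContDiffAt ℝ (⊤ : ℕ∞) (fun w => Complex.normSq (g w)) w := by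
      have e : (fun w => Complex.normSq (g w)) = fun w => (g w).re * (g w).re +
          (g w).im * (g w).im := by
        funext w; exact Complex.normSq_apply _
      rw [e]
      have a1 := Complex.reCLM.contDiff.contDiffAt.comp w hg
      have a2 := Complex.imCLM.contDiff.contDiffAt.comp w hg
      exact (a1.mul a1).add (a2.mul a2)
    exact (contDiffAt_const.add h2).pow 2
  exact (Complex.ofRealCLM.contDiff.contDiffAt.comp w h1).inv (q_ne _)

theorem contDiffAt_of_analyticAt {g : ℂ → ℂ} {w : ℂ} (hg : AnalyticAt ℂ g w) :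
    ContDiffAt ℝ (⊤ : ℕ∞) g w := (hg.contDiffAt (n := (⊤ : ℕ∞))).restrict_scalars ℝ

variable {ψ : ℂ → N}

/-- near the point at infinity -/
theorem sec_infty (hψ : A.Hol ψ) (hψ' : A.Imm ψ)
    (iφ : Injective φ) (iψ : Injective ψ) (hg : ∀ z, z ≠ 0 → φ z = ψ z⁻¹) (h0 : ψ 0 ∉ range φ)
    {i : A.ι} {w0 : ℂ} (hw : w0 ∈ (A.c i).target) (hr : (A.c i).symm w0 = ψ 0) :
    ∀ᶠ w in 𝓝 w0, A.sec φ i w = -deriv (A.gi ψ i) w * (starRingEnd ℂ) (A.gi ψ i w) ^ 2 *
      (((1 + Complex.normSq (A.gi ψ i w)) ^ 2 : ℝ) : ℂ)⁻¹ := by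
  have hrψ : (A.c i).symm w0 ∈ range ψ := ⟨0, hr.symm⟩
  filter_upwards [eventually_eventually_nhds.2 (ev_range hψ hψ' hw hrψ)] with w hww
  obtain ⟨hwt, hwr⟩ := hww.self_of_nhds
  set b := A.gi ψ i w with hb
  have hψb : ψ b = (A.c i).symm w := gi_spec hwr
  by_cases hb0 : b = 0
  · have h1 : (A.c i).symm w ∉ range φ := by rw [← hψb, hb0]; exact h0
    unfold sec
    rw [if_neg h1, hb0]
    simp
  · have hφb : ∀ a : ℂ, a ≠ 0 → φ a⁻¹ = ψ a := fun a ha => by
      rw [hg _ (inv_ne_zero ha), inv_inv]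
    have h1 : (A.c i).symm w ∈ range φ := ⟨b⁻¹, by rw [hφb b hb0, hψb]⟩
    have h2 : A.gi φ i =ᶠ[𝓝 w] fun y => (A.gi ψ i y)⁻¹ := by
      have hbc : ContinuousAt (A.gi ψ i) w := gi_cont hψ hψ' iψ hwt hwr
      filter_upwards [hww, hbc.eventually_ne hb0] with y hy hy0
      have h3 : φ (A.gi ψ i y)⁻¹ = (A.c i).symm y := by rw [hφb _ hy0]; exact gi_spec hy.2
      have h4 : φ (A.gi φ i y) = (A.c i).symm y := gi_spec ⟨_, h3⟩
      exact iφ (h4.trans h3.symm)
    have h3 : HasDerivAt (A.gi ψ i) (deriv (A.gi ψ i) w) w :=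
      (gi_analyticAt hψ hψ' iψ hwt hwr).differentiableAt.hasDerivAt
    rw [sec_of h1, h2.deriv_eq, h2.self_of_nhds, (h3.fun_inv hb0).deriv]
    rw [← hb]
    have hn : (Complex.normSq b : ℂ) = (starRingEnd ℂ) b * b := by
      rw [Complex.normSq_eq_conj_mul_self]
    have hbn : (Complex.normSq b : ℂ) ≠ 0 := by
      rw [hn]; exact mul_ne_zero ((map_ne_zero _).2 hb0) hb0
    have hq := q_ne b
    have hq' : (1 + (Complex.normSq b : ℂ)) ≠ 0 := by
      intro h
      apply hq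
      push_cast
      rw [h]; ring
    have e1 : (((1 + Complex.normSq b⁻¹) ^ 2 : ℝ) : ℂ) =
        (1 + (Complex.normSq b : ℂ)) ^ 2 / (Complex.normSq b : ℂ) ^ 2 := by
      rw [map_inv₀]
      push_cast
      field_simp
      ring
    rw [e1]
    push_cast
    rw [inv_div]
    have e2 : (Complex.normSq b : ℂ) ^ 2 = (starRingEnd ℂ) b ^ 2 * b ^ 2 := by
      rw [hn]; ring
    rw [e2]
    field_simp

/-- smoothness -/
theorem sec_smooth (hφ : A.Hol φ) (hφ' : A.Imm φ) (hψ : A.Hol ψ) (hψ' : A.Imm ψ)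
    (iφ : Injective φ) (iψ : Injective ψ) (hg : ∀ z, z ≠ 0 → φ z = ψ z⁻¹) (h0 : ψ 0 ∉ range φ)
    (hcov : ∀ x, x ∈ range φ ∨ x = ψ 0) (i : A.ι) :
    ContDiffOn ℝ (⊤ : ℕ∞) (A.sec φ i) (A.c i).target := by
  intro w hw
  refine ContDiffAt.contDiffWithinAt ?_
  rcases hcov ((A.c i).symm w) with hr | hr
  · have ha := gi_analyticAt hφ hφ' iφ hw hr
    refine ((contDiffAt_of_analyticAt ha.deriv).mul
      (q_smooth (contDiffAt_of_analyticAt ha))).congr_of_eventuallyEq ?_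
    filter_upwards [ev_range hφ hφ' hw hr] with y hy
    exact sec_of hy.2
  · have hrψ : (A.c i).symm w ∈ range ψ := ⟨0, hr.symm⟩
    have ha := gi_analyticAt hψ hψ' iψ hw hrψ
    have hc : ContDiffAt ℝ (⊤ : ℕ∞) (fun w => (starRingEnd ℂ) (A.gi ψ i w)) w :=
      Complex.conjCLE.contDiff.contDiffAt.comp w (contDiffAt_of_analyticAt ha)
    refine (((contDiffAt_of_analyticAt ha.deriv).neg.mul (hc.pow 2)).mul
      (q_smooth (contDiffAt_of_analyticAt ha))).congr_of_eventuallyEq ?_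
    exact sec_infty hψ hψ' iφ iψ hg h0 hw hr

theorem sec_tr (hφ : A.Hol φ) (hφ' : A.Imm φ) (iφ : Injective φ) {i j : A.ι} {z : ℂ}
    (hz : z ∈ A.dom i j) : A.sec φ i z = A.sec φ j (A.tr i j z) * deriv (A.tr i j) z := by
  by_cases hr : (A.c i).symm z ∈ range φ
  · have hr' : (A.c j).symm (A.tr i j z) ∈ range φ := by rwa [A.symm_tr hz]
    rw [sec_of hr, sec_of hr', gi_deriv_tr hφ hφ' iφ hz hr, (gi_tr hz).self_of_nhds]
    ring
  · have hr' : (A.c j).symm (A.tr i j z) ∉ range φ := by rwa [A.symm_tr hz]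
    unfold sec
    rw [if_neg hr, if_neg hr', zero_mul]

theorem sec_ne (hφ : A.Hol φ) (hφ' : A.Imm φ) (iφ : Injective φ) {i : A.ι} {z : ℂ}
    (hz : z ∈ (A.c i).target) (hr : (A.c i).symm z ∈ range φ) : A.sec φ i z ≠ 0 := by
  rw [sec_of hr]
  exact mul_ne_zero (gi_deriv_ne hφ hφ' iφ hz hr) (inv_ne_zero (q_ne _))

/-- the winding number at infinity -/
theorem sec_wind (hφ : A.Hol φ) (hφ' : A.Imm φ) (hψ : A.Hol ψ) (hψ' : A.Imm ψ)
    (iφ : Injective φ) (iψ : Injective ψ) (hg : ∀ z, z ≠ 0 → φ z = ψ z⁻¹) (h0 : ψ 0 ∉ range φ)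
    {i : A.ι} {w0 : ℂ} (hw : w0 ∈ (A.c i).target) (hr : (A.c i).symm w0 = ψ 0) :
    WA (A.sec φ i) w0 (-2) := by
  have hrψ : (A.c i).symm w0 ∈ range ψ := ⟨0, hr.symm⟩
  have ha := gi_analyticAt hψ hψ' iψ hw hrψ
  have hd := ha.differentiableAt.hasDerivAt
  have hd0 := gi_deriv_ne hψ hψ' iψ hw hrψ
  have hev := sec_infty hψ hψ' iφ iψ hg h0 hw hr
  have hgi0 : A.gi ψ i w0 = 0 := iψ ((gi_spec hrψ).trans hr)
  have key : WA (fun w => (starRingEnd ℂ) (A.sec φ i w)) w0 2 := by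
    refine wa_of_tendsto (c := -(starRingEnd ℂ) (deriv (A.gi ψ i) w0) *
      (deriv (A.gi ψ i) w0) ^ 2) ?_ ?_ ?_ ?_
    · -- continuity
      have h1 : ∀ᶠ w in 𝓝 w0, ContinuousAt (A.gi ψ i) w ∧ ContinuousAt (deriv (A.gi ψ i)) w := by
        filter_upwards [ha.eventually_analyticAt] with w h
        exact ⟨h.continuousAt, h.deriv.continuousAt⟩
      refine Filter.Eventually.filter_mono nhdsWithin_le_nhds ?_
      filter_upwards [h1, eventually_eventually_nhds.2 hev] with w hw1 hw2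
      have h2 : ContinuousAt (fun w => -deriv (A.gi ψ i) w * (starRingEnd ℂ) (A.gi ψ i w) ^ 2 *
          (((1 + Complex.normSq (A.gi ψ i w)) ^ 2 : ℝ) : ℂ)⁻¹) w := by
        refine (hw1.2.neg.mul ?_).mul ?_
        · exact (Complex.continuous_conj.continuousAt.comp hw1.1).pow 2
        · refine ContinuousAt.inv₀ ?_ (q_ne _)
          refine Complex.continuous_ofReal.continuousAt.comp ?_
          exact (continuousAt_const.add (Complex.continuous_normSq.continuousAt.comp hw1.1)).pow 2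
      have h3 : ContinuousAt (A.sec φ i) w := h2.congr (by
        filter_upwards [hw2] with y hy using hy.symm)
      exact Complex.continuous_conj.continuousAt.comp h3
    · have h1 : ∀ᶠ w in 𝓝[≠] w0, A.gi ψ i w ≠ 0 := hd.eventually_ne hd0
      filter_upwards [h1, hev.filter_mono nhdsWithin_le_nhds,
        (ev_range hψ hψ' hw hrψ).filter_mono nhdsWithin_le_nhds] with w h2 h3 h4
      rw [Ne, map_eq_zero, h3]
      exact mul_ne_zero (mul_ne_zero (neg_ne_zero.2 (gi_deriv_ne hψ hψ' iψ h4.1 h4.2))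
        (pow_ne_zero 2 ((map_ne_zero _).2 h2))) (inv_ne_zero (q_ne _))
    · exact mul_ne_zero (neg_ne_zero.2 ((map_ne_zero _).2 hd0)) (pow_ne_zero 2 hd0)
    · have h1 := tendsto_slope' hd
      rw [hgi0] at h1
      simp only [sub_zero] at h1
      have h2 : Tendsto (fun w => (starRingEnd ℂ) (deriv (A.gi ψ i) w)) (𝓝 w0)
          (𝓝 ((starRingEnd ℂ) (deriv (A.gi ψ i) w0))) :=
        (Complex.continuous_conj.continuousAt.comp ha.deriv.continuousAt).tendsto
      have h3 : Tendsto (fun w => (((1 + Complex.normSq (A.gi ψ i w)) ^ 2 : ℝ) : ℂ)⁻¹) (𝓝 w0)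
          (𝓝 1) := by
        have h4 : ContinuousAt (fun w => (((1 + Complex.normSq (A.gi ψ i w)) ^ 2 : ℝ) : ℂ)⁻¹)
            w0 := (q_smooth (contDiffAt_of_analyticAt ha)).continuousAt
        have h5 := h4.tendsto
        rw [hgi0] at h5
        simpa using h5
      have h4 := ((h2.neg.mono_left nhdsWithin_le_nhds).mul (h1.pow 2)).mul
        (h3.mono_left nhdsWithin_le_nhds)
      rw [mul_one] at h4
      refine h4.congr' ?_
      filter_upwards [hev.filter_mono nhdsWithin_le_nhds] with w hw1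
      rw [hw1, map_mul, map_mul, map_neg, map_pow, Complex.conj_conj, map_inv₀,
        Complex.conj_ofReal, div_pow]
      rw [show ((w - w0) ^ (2 : ℤ) : ℂ) = (w - w0) ^ 2 by norm_cast]
      ring
  filter_upwards [key.conj] with r hr
  exact IsWL.congr hr fun t => Complex.conj_conj _

end CAtl

end

end Crest.Agent.R235.RS
end

-- ▼ part R235/RSSec_538
section

/-!
Row 235, package RS (helper538): **RSEC** (node of `AdjDefs_43`).
-/

set_option autoImplicit false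

open Set Filter Topology Function Metric

universe u v

namespace Crest.Agent.R235.RS

noncomputable section

open Crest.Agent.R235.Wind_688 Crest.Agent.R235.Adj

namespace CAtl

variable {N : Type u} [TopologicalSpace N] [T2Space N] [CompactSpace N] [ConnectedSpace N]
  {A : CAtl.{u, u} N}

/-- the section of `K` given by a nonzero one-form -/
theorem exists_ksec {ω : A.HForm} (h0 : ¬ ω.IsZero) :
    ∃ k : KSec A, (k.Z : Set N) = ω.Z ∧ ∀ x ∈ k.Z, 1 ≤ k.ord x := by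
  choose n hn1 hn2 using HForm.exists_ord h0
  refine ⟨⟨ω.h, fun i => ?_, ω.tr, (HForm.finite_Z h0).toFinset, ?_, n, ?_⟩, ?_, ?_⟩
  · intro z hz
    exact (contDiffAt_of_analyticAt (ω.analyticAt hz)).contDiffWithinAt
  · intro i z hz h
    rw [Set.Finite.mem_toFinset]
    exact ⟨i, (A.c i).map_target hz, by rwa [(A.c i).right_inv hz]⟩
  · intro x _ i hi
    exact hn2 x i hi
  · exact Set.Finite.coe_toFinset _
  · intro x hx
    exact hn1 x ((Set.Finite.mem_toFinset _).1 hx)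

theorem exists_ksec_sph (h : A.IsSph) : ∃ k : KSec A, k.deg = -2 := by
  obtain ⟨φ, ψ, hφ, hψ, hφ', hψ', iφ, iψ, hg, h0, hcov⟩ := h
  refine ⟨⟨A.sec φ, sec_smooth hφ hφ' hψ hψ' iφ iψ hg h0 hcov, fun i j z hz =>
    sec_tr hφ hφ' iφ hz, {ψ 0}, ?_, fun _ => -2, ?_⟩, ?_⟩
  · intro i z hz hs
    rw [Finset.mem_singleton]
    refine (hcov ((A.c i).symm z)).resolve_left fun hr => ?_
    exact sec_ne hφ hφ' iφ hz hr hs
  · intro x hx i hi
    rw [Finset.mem_singleton] at hx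
    refine sec_wind hφ hφ' hψ hψ' iφ iψ hg h0 ((A.c i).map_source hi) ?_
    rw [(A.c i).left_inv hi, hx]
  · simp [KSec.deg]

/-- **RSEC** -/
theorem rsec : RSEC.{u} := by
  intro N _ _ _ _ A
  rcases rs_cases A with h | ⟨h, ω, hω⟩ | ⟨ω, hω, hf, h0⟩
  · obtain ⟨k, hk⟩ := exists_ksec_sph h
    exact ⟨k, Or.inl ⟨h, hk⟩⟩
  · have h0 : ¬ ω.IsZero := by
      intro hz
      obtain ⟨x⟩ := (inferInstance : Nonempty N)
      obtain ⟨i, hi⟩ := A.cover x
      exact hω i _ ((A.c i).map_source hi) (hz i _ ((A.c i).map_source hi))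
    obtain ⟨k, hk, -⟩ := exists_ksec h0
    refine ⟨k, Or.inr (Or.inl ⟨h, ?_⟩)⟩
    rw [Finset.eq_empty_iff_forall_notMem]
    intro x hx
    have hx' : x ∈ ω.Z := by rw [← hk]; exact hx
    obtain ⟨i, hi, hi'⟩ := hx'
    exact hω i _ ((A.c i).map_source hi) hi'
  · obtain ⟨k, hk, hk1⟩ := exists_ksec h0
    refine ⟨k, Or.inr (Or.inr ?_)⟩
    obtain ⟨x, hx⟩ := hω
    have hx' : x ∈ k.Z := by
      have : x ∈ (k.Z : Set N) := by rw [hk]; exact hx
      exact this
    unfold KSec.deg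
    calc (1 : ℤ) ≤ k.ord x := hk1 x hx'
      _ ≤ ∑ x ∈ k.Z, k.ord x :=
        Finset.single_le_sum (fun y hy => (zero_le_one.trans (hk1 y hy))) hx'

end CAtl

end

end Crest.Agent.R235.RS
end

-- ▼ part R235/CurTop_844

/-!
Row 235 (S0364), helper844: THE CURVES ASSEMBLY.
`JDEC, INTEG, JSAME, ADJ, ISEC, CLS, DICHR ⇒ NEGN, ZD, NEGK`.
-/

set_option autoImplicit false
set_option maxSynthPendingDepth 3
set_option linter.unusedSectionVars false

open Set Function Filter MeasureTheory Metric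
open scoped Manifold ContDiff Topology

universe u

namespace Crest.Agent.R235.CurTop_844

open Crest.Agent.R240 Crest.Agent.R240.Ch Crest.Agent.R240.Int Crest.Agent.R235
open Crest.Agent.R235.Glob_370 Crest.Agent.R235.CurB_288

noncomputable section

/-! ### classes of curves are integral -/

theorem jint_of (h : INTEG.{u}) (hz : HZLat_524.HZLAT.{u}) : JINT.{u} := by
  intro M _ _ _ _ _ _ w J hw hJ c s hs
  obtain ⟨m, e, Q, hQ, hdet, hHZ⟩ := hz M (w 0) (hw.W_ne' 0)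
  have h1 : ∀ j, ∃ n : ℤ, ip (w 0) s (e j) = n := by
    intro j
    have hj : e j ∈ HZ M := by
      rw [hHZ]
      refine ⟨Pi.single j 1, ?_⟩
      rw [Finset.sum_eq_single j]
      · rw [Pi.single_eq_same, Int.cast_one, one_smul]
      · intro i _ hi
        rw [Pi.single_eq_of_ne hi, Int.cast_zero, zero_smul]
      · intro hn; exact absurd (Finset.mem_univ _) hn
    obtain ⟨N, p, a, hp, ha, hcl⟩ := hj
    obtain ⟨n, hn⟩ := h M w J hw hJ c N p a hp ha
    exact ⟨n, by rw [← hcl, ← hs a, hn]⟩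
  choose n hn using h1
  set x : Fin m → ℝ := e.equivFun s with hx
  have hsx : s = ∑ i, x i • e i := (e.sum_equivFun s).symm
  have h2 : Matrix.vecMul x (Q.map (Int.cast : ℤ → ℝ)) = fun j => (n j : ℝ) := by
    funext j
    rw [← hn j, hsx, ip_sum_left (hw.vol 0)]
    simp only [Matrix.vecMul, dotProduct, Matrix.map_apply]
    refine Finset.sum_congr rfl fun i _ => ?_
    rw [ip_smul_left (hw.vol 0), hQ]
  have h3 : Q.map (Int.cast : ℤ → ℝ) * (Q⁻¹).map (Int.cast : ℤ → ℝ) = 1 := by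
    have h4 : Q * Q⁻¹ = 1 := Matrix.mul_nonsing_inv Q hdet
    have h5 := congrArg (Int.castRingHom ℝ).mapMatrix h4
    rw [map_mul, map_one] at h5
    exact h5
  have h4 : x = fun j => ((Matrix.vecMul n Q⁻¹ j : ℤ) : ℝ) := by
    have h5 : Matrix.vecMul (Matrix.vecMul x (Q.map (Int.cast : ℤ → ℝ)))
        ((Q⁻¹).map (Int.cast : ℤ → ℝ)) = x := by
      rw [Matrix.vecMul_vecMul, h3, Matrix.vecMul_one]
    rw [← h5, h2]
    funext j
    simp only [Matrix.vecMul, dotProduct, Matrix.map_apply]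
    push_cast
    rfl
  rw [hHZ]
  refine ⟨Matrix.vecMul n Q⁻¹, ?_⟩
  rw [hsx, h4]

/-! ### curves of negative square -/

theorem jneg_of (hA : Adj.ADJ.{u}) (hI : JINT.{u}) (hD : DICHR.{u}) : JNEG.{u} := by
  intro M _ _ _ _ _ _ w J hw hJ c s hs hneg
  obtain ⟨k, hk⟩ := RS.CAtl.rsec c.N c.A
  obtain ⟨h1, h2⟩ := hA M w J hw hJ c s hs k
  have hsph : c.A.IsSph ∧ k.deg = -2 := by
    rcases hk with h | ⟨-, h⟩ | h
    · exact h
    · exfalso
      have h3 : k.deg = 0 := by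
        unfold Adj.KSec.deg
        rw [h, Finset.sum_empty]
      rw [h3, Int.cast_zero] at h1
      linarith
    · exfalso
      have h3 : (1 : ℝ) ≤ k.deg := by exact_mod_cast h
      linarith
  rw [hsph.2] at h1 h2
  have hF := hw.vol 0
  rcases hD M w hw with h | h
  · have hsZ := hI M w J hw hJ c s hs
    have hsZ' := hsZ
    obtain ⟨-, e, hG, hHZ⟩ := id h
    rw [hHZ] at hsZ'
    obtain ⟨n, hn⟩ := hsZ'
    have h3 : ip (w 0) s s = (LatKx_766.qf n n : ℤ) := by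
      have h4 : s = Word8_504.cl e n := hn
      rw [h4]
      exact Word8_504.ip_cl hF e hG n n
    obtain ⟨m, hm⟩ := Word8_504.qf_even n
    rw [hm] at h3
    have h5 : (-2 : ℝ) ≤ ((2 * m : ℤ) : ℝ) := by rw [← h3]; exact_mod_cast h1
    have h6 : ((2 * m : ℤ) : ℝ) < 0 := by rw [← h3]; exact hneg
    have h7 : (-2 : ℤ) ≤ 2 * m := by exact_mod_cast h5
    have h8 : 2 * m < 0 := by exact_mod_cast h6
    have h9 : m = -1 := by omega
    have h10 : ip (w 0) s s = -2 := by rw [h3, h9]; norm_num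
    refine ⟨⟨h, hsZ, h10⟩, hsph.1, h2 ?_⟩
    rw [h10]; norm_num
  · exfalso
    obtain ⟨⟨r, hr, -, a, ha, -, -, hspan⟩, -⟩ := h
    have h3 : ∀ i j, ip (w 0) s (cls (a i j)) = 0 := by
      intro i j
      rw [← hs (a i j)]
      exact Sph0_464.sph0 c hsph.1 (hr i) (hr j) _ (ha i j)
    obtain ⟨n, hn⟩ := hspan s
    have h4 : ip (w 0) s s = 0 := by
      nth_rewrite 2 [hn]
      rw [ip_sum_right hF]
      refine Finset.sum_eq_zero fun i _ => ?_
      rw [ip_sum_right hF]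
      refine Finset.sum_eq_zero fun j _ => ?_
      rw [ip_smul_right hF, h3, mul_zero]
    rw [h4] at hneg
    exact lt_irrefl _ hneg

/-! ### diffuse currents -/

section Closed

variable {M : Type u} [TopologicalSpace M] [T2Space M] [CompactSpace M] [ConnectedSpace M]
  [ChartedSpace E4 M] [IsManifold 𝓘(ℝ, E4) ∞ M]

/-- `s` is the class of the current `S`. -/
def HasCl (w : Trip M) (S : X2 M →ₗ[ℝ] ℝ) (s : H2 M) : Prop :=
  ∀ b : Z2 M, S b.1 = ip (w 0) s (cls b)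

/-- `S` has non-negative intersection with every positive closed current. -/
def Dif (w : Trip M) (J : EndF E4 M) (S : X2 M →ₗ[ℝ] ℝ) : Prop :=
  ∀ (S' : X2 M →ₗ[ℝ] ℝ) (s s' : H2 M), PCur J S' → HasCl w S s → HasCl w S' s' →
    0 ≤ ip (w 0) s s'

end Closed

theorem dif_of_zeroDens {M : Type u} [MetricSpace M] [CompactSpace M]
    [ConnectedSpace M] [ChartedSpace E4 M] [IsManifold 𝓘(ℝ, E4) ∞ M] [MeasurableSpace M]
    [BorelSpace M] {w : Trip M} {J : EndF E4 M} {D : Dat M} (hD : T1A_195.Bridge w J D)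
    {S : X2 M →ₗ[ℝ] ℝ} {s : Measure M} (hs : T1_195.Cur D S s) (hz : Dat.ZeroDens s) :
    Dif w J S := by
  intro S' t t' hS' ht ht'
  obtain ⟨s', hs'⟩ := hD.exists_cur hS'
  obtain ⟨a, rfl⟩ := cls_surj t
  obtain ⟨a', rfl⟩ := cls_surj t'
  rw [hD.ip_eq]
  exact T1_195.t1_diffuse D hs hs' (hD.rep ht) (hD.rep ht') hz

theorem dec_aux (h : JDEC.{u}) {M : Type u} [MetricSpace M] [CompactSpace M]
    [ConnectedSpace M] [ChartedSpace E4 M] [IsManifold 𝓘(ℝ, E4) ∞ M] [MeasurableSpace M]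
    [BorelSpace M] (hb : Met.BiLip E4 M) {w : Trip M} {J : EndF E4 M} (hw : Pos3 w)
    (hJ : IsJ w J) {S : X2 M →ₗ[ℝ] ℝ} (hS : PCur J S) :
    Dif w J S ∨ ∃ (c : JCurve J) (a : ℝ) (S' : X2 M →ₗ[ℝ] ℝ),
        0 < a ∧ c.T ≠ 0 ∧ PCur J S' ∧ S = a • c.T + S' := by
  obtain ⟨D, hD⟩ := T1A_195.exists_bridge hb hJ
  obtain ⟨s, hs⟩ := hD.exists_cur hS
  have hDJ := hD.J_eq
  subst hDJ
  rcases h M D w hw hJ hD.al_eq S s hS hs.rm with h1 | h1
  · exact Or.inl (dif_of_zeroDens hD hs h1)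
  · exact Or.inr h1

section Closed

variable {M : Type u} [TopologicalSpace M] [T2Space M] [CompactSpace M] [ConnectedSpace M]
  [ChartedSpace E4 M] [IsManifold 𝓘(ℝ, E4) ∞ M]

theorem dec (h : JDEC.{u}) {w : Trip M} {J : EndF E4 M} (hw : Pos3 w)
    (hJ : IsJ w J) {S : X2 M →ₗ[ℝ] ℝ} (hS : PCur J S) :
    Dif w J S ∨ ∃ (c : JCurve J) (a : ℝ) (S' : X2 M →ₗ[ℝ] ℝ),
        0 < a ∧ c.T ≠ 0 ∧ PCur J S' ∧ S = a • c.T + S' := by
  obtain ⟨m, hm, hb⟩ := Met.exists_metric (E := E4) (M := M)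
  subst hm
  let _ : MeasurableSpace M := borel M
  have _ : BorelSpace M := ⟨rfl⟩
  exact dec_aux h hb hw hJ hS

/-- curves for NC pairs: none. -/
theorem no_curve {w : Trip M} {J : EndF E4 M} (hw : Pos3 w) (hJ : IsJ w J)
    (hNC : NC (w 0) (clw w) 0) (c : JCurve J) (hc0 : c.T ≠ 0) {e : H2 M}
    (he : HasCl w c.T e) (hZ : e ∈ HZ M)
    (hneg : ip (w 0) e e < 0 → e ∈ Rt (w 0)) : False := by
  have hpos : 0 < ip (w 0) e (cls (w 0)) := by
    rw [← he (w 0)]
    exact cur_pos hJ c.pcur hc0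
  have hDg : e ∈ Dg (w 0) := by
    refine ⟨hZ, ?_, ?_⟩
    · rintro rfl
      rw [ip_zero_left (hw.vol 0)] at hpos
      exact lt_irrefl _ hpos
    · rcases le_or_gt 0 (ip (w 0) e e) with h | h
      · exact Or.inl h
      · exact Or.inr (hneg h)
  obtain ⟨i, hi, h1⟩ := hNC e hDg
  apply h1
  show ip (w 0) e (cls (w i)) = 0
  rw [← he (w i)]
  exact cur_anti hJ c.pcur.inv hi

/-! ### the order interval -/

theorem pcur_sub {J : EndF E4 M} {S T : X2 M →ₗ[ℝ] ℝ} (hS : PCur J S) (hT : PCur J T)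
    (h : ∀ b : X2 M, PosG J (b.1 : F2 E4 M) → T b ≤ S b) : PCur J (S - T) where
  inv b c hbc := by
    rw [LinearMap.sub_apply, LinearMap.sub_apply, hS.inv b c hbc, hT.inv b c hbc]
  nonneg b hb := by
    rw [LinearMap.sub_apply]
    exact sub_nonneg.2 (h b hb)
  closed b hb := by rw [LinearMap.sub_apply, hS.closed b hb, hT.closed b hb, sub_zero]

theorem zero_pcur (J : EndF E4 M) : PCur J (0 : X2 M →ₗ[ℝ] ℝ) where
  inv _ _ _ := rfl
  nonneg _ _ := le_rfl
  closed _ _ := rfl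

/-- the order interval `[0,S]`. -/
def KS (J : EndF E4 M) (S : X2 M →ₗ[ℝ] ℝ) : Set (X2 M → ℝ) :=
  {f | (∀ b c, f (b + c) = f b + f c) ∧ (∀ (r : ℝ) b, f (r • b) = r * f b) ∧
    (∀ b c : X2 M, (∀ x, invp (atJ J x) (at2 (b.1 : F2 E4 M) x) = at2 (c.1 : F2 E4 M) x) →
      f b = f c) ∧
    (∀ b : X2 M, PosG J (b.1 : F2 E4 M) → 0 ≤ f b) ∧
    (∀ b : X2 M, IsEx (b.1 : F2 E4 M) → f b = 0) ∧
    ∀ b : X2 M, PosG J (b.1 : F2 E4 M) → f b ≤ S b}

theorem mem_KS {J : EndF E4 M} {S : X2 M →ₗ[ℝ] ℝ} (hS : PCur J S) {f : X2 M → ℝ} :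
    f ∈ KS J S ↔ ∃ T : X2 M →ₗ[ℝ] ℝ, PCur J T ∧ PCur J (S - T) ∧ (T : X2 M → ℝ) = f := by
  constructor
  · rintro ⟨h1, h2, h3, h4, h5, h6⟩
    have hT : PCur J { toFun := f, map_add' := h1, map_smul' := h2 } := ⟨h3, h4, h5⟩
    exact ⟨_, hT, pcur_sub hS hT h6, rfl⟩
  · rintro ⟨T, hT, hd, rfl⟩
    refine ⟨fun b c => map_add T b c, fun r b => map_smul T r b, hT.inv, hT.nonneg, hT.closed,
      fun b hb => ?_⟩
    have := hd.nonneg b hb
    rw [LinearMap.sub_apply] at this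
    linarith

theorem isCompact_KS {w : Trip M} {J : EndF E4 M} (hJ : IsJ w J) {S : X2 M →ₗ[ℝ] ℝ}
    (hS : PCur J S) : IsCompact (KS J S) := by
  choose r hr h using fun b : X2 M => mass_bound hJ b
  have hK : IsCompact (Set.pi univ fun b : X2 M => Icc (-(r b * S (w 0).1)) (r b * S (w 0).1)) :=
    isCompact_univ_pi fun b => isCompact_Icc
  refine hK.of_isClosed_subset ?_ ?_
  · have e : KS J S = (⋂ b : X2 M, ⋂ c : X2 M, {f | f (b + c) = f b + f c}) ∩
        ((⋂ r : ℝ, ⋂ b : X2 M, {f | f (r • b) = r * f b}) ∩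
        ((⋂ b : X2 M, ⋂ c : X2 M, ⋂ _ : ∀ x, invp (atJ J x) (at2 (b.1 : F2 E4 M) x) =
          at2 (c.1 : F2 E4 M) x, {f | f b = f c}) ∩
        ((⋂ b : X2 M, ⋂ _ : PosG J (b.1 : F2 E4 M), {f | 0 ≤ f b}) ∩
        ((⋂ b : X2 M, ⋂ _ : IsEx (b.1 : F2 E4 M), {f | f b = 0}) ∩
          (⋂ b : X2 M, ⋂ _ : PosG J (b.1 : F2 E4 M), {f | f b ≤ S b}))))) := by
      ext f
      simp only [KS, mem_ofPred_eq, mem_inter_iff, mem_iInter]
    rw [e]
    refine IsClosed.inter (isClosed_iInter fun b => isClosed_iInter fun c => ?_)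
      (IsClosed.inter (isClosed_iInter fun r => isClosed_iInter fun b => ?_)
      (IsClosed.inter (isClosed_iInter fun b => isClosed_iInter fun c => isClosed_iInter fun _ => ?_)
      (IsClosed.inter (isClosed_iInter fun b => isClosed_iInter fun _ => ?_)
      (IsClosed.inter (isClosed_iInter fun b => isClosed_iInter fun _ => ?_)
        (isClosed_iInter fun b => isClosed_iInter fun _ => ?_)))))
    · exact isClosed_eq (continuous_apply _) (by fun_prop)
    · exact isClosed_eq (continuous_apply _) (continuous_const.mul (continuous_apply _))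
    · exact isClosed_eq (continuous_apply _) (continuous_apply _)
    · exact isClosed_le continuous_const (continuous_apply _)
    · exact isClosed_eq (continuous_apply _) continuous_const
    · exact isClosed_le (continuous_apply _) continuous_const
  · intro f hf b _
    obtain ⟨T, hT, hd, rfl⟩ := (mem_KS hS).1 hf
    have h2 := h b T hT
    have h0 : 0 ≤ (S - T) (w 0).1 := nonneg_of_ev hJ.smooth hJ.sq hd fun x v => by
      rcases eq_or_ne v 0 with h | h
      · rw [h]; simp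
      · exact (hJ.tame x v h).le
    rw [LinearMap.sub_apply] at h0
    have h3 : r b * T (w 0).1 ≤ r b * S (w 0).1 :=
      mul_le_mul_of_nonneg_left (by linarith) (hr b)
    have h4 := abs_le.1 (h2.trans h3)
    exact ⟨h4.1, h4.2⟩

/-- lexicographic minimum on the order interval: first `T β`, then the mass. -/
theorem exists_lex {w : Trip M} {J : EndF E4 M} (hJ : IsJ w J) {S : X2 M →ₗ[ℝ] ℝ}
    (hS : PCur J S) (β : X2 M) :
    ∃ T : X2 M →ₗ[ℝ] ℝ, PCur J T ∧ PCur J (S - T) ∧ T β ≤ S β ∧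
      ∀ T' : X2 M →ₗ[ℝ] ℝ, PCur J T' → PCur J (S - T') → T' β ≤ T β →
        T (w 0).1 ≤ T' (w 0).1 := by
  have hc := isCompact_KS hJ hS
  have hSm : (S : X2 M → ℝ) ∈ KS J S := (mem_KS hS).2 ⟨S, hS, by
    rw [sub_self]; exact zero_pcur J, rfl⟩
  obtain ⟨f1, hf1, h1⟩ := hc.exists_isMinOn ⟨_, hSm⟩ (f := fun f : X2 M → ℝ => f β)
    (continuous_apply β).continuousOn
  have hmin : ∀ f ∈ KS J S, f1 β ≤ f β := fun f hf => h1 hf
  have hc2 : IsCompact (KS J S ∩ {f | f β = f1 β}) :=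
    hc.inter_right (isClosed_eq (continuous_apply β) continuous_const)
  obtain ⟨f2, hf2, h2⟩ := hc2.exists_isMinOn ⟨f1, hf1, rfl⟩
    (f := fun f : X2 M → ℝ => f (w 0).1) (continuous_apply _).continuousOn
  obtain ⟨T, hT, hd, hTf⟩ := (mem_KS hS).1 hf2.1
  have hTf' : ∀ b, T b = f2 b := fun b => congrFun hTf b
  refine ⟨T, hT, hd, ?_, fun T' hT' hd' hle => ?_⟩
  · rw [hTf' β, hf2.2]
    exact hmin _ hSm
  · have h3 : (T' : X2 M → ℝ) ∈ KS J S := (mem_KS hS).2 ⟨T', hT', hd', rfl⟩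
    have h4 : (T' : X2 M → ℝ) ∈ KS J S ∩ {f | f β = f1 β} := by
      refine ⟨h3, le_antisymm ?_ (hmin _ h3)⟩
      rw [hTf' β, hf2.2] at hle
      exact hle
    rw [hTf']
    exact h2 h4

/-- (A): a current containing no multiple of the curve `c` has non-negative intersection with
`c`. -/
theorem inter_nonneg (hdec : JDEC.{u}) (hcls : CLS.{u}) (hI : Adj.ISEC.{u}) (hE : JSAME.{u})
    {w : Trip M} {J : EndF E4 M} (hw : Pos3 w) (hJ : IsJ w J) {S : X2 M →ₗ[ℝ] ℝ}
    (hS : PCur J S) {s e : H2 M} (hs : HasCl w S s) (c : JCurve J) (he : HasCl w c.T e)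
    (hno : ∀ a : ℝ, 0 < a → ¬ PCur J (S - a • c.T)) : 0 ≤ ip (w 0) s e := by
  by_contra hcon
  push Not at hcon
  obtain ⟨E, rfl⟩ := cls_surj e
  obtain ⟨T, hT, hd, hle, hlex⟩ := exists_lex hJ hS E.1
  have hSE : S E.1 < 0 := by rw [hs E]; exact hcon
  rcases dec hdec hw hJ hT with h | ⟨d, a, T', ha, hd0, hT', hTe⟩
  · obtain ⟨t, ht⟩ := hcls M w J hw hJ T hT
    have h1 := h c.T t _ c.pcur ht he
    rw [← ht E] at h1
    linarith
  · have hdm : 0 < d.T (w 0).1 := cur_pos hJ d.pcur hd0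
    have hnn : 0 ≤ d.T E.1 := by
      obtain ⟨e', he'⟩ := hcls M w J hw hJ d.T d.pcur
      rw [he' E]
      rcases hE M w J hw hJ d c with h | ⟨-, h⟩
      · exact (hI M w J hw hJ d c e' _ he' he h).1
      · exfalso
        refine hno a ha ?_
        have h1 : S - a • c.T = (S - T) + T' := by
          rw [hTe, h]
          abel
        rw [h1]
        exact PCur.add hd hT'
    have h1 : PCur J (S - T') := by
      have h2 : S - T' = (S - T) + a • d.T := by
        rw [hTe]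
        abel
      rw [h2]
      exact PCur.add hd (PCur.smul d.pcur ha.le)
    have h2 : T' E.1 ≤ T E.1 := by
      rw [hTe, LinearMap.add_apply, LinearMap.smul_apply, smul_eq_mul]
      have := mul_nonneg ha.le hnn
      linarith
    have h3 := hlex T' hT' h1 h2
    rw [hTe, LinearMap.add_apply, LinearMap.smul_apply, smul_eq_mul] at h3
    have := mul_pos ha hdm
    linarith

/-- the largest multiple of a curve contained in a current. -/
theorem exists_max {w : Trip M} {J : EndF E4 M} (hJ : IsJ w J) {S : X2 M →ₗ[ℝ] ℝ}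
    (hS : PCur J S) (c : JCurve J) (hc0 : c.T ≠ 0) :
    ∃ a : ℝ, 0 ≤ a ∧ PCur J (S - a • c.T) ∧
      ∀ a' : ℝ, 0 < a' → ¬ PCur J (S - a • c.T - a' • c.T) := by
  have hcm : 0 < c.T (w 0).1 := cur_pos hJ c.pcur hc0
  set A : Set ℝ := Icc 0 (S (w 0).1 / c.T (w 0).1) ∩
    ⋂ b : X2 M, ⋂ _ : PosG J (b.1 : F2 E4 M), {a : ℝ | a * c.T b ≤ S b} with hA
  have hAiff : ∀ a : ℝ, 0 ≤ a → (PCur J (S - a • c.T) ↔ a ∈ A) := by
    intro a ha
    constructor
    · intro h
      refine ⟨⟨ha, ?_⟩, ?_⟩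
      · rw [le_div_iff₀ hcm]
        have h0 : 0 ≤ (S - a • c.T) (w 0).1 := nonneg_of_ev hJ.smooth hJ.sq h fun x v => by
          rcases eq_or_ne v 0 with h | h
          · rw [h]; simp
          · exact (hJ.tame x v h).le
        rw [LinearMap.sub_apply, LinearMap.smul_apply, smul_eq_mul] at h0
        linarith
      · simp only [mem_iInter]
        intro b hb
        have h0 := h.nonneg b hb
        rw [LinearMap.sub_apply, LinearMap.smul_apply, smul_eq_mul] at h0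
        show a * c.T b ≤ S b
        linarith
    · rintro ⟨-, h⟩
      simp only [mem_iInter] at h
      exact pcur_sub hS (PCur.smul c.pcur ha) fun b hb => h b hb
  have hAc : IsCompact A := isCompact_Icc.inter_right
    (isClosed_iInter fun b => isClosed_iInter fun _ =>
      isClosed_le (continuous_id.mul continuous_const) continuous_const)
  have h0A : (0 : ℝ) ∈ A := (hAiff 0 le_rfl).1 (by rw [zero_smul, sub_zero]; exact hS)
  obtain ⟨a, haA, hmax⟩ := hAc.exists_isMaxOn ⟨0, h0A⟩ continuousOn_id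
  have ha0 : 0 ≤ a := haA.1.1
  refine ⟨a, ha0, (hAiff a ha0).2 haA, fun a' ha' h => ?_⟩
  have h1 : a + a' ∈ A := by
    rw [← hAiff (a + a') (by linarith)]
    have h2 : S - (a + a') • c.T = S - a • c.T - a' • c.T := by
      rw [add_smul, sub_sub]
    rw [h2]
    exact h
  have h2 : a + a' ≤ a := hmax h1
  linarith

end Closed

/-! ### the outputs -/

/-- **NEGN**. -/
theorem negn_of (hdec : JDEC.{u}) (hcls : CLS.{u}) (hI : JINT.{u}) (hN : JNEG.{u}) :
    NEGN.{u} := by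
  intro M _ _ _ _ _ _ w J hw hJ hNC S s hS hs
  rcases dec hdec hw hJ hS with h | ⟨c, a, S', ha, hc0, hS', hSe⟩
  · exact h S s s hS hs hs
  · exfalso
    obtain ⟨e, he⟩ := hcls M w J hw hJ c.T c.pcur
    exact no_curve hw hJ hNC c hc0 he (hI M w J hw hJ c e he)
      fun h => (hN M w J hw hJ c e he h).1

/-- **ZD**. -/
theorem zd_of (hdec : JDEC.{u}) (hcls : CLS.{u}) (hI : JINT.{u}) (hN : JNEG.{u}) :
    STF_861.ZD.{u} := by
  intro M _ _ _ _ _ _ _ D w hw hJ hal hNC Ψ s h1 h2 h3 h4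
  have hD : T1A_195.Bridge w D.J D := ⟨rfl, hal⟩
  have hP : PCur D.J Ψ := hD.pcur (⟨h1, h2, h3, h4⟩ : T1_195.Cur D Ψ s)
  rcases hdec M D w hw hJ hal Ψ s hP h4 with h | ⟨c, a, S', ha, hc0, hS', hSe⟩
  · exact h
  · exfalso
    obtain ⟨e, he⟩ := hcls M w D.J hw hJ c.T c.pcur
    exact no_curve hw hJ hNC c hc0 he (hI M w D.J hw hJ c e he)
      fun h => (hN M w D.J hw hJ c e he h).1

set_option maxHeartbeats 1000000 in
/-- **NEGK**. -/
theorem negk_of (hdec : JDEC.{u}) (hcls : CLS.{u}) (hN : JNEG.{u})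
    (hI : Adj.ISEC.{u}) (hE : JSAME.{u}) : NEGK.{u} := by
  intro M _ _ _ _ _ _ w J hw hJ hK S s hS hs hneg
  obtain ⟨β, rfl⟩ := cls_surj s
  obtain ⟨T, hT, hd, hle, hlex⟩ := exists_lex hJ hS β.1
  have hSβ : S β.1 < 0 := by rw [hs β]; exact hneg
  rcases dec hdec hw hJ hT with h | ⟨c, a, T', ha, hc0, hT', hTe⟩
  · exfalso
    obtain ⟨t, ht⟩ := hcls M w J hw hJ T hT
    have h1 := h S t _ hS ht hs
    rw [← ht β] at h1
    linarith
  · obtain ⟨e, he⟩ := hcls M w J hw hJ c.T c.pcur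
    have hcm : 0 < c.T (w 0).1 := cur_pos hJ c.pcur hc0
    have hce : c.T β.1 < 0 := by
      by_contra hcon
      push Not at hcon
      have h1 : PCur J (S - T') := by
        have h2 : S - T' = (S - T) + a • c.T := by
          rw [hTe]
          abel
        rw [h2]
        exact PCur.add hd (PCur.smul c.pcur ha.le)
      have h2 : T' β.1 ≤ T β.1 := by
        rw [hTe, LinearMap.add_apply, LinearMap.smul_apply, smul_eq_mul]
        have := mul_nonneg ha.le hcon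
        linarith
      have h3 := hlex T' hT' h1 h2
      rw [hTe, LinearMap.add_apply, LinearMap.smul_apply, smul_eq_mul] at h3
      have := mul_pos ha hcm
      linarith
    obtain ⟨t, ht0, htS, htmax⟩ := exists_max hJ hS c hc0
    have hF := hw.vol 0
    have hS' : HasCl w (S - t • c.T) (cls β - t • e) := by
      intro b
      rw [LinearMap.sub_apply, LinearMap.smul_apply, smul_eq_mul, hs b, he b, ip_sub_left hF,
        ip_smul_left hF]
    have h1 := inter_nonneg hdec hcls hI hE hw hJ htS hS' c he htmax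
    rw [ip_sub_left hF, ip_smul_left hF] at h1
    have h2 : ip (w 0) (cls β) e < 0 := by
      rw [ip_comm, ← he β]
      exact hce
    have h3 : t * ip (w 0) e e < 0 := by linarith
    have h4 : t ≠ 0 := by
      intro h4
      rw [h4, zero_mul] at h3
      exact lt_irrefl _ h3
    have h5 : 0 < t := lt_of_le_of_ne ht0 (Ne.symm h4)
    have h6 : ip (w 0) e e < 0 := by
      by_contra hcon
      push Not at hcon
      have := mul_nonneg h5.le hcon
      linarith
    obtain ⟨hR, hsph, hemb⟩ := hN M w J hw hJ c e he h6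
    obtain ⟨σ, hσ, hout⟩ := AdjE_83.jsph hJ c hemb.1 hemb.2 hsph he
    refine ⟨σ, e, t, S - t • c.T, hσ, hR.2, h5, h2, htS, fun b => ?_⟩
    rw [hout.int b, LinearMap.sub_apply, LinearMap.smul_apply, smul_eq_mul]
    ring

/-- all outputs from the open nodes (universe `0`, where `HZLAT` is a theorem). -/
theorem jint (h : INTEG.{0}) : JINT.{0} := jint_of h HZFin_524.hzlat

theorem jneg (h : INTEG.{0}) (hA : Adj.ADJ.{0}) (hD : DICHR.{0}) : JNEG.{0} :=
  jneg_of hA (jint h) hD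

theorem negn (hdec : JDEC.{0}) (hcls : CLS.{0}) (h : INTEG.{0}) (hA : Adj.ADJ.{0})
    (hD : DICHR.{0}) : NEGN.{0} := negn_of hdec hcls (jint h) (jneg h hA hD)

theorem zd (hdec : JDEC.{0}) (hcls : CLS.{0}) (h : INTEG.{0}) (hA : Adj.ADJ.{0})
    (hD : DICHR.{0}) : STF_861.ZD.{0} := zd_of hdec hcls (jint h) (jneg h hA hD)

theorem negk (hdec : JDEC.{0}) (hcls : CLS.{0}) (h : INTEG.{0}) (hA : Adj.ADJ.{0})
    (hD : DICHR.{0}) (hI : Adj.ISEC.{0}) (hE : JSAME.{0}) : NEGK.{0} :=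
  negk_of hdec hcls (jneg h hA hD) hI hE

end

end Crest.Agent.R235.CurTop_844
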