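import Mathlib

/-!
Row 235 (S0364), package SW, task 447 SW-CX (helper172): the complex Hilbert space `CX V J hJ` of a
real Hilbert space `V` with a bounded complex structure `J`.

`inner x y = a(x, y) + i a(J x, y)`, `a(x, y) = (⟪x, y⟫ + ⟪J x, J y⟫) / 2`.

* `e : CX V J hJ ≃L[ℝ] V`, `ofV : V → CX V J hJ` its inverse; `e_smul`, `inner_re`, `inner_im`,
  `norm_sq`, `norm_e` (isometric `J`);
* `liftL T hT : CX V J hJ →L[ℂ] CX V' J' hJ'`, `e_liftL`; algebra; `lowL` (its inverse);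
  `LftL` (real linear bounded extension of `liftL` to all real operators), `contDiff_liftL`;
* `csub K hK` (complex subspace of a `J`-invariant real one): `finrank_csub`, `orthogonal_csub`,
  `ker_liftL`, `range_liftL`; `adjoint_liftL`;
* topology: `isCompact_e`, `isClosed_e`, ....
-/

set_option autoImplicit false
set_option linter.unusedSectionVars false

open scoped ContDiff InnerProductSpace ComplexConjugate Topology
open Module

namespace Crest.Agent.R235.Cx_172

noncomputable section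

section Def

variable (V : Type*) [NormedAddCommGroup V] [InnerProductSpace ℝ V] (J : V →L[ℝ] V)
  (hJ : ∀ x, J (J x) = -x)

/-- the complex vector space of `(V, J)`. -/
@[nolint unusedArguments]
def CX (_J : V →L[ℝ] V) (_hJ : ∀ x, _J (_J x) = -x) : Type _ := V

/-- the additive group (use the instance from the norm). -/
@[reducible]
def acg : AddCommGroup (CX V J hJ) := inferInstanceAs (AddCommGroup V)

section Core

attribute [local instance] acg

variable {V J hJ}

/-- the identity. -/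
def toV (x : CX V J hJ) : V := x

/-- the identity. -/
def ofV (x : V) : CX V J hJ := x

@[simp] lemma toV_ofV (x : V) : toV (ofV x : CX V J hJ) = x := rfl
@[simp] lemma ofV_toV (x : CX V J hJ) : ofV (toV x) = x := rfl
private lemma toV_add0 (x y : CX V J hJ) : toV (x + y) = toV x + toV y := rfl
private lemma toV_zero0 : toV (0 : CX V J hJ) = 0 := rfl
private lemma ofV_add0 (x y : V) : (ofV (x + y) : CX V J hJ) = ofV x + ofV y := rfl
private lemma ofV_zero0 : (ofV 0 : CX V J hJ) = 0 := rfl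

lemma toV_inj {x y : CX V J hJ} (h : toV x = toV y) : x = y := h

variable (V J hJ) in
/-- the complex vector space (use the instance from the norm). -/
@[reducible]
def mdl : Module ℂ (CX V J hJ) where
  smul z x := ofV (z.re • toV x + z.im • J (toV x))
  one_smul x := by
    show ofV ((1 : ℂ).re • toV x + (1 : ℂ).im • J (toV x)) = x
    simp
  mul_smul z w x := by
    show ofV ((z * w).re • toV x + (z * w).im • J (toV x)) =
      ofV (z.re • toV (ofV (w.re • toV x + w.im • J (toV x)) : CX V J hJ) +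
        z.im • J (toV (ofV (w.re • toV x + w.im • J (toV x)) : CX V J hJ)))
    simp only [toV_ofV, map_add, map_smul, hJ, Complex.mul_re, Complex.mul_im]
    congr 1
    module
  smul_zero z := by
    show ofV (z.re • toV (0 : CX V J hJ) + z.im • J (toV (0 : CX V J hJ))) = 0
    simp [toV_zero0, ofV_zero0]
  smul_add z x y := by
    show ofV (z.re • toV (x + y) + z.im • J (toV (x + y))) =
      ofV (z.re • toV x + z.im • J (toV x)) + ofV (z.re • toV y + z.im • J (toV y))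
    rw [← ofV_add0, toV_add0, map_add]
    congr 1
    module
  add_smul z w x := by
    show ofV ((z + w).re • toV x + (z + w).im • J (toV x)) =
      ofV (z.re • toV x + z.im • J (toV x)) + ofV (w.re • toV x + w.im • J (toV x))
    rw [← ofV_add0, Complex.add_re, Complex.add_im]
    congr 1
    module
  zero_smul x := by
    show ofV ((0 : ℂ).re • toV x + (0 : ℂ).im • J (toV x)) = 0
    simp [ofV_zero0]

attribute [local instance] mdl

private lemma toV_smul0 (z : ℂ) (x : CX V J hJ) :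
    toV (z • x) = z.re • toV x + z.im • J (toV x) := rfl

/-- the averaged inner product. -/
def av (J : V →L[ℝ] V) (x y : V) : ℝ := (1 / 2) * (⟪x, y⟫_ℝ + ⟪J x, J y⟫_ℝ)

lemma av_symm (x y : V) : av J x y = av J y x := by
  simp only [av, real_inner_comm]

lemma av_add_left (x y z : V) : av J (x + y) z = av J x z + av J y z := by
  simp only [av, map_add, inner_add_left]; ring

lemma av_smul_left (r : ℝ) (x y : V) : av J (r • x) y = r * av J x y := by
  simp only [av, map_smul, real_inner_smul_left]; ring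

lemma av_neg_left (x y : V) : av J (-x) y = - av J x y := by
  simp only [av, map_neg, inner_neg_left]; ring

lemma av_J_J (hJ : ∀ x, J (J x) = -x) (x y : V) : av J (J x) (J y) = av J x y := by
  simp only [av, hJ, inner_neg_neg]; ring

lemma av_J_left (hJ : ∀ x, J (J x) = -x) (x y : V) : av J (J x) y = - av J x (J y) := by
  rw [← av_J_J hJ (J x) y, hJ, av_neg_left]

lemma av_self (x : V) : av J x x = (1 / 2) * (‖x‖ ^ 2 + ‖J x‖ ^ 2) := by
  simp only [av, real_inner_self_eq_norm_sq]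

variable (V J hJ) in
/-- the core of the complex inner product. -/
@[instance_reducible]
def core : InnerProductSpace.Core ℂ (CX V J hJ) where
  inner x y := ⟨av J (toV x) (toV y), av J (J (toV x)) (toV y)⟩
  conj_inner_symm x y := by
    apply Complex.ext
    · show av J (toV y) (toV x) = av J (toV x) (toV y)
      exact av_symm _ _
    · show - av J (J (toV y)) (toV x) = av J (J (toV x)) (toV y)
      rw [av_J_left hJ (toV y), neg_neg, av_symm]
  re_inner_nonneg x := by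
    show 0 ≤ av J (toV x) (toV x)
    rw [av_self]; positivity
  add_left x y z := by
    apply Complex.ext
    · show av J (toV (x + y)) (toV z) = av J (toV x) (toV z) + av J (toV y) (toV z)
      rw [toV_add0, av_add_left]
    · show av J (J (toV (x + y))) (toV z) = av J (J (toV x)) (toV z) + av J (J (toV y)) (toV z)
      rw [toV_add0, map_add, av_add_left]
  smul_left x y z := by
    apply Complex.ext
    · show av J (toV (z • x)) (toV y) =
        (conj z * ⟨av J (toV x) (toV y), av J (J (toV x)) (toV y)⟩ : ℂ).re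
      rw [toV_smul0, av_add_left, av_smul_left, av_smul_left]
      simp [Complex.mul_re]
    · show av J (J (toV (z • x))) (toV y) =
        (conj z * ⟨av J (toV x) (toV y), av J (J (toV x)) (toV y)⟩ : ℂ).im
      rw [toV_smul0, map_add, map_smul, map_smul, hJ, av_add_left, av_smul_left, av_smul_left,
        av_neg_left]
      simp [Complex.mul_im]
  definite x h := by
    have h1 : av J (toV x) (toV x) = 0 := congrArg Complex.re h
    rw [av_self] at h1
    have h2 : ‖toV x‖ ^ 2 = 0 := by nlinarith [sq_nonneg ‖toV x‖, sq_nonneg ‖J (toV x)‖]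
    have h3 : toV x = 0 := by simpa using h2
    exact toV_inj h3

end Core

variable {V J hJ}

instance : NormedAddCommGroup (CX V J hJ) :=
  @InnerProductSpace.Core.toNormedAddCommGroup ℂ (CX V J hJ) _ (acg V J hJ) (mdl V J hJ)
    (core V J hJ)

instance : InnerProductSpace ℂ (CX V J hJ) :=
  @InnerProductSpace.ofCore ℂ (CX V J hJ) _ (acg V J hJ) (mdl V J hJ)
    (@InnerProductSpace.Core.toCore ℂ (CX V J hJ) _ (acg V J hJ) (mdl V J hJ) (core V J hJ))

@[simp] lemma toV_add (x y : CX V J hJ) : toV (x + y) = toV x + toV y := rfl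
@[simp] lemma toV_zero : toV (0 : CX V J hJ) = 0 := rfl
@[simp] lemma toV_neg (x : CX V J hJ) : toV (-x) = - toV x := rfl
@[simp] lemma toV_sub (x y : CX V J hJ) : toV (x - y) = toV x - toV y := rfl
@[simp] lemma ofV_add (x y : V) : (ofV (x + y) : CX V J hJ) = ofV x + ofV y := rfl
@[simp] lemma ofV_zero : (ofV 0 : CX V J hJ) = 0 := rfl
@[simp] lemma ofV_neg (x : V) : (ofV (-x) : CX V J hJ) = - ofV x := rfl
@[simp] lemma ofV_sub (x y : V) : (ofV (x - y) : CX V J hJ) = ofV x - ofV y := rfl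

lemma toV_smul (z : ℂ) (x : CX V J hJ) : toV (z • x) = z.re • toV x + z.im • J (toV x) := rfl

lemma toV_I_smul (x : CX V J hJ) : toV (Complex.I • x) = J (toV x) := by
  rw [toV_smul]; simp



lemma inner_re (x y : CX V J hJ) :
    (⟪x, y⟫_ℂ).re = (1 / 2) * (⟪toV x, toV y⟫_ℝ + ⟪J (toV x), J (toV y)⟫_ℝ) := rfl

lemma inner_im (x y : CX V J hJ) :
    (⟪x, y⟫_ℂ).im = (1 / 2) * (⟪J (toV x), toV y⟫_ℝ - ⟪toV x, J (toV y)⟫_ℝ) := by
  show av J (J (toV x)) (toV y) = _
  simp only [av, hJ, inner_neg_left]; ring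

lemma norm_sq (x : CX V J hJ) : ‖x‖ ^ 2 = (1 / 2) * (‖toV x‖ ^ 2 + ‖J (toV x)‖ ^ 2) := by
  rw [← inner_self_eq_norm_sq (𝕜 := ℂ) x]
  show (⟪x, x⟫_ℂ).re = _
  rw [inner_re, real_inner_self_eq_norm_sq, real_inner_self_eq_norm_sq]

/-! ### comparison with the real space -/

lemma norm_toV_le (x : CX V J hJ) : ‖toV x‖ ≤ 2 * ‖x‖ := by
  have h := norm_sq x
  have h1 : ‖toV x‖ ^ 2 ≤ (2 * ‖x‖) ^ 2 := by
    nlinarith [sq_nonneg ‖J (toV x)‖, sq_nonneg ‖x‖]
  exact abs_le_of_sq_le_sq' h1 (by positivity) |>.2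

lemma norm_ofV_le (x : V) : ‖(ofV x : CX V J hJ)‖ ≤ (1 + ‖J‖) * ‖x‖ := by
  have h := norm_sq (ofV x : CX V J hJ)
  rw [toV_ofV] at h
  have h2 : ‖J x‖ ≤ ‖J‖ * ‖x‖ := J.le_opNorm x
  have h3 : ‖J x‖ ^ 2 ≤ (‖J‖ * ‖x‖) ^ 2 := by gcongr
  have h1 : ‖(ofV x : CX V J hJ)‖ ^ 2 ≤ ((1 + ‖J‖) * ‖x‖) ^ 2 := by
    have h4 : 0 ≤ ‖J‖ * ‖x‖ ^ 2 := by positivity
    have h5 : 0 ≤ ‖J‖ ^ 2 * ‖x‖ ^ 2 := by positivity
    rw [h]
    nlinarith [sq_nonneg ‖x‖]
  exact abs_le_of_sq_le_sq' h1 (by positivity) |>.2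

lemma real_smul_def (r : ℝ) (x : CX V J hJ) : r • x = (r : ℂ) • x := rfl

@[simp] lemma toV_real_smul (r : ℝ) (x : CX V J hJ) : toV (r • x) = r • toV x := by
  rw [real_smul_def, toV_smul]; simp

@[simp] lemma ofV_real_smul (r : ℝ) (x : V) : (ofV (r • x) : CX V J hJ) = r • ofV x := by
  apply toV_inj
  rw [toV_real_smul]; rfl

variable (V J hJ) in
/-- **the real linear homeomorphism.** -/
def e : CX V J hJ ≃L[ℝ] V :=
  ContinuousLinearEquiv.mk
    { toFun := toV
      invFun := ofV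
      map_add' := fun _ _ => rfl
      map_smul' := fun r x => toV_real_smul r x
      left_inv := fun _ => rfl
      right_inv := fun _ => rfl }
    (LinearMap.mkContinuous
      ({ toFun := toV, map_add' := fun _ _ => rfl, map_smul' := fun r x => toV_real_smul r x } :
        CX V J hJ →ₗ[ℝ] V) 2 norm_toV_le).continuous
    (LinearMap.mkContinuous
      ({ toFun := ofV, map_add' := fun _ _ => rfl, map_smul' := fun r x => ofV_real_smul r x } :
        V →ₗ[ℝ] CX V J hJ) (1 + ‖J‖) norm_ofV_le).continuous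





lemma e_I_smul (x : CX V J hJ) : e V J hJ (Complex.I • x) = J (e V J hJ x) := toV_I_smul x

lemma norm_e_le (x : CX V J hJ) : ‖e V J hJ x‖ ≤ 2 * ‖x‖ := norm_toV_le x

lemma norm_le_e (x : CX V J hJ) : ‖x‖ ≤ (1 + ‖J‖) * ‖e V J hJ x‖ := norm_ofV_le (toV x)

instance [CompleteSpace V] : CompleteSpace (CX V J hJ) := by
  have h : IsUniformEmbedding (e V J hJ).toEquiv := (e V J hJ).isUniformEmbedding
  exact (completeSpace_congr h).2 inferInstance

/-! ### isometric complex structures -/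

lemma inner_J_J (hI : ∀ x, ‖J x‖ = ‖x‖) (x y : V) : ⟪J x, J y⟫_ℝ = ⟪x, y⟫_ℝ :=
  (LinearIsometry.mk J.toLinearMap hI).inner_map_map x y

lemma inner_J_left (hJ : ∀ x, J (J x) = -x) (hI : ∀ x, ‖J x‖ = ‖x‖) (x y : V) :
    ⟪J x, y⟫_ℝ = - ⟪x, J y⟫_ℝ := by
  rw [← inner_J_J hI (J x) y, hJ, inner_neg_left]

lemma inner_re_isom (hI : ∀ x, ‖J x‖ = ‖x‖) (x y : CX V J hJ) :
    (⟪x, y⟫_ℂ).re = ⟪toV x, toV y⟫_ℝ := by
  rw [inner_re, inner_J_J hI]; ring

lemma inner_im_isom (hI : ∀ x, ‖J x‖ = ‖x‖) (x y : CX V J hJ) :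
    (⟪x, y⟫_ℂ).im = ⟪J (toV x), toV y⟫_ℝ := by
  rw [inner_im, ← neg_neg ⟪toV x, J (toV y)⟫_ℝ, ← inner_J_left hJ hI]; ring

lemma norm_toV (hI : ∀ x, ‖J x‖ = ‖x‖) (x : CX V J hJ) : ‖toV x‖ = ‖x‖ := by
  have h := norm_sq x
  rw [hI] at h
  have h1 : ‖x‖ ^ 2 = ‖toV x‖ ^ 2 := by linarith
  have h2 := (sq_eq_sq₀ (norm_nonneg _) (norm_nonneg _)).1 h1
  exact h2.symm

lemma norm_e (hI : ∀ x, ‖J x‖ = ‖x‖) (x : CX V J hJ) : ‖e V J hJ x‖ = ‖x‖ := norm_toV hI x



/-! ### topology -/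


lemma isClosed_e {S : Set (CX V J hJ)} : IsClosed (e V J hJ '' S) ↔ IsClosed S :=
  (e V J hJ).toHomeomorph.isClosed_image




lemma continuous_toV : Continuous (toV : CX V J hJ → V) := (e V J hJ).continuous

lemma continuous_ofV : Continuous (ofV : V → CX V J hJ) := (e V J hJ).symm.continuous

end Def

/-! ### operators -/

section Lift

variable {V : Type*} [NormedAddCommGroup V] [InnerProductSpace ℝ V] {J : V →L[ℝ] V}
  {hJ : ∀ x, J (J x) = -x}
variable {V' : Type*} [NormedAddCommGroup V'] [InnerProductSpace ℝ V'] {J' : V' →L[ℝ] V'}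
  {hJ' : ∀ x, J' (J' x) = -x}
variable {V'' : Type*} [NormedAddCommGroup V''] [InnerProductSpace ℝ V''] {J'' : V'' →L[ℝ] V''}
  {hJ'' : ∀ x, J'' (J'' x) = -x}

/-- the complex linear map of a commuting real linear map. -/
def liftL (T : V →L[ℝ] V') (hT : ∀ x, T (J x) = J' (T x)) : CX V J hJ →L[ℂ] CX V' J' hJ' where
  toFun x := ofV (T (toV x))
  map_add' x y := by rw [toV_add, map_add, ofV_add]
  map_smul' z x := by
    apply toV_inj
    show T (toV (z • x)) = toV (z • (ofV (T (toV x)) : CX V' J' hJ'))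
    rw [toV_smul, toV_smul, map_add, map_smul, map_smul, hT, toV_ofV]
  cont := continuous_ofV.comp (T.continuous.comp continuous_toV)

lemma liftL_apply (T : V →L[ℝ] V') (hT : ∀ x, T (J x) = J' (T x)) (x : CX V J hJ) :
    (liftL T hT : CX V J hJ →L[ℂ] CX V' J' hJ') x = ofV (T (toV x)) := rfl



lemma com_add {T S : V →L[ℝ] V'} (hT : ∀ x, T (J x) = J' (T x)) (hS : ∀ x, S (J x) = J' (S x)) :
    ∀ x, (T + S) (J x) = J' ((T + S) x) := fun x => by
  simp only [_root_.add_apply, hT, hS, map_add]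


lemma com_smul (r : ℝ) {T : V →L[ℝ] V'} (hT : ∀ x, T (J x) = J' (T x)) :
    ∀ x, (r • T) (J x) = J' ((r • T) x) := fun x => by
  simp only [_root_.smul_apply, hT, map_smul]





lemma liftL_add {T S : V →L[ℝ] V'} (hT : ∀ x, T (J x) = J' (T x)) (hS : ∀ x, S (J x) = J' (S x)) :
    (liftL (T + S) (com_add hT hS) : CX V J hJ →L[ℂ] CX V' J' hJ') = liftL T hT + liftL S hS := by
  ext x; rfl


lemma liftL_smul (r : ℝ) {T : V →L[ℝ] V'} (hT : ∀ x, T (J x) = J' (T x)) :
    (liftL (r • T) (com_smul r hT) : CX V J hJ →L[ℂ] CX V' J' hJ') = r • liftL T hT := by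
  ext x
  apply toV_inj
  show r • T (toV x) = toV (r • (liftL T hT : CX V J hJ →L[ℂ] CX V' J' hJ') x)
  rw [toV_real_smul]; rfl





lemma liftL_congr {T S : V →L[ℝ] V'} (h : T = S) (hT : ∀ x, T (J x) = J' (T x))
    (hS : ∀ x, S (J x) = J' (S x)) :
    (liftL T hT : CX V J hJ →L[ℂ] CX V' J' hJ') = liftL S hS := by
  subst h; rfl







lemma norm_liftL_le (T : V →L[ℝ] V') (hT : ∀ x, T (J x) = J' (T x)) :
    ‖(liftL T hT : CX V J hJ →L[ℂ] CX V' J' hJ')‖ ≤ 2 * (1 + ‖J'‖) * ‖T‖ := by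
  refine ContinuousLinearMap.opNorm_le_bound _ (by positivity) fun x => ?_
  rw [liftL_apply]
  calc ‖(ofV (T (toV x)) : CX V' J' hJ')‖ ≤ (1 + ‖J'‖) * ‖T (toV x)‖ := norm_ofV_le _
    _ ≤ (1 + ‖J'‖) * (‖T‖ * (2 * ‖x‖)) := by
        gcongr
        exact (T.le_opNorm _).trans (by gcongr; exact norm_toV_le x)
    _ = 2 * (1 + ‖J'‖) * ‖T‖ * ‖x‖ := by ring


/-- the commuting part of a real operator. -/
def prj (J : V →L[ℝ] V) (J' : V' →L[ℝ] V') (T : V →L[ℝ] V') : V →L[ℝ] V' :=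
  (1 / 2 : ℝ) • (T - J'.comp (T.comp J))

lemma com_prj (hJ : ∀ x, J (J x) = -x) (hJ' : ∀ x, J' (J' x) = -x) (T : V →L[ℝ] V') (x : V) :
    prj J J' T (J x) = J' (prj J J' T x) := by
  simp only [prj, _root_.smul_apply, _root_.sub_apply,
    ContinuousLinearMap.comp_apply, hJ, hJ', map_neg, map_smul, map_sub]
  congr 1
  abel

lemma prj_eq (hJ' : ∀ x, J' (J' x) = -x) {T : V →L[ℝ] V'} (hT : ∀ x, T (J x) = J' (T x)) :
    prj J J' T = T := by
  ext x
  simp only [prj, _root_.smul_apply, _root_.sub_apply,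
    ContinuousLinearMap.comp_apply, hT, hJ']
  module

lemma norm_prj_le (T : V →L[ℝ] V') : ‖prj J J' T‖ ≤ (1 + ‖J'‖ * ‖J‖) * ‖T‖ := by
  have h1 : ‖J'.comp (T.comp J)‖ ≤ ‖J'‖ * (‖T‖ * ‖J‖) :=
    (ContinuousLinearMap.opNorm_comp_le _ _).trans
      (by gcongr; exact ContinuousLinearMap.opNorm_comp_le _ _)
  have h2 : ‖T - J'.comp (T.comp J)‖ ≤ ‖T‖ + ‖J'‖ * (‖T‖ * ‖J‖) :=
    (norm_sub_le _ _).trans (by gcongr)
  rw [prj, norm_smul]
  have h3 : ‖(1 / 2 : ℝ)‖ = 1 / 2 := by norm_num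
  rw [h3]
  have h4 : 0 ≤ ‖T‖ + ‖J'‖ * (‖T‖ * ‖J‖) := by positivity
  nlinarith

variable (hJ hJ') in
/-- the real linear bounded extension of `liftL` to all the real operators. -/
def LftL : (V →L[ℝ] V') →L[ℝ] (CX V J hJ →L[ℂ] CX V' J' hJ') :=
  LinearMap.mkContinuous
    { toFun := fun T => liftL (prj J J' T) (com_prj hJ hJ' T)
      map_add' := by
        intro T S
        rw [← liftL_add]
        apply liftL_congr
        ext x
        simp only [prj, _root_.smul_apply, _root_.sub_apply,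
          ContinuousLinearMap.comp_apply, _root_.add_apply, map_add]
        module
      map_smul' := by
        intro r T
        rw [RingHom.id_apply, ← liftL_smul]
        apply liftL_congr
        ext x
        simp only [prj, _root_.smul_apply, _root_.sub_apply,
          ContinuousLinearMap.comp_apply, map_smul]
        module }
    (2 * (1 + ‖J'‖) * (1 + ‖J'‖ * ‖J‖)) (by
      intro T
      show ‖(liftL (prj J J' T) (com_prj hJ hJ' T) : CX V J hJ →L[ℂ] CX V' J' hJ')‖ ≤ _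
      calc _ ≤ 2 * (1 + ‖J'‖) * ‖prj J J' T‖ := norm_liftL_le _ _
        _ ≤ 2 * (1 + ‖J'‖) * ((1 + ‖J'‖ * ‖J‖) * ‖T‖) := by
            gcongr; exact norm_prj_le T
        _ = _ := by ring)

lemma LftL_apply (T : V →L[ℝ] V') : LftL hJ hJ' T = liftL (prj J J' T) (com_prj hJ hJ' T) := rfl

lemma LftL_eq {T : V →L[ℝ] V'} (hT : ∀ x, T (J x) = J' (T x)) :
    LftL hJ hJ' T = liftL T hT := by
  rw [LftL_apply]
  exact liftL_congr (prj_eq hJ' hT) _ _

/-- smooth families. -/
theorem contDiff_liftL {P : Type*} [NormedAddCommGroup P] [NormedSpace ℝ P] {n : ℕ∞ω}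
    {T : P → V →L[ℝ] V'} (hs : ContDiff ℝ n T) (hT : ∀ h x, T h (J x) = J' (T h x)) :
    ContDiff ℝ n (fun h => (liftL (T h) (hT h) : CX V J hJ →L[ℂ] CX V' J' hJ')) := by
  have h1 : (fun h => (liftL (T h) (hT h) : CX V J hJ →L[ℂ] CX V' J' hJ')) =
      fun h => LftL hJ hJ' (T h) := funext fun h => (LftL_eq (hT h)).symm
  rw [h1]
  have h2 : ContDiff ℝ n (fun T : V →L[ℝ] V' => LftL hJ hJ' T) :=
    ContinuousLinearMap.contDiff (𝕜 := ℝ) (LftL hJ hJ')
  exact h2.comp hs




end Lift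

/-! ### subspaces -/

section Sub

variable {V : Type*} [NormedAddCommGroup V] [InnerProductSpace ℝ V] {J : V →L[ℝ] V}
  {hJ : ∀ x, J (J x) = -x}
variable {V' : Type*} [NormedAddCommGroup V'] [InnerProductSpace ℝ V'] {J' : V' →L[ℝ] V'}
  {hJ' : ∀ x, J' (J' x) = -x}

variable (hJ) in
/-- the complex subspace of an invariant real one. -/
def csub (K : Submodule ℝ V) (hK : ∀ x ∈ K, J x ∈ K) : Submodule ℂ (CX V J hJ) where
  carrier := {x | toV x ∈ K}
  zero_mem' := K.zero_mem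
  add_mem' := fun hx hy => K.add_mem hx hy
  smul_mem' := fun z x hx => by
    show toV (z • x) ∈ K
    rw [toV_smul]
    exact K.add_mem (K.smul_mem _ hx) (K.smul_mem _ (hK _ hx))

@[simp] lemma mem_csub {K : Submodule ℝ V} {hK : ∀ x ∈ K, J x ∈ K} {x : CX V J hJ} :
    x ∈ csub hJ K hK ↔ toV x ∈ K := Iff.rfl

/-- the real linear identification. -/
def csubE (K : Submodule ℝ V) (hK : ∀ x ∈ K, J x ∈ K) : csub hJ K hK ≃ₗ[ℝ] K where
  toFun x := ⟨toV x.1, x.2⟩
  invFun x := ⟨ofV x.1, x.2⟩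
  map_add' _ _ := rfl
  map_smul' r x := by
    apply Subtype.ext
    show toV ((r • x : csub hJ K hK) : CX V J hJ) = r • toV x.1
    exact toV_real_smul r x.1
  left_inv _ := rfl
  right_inv _ := rfl

theorem finrank_csub (K : Submodule ℝ V) (hK : ∀ x ∈ K, J x ∈ K) :
    finrank ℝ K = 2 * finrank ℂ (csub hJ K hK) := by
  rw [← (csubE (hJ := hJ) K hK).finrank_eq, finrank_real_of_complex]

theorem finiteDimensional_csub (K : Submodule ℝ V) (hK : ∀ x ∈ K, J x ∈ K) :
    FiniteDimensional ℂ (csub hJ K hK) ↔ FiniteDimensional ℝ K := by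
  constructor
  · intro h
    have h1 : FiniteDimensional ℝ (csub hJ K hK) := FiniteDimensional.complexToReal _
    exact Module.Finite.equiv (csubE (hJ := hJ) K hK)
  · intro h
    have h1 : FiniteDimensional ℝ (csub hJ K hK) := Module.Finite.equiv (csubE (hJ := hJ) K hK).symm
    exact FiniteDimensional.right ℝ ℂ _

theorem isClosed_csub {K : Submodule ℝ V} {hK : ∀ x ∈ K, J x ∈ K} :
    IsClosed (csub hJ K hK : Set (CX V J hJ)) ↔ IsClosed (K : Set V) := by
  rw [← isClosed_e (hJ := hJ)]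
  have : e V J hJ '' (csub hJ K hK : Set (CX V J hJ)) = (K : Set V) := by
    ext x
    constructor
    · rintro ⟨y, hy, rfl⟩; exact hy
    · intro hx; exact ⟨ofV x, hx, rfl⟩
  rw [this]


/-- orthogonal complements, isometric `J`. -/
theorem mem_orthogonal_csub (hI : ∀ x, ‖J x‖ = ‖x‖) {K : Submodule ℝ V} {hK : ∀ x ∈ K, J x ∈ K}
    {x : CX V J hJ} : x ∈ (csub hJ K hK)ᗮ ↔ toV x ∈ Kᗮ := by
  rw [Submodule.mem_orthogonal, Submodule.mem_orthogonal]
  constructor
  · intro h u hu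
    have := h (ofV u) hu
    have h1 := congrArg Complex.re this
    rw [inner_re_isom hI] at h1
    exact h1
  · intro h u hu
    apply Complex.ext
    · rw [inner_re_isom hI]
      exact h _ hu
    · rw [inner_im_isom hI]
      exact h _ (hK _ hu)

lemma com_orthogonal (hJ : ∀ x, J (J x) = -x) (hI : ∀ x, ‖J x‖ = ‖x‖) {K : Submodule ℝ V}
    (hK : ∀ x ∈ K, J x ∈ K) :
    ∀ x ∈ Kᗮ, J x ∈ Kᗮ := by
  intro x hx
  rw [Submodule.mem_orthogonal] at hx ⊢
  intro u hu
  have h := hx (J u) (hK u hu)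
  rw [inner_J_left hJ hI] at h
  linarith

theorem orthogonal_csub (hI : ∀ x, ‖J x‖ = ‖x‖) {K : Submodule ℝ V} {hK : ∀ x ∈ K, J x ∈ K} :
    (csub hJ K hK)ᗮ = csub hJ Kᗮ (com_orthogonal hJ hI hK) := by
  ext x
  exact mem_orthogonal_csub hI

lemma com_ker {T : V →L[ℝ] V'} (hT : ∀ x, T (J x) = J' (T x)) :
    ∀ x ∈ LinearMap.ker (T : V →ₗ[ℝ] V'), J x ∈ LinearMap.ker (T : V →ₗ[ℝ] V') := by
  intro x hx
  rw [LinearMap.mem_ker] at hx ⊢
  show T (J x) = 0
  rw [hT]
  have : T x = 0 := hx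
  rw [this, map_zero]

lemma com_range {T : V →L[ℝ] V'} (hT : ∀ x, T (J x) = J' (T x)) :
    ∀ x ∈ LinearMap.range (T : V →ₗ[ℝ] V'), J' x ∈ LinearMap.range (T : V →ₗ[ℝ] V') := by
  rintro _ ⟨y, rfl⟩
  exact ⟨J y, hT y⟩

theorem ker_liftL {T : V →L[ℝ] V'} (hT : ∀ x, T (J x) = J' (T x)) :
    LinearMap.ker ((liftL T hT : CX V J hJ →L[ℂ] CX V' J' hJ') : CX V J hJ →ₗ[ℂ] CX V' J' hJ') =
      csub hJ (LinearMap.ker (T : V →ₗ[ℝ] V')) (com_ker hT) := by
  ext x
  rfl

theorem range_liftL {T : V →L[ℝ] V'} (hT : ∀ x, T (J x) = J' (T x)) :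
    LinearMap.range ((liftL T hT : CX V J hJ →L[ℂ] CX V' J' hJ') : CX V J hJ →ₗ[ℂ] CX V' J' hJ') =
      csub hJ' (LinearMap.range (T : V →ₗ[ℝ] V')) (com_range hT) := by
  ext x
  constructor
  · rintro ⟨y, rfl⟩; exact ⟨toV y, rfl⟩
  · rintro ⟨y, hy⟩; exact ⟨ofV y, hy⟩

theorem isClosed_range_liftL {T : V →L[ℝ] V'} (hT : ∀ x, T (J x) = J' (T x)) :
    IsClosed (Set.range (liftL T hT : CX V J hJ →L[ℂ] CX V' J' hJ')) ↔ IsClosed (Set.range T) := by
  have h1 : Set.range (liftL T hT : CX V J hJ →L[ℂ] CX V' J' hJ') =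
      ((csub hJ' (LinearMap.range (T : V →ₗ[ℝ] V')) (com_range hT) : Submodule ℂ _) :
        Set (CX V' J' hJ')) := by
    ext x
    constructor
    · rintro ⟨y, rfl⟩; exact ⟨toV y, rfl⟩
    · rintro ⟨y, hy⟩; exact ⟨ofV y, hy⟩
  have h2 : Set.range T = (LinearMap.range (T : V →ₗ[ℝ] V') : Set V') := rfl
  rw [h1, isClosed_csub, h2]





/-! ### adjoints -/

variable [CompleteSpace V] [CompleteSpace V']




end Sub

end

end Crest.Agent.R235.Cx_172
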