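import Crest.Agent.R235.WKG_460
import Crest.Agent.R235.CylHall_734
import Crest.Agent.R235.KGL2_52
import Crest.Agent.R235.CylDef_607
import Mathlib
import Crest.Agent.R235.CylExt_463

-- ▼ part R235/WKSep_387
section

/-!
# Row 235, REG-CYL-2: SEP (task 300)
-/

set_option autoImplicit false

open Metric Set
open scoped ContDiff Topology

namespace Crest.Agent.R235.WKSep_387

open Crest.Agent.R235.WKG_460

theorem sep : SEP := by
  intro Mb
  classical
  let K : Set ℂ := closedBall (0 : ℂ) Mb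
  have : CompactSpace K := isCompact_iff_compactSpace.mp (isCompact_closedBall (0 : ℂ) Mb)
  let J : {Φ : ℂ → ℝ // ContDiff ℝ ∞ Φ} → C(K, ℝ × (ℂ →L[ℝ] ℝ)) := fun Φ =>
    ⟨fun w => (Φ.1 w, fderiv ℝ Φ.1 w), by
      have h1 : Continuous Φ.1 := Φ.2.continuous
      have h2 : Continuous (fderiv ℝ Φ.1) := Φ.2.continuous_fderiv (by simp)
      exact (h1.comp continuous_subtype_val).prodMk (h2.comp continuous_subtype_val)⟩
  have : Nonempty (range J) := ⟨⟨J ⟨fun _ => 0, contDiff_const⟩, mem_range_self _⟩⟩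
  have : SecondCountableTopology C(K, ℝ × (ℂ →L[ℝ] ℝ)) := inferInstance
  have : TopologicalSpace.SeparableSpace (range J) := inferInstance
  let u : ℕ → range J := TopologicalSpace.denseSeq (range J)
  have hu : DenseRange u := TopologicalSpace.denseRange_denseSeq (range J)
  choose Ψ hΨ using fun n => (u n).2
  refine ⟨fun n => (Ψ n).1, fun n => (Ψ n).2, ?_⟩
  intro Φ hΦ ε hε
  have hmem : J ⟨Φ, hΦ⟩ ∈ range J := mem_range_self _
  obtain ⟨n, hn⟩ : ∃ n, dist (⟨J ⟨Φ, hΦ⟩, hmem⟩ : range J) (u n) < ε :=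
    DenseRange.exists_dist_lt hu _ hε
  refine ⟨n, fun w hw => ?_⟩
  have h1 : dist (J ⟨Φ, hΦ⟩) (J (Ψ n)) < ε := by
    have := hn
    rw [Subtype.dist_eq, ← hΨ n] at this
    exact this
  have h2 : dist ((J ⟨Φ, hΦ⟩) ⟨w, hw⟩) ((J (Ψ n)) ⟨w, hw⟩) ≤ ε :=
    (ContinuousMap.dist_apply_le_dist (f := J ⟨Φ, hΦ⟩) (g := J (Ψ n)) ⟨w, hw⟩).trans h1.le
  rw [Prod.dist_eq] at h2
  have h3 := (max_le_iff.mp h2)
  exact ⟨by simpa [J, Real.dist_eq] using h3.1, by simpa [J, dist_eq_norm] using h3.2⟩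

end Crest.Agent.R235.WKSep_387
end

-- ▼ part R235/WKHall_235
section

/-!
Row 235 (S0364), REG-CYL-2, leaf C3 (`HALL`), helper235: matching of two `k`-point configurations
from smooth test functions with `‖dΨ‖ ≤ 1` (constant `1`, by mollification and `CylHall_734`).
-/

set_option autoImplicit false

open MeasureTheory Metric Set Filter
open scoped ContDiff Topology Convolution

namespace Crest.Agent.R235.WKHall_235

open Crest.Agent.R235.WKG_460

noncomputable section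

/-- a 1-Lipschitz function on `ℂ` is a uniform limit of smooth functions with `‖dΨ‖ ≤ 1`. -/
theorem exists_smooth (φ : ℂ → ℝ) (hφ : LipschitzWith 1 φ) (δ : ℝ) (hδ : 0 < δ) :
    ∃ Ψ : ℂ → ℝ, ContDiff ℝ ∞ Ψ ∧ (∀ w, ‖fderiv ℝ Ψ w‖ ≤ 1) ∧ ∀ w, |Ψ w - φ w| ≤ δ := by
  set B : ContDiffBump (0 : ℂ) := ⟨δ / 2, δ, by linarith, by linarith⟩ with hB
  have hB1 : B.rOut = δ := rfl
  set Ψ : ℂ → ℝ := (B.normed volume) ⋆[ContinuousLinearMap.lsmul ℝ ℝ, volume] φ with hΨ
  have hcf : HasCompactSupport (B.normed volume) := B.hasCompactSupport_normed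
  have hcont : Continuous (B.normed (volume : Measure ℂ)) := B.continuous_normed
  have hφc : Continuous φ := hφ.continuous
  have hint : ∀ x : ℂ, Integrable (fun t => B.normed volume t * φ (x - t)) volume := by
    intro x
    refine Continuous.integrable_of_hasCompactSupport ?_ ?_
    · exact hcont.mul (hφc.comp (by fun_prop))
    · exact hcf.mul_right
  have hval : ∀ x, Ψ x = ∫ t, B.normed volume t * φ (x - t) := by
    intro x
    rw [hΨ, convolution_def]
    rfl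
  have hlip : LipschitzWith 1 Ψ := by
    refine LipschitzWith.of_dist_le_mul fun x y => ?_
    rw [hval, hval, Real.dist_eq, ← integral_sub (hint x) (hint y)]
    calc |∫ t, (B.normed volume t * φ (x - t) - B.normed volume t * φ (y - t))|
        ≤ ∫ t, |B.normed volume t * φ (x - t) - B.normed volume t * φ (y - t)| :=
          abs_integral_le_integral_abs
      _ ≤ ∫ t, B.normed volume t * dist x y := by
          refine integral_mono ?_ ?_ ?_
          · exact ((hint x).sub (hint y)).abs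
          · exact (B.integrable_normed).mul_const _
          · intro t
            have h1 : |φ (x - t) - φ (y - t)| ≤ dist x y := by
              have := hφ.dist_le_mul (x - t) (y - t)
              rw [Real.dist_eq] at this
              simpa using this
            have h2 : 0 ≤ B.normed volume t := B.nonneg_normed t
            show |B.normed volume t * φ (x - t) - B.normed volume t * φ (y - t)| ≤ _
            rw [← mul_sub, abs_mul, abs_of_nonneg h2]
            exact mul_le_mul_of_nonneg_left h1 h2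
      _ = (∫ t, B.normed volume t) * dist x y := integral_mul_const _ _
      _ = ((1 : NNReal) : ℝ) * dist x y := by rw [B.integral_normed]; simp
  refine ⟨Ψ, ?_, ?_, ?_⟩
  · exact hcf.contDiff_convolution_left _ B.contDiff_normed hφc.locallyIntegrable
  · intro w
    have := norm_fderiv_le_of_lipschitz ℝ (x₀ := w) hlip
    simpa using this
  · intro w
    have := B.dist_normed_convolution_le (μ := (volume : Measure ℂ)) (g := φ) (x₀ := w) (ε := δ)
      hφc.aestronglyMeasurable (fun x hx => by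
        have h1 := hφ.dist_le_mul x w
        have h2 : dist x w < δ := by rw [← hB1]; exact mem_ball.1 hx
        simp only [NNReal.coe_one, one_mul] at h1
        exact h1.trans h2.le)
    rw [Real.dist_eq] at this
    exact this

theorem hall : HALL := by
  intro k
  refine ⟨1, one_pos, ?_⟩
  intro a b ε hε h
  have key : ∀ φ : ℂ → ℝ, LipschitzWith 1 φ → |∑ i, φ (a i) - ∑ i, φ (b i)| ≤ ε := by
    intro φ hφ
    refine le_of_forall_pos_le_add fun η hη => ?_
    obtain ⟨Ψ, h1, h2, h3⟩ := exists_smooth φ hφ (η / (2 * (k + 1))) (by positivity)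
    have h4 := h Ψ h1 h2
    have h5 : ∀ c : Fin k → ℂ, |∑ i, φ (c i) - ∑ i, Ψ (c i)| ≤ k * (η / (2 * (k + 1))) := by
      intro c
      rw [← Finset.sum_sub_distrib]
      refine (Finset.abs_sum_le_sum_abs _ _).trans ?_
      calc ∑ i, |φ (c i) - Ψ (c i)| ≤ ∑ _i : Fin k, η / (2 * (k + 1)) :=
            Finset.sum_le_sum fun i _ => by rw [abs_sub_comm]; exact h3 _
        _ = k * (η / (2 * (k + 1))) := by simp
    have h6 : (k : ℝ) * (η / (2 * (k + 1))) ≤ η / 2 := by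
      have hk : (0 : ℝ) < k + 1 := by positivity
      rw [mul_div_assoc', div_le_div_iff₀ (by positivity) (by norm_num)]
      nlinarith
    have h7 := h5 a
    have h8 := h5 b
    rw [abs_le] at h4 h7 h8 ⊢
    constructor <;> linarith [h4.1, h4.2, h7.1, h7.2, h8.1, h8.2]
  obtain ⟨σ, hσ⟩ := CylHall_734.hall_fin hε.le key
  refine ⟨σ, fun i => ?_⟩
  have := hσ i
  rw [dist_eq_norm] at this
  linarith

end

end Crest.Agent.R235.WKHall_235
end

-- ▼ part R235/WKSlice_659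
section

/-!
Row 235, REG-CYL-2 (helper460), leaf SLICE: almost every circle carries a weak closed k-valued
curve.
-/

set_option autoImplicit false

open MeasureTheory Metric Set Filter Complex
open scoped ContDiff Topology ComplexConjugate ENNReal

namespace Crest.Agent.R235.WKSlice_659

open Crest.Agent.R235.Loc Crest.Agent.R235.WKG_460

noncomputable section

variable {μ β : ℂ × ℂ → ℂ} {c : ℂ} {R : ℝ} {k : ℕ} {s : ℂ → Fin k → ℂ}
    {A : ℂ → Fin k → (ℂ →L[ℝ] ℂ)} {ma : Measure ℂ} {K c0 Mb : ℝ}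

/-- symmetric function of the sheets -/
def FF (s : ℂ → Fin k → ℂ) (Ψ : ℂ → ℝ) (t : ℂ) : ℝ := ∑ i, Ψ (s t i)

/-- its weak gradient -/
def GG (s : ℂ → Fin k → ℂ) (A : ℂ → Fin k → (ℂ →L[ℝ] ℂ)) (Ψ : ℂ → ℝ) (t : ℂ) : ℂ →L[ℝ] ℝ :=
  ∑ i, (fderiv ℝ Ψ (s t i)).comp (A t i)

theorem GG_apply (Ψ : ℂ → ℝ) (t u : ℂ) :
    GG s A Ψ t u = ∑ i, fderiv ℝ Ψ (s t i) (A t i u) := by
  unfold GG
  rw [_root_.sum_apply]
  rfl

theorem FF_meas (hs : ∀ i, Measurable fun t => s t i) {Ψ : ℂ → ℝ} (hΨ : Continuous Ψ) :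
    Measurable (FF s Ψ) := by
  unfold FF
  exact Finset.measurable_sum _ fun i _ => hΨ.measurable.comp (hs i)

theorem GG_meas (hs : ∀ i, Measurable fun t => s t i) (hA : ∀ i, Measurable fun t => A t i)
    {Ψ : ℂ → ℝ} (hΨ : ContDiff ℝ ∞ Ψ) : Measurable (GG s A Ψ) := by
  unfold GG
  refine Finset.measurable_sum _ fun i _ => ?_
  have h1 : Measurable fun t => fderiv ℝ Ψ (s t i) :=
    (hΨ.continuous_fderiv (by norm_num)).measurable.comp (hs i)
  have h2 : Continuous fun q : (ℂ →L[ℝ] ℝ) × (ℂ →L[ℝ] ℂ) => q.1.comp q.2 := by fun_prop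
  exact h2.measurable.comp (h1.prodMk (hA i))

/-- bounds on the disc of values -/
theorem exists_bd (Mb : ℝ) {Ψ : ℂ → ℝ} (hΨ : ContDiff ℝ ∞ Ψ) :
    ∃ C : ℝ, 0 ≤ C ∧ ∀ w ∈ closedBall (0 : ℂ) Mb, |Ψ w| ≤ C ∧ ‖fderiv ℝ Ψ w‖ ≤ C := by
  obtain ⟨C1, h1⟩ := (isCompact_closedBall (0 : ℂ) Mb).exists_bound_of_continuousOn
    hΨ.continuous.continuousOn
  obtain ⟨C2, h2⟩ := (isCompact_closedBall (0 : ℂ) Mb).exists_bound_of_continuousOn
    (hΨ.continuous_fderiv (by norm_num)).continuousOn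
  refine ⟨max (max C1 C2) 0, le_max_right _ _, fun w hw => ⟨?_, ?_⟩⟩
  · exact (h1 w hw).trans ((le_max_left _ _).trans (le_max_left _ _))
  · exact (h2 w hw).trans ((le_max_right _ _).trans (le_max_left _ _))

theorem FF_le (hb : ∀ t i, ‖s t i‖ ≤ Mb) {Ψ : ℂ → ℝ} {C : ℝ}
    (hC : ∀ w ∈ closedBall (0 : ℂ) Mb, |Ψ w| ≤ C) (t : ℂ) : |FF s Ψ t| ≤ k * C := by
  unfold FF
  refine (Finset.abs_sum_le_sum_abs _ _).trans ?_
  refine (Finset.sum_le_sum fun i _ => hC _ (mem_closedBall_zero_iff.2 (hb t i))).trans ?_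
  simp

theorem GG_le (hb : ∀ t i, ‖s t i‖ ≤ Mb) {Ψ : ℂ → ℝ} {C : ℝ}
    (hC : ∀ w ∈ closedBall (0 : ℂ) Mb, ‖fderiv ℝ Ψ w‖ ≤ C) (t : ℂ) :
    ‖GG s A Ψ t‖ ≤ C * ∑ i, ‖A t i‖ := by
  unfold GG
  rw [Finset.mul_sum]
  refine (norm_sum_le _ _).trans (Finset.sum_le_sum fun i _ => ?_)
  exact (ContinuousLinearMap.opNorm_comp_le _ _).trans
    (mul_le_mul_of_nonneg_right (hC _ (mem_closedBall_zero_iff.2 (hb t i))) (norm_nonneg _))

theorem sum_sq_le (t : ℂ) : (∑ i, ‖A t i‖) ^ 2 ≤ k * ∑ i, ‖A t i‖ ^ 2 := by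
  have := sq_sum_le_card_mul_sum_sq (s := (Finset.univ : Finset (Fin k))) (f := fun i => ‖A t i‖)
  simpa using this

theorem sumA_meas (hA : ∀ i, Measurable fun t => A t i) :
    Measurable fun t => ∑ i, ‖A t i‖ := Finset.measurable_sum _ fun i _ => (hA i).norm

theorem sumA_int (hA : ∀ i, Measurable fun t => A t i)
    (hint : IntegrableOn (fun t => ∑ i, ‖A t i‖ ^ 2) (ball c R)) :
    IntegrableOn (fun t => ∑ i, ‖A t i‖) (ball c R) := by
  have h1 : IntegrableOn (fun t => 1 + k * ∑ i, ‖A t i‖ ^ 2) (ball c R) :=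
    (integrableOn_const measure_ball_lt_top.ne).add
      (hint.const_mul _)
  refine Integrable.mono' h1 (sumA_meas hA).aestronglyMeasurable (Eventually.of_forall fun t => ?_)
  have h2 := sum_sq_le (A := A) t
  have h3 : 0 ≤ ∑ i, ‖A t i‖ := Finset.sum_nonneg fun i _ => norm_nonneg _
  rw [Real.norm_of_nonneg h3]
  nlinarith [sq_nonneg ((∑ i, ‖A t i‖) - 1)]

theorem GG_sq_int (hb : ∀ t i, ‖s t i‖ ≤ Mb) (hs : ∀ i, Measurable fun t => s t i)
    (hA : ∀ i, Measurable fun t => A t i)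
    (hint : IntegrableOn (fun t => ∑ i, ‖A t i‖ ^ 2) (ball c R)) {Ψ : ℂ → ℝ}
    (hΨ : ContDiff ℝ ∞ Ψ) : IntegrableOn (fun t => ‖GG s A Ψ t‖ ^ 2) (ball c R) := by
  obtain ⟨C, hC0, hC⟩ := exists_bd Mb hΨ
  refine Integrable.mono' (hint.const_mul (C ^ 2 * k))
    ((GG_meas hs hA hΨ).norm.pow_const 2).aestronglyMeasurable (Eventually.of_forall fun t => ?_)
  rw [Real.norm_of_nonneg (sq_nonneg _)]
  have h1 := GG_le (A := A) hb (fun w hw => (hC w hw).2) t
  have h2 := sum_sq_le (A := A) t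
  calc ‖GG s A Ψ t‖ ^ 2 ≤ (C * ∑ i, ‖A t i‖) ^ 2 := by gcongr
    _ = C ^ 2 * (∑ i, ‖A t i‖) ^ 2 := by ring
    _ ≤ C ^ 2 * (k * ∑ i, ‖A t i‖ ^ 2) := by gcongr
    _ = C ^ 2 * k * ∑ i, ‖A t i‖ ^ 2 := by ring

theorem weak1 (hw : WKG μ β c R k s A ma K c0 Mb) {p : ℂ} {r0 : ℝ}
    (hsub : ball p r0 ⊆ ball c R) {Ψ : ℂ → ℝ} (hΨ : ContDiff ℝ ∞ Ψ) :
    Weak1 (ball p r0) (FF s Ψ) (GG s A Ψ) := by
  intro f hf hfc hfs u hu
  have key := hw.weak (fun q => f q.1 * Ψ q.2)
    ⟨(hf.comp contDiff_fst).mul (hΨ.comp contDiff_snd), tsupport f, hfs.trans hsub, hfc,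
      fun t ht w => by simp [image_eq_zero_of_notMem_tsupport ht]⟩ u hu
  have hfd : fderiv ℝ (fun q : ℂ × ℂ => f q.1 * Ψ q.2) = fun q =>
      f q.1 • (fderiv ℝ Ψ q.2).comp (ContinuousLinearMap.snd ℝ ℂ ℂ) +
        Ψ q.2 • (fderiv ℝ f q.1).comp (ContinuousLinearMap.fst ℝ ℂ ℂ) := by
    funext q
    have h1 : HasFDerivAt (fun q : ℂ × ℂ => f q.1)
        ((fderiv ℝ f q.1).comp (ContinuousLinearMap.fst ℝ ℂ ℂ)) q :=
      ((hf.differentiable (by norm_num)) q.1).hasFDerivAt.comp q hasFDerivAt_fst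
    have h2 : HasFDerivAt (fun q : ℂ × ℂ => Ψ q.2)
        ((fderiv ℝ Ψ q.2).comp (ContinuousLinearMap.snd ℝ ℂ ℂ)) q :=
      ((hΨ.differentiable (by norm_num)) q.2).hasFDerivAt.comp q hasFDerivAt_snd
    exact (h1.mul h2).fderiv
  have hpt : ∀ t, ∑ i, fderiv ℝ (fun q : ℂ × ℂ => f q.1 * Ψ q.2) (t, s t i) (u, A t i u) =
      f t * GG s A Ψ t u + fderiv ℝ f t u * FF s Ψ t := by
    intro t
    rw [GG_apply, FF, Finset.mul_sum, Finset.mul_sum, ← Finset.sum_add_distrib]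
    refine Finset.sum_congr rfl fun i _ => ?_
    rw [hfd]
    simp only [_root_.add_apply, _root_.smul_apply,
      ContinuousLinearMap.comp_apply, ContinuousLinearMap.coe_snd', ContinuousLinearMap.coe_fst',
      smul_eq_mul]
    ring
  simp_rw [hpt] at key
  have hz1 : ∀ t ∉ tsupport f, f t = 0 := fun t ht => image_eq_zero_of_notMem_tsupport ht
  have hz2 : ∀ t ∉ tsupport f, fderiv ℝ f t u = 0 := by
    intro t ht
    have h1 : t ∉ tsupport (fderiv ℝ f) := fun h => ht (tsupport_fderiv_subset ℝ h)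
    rw [image_eq_zero_of_notMem_tsupport h1]
    rfl
  obtain ⟨C, hC0, hC⟩ := exists_bd Mb hΨ
  -- integrability
  have hI1 : Integrable (fun t => fderiv ℝ f t u * FF s Ψ t) := by
    have h1 : Continuous fun t => fderiv ℝ f t u :=
      (hf.continuous_fderiv (by norm_num)).clm_apply continuous_const
    have h2 : HasCompactSupport fun t => fderiv ℝ f t u := hfc.fderiv_apply (𝕜 := ℝ) u
    have h3 := (h1.integrable_of_hasCompactSupport h2 (μ := volume)).norm.mul_const (k * C)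
    refine Integrable.mono' h3
      (h1.measurable.mul (FF_meas hw.smeas hΨ.continuous)).aestronglyMeasurable
      (Eventually.of_forall fun t => ?_)
    rw [norm_mul]
    exact mul_le_mul_of_nonneg_left (FF_le hw.bdd (fun w hw => (hC w hw).1) t) (norm_nonneg _)
  obtain ⟨Cf, hCf⟩ := hfc.exists_bound_of_continuous hf.continuous
  have hI2 : Integrable (fun t => f t * GG s A Ψ t u) := by
    have h0 : IntegrableOn (fun t => f t * GG s A Ψ t u) (ball c R) := by
      have h1 := (sumA_int hw.Ameas hw.eint).const_mul (Cf * (C * ‖u‖))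
      refine Integrable.mono' h1 ?_ (Eventually.of_forall fun t => ?_)
      · refine (hf.continuous.measurable.mul ?_).aestronglyMeasurable
        exact (ContinuousLinearMap.apply ℝ ℝ u).continuous.measurable.comp
          (GG_meas hw.smeas hw.Ameas hΨ)
      · rw [norm_mul]
        have h2 := (GG s A Ψ t).le_opNorm u
        have h3 := GG_le (A := A) hw.bdd (fun w hw => (hC w hw).2) t
        calc ‖f t‖ * ‖GG s A Ψ t u‖ ≤ Cf * ((C * ∑ i, ‖A t i‖) * ‖u‖) := by
              refine mul_le_mul (hCf t) (h2.trans ?_) (norm_nonneg _)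
                ((norm_nonneg _).trans (hCf t))
              exact mul_le_mul_of_nonneg_right h3 (norm_nonneg _)
          _ = Cf * (C * ‖u‖) * ∑ i, ‖A t i‖ := by ring
    rwa [integrableOn_iff_integrable_of_support_subset] at h0
    intro t ht
    by_contra hcon
    have : t ∉ tsupport f := fun h => hcon (hsub (hfs h))
    exact ht (by simp [hz1 t this])
  rw [setIntegral_eq_integral_of_forall_compl_eq_zero] at key
  · rw [integral_add hI2 hI1] at key
    rw [setIntegral_eq_integral_of_forall_compl_eq_zero,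
      setIntegral_eq_integral_of_forall_compl_eq_zero]
    · linarith
    · intro t ht
      rw [hz1 t fun h => ht (hfs h), zero_mul]
    · intro t ht
      rw [hz2 t fun h => ht (hfs h), zero_mul]
  · intro t ht
    have h1 : t ∉ tsupport f := fun h => ht (hsub (hfs h))
    rw [hz1 t h1, hz2 t h1]
    ring

theorem y_int {x y : ℝ → Fin k → ℂ} (hx : ∀ i, Measurable fun φ => x φ i)
    (hy : ∀ i, Measurable fun φ => y φ i) (hb : ∀ φ i, ‖x φ i‖ ≤ Mb)
    (hyi : IntegrableOn (fun φ => ∑ i, ‖y φ i‖) (Ioc (-Real.pi) Real.pi)) {Ψ : ℂ → ℝ}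
    (hΨ : ContDiff ℝ ∞ Ψ) :
    IntegrableOn (fun φ => ∑ i, fderiv ℝ Ψ (x φ i) (y φ i)) (Ioc (-Real.pi) Real.pi) := by
  obtain ⟨C, hC0, hC⟩ := exists_bd Mb hΨ
  refine Integrable.mono' (hyi.const_mul C) ?_ (Eventually.of_forall fun φ => ?_)
  · refine (Finset.measurable_sum _ fun i _ => ?_).aestronglyMeasurable
    have h1 : Measurable fun φ => fderiv ℝ Ψ (x φ i) :=
      (hΨ.continuous_fderiv (by norm_num)).measurable.comp (hx i)
    have h2 : Continuous fun q : (ℂ →L[ℝ] ℝ) × ℂ => q.1 q.2 := by fun_prop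
    exact h2.measurable.comp (h1.prodMk (hy i))
  · rw [Finset.mul_sum]
    refine (norm_sum_le _ _).trans (Finset.sum_le_sum fun i _ => ?_)
    exact ((fderiv ℝ Ψ (x φ i)).le_opNorm _).trans (mul_le_mul_of_nonneg_right
      (hC _ (mem_closedBall_zero_iff.2 (hb φ i))).2 (norm_nonneg _))

theorem est {x y : ℝ → Fin k → ℂ} (hx : ∀ i, Measurable fun φ => x φ i)
    (hy : ∀ i, Measurable fun φ => y φ i) (hb : ∀ φ i, ‖x φ i‖ ≤ Mb)
    (hyi : IntegrableOn (fun φ => ∑ i, ‖y φ i‖) (Ioc (-Real.pi) Real.pi)) {Ψ Ψ' : ℂ → ℝ}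
    (hΨ : ContDiff ℝ ∞ Ψ) (hΨ' : ContDiff ℝ ∞ Ψ') {ε : ℝ} (hε : 0 < ε)
    (h : ∀ w ∈ closedBall (0 : ℂ) Mb, ‖fderiv ℝ Ψ w - fderiv ℝ Ψ' w‖ ≤ ε) {a b : ℝ}
    (ha : a ∈ Icc (-Real.pi) Real.pi) (hb' : b ∈ Icc (-Real.pi) Real.pi) :
    |(∫ φ in a..b, ∑ i, fderiv ℝ Ψ (x φ i) (y φ i)) -
      ∫ φ in a..b, ∑ i, fderiv ℝ Ψ' (x φ i) (y φ i)| ≤
      ε * ∫ φ in Ioc (-Real.pi) Real.pi, ∑ i, ‖y φ i‖ := by
  have hsub : uIoc a b ⊆ Ioc (-Real.pi) Real.pi := by
    intro t ht
    rw [uIoc, mem_Ioc] at ht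
    exact ⟨(le_inf ha.1 hb'.1).trans_lt ht.1, ht.2.trans (sup_le ha.2 hb'.2)⟩
  have hI : ∀ {Φ : ℂ → ℝ}, ContDiff ℝ ∞ Φ →
      IntervalIntegrable (fun φ => ∑ i, fderiv ℝ Φ (x φ i) (y φ i)) volume a b := fun hΦ =>
    intervalIntegrable_iff.2 ((y_int hx hy hb hyi hΦ).mono_set hsub)
  rw [← intervalIntegral.integral_sub (hI hΨ) (hI hΨ'), ← Real.norm_eq_abs,
    ← integral_const_mul]
  refine intervalIntegral.norm_integral_le_integral_norm_uIoc.trans ?_
  have h1 : ∀ φ, ‖(∑ i, fderiv ℝ Ψ (x φ i) (y φ i)) - ∑ i, fderiv ℝ Ψ' (x φ i) (y φ i)‖ ≤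
      ε * ∑ i, ‖y φ i‖ := by
    intro φ
    rw [← Finset.sum_sub_distrib, Finset.mul_sum]
    refine (norm_sum_le _ _).trans (Finset.sum_le_sum fun i _ => ?_)
    rw [← _root_.sub_apply]
    exact ((fderiv ℝ Ψ (x φ i) - fderiv ℝ Ψ' (x φ i)).le_opNorm _).trans
      (mul_le_mul_of_nonneg_right (h _ (mem_closedBall_zero_iff.2 (hb φ i))) (norm_nonneg _))
  have h2 : IntegrableOn (fun φ => ε * ∑ i, ‖y φ i‖) (Ioc (-Real.pi) Real.pi) :=
    hyi.const_mul ε
  calc ∫ φ in uIoc a b, ‖(∑ i, fderiv ℝ Ψ (x φ i) (y φ i)) -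
        ∑ i, fderiv ℝ Ψ' (x φ i) (y φ i)‖
      ≤ ∫ φ in uIoc a b, ε * ∑ i, ‖y φ i‖ :=
        integral_mono_of_nonneg (Eventually.of_forall fun φ => norm_nonneg _)
          (h2.mono_set hsub) (Eventually.of_forall h1)
    _ ≤ ∫ φ in Ioc (-Real.pi) Real.pi, ε * ∑ i, ‖y φ i‖ := by
        refine setIntegral_mono_set h2 (Eventually.of_forall fun φ => ?_) hsub.eventuallyLE
        exact mul_nonneg hε.le (Finset.sum_nonneg fun i _ => norm_nonneg _)

theorem wcur_of {x y : ℝ → Fin k → ℂ} (hx : ∀ i, Measurable fun φ => x φ i)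
    (hy : ∀ i, Measurable fun φ => y φ i) (hb : ∀ φ i, ‖x φ i‖ ≤ Mb)
    (hyi : IntegrableOn (fun φ => ∑ i, ‖y φ i‖) (Ioc (-Real.pi) Real.pi)) (Ψ : ℕ → ℂ → ℝ)
    (hΨ : ∀ n, ContDiff ℝ ∞ (Ψ n))
    (hd : ∀ Φ : ℂ → ℝ, ContDiff ℝ ∞ Φ → ∀ ε > 0, ∃ n, ∀ w ∈ closedBall (0 : ℂ) Mb,
      |Φ w - Ψ n w| ≤ ε ∧ ‖fderiv ℝ Φ w - fderiv ℝ (Ψ n) w‖ ≤ ε)
    (hac : ∀ n, ∀ᵐ φ₁ : ℝ ∂(volume.restrict (Ioc (-Real.pi) Real.pi)),
      ∀ᵐ φ₂ : ℝ ∂(volume.restrict (Ioc (-Real.pi) Real.pi)),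
      ∑ i, Ψ n (x φ₂ i) - ∑ i, Ψ n (x φ₁ i) =
        ∫ φ in φ₁..φ₂, ∑ i, fderiv ℝ (Ψ n) (x φ i) (y φ i))
    (hper : ∀ n, ∫ φ in (-Real.pi)..Real.pi, ∑ i, fderiv ℝ (Ψ n) (x φ i) (y φ i) = 0) :
    WCur k x y := by
  have hpi : -Real.pi ≤ Real.pi := by linarith [Real.pi_pos]
  set Y := ∫ φ in Ioc (-Real.pi) Real.pi, ∑ i, ‖y φ i‖ with hY
  have hY0 : 0 ≤ Y := integral_nonneg fun φ => Finset.sum_nonneg fun i _ => norm_nonneg _
  have hfin : ∀ d : ℝ, (∀ ε > 0, |d| ≤ ε * (2 * k + Y)) → d = 0 := by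
    intro d hd
    by_contra hne
    have h1 : 0 < |d| := abs_pos.2 hne
    have h2 : 0 < 2 * (k : ℝ) + Y + 1 := by positivity
    have h3 := hd (|d| / (2 * k + Y + 1)) (by positivity)
    have h4 : |d| / (2 * k + Y + 1) * (2 * k + Y) < |d| := by
      rw [div_mul_eq_mul_div, div_lt_iff₀ h2]
      nlinarith
    linarith
  refine ⟨hx, hy, ⟨Mb, hb⟩, fun i => ?_, ?_, ?_⟩
  · refine Integrable.mono' hyi (hy i).norm.aestronglyMeasurable (Eventually.of_forall fun φ => ?_)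
    rw [norm_norm]
    exact Finset.single_le_sum (f := fun i => ‖y φ i‖) (fun i _ => norm_nonneg _)
      (Finset.mem_univ i)
  · filter_upwards [ae_all_iff.2 hac, ae_restrict_mem measurableSet_Ioc] with φ₁ h1 hφ₁
    filter_upwards [ae_all_iff.2 h1, ae_restrict_mem measurableSet_Ioc] with φ₂ h2 hφ₂
    intro Φ hΦ
    rw [← sub_eq_zero]
    refine hfin _ fun ε hε => ?_
    obtain ⟨n, hn⟩ := hd Φ hΦ ε hε
    have h3 := est hx hy hb hyi hΦ (hΨ n) hε (fun w hw => (hn w hw).2)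
      (Ioc_subset_Icc_self hφ₁) (Ioc_subset_Icc_self hφ₂)
    have h4 : ∀ φ, |∑ i, Φ (x φ i) - ∑ i, Ψ n (x φ i)| ≤ k * ε := by
      intro φ
      rw [← Finset.sum_sub_distrib]
      refine (Finset.abs_sum_le_sum_abs _ _).trans ?_
      refine (Finset.sum_le_sum fun i _ => (hn _ (mem_closedBall_zero_iff.2 (hb φ i))).1).trans ?_
      simp
    have h5 := h4 φ₁
    have h6 := h4 φ₂
    have h7 := h2 n
    rw [abs_le] at h3 h5 h6 ⊢
    constructor <;> nlinarith [h3.1, h3.2, h5.1, h5.2, h6.1, h6.2]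
  · intro Φ hΦ
    refine hfin _ fun ε hε => ?_
    obtain ⟨n, hn⟩ := hd Φ hΦ ε hε
    have h3 := est hx hy hb hyi hΦ (hΨ n) hε (fun w hw => (hn w hw).2)
      (left_mem_Icc.2 hpi) (right_mem_Icc.2 hpi)
    rw [hper n, sub_zero] at h3
    refine h3.trans ?_
    have : (0 : ℝ) ≤ ε * (2 * k) := by positivity
    nlinarith

/-- **Leaf SLICE.** -/
theorem slice_of (hS : SEP) (hP : POLAR) (hP0 : POLAR0) (μ β : ℂ × ℂ → ℂ) (c : ℂ) (R : ℝ) (k : ℕ)
    (s : ℂ → Fin k → ℂ) (A : ℂ → Fin k → (ℂ →L[ℝ] ℂ)) (ma : Measure ℂ) (K c0 Mb : ℝ) :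
    SLICE μ β c R k s A ma K c0 Mb := by
  intro hw p r0 hsub
  by_cases hr0 : 0 < r0
  swap
  · rw [Ioo_eq_empty (by simpa using hr0), Measure.restrict_empty]
    exact ae_zero.symm ▸ trivial
  obtain ⟨Ψ, hΨ, hdense⟩ := hS Mb
  have hbd : ∀ n, ∃ M, ∀ t, |FF s (Ψ n) t| ≤ M := fun n => by
    obtain ⟨C, hC0, hC⟩ := exists_bd Mb (hΨ n)
    exact ⟨_, FF_le hw.bdd (fun w hw => (hC w hw).1)⟩
  choose M hM using hbd
  have hn := fun n => hP p r0 (M n) (FF s (Ψ n)) (GG s A (Ψ n)) hr0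
    (FF_meas hw.smeas (hΨ n).continuous) (GG_meas hw.smeas hw.Ameas (hΨ n)) (hM n)
    ((GG_sq_int hw.bdd hw.smeas hw.Ameas hw.eint (hΨ n)).mono_set hsub) (weak1 hw hsub (hΨ n))
  have h0n := fun n => hP0 p r0 (M n) (FF s (Ψ n)) (GG s A (Ψ n)) hr0
    (FF_meas hw.smeas (hΨ n).continuous) (GG_meas hw.smeas hw.Ameas (hΨ n)) (hM n)
    ((GG_sq_int hw.bdd hw.smeas hw.Ameas hw.eint (hΨ n)).mono_set hsub) (weak1 hw hsub (hΨ n))
  have hA : ∀ᵐ r : ℝ ∂(volume.restrict (Ioo 0 r0)),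
      IntegrableOn (fun φ : ℝ => ∑ i, ‖A (p + r * exp (φ * I)) i‖) (Ioc (-Real.pi) Real.pi) := by
    set F : ℂ → ℝ≥0∞ := (ball p r0).indicator fun t => ENNReal.ofReal (∑ i, ‖A t i‖) with hF
    have hFm : Measurable F :=
      ((sumA_meas hw.Ameas).ennreal_ofReal).indicator measurableSet_ball
    have hFi : ∫⁻ z, F z ≠ ⊤ := by
      rw [hF, lintegral_indicator measurableSet_ball]
      have h1 := ((sumA_int hw.Ameas hw.eint).mono_set hsub).2
      have h2 : ∫⁻ t in ball p r0, ‖(∑ i, ‖A t i‖ : ℝ)‖ₑ =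
          ∫⁻ t in ball p r0, ENNReal.ofReal (∑ i, ‖A t i‖) := by
        refine lintegral_congr fun t => ?_
        rw [← ofReal_norm, Real.norm_of_nonneg
          (Finset.sum_nonneg fun i _ => norm_nonneg _)]
      rw [← h2]
      exact (hasFiniteIntegral_iff_enorm.1 h1).ne
    have h1 := ae_restrict_of_ae_restrict_of_subset (s := Ioo 0 r0) Ioo_subset_Ioi_self
      (KGL2_52.fin_prod hFm hFi p).1
    filter_upwards [h1, ae_restrict_mem measurableSet_Ioo] with r h2 hr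
    rw [integrableOn_Ioc_iff_integrableOn_Ioo]
    have hmeas : Measurable fun φ : ℝ => ∑ i, ‖A (p + r * exp (φ * I)) i‖ :=
      (sumA_meas hw.Ameas).comp (by fun_prop)
    refine ⟨hmeas.aestronglyMeasurable, ?_⟩
    rw [hasFiniteIntegral_iff_enorm]
    have h3 : ∀ φ : ℝ, ENNReal.ofReal r * F (KGL2_52.pt p r φ) =
        ENNReal.ofReal r * ‖(∑ i, ‖A (p + r * exp (φ * I)) i‖ : ℝ)‖ₑ := by
      intro φ
      have h4 : KGL2_52.pt p r φ ∈ ball p r0 := by
        rw [mem_ball, dist_eq_norm, KGL2_52.norm_pt_sub p hr.1.le]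
        exact hr.2
      rw [hF, indicator_of_mem h4, ← ofReal_norm, Real.norm_of_nonneg
        (Finset.sum_nonneg fun i _ => norm_nonneg _)]
      rfl
    simp_rw [h3] at h2
    rw [lintegral_const_mul _ hmeas.enorm] at h2
    by_contra hcon
    rw [not_lt, top_le_iff] at hcon
    rw [hcon, ENNReal.mul_top (ENNReal.ofReal_pos.2 hr.1).ne'] at h2
    exact lt_irrefl _ h2
  filter_upwards [ae_all_iff.2 hn, ae_all_iff.2 h0n, hA, ae_restrict_mem measurableSet_Ioo]
    with r h1 h2 h3 hr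
  have hγ : Measurable fun φ : ℝ => p + (r : ℂ) * exp (φ * I) := by fun_prop
  have hy : ∀ i, Measurable fun φ : ℝ => A (p + r * exp (φ * I)) i (I * (r * exp (φ * I))) := by
    intro i
    have h4 : Continuous fun q : (ℂ →L[ℝ] ℂ) × ℂ => q.1 q.2 := by fun_prop
    exact h4.measurable.comp (((hw.Ameas i).comp hγ).prodMk (by fun_prop))
  have hyi : IntegrableOn (fun φ : ℝ => ∑ i, ‖A (p + r * exp (φ * I)) i (I * (r * exp (φ * I)))‖)
      (Ioc (-Real.pi) Real.pi) := by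
    refine Integrable.mono' (h3.mul_const r)
      (Finset.measurable_sum _ fun i _ => (hy i).norm).aestronglyMeasurable
      (Eventually.of_forall fun φ => ?_)
    rw [Real.norm_of_nonneg (Finset.sum_nonneg fun i _ => norm_nonneg _), Finset.sum_mul]
    refine Finset.sum_le_sum fun i _ => ?_
    refine ((A (p + r * exp (φ * I)) i).le_opNorm _).trans_eq ?_
    rw [norm_mul, norm_I, one_mul, norm_mul, norm_exp_ofReal_mul_I, mul_one, Complex.norm_real,
      Real.norm_of_nonneg hr.1.le]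
  refine wcur_of (Mb := Mb) (fun i => (hw.smeas i).comp hγ) hy (fun φ i => hw.bdd _ i) hyi Ψ hΨ
    hdense (fun n => ?_) (fun n => ?_)
  · filter_upwards [(h1 n).2] with φ₁ h4
    filter_upwards [h4] with φ₂ h5
    simpa only [FF, GG_apply] using h5
  · simpa only [GG_apply] using h2 n

end

end Crest.Agent.R235.WKSlice_659
end

-- ▼ part R235/WKBall_463
section

set_option autoImplicit false

open MeasureTheory Metric Set Filter Complex
open scoped ContDiff Topology ComplexConjugate ENNReal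

namespace Crest.Agent.R235.WKBall_463

open Crest.Agent.R235.Loc Crest.Agent.R235.WKG_460

noncomputable section

/-- polar point -/
def pt (p : ℂ) (z : ℝ × ℝ) : ℂ := p + z.1 * exp (z.2 * I)

theorem pt_cont (p : ℂ) : Continuous (pt p) := by
  unfold pt; fun_prop

theorem pt_eq (p : ℂ) (z : ℝ × ℝ) : pt p z = p + Complex.polarCoord.symm z := by
  rw [Complex.polarCoord_symm_apply, pt, Complex.exp_mul_I]
  push_cast
  ring

/-- the polar measure space -/
def PM : Measure (ℝ × ℝ) :=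
  ((volume : Measure ℝ).restrict (Ioi 0)).prod ((volume : Measure ℝ).restrict (Ioo (-Real.pi) Real.pi))

theorem PM_eq : PM = (volume : Measure (ℝ × ℝ)).restrict polarCoord.target := by
  rw [PM, Measure.prod_restrict, polarCoord_target, Measure.volume_eq_prod]

theorem polar_int (p : ℂ) (f : ℂ → ℝ) (hf : Measurable f) (hi : Integrable f) :
    Integrable (fun z : ℝ × ℝ => z.1 * f (pt p z)) PM ∧
      ∫ t, f t = ∫ z, z.1 * f (pt p z) ∂PM := by
  constructor
  · refine ⟨?_, ?_⟩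
    · exact (measurable_fst.mul (hf.comp (pt_cont p).measurable)).aestronglyMeasurable
    · rw [hasFiniteIntegral_iff_enorm]
      have h1 := Complex.lintegral_comp_polarCoord_symm (fun t => ‖f (p + t)‖ₑ)
      have h2 : ∫⁻ t, ‖f (p + t)‖ₑ = ∫⁻ t, ‖f t‖ₑ :=
        lintegral_add_left_eq_self (fun t => ‖f t‖ₑ) p
      have h3 : ∫⁻ z, ‖z.1 * f (pt p z)‖ₑ ∂PM = ∫⁻ t, ‖f t‖ₑ := by
        rw [← h2, ← h1, PM_eq]
        refine setLIntegral_congr_fun polarCoord.open_target.measurableSet fun z hz => ?_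
        rw [polarCoord_target] at hz
        have hz0 : 0 < z.1 := hz.1
        simp only [smul_eq_mul]
        rw [enorm_mul, pt_eq, Real.enorm_eq_ofReal hz0.le]
      rw [h3]
      exact hi.2
  · rw [PM_eq]
    have h1 := Complex.integral_comp_polarCoord_symm (fun t => f (p + t))
    rw [integral_add_left_eq_self f p] at h1
    rw [← h1]
    refine setIntegral_congr_fun polarCoord.open_target.measurableSet fun z hz => ?_
    simp only [smul_eq_mul]
    rw [pt_eq]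

/-- Lebesgue points against an approximate identity. -/
theorem lebpt (J : ℝ → ℝ) (hJ : Integrable J) : ∀ᵐ r : ℝ, ∀ (δ : ℕ → ℝ), (∀ n, 0 < δ n) →
    Tendsto δ atTop (𝓝 0) → ∀ (w : ℕ → ℝ → ℝ) (M : ℝ), (∀ n, Measurable (w n)) →
    (∀ n x, |w n x| ≤ M / δ n) → (∀ n x, x ∉ closedBall r (δ n) → w n x = 0) →
    (∀ n, ∫ x, w n x = 1) → Tendsto (fun n => ∫ x, w n x * J x) atTop (𝓝 (J r)) := by
  filter_upwards [IsUnifLocDoublingMeasure.ae_tendsto_average_norm_sub (μ := (volume : Measure ℝ))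
    hJ.locallyIntegrable 1] with r hr δ hδ0 hδ w M hwm hwb hws hw1
  have h1 := hr (fun _ : ℕ => r) δ (tendsto_nhdsWithin_iff.2 ⟨hδ, Eventually.of_forall hδ0⟩)
    (Eventually.of_forall fun n => by simp [(hδ0 n).le])
  have hwi : ∀ n, Integrable (w n) := by
    intro n
    refine IntegrableOn.integrable_of_forall_notMem_eq_zero (s := closedBall r (δ n)) ?_ (hws n)
    refine Measure.integrableOn_of_bounded (M := M / δ n) measure_closedBall_lt_top.ne
      (hwm n).aestronglyMeasurable (Eventually.of_forall fun x => ?_)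
    rw [Real.norm_eq_abs]; exact hwb n x
  have hwJ : ∀ n, Integrable (fun x => w n x * J x) := fun n =>
    hJ.bdd_mul (c := M / δ n) (hwm n).aestronglyMeasurable
      (Eventually.of_forall fun x => by rw [Real.norm_eq_abs]; exact hwb n x)
  have hkey : ∀ n, |(∫ x, w n x * J x) - J r| ≤
      2 * M * ⨍ y in closedBall r (δ n), ‖J y - J r‖ := by
    intro n
    have hM : 0 ≤ M / δ n := (abs_nonneg _).trans (hwb n r)
    have hint : IntegrableOn (fun y => ‖J y - J r‖) (closedBall r (δ n)) :=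
      (hJ.integrableOn.sub (integrableOn_const (measure_closedBall_lt_top.ne))).norm
    have e1 : (∫ x, w n x * J x) - J r = ∫ x, w n x * (J x - J r) := by
      have : (∫ x, w n x * (J x - J r)) = (∫ x, w n x * J x) - ∫ x, w n x * J r := by
        rw [← integral_sub (hwJ n) ((hwi n).mul_const _)]
        refine integral_congr_ae (Eventually.of_forall fun x => ?_)
        simp only; ring
      rw [this, integral_mul_const, hw1 n, one_mul]
    have e2 : (∫ x, w n x * (J x - J r)) = ∫ x in closedBall r (δ n), w n x * (J x - J r) := by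
      rw [setIntegral_eq_integral_of_forall_compl_eq_zero]
      intro x hx
      rw [hws n x hx, zero_mul]
    rw [e1, e2, setAverage_eq]
    have hv : (volume : Measure ℝ).real (closedBall r (δ n)) = 2 * δ n := by
      rw [measureReal_def, Real.volume_closedBall, ENNReal.toReal_ofReal]
      have := hδ0 n; positivity
    calc |∫ x in closedBall r (δ n), w n x * (J x - J r)|
        ≤ ∫ x in closedBall r (δ n), M / δ n * ‖J x - J r‖ := by
          rw [← Real.norm_eq_abs]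
          refine norm_integral_le_of_norm_le (hint.const_mul _) (Eventually.of_forall fun x => ?_)
          rw [norm_mul]
          exact mul_le_mul_of_nonneg_right (by rw [Real.norm_eq_abs]; exact hwb n x) (norm_nonneg _)
      _ = M / δ n * ∫ x in closedBall r (δ n), ‖J x - J r‖ := integral_const_mul _ _
      _ = 2 * M * ((volume : Measure ℝ).real (closedBall r (δ n)))⁻¹ •
            ∫ x in closedBall r (δ n), ‖J x - J r‖ := by
          rw [hv, smul_eq_mul]
          have := (hδ0 n).ne'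
          field_simp
      _ = _ := by simp only [smul_eq_mul]
  have h2 : Tendsto (fun n => 2 * M * ⨍ y in closedBall r (δ n), ‖J y - J r‖) atTop (𝓝 0) := by
    simpa using h1.const_mul (2 * M)
  rw [← tendsto_sub_nhds_zero_iff]
  exact squeeze_zero_norm (fun n => by rw [Real.norm_eq_abs]; exact hkey n) h2

/-- a bound for the derivative of the smooth transition -/
theorem exists_M : ∃ M : ℝ, 0 ≤ M ∧ (∀ x, |deriv Real.smoothTransition x| ≤ M) ∧
    (∀ x, x < 0 → deriv Real.smoothTransition x = 0) ∧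
    (∀ x, 1 < x → deriv Real.smoothTransition x = 0) := by
  have h0 : ∀ x, x < 0 → deriv Real.smoothTransition x = 0 := by
    intro x hx
    have : Real.smoothTransition =ᶠ[𝓝 x] fun _ => 0 := by
      filter_upwards [Iio_mem_nhds hx] with y hy
      exact Real.smoothTransition.zero_of_nonpos (le_of_lt hy)
    rw [this.deriv_eq]; simp
  have h1 : ∀ x, 1 < x → deriv Real.smoothTransition x = 0 := by
    intro x hx
    have : Real.smoothTransition =ᶠ[𝓝 x] fun _ => 1 := by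
      filter_upwards [Ioi_mem_nhds hx] with y hy
      exact Real.smoothTransition.one_of_one_le (le_of_lt hy)
    rw [this.deriv_eq]; simp
  have hc : Continuous (deriv Real.smoothTransition) :=
    (Real.smoothTransition.contDiff (n := 1)).continuous_deriv le_rfl
  obtain ⟨M, hM⟩ := (isCompact_Icc (a := (0:ℝ)) (b := 1)).exists_bound_of_continuousOn
    hc.continuousOn
  refine ⟨max M 0, le_max_right _ _, fun x => ?_, h0, h1⟩
  by_cases hx : x ∈ Icc (0:ℝ) 1
  · exact (hM x hx).trans (le_max_left _ _)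
  · rw [mem_Icc, not_and_or, not_le, not_le] at hx
    rcases hx with hx | hx
    · rw [h0 x hx]; simp
    · rw [h1 x hx]; simp

/-- radial cut-off -/
def chi (p : ℂ) (a b : ℝ) (t : ℂ) : ℝ :=
  Real.smoothTransition ((b ^ 2 - ‖t - p‖ ^ 2) / (b ^ 2 - a ^ 2))

/-- the radial weight -/
def wt (a b : ℝ) : ℝ → ℝ := (Icc a b).indicator fun ρ =>
  2 * ρ * deriv Real.smoothTransition ((b ^ 2 - ρ ^ 2) / (b ^ 2 - a ^ 2)) / (b ^ 2 - a ^ 2)

theorem chi_smooth (p : ℂ) (a b : ℝ) : ContDiff ℝ ∞ (chi p a b) := by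
  refine Real.smoothTransition.contDiff.comp ?_
  refine ContDiff.div_const (contDiff_const.sub ?_) _
  exact (contDiff_id.sub contDiff_const).norm_sq ℝ

theorem chi_nonneg (p : ℂ) (a b : ℝ) (t : ℂ) : 0 ≤ chi p a b t := Real.smoothTransition.nonneg _

theorem chi_le_one (p : ℂ) (a b : ℝ) (t : ℂ) : chi p a b t ≤ 1 := Real.smoothTransition.le_one _

theorem dS_cont : Continuous (deriv Real.smoothTransition) :=
  (Real.smoothTransition.contDiff (n := 1)).continuous_deriv le_rfl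

theorem wt_meas (a b : ℝ) : Measurable (wt a b) := by
  refine Measurable.indicator (Continuous.measurable ?_) measurableSet_Icc
  have := dS_cont
  fun_prop

section
variable (p : ℂ) {a b : ℝ} (ha : 0 < a) (hab : a < b)
include ha hab

theorem den_pos : 0 < b ^ 2 - a ^ 2 := by nlinarith

theorem wt_bound {M : ℝ} (hM : ∀ x, |deriv Real.smoothTransition x| ≤ M) (ρ : ℝ) :
    |wt a b ρ| ≤ 2 * M / (b - a) := by
  have h := den_pos ha hab
  have hM0 : 0 ≤ M := (abs_nonneg _).trans (hM 0)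
  have hba : 0 < b - a := by linarith
  by_cases hρ : ρ ∈ Icc a b
  · rw [wt, indicator_of_mem hρ, abs_div, abs_of_pos h, abs_mul, abs_mul, abs_of_pos (two_pos (α := ℝ)),
      abs_of_pos (ha.trans_le hρ.1), div_le_div_iff₀ h hba]
    have h1 := hM ((b ^ 2 - ρ ^ 2) / (b ^ 2 - a ^ 2))
    have h2 : ρ * |deriv Real.smoothTransition ((b ^ 2 - ρ ^ 2) / (b ^ 2 - a ^ 2))| ≤ (b + a) * M :=
      mul_le_mul (by linarith [hρ.2]) h1 (abs_nonneg _) (by linarith)
    nlinarith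
  · rw [wt, indicator_of_notMem hρ, abs_zero]
    positivity

theorem wt_int : ∫ ρ, wt a b ρ = 1 := by
  have h := den_pos ha hab
  rw [wt, integral_indicator measurableSet_Icc, integral_Icc_eq_integral_Ioc,
    ← intervalIntegral.integral_of_le hab.le]
  have hd : ∀ x ∈ uIcc a b, HasDerivAt
      (fun ρ : ℝ => -Real.smoothTransition ((b ^ 2 - ρ ^ 2) / (b ^ 2 - a ^ 2)))
      (2 * x * deriv Real.smoothTransition ((b ^ 2 - x ^ 2) / (b ^ 2 - a ^ 2)) / (b ^ 2 - a ^ 2))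
      x := by
    intro x _
    have hS : HasDerivAt Real.smoothTransition
        (deriv Real.smoothTransition ((b ^ 2 - x ^ 2) / (b ^ 2 - a ^ 2)))
        ((b ^ 2 - x ^ 2) / (b ^ 2 - a ^ 2)) :=
      ((Real.smoothTransition.contDiff (n := 1)).differentiable (by norm_num) _).hasDerivAt
    have hi : HasDerivAt (fun ρ : ℝ => (b ^ 2 - ρ ^ 2) / (b ^ 2 - a ^ 2))
        (-(2 * x) / (b ^ 2 - a ^ 2)) x := by
      have := (((hasDerivAt_pow 2 x).const_sub (b ^ 2)).div_const (b ^ 2 - a ^ 2))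
      refine this.congr_deriv ?_
      simp
    refine (hS.comp x hi).neg.congr_deriv ?_
    ring
  rw [intervalIntegral.integral_eq_sub_of_hasDerivAt hd]
  · rw [sub_self, zero_div, Real.smoothTransition.zero, div_self h.ne', Real.smoothTransition.one]
    norm_num
  · refine Continuous.intervalIntegrable ?_ _ _
    have := dS_cont
    fun_prop

theorem chi_one {t : ℂ} (ht : ‖t - p‖ ≤ a) : chi p a b t = 1 := by
  have h := den_pos ha hab
  refine Real.smoothTransition.one_of_one_le ?_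
  rw [le_div_iff₀ h]
  nlinarith [norm_nonneg (t - p)]

theorem chi_zero {t : ℂ} (ht : b ≤ ‖t - p‖) : chi p a b t = 0 := by
  have h := den_pos ha hab
  refine Real.smoothTransition.zero_of_nonpos ?_
  refine div_nonpos_of_nonpos_of_nonneg ?_ h.le
  nlinarith [norm_nonneg (t - p)]

theorem chi_supp : tsupport (chi p a b) ⊆ closedBall p b := by
  refine closure_minimal (fun t ht => ?_) isClosed_closedBall
  rw [mem_closedBall, dist_eq_norm]
  by_contra hc
  exact ht (chi_zero p ha hab (le_of_lt (not_le.1 hc)))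

theorem chi_cpt : HasCompactSupport (chi p a b) :=
  (isCompact_closedBall p b).of_isClosed_subset (isClosed_tsupport _) (chi_supp p ha hab)

omit ha hab in
theorem chi_fderiv (a b : ℝ) (t u : ℂ) : fderiv ℝ (chi p a b) t u =
    -(2 * deriv Real.smoothTransition ((b ^ 2 - ‖t - p‖ ^ 2) / (b ^ 2 - a ^ 2)) / (b ^ 2 - a ^ 2)) *
      (conj (t - p) * u).re := by
  have hS : HasDerivAt Real.smoothTransition
      (deriv Real.smoothTransition ((b ^ 2 - ‖t - p‖ ^ 2) / (b ^ 2 - a ^ 2)))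
      ((b ^ 2 - ‖t - p‖ ^ 2) / (b ^ 2 - a ^ 2)) :=
    ((Real.smoothTransition.contDiff (n := 1)).differentiable (by norm_num) _).hasDerivAt
  have hn : HasFDerivAt (fun t : ℂ => ‖t - p‖ ^ 2) (2 • (innerSL ℝ (t - p))) t := by
    have := (hasStrictFDerivAt_norm_sq (t - p)).hasFDerivAt.comp t
      ((hasFDerivAt_id t).sub_const p)
    simpa [Function.comp_def] using this
  have hd : HasFDerivAt (fun t : ℂ => (b ^ 2 - ‖t - p‖ ^ 2) / (b ^ 2 - a ^ 2))
      (((b ^ 2 - a ^ 2)⁻¹ : ℝ) • (-(2 • (innerSL ℝ (t - p))) : ℂ →L[ℝ] ℝ)) t := by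
    have := (hn.const_sub (b ^ 2)).mul_const ((b ^ 2 - a ^ 2)⁻¹)
    simpa [div_eq_mul_inv] using this
  have h := hS.comp_hasFDerivAt t hd
  have h' : HasFDerivAt (chi p a b) _ t := h
  rw [h'.fderiv]
  have hin : (innerSL ℝ (t - p)) u = (conj (t - p) * u).re := by
    rw [innerSL_apply_apply, Complex.inner]
    try rw [mul_comm]
  simp only [ContinuousLinearMap.smul_apply, ContinuousLinearMap.neg_apply, smul_eq_mul,
    nsmul_eq_mul, hin]
  push_cast
  field_simp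

end

variable {μ β : ℂ × ℂ → ℂ} {c : ℂ} {R : ℝ} {k : ℕ} {s : ℂ → Fin k → ℂ}
    {A : ℂ → Fin k → (ℂ →L[ℝ] ℂ)} {ma : Measure ℂ} {K c0 Mb : ℝ}

/-- the angular integrand -/
def gg (s : ℂ → Fin k → ℂ) (A : ℂ → Fin k → (ℂ →L[ℝ] ℂ)) (p t : ℂ) : ℝ :=
  ∑ i, (conj (s t i) * A t i (I * (t - p))).im

theorem gg_eq (p t : ℂ) : gg s A p t = ∑ i, ((t - p).re * (conj (s t i) * A t i I).im -
    (t - p).im * (conj (s t i) * A t i 1).im) := by
  unfold gg
  refine Finset.sum_congr rfl fun i _ => ?_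
  have h1 : I * (t - p) = ((t - p).re : ℝ) • I - ((t - p).im : ℝ) • (1 : ℂ) := by
    apply Complex.ext <;> simp
  rw [h1, map_sub, map_smul, map_smul]
  simp only [Complex.real_smul, Complex.mul_im, Complex.mul_re, Complex.sub_im, Complex.sub_re,
    Complex.ofReal_re, Complex.ofReal_im, Complex.conj_re, Complex.conj_im]
  ring

theorem gg_meas (hW : WKG μ β c R k s A ma K c0 Mb) (p : ℂ) : Measurable (gg s A p) := by
  have : gg s A p = fun t => ∑ i, ((t - p).re * (conj (s t i) * A t i I).im -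
    (t - p).im * (conj (s t i) * A t i 1).im) := funext fun t => gg_eq p t
  rw [this]
  refine Finset.measurable_sum _ fun i _ => ?_
  have h1 := hW.smeas i
  have h2 := (hW.Ameas i).apply_continuousLinearMap I
  have h3 := (hW.Ameas i).apply_continuousLinearMap (1 : ℂ)
  have h4 : Measurable fun t => conj (s t i) := Complex.continuous_conj.measurable.comp h1
  have h5 : Measurable fun t : ℂ => (t - p).re :=
    (Complex.continuous_re.comp (continuous_id.sub continuous_const)).measurable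
  have h6 : Measurable fun t : ℂ => (t - p).im :=
    (Complex.continuous_im.comp (continuous_id.sub continuous_const)).measurable
  exact (h5.mul (Complex.measurable_im.comp (h4.mul h2))).sub
    (h6.mul (Complex.measurable_im.comp (h4.mul h3)))

theorem gg_bound (hW : WKG μ β c R k s A ma K c0 Mb) (p t : ℂ) :
    |gg s A p t| ≤ Mb * (∑ i, ‖A t i‖) * ‖t - p‖ := by
  unfold gg
  refine (Finset.abs_sum_le_sum_abs _ _).trans ?_
  rw [Finset.mul_sum, Finset.sum_mul]
  refine Finset.sum_le_sum fun i _ => ?_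
  have hMb : 0 ≤ Mb := (norm_nonneg _).trans (hW.bdd t i)
  calc |(conj (s t i) * A t i (I * (t - p))).im| ≤ ‖conj (s t i) * A t i (I * (t - p))‖ :=
        Complex.abs_im_le_norm _
    _ = ‖s t i‖ * ‖A t i (I * (t - p))‖ := by rw [norm_mul, RCLike.norm_conj]
    _ ≤ Mb * (‖A t i‖ * ‖t - p‖) := by
        refine mul_le_mul (hW.bdd t i) ?_ (norm_nonneg _) hMb
        refine ((A t i).le_opNorm _).trans_eq ?_
        rw [norm_mul, Complex.norm_I, one_mul]
    _ = _ := by ring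

/-- the integrable density -/
def qq (s : ℂ → Fin k → ℂ) (A : ℂ → Fin k → (ℂ →L[ℝ] ℂ)) (p : ℂ) (r0 : ℝ) : ℂ → ℝ :=
  (ball p r0).indicator fun t => gg s A p t / ‖t - p‖

theorem qq_meas (hW : WKG μ β c R k s A ma K c0 Mb) (p : ℂ) (r0 : ℝ) :
    Measurable (qq s A p r0) := by
  refine Measurable.indicator ((gg_meas hW p).div ?_) measurableSet_ball
  exact (continuous_id.sub continuous_const).norm.measurable

theorem qq_int (hW : WKG μ β c R k s A ma K c0 Mb) {p : ℂ} {r0 : ℝ}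
    (hsub : ball p r0 ⊆ ball c R) : Integrable (qq s A p r0) := by
  unfold qq
  rw [integrable_indicator_iff measurableSet_ball]
  have h1 : IntegrableOn (fun t => Mb * ∑ i, (1 + ‖A t i‖ ^ 2)) (ball p r0) := by
    refine Integrable.const_mul ?_ _
    have h2 : IntegrableOn (fun t => ∑ i, ‖A t i‖ ^ 2) (ball p r0) := hW.eint.mono_set hsub
    have h3 : IntegrableOn (fun _ : ℂ => ∑ _i : Fin k, (1 : ℝ)) (ball p r0) :=
      integrableOn_const measure_ball_lt_top.ne
    have := h3.add h2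
    refine this.congr (Eventually.of_forall fun t => ?_)
    simp only [Pi.add_apply, Finset.sum_add_distrib]
  have hm : AEStronglyMeasurable (fun t => gg s A p t / ‖t - p‖)
      (volume.restrict (ball p r0)) :=
    ((gg_meas hW p).div (continuous_id.sub continuous_const).norm.measurable).aestronglyMeasurable
  refine Integrable.mono' h1 hm (Eventually.of_forall fun t => ?_)
  rw [Real.norm_eq_abs, abs_div, abs_norm]
  have hb := gg_bound hW p t
  have hMb : (∑ i, ‖A t i‖) ≤ ∑ i, (1 + ‖A t i‖ ^ 2) :=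
    Finset.sum_le_sum fun i _ => by nlinarith [sq_nonneg (‖A t i‖ - 1), norm_nonneg (A t i)]
  by_cases hk : k = 0
  · subst hk
    simp [gg]
  have i0 : Fin k := ⟨0, Nat.pos_of_ne_zero hk⟩
  have hMb0 : 0 ≤ Mb := (norm_nonneg _).trans (hW.bdd t i0)
  by_cases h0 : ‖t - p‖ = 0
  · rw [h0, div_zero]
    have : 0 ≤ ∑ i, (1 + ‖A t i‖ ^ 2) := Finset.sum_nonneg fun i _ => by positivity
    positivity
  · have hpos : 0 < ‖t - p‖ := lt_of_le_of_ne (norm_nonneg _) (Ne.symm h0)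
    rw [div_le_iff₀ hpos]
    refine hb.trans ?_
    exact mul_le_mul_of_nonneg_right (mul_le_mul_of_nonneg_left hMb hMb0) hpos.le

/-- the circle integral -/
def JJ (s : ℂ → Fin k → ℂ) (A : ℂ → Fin k → (ℂ →L[ℝ] ℂ)) (p : ℂ) (r0 : ℝ) : ℝ → ℝ :=
  (Ioi 0).indicator fun ρ => ∫ φ in Ioo (-Real.pi) Real.pi, ρ * qq s A p r0 (pt p (ρ, φ))

theorem JJ_int (hW : WKG μ β c R k s A ma K c0 Mb) {p : ℂ} {r0 : ℝ}
    (hsub : ball p r0 ⊆ ball c R) : Integrable (JJ s A p r0) := by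
  unfold JJ
  rw [integrable_indicator_iff measurableSet_Ioi]
  exact (polar_int p _ (qq_meas hW p r0) (qq_int hW hsub)).1.integral_prod_left

theorem JJ_eq {p : ℂ} {r r0 : ℝ} (hr : r ∈ Ioo 0 r0) : JJ s A p r0 r =
    ∫ φ in (-Real.pi)..Real.pi,
      ∑ i, (conj (s (p + r * exp (φ * I)) i) *
        A (p + r * exp (φ * I)) i (I * (r * exp (φ * I)))).im := by
  rw [JJ, indicator_of_mem (mem_Ioi.2 hr.1), intervalIntegral.integral_of_le (by
    linarith [Real.pi_pos]), integral_Ioc_eq_integral_Ioo]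
  refine setIntegral_congr_fun measurableSet_Ioo fun φ _ => ?_
  have hn : ‖pt p (r, φ) - p‖ = r := by
    simp [pt, Complex.norm_exp_ofReal_mul_I, abs_of_pos hr.1]
  have hmem : pt p (r, φ) ∈ ball p r0 := by
    rw [mem_ball, dist_eq_norm, hn]; exact hr.2
  have hr0 : r ≠ 0 := hr.1.ne'
  simp only [qq]
  rw [indicator_of_mem hmem, hn, mul_div_cancel₀ _ hr0]
  simp only [gg, pt, add_sub_cancel_left]

/-- the identity `e2` (works for both readings of the field `e2`; the second alternative is only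
used for the reading in which the last term is inside the integral). -/
theorem e2_cases (hW : WKG μ β c R k s A ma K c0 Mb) (χ : ℂ → ℝ) (h1 : ContDiff ℝ ∞ χ)
    (h2 : HasCompactSupport χ) (h3 : tsupport χ ⊆ ball c R) (h0 : ∀ t, 0 ≤ χ t) :
    (∫ t, χ t ∂ma = k * K * (∫ t, χ t) -
      1 / 2 * ∫ t in ball c R, ∑ i, (fderiv ℝ χ t 1 * (conj (s t i) * A t i I).im -
        fderiv ℝ χ t I * (conj (s t i) * A t i 1).im)) ∨
    ∫ t, χ t ∂ma ≤ k * K * ∫ t, χ t := by
  have he := hW.e2 χ h1 h2 h3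
  have hkK : 0 ≤ (k : ℝ) * K := mul_nonneg (Nat.cast_nonneg _) hW.K0
  have hi : Integrable χ := h1.continuous.integrable_of_hasCompactSupport h2
  first
  | exact Or.inl he
  | (refine Or.inr ?_
     rw [he]
     refine mul_le_mul_of_nonneg_left ?_ hkK
     generalize (1 / 2 * ∫ t in ball c R, ∑ i, (fderiv ℝ χ t 1 * (conj (s t i) * A t i I).im -
        fderiv ℝ χ t I * (conj (s t i) * A t i 1).im) : ℝ) = X
     by_cases hX : X = 0
     · simp [hX]
     · rw [integral_undef]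
       · exact integral_nonneg h0
       · intro hc
         have h4 : Integrable fun _ : ℂ => X := by
           have := hi.sub hc
           refine this.congr (Eventually.of_forall fun t => ?_)
           simp
         rw [integrable_const_iff] at h4
         rcases h4 with h4 | h4
         · exact hX h4
         · have := h4.measure_univ_lt_top
           simp at this)

theorem main (hW : WKG μ β c R k s A ma K c0 Mb) {p : ℂ} {r0 : ℝ}
    (hsub : ball p r0 ⊆ ball c R) {a b : ℝ} (ha : 0 < a) (hab : a < b) (hb : b < r0) :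
    (ma (ball p a)).toReal ≤
      k * K * Real.pi * b ^ 2 + 1 / 2 * |∫ ρ, wt a b ρ * JJ s A p r0 ρ| := by
  have hcb : closedBall p b ⊆ ball c R := (closedBall_subset_ball hb).trans hsub
  have he := e2_cases hW (chi p a b) (chi_smooth p a b) (chi_cpt p ha hab)
    ((chi_supp p ha hab).trans hcb) (chi_nonneg p a b)
  have hb0 : 0 < b := ha.trans hab
  -- left side
  have hL : (ma (ball p a)).toReal ≤ ∫ t, chi p a b t ∂ma := by
    have hfin : ma (closedBall p b) ≠ ⊤ := ne_top_of_le_ne_top hW.mfin (measure_mono hcb)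
    have hi : Integrable (chi p a b) ma := by
      refine IntegrableOn.integrable_of_forall_notMem_eq_zero (s := closedBall p b) ?_ ?_
      · refine Measure.integrableOn_of_bounded (M := 1) hfin
          (chi_smooth p a b).continuous.aestronglyMeasurable (Eventually.of_forall fun t => ?_)
        rw [Real.norm_eq_abs, abs_of_nonneg (chi_nonneg p a b t)]
        exact chi_le_one p a b t
      · intro t ht
        rw [mem_closedBall, not_le, dist_eq_norm] at ht
        exact chi_zero p ha hab ht.le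
    have hfa : ma (ball p a) ≠ ⊤ := ne_top_of_le_ne_top hfin
      (measure_mono ((ball_subset_closedBall).trans (closedBall_subset_closedBall hab.le)))
    have h1 : (ma (ball p a)).toReal = ∫ t, (ball p a).indicator (fun _ => (1 : ℝ)) t ∂ma := by
      rw [integral_indicator measurableSet_ball, setIntegral_const, smul_eq_mul, mul_one,
        measureReal_def]
    rw [h1]
    refine integral_mono ?_ hi fun t => ?_
    · exact (integrable_indicator_iff measurableSet_ball).2 (integrableOn_const hfa)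
    · by_cases ht : t ∈ ball p a
      · rw [indicator_of_mem ht]
        rw [mem_ball, dist_eq_norm] at ht
        rw [chi_one p ha hab ht.le]
      · rw [indicator_of_notMem ht]
        exact chi_nonneg p a b t
  -- the volume term
  have hV : ∫ t, chi p a b t ≤ Real.pi * b ^ 2 := by
    have h1 : ∫ t, (closedBall p b).indicator (fun _ => (1 : ℝ)) t = Real.pi * b ^ 2 := by
      rw [integral_indicator measurableSet_closedBall, setIntegral_const, smul_eq_mul, mul_one,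
        measureReal_def, Complex.volume_closedBall]
      simp [ENNReal.toReal_mul, hb0.le, mul_comm]
    rw [← h1]
    have hi2 : Integrable ((closedBall p b).indicator fun _ => (1 : ℝ)) :=
      (integrable_indicator_iff measurableSet_closedBall).2
        (integrableOn_const measure_closedBall_lt_top.ne)
    refine integral_mono ?_ hi2 fun t => ?_
    · exact (chi_smooth p a b).continuous.integrable_of_hasCompactSupport (chi_cpt p ha hab)
    · by_cases ht : t ∈ closedBall p b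
      · rw [indicator_of_mem ht]
        exact chi_le_one p a b t
      · rw [indicator_of_notMem ht]
        rw [mem_closedBall, not_le, dist_eq_norm] at ht
        exact (chi_zero p ha hab ht.le).le
  -- the boundary term
  have hd := den_pos ha hab
  set D : ℝ → ℝ := fun ρ => 2 * deriv Real.smoothTransition ((b ^ 2 - ρ ^ 2) / (b ^ 2 - a ^ 2)) /
    (b ^ 2 - a ^ 2) with hD
  obtain ⟨M, hM0, hM, hS0, hS1⟩ := exists_M
  have hDc : Continuous D := by
    rw [hD]
    have := dS_cont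
    fun_prop
  have hDz : ∀ ρ, b < ρ → D ρ = 0 := by
    intro ρ hρ
    rw [hD]
    simp only
    rw [hS0 _ (div_neg_of_neg_of_pos (by nlinarith) hd)]
    simp
  have hDz' : ∀ ρ, 0 < ρ → ρ < a → D ρ = 0 := by
    intro ρ h0 hρ
    rw [hD]
    simp only
    rw [hS1 _ ((one_lt_div hd).2 (by nlinarith))]
    simp
  have hDb : ∀ ρ, |D ρ| ≤ 2 * M / (b ^ 2 - a ^ 2) := by
    intro ρ
    rw [hD]
    simp only
    rw [abs_div, abs_mul, abs_of_pos hd, abs_of_pos (two_pos (α := ℝ))]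
    exact div_le_div_of_nonneg_right (mul_le_mul_of_nonneg_left (hM _) two_pos.le) hd.le
  set f : ℂ → ℝ := fun t => min (D ‖t - p‖ * ‖t - p‖) (D ‖t - p‖ * ‖t - p‖) * qq s A p r0 t
    with hf
  have hfm : Measurable f := by
    have h1 : Continuous fun t : ℂ => D ‖t - p‖ * ‖t - p‖ := by fun_prop
    exact (h1.min h1).measurable.mul (qq_meas hW p r0)
  have hfi : Integrable f := by
    refine (qq_int hW hsub).bdd_mul (c := 2 * M / (b ^ 2 - a ^ 2) * b) ?_ ?_
    · have h1 : Continuous fun t : ℂ => D ‖t - p‖ * ‖t - p‖ := by fun_prop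
      exact (h1.min h1).aestronglyMeasurable
    · refine Eventually.of_forall fun t => ?_
      rw [min_self, Real.norm_eq_abs, abs_mul, abs_norm]
      by_cases ht : ‖t - p‖ ≤ b
      · exact mul_le_mul (hDb _) ht (norm_nonneg _) (by positivity)
      · rw [hDz _ (not_le.1 ht), abs_zero, zero_mul]
        positivity
  have hpt : ∀ t ∈ ball c R, ∑ i, (fderiv ℝ (chi p a b) t 1 * (conj (s t i) * A t i I).im -
      fderiv ℝ (chi p a b) t I * (conj (s t i) * A t i 1).im) = - f t := by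
    intro t _
    have e1 : ∑ i, (fderiv ℝ (chi p a b) t 1 * (conj (s t i) * A t i I).im -
      fderiv ℝ (chi p a b) t I * (conj (s t i) * A t i 1).im) = -(D ‖t - p‖) * gg s A p t := by
      rw [gg_eq, Finset.mul_sum]
      refine Finset.sum_congr rfl fun i _ => ?_
      rw [chi_fderiv p, chi_fderiv p]
      simp only [hD, mul_one, Complex.mul_re, Complex.conj_re, Complex.conj_im, Complex.I_re,
        Complex.I_im]
      ring
    rw [e1, hf]
    simp only
    rw [min_self]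
    by_cases ht : t ∈ ball p r0
    · rw [qq, indicator_of_mem ht]
      by_cases h0 : ‖t - p‖ = 0
      · have : t - p = 0 := norm_eq_zero.1 h0
        have hg : gg s A p t = 0 := by
          unfold gg
          rw [this]
          simp
        rw [hg]; simp
      · field_simp
    · rw [qq, indicator_of_notMem ht]
      rw [mem_ball, not_lt, dist_eq_norm] at ht
      rw [hDz _ (hb.trans_le ht)]
      simp
  have hB : ∫ t in ball c R, ∑ i, (fderiv ℝ (chi p a b) t 1 * (conj (s t i) * A t i I).im -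
      fderiv ℝ (chi p a b) t I * (conj (s t i) * A t i 1).im) =
      - ∫ ρ, wt a b ρ * JJ s A p r0 ρ := by
    rw [setIntegral_congr_fun measurableSet_ball hpt, integral_neg,
      setIntegral_eq_integral_of_forall_compl_eq_zero]
    swap
    · intro t ht
      have : t ∉ ball p r0 := fun h => ht (hsub h)
      rw [hf]
      simp only
      rw [qq, indicator_of_notMem this, mul_zero]
    obtain ⟨h1, h2⟩ := polar_int p f hfm hfi
    rw [h2, PM]
    rw [integral_prod _ h1]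
    congr 1
    have h3 : ∀ ρ, wt a b ρ * JJ s A p r0 ρ = (Ioi 0).indicator (fun ρ => wt a b ρ *
        ∫ φ in Ioo (-Real.pi) Real.pi, ρ * qq s A p r0 (pt p (ρ, φ))) ρ := by
      intro ρ
      rw [JJ]
      by_cases hρ : ρ ∈ Ioi (0:ℝ)
      · rw [indicator_of_mem hρ, indicator_of_mem hρ]
      · rw [indicator_of_notMem hρ, indicator_of_notMem hρ, mul_zero]
    rw [integral_congr_ae (Eventually.of_forall h3), integral_indicator measurableSet_Ioi]
    refine setIntegral_congr_ae measurableSet_Ioi ?_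
    have hne : ∀ᵐ ρ : ℝ, ρ ≠ a := by
      rw [ae_iff]; simp
    have hne' : ∀ᵐ ρ : ℝ, ρ ≠ b := by
      rw [ae_iff]; simp
    filter_upwards [hne, hne'] with ρ hna hnb hρ
    have hρ0 : 0 < ρ := hρ
    rw [← integral_const_mul]
    refine setIntegral_congr_fun measurableSet_Ioo fun φ _ => ?_
    have hn : ‖pt p (ρ, φ) - p‖ = ρ := by
      simp [pt, Complex.norm_exp_ofReal_mul_I, abs_of_pos hρ0]
    simp only [hf]
    rw [hn, min_self]
    have hw : wt a b ρ = ρ * D ρ := by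
      by_cases h : ρ ∈ Icc a b
      · rw [wt, indicator_of_mem h, hD]
        simp only
        ring
      · rw [wt, indicator_of_notMem h]
        rw [mem_Icc, not_and_or, not_le, not_le] at h
        rcases h with h | h
        · rw [hDz' ρ hρ0 h, mul_zero]
        · rw [hDz ρ h, mul_zero]
    rw [hw]
    ring
  rw [hB] at he
  have hkK : 0 ≤ (k : ℝ) * K := mul_nonneg (Nat.cast_nonneg _) hW.K0
  have h5 := mul_le_mul_of_nonneg_left hV hkK
  have h6 := abs_nonneg (∫ ρ, wt a b ρ * JJ s A p r0 ρ)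
  have h7 := le_abs_self (∫ ρ, wt a b ρ * JJ s A p r0 ρ)
  rcases he with he | he
  · rw [he] at hL
    nlinarith
  · nlinarith

/-- **C1** (task 302). -/
theorem ball_of (μ β : ℂ × ℂ → ℂ) (c : ℂ) (R : ℝ) (k : ℕ) (s : ℂ → Fin k → ℂ)
    (A : ℂ → Fin k → (ℂ →L[ℝ] ℂ)) (ma : Measure ℂ) (K c0 Mb : ℝ) :
    BALL μ β c R k s A ma K c0 Mb := by
  intro hW p r0 hsub
  obtain ⟨M, hM0, hM, -, -⟩ := exists_M
  filter_upwards [ae_restrict_of_ae (lebpt _ (JJ_int hW hsub)),
    ae_restrict_mem measurableSet_Ioo] with r hr hr2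
  set δ : ℕ → ℝ := fun n => (r0 - r) / (n + 2) with hδ
  have hrr : 0 < r0 - r := by linarith [hr2.2]
  have hδ0 : ∀ n, 0 < δ n := fun n => by rw [hδ]; positivity
  have hδ1 : ∀ n, δ n < r0 - r := by
    intro n
    rw [hδ]
    simp only
    rw [div_lt_iff₀ (by positivity)]
    have : (0 : ℝ) ≤ n := Nat.cast_nonneg n
    nlinarith
  have hδt : Tendsto δ atTop (𝓝 0) := by
    refine tendsto_const_nhds.div_atTop ?_
    exact tendsto_atTop_add_const_right _ _ tendsto_natCast_atTop_atTop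
  have hlim := hr δ hδ0 hδt (fun n => wt r (r + δ n)) (2 * M) (fun n => wt_meas _ _)
    (fun n x => by
      have := wt_bound hr2.1 (b := r + δ n) (by linarith [hδ0 n]) hM x
      rwa [add_sub_cancel_left] at this)
    (fun n x hx => by
      rw [wt, indicator_of_notMem]
      intro h
      apply hx
      rw [mem_closedBall, Real.dist_eq, abs_le]
      constructor <;> linarith [h.1, h.2, hδ0 n])
    (fun n => wt_int hr2.1 (by linarith [hδ0 n]))
  have hlim2 : Tendsto (fun n => k * K * Real.pi * (r + δ n) ^ 2 +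
      1 / 2 * |∫ ρ, wt r (r + δ n) ρ * JJ s A p r0 ρ|) atTop
      (𝓝 (k * K * Real.pi * (r + 0) ^ 2 + 1 / 2 * |JJ s A p r0 r|)) :=
    ((((tendsto_const_nhds.add hδt).pow 2).const_mul _)).add (hlim.abs.const_mul _)
  have hle := ge_of_tendsto' hlim2 fun n =>
    main hW hsub hr2.1 (by linarith [hδ0 n]) (by linarith [hδ1 n])
  rw [add_zero] at hle
  rw [← JJ_eq (s := s) (A := A) (p := p) hr2]
  exact hle

end

end Crest.Agent.R235.WKBall_463
end

-- ▼ part R235/WKEn_348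
section

/-!
Row 235 (S0364), PACKAGE REG, leaf BOXW, part 1 (helper348): measurable enumeration of the fibres
of a closed set `S ⊆ ℂ × ℂ` over a measurable set `G` of points with exactly `k` fibre points.
-/

set_option autoImplicit false

open MeasureTheory Set Filter
open scoped Topology

namespace Crest.Agent.R235.WKEn_348

noncomputable section

/-- the fibre. -/
def Fb (S : Set (ℂ × ℂ)) (z : ℂ) : Set ℂ := {w | (z, w) ∈ S}

variable {S : Set (ℂ × ℂ)}

theorem isClosed_hit (hS : IsClosed S) {C : Set ℂ} (hC : IsCompact C) :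
    IsClosed {z | (Fb S z ∩ C).Nonempty} := by
  have : CompactSpace C := isCompact_iff_compactSpace.1 hC
  have h1 : IsClosed {p : C × ℂ | (p.2, (p.1 : ℂ)) ∈ S} :=
    hS.preimage (f := fun p : C × ℂ => (p.2, (p.1 : ℂ))) (by fun_prop)
  have h2 := isClosedMap_snd_of_compactSpace (X := C) (Y := ℂ) _ h1
  convert h2 using 1
  ext z
  constructor
  · rintro ⟨w, hw, hwC⟩
    exact ⟨(⟨w, hwC⟩, z), hw, rfl⟩
  · rintro ⟨⟨w, z'⟩, h, rfl⟩
    exact ⟨w, h, w.2⟩

theorem measurable_hit (hS : IsClosed S) {O : Set ℂ} (hO : IsOpen O) :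
    MeasurableSet {z | (Fb S z ∩ O).Nonempty} := by
  obtain ⟨F, hF, hFO, hU, -⟩ := hO.exists_iUnion_isClosed
  have h : {z | (Fb S z ∩ O).Nonempty} =
      ⋃ n : ℕ, ⋃ l : ℕ, {z | (Fb S z ∩ (F n ∩ Metric.closedBall 0 l)).Nonempty} := by
    ext z
    simp only [mem_ofPred_eq, mem_iUnion]
    constructor
    · rintro ⟨w, hw, hwO⟩
      rw [← hU] at hwO
      obtain ⟨n, hn⟩ := mem_iUnion.1 hwO
      obtain ⟨l, hl⟩ := exists_nat_ge ‖w‖
      exact ⟨n, l, w, hw, hn, by simpa using hl⟩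
    · rintro ⟨n, l, w, hw, hn, -⟩
      exact ⟨w, hw, hFO n hn⟩
  rw [h]
  exact MeasurableSet.iUnion fun n => MeasurableSet.iUnion fun l =>
    (isClosed_hit hS ((isCompact_closedBall 0 _).inter_left (hF n))).measurableSet

theorem le_encard_iff {T O : Set ℂ} (j : ℕ) :
    (j : ℕ∞) ≤ (T ∩ O).encard ↔ ∃ U : Fin j → TopologicalSpace.countableBasis ℂ,
      (∀ i i', i ≠ i' → Disjoint (U i).1 (U i').1) ∧ ∀ i, (T ∩ ((U i).1 ∩ O)).Nonempty := by
  constructor
  · intro h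
    obtain ⟨t, ht, htc⟩ := Set.exists_subset_encard_eq h
    have hfin : t.Finite := by
      rw [← Set.encard_lt_top_iff, htc]
      exact ENat.natCast_lt_top j
    obtain ⟨V, hV, hVd⟩ := hfin.t2_separation
    have hcard : hfin.toFinset.card = j := by
      rw [hfin.encard_eq_coe_toFinset_card] at htc
      exact_mod_cast htc
    let e := hfin.toFinset.equivFinOfCardEq hcard
    have hmem : ∀ i, ((e.symm i : ℂ)) ∈ t := fun i => hfin.mem_toFinset.1 (e.symm i).2
    have hb : ∀ i : Fin j, ∃ B ∈ TopologicalSpace.countableBasis ℂ,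
        (e.symm i : ℂ) ∈ B ∧ B ⊆ V (e.symm i : ℂ) := fun i =>
      (TopologicalSpace.isBasis_countableBasis ℂ).exists_subset_of_mem_open
        (hV _).1 (hV _).2
    choose B hB hBm hBV using hb
    refine ⟨fun i => ⟨B i, hB i⟩, fun i i' hi => ?_, fun i => ?_⟩
    · have hne : (e.symm i : ℂ) ≠ (e.symm i' : ℂ) := fun h0 =>
        hi (e.symm.injective (Subtype.ext h0))
      exact (hVd (hmem i) (hmem i') hne).mono (hBV i) (hBV i')
    · exact ⟨_, (ht (hmem i)).1, hBm i, (ht (hmem i)).2⟩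
  · rintro ⟨U, hd, hne⟩
    choose x hx using hne
    have hinj : Function.Injective x := by
      intro i i' h
      by_contra hi
      exact (Set.disjoint_left.1 (hd i i' hi)) (hx i).2.1 (by rw [h]; exact (hx i').2.1)
    have h1 : (range x).encard = (j : ℕ∞) := by
      rw [← image_univ, hinj.encard_image]
      simp
    rw [← h1]
    refine Set.encard_le_encard ?_
    rintro _ ⟨i, rfl⟩
    exact ⟨(hx i).1, (hx i).2.2⟩

theorem measurable_le_encard (hS : IsClosed S) {O : Set ℂ} (hO : IsOpen O) (j : ℕ) :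
    MeasurableSet {z | (j : ℕ∞) ≤ (Fb S z ∩ O).encard} := by
  have : Countable (TopologicalSpace.countableBasis ℂ) :=
    (TopologicalSpace.countable_countableBasis ℂ).to_subtype
  have h : {z | (j : ℕ∞) ≤ (Fb S z ∩ O).encard} =
      ⋃ U : {U : Fin j → TopologicalSpace.countableBasis ℂ //
        ∀ i i', i ≠ i' → Disjoint (U i).1 (U i').1},
      ⋂ i : Fin j, {z | (Fb S z ∩ ((U.1 i).1 ∩ O)).Nonempty} := by
    ext z
    simp only [mem_ofPred_eq, le_encard_iff, mem_iUnion, mem_iInter]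
    constructor
    · rintro ⟨U, h1, h2⟩
      exact ⟨⟨U, h1⟩, h2⟩
    · rintro ⟨U, h2⟩
      exact ⟨U.1, U.2, h2⟩
  rw [h]
  refine MeasurableSet.iUnion fun U => MeasurableSet.iInter fun i => measurable_hit hS ?_
  exact (TopologicalSpace.isOpen_of_mem_countableBasis (U.1 i).2).inter hO

/-- order statistics of a finite set. -/
theorem orderEmb_le_iff {T : Finset ℝ} {k : ℕ} (h : T.card = k) (i : Fin k) (x : ℝ) :
    T.orderEmbOfFin h i ≤ x ↔ (i : ℕ) + 1 ≤ (T.filter (· ≤ x)).card := by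
  have h1 : T.filter (· ≤ x) =
      (Finset.univ.filter fun j : Fin k => T.orderEmbOfFin h j ≤ x).map
        (T.orderEmbOfFin h).toEmbedding := by
    ext y
    simp only [Finset.mem_filter, Finset.mem_map, Finset.mem_univ, true_and]
    constructor
    · rintro ⟨hy, hyx⟩
      have h2 : y ∈ Set.range (T.orderEmbOfFin h) := by
        rw [Finset.range_orderEmbOfFin]
        exact hy
      obtain ⟨j, rfl⟩ := h2
      exact ⟨j, hyx, rfl⟩
    · rintro ⟨j, hj, rfl⟩
      exact ⟨T.orderEmbOfFin_mem h j, hj⟩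
  rw [h1, Finset.card_map]
  constructor
  · intro hi
    have h2 : Finset.Iic i ⊆ Finset.univ.filter fun j : Fin k => T.orderEmbOfFin h j ≤ x := by
      intro j hj
      simp only [Finset.mem_filter, Finset.mem_univ, true_and]
      exact ((T.orderEmbOfFin h).monotone (Finset.mem_Iic.1 hj)).trans hi
    have h3 := Finset.card_le_card h2
    rwa [Fin.card_Iic] at h3
  · intro hi
    by_contra hn
    have h2 : (Finset.univ.filter fun j : Fin k => T.orderEmbOfFin h j ≤ x) ⊆ Finset.Iio i := by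
      intro j hj
      simp only [Finset.mem_filter, Finset.mem_univ, true_and] at hj
      rw [Finset.mem_Iio]
      by_contra hji
      exact hn (((T.orderEmbOfFin h).monotone (not_lt.1 hji)).trans hj)
    have h3 := Finset.card_le_card h2
    rw [Fin.card_Iio] at h3
    omega

/-- the counting measure of the fibre. -/
def nu (S : Set (ℂ × ℂ)) (G : Set ℂ) (z : ℂ) : Measure ℂ :=
  open Classical in if z ∈ G then Measure.count.restrict (Fb S z) else 0

theorem nu_apply {G : Set ℂ} {z : ℂ} (hz : z ∈ G) (hf : (Fb S z).Finite) (B : Set ℂ) :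
    nu S G z B = (((Fb S z ∩ B).encard : ℕ∞) : ENNReal) := by
  have h0 : MeasurableSet (B ∩ Fb S z) := (hf.subset inter_subset_right).measurableSet
  rw [nu, if_pos hz, Measure.restrict_apply' hf.measurableSet, Measure.count_apply h0, inter_comm]

theorem nu_apply_not {G : Set ℂ} {z : ℂ} (hz : z ∉ G) (B : Set ℂ) : nu S G z B = 0 := by
  rw [nu, if_neg hz]
  rfl

theorem measurable_nu (hS : IsClosed S) {G : Set ℂ} (hG : MeasurableSet G) (k : ℕ)
    (h : ∀ z ∈ G, (Fb S z).Finite ∧ (Fb S z).ncard = k) : Measurable (nu S G) := by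
  have hfin : ∀ z, IsFiniteMeasure (nu S G z) := by
    intro z
    constructor
    by_cases hz : z ∈ G
    · rw [nu_apply hz (h z hz).1]
      have : (Fb S z ∩ univ).encard < ⊤ := by
        rw [inter_univ]
        exact Set.encard_lt_top_iff.2 (h z hz).1
      exact ENat.toENNReal_lt_top.2 this
    · rw [nu_apply_not hz]
      exact ENNReal.zero_lt_top
  have hopen : ∀ O : Set ℂ, IsOpen O → Measurable fun z => nu S G z O := by
    intro O hO
    have h1 : (fun z => nu S G z O) = fun z =>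
        ((open Classical in if z ∈ G then (Fb S z ∩ O).ncard else 0 : ℕ) : ENNReal) := by
      funext z
      by_cases hz : z ∈ G
      · rw [nu_apply hz (h z hz).1, if_pos hz,
          ← ((h z hz).1.subset inter_subset_left).cast_ncard_eq]
        rfl
      · rw [nu_apply_not hz, if_neg hz]
        simp
    rw [h1]
    refine (measurable_of_countable (fun n : ℕ => (n : ENNReal))).comp ?_
    refine measurable_to_countable' fun n => ?_
    have h2 : ∀ j : ℕ, MeasurableSet {z | z ∈ G ∧ j ≤ (Fb S z ∩ O).ncard} := by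
      intro j
      have h3 : {z | z ∈ G ∧ j ≤ (Fb S z ∩ O).ncard} =
          G ∩ {z | (j : ℕ∞) ≤ (Fb S z ∩ O).encard} := by
        ext z
        refine and_congr_right fun hz => ?_
        rw [mem_ofPred_eq, ← ((h z hz).1.subset inter_subset_left).cast_ncard_eq]
        exact Nat.cast_le.symm
      rw [h3]
      exact hG.inter (measurable_le_encard hS hO j)
    have h4 : (fun z => (open Classical in if z ∈ G then (Fb S z ∩ O).ncard else 0 : ℕ)) ⁻¹' {n} =
        ({z | z ∈ G ∧ n ≤ (Fb S z ∩ O).ncard} \ {z | z ∈ G ∧ n + 1 ≤ (Fb S z ∩ O).ncard}) ∪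
          (if n = 0 then Gᶜ else ∅) := by
      ext z
      simp only [mem_preimage, mem_singleton_iff, mem_union, Set.mem_sdiff, mem_ofPred_eq]
      by_cases hz : z ∈ G
      · by_cases hn : n = 0
        · simp [hz, hn]
        · simp [hz, hn]
          omega
      · by_cases hn : n = 0
        · simp [hz, hn]
        · simp [hz, hn]
          omega
    rw [h4]
    refine ((h2 n).diff (h2 (n + 1))).union ?_
    split_ifs
    · exact hG.compl
    · exact MeasurableSet.empty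
  refine Measurable.measure_of_isPiSystem (S := {O : Set ℂ | IsOpen O})
    (BorelSpace.measurable_eq (α := ℂ)) isPiSystem_isOpen ?_ (hopen _ isOpen_univ)
  exact fun O hO => hopen O hO

/-- MEASURABLE ENUMERATION of the fibres. -/
theorem exists_enum (hS : IsClosed S) {G : Set ℂ} (hG : MeasurableSet G) (k : ℕ)
    (h : ∀ z ∈ G, (Fb S z).Finite ∧ (Fb S z).ncard = k) :
    ∃ s : ℂ → Fin k → ℂ, (∀ i, Measurable fun z => s z i) ∧
      (∀ z ∈ G, Function.Injective (s z) ∧ ∀ w, w ∈ Fb S z ↔ ∃ i, s z i = w) ∧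
      ∀ z ∉ G, ∀ i, s z i = 0 := by
  classical
  let e := embeddingReal ℂ
  have he : MeasurableEmbedding e := measurableEmbedding_embeddingReal ℂ
  obtain ⟨g, hg, hge⟩ := he.exists_measurable_extend (g := (id : ℂ → ℂ)) measurable_id
    (fun _ => inferInstance)
  have hge' : ∀ w, g (e w) = w := fun w => congrFun hge w
  let T : ℂ → Finset ℝ := fun z =>
    if hz : z ∈ G then (h z hz).1.toFinset.image e else Finset.image (fun i : Fin k => (i : ℝ)) Finset.univ
  have hT : ∀ z, (T z).card = k := by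
    intro z
    by_cases hz : z ∈ G
    · have : T z = (h z hz).1.toFinset.image e := dif_pos hz
      rw [this, Finset.card_image_of_injective _ he.injective,
        ← Set.ncard_eq_toFinset_card _ (h z hz).1]
      exact (h z hz).2
    · have : T z = Finset.image (fun i : Fin k => (i : ℝ)) Finset.univ := dif_neg hz
      rw [this, Finset.card_image_of_injective]
      · simp
      · intro i j hij
        have hij' : ((i : ℕ) : ℝ) = (j : ℕ) := hij
        exact Fin.ext (by exact_mod_cast hij')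
  let q : ℂ → Fin k → ℝ := fun z i => if z ∈ G then (T z).orderEmbOfFin (hT z) i else 0
  have hq : ∀ i, Measurable fun z => q z i := by
    intro i
    refine measurable_of_Iic fun x => ?_
    have hν := measurable_nu hS hG k h
    have hνx : Measurable fun z => nu S G z (e ⁻¹' Iic x) :=
      (Measure.measurable_coe (he.measurable measurableSet_Iic)).comp hν
    have h1 : (fun z => q z i) ⁻¹' Iic x =
        (G ∩ {z | (((i : ℕ) + 1 : ℕ) : ENNReal) ≤ nu S G z (e ⁻¹' Iic x)}) ∪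
          (if (0 : ℝ) ≤ x then Gᶜ else ∅) := by
      ext z
      rw [mem_preimage, mem_Iic]
      by_cases hz : z ∈ G
      · have h2 : q z i = (T z).orderEmbOfFin (hT z) i := if_pos hz
        have h3 : T z = (h z hz).1.toFinset.image e := dif_pos hz
        have h4 : ((T z).filter (· ≤ x)).card = (Fb S z ∩ (e ⁻¹' Iic x)).ncard := by
          rw [h3, Finset.filter_image, Finset.card_image_of_injective _ he.injective,
            ← Set.ncard_coe_finset]
          congr 1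
          ext w
          simp
        have h5 : nu S G z (e ⁻¹' Iic x) = ((Fb S z ∩ (e ⁻¹' Iic x)).ncard : ENNReal) := by
          rw [nu_apply hz (h z hz).1, ← ((h z hz).1.subset inter_subset_left).cast_ncard_eq]
          rfl
        rw [h2, orderEmb_le_iff, h4]
        have h6 : z ∉ (if (0 : ℝ) ≤ x then Gᶜ else ∅) := by
          split_ifs
          · exact fun h => h hz
          · exact fun h => h
        rw [mem_union, or_iff_left h6, mem_inter_iff, mem_ofPred_eq, h5]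
        simp only [hz, true_and]
        exact Nat.cast_le.symm
      · have h2 : q z i = 0 := if_neg hz
        rw [h2, mem_union, mem_inter_iff]
        simp only [hz, false_and, false_or]
        split_ifs with h0
        · simp [h0, hz]
        · simp [h0]
    rw [h1]
    refine (hG.inter (measurableSet_le measurable_const hνx)).union ?_
    split_ifs
    · exact hG.compl
    · exact MeasurableSet.empty
  refine ⟨fun z i => if z ∈ G then g (q z i) else 0, fun i => ?_, fun z hz => ?_, fun z hz i => ?_⟩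
  · exact Measurable.ite hG (hg.comp (hq i)) measurable_const
  · have h2 : ∀ i, q z i = (T z).orderEmbOfFin (hT z) i := fun i => if_pos hz
    have h3 : T z = (h z hz).1.toFinset.image e := dif_pos hz
    have h4 : ∀ i, ∃ w ∈ Fb S z, e w = q z i := by
      intro i
      have h5 := (T z).orderEmbOfFin_mem (hT z) i
      rw [← h2, h3] at h5
      obtain ⟨w, hw, hwe⟩ := Finset.mem_image.1 h5
      exact ⟨w, (h z hz).1.mem_toFinset.1 hw, hwe⟩
    simp only [hz, if_true]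
    constructor
    · intro i j hij
      obtain ⟨w, -, hw⟩ := h4 i
      obtain ⟨w', -, hw'⟩ := h4 j
      have h6 : w = w' := by
        have h7 : g (q z i) = g (q z j) := hij
        rwa [← hw, ← hw', hge', hge'] at h7
      have h8 : q z i = q z j := by rw [← hw, ← hw', h6]
      rw [h2, h2] at h8
      exact ((T z).orderEmbOfFin (hT z)).injective h8
    · intro w
      constructor
      · intro hw
        have h5 : e w ∈ T z := by
          rw [h3]
          exact Finset.mem_image_of_mem _ ((h z hz).1.mem_toFinset.2 hw)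
        have h6 : e w ∈ Set.range ((T z).orderEmbOfFin (hT z)) := by
          rw [Finset.range_orderEmbOfFin]
          exact h5
        obtain ⟨i, hi⟩ := h6
        refine ⟨i, ?_⟩
        rw [h2, hi, hge']
      · rintro ⟨i, rfl⟩
        obtain ⟨w, hw, hwe⟩ := h4 i
        rw [← hwe, hge']
        exact hw
  · simp only [hz, if_false]

end

end Crest.Agent.R235.WKEn_348
end

-- ▼ part R235/WKBoxA_348
section

/-!
Row 235 (S0364), PACKAGE REG, leaf BOXW, part 2 (helper348): pointwise algebra, disintegration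
along an enumeration of the fibres, the calibrated mass.
-/

set_option autoImplicit false

open MeasureTheory Metric Set Filter Complex
open scoped ContDiff Topology ComplexConjugate

namespace Crest.Agent.R235.WKBoxA_348

open Crest.Agent.R235.Loc Crest.Agent.R235.Cyl Crest.Agent.R235.WKG_460

noncomputable section

/-- the pointwise algebra of `ALG0` at one point. -/
structure PA (μ β : CC → ℂ) (C₀ c₀ : ℝ) (p X Y : CC) : Prop where
  h0 : 0 ≤ hh X Y
  h1 : hh X Y ≤ C₀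
  k1 : |kk X Y| ≤ C₀
  low : c₀ ≤ kk X Y + C₀ * hh X Y
  v1 : V1 X Y = (((hh X Y : ℝ) : ℂ), (V1 X Y).2)
  vI : VI X Y = (I * ((hh X Y : ℝ) : ℂ), (VI X Y).2)
  n1 : ‖(V1 X Y).2‖ ^ 2 ≤ C₀ * hh X Y
  nI : ‖(VI X Y).2‖ ^ 2 ≤ C₀ * hh X Y
  pde : 0 < hh X Y → lzb (slo X Y) = μ p * lz (slo X Y) - β p
  en : 0 < hh X Y → ‖slo X Y‖ ^ 2 * hh X Y ≤ C₀

theorem slo_one (X Y : CC) : slo X Y 1 = (hh X Y)⁻¹ • (V1 X Y).2 := by
  simp [slo]

theorem slo_I (X Y : CC) : slo X Y I = (hh X Y)⁻¹ • (VI X Y).2 := by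
  simp [slo]

variable {μ β : CC → ℂ} {C₀ c₀ : ℝ} {p X Y : CC}

theorem PA.v1_two (h : PA μ β C₀ c₀ p X Y) : (V1 X Y).2 = hh X Y • slo X Y 1 := by
  rw [slo_one]
  rcases h.h0.eq_or_lt with h0 | h0
  · have h1 := h.n1
    rw [← h0, mul_zero] at h1
    have h2 : (V1 X Y).2 = 0 := by
      have h3 : ‖(V1 X Y).2‖ = 0 := by
        have := sq_nonneg ‖(V1 X Y).2‖
        exact pow_eq_zero_iff (two_ne_zero) |>.1 (le_antisymm h1 this)
      exact norm_eq_zero.1 h3
    rw [h2, smul_zero, smul_zero]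
  · rw [smul_smul, mul_inv_cancel₀ h0.ne', one_smul]

theorem PA.vI_two (h : PA μ β C₀ c₀ p X Y) : (VI X Y).2 = hh X Y • slo X Y I := by
  rw [slo_I]
  rcases h.h0.eq_or_lt with h0 | h0
  · have h1 := h.nI
    rw [← h0, mul_zero] at h1
    have h2 : (VI X Y).2 = 0 := by
      have h3 : ‖(VI X Y).2‖ = 0 := by
        have := sq_nonneg ‖(VI X Y).2‖
        exact pow_eq_zero_iff (two_ne_zero) |>.1 (le_antisymm h1 this)
      exact norm_eq_zero.1 h3
    rw [h2, smul_zero, smul_zero]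
  · rw [smul_smul, mul_inv_cancel₀ h0.ne', one_smul]

theorem PA.v1_eq (h : PA μ β C₀ c₀ p X Y) : V1 X Y = hh X Y • ((1 : ℂ), slo X Y 1) := by
  rw [h.v1, h.v1_two, Prod.smul_mk]
  simp

theorem PA.vI_eq (h : PA μ β C₀ c₀ p X Y) : VI X Y = hh X Y • ((I : ℂ), slo X Y I) := by
  rw [h.vI, h.vI_two, Prod.smul_mk]
  simp [mul_comm]

theorem PA.nonneg (h : PA μ β C₀ c₀ p X Y) : 0 ≤ C₀ := h.h0.trans h.h1

theorem PA.n1' (h : PA μ β C₀ c₀ p X Y) : ‖(V1 X Y).2‖ ≤ C₀ := by
  have h1 : ‖(V1 X Y).2‖ ^ 2 ≤ C₀ ^ 2 := by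
    have := mul_le_mul_of_nonneg_left h.h1 h.nonneg
    nlinarith [h.n1]
  exact le_of_sq_le_sq h1 h.nonneg

theorem PA.nI' (h : PA μ β C₀ c₀ p X Y) : ‖(VI X Y).2‖ ≤ C₀ := by
  have h1 : ‖(VI X Y).2‖ ^ 2 ≤ C₀ ^ 2 := by
    have := mul_le_mul_of_nonneg_left h.h1 h.nonneg
    nlinarith [h.nI]
  exact le_of_sq_le_sq h1 h.nonneg

theorem PA.nV1 (h : PA μ β C₀ c₀ p X Y) : ‖V1 X Y‖ ≤ C₀ := by
  rw [h.v1, Prod.norm_mk]
  refine max_le ?_ h.n1'
  rw [Complex.norm_real, Real.norm_of_nonneg h.h0]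
  exact h.h1

theorem PA.nVI (h : PA μ β C₀ c₀ p X Y) : ‖VI X Y‖ ≤ C₀ := by
  rw [h.vI, Prod.norm_mk]
  refine max_le ?_ h.nI'
  rw [norm_mul, Complex.norm_I, one_mul, Complex.norm_real, Real.norm_of_nonneg h.h0]
  exact h.h1

theorem PA.en' (h : PA μ β C₀ c₀ p X Y) : ‖slo X Y‖ ^ 2 * hh X Y ≤ C₀ := by
  rcases h.h0.eq_or_lt with h0 | h0
  · rw [← h0, mul_zero]
    exact h.nonneg
  · exact h.en h0

/-! ### measurability -/

variable {Xf Yf : CC → CC}

theorem measurable_hh (hX : Measurable Xf) (hY : Measurable Yf) :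
    Measurable fun p => hh (Xf p) (Yf p) := by
  have h : Continuous fun q : CC × CC => hh q.1 q.2 := by
    unfold hh
    fun_prop
  exact h.measurable.comp (hX.prodMk hY)

theorem measurable_kk (hX : Measurable Xf) (hY : Measurable Yf) :
    Measurable fun p => kk (Xf p) (Yf p) := by
  have h : Continuous fun q : CC × CC => kk q.1 q.2 := by
    unfold kk
    fun_prop
  exact h.measurable.comp (hX.prodMk hY)

theorem measurable_V1 (hX : Measurable Xf) (hY : Measurable Yf) :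
    Measurable fun p => V1 (Xf p) (Yf p) := by
  have h : Continuous fun q : CC × CC => V1 q.1 q.2 := by
    unfold V1
    fun_prop
  exact h.measurable.comp (hX.prodMk hY)

theorem measurable_VI (hX : Measurable Xf) (hY : Measurable Yf) :
    Measurable fun p => VI (Xf p) (Yf p) := by
  have h : Continuous fun q : CC × CC => VI q.1 q.2 := by
    unfold VI
    fun_prop
  exact h.measurable.comp (hX.prodMk hY)

theorem measurable_slo (hX : Measurable Xf) (hY : Measurable Yf) :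
    Measurable fun p => slo (Xf p) (Yf p) := by
  have h3 : Measurable fun v : ℂ => (reCLM.smulRight v : ℂ →L[ℝ] ℂ) :=
    (ContinuousLinearMap.smulRightL ℝ ℂ ℂ reCLM).continuous.measurable
  have h4 : Measurable fun v : ℂ => (imCLM.smulRight v : ℂ →L[ℝ] ℂ) :=
    (ContinuousLinearMap.smulRightL ℝ ℂ ℂ imCLM).continuous.measurable
  have h5 : Measurable fun p => (V1 (Xf p) (Yf p)).2 := (measurable_V1 hX hY).snd
  have h6 : Measurable fun p => (VI (Xf p) (Yf p)).2 := (measurable_VI hX hY).snd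
  have h7 : Measurable fun p => (reCLM.smulRight (V1 (Xf p) (Yf p)).2 : ℂ →L[ℝ] ℂ) :=
    h3.comp h5
  have h8 : Measurable fun p => (imCLM.smulRight (VI (Xf p) (Yf p)).2 : ℂ →L[ℝ] ℂ) :=
    h4.comp h6
  have h9 : Measurable fun p => (hh (Xf p) (Yf p))⁻¹ := (measurable_hh hX hY).inv
  have h10 : Measurable fun p => (reCLM.smulRight (V1 (Xf p) (Yf p)).2 +
      imCLM.smulRight (VI (Xf p) (Yf p)).2 : ℂ →L[ℝ] ℂ) := h7.add h8
  exact h9.smul h10

/-! ### support and fibres -/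

theorem isClosed_supp (m : Measure CC) : IsClosed {p | InSupp m p} := by
  rw [← isOpen_compl_iff, Metric.isOpen_iff]
  intro p hp
  have hp' : ∃ r > 0, m (ball p r) = 0 := by
    by_contra hn
    refine hp fun r hr => ?_
    by_contra h0
    exact hn ⟨r, hr, nonpos_iff_eq_zero.1 (not_lt.1 h0)⟩
  obtain ⟨r, hr, h0⟩ := hp'
  refine ⟨r / 2, half_pos hr, fun q hq hq' => ?_⟩
  have h1 := hq' (r / 2) (half_pos hr)
  have h2 : ball q (r / 2) ⊆ ball p r := by
    intro x hx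
    rw [mem_ball] at *
    calc dist x p ≤ dist x q + dist q p := dist_triangle _ _ _
      _ < r / 2 + r / 2 := add_lt_add hx hq
      _ = r := by ring
  exact absurd (measure_mono_null h2 h0) h1.ne'

/-- enumeration data. -/
structure En (m : Measure CC) (Xf Yf : CC → CC) (c : ℂ) (R ρ : ℝ) (k : ℕ) (s : ℂ → Fin k → ℂ) :
    Prop where
  meas : ∀ i, Measurable fun z => s z i
  good : ∀ᵐ z ∂(volume.restrict (ball c R)), (fib m z).Finite ∧ Function.Injective (s z) ∧
    (∀ w, w ∈ fib m z ↔ ∃ i, s z i = w) ∧ ∀ i, 0 < hh (Xf (z, s z i)) (Yf (z, s z i))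
  bdd : ∀ z i, ‖s z i‖ ≤ max ρ 0

/-- existence of the enumeration. -/
theorem exists_en {κ L K : ℝ} (hg : GOODZ) (hs : SPLIT) (hbx : SBox μ β κ L) {c : ℂ} {R ρ : ℝ}
    {m : Measure CC} (hb : BoxCur μ β c R ρ K m Xf Yf) (hR : 0 < R) :
    ∃ (k : ℕ) (s : ℂ → Fin k → ℂ), En m Xf Yf c R ρ k s := by
  obtain ⟨k, hk⟩ := hs μ β κ L hbx c R ρ K m Xf Yf hb hR
  have h1 := hg μ β κ L hbx c R ρ K m Xf Yf hb
  obtain ⟨G, hG, hGm, hGp⟩ := (hk.and h1).exists_measurable_mem
  obtain ⟨s, hsm, hsg, hsn⟩ := WKEn_348.exists_enum (isClosed_supp m)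
    (hGm.inter (measurableSet_ball (x := c) (ε := R))) k
    (fun z hz => ⟨((hGp z hz.1).1 hz.2).2.1, ((hGp z hz.1).1 hz.2).1⟩)
  refine ⟨k, s, hsm, ?_, ?_⟩
  · rw [ae_restrict_iff' measurableSet_ball]
    filter_upwards [hG] with z hz hzb
    have h2 := (hGp z hz).2 hzb
    have h3 := hsg z ⟨hz, hzb⟩
    exact ⟨h2.1, h3.1, h3.2, fun i => (h2.2 _ ((h3.2 _).2 ⟨i, rfl⟩)).2.2⟩
  · intro z i
    by_cases hz : z ∈ G ∩ ball c R
    · have h2 := (hGp z hz.1).2 hz.2
      exact (h2.2 _ (((hsg z hz).2 _).2 ⟨i, rfl⟩)).1.trans (le_max_left _ _)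
    · rw [hsn z hz i, norm_zero]
      exact le_max_right _ _

theorem FS_eq {m : Measure CC} {k : ℕ} {s : ℂ → Fin k → ℂ} {z : ℂ}
    (hi : Function.Injective (s z)) (hf : ∀ w, w ∈ fib m z ↔ ∃ i, s z i = w) (Φ : CC → ℝ) :
    FS m Φ z = ∑ i, Φ (z, s z i) := by
  have h : fib m z = Set.range (s z) := Set.ext fun w => hf w
  rw [FS, h, finsum_mem_range hi, finsum_eq_sum_of_fintype]

/-- disintegration of the horizontal measure along the enumeration. -/
theorem disi {κ L K : ℝ} (hd : DISI) (hbx : SBox μ β κ L) {c : ℂ} {R ρ : ℝ}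
    {m : Measure CC} (hb : BoxCur μ β c R ρ K m Xf Yf) {k : ℕ} {s : ℂ → Fin k → ℂ}
    (hs : En m Xf Yf c R ρ k s) {Φ : CC → ℝ} (hΦ : Measurable Φ)
    (hi : Integrable (fun p => Φ p * hh (Xf p) (Yf p)) m) :
    IntegrableOn (fun z => ∑ i, Φ (z, s z i)) (ball c R) ∧
    ∫ p, Φ p * hh (Xf p) (Yf p) ∂m = ∫ z in ball c R, ∑ i, Φ (z, s z i) := by
  have h := hd μ β κ L hbx c R ρ K m Xf Yf hb Φ hΦ hi
  have h1 : FS m Φ =ᵐ[volume.restrict (ball c R)] fun z => ∑ i, Φ (z, s z i) := by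
    filter_upwards [hs.good] with z hz
    exact FS_eq hz.2.1 hz.2.2.1 Φ
  exact ⟨h.1.congr h1, h.2.trans (integral_congr_ae h1)⟩

/-! ### the calibrated mass -/

/-- density of the calibrated mass. -/
def dd (C₀ : ℝ) (Xf Yf : CC → CC) (p : CC) : ℝ := kk (Xf p) (Yf p) + C₀ * hh (Xf p) (Yf p)

/-- the calibrated mass pushed to the base. -/
def maM (C₀ : ℝ) (m : Measure CC) (Xf Yf : CC → CC) : Measure ℂ :=
  Measure.map Prod.fst (m.withDensity fun p => ENNReal.ofReal (dd C₀ Xf Yf p))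

theorem measurable_dd (hX : Measurable Xf) (hY : Measurable Yf) : Measurable (dd C₀ Xf Yf) :=
  (measurable_kk hX hY).add (measurable_const.mul (measurable_hh hX hY))

theorem maM_integral {m : Measure CC} (hX : Measurable Xf) (hY : Measurable Yf)
    (h0 : ∀ p, 0 ≤ dd C₀ Xf Yf p) {g : ℂ → ℝ} (hg : Measurable g) :
    ∫ t, g t ∂(maM C₀ m Xf Yf) = ∫ p, g p.1 * dd C₀ Xf Yf p ∂m := by
  rw [maM, integral_map measurable_fst.aemeasurable hg.aestronglyMeasurable,
    integral_withDensity_eq_integral_toReal_smul (measurable_dd hX hY).ennreal_ofReal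
      (Eventually.of_forall fun p => ENNReal.ofReal_lt_top)]
  refine integral_congr_ae (Eventually.of_forall fun p => ?_)
  simp only [ENNReal.toReal_ofReal (h0 p), smul_eq_mul]
  ring

theorem maM_real {m : Measure CC} (hX : Measurable Xf) (hY : Measurable Yf)
    (h0 : ∀ p, 0 ≤ dd C₀ Xf Yf p) {V : Set ℂ} (hV : MeasurableSet V) :
    (maM C₀ m Xf Yf V).toReal = ∫ p in V ×ˢ univ, dd C₀ Xf Yf p ∂m := by
  have h1 := maM_integral (C₀ := C₀) (m := m) hX hY h0 (g := V.indicator fun _ => 1)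
    (measurable_const.indicator hV)
  rw [integral_indicator_const (1 : ℝ) hV, smul_eq_mul, mul_one] at h1
  have h2 : (maM C₀ m Xf Yf V).toReal = (maM C₀ m Xf Yf).real V := rfl
  rw [h2, h1, ← integral_indicator (hV.prod MeasurableSet.univ)]
  refine integral_congr_ae (Eventually.of_forall fun p => ?_)
  by_cases hp : p.1 ∈ V
  · simp [hp, indicator]
  · simp [hp, indicator]

theorem maM_finite {m : Measure CC} [IsFiniteMeasure m] {D : ℝ}
    (hD : ∀ p, dd C₀ Xf Yf p ≤ D) : IsFiniteMeasure (maM C₀ m Xf Yf) := by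
  have h1 : IsFiniteMeasure (m.withDensity fun p => ENNReal.ofReal (dd C₀ Xf Yf p)) := by
    refine isFiniteMeasure_withDensity ?_
    refine (lt_of_le_of_lt (lintegral_mono fun p => ENNReal.ofReal_le_ofReal (hD p)) ?_).ne
    rw [lintegral_const]
    exact ENNReal.mul_lt_top ENNReal.ofReal_lt_top (measure_lt_top _ _)
  unfold maM
  infer_instance

end

end Crest.Agent.R235.WKBoxA_348
end

-- ▼ part R235/WKBoxB_348
section

/-!
Row 235 (S0364), PACKAGE REG, leaf BOXW, part 3 (helper348): energy, weak derivatives and the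
lower bound of the calibrated mass.
-/

set_option autoImplicit false

open MeasureTheory Metric Set Filter Complex
open scoped ContDiff Topology ComplexConjugate

namespace Crest.Agent.R235.WKBoxB_348

open Crest.Agent.R235.Loc Crest.Agent.R235.Cyl Crest.Agent.R235.WKG_460
open Crest.Agent.R235.WKBoxA_348

noncomputable section

/-- context. -/
structure Cx (μ β : CC → ℂ) (κ L : ℝ) (c : ℂ) (R ρ K : ℝ) (m : Measure CC) (X Y : CC → CC)
    (C₀ c₀ : ℝ) (k : ℕ) (s : ℂ → Fin k → ℂ) : Prop where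
  bx : SBox μ β κ L
  cur : BoxCur μ β c R ρ K m X Y
  c0 : 0 < c₀
  C0 : 0 < C₀
  pa : ∀ p, PA μ β C₀ c₀ p (X p) (Y p)
  en : En m X Y c R ρ k s
  dis : ∀ Φ : CC → ℝ, Measurable Φ → Integrable (fun p => Φ p * hh (X p) (Y p)) m →
    IntegrableOn (fun z => ∑ i, Φ (z, s z i)) (ball c R) ∧
    ∫ p, Φ p * hh (X p) (Y p) ∂m = ∫ z in ball c R, ∑ i, Φ (z, s z i)

/-- bounded on the box. -/
def Bd (c : ℂ) (R ρ : ℝ) (f : CC → ℝ) : Prop :=
  ∃ M, 0 ≤ M ∧ ∀ p : CC, p.1 ∈ ball c R → ‖p.2‖ ≤ ρ → |f p| ≤ M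

section bd

variable {c : ℂ} {R ρ : ℝ} {f g : CC → ℝ}

theorem Bd.mul (hf : Bd c R ρ f) (hg : Bd c R ρ g) : Bd c R ρ fun p => f p * g p := by
  obtain ⟨M, hM, h1⟩ := hf
  obtain ⟨N, hN, h2⟩ := hg
  refine ⟨M * N, mul_nonneg hM hN, fun p h3 h4 => ?_⟩
  rw [abs_mul]
  exact mul_le_mul (h1 p h3 h4) (h2 p h3 h4) (abs_nonneg _) hM

theorem Bd.add (hf : Bd c R ρ f) (hg : Bd c R ρ g) : Bd c R ρ fun p => f p + g p := by
  obtain ⟨M, hM, h1⟩ := hf
  obtain ⟨N, hN, h2⟩ := hg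
  exact ⟨M + N, add_nonneg hM hN, fun p h3 h4 =>
    (abs_add_le _ _).trans (add_le_add (h1 p h3 h4) (h2 p h3 h4))⟩

theorem Bd.sub (hf : Bd c R ρ f) (hg : Bd c R ρ g) : Bd c R ρ fun p => f p - g p := by
  obtain ⟨M, hM, h1⟩ := hf
  obtain ⟨N, hN, h2⟩ := hg
  exact ⟨M + N, add_nonneg hM hN, fun p h3 h4 =>
    (abs_sub _ _).trans (add_le_add (h1 p h3 h4) (h2 p h3 h4))⟩

theorem Bd.of_le {M : ℝ} (h : ∀ p : CC, |f p| ≤ M) : Bd c R ρ f :=
  ⟨max M 0, le_max_right _ _, fun p _ _ => (h p).trans (le_max_left _ _)⟩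

theorem Bd.re : Bd c R ρ fun p => p.2.re :=
  ⟨max ρ 0, le_max_right _ _, fun _ _ h => ((Complex.abs_re_le_norm _).trans h).trans
    (le_max_left _ _)⟩

theorem Bd.im : Bd c R ρ fun p => p.2.im :=
  ⟨max ρ 0, le_max_right _ _, fun _ _ h => ((Complex.abs_im_le_norm _).trans h).trans
    (le_max_left _ _)⟩

end bd

/-- derivative bounds of a test function on the box. -/
theorem exists_bound {Φ : CC → ℝ} (hΦ : ContDiff ℝ 1 Φ) {T : Set ℂ} (hT : IsCompact T)
    (h0 : ∀ p : CC, p.1 ∉ T → Φ p = 0) (ρ : ℝ) :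
    ∃ M, 0 ≤ M ∧ ∀ p : CC, ‖p.2‖ ≤ ρ → ‖fderiv ℝ Φ p‖ ≤ M := by
  obtain ⟨M, hM⟩ := (hT.prod (isCompact_closedBall (0 : ℂ) ρ)).exists_bound_of_continuousOn
    (hΦ.continuous_fderiv one_ne_zero).continuousOn
  refine ⟨max M 0, le_max_right _ _, fun p hp => ?_⟩
  by_cases h1 : p.1 ∈ T
  · exact (hM p ⟨h1, by simpa using hp⟩).trans (le_max_left _ _)
  · have h2 : IsOpen {q : CC | q.1 ∉ T} := (hT.isClosed.preimage continuous_fst).isOpen_compl
    have h3 : Φ =ᶠ[𝓝 p] fun _ => 0 := by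
      filter_upwards [h2.mem_nhds h1] with q hq
      exact h0 q hq
    rw [h3.fderiv_eq]
    simp

variable {μ β : CC → ℂ} {κ L K : ℝ} {c : ℂ} {R ρ : ℝ} {m : Measure CC} {X Y : CC → CC}
  {C₀ c₀ : ℝ} {k : ℕ} {s : ℂ → Fin k → ℂ}

theorem Cx.integ (h : Cx μ β κ L c R ρ K m X Y C₀ c₀ k s) {f : CC → ℝ} (hf : Measurable f)
    (hB : Bd c R ρ f) : Integrable f m := by
  obtain ⟨M, -, hM⟩ := hB
  have := h.cur.fin
  refine Integrable.of_bound hf.aestronglyMeasurable M ?_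
  filter_upwards [h.cur.supp] with p hp
  exact hM p hp.1 hp.2

theorem Cx.mslo (h : Cx μ β κ L c R ρ K m X Y C₀ c₀ k s) :
    Measurable fun p => slo (X p) (Y p) := measurable_slo h.cur.mX h.cur.mY

theorem Cx.mhh (h : Cx μ β κ L c R ρ K m X Y C₀ c₀ k s) :
    Measurable fun p => hh (X p) (Y p) := measurable_hh h.cur.mX h.cur.mY

theorem Cx.mslo1 (h : Cx μ β κ L c R ρ K m X Y C₀ c₀ k s) (u : ℂ) :
    Measurable fun p => slo (X p) (Y p) u :=
  ((ContinuousLinearMap.apply ℝ ℂ u).continuous.measurable).comp h.mslo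

theorem Cx.bhh (h : Cx μ β κ L c R ρ K m X Y C₀ c₀ k s) :
    Bd c R ρ fun p => hh (X p) (Y p) :=
  Bd.of_le (M := C₀) fun p => by rw [abs_of_nonneg (h.pa p).h0]; exact (h.pa p).h1

theorem Cx.bkk (h : Cx μ β κ L c R ρ K m X Y C₀ c₀ k s) :
    Bd c R ρ fun p => kk (X p) (Y p) := Bd.of_le (M := C₀) fun p => (h.pa p).k1

theorem Cx.ebd (h : Cx μ β κ L c R ρ K m X Y C₀ c₀ k s) :
    Bd c R ρ fun p => ‖slo (X p) (Y p)‖ ^ 2 * hh (X p) (Y p) :=
  Bd.of_le (M := C₀) fun p => by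
    rw [abs_of_nonneg (mul_nonneg (sq_nonneg _) (h.pa p).h0)]; exact (h.pa p).en'

theorem Cx.eint (h : Cx μ β κ L c R ρ K m X Y C₀ c₀ k s) :
    IntegrableOn (fun t => ∑ i, ‖slo (X (t, s t i)) (Y (t, s t i))‖ ^ 2) (ball c R) :=
  (h.dis (fun p => ‖slo (X p) (Y p)‖ ^ 2) (h.mslo.norm.pow_const 2)
    (h.integ ((h.mslo.norm.pow_const 2).mul h.mhh) h.ebd)).1

theorem Cx.weak (h : Cx μ β κ L c R ρ K m X Y C₀ c₀ k s) (hc : CLO) (Φ : ℂ × ℂ → ℝ)
    (hΦ : Test (ball c R) Φ) (u : ℂ) (hu : u = 1 ∨ u = I) :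
    ∫ t in ball c R, ∑ i, fderiv ℝ Φ (t, s t i) (u, slo (X (t, s t i)) (Y (t, s t i)) u) = 0 := by
  obtain ⟨T, hTb, hT, h0⟩ := hΦ.supp
  have h0' : ∀ p : CC, p.1 ∉ T → Φ p = 0 := fun p hp => h0 p.1 hp p.2
  have hΦ1 : ContDiff ℝ 1 Φ := hΦ.smooth.of_le (by exact_mod_cast le_top)
  obtain ⟨M, hM0, hM⟩ := exists_bound hΦ1 hT h0' ρ
  have hcl := hc μ β κ L h.bx c R ρ K m X Y h.cur Φ hΦ1 ⟨T, hTb, hT, h0'⟩
  have happ : Continuous fun q : (CC →L[ℝ] ℝ) × CC => q.1 q.2 :=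
    isBoundedBilinearMap_apply.continuous
  have hme : Measurable fun p => fderiv ℝ Φ p (u, slo (X p) (Y p) u) :=
    happ.measurable.comp ((hΦ1.continuous_fderiv one_ne_zero).measurable.prodMk
      (measurable_const.prodMk (h.mslo1 u)))
  have key : ∀ V : CC → CC, Measurable V → (∀ p, V p = hh (X p) (Y p) • (u, slo (X p) (Y p) u)) →
      (∀ p, ‖V p‖ ≤ C₀) → ∫ p, fderiv ℝ Φ p (V p) ∂m = 0 →
      ∫ t in ball c R, ∑ i, fderiv ℝ Φ (t, s t i) (u, slo (X (t, s t i)) (Y (t, s t i)) u) = 0 := by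
    intro V hV hVe hVn hV0
    have h1 : ∀ p, fderiv ℝ Φ p (V p) =
        fderiv ℝ Φ p (u, slo (X p) (Y p) u) * hh (X p) (Y p) := by
      intro p
      rw [hVe, map_smul, smul_eq_mul, mul_comm]
    have h2 : Integrable (fun p => fderiv ℝ Φ p (u, slo (X p) (Y p) u) * hh (X p) (Y p)) m := by
      refine h.integ (hme.mul h.mhh) ⟨M * C₀, mul_nonneg hM0 h.C0.le, fun p _ hp => ?_⟩
      beta_reduce
      rw [← h1]
      exact ((fderiv ℝ Φ p).le_opNorm (V p)).trans
        (mul_le_mul (hM p hp) (hVn p) (norm_nonneg _) hM0)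
    have h3 := (h.dis _ hme h2).2
    rw [← h3, ← hV0]
    exact integral_congr_ae (Eventually.of_forall fun p => (h1 p).symm)
  rcases hu with rfl | rfl
  · exact key _ (measurable_V1 h.cur.mX h.cur.mY) (fun p => (h.pa p).v1_eq)
      (fun p => (h.pa p).nV1) hcl.1
  · exact key _ (measurable_VI h.cur.mX h.cur.mY) (fun p => (h.pa p).vI_eq)
      (fun p => (h.pa p).nVI) hcl.2.1

/-! ### the mass -/

theorem Cx.ddn (h : Cx μ β κ L c R ρ K m X Y C₀ c₀ k s) (p : CC) : c₀ ≤ dd C₀ X Y p :=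
  (h.pa p).low

theorem Cx.dd0 (h : Cx μ β κ L c R ρ K m X Y C₀ c₀ k s) (p : CC) : 0 ≤ dd C₀ X Y p :=
  h.c0.le.trans (h.ddn p)

theorem Cx.ddm (h : Cx μ β κ L c R ρ K m X Y C₀ c₀ k s) : Measurable (dd C₀ X Y) :=
  measurable_dd h.cur.mX h.cur.mY

theorem Cx.bdd (h : Cx μ β κ L c R ρ K m X Y C₀ c₀ k s) : Bd c R ρ (dd C₀ X Y) :=
  h.bkk.add ((Bd.of_le (f := fun _ => C₀) (M := |C₀|) fun _ => le_rfl).mul h.bhh)

theorem Cx.ddle (h : Cx μ β κ L c R ρ K m X Y C₀ c₀ k s) (p : CC) :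
    dd C₀ X Y p ≤ C₀ + C₀ * C₀ :=
  add_le_add ((le_abs_self _).trans (h.pa p).k1) (mul_le_mul_of_nonneg_left (h.pa p).h1 h.C0.le)

theorem Cx.mafin (h : Cx μ β κ L c R ρ K m X Y C₀ c₀ k s) : IsFiniteMeasure (maM C₀ m X Y) := by
  have := h.cur.fin
  exact maM_finite h.ddle

theorem Cx.low (h : Cx μ β κ L c R ρ K m X Y C₀ c₀ k s) {V : Set ℂ} (hV : MeasurableSet V) :
    c₀ * m.real (V ×ˢ univ) ≤ (maM C₀ m X Y V).toReal := by
  have := h.cur.fin
  rw [maM_real h.cur.mX h.cur.mY h.dd0 hV]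
  have h1 : c₀ * m.real (V ×ˢ univ) = ∫ _p in V ×ˢ univ, c₀ ∂m := by
    rw [setIntegral_const, smul_eq_mul, mul_comm]
  rw [h1]
  exact setIntegral_mono (integrable_const _).integrableOn (h.integ h.ddm h.bdd).integrableOn h.ddn

theorem Cx.e1 (h : Cx μ β κ L c R ρ K m X Y C₀ c₀ k s) (hk : 0 < k) {V : Set ℂ}
    (hVb : V ⊆ ball c R) (hV : MeasurableSet V) :
    c₀ / (2 * C₀) * ∫ t in V, (1 + ∑ i, ‖slo (X (t, s t i)) (Y (t, s t i))‖ ^ 2) ≤
      (maM C₀ m X Y V).toReal := by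
  have hfin := h.cur.fin
  have hC := h.C0
  set Φ : CC → ℝ := fun p => V.indicator (fun _ => (1 : ℝ)) p.1 * (1 + ‖slo (X p) (Y p)‖ ^ 2)
    with hΦ
  have hind : Measurable fun p : CC => V.indicator (fun _ => (1 : ℝ)) p.1 :=
    (measurable_const.indicator hV).comp measurable_fst
  have hind1 : ∀ t, |V.indicator (fun _ => (1 : ℝ)) t| ≤ 1 := by
    intro t
    by_cases ht : t ∈ V <;> simp [ht]
  have hΦm : Measurable Φ := hind.mul (measurable_const.add (h.mslo.norm.pow_const 2))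
  have hΦb : Bd c R ρ fun p => Φ p * hh (X p) (Y p) := by
    have h1 : (fun p => Φ p * hh (X p) (Y p)) = fun p => V.indicator (fun _ => (1 : ℝ)) p.1 *
        (hh (X p) (Y p) + ‖slo (X p) (Y p)‖ ^ 2 * hh (X p) (Y p)) := by
      funext p
      rw [hΦ]
      ring
    rw [h1]
    exact (Bd.of_le (M := 1) fun p => hind1 p.1).mul (h.bhh.add h.ebd)
  have hΦi : Integrable (fun p => Φ p * hh (X p) (Y p)) m := h.integ (hΦm.mul h.mhh) hΦb
  have h1 := h.dis Φ hΦm hΦi
  have h2 : ∫ t in V, (1 + ∑ i, ‖slo (X (t, s t i)) (Y (t, s t i))‖ ^ 2) ≤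
      ∫ z in ball c R, ∑ i, Φ (z, s z i) := by
    have h3 : (fun z => ∑ i, Φ (z, s z i)) =
        V.indicator fun z => ∑ i, (1 + ‖slo (X (z, s z i)) (Y (z, s z i))‖ ^ 2) := by
      funext z
      by_cases hz : z ∈ V <;> simp [hz, hΦ]
    have h4 : ∫ z in ball c R, ∑ i, Φ (z, s z i) =
        ∫ z in V, ∑ i, (1 + ‖slo (X (z, s z i)) (Y (z, s z i))‖ ^ 2) := by
      rw [h3, setIntegral_indicator hV, inter_eq_self_of_subset_right hVb]
    have h5 : IntegrableOn (fun z => ∑ i, ‖slo (X (z, s z i)) (Y (z, s z i))‖ ^ 2) V :=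
      h.eint.mono_set hVb
    have h6 : volume V ≠ ⊤ := ((measure_mono hVb).trans_lt measure_ball_lt_top).ne
    have h6' : IntegrableOn (fun _ : ℂ => (1 : ℝ)) V := integrableOn_const h6
    have h7 : IntegrableOn (fun z => ∑ i, Φ (z, s z i)) V := h1.1.mono_set hVb
    rw [h4]
    refine setIntegral_mono_on (h6'.add h5) ?_ hV fun t _ => ?_
    · refine h7.congr_fun (fun z hz => ?_) hV
      simp [hz, hΦ]
    · rw [Finset.sum_add_distrib]
      have h8 : (1 : ℝ) ≤ ∑ _i : Fin k, (1 : ℝ) := by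
        simp only [Finset.sum_const, Finset.card_univ, Fintype.card_fin, nsmul_eq_mul, mul_one]
        exact_mod_cast hk
      exact add_le_add h8 le_rfl
  have h9 : ∫ p, Φ p * hh (X p) (Y p) ∂m ≤ 2 * C₀ * m.real (V ×ˢ univ) := by
    have h10 : 2 * C₀ * m.real (V ×ˢ univ) =
        ∫ p, V.indicator (fun _ => (1 : ℝ)) p.1 * (2 * C₀) ∂m := by
      rw [integral_mul_const]
      have h11 : (fun p : CC => V.indicator (fun _ => (1 : ℝ)) p.1) =
          (V ×ˢ univ : Set CC).indicator fun _ => (1 : ℝ) := by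
        funext p
        by_cases hp : p.1 ∈ V <;> simp [hp, indicator]
      rw [h11, integral_indicator_const (1 : ℝ) (hV.prod MeasurableSet.univ), smul_eq_mul, mul_one,
        mul_comm]
    rw [h10]
    refine integral_mono hΦi (h.integ (hind.mul measurable_const)
      ((Bd.of_le (M := 1) fun p => hind1 p.1).mul
        (Bd.of_le (f := fun _ => 2 * C₀) (M := |2 * C₀|) fun _ => le_rfl))) fun p => ?_
    have h12 : 0 ≤ V.indicator (fun _ => (1 : ℝ)) p.1 :=
      indicator_nonneg (fun _ _ => zero_le_one) _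
    have h13 : (1 + ‖slo (X p) (Y p)‖ ^ 2) * hh (X p) (Y p) ≤ 2 * C₀ := by
      have := (h.pa p).en'
      have := (h.pa p).h1
      nlinarith
    calc Φ p * hh (X p) (Y p) =
        V.indicator (fun _ => (1 : ℝ)) p.1 * ((1 + ‖slo (X p) (Y p)‖ ^ 2) * hh (X p) (Y p)) := by
          rw [hΦ]
          ring
      _ ≤ _ := mul_le_mul_of_nonneg_left h13 h12
  have h14 : ∫ t in V, (1 + ∑ i, ‖slo (X (t, s t i)) (Y (t, s t i))‖ ^ 2) ≤
      2 * C₀ * m.real (V ×ˢ univ) := (h2.trans h1.2.ge).trans h9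
  calc c₀ / (2 * C₀) * ∫ t in V, (1 + ∑ i, ‖slo (X (t, s t i)) (Y (t, s t i))‖ ^ 2) ≤
      c₀ / (2 * C₀) * (2 * C₀ * m.real (V ×ˢ univ)) :=
        mul_le_mul_of_nonneg_left h14 (div_nonneg h.c0.le (by positivity))
    _ = c₀ * m.real (V ×ˢ univ) := by
      field_simp
    _ ≤ _ := h.low hV

end

end Crest.Agent.R235.WKBoxB_348
end

-- ▼ part R235/WKBox_348
section

/-!
Row 235 (S0364), PACKAGE REG, leaf BOXW (helper348): a box current gives a weak `k`-valued graph.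
`CylW_460.BOXW` is false for `k = 0` (`m = 0`: `WKG` is unsatisfiable), so this is `BOXW'`.
-/

set_option autoImplicit false

open MeasureTheory Metric Set Filter Complex
open scoped ContDiff Topology ComplexConjugate

namespace Crest.Agent.R235.WKBox_348

open Crest.Agent.R235.Loc Crest.Agent.R235.Cyl Crest.Agent.R235.WKG_460
open Crest.Agent.R235.WKBoxA_348 Crest.Agent.R235.WKBoxB_348

noncomputable section

/-- **BOXW'**: a box current gives a weak k-valued graph (`k ≥ 1`), or it is zero (`k = 0`). -/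
def BOXW' : Prop :=
  ∀ (μ β : CC → ℂ) (κ L : ℝ), SBox μ β κ L →
  ∀ (c : ℂ) (R ρ K : ℝ) (m : Measure CC) (X Y : CC → CC), BoxCur μ β c R ρ K m X Y → 0 < R →
  ∃ (k : ℕ) (s : ℂ → Fin k → ℂ) (A : ℂ → Fin k → (ℂ →L[ℝ] ℂ)) (ma : Measure ℂ) (K' c0 Mb C : ℝ),
    (0 < k → WKG μ β c R k s A ma K' c0 Mb) ∧ (k = 0 → m = 0) ∧
    (∀ᵐ z : ℂ, z ∈ ball c R → (fib m z).Finite ∧ Function.Injective (s z) ∧
      (∀ w, w ∈ fib m z ↔ ∃ i, s z i = w) ∧
      ∀ i, A z i = slo (X (z, s z i)) (Y (z, s z i))) ∧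
    (∀ E : Set ℂ, MeasurableSet E → E ⊆ ball c R → m.real (E ×ˢ univ) ≤ C * (ma E).toReal)

variable {μ β : CC → ℂ} {κ L K : ℝ} {c : ℂ} {R ρ : ℝ} {m : Measure CC} {X Y : CC → CC}
  {C₀ c₀ : ℝ} {k : ℕ} {s : ℂ → Fin k → ℂ}

/-- derivative of `χ(z) a(w)`, `a` real linear. -/
theorem fderiv_prod {χ : ℂ → ℝ} (hχ : ContDiff ℝ ∞ χ) (a : ℂ →L[ℝ] ℝ) (p v : CC) :
    fderiv ℝ (fun q : CC => χ q.1 * a q.2) p v = χ p.1 * a v.2 + fderiv ℝ χ p.1 v.1 * a p.2 := by
  have h1 : HasFDerivAt (fun q : CC => χ q.1)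
      ((fderiv ℝ χ p.1).comp (ContinuousLinearMap.fst ℝ ℂ ℂ)) p :=
    ((hχ.differentiable (by simp)) p.1).hasFDerivAt.comp p hasFDerivAt_fst
  have h2 : HasFDerivAt (fun q : CC => a q.2) (a.comp (ContinuousLinearMap.snd ℝ ℂ ℂ)) p :=
    a.hasFDerivAt.comp p hasFDerivAt_snd
  have h3 : HasFDerivAt (fun q : CC => χ q.1 * a q.2)
      (χ p.1 • a.comp (ContinuousLinearMap.snd ℝ ℂ ℂ) +
        a p.2 • (fderiv ℝ χ p.1).comp (ContinuousLinearMap.fst ℝ ℂ ℂ)) p := h1.mul h2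
  rw [h3.fderiv]
  simp
  ring

theorem contDiff_prod {χ : ℂ → ℝ} (hχ : ContDiff ℝ ∞ χ) (a : ℂ →L[ℝ] ℝ) :
    ContDiff ℝ 1 (fun q : CC => χ q.1 * a q.2) := by
  have h1 : ContDiff ℝ 1 χ := hχ.of_le (by exact_mod_cast le_top)
  exact (h1.comp contDiff_fst).mul (a.contDiff.comp contDiff_snd)

/-- the integrand of the calibration identity. -/
def ig (χ : ℂ → ℝ) (X Y : CC → CC) (p : CC) : ℝ :=
  fderiv ℝ χ p.1 1 * (conj p.2 * slo (X p) (Y p) I).im -
    fderiv ℝ χ p.1 I * (conj p.2 * slo (X p) (Y p) 1).im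

theorem _root_.Crest.Agent.R235.WKBoxB_348.Cx.kkf (h : Cx μ β κ L c R ρ K m X Y C₀ c₀ k s)
    (hc : CLO) {χ : ℂ → ℝ} (hχ : ContDiff ℝ ∞ χ) (hχc : HasCompactSupport χ)
    (hχs : tsupport χ ⊆ ball c R) :
    ∫ p, χ p.1 * kk (X p) (Y p) ∂m = - (1 / 2 * ∫ t in ball c R, ∑ i, ig χ X Y (t, s t i)) := by
  have hχ1 : ContDiff ℝ 1 χ := hχ.of_le (by exact_mod_cast le_top)
  have h0 : ∀ (a : ℂ →L[ℝ] ℝ) (p : CC), p.1 ∉ tsupport χ → χ p.1 * a p.2 = 0 := by
    intro a p hp
    rw [image_eq_zero_of_notMem_tsupport hp, zero_mul]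
  have hR := (hc μ β κ L h.bx c R ρ K m X Y h.cur _ (contDiff_prod hχ reCLM)
    ⟨tsupport χ, hχs, hχc, h0 reCLM⟩).2.2.1
  have hI := (hc μ β κ L h.bx c R ρ K m X Y h.cur _ (contDiff_prod hχ imCLM)
    ⟨tsupport χ, hχs, hχc, h0 imCLM⟩).2.2.2
  simp only [fderiv_prod hχ] at hR hI
  -- bounds
  obtain ⟨M, hM⟩ := hχc.exists_bound_of_continuous hχ.continuous
  obtain ⟨N, hN⟩ := (hχc.fderiv (𝕜 := ℝ)).exists_bound_of_continuous
    (hχ1.continuous_fderiv one_ne_zero)
  have bχ : Bd c R ρ fun p => χ p.1 := Bd.of_le (M := M) fun p => hM p.1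
  have bd : ∀ u : ℂ, Bd c R ρ fun p => fderiv ℝ χ p.1 u := fun u =>
    Bd.of_le (M := N * ‖u‖) fun p => ((fderiv ℝ χ p.1).le_opNorm u).trans
      (mul_le_mul_of_nonneg_right (hN p.1) (norm_nonneg _))
  have b1r : Bd c R ρ fun p => (V1 (X p) (Y p)).2.re := Bd.of_le (M := C₀) fun p =>
    (Complex.abs_re_le_norm _).trans (h.pa p).n1'
  have b1i : Bd c R ρ fun p => (V1 (X p) (Y p)).2.im := Bd.of_le (M := C₀) fun p =>
    (Complex.abs_im_le_norm _).trans (h.pa p).n1'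
  have bIr : Bd c R ρ fun p => (VI (X p) (Y p)).2.re := Bd.of_le (M := C₀) fun p =>
    (Complex.abs_re_le_norm _).trans (h.pa p).nI'
  have bIi : Bd c R ρ fun p => (VI (X p) (Y p)).2.im := Bd.of_le (M := C₀) fun p =>
    (Complex.abs_im_le_norm _).trans (h.pa p).nI'
  have mχ : Measurable fun p : CC => χ p.1 := hχ.continuous.measurable.comp measurable_fst
  have md : ∀ u : ℂ, Measurable fun p : CC => fderiv ℝ χ p.1 u := fun u =>
    ((ContinuousLinearMap.apply ℝ ℝ u).continuous.measurable).comp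
      ((hχ1.continuous_fderiv one_ne_zero).measurable.comp measurable_fst)
  have m1 : Measurable fun p => (V1 (X p) (Y p)).2 := (measurable_V1 h.cur.mX h.cur.mY).snd
  have mI : Measurable fun p => (VI (X p) (Y p)).2 := (measurable_VI h.cur.mX h.cur.mY).snd
  have mre : Measurable fun p : CC => p.2.re := Complex.measurable_re.comp measurable_snd
  have mim : Measurable fun p : CC => p.2.im := Complex.measurable_im.comp measurable_snd
  have mkk : Measurable fun p => kk (X p) (Y p) := measurable_kk h.cur.mX h.cur.mY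
  -- the three integrable functions
  have i0 : Integrable (fun p => χ p.1 * kk (X p) (Y p)) m := h.integ (mχ.mul mkk) (bχ.mul h.bkk)
  have i1 : Integrable (fun p => fderiv ℝ χ p.1 1 * p.2.re * (VI (X p) (Y p)).2.im -
      fderiv ℝ χ p.1 I * p.2.re * (V1 (X p) (Y p)).2.im) m :=
    h.integ ((((md 1).mul mre).mul (Complex.measurable_im.comp mI)).sub
      (((md I).mul mre).mul (Complex.measurable_im.comp m1)))
      ((((bd 1).mul Bd.re).mul bIi).sub (((bd I).mul Bd.re).mul b1i))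
  have i2 : Integrable (fun p => fderiv ℝ χ p.1 1 * p.2.im * (VI (X p) (Y p)).2.re -
      fderiv ℝ χ p.1 I * p.2.im * (V1 (X p) (Y p)).2.re) m :=
    h.integ ((((md 1).mul mim).mul (Complex.measurable_re.comp mI)).sub
      (((md I).mul mim).mul (Complex.measurable_re.comp m1)))
      ((((bd 1).mul Bd.im).mul bIr).sub (((bd I).mul Bd.im).mul b1r))
  have e1 : ∫ p, (fderiv ℝ χ p.1 1 * p.2.re * (VI (X p) (Y p)).2.im -
      fderiv ℝ χ p.1 I * p.2.re * (V1 (X p) (Y p)).2.im) ∂m +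
      ∫ p, χ p.1 * kk (X p) (Y p) ∂m = 0 := by
    rw [← integral_add i1 i0, ← hR]
    refine integral_congr_ae (Eventually.of_forall fun p => ?_)
    simp
  have e2 : ∫ p, (fderiv ℝ χ p.1 1 * p.2.im * (VI (X p) (Y p)).2.re -
      fderiv ℝ χ p.1 I * p.2.im * (V1 (X p) (Y p)).2.re) ∂m -
      ∫ p, χ p.1 * kk (X p) (Y p) ∂m = 0 := by
    rw [← integral_sub i2 i0, ← hI]
    refine integral_congr_ae (Eventually.of_forall fun p => ?_)
    simp
  -- the difference
  have h3 : ∀ p, ig χ X Y p * hh (X p) (Y p) =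
      (fderiv ℝ χ p.1 1 * p.2.re * (VI (X p) (Y p)).2.im -
        fderiv ℝ χ p.1 I * p.2.re * (V1 (X p) (Y p)).2.im) -
      (fderiv ℝ χ p.1 1 * p.2.im * (VI (X p) (Y p)).2.re -
        fderiv ℝ χ p.1 I * p.2.im * (V1 (X p) (Y p)).2.re) := by
    intro p
    rw [(h.pa p).vI_two, (h.pa p).v1_two, ig]
    simp only [Complex.mul_im, Complex.conj_re, Complex.conj_im, Complex.smul_re, Complex.smul_im,
      smul_eq_mul]
    ring
  have h4 : Integrable (fun p => ig χ X Y p * hh (X p) (Y p)) m :=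
    (i1.sub i2).congr (Eventually.of_forall fun p => (h3 p).symm)
  have mig : Measurable (ig χ X Y) := by
    have hconj : Measurable fun p : CC => conj p.2 :=
      (Complex.continuous_conj.measurable).comp measurable_snd
    exact ((md 1).mul (Complex.measurable_im.comp (hconj.mul (h.mslo1 I)))).sub
      ((md I).mul (Complex.measurable_im.comp (hconj.mul (h.mslo1 1))))
  have h5 := (h.dis _ mig h4).2
  have h6 : ∫ p, ig χ X Y p * hh (X p) (Y p) ∂m =
      ∫ p, (fderiv ℝ χ p.1 1 * p.2.re * (VI (X p) (Y p)).2.im -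
      fderiv ℝ χ p.1 I * p.2.re * (V1 (X p) (Y p)).2.im) ∂m -
      ∫ p, (fderiv ℝ χ p.1 1 * p.2.im * (VI (X p) (Y p)).2.re -
      fderiv ℝ χ p.1 I * p.2.im * (V1 (X p) (Y p)).2.re) ∂m := by
    rw [← integral_sub i1 i2]
    exact integral_congr_ae (Eventually.of_forall h3)
  rw [← h5]
  linarith

theorem _root_.Crest.Agent.R235.WKBoxB_348.Cx.hhf (h : Cx μ β κ L c R ρ K m X Y C₀ c₀ k s)
    {χ : ℂ → ℝ} (hχ : ContDiff ℝ ∞ χ) (hχc : HasCompactSupport χ) (hχs : tsupport χ ⊆ ball c R) :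
    ∫ p, χ p.1 * hh (X p) (Y p) ∂m = k * ∫ t, χ t := by
  obtain ⟨M, hM⟩ := hχc.exists_bound_of_continuous hχ.continuous
  have bχ : Bd c R ρ fun p => χ p.1 := Bd.of_le (M := M) fun p => hM p.1
  have mχ : Measurable fun p : CC => χ p.1 := hχ.continuous.measurable.comp measurable_fst
  rw [(h.dis _ mχ (h.integ (mχ.mul h.mhh) (bχ.mul h.bhh))).2]
  simp only [Finset.sum_const, Finset.card_univ, Fintype.card_fin, nsmul_eq_mul]
  rw [integral_const_mul, setIntegral_eq_integral_of_forall_compl_eq_zero]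
  intro t ht
  exact image_eq_zero_of_notMem_tsupport fun h1 => ht (hχs h1)

theorem _root_.Crest.Agent.R235.WKBoxB_348.Cx.e2 (h : Cx μ β κ L c R ρ K m X Y C₀ c₀ k s)
    (hc : CLO) {χ : ℂ → ℝ} (hχ : ContDiff ℝ ∞ χ) (hχc : HasCompactSupport χ)
    (hχs : tsupport χ ⊆ ball c R) :
    ∫ t, χ t ∂(maM C₀ m X Y) = (k * C₀ * ∫ t, χ t) -
      1 / 2 * ∫ t in ball c R, ∑ i, ig χ X Y (t, s t i) := by
  obtain ⟨M, hM⟩ := hχc.exists_bound_of_continuous hχ.continuous
  have bχ : Bd c R ρ fun p => χ p.1 := Bd.of_le (M := M) fun p => hM p.1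
  have mχ : Measurable fun p : CC => χ p.1 := hχ.continuous.measurable.comp measurable_fst
  rw [maM_integral h.cur.mX h.cur.mY h.dd0 hχ.continuous.measurable]
  have h1 : ∫ p, χ p.1 * dd C₀ X Y p ∂m = ∫ p, χ p.1 * kk (X p) (Y p) ∂m +
      C₀ * ∫ p, χ p.1 * hh (X p) (Y p) ∂m := by
    have i1 : Integrable (fun p => χ p.1 * kk (X p) (Y p)) m :=
      h.integ (mχ.mul (measurable_kk h.cur.mX h.cur.mY)) (bχ.mul h.bkk)
    have i2 : Integrable (fun p => χ p.1 * hh (X p) (Y p)) m :=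
      h.integ (mχ.mul h.mhh) (bχ.mul h.bhh)
    rw [← integral_const_mul, ← integral_add i1 (i2.const_mul _)]
    refine integral_congr_ae (Eventually.of_forall fun p => ?_)
    simp only [dd]
    ring
  rw [h1, h.kkf hc hχ hχc hχs, h.hhf hχ hχc hχs]
  ring

theorem _root_.Crest.Agent.R235.WKBoxB_348.Cx.mass (h : Cx μ β κ L c R ρ K m X Y C₀ c₀ k s)
    {E : Set ℂ} (hE : MeasurableSet E) :
    m.real (E ×ˢ univ) ≤ c₀⁻¹ * (maM C₀ m X Y E).toReal := by
  rw [← div_eq_inv_mul, le_div_iff₀ h.c0, mul_comm]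
  exact h.low hE

/-- the case `k = 0`. -/
theorem _root_.Crest.Agent.R235.WKBoxB_348.Cx.zero (h : Cx μ β κ L c R ρ K m X Y C₀ c₀ k s)
    (hc : CLO) (hk : k = 0) (hR : 0 < R) : m = 0 := by
  have hfin := h.cur.fin
  have hmf := h.mafin
  have key : ∀ r : ℝ, 0 < r → r < R → m (closedBall c r ×ˢ univ) = 0 := by
    intro r hr hrR
    let χ : ContDiffBump c := ⟨r, (r + R) / 2, hr, by linarith⟩
    have hχs : tsupport (χ : ℂ → ℝ) ⊆ ball c R := by
      rw [χ.tsupport_eq]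
      exact closedBall_subset_ball (by change (r + R) / 2 < R; linarith)
    have h1 := h.e2 hc χ.contDiff χ.hasCompactSupport hχs
    have h2 : ∫ t in ball c R, ∑ i, ig χ X Y (t, s t i) = 0 := by
      subst hk
      simp
    rw [h2, hk] at h1
    have h3 : ∫ t, χ t ∂(maM C₀ m X Y) = 0 := by rw [h1]; simp
    have h4 : (maM C₀ m X Y).real (closedBall c r) ≤ 0 := by
      rw [← h3]
      have h5 : (maM C₀ m X Y).real (closedBall c r) =
          ∫ t, (closedBall c r).indicator (fun _ => (1 : ℝ)) t ∂(maM C₀ m X Y) := by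
        rw [integral_indicator_const (1 : ℝ) measurableSet_closedBall, smul_eq_mul, mul_one]
      rw [h5]
      refine integral_mono ?_ ?_ fun t => ?_
      · exact (integrable_const _).indicator measurableSet_closedBall
      · refine Integrable.of_bound χ.continuous.aestronglyMeasurable 1 (Eventually.of_forall ?_)
        intro t
        rw [Real.norm_of_nonneg χ.nonneg]
        exact χ.le_one
      · by_cases ht : t ∈ closedBall c r
        · rw [indicator_of_mem ht, χ.one_of_mem_closedBall ht]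
        · rw [indicator_of_notMem ht]
          exact χ.nonneg
    have h6 : m.real (closedBall c r ×ˢ univ) ≤ 0 := by
      refine (h.mass measurableSet_closedBall).trans ?_
      exact mul_nonpos_of_nonneg_of_nonpos (inv_nonneg.2 h.c0.le) h4
    exact (measureReal_eq_zero_iff).1 (le_antisymm h6 measureReal_nonneg)
  have h1 : ∀ n : ℕ, ∀ᵐ p ∂m, p ∉ closedBall c (R - R / (n + 2)) ×ˢ (univ : Set ℂ) := by
    intro n
    have hn : (0 : ℝ) < n + 2 := by positivity
    have h2 : R / (n + 2) < R := by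
      rw [div_lt_iff₀ hn]
      nlinarith [(Nat.cast_nonneg n : (0 : ℝ) ≤ n)]
    exact measure_eq_zero_iff_ae_notMem.1 (key _ (by linarith) (by
      have : 0 < R / (n + 2) := div_pos hR hn
      linarith))
  rw [← ae_all_iff] at h1
  have h2 : ∀ᵐ _p ∂m, False := by
    filter_upwards [h1, h.cur.supp] with p h3 h4
    have h5 : 0 < R - dist p.1 c := sub_pos.2 (mem_ball.1 h4.1)
    obtain ⟨n, hn⟩ := exists_nat_gt (R / (R - dist p.1 c))
    refine h3 n ⟨?_, mem_univ _⟩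
    rw [mem_closedBall]
    have h6 : R / (n + 2) ≤ R - dist p.1 c := by
      rw [div_le_iff₀ (by positivity)]
      rw [div_lt_iff₀ h5] at hn
      nlinarith
    linarith
  exact ae_eq_bot.1 (eventually_false_iff_eq_bot.1 h2)

/-- **BOXW'.** -/
theorem boxw' (h0 : ALG0) (hc : CLO) (hg : GOODZ) (hs : SPLIT) (hd : DISI) : BOXW' := by
  intro μ β κ L hbx c R ρ K m X Y hb hR
  obtain ⟨C₀, c₀, hc0, hC0, halg⟩ := h0 κ L K hbx.box.κ0 hbx.box.κ1 hbx.box.L0
  have hpa : ∀ p, PA μ β C₀ c₀ p (X p) (Y p) := by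
    intro p
    have h1 := halg μ β hbx p (X p) (Y p) (hb.nX p) (hb.nY p) (hb.jz p) (hb.jw p)
    exact ⟨h1.1, h1.2.1, h1.2.2.1, h1.2.2.2.1, h1.2.2.2.2.1, h1.2.2.2.2.2.1, h1.2.2.2.2.2.2.1,
      h1.2.2.2.2.2.2.2.1, fun h2 => (h1.2.2.2.2.2.2.2.2.2.2 h2).1,
      fun h2 => (h1.2.2.2.2.2.2.2.2.2.2 h2).2⟩
  obtain ⟨k, s, hen⟩ := exists_en hg hs hbx hb hR
  have h : Cx μ β κ L c R ρ K m X Y C₀ c₀ k s :=
    ⟨hbx, hb, hc0, hC0, hpa, hen, fun Φ h1 h2 => disi hd hbx hb hen h1 h2⟩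
  have hmf := h.mafin
  refine ⟨k, s, fun t i => slo (X (t, s t i)) (Y (t, s t i)), maM C₀ m X Y, C₀, c₀ / (2 * C₀),
    max ρ 0, c₀⁻¹, fun hk => ?_, fun hk => h.zero hc hk hR, ?_, fun E hE _ => h.mass hE⟩
  · exact
    { K0 := hC0.le
      c0pos := by positivity
      smeas := hen.meas
      Ameas := fun i => h.mslo.comp (measurable_id.prodMk (hen.meas i))
      bdd := hen.bdd
      inj := hen.good.mono fun z hz => hz.2.1
      eint := h.eint
      weak := fun Φ hΦ u hu => h.weak hc Φ hΦ u hu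
      pde := hen.good.mono fun z hz i => (hpa _).pde (hz.2.2.2 i)
      mfin := measure_ne_top _ _
      e1 := fun V hVb hV => h.e1 hk hVb hV
      e2 := fun χ h1 h2 h3 => h.e2 hc h1 h2 h3 }
  · have h1 := hen.good
    rw [ae_restrict_iff' measurableSet_ball] at h1
    filter_upwards [h1] with z hz hzb
    exact ⟨(hz hzb).1, (hz hzb).2.1, (hz hzb).2.2.1, fun i => rfl⟩

end

end Crest.Agent.R235.WKBox_348
end

-- ▼ part R235/WKOut1_734
section

/-!
Row 235 (S0364), REG-CYL-2, EXPORT part 1 (helper734): `Cyl.DECAY` and `Cyl.REPR` from `BOXW'`,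
`DEC`, `HREP`.
-/

set_option autoImplicit false

open MeasureTheory Metric Set Filter Complex
open scoped ContDiff Topology ComplexConjugate

namespace Crest.Agent.R235.WKOut1_734

open Crest.Agent.R235.Loc Crest.Agent.R235.Cyl Crest.Agent.R235.WKG_460
open Crest.Agent.R235.CylExt_463

noncomputable section

/-- `BOXW'` (the same text as helper348's `WKBox_348.BOXW'`). -/
def BOXW1 : Prop :=
  ∀ (μ β : CC → ℂ) (κ L : ℝ), SBox μ β κ L →
  ∀ (c : ℂ) (R ρ K : ℝ) (m : Measure CC) (X Y : CC → CC), BoxCur μ β c R ρ K m X Y → 0 < R →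
  ∃ (k : ℕ) (s : ℂ → Fin k → ℂ) (A : ℂ → Fin k → (ℂ →L[ℝ] ℂ)) (ma : Measure ℂ) (K' c0 Mb C : ℝ),
    (0 < k → WKG μ β c R k s A ma K' c0 Mb) ∧ (k = 0 → m = 0) ∧
    (∀ᵐ z : ℂ, z ∈ ball c R → (fib m z).Finite ∧ Function.Injective (s z) ∧
      (∀ w, w ∈ fib m z ↔ ∃ i, s z i = w) ∧
      ∀ i, A z i = slo (X (z, s z i)) (Y (z, s z i))) ∧
    (∀ E : Set ℂ, MeasurableSet E → E ⊆ ball c R → m.real (E ×ˢ univ) ≤ C * (ma E).toReal)

lemma fib_zero {m : Measure CC} (h : m = 0) (z : ℂ) : fib m z = ∅ := by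
  ext w
  simp only [fib, InSupp, h, mem_ofPred_eq, mem_empty_iff_false, iff_false, not_forall]
  exact ⟨1, one_pos, by simp⟩

lemma en_zero {m : Measure CC} {X Y : CC → CC} (h : m = 0) (z : ℂ) : en m X Y z = 0 := by
  simp [en, FS, fib_zero h]

lemma en_eq {m : Measure CC} {X Y : CC → CC} {k : ℕ} {s : ℂ → Fin k → ℂ}
    {A : ℂ → Fin k → (ℂ →L[ℝ] ℂ)} {z : ℂ} (hi : Function.Injective (s z))
    (hf : ∀ w, w ∈ fib m z ↔ ∃ i, s z i = w)
    (hA : ∀ i, A z i = slo (X (z, s z i)) (Y (z, s z i))) :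
    en m X Y z = ∑ i, ‖A z i‖ ^ 2 := by
  have e : fib m z = range (s z) := by
    ext w
    rw [hf, mem_range]
  unfold en FS
  rw [e, finsum_mem_range hi, finsum_eq_sum_of_fintype]
  exact Finset.sum_congr rfl fun i _ => by rw [hA i]

/-- **C12.** -/
theorem decay_of (hB : BOXW1)
    (hD : ∀ (μ β : ℂ × ℂ → ℂ) (c : ℂ) (R : ℝ) (k : ℕ) (s : ℂ → Fin k → ℂ)
      (A : ℂ → Fin k → (ℂ →L[ℝ] ℂ)) (ma : Measure ℂ) (K c0 Mb : ℝ), DEC μ β c R k s A ma K c0 Mb) :
    Cyl.DECAY := by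
  intro μ β κ L hbox c R ρ K m X Y hcur R' hR'
  rcases le_or_gt R 0 with hR0 | hR0
  · refine ⟨0, 1 / 2, (R - R') / 2, le_rfl, by norm_num, by norm_num, by linarith, by linarith, ?_⟩
    intro z₀ hz₀
    rw [closedBall_eq_empty.2 (by linarith)] at hz₀
    exact absurd hz₀ (notMem_empty _)
  obtain ⟨k, s, A, ma, K', c0, Mb, C1, hW, hm, hae, hmass⟩ := hB μ β κ L hbox c R ρ K m X Y hcur hR0
  rcases Nat.eq_zero_or_pos k with hk | hk
  · have hm0 := hm hk
    refine ⟨0, 1 / 2, (R - R') / 2, le_rfl, by norm_num, by norm_num, by linarith, by linarith, ?_⟩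
    intro z₀ _ r _ _
    rw [zero_mul]
    refine ⟨?_, ?_⟩
    · rw [hm0]; simp
    · simp [en_zero hm0]
  have W := hW hk
  obtain ⟨C, b, r0, hC, hb0, hb1, hr0, hRr, hdec⟩ := hD μ β c R k s A ma K' c0 Mb W R' hR'
  refine ⟨max C1 0 * C + C, b, r0, by positivity, hb0, hb1, hr0, hRr, ?_⟩
  intro z₀ hz₀ r hr hrr
  obtain ⟨h1, h2⟩ := hdec z₀ hz₀ r hr hrr
  have hsub : closedBall z₀ r ⊆ ball c R := by
    refine closedBall_subset_ball' ?_
    rw [mem_closedBall] at hz₀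
    linarith
  have hrb : 0 < r ^ (2 * b) := Real.rpow_pos_of_pos hr _
  constructor
  · calc m.real (closedBall z₀ r ×ˢ univ) ≤ C1 * (ma (closedBall z₀ r)).toReal :=
          hmass _ measurableSet_closedBall hsub
      _ ≤ max C1 0 * (ma (closedBall z₀ r)).toReal :=
          mul_le_mul_of_nonneg_right (le_max_left _ _) ENNReal.toReal_nonneg
      _ ≤ max C1 0 * (C * r ^ (2 * b)) := mul_le_mul_of_nonneg_left h1 (le_max_right _ _)
      _ ≤ (max C1 0 * C + C) * r ^ (2 * b) := by nlinarith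
  · have e : ∫ z in ball z₀ r, en m X Y z = ∫ z in ball z₀ r, ∑ i, ‖A z i‖ ^ 2 := by
      refine setIntegral_congr_ae measurableSet_ball ?_
      filter_upwards [hae] with z hz hzb
      obtain ⟨-, hi, hf, hA⟩ := hz (hsub (ball_subset_closedBall hzb))
      exact en_eq hi hf hA
    rw [e]
    calc ∫ z in ball z₀ r, ∑ i, ‖A z i‖ ^ 2 ≤ C * r ^ (2 * b) := h2
      _ ≤ (max C1 0 * C + C) * r ^ (2 * b) := by
          have : 0 ≤ max C1 0 * C := by positivity
          nlinarith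

/-- a matching up to a permutation gives the same multiset. -/
lemma map_perm {k : ℕ} {f g : Fin k → ℂ} {τ : Equiv.Perm (Fin k)} (h : ∀ i, f i = g (τ i)) :
    Multiset.map f Finset.univ.val = Multiset.map g Finset.univ.val := by
  have e : f = g ∘ τ := funext h
  have h5 : (Finset.univ : Finset (Fin k)).val = Multiset.map τ Finset.univ.val := by
    rw [← Equiv.coe_toEmbedding, ← Finset.map_val, Finset.map_univ_equiv]
  conv_rhs => rw [h5, Multiset.map_map]
  rw [e]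

/-- **C14.** -/
theorem repr_of (hB : BOXW1)
    (hH : ∀ (μ β : ℂ × ℂ → ℂ) (c : ℂ) (R : ℝ) (k : ℕ) (s : ℂ → Fin k → ℂ)
      (A : ℂ → Fin k → (ℂ →L[ℝ] ℂ)) (ma : Measure ℂ) (K c0 Mb : ℝ), HREP μ β c R k s A ma K c0 Mb) :
    Cyl.REPR := by
  intro μ β κ L hbox c R ρ K m X Y hcur hR0
  obtain ⟨k, s, A, ma, K', c0, Mb, C1, hW, hm, hae, hmass⟩ := hB μ β κ L hbox c R ρ K m X Y hcur hR0
  rcases Nat.eq_zero_or_pos k with hk | hk
  · have hm0 := hm hk
    refine ⟨0, fun _ => 0, fun _ _ => rfl, fun R' _ => ⟨0, 1, le_rfl, one_pos, ?_⟩, ?_⟩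
    · intro z _ z' _
      exact Multiset.Rel.zero
    · refine ae_of_all _ fun z _ => ⟨Multiset.nodup_zero, fun w => ?_⟩
      rw [fib_zero hm0]
      simp
  have W := hW hk
  -- the radii
  set Rn : ℕ → ℝ := fun n => R - R / (n + 2) with hRn
  have hRnlt : ∀ n, Rn n < R := fun n => by
    have : 0 < R / ((n : ℝ) + 2) := by positivity
    simp only [hRn]; linarith
  have hRnlim : ∀ x < R, ∃ n, x < Rn n := by
    intro x hx
    obtain ⟨n, hn⟩ := exists_nat_gt (R / (R - x))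
    refine ⟨n, ?_⟩
    have h1 : 0 < R - x := by linarith
    have h2 : R < n * (R - x) := (div_lt_iff₀ h1).1 hn
    have h3 : R / ((n : ℝ) + 2) < R - x := by
      rw [div_lt_iff₀ (by positivity)]
      nlinarith
    simp only [hRn]; linarith
  have hH' := fun n => hH μ β c R k s A ma K' c0 Mb W (Rn n) (hRnlt n)
  choose C b r0 s' hC hb0 hb1 hr0 hs1 hs2 using hH'
  set G : Set ℂ := {x | ∀ n, x ∈ ball c (Rn n) → ∃ τ : Equiv.Perm (Fin k), ∀ i,
    s' n x i = s x (τ i)} with hG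
  have hGae : ∀ᵐ x : ℂ, x ∈ G := by
    rw [hG]
    simp only [mem_ofPred_eq]
    rw [ae_all_iff]
    intro n
    exact (ae_restrict_iff' measurableSet_ball).1 (hs1 n)
  set V : ℂ → Multiset ℂ := fun x => Multiset.map (s x) Finset.univ.val with hV
  have hVcard : ∀ x, (V x).card = k := fun x => by simp [hV]
  have hGnull : volume (ball c R \ G) = 0 := by
    rw [measure_eq_zero_iff_ae_notMem]
    filter_upwards [hGae] with x hx h
    exact h.2 hx
  have hnear : ∀ n, ∀ x ∈ G, ∀ y ∈ G, x ∈ ball c (Rn n) → y ∈ ball c (Rn n) → dist x y < r0 n →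
      Close (C n * dist x y ^ b n) (V x) (V y) := by
    intro n x hx y hy hxb hyb hd
    obtain ⟨τ, hτ⟩ := hs2 n x hxb y hyb hd
    obtain ⟨τ1, hτ1⟩ := hx n hxb
    obtain ⟨τ2, hτ2⟩ := hy n hyb
    have e1 : V x = Multiset.map (s' n x) Finset.univ.val := (map_perm hτ1).symm
    have e2 : V y = Multiset.map (s' n y) Finset.univ.val := (map_perm hτ2).symm
    rw [e1, e2]
    exact close_iff_perm.2 ⟨τ, fun i => by rw [dist_eq_norm]; exact hτ i⟩
  obtain ⟨S, hS1, hS2, -, -, hS5⟩ := c14 (c := c) (R := R) (k := k) (G := G) V hGnull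
    (fun x _ => hVcard x) (by
      intro p hp
      obtain ⟨n, hn⟩ := hRnlim (dist p c) (by simpa using hp)
      refine ⟨C n, b n, min (r0 n / 2) (Rn n - dist p c), hC n, hb0 n,
        lt_min (by have := hr0 n; linarith) (by linarith), ?_⟩
      intro x hx hxp y hy hyp
      have hx1 := lt_of_lt_of_le hxp (min_le_left _ _)
      have hx2 := lt_of_lt_of_le hxp (min_le_right _ _)
      have hy1 := lt_of_lt_of_le hyp (min_le_left _ _)
      have hy2 := lt_of_lt_of_le hyp (min_le_right _ _)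
      refine hnear n x hx y hy ?_ ?_ ?_
      · rw [mem_ball]
        have := dist_triangle x p c
        linarith
      · rw [mem_ball]
        have := dist_triangle y p c
        linarith
      · have := dist_triangle_right x y p
        linarith)
  refine ⟨k, S, hS2, ?_, ?_⟩
  · intro R' hR'
    rcases le_or_gt R' 0 with h0 | h0
    · refine ⟨0, 1, le_rfl, one_pos, ?_⟩
      intro z hz
      rw [ball_eq_empty.2 h0] at hz
      exact absurd hz (notMem_empty _)
    obtain ⟨n, hn⟩ := hRnlim R' hR'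
    have hr0n := hr0 n
    have hrb : 0 < r0 n ^ b n := Real.rpow_pos_of_pos hr0n _
    refine ⟨C n + 2 * |Mb| / r0 n ^ b n, b n, by have := hC n; positivity, hb0 n, ?_⟩
    refine hS5 c R' _ (b n) (hb0 n) (ball_subset_ball hR'.le) ?_
    intro x hx hxc y hy hyc
    have hdb : 0 ≤ dist x y ^ b n := by positivity
    rcases lt_or_ge (dist x y) (r0 n) with hd | hd
    · refine close_mono (hnear n x hx y hy (by rw [mem_ball]; linarith)
        (by rw [mem_ball]; linarith) hd) ?_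
      have : 0 ≤ 2 * |Mb| / r0 n ^ b n * dist x y ^ b n := by positivity
      nlinarith
    · refine close_mono (close_labels (ε := 2 * |Mb|) fun i => ?_) ?_
      · rw [dist_eq_norm]
        have h1 := W.bdd x i
        have h2 := W.bdd y i
        have h3 := norm_sub_le (s x i) (s y i)
        have h4 := le_abs_self Mb
        linarith
      · have h1 : r0 n ^ b n ≤ dist x y ^ b n := Real.rpow_le_rpow hr0n.le hd (hb0 n).le
        have h2 : 2 * |Mb| ≤ 2 * |Mb| / r0 n ^ b n * dist x y ^ b n := by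
          rw [div_mul_eq_mul_div, le_div_iff₀ hrb]
          exact mul_le_mul_of_nonneg_left h1 (by positivity)
        have h3 : 0 ≤ C n * dist x y ^ b n := mul_nonneg (hC n) hdb
        nlinarith
  · filter_upwards [hGae, hae] with z hz hz2 hzb
    obtain ⟨-, hi, hf, -⟩ := hz2 hzb
    rw [hS1 z hzb hz]
    refine ⟨Multiset.Nodup.map hi Finset.univ.nodup, fun w => ?_⟩
    rw [hf]
    simp [hV]

end

end Crest.Agent.R235.WKOut1_734
end

-- ▼ part R235/CylAlg_895

/-!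
Row 235 (S0364), PACKAGE REG, sub-block CYL, leaf C0 (task 277): pointwise algebra of `J`-planes in a
box.  Main result `alg0 : ALG0`.  Exports: `hh_eq` (`(1-|μ|²) h = |θ_z X|²`), `hh_nonneg`,
`norm_fst_sq_le`, `V1_eq`, `VI_eq`, `slo_apply`, `lzb_slo`, ...
-/

set_option autoImplicit false

open Complex
open Crest.Agent.R235.Loc Crest.Agent.R235.Cyl

namespace Crest.Agent.R235.CylAlg_895

/-- `(1 - |m|²) Im (x̄ y) = |x + m x̄|²` if `y + m ȳ = i (x + m x̄)`. -/
theorem key_hh (m x y : ℂ)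
    (h : y + m * (starRingEnd ℂ) y = I * (x + m * (starRingEnd ℂ) x)) :
    (1 - ‖m‖ ^ 2) * (x.re * y.im - y.re * x.im) = ‖x + m * (starRingEnd ℂ) x‖ ^ 2 := by
  have hre := congrArg Complex.re h
  have him := congrArg Complex.im h
  rw [← Complex.normSq_eq_norm_sq, ← Complex.normSq_eq_norm_sq, Complex.normSq_apply,
    Complex.normSq_apply]
  simp only [Complex.add_re, Complex.add_im, Complex.mul_re, Complex.mul_im, Complex.conj_re,
    Complex.conj_im, Complex.I_re, Complex.I_im] at hre him ⊢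
  linear_combination (x.re + (m.re * x.re - m.im * -x.im)) * him
    - (x.im + (m.re * -x.im + m.im * x.re)) * hre

/-- `|x| (1-κ) ≤ |x + m x̄|`. -/
theorem norm_le_of (m x : ℂ) {κ : ℝ} (hm : ‖m‖ ≤ κ) :
    (1 - κ) * ‖x‖ ≤ ‖x + m * (starRingEnd ℂ) x‖ := by
  have h1 : ‖x‖ ≤ ‖x + m * (starRingEnd ℂ) x‖ + ‖m * (starRingEnd ℂ) x‖ := by
    calc ‖x‖ = ‖(x + m * (starRingEnd ℂ) x) - m * (starRingEnd ℂ) x‖ := by
          congr 1; ring
      _ ≤ _ := norm_sub_le _ _
  rw [norm_mul, Complex.norm_conj] at h1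
  have h2 : ‖m‖ * ‖x‖ ≤ κ * ‖x‖ := by gcongr
  linarith

theorem V1_eq (X Y : CC) : V1 X Y = (((hh X Y : ℝ) : ℂ), (V1 X Y).2) := by
  apply Prod.ext
  · apply Complex.ext
    · simp [V1, hh]; ring
    · simp [V1, mul_comm]
  · rfl

theorem VI_eq (X Y : CC) : VI X Y = (I * ((hh X Y : ℝ) : ℂ), (VI X Y).2) := by
  apply Prod.ext
  · apply Complex.ext
    · simp [VI, mul_comm]
    · simp [VI, hh]
  · rfl

theorem V1_snd (X Y : CC) : (V1 X Y).2 = Y.1.im • X.2 - X.1.im • Y.2 := rfl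

theorem VI_snd (X Y : CC) : (VI X Y).2 = X.1.re • Y.2 - Y.1.re • X.2 := rfl

theorem slo_apply (X Y : CC) (ζ : ℂ) :
    slo X Y ζ = (hh X Y)⁻¹ • (ζ.re • (V1 X Y).2 + ζ.im • (VI X Y).2) := by
  simp [slo]

theorem slo_one (X Y : CC) : slo X Y 1 = (hh X Y)⁻¹ • (V1 X Y).2 := by
  rw [slo_apply]; simp

theorem slo_I (X Y : CC) : slo X Y I = (hh X Y)⁻¹ • (VI X Y).2 := by
  rw [slo_apply]; simp

theorem norm_slo_le {X Y : CC} (h : 0 < hh X Y) :
    ‖slo X Y‖ ≤ (hh X Y)⁻¹ * (‖(V1 X Y).2‖ + ‖(VI X Y).2‖) := by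
  refine (slo X Y).opNorm_le_bound (by positivity) (fun ζ => ?_)
  rw [slo_apply, norm_smul, Real.norm_of_nonneg (by positivity : (0 : ℝ) ≤ (hh X Y)⁻¹), mul_assoc]
  have h1 : ‖ζ.re • (V1 X Y).2 + ζ.im • (VI X Y).2‖ ≤ (‖(V1 X Y).2‖ + ‖(VI X Y).2‖) * ‖ζ‖ := by
    refine (norm_add_le _ _).trans ?_
    rw [norm_smul, norm_smul, Real.norm_eq_abs, Real.norm_eq_abs]
    have ha := Complex.abs_re_le_norm ζ
    have hb := Complex.abs_im_le_norm ζ
    calc |ζ.re| * ‖(V1 X Y).2‖ + |ζ.im| * ‖(VI X Y).2‖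
        ≤ ‖ζ‖ * ‖(V1 X Y).2‖ + ‖ζ‖ * ‖(VI X Y).2‖ := by gcongr
      _ = (‖(V1 X Y).2‖ + ‖(VI X Y).2‖) * ‖ζ‖ := by ring
  gcongr

section Plane

variable {μ β : CC → ℂ} {κ L K : ℝ} {p X Y : CC}

/-- `(1 - |μ|²) h = |θ_z X|²`. -/
theorem hh_eq (hz : thz μ p Y = I * thz μ p X) :
    (1 - ‖μ p‖ ^ 2) * hh X Y = ‖thz μ p X‖ ^ 2 :=
  key_hh (μ p) X.1 Y.1 hz

/-- the slope of a nonvertical `J`-plane solves the equation. -/
theorem lzb_slo (hz : thz μ p Y = I * thz μ p X) (hw : thw β p Y = I * thw β p X)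
    (h : 0 < hh X Y) : lzb (slo X Y) = μ p * lz (slo X Y) - β p := by
  have hne : ((hh X Y : ℝ) : ℂ) ≠ 0 := by exact_mod_cast h.ne'
  have hx : (starRingEnd ℂ) X.1 = (X.1.re : ℂ) - (X.1.im : ℂ) * I := by
    apply Complex.ext <;> simp
  have hy : (starRingEnd ℂ) Y.1 = (Y.1.re : ℂ) - (Y.1.im : ℂ) * I := by
    apply Complex.ext <;> simp
  have hx' : X.1 = (X.1.re : ℂ) + (X.1.im : ℂ) * I := (Complex.re_add_im _).symm
  have hy' : Y.1 = (Y.1.re : ℂ) + (Y.1.im : ℂ) * I := (Complex.re_add_im _).symm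
  have halg : Y.2 * (X.1 + μ p * (starRingEnd ℂ) X.1) - X.2 * (Y.1 + μ p * (starRingEnd ℂ) Y.1)
      = β p * ((starRingEnd ℂ) X.1 * Y.1 - X.1 * (starRingEnd ℂ) Y.1) := by
    unfold thz at hz
    unfold thw at hw
    linear_combination (X.1 + μ p * (starRingEnd ℂ) X.1) * hw - X.2 * hz
      - β p * (starRingEnd ℂ) X.1 * hz
  have hhc : ((hh X Y : ℝ) : ℂ) = (X.1.re : ℂ) * Y.1.im - (Y.1.re : ℂ) * X.1.im := by
    unfold hh; push_cast; ring
  have hI : I * I = -1 := Complex.I_mul_I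
  have goal' : (((Y.1.im : ℂ) * X.2 - (X.1.im : ℂ) * Y.2)
        + I * ((X.1.re : ℂ) * Y.2 - (Y.1.re : ℂ) * X.2))
      = μ p * (((Y.1.im : ℂ) * X.2 - (X.1.im : ℂ) * Y.2)
        - I * ((X.1.re : ℂ) * Y.2 - (Y.1.re : ℂ) * X.2)) - 2 * ((hh X Y : ℝ) : ℂ) * β p := by
    rw [hhc]
    rw [hx, hy] at halg
    generalize hx1 : (X.1.re : ℂ) = x1 at *
    generalize hx2 : (X.1.im : ℂ) = x2 at *
    generalize hy1 : (Y.1.re : ℂ) = y1 at *
    generalize hy2 : (Y.1.im : ℂ) = y2 at *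
    rw [hx', hy'] at halg
    linear_combination I * halg + (-x2 * Y.2 + y2 * X.2 + μ p * (x2 * Y.2 - y2 * X.2)
      + 2 * (x1 * y2 - y1 * x2) * β p) * hI
  unfold lz lzb
  rw [slo_one, slo_I, V1_snd, VI_snd]
  simp only [Complex.real_smul, Complex.ofReal_inv]
  field_simp
  linear_combination goal'

theorem sq_add_le (a b : ℝ) : (a + b) ^ 2 ≤ 2 * a ^ 2 + 2 * b ^ 2 := by
  nlinarith [sq_nonneg (a - b)]

set_option maxHeartbeats 1000000 in
/-- LOC-C0 with explicit constants. -/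
theorem alg0_aux (hκ0 : 0 ≤ κ) (hκ1 : κ < 1) (hL : 0 ≤ L) (hm : ‖μ p‖ ≤ κ) (hb : ‖β p‖ ≤ L)
    (nX : ‖X‖ = 1) (nY : ‖Y‖ ≤ K)
    (hz : thz μ p Y = I * thz μ p X) (hw : thw β p Y = I * thw β p X) :
    0 ≤ hh X Y ∧ hh X Y ≤ K ∧ |kk X Y| ≤ K ∧
    1 / 4 ≤ kk X Y + (4 * L ^ 2 + 1) * (1 / (1 - κ) ^ 2) * hh X Y ∧
    ‖(V1 X Y).2‖ ^ 2 ≤ (2 + 2 * K ^ 2) * (1 / (1 - κ) ^ 2) * hh X Y ∧
    ‖(VI X Y).2‖ ^ 2 ≤ (2 + 2 * K ^ 2) * (1 / (1 - κ) ^ 2) * hh X Y ∧
    ‖X.1‖ ^ 2 ≤ (1 / (1 - κ) ^ 2) * hh X Y ∧ ‖Y.1‖ ^ 2 ≤ (1 / (1 - κ) ^ 2) * hh X Y ∧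
    (0 < hh X Y → ‖slo X Y‖ ^ 2 * hh X Y ≤ 8 * (1 + K ^ 2) * (1 / (1 - κ) ^ 2)) := by
  have hκ' : 0 < 1 - κ := by linarith
  have hK : 0 ≤ K := (norm_nonneg Y).trans nY
  have hX1 : ‖X.1‖ ≤ 1 := by rw [← nX]; exact norm_fst_le X
  have hX2 : ‖X.2‖ ≤ 1 := by rw [← nX]; exact norm_snd_le X
  have hY1 : ‖Y.1‖ ≤ K := (norm_fst_le Y).trans nY
  have hY2 : ‖Y.2‖ ≤ K := (norm_snd_le Y).trans nY
  have hP := hh_eq (X := X) (Y := Y) hz
  set P : ℝ := ‖thz μ p X‖ with hPdef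
  have hP0 : 0 ≤ P := norm_nonneg _
  have hm0 := norm_nonneg (μ p)
  have hm2 : 0 < 1 - ‖μ p‖ ^ 2 := by nlinarith
  have hh0 : 0 ≤ hh X Y := by
    refine le_of_mul_le_mul_left ?_ hm2
    rw [hP, mul_zero]
    exact sq_nonneg P
  have hP2 : P ^ 2 ≤ hh X Y := by
    rw [← hP]; nlinarith [sq_nonneg ‖μ p‖]
  set C₁ : ℝ := 1 / (1 - κ) ^ 2 with hC₁
  have hC₁0 : 0 < C₁ := by positivity
  have hx : (1 - κ) * ‖X.1‖ ≤ P := norm_le_of (μ p) X.1 hm
  have hy : (1 - κ) * ‖Y.1‖ ≤ P := by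
    have h1 := norm_le_of (μ p) Y.1 hm
    have h2 : ‖Y.1 + μ p * (starRingEnd ℂ) Y.1‖ = P := by
      have : Y.1 + μ p * (starRingEnd ℂ) Y.1 = I * thz μ p X := hz
      rw [this, norm_mul, Complex.norm_I, one_mul]
    rwa [h2] at h1
  have hsq : ∀ t : ℝ, 0 ≤ t → (1 - κ) * t ≤ P → t ^ 2 ≤ C₁ * hh X Y := by
    intro t ht h
    have h1 : ((1 - κ) * t) ^ 2 ≤ P ^ 2 := by gcongr
    rw [mul_pow] at h1
    rw [hC₁, div_mul_eq_mul_div, one_mul, le_div_iff₀ (by positivity)]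
    nlinarith
  have hx2 : ‖X.1‖ ^ 2 ≤ C₁ * hh X Y := hsq _ (norm_nonneg _) hx
  have hy2 : ‖Y.1‖ ^ 2 ≤ C₁ * hh X Y := hsq _ (norm_nonneg _) hy
  -- products
  have hprod : ∀ a b : ℂ, |a.re * b.im - b.re * a.im| ≤ ‖a‖ * ‖b‖ := by
    intro a b
    have h1 : a.re * b.im - b.re * a.im = ((starRingEnd ℂ) a * b).im := by
      simp [Complex.mul_im]; ring
    rw [h1]
    refine (Complex.abs_im_le_norm _).trans ?_
    rw [norm_mul, Complex.norm_conj]
  have hhK : hh X Y ≤ K := by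
    have h1 := hprod X.1 Y.1
    have h2 : ‖X.1‖ * ‖Y.1‖ ≤ 1 * K := by gcongr
    have h3 := le_abs_self (hh X Y)
    unfold hh at *
    linarith
  have hkK : |kk X Y| ≤ K := by
    have h1 := hprod X.2 Y.2
    have h2 : ‖X.2‖ * ‖Y.2‖ ≤ 1 * K := by gcongr
    unfold kk
    linarith
  have hV : ∀ (s t : ℝ), |s| ≤ ‖Y.1‖ → |t| ≤ ‖X.1‖ →
      (|s| * ‖X.2‖ + |t| * ‖Y.2‖) ^ 2 ≤ (2 + 2 * K ^ 2) * C₁ * hh X Y := by
    intro s t hs ht
    have h1 : |s| * ‖X.2‖ + |t| * ‖Y.2‖ ≤ ‖Y.1‖ * 1 + ‖X.1‖ * K := by gcongr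
    have h2 : (|s| * ‖X.2‖ + |t| * ‖Y.2‖) ^ 2 ≤ (‖Y.1‖ * 1 + ‖X.1‖ * K) ^ 2 := by gcongr
    have h3 := sq_add_le (‖Y.1‖ * 1) (‖X.1‖ * K)
    have h4 : (‖X.1‖ * K) ^ 2 ≤ C₁ * hh X Y * K ^ 2 := by
      rw [mul_pow]; gcongr
    nlinarith
  have hV1 : ‖(V1 X Y).2‖ ^ 2 ≤ (2 + 2 * K ^ 2) * C₁ * hh X Y := by
    have h1 : ‖(V1 X Y).2‖ ≤ |Y.1.im| * ‖X.2‖ + |X.1.im| * ‖Y.2‖ := by
      rw [V1_snd]
      refine (norm_sub_le _ _).trans ?_
      rw [norm_smul, norm_smul, Real.norm_eq_abs, Real.norm_eq_abs]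
    have h2 : ‖(V1 X Y).2‖ ^ 2 ≤ (|Y.1.im| * ‖X.2‖ + |X.1.im| * ‖Y.2‖) ^ 2 := by gcongr
    exact h2.trans (hV _ _ (Complex.abs_im_le_norm _) (Complex.abs_im_le_norm _))
  have hVI : ‖(VI X Y).2‖ ^ 2 ≤ (2 + 2 * K ^ 2) * C₁ * hh X Y := by
    have h1 : ‖(VI X Y).2‖ ≤ |Y.1.re| * ‖X.2‖ + |X.1.re| * ‖Y.2‖ := by
      rw [VI_snd]
      refine (norm_sub_le _ _).trans ?_
      rw [norm_smul, norm_smul, Real.norm_eq_abs, Real.norm_eq_abs, add_comm]
    have h2 : ‖(VI X Y).2‖ ^ 2 ≤ (|Y.1.re| * ‖X.2‖ + |X.1.re| * ‖Y.2‖) ^ 2 := by gcongr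
    exact h2.trans (hV _ _ (Complex.abs_re_le_norm _) (Complex.abs_re_le_norm _))
  -- the lower bound for `kk`
  have hb0 := norm_nonneg (β p)
  set Q : ℂ := thw β p X with hQ
  have hX2Q : X.2 = Q - β p * (starRingEnd ℂ) X.1 := by rw [hQ]; unfold thw; ring
  have hY2Q : Y.2 = I * Q - β p * (starRingEnd ℂ) Y.1 := by
    have : Y.2 + β p * (starRingEnd ℂ) Y.1 = I * Q := hw
    rw [← this]; ring
  have hkk : ‖Q‖ ^ 2 / 2 - 3 * L ^ 2 * (C₁ * hh X Y) ≤ kk X Y := by
    have h1 : kk X Y = ‖Q‖ ^ 2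
        - ((starRingEnd ℂ) Q * (β p * (starRingEnd ℂ) Y.1)).im
        - ((starRingEnd ℂ) (β p * (starRingEnd ℂ) X.1) * (I * Q)).im
        + ((starRingEnd ℂ) (β p * (starRingEnd ℂ) X.1) * (β p * (starRingEnd ℂ) Y.1)).im := by
      have h2 : kk X Y = ((starRingEnd ℂ) X.2 * Y.2).im := by
        unfold kk; simp [Complex.mul_im]; ring
      rw [h2, hX2Q, hY2Q, ← Complex.normSq_eq_norm_sq, Complex.normSq_apply]
      generalize β p * (starRingEnd ℂ) X.1 = u
      generalize β p * (starRingEnd ℂ) Y.1 = v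
      simp [Complex.mul_im, Complex.mul_re]
      ring
    have h3 : |((starRingEnd ℂ) Q * (β p * (starRingEnd ℂ) Y.1)).im| ≤ ‖Q‖ * (L * ‖Y.1‖) := by
      refine (Complex.abs_im_le_norm _).trans ?_
      rw [norm_mul, norm_mul, Complex.norm_conj, Complex.norm_conj]
      gcongr
    have h4 : |((starRingEnd ℂ) (β p * (starRingEnd ℂ) X.1) * (I * Q)).im|
        ≤ (L * ‖X.1‖) * ‖Q‖ := by
      refine (Complex.abs_im_le_norm _).trans ?_
      rw [norm_mul, norm_mul, Complex.norm_conj, norm_mul, Complex.norm_conj, Complex.norm_I,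
        one_mul]
      gcongr
    have h5 : |((starRingEnd ℂ) (β p * (starRingEnd ℂ) X.1) * (β p * (starRingEnd ℂ) Y.1)).im|
        ≤ (L * ‖X.1‖) * (L * ‖Y.1‖) := by
      refine (Complex.abs_im_le_norm _).trans ?_
      rw [norm_mul, norm_mul, Complex.norm_conj, norm_mul, Complex.norm_conj, Complex.norm_conj]
      gcongr
    have h3' := (abs_le.mp h3).2
    have h4' := (abs_le.mp h4).2
    have h5' := (abs_le.mp h5).1
    have a1 : ‖Q‖ * (L * ‖Y.1‖) ≤ ‖Q‖ ^ 2 / 4 + L ^ 2 * ‖Y.1‖ ^ 2 := by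
      nlinarith [sq_nonneg (‖Q‖ / 2 - L * ‖Y.1‖)]
    have a2 : (L * ‖X.1‖) * ‖Q‖ ≤ ‖Q‖ ^ 2 / 4 + L ^ 2 * ‖X.1‖ ^ 2 := by
      nlinarith [sq_nonneg (‖Q‖ / 2 - L * ‖X.1‖)]
    have a3 : (L * ‖X.1‖) * (L * ‖Y.1‖) ≤ L ^ 2 * ‖X.1‖ ^ 2 / 2 + L ^ 2 * ‖Y.1‖ ^ 2 / 2 := by
      nlinarith [sq_nonneg (L * ‖X.1‖ - L * ‖Y.1‖)]
    have a4 : L ^ 2 * ‖X.1‖ ^ 2 ≤ L ^ 2 * (C₁ * hh X Y) := by gcongr
    have a5 : L ^ 2 * ‖Y.1‖ ^ 2 ≤ L ^ 2 * (C₁ * hh X Y) := by gcongr
    rw [h1]
    linarith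
  have hChh : 0 ≤ C₁ * hh X Y := by positivity
  have hLC : 0 ≤ L ^ 2 * (C₁ * hh X Y) := by positivity
  have hlow : 1 / 4 ≤ kk X Y + (4 * L ^ 2 + 1) * C₁ * hh X Y := by
    have hmax : ‖X.1‖ = 1 ∨ ‖X.2‖ = 1 := by
      have h1 : max ‖X.1‖ ‖X.2‖ = 1 := by rw [← Prod.norm_def, nX]
      rcases max_choice ‖X.1‖ ‖X.2‖ with h | h
      · left; rw [← h, h1]
      · right; rw [← h, h1]
    have hexp : (4 * L ^ 2 + 1) * C₁ * hh X Y
        = 4 * (L ^ 2 * (C₁ * hh X Y)) + C₁ * hh X Y := by ring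
    rw [hexp]
    have hQ0 : 0 ≤ ‖Q‖ ^ 2 := by positivity
    rcases hmax with h1 | h1
    · rw [h1] at hx2
      linarith
    · have h2 : ‖X.2‖ ≤ ‖Q‖ + L * ‖X.1‖ := by
        rw [hX2Q]
        refine (norm_sub_le _ _).trans ?_
        rw [norm_mul, Complex.norm_conj]
        gcongr
      rw [h1] at h2
      have h3 : (1 : ℝ) ≤ (‖Q‖ + L * ‖X.1‖) ^ 2 := by
        have := norm_nonneg X.1
        nlinarith
      have h4 := sq_add_le ‖Q‖ (L * ‖X.1‖)
      have h5 : (L * ‖X.1‖) ^ 2 ≤ L ^ 2 * (C₁ * hh X Y) := by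
        rw [mul_pow]; gcongr
      linarith
  refine ⟨hh0, hhK, hkK, hlow, hV1, hVI, hx2, hy2, ?_⟩
  intro hpos
  have h1 := norm_slo_le hpos
  have h2 : ‖slo X Y‖ ^ 2 ≤ ((hh X Y)⁻¹ * (‖(V1 X Y).2‖ + ‖(VI X Y).2‖)) ^ 2 := by gcongr
  have h3 := sq_add_le ‖(V1 X Y).2‖ ‖(VI X Y).2‖
  have h4 : (‖(V1 X Y).2‖ + ‖(VI X Y).2‖) ^ 2 ≤ 8 * (1 + K ^ 2) * C₁ * hh X Y := by
    have : 8 * (1 + K ^ 2) * C₁ * hh X Y = 4 * ((2 + 2 * K ^ 2) * C₁ * hh X Y) := by ring
    linarith
  calc ‖slo X Y‖ ^ 2 * hh X Y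
      ≤ ((hh X Y)⁻¹ * (‖(V1 X Y).2‖ + ‖(VI X Y).2‖)) ^ 2 * hh X Y := by gcongr
    _ = (hh X Y)⁻¹ * (‖(V1 X Y).2‖ + ‖(VI X Y).2‖) ^ 2 := by
        field_simp
    _ ≤ (hh X Y)⁻¹ * (8 * (1 + K ^ 2) * C₁ * hh X Y) := by gcongr
    _ = 8 * (1 + K ^ 2) * C₁ := by field_simp

end Plane

/-- C0: pointwise algebra. -/
theorem alg0 : ALG0 := by
  intro κ L K hκ0 hκ1 hL
  have hκ' : 0 < 1 - κ := by linarith
  set C₁ : ℝ := 1 / (1 - κ) ^ 2 with hC₁
  have hC₁0 : 0 < C₁ := by positivity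
  have hc1 : 0 ≤ (2 + 2 * K ^ 2) * C₁ := by positivity
  have hc2 : 0 ≤ 8 * (1 + K ^ 2) * C₁ := by positivity
  have hc3 : 0 ≤ (4 * L ^ 2 + 1) * C₁ := by positivity
  refine ⟨1 + K ^ 2 + 8 * (1 + K ^ 2) * C₁ + (4 * L ^ 2 + 1) * C₁, 1 / 4, by norm_num,
    by positivity, ?_⟩
  intro μ β hS p X Y nX nY hz hw
  obtain ⟨h0, h1, h2, h3, h4, h5, h6, h7, h8⟩ :=
    alg0_aux (K := K) hκ0 hκ1 hL (hS.box.bμ p) (hS.bβ p) nX nY hz hw
  have hK1 : K ≤ 1 + K ^ 2 := by nlinarith [sq_nonneg (K - 1)]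
  have e1 : (2 + 2 * K ^ 2) * C₁
      ≤ 1 + K ^ 2 + 8 * (1 + K ^ 2) * C₁ + (4 * L ^ 2 + 1) * C₁ := by
    nlinarith [sq_nonneg K]
  have e2 : C₁ ≤ 1 + K ^ 2 + 8 * (1 + K ^ 2) * C₁ + (4 * L ^ 2 + 1) * C₁ := by
    have : 0 ≤ 4 * L ^ 2 * C₁ := by positivity
    nlinarith [sq_nonneg K]
  have e3 : (4 * L ^ 2 + 1) * C₁
      ≤ 1 + K ^ 2 + 8 * (1 + K ^ 2) * C₁ + (4 * L ^ 2 + 1) * C₁ := by
    nlinarith [sq_nonneg K]
  have e4 : 8 * (1 + K ^ 2) * C₁
      ≤ 1 + K ^ 2 + 8 * (1 + K ^ 2) * C₁ + (4 * L ^ 2 + 1) * C₁ := by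
    nlinarith [sq_nonneg K]
  have e5 : K ≤ 1 + K ^ 2 + 8 * (1 + K ^ 2) * C₁ + (4 * L ^ 2 + 1) * C₁ := by linarith
  refine ⟨h0, h1.trans e5, h2.trans e5, ?_, V1_eq X Y, VI_eq X Y, ?_, ?_, ?_, ?_, ?_⟩
  · refine h3.trans ?_
    gcongr
  · exact h4.trans (by gcongr)
  · exact h5.trans (by gcongr)
  · exact h6.trans (by gcongr)
  · exact h7.trans (by gcongr)
  · intro hpos
    exact ⟨lzb_slo hz hw hpos, (h8 hpos).trans e4⟩

end Crest.Agent.R235.CylAlg_895
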