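import Crest.Agent.R235.CylDef_607
import Crest.Agent.R235.EndDef_745
import Crest.Agent.R235.GlobDefs_370
import Crest.Agent.R235.CurDefs_132
import Crest.Agent.R235.CylDef_522

/-!
Row 235, PACKAGE REG, parts A1 and A7 (helper522): from a closed positive `J`-current of density one
(output of CUR, local data `LC` of helper132) to the box currents of helper607 (`BoxCur`), and from
the planar local form (`End.PLoc`, helper745) back to the local form on the manifold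
(`LocForm`, helper370).

`FCur J U m X K` : the current `b ↦ ∫ b_x (X, J X) dm` in the open set `U` of a normed space.
-/

set_option autoImplicit false
set_option maxSynthPendingDepth 3

open MeasureTheory Metric Set Filter
open scoped ContDiff Topology Manifold

universe u

namespace Crest.Agent.R235.Reg_522

open Crest.Agent.R240 Crest.Agent.R240.Ch
open Crest.Agent.R235.Loc Crest.Agent.R235.Cyl Crest.Agent.R235.CurDefs_132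
open Crest.Agent.R235.NWDefs_334

noncomputable section

/-! ### currents of density one in a normed space -/

section FC

variable {E : Type*} [NormedAddCommGroup E] [NormedSpace ℝ E] [MeasurableSpace E]

/-- `p` is in the support of `m`. -/
def SuppE (m : Measure E) (p : E) : Prop := ∀ r > 0, 0 < m (ball p r)

/-- the blow-ups at `p` converge to the plane spanned by `X p, Y p` with multiplicity one. -/
def FlatE (m : Measure E) (X Y : E → E) (p : E) : Prop :=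
  ∀ g : E → (E →L[ℝ] E →L[ℝ] ℝ), Continuous g → HasCompactSupport g → (∀ q v, g q v v = 0) →
    Tendsto (fun r : ℝ => (r ^ 2)⁻¹ * ∫ q, g (r⁻¹ • (q - p)) (X q) (Y q) ∂m) (𝓝[>] 0)
      (𝓝 (∫ ζ : ℂ, g (ζ.re • X p + ζ.im • Y p) (X p) (Y p)))

/-- a closed positive `J`-current of density one in the open set `U`: `b ↦ ∫ b (X, J X) dm`. -/
structure FCur (J : E → E →L[ℝ] E) (U : Set E) (m : Measure E) (X : E → E) (K : ℝ) : Prop where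
  openU : IsOpen U
  smJ : ContDiffOn ℝ ∞ J U
  sqJ : ∀ x ∈ U, ∀ v, J x (J x v) = -v
  fin : IsFiniteMeasure m
  mX : Measurable X
  nX : ∀ p, ‖X p‖ = 1
  supp : ∀ᵐ p ∂m, p ∈ U
  closed : ∀ l : E → (E →L[ℝ] ℝ), ContDiff ℝ ∞ l → HasCompactSupport l → tsupport l ⊆ U →
    ∫ p, (fderiv ℝ l p (X p) (J p (X p)) - fderiv ℝ l p (J p (X p)) (X p)) ∂m = 0
  up : ∀ p r, 0 < r → m.real (closedBall p r) ≤ K * r ^ 2
  low : ∀ Q ⊆ U, IsCompact Q → ∃ c₀ > 0, ∃ r₀ > 0, ∀ p ∈ Q, SuppE m p →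
    ∀ r, 0 < r → r ≤ r₀ → c₀ * r ^ 2 ≤ m.real (ball p r)
  flat : ∀ᵐ p ∂m, FlatE m X (fun q => J q (X q)) p

/-- local form at `p` of a curve with support `S`; `R x v w` means `w = J v` at `x`. -/
structure LF (R : E → E → E → Prop) (S : Set E) (p : E) (U : Set E) (n : ℕ)
    (u : Fin n → ℂ → E) : Prop where
  openU : IsOpen U
  mem : p ∈ U
  smooth : ∀ j, ContDiffOn ℝ ∞ (u j) (ball 0 1)
  jhol : ∀ j, ∀ z ∈ ball (0 : ℂ) 1, ∀ v : ℂ,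
    R (u j z) (fderiv ℝ (u j) z v) (fderiv ℝ (u j) z (Complex.I * v))
  inj : ∀ j, InjOn (u j) (ball 0 1)
  imm : ∀ j, ∀ z ∈ ball (0 : ℂ) 1, z ≠ 0 → ∀ v : ℂ, fderiv ℝ (u j) z v = 0 → v = 0
  centre : ∀ j, u j 0 = p
  disj : ∀ i j, i ≠ j → ∀ z ∈ ball (0 : ℂ) 1, ∀ w ∈ ball (0 : ℂ) 1, u i z = u j w → z = 0
  supp : S ∩ U = ⋃ j, u j '' ball (0 : ℂ) 1
  proper : ∀ j, ∀ Q : Set E, IsCompact Q → Q ⊆ U →
    ∃ r < (1 : ℝ), ∀ z ∈ ball (0 : ℂ) 1, u j z ∈ Q → ‖z‖ ≤ r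

/-- in `U` the functional `T` is the sum of the integrals over the discs. -/
def LFCur (T : (E → (E →L[ℝ] E →L[ℝ] ℝ)) → ℝ) (U : Set E) (n : ℕ) (u : Fin n → ℂ → E) : Prop :=
  ∀ b : E → (E →L[ℝ] E →L[ℝ] ℝ), Continuous b → (∀ q v, b q v v = 0) →
    (∃ Q ⊆ U, IsCompact Q ∧ ∀ y ∉ Q, b y = 0) →
    T b = ∑ j, ∫ z in ball (0 : ℂ) 1, b (u j z) (fderiv ℝ (u j) z 1) (fderiv ℝ (u j) z Complex.I)

end FC

/-! ### A1.0: density one ⟹ flat (input: `LC` and `MON` of helper132) -/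

/-- the conclusion at a good point: Lebesgue point of `φ`, small deficit. -/
structure Good (D : LC) (x : E4) : Prop where
  leb : ∀ K : ℝ, Tendsto (fun r : ℝ => (r ^ 2)⁻¹ * ∫ y in ball x (K * r), ‖D.φ y - D.φ x‖ ∂D.s)
    (𝓝[>] 0) (𝓝 0)
  conc : ∀ K : ℝ, Tendsto (fun r : ℝ => (r ^ 4)⁻¹ *
    ∫ y in ball x (K * r), D.φ x (y - x) (D.J x (y - x)) ∂D.s) (𝓝[>] 0) (𝓝 0)

/-- (A1.0a) pointwise algebra of a degenerate positive form. -/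
def FWALG : Prop := ∀ (J : E4 →L[ℝ] E4) (F : Bil) (m M : ℝ), Bd J F m M → ∀ φ : Bil, Pos J φ →
  q F φ F = 1 → (∃ v, v ≠ 0 ∧ φ v (J v) = 0) → ∃ X : E4, ‖X‖ = 1 ∧ 0 < F X (J X) ∧
    (∀ b : Bil, Alt b → q F φ b * F X (J X) = b X (J X)) ∧
    ∀ v, φ v (J v) = 0 ↔ ∃ s t : ℝ, v = s • X + t • J X

/-- (A1.0b) almost every point is good. -/
def FWGOOD : Prop := MON → ∀ D : LC, ∀ᵐ x ∂D.s, x ∈ ball D.x0 (3 * D.R) → Good D x

/-- (A1.0c) at a good point of density one the form is degenerate. -/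
def FWDEG : Prop := ∀ D : LC, ∀ x ∈ ball D.x0 (4 * D.R), Good D x → IsDenE (D.G x) D.s x 1 →
  ∃ v, v ≠ 0 ∧ D.φ x v (D.J x v) = 0

/-- (A1.0d) the blow-ups converge. -/
def FWLIM : Prop := ∀ D : LC, ∀ x ∈ ball D.x0 (4 * D.R), Good D x → IsDenE (D.G x) D.s x 1 →
  ∀ X : E4, X ≠ 0 → D.φ x X (D.J x X) = 0 → (∃ v, D.φ x v (D.J x v) ≠ 0) →
  ∀ f : E4 → ℝ, Continuous f → HasCompactSupport f →
    Tendsto (fun r : ℝ => (r ^ 2)⁻¹ * ∫ y, f (r⁻¹ • (y - x)) ∂D.s) (𝓝[>] 0)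
      (𝓝 ((∫ ζ : ℂ, f (ζ.re • X + ζ.im • D.J x X)) * D.F x X (D.J x X)))

/-- (A1.0e) lower mass bound. -/
def FWLOW : Prop := MON → ∀ D : LC,
  (∀ᵐ x ∂D.s, x ∈ ball D.x0 (3 * D.R) → IsDenE (D.G x) D.s x 1) →
  ∃ c₀ > 0, ∃ r₀ > 0, ∀ x ∈ ball D.x0 (3 * D.R), SuppE D.s x → ∀ r, 0 < r → r ≤ r₀ →
    c₀ * r ^ 2 ≤ D.s.real (ball x r)

/-- (A1.0) **density one ⟹ flat current**. -/
def FLATW : Prop := MON → ∀ D : LC,
  (∀ᵐ x ∂D.s, x ∈ ball D.x0 (3 * D.R) → IsDenE (D.G x) D.s x 1) →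
  ∃ (m : Measure E4) (X : E4 → E4) (K : ℝ), FCur D.J (ball D.x0 (2 * D.R)) m X K ∧
    (∀ x ∈ ball D.x0 (2 * D.R), SuppE m x ↔ SuppE D.s x) ∧
    ∀ b : E4 → Bil, Continuous b → (∀ x, Alt (b x)) →
      (∃ Q ⊆ ball D.x0 (2 * D.R), IsCompact Q ∧ ∀ y ∉ Q, b y = 0) →
      ∫ x, q (D.F x) (D.φ x) (b x) ∂D.s = ∫ x, b x (X x) (D.J x (X x)) ∂m

/-! ### A1.1: change of coordinates -/

/-- (A1.1) push-forward by a diffeomorphism. -/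
def PUSH : Prop := ∀ (E E' : Type) [NormedAddCommGroup E] [NormedSpace ℝ E]
  [FiniteDimensional ℝ E] [MeasurableSpace E] [BorelSpace E]
  [NormedAddCommGroup E'] [NormedSpace ℝ E'] [FiniteDimensional ℝ E'] [MeasurableSpace E']
  [BorelSpace E'] [Nontrivial E']
  (J : E → E →L[ℝ] E) (U : Set E) (m : Measure E) (X : E → E) (K : ℝ), FCur J U m X K →
  ∀ e : OpenPartialHomeomorph E E', e.source ⊆ U → ContDiffOn ℝ ∞ e e.source →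
    ContDiffOn ℝ ∞ e.symm e.target →
  ∀ J' : E' → E' →L[ℝ] E',
    (∀ x ∈ e.source, ∀ v, J' (e x) (fderiv ℝ e x v) = fderiv ℝ e x (J x v)) →
  ∀ V : Set E', IsOpen V → IsCompact (closure V) → closure V ⊆ e.target →
  ∃ (m' : Measure E') (X' : E' → E') (K' : ℝ), FCur J' V m' X' K' ∧
    (∀ y ∈ V, SuppE m' y ↔ SuppE m (e.symm y)) ∧
    ∀ b : E' → (E' →L[ℝ] E' →L[ℝ] ℝ), Continuous b → (∀ q v, b q v v = 0) →
      (∃ Q ⊆ V, IsCompact Q ∧ ∀ y ∉ Q, b y = 0) →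
      ∫ x in e.source, b (e x) (fderiv ℝ e x (X x)) (fderiv ℝ e x (J x (X x))) ∂m =
        ∫ y, b y (X' y) (J' y (X' y)) ∂m'

/-! ### A1.2: existence of a cylinder -/

/-- (A1.2a) discs through `0` in all directions near the vertical one, each with a transversal
foliation; `Ψ (θ, s, z)`, `θ` the direction, `s` the leaf, `z` the point of the leaf. -/
def POLFOL : Prop := ∀ (J : CC → CC →L[ℝ] CC) (r : ℝ), ACS J r → ∀ δ : ℝ, 0 < δ →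
  ∃ R : ℝ, 0 < R ∧ R ≤ δ ∧ ∃ Ψ : ℂ × ℂ × ℂ → CC,
    ContDiffOn ℝ ∞ Ψ (ball 0 (1 / 4) ×ˢ (ball 0 (1 / 4) ×ˢ ball 0 1)) ∧
    (∀ θ ∈ ball (0 : ℂ) (1 / 4), Ψ (θ, 0, 0) = 0) ∧
    (∀ θ ∈ ball (0 : ℂ) (1 / 4), ∀ s ∈ ball (0 : ℂ) (1 / 4),
      JHol (fun y => J (R • y)) (fun z => Ψ (θ, s, z)) (ball 0 1)) ∧
    ∀ θ ∈ ball (0 : ℂ) (1 / 4), ∀ s ∈ ball (0 : ℂ) (1 / 4), ∀ z ∈ ball (0 : ℂ) 1,
      R • Ψ (θ, s, z) ∈ ball (0 : CC) r ∧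
      (∀ v, ‖J (R • Ψ (θ, s, z)) v - Complex.I • v‖ ≤ δ * ‖v‖) ∧
      ∀ a : ℂ × ℂ × ℂ, ‖fderiv ℝ Ψ (θ, s, z) a - (z * a.1 + a.2.1 + θ * a.2.2, a.2.2)‖ ≤ δ * ‖a‖

/-- (A1.2b) a good direction and a good radius (pure counting argument). -/
def GOODDIR : Prop := ∀ (m : Measure CC) (c₀ r₀ : ℝ) (T : Set CC), IsFiniteMeasure m → 0 < c₀ →
  0 < r₀ → (∀ p ∈ T, ∀ r, 0 < r → r ≤ r₀ → c₀ * r ^ 2 ≤ m.real (ball p r)) →
  ∀ (G : ℂ × ℂ → CC) (η a b c : ℝ), 0 < η → 0 < a → a < b → 0 < c →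
    (∀ x ∈ ball (0 : ℂ) η ×ˢ {z : ℂ | a < ‖z‖ ∧ ‖z‖ < b},
      ∀ y ∈ ball (0 : ℂ) η ×ˢ {z : ℂ | a < ‖z‖ ∧ ‖z‖ < b}, c * dist x y ≤ dist (G x) (G y)) →
  ∃ θ ∈ ball (0 : ℂ) η, ∃ ρ ∈ Ioo a b, ∀ z : ℂ, ‖z‖ = ρ → G (θ, z) ∉ T

/-- (A1.2c) a `J`-holomorphic cylinder at `0` whose vertical boundary misses the support. -/
def CYLEX : Prop := ∀ (J : CC → CC →L[ℝ] CC) (r : ℝ), ACS J r →
  ∀ (m : Measure CC) (X : CC → CC) (K : ℝ), FCur J (ball 0 r) m X K →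
  ∃ (e : OpenPartialHomeomorph CC CC) (R ρ₀ ρ₁ : ℝ), 0 < R ∧ 0 < ρ₀ ∧ ρ₀ < ρ₁ ∧
    e.source ⊆ ball 0 r ∧ e.target = ball (0 : ℂ) R ×ˢ ball (0 : ℂ) ρ₁ ∧
    (0 : CC) ∈ e.source ∧ e 0 = 0 ∧
    ContDiffOn ℝ ∞ e e.source ∧ ContDiffOn ℝ ∞ e.symm e.target ∧
    (∀ p ∈ e.target, ∀ v : ℂ, fderiv ℝ e.symm p (0, Complex.I * v) =
      J (e.symm p) (fderiv ℝ e.symm p (0, v))) ∧
    (∀ p ∈ e.target, ∀ v,
      ‖fderiv ℝ e (e.symm p) (J (e.symm p) (fderiv ℝ e.symm p v)) - Complex.I • v‖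
        ≤ 1 / 4 * ‖v‖) ∧
    ∀ p ∈ e.target, SuppE m (e.symm p) → ‖p.2‖ ≤ ρ₀

/-- (A1.2d) the coefficients `μ, β` of a structure with holomorphic vertical lines. -/
def MUBETA : Prop := ∀ (J : CC → CC →L[ℝ] CC) (O : Set CC), IsOpen O → ContDiffOn ℝ ∞ J O →
  (∀ p ∈ O, ∀ v, J p (J p v) = -v) → (∀ p ∈ O, ∀ v : ℂ, J p (0, v) = (0, Complex.I * v)) →
  (∀ p ∈ O, ∀ v, ‖J p v - Complex.I • v‖ ≤ 1 / 4 * ‖v‖) →
  ∀ Q : Set CC, IsCompact Q → Q ⊆ O → ∃ (μ β : CC → ℂ) (κ L : ℝ), SBox μ β κ L ∧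
    ∀ p ∈ Q, ∀ v, thz μ p (J p v) = Complex.I * thz μ p v ∧
      thw β p (J p v) = Complex.I * thw β p v

/-- (A1.2e) a current in a cylinder, in the format of helper607. -/
def BOXOF : Prop := ∀ (μ β : CC → ℂ) (κ L : ℝ), SBox μ β κ L →
  ∀ (J : CC → CC →L[ℝ] CC) (R ρ₀ ρ₁ : ℝ), 0 < R → 0 < ρ₀ → ρ₀ < ρ₁ →
  (∀ p ∈ ball (0 : ℂ) R ×ˢ ball (0 : ℂ) ρ₁, ∀ v, thz μ p (J p v) = Complex.I * thz μ p v ∧
      thw β p (J p v) = Complex.I * thw β p v) →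
  ∀ (m : Measure CC) (X : CC → CC) (K : ℝ),
  FCur J (ball (0 : ℂ) R ×ˢ ball (0 : ℂ) ρ₁) m X K →
  (∀ p ∈ ball (0 : ℂ) R ×ˢ ball (0 : ℂ) ρ₁, SuppE m p → ‖p.2‖ ≤ ρ₀) →
  ∃ (X' Y' : CC → CC) (K' : ℝ), BoxCur μ β 0 R ρ₀ K' m X' Y' ∧
    ∀ p ∈ ball (0 : ℂ) R ×ˢ ball (0 : ℂ) ρ₁, X' p = X p ∧ Y' p = J p (X p)

/-- (A1.2) **cylinder + box current**. -/
def BOXEX : Prop := ∀ (J : CC → CC →L[ℝ] CC) (r : ℝ), ACS J r →
  ∀ (m : Measure CC) (X : CC → CC) (K : ℝ), FCur J (ball 0 r) m X K →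
  ∃ (μ β : CC → ℂ) (κ L R ρ₀ ρ₁ K' : ℝ) (m' : Measure CC) (X' Y' : CC → CC)
    (e : OpenPartialHomeomorph CC CC), SBox μ β κ L ∧ 0 < R ∧ 0 < ρ₀ ∧ ρ₀ < ρ₁ ∧
    BoxCur μ β 0 R ρ₀ K' m' X' Y' ∧
    e.source ⊆ ball 0 r ∧ e.target = ball (0 : ℂ) R ×ˢ ball (0 : ℂ) ρ₁ ∧
    (0 : CC) ∈ e.source ∧ e 0 = 0 ∧
    ContDiffOn ℝ ∞ e e.source ∧ ContDiffOn ℝ ∞ e.symm e.target ∧
    (∀ x ∈ e.source, ∀ v,
      thz μ (e x) (fderiv ℝ e x (J x v)) = Complex.I * thz μ (e x) (fderiv ℝ e x v) ∧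
      thw β (e x) (fderiv ℝ e x (J x v)) = Complex.I * thw β (e x) (fderiv ℝ e x v)) ∧
    (∀ y ∈ e.target, InSupp m' y ↔ SuppE m (e.symm y)) ∧
    ∀ b : CC → (CC →L[ℝ] CC →L[ℝ] ℝ), Continuous b → (∀ q v, b q v v = 0) →
      (∃ Q ⊆ e.target, IsCompact Q ∧ ∀ y ∉ Q, b y = 0) →
      ∫ x in e.source, b (e x) (fderiv ℝ e x (X x)) (fderiv ℝ e x (J x (X x))) ∂m =
        ∫ y, b y (X' y) (Y' y) ∂m'

/-! ### A7: the local form -/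

/-- `w = J v` at `p` for the structure of a box. -/
def JBox (μ β : CC → ℂ) (p v w : CC) : Prop :=
  thz μ p w = Complex.I * thz μ p v ∧ thw β p w = Complex.I * thw β p v

/-- (A7a) local form in a box (from `CYLF`, `END`). -/
def BOXLF : Prop := ∀ (μ β : CC → ℂ) (κ L : ℝ), SBox μ β κ L →
  ∀ (R ρ K : ℝ) (m : Measure CC) (X Y : CC → CC), 0 < R → BoxCur μ β 0 R ρ K m X Y →
  ∀ (p : CC) (O : Set CC), IsOpen O → p ∈ O → O ⊆ ball (0 : ℂ) R ×ˢ univ →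
  ∃ (U : Set CC) (n : ℕ) (u : Fin n → ℂ → CC), U ⊆ O ∧
    LF (JBox μ β) {q | InSupp m q} p U n u ∧
    LFCur (fun b => ∫ q, b q (X q) (Y q) ∂m) U n u

/-- (A7b) transport of a local form by a diffeomorphism. -/
def LFPULL : Prop := ∀ (E E' : Type) [NormedAddCommGroup E] [NormedSpace ℝ E]
  [FiniteDimensional ℝ E] [NormedAddCommGroup E'] [NormedSpace ℝ E'] [FiniteDimensional ℝ E']
  (R : E → E → E → Prop) (R' : E' → E' → E' → Prop) (S : Set E) (S' : Set E')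
  (e : OpenPartialHomeomorph E E'), ContDiffOn ℝ ∞ e e.source →
    ContDiffOn ℝ ∞ e.symm e.target →
  (∀ x ∈ e.source, ∀ v w, R' (e x) (fderiv ℝ e x v) (fderiv ℝ e x w) → R x v w) →
  (∀ y ∈ e.target, y ∈ S' ↔ e.symm y ∈ S) →
  ∀ (T : (E → (E →L[ℝ] E →L[ℝ] ℝ)) → ℝ) (T' : (E' → (E' →L[ℝ] E' →L[ℝ] ℝ)) → ℝ),
  (∀ (b : E → (E →L[ℝ] E →L[ℝ] ℝ)) (b' : E' → (E' →L[ℝ] E' →L[ℝ] ℝ)), Continuous b →
    Continuous b' → (∀ q v, b q v v = 0) → (∀ q v, b' q v v = 0) →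
    (∃ Q ⊆ e.target, IsCompact Q ∧ (∀ y ∉ Q, b' y = 0) ∧ ∀ x ∉ e.symm '' Q, b x = 0) →
    (∀ x ∈ e.source, ∀ v w, b x v w = b' (e x) (fderiv ℝ e x v) (fderiv ℝ e x w)) →
    T b = T' b') →
  ∀ (p : E) (U' : Set E') (n : ℕ) (u' : Fin n → ℂ → E'), p ∈ e.source → U' ⊆ e.target →
    LF R' S' (e p) U' n u' → LFCur T' U' n u' →
    LF R S p (e.symm '' U') n (fun j z => e.symm (u' j z)) ∧
    LFCur T (e.symm '' U') n (fun j z => e.symm (u' j z))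

/-- (A7c) **local form at every point, in a chart**. -/
def REGE : Prop := ∀ (J : E4 → E4 →L[ℝ] E4) (U : Set E4) (m : Measure E4) (X : E4 → E4) (K : ℝ),
  FCur J U m X K → ∀ (p : E4) (O : Set E4), p ∈ U → IsOpen O → p ∈ O →
  ∃ (U' : Set E4) (n : ℕ) (u : Fin n → ℂ → E4), U' ⊆ U ∩ O ∧
    LF (fun x v w => w = J x v) {x | SuppE m x} p U' n u ∧
    LFCur (fun b => ∫ x, b x (X x) (J x (X x)) ∂m) U' n u

section Mfd

variable {M : Type u} [TopologicalSpace M] [ChartedSpace E4 M] [IsManifold 𝓘(ℝ, E4) ∞ M]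

/-- near `p` the current `C` is the current of the local data `D`. -/
structure LCRep (J : EndF E4 M) (C : X2 M →ₗ[ℝ] ℝ) (p : M) (D : LC) : Prop where
  x0 : D.x0 = chartAt E4 p p
  sub : ball D.x0 (4 * D.R) ⊆ (chartAt E4 p).target
  J : ∀ y ∈ ball D.x0 (4 * D.R), D.J y = repJ p J y
  cur : ∀ b : X2 M, (∃ Q ⊆ ball D.x0 (3 * D.R), IsCompact Q ∧
      ∀ x ∉ (chartAt E4 p).symm '' Q, at2 (b.1 : F2 E4 M) x = 0) →
    C b = ∫ y in ball D.x0 (3 * D.R), q (D.F y) (D.φ y) (rep p (b.1 : F2 E4 M) y) ∂D.s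

/-- density exactly one almost everywhere near `p`. -/
def Den1 (D : LC) : Prop := ∀ᵐ x ∂D.s, x ∈ ball D.x0 (3 * D.R) → IsDenE (D.G x) D.s x 1

/-- the support of a functional on two-forms. -/
def suppC (C : X2 M →ₗ[ℝ] ℝ) : Set M :=
  {x | ∀ W : Set M, IsOpen W → x ∈ W →
    ∃ b : X2 M, (∀ y ∉ W, at2 (b.1 : F2 E4 M) y = 0) ∧ C b ≠ 0}

/-- near `p` the current `C` is a flat current in the chart. -/
structure FRep (J : EndF E4 M) (C : X2 M →ₗ[ℝ] ℝ) (p : M) (V : Set E4) (m : Measure E4)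
    (X : E4 → E4) (K : ℝ) : Prop where
  openV : IsOpen V
  mem : chartAt E4 p p ∈ V
  sub : V ⊆ (chartAt E4 p).target
  fc : FCur (repJ p J) V m X K
  supp : ∀ y ∈ V, SuppE m y ↔ (chartAt E4 p).symm y ∈ suppC C
  cur : ∀ b : X2 M, (∃ Q ⊆ V, IsCompact Q ∧
      ∀ x ∉ (chartAt E4 p).symm '' Q, at2 (b.1 : F2 E4 M) x = 0) →
    C b = ∫ y, rep p (b.1 : F2 E4 M) y (X y) (repJ p J y (X y)) ∂m

end Mfd

/-- (A7d) `LC` with density one gives a flat current in the chart. -/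
def FREP : Prop := FLATW → MON → ∀ (M : Type u) [TopologicalSpace M] [T2Space M] [CompactSpace M]
  [ChartedSpace E4 M] [IsManifold 𝓘(ℝ, E4) ∞ M] (J : EndF E4 M), SmoothJ J →
  (∀ x v, atJ J x (atJ J x v) = -v) → ∀ (C : X2 M →ₗ[ℝ] ℝ) (p : M) (D : LC),
  LCRep J C p D → Den1 D →
  ∃ (V : Set E4) (m : Measure E4) (X : E4 → E4) (K : ℝ), FRep J C p V m X K

/-- (A7e) local form in the chart ⟹ local form on the manifold. -/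
def LFMFD : Prop := ∀ (M : Type u) [TopologicalSpace M] [T2Space M] [CompactSpace M]
  [ChartedSpace E4 M] [IsManifold 𝓘(ℝ, E4) ∞ M] (J : EndF E4 M), SmoothJ J →
  (∀ x v, atJ J x (atJ J x v) = -v) → ∀ (C : X2 M →ₗ[ℝ] ℝ) (p : M) (V : Set E4) (m : Measure E4)
  (X : E4 → E4) (K : ℝ), FRep J C p V m X K →
  ∀ (U' : Set E4) (n : ℕ) (u : Fin n → ℂ → E4), U' ⊆ V →
    LF (fun x v w => w = repJ p J x v) {x | SuppE m x} (chartAt E4 p p) U' n u →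
    LFCur (fun b => ∫ x, b x (X x) (repJ p J x (X x)) ∂m) U' n u →
    ∃ L : Glob_370.LocForm J (suppC C) p, L.Cur C

/-- **REG (local part)**: a current of density one has the local form of helper370 everywhere. -/
def REGLOC : Prop := ∀ (M : Type u) [TopologicalSpace M] [T2Space M] [CompactSpace M]
  [ChartedSpace E4 M] [IsManifold 𝓘(ℝ, E4) ∞ M] (J : EndF E4 M), SmoothJ J →
  (∀ x v, atJ J x (atJ J x v) = -v) → ∀ C : X2 M →ₗ[ℝ] ℝ,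
  (∀ p : M, ∃ D : LC, LCRep J C p D ∧ Den1 D) →
  ∀ p : M, ∃ L : Glob_370.LocForm J (suppC C) p, L.Cur C

/-! ### conversion to the second line (`Cyl_522`) -/


end

end Crest.Agent.R235.Reg_522
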