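import Crest.Agent.R235.WKG_460
import Crest.Agent.R235.CylMor_734
import Crest.Agent.R235.CylDef_607
import Mathlib

-- ▼ part R235/WKMor_734
section

/-!
Row 235 (S0364), REG-CYL-2 (helper734): the Prop `WKG_460.MORREY`.
-/

set_option autoImplicit false

open MeasureTheory Metric Set Filter Complex
open scoped ContDiff Topology ComplexConjugate Real

namespace Crest.Agent.R235.WKMor_734

open Crest.Agent.R235.CylMor_734

noncomputable section

/-- `Weak1` gives the form used by `CylMor_734`. -/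
lemma wb_of_weak1 {c : ℂ} {R : ℝ} {F : ℂ → ℝ} {G : ℂ → (ℂ →L[ℝ] ℝ)}
    (hG : IntegrableOn (fun t => ‖G t‖) (ball c R)) (hw : WKG_460.Weak1 (ball c R) F G) :
    WB c R F (fun t => ‖G t‖) := by
  intro η hs hc hsup e he
  have h1 := hw η hs hc hsup e he
  have e1 : ∫ y in ball c R, F y * fderiv ℝ η y e = ∫ t in ball c R, fderiv ℝ η t e * F t := by
    congr 1
    ext y
    ring
  rw [e1, h1, abs_neg, ← Real.norm_eq_abs]
  obtain ⟨M, hM⟩ := hc.exists_bound_of_continuous hs.continuous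
  have hint : IntegrableOn (fun y => |η y| * ‖G y‖) (ball c R) := by
    refine Integrable.bdd_mul (c := M) hG hs.continuous.abs.aestronglyMeasurable
      (ae_of_all _ fun y => ?_)
    rw [Real.norm_eq_abs, abs_abs]
    exact hM y
  refine norm_integral_le_of_norm_le hint (ae_of_all _ fun y => ?_)
  rw [norm_mul, Real.norm_eq_abs]
  refine mul_le_mul_of_nonneg_left ?_ (abs_nonneg _)
  refine (ContinuousLinearMap.le_opNorm _ _).trans ?_
  have : ‖e‖ = 1 := by
    rcases he with rfl | rfl <;> simp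
  rw [this, mul_one]

/-- C6 of REG-CYL-2: Morrey's lemma. -/
theorem morrey : WKG_460.MORREY := by
  intro b hb0 hb1
  refine ⟨16 / b, by positivity, ?_⟩
  intro c R R' r0 M Mf F G hR' hr0 hR hM hFm hGm hF hG2 hw dec
  have hfin : (volume : Measure ℂ) (ball c R) ≠ ⊤ := measure_ball_lt_top.ne
  have hFi : IntegrableOn F (ball c R) :=
    Integrable.mono' (integrableOn_const hfin (C := Mf)) hFm.aestronglyMeasurable
      (ae_of_all _ fun t => hF t)
  have hGn : AEStronglyMeasurable (fun t => ‖G t‖) (volume.restrict (ball c R)) :=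
    hGm.norm.aestronglyMeasurable
  have hGi : IntegrableOn (fun t => ‖G t‖) (ball c R) := by
    have hc : IntegrableOn (fun _ : ℂ => (1 : ℝ)) (ball c R) := integrableOn_const hfin
    refine Integrable.mono' (hc.add hG2) hGn (ae_of_all _ fun z => ?_)
    rw [norm_norm]
    simp only [Pi.add_apply]
    nlinarith [sq_nonneg (‖G z‖ - 1), norm_nonneg (G z)]
  obtain ⟨T, hT, h⟩ := morrey_energy hr0 hR hb0 hM hFi hGn hG2 (fun z => norm_nonneg _)
    (wb_of_weak1 hGi hw) dec
  have hT' : ∀ᵐ x : ℂ ∂(volume.restrict (ball c R')), x ∈ T ∧ x ∈ ball c R' := by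
    rw [ae_restrict_iff' measurableSet_ball]
    filter_upwards [hT] with x hx hxb using ⟨hx hxb, hxb⟩
  filter_upwards [hT'] with x hx
  filter_upwards [hT'] with y hy hd
  exact h x hx.1 y hy.1 hx.2 hy.2 (by linarith)

end

end Crest.Agent.R235.WKMor_734
end

-- ▼ part R235/CylClo_344
section

/-!
Row 235 (S0364), PACKAGE REG, sub-block CYL, leaf C0b (task 278, helper344):
the closedness identities of a box current for `C¹` test functions.
-/

set_option autoImplicit false

open MeasureTheory Metric Set Filter Complex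
open scoped ContDiff Topology Convolution

namespace Crest.Agent.R235.CylClo_344

open Crest.Agent.R235.Loc Crest.Agent.R235.Cyl

noncomputable section

/-! ### smooth approximation in `C¹` -/

/-- a compactly supported `C¹` function is approximated in `C¹` by smooth ones, with support in a
given neighbourhood of the support. -/
theorem approx1 {E : Type*} [NormedAddCommGroup E] [NormedSpace ℝ E] [FiniteDimensional ℝ E]
    [MeasurableSpace E] [BorelSpace E] {Ψ : E → ℝ} (hΨ : ContDiff ℝ 1 Ψ) (hc : HasCompactSupport Ψ)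
    {U : Set E} (hU : IsOpen U) (hsub : tsupport Ψ ⊆ U) {ε : ℝ} (hε : 0 < ε) :
    ∃ g : E → ℝ, ContDiff ℝ ∞ g ∧ HasCompactSupport g ∧ tsupport g ⊆ U ∧
      ∀ x, ‖fderiv ℝ g x - fderiv ℝ Ψ x‖ ≤ ε := by
  have hcD : HasCompactSupport (fderiv ℝ Ψ) := hc.fderiv ℝ
  have hDc : Continuous (fderiv ℝ Ψ) := hΨ.continuous_fderiv one_ne_zero
  have huc : UniformContinuous (fderiv ℝ Ψ) := hcD.uniformContinuous_of_continuous hDc
  obtain ⟨δ, hδ, hδ'⟩ := Metric.uniformContinuous_iff.1 huc ε hε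
  obtain ⟨δ₂, hδ₂, hth⟩ := hc.isCompact.exists_cthickening_subset_open hU hsub
  obtain ⟨r, hr0, hr1, hr2⟩ : ∃ r : ℝ, 0 < r ∧ r < δ ∧ r < δ₂ :=
    ⟨min δ δ₂ / 2, by positivity, by
      have := min_le_left δ δ₂
      linarith [lt_min hδ hδ₂], by
      have := min_le_right δ δ₂
      linarith [lt_min hδ hδ₂]⟩
  let φ : ContDiffBump (0 : E) := ⟨r / 2, r, by positivity, by linarith⟩
  let ν : Measure E := Measure.addHaar
  let f : E → ℝ := φ.normed ν
  have hfc : HasCompactSupport f := φ.hasCompactSupport_normed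
  have hfs : ContDiff ℝ ∞ f := φ.contDiff_normed
  have hΨl : LocallyIntegrable Ψ ν := hΨ.continuous.locallyIntegrable
  have hfl : LocallyIntegrable f ν := hfs.continuous.locallyIntegrable
  refine ⟨f ⋆[ContinuousLinearMap.lsmul ℝ ℝ, ν] Ψ, ?_, ?_, ?_, ?_⟩
  · exact hfc.contDiff_convolution_left _ hfs hΨl
  · exact hfc.convolution _ hc
  · have h1 : Function.support (f ⋆[ContinuousLinearMap.lsmul ℝ ℝ, ν] Ψ) ⊆
        cthickening r (tsupport Ψ) := by
      refine (support_convolution_subset _).trans ?_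
      rintro x hx
      obtain ⟨a, ha, b, hb, rfl⟩ := Set.mem_add.1 hx
      rw [φ.support_normed_eq] at ha
      refine mem_cthickening_of_dist_le _ b _ _ (subset_tsupport _ hb) ?_
      rw [dist_eq_norm, add_sub_cancel_right]
      exact (mem_ball_zero_iff.1 ha).le
    have h2 : tsupport (f ⋆[ContinuousLinearMap.lsmul ℝ ℝ, ν] Ψ) ⊆
        cthickening r (tsupport Ψ) := closure_minimal h1 isClosed_cthickening
    exact (h2.trans (cthickening_mono hr2.le _)).trans hth
  · intro x
    have h1 := hc.hasFDerivAt_convolution_right (ContinuousLinearMap.lsmul ℝ ℝ) hfl hΨ x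
    rw [h1.fderiv]
    have h2 : (f ⋆[(ContinuousLinearMap.lsmul ℝ ℝ).precompR E, ν] fderiv ℝ Ψ) x =
        (f ⋆[ContinuousLinearMap.lsmul ℝ ℝ, ν] fderiv ℝ Ψ) x := by
      unfold MeasureTheory.convolution
      refine integral_congr_ae (Eventually.of_forall fun t => ?_)
      ext v
      simp [ContinuousLinearMap.precompR_apply]
    rw [h2, ← dist_eq_norm]
    refine φ.dist_normed_convolution_le hDc.aestronglyMeasurable fun y hy => ?_
    refine (hδ' ?_).le
    exact lt_trans (mem_ball.1 hy) hr1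

/-! ### coordinates -/

/-- a covector in coordinates. -/
theorem cov (A : CC →L[ℝ] ℝ) (v : CC) :
    A v = v.1.re * A (1, 0) + v.1.im * A (I, 0) + v.2.re * A (0, 1) + v.2.im * A (0, I) := by
  have h : v = v.1.re • ((1, 0) : CC) + v.1.im • ((I, 0) : CC) + v.2.re • ((0, 1) : CC) +
      v.2.im • ((0, I) : CC) := by
    ext <;> simp
  conv_lhs => rw [h]
  simp only [map_add, map_smul, smul_eq_mul]

theorem meas_cov {Φ : CC → ℝ} (hΦ : ContDiff ℝ 1 Φ) {X : CC → CC} (hX : Measurable X) :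
    Measurable fun p => fderiv ℝ Φ p (X p) := by
  have hDc : Continuous (fderiv ℝ Φ) := hΦ.continuous_fderiv one_ne_zero
  have he : ∀ e : CC, Measurable fun p => fderiv ℝ Φ p e := fun e =>
    ((ContinuousLinearMap.apply ℝ ℝ e).continuous.comp hDc).measurable
  have h : (fun p => fderiv ℝ Φ p (X p)) = fun p =>
      (X p).1.re * fderiv ℝ Φ p (1, 0) + (X p).1.im * fderiv ℝ Φ p (I, 0) +
      (X p).2.re * fderiv ℝ Φ p (0, 1) + (X p).2.im * fderiv ℝ Φ p (0, I) :=
    funext fun p => cov _ _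
  rw [h]
  have h1 : Measurable fun p => (X p).1 := measurable_fst.comp hX
  have h2 : Measurable fun p => (X p).2 := measurable_snd.comp hX
  exact ((((Complex.measurable_re.comp h1).mul (he _)).add
    ((Complex.measurable_im.comp h1).mul (he _))).add
    ((Complex.measurable_re.comp h2).mul (he _))).add ((Complex.measurable_im.comp h2).mul (he _))

/-- the integrand `(dΦ ∧ lam)(X, Y)`. -/
def br (lam : CC →L[ℝ] ℝ) (Φ : CC → ℝ) (X Y : CC → CC) (p : CC) : ℝ :=
  fderiv ℝ Φ p (X p) * lam (Y p) - fderiv ℝ Φ p (Y p) * lam (X p)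

theorem meas_br (lam : CC →L[ℝ] ℝ) {Φ : CC → ℝ} (hΦ : ContDiff ℝ 1 Φ) {X Y : CC → CC}
    (hX : Measurable X) (hY : Measurable Y) : Measurable (br lam Φ X Y) :=
  ((meas_cov hΦ hX).mul (lam.continuous.measurable.comp hY)).sub
    ((meas_cov hΦ hY).mul (lam.continuous.measurable.comp hX))

theorem int_br (lam : CC →L[ℝ] ℝ) {Φ : CC → ℝ} (hΦ : ContDiff ℝ 1 Φ) (hc : HasCompactSupport Φ)
    {m : Measure CC} [IsFiniteMeasure m] {X Y : CC → CC}
    (hX : Measurable X) (hY : Measurable Y) {K : ℝ} (nX : ∀ p, ‖X p‖ = 1) (nY : ∀ p, ‖Y p‖ ≤ K) :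
    Integrable (br lam Φ X Y) m := by
  have hDc : Continuous (fderiv ℝ Φ) := hΦ.continuous_fderiv one_ne_zero
  obtain ⟨C, hC⟩ := (hc.fderiv ℝ).exists_bound_of_continuous hDc
  have hC0 : 0 ≤ C := (norm_nonneg _).trans (hC 0)
  have hK : 0 ≤ K := (norm_nonneg _).trans (nY 0)
  refine Integrable.of_bound (meas_br lam hΦ hX hY).aestronglyMeasurable (2 * (C * K * ‖lam‖))
    (Eventually.of_forall fun p => ?_)
  have a1 : ‖fderiv ℝ Φ p (X p)‖ ≤ C := by
    have := (fderiv ℝ Φ p).le_opNorm (X p)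
    rw [nX, mul_one] at this
    exact this.trans (hC p)
  have a2 : ‖fderiv ℝ Φ p (Y p)‖ ≤ C * K :=
    ((fderiv ℝ Φ p).le_opNorm (Y p)).trans (mul_le_mul (hC p) (nY p) (norm_nonneg _) hC0)
  have a3 : ‖lam (X p)‖ ≤ ‖lam‖ := by
    have := lam.le_opNorm (X p)
    rwa [nX, mul_one] at this
  have a4 : ‖lam (Y p)‖ ≤ ‖lam‖ * K :=
    (lam.le_opNorm (Y p)).trans (mul_le_mul_of_nonneg_left (nY p) (norm_nonneg _))
  have b1 : ‖fderiv ℝ Φ p (X p) * lam (Y p)‖ ≤ C * (‖lam‖ * K) := by
    rw [norm_mul]; exact mul_le_mul a1 a4 (norm_nonneg _) hC0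
  have b2 : ‖fderiv ℝ Φ p (Y p) * lam (X p)‖ ≤ C * K * ‖lam‖ := by
    rw [norm_mul]; exact mul_le_mul a2 a3 (norm_nonneg _) (by positivity)
  refine (norm_sub_le _ _).trans ?_
  calc _ ≤ C * (‖lam‖ * K) + C * K * ‖lam‖ := add_le_add b1 b2
    _ = _ := by ring

section

variable {μ β : CC → ℂ} {c : ℂ} {R ρ K : ℝ} {m : Measure CC} {X Y : CC → CC}

/-- smooth compactly supported test functions. -/
theorem clo_smooth (h : BoxCur μ β c R ρ K m X Y) (lam : CC →L[ℝ] ℝ) {Φ : CC → ℝ}
    (hΦ : ContDiff ℝ ∞ Φ) (hc : HasCompactSupport Φ) (hs : tsupport Φ ⊆ (ball c R) ×ˢ univ) :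
    ∫ p, br lam Φ X Y p ∂m = 0 := by
  have hl : ContDiff ℝ ∞ (fun p => Φ p • lam) := hΦ.smul contDiff_const
  have hlc : HasCompactSupport (fun p => Φ p • lam) := hc.smul_right
  have hts : tsupport (fun p => Φ p • lam) ⊆ (ball c R) ×ˢ univ :=
    (tsupport_smul_subset_left _ _).trans hs
  have h1 := h.closed _ hl hlc hts
  rw [← h1]
  refine integral_congr_ae (Eventually.of_forall fun p => ?_)
  have hd : DifferentiableAt ℝ Φ p := (hΦ.differentiable (by simp)) p
  have h2 : fderiv ℝ (fun p => Φ p • lam) p = (fderiv ℝ Φ p).smulRight lam := by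
    have := (hd.hasFDerivAt.smul_const lam).fderiv
    exact this
  simp only [h2, br, ContinuousLinearMap.smulRight_apply, ContinuousLinearMap.smul_apply,
    smul_eq_mul]

/-- `C¹` compactly supported test functions. -/
theorem clo_cs (h : BoxCur μ β c R ρ K m X Y) (lam : CC →L[ℝ] ℝ) {Φ : CC → ℝ}
    (hΦ : ContDiff ℝ 1 Φ) (hc : HasCompactSupport Φ) (hs : tsupport Φ ⊆ (ball c R) ×ˢ univ) :
    ∫ p, br lam Φ X Y p ∂m = 0 := by
  have := h.fin
  have hK : 0 ≤ K := (norm_nonneg _).trans (h.nY 0)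
  have hU : IsOpen ((ball c R) ×ˢ (univ : Set ℂ)) := isOpen_ball.prod isOpen_univ
  refine norm_eq_zero.1 (le_antisymm (le_of_forall_pos_le_add fun ε hε => ?_) (norm_nonneg _))
  set B : ℝ := 2 * K * ‖lam‖ * m.real univ + 1 with hB
  have hB0 : 0 < B := by positivity
  obtain ⟨g, gs, gc, gt, gd⟩ := approx1 hΦ hc hU hs (div_pos hε hB0)
  have g1 : ContDiff ℝ 1 g := gs.of_le (by exact_mod_cast le_top)
  have hg := clo_smooth h lam gs gc gt
  have e1 : ∫ p, br lam Φ X Y p ∂m = ∫ p, (br lam Φ X Y p - br lam g X Y p) ∂m := by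
    rw [integral_sub (int_br lam hΦ hc h.mX h.mY h.nX h.nY) (int_br lam g1 gc h.mX h.mY h.nX h.nY),
      hg, sub_zero]
  rw [e1, zero_add]
  have e2 : ∀ p, ‖br lam Φ X Y p - br lam g X Y p‖ ≤ ε / B * (2 * K * ‖lam‖) := by
    intro p
    have a0 : ‖fderiv ℝ Φ p - fderiv ℝ g p‖ ≤ ε / B := by rw [norm_sub_rev]; exact gd p
    have a1 : ‖(fderiv ℝ Φ p - fderiv ℝ g p) (X p)‖ ≤ ε / B := by
      have := (fderiv ℝ Φ p - fderiv ℝ g p).le_opNorm (X p)
      rw [h.nX, mul_one] at this
      exact this.trans a0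
    have a2 : ‖(fderiv ℝ Φ p - fderiv ℝ g p) (Y p)‖ ≤ ε / B * K :=
      ((fderiv ℝ Φ p - fderiv ℝ g p).le_opNorm (Y p)).trans
        (mul_le_mul a0 (h.nY p) (norm_nonneg _) (by positivity))
    have a3 : ‖lam (X p)‖ ≤ ‖lam‖ := by
      have := lam.le_opNorm (X p)
      rwa [h.nX, mul_one] at this
    have a4 : ‖lam (Y p)‖ ≤ ‖lam‖ * K :=
      (lam.le_opNorm (Y p)).trans (mul_le_mul_of_nonneg_left (h.nY p) (norm_nonneg _))
    have e : br lam Φ X Y p - br lam g X Y p = (fderiv ℝ Φ p - fderiv ℝ g p) (X p) * lam (Y p) -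
        (fderiv ℝ Φ p - fderiv ℝ g p) (Y p) * lam (X p) := by
      simp only [br, ContinuousLinearMap.sub_apply]; ring
    rw [e]
    refine (norm_sub_le _ _).trans ?_
    rw [norm_mul, norm_mul]
    calc _ ≤ ε / B * (‖lam‖ * K) + ε / B * K * ‖lam‖ :=
          add_le_add (mul_le_mul a1 a4 (norm_nonneg _) (by positivity))
            (mul_le_mul a2 a3 (norm_nonneg _) (by positivity))
      _ = _ := by ring
  refine (norm_integral_le_of_norm_le_const (Eventually.of_forall e2)).trans ?_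
  have e3 : ε / B * (2 * K * ‖lam‖) * m.real univ ≤ ε := by
    rw [div_mul_eq_mul_div, div_mul_eq_mul_div, div_le_iff₀ hB0]
    have : 2 * K * ‖lam‖ * m.real univ ≤ B := by rw [hB]; linarith
    calc ε * (2 * K * ‖lam‖) * m.real univ = ε * (2 * K * ‖lam‖ * m.real univ) := by ring
      _ ≤ ε * B := mul_le_mul_of_nonneg_left this hε.le
  exact e3

/-- `C¹` test functions with compact support in the base direction only. -/
theorem clo_base (h : BoxCur μ β c R ρ K m X Y) (lam : CC →L[ℝ] ℝ) {Φ : CC → ℝ}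
    (hΦ : ContDiff ℝ 1 Φ) (hT : ∃ T ⊆ ball c R, IsCompact T ∧ ∀ p : CC, p.1 ∉ T → Φ p = 0) :
    ∫ p, br lam Φ X Y p ∂m = 0 := by
  obtain ⟨T, hTs, hTc, hT0⟩ := hT
  let χ : ContDiffBump (0 : ℂ) := ⟨|ρ| + 1, |ρ| + 2, by positivity, by linarith⟩
  have hχ : ContDiff ℝ 1 (fun p : CC => χ p.2) := χ.contDiff.comp contDiff_snd
  have hΨ : ContDiff ℝ 1 (fun p : CC => Φ p * χ p.2) := hΦ.mul hχ
  have hsupp : ∀ p : CC, p ∉ T ×ˢ closedBall (0 : ℂ) (|ρ| + 2) → Φ p * χ p.2 = 0 := by
    intro p hp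
    by_cases h1 : p.1 ∈ T
    · have h2 : p.2 ∉ closedBall (0 : ℂ) (|ρ| + 2) := fun h2 => hp ⟨h1, h2⟩
      rw [χ.zero_of_le_dist (by rw [mem_closedBall, not_le] at h2; exact h2.le), mul_zero]
    · rw [hT0 p h1, zero_mul]
  have hcpt : IsCompact (T ×ˢ closedBall (0 : ℂ) (|ρ| + 2)) := hTc.prod (isCompact_closedBall _ _)
  have hcs : HasCompactSupport (fun p : CC => Φ p * χ p.2) :=
    HasCompactSupport.intro hcpt hsupp
  have hts : tsupport (fun p : CC => Φ p * χ p.2) ⊆ (ball c R) ×ˢ univ := by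
    have h1 : tsupport (fun p : CC => Φ p * χ p.2) ⊆ T ×ˢ closedBall (0 : ℂ) (|ρ| + 2) :=
      closure_minimal (fun p hp => by
        by_contra h2
        exact hp (hsupp p h2)) hcpt.isClosed
    exact h1.trans (prod_mono hTs (subset_univ _))
  have h0 := clo_cs h lam hΨ hcs hts
  rw [← h0]
  refine integral_congr_ae ?_
  filter_upwards [h.supp] with p hp
  have h1 : (fun q : CC => Φ q * χ q.2) =ᶠ[𝓝 p] Φ := by
    have h2 : {q : CC | ‖q.2‖ < |ρ| + 1} ∈ 𝓝 p := by
      refine (isOpen_lt (continuous_norm.comp continuous_snd) continuous_const).mem_nhds ?_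
      have := le_abs_self ρ
      show ‖p.2‖ < |ρ| + 1
      linarith [hp.2]
    filter_upwards [h2] with q hq
    rw [χ.one_of_mem_closedBall (by rw [mem_closedBall_zero_iff]; exact (show ‖q.2‖ < |ρ| + 1 from hq).le),
      mul_one]
  simp only [br, h1.fderiv_eq]

/-- **task 278**: the closedness identities. -/
theorem clo : CLO := by
  intro μ β κ L hb c R ρ K m X Y h Φ hΦ hT
  have key : ∀ lam : CC →L[ℝ] ℝ, ∫ p, br lam Φ X Y p ∂m = 0 := fun lam => clo_base h lam hΦ hT
  refine ⟨?_, ?_, ?_, ?_⟩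
  · rw [← key (imCLM.comp (ContinuousLinearMap.fst ℝ ℂ ℂ))]
    refine integral_congr_ae (Eventually.of_forall fun p => ?_)
    simp only [br, V1, map_sub, map_smul, smul_eq_mul, ContinuousLinearMap.comp_apply,
      ContinuousLinearMap.coe_fst', imCLM_apply]
    ring
  · rw [← neg_zero, ← key (reCLM.comp (ContinuousLinearMap.fst ℝ ℂ ℂ)), ← integral_neg]
    refine integral_congr_ae (Eventually.of_forall fun p => ?_)
    simp only [br, VI, map_sub, map_smul, smul_eq_mul, ContinuousLinearMap.comp_apply,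
      ContinuousLinearMap.coe_fst', reCLM_apply]
    ring
  · rw [← key (imCLM.comp (ContinuousLinearMap.snd ℝ ℂ ℂ))]
    refine integral_congr_ae (Eventually.of_forall fun p => ?_)
    simp only [br, V1, VI, kk, ContinuousLinearMap.comp_apply, ContinuousLinearMap.coe_snd',
      imCLM_apply, Prod.snd_sub, Prod.smul_snd, sub_im, smul_im, smul_eq_mul]
    rw [cov (fderiv ℝ Φ p) (X p), cov (fderiv ℝ Φ p) (Y p)]
    ring
  · rw [← key (reCLM.comp (ContinuousLinearMap.snd ℝ ℂ ℂ))]
    refine integral_congr_ae (Eventually.of_forall fun p => ?_)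
    simp only [br, V1, VI, kk, ContinuousLinearMap.comp_apply, ContinuousLinearMap.coe_snd',
      reCLM_apply, Prod.snd_sub, Prod.smul_snd, sub_re, smul_re, smul_eq_mul]
    rw [cov (fderiv ℝ Φ p) (X p), cov (fderiv ℝ Φ p) (Y p)]
    ring

end

end

end Crest.Agent.R235.CylClo_344
end

-- ▼ part R235/CylCone_128
section

/-!
Row 235 (S0364), REG-CYL leaf C1 (helper128): near a flat point the support of a box current lies
in a thin cone around the tangent plane.
-/

set_option autoImplicit false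

open MeasureTheory Metric Set Filter Complex
open scoped ContDiff Topology

namespace Crest.Agent.R235.CylCone_128

open Crest.Agent.R235.Cyl Crest.Agent.R235.Loc

noncomputable section

/-- `hh` as a continuous bilinear form. -/
def hhL : CC →L[ℝ] CC →L[ℝ] ℝ :=
  (reCLM.comp (ContinuousLinearMap.fst ℝ ℂ ℂ)).smulRight
      (imCLM.comp (ContinuousLinearMap.fst ℝ ℂ ℂ)) -
    (imCLM.comp (ContinuousLinearMap.fst ℝ ℂ ℂ)).smulRight
      (reCLM.comp (ContinuousLinearMap.fst ℝ ℂ ℂ))

/-- `kk` as a continuous bilinear form. -/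
def kkL : CC →L[ℝ] CC →L[ℝ] ℝ :=
  (reCLM.comp (ContinuousLinearMap.snd ℝ ℂ ℂ)).smulRight
      (imCLM.comp (ContinuousLinearMap.snd ℝ ℂ ℂ)) -
    (imCLM.comp (ContinuousLinearMap.snd ℝ ℂ ℂ)).smulRight
      (reCLM.comp (ContinuousLinearMap.snd ℝ ℂ ℂ))

theorem hhL_apply (X Y : CC) : hhL X Y = hh X Y := by
  simp [hhL, hh]
  ring

theorem kkL_apply (X Y : CC) : kkL X Y = kk X Y := by
  simp [kkL, kk]
  ring

/-- the constant form `du ∧ dv + C₀ dx ∧ dy`. -/
def om (C₀ : ℝ) : CC →L[ℝ] CC →L[ℝ] ℝ := kkL + C₀ • hhL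

theorem om_apply (C₀ : ℝ) (X Y : CC) : om C₀ X Y = kk X Y + C₀ * hh X Y := by
  simp [om, hhL_apply, kkL_apply]

theorem om_self (C₀ : ℝ) (X : CC) : om C₀ X X = 0 := by
  rw [om_apply]; simp only [kk, hh]; ring

theorem om_cont (C₀ : ℝ) : Continuous fun z : CC × CC => om C₀ z.1 z.2 := by
  simp only [om_apply, kk, hh]; fun_prop

theorem om_bound (C₀ K : ℝ) (X Y : CC) (hX : ‖X‖ = 1) (hY : ‖Y‖ ≤ K) :
    ‖om C₀ X Y‖ ≤ ‖om C₀‖ * K := by
  have h := (om C₀).le_opNorm₂ X Y
  rw [hX, mul_one] at h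
  exact h.trans (mul_le_mul_of_nonneg_left hY (ContinuousLinearMap.opNorm_nonneg _))

attribute [irreducible] om

/-- the cut-off at `y` of radius `s`: one on `ball y (s/4)`, zero off `ball y (s/2)`. -/
def cut (y : CC) (s : ℝ) (v : CC) : ℝ := max 0 (min 1 (2 - (4 / s) * dist v y))

theorem cut_cont (y : CC) (s : ℝ) : Continuous (cut y s) := by
  unfold cut; fun_prop

theorem cut_nonneg (y : CC) (s : ℝ) (v : CC) : 0 ≤ cut y s v := le_max_left _ _

theorem cut_le (y : CC) (s : ℝ) (v : CC) : cut y s v ≤ 1 :=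
  max_le zero_le_one (min_le_left _ _)

theorem cut_one {y : CC} {s : ℝ} (hs : 0 < s) {v : CC} (h : dist v y ≤ s / 4) :
    cut y s v = 1 := by
  unfold cut
  have : (4 / s) * dist v y ≤ 1 := by
    rw [div_mul_eq_mul_div, div_le_one hs]; linarith
  rw [min_eq_left (by linarith)]
  simp

theorem cut_zero {y : CC} {s : ℝ} (hs : 0 < s) {v : CC} (h : s / 2 ≤ dist v y) :
    cut y s v = 0 := by
  unfold cut
  have : 2 ≤ (4 / s) * dist v y := by
    rw [div_mul_eq_mul_div, le_div_iff₀ hs]; linarith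
  rw [max_eq_left]
  exact (min_le_right _ _).trans (by linarith)


/-- the test form. -/
def gf (C₀ : ℝ) (y : CC) (s : ℝ) (v : CC) : CC →L[ℝ] CC →L[ℝ] ℝ := cut y s v • om C₀

theorem gf_apply (C₀ : ℝ) (y : CC) (s : ℝ) (v X Y : CC) :
    gf C₀ y s v X Y = cut y s v * om C₀ X Y := rfl

theorem gf_cont (C₀ : ℝ) (y : CC) (s : ℝ) : Continuous (gf C₀ y s) :=
  (cut_cont y s).smul continuous_const

theorem gf_supp (C₀ : ℝ) (y : CC) {s : ℝ} (hs : 0 < s) : HasCompactSupport (gf C₀ y s) := by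
  apply HasCompactSupport.of_support_subset_isCompact (isCompact_closedBall y (s / 2))
  intro v hv
  by_contra h
  rw [mem_closedBall, not_le] at h
  apply hv
  refine ContinuousLinearMap.ext fun X => ContinuousLinearMap.ext fun Y => ?_
  rw [gf_apply, cut_zero hs h.le, zero_mul]
  rfl

attribute [irreducible] gf

/-- the positive lower bound at one scale. -/
theorem lower (h0 : ALG0) {μ β : CC → ℂ} {κ L : ℝ} (hb : SBox μ β κ L) {c : ℂ} {R ρ K : ℝ}
    {m : Measure CC} {X Y : CC → CC} (hc : BoxCur μ β c R ρ K m X Y) :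
    ∃ C₀ c₀ : ℝ, 0 < c₀ ∧ ∀ (p y : CC) (s r : ℝ), 0 < s → 0 < r → ∀ q : CC,
      dist (r⁻¹ • (q - p)) y < s / 8 →
      c₀ * m.real (ball q (s * r / 8)) ≤
        ∫ x, gf C₀ y s (r⁻¹ • (x - p)) (X x) (Y x) ∂m := by
  obtain ⟨C₀, c₀, hc0, hC0, H⟩ := h0 κ L K hb.box.κ0 hb.box.κ1 hb.box.L0
  refine ⟨C₀, c₀, hc0, ?_⟩
  intro p y s r hs hr q hq
  have := hc.fin
  have hom : ∀ x, c₀ ≤ om C₀ (X x) (Y x) := by
    intro x
    have := H μ β hb x (X x) (Y x) (hc.nX x) (hc.nY x) (hc.jz x) (hc.jw x)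
    rw [om_apply]; exact this.2.2.2.1
  have homb : ∀ x, ‖om C₀ (X x) (Y x)‖ ≤ ‖om C₀‖ * K := fun x =>
    om_bound C₀ K _ _ (hc.nX x) (hc.nY x)
  have h3 : Measurable fun x : CC => cut y s (r⁻¹ • (x - p)) :=
    ((cut_cont y s).comp (by fun_prop)).measurable
  have h1 : Measurable fun x => om C₀ (X x) (Y x) :=
    (om_cont C₀).measurable.comp (hc.mX.prodMk hc.mY)
  simp only [gf_apply]
  have hint : Integrable (fun x => cut y s (r⁻¹ • (x - p)) * om C₀ (X x) (Y x)) m := by
    refine Integrable.of_bound (h3.mul h1).aestronglyMeasurable (‖om C₀‖ * K) (ae_of_all _ ?_)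
    intro x
    rw [norm_mul]
    calc ‖cut y s (r⁻¹ • (x - p))‖ * ‖om C₀ (X x) (Y x)‖ ≤ 1 * (‖om C₀‖ * K) := by
          refine mul_le_mul ?_ (homb x) (norm_nonneg _) zero_le_one
          rw [Real.norm_eq_abs, abs_of_nonneg (cut_nonneg _ _ _)]; exact cut_le _ _ _
      _ = _ := by ring
  have hsub : ∀ x ∈ ball q (s * r / 8), cut y s (r⁻¹ • (x - p)) = 1 := by
    intro x hx
    apply cut_one hs
    have h1 : dist (r⁻¹ • (x - p)) (r⁻¹ • (q - p)) ≤ s / 8 := by
      rw [dist_smul₀, dist_sub_right, Real.norm_eq_abs, abs_of_pos (inv_pos.2 hr)]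
      have := (mem_ball.1 hx).le
      calc r⁻¹ * dist x q ≤ r⁻¹ * (s * r / 8) := by gcongr
        _ = s / 8 := by field_simp
    have := dist_triangle (r⁻¹ • (x - p)) (r⁻¹ • (q - p)) y
    linarith
  calc c₀ * m.real (ball q (s * r / 8)) = ∫ x in ball q (s * r / 8), c₀ ∂m := by
        rw [setIntegral_const, smul_eq_mul, mul_comm]
    _ ≤ ∫ x in ball q (s * r / 8), cut y s (r⁻¹ • (x - p)) * om C₀ (X x) (Y x) ∂m := by
        apply setIntegral_mono_on
        · exact (integrable_const c₀).integrableOn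
        · exact hint.integrableOn
        · exact measurableSet_ball
        · intro x hx
          rw [hsub x hx, one_mul]
          exact hom x
    _ ≤ _ := by
        apply setIntegral_le_integral hint
        refine ae_of_all _ fun x => ?_
        exact mul_nonneg (cut_nonneg _ _ _) (hc0.le.trans (hom x))

theorem cone (h0 : ALG0) : CONE := by
  intro μ β κ L hb c R ρ K m X Y hc p hp _ hflat ε hε
  by_contra hcon
  push Not at hcon
  obtain ⟨C₀, c₀, hc0, hlow⟩ := lower h0 hb hc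
  -- the bad sequence
  have hex : ∀ n : ℕ, ∃ q : CC, InSupp m q ∧ dist q p < 1 / ((n : ℝ) + 1) ∧
      ∀ ζ : ℂ, ε * ‖q - p‖ < ‖q - p - (ζ.re • X p + ζ.im • Y p)‖ := by
    intro n
    obtain ⟨q, h1, h2, h3⟩ := hcon (1 / ((n : ℝ) + 1)) (by positivity)
    exact ⟨q, h1, h2, h3⟩
  choose q hqs hqd hqf using hex
  have hne : ∀ n, q n - p ≠ 0 := by
    intro n h
    have := hqf n 0
    simp [h] at this
  have hr0 : ∀ n, 0 < ‖q n - p‖ := fun n => norm_pos_iff.2 (hne n)
  set r : ℕ → ℝ := fun n => ‖q n - p‖ with hr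
  set y : ℕ → CC := fun n => (r n)⁻¹ • (q n - p) with hy
  have hy1 : ∀ n, y n ∈ sphere (0 : CC) 1 := by
    intro n
    rw [mem_sphere_zero_iff_norm, hy]
    simp only [norm_smul, norm_inv, Real.norm_eq_abs, abs_norm, hr]
    exact inv_mul_cancel₀ (hr0 n).ne'
  obtain ⟨y₀, -, φ, hφ, hlim⟩ := (isCompact_sphere (0 : CC) 1).tendsto_subseq hy1
  have hyf : ∀ n, ∀ ζ : ℂ, ε ≤ ‖y n - (ζ.re • X p + ζ.im • Y p)‖ := by
    intro n ζ
    have h1 := hqf n ((r n : ℂ) * ζ)
    have h2 : q n - p - ((((r n : ℂ) * ζ)).re • X p + (((r n : ℂ) * ζ)).im • Y p) =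
        (r n) • (y n - (ζ.re • X p + ζ.im • Y p)) := by
      have h3 : (r n) • y n = q n - p := by
        rw [hy]; simp only [smul_smul]
        rw [mul_inv_cancel₀ (hr0 n).ne', one_smul]
      rw [smul_sub, h3, smul_add, smul_smul, smul_smul]
      simp
    rw [h2, norm_smul, Real.norm_eq_abs, abs_of_pos (hr0 n), mul_comm ε] at h1
    exact (lt_of_mul_lt_mul_left h1 (hr0 n).le).le
  have hyf0 : ∀ ζ : ℂ, ε ≤ ‖y₀ - (ζ.re • X p + ζ.im • Y p)‖ := by
    intro ζ
    refine ge_of_tendsto ((hlim.sub_const (ζ.re • X p + ζ.im • Y p)).norm) ?_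
    exact Eventually.of_forall fun n => hyf (φ n) ζ
  -- the test form
  have hfl := hflat (gf C₀ y₀ ε) (gf_cont C₀ y₀ ε) (gf_supp C₀ y₀ hε)
    (by intro q v; rw [gf_apply, om_self, mul_zero])
  have hz : ∫ ζ : ℂ, gf C₀ y₀ ε (ζ.re • X p + ζ.im • Y p) (X p) (Y p) = 0 := by
    have : ∀ ζ : ℂ, gf C₀ y₀ ε (ζ.re • X p + ζ.im • Y p) (X p) (Y p) = 0 := by
      intro ζ
      rw [gf_apply, cut_zero hε, zero_mul]
      rw [dist_comm, dist_eq_norm]
      linarith [hyf0 ζ]
    simp only [this, integral_zero]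
  rw [hz] at hfl
  -- the radii
  have hrt : Tendsto r atTop (𝓝 0) := by
    refine squeeze_zero (fun n => (hr0 n).le) (fun n => ?_) tendsto_one_div_add_atTop_nhds_zero_nat
    have := (hqd n).le
    rwa [dist_eq_norm] at this
  have hrt' : Tendsto (r ∘ φ) atTop (𝓝[>] 0) :=
    tendsto_nhdsWithin_iff.2 ⟨hrt.comp hφ.tendsto_atTop, Eventually.of_forall fun n => hr0 _⟩
  have hfl' := hfl.comp hrt'
  -- lower density
  have hpc : dist p.1 c < R := mem_ball.1 hp
  obtain ⟨c₁, hc1, r₀, hr₀, hlowm⟩ := hc.low ((dist p.1 c + R) / 2) (by linarith)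
  have hev : ∀ᶠ n in atTop, c₀ * (c₁ * (ε / 8) ^ 2) ≤
      ((fun r : ℝ => (r ^ 2)⁻¹ *
        ∫ x, gf C₀ y₀ ε (r⁻¹ • (x - p)) (X x) (Y x) ∂m) ∘ (r ∘ φ)) n := by
    have e1 : ∀ᶠ n in atTop, dist (y (φ n)) y₀ < ε / 8 :=
      (tendsto_iff_dist_tendsto_zero.1 hlim).eventually_lt_const (by positivity)
    have e2 : ∀ᶠ n in atTop, r (φ n) < (R - dist p.1 c) / 2 :=
      (hrt.comp hφ.tendsto_atTop).eventually_lt_const (by linarith)
    have e3 : ∀ᶠ n in atTop, r (φ n) < 8 * r₀ / ε :=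
      (hrt.comp hφ.tendsto_atTop).eventually_lt_const (by positivity)
    filter_upwards [e1, e2, e3] with n h1 h2 h3
    have hb1 := hlow p y₀ ε (r (φ n)) hε (hr0 _) (q (φ n)) h1
    have hcl : (q (φ n)).1 ∈ closedBall c ((dist p.1 c + R) / 2) := by
      rw [mem_closedBall]
      have h4 : dist (q (φ n)).1 p.1 ≤ r (φ n) := by
        rw [dist_eq_norm]; exact norm_fst_le (q (φ n) - p)
      have := dist_triangle (q (φ n)).1 p.1 c
      linarith
    have hrr : ε * r (φ n) / 8 ≤ r₀ := by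
      rw [lt_div_iff₀ hε] at h3; linarith
    have hb2 := hlowm (q (φ n)) hcl (hqs _) (ε * r (φ n) / 8)
      (by have := hr0 (φ n); positivity) hrr
    have hrp := hr0 (φ n)
    change _ ≤ (r (φ n) ^ 2)⁻¹ * _
    rw [inv_mul_eq_div, le_div_iff₀ (by positivity)]
    refine le_trans ?_ hb1
    have : c₀ * (c₁ * (ε * r (φ n) / 8) ^ 2) ≤ c₀ * m.real (ball (q (φ n)) (ε * r (φ n) / 8)) := by
      gcongr
    refine le_trans (le_of_eq ?_) this
    ring
  have := ge_of_tendsto hfl' hev
  have hpos : 0 < c₀ * (c₁ * (ε / 8) ^ 2) := by positivity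
  linarith

end

end Crest.Agent.R235.CylCone_128
end

-- ▼ part R235/ConstMeas_679
section

/-!
Row 235, REG-CYL C2 (pure part): a finite measure on a disc whose distributional derivatives vanish
is a multiple of Lebesgue measure.
-/

set_option autoImplicit false

noncomputable section

namespace Crest.Agent.R235.ConstMeas_679

open Set Metric MeasureTheory Filter Topology
open scoped ContDiff

/-- the standard mollifier of radius `ε` -/
def bmp (ε : ℝ) (h : 0 < ε) : ContDiffBump (0:ℂ) := ⟨ε / 2, ε, by linarith, by linarith⟩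

/-- the mollification of a measure -/
def Fm (ν : Measure ℂ) (ψ : ℂ → ℝ) (x : ℂ) : ℝ := ∫ y, ψ (x - y) ∂ν

theorem hasFDerivAt_Fm (ν : Measure ℂ) [IsFiniteMeasure ν] {ψ : ℂ → ℝ} (hψ : ContDiff ℝ 1 ψ)
    (hc : HasCompactSupport ψ) (x : ℂ) :
    HasFDerivAt (Fm ν ψ) (∫ y, fderiv ℝ ψ (x - y) ∂ν) x := by
  have hcd : Continuous (fderiv ℝ ψ) := hψ.continuous_fderiv (by norm_num)
  obtain ⟨C, hC⟩ := (hc.fderiv ℝ).exists_bound_of_continuous hcd
  obtain ⟨C0, hC0⟩ := hc.exists_bound_of_continuous hψ.continuous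
  unfold Fm
  refine hasFDerivAt_integral_of_dominated_of_fderiv_le (μ := ν) (s := univ) (bound := fun _ => C)
    (F' := fun x y => fderiv ℝ ψ (x - y)) univ_mem ?_ ?_ ?_ ?_ ?_ ?_
  · exact Eventually.of_forall fun w =>
      (hψ.continuous.comp (continuous_const.sub continuous_id)).aestronglyMeasurable
  · refine Integrable.mono' (integrable_const C0)
      (hψ.continuous.comp (continuous_const.sub continuous_id)).aestronglyMeasurable ?_
    exact Eventually.of_forall fun y => hC0 _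
  · exact (hcd.comp (continuous_const.sub continuous_id)).aestronglyMeasurable
  · exact Eventually.of_forall fun y w _ => hC _
  · exact integrable_const C
  · refine Eventually.of_forall fun y w _ => ?_
    have h1 : HasFDerivAt ψ (fderiv ℝ ψ (w - y)) (w - y) :=
      (hψ.differentiable (by norm_num) _).hasFDerivAt
    have h2 := h1.comp w ((hasFDerivAt_id w).sub_const y)
    rw [ContinuousLinearMap.comp_id] at h2
    exact h2

/-- zero distributional derivative -/
def Stat (ν : Measure ℂ) (z : ℂ) (r : ℝ) : Prop :=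
  ∀ f : ℂ → ℝ, ContDiff ℝ 1 f → HasCompactSupport f → tsupport f ⊆ ball z r →
    ∀ e : ℂ, ∫ x, fderiv ℝ f x e ∂ν = 0

theorem Fm_const {ν : Measure ℂ} [IsFiniteMeasure ν] {z : ℂ} {r : ℝ} (h : Stat ν z r)
    {ε : ℝ} (hε : 0 < ε) :
    ∃ d : ℝ, ∀ x ∈ ball z (r - ε), Fm ν ((bmp ε hε).normed volume) x = d := by
  set ψ : ℂ → ℝ := (bmp ε hε).normed volume with hψ
  have hψ1 : ContDiff ℝ 1 ψ := ((bmp ε hε).contDiff_normed (n := 1))
  have hψc : HasCompactSupport ψ := (bmp ε hε).hasCompactSupport_normed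
  have hψs : tsupport ψ = closedBall 0 ε := (bmp ε hε).tsupport_normed_eq
  have hcd : Continuous (fderiv ℝ ψ) := hψ1.continuous_fderiv (by norm_num)
  obtain ⟨C, hC⟩ := (hψc.fderiv ℝ).exists_bound_of_continuous hcd
  have hd : ∀ x ∈ ball z (r - ε), HasFDerivAt (Fm ν ψ) (0 : ℂ →L[ℝ] ℝ) x := by
    intro x hx
    have h1 := hasFDerivAt_Fm ν hψ1 hψc x
    have h2 : ∫ y, fderiv ℝ ψ (x - y) ∂ν = 0 := by
      ext e
      have hint : Integrable (fun y => fderiv ℝ ψ (x - y)) ν :=
        Integrable.mono' (integrable_const C)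
          (hcd.comp (continuous_const.sub continuous_id)).aestronglyMeasurable
          (Eventually.of_forall fun y => hC _)
      rw [ContinuousLinearMap.integral_apply hint]
      have h3 : ∀ y, fderiv ℝ (fun y => ψ (x - y)) y e = -(fderiv ℝ ψ (x - y) e) := by
        intro y
        have h4 : HasFDerivAt ψ (fderiv ℝ ψ (x - y)) (x - y) :=
          (hψ1.differentiable (by norm_num) _).hasFDerivAt
        have h5 := h4.comp y ((hasFDerivAt_id y).const_sub x)
        have h6 : fderiv ℝ (fun y => ψ (x - y)) y = _ := h5.fderiv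
        rw [h6]
        simp
      have hcs : HasCompactSupport (fun y => ψ (x - y)) := by
        refine HasCompactSupport.intro (isCompact_closedBall x ε) fun y hy => ?_
        apply image_eq_zero_of_notMem_tsupport
        rw [hψs]
        intro h4
        apply hy
        rw [mem_closedBall, dist_zero_right] at h4
        rw [mem_closedBall, dist_comm, dist_eq_norm]
        exact h4
      have hts : tsupport (fun y => ψ (x - y)) ⊆ ball z r := by
        have h4 : tsupport (fun y => ψ (x - y)) ⊆ closedBall x ε := by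
          apply closure_minimal _ isClosed_closedBall
          intro y hy
          have h5 : x - y ∈ tsupport ψ := subset_tsupport _ hy
          rw [hψs, mem_closedBall, dist_zero_right] at h5
          rw [mem_closedBall, dist_comm, dist_eq_norm]
          exact h5
        refine h4.trans ?_
        intro y hy
        rw [mem_closedBall] at hy
        rw [mem_ball] at hx ⊢
        calc dist y z ≤ dist y x + dist x z := dist_triangle _ _ _
          _ < r := by linarith
      have h5 := h (fun y => ψ (x - y)) (hψ1.comp (contDiff_const.sub contDiff_id)) hcs hts e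
      simp only [h3, integral_neg, neg_eq_zero] at h5
      simpa using h5
    rwa [h2] at h1
  obtain ⟨d, hd'⟩ := IsOpen.exists_is_const_of_fderiv_eq_zero (𝕜 := ℝ) (s := ball z (r - ε))
    (f := Fm ν ψ) isOpen_ball (convex_ball z (r - ε)).isPreconnected
    (fun x hx => (hd x hx).differentiableAt.differentiableWithinAt)
    (fun x hx => (hd x hx).fderiv)
  exact ⟨d, hd'⟩

/-- the mollified test function -/
def Gm (g : ℂ → ℝ) (ψ : ℂ → ℝ) (y : ℂ) : ℝ := ∫ x, g x * ψ (x - y)

theorem Gm_close {g : ℂ → ℝ} (hg : Continuous g) {ε η : ℝ} (hε : 0 < ε)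
    (h : ∀ x y, dist x y < ε → dist (g x) (g y) ≤ η) (y : ℂ) :
    dist (Gm g ((bmp ε hε).normed volume) y) (g y) ≤ η := by
  have h1 := (bmp ε hε).dist_normed_convolution_le (μ := volume) (g := g) (x₀ := y) (ε := η)
    hg.aestronglyMeasurable (fun x hx => h x y hx)
  have h2 : Gm g ((bmp ε hε).normed volume) y =
      (MeasureTheory.convolution ((bmp ε hε).normed volume) g (ContinuousLinearMap.lsmul ℝ ℝ)
        volume) y := by
    rw [convolution_def]
    unfold Gm
    rw [← integral_sub_left_eq_self (fun x => g x * (bmp ε hε).normed volume (x - y)) volume y]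
    congr 1
    ext t
    simp only [ContinuousLinearMap.lsmul_apply, smul_eq_mul]
    have h3 : y - t - y = -t := by ring
    rw [h3, (bmp ε hε).normed_neg]
    ring
  rw [h2]
  exact h1

theorem swap {ν : Measure ℂ} [IsFiniteMeasure ν] {g ψ : ℂ → ℝ} (hg : Continuous g)
    (hgc : HasCompactSupport g) (hψ : Continuous ψ) (hψc : HasCompactSupport ψ) :
    ∫ y, Gm g ψ y ∂ν = ∫ x, g x * Fm ν ψ x := by
  unfold Gm Fm
  have h1 : Integrable (Function.uncurry fun (y x : ℂ) => g x * ψ (x - y)) (ν.prod volume) := by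
    obtain ⟨C, hC⟩ := hψc.exists_bound_of_continuous hψ
    have h2 : Integrable (fun p : ℂ × ℂ => C * ‖g p.2‖) (ν.prod volume) := by
      have h3 : Integrable g volume := hg.integrable_of_hasCompactSupport hgc
      have := (integrable_const (μ := ν) C).mul_prod h3.norm
      exact this
    refine Integrable.mono' h2 ?_ ?_
    · apply Continuous.aestronglyMeasurable
      exact (hg.comp continuous_snd).mul (hψ.comp (continuous_snd.sub continuous_fst))
    · refine Eventually.of_forall fun p => ?_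
      rw [Function.uncurry, norm_mul, mul_comm]
      gcongr
      exact hC _
  rw [integral_integral_swap h1]
  congr 1
  ext x
  rw [integral_const_mul]

theorem test_const {ν : Measure ℂ} [IsFiniteMeasure ν] {z : ℂ} {r : ℝ} (hr : 0 < r)
    (h : Stat ν z r) :
    ∃ d : ℝ, 0 ≤ d ∧ ∀ g : ℂ → ℝ, Continuous g → HasCompactSupport g → tsupport g ⊆ ball z r →
      ∫ x, g x ∂ν = d * ∫ x, g x := by
  have he : ∀ n : ℕ, (0:ℝ) < 1 / ((n:ℝ) + 1) := fun n => by positivity
  choose d hd using fun n : ℕ => Fm_const h (he n)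
  -- convergence
  have hlim : ∀ g : ℂ → ℝ, Continuous g → HasCompactSupport g → tsupport g ⊆ ball z r →
      Tendsto (fun n => d n * ∫ x, g x) atTop (𝓝 (∫ x, g x ∂ν)) := by
    intro g hg hgc hgs
    obtain ⟨r', hr', hgs'⟩ := exists_lt_subset_ball (isClosed_tsupport g) hgs
    have h1 : ∀ᶠ n : ℕ in atTop, 1 / ((n:ℝ) + 1) < r - r' :=
      (tendsto_order.1 tendsto_one_div_add_atTop_nhds_zero_nat).2 _ (by linarith)
    have h2 : ∀ᶠ n : ℕ in atTop,
        ∫ y, Gm g ((bmp _ (he n)).normed volume) y ∂ν = d n * ∫ x, g x := by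
      filter_upwards [h1] with n hn
      rw [swap hg hgc (bmp _ (he n)).continuous_normed (bmp _ (he n)).hasCompactSupport_normed,
        ← integral_const_mul]
      congr 1
      ext x
      by_cases hx : x ∈ tsupport g
      · have h3 : x ∈ ball z (r - 1 / ((n:ℝ) + 1)) := by
          have := hgs' hx
          rw [mem_ball] at this ⊢
          linarith
        rw [hd n x h3, mul_comm]
      · rw [image_eq_zero_of_notMem_tsupport hx]; simp
    refine Tendsto.congr' h2 ?_
    -- uniform convergence of `Gm`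
    have huc : UniformContinuous g := hgc.uniformContinuous_of_continuous hg
    rw [Metric.tendsto_atTop]
    intro η hη
    obtain ⟨δ, hδ, hδ'⟩ := Metric.uniformContinuous_iff.1 huc (η / (2 * (ν.real univ + 1)))
      (by positivity)
    obtain ⟨N, hN⟩ := eventually_atTop.1 ((tendsto_order.1
      (tendsto_one_div_add_atTop_nhds_zero_nat (𝕜 := ℝ))).2 δ hδ)
    refine ⟨N, fun n hn => ?_⟩
    have hcl : ∀ y, dist (Gm g ((bmp _ (he n)).normed volume) y) (g y) ≤
        η / (2 * (ν.real univ + 1)) := fun y =>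
      Gm_close hg (he n) (fun x y hxy => (hδ' (hxy.trans (hN n hn))).le) y
    have hgi : Integrable g ν := by
      obtain ⟨C, hC⟩ := hgc.exists_bound_of_continuous hg
      exact Integrable.mono' (integrable_const C) hg.aestronglyMeasurable
        (Eventually.of_forall hC)
    have hcG : Continuous (Gm g ((bmp _ (he n)).normed volume)) := by
      have h4 : Gm g ((bmp _ (he n)).normed volume) =
          (MeasureTheory.convolution ((bmp _ (he n)).normed volume) g
            (ContinuousLinearMap.lsmul ℝ ℝ) volume) := by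
        ext y
        rw [convolution_def]
        unfold Gm
        rw [← integral_sub_left_eq_self
          (fun x => g x * (bmp _ (he n)).normed volume (x - y)) volume y]
        congr 1
        ext t
        simp only [ContinuousLinearMap.lsmul_apply, smul_eq_mul]
        have h3 : y - t - y = -t := by ring
        rw [h3, (bmp _ (he n)).normed_neg]
        ring
      rw [h4]
      exact hgc.continuous_convolution_right _
        (bmp _ (he n)).continuous_normed.locallyIntegrable hg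
    have hGi : Integrable (Gm g ((bmp _ (he n)).normed volume)) ν := by
      have h5 : Integrable (fun y => ‖g y‖ + η / (2 * (ν.real univ + 1))) ν :=
        hgi.norm.add (integrable_const _)
      refine Integrable.mono' h5 hcG.aestronglyMeasurable (Eventually.of_forall fun y => ?_)
      have h6 := hcl y
      rw [dist_eq_norm] at h6
      calc ‖Gm g ((bmp _ (he n)).normed volume) y‖
          = ‖g y + (Gm g ((bmp _ (he n)).normed volume) y - g y)‖ := by congr 1; ring
        _ ≤ ‖g y‖ + ‖Gm g ((bmp _ (he n)).normed volume) y - g y‖ := norm_add_le _ _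
        _ ≤ _ := by gcongr
    rw [dist_eq_norm, ← integral_sub hGi hgi]
    have h7 := norm_integral_le_of_norm_le_const (μ := ν)
      (f := fun y => Gm g ((bmp _ (he n)).normed volume) y - g y)
      (C := η / (2 * (ν.real univ + 1)))
      (Eventually.of_forall fun y => by rw [← dist_eq_norm]; exact hcl y)
    have h8 : (0:ℝ) ≤ ν.real univ := measureReal_nonneg
    calc _ ≤ η / (2 * (ν.real univ + 1)) * ν.real univ := h7
      _ < η := by
        rw [div_mul_eq_mul_div, div_lt_iff₀ (by positivity)]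
        nlinarith
  -- the reference function
  let φ : ContDiffBump z := ⟨r / 4, r / 2, by linarith, by linarith⟩
  have hφs : tsupport (φ : ℂ → ℝ) ⊆ ball z r := by
    rw [φ.tsupport_eq]
    exact closedBall_subset_ball (by show r / 2 < r; linarith)
  have hφ0 : 0 < ∫ x, φ x := φ.integral_pos
  have h1 := hlim φ φ.continuous φ.hasCompactSupport hφs
  have h2 : Tendsto d atTop (𝓝 ((∫ x, φ x ∂ν) / ∫ x, φ x)) := by
    have := h1.div_const (∫ x, φ x)
    refine this.congr fun n => ?_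
    field_simp
  refine ⟨(∫ x, φ x ∂ν) / ∫ x, φ x, div_nonneg (integral_nonneg fun x => φ.nonneg) hφ0.le,
    fun g hg hgc hgs => ?_⟩
  exact tendsto_nhds_unique (hlim g hg hgc hgs) (h2.mul_const _)

/-- **constancy**: `ν = d · Lebesgue` on the disc -/
theorem const_meas {ν : Measure ℂ} [IsFiniteMeasure ν] {z : ℂ} {r : ℝ} (hr : 0 < r)
    (h : Stat ν z r) :
    ∃ d : ℝ, 0 ≤ d ∧ ∀ A : Set ℂ, MeasurableSet A → A ⊆ ball z r →
      ν.real A = d * volume.real A := by
  obtain ⟨d, hd, hd'⟩ := test_const hr h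
  refine ⟨d, hd, ?_⟩
  -- cut-offs
  set χ : ℕ → ℂ → ℝ := fun n x => min 1 (max 0 (((n:ℝ) + 1) * (r - dist x z) - 1)) with hχ
  have hχc : ∀ n, Continuous (χ n) := by
    intro n
    simp only [hχ]
    fun_prop
  have hχ0 : ∀ (n : ℕ) (x : ℂ), 0 ≤ χ n x := fun n x => le_min zero_le_one (le_max_left _ _)
  have hχ1 : ∀ (n : ℕ) (x : ℂ), χ n x ≤ 1 := fun n x => min_le_left _ _
  have hχs : ∀ (n : ℕ) (x : ℂ), x ∉ closedBall z (r - 1 / ((n:ℝ) + 1)) → χ n x = 0 := by
    intro n x hx
    rw [mem_closedBall, not_le] at hx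
    have h1 : ((n:ℝ) + 1) * (r - dist x z) - 1 ≤ 0 := by
      have h2 : r - dist x z < 1 / ((n:ℝ) + 1) := by linarith
      have h3 : (0:ℝ) < (n:ℝ) + 1 := by positivity
      have h4 : ((n:ℝ) + 1) * (r - dist x z) ≤ ((n:ℝ) + 1) * (1 / ((n:ℝ) + 1)) := by gcongr
      rw [mul_one_div_cancel h3.ne'] at h4
      linarith
    simp only [hχ]
    rw [max_eq_left h1, min_eq_right zero_le_one]
  have hχcs : ∀ n, HasCompactSupport (χ n) := fun n =>
    HasCompactSupport.intro (isCompact_closedBall z (r - 1 / ((n:ℝ) + 1))) (hχs n)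
  have hχts : ∀ n, tsupport (χ n) ⊆ ball z r := by
    intro n
    have h1 : tsupport (χ n) ⊆ closedBall z (r - 1 / ((n:ℝ) + 1)) := by
      apply closure_minimal _ isClosed_closedBall
      intro x hx
      by_contra hx'
      exact hx (hχs n x hx')
    refine h1.trans (closedBall_subset_ball ?_)
    have : (0:ℝ) < 1 / ((n:ℝ) + 1) := by positivity
    linarith
  have hχt : ∀ x ∈ ball z r, Tendsto (fun n => χ n x) atTop (𝓝 1) := by
    intro x hx
    rw [mem_ball] at hx
    have h1 : ∀ᶠ n : ℕ in atTop, χ n x = 1 := by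
      obtain ⟨N, hN⟩ := exists_nat_gt (2 / (r - dist x z))
      filter_upwards [eventually_ge_atTop N] with n hn
      have h2 : (0:ℝ) < r - dist x z := by linarith
      have h3 : 2 / (r - dist x z) < (n:ℝ) + 1 := by
        have : (N:ℝ) ≤ n := by exact_mod_cast hn
        linarith
      rw [div_lt_iff₀ h2] at h3
      simp only [hχ]
      rw [min_eq_left]
      exact le_max_of_le_right (by linarith)
    exact tendsto_const_nhds.congr' (by filter_upwards [h1] with n hn using hn.symm)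
  -- equality of measures on the ball
  have hmeas : ν.restrict (ball z r) = ENNReal.ofReal d • volume.restrict (ball z r) := by
    have : IsFiniteMeasure (volume.restrict (ball z r)) :=
      ⟨by rw [Measure.restrict_apply_univ]; exact measure_ball_lt_top⟩
    have : IsFiniteMeasure (ENNReal.ofReal d • volume.restrict (ball z r)) :=
      Measure.smul_finite _ ENNReal.ofReal_ne_top
    apply ext_of_forall_integral_eq_of_IsFiniteMeasure
    intro f
    obtain ⟨C, hC⟩ : ∃ C, ∀ x, ‖f x‖ ≤ C := ⟨‖f‖, f.norm_coe_le_norm⟩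
    have hl : ∀ (κ : Measure ℂ) [IsFiniteMeasure (κ.restrict (ball z r))],
        Tendsto (fun n => ∫ x, f x * χ n x ∂(κ.restrict (ball z r))) atTop
        (𝓝 (∫ x, f x ∂(κ.restrict (ball z r)))) := by
      intro κ hκ
      refine tendsto_integral_of_dominated_convergence (fun _ => C)
        (fun n => (f.continuous.mul (hχc n)).aestronglyMeasurable) (integrable_const C) ?_ ?_
      · intro n
        refine Eventually.of_forall fun x => ?_
        rw [norm_mul, Real.norm_of_nonneg (hχ0 n x)]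
        calc ‖f x‖ * χ n x ≤ C * 1 := by
              apply mul_le_mul (hC x) (hχ1 n x) (hχ0 n x) ((norm_nonneg _).trans (hC x))
          _ = C := mul_one C
      · filter_upwards [ae_restrict_mem measurableSet_ball] with x hx
        simpa using (hχt x hx).const_mul (f x)
    have h1 := hl ν
    have h2 := (hl volume).const_mul d
    have h3 : ∀ n, ∫ x, f x * χ n x ∂(ν.restrict (ball z r)) =
        d * ∫ x, f x * χ n x ∂(volume.restrict (ball z r)) := by
      intro n
      have h4 : ∀ κ : Measure ℂ, ∫ x, f x * χ n x ∂(κ.restrict (ball z r)) =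
          ∫ x, f x * χ n x ∂κ := by
        intro κ
        apply setIntegral_eq_integral_of_forall_compl_eq_zero
        intro x hx
        have : x ∉ tsupport (χ n) := fun h => hx (hχts n h)
        rw [image_eq_zero_of_notMem_tsupport this, mul_zero]
      rw [h4, h4]
      apply hd' _ (f.continuous.mul (hχc n)) ((hχcs n).mul_left)
      exact (tsupport_mul_subset_right).trans (hχts n)
    rw [integral_smul_measure, ENNReal.toReal_ofReal hd, smul_eq_mul]
    refine tendsto_nhds_unique h1 ?_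
    exact h2.congr fun n => (h3 n).symm
  intro A hA hAs
  have h1 : ν A = (ν.restrict (ball z r)) A := by
    rw [Measure.restrict_apply hA, inter_eq_left.2 hAs]
  have h2 : volume A = (volume.restrict (ball z r)) A := by
    rw [Measure.restrict_apply hA, inter_eq_left.2 hAs]
  rw [measureReal_def, measureReal_def, h1, hmeas, h2]
  simp [ENNReal.toReal_ofReal hd]

end Crest.Agent.R235.ConstMeas_679
end
end

-- ▼ part R235/CylConst_679
section

/-!
Row 235, REG-CYL C2: constancy theorem (task 280).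
-/

set_option autoImplicit false

noncomputable section

namespace Crest.Agent.R235.CylConst_679

open Set Metric MeasureTheory Filter Topology
open scoped ContDiff Manifold
open Crest.Agent.R235.Loc Crest.Agent.R235.Cyl Crest.Agent.R235.ConstMeas_679

/-- the support of a measure -/
def supp (m : Measure CC) : Set CC := {q | InSupp m q}

theorem isClosed_supp (m : Measure CC) : IsClosed (supp m) := by
  rw [← isOpen_compl_iff, isOpen_iff_mem_nhds]
  intro q hq
  have h1 : ¬ InSupp m q := hq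
  unfold InSupp at h1
  push Not at h1
  obtain ⟨r, hr, h2⟩ := h1
  filter_upwards [ball_mem_nhds q (show 0 < r / 2 by linarith)] with q' hq'
  intro h3
  have h4 : 0 < m (ball q' (r / 2)) := h3 (r / 2) (by linarith)
  have h5 : ball q' (r / 2) ⊆ ball q r := by
    intro x hx
    rw [mem_ball] at hx hq' ⊢
    calc dist x q ≤ dist x q' + dist q' q := dist_triangle _ _ _
      _ < r := by linarith
  exact absurd (h4.trans_le ((measure_mono h5).trans h2)) (lt_irrefl _)

theorem supp_ae (m : Measure CC) : ∀ᵐ q ∂m, q ∈ supp m := by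
  rw [ae_iff]
  apply measure_null_of_locally_null
  intro q hq
  have h1 : ¬ InSupp m q := hq
  unfold InSupp at h1
  push Not at h1
  obtain ⟨r, hr, h2⟩ := h1
  exact ⟨ball q r, nhdsWithin_le_nhds (ball_mem_nhds q hr), le_antisymm h2 bot_le⟩

/-- an open null set does not meet the support -/
theorem not_mem_supp {m : Measure CC} {U : Set CC} (hU : IsOpen U) (h : m U = 0) {q : CC}
    (hq : q ∈ supp m) : q ∉ U := by
  intro hqU
  obtain ⟨r, hr, h1⟩ := Metric.isOpen_iff.1 hU q hqU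
  have h2 : 0 < m (ball q r) := hq r hr
  have h3 : m (ball q r) ≤ 0 := (measure_mono h1).trans h.le
  exact absurd (h2.trans_le h3) (lt_irrefl _)

theorem measurable_hh {X Y : CC → CC} (hX : Measurable X) (hY : Measurable Y) :
    Measurable fun q => hh (X q) (Y q) := by
  unfold hh
  have h1 : Measurable fun q => (X q).1 := hX.fst
  have h2 : Measurable fun q => (Y q).1 := hY.fst
  exact ((Complex.measurable_re.comp h1).mul (Complex.measurable_im.comp h2)).sub
    ((Complex.measurable_re.comp h2).mul (Complex.measurable_im.comp h1))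

/-- **C2** -/
theorem const_of (h0 : ALG0) (h : CLO) : CONST := by
  intro μ β κ L hS c R ρ K m X Y hB z r B hr hsub hBo hfr
  obtain ⟨C₀, c₀, -, hC₀, hA⟩ := h0 κ L K hS.box.κ0 hS.box.κ1 hS.box.L0
  have hfin : IsFiniteMeasure m := hB.fin
  have halg := fun q => hA μ β hS q (X q) (Y q) (hB.nX q) (hB.nY q) (hB.jz q) (hB.jw q)
  have hh0 : ∀ q, 0 ≤ hh (X q) (Y q) := fun q => (halg q).1
  have hh1 : ∀ q, hh (X q) (Y q) ≤ C₀ := fun q => (halg q).2.1
  have hV1 : ∀ q, (V1 (X q) (Y q)).1 = ((hh (X q) (Y q) : ℝ) : ℂ) := fun q => by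
    have := (halg q).2.2.2.2.1
    rw [this]
  have hVI : ∀ q, (VI (X q) (Y q)).1 = Complex.I * ((hh (X q) (Y q) : ℝ) : ℂ) := fun q => by
    have := (halg q).2.2.2.2.2.1
    rw [this]
  have hhm := measurable_hh hB.mX hB.mY
  -- the projection of the support
  have hρ : ∀ q ∈ supp m, ‖q.2‖ ≤ ρ := by
    intro q hq
    by_contra hlt
    rw [not_le] at hlt
    have hU : IsOpen {q : CC | ρ < ‖q.2‖} := isOpen_lt continuous_const (continuous_snd.norm)
    refine not_mem_supp hU ?_ hq hlt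
    have h1 : ∀ᵐ q ∂m, q ∉ {q : CC | ρ < ‖q.2‖} := by
      filter_upwards [hB.supp] with q hq2
      simpa using hq2.2
    exact measure_eq_zero_iff_ae_notMem.2 h1
  set S0 : Set CC := supp m ∩ Prod.fst ⁻¹' closedBall z r with hS0
  have hS0c : IsCompact S0 := by
    apply (((isCompact_closedBall z r).prod (isCompact_closedBall (0:ℂ) ρ))).of_isClosed_subset
    · exact (isClosed_supp m).inter (isClosed_closedBall.preimage continuous_fst)
    · rintro q ⟨hq1, hq2⟩
      exact ⟨hq2, by rw [mem_closedBall, dist_zero_right]; exact hρ q hq1⟩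
  set Kp : Set ℂ := Prod.snd '' S0 with hKp
  have hKc : IsCompact Kp := hS0c.image continuous_snd
  have hKf : ∀ w ∈ Kp, w ∉ frontier B := by
    rintro w ⟨q, ⟨hq1, hq2⟩, rfl⟩
    exact hfr q hq1 hq2
  have hK1 : Kp ∩ B = Kp ∩ closure B := by
    ext w
    constructor
    · rintro ⟨h1, h2⟩; exact ⟨h1, subset_closure h2⟩
    · rintro ⟨h1, h2⟩
      refine ⟨h1, ?_⟩
      by_contra h3
      apply hKf w h1
      rw [hBo.frontier_eq]
      exact ⟨h2, h3⟩
  have hK1c : IsClosed (Kp ∩ B) := by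
    rw [hK1]; exact hKc.isClosed.inter isClosed_closure
  have hK2c : IsClosed (Kp \ B) := hKc.isClosed.sdiff hBo
  obtain ⟨χ, hχ0, hχ1, hχI⟩ := exists_contMDiffMap_zero_one_nhds_of_isClosed (n := ⊤)
    (𝓘(ℝ, ℂ)) hK2c hK1c (disjoint_left.2 fun w h1 h2 => h1.2 h2.2)
  have hχs : ContDiff ℝ ∞ (χ : ℂ → ℝ) := χ.contMDiff.contDiff
  have hχs1 : ContDiff ℝ 1 (χ : ℂ → ℝ) := hχs.of_le (by simp)
  have hχ0' : ∀ w ∈ Kp \ B, (χ : ℂ → ℝ) w = 0 ∧ fderiv ℝ (χ : ℂ → ℝ) w = 0 := by
    intro w hw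
    have h1 : ∀ᶠ x in 𝓝 w, (χ : ℂ → ℝ) x = 0 := hχ0.filter_mono (nhds_le_nhdsSet hw)
    refine ⟨h1.self_of_nhds, ?_⟩
    have h2 : (χ : ℂ → ℝ) =ᶠ[𝓝 w] fun _ => (0:ℝ) := h1
    rw [h2.fderiv_eq]; simp
  have hχ1' : ∀ w ∈ Kp ∩ B, (χ : ℂ → ℝ) w = 1 ∧ fderiv ℝ (χ : ℂ → ℝ) w = 0 := by
    intro w hw
    have h1 : ∀ᶠ x in 𝓝 w, (χ : ℂ → ℝ) x = 1 := hχ1.filter_mono (nhds_le_nhdsSet hw)
    refine ⟨h1.self_of_nhds, ?_⟩
    have h2 : (χ : ℂ → ℝ) =ᶠ[𝓝 w] fun _ => (1:ℝ) := h1
    rw [h2.fderiv_eq]; simp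
  -- the projected measure
  set D : Set CC := ball z r ×ˢ B with hD
  have hDm : MeasurableSet D := measurableSet_ball.prod hBo.measurableSet
  set den : CC → ENNReal := fun q => ENNReal.ofReal (hh (X q) (Y q)) with hden
  have hdenm : Measurable den := hhm.ennreal_ofReal
  set ν : Measure ℂ := (((m.restrict D).withDensity den).map Prod.fst) with hν
  have hint : ∀ f : ℂ → ℝ, Measurable f →
      ∫ x, f x ∂ν = ∫ q in D, hh (X q) (Y q) * f q.1 ∂m := by
    intro f hf
    rw [hν, integral_map measurable_fst.aemeasurable hf.aestronglyMeasurable,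
      integral_withDensity_eq_integral_toReal_smul hdenm
        (Eventually.of_forall fun q => ENNReal.ofReal_lt_top)]
    congr 1
    ext q
    simp only [hden, ENNReal.toReal_ofReal (hh0 q), smul_eq_mul]
  have hνfin : IsFiniteMeasure ν := by
    have h1 : IsFiniteMeasure ((m.restrict D).withDensity den) := by
      apply isFiniteMeasure_withDensity
      refine ((lintegral_mono (g := fun _ => ENNReal.ofReal C₀) fun q => ?_).trans_lt ?_).ne
      · exact ENNReal.ofReal_le_ofReal (hh1 q)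
      · rw [lintegral_const]
        exact ENNReal.mul_lt_top ENNReal.ofReal_lt_top (measure_lt_top _ _)
    exact Measure.isFiniteMeasure_map _ _
  have hstat : Stat ν z r := by
    intro f hf hfc hfs
    have hfd : Continuous (fderiv ℝ f) := hf.continuous_fderiv (by norm_num)
    -- the test function
    have hΦ : ContDiff ℝ 1 (fun q : CC => f q.1 * (χ : ℂ → ℝ) q.2) :=
      (hf.comp contDiff_fst).mul (hχs1.comp contDiff_snd)
    have hder : ∀ (q v : CC), fderiv ℝ (fun q : CC => f q.1 * (χ : ℂ → ℝ) q.2) q v =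
        f q.1 * fderiv ℝ (χ : ℂ → ℝ) q.2 v.2 + (χ : ℂ → ℝ) q.2 * fderiv ℝ f q.1 v.1 := by
      intro q v
      have h1 : HasFDerivAt (fun q : CC => f q.1)
          ((fderiv ℝ f q.1).comp (ContinuousLinearMap.fst ℝ ℂ ℂ)) q :=
        (hf.differentiable (by norm_num) q.1).hasFDerivAt.comp q hasFDerivAt_fst
      have h2 : HasFDerivAt (fun q : CC => (χ : ℂ → ℝ) q.2)
          ((fderiv ℝ (χ : ℂ → ℝ) q.2).comp (ContinuousLinearMap.snd ℝ ℂ ℂ)) q :=
        (hχs1.differentiable (by norm_num) q.2).hasFDerivAt.comp q hasFDerivAt_snd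
      have h3 : fderiv ℝ (fun q : CC => f q.1 * (χ : ℂ → ℝ) q.2) q = _ := (h1.mul h2).fderiv
      rw [h3]
      simp
    have hcl := h μ β κ L hS c R ρ K m X Y hB (fun q : CC => f q.1 * (χ : ℂ → ℝ) q.2) hΦ
      ⟨tsupport f, (hfs.trans ball_subset_closedBall).trans hsub, hfc.isCompact, fun p hp => by
        simp [image_eq_zero_of_notMem_tsupport hp]⟩
    -- identification of the integrand
    have hid : ∀ (V : CC → CC) (e : ℂ), (∀ q, (V q).1 = ((hh (X q) (Y q) : ℝ) : ℂ) * e) →
        ∫ q, fderiv ℝ (fun q : CC => f q.1 * (χ : ℂ → ℝ) q.2) q (V q) ∂m =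
          ∫ q in D, hh (X q) (Y q) * fderiv ℝ f q.1 e ∂m := by
      intro V e hV
      rw [← integral_indicator hDm]
      apply integral_congr_ae
      filter_upwards [supp_ae m] with q hq
      rw [hder, hV]
      have hlin : fderiv ℝ f q.1 (((hh (X q) (Y q) : ℝ) : ℂ) * e) =
          hh (X q) (Y q) * fderiv ℝ f q.1 e := by
        have : ((hh (X q) (Y q) : ℝ) : ℂ) * e = (hh (X q) (Y q)) • e := by
          rw [Complex.real_smul]
        rw [this, map_smul, smul_eq_mul]
      rw [hlin]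
      by_cases hqz : q.1 ∈ ball z r
      · have hqK : q.2 ∈ Kp := ⟨q, ⟨hq, ball_subset_closedBall hqz⟩, rfl⟩
        by_cases hqB : q.2 ∈ B
        · obtain ⟨h1, h2⟩ := hχ1' q.2 ⟨hqK, hqB⟩
          rw [indicator_of_mem (show q ∈ D from ⟨hqz, hqB⟩), h1, h2]
          simp
        · obtain ⟨h1, h2⟩ := hχ0' q.2 ⟨hqK, hqB⟩
          rw [indicator_of_notMem (show q ∉ D from fun h => hqB h.2), h1, h2]
          simp
      · have h1 : q.1 ∉ tsupport f := fun h => hqz (hfs h)
        have h2 : f q.1 = 0 := image_eq_zero_of_notMem_tsupport h1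
        have h3 : fderiv ℝ f q.1 = 0 := by
          by_contra h4
          exact h1 (support_fderiv_subset ℝ h4)
        rw [indicator_of_notMem (show q ∉ D from fun h => hqz h.1), h2, h3]
        simp
    have hI1 : ∫ q in D, hh (X q) (Y q) * fderiv ℝ f q.1 1 ∂m = 0 := by
      rw [← hid (fun q => V1 (X q) (Y q)) 1 (fun q => by rw [hV1, mul_one])]
      exact hcl.1
    have hII : ∫ q in D, hh (X q) (Y q) * fderiv ℝ f q.1 Complex.I ∂m = 0 := by
      rw [← hid (fun q => VI (X q) (Y q)) Complex.I (fun q => by rw [hVI, mul_comm])]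
      exact hcl.2.1
    intro e
    rw [hint _ (by fun_prop)]
    have he : ∀ q : CC, hh (X q) (Y q) * fderiv ℝ f q.1 e =
        e.re * (hh (X q) (Y q) * fderiv ℝ f q.1 1) +
          e.im * (hh (X q) (Y q) * fderiv ℝ f q.1 Complex.I) := by
      intro q
      have h1 : e = e.re • (1:ℂ) + e.im • Complex.I := by
        simp
      have h2 : fderiv ℝ f q.1 e = e.re * fderiv ℝ f q.1 1 + e.im * fderiv ℝ f q.1 Complex.I := by
        conv_lhs => rw [h1]
        rw [map_add, map_smul, map_smul, smul_eq_mul, smul_eq_mul]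
      rw [h2]; ring
    obtain ⟨M, hM⟩ := (hfc.fderiv ℝ).exists_bound_of_continuous hfd
    have hintg : ∀ v : ℂ, Integrable (fun q : CC => hh (X q) (Y q) * fderiv ℝ f q.1 v)
        (m.restrict D) := by
      intro v
      refine Integrable.mono' (integrable_const (C₀ * (M * ‖v‖))) ?_ ?_
      · exact (hhm.mul (Measurable.comp (g := fun x => fderiv ℝ f x v) (by fun_prop)
          measurable_fst)).aestronglyMeasurable
      · refine Eventually.of_forall fun q => ?_
        rw [norm_mul, Real.norm_of_nonneg (hh0 q)]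
        gcongr
        · exact hh1 q
        · exact (ContinuousLinearMap.le_opNorm _ _).trans (by gcongr; exact hM _)
    simp only [he]
    rw [integral_add ((hintg 1).const_mul _) ((hintg Complex.I).const_mul _), integral_const_mul,
      integral_const_mul, hI1, hII]
    ring
  obtain ⟨d, hd, hd'⟩ := const_meas hr hstat
  refine ⟨d, hd, fun A hA hAs => ?_⟩
  rw [← hd' A hA hAs]
  have h1 : ν.real A = ∫ x, A.indicator (fun _ => (1:ℝ)) x ∂ν := by
    rw [integral_indicator hA, setIntegral_const, smul_eq_mul, mul_one]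
  rw [h1, hint _ (measurable_const.indicator hA)]
  have h2 : ∀ q : CC, hh (X q) (Y q) * A.indicator (fun _ => (1:ℝ)) q.1 =
      (A ×ˢ (univ : Set ℂ)).indicator (fun q => hh (X q) (Y q)) q := by
    intro q
    by_cases hq : q.1 ∈ A
    · rw [indicator_of_mem hq, indicator_of_mem (show q ∈ A ×ˢ (univ : Set ℂ) from ⟨hq, trivial⟩),
        mul_one]
    · rw [indicator_of_notMem hq,
        indicator_of_notMem (show q ∉ A ×ˢ (univ : Set ℂ) from fun h => hq h.1), mul_zero]
  simp only [h2]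
  rw [setIntegral_indicator (hA.prod MeasurableSet.univ)]
  congr 2
  ext q
  simp only [hD, mem_prod, mem_inter_iff, mem_univ, and_true]
  constructor
  · rintro ⟨h3, h4⟩; exact ⟨⟨hAs h3, h4⟩, h3⟩
  · rintro ⟨⟨-, h4⟩, h3⟩; exact ⟨h3, h4⟩

end Crest.Agent.R235.CylConst_679
end
end

-- ▼ part R235/CylDeg_423
section

/-!
Row 235 (S0364), PACKAGE REG, REG-CYL C3 (task 281, helper423):
small cylinders at flat non-vertical points have degree one.
-/

set_option autoImplicit false

open MeasureTheory Metric Set Filter Complex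
open scoped ContDiff Topology

namespace Crest.Agent.R235.CylDeg_423

open Crest.Agent.R235.Loc Crest.Agent.R235.Cyl

noncomputable section

/-- almost every point is in the support. -/
theorem ae_inSupp (m : Measure CC) : ∀ᵐ p ∂m, InSupp m p := by
  have h := MeasureTheory.Measure.support_mem_ae (μ := m)
  filter_upwards [h] with p hp r hr
  exact (Measure.mem_support_iff_forall p).1 hp _ (ball_mem_nhds p hr)

/-! ### the slope -/

theorem slo_X (X Y : CC) (h : hh X Y ≠ 0) : slo X Y X.1 = X.2 := by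
  have h1 : X.1.re • (V1 X Y).2 + X.1.im • (VI X Y).2 = hh X Y • X.2 := by
    apply Complex.ext <;> simp [V1, VI, hh] <;> ring
  have h2 : slo X Y X.1 = (hh X Y)⁻¹ • (X.1.re • (V1 X Y).2 + X.1.im • (VI X Y).2) := by
    simp [slo]
  rw [h2, h1, inv_smul_smul₀ h]

theorem slo_Y (X Y : CC) (h : hh X Y ≠ 0) : slo X Y Y.1 = Y.2 := by
  have h1 : Y.1.re • (V1 X Y).2 + Y.1.im • (VI X Y).2 = hh X Y • Y.2 := by
    apply Complex.ext <;> simp [V1, VI, hh] <;> ring
  have h2 : slo X Y Y.1 = (hh X Y)⁻¹ • (Y.1.re • (V1 X Y).2 + Y.1.im • (VI X Y).2) := by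
    simp [slo]
  rw [h2, h1, inv_smul_smul₀ h]

theorem slo_comb (X Y : CC) (h : hh X Y ≠ 0) (s t : ℝ) :
    (s • X + t • Y).2 = slo X Y (s • X + t • Y).1 := by
  simp only [Prod.snd_add, Prod.smul_snd, Prod.fst_add, Prod.smul_fst, map_add, map_smul,
    slo_X X Y h, slo_Y X Y h]

/-- the support is in a cone around a non-vertical plane. -/
theorem thin {m : Measure CC} {X Y : CC → CC} {p : CC} (hp : 0 < hh (X p) (Y p))
    (hc : ∀ ε > 0, ∃ r₁ > 0, ∀ q : CC, InSupp m q → dist q p < r₁ →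
      ∃ ζ : ℂ, ‖q - p - (ζ.re • X p + ζ.im • Y p)‖ ≤ ε * ‖q - p‖) :
    ∃ K₁ r₁ : ℝ, 1 ≤ K₁ ∧ ‖slo (X p) (Y p)‖ ≤ K₁ ∧ 0 < r₁ ∧
      ∀ q : CC, InSupp m q → dist q p < r₁ → ‖q.2 - p.2‖ ≤ K₁ * ‖q.1 - p.1‖ := by
  set K₀ : ℝ := ‖slo (X p) (Y p)‖ with hK₀
  have hK₀0 : 0 ≤ K₀ := norm_nonneg _
  obtain ⟨r₁, hr₁, H⟩ := hc (1 / (2 * (1 + K₀))) (by positivity)
  refine ⟨2 * K₀ + 1, r₁, by linarith, by linarith, hr₁, fun q hq hqp => ?_⟩
  obtain ⟨ζ, hζ⟩ := H q hq hqp
  set v : CC := ζ.re • X p + ζ.im • Y p with hv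
  have hv2 : v.2 = slo (X p) (Y p) v.1 := slo_comb _ _ hp.ne' _ _
  have hv3 : ‖v.2‖ ≤ K₀ * ‖v.1‖ := by
    rw [hv2]; exact ContinuousLinearMap.le_opNorm _ _
  set n : ℝ := ‖q - p‖ with hn
  have hn0 : 0 ≤ n := norm_nonneg _
  have e1 : ‖q.1 - p.1 - v.1‖ ≤ 1 / (2 * (1 + K₀)) * n :=
    (norm_fst_le (q - p - v)).trans hζ
  have e2 : ‖q.2 - p.2 - v.2‖ ≤ 1 / (2 * (1 + K₀)) * n :=
    (norm_snd_le (q - p - v)).trans hζ
  have e3 : ‖v.1‖ ≤ ‖q.1 - p.1‖ + 1 / (2 * (1 + K₀)) * n := by
    have : v.1 = (q.1 - p.1) - (q.1 - p.1 - v.1) := by abel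
    calc ‖v.1‖ = ‖(q.1 - p.1) - (q.1 - p.1 - v.1)‖ := by rw [← this]
      _ ≤ ‖q.1 - p.1‖ + ‖q.1 - p.1 - v.1‖ := norm_sub_le _ _
      _ ≤ _ := by linarith
  have e4 : ‖q.2 - p.2‖ ≤ ‖v.2‖ + 1 / (2 * (1 + K₀)) * n := by
    have : q.2 - p.2 = v.2 + (q.2 - p.2 - v.2) := by abel
    calc ‖q.2 - p.2‖ = ‖v.2 + (q.2 - p.2 - v.2)‖ := by rw [← this]
      _ ≤ ‖v.2‖ + ‖q.2 - p.2 - v.2‖ := norm_add_le _ _
      _ ≤ _ := by linarith
  have e5 : ‖q.2 - p.2‖ ≤ K₀ * ‖q.1 - p.1‖ + n / 2 := by
    have h1 : K₀ * ‖v.1‖ ≤ K₀ * (‖q.1 - p.1‖ + 1 / (2 * (1 + K₀)) * n) :=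
      mul_le_mul_of_nonneg_left e3 hK₀0
    have h2 : K₀ * (1 / (2 * (1 + K₀)) * n) + 1 / (2 * (1 + K₀)) * n = n / 2 := by
      field_simp
      ring
    nlinarith
  have hmax : n = max ‖q.1 - p.1‖ ‖q.2 - p.2‖ := by
    rw [hn, Prod.norm_def]; rfl
  have ha : 0 ≤ ‖q.1 - p.1‖ := norm_nonneg _
  rcases le_total ‖q.1 - p.1‖ ‖q.2 - p.2‖ with hle | hle
  · rw [max_eq_right hle] at hmax
    rw [hmax] at e5
    nlinarith
  · rw [max_eq_left hle] at hmax
    rw [hmax] at e5
    nlinarith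

/-! ### linear change of variables -/

/-- the real linear map `ζ ↦ ζ.re • a + ζ.im • b`. -/
def TT (a b : ℂ) : ℂ →ₗ[ℝ] ℂ := Complex.reLm.smulRight a + Complex.imLm.smulRight b

theorem TT_apply (a b ζ : ℂ) : TT a b ζ = ζ.re • a + ζ.im • b := by
  simp [TT]

theorem det_TT (a b : ℂ) : LinearMap.det (TT a b) = a.re * b.im - b.re * a.im := by
  rw [← LinearMap.det_toMatrix Complex.basisOneI, Matrix.det_fin_two]
  simp [LinearMap.toMatrix_apply, TT_apply]

theorem int_TT (a b : ℂ) (h : 0 < a.re * b.im - b.re * a.im) (f : ℂ → ℝ) (hf : Continuous f) :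
    (∫ ζ : ℂ, f (ζ.re • a + ζ.im • b)) * (a.re * b.im - b.re * a.im) = ∫ z : ℂ, f z := by
  have hd : LinearMap.det (TT a b) ≠ 0 := by rw [det_TT]; exact h.ne'
  have h1 := Measure.map_linearMap_addHaar_eq_smul_addHaar (volume : Measure ℂ) hd
  have hc : Continuous (TT a b) := LinearMap.continuous_of_finiteDimensional _
  have h2 : ∫ z : ℂ, f z ∂(Measure.map (TT a b) volume) = ∫ ζ : ℂ, f (TT a b ζ) :=
    integral_map hc.measurable.aemeasurable hf.aestronglyMeasurable
  rw [h1, integral_smul_measure, ENNReal.toReal_ofReal (abs_nonneg _), det_TT,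
    abs_of_pos (inv_pos.2 h)] at h2
  have h3 : ∫ ζ : ℂ, f (ζ.re • a + ζ.im • b) = ∫ ζ : ℂ, f (TT a b ζ) := by
    simp only [TT_apply]
  rw [h3, ← h2, smul_eq_mul]
  field_simp

/-! ### the push-forward to the base -/

/-- if `H(A × B) = d |A|` for `A ⊆ ball z r` then `∫ φ(q.1) dH = d ∫ φ`. -/
theorem push {m : Measure CC} [IsFiniteMeasure m] {h : CC → ℝ} (hm : Measurable h)
    (h0 : ∀ q, 0 ≤ h q) (hi : Integrable h m) {z : ℂ} {r : ℝ} {B : Set ℂ} (hB : IsOpen B) {d : ℝ}
    (hd : 0 ≤ d)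
    (hA : ∀ A : Set ℂ, MeasurableSet A → A ⊆ ball z r →
      ∫ q in A ×ˢ B, h q ∂m = d * volume.real A)
    (φ : ℂ → ℝ) (hφ : Continuous φ) :
    ∫ q in (ball z r) ×ˢ B, φ q.1 * h q ∂m = d * ∫ w in ball z r, φ w := by
  set S : Set CC := (ball z r) ×ˢ B with hS
  have hSm : MeasurableSet S := measurableSet_ball.prod hB.measurableSet
  set ν₀ : Measure CC := (m.restrict S).withDensity (fun q => ENNReal.ofReal (h q)) with hν₀
  have hν : Measure.map Prod.fst ν₀ = ENNReal.ofReal d • volume.restrict (ball z r) := by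
    ext A hAm
    rw [Measure.map_apply measurable_fst hAm, hν₀,
      withDensity_apply _ (measurable_fst hAm), Measure.restrict_restrict (measurable_fst hAm),
      Measure.smul_apply, Measure.restrict_apply hAm, smul_eq_mul]
    have hset : Prod.fst ⁻¹' A ∩ S = (A ∩ ball z r) ×ˢ B := by
      ext q
      simp only [hS, mem_inter_iff, mem_preimage, mem_prod]
      tauto
    have h1 := hA (A ∩ ball z r) (hAm.inter measurableSet_ball) inter_subset_right
    rw [hset, ← ofReal_integral_eq_lintegral_ofReal hi.integrableOn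
      (Eventually.of_forall fun q => h0 q), h1, ENNReal.ofReal_mul hd]
    congr 1
    rw [Measure.real, ENNReal.ofReal_toReal]
    exact (lt_of_le_of_lt (measure_mono inter_subset_right) measure_ball_lt_top).ne
  have h2 : ∫ w, φ w ∂(Measure.map Prod.fst ν₀) = ∫ q, φ q.1 ∂ν₀ :=
    integral_map measurable_fst.aemeasurable hφ.aestronglyMeasurable
  rw [hν, integral_smul_measure, ENNReal.toReal_ofReal hd, hν₀,
    integral_withDensity_eq_integral_toReal_smul (by fun_prop)
      (Eventually.of_forall fun q => ENNReal.ofReal_lt_top)] at h2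
  rw [smul_eq_mul] at h2
  rw [h2]
  refine integral_congr_ae (Eventually.of_forall fun q => ?_)
  simp only [smul_eq_mul]
  rw [ENNReal.toReal_ofReal (h0 q), mul_comm]

/-! ### test forms -/

/-- the form `dx ∧ dy`. -/
def om : CC →L[ℝ] CC →L[ℝ] ℝ :=
  ((reCLM.comp (ContinuousLinearMap.fst ℝ ℂ ℂ)).smulRight
    (imCLM.comp (ContinuousLinearMap.fst ℝ ℂ ℂ))) -
  ((imCLM.comp (ContinuousLinearMap.fst ℝ ℂ ℂ)).smulRight
    (reCLM.comp (ContinuousLinearMap.fst ℝ ℂ ℂ)))

theorem om_apply (X Y : CC) : om X Y = hh X Y := by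
  simp [om, hh]; ring

/-- base profile. -/
def f1 (z : ℂ) : ℝ := max 0 (1 - ‖z‖)

/-- fibre profile. -/
def f2 (K₁ : ℝ) (w : ℂ) : ℝ := max 0 (min 1 (K₁ + 2 - ‖w‖))

theorem f1_cont : Continuous f1 := by unfold f1; fun_prop

theorem f2_cont (K₁ : ℝ) : Continuous (f2 K₁) := by unfold f2; fun_prop

theorem f1_zero {z : ℂ} (h : 1 ≤ ‖z‖) : f1 z = 0 := by
  unfold f1; exact max_eq_left (by linarith)

theorem f1_nonneg (z : ℂ) : 0 ≤ f1 z := le_max_left _ _

theorem f2_zero {K₁ : ℝ} {w : ℂ} (h : K₁ + 2 ≤ ‖w‖) : f2 K₁ w = 0 := by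
  unfold f2
  exact max_eq_left ((min_le_right _ _).trans (by linarith))

theorem f2_one {K₁ : ℝ} {w : ℂ} (h : ‖w‖ ≤ K₁ + 1) : f2 K₁ w = 1 := by
  unfold f2
  rw [min_eq_left (by linarith), max_eq_right zero_le_one]

theorem f1_supp : HasCompactSupport f1 := by
  refine HasCompactSupport.intro (isCompact_closedBall (0 : ℂ) 1) fun z hz => ?_
  refine f1_zero ?_
  rw [mem_closedBall_zero_iff, not_le] at hz
  exact hz.le

theorem int_f1_pos : 0 < ∫ z : ℂ, f1 z := by
  refine Continuous.integral_pos_of_hasCompactSupport_nonneg_nonzero f1_cont f1_supp f1_nonneg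
    (x := 0) ?_
  simp [f1]

/-- the test form. -/
def gg (K₁ : ℝ) (y : CC) : CC →L[ℝ] CC →L[ℝ] ℝ := (f1 y.1 * f2 K₁ y.2) • om

theorem gg_apply (K₁ : ℝ) (y X Y : CC) : gg K₁ y X Y = f1 y.1 * f2 K₁ y.2 * hh X Y := by
  simp [gg, om_apply]

theorem gg_cont (K₁ : ℝ) : Continuous (gg K₁) := by
  have h1 : Continuous fun y : CC => f1 y.1 := f1_cont.comp continuous_fst
  have h2 : Continuous fun y : CC => f2 K₁ y.2 := (f2_cont K₁).comp continuous_snd
  exact (h1.mul h2).smul continuous_const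

theorem gg_supp (K₁ : ℝ) : HasCompactSupport (gg K₁) := by
  refine HasCompactSupport.intro
    ((isCompact_closedBall (0 : ℂ) 1).prod (isCompact_closedBall (0 : ℂ) (K₁ + 2))) fun y hy => ?_
  have : f1 y.1 * f2 K₁ y.2 = 0 := by
    by_cases h1 : y.1 ∈ closedBall (0 : ℂ) 1
    · have h2 : y.2 ∉ closedBall (0 : ℂ) (K₁ + 2) := fun h => hy ⟨h1, h⟩
      rw [mem_closedBall_zero_iff, not_le] at h2
      rw [f2_zero h2.le, mul_zero]
    · rw [mem_closedBall_zero_iff, not_le] at h1
      rw [f1_zero h1.le, zero_mul]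
  refine ContinuousLinearMap.ext fun X => ContinuousLinearMap.ext fun Y => ?_
  rw [gg_apply, this, zero_mul]
  rfl

theorem gg_alt (K₁ : ℝ) (q v : CC) : gg K₁ q v v = 0 := by
  rw [gg_apply]; simp only [hh]; ring

/-- scaling. -/
theorem int_scale (z : ℂ) {s : ℝ} (hs : 0 < s) :
    ∫ w : ℂ, f1 (s⁻¹ • (w - z)) = s ^ 2 * ∫ w : ℂ, f1 w := by
  have h1 : ∫ w : ℂ, f1 (s⁻¹ • (w - z)) = ∫ w : ℂ, f1 (s⁻¹ • w) :=
    integral_sub_right_eq_self (fun w : ℂ => f1 (s⁻¹ • w)) z
  rw [h1, Measure.integral_comp_inv_smul_of_nonneg _ _ hs.le, Complex.finrank_real_complex,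
    smul_eq_mul]

/-- **C3**: degree one at flat non-vertical points. -/
theorem deg1_of (h0 : ALG0) (h1 : CONE) (h2 : CONST) : DEG1 := by
  intro μ β κ L hb c R ρ K m X Y hm p hpR hps hflat hpp ε hε
  have := hm.fin
  obtain ⟨C₀, c₀, hc₀, hC₀, hal⟩ := h0 κ L K hb.box.κ0 hb.box.κ1 hb.box.L0
  have hal' : ∀ q : CC, 0 ≤ hh (X q) (Y q) ∧ hh (X q) (Y q) ≤ C₀ := fun q =>
    ⟨(hal μ β hb q (X q) (Y q) (hm.nX q) (hm.nY q) (hm.jz q) (hm.jw q)).1,
     (hal μ β hb q (X q) (Y q) (hm.nX q) (hm.nY q) (hm.jz q) (hm.jw q)).2.1⟩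
  have hmh : Measurable fun q => hh (X q) (Y q) := by
    unfold hh
    have a1 : Measurable fun q => (X q).1 := measurable_fst.comp hm.mX
    have a2 : Measurable fun q => (Y q).1 := measurable_fst.comp hm.mY
    exact ((measurable_re.comp a1).mul (measurable_im.comp a2)).sub
      ((measurable_re.comp a2).mul (measurable_im.comp a1))
  have hih : Integrable (fun q => hh (X q) (Y q)) m := by
    refine Integrable.mono' (integrable_const C₀) hmh.aestronglyMeasurable
      (Eventually.of_forall fun q => ?_)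
    rw [Real.norm_eq_abs, abs_of_nonneg (hal' q).1]
    exact (hal' q).2
  obtain ⟨K₁, r₁, hK₁, hsl, hr₁, hth⟩ := thin hpp (h1 μ β κ L hb c R ρ K m X Y hm p hpR hps hflat)
  -- radii
  set δ : ℝ := min ε r₁ / 2 with hδ
  have hmin : 0 < min ε r₁ := lt_min hε hr₁
  have hδ0 : 0 < δ := by positivity
  have hδε : δ < ε := by
    have := min_le_left ε r₁
    linarith
  have hδr : δ < r₁ := by
    have := min_le_right ε r₁
    linarith
  have hpR' : 0 < R - dist p.1 c := by
    rw [mem_ball] at hpR; linarith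
  set r : ℝ := min (δ / (4 * K₁)) ((R - dist p.1 c) / 2) with hr
  have hK0 : 0 < K₁ := by linarith
  have hr0 : 0 < r := lt_min (by positivity) (by linarith)
  have hr4 : r ≤ δ / (4 * K₁) := min_le_left _ _
  have hKr : K₁ * r ≤ δ / 4 := by
    have := mul_le_mul_of_nonneg_left hr4 hK0.le
    calc K₁ * r ≤ K₁ * (δ / (4 * K₁)) := this
      _ = δ / 4 := by field_simp
  have hrδ : r ≤ δ / 4 := by
    have : r ≤ K₁ * r := by nlinarith
    linarith
  have hsub : closedBall p.1 r ⊆ ball c R := by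
    refine closedBall_subset_ball' ?_
    have : r ≤ (R - dist p.1 c) / 2 := min_le_right _ _
    linarith
  have gap : ∀ q : CC, InSupp m q → q.1 ∈ closedBall p.1 r → dist q.2 p.2 ≤ δ →
      dist q.2 p.2 < δ / 2 := by
    intro q hq hq1 hq2
    rw [mem_closedBall] at hq1
    have hd : dist q p < r₁ := by
      rw [Prod.dist_eq]
      exact max_lt (by linarith) (by linarith)
    have := hth q hq hd
    rw [← dist_eq_norm, ← dist_eq_norm] at this
    have h5 : K₁ * dist q.1 p.1 ≤ K₁ * r := mul_le_mul_of_nonneg_left hq1 hK0.le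
    linarith
  have hfib : fib m p.1 ∩ closedBall p.2 δ = {p.2} := by
    ext w
    simp only [fib, mem_inter_iff, mem_ofPred_eq, mem_closedBall, mem_singleton_iff]
    constructor
    · rintro ⟨hw, hwd⟩
      have hd : dist ((p.1, w) : CC) p < r₁ := by
        rw [Prod.dist_eq]
        simp only [dist_self]
        exact max_lt hr₁ (by linarith)
      have h3 := hth (p.1, w) hw hd
      simp only [sub_self, norm_zero, mul_zero] at h3
      exact sub_eq_zero.1 (norm_le_zero_iff.1 h3)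
    · rintro rfl
      exact ⟨hps, by simp [hδ0.le]⟩
  obtain ⟨d, hd0, hd⟩ := h2 μ β κ L hb c R ρ K m X Y hm p.1 r (ball p.2 δ) hr0 hsub isOpen_ball
    (by
      intro q hq hq1 hq2
      have h3 : dist q.2 p.2 = δ := by
        have := frontier_ball_subset_sphere hq2
        rwa [mem_sphere] at this
      have := gap q hq hq1 h3.le
      linarith)
  -- the degree
  have hlim := hflat (gg K₁) (gg_cont K₁) (gg_supp K₁) (gg_alt K₁)
  have hL : ∫ ζ : ℂ, gg K₁ (ζ.re • X p + ζ.im • Y p) (X p) (Y p) = ∫ z : ℂ, f1 z := by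
    have h3 : ∀ ζ : ℂ, gg K₁ (ζ.re • X p + ζ.im • Y p) (X p) (Y p) =
        f1 (ζ.re • (X p).1 + ζ.im • (Y p).1) * hh (X p) (Y p) := by
      intro ζ
      rw [gg_apply]
      have h4 := slo_comb (X p) (Y p) hpp.ne' ζ.re ζ.im
      rw [h4]
      simp only [Prod.fst_add, Prod.smul_fst]
      by_cases h5 : 1 ≤ ‖ζ.re • (X p).1 + ζ.im • (Y p).1‖
      · rw [f1_zero h5]; ring
      · push Not at h5
        have h6 : ‖slo (X p) (Y p) (ζ.re • (X p).1 + ζ.im • (Y p).1)‖ ≤ K₁ + 1 := by
          refine (ContinuousLinearMap.le_opNorm _ _).trans ?_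
          calc ‖slo (X p) (Y p)‖ * ‖ζ.re • (X p).1 + ζ.im • (Y p).1‖
              ≤ K₁ * 1 := mul_le_mul hsl h5.le (norm_nonneg _) hK0.le
            _ ≤ K₁ + 1 := by linarith
        rw [f2_one h6]; ring
    simp only [h3]
    rw [integral_mul_const]
    exact int_TT (X p).1 (Y p).1 (by simpa [hh] using hpp) f1 f1_cont
  have hev : ∀ᶠ s : ℝ in 𝓝[>] 0,
      (s ^ 2)⁻¹ * ∫ q, gg K₁ (s⁻¹ • (q - p)) (X q) (Y q) ∂m = d * ∫ z : ℂ, f1 z := by
    have hs1 : 0 < min r (δ / (K₁ + 2)) := lt_min hr0 (by positivity)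
    filter_upwards [Ioo_mem_nhdsGT hs1] with s hs
    obtain ⟨hs0, hs2⟩ := hs
    have hsr : s < r := lt_of_lt_of_le hs2 (min_le_left _ _)
    have hsδ : (K₁ + 2) * s < δ := by
      have := lt_of_lt_of_le hs2 (min_le_right _ _)
      rw [lt_div_iff₀ (by positivity)] at this
      linarith
    have hsi : 0 < s⁻¹ := inv_pos.2 hs0
    have e1 : ∫ q, gg K₁ (s⁻¹ • (q - p)) (X q) (Y q) ∂m =
        ∫ q in (ball p.1 r) ×ˢ (ball p.2 δ), f1 (s⁻¹ • (q.1 - p.1)) * hh (X q) (Y q) ∂m := by
      rw [← integral_indicator (measurableSet_ball.prod measurableSet_ball)]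
      refine integral_congr_ae ?_
      filter_upwards [ae_inSupp m] with q hq
      rw [gg_apply]
      simp only [Prod.smul_fst, Prod.smul_snd, Prod.fst_sub, Prod.snd_sub]
      by_cases h5 : 1 ≤ ‖s⁻¹ • (q.1 - p.1)‖
      · rw [f1_zero h5]
        by_cases h6 : q ∈ (ball p.1 r) ×ˢ (ball p.2 δ)
        · rw [indicator_of_mem h6, f1_zero h5]; ring
        · rw [indicator_of_notMem h6]; ring
      · push Not at h5
        have h7 : ‖q.1 - p.1‖ < s := by
          rw [norm_smul, Real.norm_eq_abs, abs_of_pos hsi] at h5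
          rwa [inv_mul_lt_iff₀ hs0, mul_one] at h5
        by_cases h6 : q.2 ∈ ball p.2 δ
        · have h8 : q ∈ (ball p.1 r) ×ˢ (ball p.2 δ) := by
            refine ⟨?_, h6⟩
            rw [mem_ball, dist_eq_norm]; linarith
          rw [indicator_of_mem h8]
          have hd' : dist q p < r₁ := by
            rw [Prod.dist_eq]
            refine max_lt ?_ ?_
            · rw [dist_eq_norm]; linarith
            · rw [mem_ball] at h6; linarith
          have h9 := hth q hq hd'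
          have h10 : ‖s⁻¹ • (q.2 - p.2)‖ ≤ K₁ + 1 := by
            rw [norm_smul, Real.norm_eq_abs, abs_of_pos hsi, inv_mul_le_iff₀ hs0]
            have : K₁ * ‖q.1 - p.1‖ ≤ K₁ * s := mul_le_mul_of_nonneg_left h7.le hK0.le
            nlinarith
          rw [f2_one h10]; ring
        · have h8 : q ∉ (ball p.1 r) ×ˢ (ball p.2 δ) := fun h => h6 h.2
          rw [indicator_of_notMem h8]
          have h10 : K₁ + 2 ≤ ‖s⁻¹ • (q.2 - p.2)‖ := by
            rw [norm_smul, Real.norm_eq_abs, abs_of_pos hsi, le_inv_mul_iff₀ hs0]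
            rw [mem_ball, not_lt, dist_eq_norm] at h6
            nlinarith
          rw [f2_zero h10]; ring
    have hcs : Continuous fun w : ℂ => f1 (s⁻¹ • (w - p.1)) :=
      f1_cont.comp (by fun_prop)
    have e2 := push (m := m) hmh (fun q => (hal' q).1) hih (isOpen_ball (x := p.2) (ε := δ)) hd0 hd
      (fun w => f1 (s⁻¹ • (w - p.1))) hcs
    have e3 : ∫ w in ball p.1 r, f1 (s⁻¹ • (w - p.1)) = ∫ w : ℂ, f1 (s⁻¹ • (w - p.1)) := by
      refine setIntegral_eq_integral_of_forall_compl_eq_zero fun w hw => f1_zero ?_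
      rw [mem_ball, not_lt, dist_eq_norm] at hw
      rw [norm_smul, Real.norm_eq_abs, abs_of_pos hsi, le_inv_mul_iff₀ hs0]
      linarith
    rw [e1, e2, e3, int_scale p.1 hs0]
    field_simp
  have huniq := tendsto_nhds_unique (hlim.congr' hev) tendsto_const_nhds
  rw [hL] at huniq
  have hd1 : d = 1 := by
    have := int_f1_pos
    have h3 : d * ∫ z : ℂ, f1 z = 1 * ∫ z : ℂ, f1 z := by rw [one_mul, ← huniq]
    exact mul_right_cancel₀ this.ne' h3
  refine ⟨r, δ, hδε, by linarith, ⟨hr0, hδ0, gap, fun A hAm hA => ?_⟩, hfib⟩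
  rw [hd A hAm hA, hd1, one_mul]

end

end Crest.Agent.R235.CylDeg_423
end

-- ▼ part R235/CylVit_326
section

/-!
Row 235, REG-CYL (A2), helper326: generic measure theory on `ℂ × ℂ` (sup metric) for a closed set
`S` which has quadratic lower mass bounds for a finite measure `σ`.

* `proj_le`    : Vitali estimate for the volume of the projection
* `null_proj`  : (V1) `σ`-null subsets of `S` have null projections
* `flat_proj`  : (V2) points of `S` which are vertical at arbitrarily small scales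
* `ae_finite`  : (V3) almost every fibre of `S` is finite
* `near_fibre` : (V4) compactness of the fibres
-/

set_option autoImplicit false

open MeasureTheory Metric Set Filter
open scoped Topology ENNReal NNReal

namespace Crest.Agent.R235.CylVit_326

noncomputable section

/-- quadratic lower mass bound at the points of `S`. -/
def Low (σ : Measure (ℂ × ℂ)) (S : Set (ℂ × ℂ)) (c r0 : ℝ) : Prop :=
  ∀ x ∈ S, ∀ r : ℝ, 0 < r → r ≤ r0 → ENNReal.ofReal (c * r ^ 2) ≤ σ (closedBall x r)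

theorem vol_closedBall_le (z : ℂ) (ρ : ℝ) (hρ : 0 ≤ ρ) :
    volume (closedBall z ρ) = ENNReal.ofReal (Real.pi * ρ ^ 2) := by
  rw [Complex.volume_closedBall, mul_comm, ENNReal.ofReal_mul Real.pi_pos.le,
    ENNReal.ofReal_pow hρ]
  congr 1
  rw [← NNReal.coe_real_pi, ENNReal.ofReal_coe_nnreal]

/-- Vitali estimate. -/
theorem proj_le {σ : Measure (ℂ × ℂ)} {S V U : Set (ℂ × ℂ)} {c r0 K : ℝ} (hc : 0 < c)
    (hr0 : 0 < r0) (hK : 0 ≤ K) (low : Low σ S c r0) (hVS : V ⊆ S) (hU : IsOpen U) (hVU : V ⊆ U)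
    (h : ∀ x ∈ V, ∀ d : ℝ, 0 < d → ∃ r : ℝ, 0 < r ∧ r < d ∧
      ∀ y ∈ V, dist y x ≤ 5 * r → dist y.1 x.1 ≤ K * r) :
    volume (Prod.fst '' V) ≤ ENNReal.ofReal (Real.pi * K ^ 2 / c) * σ U := by
  classical
  set t : Set ((ℂ × ℂ) × ℝ) := {a | a.1 ∈ V ∧ 0 < a.2 ∧ a.2 ≤ r0 ∧ closedBall a.1 a.2 ⊆ U ∧
    ∀ y ∈ V, dist y a.1 ≤ 5 * a.2 → dist y.1 a.1.1 ≤ K * a.2} with ht
  obtain ⟨u, hut, hdis, hcov⟩ :=
    Vitali.exists_disjoint_subfamily_covering_enlargement_closedBall t (fun a => a.1)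
      (fun a => a.2) r0 (fun a ha => ha.2.2.1) 5 (by norm_num)
  have hcount : u.Countable := by
    refine Set.PairwiseDisjoint.countable_of_nonempty_interior hdis ?_
    intro a ha
    have hpos : 0 < a.2 := (hut ha).2.1
    exact ⟨a.1, ball_subset_interior_closedBall (mem_ball_self hpos)⟩
  have hsub : Prod.fst '' V ⊆ ⋃ a ∈ u, closedBall (a.1.1 : ℂ) (K * a.2) := by
    rintro _ ⟨y, hy, rfl⟩
    obtain ⟨ε, hε, hεU⟩ := Metric.isOpen_iff.1 hU y (hVU hy)
    obtain ⟨r, hr, hrd, hflat⟩ := h y hy (min r0 ε) (lt_min hr0 hε)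
    have hyt : (y, r) ∈ t := by
      refine ⟨hy, hr, (hrd.trans_le (min_le_left _ _)).le, ?_, hflat⟩
      exact (closedBall_subset_ball (hrd.trans_le (min_le_right _ _))).trans hεU
    obtain ⟨b, hb, hsubb⟩ := hcov (y, r) hyt
    have hyb : dist y b.1 ≤ 5 * b.2 := by
      have := hsubb (mem_closedBall_self hr.le)
      simpa [mem_closedBall] using this
    refine mem_iUnion₂.2 ⟨b, hb, ?_⟩
    exact mem_closedBall.2 ((hut hb).2.2.2.2 y hy hyb)
  have hσ : ∑' a : u, σ (closedBall (a : (ℂ × ℂ) × ℝ).1 (a : (ℂ × ℂ) × ℝ).2) ≤ σ U := by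
    have h1 : σ (⋃ a ∈ u, closedBall (a : (ℂ × ℂ) × ℝ).1 a.2) =
        ∑' a : u, σ (closedBall (a : (ℂ × ℂ) × ℝ).1 (a : (ℂ × ℂ) × ℝ).2) :=
      measure_biUnion hcount hdis (fun a _ => measurableSet_closedBall)
    rw [← h1]
    refine measure_mono ?_
    exact iUnion₂_subset fun a ha => (hut ha).2.2.2.1
  calc volume (Prod.fst '' V) ≤ volume (⋃ a ∈ u, closedBall (a.1.1 : ℂ) (K * a.2)) :=
        measure_mono hsub
    _ ≤ ∑' a : u, volume (closedBall (a : (ℂ × ℂ) × ℝ).1.1 (K * (a : (ℂ × ℂ) × ℝ).2)) :=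
        measure_biUnion_le volume hcount _
    _ ≤ ∑' a : u, ENNReal.ofReal (Real.pi * K ^ 2 / c) *
          σ (closedBall (a : (ℂ × ℂ) × ℝ).1 (a : (ℂ × ℂ) × ℝ).2) := by
        refine ENNReal.tsum_le_tsum fun a => ?_
        have ha := hut a.2
        have hpos : 0 < (a : (ℂ × ℂ) × ℝ).2 := ha.2.1
        rw [vol_closedBall_le _ _ (by positivity)]
        have hl := low _ (hVS ha.1) _ hpos ha.2.2.1
        calc ENNReal.ofReal (Real.pi * (K * (a : (ℂ × ℂ) × ℝ).2) ^ 2)
            = ENNReal.ofReal (Real.pi * K ^ 2 / c) *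
              ENNReal.ofReal (c * (a : (ℂ × ℂ) × ℝ).2 ^ 2) := by
              rw [← ENNReal.ofReal_mul (by positivity)]
              congr 1
              field_simp
          _ ≤ _ := by gcongr
    _ = ENNReal.ofReal (Real.pi * K ^ 2 / c) *
          ∑' a : u, σ (closedBall (a : (ℂ × ℂ) × ℝ).1 (a : (ℂ × ℂ) × ℝ).2) :=
        ENNReal.tsum_mul_left
    _ ≤ _ := by gcongr

/-- **(V1)** null subsets of `S` have null projections. -/
theorem null_proj {σ : Measure (ℂ × ℂ)} [IsFiniteMeasure σ] {S E : Set (ℂ × ℂ)} {c r0 : ℝ}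
    (hc : 0 < c) (hr0 : 0 < r0) (low : Low σ S c r0) (hES : E ⊆ S) (hE : σ E = 0) :
    volume (Prod.fst '' E) = 0 := by
  have key : ∀ ε : ℝ≥0, 0 < ε → volume (Prod.fst '' E) ≤ ENNReal.ofReal (Real.pi * 5 ^ 2 / c) * ε := by
    intro ε hε
    obtain ⟨U, hEU, hU, hσU⟩ := Set.exists_isOpen_lt_of_lt E (ε : ℝ≥0∞)
      (by rw [hE]; exact_mod_cast hε) (μ := σ)
    refine (proj_le hc hr0 (by norm_num : (0 : ℝ) ≤ 5) low hES hU hEU ?_).trans
      (by gcongr)
    intro x _ d hd
    refine ⟨d / 2, by positivity, by linarith, fun y _ hy => ?_⟩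
    refine le_trans ?_ hy
    rw [Prod.dist_eq]
    exact le_max_left _ _
  by_contra hne
  have hfin : ENNReal.ofReal (Real.pi * 5 ^ 2 / c) ≠ ⊤ := ENNReal.ofReal_ne_top
  have h1 : Tendsto (fun ε : ℝ≥0 => ENNReal.ofReal (Real.pi * 5 ^ 2 / c) * (ε : ℝ≥0∞))
      (𝓝[>] 0) (𝓝 (ENNReal.ofReal (Real.pi * 5 ^ 2 / c) * ((0 : ℝ≥0) : ℝ≥0∞))) := by
    refine Tendsto.mono_left ?_ nhdsWithin_le_nhds
    exact ENNReal.Tendsto.const_mul (ENNReal.continuous_coe.tendsto 0) (Or.inr hfin)
  have h2 := ge_of_tendsto h1 (eventually_nhdsWithin_of_forall fun ε (hε : ε ∈ Ioi 0) => key ε hε)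
  simp at h2
  exact hne h2

/-- **(V2)** points of `S` at which `S` is vertical at arbitrarily small scales. -/
theorem flat_proj {σ : Measure (ℂ × ℂ)} [IsFiniteMeasure σ] {S V : Set (ℂ × ℂ)} {c r0 : ℝ}
    (hc : 0 < c) (hr0 : 0 < r0) (low : Low σ S c r0) (hVS : V ⊆ S)
    (h : ∀ x ∈ V, ∀ ε : ℝ, 0 < ε → ∀ d : ℝ, 0 < d → ∃ r : ℝ, 0 < r ∧ r < d ∧
      ∀ y ∈ S, dist y x ≤ 5 * r → dist y.1 x.1 ≤ ε * r) :
    volume (Prod.fst '' V) = 0 := by
  have key : ∀ ε : ℝ, 0 < ε → volume (Prod.fst '' V) ≤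
      ENNReal.ofReal (Real.pi * ε ^ 2 / c) * σ univ := by
    intro ε hε
    refine proj_le hc hr0 hε.le low hVS isOpen_univ (subset_univ _) ?_
    intro x hx d hd
    obtain ⟨r, h1, h2, h3⟩ := h x hx ε hε d hd
    exact ⟨r, h1, h2, fun y hy => h3 y (hVS hy)⟩
  by_contra hne
  have hfin : σ univ ≠ ⊤ := measure_ne_top _ _
  have h1 : Tendsto (fun ε : ℝ => ENNReal.ofReal (Real.pi * ε ^ 2 / c) * σ univ)
      (𝓝[>] 0) (𝓝 (ENNReal.ofReal (Real.pi * 0 ^ 2 / c) * σ univ)) := by
    refine Tendsto.mono_left ?_ nhdsWithin_le_nhds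
    refine ENNReal.Tendsto.mul_const ?_ (Or.inr hfin)
    refine (ENNReal.continuous_ofReal.tendsto _).comp ?_
    exact (Continuous.tendsto (by fun_prop) 0)
  have h2 := ge_of_tendsto h1 (eventually_nhdsWithin_of_forall fun ε (hε : ε ∈ Ioi 0) => key ε hε)
  simp at h2
  exact hne h2

/-- for almost every `t` the mass over the disc of radius `r` is `O(r²)`. -/
theorem ae_density (σ : Measure (ℂ × ℂ)) [IsFiniteMeasure σ] :
    ∀ᵐ t : ℂ, ∃ C d : ℝ, 0 ≤ C ∧ 0 < d ∧ ∀ r : ℝ, 0 < r → r < d →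
      σ (Prod.fst ⁻¹' closedBall t r) ≤ ENNReal.ofReal (C * r ^ 2) := by
  set m : Measure ℂ := σ.map Prod.fst with hm
  haveI : IsFiniteMeasure m := by rw [hm]; infer_instance
  have h1 := Besicovitch.ae_tendsto_rnDeriv m (volume : Measure ℂ)
  have h2 := Measure.rnDeriv_lt_top m (volume : Measure ℂ)
  filter_upwards [h1, h2] with t ht1 ht2
  obtain ⟨A, hA1, hA2⟩ := exists_between ht2
  have hA : A ≠ ⊤ := hA2.ne
  have hev := ht1.eventually (gt_mem_nhds hA1)
  rw [eventually_nhdsWithin_iff, Metric.eventually_nhds_iff] at hev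
  obtain ⟨d, hd, hdd⟩ := hev
  refine ⟨A.toReal * Real.pi, d, by positivity, hd, fun r hr hrd => ?_⟩
  have h3 := hdd (y := r) (by simp [abs_of_pos hr, hrd]) hr
  have hvol : volume (closedBall t r) = ENNReal.ofReal (Real.pi * r ^ 2) :=
    vol_closedBall_le t r hr.le
  have hvne : volume (closedBall t r) ≠ 0 := by
    rw [hvol]
    have : 0 < Real.pi * r ^ 2 := by positivity
    simpa using this
  have hvt : volume (closedBall t r) ≠ ⊤ := by rw [hvol]; exact ENNReal.ofReal_ne_top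
  have h4 : m (closedBall t r) ≤ A * volume (closedBall t r) := by
    have := (ENNReal.div_le_iff hvne hvt).1 h3.le
    exact this
  have h5 : m (closedBall t r) = σ (Prod.fst ⁻¹' closedBall t r) := by
    rw [hm, Measure.map_apply measurable_fst measurableSet_closedBall]
  rw [← h5]
  refine h4.trans (le_of_eq ?_)
  rw [hvol, show A.toReal * Real.pi * r ^ 2 = A.toReal * (Real.pi * r ^ 2) by ring,
    ENNReal.ofReal_mul ENNReal.toReal_nonneg, ENNReal.ofReal_toReal hA]

/-- **(V3)** almost every fibre of `S` is finite. -/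
theorem ae_finite {σ : Measure (ℂ × ℂ)} [IsFiniteMeasure σ] {S : Set (ℂ × ℂ)} {c r0 : ℝ}
    (hc : 0 < c) (hr0 : 0 < r0) (low : Low σ S c r0) :
    ∀ᵐ t : ℂ, {z : ℂ | (t, z) ∈ S}.Finite := by
  filter_upwards [ae_density σ] with t ht
  obtain ⟨C, d, hC, hd, hmass⟩ := ht
  by_contra hinf
  obtain ⟨N, hN⟩ := exists_nat_gt (C / c)
  obtain ⟨F, hFS, hFc⟩ := Set.Infinite.exists_subset_card_eq hinf N
  -- a separation constant
  have hsep : ∃ s : ℝ, 0 < s ∧ ∀ z ∈ F, ∀ w ∈ F, z ≠ w → s ≤ dist z w := by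
    classical
    by_cases hne : (F.offDiag).Nonempty
    · obtain ⟨q, hq, hmin⟩ := Finset.exists_min_image F.offDiag (fun q => dist q.1 q.2) hne
      refine ⟨dist q.1 q.2, dist_pos.2 (Finset.mem_offDiag.1 hq).2.2, ?_⟩
      intro z hz w hw hzw
      exact hmin (z, w) (Finset.mem_offDiag.2 ⟨hz, hw, hzw⟩)
    · refine ⟨1, one_pos, ?_⟩
      intro z hz w hw hzw
      exact absurd ⟨(z, w), Finset.mem_offDiag.2 ⟨hz, hw, hzw⟩⟩ hne
  obtain ⟨s, hs, hsF⟩ := hsep
  set r : ℝ := min (min (d / 2) r0) (s / 3) with hr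
  have hrpos : 0 < r := by positivity
  have hrd : r < d := lt_of_le_of_lt ((min_le_left _ _).trans (min_le_left _ _)) (by linarith)
  have hrr0 : r ≤ r0 := (min_le_left _ _).trans (min_le_right _ _)
  have hrs : r ≤ s / 3 := min_le_right _ _
  have hdisj : (F : Set ℂ).PairwiseDisjoint fun z => closedBall ((t, z) : ℂ × ℂ) r := by
    intro z hz w hw hzw
    refine closedBall_disjoint_closedBall ?_
    have : dist z w ≤ dist ((t, z) : ℂ × ℂ) (t, w) := by
      rw [Prod.dist_eq]; exact le_max_right _ _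
    have h2 := hsF z hz w hw hzw
    linarith
  have h1 : σ (⋃ z ∈ F, closedBall ((t, z) : ℂ × ℂ) r) =
      ∑ z ∈ F, σ (closedBall ((t, z) : ℂ × ℂ) r) :=
    measure_biUnion_finset hdisj (fun z _ => measurableSet_closedBall)
  have h2 : ∑ z ∈ F, σ (closedBall ((t, z) : ℂ × ℂ) r) ≥
      ∑ _z ∈ F, ENNReal.ofReal (c * r ^ 2) :=
    Finset.sum_le_sum fun z hz => low _ (hFS hz) r hrpos hrr0
  have h3 : (⋃ z ∈ F, closedBall ((t, z) : ℂ × ℂ) r) ⊆ Prod.fst ⁻¹' closedBall t r := by
    refine iUnion₂_subset fun z _ y hy => ?_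
    rw [mem_closedBall, Prod.dist_eq] at hy
    exact mem_closedBall.2 ((le_max_left _ _).trans hy)
  have h4 : (N : ℝ≥0∞) * ENNReal.ofReal (c * r ^ 2) ≤ ENNReal.ofReal (C * r ^ 2) := by
    calc (N : ℝ≥0∞) * ENNReal.ofReal (c * r ^ 2) = ∑ _z ∈ F, ENNReal.ofReal (c * r ^ 2) := by
          rw [Finset.sum_const, hFc, nsmul_eq_mul]
      _ ≤ ∑ z ∈ F, σ (closedBall ((t, z) : ℂ × ℂ) r) := h2
      _ = σ (⋃ z ∈ F, closedBall ((t, z) : ℂ × ℂ) r) := h1.symm
      _ ≤ σ (Prod.fst ⁻¹' closedBall t r) := measure_mono h3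
      _ ≤ _ := hmass r hrpos hrd
  have h5 : (N : ℝ≥0∞) = ENNReal.ofReal (N : ℝ) := by simp
  rw [h5, ← ENNReal.ofReal_mul (by positivity), ENNReal.ofReal_le_ofReal_iff (by positivity)] at h4
  have h6 : (N : ℝ) * c ≤ C := by
    have hr2 : 0 < r ^ 2 := by positivity
    have : ((N : ℝ) * c) * r ^ 2 ≤ C * r ^ 2 := by linarith
    exact le_of_mul_le_mul_right this hr2
  have h7 : C < (N : ℝ) * c := (div_lt_iff₀ hc).1 hN
  linarith

/-- **(V4)** compactness of the fibres: the part of `S` over a small disc is close to the fibre. -/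
theorem near_fibre {S : Set (ℂ × ℂ)} {t : ℂ} {r1 : ℝ} (hr1 : 0 < r1)
    (hK : IsCompact (S ∩ Prod.fst ⁻¹' closedBall t r1)) {O : Set ℂ} (hO : IsOpen O)
    (hF : ∀ z, (t, z) ∈ S → z ∈ O) :
    ∃ r : ℝ, 0 < r ∧ r ≤ r1 ∧ ∀ y ∈ S, dist y.1 t ≤ r → y.2 ∈ O := by
  by_contra hcon
  push Not at hcon
  have hseq : ∀ n : ℕ, ∃ y ∈ S, dist y.1 t ≤ r1 / (n + 1) ∧ y.2 ∉ O := by
    intro n
    refine hcon (r1 / (n + 1)) (by positivity) ?_
    exact div_le_self hr1.le (by linarith [(Nat.cast_nonneg n : (0 : ℝ) ≤ n)])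
  choose y hyS hyd hyO using hseq
  have hyK : ∀ n, y n ∈ S ∩ Prod.fst ⁻¹' closedBall t r1 := by
    intro n
    refine ⟨hyS n, mem_closedBall.2 ((hyd n).trans ?_)⟩
    exact div_le_self hr1.le (by linarith [(Nat.cast_nonneg n : (0 : ℝ) ≤ n)])
  obtain ⟨a, ha, φ, hφ, hlim⟩ := hK.tendsto_subseq hyK
  have h1 : Tendsto (fun n => (y (φ n)).1) atTop (𝓝 a.1) :=
    (continuous_fst.tendsto a).comp hlim
  have h2 : Tendsto (fun n => (y (φ n)).2) atTop (𝓝 a.2) :=
    (continuous_snd.tendsto a).comp hlim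
  have h3 : Tendsto (fun n => dist (y (φ n)).1 t) atTop (𝓝 (dist a.1 t)) := h1.dist tendsto_const_nhds
  have h4 : Tendsto (fun n : ℕ => r1 / ((φ n : ℝ) + 1)) atTop (𝓝 0) := by
    have h5 : Tendsto (fun n : ℕ => r1 / ((n : ℝ) + 1)) atTop (𝓝 0) :=
      tendsto_const_div_atTop_nhds_zero_nat r1 |>.comp (tendsto_add_atTop_nat 1) |>.congr
        (fun n => by simp)
    exact h5.comp hφ.tendsto_atTop
  have h6 : dist a.1 t ≤ 0 := le_of_tendsto_of_tendsto' h3 h4 (fun n => hyd (φ n))
  have h7 : a.1 = t := dist_le_zero.1 h6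
  have h8 : a.2 ∈ O := hF a.2 (by rw [← h7]; exact ha.1)
  have h9 : ∀ᶠ n in atTop, (y (φ n)).2 ∈ O := h2.eventually (hO.mem_nhds h8)
  obtain ⟨n, hn⟩ := h9.exists
  exact hyO _ hn

end

end Crest.Agent.R235.CylVit_326
end

-- ▼ part R235/CylGood_235
section

/-!
Row 235 (S0364), REG-CYL C4 (`GOODZ`), helper235: for almost every `z` all the points of the
support over `z` are flat and non-vertical, and finitely many.
-/

set_option autoImplicit false

open MeasureTheory Metric Set Filter Complex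
open scoped Topology ENNReal

namespace Crest.Agent.R235.CylGood_235

open Crest.Agent.R235.Loc Crest.Agent.R235.Cyl Crest.Agent.R235.CylVit_326

noncomputable section

/-- the part of the support over `closedBall c R'`. -/
def SR (m : Measure CC) (c : ℂ) (R' : ℝ) : Set CC := {p | InSupp m p ∧ p.1 ∈ closedBall c R'}

theorem low_SR {μ β : CC → ℂ} {c : ℂ} {R ρ K : ℝ} {m : Measure CC} {X Y : CC → CC}
    (h : BoxCur μ β c R ρ K m X Y) {R' : ℝ} (hR' : R' < R) :
    ∃ c₀ > 0, ∃ r₀ > 0, Low m (SR m c R') c₀ r₀ := by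
  have := h.fin
  obtain ⟨c₀, hc₀, r₀, hr₀, hl⟩ := h.low R' hR'
  refine ⟨c₀, hc₀, r₀, hr₀, ?_⟩
  intro x hx r hr hrr
  have h1 := hl x hx.2 hx.1 r hr hrr
  calc ENNReal.ofReal (c₀ * r ^ 2) ≤ ENNReal.ofReal (m.real (ball x r)) :=
        ENNReal.ofReal_le_ofReal h1
    _ = m (ball x r) := by rw [Measure.real, ENNReal.ofReal_toReal (measure_ne_top _ _)]
    _ ≤ m (closedBall x r) := measure_mono ball_subset_closedBall

/-- points of the support over the box have `‖p.2‖ ≤ ρ`. -/
theorem snd_le {μ β : CC → ℂ} {c : ℂ} {R ρ K : ℝ} {m : Measure CC} {X Y : CC → CC}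
    (h : BoxCur μ β c R ρ K m X Y) {p : CC} (hp : InSupp m p) : ‖p.2‖ ≤ ρ := by
  by_contra hcon
  push Not at hcon
  have h1 := hp (‖p.2‖ - ρ) (by linarith)
  have h2 : m (ball p (‖p.2‖ - ρ)) = 0 := by
    refine measure_mono_null ?_ (ae_iff.1 h.supp)
    intro q hq hq2
    have h3 : dist q.2 p.2 < ‖p.2‖ - ρ := by
      refine lt_of_le_of_lt ?_ (mem_ball.1 hq)
      rw [Prod.dist_eq]
      exact le_max_right _ _
    have h4 : ‖p.2‖ ≤ ‖q.2‖ + dist q.2 p.2 := by
      rw [dist_comm, dist_eq_norm]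
      have := norm_add_le q.2 (p.2 - q.2)
      simpa using this
    linarith [hq2.2]
  rw [h2] at h1
  exact lt_irrefl _ h1

/-- over almost every point of the disc of radius `R'` all points of the support are flat. -/
theorem ae_flat {μ β : CC → ℂ} {c : ℂ} {R ρ K : ℝ} {m : Measure CC} {X Y : CC → CC}
    (h : BoxCur μ β c R ρ K m X Y) {R' : ℝ} (hR' : R' < R) :
    ∀ᵐ z : ℂ, ∀ w, (z, w) ∈ SR m c R' → FlatAt m X Y (z, w) := by
  have := h.fin
  obtain ⟨c₀, hc₀, r₀, hr₀, hl⟩ := low_SR h hR'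
  have h1 : volume (Prod.fst '' {p | p ∈ SR m c R' ∧ ¬ FlatAt m X Y p}) = 0 := by
    refine null_proj hc₀ hr₀ hl (fun p hp => hp.1) ?_
    exact measure_mono_null (fun p hp => hp.2) (ae_iff.1 h.flat)
  rw [← compl_mem_ae_iff] at h1
  filter_upwards [h1] with z hz w hw
  by_contra hn
  exact hz ⟨(z, w), ⟨hw, hn⟩, rfl⟩

/-- over almost every point of the disc of radius `R'` all flat points of the support are
non-vertical. -/
theorem ae_nonvert (h0 : ALG0) (h1 : CONE) {μ β : CC → ℂ} {κ L : ℝ} (hb : SBox μ β κ L)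
    {c : ℂ} {R ρ K : ℝ} {m : Measure CC} {X Y : CC → CC}
    (h : BoxCur μ β c R ρ K m X Y) {R' : ℝ} (hR' : R' < R) :
    ∀ᵐ z : ℂ, ∀ w, (z, w) ∈ SR m c R' → FlatAt m X Y (z, w) → 0 < hh (X (z, w)) (Y (z, w)) := by
  have := h.fin
  obtain ⟨c₀, hc₀, r₀, hr₀, hl⟩ := low_SR h hR'
  obtain ⟨C₀, c₁, hc₁, hC₀, halg⟩ := h0 κ L K hb.box.κ0 hb.box.κ1 hb.box.L0
  have h2 : volume (Prod.fst ''
      {p | p ∈ SR m c R' ∧ FlatAt m X Y p ∧ hh (X p) (Y p) = 0}) = 0 := by
    refine flat_proj hc₀ hr₀ hl (fun p hp => hp.1) ?_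
    rintro p ⟨hpS, hpF, hp0⟩ ε hε d hd
    obtain ⟨-, -, -, -, -, -, -, -, hX1, hY1, -⟩ :=
      halg μ β hb p (X p) (Y p) (h.nX p) (h.nY p) (h.jz p) (h.jw p)
    rw [hp0, mul_zero] at hX1 hY1
    have hX : (X p).1 = 0 := by
      have : ‖(X p).1‖ ^ 2 = 0 := le_antisymm hX1 (by positivity)
      simpa using this
    have hY : (Y p).1 = 0 := by
      have : ‖(Y p).1‖ ^ 2 = 0 := le_antisymm hY1 (by positivity)
      simpa using this
    have hpb : p.1 ∈ ball c R := closedBall_subset_ball hR' hpS.2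
    obtain ⟨r₁, hr₁, hcone⟩ := h1 μ β κ L hb c R ρ K m X Y h p hpb hpS.1 hpF (ε / 5) (by positivity)
    refine ⟨min (d / 2) (r₁ / 10), by positivity,
      lt_of_le_of_lt (min_le_left _ _) (by linarith), ?_⟩
    intro y hy hyd
    set r : ℝ := min (d / 2) (r₁ / 10) with hr
    have hrr : r ≤ r₁ / 10 := min_le_right _ _
    obtain ⟨ζ, hζ⟩ := hcone y hy.1 (by linarith)
    have h3 : dist y.1 p.1 ≤ ‖y - p - (ζ.re • X p + ζ.im • Y p)‖ := by
      have h4 : (y - p - (ζ.re • X p + ζ.im • Y p)).1 = y.1 - p.1 := by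
        simp [hX, hY]
      rw [dist_eq_norm, ← h4]
      exact norm_fst_le _
    have h5 : ‖y - p‖ ≤ 5 * r := by rw [← dist_eq_norm]; exact hyd
    calc dist y.1 p.1 ≤ ε / 5 * ‖y - p‖ := h3.trans hζ
      _ ≤ ε / 5 * (5 * r) := by gcongr
      _ = ε * r := by ring
  rw [← compl_mem_ae_iff] at h2
  filter_upwards [h2] with z hz w hw hF
  obtain ⟨hh0, -⟩ := halg μ β hb (z, w) (X (z, w)) (Y (z, w)) (h.nX _) (h.nY _) (h.jz _) (h.jw _)
  rcases hh0.lt_or_eq with h3 | h3
  · exact h3
  · exact absurd ⟨(z, w), ⟨hw, hF, h3.symm⟩, rfl⟩ hz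

theorem goodz_of (h0 : ALG0) (h1 : CONE) : GOODZ := by
  intro μ β κ L hb c R ρ K m X Y h
  have := h.fin
  have key : ∀ n : ℕ, ∀ᵐ z : ℂ, z ∈ closedBall c (R - 1 / (n + 1)) → (fib m z).Finite ∧
      ∀ w ∈ fib m z, ‖w‖ ≤ ρ ∧ FlatAt m X Y (z, w) ∧ 0 < hh (X (z, w)) (Y (z, w)) := by
    intro n
    have hR' : R - 1 / ((n : ℝ) + 1) < R := by
      have : (0 : ℝ) < 1 / ((n : ℝ) + 1) := by positivity
      linarith
    obtain ⟨c₀, hc₀, r₀, hr₀, hl⟩ := low_SR h hR'
    filter_upwards [ae_finite hc₀ hr₀ hl, ae_flat h hR', ae_nonvert h0 h1 hb h hR'] with z z1 z2 z3 hz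
    have hmem : ∀ w ∈ fib m z, (z, w) ∈ SR m c (R - 1 / ((n : ℝ) + 1)) := fun w hw => ⟨hw, hz⟩
    refine ⟨z1.subset fun w hw => hmem w hw, fun w hw => ?_⟩
    have hw2 := hmem w hw
    exact ⟨snd_le h hw, z2 w hw2, z3 w hw2 (z2 w hw2)⟩
  filter_upwards [ae_all_iff.2 key] with z hz hzR
  have h3 : 0 < R - dist z c := by
    have := mem_ball.1 hzR
    linarith
  obtain ⟨n, hn⟩ := exists_nat_one_div_lt h3
  refine hz n (mem_closedBall.2 ?_)
  linarith

end

end Crest.Agent.R235.CylGood_235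
end

-- ▼ part R235/CylSplit_800
section

/-!
Row 235 (S0364), REG-CYL C6 (SPLIT): over a small ball around almost every `z` the support of a
box current splits into `k` cylinders of degree one, `k` a constant.
-/

set_option autoImplicit false

open MeasureTheory Metric Set Filter Complex
open scoped ContDiff Topology

namespace Crest.Agent.R235.CylSplit_800

open Crest.Agent.R235.Loc Crest.Agent.R235.Cyl

noncomputable section

/-- the complement of the support is a null set. -/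
theorem measure_not_supp (m : Measure CC) : m {q | ¬ InSupp m q} = 0 := by
  refine measure_null_of_locally_null _ fun x hx => ?_
  have h : ¬ ∀ r > 0, 0 < m (ball x r) := hx
  push Not at h
  obtain ⟨r, hr, h0⟩ := h
  exact ⟨ball x r, mem_nhdsWithin_of_mem_nhds (ball_mem_nhds x hr), le_antisymm h0 zero_le⟩

/-- the support is closed. -/
theorem isClosed_supp (m : Measure CC) : IsClosed {q | InSupp m q} := by
  rw [← isOpen_compl_iff, Metric.isOpen_iff]
  intro x hx
  have h : ¬ ∀ r > 0, 0 < m (ball x r) := hx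
  push Not at h
  obtain ⟨r, hr, h0⟩ := h
  refine ⟨r, hr, fun y hy hy' => ?_⟩
  have h1 : 0 < r - dist y x := by
    rw [mem_ball] at hy
    linarith
  have h2 := hy' (r - dist y x) h1
  have h3 : ball y (r - dist y x) ⊆ ball x r := ball_subset_ball' (by linarith)
  exact absurd (lt_of_lt_of_le h2 ((measure_mono h3).trans h0)) (lt_irrefl _)

/-- the support is vertically bounded. -/
theorem supp_norm_le {μ β : CC → ℂ} {c : ℂ} {R ρ K : ℝ} {m : Measure CC} {X Y : CC → CC}
    (h : BoxCur μ β c R ρ K m X Y) {q : CC} (hq : InSupp m q) : ‖q.2‖ ≤ ρ := by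
  by_contra hcon
  push Not at hcon
  have h1 := hq (‖q.2‖ - ρ) (by linarith)
  have h2 : m (ball q (‖q.2‖ - ρ)) = 0 := by
    refine measure_mono_null ?_ (ae_iff.1 h.supp)
    intro p hp hp'
    have h3 : dist p.2 q.2 < ‖q.2‖ - ρ := by
      rw [mem_ball, Prod.dist_eq] at hp
      exact (le_max_right _ _).trans_lt hp
    have h4 : ‖q.2‖ ≤ ‖p.2‖ + dist p.2 q.2 := by
      rw [dist_eq_norm]
      have := norm_sub_norm_le q.2 p.2
      rw [norm_sub_rev] at this
      linarith
    linarith [hp'.2]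
  exact absurd h1 (by rw [h2]; exact lt_irrefl _)

/-- the support is horizontally bounded. -/
theorem supp_fst {μ β : CC → ℂ} {c : ℂ} {R ρ K : ℝ} {m : Measure CC} {X Y : CC → CC}
    (h : BoxCur μ β c R ρ K m X Y) {q : CC} (hq : InSupp m q) : q.1 ∈ closedBall c R := by
  by_contra hcon
  rw [mem_closedBall, not_le] at hcon
  have h1 := hq (dist q.1 c - R) (by linarith)
  have h2 : m (ball q (dist q.1 c - R)) = 0 := by
    refine measure_mono_null ?_ (ae_iff.1 h.supp)
    intro p hp hp'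
    have h3 : dist p.1 q.1 < dist q.1 c - R := by
      rw [mem_ball, Prod.dist_eq] at hp
      exact (le_max_left _ _).trans_lt hp
    have h4 : dist q.1 c ≤ dist p.1 q.1 + dist p.1 c := by
      rw [dist_comm p.1 q.1]
      exact dist_triangle _ _ _
    have h5 := hp'.1
    rw [mem_ball] at h5
    linarith
  exact absurd h1 (by rw [h2]; exact lt_irrefl _)

/-- the support is compact. -/
theorem isCompact_supp {μ β : CC → ℂ} {c : ℂ} {R ρ K : ℝ} {m : Measure CC} {X Y : CC → CC}
    (h : BoxCur μ β c R ρ K m X Y) : IsCompact {q | InSupp m q} := by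
  refine IsCompact.of_isClosed_subset
    ((isCompact_closedBall c R).prod (isCompact_closedBall (0 : ℂ) ρ)) (isClosed_supp m) ?_
  intro q hq
  refine ⟨supp_fst h hq, ?_⟩
  rw [mem_closedBall, dist_zero_right]
  exact supp_norm_le h hq

/-- the horizontal density is measurable. -/
theorem measurable_hh {X Y : CC → CC} (hX : Measurable X) (hY : Measurable Y) :
    Measurable fun q => hh (X q) (Y q) := by
  unfold hh
  have h1 : Measurable fun q => (X q).1.re := measurable_re.comp hX.fst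
  have h2 : Measurable fun q => (Y q).1.im := measurable_im.comp hY.fst
  have h3 : Measurable fun q => (Y q).1.re := measurable_re.comp hY.fst
  have h4 : Measurable fun q => (X q).1.im := measurable_im.comp hX.fst
  exact (h1.mul h2).sub (h3.mul h4)

/-- the horizontal density is bounded. -/
theorem abs_hh_le (X Y : CC) : |hh X Y| ≤ 2 * (‖X‖ * ‖Y‖) := by
  unfold hh
  have h1 : |X.1.re| ≤ ‖X‖ := (abs_re_le_norm _).trans (norm_fst_le X)
  have h2 : |Y.1.im| ≤ ‖Y‖ := (abs_im_le_norm _).trans (norm_fst_le Y)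
  have h3 : |Y.1.re| ≤ ‖Y‖ := (abs_re_le_norm _).trans (norm_fst_le Y)
  have h4 : |X.1.im| ≤ ‖X‖ := (abs_im_le_norm _).trans (norm_fst_le X)
  calc |X.1.re * Y.1.im - Y.1.re * X.1.im| ≤ |X.1.re * Y.1.im| + |Y.1.re * X.1.im| := abs_sub _ _
    _ = |X.1.re| * |Y.1.im| + |Y.1.re| * |X.1.im| := by rw [abs_mul, abs_mul]
    _ ≤ ‖X‖ * ‖Y‖ + ‖Y‖ * ‖X‖ := by gcongr
    _ = 2 * (‖X‖ * ‖Y‖) := by ring

/-- the horizontal density is integrable. -/
theorem integrable_hh {μ β : CC → ℂ} {c : ℂ} {R ρ K : ℝ} {m : Measure CC} {X Y : CC → CC}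
    (h : BoxCur μ β c R ρ K m X Y) : Integrable (fun q => hh (X q) (Y q)) m := by
  have := h.fin
  refine Integrable.of_bound (measurable_hh h.mX h.mY).aestronglyMeasurable (2 * (1 * K))
    (Eventually.of_forall fun q => ?_)
  rw [Real.norm_eq_abs]
  refine (abs_hh_le _ _).trans ?_
  rw [h.nX q]
  have := h.nY q
  gcongr

theorem DegOne.mono {m : Measure CC} {X Y : CC → CC} {z w : ℂ} {r r' δ : ℝ}
    (h : DegOne m X Y z r w δ) (hr : 0 < r') (hrr : r' ≤ r) : DegOne m X Y z r' w δ where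
  pos := hr
  posδ := h.posδ
  gap := fun q hq hq1 hq2 => h.gap q hq (closedBall_subset_closedBall hrr hq1) hq2
  deg := fun A hA hAr => h.deg A hA (hAr.trans (ball_subset_ball hrr))

/-- **local splitting at a good point** -/
theorem local_split {μ β : CC → ℂ} {c : ℂ} {R ρ K : ℝ} {m : Measure CC} {X Y : CC → CC}
    (h : BoxCur μ β c R ρ K m X Y) {z : ℂ} (hz : z ∈ ball c R) (hfin : (fib m z).Finite)
    (hdeg : ∀ w ∈ fib m z, ∀ ε > 0, ∃ r δ : ℝ, δ < ε ∧ r < ε ∧ DegOne m X Y z r w δ) {ε : ℝ}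
    (hε : 0 < ε) :
    ∃ (r : ℝ) (δ : ℂ → ℝ), 0 < r ∧ closedBall z r ⊆ ball c R ∧
      (∀ w ∈ fib m z, δ w < ε ∧ DegOne m X Y z r w (δ w)) ∧
      ((fib m z).PairwiseDisjoint fun w => ball w (δ w)) ∧
      ∀ q : CC, InSupp m q → q.1 ∈ closedBall z r → ∃ w ∈ fib m z, q.2 ∈ ball w (δ w) := by
  classical
  -- separation
  obtain ⟨s, hs, hsep⟩ : ∃ s : ℝ, 0 < s ∧ ∀ w ∈ fib m z, ∀ w' ∈ fib m z, w ≠ w' →
      s ≤ dist w w' := by
    set F := hfin.toFinset with hF
    by_cases hne : F.offDiag.Nonempty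
    · obtain ⟨q, hq, hmin⟩ := Finset.exists_min_image F.offDiag (fun q => dist q.1 q.2) hne
      refine ⟨dist q.1 q.2, dist_pos.2 (Finset.mem_offDiag.1 hq).2.2, ?_⟩
      intro w hw w' hw' hww
      exact hmin (w, w') (Finset.mem_offDiag.2 ⟨hfin.mem_toFinset.2 hw,
        hfin.mem_toFinset.2 hw', hww⟩)
    · refine ⟨1, one_pos, ?_⟩
      intro w hw w' hw' hww
      exact absurd ⟨(w, w'), Finset.mem_offDiag.2 ⟨hfin.mem_toFinset.2 hw,
        hfin.mem_toFinset.2 hw', hww⟩⟩ hne
  have hdeg' : ∀ w : ℂ, ∃ r δ : ℝ, w ∈ fib m z → δ < min ε (s / 2) ∧ 0 < r ∧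
      DegOne m X Y z r w δ := by
    intro w
    by_cases hw : w ∈ fib m z
    · obtain ⟨r, δ, h1, _, h3⟩ := hdeg w hw (min ε (s / 2)) (lt_min hε (by positivity))
      exact ⟨r, δ, fun _ => ⟨h1, h3.pos, h3⟩⟩
    · exact ⟨0, 0, fun h => absurd h hw⟩
  choose rr δ hrδ using hdeg'
  -- compactness
  obtain ⟨r1, hr1, hr1c⟩ : ∃ r1 : ℝ, 0 < r1 ∧ closedBall z r1 ⊆ ball c R := by
    have h1 : 0 < R - dist z c := by
      rw [mem_ball] at hz
      linarith
    refine ⟨(R - dist z c) / 2, by positivity, closedBall_subset_ball' ?_⟩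
    linarith
  have hcomp : IsCompact ({q | InSupp m q} ∩ Prod.fst ⁻¹' closedBall z r1) :=
    (isCompact_supp h).inter_right (isClosed_closedBall.preimage continuous_fst)
  have hOo : IsOpen (⋃ w ∈ fib m z, ball w (δ w)) := isOpen_biUnion fun w _ => isOpen_ball
  obtain ⟨r2, hr2, hr21, hnear⟩ := CylVit_326.near_fibre hr1 hcomp hOo (fun w hw => by
    refine mem_iUnion₂.2 ⟨w, hw, mem_ball_self ?_⟩
    exact (hrδ w hw).2.2.posδ)
  -- common radius
  obtain ⟨r3, hr3, hr3w⟩ : ∃ r3 : ℝ, 0 < r3 ∧ ∀ w ∈ fib m z, r3 ≤ rr w := by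
    rcases (hfin.toFinset).eq_empty_or_nonempty with he | hne
    · refine ⟨1, one_pos, fun w hw => ?_⟩
      rw [← hfin.mem_toFinset, he] at hw
      simp at hw
    · obtain ⟨w0, hw0, hmin⟩ := Finset.exists_min_image hfin.toFinset rr hne
      exact ⟨rr w0, (hrδ w0 (hfin.mem_toFinset.1 hw0)).2.1,
        fun w hw => hmin w (hfin.mem_toFinset.2 hw)⟩
  refine ⟨min r2 r3, δ, lt_min hr2 hr3, ?_, ?_, ?_, ?_⟩
  · exact (closedBall_subset_closedBall ((min_le_left _ _).trans hr21)).trans hr1c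
  · intro w hw
    refine ⟨(hrδ w hw).1.trans_le (min_le_left _ _), ?_⟩
    exact DegOne.mono (hrδ w hw).2.2 (lt_min hr2 hr3) ((min_le_right _ _).trans (hr3w w hw))
  · intro w hw w' hw' hww
    refine ball_disjoint_ball ?_
    have h1 := (hrδ w hw).1.trans_le (min_le_right _ _)
    have h2 := (hrδ w' hw').1.trans_le (min_le_right _ _)
    have h3 := hsep w hw w' hw' hww
    linarith
  · intro q hq hq1
    have h1 := hnear q hq ((mem_closedBall.1 hq1).trans (min_le_left _ _))
    obtain ⟨w, hw, hwq⟩ := mem_iUnion₂.1 h1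
    exact ⟨w, hw, hwq⟩

/-- the degree over a small ball around a good point is the number of points of the fibre. -/
theorem deg_eq_ncard {μ β : CC → ℂ} {c : ℂ} {R ρ K : ℝ} {m : Measure CC} {X Y : CC → CC}
    (h : BoxCur μ β c R ρ K m X Y) {z : ℂ} (hfin : (fib m z).Finite) {r : ℝ} {δ : ℂ → ℝ}
    (hdeg : ∀ w ∈ fib m z, DegOne m X Y z r w (δ w))
    (hdisj : (fib m z).PairwiseDisjoint fun w => ball w (δ w))
    (hsupp : ∀ q : CC, InSupp m q → q.1 ∈ closedBall z r → ∃ w ∈ fib m z, q.2 ∈ ball w (δ w))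
    {A : Set ℂ} (hA : MeasurableSet A) (hAr : A ⊆ ball z r) :
    ∫ q in A ×ˢ univ, hh (X q) (Y q) ∂m = (fib m z).ncard * volume.real A := by
  classical
  have := h.fin
  have hint := integrable_hh h
  have e1 : ∫ q in A ×ˢ (univ : Set ℂ), hh (X q) (Y q) ∂m =
      ∫ q in ⋃ w ∈ hfin.toFinset, A ×ˢ ball w (δ w), hh (X q) (Y q) ∂m := by
    refine setIntegral_congr_set ?_
    have hnull : ∀ᵐ q ∂m, InSupp m q := by
      rw [ae_iff]
      exact measure_not_supp m
    filter_upwards [hnull] with q hq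
    refine propext ⟨fun hqA => ?_, fun hqA => ?_⟩
    · have hqA' : q.1 ∈ A := hqA.1
      obtain ⟨w, hw, hqw⟩ := hsupp q hq (ball_subset_closedBall (hAr hqA'))
      exact mem_iUnion₂.2 ⟨w, hfin.mem_toFinset.2 hw, hqA', hqw⟩
    · obtain ⟨w, _, hqw⟩ := mem_iUnion₂.1 hqA
      exact ⟨hqw.1, mem_univ _⟩
  rw [e1, integral_biUnion_finset]
  · have e2 : ∀ w ∈ hfin.toFinset, ∫ q in A ×ˢ ball w (δ w), hh (X q) (Y q) ∂m = volume.real A :=
      fun w hw => (hdeg w (hfin.mem_toFinset.1 hw)).deg A hA hAr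
    rw [Finset.sum_congr rfl e2, Finset.sum_const, nsmul_eq_mul, ncard_eq_toFinset_card _ hfin]
  · exact fun w _ => hA.prod measurableSet_ball
  · intro w hw w' hw' hww
    refine Disjoint.set_prod_right ?_ _ _
    exact hdisj (hfin.mem_toFinset.1 hw) (hfin.mem_toFinset.1 hw') hww
  · exact fun w _ => hint.integrableOn

/-- **C6 SPLIT.** -/
theorem split_of (h2 : CONST) (h3 : DEG1) (h4 : GOODZ) : SPLIT := by
  intro μ β κ L hbox c R ρ K m X Y h hR
  have := h.fin
  -- the global degree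
  have hconst : ∀ r : ℝ, 0 < r → r < R → ∃ d : ℝ, 0 ≤ d ∧ ∀ A : Set ℂ, MeasurableSet A →
      A ⊆ ball c r → ∫ q in A ×ˢ (univ : Set ℂ), hh (X q) (Y q) ∂m = d * volume.real A := by
    intro r hr hrR
    refine h2 μ β κ L hbox c R ρ K m X Y h c r univ hr (closedBall_subset_ball hrR) isOpen_univ ?_
    intro q _ _
    simp
  obtain ⟨d, hd0, hd⟩ := hconst (R / 2) (by positivity) (by linarith)
  have hglob : ∀ r : ℝ, R / 2 ≤ r → r < R → ∀ A : Set ℂ, MeasurableSet A →
      A ⊆ ball c r → ∫ q in A ×ˢ (univ : Set ℂ), hh (X q) (Y q) ∂m = d * volume.real A := by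
    intro r hr hrR A hA hAr
    obtain ⟨d', _, hd'⟩ := hconst r (by linarith) hrR
    have hv : 0 < volume.real (ball c (R / 2)) := by
      refine ENNReal.toReal_pos ?_ measure_ball_lt_top.ne
      exact (measure_ball_pos volume c (by positivity)).ne'
    have e : d' = d := by
      have h5 := hd (ball c (R / 2)) measurableSet_ball subset_rfl
      have h6 := hd' (ball c (R / 2)) measurableSet_ball (ball_subset_ball hr)
      rw [h5] at h6
      exact (mul_right_cancel₀ hv.ne' h6).symm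
    rw [← e]
    exact hd' A hA hAr
  refine ⟨⌊d⌋₊, ?_⟩
  filter_upwards [h4 μ β κ L hbox c R ρ K m X Y h] with z hgood hz
  obtain ⟨hfin, hgw⟩ := hgood hz
  have hdeg : ∀ w ∈ fib m z, ∀ ε > 0, ∃ r δ : ℝ, δ < ε ∧ r < ε ∧ DegOne m X Y z r w δ := by
    intro w hw ε hε
    obtain ⟨r, δ, h5, h6, h7, _⟩ := h3 μ β κ L hbox c R ρ K m X Y h (z, w) hz hw (hgw w hw).2.1
      (hgw w hw).2.2 ε hε
    exact ⟨r, δ, h5, h6, h7⟩
  refine ⟨?_, hfin, ?_⟩
  · obtain ⟨r, δ, hr, hrc, h5, h6, h7⟩ := local_split h hz hfin hdeg one_pos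
    -- a small ball inside `ball c r'`, `r' < R`
    rw [mem_ball] at hz
    set r' : ℝ := max (R / 2) ((dist z c + R) / 2) with hr'
    have hr'1 : R / 2 ≤ r' := le_max_left _ _
    have hr'2 : r' < R := max_lt (by linarith) (by linarith)
    have hr'3 : dist z c < r' := lt_of_lt_of_le (by linarith) (le_max_right _ _)
    set s : ℝ := min r (r' - dist z c) with hs
    have hs0 : 0 < s := lt_min hr (by linarith)
    have hA1 : ball z s ⊆ ball z r := ball_subset_ball (min_le_left _ _)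
    have hA2 : ball z s ⊆ ball c r' := by
      refine ball_subset_ball' ?_
      have := min_le_right r (r' - dist z c)
      linarith
    have e1 := deg_eq_ncard h hfin (fun w hw => (h5 w hw).2) h6 h7 measurableSet_ball hA1
    have e2 := hglob r' hr'1 hr'2 (ball z s) measurableSet_ball hA2
    rw [e1] at e2
    have hv : 0 < volume.real (ball z s) := by
      refine ENNReal.toReal_pos ?_ measure_ball_lt_top.ne
      exact (measure_ball_pos volume z hs0).ne'
    have e3 : ((fib m z).ncard : ℝ) = d := mul_right_cancel₀ hv.ne' e2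
    rw [← e3, Nat.floor_natCast]
  · intro ε hε
    obtain ⟨r, δ, hr, hrc, h5, _, h7⟩ := local_split h hz hfin hdeg hε
    refine ⟨r, hr, hrc, fun w hw => ⟨δ w, (h5 w hw).1, (h5 w hw).2⟩, fun q hq hq1 => ?_⟩
    obtain ⟨w, hw, hqw⟩ := h7 q hq hq1
    exact ⟨w, hw, (mem_ball.1 hqw).trans (h5 w hw).1⟩

end

end Crest.Agent.R235.CylSplit_800
end

-- ▼ part R235/CylDisi_333

/-!
Row 235 (S0364), PACKAGE REG, sub-block CYL, leaf C6b `DISI` (helper333): disintegration of the
horizontal measure `hh · m` of a box current over the base.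
`disi_of : ALG0 → CONST → SPLIT → DISI`.
-/

set_option autoImplicit false

open MeasureTheory Metric Set Filter Complex
open scoped ContDiff Topology ENNReal NNReal

namespace Crest.Agent.R235.CylDisi_333

open Crest.Agent.R235.Loc Crest.Agent.R235.Cyl

noncomputable section

/-! ### the support -/

theorem supp_null (m : Measure CC) : m {p | ¬ InSupp m p} = 0 := by
  refine measure_null_of_locally_null _ fun p hp => ?_
  simp only [InSupp, not_forall, not_lt, nonpos_iff_eq_zero, mem_ofPred_eq] at hp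
  obtain ⟨r, hr, h0⟩ := hp
  exact ⟨ball p r, mem_nhdsWithin_of_mem_nhds (ball_mem_nhds p hr), h0⟩

theorem closed_supp (m : Measure CC) : IsClosed {p | InSupp m p} := by
  rw [← isOpen_compl_iff, Metric.isOpen_iff]
  intro p hp
  simp only [InSupp, mem_compl_iff, mem_ofPred_eq, not_forall, not_lt, nonpos_iff_eq_zero] at hp
  obtain ⟨r, hr, h0⟩ := hp
  refine ⟨r / 2, by positivity, fun q hq => ?_⟩
  simp only [InSupp, mem_compl_iff, mem_ofPred_eq, not_forall, not_lt, nonpos_iff_eq_zero]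
  refine ⟨r / 2, by positivity, measure_mono_null (fun x hx => ?_) h0⟩
  rw [mem_ball] at hx hq ⊢
  have := dist_triangle x q p
  linarith

theorem closed_fib (m : Measure CC) (z : ℂ) : IsClosed (fib m z) := by
  have h : Continuous fun w : ℂ => ((z, w) : CC) := by fun_prop
  exact (closed_supp m).preimage h

/-- sum over the fibre, `[0, ∞]`-valued. -/
def FSl (m : Measure CC) (f : CC → ℝ≥0∞) (z : ℂ) : ℝ≥0∞ :=
  ∫⁻ w in fib m z, f (z, w) ∂Measure.count

theorem FSl_eq (m : Measure CC) (f : CC → ℝ≥0∞) (hf : Measurable f) (z : ℂ)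
    (hz : (fib m z).Finite) : FSl m f z = ∑ w ∈ hz.toFinset, f (z, w) := by
  unfold FSl
  rw [← lintegral_indicator (closed_fib m z).measurableSet]
  have hg : Measurable (fun w : ℂ => f (z, w)) := hf.comp (by fun_prop)
  have h1 := lintegral_count' (hg.indicator (closed_fib m z).measurableSet)
  rw [h1, tsum_eq_sum (s := hz.toFinset)]
  · refine Finset.sum_congr rfl fun w hw => ?_
    rw [indicator_of_mem]
    simpa using hw
  · intro w hw
    rw [indicator_of_notMem]
    simpa using hw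

/-- local description of a measure over the point `z` of the base. -/
def Pz (m H : Measure CC) (z : ℂ) : Prop :=
  ∀ ε > 0, ∃ r > 0, (∀ w ∈ fib m z, ∃ δ : ℝ, 0 < δ ∧ δ < ε ∧ ∀ A : Set ℂ, MeasurableSet A →
    A ⊆ ball z r → H (A ×ˢ ball w δ) = volume A) ∧
    ∀ q : CC, InSupp m q → q.1 ∈ closedBall z r → ∃ w ∈ fib m z, dist q.2 w < ε

/-- **the local limit**. -/
theorem local_lim (m H : Measure CC) (carr : H {p | ¬ InSupp m p} = 0) (z : ℂ)
    (hz : (fib m z).Finite) (hP : Pz m H z) (f : CC → ℝ≥0) (hf : Continuous f) :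
    Tendsto (fun r : ℝ => (∫⁻ p in Prod.fst ⁻¹' closedBall z r, (f p : ℝ≥0∞) ∂H) /
      volume (closedBall z r)) (𝓝[>] 0) (𝓝 (FSl m (fun p => (f p : ℝ≥0∞)) z)) := by
  have hfm : Measurable (fun p => (f p : ℝ≥0∞)) := hf.measurable.coe_nnreal_ennreal
  rw [FSl_eq m _ hfm z hz]
  set F := hz.toFinset with hF
  have hmF : ∀ w, w ∈ F ↔ w ∈ fib m z := fun w => by rw [hF]; simp
  have hne : (∑ w ∈ F, (f (z, w) : ℝ≥0∞)) ≠ ⊤ := by
    simp
  rw [ENNReal.tendsto_nhds hne]
  intro ε hε
  obtain ⟨e, he, hen⟩ := ENNReal.exists_nnreal_pos_mul_lt (a := (F.card : ℝ≥0∞)) (b := ε)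
    (by simp) hε.ne'
  -- choice of `η`
  have h1 : ∀ᶠ η : ℝ in 𝓝[>] 0, ∀ w ∈ F, ∀ q : CC, dist q (z, w) < η →
      dist (f q) (f (z, w)) < e := by
    rw [Filter.eventually_all_finset]
    intro w _
    obtain ⟨d, hd, hd'⟩ := Metric.continuous_iff.1 hf (z, w) e (by exact_mod_cast he)
    filter_upwards [Ioo_mem_nhdsGT hd] with η hη q hq
    exact hd' q (hq.trans hη.2)
  have h2 : ∀ᶠ η : ℝ in 𝓝[>] 0, ∀ w ∈ F, ∀ w' ∈ F, w ≠ w' → 2 * η < dist w w' := by
    rw [Filter.eventually_all_finset]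
    intro w _
    rw [Filter.eventually_all_finset]
    intro w' _
    by_cases hww : w = w'
    · exact Filter.Eventually.of_forall fun _ h => absurd hww h
    · have hd : 0 < dist w w' / 2 := by have := dist_pos.2 hww; positivity
      filter_upwards [Ioo_mem_nhdsGT hd] with η hη _
      have := hη.2
      linarith
  obtain ⟨η, ⟨h1, h2⟩, hη⟩ := ((h1.and h2).and self_mem_nhdsWithin).exists
  obtain ⟨r₁, hr₁, hcyl, -⟩ := hP η hη
  choose! δ hδ0 hδη hdeg using hcyl
  have h3 : ∀ᶠ η' : ℝ in 𝓝[>] 0, ∀ w ∈ F, η' < δ w := by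
    rw [Filter.eventually_all_finset]
    intro w hw
    filter_upwards [Ioo_mem_nhdsGT (hδ0 w ((hmF w).1 hw))] with η' hη' using hη'.2
  obtain ⟨η', h3, hη'⟩ := (h3.and self_mem_nhdsWithin).exists
  obtain ⟨r₂, hr₂, -, hsup⟩ := hP η' hη'
  have hr0 : 0 < min (min r₁ r₂) η := lt_min (lt_min hr₁ hr₂) hη
  filter_upwards [Ioo_mem_nhdsGT hr0] with s hs
  have hs0 : 0 < s := hs.1
  have hs1 : s < r₁ := hs.2.trans_le ((min_le_left _ _).trans (min_le_left _ _))
  have hs2 : s < r₂ := hs.2.trans_le ((min_le_left _ _).trans (min_le_right _ _))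
  have hs3 : s < η := hs.2.trans_le (min_le_right _ _)
  set T := closedBall z s with hT
  have hTm : MeasurableSet T := measurableSet_closedBall
  have hT1 : T ⊆ ball z r₁ := closedBall_subset_ball hs1
  have hV0 : volume T ≠ 0 := (measure_closedBall_pos volume z hs0).ne'
  have hVt : volume T ≠ ⊤ := measure_closedBall_lt_top.ne
  have hSm : ∀ w, MeasurableSet (T ×ˢ ball w (δ w)) := fun w => hTm.prod measurableSet_ball
  -- decomposition
  have hdec : ∫⁻ p in Prod.fst ⁻¹' T, (f p : ℝ≥0∞) ∂H =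
      ∑ w ∈ F, ∫⁻ p in T ×ˢ ball w (δ w), (f p : ℝ≥0∞) ∂H := by
    rw [← lintegral_biUnion_finset]
    · refine setLIntegral_congr ?_
      have hae : ∀ᵐ p ∂H, InSupp m p := carr
      filter_upwards [hae] with p hp
      apply propext
      constructor
      · intro hpT
        obtain ⟨w, hw, hd⟩ := hsup p hp (closedBall_subset_closedBall hs2.le hpT)
        have hw' := (hmF w).2 hw
        refine mem_iUnion₂.2 ⟨w, hw', hpT, ?_⟩
        exact mem_ball.2 (hd.trans (h3 w hw'))
      · intro hpU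
        obtain ⟨w, _, hw⟩ := mem_iUnion₂.1 hpU
        exact hw.1
    · intro w hw w' hw' hne'
      have hw1 := (hmF w).1 hw
      have hw2 := (hmF w').1 hw'
      refine Set.disjoint_left.2 fun p hp hp' => ?_
      have ha := mem_ball.1 hp.2
      have hb := mem_ball.1 hp'.2
      have hc := h2 w hw w' hw' hne'
      have hd := dist_triangle_left w w' p.2
      have := hδη w hw1
      have := hδη w' hw2
      linarith
    · intro w _
      exact hSm w
  have hbd : ∀ w ∈ F, ((f (z, w) : ℝ≥0∞) - e) * volume T ≤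
      ∫⁻ p in T ×ˢ ball w (δ w), (f p : ℝ≥0∞) ∂H ∧
      ∫⁻ p in T ×ˢ ball w (δ w), (f p : ℝ≥0∞) ∂H ≤ ((f (z, w) : ℝ≥0∞) + e) * volume T := by
    intro w hw
    have hw1 := (hmF w).1 hw
    have hH := hdeg w hw1 T hTm hT1
    have hclose : ∀ p ∈ T ×ˢ ball w (δ w), dist (f p) (f (z, w)) < e := by
      intro p hp
      refine h1 w hw p ?_
      rw [Prod.dist_eq, max_lt_iff]
      exact ⟨(mem_closedBall.1 hp.1).trans_lt hs3, (mem_ball.1 hp.2).trans (hδη w hw1)⟩
    constructor
    · rw [← hH, ← setLIntegral_const]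
      refine setLIntegral_mono' (hSm w) fun p hp => ?_
      have h := hclose p hp
      rw [tsub_le_iff_right]
      have h4 : f (z, w) ≤ f p + e := by
        rw [← NNReal.coe_le_coe, NNReal.coe_add]
        rw [NNReal.dist_eq, abs_lt] at h
        linarith [h.1]
      exact_mod_cast h4
    · rw [← hH, ← setLIntegral_const]
      refine setLIntegral_mono' (hSm w) fun p hp => ?_
      have h := hclose p hp
      have h4 : f p ≤ f (z, w) + e := by
        rw [← NNReal.coe_le_coe, NNReal.coe_add]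
        rw [NNReal.dist_eq, abs_lt] at h
        linarith [h.2]
      exact_mod_cast h4
  have hcard : ∑ w ∈ F, (e : ℝ≥0∞) ≤ ε := by
    rw [Finset.sum_const, nsmul_eq_mul, mul_comm]
    exact hen.le
  have hI : ∫⁻ p in Prod.fst ⁻¹' T, (f p : ℝ≥0∞) ∂H ≤
      (∑ w ∈ F, ((f (z, w) : ℝ≥0∞) + e)) * volume T := by
    rw [hdec, Finset.sum_mul]
    exact Finset.sum_le_sum fun w hw => (hbd w hw).2
  have hI' : (∑ w ∈ F, ((f (z, w) : ℝ≥0∞) - e)) * volume T ≤
      ∫⁻ p in Prod.fst ⁻¹' T, (f p : ℝ≥0∞) ∂H := by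
    rw [hdec, Finset.sum_mul]
    exact Finset.sum_le_sum fun w hw => (hbd w hw).1
  constructor
  · rw [tsub_le_iff_right]
    calc ∑ w ∈ F, (f (z, w) : ℝ≥0∞) ≤ ∑ w ∈ F, (((f (z, w) : ℝ≥0∞) - e) + e) :=
          Finset.sum_le_sum fun w _ => le_tsub_add
      _ = (∑ w ∈ F, ((f (z, w) : ℝ≥0∞) - e)) + ∑ w ∈ F, (e : ℝ≥0∞) := Finset.sum_add_distrib
      _ ≤ (∫⁻ p in Prod.fst ⁻¹' T, (f p : ℝ≥0∞) ∂H) / volume T + ε :=
          add_le_add ((ENNReal.le_div_iff_mul_le (Or.inl hV0) (Or.inl hVt)).2 hI') hcard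
  · refine (ENNReal.div_le_iff_le_mul (Or.inl hV0) (Or.inl hVt)).2 (hI.trans ?_)
    gcongr
    rw [Finset.sum_add_distrib]
    gcongr

/-! ### from continuous functions to all functions -/

/-- what is known about the horizontal measure. -/
structure Dd (m H : Measure CC) (c : ℂ) (R : ℝ) (k : ℕ) : Prop where
  fin : IsFiniteMeasure H
  carr : H {p | ¬ InSupp m p} = 0
  base : H {p : CC | p.1 ∉ ball c R} = 0
  ac : ∀ N : Set ℂ, MeasurableSet N → volume N = 0 → H (Prod.fst ⁻¹' N) = 0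
  good : ∀ᵐ z : ℂ, z ∈ ball c R → (fib m z).ncard = k ∧ (fib m z).Finite ∧ Pz m H z

/-- the conclusion for one function. -/
def QQ (m H : Measure CC) (c : ℂ) (R : ℝ) (f : CC → ℝ≥0∞) : Prop :=
  AEMeasurable (FSl m f) (volume.restrict (ball c R)) ∧
    ∫⁻ p, f p ∂H = ∫⁻ z in ball c R, FSl m f z

theorem qq_cont {m H : Measure CC} {c : ℂ} {R : ℝ} {k : ℕ} (D : Dd m H c R k)
    (f : CC → ℝ≥0) (hf : Continuous f) (C : ℝ≥0) (hC : ∀ p, f p ≤ C) :
    QQ m H c R (fun p => (f p : ℝ≥0∞)) := by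
  have := D.fin
  have hfm : Measurable (fun p => (f p : ℝ≥0∞)) := hf.measurable.coe_nnreal_ennreal
  set Hf := H.withDensity (fun p => (f p : ℝ≥0∞)) with hHf
  have hfint : ∫⁻ p, (f p : ℝ≥0∞) ∂H ≠ ⊤ := by
    refine ((lintegral_mono (g := fun _ => (C : ℝ≥0∞)) fun p => ?_).trans_lt ?_).ne
    · exact ENNReal.coe_le_coe.2 (hC p)
    · rw [lintegral_const]
      exact ENNReal.mul_lt_top (by simp) (measure_lt_top _ _)
  have : IsFiniteMeasure Hf := isFiniteMeasure_withDensity hfint
  set η := Hf.map (Prod.fst : CC → ℂ) with hη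
  have : IsFiniteMeasure η := Measure.isFiniteMeasure_map Hf _
  have hηapp : ∀ T : Set ℂ, MeasurableSet T →
      η T = ∫⁻ p in Prod.fst ⁻¹' T, (f p : ℝ≥0∞) ∂H := by
    intro T hT
    rw [hη, Measure.map_apply measurable_fst hT, hHf, withDensity_apply _ (measurable_fst hT)]
  have hac : η ≪ volume := by
    refine Measure.AbsolutelyContinuous.mk fun N hN hN0 => ?_
    rw [hηapp N hN]
    rw [Measure.restrict_eq_zero.2 (D.ac N hN hN0), lintegral_zero_measure]
  have hlim := Besicovitch.ae_tendsto_rnDeriv η (volume : Measure ℂ)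
  have heq : ∀ᵐ z : ℂ, z ∈ ball c R → η.rnDeriv volume z = FSl m (fun p => (f p : ℝ≥0∞)) z := by
    filter_upwards [hlim, D.good] with z h1 h2 hz
    obtain ⟨-, hfin, hP⟩ := h2 hz
    have h3 := local_lim m H D.carr z hfin hP f hf
    refine tendsto_nhds_unique h1 (h3.congr fun r => ?_)
    rw [hηapp _ measurableSet_closedBall]
  have heq' : η.rnDeriv volume =ᵐ[volume.restrict (ball c R)]
      FSl m (fun p => (f p : ℝ≥0∞)) := (ae_restrict_iff' measurableSet_ball).2 heq
  refine ⟨⟨_, η.measurable_rnDeriv volume, heq'.symm⟩, ?_⟩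
  rw [← lintegral_congr_ae heq', Measure.setLIntegral_rnDeriv hac, hηapp _ measurableSet_ball]
  rw [← lintegral_indicator (measurable_fst measurableSet_ball)]
  refine lintegral_congr_ae ?_
  have : ∀ᵐ p ∂H, p.1 ∈ ball c R := by
    rw [ae_iff]; exact D.base
  filter_upwards [this] with p hp
  rw [indicator_of_mem]
  exact hp

theorem FSl_one {m H : Measure CC} {c : ℂ} {R : ℝ} {k : ℕ} (D : Dd m H c R k) :
    ∀ᵐ z ∂(volume.restrict (ball c R)), FSl m (fun _ => 1) z = k := by
  rw [ae_restrict_iff' measurableSet_ball]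
  filter_upwards [D.good] with z h2 hz
  obtain ⟨hk, hfin, -⟩ := h2 hz
  rw [FSl_eq m _ measurable_const z hfin]
  simp only [Finset.sum_const, nsmul_eq_mul, mul_one]
  rw [← hk, Set.ncard_eq_toFinset_card _ hfin]

theorem FSl_le_one (m : Measure CC) (f : CC → ℝ≥0∞) (hf : ∀ p, f p ≤ 1) (z : ℂ) :
    FSl m f z ≤ FSl m (fun _ => 1) z := lintegral_mono fun w => hf (z, w)

theorem qq_closed {m H : Measure CC} {c : ℂ} {R : ℝ} {k : ℕ} (D : Dd m H c R k)
    (E : Set CC) (hE : IsClosed E) : QQ m H c R (E.indicator fun _ => 1) := by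
  have := D.fin
  have hap : ∀ n, QQ m H c R (fun p => (hE.apprSeq n p : ℝ≥0∞)) := fun n =>
    qq_cont D (fun p => hE.apprSeq n p) (hE.apprSeq n).continuous 1
      fun p => HasOuterApproxClosed.apprSeq_apply_le_one hE n p
  have hpt : ∀ p, Tendsto (fun n => (hE.apprSeq n p : ℝ≥0∞)) atTop
      (𝓝 (E.indicator (fun _ => (1 : ℝ≥0∞)) p)) := by
    intro p
    have h := tendsto_pi_nhds.1 (HasOuterApproxClosed.tendsto_apprSeq hE) p
    have h' := ENNReal.tendsto_coe.2 h
    convert h' using 2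
    by_cases hp : p ∈ E <;> simp [hp]
  have hgood : ∀ᵐ z ∂(volume.restrict (ball c R)), (fib m z).Finite := by
    rw [ae_restrict_iff' measurableSet_ball]
    filter_upwards [D.good] with z h2 hz using (h2 hz).2.1
  have hle1 : ∀ n p, (hE.apprSeq n p : ℝ≥0∞) ≤ 1 := fun n p => by
    exact_mod_cast HasOuterApproxClosed.apprSeq_apply_le_one hE n p
  have hmn : ∀ n, Measurable (fun p => (hE.apprSeq n p : ℝ≥0∞)) := fun n =>
    (hE.apprSeq n).continuous.measurable.coe_nnreal_ennreal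
  have hmE : Measurable (E.indicator fun _ => (1 : ℝ≥0∞)) :=
    measurable_const.indicator hE.measurableSet
  have hlimz : ∀ᵐ z ∂(volume.restrict (ball c R)), Tendsto
      (fun n => FSl m (fun p => (hE.apprSeq n p : ℝ≥0∞)) z) atTop
      (𝓝 (FSl m (E.indicator fun _ => 1) z)) := by
    filter_upwards [hgood] with z hz
    simp only [FSl_eq m _ (hmn _) z hz, FSl_eq m _ hmE z hz]
    exact tendsto_finsetSum _ fun w _ => hpt (z, w)
  refine ⟨aemeasurable_of_tendsto_metrizable_ae atTop (fun n => (hap n).1) hlimz, ?_⟩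
  have hL : Tendsto (fun n => ∫⁻ p, (hE.apprSeq n p : ℝ≥0∞) ∂H) atTop
      (𝓝 (∫⁻ p, E.indicator (fun _ => (1 : ℝ≥0∞)) p ∂H)) := by
    refine tendsto_lintegral_of_dominated_convergence (fun _ => 1) hmn
      (fun n => ae_of_all _ fun p => hle1 n p) ?_ (ae_of_all _ hpt)
    rw [lintegral_const, one_mul]
    exact measure_ne_top _ _
  have hRt : Tendsto (fun n => ∫⁻ z in ball c R, FSl m (fun p => (hE.apprSeq n p : ℝ≥0∞)) z)
      atTop (𝓝 (∫⁻ z in ball c R, FSl m (E.indicator fun _ => 1) z)) := by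
    refine tendsto_lintegral_of_dominated_convergence' (fun _ => (k : ℝ≥0∞)) (fun n => (hap n).1)
      (fun n => ?_) ?_ hlimz
    · filter_upwards [FSl_one D] with z hz
      rw [← hz]
      exact FSl_le_one m _ (hle1 n) z
    · rw [setLIntegral_const]
      exact (ENNReal.mul_lt_top (by simp) measure_ball_lt_top).ne
  refine tendsto_nhds_unique hL (hRt.congr fun n => ?_)
  exact (hap n).2.symm

theorem qq_set {m H : Measure CC} {c : ℂ} {R : ℝ} {k : ℕ} (D : Dd m H c R k)
    (E : Set CC) (hE : MeasurableSet E) : QQ m H c R (E.indicator fun _ => 1) := by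
  have := D.fin
  have h1 : QQ m H c R (fun _ => 1) := by
    have h := qq_cont D (fun _ => 1) continuous_const 1 fun _ => le_rfl
    simpa using h
  have hb : (inferInstance : MeasurableSpace CC) = MeasurableSpace.generateFrom {s | IsClosed s} := by
    rw [BorelSpace.measurable_eq (α := CC)]
    exact borel_eq_generateFrom_isClosed
  refine MeasurableSpace.induction_on_inter
    (C := fun E _ => QQ m H c R (E.indicator fun _ => 1)) hb isPiSystem_isClosed ?_ ?_ ?_ ?_ E hE
  · constructor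
    · have : FSl m ((∅ : Set CC).indicator fun _ => 1) = fun _ => 0 := by
        ext z; simp [FSl]
      rw [this]
      exact aemeasurable_const
    · simp [FSl]
  · intro s hs
    exact qq_closed D s hs
  · intro s hs hq
    have hms : Measurable (s.indicator fun _ => (1 : ℝ≥0∞)) := measurable_const.indicator hs
    have hk := FSl_one D
    have hsub : ∀ᵐ z ∂(volume.restrict (ball c R)),
        FSl m (sᶜ.indicator fun _ => 1) z = FSl m (fun _ => 1) z - FSl m (s.indicator fun _ => 1) z := by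
      filter_upwards [hk] with z hz
      have hadd : FSl m (fun _ => 1) z =
          FSl m (sᶜ.indicator fun _ => 1) z + FSl m (s.indicator fun _ => 1) z := by
        unfold FSl
        have hmz : Measurable fun w : ℂ => s.indicator (fun _ => (1 : ℝ≥0∞)) ((z, w) : CC) :=
          hms.comp (by fun_prop)
        rw [← lintegral_add_right _ hmz]
        refine lintegral_congr fun w => ?_
        by_cases hw : ((z, w) : CC) ∈ s <;> simp [hw]
      have hfin : FSl m (s.indicator fun _ => 1) z ≠ ⊤ := by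
        refine ((FSl_le_one m _ (fun p => ?_) z).trans_lt ?_).ne
        · exact indicator_le_self' (fun _ _ => zero_le) p
        · rw [hz]; simp
      rw [hadd, ENNReal.add_sub_cancel_right hfin]
    constructor
    · exact (h1.1.sub hq.1).congr (hsub.mono fun z hz => hz.symm)
    · rw [lintegral_congr_ae hsub, lintegral_sub' hq.1]
      · rw [← h1.2, ← hq.2, lintegral_indicator hs.compl, lintegral_indicator hs,
          setLIntegral_const, setLIntegral_const, lintegral_const, one_mul, one_mul, one_mul,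
          measure_compl hs (measure_ne_top _ _)]
      · rw [← hq.2, lintegral_indicator hs, setLIntegral_const, one_mul]
        exact measure_ne_top _ _
      · exact ae_of_all _ fun z => FSl_le_one m _
          (fun p => indicator_le_self' (fun _ _ => zero_le) p) z
  · intro f hd hm hq
    have hun : ∀ p : CC, (⋃ i, f i).indicator (fun _ => (1 : ℝ≥0∞)) p =
        ∑' i, (f i).indicator (fun _ => 1) p := by
      intro p
      by_cases hp : p ∈ ⋃ i, f i
      · obtain ⟨i, hi⟩ := mem_iUnion.1 hp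
        rw [indicator_of_mem hp, tsum_eq_single i, indicator_of_mem hi]
        intro j hj
        rw [indicator_of_notMem]
        exact fun hj' => Set.disjoint_left.1 (hd hj) hj' hi
      · rw [indicator_of_notMem hp]
        symm
        rw [ENNReal.tsum_eq_zero]
        intro i
        rw [indicator_of_notMem]
        exact fun hi => hp (mem_iUnion.2 ⟨i, hi⟩)
    have hF : ∀ z, FSl m ((⋃ i, f i).indicator fun _ => 1) z =
        ∑' i, FSl m ((f i).indicator fun _ => 1) z := by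
      intro z
      unfold FSl
      simp only [hun]
      rw [lintegral_tsum]
      intro i
      exact ((measurable_const.indicator (hm i)).comp (by fun_prop)).aemeasurable
    constructor
    · have : FSl m ((⋃ i, f i).indicator fun _ => 1) =
        fun z => ∑' i, FSl m ((f i).indicator fun _ => 1) z := funext hF
      rw [this]
      exact AEMeasurable.tsum fun i => (hq i).1
    · simp only [hun, hF]
      rw [lintegral_tsum fun i => (measurable_const.indicator (hm i)).aemeasurable,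
        lintegral_tsum fun i => (hq i).1]
      exact tsum_congr fun i => (hq i).2

theorem qq_all {m H : Measure CC} {c : ℂ} {R : ℝ} {k : ℕ} (D : Dd m H c R k)
    (f : CC → ℝ≥0∞) (hf : Measurable f) : QQ m H c R f := by
  have := D.fin
  refine Measurable.ennreal_induction (motive := fun f => QQ m H c R f) ?_ ?_ ?_ hf
  · intro a s hs
    have h := qq_set D s hs
    have hms : Measurable (s.indicator fun _ => (1 : ℝ≥0∞)) := measurable_const.indicator hs
    have h1 : ∀ p, s.indicator (fun _ => a) p = a * s.indicator (fun _ => 1) p := by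
      intro p
      by_cases hp : p ∈ s <;> simp [hp]
    have h2 : ∀ z, FSl m (s.indicator fun _ => a) z = a * FSl m (s.indicator fun _ => 1) z := by
      intro z
      unfold FSl
      simp only [h1]
      have hmz : Measurable fun w : ℂ => s.indicator (fun _ => (1 : ℝ≥0∞)) ((z, w) : CC) :=
        hms.comp (by fun_prop)
      rw [lintegral_const_mul _ hmz]
    constructor
    · rw [show FSl m (s.indicator fun _ => a) = fun z => a * FSl m (s.indicator fun _ => 1) z
        from funext h2]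
      exact h.1.const_mul a
    · simp only [h1, h2]
      rw [lintegral_const_mul _ hms, lintegral_const_mul'' _ h.1, h.2]
  · intro f g _ hf hg qf qg
    have h2 : ∀ z, FSl m (f + g) z = FSl m f z + FSl m g z := by
      intro z
      unfold FSl
      have hmz : Measurable fun w : ℂ => f ((z, w) : CC) := hf.comp (by fun_prop)
      rw [← lintegral_add_left hmz]
      rfl
    constructor
    · rw [show FSl m (f + g) = fun z => FSl m f z + FSl m g z from funext h2]
      exact qf.1.add qg.1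
    · simp only [h2]
      rw [lintegral_add_left' qf.1, ← qf.2, ← qg.2, ← lintegral_add_left hf]
      rfl
  · intro f hf hmono hq
    have h2 : ∀ z, FSl m (fun p => ⨆ n, f n p) z = ⨆ n, FSl m (f n) z := by
      intro z
      unfold FSl
      exact lintegral_iSup (fun n => (hf n).comp (by fun_prop)) fun i j hij w => hmono hij (z, w)
    constructor
    · rw [show FSl m (fun p => ⨆ n, f n p) = fun z => ⨆ n, FSl m (f n) z from funext h2]
      exact AEMeasurable.iSup fun n => (hq n).1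
    · simp only [h2]
      rw [lintegral_iSup hf hmono, lintegral_iSup' (fun n => (hq n).1)
        (ae_of_all _ fun z i j hij => lintegral_mono fun w => hmono hij (z, w))]
      exact iSup_congr fun n => (hq n).2

/-! ### the horizontal measure of a box current -/

theorem meas_hh {X Y : CC → CC} (hX : Measurable X) (hY : Measurable Y) :
    Measurable fun p => hh (X p) (Y p) := by
  unfold hh
  fun_prop

/-- **C6b**: disintegration of the horizontal measure. -/
theorem disi_of (h0 : ALG0) (h2 : CONST) (h6 : SPLIT) : DISI := by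
  intro μ β κ L hS c R ρ K m X Y B Φ hΦ hint
  have hmfin := B.fin
  by_cases hR : 0 < R
  swap
  · -- empty box
    have hb : ball c R = ∅ := ball_eq_empty.2 (not_lt.1 hR)
    have hm0 : m = 0 := by
      rw [← ae_eq_bot, ← Filter.empty_mem_iff_bot]
      have h := B.supp
      simp only [hb, mem_empty_iff_false, false_and] at h
      exact h
    rw [hb, hm0]
    simp
  obtain ⟨C₀, c₀, -, -, hA⟩ := h0 κ L K hS.box.κ0 hS.box.κ1 hS.box.L0
  have hbd : ∀ p, 0 ≤ hh (X p) (Y p) ∧ hh (X p) (Y p) ≤ C₀ := fun p =>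
    ⟨(hA μ β hS p (X p) (Y p) (B.nX p) (B.nY p) (B.jz p) (B.jw p)).1,
      (hA μ β hS p (X p) (Y p) (B.nX p) (B.nY p) (B.jz p) (B.jw p)).2.1⟩
  have hhm := meas_hh B.mX B.mY
  have hhi : Integrable (fun p => hh (X p) (Y p)) m :=
    Integrable.of_bound hhm.aestronglyMeasurable C₀ (ae_of_all _ fun p => by
      rw [Real.norm_eq_abs, abs_of_nonneg (hbd p).1]; exact (hbd p).2)
  obtain ⟨H, hH⟩ : ∃ H : Measure CC,
    H = m.withDensity (fun p => ENNReal.ofReal (hh (X p) (Y p))) := ⟨_, rfl⟩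
  have hHac : H ≪ m := hH ▸ withDensity_absolutelyContinuous _ _
  have hHapp : ∀ T : Set CC, MeasurableSet T →
      H T = ENNReal.ofReal (∫ q in T, hh (X q) (Y q) ∂m) := by
    intro T hT
    rw [hH, withDensity_apply _ hT, ofReal_integral_eq_lintegral_ofReal hhi.restrict
      (ae_of_all _ fun p => (hbd p).1)]
  obtain ⟨k, hk⟩ := h6 μ β κ L hS c R ρ K m X Y B hR
  have D : Dd m H c R k := by
    refine ⟨?_, hHac (supp_null m), ?_, ?_, ?_⟩
    · rw [hH]
      exact isFiniteMeasure_withDensity_ofReal hhi.2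
    · refine hHac ?_
      have h := B.supp
      rw [ae_iff] at h
      refine measure_mono_null (fun p hp => ?_) h
      exact fun hq => hp hq.1
    · intro N hN hN0
      have hbase : H {p : CC | p.1 ∉ ball c R} = 0 := by
        refine hHac ?_
        have h := B.supp
        rw [ae_iff] at h
        refine measure_mono_null (fun p hp => ?_) h
        exact fun hq => hp hq.1
      have hloc : H (Prod.fst ⁻¹' (N ∩ ball c R)) = 0 := by
        refine measure_null_of_locally_null _ fun p hp => ?_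
        obtain ⟨R', h1, h3⟩ := exists_between (mem_ball.1 hp.2)
        have hR' : 0 < R' := dist_nonneg.trans_lt h1
        refine ⟨Prod.fst ⁻¹' (N ∩ ball c R) ∩ Prod.fst ⁻¹' ball c R',
          inter_mem_nhdsWithin _ ((isOpen_ball.preimage continuous_fst).mem_nhds h1), ?_⟩
        obtain ⟨d, -, hd⟩ := h2 μ β κ L hS c R ρ K m X Y B c R' univ hR'
          (closedBall_subset_ball h3) isOpen_univ (by simp)
        have h4 := hd (N ∩ ball c R') (hN.inter measurableSet_ball) inter_subset_right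
        have h5 : volume.real (N ∩ ball c R') = 0 := by
          rw [measureReal_def, measure_mono_null inter_subset_left hN0]
          rfl
        rw [h5, mul_zero] at h4
        have h6' : H ((N ∩ ball c R') ×ˢ univ) = 0 := by
          rw [hHapp _ ((hN.inter measurableSet_ball).prod MeasurableSet.univ), h4,
            ENNReal.ofReal_zero]
        refine measure_mono_null (fun q hq => ?_) h6'
        exact ⟨⟨hq.1.1, hq.2⟩, mem_univ _⟩
      refine measure_mono_null (fun p hp => ?_) (measure_union_null hbase hloc)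
      by_cases hpb : p.1 ∈ ball c R
      · exact Or.inr ⟨hp, hpb⟩
      · exact Or.inl hpb
    · filter_upwards [hk] with z hz hzb
      obtain ⟨h1, h3, h4⟩ := hz hzb
      refine ⟨h1, h3, fun ε hε => ?_⟩
      obtain ⟨r, hr, -, hcyl, hsup⟩ := h4 ε hε
      refine ⟨r, hr, fun w hw => ?_, hsup⟩
      obtain ⟨δ, hδ, hdeg⟩ := hcyl w hw
      refine ⟨δ, hdeg.posδ, hδ, fun A hAm hAs => ?_⟩
      rw [hHapp _ (hAm.prod measurableSet_ball), hdeg.deg A hAm hAs, measureReal_def,
        ENNReal.ofReal_toReal]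
      exact ((measure_mono hAs).trans_lt measure_ball_lt_top).ne
  have hHfin := D.fin
  -- positive and negative parts
  have hpm : Measurable fun p => ENNReal.ofReal (Φ p) := hΦ.ennreal_ofReal
  have hnm : Measurable fun p => ENNReal.ofReal (-Φ p) := hΦ.neg.ennreal_ofReal
  have hq1 := qq_all D _ hpm
  have hq2 := qq_all D _ hnm
  have hw : ∀ g : CC → ℝ, Measurable g → ∫⁻ p, ENNReal.ofReal (g p) ∂H =
      ∫⁻ p, ENNReal.ofReal (g p * hh (X p) (Y p)) ∂m := by
    intro g hg
    rw [hH, lintegral_withDensity_eq_lintegral_mul _ hhm.ennreal_ofReal hg.ennreal_ofReal]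
    refine lintegral_congr fun p => ?_
    rw [Pi.mul_apply, mul_comm (g p), ENNReal.ofReal_mul (hbd p).1]
  have hw1 := hw Φ hΦ
  have hw2 : ∫⁻ p, ENNReal.ofReal (-Φ p) ∂H =
      ∫⁻ p, ENNReal.ofReal (-(Φ p * hh (X p) (Y p))) ∂m := by
    rw [hw (fun p => -Φ p) hΦ.neg]
    refine lintegral_congr fun p => ?_
    rw [neg_mul]
  have hf1 : ∫⁻ z in ball c R, FSl m (fun p => ENNReal.ofReal (Φ p)) z ≠ ⊤ := by
    rw [← hq1.2, hw1]
    exact hint.lintegral_lt_top.ne
  have hf2 : ∫⁻ z in ball c R, FSl m (fun p => ENNReal.ofReal (-Φ p)) z ≠ ⊤ := by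
    rw [← hq2.2, hw2]
    exact hint.neg.lintegral_lt_top.ne
  have hFS : ∀ᵐ z ∂(volume.restrict (ball c R)), FS m Φ z =
      (FSl m (fun p => ENNReal.ofReal (Φ p)) z).toReal -
        (FSl m (fun p => ENNReal.ofReal (-Φ p)) z).toReal := by
    rw [ae_restrict_iff' measurableSet_ball]
    filter_upwards [D.good] with z hz hzb
    obtain ⟨-, hzf, -⟩ := hz hzb
    rw [FSl_eq m _ hpm z hzf, FSl_eq m _ hnm z hzf, ENNReal.toReal_sum (by simp),
      ENNReal.toReal_sum (by simp), ← Finset.sum_sub_distrib]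
    unfold FS
    rw [finsum_mem_eq_finite_toFinset_sum _ hzf]
    refine Finset.sum_congr rfl fun w _ => ?_
    rw [ENNReal.toReal_ofReal', ENNReal.toReal_ofReal']
    rcases le_total 0 (Φ (z, w)) with h | h
    · rw [max_eq_left h, max_eq_right (by linarith), sub_zero]
    · rw [max_eq_right h, max_eq_left (by linarith), zero_sub, neg_neg]
  have hi1 := integrable_toReal_of_lintegral_ne_top hq1.1 hf1
  have hi2 := integrable_toReal_of_lintegral_ne_top hq2.1 hf2
  refine ⟨(hi1.sub hi2).congr (hFS.mono fun z hz => hz.symm), ?_⟩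
  rw [integral_congr_ae hFS, integral_sub hi1 hi2, integral_toReal hq1.1
    (ae_lt_top' hq1.1 hf1), integral_toReal hq2.1 (ae_lt_top' hq2.1 hf2), ← hq1.2, ← hq2.2,
    hw1, hw2]
  exact integral_eq_lintegral_pos_part_sub_lintegral_neg_part hint

end

end Crest.Agent.R235.CylDisi_333
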