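import Crest.Agent.R235.KG_460
import Crest.Agent.R235.WKG_460
import Crest.Agent.R235.CylDec_734
import Crest.Agent.R235.CylExt_463
import Crest.Agent.R235.KGL2_52

-- ▼ part R235/KGL4_355
section

/-!
Row 235, package REG-B, leaf L4 (helper355): circle averages of a `C¹` function of finite energy
whose radial flux is dominated by a Morrey function are bounded, hence it cannot tend to `+∞` at `0`.
-/

set_option autoImplicit false

namespace Crest.Agent.R235.KGL4_355

open Complex Metric Set MeasureTheory Filter Topology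
open Crest.Agent.R235.KG_460

/-- polar coordinates -/
noncomputable def pm (q : ℝ × ℝ) : ℂ := q.1 * exp (q.2 * I)

lemma pm_eq (q : ℝ × ℝ) : Complex.polarCoord.symm q = pm q := by
  rw [Complex.polarCoord_symm_apply]
  unfold pm
  rw [exp_mul_I]
  push_cast
  ring

lemma pm_cont : Continuous pm := by
  unfold pm
  fun_prop

lemma pm_meas : Measurable pm := pm_cont.measurable

lemma norm_pm {q : ℝ × ℝ} (hq : 0 < q.1) : ‖pm q‖ = q.1 := by
  unfold pm
  rw [norm_mul, norm_exp_ofReal_mul_I, mul_one]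
  simp [abs_of_pos hq]

/-- the open strip -/
def St : Set (ℝ × ℝ) := Ioi (0 : ℝ) ×ˢ Ioo (-Real.pi) Real.pi

lemma polar (f : ℂ → ENNReal) :
    ∫⁻ q in St, ENNReal.ofReal q.1 * f (pm q) = ∫⁻ z, f z := by
  rw [← Complex.lintegral_comp_polarCoord_symm f]
  have : St = polarCoord.target := rfl
  rw [this]
  refine lintegral_congr fun q => ?_
  rw [pm_eq, smul_eq_mul]

lemma meas_St : MeasurableSet St := measurableSet_Ioi.prod measurableSet_Ioo

/-- null sets pull back to null sets -/
lemma qmp : Measure.QuasiMeasurePreserving pm (volume.restrict St) volume := by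
  refine ⟨pm_meas, Measure.AbsolutelyContinuous.mk fun s hs h0 => ?_⟩
  rw [Measure.map_apply pm_meas hs]
  have h1 := polar (s.indicator fun _ => 1)
  rw [lintegral_indicator_const hs, h0, mul_zero] at h1
  have hm : Measurable fun q : ℝ × ℝ => ENNReal.ofReal q.1 * s.indicator (fun _ => 1) (pm q) := by
    refine (ENNReal.measurable_ofReal.comp measurable_fst).mul ?_
    exact ((measurable_const.indicator hs).comp pm_meas)
  rw [lintegral_eq_zero_iff hm] at h1
  have h2 : ∀ᵐ q ∂(volume.restrict St), pm q ∉ s := by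
    filter_upwards [h1, ae_restrict_mem meas_St] with q hq hqS hs'
    simp only [indicator_of_mem hs', mul_one, Pi.zero_apply, ENNReal.ofReal_eq_zero] at hq
    have : 0 < q.1 := hqS.1
    linarith
  have h3 := ae_iff.1 h2
  simp only [not_not] at h3
  exact h3

/-- rectangle -/
def Rc (r1 r2 : ℝ) : Set (ℝ × ℝ) := Ioo r1 r2 ×ˢ Ioo (-Real.pi) Real.pi


lemma Rc_sub {r1 r2 : ℝ} (h : 0 ≤ r1) : Rc r1 r2 ⊆ St := by
  intro q hq
  exact ⟨lt_of_le_of_lt h hq.1.1, hq.2⟩




/-! ### circle averages -/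


lemma pi_le : -Real.pi ≤ Real.pi := by linarith [Real.pi_pos]

lemma intJ (f : ℝ → ℝ) : ∫ φ in (-Real.pi)..Real.pi, f φ = ∫ φ in Ioo (-Real.pi) Real.pi, f φ := by
  rw [intervalIntegral.integral_of_le pi_le, integral_Ioc_eq_integral_Ioo]







end Crest.Agent.R235.KGL4_355
end

-- ▼ part R235/WKTool_460
section

/-! # REG-CYL-2: polar coordinates on annuli -/

set_option autoImplicit false

open MeasureTheory Metric Set Filter Complex
open scoped Topology

namespace Crest.Agent.R235.WKTool_460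

open Crest.Agent.R235.KGL4_355

noncomputable section

/-- open annulus -/
def ann (p : ℂ) (r1 r2 : ℝ) : Set ℂ := {z | r1 < ‖z - p‖ ∧ ‖z - p‖ < r2}

theorem isOpen_ann (p : ℂ) (r1 r2 : ℝ) : IsOpen (ann p r1 r2) :=
  (isOpen_lt continuous_const (continuous_id.sub continuous_const).norm).inter
    (isOpen_lt (continuous_id.sub continuous_const).norm continuous_const)

theorem polar_ann {W : ℂ → ℝ} {p : ℂ} {r1 r2 : ℝ} (hr1 : 0 ≤ r1)
    (hW : IntegrableOn W (ann p r1 r2)) :
    IntegrableOn (fun q : ℝ × ℝ => q.1 * W (p + q.1 * exp (q.2 * I)))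
      (Ioo r1 r2 ×ˢ Ioo (-Real.pi) Real.pi) ∧
    IntegrableOn (fun r : ℝ => r * ∫ φ in (-Real.pi)..Real.pi, W (p + r * exp (φ * I)))
      (Ioo r1 r2) ∧
    (∀ᵐ r : ℝ ∂(volume.restrict (Ioo r1 r2)),
      IntegrableOn (fun φ : ℝ => W (p + r * exp (φ * I))) (Ioo (-Real.pi) Real.pi)) ∧
    ∫ z in ann p r1 r2, W z =
      ∫ r in Ioo r1 r2, r * ∫ φ in (-Real.pi)..Real.pi, W (p + r * exp (φ * I)) := by
  have hm : MeasurableSet (ann p r1 r2) := (isOpen_ann p r1 r2).measurableSet
  set f : ℂ → ℝ := fun u => (ann p r1 r2).indicator W (u + p) with hf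
  have hfi : Integrable f := ((integrable_indicator_iff hm).2 hW).comp_add_right p
  have hmeas : AEStronglyMeasurable (fun q : ℝ × ℝ => q.1 * f (pm q)) (volume.restrict St) := by
    refine AEStronglyMeasurable.mul continuous_fst.aestronglyMeasurable ?_
    exact hfi.aestronglyMeasurable.comp_quasiMeasurePreserving qmp
  have hint : IntegrableOn (fun q : ℝ × ℝ => q.1 * f (pm q)) St := by
    refine ⟨hmeas, ?_⟩
    unfold HasFiniteIntegral
    have h1 : ∫⁻ q in St, ‖q.1 * f (pm q)‖ₑ = ∫⁻ z, ‖f z‖ₑ := by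
      rw [← polar (fun z => ‖f z‖ₑ)]
      refine setLIntegral_congr_fun meas_St fun q hq => ?_
      rw [enorm_mul]
      congr 1
      rw [← Real.enorm_of_nonneg (le_of_lt (show (0 : ℝ) < q.1 from hq.1))]
    rw [h1]
    exact hfi.hasFiniteIntegral
  have hval : ∫ q in St, q.1 * f (pm q) = ∫ z in ann p r1 r2, W z := by
    have h1 := Complex.integral_comp_polarCoord_symm f
    have h2 : ∫ z, f z = ∫ z in ann p r1 r2, W z := by
      rw [hf, integral_add_right_eq_self (fun u => (ann p r1 r2).indicator W u) p,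
        integral_indicator hm]
    rw [← h2, ← h1]
    have h3 : St = polarCoord.target := rfl
    rw [h3]
    refine integral_congr_ae (Eventually.of_forall fun q => ?_)
    simp only [pm_eq, smul_eq_mul]
  have hsub : Ioo r1 r2 ×ˢ Ioo (-Real.pi) Real.pi ⊆ St := Rc_sub (r2 := r2) hr1
  have hRm : MeasurableSet (Ioo r1 r2 ×ˢ Ioo (-Real.pi) Real.pi) :=
    measurableSet_Ioo.prod measurableSet_Ioo
  have hEq : ∀ q ∈ Ioo r1 r2 ×ˢ Ioo (-Real.pi) Real.pi,
      q.1 * f (pm q) = q.1 * W (p + q.1 * exp (q.2 * I)) := by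
    intro q hq
    have hq0 : 0 < q.1 := lt_of_le_of_lt hr1 hq.1.1
    have hmem : pm q + p ∈ ann p r1 r2 := by
      show r1 < ‖pm q + p - p‖ ∧ ‖pm q + p - p‖ < r2
      rw [add_sub_cancel_right, norm_pm hq0]
      exact hq.1
    simp only [hf]
    rw [indicator_of_mem hmem, add_comm]
    rfl
  have h0 : ∀ q ∈ St \ (Ioo r1 r2 ×ˢ Ioo (-Real.pi) Real.pi), q.1 * f (pm q) = 0 := by
    intro q hq
    have hq0 : 0 < q.1 := hq.1.1
    have hmem : pm q + p ∉ ann p r1 r2 := by
      intro h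
      have h' : r1 < ‖pm q + p - p‖ ∧ ‖pm q + p - p‖ < r2 := h
      rw [add_sub_cancel_right, norm_pm hq0] at h'
      exact hq.2 ⟨h', hq.1.2⟩
    simp only [hf, indicator_of_notMem hmem, mul_zero]
  have hR : IntegrableOn (fun q : ℝ × ℝ => q.1 * W (p + q.1 * exp (q.2 * I)))
      (Ioo r1 r2 ×ˢ Ioo (-Real.pi) Real.pi) :=
    (integrableOn_congr_fun hEq hRm).1 (hint.mono_set hsub)
  have hval2 : ∫ q in Ioo r1 r2 ×ˢ Ioo (-Real.pi) Real.pi,
      q.1 * W (p + q.1 * exp (q.2 * I)) = ∫ z in ann p r1 r2, W z := by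
    rw [← hval, ← setIntegral_congr_fun hRm hEq]
    exact (setIntegral_eq_of_subset_of_forall_sdiff_eq_zero meas_St hsub h0).symm
  have hprod : (volume : Measure (ℝ × ℝ)).restrict (Ioo r1 r2 ×ˢ Ioo (-Real.pi) Real.pi) =
      (volume.restrict (Ioo r1 r2)).prod (volume.restrict (Ioo (-Real.pi) Real.pi)) := by
    rw [Measure.prod_restrict]; rfl
  have hR' : Integrable (fun q : ℝ × ℝ => q.1 * W (p + q.1 * exp (q.2 * I)))
      ((volume.restrict (Ioo r1 r2)).prod (volume.restrict (Ioo (-Real.pi) Real.pi))) := by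
    rw [← hprod]; exact hR
  have hin : ∀ r : ℝ, ∫ φ in Ioo (-Real.pi) Real.pi, r * W (p + r * exp (φ * I)) =
      r * ∫ φ in (-Real.pi)..Real.pi, W (p + r * exp (φ * I)) := by
    intro r
    rw [intJ, integral_const_mul]
  refine ⟨hR, ?_, ?_, ?_⟩
  · have := hR'.integral_prod_left
    refine this.congr (Eventually.of_forall fun r => ?_)
    exact hin r
  · filter_upwards [hR'.prod_right_ae, ae_restrict_mem measurableSet_Ioo] with r hr hr2
    have hr0 : r ≠ 0 := (lt_of_le_of_lt hr1 hr2.1).ne'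
    have := hr.const_mul r⁻¹
    refine this.congr (Eventually.of_forall fun φ => ?_)
    show r⁻¹ * (r * W (p + r * exp (φ * I))) = _
    rw [← mul_assoc, inv_mul_cancel₀ hr0, one_mul]
  · rw [← hval2, hprod, integral_prod _ hR']
    exact integral_congr_ae (Eventually.of_forall fun r => hin r)

end

end Crest.Agent.R235.WKTool_460
end

-- ▼ part R235/WKDec_460
section

/-! # REG-CYL-2: DEC, uniform Morrey decay (hole filling) -/

set_option autoImplicit false

open MeasureTheory Metric Set Filter Complex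
open scoped Topology ContDiff ComplexConjugate

namespace Crest.Agent.R235.WKDec_460

open Crest.Agent.R235.WKG_460 Crest.Agent.R235.WKTool_460 Crest.Agent.R235.CylDec_734
open Crest.Agent.R235.KGL4_355 (intJ)

noncomputable section

/-- Cauchy-Schwarz on the circle. -/
theorem cs_circle {h e : ℝ → ℝ} {κ : ℝ} (hh : IntegrableOn h (Ioo (-Real.pi) Real.pi))
    (he : IntegrableOn e (Ioo (-Real.pi) Real.pi)) (hle : ∀ φ, h φ ^ 2 ≤ κ * e φ) :
    (∫ φ in (-Real.pi)..Real.pi, h φ) ^ 2 ≤ 2 * Real.pi * (κ * ∫ φ in (-Real.pi)..Real.pi, e φ) := by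
  rw [intJ, intJ]
  have hpi := Real.pi_pos
  set m : ℝ := (∫ φ in Ioo (-Real.pi) Real.pi, h φ) / (2 * Real.pi) with hm
  have hsq : IntegrableOn (fun φ => h φ ^ 2) (Ioo (-Real.pi) Real.pi) := by
    refine Integrable.mono' (he.const_mul κ) (hh.aestronglyMeasurable.pow 2) ?_
    refine Eventually.of_forall fun φ => ?_
    rw [Real.norm_eq_abs, abs_of_nonneg (sq_nonneg _)]
    exact hle φ
  have hvol : (volume (Ioo (-Real.pi) Real.pi)).toReal = 2 * Real.pi := by
    rw [Real.volume_Ioo, ENNReal.toReal_ofReal (by linarith)]; ring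
  have hconst : IntegrableOn (fun _ : ℝ => m ^ 2) (Ioo (-Real.pi) Real.pi) :=
    integrableOn_const (by simp) (by simp)
  have h0 : 0 ≤ ∫ φ in Ioo (-Real.pi) Real.pi, (h φ - m) ^ 2 :=
    integral_nonneg fun φ => sq_nonneg _
  have h1 : ∫ φ in Ioo (-Real.pi) Real.pi, (h φ - m) ^ 2 =
      (∫ φ in Ioo (-Real.pi) Real.pi, h φ ^ 2) - 2 * m * (∫ φ in Ioo (-Real.pi) Real.pi, h φ) +
        m ^ 2 * (2 * Real.pi) := by
    have e1 : (fun φ => (h φ - m) ^ 2) = fun φ => (h φ ^ 2 - 2 * m * h φ) + m ^ 2 := by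
      funext φ; ring
    have hsub : IntegrableOn (fun φ => h φ ^ 2 - 2 * m * h φ) (Ioo (-Real.pi) Real.pi) :=
      hsq.sub (hh.const_mul (2 * m))
    rw [e1, integral_add hsub hconst,
      integral_sub hsq (hh.const_mul (2 * m)), integral_const_mul, setIntegral_const,
      Measure.real, hvol, smul_eq_mul]
    ring
  have h2 : ∫ φ in Ioo (-Real.pi) Real.pi, h φ ^ 2 ≤ κ * ∫ φ in Ioo (-Real.pi) Real.pi, e φ := by
    rw [← integral_const_mul]
    exact integral_mono hsq (he.const_mul κ) hle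
  have h3 : (∫ φ in Ioo (-Real.pi) Real.pi, h φ) = 2 * Real.pi * m := by
    rw [hm]; field_simp
  rw [h1, h3] at h0
  rw [h3]
  nlinarith

section
variable {μ β : ℂ × ℂ → ℂ} {c : ℂ} {R : ℝ} {k : ℕ} {s : ℂ → Fin k → ℂ}
    {A : ℂ → Fin k → (ℂ →L[ℝ] ℂ)} {ma : Measure ℂ} {K c0 Mb : ℝ}

/-- the slice inequality. -/
theorem slice_ineq (hI : ISOP) (hB : BALL μ β c R k s A ma K c0 Mb)
    (hS : SLICE μ β c R k s A ma K c0 Mb) (hW : WKG μ β c R k s A ma K c0 Mb) :
    ∃ C : ℝ, 0 ≤ C ∧ ∀ (p : ℂ) (r1 : ℝ), ball p r1 ⊆ ball c R →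
      ∀ᵐ r : ℝ, 0 < r → r < r1 → (ma (ball p r)).toReal ≤
        C * (r * (c0 * (|r| * ∫ φ in (-Real.pi)..Real.pi,
          ∑ i, ‖A (p + r * exp (φ * I)) i‖ ^ 2)) + r ^ 2) := by
  obtain ⟨CI, hCI0, hCI⟩ := hI k
  have hc0 := hW.c0pos
  have hpi := Real.pi_pos
  have hK0 := hW.K0
  refine ⟨k * K * Real.pi + 1 / 2 * CI * (2 * Real.pi * k) / c0, by positivity, ?_⟩
  intro p r1 hsub
  have heint : IntegrableOn (fun z => ∑ i, ‖A z i‖ ^ 2) (ann p 0 r1) := by
    refine hW.eint.mono_set fun z hz => hsub ?_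
    rw [mem_ball, dist_eq_norm]; exact hz.2
  obtain ⟨-, -, hsl, -⟩ := polar_ann le_rfl heint
  have h1 := hB hW p r1 hsub
  have h2 := hS hW p r1 hsub
  rw [ae_restrict_iff' measurableSet_Ioo] at h1 h2 hsl
  filter_upwards [h1, h2, hsl] with r k1 k2 k3 hr hr1
  have hrI : r ∈ Ioo 0 r1 := ⟨hr, hr1⟩
  replace k1 := k1 hrI
  replace k2 := k2 hrI
  replace k3 := k3 hrI
  have k4 := hCI _ _ k2
  set E : ℝ := ∫ φ in (-Real.pi)..Real.pi, ∑ i, ‖A (p + r * exp (φ * I)) i‖ ^ 2 with hE
  set l : ℝ := ∫ φ in (-Real.pi)..Real.pi,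
    ∑ i, ‖A (p + r * exp (φ * I)) i (I * (r * exp (φ * I)))‖ with hl
  -- bound of l
  have hyi : ∀ i, IntegrableOn (fun φ : ℝ => ‖A (p + r * exp (φ * I)) i (I * (r * exp (φ * I)))‖)
      (Ioo (-Real.pi) Real.pi) := fun i => (k2.yint i).mono_set Ioo_subset_Ioc_self
  have hhi : IntegrableOn (fun φ : ℝ =>
      ∑ i, ‖A (p + r * exp (φ * I)) i (I * (r * exp (φ * I)))‖) (Ioo (-Real.pi) Real.pi) :=
    integrable_finsetSum _ fun i _ => hyi i
  have hle : ∀ φ : ℝ, (∑ i, ‖A (p + r * exp (φ * I)) i (I * (r * exp (φ * I)))‖) ^ 2 ≤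
      (k * r ^ 2) * ∑ i, ‖A (p + r * exp (φ * I)) i‖ ^ 2 := by
    intro φ
    have hn : ‖(I * (r * exp (φ * I)) : ℂ)‖ = r := by
      rw [norm_mul, norm_mul, norm_I, norm_exp_ofReal_mul_I]
      simp [abs_of_pos hr]
    have h5 : (∑ i, ‖A (p + r * exp (φ * I)) i (I * (r * exp (φ * I)))‖) ^ 2 ≤
        (Finset.univ : Finset (Fin k)).card *
          ∑ i, ‖A (p + r * exp (φ * I)) i (I * (r * exp (φ * I)))‖ ^ 2 :=
      sq_sum_le_card_mul_sum_sq
    refine h5.trans ?_
    rw [Finset.card_univ, Fintype.card_fin, mul_assoc]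
    refine mul_le_mul_of_nonneg_left ?_ (Nat.cast_nonneg _)
    rw [Finset.mul_sum]
    refine Finset.sum_le_sum fun i _ => ?_
    have h6 := (A (p + r * exp (φ * I)) i).le_opNorm (I * (r * exp (φ * I)))
    rw [hn] at h6
    calc ‖A (p + r * exp (φ * I)) i (I * (r * exp (φ * I)))‖ ^ 2
        ≤ (‖A (p + r * exp (φ * I)) i‖ * r) ^ 2 := by gcongr
      _ = r ^ 2 * ‖A (p + r * exp (φ * I)) i‖ ^ 2 := by ring
  have hl2 : l ^ 2 ≤ 2 * Real.pi * (k * r ^ 2 * E) := cs_circle hhi k3 hle
  have habs : |r| = r := abs_of_pos hr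
  rw [habs]
  have hE0 : 0 ≤ E := by
    rw [hE, intJ]
    exact integral_nonneg fun φ => Finset.sum_nonneg fun i _ => sq_nonneg _
  calc (ma (ball p r)).toReal ≤ k * K * Real.pi * r ^ 2 + 1 / 2 * (CI * l ^ 2) := by
        refine k1.trans ?_
        have := k4
        gcongr
    _ ≤ k * K * Real.pi * r ^ 2 + 1 / 2 * (CI * (2 * Real.pi * (k * r ^ 2 * E))) := by gcongr
    _ = k * K * Real.pi * r ^ 2 +
        1 / 2 * CI * (2 * Real.pi * k) / c0 * (r * (c0 * (r * E))) := by
        field_simp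
    _ ≤ (k * K * Real.pi + 1 / 2 * CI * (2 * Real.pi * k) / c0) *
        (r * (c0 * (r * E)) + r ^ 2) := by
        have h7 : 0 ≤ r * (c0 * (r * E)) := by positivity
        have h8 : 0 ≤ k * K * Real.pi * (r * (c0 * (r * E))) := by positivity
        have h9 : 0 ≤ 1 / 2 * CI * (2 * Real.pi * k) / c0 * r ^ 2 := by positivity
        nlinarith

theorem dec_of (hI : ISOP) (hB : BALL μ β c R k s A ma K c0 Mb)
    (hS : SLICE μ β c R k s A ma K c0 Mb) : DEC μ β c R k s A ma K c0 Mb := by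
  intro hW R' hR'
  obtain ⟨C, hC0, hC⟩ := slice_ineq hI hB hS hW
  have hc0 := hW.c0pos
  set r1 : ℝ := (R - R') / 2 with hr1
  have hr1p : 0 < r1 := by rw [hr1]; linarith
  have hsub : ∀ p ∈ closedBall c R', ball p r1 ⊆ ball c R := by
    intro p hp x hx
    rw [mem_ball] at hx ⊢
    rw [mem_closedBall] at hp
    calc dist x c ≤ dist x p + dist p c := dist_triangle _ _ _
      _ < r1 + R' := by linarith
      _ ≤ R := by rw [hr1]; linarith
  set Mt : ℝ := (ma (ball c R)).toReal with hMt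
  have hfin : ∀ V ⊆ ball c R, ma V ≠ ⊤ := fun V hV =>
    ne_top_of_le_ne_top hW.mfin (measure_mono hV)
  have hMt0 : 0 ≤ Mt := ENNReal.toReal_nonneg
  set e : ℂ → ℝ := fun z => ∑ i, ‖A z i‖ ^ 2 with he
  have he0 : ∀ z, 0 ≤ e z := fun z => Finset.sum_nonneg fun i _ => sq_nonneg _
  have hγ0 := gam_pos hC0
  have hγ1 := gam_le (C := C)
  have main : ∀ p ∈ closedBall c R', ∀ r, 0 < r → r ≤ r1 →
      (ma (ball p r)).toReal ≤ 2 * (Mt + 2 * r1 ^ 2) * (r / r1) ^ gam C := by
    intro p hp r hr hrr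
    have hs := hsub p hp
    have hbs : ∀ t, t ≤ r1 → ball p t ⊆ ball c R := fun t ht => (ball_subset_ball ht).trans hs
    set g : ℝ → ℝ := fun t => c0 * (|t| * ∫ φ in (-Real.pi)..Real.pi, e (p + t * exp (φ * I)))
      with hg
    have hE0 : ∀ t : ℝ, 0 ≤ ∫ φ in (-Real.pi)..Real.pi, e (p + t * exp (φ * I)) := by
      intro t
      rw [intJ]; exact integral_nonneg fun φ => he0 _
    have hannS : ∀ t, 0 < t → 2 * t ≤ r1 → ann p t (2 * t) ⊆ ball c R := by
      intro t ht h2t z hz
      refine hbs (2 * t) h2t ?_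
      rw [mem_ball, dist_eq_norm]; exact hz.2
    have hpol : ∀ t, 0 < t → 2 * t ≤ r1 → _ := fun t ht h2t =>
      polar_ann (W := e) (p := p) (r1 := t) (r2 := 2 * t) ht.le
        (hW.eint.mono_set (hannS t ht h2t))
    have hgeq : ∀ t, 0 < t → ∀ x ∈ Ioo t (2 * t), g x =
        c0 * (x * ∫ φ in (-Real.pi)..Real.pi, e (p + x * exp (φ * I))) := by
      intro t ht x hx
      have hx0 : 0 < x := ht.trans hx.1
      rw [hg]; simp only [abs_of_pos hx0]
    have hgI : ∀ t, 0 < t → 2 * t ≤ r1 → IntegrableOn g (Ioo t (2 * t)) := by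
      intro t ht h2t
      refine (integrableOn_congr_fun (hgeq t ht) measurableSet_Ioo).2 ?_
      exact (hpol t ht h2t).2.1.const_mul c0
    have hdec := decay (a := fun t => (ma (ball p t)).toReal) (g := g) hC0 hr1p
      (fun t _ _ => ENNReal.toReal_nonneg)
      (fun t u ht htu hu => ENNReal.toReal_mono (hfin _ (hbs u hu))
        (measure_mono (ball_subset_ball htu)))
      (fun t => by rw [hg]; have := hE0 t; positivity)
      (fun t ht h2t => by
        rw [intervalIntegrable_iff_integrableOn_Ioo_of_le (by linarith)]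
        exact hgI t ht h2t)
      (fun t ht h2t => by
        rw [intervalIntegral.integral_of_le (by linarith), integral_Ioc_eq_integral_Ioo,
          setIntegral_congr_fun measurableSet_Ioo (hgeq t ht), integral_const_mul,
          ← (hpol t ht h2t).2.2.2]
        have hsA := hannS t ht h2t
        have hAm : MeasurableSet (ann p t (2 * t)) := (isOpen_ann _ _ _).measurableSet
        have hint := hW.eint.mono_set hsA
        have h1 : ∫ z in ann p t (2 * t), e z ≤ ∫ z in ann p t (2 * t), (1 + e z) := by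
          have hv : volume (ann p t (2 * t)) ≠ ⊤ :=
            ne_top_of_le_ne_top (measure_ball_lt_top (x := c) (r := R)).ne (measure_mono hsA)
          have h1i : IntegrableOn (fun _ : ℂ => (1 : ℝ)) (ann p t (2 * t)) :=
            integrableOn_const hv (by simp)
          exact integral_mono hint (h1i.add hint) fun z => by simp
        have h2 := hW.e1 _ hsA hAm
        have h3 : (ma (ann p t (2 * t))).toReal ≤
            (ma (ball p (2 * t))).toReal - (ma (ball p t)).toReal := by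
          have hd : Disjoint (ball p t) (ann p t (2 * t)) := by
            rw [Set.disjoint_left]
            intro z hz hz2
            rw [mem_ball, dist_eq_norm] at hz
            exact absurd hz2.1 (not_lt.2 hz.le)
          have hu : ball p t ∪ ann p t (2 * t) ⊆ ball p (2 * t) := by
            refine union_subset (ball_subset_ball (by linarith)) fun z hz => ?_
            rw [mem_ball, dist_eq_norm]; exact hz.2
          have h4 := measure_mono (μ := ma) hu
          rw [measure_union hd hAm] at h4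
          have hf1 := hfin _ (hbs t (by linarith))
          have hf2 := hfin _ hsA
          have h5 := ENNReal.toReal_mono (hfin _ (hbs (2 * t) h2t)) h4
          rw [ENNReal.toReal_add hf1 hf2] at h5
          linarith
        have h6 : c0 * ∫ z in ann p t (2 * t), e z ≤ c0 * ∫ z in ann p t (2 * t), (1 + e z) := by
          gcongr
        linarith)
      (hC p r1 hs) r hr hrr
    refine hdec.trans ?_
    have h8 : (ma (ball p r1)).toReal ≤ Mt :=
      ENNReal.toReal_mono hW.mfin (measure_mono hs)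
    gcongr
  -- output
  set Cc : ℝ := 2 * (Mt + 2 * r1 ^ 2) * (2 / r1) ^ gam C with hCc
  have hCc0 : 0 ≤ Cc := by positivity
  refine ⟨Cc * (1 + 1 / c0), gam C / 2, r1 / 2, by positivity, by positivity, by linarith,
    by positivity, by rw [hr1]; linarith, ?_⟩
  intro p hp r hr hrr
  have hb2 : 2 * (gam C / 2) = gam C := by ring
  rw [hb2]
  have hm2 := main p hp (2 * r) (by linarith) (by linarith)
  have he2 : (2 * r / r1) ^ gam C = (2 / r1) ^ gam C * r ^ gam C := by
    rw [← Real.mul_rpow (by positivity) hr.le]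
    congr 1; ring
  rw [he2] at hm2
  have hm3 : (ma (ball p (2 * r))).toReal ≤ Cc * r ^ gam C := by
    rw [hCc]; linarith
  have hrg : 0 ≤ r ^ gam C := by positivity
  have hbs : ball p (2 * r) ⊆ ball c R :=
    (ball_subset_ball (by linarith)).trans (hsub p hp)
  have hcb : closedBall p r ⊆ ball p (2 * r) := closedBall_subset_ball (by linarith)
  have hbb : ball p r ⊆ ball p (2 * r) := ball_subset_ball (by linarith)
  constructor
  · have h1 : (ma (closedBall p r)).toReal ≤ (ma (ball p (2 * r))).toReal :=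
      ENNReal.toReal_mono (hfin _ hbs) (measure_mono hcb)
    have h2 : Cc * r ^ gam C ≤ Cc * (1 + 1 / c0) * r ^ gam C := by
      have : 0 ≤ Cc * (1 / c0) * r ^ gam C := by positivity
      nlinarith
    linarith
  · have h1 := hW.e1 (ball p r) (hbb.trans hbs) measurableSet_ball
    have h2 : (ma (ball p r)).toReal ≤ (ma (ball p (2 * r))).toReal :=
      ENNReal.toReal_mono (hfin _ hbs) (measure_mono hbb)
    have hint := hW.eint.mono_set (hbb.trans hbs)
    have h3 : ∫ z in ball p r, e z ≤ ∫ z in ball p r, (1 + e z) := by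
      have h1i : IntegrableOn (fun _ : ℂ => (1 : ℝ)) (ball p r) :=
        integrableOn_const (measure_ball_lt_top).ne (by simp)
      exact integral_mono hint (h1i.add hint) fun z => by simp
    have h4 : c0 * ∫ z in ball p r, e z ≤ Cc * r ^ gam C := by
      have : c0 * ∫ z in ball p r, e z ≤ c0 * ∫ z in ball p r, (1 + e z) := by gcongr
      linarith
    have h5 : ∫ z in ball p r, e z ≤ 1 / c0 * (Cc * r ^ gam C) := by
      rw [one_div, inv_mul_eq_div, le_div_iff₀ hc0]; linarith
    have h6 : 1 / c0 * (Cc * r ^ gam C) ≤ Cc * (1 + 1 / c0) * r ^ gam C := by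
      have : 0 ≤ Cc * r ^ gam C := by positivity
      nlinarith
    exact h5.trans h6

end

end

end Crest.Agent.R235.WKDec_460
end

-- ▼ part R235/WKHrep_460
section

/-! # REG-CYL-2: HREP, the Hoelder representative -/

set_option autoImplicit false

open MeasureTheory Metric Set Filter Complex
open scoped Topology ContDiff ComplexConjugate

namespace Crest.Agent.R235.WKHrep_460

open Crest.Agent.R235.Loc Crest.Agent.R235.WKG_460 Crest.Agent.R235.CylExt_463

noncomputable section

section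
variable {μ β : ℂ × ℂ → ℂ} {c : ℂ} {R : ℝ} {k : ℕ} {s : ℂ → Fin k → ℂ}
    {A : ℂ → Fin k → (ℂ →L[ℝ] ℂ)} {ma : Measure ℂ} {K c0 Mb : ℝ}

/-- the fibre sum -/
def FF (s : ℂ → Fin k → ℂ) (Ψ : ℂ → ℝ) (t : ℂ) : ℝ := ∑ i, Ψ (s t i)

/-- its gradient -/
def GG (s : ℂ → Fin k → ℂ) (A : ℂ → Fin k → (ℂ →L[ℝ] ℂ)) (Ψ : ℂ → ℝ) (t : ℂ) : ℂ →L[ℝ] ℝ :=
  ∑ i, (fderiv ℝ Ψ (s t i)).comp (A t i)

theorem FF_meas (hW : WKG μ β c R k s A ma K c0 Mb) {Ψ : ℂ → ℝ} (hΨ : Continuous Ψ) :
    Measurable (FF s Ψ) :=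
  Finset.measurable_fun_sum _ fun i _ => hΨ.measurable.comp (hW.smeas i)

theorem GG_meas (hW : WKG μ β c R k s A ma K c0 Mb) {Ψ : ℂ → ℝ} (hΨ : ContDiff ℝ ∞ Ψ) :
    Measurable (GG s A Ψ) := by
  refine Finset.measurable_fun_sum _ fun i _ => ?_
  have h1 : Continuous (fun q : (ℂ →L[ℝ] ℝ) × (ℂ →L[ℝ] ℂ) => q.1.comp q.2) :=
    continuous_fst.clm_comp continuous_snd
  have h2 : Continuous (fderiv ℝ Ψ) := hΨ.continuous_fderiv (by simp)
  exact h1.measurable.comp ((h2.measurable.comp (hW.smeas i)).prodMk (hW.Ameas i))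

theorem FF_bdd (hW : WKG μ β c R k s A ma K c0 Mb) {Ψ : ℂ → ℝ} (hΨ : Continuous Ψ) :
    ∃ M, ∀ t, |FF s Ψ t| ≤ M := by
  obtain ⟨C, hC⟩ := (isCompact_closedBall (0 : ℂ) Mb).exists_bound_of_continuousOn
    (f := Ψ) hΨ.continuousOn
  refine ⟨k * C, fun t => ?_⟩
  unfold FF
  refine (Finset.abs_sum_le_sum_abs _ _).trans ?_
  calc ∑ i, |Ψ (s t i)| ≤ ∑ _i : Fin k, C := Finset.sum_le_sum fun i _ =>
        hC _ (by simpa using hW.bdd t i)
    _ = k * C := by simp

theorem GG_le (hW : WKG μ β c R k s A ma K c0 Mb) {Ψ : ℂ → ℝ} {L : ℝ} (_hL0 : 0 ≤ L)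
    (hL : ∀ w ∈ closedBall (0 : ℂ) Mb, ‖fderiv ℝ Ψ w‖ ≤ L) (t : ℂ) :
    ‖GG s A Ψ t‖ ^ 2 ≤ L ^ 2 * (k * ∑ i, ‖A t i‖ ^ 2) := by
  have h1 : ‖GG s A Ψ t‖ ≤ ∑ i, L * ‖A t i‖ := by
    unfold GG
    refine (norm_sum_le _ _).trans (Finset.sum_le_sum fun i _ => ?_)
    refine (ContinuousLinearMap.opNorm_comp_le _ _).trans ?_
    have := hL (s t i) (by simpa using hW.bdd t i)
    gcongr
  have h2 : (∑ i, ‖A t i‖) ^ 2 ≤ (Finset.univ : Finset (Fin k)).card * ∑ i, ‖A t i‖ ^ 2 :=
    sq_sum_le_card_mul_sum_sq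
  rw [Finset.card_univ, Fintype.card_fin] at h2
  rw [← Finset.mul_sum] at h1
  calc ‖GG s A Ψ t‖ ^ 2 ≤ (L * ∑ i, ‖A t i‖) ^ 2 := by gcongr
    _ = L ^ 2 * (∑ i, ‖A t i‖) ^ 2 := by ring
    _ ≤ L ^ 2 * (k * ∑ i, ‖A t i‖ ^ 2) := by gcongr

theorem GG_sq_int (hW : WKG μ β c R k s A ma K c0 Mb) {Ψ : ℂ → ℝ} (hΨ : ContDiff ℝ ∞ Ψ) :
    IntegrableOn (fun t => ‖GG s A Ψ t‖ ^ 2) (ball c R) := by
  have h2 : Continuous (fderiv ℝ Ψ) := hΨ.continuous_fderiv (by simp)
  obtain ⟨C, hC⟩ := (isCompact_closedBall (0 : ℂ) Mb).exists_bound_of_continuousOn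
    (f := fderiv ℝ Ψ) h2.continuousOn
  have h3 := (hW.eint.const_mul (k : ℝ)).const_mul ((max C 0) ^ 2)
  refine Integrable.mono' h3 ((GG_meas hW hΨ).norm.pow_const 2).aestronglyMeasurable ?_
  refine Eventually.of_forall fun t => ?_
  rw [Real.norm_eq_abs, abs_of_nonneg (sq_nonneg _)]
  exact GG_le hW (le_max_right _ _) (fun w hw => (hC w hw).trans (le_max_left _ _)) t

theorem GG_int (hW : WKG μ β c R k s A ma K c0 Mb) {Ψ : ℂ → ℝ} (hΨ : ContDiff ℝ ∞ Ψ) :
    IntegrableOn (fun t => ‖GG s A Ψ t‖) (ball c R) := by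
  have h1 : IntegrableOn (fun _ : ℂ => (1 : ℝ)) (ball c R) :=
    integrableOn_const (measure_ball_lt_top).ne (by simp)
  refine Integrable.mono' (h1.add (GG_sq_int hW hΨ))
    (GG_meas hW hΨ).norm.aestronglyMeasurable ?_
  refine Eventually.of_forall fun t => ?_
  rw [Real.norm_eq_abs, abs_of_nonneg (norm_nonneg _)]
  show ‖GG s A Ψ t‖ ≤ 1 + ‖GG s A Ψ t‖ ^ 2
  nlinarith [sq_nonneg (‖GG s A Ψ t‖ - 1)]

theorem weak1_of (hW : WKG μ β c R k s A ma K c0 Mb) {Ψ : ℂ → ℝ} (hΨ : ContDiff ℝ ∞ Ψ) :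
    Weak1 (ball c R) (FF s Ψ) (GG s A Ψ) := by
  intro f hf hfc hfs u hu
  have hT : Test (ball c R) (fun q : ℂ × ℂ => f q.1 * Ψ q.2) := by
    refine ⟨(hf.comp contDiff_fst).mul (hΨ.comp contDiff_snd), tsupport f, hfs, hfc, ?_⟩
    intro t ht w
    simp [image_eq_zero_of_notMem_tsupport ht]
  have h1 := hW.weak _ hT u hu
  have hfd : Differentiable ℝ f := hf.differentiable (by simp)
  have hΨd : Differentiable ℝ Ψ := hΨ.differentiable (by simp)
  have h2 : ∀ t, ∑ i, fderiv ℝ (fun q : ℂ × ℂ => f q.1 * Ψ q.2) (t, s t i) (u, A t i u) =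
      fderiv ℝ f t u * FF s Ψ t + f t * GG s A Ψ t u := by
    intro t
    have h3 : ∀ i, fderiv ℝ (fun q : ℂ × ℂ => f q.1 * Ψ q.2) (t, s t i) (u, A t i u) =
        fderiv ℝ f t u * Ψ (s t i) + f t * fderiv ℝ Ψ (s t i) (A t i u) := by
      intro i
      have e1 : HasFDerivAt (fun q : ℂ × ℂ => f q.1)
          ((fderiv ℝ f t).comp (ContinuousLinearMap.fst ℝ ℂ ℂ)) (t, s t i) :=
        (hfd t).hasFDerivAt.comp (t, s t i) hasFDerivAt_fst
      have e2 : HasFDerivAt (fun q : ℂ × ℂ => Ψ q.2)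
          ((fderiv ℝ Ψ (s t i)).comp (ContinuousLinearMap.snd ℝ ℂ ℂ)) (t, s t i) :=
        (hΨd (s t i)).hasFDerivAt.comp (t, s t i) hasFDerivAt_snd
      have e3 := (e1.mul e2).fderiv
      have e4 : fderiv ℝ (fun q : ℂ × ℂ => f q.1 * Ψ q.2) (t, s t i) = _ := e3
      rw [e4]
      simp only [_root_.add_apply, _root_.smul_apply, ContinuousLinearMap.comp_apply,
        ContinuousLinearMap.coe_fst', ContinuousLinearMap.coe_snd', smul_eq_mul]
      ring
    rw [Finset.sum_congr rfl fun i _ => h3 i, Finset.sum_add_distrib, ← Finset.mul_sum,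
      ← Finset.mul_sum]
    congr 1
    simp only [GG, _root_.sum_apply, ContinuousLinearMap.comp_apply]
  simp only [h2] at h1
  have hfu : Continuous (fun t => fderiv ℝ f t u) :=
    (hf.continuous_fderiv (by simp)).clm_apply continuous_const
  obtain ⟨Cf, hCf⟩ := hf.continuous.bounded_above_of_compact_support hfc
  obtain ⟨Cu, hCu⟩ : ∃ C, ∀ t, ‖fderiv ℝ f t‖ ≤ C :=
    (hf.continuous_fderiv (by simp)).bounded_above_of_compact_support (hfc.fderiv (𝕜 := ℝ))
  obtain ⟨M, hM⟩ := FF_bdd hW hΨ.continuous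
  have i1 : IntegrableOn (fun t => fderiv ℝ f t u * FF s Ψ t) (ball c R) := by
    have h3 : IntegrableOn (fun _ : ℂ => Cu * ‖u‖ * M) (ball c R) :=
      integrableOn_const (measure_ball_lt_top).ne enorm_ne_top
    refine Integrable.mono' h3
      ((hfu.measurable.mul (FF_meas hW hΨ.continuous)).aestronglyMeasurable)
      (Eventually.of_forall fun t => ?_)
    rw [norm_mul]
    have e1 : ‖fderiv ℝ f t u‖ ≤ Cu * ‖u‖ :=
      ((fderiv ℝ f t).le_opNorm u).trans (by have := hCu t; gcongr)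
    have e2 : ‖FF s Ψ t‖ ≤ M := hM t
    have : 0 ≤ Cu * ‖u‖ := (norm_nonneg _).trans e1
    exact mul_le_mul e1 e2 (norm_nonneg _) this
  have hGu : Measurable (fun t => GG s A Ψ t u) :=
    (ContinuousLinearMap.apply ℝ ℝ u).continuous.measurable.comp (GG_meas hW hΨ)
  have i2 : IntegrableOn (fun t => f t * GG s A Ψ t u) (ball c R) := by
    refine Integrable.mono' ((GG_int hW hΨ).const_mul (Cf * ‖u‖))
      ((hf.continuous.measurable.mul hGu).aestronglyMeasurable)
      (Eventually.of_forall fun t => ?_)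
    rw [norm_mul]
    have e1 : ‖GG s A Ψ t u‖ ≤ ‖GG s A Ψ t‖ * ‖u‖ := (GG s A Ψ t).le_opNorm u
    have e2 := hCf t
    have e3 : 0 ≤ Cf := (norm_nonneg _).trans e2
    calc ‖f t‖ * ‖GG s A Ψ t u‖ ≤ Cf * (‖GG s A Ψ t‖ * ‖u‖) := by gcongr
      _ = Cf * ‖u‖ * ‖GG s A Ψ t‖ := by ring
  rw [integral_add i1 i2] at h1
  linarith

/-- the Kantorovich bound at almost every pair, for all test functions. -/
theorem kanto (hSep : SEP) (hM : MORREY) (hW : WKG μ β c R k s A ma K c0 Mb) {R' r0 b C : ℝ}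
    (hR' : 0 < R') (hr0 : 0 < r0) (hRr : R' + r0 ≤ R) (hb : 0 < b) (hb1 : b < 1) (hC : 0 ≤ C)
    (hdec : ∀ p ∈ ball c R', ∀ r : ℝ, 0 < r → r ≤ r0 →
      ∫ z in ball p r, ∑ i, ‖A z i‖ ^ 2 ≤ C * r ^ (2 * b)) :
    ∃ C' : ℝ, 0 < C' ∧ ∀ᵐ x : ℂ ∂(volume.restrict (ball c R')),
      ∀ᵐ y : ℂ ∂(volume.restrict (ball c R')), dist x y < r0 / 4 →
      ∀ Ψ : ℂ → ℝ, ContDiff ℝ ∞ Ψ → (∀ w, ‖fderiv ℝ Ψ w‖ ≤ 1) →
        |∑ i, Ψ (s x i) - ∑ i, Ψ (s y i)| ≤ C' * dist x y ^ b := by
  obtain ⟨CM, hCM0, hCM⟩ := hM b hb hb1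
  obtain ⟨Ψ, hΨs, hΨd⟩ := hSep Mb
  set D0 : ℝ := CM * Real.sqrt (k * C) with hD0
  have hD00 : 0 ≤ D0 := by positivity
  refine ⟨D0 + 1, by linarith, ?_⟩
  -- countable statement
  have hcount : ∀ (n : ℕ) (q : ℚ), (∀ w ∈ closedBall (0 : ℂ) Mb, ‖fderiv ℝ (Ψ n) w‖ ≤ (q : ℝ)) →
      0 ≤ (q : ℝ) → ∀ᵐ x : ℂ ∂(volume.restrict (ball c R')),
        ∀ᵐ y : ℂ ∂(volume.restrict (ball c R')), dist x y < r0 / 4 →
          |FF s (Ψ n) x - FF s (Ψ n) y| ≤ CM * (q * Real.sqrt (k * C)) * dist x y ^ b := by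
    intro n q hq hq0
    obtain ⟨Mf, hMf⟩ := FF_bdd hW (hΨs n).continuous
    refine hCM c R R' r0 (q * Real.sqrt (k * C)) Mf _ (GG s A (Ψ n)) hR' hr0 hRr (by positivity)
      (FF_meas hW (hΨs n).continuous) (GG_meas hW (hΨs n)) hMf (GG_sq_int hW (hΨs n))
      (weak1_of hW (hΨs n)) ?_
    intro p hp r hr hrr
    have hsub : ball p r ⊆ ball c R := by
      intro x hx
      rw [mem_ball] at hx hp ⊢
      calc dist x c ≤ dist x p + dist p c := dist_triangle _ _ _
        _ < R := by linarith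
    have e1 : ∫ z in ball p r, ‖GG s A (Ψ n) z‖ ^ 2 ≤
        ∫ z in ball p r, (q : ℝ) ^ 2 * (k * ∑ i, ‖A z i‖ ^ 2) := by
      refine integral_mono ((GG_sq_int hW (hΨs n)).mono_set hsub)
        (((hW.eint.mono_set hsub).const_mul (k : ℝ)).const_mul _) fun z => ?_
      exact GG_le hW hq0 hq z
    rw [integral_const_mul, integral_const_mul] at e1
    have e2 := hdec p hp r hr hrr
    have e3 : 0 ≤ k * C := by positivity
    calc ∫ z in ball p r, ‖GG s A (Ψ n) z‖ ^ 2
        ≤ (q : ℝ) ^ 2 * (k * ∫ z in ball p r, ∑ i, ‖A z i‖ ^ 2) := e1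
      _ ≤ (q : ℝ) ^ 2 * (k * (C * r ^ (2 * b))) := by gcongr
      _ = (q * Real.sqrt (k * C)) ^ 2 * r ^ (2 * b) := by
          rw [mul_pow, Real.sq_sqrt e3]; ring
  have hall : ∀ᵐ x : ℂ ∂(volume.restrict (ball c R')),
      ∀ᵐ y : ℂ ∂(volume.restrict (ball c R')), ∀ (n : ℕ) (q : ℚ),
        (∀ w ∈ closedBall (0 : ℂ) Mb, ‖fderiv ℝ (Ψ n) w‖ ≤ (q : ℝ)) → 0 ≤ (q : ℝ) →
        dist x y < r0 / 4 →
          |FF s (Ψ n) x - FF s (Ψ n) y| ≤ CM * (q * Real.sqrt (k * C)) * dist x y ^ b := by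
    have h1 : ∀ᵐ x : ℂ ∂(volume.restrict (ball c R')), ∀ (n : ℕ) (q : ℚ),
        (∀ w ∈ closedBall (0 : ℂ) Mb, ‖fderiv ℝ (Ψ n) w‖ ≤ (q : ℝ)) → 0 ≤ (q : ℝ) →
        ∀ᵐ y : ℂ ∂(volume.restrict (ball c R')), dist x y < r0 / 4 →
          |FF s (Ψ n) x - FF s (Ψ n) y| ≤ CM * (q * Real.sqrt (k * C)) * dist x y ^ b := by
      rw [ae_all_iff]; intro n
      rw [ae_all_iff]; intro q
      by_cases h : (∀ w ∈ closedBall (0 : ℂ) Mb, ‖fderiv ℝ (Ψ n) w‖ ≤ (q : ℝ)) ∧ 0 ≤ (q : ℝ)
      · filter_upwards [hcount n q h.1 h.2] with x hx _ _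
        exact hx
      · exact Eventually.of_forall fun x h1 h2 => absurd ⟨h1, h2⟩ h
    filter_upwards [h1] with x hx
    rw [ae_all_iff]; intro n
    rw [ae_all_iff]; intro q
    by_cases h : (∀ w ∈ closedBall (0 : ℂ) Mb, ‖fderiv ℝ (Ψ n) w‖ ≤ (q : ℝ)) ∧ 0 ≤ (q : ℝ)
    · filter_upwards [hx n q h.1 h.2] with y hy _ _
      exact hy
    · exact Eventually.of_forall fun x h1 h2 => absurd ⟨h1, h2⟩ h
  filter_upwards [hall] with x hx
  filter_upwards [hx] with y hy hxy Φ hΦ hΦ1
  have hd0 : 0 ≤ dist x y ^ b := by positivity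
  -- approximation
  have happ : ∀ ε : ℝ, 0 < ε → |∑ i, Φ (s x i) - ∑ i, Φ (s y i)| ≤
      D0 * dist x y ^ b + ε * (2 * k + 2 * D0 * dist x y ^ b) := by
    intro ε hε
    obtain ⟨n, hn⟩ := hΨd Φ hΦ ε hε
    obtain ⟨q, hq1, hq2⟩ := exists_rat_btwn (show 1 + ε < 1 + 2 * ε by linarith)
    have h1 : ∀ w ∈ closedBall (0 : ℂ) Mb, ‖fderiv ℝ (Ψ n) w‖ ≤ (q : ℝ) := by
      intro w hw
      have h2 := (hn w hw).2
      have h3 : ‖fderiv ℝ (Ψ n) w‖ ≤ ‖fderiv ℝ Φ w‖ + ‖fderiv ℝ Φ w - fderiv ℝ (Ψ n) w‖ := by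
        have := norm_sub_norm_le (fderiv ℝ (Ψ n) w) (fderiv ℝ Φ w)
        rw [norm_sub_rev] at this
        linarith
      have := hΦ1 w
      linarith
    have h4 := hy n q h1 (by linarith) hxy
    have h5 : ∀ t, |∑ i, Φ (s t i) - FF s (Ψ n) t| ≤ k * ε := by
      intro t
      unfold FF
      rw [← Finset.sum_sub_distrib]
      refine (Finset.abs_sum_le_sum_abs _ _).trans ?_
      calc ∑ i, |Φ (s t i) - Ψ n (s t i)| ≤ ∑ _i : Fin k, ε := Finset.sum_le_sum fun i _ =>
            (hn _ (by simpa using hW.bdd t i)).1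
        _ = k * ε := by simp
    have h6 : |∑ i, Φ (s x i) - ∑ i, Φ (s y i)| ≤ |∑ i, Φ (s x i) - FF s (Ψ n) x| +
        |FF s (Ψ n) x - FF s (Ψ n) y| + |∑ i, Φ (s y i) - FF s (Ψ n) y| := by
      have e1 : ∑ i, Φ (s x i) - ∑ i, Φ (s y i) = (∑ i, Φ (s x i) - FF s (Ψ n) x) +
        (FF s (Ψ n) x - FF s (Ψ n) y) - (∑ i, Φ (s y i) - FF s (Ψ n) y) := by ring
      rw [e1]
      exact (abs_sub _ _).trans (add_le_add (abs_add_le _ _) le_rfl)
    have h7 : CM * (q * Real.sqrt (k * C)) * dist x y ^ b ≤ (1 + 2 * ε) * D0 * dist x y ^ b := by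
      rw [hD0]
      have : CM * (q * Real.sqrt (k * C)) = q * (CM * Real.sqrt (k * C)) := by ring
      rw [this]
      have e2 : (0 : ℝ) ≤ CM * Real.sqrt (k * C) := hD00
      gcongr
    have := h5 x
    have := h5 y
    nlinarith
  have hlim : |∑ i, Φ (s x i) - ∑ i, Φ (s y i)| ≤ D0 * dist x y ^ b := by
    refine le_of_forall_pos_le_add fun δ hδ => ?_
    set B : ℝ := 2 * k + 2 * D0 * dist x y ^ b with hB
    have hB0 : 0 ≤ B := by positivity
    have h1 := happ (δ / (B + 1)) (by positivity)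
    have h2 : δ / (B + 1) * B ≤ δ := by
      rw [div_mul_eq_mul_div, div_le_iff₀ (by linarith)]
      nlinarith
    linarith
  refine hlim.trans ?_
  have : D0 ≤ D0 + 1 := by linarith
  gcongr

/-- HREP from SEP, HALL, MORREY and the decay. -/
theorem hrep_of (hSep : SEP) (hH : HALL) (hM : MORREY) (hdec : DEC μ β c R k s A ma K c0 Mb) :
    HREP μ β c R k s A ma K c0 Mb := by
  intro hW R' hR'
  by_cases hR'0 : R' ≤ 0
  · refine ⟨0, 1 / 2, 1, s, le_rfl, by norm_num, by norm_num, by norm_num, ?_, ?_⟩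
    · rw [ball_eq_empty.2 hR'0]; simp
    · rw [ball_eq_empty.2 hR'0]; simp
  push Not at hR'0
  set R2 : ℝ := (R + R') / 2 with hR2
  have hR2R : R2 < R := by rw [hR2]; linarith
  have hR'2 : R' < R2 := by rw [hR2]; linarith
  obtain ⟨C, b, r0, hC, hb, hb1, hr0, hRr, hd⟩ := hdec hW R2 hR2R
  obtain ⟨C', hC', hk⟩ := kanto hSep hM hW (R' := R2) (by linarith) hr0 hRr.le hb hb1 hC
    (fun p hp r hr hrr => (hd p (ball_subset_closedBall hp) r hr hrr).2)
  obtain ⟨Ck, hCk, hHk⟩ := hH k
  set W : ℂ → Multiset ℂ := fun x => Multiset.map (s x) Finset.univ.val with hWd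
  have hWcard : ∀ x, (W x).card = k := fun x => by simp [hWd]
  set H : ℝ := Ck * C' with hHdef
  have hH0 : 0 ≤ H := by positivity
  -- good pairs
  have hgood : ∀ᵐ x : ℂ ∂(volume.restrict (ball c R2)), ∀ᵐ y : ℂ ∂(volume.restrict (ball c R2)),
      dist x y < r0 / 4 → Close (H * dist x y ^ b) (W x) (W y) := by
    filter_upwards [hk] with x hx
    filter_upwards [hx] with y hy hxy
    by_cases hxy0 : dist x y = 0
    · have : x = y := dist_eq_zero.1 hxy0
      rw [this]
      exact close_refl (by positivity) _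
    · have hpos : 0 < dist x y := lt_of_le_of_ne dist_nonneg (Ne.symm hxy0)
      have hε : 0 < C' * dist x y ^ b := by positivity
      obtain ⟨τ, hτ⟩ := hHk (s x) (s y) _ hε (hy hxy)
      rw [hWd]
      refine close_iff_perm.2 ⟨τ, fun i => ?_⟩
      rw [dist_eq_norm]
      exact (hτ i).trans (by rw [hHdef]; linarith)
  set G : Set ℂ := {x | x ∈ ball c R2 ∧ ∀ᵐ y : ℂ ∂(volume.restrict (ball c R2)),
      dist x y < r0 / 4 → Close (H * dist x y ^ b) (W x) (W y)} with hG
  have hGnull : volume (ball c R2 \ G) = 0 := by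
    rw [ae_restrict_iff' measurableSet_ball] at hgood
    rw [measure_eq_zero_iff_ae_notMem]
    filter_upwards [hgood] with x hx hxm
    exact hxm.2 ⟨hxm.1, hx hxm.1⟩
  have hGG : ∀ x ∈ G, ∀ y ∈ G, dist x y < r0 / 8 → Close (H * dist x y ^ b) (W x) (W y) := by
    intro x hx y hy hxy
    refine close_of_forall_gt fun δ hδ => ?_
    -- choose z near y
    have hcont : Tendsto (fun z : ℂ => H * dist x z ^ b + H * dist y z ^ b) (𝓝 y)
        (𝓝 (H * dist x y ^ b)) := by
      have h1 : Continuous (fun z : ℂ => H * dist x z ^ b + H * dist y z ^ b) := by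
        have hr : Continuous (fun t : ℝ => t ^ b) := Real.continuous_rpow_const hb.le
        exact (continuous_const.mul (hr.comp (continuous_const.dist continuous_id))).add
          (continuous_const.mul (hr.comp (continuous_const.dist continuous_id)))
      have h2 := h1.tendsto y
      simpa [Real.zero_rpow hb.ne'] using h2
    have hev : ∀ᶠ z in 𝓝 y, H * dist x z ^ b + H * dist y z ^ b < δ ∧ z ∈ ball c R2 ∧
        z ∈ ball y (r0 / 8) :=
      (hcont.eventually_lt_const hδ).and (Filter.Eventually.and (isOpen_ball.mem_nhds hy.1)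
        (ball_mem_nhds y (by linarith)))
    obtain ⟨η, hη, hball⟩ := Metric.eventually_nhds_iff_ball.1 hev
    have hx2 := hx.2
    have hy2 := hy.2
    have hboth := hx2.and hy2
    rw [ae_restrict_iff' measurableSet_ball] at hboth
    have hpos : 0 < volume (ball y η) := measure_ball_pos _ _ hη
    obtain ⟨z, hz1, hz2⟩ : ∃ z ∈ ball y η, z ∈ ball c R2 →
        (dist x z < r0 / 4 → Close (H * dist x z ^ b) (W x) (W z)) ∧
        (dist y z < r0 / 4 → Close (H * dist y z ^ b) (W y) (W z)) := by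
      by_contra hcon
      push Not at hcon
      have : volume (ball y η) = 0 := by
        rw [measure_eq_zero_iff_ae_notMem]
        filter_upwards [hboth] with z hz hzm
        obtain ⟨h1, h2⟩ := hcon z hzm
        obtain ⟨h3, h4⟩ := hz h1
        exact absurd (h2 h3) (by
          intro h5
          exact h5.2 (h4 h5.1))
      exact hpos.ne' this
    have hz3 := hball z hz1
    have hzy : dist y z < r0 / 8 := by rw [dist_comm]; exact hz3.2.2
    have hxz : dist x z < r0 / 4 := by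
      calc dist x z ≤ dist x y + dist y z := dist_triangle _ _ _
        _ < r0 / 4 := by linarith
    obtain ⟨k1, k2⟩ := hz2 hz3.2.1
    have k3 := close_trans (k1 hxz) (close_symm (k2 (by linarith)))
    exact close_mono k3 hz3.1.le
  obtain ⟨S, hS1, hS2, -, -, hS5⟩ := c14 (c := c) (R := R2) (k := k) (G := G) W hGnull
    (fun x _ => hWcard x) (fun p hp => ⟨H, b, r0 / 16, hH0, hb, by linarith, fun x hx hxp y hy hyp =>
      hGG x hx y hy (by
        calc dist x y ≤ dist x p + dist p y := dist_triangle _ _ _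
          _ < r0 / 8 := by rw [dist_comm p y]; linarith)⟩)
  -- labels
  have hlab : ∀ x ∈ ball c R2, ∃ f : Fin k → ℂ, S x = Multiset.map f Finset.univ.val := by
    intro x hx
    obtain ⟨f, hf⟩ := exists_labels (S x)
    have hc := hS2 x hx
    subst hc
    exact ⟨f, hf⟩
  classical
  choose! s' hs' using hlab
  set r1 : ℝ := min (r0 / 16) (R2 - R') with hr1
  have hr1p : 0 < r1 := lt_min (by linarith) (by linarith)
  have hsub : ball c R' ⊆ ball c R2 := ball_subset_ball hR'2.le
  refine ⟨H, b, r1, s', hH0, hb, hb1, hr1p, ?_, ?_⟩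
  · have h1 : ∀ᵐ x : ℂ, x ∉ ball c R2 \ G := measure_eq_zero_iff_ae_notMem.1 hGnull
    rw [ae_restrict_iff' measurableSet_ball]
    filter_upwards [h1] with x hx hx2
    have hxG : x ∈ G := by
      by_contra h; exact hx ⟨hsub hx2, h⟩
    have h2 := hS1 x (hsub hx2) hxG
    rw [hs' x (hsub hx2), hWd] at h2
    obtain ⟨σ, hσ⟩ := exists_perm h2.symm
    exact ⟨σ, fun i => (hσ i).symm⟩
  · intro x hx y hy hxy
    have h1 : ball x r1 ⊆ ball c R2 := by
      intro z hz
      rw [mem_ball] at hz hx ⊢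
      have : r1 ≤ R2 - R' := min_le_right _ _
      calc dist z c ≤ dist z x + dist x c := dist_triangle _ _ _
        _ < R2 := by linarith
    have h2 := hS5 x r1 H b hb h1 (fun z hz hzx w hw hwx => hGG z hz w hw (by
      have : r1 ≤ r0 / 16 := min_le_left _ _
      calc dist z w ≤ dist z x + dist x w := dist_triangle _ _ _
        _ < r0 / 8 := by rw [dist_comm x w]; linarith)) x (mem_ball_self hr1p) y
        (by rw [mem_ball, dist_comm]; exact hxy)
    rw [hs' x (hsub hx), hs' y (hsub hy)] at h2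
    obtain ⟨τ, hτ⟩ := close_iff_perm.1 h2
    exact ⟨τ, fun i => by rw [← dist_eq_norm]; exact hτ i⟩

end

end

end Crest.Agent.R235.WKHrep_460
end

-- ▼ part R235/WKIsop_460
section

/-! # REG-CYL-2: ISOP, isoperimetric inequality for weak closed k-valued curves -/

set_option autoImplicit false

open MeasureTheory Metric Set Filter Complex
open scoped Topology ContDiff ComplexConjugate

namespace Crest.Agent.R235.WKIsop_460

open Crest.Agent.R235.WKG_460

noncomputable section

/-- a scale without distances. -/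
theorem pigeon {k : ℕ} (w : Fin k → ℂ) {d : ℝ} (hd : 0 < d) :
    ∃ m ≤ k ^ 2, ∀ i j, ‖w i - w j‖ ≤ d * 5 ^ m ∨ 5 * (d * 5 ^ m) < ‖w i - w j‖ := by
  by_contra hcon
  push Not at hcon
  have h1 : ∀ m : Fin (k ^ 2 + 1), ∃ q : Fin k × Fin k,
      d * 5 ^ (m : ℕ) < ‖w q.1 - w q.2‖ ∧ ‖w q.1 - w q.2‖ ≤ 5 * (d * 5 ^ (m : ℕ)) := by
    intro m
    obtain ⟨i, j, h⟩ := hcon m (Nat.lt_succ_iff.1 m.2)
    exact ⟨(i, j), h⟩
  choose f hf1 hf2 using h1
  have hinj : Function.Injective f := by
    have key : ∀ m m' : Fin (k ^ 2 + 1), m < m' → f m ≠ f m' := by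
      intro m m' hmm h
      have e1 := hf2 m
      have e2 := hf1 m'
      rw [← h] at e2
      have h3 : (5 : ℝ) ^ ((m : ℕ) + 1) ≤ 5 ^ (m' : ℕ) :=
        pow_le_pow_right₀ (by norm_num) (by exact_mod_cast Nat.succ_le_of_lt hmm)
      have h4 : 5 * (d * 5 ^ (m : ℕ)) = d * 5 ^ ((m : ℕ) + 1) := by ring
      have h5 : d * 5 ^ ((m : ℕ) + 1) ≤ d * 5 ^ (m' : ℕ) := by gcongr
      linarith
    intro m m' h
    rcases lt_trichotomy m m' with h1 | h1 | h1
    · exact absurd h (key m m' h1)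
    · exact h1
    · exact absurd h.symm (key m' m h1)
  have hcard := Fintype.card_le_of_injective f hinj
  simp only [Fintype.card_fin, Fintype.card_prod] at hcard
  nlinarith

/-- locally constant centres, and a smooth function which is linear near the clusters. -/
theorem cluster {k : ℕ} (w : Fin k → ℂ) {d : ℝ} (hd : 0 < d) :
    ∃ (cc : Fin k → ℂ) (Ψ : ℂ → ℝ), ContDiff ℝ ∞ Ψ ∧ (∀ i, ‖w i - cc i‖ ≤ 5 ^ (k ^ 2) * d) ∧
      ∀ i, ∀ z ∈ closedBall (w i) d, ∀ v, fderiv ℝ Ψ z v = (conj (cc i) * v).im := by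
  classical
  obtain ⟨m, hm, hpg⟩ := pigeon w hd
  set D : ℝ := d * 5 ^ m with hD
  have h5m : (1 : ℝ) ≤ 5 ^ m := one_le_pow₀ (by norm_num)
  have hDd : d ≤ D := by rw [hD]; nlinarith
  have hD0 : 0 < D := lt_of_lt_of_le hd hDd
  have hself : ∀ i, (Finset.univ.filter fun j => ‖w i - w j‖ ≤ D).Nonempty := fun i =>
    ⟨i, by simp [hD0.le]⟩
  set rep : Fin k → Fin k := fun i => (Finset.univ.filter fun j => ‖w i - w j‖ ≤ D).min' (hself i)
    with hrep
  have hrepD : ∀ i, ‖w i - w (rep i)‖ ≤ D := by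
    intro i
    have := Finset.min'_mem _ (hself i)
    exact (Finset.mem_filter.1 this).2
  have hrep_eq : ∀ i i', ‖w i - w i'‖ ≤ D → rep i = rep i' := by
    intro i i' h
    have hset : (Finset.univ.filter fun j => ‖w i - w j‖ ≤ D) =
        (Finset.univ.filter fun j => ‖w i' - w j‖ ≤ D) := by
      ext j
      simp only [Finset.mem_filter, Finset.mem_univ, true_and]
      constructor
      · intro hj
        have h2 : ‖w i' - w j‖ ≤ 2 * D := by
          calc ‖w i' - w j‖ = ‖(w i - w j) - (w i - w i')‖ := by congr 1; ring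
            _ ≤ ‖w i - w j‖ + ‖w i - w i'‖ := norm_sub_le _ _
            _ ≤ 2 * D := by linarith
        rcases hpg i' j with h3 | h3
        · exact h3
        · exfalso; linarith
      · intro hj
        have h2 : ‖w i - w j‖ ≤ 2 * D := by
          calc ‖w i - w j‖ = ‖(w i' - w j) + (w i - w i')‖ := by congr 1; ring
            _ ≤ ‖w i' - w j‖ + ‖w i - w i'‖ := norm_add_le _ _
            _ ≤ 2 * D := by linarith
        rcases hpg i j with h3 | h3
        · exact h3
        · exfalso; linarith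
    simp only [hrep, hset]
  let b : ∀ i, ContDiffBump (w i) := fun i => ⟨3 * D / 2, 2 * D, by positivity, by linarith⟩
  set χ : Fin k → ℂ → ℝ := fun r z =>
    1 - ∏ i ∈ Finset.univ.filter (fun i => rep i = r), (1 - b i z) with hχ
  set Ψ : ℂ → ℝ := fun z => ∑ r, χ r z * (conj (w r) * z).im with hΨ
  have hlin : ∀ a : ℂ, ContDiff ℝ ∞ (fun z : ℂ => (conj a * z).im) := fun a =>
    imCLM.contDiff.comp (contDiff_const.mul contDiff_id)
  refine ⟨fun i => w (rep i), Ψ, ?_, ?_, ?_⟩
  · rw [hΨ]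
    refine ContDiff.sum fun r _ => ?_
    refine ContDiff.mul ?_ (hlin _)
    refine contDiff_const.sub ?_
    refine contDiff_prod fun i _ => ?_
    exact contDiff_const.sub (b i).contDiff
  · intro i
    refine (hrepD i).trans ?_
    rw [hD, mul_comm]
    have : (5 : ℝ) ^ m ≤ 5 ^ (k ^ 2) := pow_le_pow_right₀ (by norm_num) hm
    gcongr
  · intro i z hz v
    have hloc : Ψ =ᶠ[𝓝 z] fun z' => (conj (w (rep i)) * z').im := by
      have hD2 : 0 < D / 2 := by positivity
      filter_upwards [ball_mem_nhds z hD2] with z' hz'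
      have hzi : dist z' (w i) ≤ 3 * D / 2 := by
        have h1 : dist z (w i) ≤ d := hz
        have h2 : dist z' z < D / 2 := hz'
        calc dist z' (w i) ≤ dist z' z + dist z (w i) := dist_triangle _ _ _
          _ ≤ 3 * D / 2 := by linarith
      have hone : χ (rep i) z' = 1 := by
        have h3 : (b i) z' = 1 := (b i).one_of_mem_closedBall hzi
        have h4 : ∏ i' ∈ Finset.univ.filter (fun i' => rep i' = rep i), (1 - b i' z') = 0 := by
          refine Finset.prod_eq_zero (i := i) (by simp) ?_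
          rw [h3]; ring
        simp only [hχ, h4, sub_zero]
      have hzero : ∀ r, r ≠ rep i → χ r z' = 0 := by
        intro r hr
        have h4 : ∏ i' ∈ Finset.univ.filter (fun i' => rep i' = r), (1 - b i' z') = 1 := by
          refine Finset.prod_eq_one fun i' hi' => ?_
          have hi'' : rep i' = r := (Finset.mem_filter.1 hi').2
          have h5 : ¬ ‖w i - w i'‖ ≤ D := by
            intro h
            exact hr (by rw [← hi'', ← hrep_eq i i' h])
          have h6 : 5 * D < ‖w i - w i'‖ := by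
            rcases hpg i i' with h | h
            · exact absurd h h5
            · exact h
          have h7 : 2 * D ≤ dist z' (w i') := by
            have h8 : dist (w i) (w i') ≤ dist z' (w i) + dist z' (w i') := by
              rw [dist_comm z' (w i)]; exact dist_triangle _ _ _
            rw [dist_eq_norm (w i) (w i')] at h8
            linarith
          have h9 : (b i') z' = 0 := (b i').zero_of_le_dist h7
          rw [h9, sub_zero]
        simp only [hχ, h4, sub_self]
      simp only [hΨ]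
      rw [Finset.sum_eq_single (rep i)]
      · rw [hone, one_mul]
      · intro r _ hr
        rw [hzero r hr, zero_mul]
      · intro h; exact absurd (Finset.mem_univ _) h
    rw [hloc.fderiv_eq]
    have hd1 : HasFDerivAt (fun z' : ℂ => (conj (w (rep i)) * z').im)
        (imCLM.comp ((conj (w (rep i))) • (ContinuousLinearMap.id ℝ ℂ))) z := by
      have h1 : HasFDerivAt (fun z' : ℂ => conj (w (rep i)) * z')
          ((conj (w (rep i))) • (ContinuousLinearMap.id ℝ ℂ)) z :=
        (hasFDerivAt_id z).const_mul (conj (w (rep i)))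
      exact imCLM.hasFDerivAt.comp z h1
    rw [hd1.fderiv]
    simp

theorem isop_of (hH : HALL) : ISOP := by
  intro k
  obtain ⟨Ck, hCk, hHk⟩ := hH k
  refine ⟨Ck * (1 + 5 ^ (k ^ 2)), by positivity, ?_⟩
  intro x y hxy
  have hpi := Real.pi_pos
  have hle : -Real.pi ≤ Real.pi := by linarith
  obtain ⟨M, hM⟩ := hxy.xbdd
  set l : ℝ := ∫ φ in (-Real.pi)..Real.pi, ∑ i, ‖y φ i‖ with hl
  have hyi : IntegrableOn (fun φ => ∑ i, ‖y φ i‖) (Ioc (-Real.pi) Real.pi) :=
    integrable_finsetSum _ fun i _ => hxy.yint i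
  have hyI : IntervalIntegrable (fun φ => ∑ i, ‖y φ i‖) volume (-Real.pi) Real.pi :=
    (intervalIntegrable_iff_integrableOn_Ioc_of_le hle).2 hyi
  have hy0 : ∀ φ, 0 ≤ ∑ i, ‖y φ i‖ := fun φ => Finset.sum_nonneg fun i _ => norm_nonneg _
  have hl0 : 0 ≤ l := intervalIntegral.integral_nonneg hle fun φ _ => hy0 φ
  -- bound of an interval integral by l
  have hsub : ∀ φ₁ ∈ Ioc (-Real.pi) Real.pi, ∀ φ₂ ∈ Ioc (-Real.pi) Real.pi,
      |∫ φ in φ₁..φ₂, ∑ i, ‖y φ i‖| ≤ l := by
    intro φ₁ h1 φ₂ h2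
    have hs : Set.uIoc φ₁ φ₂ ⊆ Ioc (-Real.pi) Real.pi := by
      intro t ht
      rw [Set.uIoc, mem_Ioc] at ht
      exact ⟨lt_of_le_of_lt (le_min h1.1.le h2.1.le) ht.1, ht.2.trans (max_le h1.2 h2.2)⟩
    have e1 := intervalIntegral.abs_integral_eq_abs_integral_uIoc (a := φ₁) (b := φ₂)
      (f := fun φ => ∑ i, ‖y φ i‖) (μ := volume)
    rw [e1, abs_of_nonneg (integral_nonneg hy0), hl, intervalIntegral.integral_of_le hle]
    exact setIntegral_mono_set hyi (Eventually.of_forall hy0) (LE.le.eventuallyLE hs)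
  -- the bilinear integrand
  have hxym : ∀ i, IntegrableOn (fun φ => (conj (x φ i) * y φ i).im) (Ioc (-Real.pi) Real.pi) := by
    intro i
    refine Integrable.mono' ((hxy.yint i).const_mul M) ?_ (Eventually.of_forall fun φ => ?_)
    · exact (measurable_im.comp ((continuous_conj.measurable.comp (hxy.xmeas i)).mul
        (hxy.ymeas i))).aestronglyMeasurable
    · calc ‖(conj (x φ i) * y φ i).im‖ ≤ ‖conj (x φ i) * y φ i‖ := abs_im_le_norm _
        _ = ‖x φ i‖ * ‖y φ i‖ := by rw [norm_mul, RCLike.norm_conj]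
        _ ≤ M * ‖y φ i‖ := by gcongr; exact hM φ i
  have hB : IntegrableOn (fun φ => ∑ i, (conj (x φ i) * y φ i).im) (Ioc (-Real.pi) Real.pi) :=
    integrable_finsetSum _ fun i _ => hxym i
  rcases eq_or_lt_of_le hl0 with hl1 | hl1
  · -- length zero
    have h1 : ∫ φ in Ioc (-Real.pi) Real.pi, ∑ i, ‖y φ i‖ = 0 := by
      rw [← intervalIntegral.integral_of_le hle, ← hl, ← hl1]
    rw [setIntegral_eq_zero_iff_of_nonneg_ae (Eventually.of_forall hy0) hyi] at h1
    have h2 : ∫ φ in (-Real.pi)..Real.pi, ∑ i, (conj (x φ i) * y φ i).im = 0 := by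
      rw [intervalIntegral.integral_of_le hle]
      refine integral_eq_zero_of_ae ?_
      filter_upwards [h1] with φ hφ
      have h3 : ∀ i, y φ i = 0 := by
        intro i
        have h4 : ∑ i, ‖y φ i‖ = 0 := hφ
        rw [Finset.sum_eq_zero_iff_of_nonneg (fun i _ => norm_nonneg _)] at h4
        exact norm_eq_zero.1 (h4 i (Finset.mem_univ i))
      simp [h3]
    rw [h2, abs_zero]; positivity
  · -- positive length
    have hne : (volume.restrict (Ioc (-Real.pi) Real.pi)) ≠ 0 := by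
      rw [Ne, Measure.restrict_eq_zero, Real.volume_Ioc, ENNReal.ofReal_eq_zero]
      linarith
    have : (ae (volume.restrict (Ioc (-Real.pi) Real.pi))).NeBot := ae_neBot.2 hne
    obtain ⟨φ₁, h1, h1m⟩ := (hxy.ac.and (ae_restrict_mem measurableSet_Ioc)).exists
    set d : ℝ := Ck * l with hd
    have hdpos : 0 < d := by positivity
    have hmatch : ∀ᵐ φ ∂(volume.restrict (Ioc (-Real.pi) Real.pi)), ∀ j, ∃ i,
        ‖x φ₁ i - x φ j‖ ≤ d := by
      filter_upwards [h1, ae_restrict_mem measurableSet_Ioc] with φ hφ hφm j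
      obtain ⟨τ, hτ⟩ := hHk (x φ₁) (x φ) l hl1 (by
        intro Ψ hΨ hΨ1
        rw [abs_sub_comm, hφ Ψ hΨ, ← Real.norm_eq_abs]
        have hI : IntervalIntegrable (fun φ => ∑ i, ‖y φ i‖) volume φ₁ φ := by
          refine hyI.mono_set ?_
          rw [uIcc_of_le hle]
          exact uIcc_subset_Icc ⟨h1m.1.le, h1m.2⟩ ⟨hφm.1.le, hφm.2⟩
        refine (intervalIntegral.norm_integral_le_abs_of_norm_le
          (Eventually.of_forall fun t => ?_) hI).trans (hsub φ₁ h1m φ hφm)
        refine (norm_sum_le _ _).trans (Finset.sum_le_sum fun i _ => ?_)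
        calc ‖fderiv ℝ Ψ (x t i) (y t i)‖ ≤ ‖fderiv ℝ Ψ (x t i)‖ * ‖y t i‖ :=
              ContinuousLinearMap.le_opNorm _ _
          _ ≤ 1 * ‖y t i‖ := by gcongr; exact hΨ1 _
          _ = ‖y t i‖ := one_mul _)
      refine ⟨τ.symm j, ?_⟩
      have := hτ (τ.symm j)
      rwa [Equiv.apply_symm_apply] at this
    obtain ⟨cc, Ψ, hΨ, hcc, hΨd⟩ := cluster (x φ₁) hdpos
    have hper := hxy.per Ψ hΨ
    have hcD : Continuous (fderiv ℝ Ψ) := hΨ.continuous_fderiv (by simp)
    obtain ⟨N, hN⟩ := (isCompact_closedBall (0 : ℂ) M).exists_bound_of_continuousOn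
      hcD.continuousOn
    have hDi : ∀ i, IntegrableOn (fun φ => fderiv ℝ Ψ (x φ i) (y φ i))
        (Ioc (-Real.pi) Real.pi) := by
      intro i
      refine Integrable.mono' ((hxy.yint i).const_mul N) ?_ (Eventually.of_forall fun φ => ?_)
      · have h3 : Continuous (fun q : ℂ × ℂ => fderiv ℝ Ψ q.1 q.2) :=
          (hcD.comp continuous_fst).clm_apply continuous_snd
        exact (h3.measurable.comp ((hxy.xmeas i).prodMk (hxy.ymeas i))).aestronglyMeasurable
      · calc ‖fderiv ℝ Ψ (x φ i) (y φ i)‖ ≤ ‖fderiv ℝ Ψ (x φ i)‖ * ‖y φ i‖ :=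
              ContinuousLinearMap.le_opNorm _ _
          _ ≤ N * ‖y φ i‖ := by
              gcongr
              exact hN _ (by simpa using hM φ i)
    have hD : IntegrableOn (fun φ => ∑ i, fderiv ℝ Ψ (x φ i) (y φ i))
        (Ioc (-Real.pi) Real.pi) := integrable_finsetSum _ fun i _ => hDi i
    have e0 : ∫ φ in (-Real.pi)..Real.pi, ∑ i, (conj (x φ i) * y φ i).im =
        ∫ φ in (-Real.pi)..Real.pi, (∑ i, (conj (x φ i) * y φ i).im -
          ∑ i, fderiv ℝ Ψ (x φ i) (y φ i)) := by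
      rw [intervalIntegral.integral_sub
        ((intervalIntegrable_iff_integrableOn_Ioc_of_le hle).2 hB)
        ((intervalIntegrable_iff_integrableOn_Ioc_of_le hle).2 hD), hper, sub_zero]
    rw [e0, ← Real.norm_eq_abs]
    have e1 : ‖∫ φ in (-Real.pi)..Real.pi, (∑ i, (conj (x φ i) * y φ i).im -
          ∑ i, fderiv ℝ Ψ (x φ i) (y φ i))‖ ≤
        ∫ φ in (-Real.pi)..Real.pi, (1 + 5 ^ (k ^ 2)) * d * ∑ i, ‖y φ i‖ := by
      refine intervalIntegral.norm_integral_le_of_norm_le hle ?_ (hyI.const_mul _)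
      have h4 := (ae_restrict_iff' measurableSet_Ioc).1 hmatch
      filter_upwards [h4] with φ hφ hφm
      rw [← Finset.sum_sub_distrib, Finset.mul_sum]
      refine (norm_sum_le _ _).trans (Finset.sum_le_sum fun j _ => ?_)
      obtain ⟨i, hi⟩ := hφ hφm j
      have h5 : x φ j ∈ closedBall (x φ₁ i) d := by
        rw [mem_closedBall, dist_eq_norm, norm_sub_rev]; exact hi
      rw [hΨd i _ h5, ← sub_im, ← sub_mul, ← map_sub]
      have h6 : ‖x φ j - cc i‖ ≤ (1 + 5 ^ (k ^ 2)) * d := by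
        calc ‖x φ j - cc i‖ = ‖(x φ₁ i - cc i) - (x φ₁ i - x φ j)‖ := by congr 1; ring
          _ ≤ ‖x φ₁ i - cc i‖ + ‖x φ₁ i - x φ j‖ := norm_sub_le _ _
          _ ≤ (1 + 5 ^ (k ^ 2)) * d := by linarith [hcc i]
      calc ‖(conj (x φ j - cc i) * y φ j).im‖ ≤ ‖conj (x φ j - cc i) * y φ j‖ :=
            abs_im_le_norm _
        _ = ‖x φ j - cc i‖ * ‖y φ j‖ := by rw [norm_mul, RCLike.norm_conj]
        _ ≤ (1 + 5 ^ (k ^ 2)) * d * ‖y φ j‖ := by gcongr
    refine e1.trans ?_
    rw [intervalIntegral.integral_const_mul, ← hl, hd]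
    exact le_of_eq (by ring)

end

end Crest.Agent.R235.WKIsop_460
end

-- ▼ part R235/WKPol_347

/-!
Row 235 (S0364), REG-CYL-2, leaves POLAR and POLAR0 (task 301, helper347):
`W^{1,2}` functions are absolutely continuous on almost every circle.
-/

set_option autoImplicit false

open MeasureTheory Metric Set Filter Complex
open scoped ContDiff Topology ComplexConjugate

namespace Crest.Agent.R235.WKPol_347

open Crest.Agent.R235.WKG_460

noncomputable section

/-- rotation about `p`. -/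
def rot (p : ℂ) (θ : ℝ) (z : ℂ) : ℂ := p + exp (θ * I) * (z - p)

lemma rot_zero (p z : ℂ) : rot p 0 z = z := by simp [rot]

lemma rot_rot (p : ℂ) (a b : ℝ) (z : ℂ) : rot p a (rot p b z) = rot p (a + b) z := by
  unfold rot
  have : exp (((a + b : ℝ) : ℂ) * I) = exp (a * I) * exp (b * I) := by
    rw [← Complex.exp_add]
    congr 1
    push_cast
    ring
  rw [this]
  ring

lemma rot_neg_rot (p : ℂ) (a : ℝ) (z : ℂ) : rot p (-a) (rot p a z) = z := by
  rw [rot_rot, neg_add_cancel, rot_zero]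

lemma rot_rot_neg (p : ℂ) (a : ℝ) (z : ℂ) : rot p a (rot p (-a) z) = z := by
  rw [rot_rot, add_neg_cancel, rot_zero]

lemma rot_sub (p : ℂ) (a : ℝ) (z : ℂ) : rot p a z - p = exp (a * I) * (z - p) := by
  unfold rot
  ring

lemma rot_pt (p : ℂ) (r φ θ : ℝ) : rot p θ (KGL2_52.pt p r φ) = KGL2_52.pt p r (φ + θ) := by
  unfold rot KGL2_52.pt
  have : exp (((φ + θ : ℝ) : ℂ) * I) = exp (θ * I) * exp (φ * I) := by
    rw [← Complex.exp_add]
    congr 1
    push_cast
    ring
  rw [this]
  ring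

lemma dist_rot (p : ℂ) (a : ℝ) (z : ℂ) : dist (rot p a z) p = dist z p := by
  rw [dist_eq_norm, dist_eq_norm, rot_sub, norm_mul, norm_exp_ofReal_mul_I, one_mul]

lemma rot_mem_ball {p : ℂ} {R : ℝ} (a : ℝ) {z : ℂ} : rot p a z ∈ ball p R ↔ z ∈ ball p R := by
  rw [mem_ball, mem_ball, dist_rot]

lemma continuous_rot2 (p : ℂ) : Continuous (fun q : ℝ × ℂ => rot p q.1 q.2) := by
  unfold rot
  fun_prop

lemma continuous_rot (p : ℂ) (a : ℝ) : Continuous (rot p a) := by
  unfold rot
  fun_prop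

lemma contDiff_rot (p : ℂ) (a : ℝ) : ContDiff ℝ ∞ (rot p a) := by
  unfold rot
  fun_prop

/-- the rotation as a homeomorphism. -/
def rotH (p : ℂ) (a : ℝ) : ℂ ≃ₜ ℂ where
  toFun := rot p a
  invFun := rot p (-a)
  left_inv := rot_neg_rot p a
  right_inv := rot_rot_neg p a
  continuous_toFun := continuous_rot p a
  continuous_invFun := continuous_rot p (-a)

lemma mp_rot (p : ℂ) (a : ℝ) : MeasurePreserving (rot p a) volume volume := by
  have h1 : MeasurePreserving (fun z : ℂ => z - p) volume volume :=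
    measurePreserving_sub_right volume p
  have h2 : MeasurePreserving (rotation (Circle.exp a)) volume volume :=
    (rotation (Circle.exp a)).measurePreserving
  have h3 : MeasurePreserving (fun z : ℂ => p + z) volume volume :=
    measurePreserving_add_left volume p
  have h := h3.comp (h2.comp h1)
  have e : rot p a = (fun z : ℂ => p + z) ∘ (rotation (Circle.exp a)) ∘ fun z => z - p := by
    funext z
    simp [rot, rotation_apply, Circle.coe_exp]
  rw [e]
  exact h

lemma hasFDerivAt_rot (p : ℂ) (a : ℝ) (z : ℂ) :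
    HasFDerivAt (rot p a) ((ContinuousLinearMap.mul ℝ ℂ (exp (a * I)))) z := by
  have h1 : HasFDerivAt (fun z : ℂ => z - p) (ContinuousLinearMap.id ℝ ℂ) z :=
    (hasFDerivAt_id z).sub_const p
  have h2 := ((ContinuousLinearMap.mul ℝ ℂ (exp (a * I))).hasFDerivAt (x := z - p)).comp z h1
  have h3 : HasFDerivAt (rot p a) ((ContinuousLinearMap.mul ℝ ℂ (exp (a * I))).comp
      (ContinuousLinearMap.id ℝ ℂ)) z := h2.const_add p
  simpa using h3

lemma hasDerivAt_rot (p z : ℂ) (s : ℝ) :
    HasDerivAt (fun t : ℝ => rot p t z) (I * (rot p s z - p)) s := by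
  have h1 : HasDerivAt (fun t : ℝ => exp ((t : ℂ) * I)) (exp (s * I) * I) s := by
    have h := ((hasDerivAt_id (s : ℂ)).mul_const I).cexp.comp_ofReal
    simpa using h
  have h2 : HasDerivAt (fun t : ℝ => rot p t z) (exp (s * I) * I * (z - p)) s :=
    (h1.mul_const (z - p)).const_add p
  rw [rot_sub]
  convert h2 using 1
  ring

/-! ### the angular derivative -/

/-- integration by parts for the angular vector field. -/
lemma angular {p : ℂ} {R M : ℝ} {F : ℂ → ℝ} {G : ℂ → (ℂ →L[ℝ] ℝ)}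
    (hF : Measurable F) (hM : ∀ t, |F t| ≤ M)
    (hG : IntegrableOn G (ball p R)) (hW : Weak1 (ball p R) F G)
    {f : ℂ → ℝ} (hf : ContDiff ℝ ∞ f) (hc : HasCompactSupport f) (hs : tsupport f ⊆ ball p R) :
    ∫ z in ball p R, F z * fderiv ℝ f z (I * (z - p)) =
      - ∫ z in ball p R, f z * G z (I * (z - p)) := by
  set f₁ : ℂ → ℝ := fun z => -(z - p).im * f z with hf₁
  set f₂ : ℂ → ℝ := fun z => (z - p).re * f z with hf₂
  have hre : ContDiff ℝ ∞ (fun z : ℂ => (z - p).re) :=
    Complex.reCLM.contDiff.comp (contDiff_id.sub contDiff_const)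
  have him : ContDiff ℝ ∞ (fun z : ℂ => -(z - p).im) :=
    (Complex.imCLM.contDiff.comp (contDiff_id.sub contDiff_const)).neg
  have hf₁s : ContDiff ℝ ∞ f₁ := him.mul hf
  have hf₂s : ContDiff ℝ ∞ f₂ := hre.mul hf
  have hf₁c : HasCompactSupport f₁ := hc.mul_left
  have hf₂c : HasCompactSupport f₂ := hc.mul_left
  have hf₁t : tsupport f₁ ⊆ ball p R := (tsupport_mul_subset_right).trans hs
  have hf₂t : tsupport f₂ ⊆ ball p R := (tsupport_mul_subset_right).trans hs
  have w1 := hW f₁ hf₁s hf₁c hf₁t 1 (Or.inl rfl)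
  have w2 := hW f₂ hf₂s hf₂c hf₂t I (Or.inr rfl)
  have d1 : ∀ z, fderiv ℝ f₁ z 1 = -(z - p).im * fderiv ℝ f z 1 := by
    intro z
    have hfd : HasFDerivAt f (fderiv ℝ f z) z :=
      (hf.differentiable (by simp) z).hasFDerivAt
    have hl : HasFDerivAt (fun z : ℂ => -(z - p).im) (-Complex.imCLM) z := by
      have h := (Complex.imCLM.hasFDerivAt (x := z - p)).comp z
        ((hasFDerivAt_id z).sub_const p)
      have h3 : HasFDerivAt (fun z : ℂ => -(z - p).im)
        (-(Complex.imCLM.comp (ContinuousLinearMap.id ℝ ℂ))) z := h.neg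
      rwa [ContinuousLinearMap.comp_id] at h3
    have h4 : HasFDerivAt f₁ _ z := hl.mul hfd
    rw [h4.fderiv]
    simp
  have d2 : ∀ z, fderiv ℝ f₂ z I = (z - p).re * fderiv ℝ f z I := by
    intro z
    have hfd : HasFDerivAt f (fderiv ℝ f z) z :=
      (hf.differentiable (by simp) z).hasFDerivAt
    have hl : HasFDerivAt (fun z : ℂ => (z - p).re) (Complex.reCLM) z := by
      have h := (Complex.reCLM.hasFDerivAt (x := z - p)).comp z
        ((hasFDerivAt_id z).sub_const p)
      have h3 : HasFDerivAt (fun z : ℂ => (z - p).re)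
        (Complex.reCLM.comp (ContinuousLinearMap.id ℝ ℂ)) z := h
      rwa [ContinuousLinearMap.comp_id] at h3
    have h4 : HasFDerivAt f₂ _ z := hl.mul hfd
    rw [h4.fderiv]
    simp
  have lin : ∀ (A : ℂ →L[ℝ] ℝ) (z : ℂ),
      A (I * (z - p)) = -(z - p).im * A 1 + (z - p).re * A I := by
    intro A z
    have e : I * (z - p) = (-(z - p).im : ℝ) • (1 : ℂ) + ((z - p).re : ℝ) • I := by
      apply Complex.ext <;> simp
    rw [e, map_add, map_smul, map_smul, smul_eq_mul, smul_eq_mul]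
  -- integrability
  have i1 : ∀ (h : ℂ → ℝ) (_ : ContDiff ℝ ∞ h) (_ : HasCompactSupport h) (u : ℂ),
      IntegrableOn (fun t => fderiv ℝ h t u * F t) (ball p R) := by
    intro h hh hhc u
    have hcont : Continuous (fun t => fderiv ℝ h t u) :=
      (hh.continuous_fderiv (by simp)).clm_apply continuous_const
    have hcomp : HasCompactSupport (fun t => fderiv ℝ h t u) :=
      (hhc.fderiv (𝕜 := ℝ)).comp_left (g := fun A : ℂ →L[ℝ] ℝ => A u) (by simp)
    have hi : Integrable (fun t => fderiv ℝ h t u) := hcont.integrable_of_hasCompactSupport hcomp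
    exact (hi.mul_bdd hF.aestronglyMeasurable (c := M)
      (Eventually.of_forall fun t => by simpa using hM t)).integrableOn
  have i2 : ∀ (h : ℂ → ℝ) (_ : ContDiff ℝ ∞ h) (_ : HasCompactSupport h) (u : ℂ),
      IntegrableOn (fun t => h t * G t u) (ball p R) := by
    intro h hh hhc u
    obtain ⟨C, hC⟩ := hhc.exists_bound_of_continuous hh.continuous
    have hGu : IntegrableOn (fun t => G t u) (ball p R) :=
      (ContinuousLinearMap.apply ℝ ℝ u).integrable_comp hG
    exact hGu.bdd_mul hh.continuous.aestronglyMeasurable (c := C)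
      (Eventually.of_forall hC)
  have e1 : ∫ z in ball p R, F z * fderiv ℝ f z (I * (z - p)) =
      (∫ z in ball p R, fderiv ℝ f₁ z 1 * F z) + ∫ z in ball p R, fderiv ℝ f₂ z I * F z := by
    rw [← integral_add (i1 f₁ hf₁s hf₁c 1) (i1 f₂ hf₂s hf₂c I)]
    refine integral_congr_ae (Eventually.of_forall fun z => ?_)
    simp only [lin, d1, d2]
    ring
  have e2 : ∫ z in ball p R, f z * G z (I * (z - p)) =
      (∫ z in ball p R, f₁ z * G z 1) + ∫ z in ball p R, f₂ z * G z I := by
    rw [← integral_add (i2 f₁ hf₁s hf₁c 1) (i2 f₂ hf₂s hf₂c I)]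
    refine integral_congr_ae (Eventually.of_forall fun z => ?_)
    simp only [lin, hf₁, hf₂]
    ring
  rw [e1, e2, w1, w2]
  ring

/-- change of variables under the rotation. -/
lemma integral_ball_rot (p : ℂ) (R : ℝ) (a : ℝ) (h : ℂ → ℝ) :
    ∫ z in ball p R, h (rot p a z) = ∫ z in ball p R, h z := by
  have hme : MeasurableEmbedding (rot p a) := (rotH p a).measurableEmbedding
  have h1 := (mp_rot p a).setIntegral_preimage_emb hme h (ball p R)
  have e : rot p a ⁻¹' ball p R = ball p R := by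
    ext z
    exact rot_mem_ball a
  rw [e] at h1
  exact h1

lemma integrable_ball_rot {p : ℂ} {R : ℝ} (a : ℝ) {h : ℂ → ℝ} (hh : IntegrableOn h (ball p R)) :
    IntegrableOn (fun z => h (rot p a z)) (ball p R) := by
  have hme : MeasurableEmbedding (rot p a) := (rotH p a).measurableEmbedding
  have h1 := ((mp_rot p a).integrableOn_comp_preimage hme (f := h) (s := ball p R)).mpr hh
  have e : rot p a ⁻¹' ball p R = ball p R := by
    ext z
    exact rot_mem_ball a
  rw [e] at h1
  exact h1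

/-- the angular component of the weak gradient. -/
def ang (p : ℂ) (G : ℂ → (ℂ →L[ℝ] ℝ)) (z : ℂ) : ℝ := G z (I * (z - p))

lemma measurable_ang (p : ℂ) {G : ℂ → (ℂ →L[ℝ] ℝ)} (hG : Measurable G) :
    Measurable (ang p G) := by
  unfold ang
  have h1 : Measurable (fun z : ℂ => (I * (z - p))) := by fun_prop
  exact (continuous_fst.clm_apply continuous_snd : Continuous
    fun q : (ℂ →L[ℝ] ℝ) × ℂ => q.1 q.2).measurable.comp (hG.prodMk h1)

lemma abs_ang_le {p : ℂ} {R : ℝ} (G : ℂ → (ℂ →L[ℝ] ℝ)) {z : ℂ} (hz : z ∈ ball p R) :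
    |ang p G z| ≤ R * ‖G z‖ := by
  unfold ang
  rw [← Real.norm_eq_abs]
  refine (ContinuousLinearMap.le_opNorm _ _).trans ?_
  rw [norm_mul, norm_I, one_mul, ← dist_eq_norm, mul_comm]
  exact mul_le_mul_of_nonneg_right (mem_ball.mp hz).le (norm_nonneg _)

lemma integrable_ang {p : ℂ} {R : ℝ} {G : ℂ → (ℂ →L[ℝ] ℝ)} (hGm : Measurable G)
    (hG : IntegrableOn G (ball p R)) : IntegrableOn (ang p G) (ball p R) := by
  refine Integrable.mono' (hG.norm.const_mul R) (measurable_ang p hGm).aestronglyMeasurable ?_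
  filter_upwards [ae_restrict_mem measurableSet_ball] with z hz
  exact abs_ang_le G hz

/-- swapping an interval integral and an integral over the ball. -/
lemma swap (p : ℂ) (R θ : ℝ) (h : ℝ → ℂ → ℝ)
    (hi : Integrable (Function.uncurry fun (z : ℂ) (s : ℝ) => h s z)
      ((volume.restrict (ball p R)).prod (volume.restrict (Set.uIoc 0 θ)))) :
    ∫ z in ball p R, ∫ s in (0:ℝ)..θ, h s z = ∫ s in (0:ℝ)..θ, ∫ z in ball p R, h s z := by
  simp only [intervalIntegral.intervalIntegral_eq_integral_uIoc]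
  rw [integral_smul, integral_integral_swap hi]

/-- the increment of `F` under a rotation. -/
lemma increment {p : ℂ} {R M : ℝ} {F : ℂ → ℝ} {G : ℂ → (ℂ →L[ℝ] ℝ)}
    (hF : Measurable F) (hM : ∀ t, |F t| ≤ M) (hGm : Measurable G)
    (hG : IntegrableOn G (ball p R)) (hW : Weak1 (ball p R) F G) (θ : ℝ) :
    ∀ᵐ z : ℂ, z ∈ ball p R →
      F (rot p θ z) - F z = ∫ s in (0:ℝ)..θ, ang p G (rot p s z) := by
  have hang := integrable_ang hGm hG
  have hangm := measurable_ang p hGm
  have hfin : IsFiniteMeasure (volume.restrict (ball p R)) :=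
    ⟨by rw [Measure.restrict_apply_univ]; exact measure_ball_lt_top⟩
  have hfin2 : IsFiniteMeasure ((volume : Measure ℝ).restrict (Set.uIoc 0 θ)) :=
    ⟨by
      rw [Measure.restrict_apply_univ, Set.uIoc]
      exact measure_Ioc_lt_top⟩
  -- joint integrability
  have hjm : Measurable (Function.uncurry fun (z : ℂ) (s : ℝ) => ang p G (rot p s z)) :=
    hangm.comp ((continuous_rot2 p).comp continuous_swap).measurable
  have hji : Integrable (Function.uncurry fun (z : ℂ) (s : ℝ) => ang p G (rot p s z))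
      ((volume.restrict (ball p R)).prod (volume.restrict (Set.uIoc 0 θ))) := by
    rw [integrable_prod_iff' hjm.aestronglyMeasurable]
    refine ⟨Eventually.of_forall fun s => integrable_ball_rot s hang, ?_⟩
    have e : (fun s : ℝ => ∫ z in ball p R,
        ‖Function.uncurry (fun (z : ℂ) (s : ℝ) => ang p G (rot p s z)) (z, s)‖) =
        fun _ => ∫ z in ball p R, ‖ang p G z‖ := by
      funext s
      exact integral_ball_rot p R s (fun z => ‖ang p G z‖)
    rw [e]
    exact integrable_const _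
  set H : ℂ → ℝ := fun z => ∫ s in (0:ℝ)..θ, ang p G (rot p s z) with hH
  have hHi : IntegrableOn H (ball p R) := by
    have h1 := hji.integral_prod_left
    rw [hH]
    simp only [intervalIntegral.intervalIntegral_eq_integral_uIoc]
    exact h1.smul (if (0:ℝ) ≤ θ then (1:ℝ) else -1)
  have hFi : ∀ a : ℝ, IntegrableOn (fun z => F (rot p a z)) (ball p R) := by
    intro a
    refine Integrable.mono' (integrable_const M)
      (hF.comp (continuous_rot p a).measurable).aestronglyMeasurable ?_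
    exact Eventually.of_forall fun z => by simpa using hM _
  have hFi0 : IntegrableOn F (ball p R) := by
    simpa [rot_zero] using hFi 0
  have hdi : IntegrableOn (fun z => F (rot p θ z) - F z - H z) (ball p R) :=
    ((hFi θ).sub hFi0).sub hHi
  have key : ∀ f : ℂ → ℝ, ContDiff ℝ ∞ f → HasCompactSupport f → tsupport f ⊆ ball p R →
      ∫ z, f z • (F (rot p θ z) - F z - H z) = 0 := by
    intro f hf hc hs
    obtain ⟨C, hC⟩ := hc.exists_bound_of_continuous hf.continuous
    set Xf : ℂ → ℝ := fun z => fderiv ℝ f z (I * (z - p)) with hXf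
    have hXc : Continuous Xf :=
      (hf.continuous_fderiv (by simp)).clm_apply (by fun_prop)
    have hXcc : HasCompactSupport Xf := by
      apply HasCompactSupport.intro (hc.fderiv (𝕜 := ℝ)).isCompact
      intro z hz
      have : fderiv ℝ f z = 0 := image_eq_zero_of_notMem_tsupport hz
      rw [hXf]
      simp [this]
    obtain ⟨C', hC'⟩ := hXcc.exists_bound_of_continuous hXc
    -- the whole integral lives on the ball
    have e0 : ∫ z, f z • (F (rot p θ z) - F z - H z) =
        ∫ z in ball p R, f z * (F (rot p θ z) - F z - H z) := by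
      rw [setIntegral_eq_integral_of_forall_compl_eq_zero]
      · simp only [smul_eq_mul]
      · intro z hz
        have : f z = 0 := by
          by_contra h
          exact hz (hs (subset_tsupport f h))
        rw [this, zero_mul]
    rw [e0]
    have hbm : ∀ (h : ℂ → ℝ), IntegrableOn h (ball p R) →
        IntegrableOn (fun z => f z * h z) (ball p R) := fun h hh =>
      hh.bdd_mul hf.continuous.aestronglyMeasurable (c := C) (Eventually.of_forall hC)
    have e1 : ∫ z in ball p R, f z * (F (rot p θ z) - F z - H z) =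
        (∫ z in ball p R, f z * F (rot p θ z)) - (∫ z in ball p R, f z * F z) -
          ∫ z in ball p R, f z * H z := by
      rw [← integral_sub (hbm _ (hFi θ)) (hbm _ hFi0), ← integral_sub]
      · refine integral_congr_ae (Eventually.of_forall fun z => ?_)
        simp only
        ring
      · exact (hbm _ (hFi θ)).sub (hbm _ hFi0)
      · exact hbm _ hHi
    -- rotate the first integral
    have e2 : ∫ z in ball p R, f z * F (rot p θ z) =
        ∫ z in ball p R, f (rot p (-θ) z) * F z := by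
      rw [← integral_ball_rot p R θ (fun z => f (rot p (-θ) z) * F z)]
      simp only [rot_neg_rot]
    -- the increment of `f`
    have e3 : ∀ z, f (rot p (-θ) z) - f z = ∫ s in (0:ℝ)..θ, -Xf (rot p (-s) z) := by
      intro z
      have hd : ∀ s ∈ Set.uIcc (0:ℝ) θ, HasDerivAt (fun s => f (rot p (-s) z))
          (-Xf (rot p (-s) z)) s := by
        intro s _
        have h1 : HasDerivAt (fun t : ℝ => rot p t z) (I * (rot p (-s) z - p)) (-s) :=
          hasDerivAt_rot p z (-s)
        have h2 : HasDerivAt (fun s : ℝ => rot p (-s) z) (-(I * (rot p (-s) z - p))) s := by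
          have := h1.scomp s (hasDerivAt_neg s)
          simpa [Function.comp_def] using this
        have h3 : HasFDerivAt f (fderiv ℝ f (rot p (-s) z)) (rot p (-s) z) :=
          (hf.differentiable (by simp) _).hasFDerivAt
        have h4 := h3.comp_hasDerivAt s h2
        rw [map_neg] at h4
        exact h4
      have hcont : Continuous fun s : ℝ => -Xf (rot p (-s) z) := by
        refine (hXc.comp ?_).neg
        exact (continuous_rot2 p).comp (continuous_neg.prodMk continuous_const)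
      have := intervalIntegral.integral_eq_sub_of_hasDerivAt hd (hcont.intervalIntegrable _ _)
      rw [this]
      simp [rot_zero]
    -- assemble
    have e4 : (∫ z in ball p R, f (rot p (-θ) z) * F z) - ∫ z in ball p R, f z * F z =
        ∫ z in ball p R, ∫ s in (0:ℝ)..θ, F z * (-Xf (rot p (-s) z)) := by
      rw [← integral_sub]
      · refine integral_congr_ae (Eventually.of_forall fun z => ?_)
        simp only
        rw [intervalIntegral.integral_const_mul, ← e3]
        ring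
      · refine Integrable.bdd_mul hFi0 ?_ (c := C) (Eventually.of_forall fun z => hC _)
        exact (hf.continuous.comp (continuous_rot p (-θ))).aestronglyMeasurable
      · exact hbm _ hFi0
    have e5 : ∫ z in ball p R, ∫ s in (0:ℝ)..θ, F z * (-Xf (rot p (-s) z)) =
        ∫ s in (0:ℝ)..θ, ∫ z in ball p R, F z * (-Xf (rot p (-s) z)) := by
      apply swap
      have hm : Measurable (Function.uncurry fun (z : ℂ) (s : ℝ) => F z * (-Xf (rot p (-s) z))) := by
        refine (hF.comp measurable_fst).mul ?_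
        refine (hXc.comp ?_).measurable.neg
        exact (continuous_rot2 p).comp (continuous_snd.neg.prodMk continuous_fst)
      refine Integrable.mono' (integrable_const (M * C')) hm.aestronglyMeasurable ?_
      refine Eventually.of_forall fun q => ?_
      simp only [Function.uncurry]
      rw [norm_mul, norm_neg]
      exact mul_le_mul (by simpa using hM _) (hC' _) (norm_nonneg _)
        ((abs_nonneg _).trans (hM 0))
    have e6 : ∀ s : ℝ, ∫ z in ball p R, F z * (-Xf (rot p (-s) z)) =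
        ∫ z in ball p R, f z * ang p G (rot p s z) := by
      intro s
      have hcs : HasCompactSupport (fun z => f (rot p (-s) z)) :=
        hc.comp_isClosedEmbedding (rotH p (-s)).isClosedEmbedding
      have hts : tsupport (fun z => f (rot p (-s) z)) ⊆ ball p R := by
        have h1 : tsupport (fun z => f (rot p (-s) z)) ⊆ rot p (-s) ⁻¹' tsupport f :=
          tsupport_comp_subset_preimage f (continuous_rot p (-s))
        intro z hz
        exact (rot_mem_ball (-s)).mp (hs (h1 hz))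
      have h1 := angular hF hM hG hW (hf.comp (contDiff_rot p (-s))) hcs hts
      have h2 : ∀ z, fderiv ℝ (fun z => f (rot p (-s) z)) z (I * (z - p)) =
          Xf (rot p (-s) z) := by
        intro z
        have h3 : HasFDerivAt f (fderiv ℝ f (rot p (-s) z)) (rot p (-s) z) :=
          (hf.differentiable (by simp) _).hasFDerivAt
        have h4 := (h3.comp z (hasFDerivAt_rot p (-s) z)).fderiv
        have h5 : fderiv ℝ (fun z => f (rot p (-s) z)) z =
          (fderiv ℝ f (rot p (-s) z)).comp ((ContinuousLinearMap.mul ℝ ℂ (exp ((-s : ℝ) * I)))) :=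
          h4
        rw [h5, hXf]
        simp only [ContinuousLinearMap.comp_apply, ContinuousLinearMap.mul_apply', rot_sub]
        congr 1
        ring
      have h3 : ∫ z in ball p R, F z * (-Xf (rot p (-s) z)) =
          - ∫ z in ball p R, F z * fderiv ℝ (fun z => f (rot p (-s) z)) z (I * (z - p)) := by
        rw [← integral_neg]
        refine integral_congr_ae (Eventually.of_forall fun z => ?_)
        simp only [h2]
        ring
      rw [h3]
      have h4 : ∫ z in ball p R, F z * fderiv ℝ (fun z => f (rot p (-s) z)) z (I * (z - p)) =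
          - ∫ z in ball p R, f (rot p (-s) z) * G z (I * (z - p)) := h1
      rw [h4, neg_neg]
      rw [← integral_ball_rot p R s (fun z => f (rot p (-s) z) * G z (I * (z - p)))]
      simp only [rot_neg_rot, ang]
    have e7 : ∫ z in ball p R, f z * H z =
        ∫ s in (0:ℝ)..θ, ∫ z in ball p R, f z * ang p G (rot p s z) := by
      rw [← swap]
      · refine integral_congr_ae (Eventually.of_forall fun z => ?_)
        simp only [hH]
        rw [intervalIntegral.integral_const_mul]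
      · refine Integrable.bdd_mul hji ?_ (c := C) (Eventually.of_forall fun q => hC _)
        exact (hf.continuous.comp continuous_fst).aestronglyMeasurable
    rw [e1, e2, e4, e5, e7]
    simp only [e6]
    ring
  have := isOpen_ball.ae_eq_zero_of_integral_contDiff_smul_eq_zero
    (μ := volume) (f := fun z => F (rot p θ z) - F z - H z) hdi.locallyIntegrableOn key
  filter_upwards [this] with z hz hzb
  have := hz hzb
  linarith

/-! ### polar coordinates -/

open KGL2_52 in
/-- joint measurability of the angular primitive. -/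
lemma measurable_prim (p : ℂ) {G : ℂ → (ℂ →L[ℝ] ℝ)} (hGm : Measurable G) :
    Measurable (fun x : ℝ × ℂ => ∫ s in (0:ℝ)..x.1, ang p G (rot p s x.2)) := by
  have hangm := measurable_ang p hGm
  have hg : Measurable (fun y : (ℝ × ℂ) × ℝ => ang p G (rot p y.2 y.1.2)) := by
    refine hangm.comp ?_
    exact ((continuous_rot2 p).comp (continuous_snd.prodMk
      (continuous_snd.comp continuous_fst))).measurable
  have h1 : Measurable (fun x : ℝ × ℂ => ∫ s in Ioc (0:ℝ) x.1, ang p G (rot p s x.2)) := by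
    have hm : Measurable (fun y : (ℝ × ℂ) × ℝ =>
        {y : (ℝ × ℂ) × ℝ | 0 < y.2 ∧ y.2 ≤ y.1.1}.indicator
          (fun y => ang p G (rot p y.2 y.1.2)) y) := by
      apply hg.indicator
      exact (measurableSet_lt measurable_const measurable_snd).inter
        (measurableSet_le measurable_snd (measurable_fst.comp measurable_fst))
    have h2 := (hm.stronglyMeasurable.integral_prod_right' (ν := (volume : Measure ℝ))).measurable
    convert h2 using 2 with x
    rw [← integral_indicator measurableSet_Ioc]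
    refine integral_congr_ae (Eventually.of_forall fun s => ?_)
    simp only [indicator, mem_Ioc, mem_ofPred_eq]
  have h2 : Measurable (fun x : ℝ × ℂ => ∫ s in Ioc x.1 (0:ℝ), ang p G (rot p s x.2)) := by
    have hm : Measurable (fun y : (ℝ × ℂ) × ℝ =>
        {y : (ℝ × ℂ) × ℝ | y.1.1 < y.2 ∧ y.2 ≤ 0}.indicator
          (fun y => ang p G (rot p y.2 y.1.2)) y) := by
      apply hg.indicator
      exact (measurableSet_lt (measurable_fst.comp measurable_fst) measurable_snd).inter
        (measurableSet_le measurable_snd measurable_const)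
    have h2 := (hm.stronglyMeasurable.integral_prod_right' (ν := (volume : Measure ℝ))).measurable
    convert h2 using 2 with x
    rw [← integral_indicator measurableSet_Ioc]
    refine integral_congr_ae (Eventually.of_forall fun s => ?_)
    simp only [indicator, mem_Ioc, mem_ofPred_eq]
  exact h1.sub h2

/-- the angular component at a polar point. -/
lemma ang_pt (p : ℂ) (G : ℂ → (ℂ →L[ℝ] ℝ)) (r φ : ℝ) :
    ang p G (KGL2_52.pt p r φ) = G (p + r * exp (φ * I)) (I * (r * exp (φ * I))) := by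
  unfold ang
  rw [KGL2_52.pt_sub]
  rfl

lemma prim_pt (p : ℂ) (G : ℂ → (ℂ →L[ℝ] ℝ)) (r φ θ : ℝ) :
    ∫ s in (0:ℝ)..θ, ang p G (rot p s (KGL2_52.pt p r φ)) =
      ∫ s in φ..(φ + θ), G (p + r * exp (s * I)) (I * (r * exp (s * I))) := by
  have h : ∀ s : ℝ, ang p G (rot p s (KGL2_52.pt p r φ)) =
      (fun s : ℝ => G (p + r * exp (s * I)) (I * (r * exp (s * I)))) (φ + s) := by
    intro s
    rw [rot_pt, ang_pt]
  simp only [h]
  rw [intervalIntegral.integral_comp_add_left
    (fun s : ℝ => G (p + r * exp (s * I)) (I * (r * exp (s * I))))]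
  simp

lemma integrableOn_of_sq {p : ℂ} {R : ℝ} {G : ℂ → (ℂ →L[ℝ] ℝ)} (hG : Measurable G)
    (h : IntegrableOn (fun t => ‖G t‖ ^ 2) (ball p R)) : IntegrableOn G (ball p R) := by
  have hfin : IsFiniteMeasure (volume.restrict (ball p R)) :=
    ⟨by rw [Measure.restrict_apply_univ]; exact measure_ball_lt_top⟩
  refine Integrable.mono' ((integrable_const (1:ℝ)).add h) hG.aestronglyMeasurable ?_
  refine Eventually.of_forall fun z => ?_
  simp only [Pi.add_apply]
  nlinarith [sq_nonneg (‖G z‖ - 1), norm_nonneg (G z)]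

/-- almost every circle: all angles at once. -/
lemma ae_circle {p : ℂ} {R M : ℝ} {F : ℂ → ℝ} {G : ℂ → (ℂ →L[ℝ] ℝ)}
    (hF : Measurable F) (hM : ∀ t, |F t| ≤ M) (hGm : Measurable G)
    (hG : IntegrableOn G (ball p R)) (hW : Weak1 (ball p R) F G) :
    ∀ᵐ r ∂KGL2_52.m1, ∀ᵐ φ ∂KGL2_52.m2, ∀ᵐ θ : ℝ, r < R →
      F (KGL2_52.pt p r (φ + θ)) - F (KGL2_52.pt p r φ) =
        ∫ s in (0:ℝ)..θ, ang p G (rot p s (KGL2_52.pt p r φ)) := by
  have h1 : ∀ θ : ℝ, ∀ᵐ q ∂(KGL2_52.m1.prod KGL2_52.m2), q.1 < R →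
      F (KGL2_52.pt p q.1 (q.2 + θ)) - F (KGL2_52.pt p q.1 q.2) =
        ∫ s in (0:ℝ)..θ, ang p G (rot p s (KGL2_52.pt p q.1 q.2)) := by
    intro θ
    have h2 := increment hF hM hGm hG hW θ
    have h3 := KGL2_52.null_prod (ae_iff.mp h2) p
    have h4 : ∀ᵐ q ∂(KGL2_52.m1.prod KGL2_52.m2), (0:ℝ) < q.1 := by
      rw [← KGL2_52.prod_eq]
      filter_upwards [ae_restrict_mem (measurableSet_Ioi.prod measurableSet_Ioo)] with q hq
      exact hq.1
    filter_upwards [h3, h4] with q hq hq0 hqR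
    have h5 : KGL2_52.pt p q.1 q.2 ∈ ball p R := by
      rw [mem_ball, dist_eq_norm, KGL2_52.norm_pt_sub p hq0.le]
      exact hqR
    have h6 : (KGL2_52.pt p q.1 q.2 ∈ ball p R →
      F (rot p θ (KGL2_52.pt p q.1 q.2)) - F (KGL2_52.pt p q.1 q.2) =
        ∫ s in (0:ℝ)..θ, ang p G (rot p s (KGL2_52.pt p q.1 q.2))) := by
      by_contra hcon
      exact hq hcon
    have h7 := h6 h5
    rw [rot_pt] at h7
    exact h7
  have hmeas : MeasurableSet {x : ℝ × (ℝ × ℝ) | x.2.1 < R →
      F (KGL2_52.pt p x.2.1 (x.2.2 + x.1)) - F (KGL2_52.pt p x.2.1 x.2.2) =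
        ∫ s in (0:ℝ)..x.1, ang p G (rot p s (KGL2_52.pt p x.2.1 x.2.2))} := by
    have e : {x : ℝ × (ℝ × ℝ) | x.2.1 < R →
      F (KGL2_52.pt p x.2.1 (x.2.2 + x.1)) - F (KGL2_52.pt p x.2.1 x.2.2) =
        ∫ s in (0:ℝ)..x.1, ang p G (rot p s (KGL2_52.pt p x.2.1 x.2.2))} =
      {x : ℝ × (ℝ × ℝ) | x.2.1 < R}ᶜ ∪ {x : ℝ × (ℝ × ℝ) |
      F (KGL2_52.pt p x.2.1 (x.2.2 + x.1)) - F (KGL2_52.pt p x.2.1 x.2.2) =
        ∫ s in (0:ℝ)..x.1, ang p G (rot p s (KGL2_52.pt p x.2.1 x.2.2))} := by
      ext x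
      simp only [mem_ofPred_eq, mem_union, mem_compl_iff]
      tauto
    rw [e]
    have hc := KGL2_52.continuous_pt2 p
    refine MeasurableSet.union ?_ ?_
    · exact (measurableSet_lt (measurable_fst.comp measurable_snd) measurable_const).compl
    · refine measurableSet_eq_fun ?_ ?_
      · refine Measurable.sub ?_ ?_
        · refine hF.comp ?_
          exact (hc.comp ((continuous_fst.comp continuous_snd).prodMk
            ((continuous_snd.comp continuous_snd).add continuous_fst))).measurable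
        · refine hF.comp ?_
          exact (hc.comp ((continuous_fst.comp continuous_snd).prodMk
            (continuous_snd.comp continuous_snd))).measurable
      · exact (measurable_prim p hGm).comp (measurable_fst.prodMk
          (hc.comp ((continuous_fst.comp continuous_snd).prodMk
            (continuous_snd.comp continuous_snd))).measurable)
  have h2 := (Measure.ae_ae_comm (μ := (volume : Measure ℝ))
    (ν := KGL2_52.m1.prod KGL2_52.m2) hmeas).mp (Eventually.of_forall h1)
  exact Measure.ae_ae_of_ae_prod h2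

theorem polar : POLAR := by
  intro p R M F G hR hF hG hM hG2 hW
  have hGi := integrableOn_of_sq hG hG2
  have h1 := ae_circle hF hM hG hGi hW
  -- integrability on the circles
  set N : ℂ → ENNReal := (ball p R).indicator fun z => ENNReal.ofReal ‖G z‖ with hN
  have hNm : Measurable N := (hG.norm.ennreal_ofReal).indicator measurableSet_ball
  have hNf : ∫⁻ z, N z ≠ ⊤ := by
    rw [hN, lintegral_indicator measurableSet_ball]
    have := hGi.norm.lintegral_lt_top
    exact this.ne
  have h2 := (KGL2_52.fin_prod hNm hNf p).1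
  have hle : (volume.restrict (Ioo 0 R) : Measure ℝ) ≤ KGL2_52.m1 :=
    Measure.restrict_mono Ioo_subset_Ioi_self le_rfl
  have h1' := ae_mono hle h1
  have h2' := ae_mono hle h2
  filter_upwards [h1', h2', ae_restrict_mem measurableSet_Ioo] with r hr1 hr2 hr
  have hr0 : 0 < r := hr.1
  have hmem : ∀ φ : ℝ, KGL2_52.pt p r φ ∈ ball p R := by
    intro φ
    rw [mem_ball, dist_eq_norm, KGL2_52.norm_pt_sub p hr0.le]
    exact hr.2
  have hIoc : (volume.restrict (Ioc (-Real.pi) Real.pi) : Measure ℝ) = KGL2_52.m2 :=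
    (Measure.restrict_congr_set Ioo_ae_eq_Ioc).symm
  constructor
  · have hm : Measurable (fun φ : ℝ => ‖G (KGL2_52.pt p r φ)‖) :=
      (hG.comp ((KGL2_52.continuous_pt2 p).comp
        (continuous_const.prodMk continuous_id)).measurable).norm
    have h3 : ∫⁻ φ, ENNReal.ofReal r * N (KGL2_52.pt p r φ) ∂KGL2_52.m2 =
        ENNReal.ofReal r * ∫⁻ φ, ENNReal.ofReal ‖G (KGL2_52.pt p r φ)‖ ∂KGL2_52.m2 := by
      rw [← lintegral_const_mul' _ _ ENNReal.ofReal_ne_top]
      refine lintegral_congr fun φ => ?_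
      rw [hN, indicator_of_mem (hmem φ)]
    rw [h3] at hr2
    have h4 : ∫⁻ φ, ENNReal.ofReal ‖G (KGL2_52.pt p r φ)‖ ∂KGL2_52.m2 < ⊤ := by
      by_contra hcon
      rw [not_lt, top_le_iff] at hcon
      rw [hcon, ENNReal.mul_top] at hr2
      · exact lt_irrefl _ hr2
      · simpa using hr0
    have h5 : Integrable (fun φ : ℝ => ‖G (KGL2_52.pt p r φ)‖) KGL2_52.m2 := by
      refine ⟨hm.aestronglyMeasurable, ?_⟩
      rw [hasFiniteIntegral_iff_ofReal (Eventually.of_forall fun _ => norm_nonneg _)]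
      exact h4
    unfold IntegrableOn
    rw [hIoc]
    exact h5
  · rw [hIoc]
    filter_upwards [hr1] with φ₁ hφ
    apply ae_mono (Measure.restrict_le_self : KGL2_52.m2 ≤ volume)
    have h3 : ∀ᵐ φ₂ : ℝ, r < R →
        F (KGL2_52.pt p r (φ₁ + (φ₂ - φ₁))) - F (KGL2_52.pt p r φ₁) =
        ∫ s in (0:ℝ)..(φ₂ - φ₁), ang p G (rot p s (KGL2_52.pt p r φ₁)) :=
      (measurePreserving_sub_right volume φ₁).quasiMeasurePreserving.ae hφ
    filter_upwards [h3] with φ₂ h4
    have h5 := h4 hr.2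
    rw [prim_pt, add_sub_cancel] at h5
    exact h5

theorem polar0 : POLAR0 := by
  intro p R M F G hR hF hG hM hG2 hW
  have hGi := integrableOn_of_sq hG hG2
  have h2 := increment hF hM hG hGi hW (2 * Real.pi)
  have h3 := Measure.ae_ae_of_ae_prod (KGL2_52.null_prod (ae_iff.mp h2) p)
  have hle : (volume.restrict (Ioo 0 R) : Measure ℝ) ≤ KGL2_52.m1 :=
    Measure.restrict_mono Ioo_subset_Ioi_self le_rfl
  filter_upwards [ae_mono hle h3, ae_restrict_mem measurableSet_Ioo] with r hr1 hr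
  have hne : (KGL2_52.m2 : Measure ℝ) ≠ 0 := by
    intro h
    have h4 : (KGL2_52.m2 : Measure ℝ) univ = 0 := by rw [h]; simp
    rw [Measure.restrict_apply_univ, Real.volume_Ioo] at h4
    have : 0 < Real.pi - -Real.pi := by linarith [Real.pi_pos]
    simp only [ENNReal.ofReal_eq_zero] at h4
    linarith
  have : NeBot (ae (KGL2_52.m2 : Measure ℝ)) := ae_neBot.mpr hne
  obtain ⟨φ, hφ⟩ := hr1.exists
  have hmem : KGL2_52.pt p r φ ∈ ball p R := by
    rw [mem_ball, dist_eq_norm, KGL2_52.norm_pt_sub p hr.1.le]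
    exact hr.2
  have h6 : (KGL2_52.pt p r φ ∈ ball p R →
      F (rot p (2 * Real.pi) (KGL2_52.pt p r φ)) - F (KGL2_52.pt p r φ) =
        ∫ s in (0:ℝ)..(2 * Real.pi), ang p G (rot p s (KGL2_52.pt p r φ))) := by
    by_contra hcon
    exact hφ hcon
  have h7 := h6 hmem
  have hper : ∀ s : ℝ, exp (((s + 2 * Real.pi : ℝ) : ℂ) * I) = exp (s * I) := by
    intro s
    have : (((s + 2 * Real.pi : ℝ) : ℂ) * I) = s * I + 2 * Real.pi * I := by
      push_cast
      ring
    rw [this, Complex.exp_periodic]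
  have h8 : rot p (2 * Real.pi) (KGL2_52.pt p r φ) = KGL2_52.pt p r φ := by
    rw [rot_pt]
    unfold KGL2_52.pt
    rw [hper]
  rw [h8, sub_self, prim_pt] at h7
  have hfper : Function.Periodic
      (fun s : ℝ => G (p + r * exp (s * I)) (I * (r * exp (s * I)))) (2 * Real.pi) := by
    intro s
    simp only [hper]
  have h9 := hfper.intervalIntegral_add_eq φ (-Real.pi)
  rw [← h7] at h9
  have e : (-Real.pi + 2 * Real.pi) = Real.pi := by ring
  rw [e] at h9
  exact h9.symm

end

end Crest.Agent.R235.WKPol_347
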