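import Crest.Agent.R235.WKG_460
import Crest.Agent.R235.CylDec_734
import Crest.Agent.R235.CylDef_607
import Crest.Agent.R235.CylDef_522
import Crest.Agent.R235.LocClus_305
import Crest.Agent.R235.WKPol_347_Mg
import Crest.Agent.R235.CylAlg_895_Mg
import Crest.Agent.R235.CylDisi_333_Mg
import Crest.Agent.R235.NWIface_334
import Crest.Agent.R235.LocDef_607
import Crest.Agent.R235.LocSel_483

-- ▼ part R235/CylWeak_601
section

/-!
Row 235 (S0364), PACKAGE REG, REG-CYL C7 (helper601): weak derivatives of the fibre sums and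
integrability of the energy.
-/

set_option autoImplicit false

open MeasureTheory Metric Set Filter Complex
open scoped ContDiff Topology

namespace Crest.Agent.R235.CylWeak_601

open Crest.Agent.R235.Loc Crest.Agent.R235.Cyl

noncomputable section

/-- fibre sums commute with multiplication by a function of the base point. -/
theorem FS_mul (m : Measure CC) (g : ℂ → ℝ) (Φ : CC → ℝ) (z : ℂ) :
    FS m (fun p => g p.1 * Φ p) z = g z * FS m Φ z := by
  unfold FS
  have h := smul_finsum (g z) fun w => ∑ᶠ (_ : w ∈ fib m z), Φ (z, w)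
  simp only [smul_eq_mul] at h
  rw [h]
  refine finsum_congr fun w => ?_
  have h2 := smul_finsum (g z) fun (_ : w ∈ fib m z) => Φ (z, w)
  simp only [smul_eq_mul] at h2
  exact h2.symm

theorem slo_apply (X Y : CC) (e : ℂ) :
    slo X Y e = (hh X Y)⁻¹ • (e.re • (V1 X Y).2 + e.im • (VI X Y).2) := by
  simp [slo]

section

variable {μ β : CC → ℂ} {κ L : ℝ} {c : ℂ} {R ρ K : ℝ} {m : Measure CC} {X Y : CC → CC}

theorem measurable_hh (hB : BoxCur μ β c R ρ K m X Y) : Measurable fun p => hh (X p) (Y p) := by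
  have hX := hB.mX
  have hY := hB.mY
  unfold hh
  fun_prop

theorem measurable_V1 (hB : BoxCur μ β c R ρ K m X Y) :
    Measurable fun p => V1 (X p) (Y p) := by
  have hX := hB.mX
  have hY := hB.mY
  unfold V1
  fun_prop

theorem measurable_VI (hB : BoxCur μ β c R ρ K m X Y) :
    Measurable fun p => VI (X p) (Y p) := by
  have hX := hB.mX
  have hY := hB.mY
  unfold VI
  fun_prop

theorem measurable_slo_apply (hB : BoxCur μ β c R ρ K m X Y) (e : ℂ) :
    Measurable fun p => slo (X p) (Y p) e := by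
  simp only [slo_apply]
  exact (measurable_hh hB).inv.smul
    (((measurable_V1 hB).snd.const_smul e.re).add ((measurable_VI hB).snd.const_smul e.im))

/-- auxiliary norm function -/
def nu (q : ℂ × ℂ) : ℝ := ‖(reCLM.smulRight q.1 + imCLM.smulRight q.2 : ℂ →L[ℝ] ℂ)‖

theorem measurable_nu : Measurable nu := by
  have h : Continuous nu := by
    unfold nu
    refine Continuous.norm (Continuous.add ?_ ?_)
    · exact (ContinuousLinearMap.smulRightL ℝ ℂ ℂ reCLM).continuous.comp continuous_fst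
    · exact (ContinuousLinearMap.smulRightL ℝ ℂ ℂ imCLM).continuous.comp continuous_snd
  exact h.measurable

theorem measurable_slo_norm (hB : BoxCur μ β c R ρ K m X Y) :
    Measurable fun p => ‖slo (X p) (Y p)‖ := by
  have h2 : (fun p => ‖slo (X p) (Y p)‖) = fun p => ‖(hh (X p) (Y p))⁻¹‖ *
      nu ((V1 (X p) (Y p)).2, (VI (X p) (Y p)).2) := by
    funext p
    rw [slo, norm_smul]
    rfl
  rw [h2]
  have h3 : Measurable fun p => ((V1 (X p) (Y p)).2, (VI (X p) (Y p)).2) :=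
    (measurable_V1 hB).snd.prodMk (measurable_VI hB).snd
  exact (measurable_hh hB).inv.norm.mul (measurable_nu.comp h3)

/-- pointwise facts from `ALG0`. -/
theorem alg (h0 : ALG0) (hS : SBox μ β κ L) (hB : BoxCur μ β c R ρ K m X Y) :
    ∃ C : ℝ, 0 < C ∧ ∀ p, 0 ≤ hh (X p) (Y p) ∧ hh (X p) (Y p) ≤ C ∧
      ‖slo (X p) (Y p)‖ ^ 2 * hh (X p) (Y p) ≤ C ∧
      ∀ e : ℂ, e.re • V1 (X p) (Y p) + e.im • VI (X p) (Y p) =
        hh (X p) (Y p) • (e, slo (X p) (Y p) e) := by
  obtain ⟨C₀, c₀, -, hC, h⟩ := h0 κ L K hS.box.κ0 hS.box.κ1 hS.box.L0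
  refine ⟨C₀, hC, fun p => ?_⟩
  obtain ⟨h1, h2, -, -, h3, h4, h5, h6, -, -, h7⟩ :=
    h μ β hS p (X p) (Y p) (hB.nX p) (hB.nY p) (hB.jz p) (hB.jw p)
  refine ⟨h1, h2, ?_, fun e => ?_⟩
  · rcases h1.eq_or_lt with h8 | h8
    · rw [← h8, mul_zero]
      exact hC.le
    · exact (h7 h8).2
  · rw [slo_apply]
    have hfst : (e.re • V1 (X p) (Y p) + e.im • VI (X p) (Y p)).1 = hh (X p) (Y p) • e := by
      rw [h3, h4]
      simp only [Prod.fst_add, Prod.smul_fst]
      apply Complex.ext <;> simp <;> ring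
    refine Prod.ext hfst ?_
    simp only [Prod.snd_add, Prod.smul_snd]
    rcases h1.eq_or_lt with h8 | h8
    · have h9 : (V1 (X p) (Y p)).2 = 0 := by
        rw [← h8, mul_zero] at h5
        exact norm_eq_zero.1 (pow_eq_zero_iff two_ne_zero |>.1 (le_antisymm h5 (sq_nonneg _)))
      have h10 : (VI (X p) (Y p)).2 = 0 := by
        rw [← h8, mul_zero] at h6
        exact norm_eq_zero.1 (pow_eq_zero_iff two_ne_zero |>.1 (le_antisymm h6 (sq_nonneg _)))
      rw [← h8, h9, h10]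
      simp
    · rw [smul_smul, mul_inv_cancel₀ h8.ne', one_smul]

/-- functions which are continuous in `p`, times bounded measurable weights, are integrable. -/
theorem integrable_of_bound (hB : BoxCur μ β c R ρ K m X Y) {F : CC → ℝ} (hF : Measurable F)
    {G : CC → ℝ} (hG : Continuous G) {C : ℝ} (h : ∀ p, |F p| ≤ G p * C) : Integrable F m := by
  have := hB.fin
  have hK : IsCompact (closedBall c R ×ˢ closedBall (0 : ℂ) ρ) :=
    (isCompact_closedBall c R).prod (isCompact_closedBall 0 ρ)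
  obtain ⟨A, hA⟩ := hK.exists_bound_of_continuousOn (hG.mul continuous_const : Continuous
    fun p => G p * C).continuousOn
  refine Integrable.of_bound hF.aestronglyMeasurable A ?_
  filter_upwards [hB.supp] with p hp
  have h1 : p ∈ closedBall c R ×ˢ closedBall (0 : ℂ) ρ :=
    ⟨ball_subset_closedBall hp.1, by rw [mem_closedBall, dist_zero_right]; exact hp.2⟩
  rw [Real.norm_eq_abs]
  exact (h p).trans ((le_abs_self _).trans (hA p h1))

end

theorem weak_of (h0 : ALG0) (hc : CLO) (hd : DISI) : WEAK := by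
  intro μ β κ L hS c R ρ K m X Y hB
  obtain ⟨C, hC, hA⟩ := alg h0 hS hB
  have hsn := measurable_slo_norm hB
  have hmh := measurable_hh hB
  refine ⟨?_, ?_⟩
  · refine (hd μ β κ L hS c R ρ K m X Y hB (fun p => ‖slo (X p) (Y p)‖ ^ 2) (hsn.pow_const 2)
      ?_).1
    refine integrable_of_bound hB ((hsn.pow_const 2).mul hmh) (G := fun _ => 1) continuous_const
      (C := C) fun p => ?_
    rw [abs_of_nonneg (mul_nonneg (sq_nonneg _) (hA p).1), one_mul]
    exact (hA p).2.2.1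
  intro Φ hΦ f hf hfc hfs e
  have hdf : Continuous (fderiv ℝ f) := hf.continuous_fderiv one_ne_zero
  have hdΦ : Continuous (fderiv ℝ Φ) := hΦ.continuous_fderiv one_ne_zero
  have hfd : Differentiable ℝ f := hf.differentiable one_ne_zero
  have hΦd : Differentiable ℝ Φ := hΦ.differentiable one_ne_zero
  let Φ1 : CC → ℝ := fun p => fderiv ℝ f p.1 e * Φ p
  let Ψ : CC → ℝ := fun p => fderiv ℝ Φ p (e, slo (X p) (Y p) e)
  let Φ2 : CC → ℝ := fun p => f p.1 * Ψ p
  have hΨm : Measurable Ψ := by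
    have h1 : Ψ = fun p => fderiv ℝ Φ p (e, 0) + ((slo (X p) (Y p) e).re * fderiv ℝ Φ p (0, 1)
        + (slo (X p) (Y p) e).im * fderiv ℝ Φ p (0, I)) := by
      funext p
      have h2 : ((e, slo (X p) (Y p) e) : CC) = (e, 0) + ((slo (X p) (Y p) e).re • (0, 1)
          + (slo (X p) (Y p) e).im • (0, I)) := by
        refine Prod.ext ?_ ?_
        · simp
        · apply Complex.ext <;> simp
      change fderiv ℝ Φ p (e, slo (X p) (Y p) e) = _
      rw [h2, map_add, map_add, map_smul, map_smul]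
      simp only [smul_eq_mul]
    rw [h1]
    have h3 := measurable_slo_apply hB e
    have h4 : ∀ v : CC, Measurable fun p => fderiv ℝ Φ p v := fun v =>
      (hdΦ.clm_apply continuous_const).measurable
    exact (h4 _).add (((Complex.measurable_re.comp h3).mul (h4 _)).add
      ((Complex.measurable_im.comp h3).mul (h4 _)))
  have hc1 : Continuous Φ1 :=
    ((hdf.comp continuous_fst).clm_apply continuous_const).mul hΦ.continuous
  have hm2 : Measurable Φ2 := (hf.continuous.comp continuous_fst).measurable.mul hΨm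
  have hi1 : Integrable (fun p => Φ1 p * hh (X p) (Y p)) m := by
    refine integrable_of_bound hB (hc1.measurable.mul hmh) (G := fun p => |Φ1 p|) hc1.abs
      (C := C) fun p => ?_
    rw [abs_mul, abs_of_nonneg (hA p).1]
    exact mul_le_mul_of_nonneg_left (hA p).2.1 (abs_nonneg _)
  have hi2 : Integrable (fun p => Φ2 p * hh (X p) (Y p)) m := by
    refine integrable_of_bound hB (hm2.mul hmh)
      (G := fun p => |f p.1| * (‖fderiv ℝ Φ p‖ * ‖e‖))
      (((hf.continuous.comp continuous_fst).abs).mul (hdΦ.norm.mul continuous_const))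
      (C := 2 * C) fun p => ?_
    have h1 : |Ψ p| ≤ ‖fderiv ℝ Φ p‖ * (‖e‖ * (1 + ‖slo (X p) (Y p)‖)) := by
      refine ((fderiv ℝ Φ p).le_opNorm _).trans (mul_le_mul_of_nonneg_left ?_ (norm_nonneg _))
      rw [Prod.norm_mk]
      have h2 := (slo (X p) (Y p)).le_opNorm e
      have h3 := norm_nonneg e
      have h4 := norm_nonneg (slo (X p) (Y p))
      refine max_le (by nlinarith) (by nlinarith)
    have h2 : (1 + ‖slo (X p) (Y p)‖) * hh (X p) (Y p) ≤ 2 * C := by
      obtain ⟨h3, h4, h5, -⟩ := hA p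
      nlinarith [sq_nonneg (‖slo (X p) (Y p)‖ - 1), mul_nonneg (sq_nonneg (‖slo (X p) (Y p)‖ - 1)) h3]
    rw [abs_mul, abs_of_nonneg (hA p).1, abs_mul]
    calc |f p.1| * |Ψ p| * hh (X p) (Y p)
        ≤ |f p.1| * (‖fderiv ℝ Φ p‖ * (‖e‖ * (1 + ‖slo (X p) (Y p)‖))) * hh (X p) (Y p) :=
          mul_le_mul_of_nonneg_right (mul_le_mul_of_nonneg_left h1 (abs_nonneg _)) (hA p).1
      _ = |f p.1| * (‖fderiv ℝ Φ p‖ * ‖e‖) * ((1 + ‖slo (X p) (Y p)‖) * hh (X p) (Y p)) := by
          ring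
      _ ≤ |f p.1| * (‖fderiv ℝ Φ p‖ * ‖e‖) * (2 * C) :=
          mul_le_mul_of_nonneg_left h2 (by positivity)
  -- the two closedness identities
  let G : CC → ℝ := fun p => f p.1 * Φ p
  have hG : ContDiff ℝ 1 G := (hf.comp contDiff_fst).mul hΦ
  have hGs : ∃ T ⊆ ball c R, IsCompact T ∧ ∀ p : CC, p.1 ∉ T → G p = 0 := by
    refine ⟨tsupport f, hfs, hfc, fun p hp => ?_⟩
    change f p.1 * Φ p = 0
    rw [image_eq_zero_of_notMem_tsupport hp, zero_mul]
  obtain ⟨hc1', hcI', -, -⟩ := hc μ β κ L hS c R ρ K m X Y hB G hG hGs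
  have hfG : ∀ (p v : CC), fderiv ℝ G p v = fderiv ℝ f p.1 v.1 * Φ p + f p.1 * fderiv ℝ Φ p v := by
    intro p v
    have h1 : HasFDerivAt (fun p : CC => f p.1)
        ((fderiv ℝ f p.1).comp (ContinuousLinearMap.fst ℝ ℂ ℂ)) p :=
      (hfd p.1).hasFDerivAt.comp p hasFDerivAt_fst
    have h2 := h1.mul (hΦd p).hasFDerivAt
    have h3 : fderiv ℝ G p = _ := h2.fderiv
    rw [h3]
    simp
    ring
  have hkey : ∀ p, e.re * fderiv ℝ G p (V1 (X p) (Y p)) + e.im * fderiv ℝ G p (VI (X p) (Y p)) =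
      Φ1 p * hh (X p) (Y p) + Φ2 p * hh (X p) (Y p) := by
    intro p
    have h1 : e.re * fderiv ℝ G p (V1 (X p) (Y p)) + e.im * fderiv ℝ G p (VI (X p) (Y p)) =
        fderiv ℝ G p (e.re • V1 (X p) (Y p) + e.im • VI (X p) (Y p)) := by
      rw [map_add, map_smul, map_smul, smul_eq_mul, smul_eq_mul]
    rw [h1, (hA p).2.2.2 e, map_smul, hfG, smul_eq_mul]
    simp only [Φ1, Φ2, Ψ]
    ring
  have hiV : ∀ V : CC → CC, (Measurable V) → (∀ p, ‖V p‖ ≤ (‖X p‖ * ‖Y p‖) * 2) →
      Integrable (fun p => fderiv ℝ G p (V p)) m := by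
    intro V hV hVb
    have hdG : Continuous (fderiv ℝ G) := hG.continuous_fderiv one_ne_zero
    have hmes : Measurable fun p => fderiv ℝ G p (V p) := by
      have h1 : (fun p => fderiv ℝ G p (V p)) = fun p =>
          ((V p).1.re * fderiv ℝ G p (1, 0) + (V p).1.im * fderiv ℝ G p (I, 0))
          + ((V p).2.re * fderiv ℝ G p (0, 1) + (V p).2.im * fderiv ℝ G p (0, I)) := by
        funext p
        have h2 : V p = ((V p).1.re • ((1, 0) : CC) + (V p).1.im • ((I, 0) : CC)) +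
            ((V p).2.re • ((0, 1) : CC) + (V p).2.im • ((0, I) : CC)) := by
          refine Prod.ext ?_ ?_
          · apply Complex.ext <;> simp
          · apply Complex.ext <;> simp
        conv_lhs => rw [h2]
        rw [map_add, map_add, map_add, map_smul, map_smul, map_smul, map_smul]
        simp only [smul_eq_mul]
      rw [h1]
      have h4 : ∀ v : CC, Measurable fun p => fderiv ℝ G p v := fun v =>
        (hdG.clm_apply continuous_const).measurable
      exact (((Complex.measurable_re.comp hV.fst).mul (h4 _)).add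
        ((Complex.measurable_im.comp hV.fst).mul (h4 _))).add
        (((Complex.measurable_re.comp hV.snd).mul (h4 _)).add
        ((Complex.measurable_im.comp hV.snd).mul (h4 _)))
    refine integrable_of_bound hB hmes (G := fun p => ‖fderiv ℝ G p‖) hdG.norm
      (C := |K| * 2) fun p => ?_
    refine ((fderiv ℝ G p).le_opNorm _).trans (mul_le_mul_of_nonneg_left ?_ (norm_nonneg _))
    refine (hVb p).trans ?_
    rw [hB.nX p, one_mul]
    have := (hB.nY p).trans (le_abs_self K)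
    linarith
  have hnorm : ∀ (a b : ℝ) (U W : CC), |a| ≤ ‖W‖ → |b| ≤ ‖U‖ → ‖a • U - b • W‖ ≤ ‖U‖ * ‖W‖ * 2 := by
    intro a b U W ha hb
    refine (norm_sub_le _ _).trans ?_
    rw [norm_smul, norm_smul, Real.norm_eq_abs, Real.norm_eq_abs]
    nlinarith [norm_nonneg U, norm_nonneg W, mul_le_mul_of_nonneg_right ha (norm_nonneg U),
      mul_le_mul_of_nonneg_right hb (norm_nonneg W)]
  have hre : ∀ U : CC, |U.1.re| ≤ ‖U‖ := fun U =>
    (Complex.abs_re_le_norm _).trans (norm_fst_le U)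
  have him : ∀ U : CC, |U.1.im| ≤ ‖U‖ := fun U =>
    (Complex.abs_im_le_norm _).trans (norm_fst_le U)
  have hI1 := hiV _ (measurable_V1 hB) fun p => hnorm _ _ _ _ (him _) (him _)
  have hII := hiV _ (measurable_VI hB) fun p => by
    have := hnorm (X p).1.re (Y p).1.re (Y p) (X p) (hre _) (hre _)
    rwa [mul_comm ‖Y p‖] at this
  have hsum : ∫ p, Φ1 p * hh (X p) (Y p) ∂m + ∫ p, Φ2 p * hh (X p) (Y p) ∂m = 0 := by
    rw [← integral_add hi1 hi2]
    rw [← integral_congr_ae (Eventually.of_forall hkey)]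
    rw [integral_add (hI1.const_mul _) (hII.const_mul _), integral_const_mul, integral_const_mul,
      hc1', hcI']
    ring
  obtain ⟨-, hd1⟩ := hd μ β κ L hS c R ρ K m X Y hB Φ1 hc1.measurable hi1
  obtain ⟨hd2, hd3⟩ := hd μ β κ L hS c R ρ K m X Y hB Φ2 hm2 hi2
  rw [hd1, hd3] at hsum
  have hF1 : ∀ z, FS m Φ1 z = fderiv ℝ f z e * FS m Φ z := fun z =>
    FS_mul m (fun z => fderiv ℝ f z e) Φ z
  have hF2 : ∀ z, FS m Φ2 z = f z * FS m Ψ z := fun z => FS_mul m f Ψ z
  have hF2' : FS m Φ2 = fun z => f z * FS m Ψ z := funext hF2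
  refine ⟨?_, ?_⟩
  · rw [hF2'] at hd2
    exact hd2
  · rw [← setIntegral_congr_fun measurableSet_ball fun z _ => hF1 z, eq_neg_iff_add_eq_zero]
    rw [hF2'] at hsum
    exact hsum

end

end Crest.Agent.R235.CylWeak_601
end

-- ▼ part R235/CylSupp_305
section

/-!
Row 235 (S0364), package REG-CYL, leaf C12 (`SUPP`): the support of the current over the small disc
is the graph of the extended fibres `S`.
-/

set_option autoImplicit false

open MeasureTheory Metric Set Filter Complex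
open scoped ContDiff Topology ComplexConjugate

namespace Crest.Agent.R235.CylSupp_305

open Crest.Agent.R235.Loc Crest.Agent.R235.Cyl_522 Crest.Agent.R235.LocClus_305

noncomputable section

/-! ### the vertical test form -/

def dxz : ℂ × ℂ →L[ℝ] ℝ := reCLM.comp (ContinuousLinearMap.snd ℝ ℂ ℂ)

def dyz : ℂ × ℂ →L[ℝ] ℝ := imCLM.comp (ContinuousLinearMap.snd ℝ ℂ ℂ)

/-- `h ↦ h.2.re dy - h.2.im dx`. -/
def Ml : ℂ × ℂ →L[ℝ] (ℂ × ℂ →L[ℝ] ℝ) := dxz.smulRight dyz - dyz.smulRight dxz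

theorem Ml_apply (h k : ℂ × ℂ) : Ml h k = h.2.re * k.2.im - h.2.im * k.2.re := by
  simp [Ml, dxz, dyz]

def Mf (z : ℂ) (x : ℂ × ℂ) : ℂ × ℂ →L[ℝ] ℝ := Ml x - Ml (0, z)

theorem Mf_apply (z : ℂ) (x k : ℂ × ℂ) :
    Mf z x k = (x.2 - z).re * k.2.im - (x.2 - z).im * k.2.re := by
  simp only [Mf, sub_apply, Ml_apply, sub_re, sub_im]
  ring

theorem hasFDerivAt_Mf (z : ℂ) (x : ℂ × ℂ) : HasFDerivAt (Mf z) Ml x :=
  (Ml.hasFDerivAt (x := x)).sub_const _

theorem contDiff_Mf (z : ℂ) : ContDiff ℝ ∞ (Mf z) := Ml.contDiff.sub contDiff_const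

theorem fderiv_form {g : ℂ × ℂ → ℝ} {z : ℂ} {x : ℂ × ℂ} (hg : DifferentiableAt ℝ g x)
    (h k : ℂ × ℂ) : fderiv ℝ (fun y => g y • Mf z y) x h k =
      g x * Ml h k + fderiv ℝ g x h * Mf z x k := by
  have e : HasFDerivAt (fun y => g y • Mf z y)
      (g x • Ml + (fderiv ℝ g x).smulRight (Mf z x)) x :=
    hg.hasFDerivAt.smul (hasFDerivAt_Mf z x)
  rw [e.fderiv]
  simp

theorem vec_zero {μ β : ℂ} {A : ℂ × ℂ} (h : A.1 = 0) : vec μ β A = (0, A.2) := by
  simp [vec, h]

/-- on a vertical plane `ds` is a divergence. -/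
theorem dS_vert {μ β : ℂ × ℂ → ℂ} {A : ℂ × ℂ → ℂ × ℂ} {g : ℂ × ℂ → ℝ} {z : ℂ} {x : ℂ × ℂ}
    (hg : DifferentiableAt ℝ g x) (h1 : (A x).1 = 0) (h2 : ‖(A x).2‖ ^ 2 = 1) :
    dS μ β A (fun y => g y • Mf z y) x = fderiv ℝ g x (0, x.2 - z) + 2 * g x := by
  have h1' : (I • A x).1 = 0 := by simp [h1]
  have hI : (I • A x).2 = I * (A x).2 := by simp
  have lin : ∀ a : ℂ, fderiv ℝ g x (0, a) =
      a.re * fderiv ℝ g x (0, 1) + a.im * fderiv ℝ g x (0, I) := by
    intro a
    have : ((0 : ℂ), a) = a.re • ((0 : ℂ), (1 : ℂ)) + a.im • ((0 : ℂ), I) := by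
      ext <;> simp
    rw [this, map_add, map_smul, map_smul]
    simp
  have hn : (A x).2.re ^ 2 + (A x).2.im ^ 2 = 1 := by
    rw [← h2, ← Complex.normSq_eq_norm_sq, Complex.normSq_apply]
    ring
  unfold dS
  rw [vec_zero h1, vec_zero h1', hI, fderiv_form hg, fderiv_form hg]
  rw [lin ((A x).2), lin (I * (A x).2), lin (x.2 - z)]
  simp only [Ml_apply, Mf_apply, mul_re, mul_im, I_re, I_im]
  linear_combination
    (((x.2 - z).re * fderiv ℝ g x (0, 1) + (x.2 - z).im * fderiv ℝ g x (0, I)) + 2 * g x) * hn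

theorem dS_zero {μ β : ℂ × ℂ → ℂ} {A : ℂ × ℂ → ℂ × ℂ} {g : ℂ × ℂ → ℝ} {z : ℂ} {x : ℂ × ℂ}
    (hg : DifferentiableAt ℝ g x) (h1 : g x = 0) (h2 : fderiv ℝ g x = 0) :
    dS μ β A (fun y => g y • Mf z y) x = 0 := by
  unfold dS
  rw [fderiv_form hg, fderiv_form hg, h1, h2]
  simp

/-! ### the function -/

/-- the weight. -/
def gf (φ : ℂ → ℝ) (χ : ℝ → ℝ) (z : ℂ) (r : ℝ) (x : ℂ × ℂ) : ℝ :=
  φ x.1 * (χ (‖x.2 - z‖ ^ 2) * (‖x.2 - z‖ ^ 2 + r ^ 2)⁻¹)

theorem contDiff_gf {φ : ℂ → ℝ} {χ : ℝ → ℝ} {z : ℂ} {r : ℝ} (hφ : ContDiff ℝ ∞ φ)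
    (hχ : ContDiff ℝ ∞ χ) (hr : 0 < r) : ContDiff ℝ ∞ (gf φ χ z r) := by
  have hn : ContDiff ℝ ∞ (fun x : ℂ × ℂ => ‖x.2 - z‖ ^ 2) :=
    (contDiff_norm_sq ℝ).comp (contDiff_snd.sub contDiff_const)
  unfold gf
  refine (hφ.comp contDiff_fst).mul ((hχ.comp hn).mul (ContDiff.inv (hn.add contDiff_const) ?_))
  intro x
  positivity

theorem fderiv_gf {φ : ℂ → ℝ} {χ : ℝ → ℝ} {z : ℂ} {r : ℝ} (hφ : ContDiff ℝ ∞ φ)
    (hχ : ContDiff ℝ ∞ χ) (hr : 0 < r) (x : ℂ × ℂ) :
    fderiv ℝ (gf φ χ z r) x (0, x.2 - z) =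
      φ x.1 * ((deriv χ (‖x.2 - z‖ ^ 2) * (2 * ‖x.2 - z‖ ^ 2)) * (‖x.2 - z‖ ^ 2 + r ^ 2)⁻¹ +
        χ (‖x.2 - z‖ ^ 2) * (-(2 * ‖x.2 - z‖ ^ 2) / (‖x.2 - z‖ ^ 2 + r ^ 2) ^ 2)) := by
  have hd : DifferentiableAt ℝ (gf φ χ z r) x :=
    (contDiff_gf hφ hχ hr).differentiable (by simp) x
  have h1 : HasDerivAt (fun τ : ℝ => gf φ χ z r (x + τ • ((0 : ℂ), x.2 - z)))
      (fderiv ℝ (gf φ χ z r) x (0, x.2 - z)) 0 := hd.hasFDerivAt.hasLineDerivAt _
  have h2 : (fun τ : ℝ => gf φ χ z r (x + τ • ((0 : ℂ), x.2 - z))) = fun τ : ℝ =>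
      φ x.1 * (χ ((1 + τ) ^ 2 * ‖x.2 - z‖ ^ 2) * ((1 + τ) ^ 2 * ‖x.2 - z‖ ^ 2 + r ^ 2)⁻¹) := by
    funext τ
    have e1 : (x + τ • ((0 : ℂ), x.2 - z)).1 = x.1 := by simp
    have e2 : (x + τ • ((0 : ℂ), x.2 - z)).2 - z = ((1 + τ : ℝ) : ℂ) * (x.2 - z) := by
      simp
      ring
    have e3 : ‖(x + τ • ((0 : ℂ), x.2 - z)).2 - z‖ ^ 2 = (1 + τ) ^ 2 * ‖x.2 - z‖ ^ 2 := by
      rw [e2, norm_mul, mul_pow, Complex.norm_real, Real.norm_eq_abs, sq_abs]
    unfold gf
    rw [e1, e3]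
  rw [h2] at h1
  have hp : HasDerivAt (fun τ : ℝ => (1 + τ) ^ 2 * ‖x.2 - z‖ ^ 2) (2 * ‖x.2 - z‖ ^ 2) 0 := by
    have := ((((hasDerivAt_id (0 : ℝ)).const_add 1).pow 2).mul_const (‖x.2 - z‖ ^ 2))
    simpa using this
  have hχd : HasDerivAt χ (deriv χ (‖x.2 - z‖ ^ 2)) ((1 + 0 : ℝ) ^ 2 * ‖x.2 - z‖ ^ 2) := by
    have : ((1 + 0 : ℝ) ^ 2 * ‖x.2 - z‖ ^ 2) = ‖x.2 - z‖ ^ 2 := by ring
    rw [this]
    exact (hχ.differentiable (by simp) _).hasDerivAt
  have hA := hχd.comp (0 : ℝ) hp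
  have hB := (hp.add_const (r ^ 2)).inv (by positivity)
  have h3 := (hA.mul hB).const_mul (φ x.1)
  have := h1.unique h3
  rw [this]
  simp

/-- the divergence of the test form on vertical planes. -/
theorem G_eq {φ : ℂ → ℝ} {χ : ℝ → ℝ} {z : ℂ} {r : ℝ} (hφ : ContDiff ℝ ∞ φ)
    (hχ : ContDiff ℝ ∞ χ) (hr : 0 < r) (x : ℂ × ℂ) :
    fderiv ℝ (gf φ χ z r) x (0, x.2 - z) + 2 * gf φ χ z r x =
      2 * φ x.1 * (χ (‖x.2 - z‖ ^ 2) * (r ^ 2 / (‖x.2 - z‖ ^ 2 + r ^ 2) ^ 2) +
        deriv χ (‖x.2 - z‖ ^ 2) * (‖x.2 - z‖ ^ 2 / (‖x.2 - z‖ ^ 2 + r ^ 2))) := by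
  rw [fderiv_gf hφ hχ hr]
  unfold gf
  have : ‖x.2 - z‖ ^ 2 + r ^ 2 ≠ 0 := by positivity
  field_simp
  ring

/-- outside the product of the discs the weight vanishes to first order. -/
theorem gf_out {φ : ℂ → ℝ} {χ : ℝ → ℝ} {t z : ℂ} {r d : ℝ} 
    (h1 : ∀ t', 2 * r < dist t' t → φ t' = 0) (h2 : ∀ s, d ^ 2 < s → χ s = 0) (hd : 0 ≤ d)
    {x : ℂ × ℂ} (hx : x ∉ closedBall t (2 * r) ×ˢ closedBall z d) :
    gf φ χ z r x = 0 ∧ fderiv ℝ (gf φ χ z r) x = 0 := by
  have key : ∀ y ∈ (closedBall t (2 * r) ×ˢ closedBall z d)ᶜ, gf φ χ z r y = 0 := by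
    intro y hy
    unfold gf
    by_cases h : y.1 ∈ closedBall t (2 * r)
    · have h' : y.2 ∉ closedBall z d := fun h' => hy ⟨h, h'⟩
      rw [mem_closedBall, not_le, dist_eq_norm] at h'
      rw [h2 _ (by gcongr)]
      ring
    · rw [mem_closedBall, not_le] at h
      rw [h1 _ h]
      ring
  have hop : IsOpen (closedBall t (2 * r) ×ˢ closedBall z d)ᶜ :=
    (isClosed_closedBall.prod isClosed_closedBall).isOpen_compl
  refine ⟨key x hx, ?_⟩
  have : gf φ χ z r =ᶠ[𝓝 x] fun _ => 0 := by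
    filter_upwards [hop.mem_nhds hx] with y hy using key y hy
  rw [this.fderiv_eq]
  simp

/-! ### the measure -/

theorem vert_of_hor {μ β : ℂ × ℂ → ℂ} {κ L : ℝ} (hco : Coef μ β κ L) {R : ℝ}
    {m : Measure (ℂ × ℂ)} {A : ℂ × ℂ → ℂ × ℂ} {C c : ℝ} (hc : Cyl μ β R m A C c)
    {Q : Set (ℂ × ℂ)} (hQ : MeasurableSet Q) (h0 : hor μ m A Q = 0) :
    ∀ᵐ x ∂m, x ∈ Q → (A x).1 = 0 := by
  have hm : Measurable fun x => ENNReal.ofReal (‖(A x).1‖ ^ 2 / (1 - ‖μ x‖ ^ 2)) := by
    refine ENNReal.measurable_ofReal.comp ((hc.meas.fst.norm.pow_const 2).div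
      (measurable_const.sub (hco.smμ.continuous.measurable.norm.pow_const 2)))
  rw [hor, withDensity_apply _ hQ, lintegral_eq_zero_iff hm] at h0
  have h1 := (ae_restrict_iff' hQ).1 h0
  filter_upwards [h1] with x hx hxQ
  have h2 := hx hxQ
  simp only [Pi.zero_apply, ENNReal.ofReal_eq_zero] at h2
  have h3 : 0 < 1 - ‖μ x‖ ^ 2 := by
    have h4 := hco.bμ x
    have h5 := hco.κ1
    have h6 := norm_nonneg (μ x)
    nlinarith
  have h4 : ‖(A x).1‖ ^ 2 ≤ 0 := by
    by_contra h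
    have := div_pos (not_le.1 h) h3
    linarith
  have h5 : ‖(A x).1‖ = 0 := by
    have := sq_nonneg ‖(A x).1‖
    exact pow_eq_zero_iff (two_ne_zero) |>.1 (le_antisymm h4 this)
  exact norm_eq_zero.1 h5

/-- the test form estimates the mass of a small ball by the mass over the disc. -/
theorem key_ineq {μ β : ℂ × ℂ → ℂ} {R : ℝ}
    {m : Measure (ℂ × ℂ)} {A : ℂ × ℂ → ℂ × ℂ} {C c : ℝ} (hc : Cyl μ β R m A C c)
    {t z : ℂ} {ρ δ : ℝ} (hδ : 0 < δ) (hρ : ball t ρ ⊆ ball (0 : ℂ) (R / 4))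
    (hv : ∀ᵐ x ∂m, x ∈ ball t ρ ×ˢ ball z δ → (A x).1 = 0) :
    ∃ B : ℝ, 0 ≤ B ∧ ∀ r : ℝ, 0 < r → 2 * r < ρ → r ≤ δ / 4 →
      m.real (ball t r ×ˢ ball z r) / (4 * r ^ 2) ≤
        B * m.real (ball t (2 * r) ×ˢ univ) := by
  have : IsFiniteMeasure m := ⟨hc.fin⟩
  let χ : ContDiffBump (0 : ℝ) := ⟨δ ^ 2 / 16, δ ^ 2 / 4, by positivity, by nlinarith⟩
  have hχ : ContDiff ℝ ∞ (χ : ℝ → ℝ) := χ.contDiff
  obtain ⟨B, hB⟩ := (χ.hasCompactSupport.deriv).exists_bound_of_continuous
    (hχ.continuous_deriv (by simp))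
  have hB0 : 0 ≤ B := (norm_nonneg _).trans (hB 0)
  refine ⟨B, hB0, ?_⟩
  intro r hr hrρ hrδ
  let φ : ContDiffBump t := ⟨r, 2 * r, hr, by linarith⟩
  have hφ : ContDiff ℝ ∞ (φ : ℂ → ℝ) := φ.contDiff
  have hφ0 : ∀ t', 2 * r < dist t' t → φ t' = 0 := fun t' h => φ.zero_of_le_dist h.le
  have hχ0 : ∀ s, (δ / 2) ^ 2 < s → χ s = 0 := by
    intro s hs
    refine χ.zero_of_le_dist ?_
    have : (0 : ℝ) ≤ s := le_trans (sq_nonneg _) hs.le
    rw [Real.dist_eq, sub_zero, abs_of_nonneg this]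
    change δ ^ 2 / 4 ≤ s
    nlinarith
  have hdiff : Differentiable ℝ (gf φ χ z r) :=
    (contDiff_gf hφ hχ hr).differentiable (by simp)
  have hout : ∀ x ∉ closedBall t (2 * r) ×ˢ closedBall z (δ / 2),
      gf φ χ z r x = 0 ∧ fderiv ℝ (gf φ χ z r) x = 0 :=
    fun x hx => gf_out hφ0 hχ0 (by positivity) hx
  set G : ℂ × ℂ → ℝ := fun x =>
    fderiv ℝ (gf φ χ z r) x (0, x.2 - z) + 2 * gf φ χ z r x with hG
  have hGc : Continuous G :=
    (((contDiff_gf hφ hχ hr).continuous_fderiv (by simp)).clm_apply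
      (continuous_const.prodMk (continuous_snd.sub continuous_const))).add
      (continuous_const.mul (contDiff_gf hφ hχ hr).continuous)
  have hGs : HasCompactSupport G := by
    refine HasCompactSupport.intro
      ((isCompact_closedBall t (2 * r)).prod (isCompact_closedBall z (δ / 2))) ?_
    intro x hx
    simp [hG, (hout x hx).1, (hout x hx).2]
  have hGi : Integrable G m := hGc.integrable_of_hasCompactSupport hGs
  have hG0 : ∫ x, G x ∂m = 0 := by
    have hR := hc.R0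
    have hcl := hc.closed (fun y => gf φ χ z r y • Mf z y)
      ((contDiff_gf hφ hχ hr).smul (contDiff_Mf z)) ⟨R / 4, by linarith, ?_⟩
    · rw [← hcl]
      refine integral_congr_ae ?_
      filter_upwards [hv] with x hx
      by_cases hxK : x ∈ closedBall t (2 * r) ×ˢ closedBall z (δ / 2)
      · have hxQ : x ∈ ball t ρ ×ˢ ball z δ :=
          ⟨closedBall_subset_ball hrρ hxK.1, closedBall_subset_ball (by linarith) hxK.2⟩
        have h1 := hx hxQ
        have h2 := hc.unit x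
        rw [h1] at h2
        simp only [norm_zero, ne_eq, OfNat.ofNat_ne_zero, not_false_eq_true, zero_pow,
          zero_add] at h2
        rw [dS_vert (hdiff x) h1 h2]
      · rw [dS_zero (hdiff x) (hout x hxK).1 (hout x hxK).2]
        simp [hG, (hout x hxK).1, (hout x hxK).2]
    · intro x hx
      have h1 : x.1 ∉ closedBall t (2 * r) := by
        intro h
        have := hρ (closedBall_subset_ball hrρ h)
        rw [mem_ball, dist_zero_right] at this
        linarith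
      have h2 : x ∉ closedBall t (2 * r) ×ˢ closedBall z (δ / 2) := fun h => h1 h.1
      simp [(hout x h2).1]
  have hlow : ∀ x, (1 / (2 * r ^ 2)) * (ball t r ×ˢ ball z r).indicator (fun _ => (1 : ℝ)) x -
      2 * B * (ball t (2 * r) ×ˢ univ).indicator (fun _ => (1 : ℝ)) x ≤ G x := by
    intro x
    rw [hG]
    simp only
    rw [G_eq hφ hχ hr x]
    set s : ℝ := ‖x.2 - z‖ ^ 2 with hs
    have hs0 : 0 ≤ s := by positivity
    have hr2 : 0 < r ^ 2 := by positivity
    have hN : 0 < s + r ^ 2 := by positivity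
    have e1 : 0 ≤ s / (s + r ^ 2) := by positivity
    have e2 : s / (s + r ^ 2) ≤ 1 := by
      rw [div_le_one hN]
      linarith
    have e3 : -B ≤ deriv χ s := by
      have := hB s
      rw [Real.norm_eq_abs] at this
      exact (abs_le.1 this).1
    have e4 : -B ≤ deriv χ s * (s / (s + r ^ 2)) := by
      have : -B * 1 ≤ -B * (s / (s + r ^ 2)) :=
        mul_le_mul_of_nonpos_left e2 (by linarith)
      have h' : -B * (s / (s + r ^ 2)) ≤ deriv χ s * (s / (s + r ^ 2)) :=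
        mul_le_mul_of_nonneg_right e3 e1
      linarith
    have e5 : 0 ≤ χ s * (r ^ 2 / (s + r ^ 2) ^ 2) := mul_nonneg χ.nonneg (by positivity)
    have e6 : 0 ≤ φ x.1 := φ.nonneg
    have e7 : φ x.1 ≤ 1 := φ.le_one
    by_cases hx1 : x.1 ∈ ball t (2 * r)
    · have i2 : (ball t (2 * r) ×ˢ (univ : Set ℂ)).indicator (fun _ => (1 : ℝ)) x = 1 :=
        indicator_of_mem (show x ∈ ball t (2 * r) ×ˢ (univ : Set ℂ) from ⟨hx1, mem_univ _⟩) _
      rw [i2]
      by_cases hx2 : x ∈ ball t r ×ˢ ball z r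
      · rw [indicator_of_mem hx2]
        have f1 : φ x.1 = 1 := φ.one_of_mem_closedBall (ball_subset_closedBall hx2.1)
        have f2 : s < r ^ 2 := by
          have := mem_ball.1 hx2.2
          rw [dist_eq_norm] at this
          rw [hs]
          gcongr
        have f3 : χ s = 1 := by
          refine χ.one_of_mem_closedBall ?_
          rw [mem_closedBall, Real.dist_eq, sub_zero, abs_of_nonneg hs0]
          change s ≤ δ ^ 2 / 16
          have : r ^ 2 ≤ (δ / 4) ^ 2 := by gcongr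
          nlinarith
        have f4 : 1 / (4 * r ^ 2) ≤ r ^ 2 / (s + r ^ 2) ^ 2 := by
          rw [div_le_div_iff₀ (by positivity) (by positivity)]
          have : (s + r ^ 2) ^ 2 ≤ (2 * r ^ 2) ^ 2 := by gcongr; linarith
          nlinarith
        rw [f1, f3]
        have f5 : 1 / (2 * r ^ 2) = 2 * (1 / (4 * r ^ 2)) := by
          field_simp
          norm_num
        rw [f5]
        nlinarith
      · rw [indicator_of_notMem hx2]
        have : -B * 1 ≤ φ x.1 * (χ s * (r ^ 2 / (s + r ^ 2) ^ 2) +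
            deriv χ s * (s / (s + r ^ 2))) := by
          have g1 : -B ≤ χ s * (r ^ 2 / (s + r ^ 2) ^ 2) + deriv χ s * (s / (s + r ^ 2)) := by
            linarith
          have g2 := mul_le_mul_of_nonneg_left g1 e6
          have g3 : -B * 1 ≤ φ x.1 * -B := by nlinarith
          linarith
        linarith
    · have i1 : x ∉ ball t r ×ˢ ball z r := by
        intro h
        exact hx1 (ball_subset_ball (by linarith) h.1)
      have i2 : x ∉ ball t (2 * r) ×ˢ (univ : Set ℂ) := fun h => hx1 h.1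
      have i3 : φ x.1 = 0 := φ.zero_of_le_dist (by simpa using hx1)
      rw [indicator_of_notMem i1, indicator_of_notMem i2, i3]
      simp
  have hm1 : MeasurableSet (ball t r ×ˢ ball z r) := measurableSet_ball.prod measurableSet_ball
  have hm2 : MeasurableSet (ball t (2 * r) ×ˢ (univ : Set ℂ)) :=
    measurableSet_ball.prod MeasurableSet.univ
  have hint1 : Integrable (fun x => (1 / (2 * r ^ 2)) *
      (ball t r ×ˢ ball z r).indicator (fun _ => (1 : ℝ)) x) m :=
    ((integrable_const (1 : ℝ)).indicator hm1).const_mul _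
  have hint2 : Integrable (fun x => 2 * B *
      (ball t (2 * r) ×ˢ (univ : Set ℂ)).indicator (fun _ => (1 : ℝ)) x) m :=
    ((integrable_const (1 : ℝ)).indicator hm2).const_mul _
  have hmono := integral_mono (hint1.sub hint2) hGi hlow
  have hlhs : ∫ x, ((1 / (2 * r ^ 2)) *
      (ball t r ×ˢ ball z r).indicator (fun _ => (1 : ℝ)) x -
      2 * B * (ball t (2 * r) ×ˢ univ).indicator (fun _ => (1 : ℝ)) x) ∂m =
      (1 / (2 * r ^ 2)) * m.real (ball t r ×ˢ ball z r) -
        2 * B * m.real (ball t (2 * r) ×ˢ univ) := by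
    rw [integral_sub hint1 hint2, integral_const_mul, integral_const_mul,
      integral_indicator hm1, integral_indicator hm2]
    simp
  have hfin : (1 / (2 * r ^ 2)) * m.real (ball t r ×ˢ ball z r) -
        2 * B * m.real (ball t (2 * r) ×ˢ univ) ≤ 0 := by
    rw [← hlhs, ← hG0]
    exact hmono
  have : m.real (ball t r ×ˢ ball z r) / (4 * r ^ 2) =
      (1 / (2 * r ^ 2)) * m.real (ball t r ×ˢ ball z r) / 2 := by
    field_simp
    norm_num
  rw [this]
  linarith

/-- `hor` vanishes over a box which is missed by `S`. -/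
theorem hor_zero {μ β : ℂ × ℂ → ℂ} {R : ℝ} {m : Measure (ℂ × ℂ)} {A : ℂ × ℂ → ℂ × ℂ} {k : ℕ}
    {T : ℂ → Finset ℂ} (hF : Fib μ β R m A k T) {C' b : ℝ} {S : ℂ → Multiset ℂ}
    (hS : ExtF μ β R m A k T C' b S) {t z : ℂ} {ρ δ : ℝ} (hρ : ball t ρ ⊆ ball (0 : ℂ) (R / 4))
    (hfar : ∀ t' ∈ ball t ρ, ∀ b' ∈ S t', b' ∉ ball z δ) :
    hor μ m A (ball t ρ ×ˢ ball z δ) = 0 := by
  have hm : MeasurableSet (ball t ρ ×ˢ ball z δ) := measurableSet_ball.prod measurableSet_ball
  have h1 := (hF.dis ((ball t ρ ×ˢ ball z δ).indicator 1)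
    (measurable_one.indicator hm)).2
  rw [lintegral_indicator_one hm] at h1
  rw [h1]
  have h2 : ∀ᵐ t' ∂(volume.restrict (ball (0 : ℂ) R)),
      ∑ z' ∈ T t', (ball t ρ ×ˢ ball z δ).indicator (1 : ℂ × ℂ → ENNReal) (t', z') = 0 := by
    refine ae_restrict_of_ae ?_
    filter_upwards [hS.ae] with t' ht'
    refine Finset.sum_eq_zero ?_
    intro z' hz'
    refine indicator_of_notMem ?_ _
    rintro ⟨h3, h4⟩
    have h5 := ht' (hρ h3)
    refine hfar t' h3 z' ?_ h4
    rw [h5]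
    exact hz'
  rw [lintegral_congr_ae h2]
  simp

theorem mem_of_supp {μ β : ℂ × ℂ → ℂ} {κ L : ℝ} (hco : Coef μ β κ L) {R : ℝ}
    {m : Measure (ℂ × ℂ)} {A : ℂ × ℂ → ℂ × ℂ} {C c : ℝ} (hc : Cyl μ β R m A C c) {k : ℕ}
    {T : ℂ → Finset ℂ} (hF : Fib μ β R m A k T) {C' b : ℝ} {S : ℂ → Multiset ℂ}
    (hS : ExtF μ β R m A k T C' b S) {t : ℂ} (ht : t ∈ ball (0 : ℂ) (R / 4)) {z : ℂ}
    (hmem : (t, z) ∈ msupp m) : z ∈ S t := by
  by_contra hz
  have : IsFiniteMeasure m := ⟨hc.fin⟩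
  have hR := hc.R0
  obtain ⟨δ', hδ', hgap⟩ := exists_gap z (S t)
  obtain ⟨ρ₁, hρ₁, hb₁⟩ := exists_ball_sub ht
  obtain ⟨ρ₂, hρ₂, hb₂⟩ := exists_rpow_small hS.C0.le hS.b0 (half_pos hδ')
  have hρsub : ball t (min ρ₁ ρ₂) ⊆ ball (0 : ℂ) (R / 4) :=
    (ball_subset_ball (min_le_left _ _)).trans hb₁
  have hfar : ∀ t' ∈ ball t (min ρ₁ ρ₂), ∀ b' ∈ S t', b' ∉ ball z (δ' / 2) := by
    intro t' ht' b' hb' hbz
    have hcl : Multiset.Rel (fun x y => dist x y ≤ C' * dist t t' ^ b) (S t) (S t') :=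
      hS.hold t ht t' (hρsub ht')
    obtain ⟨b₀, hb₀, hbb⟩ := Multiset.exists_mem_of_rel_of_mem (Multiset.rel_flip.2 hcl) hb'
    have hbb' : dist b₀ b' ≤ C' * dist t t' ^ b := hbb
    have h1 : C' * dist t t' ^ b ≤ δ' / 2 := by
      refine hb₂ _ dist_nonneg ?_
      rw [dist_comm]
      exact (mem_ball.1 ht').le.trans (min_le_right _ _)
    have h2 : b₀ ≠ z := fun h => hz (h ▸ hb₀)
    have h3 := hgap b₀ hb₀ h2
    have h4 := dist_triangle b₀ b' z
    have h5 := mem_ball.1 hbz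
    linarith
  have hor0 := hor_zero hF hS hρsub hfar
  have hv := vert_of_hor hco hc (measurableSet_ball.prod measurableSet_ball) hor0
  obtain ⟨B, hB0, hB⟩ := key_ineq hc (half_pos hδ') hρsub hv
  have hb0 := hS.b0
  have hc0 := hc.c0
  obtain ⟨ρ₃, hρ₃, hb₃⟩ := exists_rpow_small (C := B * C') (α := 2 * b) (ε := c / 8)
    (mul_nonneg hB0 hS.C0.le) (by positivity) (by positivity)
  -- the radius
  obtain ⟨r, hr, hr1, hr2, hr3, hr4⟩ : ∃ r : ℝ, 0 < r ∧ 2 * r < min ρ₁ ρ₂ ∧ r ≤ δ' / 2 / 4 ∧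
      2 * r ≤ ρ₃ ∧ r ≤ R / 4 := by
    have h0 : 0 < min (min ρ₁ ρ₂ / 4) (min (δ' / 2 / 4) (min (ρ₃ / 2) (R / 4))) :=
      lt_min (by have := lt_min hρ₁ hρ₂; positivity)
        (lt_min (by positivity) (lt_min (by positivity) (by positivity)))
    refine ⟨_, h0, ?_, ?_, ?_, ?_⟩
    · have h1 := min_le_left (min ρ₁ ρ₂ / 4) (min (δ' / 2 / 4) (min (ρ₃ / 2) (R / 4)))
      have h2 := lt_min hρ₁ hρ₂
      linarith
    · exact (min_le_right _ _).trans (min_le_left _ _)
    · have h1 := (min_le_right (min ρ₁ ρ₂ / 4) (min (δ' / 2 / 4) (min (ρ₃ / 2) (R / 4)))).trans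
        ((min_le_right _ _).trans (min_le_left _ _))
      linarith
    · exact (min_le_right _ _).trans ((min_le_right _ _).trans (min_le_right _ _))
  have htR : ‖t‖ < R / 4 := by simpa using ht
  have hlow := hc.low (t, z) hmem r hr (by simp only; linarith)
  have hlow' : c * r ^ 2 ≤ m.real (ball t r ×ˢ ball z r) := by
    rw [ball_prod_same, measureReal_def]
    exact (ENNReal.ofReal_le_iff_le_toReal (measure_ne_top _ _)).1 hlow
  have hdec := hS.decay t (ball_subset_ball (by linarith) ht) (2 * r) (by positivity)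
    (by linarith)
  have hkey := hB r hr hr1 hr2
  have h8 := hb₃ (2 * r) (by positivity) hr3
  have h9 : m.real (ball t (2 * r) ×ˢ univ) ≤ C' * (2 * r) ^ (2 * b) := hdec
  have h10 : c / 4 ≤ m.real (ball t r ×ˢ ball z r) / (4 * r ^ 2) := by
    rw [div_le_div_iff₀ (by norm_num) (by positivity)]
    nlinarith
  have h11 : B * m.real (ball t (2 * r) ×ˢ univ) ≤ B * (C' * (2 * r) ^ (2 * b)) :=
    mul_le_mul_of_nonneg_left h9 hB0
  have h12 : B * C' * (2 * r) ^ (2 * b) = B * (C' * (2 * r) ^ (2 * b)) := by ring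
  rw [h12] at h8
  linarith

theorem supp_of_mem {μ β : ℂ × ℂ → ℂ} {R : ℝ}
    {m : Measure (ℂ × ℂ)} {A : ℂ × ℂ → ℂ × ℂ} {C c : ℝ} (hc : Cyl μ β R m A C c) {k : ℕ}
    {T : ℂ → Finset ℂ} (hF : Fib μ β R m A k T) {C' b : ℝ} {S : ℂ → Multiset ℂ}
    (hS : ExtF μ β R m A k T C' b S) {t : ℂ} (ht : t ∈ ball (0 : ℂ) (R / 4)) {z : ℂ}
    (hz : z ∈ S t) : (t, z) ∈ msupp m := by
  intro ρ hρ
  have hR := hc.R0
  have hae : ∀ᵐ t' : ℂ, t' ∈ ball (0 : ℂ) (R / 4) →
      S t' = (T t').val ∧ (T t' : Set ℂ) = Kf m t' := by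
    filter_upwards [hS.ae, hF.good] with t' h1 h2 ht'
    exact ⟨h1 ht', (h2 (ball_subset_ball (by linarith) ht')).2.1⟩
  obtain ⟨ρ₁, hρ₁, hb₁⟩ := exists_ball_sub ht
  obtain ⟨ρ₂, hρ₂, hb₂⟩ := exists_rpow_small hS.C0.le hS.b0
    (show (0 : ℝ) < ρ / 4 by positivity)
  obtain ⟨t', hgood, ht'⟩ := (Measure.dense_of_ae hae).exists_mem_open
    (isOpen_ball (x := t) (ε := min (ρ / 2) (min ρ₁ ρ₂)))
    ⟨t, mem_ball_self (lt_min (by positivity) (lt_min hρ₁ hρ₂))⟩
  have hgood' : t' ∈ ball (0 : ℂ) (R / 4) → S t' = (T t').val ∧ (T t' : Set ℂ) = Kf m t' := hgood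
  have hd := mem_ball.1 ht'
  have h1 : dist t' t < ρ / 2 := hd.trans_le (min_le_left _ _)
  have h2 : dist t' t < ρ₁ := hd.trans_le ((min_le_right _ _).trans (min_le_left _ _))
  have h3 : dist t' t < ρ₂ := hd.trans_le ((min_le_right _ _).trans (min_le_right _ _))
  have ht'R : t' ∈ ball (0 : ℂ) (R / 4) := hb₁ (mem_ball.2 h2)
  obtain ⟨h4, h5⟩ := hgood' ht'R
  have hcl : Multiset.Rel (fun x y => dist x y ≤ C' * dist t t' ^ b) (S t) (S t') :=
    hS.hold t ht t' ht'R
  obtain ⟨z', hz', hzz⟩ := Multiset.exists_mem_of_rel_of_mem hcl hz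
  have hzz' : dist z z' ≤ ρ / 4 := by
    refine le_trans hzz (hb₂ _ dist_nonneg ?_)
    rw [dist_comm]
    exact h3.le
  have h6 : (t', z') ∈ msupp m := by
    have h7 : z' ∈ (T t' : Set ℂ) := by
      rw [h4] at hz'
      exact hz'
    rw [h5] at h7
    exact h7
  refine lt_of_lt_of_le (h6 (ρ / 2) (by positivity)) (measure_mono ?_)
  intro y hy
  have h8 := mem_ball.1 hy
  rw [mem_ball, Prod.dist_eq] at *
  rw [max_lt_iff] at h8 ⊢
  have h9 := dist_triangle y.1 t' t
  have h10 := dist_triangle y.2 z' z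
  rw [dist_comm z' z] at h10
  simp only at h8 ⊢
  constructor
  · linarith [h8.1]
  · linarith [h8.2]


end

end Crest.Agent.R235.CylSupp_305
end

-- ▼ part R235/CylSupp_876
section

/-!
Row 235 (S0364), package REG-CYL, leaf C15 (`SUPPS` of `CylDef_607`): the support of a box current
is the graph of the continuous representative `S`. (The scalar estimates are those of
`CylSupp_305`.)
-/

set_option autoImplicit false

open MeasureTheory Metric Set Filter Complex
open scoped ContDiff Topology ComplexConjugate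

namespace Crest.Agent.R235.CylSupp_876

open Crest.Agent.R235.Loc Crest.Agent.R235.Cyl Crest.Agent.R235.LocClus_305
open Crest.Agent.R235.CylSupp_305 (Ml Mf Ml_apply Mf_apply contDiff_Mf fderiv_form gf contDiff_gf
  G_eq gf_out)

noncomputable section

/-- on a vertical plane `d (g M)` is a divergence. -/
theorem dv {g : ℂ × ℂ → ℝ} {z : ℂ} {x X Y : ℂ × ℂ} (hg : DifferentiableAt ℝ g x)
    (h1 : X.1 = 0) (h2 : Y.1 = 0) (h3 : Y.2 = I * X.2) (h4 : ‖X.2‖ = 1) :
    fderiv ℝ (fun y => g y • Mf z y) x X Y - fderiv ℝ (fun y => g y • Mf z y) x Y X =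
      fderiv ℝ g x (0, x.2 - z) + 2 * g x := by
  have eX : X = (0, X.2) := Prod.ext h1 rfl
  have eY : Y = (0, I * X.2) := Prod.ext h2 h3
  have lin : ∀ a : ℂ, fderiv ℝ g x (0, a) =
      a.re * fderiv ℝ g x (0, 1) + a.im * fderiv ℝ g x (0, I) := by
    intro a
    have : ((0 : ℂ), a) = a.re • ((0 : ℂ), (1 : ℂ)) + a.im • ((0 : ℂ), I) := by
      ext <;> simp
    rw [this, map_add, map_smul, map_smul]
    simp
  have hn : X.2.re ^ 2 + X.2.im ^ 2 = 1 := by
    have h5 : ‖X.2‖ ^ 2 = 1 := by rw [h4]; norm_num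
    rw [← h5, ← Complex.normSq_eq_norm_sq, Complex.normSq_apply]
    ring
  generalize X.2 = a at eX eY hn
  subst eX eY
  rw [fderiv_form hg, fderiv_form hg]
  rw [lin a, lin (I * a), lin (x.2 - z)]
  simp only [Ml_apply, Mf_apply, mul_re, mul_im, I_re, I_im]
  linear_combination
    (((x.2 - z).re * fderiv ℝ g x (0, 1) + (x.2 - z).im * fderiv ℝ g x (0, I)) + 2 * g x) * hn

theorem dv_zero {g : ℂ × ℂ → ℝ} {z : ℂ} {x X Y : ℂ × ℂ} (hg : DifferentiableAt ℝ g x)
    (h1 : g x = 0) (h2 : fderiv ℝ g x = 0) :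
    fderiv ℝ (fun y => g y • Mf z y) x X Y - fderiv ℝ (fun y => g y • Mf z y) x Y X = 0 := by
  rw [fderiv_form hg, fderiv_form hg, h1, h2]
  simp

/-- the tangent plane at `p` is vertical. -/
def Vert (X Y : ℂ × ℂ) : Prop := X.1 = 0 ∧ Y.1 = 0 ∧ Y.2 = I * X.2 ∧ ‖X.2‖ = 1

/-- the test form estimates the mass of a small ball by the mass over the disc. -/
theorem key_ineq {μ β : CC → ℂ} {c : ℂ} {R ρ₀ K : ℝ} {m : Measure CC} {X Y : CC → CC}
    (hc : BoxCur μ β c R ρ₀ K m X Y)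
    {t z : ℂ} {ρ δ : ℝ} (hδ : 0 < δ) (hρ : ball t ρ ⊆ ball c R)
    (hv : ∀ᵐ x ∂m, x ∈ ball t ρ ×ˢ ball z δ → Vert (X x) (Y x)) :
    ∃ B : ℝ, 0 ≤ B ∧ ∀ r : ℝ, 0 < r → 2 * r < ρ → r ≤ δ / 4 →
      m.real (ball t r ×ˢ ball z r) / (4 * r ^ 2) ≤
        B * m.real (ball t (2 * r) ×ˢ univ) := by
  have : IsFiniteMeasure m := hc.fin
  let χ : ContDiffBump (0 : ℝ) := ⟨δ ^ 2 / 16, δ ^ 2 / 4, by positivity, by nlinarith⟩
  have hχ : ContDiff ℝ ∞ (χ : ℝ → ℝ) := χ.contDiff
  obtain ⟨B, hB⟩ := (χ.hasCompactSupport.deriv).exists_bound_of_continuous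
    (hχ.continuous_deriv (by simp))
  have hB0 : 0 ≤ B := (norm_nonneg _).trans (hB 0)
  refine ⟨B, hB0, ?_⟩
  intro r hr hrρ hrδ
  let φ : ContDiffBump t := ⟨r, 2 * r, hr, by linarith⟩
  have hφ : ContDiff ℝ ∞ (φ : ℂ → ℝ) := φ.contDiff
  have hφ0 : ∀ t', 2 * r < dist t' t → φ t' = 0 := fun t' h => φ.zero_of_le_dist h.le
  have hχ0 : ∀ s, (δ / 2) ^ 2 < s → χ s = 0 := by
    intro s hs
    refine χ.zero_of_le_dist ?_
    have : (0 : ℝ) ≤ s := le_trans (sq_nonneg _) hs.le
    rw [Real.dist_eq, sub_zero, abs_of_nonneg this]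
    change δ ^ 2 / 4 ≤ s
    nlinarith
  have hdiff : Differentiable ℝ (gf φ χ z r) :=
    (contDiff_gf hφ hχ hr).differentiable (by simp)
  have hout : ∀ x ∉ closedBall t (2 * r) ×ˢ closedBall z (δ / 2),
      gf φ χ z r x = 0 ∧ fderiv ℝ (gf φ χ z r) x = 0 :=
    fun x hx => gf_out hφ0 hχ0 (by positivity) hx
  set G : ℂ × ℂ → ℝ := fun x =>
    fderiv ℝ (gf φ χ z r) x (0, x.2 - z) + 2 * gf φ χ z r x with hG
  have hGc : Continuous G :=
    (((contDiff_gf hφ hχ hr).continuous_fderiv (by simp)).clm_apply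
      (continuous_const.prodMk (continuous_snd.sub continuous_const))).add
      (continuous_const.mul (contDiff_gf hφ hχ hr).continuous)
  have hcpt : IsCompact (closedBall t (2 * r) ×ˢ closedBall z (δ / 2)) :=
    (isCompact_closedBall t (2 * r)).prod (isCompact_closedBall z (δ / 2))
  have hGs : HasCompactSupport G := by
    refine HasCompactSupport.intro hcpt ?_
    intro x hx
    simp [hG, (hout x hx).1, (hout x hx).2]
  have hGi : Integrable G m := hGc.integrable_of_hasCompactSupport hGs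
  have hG0 : ∫ x, G x ∂m = 0 := by
    have hz : ∀ x ∉ closedBall t (2 * r) ×ˢ closedBall z (δ / 2),
        (fun y => gf φ χ z r y • Mf z y) x = 0 := by
      intro x hx
      simp [(hout x hx).1]
    have hcl := hc.closed (fun y => gf φ χ z r y • Mf z y)
      ((contDiff_gf hφ hχ hr).smul (contDiff_Mf z)) (HasCompactSupport.intro hcpt hz) ?_
    · rw [← hcl]
      refine integral_congr_ae ?_
      filter_upwards [hv] with x hx
      by_cases hxK : x ∈ closedBall t (2 * r) ×ˢ closedBall z (δ / 2)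
      · have hxQ : x ∈ ball t ρ ×ˢ ball z δ :=
          ⟨closedBall_subset_ball hrρ hxK.1, closedBall_subset_ball (by linarith) hxK.2⟩
        obtain ⟨h1, h2, h3, h4⟩ := hx hxQ
        rw [dv (hdiff x) h1 h2 h3 h4]
      · rw [dv_zero (hdiff x) (hout x hxK).1 (hout x hxK).2]
        simp [hG, (hout x hxK).1, (hout x hxK).2]
    · have h1 : tsupport (fun y => gf φ χ z r y • Mf z y) ⊆
          closedBall t (2 * r) ×ˢ closedBall z (δ / 2) := by
        refine closure_minimal ?_ hcpt.isClosed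
        intro x hx
        by_contra h
        exact hx (hz x h)
      intro x hx
      have h2 := h1 hx
      exact ⟨hρ (closedBall_subset_ball hrρ h2.1), mem_univ _⟩
  have hlow : ∀ x, (1 / (2 * r ^ 2)) * (ball t r ×ˢ ball z r).indicator (fun _ => (1 : ℝ)) x -
      2 * B * (ball t (2 * r) ×ˢ univ).indicator (fun _ => (1 : ℝ)) x ≤ G x := by
    intro x
    rw [hG]
    simp only
    rw [G_eq hφ hχ hr x]
    set s : ℝ := ‖x.2 - z‖ ^ 2 with hs
    have hs0 : 0 ≤ s := by positivity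
    have hr2 : 0 < r ^ 2 := by positivity
    have hN : 0 < s + r ^ 2 := by positivity
    have e1 : 0 ≤ s / (s + r ^ 2) := by positivity
    have e2 : s / (s + r ^ 2) ≤ 1 := by
      rw [div_le_one hN]
      linarith
    have e3 : -B ≤ deriv χ s := by
      have := hB s
      rw [Real.norm_eq_abs] at this
      exact (abs_le.1 this).1
    have e4 : -B ≤ deriv χ s * (s / (s + r ^ 2)) := by
      have : -B * 1 ≤ -B * (s / (s + r ^ 2)) :=
        mul_le_mul_of_nonpos_left e2 (by linarith)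
      have h' : -B * (s / (s + r ^ 2)) ≤ deriv χ s * (s / (s + r ^ 2)) :=
        mul_le_mul_of_nonneg_right e3 e1
      linarith
    have e5 : 0 ≤ χ s * (r ^ 2 / (s + r ^ 2) ^ 2) := mul_nonneg χ.nonneg (by positivity)
    have e6 : 0 ≤ φ x.1 := φ.nonneg
    have e7 : φ x.1 ≤ 1 := φ.le_one
    by_cases hx1 : x.1 ∈ ball t (2 * r)
    · have i2 : (ball t (2 * r) ×ˢ (univ : Set ℂ)).indicator (fun _ => (1 : ℝ)) x = 1 :=
        indicator_of_mem (show x ∈ ball t (2 * r) ×ˢ (univ : Set ℂ) from ⟨hx1, mem_univ _⟩) _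
      rw [i2]
      by_cases hx2 : x ∈ ball t r ×ˢ ball z r
      · rw [indicator_of_mem hx2]
        have f1 : φ x.1 = 1 := φ.one_of_mem_closedBall (ball_subset_closedBall hx2.1)
        have f2 : s < r ^ 2 := by
          have := mem_ball.1 hx2.2
          rw [dist_eq_norm] at this
          rw [hs]
          gcongr
        have f3 : χ s = 1 := by
          refine χ.one_of_mem_closedBall ?_
          rw [mem_closedBall, Real.dist_eq, sub_zero, abs_of_nonneg hs0]
          change s ≤ δ ^ 2 / 16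
          have : r ^ 2 ≤ (δ / 4) ^ 2 := by gcongr
          nlinarith
        have f4 : 1 / (4 * r ^ 2) ≤ r ^ 2 / (s + r ^ 2) ^ 2 := by
          rw [div_le_div_iff₀ (by positivity) (by positivity)]
          have : (s + r ^ 2) ^ 2 ≤ (2 * r ^ 2) ^ 2 := by gcongr; linarith
          nlinarith
        rw [f1, f3]
        have f5 : 1 / (2 * r ^ 2) = 2 * (1 / (4 * r ^ 2)) := by
          field_simp
          norm_num
        rw [f5]
        nlinarith
      · rw [indicator_of_notMem hx2]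
        have : -B * 1 ≤ φ x.1 * (χ s * (r ^ 2 / (s + r ^ 2) ^ 2) +
            deriv χ s * (s / (s + r ^ 2))) := by
          have g1 : -B ≤ χ s * (r ^ 2 / (s + r ^ 2) ^ 2) + deriv χ s * (s / (s + r ^ 2)) := by
            linarith
          have g2 := mul_le_mul_of_nonneg_left g1 e6
          have g3 : -B * 1 ≤ φ x.1 * -B := by nlinarith
          linarith
        linarith
    · have i1 : x ∉ ball t r ×ˢ ball z r := by
        intro h
        exact hx1 (ball_subset_ball (by linarith) h.1)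
      have i2 : x ∉ ball t (2 * r) ×ˢ (univ : Set ℂ) := fun h => hx1 h.1
      have i3 : φ x.1 = 0 := φ.zero_of_le_dist (by simpa using hx1)
      rw [indicator_of_notMem i1, indicator_of_notMem i2, i3]
      simp
  have hm1 : MeasurableSet (ball t r ×ˢ ball z r) := measurableSet_ball.prod measurableSet_ball
  have hm2 : MeasurableSet (ball t (2 * r) ×ˢ (univ : Set ℂ)) :=
    measurableSet_ball.prod MeasurableSet.univ
  have hint1 : Integrable (fun x => (1 / (2 * r ^ 2)) *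
      (ball t r ×ˢ ball z r).indicator (fun _ => (1 : ℝ)) x) m :=
    ((integrable_const (1 : ℝ)).indicator hm1).const_mul _
  have hint2 : Integrable (fun x => 2 * B *
      (ball t (2 * r) ×ˢ (univ : Set ℂ)).indicator (fun _ => (1 : ℝ)) x) m :=
    ((integrable_const (1 : ℝ)).indicator hm2).const_mul _
  have hmono := integral_mono (hint1.sub hint2) hGi hlow
  have hlhs : ∫ x, ((1 / (2 * r ^ 2)) *
      (ball t r ×ˢ ball z r).indicator (fun _ => (1 : ℝ)) x -
      2 * B * (ball t (2 * r) ×ˢ univ).indicator (fun _ => (1 : ℝ)) x) ∂m =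
      (1 / (2 * r ^ 2)) * m.real (ball t r ×ˢ ball z r) -
        2 * B * m.real (ball t (2 * r) ×ˢ univ) := by
    rw [integral_sub hint1 hint2, integral_const_mul, integral_const_mul,
      integral_indicator hm1, integral_indicator hm2]
    simp
  have hfin : (1 / (2 * r ^ 2)) * m.real (ball t r ×ˢ ball z r) -
        2 * B * m.real (ball t (2 * r) ×ˢ univ) ≤ 0 := by
    rw [← hlhs, ← hG0]
    exact hmono
  have : m.real (ball t r ×ˢ ball z r) / (4 * r ^ 2) =
      (1 / (2 * r ^ 2)) * m.real (ball t r ×ˢ ball z r) / 2 := by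
    field_simp
    norm_num
  rw [this]
  linarith

theorem measurable_hh {X Y : CC → CC} (hX : Measurable X) (hY : Measurable Y) :
    Measurable fun p => hh (X p) (Y p) := by
  unfold hh
  exact ((measurable_re.comp hX.fst).mul (measurable_im.comp hY.fst)).sub
    ((measurable_re.comp hY.fst).mul (measurable_im.comp hX.fst))

/-- over an open box missed by the graph the tangent planes are vertical. -/
theorem vert_of_miss (h0 : ALG0) (hd : DISI) {μ β : CC → ℂ} {κ L : ℝ} (hco : SBox μ β κ L)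
    {c : ℂ} {R ρ₀ K : ℝ} {m : Measure CC} {X Y : CC → CC} (hc : BoxCur μ β c R ρ₀ K m X Y)
    {S : ℂ → Multiset ℂ}
    (hS : ∀ᵐ z : ℂ, z ∈ ball c R → (S z).Nodup ∧ ∀ w, w ∈ S z ↔ w ∈ fib m z)
    {t z : ℂ} {ρ δ : ℝ}
    (hfar : ∀ t' ∈ ball t ρ, ∀ b' ∈ S t', b' ∉ ball z δ) :
    ∀ᵐ x ∂m, x ∈ ball t ρ ×ˢ ball z δ → Vert (X x) (Y x) := by
  have : IsFiniteMeasure m := hc.fin
  obtain ⟨C₀, c₀, hc₀, hC₀, hA⟩ := h0 κ L K hco.box.κ0 hco.box.κ1 hco.box.L0
  have hAp := fun p => hA μ β hco p (X p) (Y p) (hc.nX p) (hc.nY p) (hc.jz p) (hc.jw p)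
  set Q : Set CC := ball t ρ ×ˢ ball z δ with hQ
  have hm : MeasurableSet Q := measurableSet_ball.prod measurableSet_ball
  have hmh := measurable_hh hc.mX hc.mY
  have hint : Integrable (fun p => Q.indicator (fun _ => (1 : ℝ)) p * hh (X p) (Y p)) m := by
    refine Integrable.of_bound (((measurable_const.indicator hm).mul hmh).aestronglyMeasurable)
      C₀ ?_
    refine Eventually.of_forall fun p => ?_
    obtain ⟨a1, a2, -⟩ := hAp p
    rw [norm_mul, Real.norm_eq_abs, Real.norm_eq_abs, abs_of_nonneg a1]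
    by_cases hp : p ∈ Q
    · rw [indicator_of_mem hp]
      simpa using a2
    · rw [indicator_of_notMem hp]
      simpa using hC₀.le
  have h1 := (hd μ β κ L hco c R ρ₀ K m X Y hc (Q.indicator fun _ => (1 : ℝ))
    (measurable_const.indicator hm) hint).2
  have h2 : ∫ z in ball c R, FS m (Q.indicator fun _ => (1 : ℝ)) z = 0 := by
    refine (integral_congr_ae ?_).trans (integral_zero _ _)
    have h3 : ∀ᵐ z' ∂(volume.restrict (ball c R)), z' ∈ ball c R := ae_restrict_mem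
      measurableSet_ball
    filter_upwards [h3, ae_restrict_of_ae hS] with z' hz' hSz
    obtain ⟨-, h4⟩ := hSz hz'
    unfold FS
    refine (finsum_mem_congr rfl fun w hw => ?_).trans (finsum_mem_zero _)
    refine indicator_of_notMem ?_ _
    rintro ⟨h5, h6⟩
    exact hfar z' h5 w ((h4 w).2 hw) h6
  rw [h2] at h1
  have h3 : (fun p => Q.indicator (fun _ => (1 : ℝ)) p * hh (X p) (Y p)) =ᵐ[m] 0 := by
    refine (integral_eq_zero_iff_of_nonneg (fun p => ?_) hint).1 h1
    exact mul_nonneg (indicator_nonneg (fun _ _ => zero_le_one) _) (hAp p).1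
  filter_upwards [h3] with p hp hpQ
  rw [indicator_of_mem hpQ] at hp
  have hp0 : hh (X p) (Y p) = 0 := by simpa using hp
  obtain ⟨-, -, -, -, -, -, -, -, a9, a10, -⟩ := hAp p
  rw [hp0, mul_zero] at a9 a10
  have e1 : (X p).1 = 0 := by
    have := pow_eq_zero_iff (two_ne_zero) |>.1 (le_antisymm a9 (sq_nonneg _))
    exact norm_eq_zero.1 this
  have e2 : (Y p).1 = 0 := by
    have := pow_eq_zero_iff (two_ne_zero) |>.1 (le_antisymm a10 (sq_nonneg _))
    exact norm_eq_zero.1 this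
  have e3 := hc.jw p
  unfold thw at e3
  rw [e1, e2] at e3
  simp only [map_zero, mul_zero, add_zero] at e3
  refine ⟨e1, e2, e3, ?_⟩
  have e4 := hc.nX p
  rw [Prod.norm_def, e1, norm_zero, max_eq_right (norm_nonneg _)] at e4
  exact e4

theorem mem_of_supp (h0 : ALG0) (hd : DISI) (hD : DECAY)
    {μ β : CC → ℂ} {κ L : ℝ} (hco : SBox μ β κ L)
    {c : ℂ} {R ρ₀ K : ℝ} {m : Measure CC} {X Y : CC → CC} (hc : BoxCur μ β c R ρ₀ K m X Y)
    {S : ℂ → Multiset ℂ}
    (hH : ∀ R' < R, ∃ C b : ℝ, 0 ≤ C ∧ 0 < b ∧ ∀ z ∈ ball c R', ∀ z' ∈ ball c R',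
      Close (C * dist z z' ^ b) (S z) (S z'))
    (hS : ∀ᵐ z : ℂ, z ∈ ball c R → (S z).Nodup ∧ ∀ w, w ∈ S z ↔ w ∈ fib m z)
    {t : ℂ} (ht : t ∈ ball c R) {z : ℂ} (hmem : InSupp m (t, z)) : z ∈ S t := by
  by_contra hz
  have : IsFiniteMeasure m := hc.fin
  -- a radius between
  obtain ⟨R', hR'1, hR'2⟩ := exists_between (mem_ball.1 ht)
  have htR' : t ∈ ball c R' := mem_ball.2 hR'1
  obtain ⟨C₁, b₁, hC₁, hb₁0, hhold⟩ := hH R' hR'2
  obtain ⟨C₂, b₂, r₂, hC₂, hb₂0, -, hr₂, -, hdec⟩ :=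
    hD μ β κ L hco c R ρ₀ K m X Y hc R' hR'2
  obtain ⟨c₃, hc₃, r₃, hr₃, hlow⟩ := hc.low R' hR'2
  obtain ⟨δ', hδ', hgap⟩ := exists_gap z (S t)
  obtain ⟨ρ₁, hρ₁, hb₁⟩ := exists_ball_sub htR'
  obtain ⟨ρ₂, hρ₂, hb₂⟩ := exists_rpow_small hC₁ hb₁0 (half_pos hδ')
  have hρsub' : ball t (min ρ₁ ρ₂) ⊆ ball c R' :=
    (ball_subset_ball (min_le_left _ _)).trans hb₁
  have hρsub : ball t (min ρ₁ ρ₂) ⊆ ball c R := hρsub'.trans (ball_subset_ball hR'2.le)
  have hfar : ∀ t' ∈ ball t (min ρ₁ ρ₂), ∀ b' ∈ S t', b' ∉ ball z (δ' / 2) := by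
    intro t' ht' b' hb' hbz
    have hcl : Multiset.Rel (fun x y => dist x y ≤ C₁ * dist t t' ^ b₁) (S t) (S t') :=
      hhold t htR' t' (hρsub' ht')
    obtain ⟨b₀, hb₀, hbb⟩ := Multiset.exists_mem_of_rel_of_mem (Multiset.rel_flip.2 hcl) hb'
    have hbb' : dist b₀ b' ≤ C₁ * dist t t' ^ b₁ := hbb
    have h1 : C₁ * dist t t' ^ b₁ ≤ δ' / 2 := by
      refine hb₂ _ dist_nonneg ?_
      rw [dist_comm]
      exact (mem_ball.1 ht').le.trans (min_le_right _ _)
    have h2 : b₀ ≠ z := fun h => hz (h ▸ hb₀)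
    have h3 := hgap b₀ hb₀ h2
    have h4 := dist_triangle b₀ b' z
    have h5 := mem_ball.1 hbz
    linarith
  have hv := vert_of_miss h0 hd hco hc hS hfar
  obtain ⟨B, hB0, hB⟩ := key_ineq hc (half_pos hδ') hρsub hv
  obtain ⟨ρ₃, hρ₃, hb₃⟩ := exists_rpow_small (C := B * C₂) (α := 2 * b₂) (ε := c₃ / 8)
    (mul_nonneg hB0 hC₂) (by positivity) (by positivity)
  -- the radius
  obtain ⟨r, hr, hr1, hr2, hr3, hr4, hr5⟩ : ∃ r : ℝ, 0 < r ∧ 2 * r < min ρ₁ ρ₂ ∧
      r ≤ δ' / 2 / 4 ∧ 2 * r ≤ ρ₃ ∧ 2 * r ≤ r₂ ∧ r ≤ r₃ := by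
    have h1 := lt_min hρ₁ hρ₂
    have h2 : 0 < min (min ρ₁ ρ₂ / 4) (min (δ' / 2 / 4) (min (ρ₃ / 2) (min (r₂ / 2) r₃))) :=
      lt_min (by positivity) (lt_min (by positivity) (lt_min (by positivity)
        (lt_min (by positivity) hr₃)))
    refine ⟨_, h2, ?_, ?_, ?_, ?_, ?_⟩
    · have h3 := min_le_left (min ρ₁ ρ₂ / 4)
        (min (δ' / 2 / 4) (min (ρ₃ / 2) (min (r₂ / 2) r₃)))
      linarith
    · exact (min_le_right _ _).trans (min_le_left _ _)
    · have h3 := (min_le_right (min ρ₁ ρ₂ / 4)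
        (min (δ' / 2 / 4) (min (ρ₃ / 2) (min (r₂ / 2) r₃)))).trans
        ((min_le_right _ _).trans (min_le_left _ _))
      linarith
    · have h3 := (min_le_right (min ρ₁ ρ₂ / 4)
        (min (δ' / 2 / 4) (min (ρ₃ / 2) (min (r₂ / 2) r₃)))).trans
        ((min_le_right _ _).trans ((min_le_right _ _).trans (min_le_left _ _)))
      linarith
    · exact (min_le_right _ _).trans
        ((min_le_right _ _).trans ((min_le_right _ _).trans (min_le_right _ _)))
  have htc : t ∈ closedBall c R' := ball_subset_closedBall htR'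
  have hlow' : c₃ * r ^ 2 ≤ m.real (ball t r ×ˢ ball z r) := by
    rw [ball_prod_same]
    exact hlow (t, z) htc hmem r hr hr5
  have h9 : m.real (ball t (2 * r) ×ˢ univ) ≤ C₂ * (2 * r) ^ (2 * b₂) := by
    refine le_trans ?_ (hdec t htc (2 * r) (by positivity) hr4).1
    exact measureReal_mono (prod_mono ball_subset_closedBall subset_rfl)
  have hkey := hB r hr hr1 hr2
  have h8 := hb₃ (2 * r) (by positivity) hr3
  have h10 : c₃ / 4 ≤ m.real (ball t r ×ˢ ball z r) / (4 * r ^ 2) := by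
    rw [div_le_div_iff₀ (by norm_num) (by positivity)]
    nlinarith
  have h11 : B * m.real (ball t (2 * r) ×ˢ univ) ≤ B * (C₂ * (2 * r) ^ (2 * b₂)) :=
    mul_le_mul_of_nonneg_left h9 hB0
  have h12 : B * C₂ * (2 * r) ^ (2 * b₂) = B * (C₂ * (2 * r) ^ (2 * b₂)) := by ring
  rw [h12] at h8
  linarith

theorem supp_of_mem
    {c : ℂ} {R : ℝ} {m : Measure CC} {S : ℂ → Multiset ℂ}
    (hH : ∀ R' < R, ∃ C b : ℝ, 0 ≤ C ∧ 0 < b ∧ ∀ z ∈ ball c R', ∀ z' ∈ ball c R',
      Close (C * dist z z' ^ b) (S z) (S z'))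
    (hS : ∀ᵐ z : ℂ, z ∈ ball c R → (S z).Nodup ∧ ∀ w, w ∈ S z ↔ w ∈ fib m z)
    {t : ℂ} (ht : t ∈ ball c R) {z : ℂ} (hz : z ∈ S t) : InSupp m (t, z) := by
  intro ρ hρ
  obtain ⟨R', hR'1, hR'2⟩ := exists_between (mem_ball.1 ht)
  have htR' : t ∈ ball c R' := mem_ball.2 hR'1
  obtain ⟨C₁, b₁, hC₁, hb₁0, hhold⟩ := hH R' hR'2
  obtain ⟨ρ₁, hρ₁, hb₁⟩ := exists_ball_sub htR'
  obtain ⟨ρ₂, hρ₂, hb₂⟩ := exists_rpow_small hC₁ hb₁0 (show (0 : ℝ) < ρ / 4 by positivity)
  obtain ⟨t', hgood, ht'⟩ := (Measure.dense_of_ae hS).exists_mem_open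
    (isOpen_ball (x := t) (ε := min (ρ / 2) (min ρ₁ ρ₂)))
    ⟨t, mem_ball_self (lt_min (by positivity) (lt_min hρ₁ hρ₂))⟩
  have hgood' : t' ∈ ball c R → (S t').Nodup ∧ ∀ w, w ∈ S t' ↔ w ∈ fib m t' := hgood
  have hd := mem_ball.1 ht'
  have h1 : dist t' t < ρ / 2 := hd.trans_le (min_le_left _ _)
  have h2 : dist t' t < ρ₁ := hd.trans_le ((min_le_right _ _).trans (min_le_left _ _))
  have h3 : dist t' t < ρ₂ := hd.trans_le ((min_le_right _ _).trans (min_le_right _ _))
  have ht'R : t' ∈ ball c R' := hb₁ (mem_ball.2 h2)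
  obtain ⟨-, h5⟩ := hgood' (ball_subset_ball hR'2.le ht'R)
  have hcl : Multiset.Rel (fun x y => dist x y ≤ C₁ * dist t t' ^ b₁) (S t) (S t') :=
    hhold t htR' t' ht'R
  obtain ⟨z', hz', hzz⟩ := Multiset.exists_mem_of_rel_of_mem hcl hz
  have hzz' : dist z z' ≤ ρ / 4 := by
    refine le_trans hzz (hb₂ _ dist_nonneg ?_)
    rw [dist_comm]
    exact h3.le
  have h6 : InSupp m (t', z') := (h5 z').1 hz'
  refine lt_of_lt_of_le (h6 (ρ / 2) (by positivity)) (measure_mono ?_)
  intro y hy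
  have h8 := mem_ball.1 hy
  rw [mem_ball, Prod.dist_eq] at *
  rw [max_lt_iff] at h8 ⊢
  have h9 := dist_triangle y.1 t' t
  have h10 := dist_triangle y.2 z' z
  rw [dist_comm z' z] at h10
  simp only at h8 ⊢
  constructor
  · linarith [h8.1]
  · linarith [h8.2]

/-- **C15.** The support is the graph of the continuous representative. -/
theorem supps_of (h0 : ALG0) (_hc : CLO) (hd : DISI) (hD : DECAY) : SUPPS := by
  intro μ β κ L hco c R ρ₀ K m X Y hc _ k S _ hH hS z hz w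
  exact ⟨fun h => supp_of_mem hH hS hz h, fun h => mem_of_supp h0 hd hD hco hc hH hS hz h⟩

end

end Crest.Agent.R235.CylSupp_876
end

-- ▼ part R235/WKFin_460
section

/-! # REG-CYL-2, assembly: `Cyl.DECAY`, `Cyl.REPR`, `Cyl.SUPPS` and the previous leaves, proved. -/

set_option autoImplicit false

open MeasureTheory Metric Set Filter Complex
open scoped Topology ContDiff ComplexConjugate

namespace Crest.Agent.R235.WKFin_460

open Crest.Agent.R235.Loc Crest.Agent.R235.Cyl Crest.Agent.R235.WKG_460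

noncomputable section

/-- C4. -/
theorem isop : ISOP := WKIsop_460.isop_of WKHall_235.hall

/-- C1-C5 for a weak graph. -/
theorem dec (μ β : ℂ × ℂ → ℂ) (c : ℂ) (R : ℝ) (k : ℕ) (s : ℂ → Fin k → ℂ)
    (A : ℂ → Fin k → (ℂ →L[ℝ] ℂ)) (ma : Measure ℂ) (K c0 Mb : ℝ) :
    DEC μ β c R k s A ma K c0 Mb :=
  WKDec_460.dec_of isop (WKBall_463.ball_of μ β c R k s A ma K c0 Mb)
    (WKSlice_659.slice_of WKSep_387.sep WKPol_347.polar WKPol_347.polar0 μ β c R k s A ma K c0 Mb)

/-- C6 for a weak graph. -/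
theorem hrep (μ β : ℂ × ℂ → ℂ) (c : ℂ) (R : ℝ) (k : ℕ) (s : ℂ → Fin k → ℂ)
    (A : ℂ → Fin k → (ℂ →L[ℝ] ℂ)) (ma : Measure ℂ) (K c0 Mb : ℝ) :
    HREP μ β c R k s A ma K c0 Mb :=
  WKHrep_460.hrep_of WKSep_387.sep WKHall_235.hall WKMor_734.morrey
    (dec μ β c R k s A ma K c0 Mb)

theorem alg0 : ALG0 := CylAlg_895.alg0
theorem clo : CLO := CylClo_344.clo
theorem cone : CONE := CylCone_128.cone alg0
theorem const : CONST := CylConst_679.const_of alg0 clo
theorem deg1 : DEG1 := CylDeg_423.deg1_of alg0 cone const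
theorem goodz : GOODZ := CylGood_235.goodz_of alg0 cone
theorem split : SPLIT := CylSplit_800.split_of const deg1 goodz
theorem disi : DISI := CylDisi_333.disi_of alg0 const split
theorem weak : WEAK := CylWeak_601.weak_of alg0 clo disi

theorem boxw : WKOut1_734.BOXW1 := WKBox_348.boxw' alg0 clo goodz split disi

/-- C12. -/
theorem decay : DECAY := WKOut1_734.decay_of boxw dec

/-- C14. -/
theorem repr : REPR := WKOut1_734.repr_of boxw hrep

/-- C15. -/
theorem supps : SUPPS := CylSupp_876.supps_of alg0 clo disi decay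

end

end Crest.Agent.R235.WKFin_460
end

-- ▼ part R235/SheetCore_848
section

/-!
Row 235 (S0364), REG-CYL (helper848): interior regularity of one continuous sheet.

`RW w p q c r` : `w` is continuous on `ball c r` and has the square integrable weak derivative
`v ↦ p v + q v̄` (real test functions).
`smooth_near` : a Hölder `w` with `q = μ(z,w) p - β(z,w)` a.e. is smooth near the centre, given
`Reg1Stmt` and `Reg2Stmt`.
`global` : the same on an open set, with the equation everywhere and `p`, `q` the derivatives a.e.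
-/

set_option autoImplicit false

open MeasureTheory Metric Set Filter Complex
open scoped ContDiff Topology ComplexConjugate

namespace Crest.Agent.R235.SheetCore_848

open Crest.Agent.R235.Loc (lz lzb)
open Crest.Agent.R235.NWDefs_334 Crest.Agent.R235.NWIface_334

noncomputable section

/-- `w` continuous on `ball c r` with square integrable weak derivative `v ↦ p v + q v̄`. -/
structure RW (w p q : ℂ → ℂ) (c : ℂ) (r : ℝ) : Prop where
  cont : ContinuousOn w (ball c r)
  memp : MemLp p 2 (volume.restrict (ball c r))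
  memq : MemLp q 2 (volume.restrict (ball c r))
  weak : ∀ η : ℂ → ℝ, ContDiff ℝ ∞ η → HasCompactSupport η → tsupport η ⊆ ball c r → ∀ v : ℂ,
    ∫ t, fderiv ℝ η t v • w t = - ∫ t, η t • (p t * v + q t * conj v)

/-! ### integrability -/

theorem int_aux {f : ℂ → ℂ} {g : ℂ → ℝ} {K : Set ℂ} (hg : Continuous g) (hK : IsCompact K)
    (hs : ∀ x, x ∉ K → g x = 0) (hf : IntegrableOn f K) : Integrable (fun x => g x • f x) := by
  have h1 : IntegrableOn (fun x => g x • f x) K := hf.continuousOn_smul hg.continuousOn hK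
  refine (integrableOn_iff_integrable_of_support_subset ?_).1 h1
  intro x hx
  by_contra hn
  exact hx (by simp [hs x hn])

theorem tsupp_zero {η : ℂ → ℝ} : ∀ x, x ∉ tsupport η → η x = 0 := fun _ hx =>
  image_eq_zero_of_notMem_tsupport hx

theorem tsupp_fderiv_zero {η : ℂ → ℝ} (v : ℂ) : ∀ x, x ∉ tsupport η → fderiv ℝ η x v = 0 := by
  intro x hx
  have : fderiv ℝ η x = 0 := by
    by_contra hn
    exact hx (support_fderiv_subset ℝ hn)
  simp [this]

theorem int_L2 {p : ℂ → ℂ} {c : ℂ} {r : ℝ} (h : MemLp p 2 (volume.restrict (ball c r)))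
    {K : Set ℂ} (hK : K ⊆ ball c r) : IntegrableOn p K := by
  have : IsFiniteMeasure (volume.restrict (ball c r)) :=
    ⟨by rw [Measure.restrict_apply_univ]; exact measure_ball_lt_top⟩
  exact (show IntegrableOn p (ball c r) volume from h.integrable (by norm_num)).mono_set hK

theorem RW.mono {w p q : ℂ → ℂ} {c c' : ℂ} {r r' : ℝ} (h : RW w p q c r)
    (hs : ball c' r' ⊆ ball c r) : RW w p q c' r' where
  cont := h.cont.mono hs
  memp := h.memp.mono_measure (Measure.restrict_mono hs le_rfl)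
  memq := h.memq.mono_measure (Measure.restrict_mono hs le_rfl)
  weak := fun η h1 h2 h3 v => h.weak η h1 h2 (h3.trans hs) v

theorem RW.int_val {w p q : ℂ → ℂ} {c : ℂ} {r : ℝ} (h : RW w p q c r) {K : Set ℂ}
    (hK : K ⊆ ball c r) (v : ℂ) : IntegrableOn (fun t => p t * v + q t * conj v) K :=
  ((int_L2 h.memp hK).mul_const v).add ((int_L2 h.memq hK).mul_const (conj v))

/-- complex test functions. -/
theorem RW.weakC {w p q : ℂ → ℂ} {c : ℂ} {r : ℝ} (h : RW w p q c r) (φ : ℂ → ℂ)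
    (h1 : ContDiff ℝ ∞ φ) (h2 : HasCompactSupport φ) (h3 : tsupport φ ⊆ ball c r) (v : ℂ) :
    Integrable (fun t => fderiv ℝ φ t v * w t) ∧
    Integrable (fun t => φ t * (p t * v + q t * conj v)) ∧
    ∫ t, fderiv ℝ φ t v * w t = - ∫ t, φ t * (p t * v + q t * conj v) := by
  set φ1 : ℂ → ℝ := fun z => (φ z).re with hφ1
  set φ2 : ℂ → ℝ := fun z => (φ z).im with hφ2
  have d1 : ContDiff ℝ ∞ φ1 := reCLM.contDiff.comp h1
  have d2 : ContDiff ℝ ∞ φ2 := imCLM.contDiff.comp h1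
  have c1 : HasCompactSupport φ1 := h2.comp_left (g := Complex.re) (by simp)
  have c2 : HasCompactSupport φ2 := h2.comp_left (g := Complex.im) (by simp)
  have s1 : tsupport φ1 ⊆ ball c r := (tsupport_comp_subset (g := Complex.re) (by simp) φ).trans h3
  have s2 : tsupport φ2 ⊆ ball c r := (tsupport_comp_subset (g := Complex.im) (by simp) φ).trans h3
  have dφ : Differentiable ℝ φ := h1.differentiable (by simp)
  have e0 : ∀ t, φ t = (φ1 t : ℂ) + (φ2 t : ℂ) * I := fun t => (re_add_im (φ t)).symm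
  have e1 : ∀ t, fderiv ℝ φ1 t v = (fderiv ℝ φ t v).re := by
    intro t
    have := (reCLM.hasFDerivAt (x := φ t)).comp t (dφ t).hasFDerivAt
    have h := this.fderiv
    have : fderiv ℝ φ1 t = reCLM.comp (fderiv ℝ φ t) := h
    rw [this]; rfl
  have e2 : ∀ t, fderiv ℝ φ2 t v = (fderiv ℝ φ t v).im := by
    intro t
    have := (imCLM.hasFDerivAt (x := φ t)).comp t (dφ t).hasFDerivAt
    have h := this.fderiv
    have : fderiv ℝ φ2 t = imCLM.comp (fderiv ℝ φ t) := h
    rw [this]; rfl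
  have e3 : ∀ t, fderiv ℝ φ t v = (fderiv ℝ φ1 t v : ℂ) + (fderiv ℝ φ2 t v : ℂ) * I := by
    intro t; rw [e1, e2]; exact (re_add_im _).symm
  have cd1 : Continuous fun t => fderiv ℝ φ1 t v :=
    (d1.continuous_fderiv (by simp)).clm_apply continuous_const
  have cd2 : Continuous fun t => fderiv ℝ φ2 t v :=
    (d2.continuous_fderiv (by simp)).clm_apply continuous_const
  have i1 : Integrable (fun t => fderiv ℝ φ1 t v • w t) :=
    int_aux cd1 c1.isCompact (tsupp_fderiv_zero v)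
      ((h.cont.mono s1).integrableOn_compact c1.isCompact)
  have i2 : Integrable (fun t => fderiv ℝ φ2 t v • w t) :=
    int_aux cd2 c2.isCompact (tsupp_fderiv_zero v)
      ((h.cont.mono s2).integrableOn_compact c2.isCompact)
  have j1 : Integrable (fun t => φ1 t • (p t * v + q t * conj v)) :=
    int_aux d1.continuous c1.isCompact tsupp_zero (h.int_val s1 v)
  have j2 : Integrable (fun t => φ2 t • (p t * v + q t * conj v)) :=
    int_aux d2.continuous c2.isCompact tsupp_zero (h.int_val s2 v)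
  have w1 := h.weak φ1 d1 c1 s1 v
  have w2 := h.weak φ2 d2 c2 s2 v
  have f1 : (fun t => fderiv ℝ φ t v * w t) =
      fun t => fderiv ℝ φ1 t v • w t + I * (fderiv ℝ φ2 t v • w t) := by
    funext t; rw [e3 t]; simp only [real_smul]; ring
  have f2 : (fun t => φ t * (p t * v + q t * conj v)) =
      fun t => φ1 t • (p t * v + q t * conj v) + I * (φ2 t • (p t * v + q t * conj v)) := by
    funext t; rw [e0 t]; simp only [real_smul]; ring
  rw [f1, f2]
  refine ⟨i1.add (i2.const_mul I), j1.add (j2.const_mul I), ?_⟩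
  rw [integral_add i1 (i2.const_mul I), integral_add j1 (j2.const_mul I),
    integral_const_mul, integral_const_mul, w1, w2]
  ring

/-- the data of 334. -/
theorem RW.wd {w p q : ℂ → ℂ} {r : ℝ} (h : RW w p q 0 r) : WD w p q r where
  cont := h.cont
  memp := h.memp
  memq := h.memq
  weak := by
    intro φ h1 h2 h3
    obtain ⟨a1, b1, c1⟩ := h.weakC φ h1 h2 h3 1
    obtain ⟨a2, b2, c2⟩ := h.weakC φ h1 h2 h3 I
    constructor
    · have f1 : (fun z => NWDefs_334.dz φ z • w z) = fun z =>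
          (2 : ℂ)⁻¹ * (fderiv ℝ φ z 1 * w z) - (2 : ℂ)⁻¹ * I * (fderiv ℝ φ z I * w z) := by
        funext z; simp only [NWDefs_334.dz, NWDefs_334.dl, smul_eq_mul]; ring
      have f2 : (fun z => φ z • p z) = fun z =>
          (2 : ℂ)⁻¹ * (φ z * (p z * 1 + q z * conj (1 : ℂ))) -
            (2 : ℂ)⁻¹ * I * (φ z * (p z * I + q z * conj I)) := by
        funext z
        simp only [map_one, conj_I, smul_eq_mul]
        linear_combination ((φ z * (p z - q z)) / 2) * I_mul_I
      rw [f1, f2, integral_sub (a1.const_mul _) (a2.const_mul _), integral_const_mul,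
        integral_const_mul, c1, c2, integral_sub (b1.const_mul _) (b2.const_mul _),
        integral_const_mul, integral_const_mul]
      ring
    · have f1 : (fun z => NWDefs_334.dzb φ z • w z) = fun z =>
          (2 : ℂ)⁻¹ * (fderiv ℝ φ z 1 * w z) + (2 : ℂ)⁻¹ * I * (fderiv ℝ φ z I * w z) := by
        funext z; simp only [NWDefs_334.dzb, NWDefs_334.dbl, smul_eq_mul]; ring
      have f2 : (fun z => φ z • q z) = fun z =>
          (2 : ℂ)⁻¹ * (φ z * (p z * 1 + q z * conj (1 : ℂ))) +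
            (2 : ℂ)⁻¹ * I * (φ z * (p z * I + q z * conj I)) := by
        funext z
        simp only [map_one, conj_I, smul_eq_mul]
        linear_combination (-(φ z * (p z - q z)) / 2) * I_mul_I
      rw [f1, f2, integral_add (a1.const_mul _) (a2.const_mul _), integral_const_mul,
        integral_const_mul, c1, c2, integral_add (b1.const_mul _) (b2.const_mul _),
        integral_const_mul, integral_const_mul]
      ring

/-! ### weak = classical -/

theorem val_ext {L : ℂ →L[ℝ] ℂ} {a b : ℂ} (h1 : L 1 = a * 1 + b * conj (1 : ℂ))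
    (hI : L I = a * I + b * conj I) : lz L = a ∧ lzb L = b := by
  constructor
  · simp only [lz, h1, hI, map_one, conj_I]
    linear_combination (-(a - b) / 2) * I_mul_I
  · simp only [lzb, h1, hI, map_one, conj_I]
    linear_combination ((a - b) / 2) * I_mul_I

theorem lz_val (L : ℂ →L[ℝ] ℂ) (v : ℂ) : L v = lz L * v + lzb L * conj v := by
  have e : L v = v.re • L 1 + v.im • L I := by
    rw [← map_smul, ← map_smul, ← map_add]
    congr 1
    simp only [real_smul, mul_one]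
    exact (re_add_im v).symm
  rw [e]
  simp only [lz, lzb, real_smul]
  conv_rhs => rw [← re_add_im v]
  simp only [map_add, map_mul, conj_ofReal, conj_I]
  linear_combination ((v.im : ℂ) * L I) * I_mul_I

/-- where `w` is `C¹`, the weak derivative is the derivative, almost everywhere. -/
theorem RW.classical {w p q : ℂ → ℂ} {c : ℂ} {r : ℝ} (h : RW w p q c r) {U : Set ℂ}
    (hU : IsOpen U) (hs : U ⊆ ball c r) (hw : ContDiffOn ℝ 1 w U) :
    ∀ᵐ z : ℂ, z ∈ U → lz (fderiv ℝ w z) = p z ∧ lzb (fderiv ℝ w z) = q z := by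
  have key : ∀ v : ℂ, ∀ᵐ z : ℂ, z ∈ U → fderiv ℝ w z v - (p z * v + q z * conj v) = 0 := by
    intro v
    have cfd : ContinuousOn (fun z => fderiv ℝ w z v) U :=
      (hw.continuousOn_fderiv_of_isOpen hU le_rfl).clm_apply continuousOn_const
    have hloc : LocallyIntegrableOn (fun z => fderiv ℝ w z v - (p z * v + q z * conj v)) U := by
      refine (cfd.locallyIntegrableOn hU.measurableSet).sub ?_
      exact (h.int_val hs v).locallyIntegrableOn
    refine hU.ae_eq_zero_of_integral_contDiff_smul_eq_zero hloc ?_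
    intro g hg1 hg2 hg3
    have hg4 : tsupport g ⊆ ball c r := hg3.trans hs
    have cdg : Continuous fun t => fderiv ℝ g t v :=
      (hg1.continuous_fderiv (by simp)).clm_apply continuous_const
    have i1 : Integrable (fun t => fderiv ℝ g t v • w t) :=
      int_aux cdg hg2.isCompact (tsupp_fderiv_zero v)
        ((h.cont.mono hg4).integrableOn_compact hg2.isCompact)
    have i2 : Integrable (fun t => g t • fderiv ℝ w t v) :=
      int_aux hg1.continuous hg2.isCompact tsupp_zero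
        ((cfd.mono hg3).integrableOn_compact hg2.isCompact)
    have i3 : Integrable (fun t => g t • w t) :=
      int_aux hg1.continuous hg2.isCompact tsupp_zero
        ((h.cont.mono hg4).integrableOn_compact hg2.isCompact)
    have j1 : Integrable (fun t => g t • (p t * v + q t * conj v)) :=
      int_aux hg1.continuous hg2.isCompact tsupp_zero (h.int_val hg4 v)
    have hI := integral_smul_fderiv_eq_neg_fderiv_smul_of_integrable (μ := volume) i1 i2 i3
      (fun x _ => (hg1.differentiable (by simp)) x)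
      (fun x hx => (hw.differentiableOn one_ne_zero).differentiableAt (hU.mem_nhds (hg3 hx)))
    have hW := h.weak g hg1 hg2 hg4 v
    simp only [smul_sub]
    rw [integral_sub i2 j1, hI, hW]
    ring
  filter_upwards [key 1, key I] with z h1 hI hz
  exact val_ext (sub_eq_zero.1 (h1 hz)) (sub_eq_zero.1 (hI hz))

/-! ### a real affine change of variables -/

/-- `ζ ↦ ζ + k ζ̄` as an equivalence. -/
def em (k : ℂ) (hk : ‖k‖ < 1) : ℂ ≃L[ℝ] ℂ :=
  ContinuousLinearEquiv.equivOfInverse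
    (ContinuousLinearMap.id ℝ ℂ + k • (conjCLE : ℂ →L[ℝ] ℂ))
    (((1 - ‖k‖ ^ 2 : ℝ) : ℂ)⁻¹ • (ContinuousLinearMap.id ℝ ℂ - k • (conjCLE : ℂ →L[ℝ] ℂ)))
    (by
      intro u
      have hD : ((1 - ‖k‖ ^ 2 : ℝ) : ℂ) ≠ 0 := by
        rw [ofReal_ne_zero]; nlinarith [norm_nonneg k]
      have hkk : k * conj k = ((‖k‖ ^ 2 : ℝ) : ℂ) := by
        rw [mul_conj, normSq_eq_norm_sq]
      simp only [_root_.add_apply, _root_.sub_apply,
        _root_.smul_apply, ContinuousLinearMap.id_apply, smul_eq_mul,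
        ContinuousLinearEquiv.coe_coe, conjCLE_apply, map_add, map_mul, conj_conj]
      field_simp
      push_cast
      push_cast at hkk
      linear_combination (-u) * hkk)
    (by
      intro u
      have hD : ((1 - ‖k‖ ^ 2 : ℝ) : ℂ) ≠ 0 := by
        rw [ofReal_ne_zero]; nlinarith [norm_nonneg k]
      have hkk : k * conj k = ((‖k‖ ^ 2 : ℝ) : ℂ) := by
        rw [mul_conj, normSq_eq_norm_sq]
      simp only [_root_.add_apply, _root_.sub_apply,
        _root_.smul_apply, ContinuousLinearMap.id_apply, smul_eq_mul,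
        ContinuousLinearEquiv.coe_coe, conjCLE_apply, map_sub, map_mul, conj_conj, map_inv₀,
        conj_ofReal]
      field_simp
      push_cast
      push_cast at hkk
      linear_combination (-u) * hkk)

theorem em_apply (k : ℂ) (hk : ‖k‖ < 1) (ζ : ℂ) : em k hk ζ = ζ + k * conj ζ := rfl

theorem em_norm (k : ℂ) (hk : ‖k‖ < 1) (ζ : ℂ) : ‖em k hk ζ‖ ≤ 2 * ‖ζ‖ := by
  rw [em_apply]
  refine (norm_add_le _ _).trans ?_
  rw [norm_mul, RCLike.norm_conj]
  nlinarith [norm_nonneg ζ]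

theorem map_em (k : ℂ) (hk : ‖k‖ < 1) (c : ℂ) : ∃ C : ENNReal, C ≠ ⊤ ∧
    Measure.map (fun ζ => c + em k hk ζ) (volume : Measure ℂ) = C • volume := by
  have hdet : LinearMap.det ((em k hk).toLinearEquiv : ℂ →ₗ[ℝ] ℂ) ≠ 0 :=
    (LinearEquiv.isUnit_det' _).ne_zero
  have h1 := Measure.map_linearMap_addHaar_eq_smul_addHaar (volume : Measure ℂ) hdet
  refine ⟨ENNReal.ofReal |(LinearMap.det ((em k hk).toLinearEquiv : ℂ →ₗ[ℝ] ℂ))⁻¹|,
    ENNReal.ofReal_ne_top, ?_⟩
  have h2 : Measure.map (fun ζ => c + em k hk ζ) (volume : Measure ℂ) =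
      Measure.map (fun z => c + z) (Measure.map (em k hk) volume) := by
    rw [Measure.map_map (measurable_const_add c) (em k hk).continuous.measurable]
    rfl
  have h3 : Measure.map (em k hk) (volume : Measure ℂ) =
      ENNReal.ofReal |(LinearMap.det ((em k hk).toLinearEquiv : ℂ →ₗ[ℝ] ℂ))⁻¹| • volume := h1
  rw [h2, h3, Measure.map_smul, map_add_left_eq_self]

theorem emb_em (k : ℂ) (hk : ‖k‖ < 1) (c : ℂ) :
    MeasurableEmbedding (fun ζ => c + em k hk ζ) :=
  ((em k hk).toHomeomorph.trans (Homeomorph.addLeft c)).measurableEmbedding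

theorem qmp_em (k : ℂ) (hk : ‖k‖ < 1) (c : ℂ) :
    Measure.QuasiMeasurePreserving (fun ζ => c + em k hk ζ) (volume : Measure ℂ) volume := by
  obtain ⟨C, _, h⟩ := map_em k hk c
  refine ⟨(emb_em k hk c).measurable, ?_⟩
  rw [h]
  exact Measure.smul_absolutelyContinuous

theorem em_mem {k : ℂ} {hk : ‖k‖ < 1} {c : ℂ} {r ρ : ℝ} (hρ : 2 * ρ ≤ r) {ζ : ℂ}
    (hζ : ζ ∈ ball (0 : ℂ) ρ) : c + em k hk ζ ∈ ball c r := by
  rw [mem_ball_zero_iff] at hζ
  rw [mem_ball, dist_eq_norm, add_sub_cancel_left]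
  have := em_norm k hk ζ
  linarith

/-- the change of variables. -/
theorem RW.comp {w p q : ℂ → ℂ} {c : ℂ} {r : ℝ} (h : RW w p q c r) (k : ℂ) (hk : ‖k‖ < 1)
    {ρ : ℝ} (hρ : 2 * ρ ≤ r) :
    RW (fun ζ => w (c + em k hk ζ))
      (fun ζ => p (c + em k hk ζ) + conj k * q (c + em k hk ζ))
      (fun ζ => k * p (c + em k hk ζ) + q (c + em k hk ζ)) 0 ρ := by
  obtain ⟨C, hC, hmap⟩ := map_em k hk c
  set ψ : ℂ → ℂ := fun ζ => c + em k hk ζ with hψ
  have hψc : Continuous ψ := continuous_const.add (em k hk).continuous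
  have hsub : ball (0 : ℂ) ρ ⊆ ψ ⁻¹' ball c r := fun ζ hζ => em_mem hρ hζ
  have hmem : ∀ g : ℂ → ℂ, MemLp g 2 (volume.restrict (ball c r)) →
      MemLp (fun ζ => g (ψ ζ)) 2 (volume.restrict (ball 0 ρ)) := by
    intro g hg
    have h1 : MemLp g 2 (Measure.map ψ (volume.restrict (ψ ⁻¹' ball c r))) := by
      rw [← Measure.restrict_map hψc.measurable measurableSet_ball, hmap, Measure.restrict_smul]
      exact hg.smul_measure hC
    exact (h1.comp_of_map hψc.aemeasurable).mono_measure (Measure.restrict_mono hsub le_rfl)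
  have hint : ∀ g : ℂ → ℂ, ∫ ζ, g (ψ ζ) = C.toReal • ∫ z, g z := by
    intro g
    rw [← (emb_em k hk c).integral_map g, hmap, integral_smul_measure]
  refine ⟨h.cont.comp hψc.continuousOn hsub, (hmem p h.memp).add ((hmem q h.memq).const_mul _),
    ((hmem p h.memp).const_mul k).add (hmem q h.memq), ?_⟩
  intro η h1 h2 h3 v
  set θ : ℂ → ℝ := fun z => η ((em k hk).symm (z - c)) with hθ
  have hinv : ∀ ζ, (em k hk).symm (ψ ζ - c) = ζ := by
    intro ζ; simp [hψ]
  have hθψ : ∀ ζ, θ (ψ ζ) = η ζ := by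
    intro ζ; simp only [hθ, hinv]
  have hθd : ContDiff ℝ ∞ θ :=
    h1.comp ((em k hk).symm.contDiff.comp (contDiff_id.sub contDiff_const))
  have hψd : ∀ ζ, HasFDerivAt ψ ((em k hk : ℂ →L[ℝ] ℂ)) ζ := fun ζ =>
    ((em k hk).hasFDerivAt).const_add c
  have hfd : ∀ ζ, fderiv ℝ η ζ v = fderiv ℝ θ (ψ ζ) (em k hk v) := by
    intro ζ
    have e1 : η = θ ∘ ψ := by funext x; exact (hθψ x).symm
    have e2 := ((hθd.differentiable (by simp)) (ψ ζ)).hasFDerivAt.comp ζ (hψd ζ)
    rw [e1, e2.fderiv]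
    rfl
  have hcs : ∀ z, θ z ≠ 0 → z ∈ ψ '' tsupport η := by
    intro z hz
    refine ⟨(em k hk).symm (z - c), subset_tsupport _ hz, ?_⟩
    simp [hψ]
  have hcomp : IsCompact (ψ '' tsupport η) := h2.isCompact.image hψc
  have hts : tsupport θ ⊆ ψ '' tsupport η :=
    closure_minimal (fun z hz => hcs z hz) hcomp.isClosed
  have hθc : HasCompactSupport θ := hcomp.of_isClosed_subset (isClosed_tsupport _) hts
  have hθs : tsupport θ ⊆ ball c r := by
    intro z hz
    obtain ⟨ζ, hζ, rfl⟩ := hts hz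
    exact hsub (h3 hζ)
  have hW := h.weak θ hθd hθc hθs (em k hk v)
  have e1 : (fun t => fderiv ℝ η t v • w (ψ t)) =
      fun t => (fun z => fderiv ℝ θ z (em k hk v) • w z) (ψ t) := by
    funext t; simp only [hfd]
  have e2 : (fun t => η t • ((p (ψ t) + conj k * q (ψ t)) * v + (k * p (ψ t) + q (ψ t)) * conj v)) =
      fun t => (fun z => θ z • (p z * (em k hk v) + q z * conj (em k hk v))) (ψ t) := by
    funext t
    simp only [hθψ, em_apply, map_add, map_mul, conj_conj]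
    congr 1
    ring
  rw [e1, e2, hint (fun z => fderiv ℝ θ z (em k hk v) • w z),
    hint (fun z => θ z • (p z * (em k hk v) + q z * conj (em k hk v))), hW, smul_neg]

/-! ### regularity -/

theorem C1_fd {a : ℝ} (F : C1a a ℂ ℂ) : ∀ z, HasFDerivAt (C1f F) (C1d F z) z := F.2

theorem C1_cd {a : ℝ} (F : C1a a ℂ ℂ) : ContDiff ℝ 1 (C1f F) :=
  contDiff_one_iff_hasFDerivAt.2 ⟨C1d F, F.1.2.1.1.continuous, C1_fd F⟩

theorem mulm_cd {X : Type} [NormedAddCommGroup X] [NormedSpace ℝ X] {n : ℕ∞ω} {g : X → ℂ}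
    (hg : ContDiff ℝ n g) : ContDiff ℝ n (fun x => ContinuousLinearMap.mul ℝ ℂ (g x)) :=
  (ContinuousLinearMap.mul ℝ ℂ).contDiff.comp hg

/-- **local regularity.** -/
theorem smooth_near (hR1 : Reg1Stmt) (hR2 : Reg2Stmt) {μ β : ℂ × ℂ → ℂ} (smμ : ContDiff ℝ ∞ μ)
    (smβ : ContDiff ℝ ∞ β) {κ : ℝ} (hκ : κ < 1) (hμ : ∀ x, ‖μ x‖ ≤ κ) {w p q : ℂ → ℂ} {c : ℂ}
    {r b C : ℝ} (hr : 0 < r) (hb : 0 < b) (hb1 : b < 1) (h : RW w p q c r)
    (hol : ∀ x ∈ ball c r, ∀ y ∈ ball c r, ‖w x - w y‖ ≤ C * dist x y ^ b)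
    (pde : ∀ᵐ z : ℂ, z ∈ ball c r → q z = μ (z, w z) * p z - β (z, w z)) :
    ∃ r' > 0, r' ≤ r ∧ ContDiffOn ℝ ∞ w (ball c r') := by
  set k : ℂ := -μ (c, w c) with hk0
  have hk : ‖k‖ < 1 := by rw [hk0, norm_neg]; exact (hμ _).trans_lt hκ
  set ρ : ℝ := r / 2 with hρ
  have hρ0 : 0 < ρ := by positivity
  have hρr : 2 * ρ ≤ r := by rw [hρ]; linarith
  have hc := h.comp k hk hρr
  set ψ : ℂ → ℂ := fun ζ => c + em k hk ζ with hψ
  have hψc : ContDiff ℝ ∞ ψ := contDiff_const.add (em k hk).contDiff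
  have hψ0 : ψ 0 = c := by simp [hψ]
  have hψi : ∀ z, ψ ((em k hk).symm (z - c)) = z := by intro z; simp [hψ]
  set f : ℂ → ℂ := fun ζ => w (ψ ζ) with hf
  set p' : ℂ → ℂ := fun ζ => p (ψ ζ) + conj k * q (ψ ζ) with hp'
  set q' : ℂ → ℂ := fun ζ => k * p (ψ ζ) + q (ψ ζ) with hq'
  have hne : ∀ x, 1 + conj k * μ x ≠ 0 := by
    intro x hx
    have h1 : ‖conj k * μ x‖ < 1 := by
      rw [norm_mul, RCLike.norm_conj]
      have := hμ x
      nlinarith [norm_nonneg k, norm_nonneg (μ x)]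
    have h2 : conj k * μ x = -1 := by linear_combination hx
    rw [h2, norm_neg, norm_one] at h1
    exact lt_irrefl _ h1
  -- the coefficients
  set Ψ : ℂ × ℂ → ℂ × ℂ := fun x => (ψ x.1, x.2) with hΨ
  have hΨc : ContDiff ℝ ∞ Ψ := (hψc.comp contDiff_fst).prodMk contDiff_snd
  set co : ℂ × ℂ → ℂ := fun x => (k + μ (Ψ x)) / (1 + conj k * μ (Ψ x)) with hco
  have hcoc : ContDiff ℝ ∞ co := by
    have h1 : ContDiff ℝ ∞ fun x => 1 + conj k * μ (Ψ x) :=
      contDiff_const.add (contDiff_const.mul (smμ.comp hΨc))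
    have h2 : ContDiff ℝ ∞ fun x => k + μ (Ψ x) := contDiff_const.add (smμ.comp hΨc)
    have h3 := h2.mul (h1.inv (fun x => hne _))
    have e : co = fun x => (k + μ (Ψ x)) * (1 + conj k * μ (Ψ x))⁻¹ := by
      funext x; simp only [hco, div_eq_mul_inv]
    rw [e]; exact h3
  set B : ℂ × ℂ → ℂ →L[ℝ] ℂ := fun x => ContinuousLinearMap.mul ℝ ℂ (co x) with hB
  set bb : ℂ × ℂ → ℂ := fun x => co x * (conj k * β (Ψ x)) - β (Ψ x) with hbb
  have hBc : ContDiff ℝ ∞ B := mulm_cd hcoc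
  have hbbc : ContDiff ℝ ∞ bb :=
    (hcoc.mul (contDiff_const.mul (smβ.comp hΨc))).sub (smβ.comp hΨc)
  have hpde : ∀ᵐ ζ : ℂ, ζ ∈ ball (0 : ℂ) ρ → q' ζ = B (ζ, f ζ) (p' ζ) + bb (ζ, f ζ) := by
    have h1 := (qmp_em k hk c).ae pde
    filter_upwards [h1] with ζ h2 hζ
    have h3 := h2 (em_mem hρr hζ)
    have h4 : q (ψ ζ) = μ (ψ ζ, w (ψ ζ)) * p (ψ ζ) - β (ψ ζ, w (ψ ζ)) := h3
    simp only [hB, hbb, hco, hΨ, hq', hp', hf, ContinuousLinearMap.mul_apply']
    rw [h4]
    have h5 := div_mul_cancel₀ (k + μ (ψ ζ, w (ψ ζ))) (hne (ψ ζ, w (ψ ζ)))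
    linear_combination (-p (ψ ζ)) * h5
  have hhol : ∀ x ∈ ball (0 : ℂ) ρ, ∀ y ∈ ball (0 : ℂ) ρ,
      ‖f x - f y‖ ≤ (|C| * 2 ^ b) * dist x y ^ b := by
    intro x hx y hy
    have h1 := hol _ (em_mem (c := c) (hk := hk) hρr hx) _ (em_mem (c := c) (hk := hk) hρr hy)
    have h2 : dist (c + em k hk x) (c + em k hk y) ≤ 2 * dist x y := by
      rw [dist_eq_norm, dist_eq_norm, add_sub_add_left_eq_sub, ← map_sub]
      exact em_norm k hk _
    calc ‖f x - f y‖ ≤ C * dist (c + em k hk x) (c + em k hk y) ^ b := h1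
      _ ≤ |C| * (2 * dist x y) ^ b := by
          refine mul_le_mul (le_abs_self C) ?_ (by positivity) (abs_nonneg C)
          exact Real.rpow_le_rpow dist_nonneg h2 hb.le
      _ = (|C| * 2 ^ b) * dist x y ^ b := by
          rw [Real.mul_rpow (by norm_num) dist_nonneg]; ring
  have hB0 : B (0, f 0) = 0 := by
    have : co (0, f 0) = 0 := by
      simp only [hco, hΨ, hf, hψ0, hk0, neg_add_cancel, zero_div]
    simp only [hB, this, map_zero]
  obtain ⟨r1, hr1, F, hF⟩ := hR1 ℂ b hb hb1 B bb (hBc.of_le (by norm_cast))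
    (hbbc.of_le (by norm_cast)) f p' q' ρ (|C| * 2 ^ b) hρ0 hc.wd hhol hpde hB0
  set r2 : ℝ := min r1 ρ with hr2
  have hr20 : 0 < r2 := lt_min hr1 hρ0
  have hb1' : ball (0 : ℂ) r2 ⊆ ball 0 r1 := ball_subset_ball (min_le_left _ _)
  have hb2 : ball (0 : ℂ) r2 ⊆ ball 0 ρ := ball_subset_ball (min_le_right _ _)
  have hfF : EqOn f (C1f F) (ball 0 r2) := fun z hz => (hF z (hb1' hz)).symm
  have hfc : ContDiffOn ℝ 1 f (ball 0 r2) := (C1_cd F).contDiffOn.congr hfF
  have hcl := hc.classical isOpen_ball hb2 hfc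
  have hfd : ∀ z ∈ ball (0 : ℂ) r2, fderiv ℝ f z = C1d F z := by
    intro z hz
    have h1 : f =ᶠ[𝓝 z] C1f F := hfF.eventuallyEq_of_mem (isOpen_ball.mem_nhds hz)
    rw [h1.fderiv_eq, (C1_fd F z).fderiv]
  have hlz : ∀ L : ℂ →L[ℝ] ℂ, NWDefs_334.dl L = lz L := by
    intro L; simp only [NWDefs_334.dl, lz, smul_eq_mul]; ring
  have hlzb : ∀ L : ℂ →L[ℝ] ℂ, NWDefs_334.dbl L = lzb L := by
    intro L; simp only [NWDefs_334.dbl, lzb, smul_eq_mul]; ring
  have hae : ∀ᵐ z : ℂ, z ∈ ball (0 : ℂ) r2 →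
      NWDefs_334.dbl (C1d F z) = B (z, C1f F z) (NWDefs_334.dl (C1d F z)) + bb (z, C1f F z) := by
    filter_upwards [hcl, hpde] with z h1 h2 hz
    obtain ⟨h3, h4⟩ := h1 hz
    rw [hlz, hlzb, ← hfd z hz, h3, h4, hF z (hb1' hz)]
    exact h2 (hb2 hz)
  have hcC1d : Continuous (C1d F) := F.1.2.1.1.continuous
  have hcC1f : Continuous (C1f F) := (C1_cd F).continuous
  have hdl : Continuous fun z => NWDefs_334.dl (C1d F z) := by
    simp only [NWDefs_334.dl, smul_eq_mul]
    have a1 : Continuous fun z => C1d F z 1 := hcC1d.clm_apply continuous_const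
    have a2 : Continuous fun z => C1d F z I := hcC1d.clm_apply continuous_const
    exact continuous_const.mul (a1.sub (continuous_const.mul a2))
  have hdbl : Continuous fun z => NWDefs_334.dbl (C1d F z) := by
    simp only [NWDefs_334.dbl, smul_eq_mul]
    have a1 : Continuous fun z => C1d F z 1 := hcC1d.clm_apply continuous_const
    have a2 : Continuous fun z => C1d F z I := hcC1d.clm_apply continuous_const
    exact continuous_const.mul (a1.add (continuous_const.mul a2))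
  have hpair : Continuous fun z => (z, C1f F z) := continuous_id.prodMk hcC1f
  have hrhs : Continuous fun z => B (z, C1f F z) (NWDefs_334.dl (C1d F z)) + bb (z, C1f F z) :=
    ((hBc.continuous.comp hpair).clm_apply hdl).add (hbbc.continuous.comp hpair)
  have hall := Measure.eqOn_open_of_ae_eq (μ := (volume : Measure ℂ))
    ((ae_restrict_iff' measurableSet_ball).2 hae) isOpen_ball hdbl.continuousOn hrhs.continuousOn
  have hF0 : C1f F 0 = f 0 := hF 0 (mem_ball_self hr1)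
  obtain ⟨r3, hr3, hsm⟩ := hR2 ℂ b hb hb1 B bb hBc hbbc F r2 hr20 (fun z hz => hall hz)
    (by rw [hF0]; exact hB0)
  -- back to the original variable
  set r4 : ℝ := min r2 r3 with hr4
  have hr40 : 0 < r4 := lt_min hr20 hr3
  have hinv : Continuous fun z => (em k hk).symm (z - c) :=
    (em k hk).symm.continuous.comp (continuous_id.sub continuous_const)
  have hop : IsOpen ((fun z => (em k hk).symm (z - c)) ⁻¹' ball 0 r4) := isOpen_ball.preimage hinv
  have hcm : c ∈ (fun z => (em k hk).symm (z - c)) ⁻¹' ball 0 r4 := by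
    simp [hr40]
  obtain ⟨r5, hr5, hsub⟩ := Metric.isOpen_iff.1 hop c hcm
  refine ⟨min r5 r, lt_min hr5 hr, min_le_right _ _, ?_⟩
  have hsub' : ball c (min r5 r) ⊆ (fun z => (em k hk).symm (z - c)) ⁻¹' ball 0 r4 :=
    (ball_subset_ball (min_le_left _ _)).trans hsub
  have h6 : ContDiffOn ℝ ∞ (fun z => C1f F ((em k hk).symm (z - c))) (ball c (min r5 r)) := by
    refine hsm.comp ((em k hk).symm.contDiff.comp (contDiff_id.sub contDiff_const)).contDiffOn ?_
    intro z hz
    exact ball_subset_ball (min_le_right _ _) (hsub' hz)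
  refine h6.congr ?_
  intro z hz
  have h7 := hsub' hz
  have h8 : f ((em k hk).symm (z - c)) = C1f F ((em k hk).symm (z - c)) :=
    hfF (ball_subset_ball (min_le_left _ _) h7)
  rw [← h8]
  simp only [hf, hψi]

/-- **regularity on an open set.** -/
theorem global (hR1 : Reg1Stmt) (hR2 : Reg2Stmt) {μ β : ℂ × ℂ → ℂ} (smμ : ContDiff ℝ ∞ μ)
    (smβ : ContDiff ℝ ∞ β) {κ : ℝ} (hκ : κ < 1) (hμ : ∀ x, ‖μ x‖ ≤ κ) {w p q : ℂ → ℂ}
    {V : Set ℂ} (hV : IsOpen V)
    (H : ∀ c ∈ V, ∃ r b C : ℝ, 0 < r ∧ 0 < b ∧ b < 1 ∧ ball c r ⊆ V ∧ RW w p q c r ∧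
      ∀ x ∈ ball c r, ∀ y ∈ ball c r, ‖w x - w y‖ ≤ C * dist x y ^ b)
    (pde : ∀ᵐ z : ℂ, z ∈ V → q z = μ (z, w z) * p z - β (z, w z)) :
    ContDiffOn ℝ ∞ w V ∧
    (∀ z ∈ V, lzb (fderiv ℝ w z) = μ (z, w z) * lz (fderiv ℝ w z) - β (z, w z)) ∧
    ∀ᵐ z : ℂ, z ∈ V → lz (fderiv ℝ w z) = p z ∧ lzb (fderiv ℝ w z) = q z := by
  have loc : ∀ c ∈ V, ∃ r > 0, ball c r ⊆ V ∧ RW w p q c r ∧ ContDiffOn ℝ ∞ w (ball c r) := by
    intro c hc
    obtain ⟨r, b, C, hr, hb, hb1, hs, hRW, hol⟩ := H c hc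
    obtain ⟨r', hr', hle, hsm⟩ := smooth_near hR1 hR2 smμ smβ hκ hμ hr hb hb1 hRW hol
      (pde.mono fun z hz hzb => hz (hs hzb))
    have hsub : ball c r' ⊆ ball c r := ball_subset_ball hle
    exact ⟨r', hr', hsub.trans hs, hRW.mono hsub, hsm⟩
  have hsm : ContDiffOn ℝ ∞ w V := by
    intro z hz
    obtain ⟨r, hr, _, _, h⟩ := loc z hz
    exact (h.contDiffAt (ball_mem_nhds z hr)).contDiffWithinAt
  have hae : ∀ᵐ z : ℂ, z ∈ V → lz (fderiv ℝ w z) = p z ∧ lzb (fderiv ℝ w z) = q z := by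
    rw [ae_iff]
    apply measure_null_of_locally_null
    intro z hz
    have hzV : z ∈ V := by
      by_contra hn
      exact hz fun h => absurd h hn
    obtain ⟨r, hr, _, hRW, h⟩ := loc z hzV
    have hcl := hRW.classical isOpen_ball subset_rfl (h.of_le (by norm_cast))
    rw [ae_iff] at hcl
    refine ⟨{a | ¬(a ∈ V → lz (fderiv ℝ w a) = p a ∧ lzb (fderiv ℝ w a) = q a)} ∩ ball z r,
      inter_mem self_mem_nhdsWithin (mem_nhdsWithin_of_mem_nhds (ball_mem_nhds z hr)), ?_⟩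
    refine measure_mono_null ?_ hcl
    intro a ha hn
    exact ha.1 fun _ => hn ha.2
  refine ⟨hsm, ?_, hae⟩
  have hcont : ContinuousOn w V := hsm.continuousOn
  have hfd : ContinuousOn (fderiv ℝ w) V :=
    hsm.continuousOn_fderiv_of_isOpen hV (by norm_cast)
  have a1 : ContinuousOn (fun z => fderiv ℝ w z 1) V := hfd.clm_apply continuousOn_const
  have a2 : ContinuousOn (fun z => fderiv ℝ w z I) V := hfd.clm_apply continuousOn_const
  have hl : ContinuousOn (fun z => lz (fderiv ℝ w z)) V := by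
    simp only [lz]
    exact (a1.sub (continuousOn_const.mul a2)).div_const 2
  have hlb : ContinuousOn (fun z => lzb (fderiv ℝ w z)) V := by
    simp only [lzb]
    exact (a1.add (continuousOn_const.mul a2)).div_const 2
  have hpair : ContinuousOn (fun z => (z, w z)) V := continuousOn_id.prodMk hcont
  have hr : ContinuousOn (fun z => μ (z, w z) * lz (fderiv ℝ w z) - β (z, w z)) V :=
    ((smμ.continuous.comp_continuousOn hpair).mul hl).sub
      (smβ.continuous.comp_continuousOn hpair)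
  have heq : (fun z => lzb (fderiv ℝ w z)) =ᵐ[volume.restrict V]
      fun z => μ (z, w z) * lz (fderiv ℝ w z) - β (z, w z) := by
    refine (ae_restrict_iff' hV.measurableSet).2 ?_
    filter_upwards [hae, pde] with z h1 h2 hz
    obtain ⟨h3, h4⟩ := h1 hz
    rw [h3, h4, h2 hz]
  exact fun z hz => Measure.eqOn_open_of_ae_eq heq hV hlb hr hz

end

end Crest.Agent.R235.SheetCore_848
end

-- ▼ part R235/Cyl_SHEET_848
section

/-!
Row 235 (S0364), REG-CYL C13 (helper848): a simple continuous sheet is smooth and solves the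
equation.  `sheet : WEAKF → Reg1Stmt → Reg2Stmt → SHEET`.
-/

set_option autoImplicit false

open MeasureTheory Metric Set Filter Complex
open scoped ContDiff Topology ComplexConjugate

namespace Crest.Agent.R235.CylSHEET_848

open Crest.Agent.R235.Loc Crest.Agent.R235.Cyl_522
open Crest.Agent.R235.NWIface_334 (Reg1Stmt Reg2Stmt)
open Crest.Agent.R235.SheetCore_848 (RW int_aux tsupp_zero tsupp_fderiv_zero)

noncomputable section

/-! ### isolation of a simple sheet -/

/-- near a point of a sheet the other values stay away. -/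
theorem isolateV {S : ℂ → Multiset ℂ} {V : Set ℂ} {w : ℂ → ℂ} (hS : Sheet S V w) {C' b : ℝ}
    (hC : 0 < C') (hb : 0 < b)
    (hold : ∀ t ∈ V, ∀ t' ∈ V, Close (C' * dist t t' ^ b) (S t) (S t'))
    {c : ℂ} (hc : c ∈ V) : ∃ δ > 0, δ ≤ 1 ∧ ∃ r > 0, r ≤ 1 ∧ ball c r ⊆ V ∧
      (∀ t ∈ ball c r, dist (w t) (w c) < δ ∧ w t ∈ S t ∧ ∀ z ∈ S t, z ≠ w t →
        3 * δ ≤ dist z (w c)) ∧
      ∀ x ∈ ball c r, ∀ y ∈ ball c r, ‖w x - w y‖ ≤ C' * dist x y ^ b := by
  classical
  have hmem : ∀ t ∈ V, w t ∈ S t := fun t ht =>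
    Multiset.one_le_count_iff_mem.1 (hS.simple t ht).ge
  obtain ⟨S0, hS0⟩ := Multiset.exists_cons_of_mem (hmem c hc)
  have hn : w c ∉ S0 := by
    intro h
    have h1 := hS.simple c hc
    rw [hS0, Multiset.count_cons_self] at h1
    have h2 := Multiset.one_le_count_iff_mem.2 h
    omega
  -- the gap
  obtain ⟨δ, hδ, hδ1, hgap⟩ : ∃ δ > 0, δ ≤ 1 ∧ ∀ z ∈ S0, 4 * δ ≤ dist z (w c) := by
    have hop : IsOpen ((S0.toFinset : Set ℂ)ᶜ) := S0.toFinset.finite_toSet.isClosed.isOpen_compl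
    have hm : w c ∈ ((S0.toFinset : Set ℂ)ᶜ) := by
      simpa using hn
    obtain ⟨ε, hε, hsub⟩ := Metric.isOpen_iff.1 hop _ hm
    refine ⟨min (ε / 4) 1, by positivity, min_le_right _ _, ?_⟩
    intro z hz
    by_contra hlt
    push Not at hlt
    have h1 : z ∈ ball (w c) ε := by
      rw [mem_ball]
      have := min_le_left (ε / 4) 1
      linarith
    exact hsub h1 (by simpa using hz)
  -- the radius
  have hlim : Tendsto (fun r : ℝ => C' * (2 * r) ^ b) (𝓝[>] 0) (𝓝 0) := by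
    have h1 : Tendsto (fun r : ℝ => C' * (2 * r) ^ b) (𝓝[>] 0) (𝓝 (C' * (2 * 0) ^ b)) := by
      refine tendsto_const_nhds.mul ?_
      have h2 : ContinuousAt (fun r : ℝ => (2 * r) ^ b) 0 :=
        (continuousAt_const.mul continuousAt_id).rpow_const (Or.inr hb.le)
      exact h2.tendsto.mono_left nhdsWithin_le_nhds
    simpa [Real.zero_rpow hb.ne'] using h1
  obtain ⟨r0, hr0, hr0δ⟩ : ∃ r0 > 0, C' * (2 * r0) ^ b < δ := by
    obtain ⟨x, h2, h1⟩ := ((hlim.eventually (gt_mem_nhds hδ)).and self_mem_nhdsWithin).exists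
    exact ⟨x, h1, h2⟩
  have hsm : ∀ r, 0 ≤ r → r ≤ 2 * r0 → C' * r ^ b < δ := by
    intro r h1 h2
    exact (mul_le_mul_of_nonneg_left (Real.rpow_le_rpow h1 h2 hb.le) hC.le).trans_lt hr0δ
  obtain ⟨r1, hr1, hsub1⟩ := Metric.isOpen_iff.1 hS.isOpen c hc
  have hwc : ∀ᶠ t in 𝓝 c, dist (w t) (w c) < δ :=
    (hS.cont.continuousAt (hS.isOpen.mem_nhds hc)).eventually (ball_mem_nhds _ hδ)
  obtain ⟨r2, hr2, hsub2⟩ := Metric.eventually_nhds_iff.1 hwc
  set r : ℝ := min (min r0 r1) (min r2 1) with hr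
  have hrpos : 0 < r := lt_min (lt_min hr0 hr1) (lt_min hr2 one_pos)
  have hrr0 : r ≤ r0 := (min_le_left _ _).trans (min_le_left _ _)
  have hrr1 : r ≤ r1 := (min_le_left _ _).trans (min_le_right _ _)
  have hrr2 : r ≤ r2 := (min_le_right _ _).trans (min_le_left _ _)
  have hrV : ball c r ⊆ V := (ball_subset_ball hrr1).trans hsub1
  have hiso : ∀ t ∈ ball c r, dist (w t) (w c) < δ ∧ w t ∈ S t ∧ ∀ z ∈ S t, z ≠ w t →
      3 * δ ≤ dist z (w c) := by
    intro t ht
    have htV := hrV ht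
    have h1 : dist (w t) (w c) < δ := hsub2 ((mem_ball.1 ht).trans_le hrr2)
    refine ⟨h1, hmem t htV, ?_⟩
    have hcl := hold c hc t htV
    have hε : C' * dist c t ^ b < δ := by
      refine hsm _ dist_nonneg ?_
      have := mem_ball'.1 ht
      linarith
    unfold Close at hcl
    rw [hS0, Multiset.rel_cons_left] at hcl
    obtain ⟨b', bs', hb1, hb2, hb3⟩ := hcl
    have hfar : ∀ z ∈ bs', 3 * δ ≤ dist z (w c) := by
      intro z hz
      obtain ⟨s, hs, hsz⟩ := Multiset.exists_mem_of_rel_of_mem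
        (Multiset.rel_flip.2 hb2) hz
      have h3 := hgap s hs
      have h4 : dist s z ≤ C' * dist c t ^ b := hsz
      have h5 := dist_triangle s z (w c)
      linarith
    have hwb : w t = b' := by
      have h3 := hmem t htV
      rw [hb3, Multiset.mem_cons] at h3
      rcases h3 with h3 | h3
      · exact h3
      · have := hfar _ h3
        linarith
    intro z hz hne
    rw [hb3, Multiset.mem_cons] at hz
    rcases hz with hz | hz
    · exact absurd (hz.trans hwb.symm) hne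
    · exact hfar z hz
  refine ⟨δ, hδ, hδ1, r, hrpos, (min_le_right _ _).trans (min_le_right _ _), hrV, hiso, ?_⟩
  intro x hx y hy
  have hcl := hold x (hrV hx) y (hrV hy)
  obtain ⟨z, hz, hxz⟩ := Multiset.exists_mem_of_rel_of_mem hcl (hiso x hx).2.1
  have hε : C' * dist x y ^ b < δ := by
    refine hsm _ dist_nonneg ?_
    have h1 := mem_ball.1 hx
    have h2 := mem_ball'.1 hy
    have h3 := dist_triangle x c y
    linarith
  have hzy : z = w y := by
    by_contra hne
    have h1 := (hiso y hy).2.2 z hz hne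
    have h2 := (hiso x hx).1
    have h3 : dist (w x) z ≤ C' * dist x y ^ b := hxz
    have h4 := dist_triangle_left z (w c) (w x)
    linarith
  rw [hzy] at hxz
  rw [← dist_eq_norm]
  exact hxz


/-! ### measurability and energy -/



/-! ### the cut-off function -/

/-- `χ(z) ℓ(z)`. -/
def Phi {a : ℂ} (χ : ContDiffBump a) (l : ℂ →L[ℝ] ℝ) (x : ℂ × ℂ) : ℝ := χ x.2 * l x.2

theorem Phi_cd {a : ℂ} (χ : ContDiffBump a) (l : ℂ →L[ℝ] ℝ) : ContDiff ℝ ∞ (Phi χ l) :=
  (χ.contDiff.comp contDiff_snd).mul (l.contDiff.comp contDiff_snd)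

theorem Phi_in {a : ℂ} (χ : ContDiffBump a) (l : ℂ →L[ℝ] ℝ) {t z : ℂ} (hz : dist z a < χ.rIn) :
    Phi χ l (t, z) = l z ∧ ∀ u : ℂ × ℂ, fderiv ℝ (Phi χ l) (t, z) u = l u.2 := by
  have h1 : ∀ x : ℂ × ℂ, dist x.2 a < χ.rIn → Phi χ l x = l x.2 := by
    intro x hx
    simp only [Phi]
    rw [χ.one_of_mem_closedBall (mem_closedBall.2 hx.le), one_mul]
  refine ⟨h1 _ hz, ?_⟩
  have h2 : Phi χ l =ᶠ[𝓝 (t, z)] fun x => l x.2 := by
    have ho : IsOpen {x : ℂ × ℂ | dist x.2 a < χ.rIn} :=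
      isOpen_lt (continuous_snd.dist continuous_const) continuous_const
    filter_upwards [ho.mem_nhds (show (t, z) ∈ {x : ℂ × ℂ | dist x.2 a < χ.rIn} from hz)] with x hx
    exact h1 x hx
  intro u
  have h3 : HasFDerivAt (fun x : ℂ × ℂ => l x.2) (l.comp (ContinuousLinearMap.snd ℝ ℂ ℂ)) (t, z) :=
    (l.comp (ContinuousLinearMap.snd ℝ ℂ ℂ)).hasFDerivAt
  rw [h2.fderiv_eq, h3.fderiv]
  rfl

theorem Phi_out {a : ℂ} (χ : ContDiffBump a) (l : ℂ →L[ℝ] ℝ) {t z : ℂ} (hz : χ.rOut < dist z a) :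
    Phi χ l (t, z) = 0 ∧ ∀ u : ℂ × ℂ, fderiv ℝ (Phi χ l) (t, z) u = 0 := by
  have h1 : ∀ x : ℂ × ℂ, χ.rOut < dist x.2 a → Phi χ l x = 0 := by
    intro x hx
    simp only [Phi]
    rw [χ.zero_of_le_dist hx.le, zero_mul]
  refine ⟨h1 _ hz, ?_⟩
  have h2 : Phi χ l =ᶠ[𝓝 (t, z)] fun _ => (0 : ℝ) := by
    have ho : IsOpen {x : ℂ × ℂ | χ.rOut < dist x.2 a} :=
      isOpen_lt continuous_const (continuous_snd.dist continuous_const)
    filter_upwards [ho.mem_nhds (show (t, z) ∈ {x : ℂ × ℂ | χ.rOut < dist x.2 a} from hz)] with x hx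
    exact h1 x hx
  intro u
  rw [h2.fderiv_eq]
  simp


end

end Crest.Agent.R235.CylSHEET_848
end

-- ▼ part R235/CylSheets_848
section

/-!
Row 235 (S0364), REG-CYL C16 (helper848): `sheets : ALG0 → GOODZ → WEAK → Reg1Stmt → Reg2Stmt →
SHEETS` (definitions of CylDef_607).
-/

set_option autoImplicit false

open MeasureTheory Metric Set Filter Complex
open scoped ContDiff Topology ComplexConjugate

namespace Crest.Agent.R235.CylSheets_848

open Crest.Agent.R235.Loc Crest.Agent.R235.Cyl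
open Crest.Agent.R235.NWIface_334 (Reg1Stmt Reg2Stmt)
open Crest.Agent.R235.SheetCore_848 (RW int_aux tsupp_zero tsupp_fderiv_zero lz_val)
open Crest.Agent.R235.CylSHEET_848 (isolateV Phi Phi_cd Phi_in Phi_out)

noncomputable section

theorem slo_one (X Y : CC) : slo X Y 1 = ((hh X Y)⁻¹ : ℝ) • (V1 X Y).2 := by
  simp [slo]

theorem slo_I (X Y : CC) : slo X Y I = ((hh X Y)⁻¹ : ℝ) • (VI X Y).2 := by
  simp [slo]

theorem hh_meas {X Y : CC → CC} (hX : Measurable X) (hY : Measurable Y) :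
    Measurable fun p => hh (X p) (Y p) := by
  unfold hh
  exact ((measurable_re.comp (measurable_fst.comp hX)).mul
    (measurable_im.comp (measurable_fst.comp hY))).sub
    ((measurable_re.comp (measurable_fst.comp hY)).mul
    (measurable_im.comp (measurable_fst.comp hX)))

theorem slo1_meas {X Y : CC → CC} (hX : Measurable X) (hY : Measurable Y) :
    Measurable fun p => slo (X p) (Y p) 1 := by
  simp only [slo_one, V1, Prod.snd_sub, Prod.smul_snd]
  exact (hh_meas hX hY).inv.smul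
    (((measurable_im.comp (measurable_fst.comp hY)).smul (measurable_snd.comp hX)).sub
      ((measurable_im.comp (measurable_fst.comp hX)).smul (measurable_snd.comp hY)))

theorem sloI_meas {X Y : CC → CC} (hX : Measurable X) (hY : Measurable Y) :
    Measurable fun p => slo (X p) (Y p) I := by
  simp only [slo_I, VI, Prod.snd_sub, Prod.smul_snd]
  exact (hh_meas hX hY).inv.smul
    (((measurable_re.comp (measurable_fst.comp hX)).smul (measurable_snd.comp hY)).sub
      ((measurable_re.comp (measurable_fst.comp hY)).smul (measurable_snd.comp hX)))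

theorem lz_le (L : ℂ →L[ℝ] ℂ) : ‖lz L‖ ≤ ‖L‖ := by
  have h1 := L.le_opNorm 1
  have h2 := L.le_opNorm I
  rw [norm_one, mul_one] at h1
  rw [norm_I, mul_one] at h2
  rw [lz, norm_div]
  have h3 := norm_sub_le (L 1) (I * L I)
  rw [norm_mul, norm_I, one_mul] at h3
  have : ‖(2 : ℂ)‖ = 2 := by norm_num
  rw [this]
  linarith

theorem lzb_le (L : ℂ →L[ℝ] ℂ) : ‖lzb L‖ ≤ ‖L‖ := by
  have h1 := L.le_opNorm 1
  have h2 := L.le_opNorm I
  rw [norm_one, mul_one] at h1
  rw [norm_I, mul_one] at h2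
  rw [lzb, norm_div]
  have h3 := norm_add_le (L 1) (I * L I)
  rw [norm_mul, norm_I, one_mul] at h3
  have : ‖(2 : ℂ)‖ = 2 := by norm_num
  rw [this]
  linarith

theorem FS_eq {m : Measure CC} {z : ℂ} {s : Finset ℂ} (h : ∀ w, w ∈ s ↔ w ∈ fib m z)
    (Φ : CC → ℝ) : FS m Φ z = ∑ w ∈ s, Φ (z, w) := by
  have e : fib m z = (s : Set ℂ) := by
    ext w; rw [Finset.mem_coe]; exact (h w).symm
  rw [FS, e, finsum_mem_coe_finset]

/-- **C16** -/
theorem sheets (h0 : ALG0) (hG : GOODZ) (hW : WEAK) (hR1 : Reg1Stmt) (hR2 : Reg2Stmt) :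
    SHEETS := by
  classical
  intro μ β κ L hbox c R ρ K m X Y hB hR k S hcard hhold hae V w hV hS
  obtain ⟨C₀, c₀, _, _, halg⟩ := h0 κ L K hbox.box.κ0 hbox.box.κ1 hbox.box.L0
  have hgood := hG μ β κ L hbox c R ρ K m X Y hB
  obtain ⟨henI, hweak⟩ := hW μ β κ L hbox c R ρ K m X Y hB
  set Λ : ℂ → (ℂ →L[ℝ] ℂ) := fun t => slo (X (t, w t)) (Y (t, w t)) with hΛ
  set p : ℂ → ℂ := fun t => lz (Λ t) with hp
  set q : ℂ → ℂ := fun t => lzb (Λ t) with hq
  have hval : ∀ t v, p t * v + q t * conj v = Λ t v := fun t v => (lz_val (Λ t) v).symm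
  have hTV : ∀ᵐ t : ℂ, t ∈ V → (S t).Nodup ∧ ∀ z, z ∈ S t ↔ z ∈ fib m t :=
    hae.mono fun t ht htV => ht (hV htV)
  have hwmem : ∀ t ∈ V, w t ∈ S t := fun t ht =>
    Multiset.one_le_count_iff_mem.1 (hS.simple t ht).ge
  have hwm : AEMeasurable (fun t => (t, w t)) (volume.restrict V) :=
    aemeasurable_id.prodMk (hS.cont.aemeasurable hS.isOpen.measurableSet)
  have m1 : AEMeasurable (fun t => Λ t 1) (volume.restrict V) :=
    (slo1_meas hB.mX hB.mY).comp_aemeasurable hwm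
  have mI : AEMeasurable (fun t => Λ t I) (volume.restrict V) :=
    (sloI_meas hB.mX hB.mY).comp_aemeasurable hwm
  have hpm : AEStronglyMeasurable p (volume.restrict V) := by
    simp only [hp, lz]
    exact ((m1.sub (mI.const_mul I)).div_const 2).aestronglyMeasurable
  have hqm : AEStronglyMeasurable q (volume.restrict V) := by
    simp only [hq, lzb]
    exact ((m1.add (mI.const_mul I)).div_const 2).aestronglyMeasurable
  have main := SheetCore_848.global hR1 hR2 hbox.smμ hbox.smβ hbox.box.κ1 hbox.box.bμ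
    (w := w) (p := p) (q := q) hS.isOpen ?_ ?_
  · refine ⟨main.1, main.2.1, main.2.2.mono fun z hz hzV => ?_⟩
    obtain ⟨h1, h2⟩ := hz hzV
    apply ContinuousLinearMap.ext
    intro v
    rw [lz_val (fderiv ℝ w z) v, h1, h2, hval]
  · intro a ha
    have hac : dist a c < R := mem_ball.1 (hV ha)
    obtain ⟨R', hR'1, hR'2⟩ := exists_between hac
    obtain ⟨C1, b1, hC1, hb1, hcl⟩ := hhold R' hR'2
    set V' : Set ℂ := V ∩ ball c R' with hV'
    have hS' : Sheet S V' w :=
      ⟨hS.isOpen.inter isOpen_ball, hS.cont.mono inter_subset_left, fun z hz => hS.simple z hz.1⟩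
    have ha' : a ∈ V' := ⟨ha, mem_ball.2 hR'1⟩
    obtain ⟨δ, hδ, hδ1, r, hr, hr1, hrV', hiso, hhol⟩ := isolateV hS' (C' := C1 + 1) (b := b1)
      (by linarith) hb1 (fun t ht t' ht' => by
        refine Multiset.Rel.mono (hcl t ht.2 t' ht'.2) ?_
        intro x _ y _ hxy
        refine le_trans hxy ?_
        have : 0 ≤ dist t t' ^ b1 := by positivity
        nlinarith) ha'
    have hrV : ball a r ⊆ V := hrV'.trans inter_subset_left
    have hmr : volume.restrict (ball a r) ≤ volume.restrict V := Measure.restrict_mono hrV le_rfl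
    have hint : IntegrableOn (en m X Y) (ball a r) := henI.mono_set (hrV.trans hV)
    -- fibre sums near `a`
    have hfs : ∀ᵐ t : ℂ, t ∈ ball a r → ∀ Φ : CC → ℝ,
        FS m Φ t = ∑ z ∈ (S t).toFinset, Φ (t, z) := by
      filter_upwards [hTV] with t ht htb Φ
      exact FS_eq (fun z => by rw [Multiset.mem_toFinset]; exact (ht (hrV htb)).2 z) Φ
    have hΛle : ∀ᵐ t : ℂ, t ∈ ball a r → ‖Λ t‖ ^ 2 ≤ en m X Y t := by
      filter_upwards [hfs] with t ht htb
      rw [en, ht htb]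
      have hw : w t ∈ (S t).toFinset := Multiset.mem_toFinset.2 (hwmem t (hrV htb))
      exact Finset.single_le_sum (f := fun z => ‖slo (X (t, z)) (Y (t, z))‖ ^ 2)
        (fun _ _ => by positivity) hw
    have hmem : ∀ g : ℂ → ℂ, AEStronglyMeasurable g (volume.restrict V) →
        (∀ t, ‖g t‖ ≤ ‖Λ t‖) → MemLp g 2 (volume.restrict (ball a r)) := by
      intro g hg hgle
      refine (memLp_two_iff_integrable_sq_norm (hg.mono_measure hmr)).2 ?_
      refine Integrable.mono' hint ((hg.mono_measure hmr).norm.pow 2) ?_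
      refine (ae_restrict_iff' measurableSet_ball).2 ?_
      filter_upwards [hΛle] with t ht htb
      rw [Real.norm_of_nonneg (by positivity)]
      exact (pow_le_pow_left₀ (norm_nonneg _) (hgle t) 2).trans (ht htb)
    have hmemp : MemLp p 2 (volume.restrict (ball a r)) := hmem p hpm fun t => lz_le _
    have hmemq : MemLp q 2 (volume.restrict (ball a r)) := hmem q hqm fun t => lzb_le _
    refine ⟨r / 2, min b1 (1 / 2), C1 + 1, by positivity, by positivity,
      (min_le_right _ _).trans_lt (by norm_num), (ball_subset_ball (by linarith)).trans hrV,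
      RW.mono (c := a) (r := r) ⟨hS.cont.mono hrV, hmemp, hmemq, ?_⟩
        (ball_subset_ball (by linarith)), ?_⟩
    · intro η h1 h2 h3 v
      have hlint : ∀ l : ℂ →L[ℝ] ℝ, ∫ t, l (w t) * fderiv ℝ η t v =
          - ∫ t, η t * l (Λ t v) := by
        intro l
        set χ : ContDiffBump (w a) := ⟨δ, 2 * δ, hδ, by linarith⟩ with hχ
        have hk := (hweak (Phi χ l) ((Phi_cd χ l).of_le (by norm_cast)) η (h1.of_le (by norm_cast))
          h2 (h3.trans (hrV.trans hV)) v).2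
        have e1 : ∫ z in ball c R, fderiv ℝ η z v * FS m (Phi χ l) z =
            ∫ t, l (w t) * fderiv ℝ η t v := by
          rw [setIntegral_eq_integral_of_forall_compl_eq_zero]
          · refine integral_congr_ae ?_
            filter_upwards [hfs] with t ht
            by_cases htb : t ∈ ball a r
            · obtain ⟨i1, i2, i3⟩ := hiso t htb
              rw [ht htb, mul_comm]
              congr 1
              rw [Finset.sum_eq_single (w t)]
              · exact (Phi_in χ l i1).1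
              · intro z hz hne
                refine (Phi_out χ l ?_).1
                have := i3 z (Multiset.mem_toFinset.1 hz) hne
                show 2 * δ < dist z (w a)
                linarith
              · intro hn
                exact absurd (Multiset.mem_toFinset.2 i2) hn
            · rw [tsupp_fderiv_zero v t fun h => htb (h3 h), mul_zero, zero_mul]
          · intro x hx
            rw [tsupp_fderiv_zero v x fun h => hx (hV (hrV (h3 h))), zero_mul]
        have e2 : ∫ z in ball c R, η z * FS m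
            (fun p => fderiv ℝ (Phi χ l) p (v, slo (X p) (Y p) v)) z =
            ∫ t, η t * l (Λ t v) := by
          rw [setIntegral_eq_integral_of_forall_compl_eq_zero]
          · refine integral_congr_ae ?_
            filter_upwards [hfs] with t ht
            by_cases htb : t ∈ ball a r
            · obtain ⟨i1, i2, i3⟩ := hiso t htb
              rw [ht htb]
              congr 1
              rw [Finset.sum_eq_single (w t)]
              · exact (Phi_in χ l i1).2 _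
              · intro z hz hne
                refine (Phi_out χ l ?_).2 _
                have := i3 z (Multiset.mem_toFinset.1 hz) hne
                show 2 * δ < dist z (w a)
                linarith
              · intro hn
                exact absurd (Multiset.mem_toFinset.2 i2) hn
            · rw [tsupp_zero t fun h => htb (h3 h), zero_mul, zero_mul]
          · intro x hx
            rw [tsupp_zero x fun h => hx (hV (hrV (h3 h))), zero_mul]
        rw [← e1, hk, e2]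
      simp only [hval]
      have hcw := hS.cont.mono (h3.trans hrV)
      have i1 : Integrable (fun t => fderiv ℝ η t v • w t) :=
        int_aux ((h1.continuous_fderiv (by simp)).clm_apply continuous_const) h2.isCompact
          (tsupp_fderiv_zero v) (hcw.integrableOn_compact h2.isCompact)
      have i2 : Integrable (fun t => η t • Λ t v) := by
        simp only [← hval]
        refine int_aux h1.continuous h2.isCompact tsupp_zero ?_
        exact ((SheetCore_848.int_L2 hmemp h3).mul_const v).add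
          ((SheetCore_848.int_L2 hmemq h3).mul_const (conj v))
      have hre := hlint reCLM
      have him := hlint imCLM
      apply Complex.ext
      · have a1 : (∫ t, fderiv ℝ η t v • w t).re = ∫ t, reCLM (w t) * fderiv ℝ η t v := by
          have := reCLM.integral_comp_comm i1
          rw [show (∫ t, fderiv ℝ η t v • w t).re = reCLM (∫ t, fderiv ℝ η t v • w t) from rfl,
            ← this]
          refine integral_congr_ae (Eventually.of_forall fun t => ?_)
          simp only [map_smul, smul_eq_mul]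
          ring
        have a2 : (∫ t, η t • Λ t v).re = ∫ t, η t * reCLM (Λ t v) := by
          have := reCLM.integral_comp_comm i2
          rw [show (∫ t, η t • Λ t v).re = reCLM (∫ t, η t • Λ t v) from rfl, ← this]
          refine integral_congr_ae (Eventually.of_forall fun t => ?_)
          simp only [map_smul, smul_eq_mul]
        rw [neg_re, a1, a2, hre]
      · have a1 : (∫ t, fderiv ℝ η t v • w t).im = ∫ t, imCLM (w t) * fderiv ℝ η t v := by
          have := imCLM.integral_comp_comm i1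
          rw [show (∫ t, fderiv ℝ η t v • w t).im = imCLM (∫ t, fderiv ℝ η t v • w t) from rfl,
            ← this]
          refine integral_congr_ae (Eventually.of_forall fun t => ?_)
          simp only [map_smul, smul_eq_mul]
          ring
        have a2 : (∫ t, η t • Λ t v).im = ∫ t, η t * imCLM (Λ t v) := by
          have := imCLM.integral_comp_comm i2
          rw [show (∫ t, η t • Λ t v).im = imCLM (∫ t, η t • Λ t v) from rfl, ← this]
          refine integral_congr_ae (Eventually.of_forall fun t => ?_)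
          simp only [map_smul, smul_eq_mul]
        rw [neg_im, a1, a2, him]
    · intro x hx y hy
      have hd1 : dist x y ≤ 1 := by
        have h1 := mem_ball.1 hx
        have h2 := mem_ball'.1 hy
        have h3 := dist_triangle x a y
        linarith
      have h4 := hhol x (ball_subset_ball (by linarith) hx) y (ball_subset_ball (by linarith) hy)
      refine h4.trans (mul_le_mul_of_nonneg_left ?_ (by linarith))
      rcases eq_or_lt_of_le (dist_nonneg (x := x) (y := y)) with h5 | h5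
      · rw [← h5, Real.zero_rpow hb1.ne', Real.zero_rpow (by positivity)]
      · exact Real.rpow_le_rpow_of_exponent_ge h5 hd1 (min_le_left _ _)
  · filter_upwards [hTV, hgood] with t h1 h2 htV
    have hwf : w t ∈ fib m t := ((h1 htV).2 _).1 (hwmem t htV)
    have hpos := ((h2 (hV htV)).2 _ hwf).2.2
    exact ((halg μ β hbox (t, w t) (X (t, w t)) (Y (t, w t)) (hB.nX _) (hB.nY _) (hB.jz _)
      (hB.jw _)).2.2.2.2.2.2.2.2.2.2 hpos).1

end

end Crest.Agent.R235.CylSheets_848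
end

-- ▼ part R235/CylAsm_437
section

/-!
Row 235 (S0364), PACKAGE REG, sub-block CYL, leaf C17 (helper437, task 287), part A:

* `scont`            : Hoelder closeness gives continuity of the `k`-valued map;
* `exists_sheets`    : local sheets near a simple point, from continuity only;
* `ae_slope`         : a.e. `slope S z w = slo (X (z,w)) (Y (z,w))` for all `w ∈ S z`;
* `FS_eq`            : the fibre sum as a finite sum over `S z`;
* **`cyl_of`**       : `WEAK → DECAY → REPR → SUPPS → SHEETS → CYL`.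
-/

set_option autoImplicit false

open MeasureTheory Metric Set Filter Complex
open scoped ContDiff Topology

namespace Crest.Agent.R235.CylAsm_437

open Crest.Agent.R235.Loc Crest.Agent.R235.Cyl Crest.Agent.R235.LocSel_483

noncomputable section

/-! ### elementary -/

theorem near_of_close {δ ε : ℝ} (h : δ < ε) {s t : Multiset ℂ} (hc : Close δ s t) : Near ε s t :=
  Multiset.Rel.mono hc fun _ _ _ _ hab => lt_of_le_of_lt hab h

theorem close_mono {δ ε : ℝ} (h : δ ≤ ε) {s t : Multiset ℂ} (hc : Close δ s t) : Close ε s t :=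
  Multiset.Rel.mono hc fun _ _ _ _ hab => hab.trans h

/-- Hoelder closeness on smaller balls. -/
def Hld (c : ℂ) (R : ℝ) (S : ℂ → Multiset ℂ) : Prop :=
  ∀ R' < R, ∃ C b : ℝ, 0 ≤ C ∧ 0 < b ∧ ∀ z ∈ ball c R', ∀ z' ∈ ball c R',
    Close (C * dist z z' ^ b) (S z) (S z')

theorem exists_mid {c : ℂ} {R : ℝ} {z : ℂ} (hz : z ∈ ball c R) :
    ∃ R' < R, z ∈ ball c R' := by
  refine ⟨(dist z c + R) / 2, ?_, ?_⟩
  · have := mem_ball.1 hz; linarith
  · have := mem_ball.1 hz
    rw [mem_ball]; linarith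

theorem scont {c : ℂ} {R : ℝ} {S : ℂ → Multiset ℂ} (h : Hld c R S) {z : ℂ} (hz : z ∈ ball c R) :
    SCont S z := by
  intro ε hε
  obtain ⟨R', hR', hz'⟩ := exists_mid hz
  obtain ⟨C, b, hC, hb, hcl⟩ := h R' hR'
  have hlim : Tendsto (fun z' : ℂ => C * dist z z' ^ b) (𝓝 z) (𝓝 0) := by
    have h1 : Tendsto (fun z' : ℂ => dist z z') (𝓝 z) (𝓝 0) := by
      have := (continuous_const.dist continuous_id : Continuous fun z' : ℂ => dist z z').tendsto z
      simpa using this
    have h2 : Tendsto (fun z' : ℂ => dist z z' ^ b) (𝓝 z) (𝓝 (0 ^ b)) :=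
      h1.rpow_const (Or.inr hb.le)
    rw [Real.zero_rpow hb.ne'] at h2
    simpa using h2.const_mul C
  filter_upwards [hlim.eventually (gt_mem_nhds hε), isOpen_ball.mem_nhds hz'] with z' h1 h2
  exact near_of_close h1 (hcl z hz' z' h2)

/-- local sheets near a simple point, from continuity only. -/
theorem exists_sheets {c : ℂ} {R : ℝ} {k : ℕ} {S : ℂ → Multiset ℂ}
    (hcard : ∀ z ∈ ball c R, (S z).card = k) (hS : ∀ z ∈ ball c R, SCont S z)
    {z₀ : ℂ} (hz₀ : z₀ ∈ ball c R) (hnd₀ : (S z₀).Nodup) :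
    ∃ (r : ℝ) (w : Fin k → ℂ → ℂ), 0 < r ∧ ball z₀ r ⊆ ball c R ∧
      (∀ i, Sheet S (ball z₀ r) (w i)) ∧
      (∀ z ∈ ball z₀ r, Function.Injective (fun i => w i z)) ∧
      (∀ z ∈ ball z₀ r, S z = Multiset.map (fun i => w i z) Finset.univ.val) := by
  obtain ⟨a, d, hd, hsep, hSa, hev⟩ := exists_local (hS z₀ hz₀) (hcard z₀ hz₀) hnd₀
  obtain ⟨r₁, hr₁, hball⟩ := Metric.eventually_nhds_iff_ball.1 hev
  obtain ⟨r₂, hr₂, hball₂⟩ := Metric.isOpen_ball.mem_nhds hz₀ |> Metric.mem_nhds_iff.1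
  set r := min r₁ r₂ with hr
  have hr0 : 0 < r := lt_min hr₁ hr₂
  have hsub : ball z₀ r ⊆ ball c R :=
    (ball_subset_ball (min_le_right _ _)).trans hball₂
  choose! b hbS hbd using hball
  have hbS' : ∀ z ∈ ball z₀ r, S z = Multiset.map (b z) Finset.univ.val := fun z hz =>
    hbS z (ball_subset_ball (min_le_left _ _) hz)
  have hbd' : ∀ z ∈ ball z₀ r, ∀ i, dist (a i) (b z i) < d := fun z hz =>
    hbd z (ball_subset_ball (min_le_left _ _) hz)
  have hinj : ∀ z ∈ ball z₀ r, Function.Injective (b z) := fun z hz =>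
    inj_of_near hsep (hbd' z hz)
  have hnd : ∀ z ∈ ball z₀ r, (S z).Nodup := fun z hz => by
    rw [hbS' z hz]; exact nodup_of_inj (hinj z hz)
  have hcont : ∀ i, ContinuousOn (fun z => b z i) (ball z₀ r) := by
    intro i z hz
    refine ContinuousAt.continuousWithinAt ?_
    rw [Metric.continuousAt_iff']
    intro ε hε
    have hSz : SCont S z := hS z (hsub hz)
    filter_upwards [hSz (min ε d) (lt_min hε hd), Metric.isOpen_ball.mem_nhds hz] with z' h1 h2
    unfold Near at h1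
    rw [hbS' z hz] at h1
    obtain ⟨c', hc', hcd⟩ := rel_fun h1
    have h3 : c' i = b z' i := by
      refine eq_of_near hsep (hbd' z' h2) (i := i) ?_ ?_
      · rw [← hbS' z' h2, hc']
        exact Multiset.mem_map_of_mem _ (Finset.mem_univ i)
      · have h4 := dist_triangle (a i) (b z i) (c' i)
        have h5 := hbd' z hz i
        have h6 := hcd i
        have h7 := min_le_right ε d
        linarith
    rw [← h3, dist_comm]
    exact lt_of_lt_of_le (hcd i) (min_le_left _ _)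
  have hsheet : ∀ i, Sheet S (ball z₀ r) (fun z => b z i) := by
    intro i
    refine ⟨Metric.isOpen_ball, hcont i, fun z hz => ?_⟩
    refine Multiset.count_eq_one_of_mem (hnd z hz) ?_
    rw [hbS' z hz]
    exact Multiset.mem_map_of_mem _ (Finset.mem_univ i)
  exact ⟨r, fun i z => b z i, hr0, hsub, hsheet, hinj, hbS'⟩

/-- a.e. the slope of the graph is the slope of the current. -/
theorem ae_slope {c : ℂ} {R : ℝ} {k : ℕ} {S : ℂ → Multiset ℂ} {X Y : CC → CC}
    (hcard : ∀ z ∈ ball c R, (S z).card = k) (hS : ∀ z ∈ ball c R, SCont S z)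
    (hw : ∀ (V : Set ℂ) (w : ℂ → ℂ), V ⊆ ball c R → Sheet S V w →
      ∀ᵐ z : ℂ, z ∈ V → fderiv ℝ w z = slo (X (z, w z)) (Y (z, w z))) :
    ∀ᵐ z : ℂ, z ∈ ball c R → (S z).Nodup → ∀ w ∈ S z,
      Loc.slope S z w = slo (X (z, w)) (Y (z, w)) := by
  rw [ae_iff]
  refine measure_null_of_locally_null _ ?_
  intro z₀ hz₀
  simp only [mem_ofPred_eq, Classical.not_imp] at hz₀
  obtain ⟨hz₀, hnd₀, -⟩ := hz₀
  obtain ⟨r, w, hr, hsub, hsh, hinj, hSw⟩ := exists_sheets hcard hS hz₀ hnd₀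
  have hae : ∀ᵐ z : ℂ, ∀ i : Fin k, z ∈ ball z₀ r →
      fderiv ℝ (w i) z = slo (X (z, w i z)) (Y (z, w i z)) :=
    ae_all_iff.2 fun i => hw _ _ hsub (hsh i)
  rw [ae_iff] at hae
  refine ⟨{z | ¬ ∀ i : Fin k, z ∈ ball z₀ r →
    fderiv ℝ (w i) z = slo (X (z, w i z)) (Y (z, w i z))}, ?_, hae⟩
  rw [mem_nhdsWithin]
  refine ⟨ball z₀ r, isOpen_ball, mem_ball_self hr, ?_⟩
  rintro z ⟨hz, hz'⟩ hcon
  apply hz'
  intro h1 _ a ha
  rw [hSw z hz] at ha
  obtain ⟨i, -, rfl⟩ := Multiset.mem_map.1 ha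
  rw [slope_eq (hS z h1) (hsh i) hz]
  exact hcon i hz

/-- the fibre sum is a finite sum. -/
theorem FS_eq {m : Measure CC} {S : ℂ → Multiset ℂ} {z : ℂ}
    (h : ∀ w, w ∈ S z ↔ w ∈ fib m z) (Φ : CC → ℝ) :
    FS m Φ z = ∑ w ∈ (S z).toFinset, Φ (z, w) := by
  unfold FS
  have : fib m z = ((S z).toFinset : Set ℂ) := by
    ext w
    rw [← h w]
    simp
  rw [this]
  exact finsum_mem_coe_finset _ _

/-- the energy density. -/
def eD (S : ℂ → Multiset ℂ) (z : ℂ) : ℝ := ∑ w ∈ (S z).toFinset, ‖Loc.slope S z w‖ ^ 2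

theorem eD_nonneg (S : ℂ → Multiset ℂ) (z : ℂ) : 0 ≤ eD S z :=
  Finset.sum_nonneg fun _ _ => by positivity

theorem eD_bd {S : ℂ → Multiset ℂ} {V : Set ℂ} {w : ℂ → ℂ} {z : ℂ} (hS : SCont S z)
    (h : Sheet S V w) (hz : z ∈ V) : ‖fderiv ℝ w z‖ ^ 2 ≤ eD S z := by
  have hmem : w z ∈ (S z).toFinset := by
    rw [Multiset.mem_toFinset]
    exact Multiset.count_pos.1 (by rw [h.simple z hz]; exact one_pos)
  have := Finset.single_le_sum (f := fun w => ‖Loc.slope S z w‖ ^ 2)
    (fun _ _ => by positivity) hmem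
  simp only [slope_eq hS h hz] at this
  exact this

theorem ae_eD {c : ℂ} {R : ℝ} {k : ℕ} {S : ℂ → Multiset ℂ} {m : Measure CC} {X Y : CC → CC}
    (hcard : ∀ z ∈ ball c R, (S z).card = k) (hS : ∀ z ∈ ball c R, SCont S z)
    (hw : ∀ (V : Set ℂ) (w : ℂ → ℂ), V ⊆ ball c R → Sheet S V w →
      ∀ᵐ z : ℂ, z ∈ V → fderiv ℝ w z = slo (X (z, w z)) (Y (z, w z)))
    (hfib : ∀ᵐ z : ℂ, z ∈ ball c R → (S z).Nodup ∧ ∀ w, w ∈ S z ↔ w ∈ fib m z) :
    ∀ᵐ z : ℂ, z ∈ ball c R → eD S z = en m X Y z := by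
  filter_upwards [ae_slope hcard hS hw, hfib] with z h1 h2 hz
  obtain ⟨hnd, h3⟩ := h2 hz
  unfold en
  rw [FS_eq h3]
  refine Finset.sum_congr rfl fun w hw => ?_
  rw [h1 hz hnd w (Multiset.mem_toFinset.1 hw)]

theorem rpow_cmp {t D b b' : ℝ} (ht : 0 ≤ t) (htD : t ≤ D) (hb : 0 < b) (hbb : b ≤ b') :
    t ^ b' ≤ D ^ (b' - b) * t ^ b := by
  rcases ht.eq_or_lt with rfl | ht
  · rw [Real.zero_rpow hb.ne', Real.zero_rpow (hb.trans_le hbb).ne', mul_zero]
  · have h1 : t ^ b' = t ^ (b' - b) * t ^ b := by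
      rw [← Real.rpow_add ht]; congr 1; ring
    rw [h1]
    exact mul_le_mul_of_nonneg_right (Real.rpow_le_rpow ht.le htD (by linarith))
      (Real.rpow_nonneg ht.le _)

/-- **CYL.** -/
theorem cyl_of (hW : WEAK) (hD : DECAY) (hR : REPR) (hSu : SUPPS) (hSh : SHEETS) : CYL := by
  intro μ β κ L hB c R ρ K m X Y hm hR0
  obtain ⟨k, S, hcard, hH, hae⟩ := hR μ β κ L hB c R ρ K m X Y hm hR0
  have hsupp := hSu μ β κ L hB c R ρ K m X Y hm hR0 k S hcard hH hae
  have hsheets := hSh μ β κ L hB c R ρ K m X Y hm hR0 k S hcard hH hae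
  have hS : ∀ z ∈ ball c R, SCont S z := fun z hz => scont hH hz
  have heD := ae_eD hcard hS (fun V w hV hw => (hsheets V w hV hw).2.2) hae
  have hint : IntegrableOn (eD S) (ball c R) := by
    refine ((hW μ β κ L hB c R ρ K m X Y hm).1).congr_fun_ae ?_
    rw [EventuallyEq, ae_restrict_iff' measurableSet_ball]
    filter_upwards [heD] with z hz hz'
    exact (hz hz').symm
  have hdec : ∀ R' < R, ∃ C b r₀ : ℝ, 0 ≤ C ∧ 0 < b ∧ b < 1 ∧ 0 < r₀ ∧ R' + r₀ < R ∧
      ∀ z₀ ∈ closedBall c R', ∀ r : ℝ, 0 < r → r ≤ r₀ →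
        ∫ z in ball z₀ r, eD S z ≤ C * r ^ (2 * b) := by
    intro R' hR'
    obtain ⟨C, b, r₀, hC, hb, hb1, hr₀, hRr, h⟩ := hD μ β κ L hB c R ρ K m X Y hm R' hR'
    refine ⟨C, b, r₀, hC, hb, hb1, hr₀, hRr, fun z₀ hz₀ r hr hr' => ?_⟩
    have h1 := (h z₀ hz₀ r hr hr').2
    refine le_trans (le_of_eq ?_) h1
    refine setIntegral_congr_ae measurableSet_ball ?_
    filter_upwards [heD] with z hz hz'
    refine hz ?_
    rw [mem_ball] at hz' ⊢
    have h2 := dist_triangle z z₀ c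
    have h3 := mem_closedBall.1 hz₀
    linarith
  have hKG : KG μ β c R k S (eD S) := by
    refine ⟨hcard, fun z hz ε hε => hS z hz ε hε, ?_, fun V w hV hw => (hsheets V w hV hw).1,
      fun V w hV hw => (hsheets V w hV hw).2.1, eD_nonneg S, hint,
      fun V w hV hw z hz => eD_bd (hS z (hV hz)) hw hz, ?_, ?_⟩
    · rw [ae_iff] at hae
      refine measure_mono_null ?_ hae
      rintro z ⟨hz, hz'⟩ hcon
      exact hz' (hcon hz).1
    · intro p hp
      obtain ⟨C, b, r₀, hC, hb, -, hr₀, hRr, h⟩ := hdec (dist p c) (mem_ball.1 hp)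
      refine ⟨C, b, r₀, hC, hb, hr₀, fun z hz => ?_, fun r hr hr' =>
        h p (mem_closedBall.2 le_rfl) r hr hr'⟩
      rw [mem_ball] at hz ⊢
      have := dist_triangle z p c
      linarith
    · intro p hp
      obtain ⟨R', hR', hp'⟩ := exists_mid hp
      obtain ⟨C, b, hC, hb, hcl⟩ := hH R' hR'
      obtain ⟨r₀, hr₀, hsub⟩ := Metric.isOpen_iff.1 isOpen_ball p hp'
      refine ⟨C, b, r₀, hC, hb, hr₀, hsub.trans (ball_subset_ball hR'.le), fun z hz => ?_⟩
      have := hcl p hp' z (hsub hz)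
      rwa [dist_comm] at this
  refine ⟨k, S, eD S, hKG, ?_, ?_, hsupp⟩
  · intro R' hR'
    obtain ⟨C, b, r₀, hC, hb, hb1, hr₀, hRr, h⟩ := hdec R' hR'
    obtain ⟨C', b', hC', hb', hcl⟩ := hH ((R' + R) / 2) (by linarith)
    set b₀ := min b b' with hb₀
    have hb₀0 : 0 < b₀ := lt_min hb hb'
    set D : ℝ := max 1 (2 * |R'|) with hDdef
    have hD1 : 1 ≤ D := le_max_left _ _
    refine ⟨max C (C' * D ^ (b' - b₀)), b₀, min r₀ 1, le_max_of_le_left hC, hb₀0,
      (min_le_left _ _).trans_lt hb1, lt_min hr₀ one_pos, ?_, ?_, ?_⟩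
    · have := min_le_left r₀ 1
      linarith
    · intro z₀ hz₀ r hr hr'
      refine (h z₀ hz₀ r hr (hr'.trans (min_le_left _ _))).trans ?_
      refine mul_le_mul (le_max_left _ _) ?_ (Real.rpow_nonneg hr.le _)
        (le_max_of_le_left hC)
      refine Real.rpow_le_rpow_of_exponent_ge hr (hr'.trans (min_le_right _ _)) ?_
      have := min_le_left b b'
      linarith
    · intro z hz z' hz'
      have hin : ∀ x ∈ closedBall c R', x ∈ ball c ((R' + R) / 2) := by
        intro x hx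
        rw [mem_ball]
        have := mem_closedBall.1 hx
        linarith
      refine close_mono ?_ (hcl z (hin z hz) z' (hin z' hz'))
      have hdist : dist z z' ≤ D := by
        have h1 := dist_triangle_right z z' c
        have h2 := mem_closedBall.1 hz
        have h3 := mem_closedBall.1 hz'
        have h4 := le_abs_self R'
        refine le_trans ?_ (le_max_right _ _)
        linarith
      have h5 := rpow_cmp (t := dist z z') dist_nonneg hdist hb₀0 (min_le_right b b')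
      calc C' * dist z z' ^ b' ≤ C' * (D ^ (b' - b₀) * dist z z' ^ b₀) :=
            mul_le_mul_of_nonneg_left h5 hC'
        _ = (C' * D ^ (b' - b₀)) * dist z z' ^ b₀ := by ring
        _ ≤ _ := mul_le_mul_of_nonneg_right (le_max_right _ _)
            (Real.rpow_nonneg dist_nonneg _)
  · intro z hz w hw
    by_contra hcon
    push Not at hcon
    have h1 : InSupp m (z, w) := (hsupp z hz w).1 hw
    have h2 := h1 (‖w‖ - ρ) (by linarith)
    have h3 : m (ball ((z, w) : CC) (‖w‖ - ρ)) = 0 := by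
      have h4 := hm.supp
      rw [ae_iff] at h4
      refine measure_mono_null ?_ h4
      intro p hp hcon'
      have h5 : dist p.2 w < ‖w‖ - ρ := lt_of_le_of_lt (le_max_right _ _) (mem_ball.1 hp)
      have h6 := norm_sub_norm_le w p.2
      rw [← dist_eq_norm, dist_comm] at h6
      linarith [hcon'.2]
    rw [h3] at h2
    exact lt_irrefl _ h2

end

end Crest.Agent.R235.CylAsm_437
end

-- ▼ part R235/CylF_437

/-!
Row 235 (S0364), PACKAGE REG, sub-block CYL, leaf C17 (helper437, task 287), part B: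

* `ae_inSupp`     : `m`-almost every point is in the support;
* `fibre_null`    : `m ({z} × ℂ) = 0`;
* `del_countable` : the non-simple points are countable;
* `pos_simple`    : `0 < hh` at flat points over simple points;
* `ae_pos`        : `0 < hh` `m`-almost everywhere;
* **`cylf_of`**   : `CYL → LOC → ALG0 → CONE → DECAY → DISI → SHEETS → CYLF`.
-/

set_option autoImplicit false

open MeasureTheory Metric Set Filter Complex
open scoped ContDiff Topology

namespace Crest.Agent.R235.CylF_437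

open Crest.Agent.R235.Loc Crest.Agent.R235.Cyl Crest.Agent.R235.LocSel_483
open Crest.Agent.R235.CylAsm_437

noncomputable section

/-- almost every point is in the support. -/
theorem ae_inSupp (m : Measure CC) : ∀ᵐ p ∂m, InSupp m p := by
  rw [ae_iff]
  refine measure_null_of_locally_null _ ?_
  intro p hp
  simp only [mem_ofPred_eq, InSupp, not_forall, not_lt] at hp
  obtain ⟨r, hr, h⟩ := hp
  refine ⟨ball p r, mem_nhdsWithin_of_mem_nhds (ball_mem_nhds p hr), ?_⟩
  exact le_antisymm h (by simp)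

/-- vertical fibres are null. -/
theorem fibre_null {m : Measure CC} [IsFiniteMeasure m] {z : ℂ} {C b r₀ : ℝ} (hb : 0 < b)
    (hr₀ : 0 < r₀)
    (h : ∀ r : ℝ, 0 < r → r ≤ r₀ → m.real (closedBall z r ×ˢ (univ : Set ℂ)) ≤ C * r ^ (2 * b)) :
    m (({z} : Set ℂ) ×ˢ (univ : Set ℂ)) = 0 := by
  have h1 : m.real (({z} : Set ℂ) ×ˢ (univ : Set ℂ)) ≤ 0 := by
    have hlim : Tendsto (fun r : ℝ => C * r ^ (2 * b)) (𝓝[>] 0) (𝓝 0) := by
      have h2 : Tendsto (fun r : ℝ => r ^ (2 * b)) (𝓝 0) (𝓝 (0 ^ (2 * b))) :=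
        tendsto_id.rpow_const (Or.inr (by positivity))
      rw [Real.zero_rpow (by positivity)] at h2
      simpa using (h2.const_mul C).mono_left nhdsWithin_le_nhds
    refine ge_of_tendsto hlim ?_
    filter_upwards [Ioo_mem_nhdsGT hr₀] with r hr
    refine le_trans ?_ (h r hr.1 hr.2.le)
    refine measureReal_mono (prod_mono ?_ le_rfl)
    rw [singleton_subset_iff]
    exact mem_closedBall_self hr.1.le
  have h2 := le_antisymm h1 measureReal_nonneg
  rwa [measureReal_eq_zero_iff] at h2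

/-- the non-simple points are countable. -/
theorem del_countable {c : ℂ} {R : ℝ} {S : ℂ → Multiset ℂ}
    (h : ∀ p ∈ ball c R, ∀ᶠ z in 𝓝[≠] p, (S z).Nodup) : (Del c R S).Countable := by
  have hd : DiscreteTopology (Del c R S) := by
    rw [discreteTopology_subtype_iff]
    intro p hp
    rw [Filter.inf_principal_eq_bot]
    filter_upwards [h p hp.1] with z hz hz'
    exact hz'.2 hz
  have : Countable (Del c R S) := TopologicalSpace.separableSpace_iff_countable.1 inferInstance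
  exact this

/-- `0 < hh` at a flat point of the support over a simple point. -/
theorem pos_simple (h0 : ALG0) (h1 : CONE) {μ β : CC → ℂ} {κ L : ℝ} (hB : SBox μ β κ L)
    {c : ℂ} {R ρ K : ℝ} {m : Measure CC} {X Y : CC → CC} (hm : BoxCur μ β c R ρ K m X Y)
    {k : ℕ} {S : ℂ → Multiset ℂ} {e : ℂ → ℝ} (hKG : KG μ β c R k S e)
    (hS : ∀ z ∈ ball c R, ∀ w, w ∈ S z ↔ InSupp m (z, w)) {p : CC} (hp : p.1 ∈ ball c R)
    (hnd : (S p.1).Nodup) (hin : InSupp m p) (hfl : FlatAt m X Y p) :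
    0 < hh (X p) (Y p) := by
  obtain ⟨C₀, c₀, -, -, hA⟩ := h0 κ L K hB.box.κ0 hB.box.κ1 hB.box.L0
  obtain ⟨hnn, -, -, -, -, -, -, -, hX1, hY1, -⟩ :=
    hA μ β hB p (X p) (Y p) (hm.nX p) (hm.nY p) (hm.jz p) (hm.jw p)
  refine lt_of_le_of_ne hnn fun h00 => ?_
  have hX0 : (X p).1 = 0 := by
    rw [← h00, mul_zero] at hX1
    exact norm_eq_zero.1 (pow_eq_zero_iff two_ne_zero |>.1 (le_antisymm hX1 (by positivity)))
  have hY0 : (Y p).1 = 0 := by
    rw [← h00, mul_zero] at hY1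
    exact norm_eq_zero.1 (pow_eq_zero_iff two_ne_zero |>.1 (le_antisymm hY1 (by positivity)))
  obtain ⟨r, w, hr, hsub, hsh, -, hSw⟩ := exists_sheets hKG.card hKG.cont hp hnd
  have hmem : p.2 ∈ S p.1 := (hS p.1 hp p.2).2 hin
  rw [hSw p.1 (mem_ball_self hr)] at hmem
  obtain ⟨i, -, hi⟩ := Multiset.mem_map.1 hmem
  have hcd : ContDiffAt ℝ ∞ (w i) p.1 :=
    (hKG.smooth _ _ hsub (hsh i)).contDiffAt (ball_mem_nhds _ hr)
  have hO : (fun z => w i z - w i p.1) =O[𝓝 p.1] fun z => z - p.1 :=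
    (hcd.differentiableAt (by simp)).isBigO_sub
  obtain ⟨K₁, hK₁, hO'⟩ := hO.exists_pos
  rw [Asymptotics.isBigOWith_iff] at hO'
  set M := max 1 K₁ with hM
  have hM1 : 1 ≤ M := le_max_left _ _
  have hMK : K₁ ≤ M := le_max_right _ _
  obtain ⟨r₁, hr₁, hcone⟩ := h1 μ β κ L hB c R ρ K m X Y hm p hp hin hfl (1 / (2 * M))
    (by positivity)
  have hev : ∀ᶠ z in 𝓝 p.1, z ∈ ball p.1 r ∧ ‖w i z - w i p.1‖ ≤ K₁ * ‖z - p.1‖ ∧
      ‖z - p.1‖ * M < r₁ := by
    have h3 : Tendsto (fun z : ℂ => ‖z - p.1‖ * M) (𝓝 p.1) (𝓝 0) := by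
      have : Continuous fun z : ℂ => ‖z - p.1‖ * M := by fun_prop
      simpa using this.tendsto p.1
    filter_upwards [ball_mem_nhds p.1 hr, hO', h3.eventually (gt_mem_nhds hr₁)] with z a1 a2 a3
    exact ⟨a1, a2, a3⟩
  have hev' : ∃ᶠ z in 𝓝[≠] p.1, z ∈ ball p.1 r ∧ ‖w i z - w i p.1‖ ≤ K₁ * ‖z - p.1‖ ∧
      ‖z - p.1‖ * M < r₁ :=
    (hev.filter_mono nhdsWithin_le_nhds).frequently
  obtain ⟨z, ⟨hz, hzw, hzr⟩, hne⟩ :=
    (hev'.and_eventually (self_mem_nhdsWithin)).exists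
  have hzp : 0 < ‖z - p.1‖ := norm_pos_iff.2 (sub_ne_zero.2 hne)
  have hq : InSupp m (z, w i z) := by
    refine (hS z (hsub hz) _).1 ?_
    rw [hSw z hz]
    exact Multiset.mem_map_of_mem _ (Finset.mem_univ i)
  have hnorm : ‖((z, w i z) : CC) - p‖ ≤ ‖z - p.1‖ * M := by
    rw [Prod.norm_def]
    refine max_le ?_ ?_
    · change ‖z - p.1‖ ≤ _
      nlinarith
    · change ‖w i z - p.2‖ ≤ _
      rw [← hi]
      refine hzw.trans ?_
      rw [mul_comm]
      exact mul_le_mul_of_nonneg_left hMK hzp.le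
  obtain ⟨ζ, hζ⟩ := hcone _ hq (by rw [dist_eq_norm]; exact hnorm.trans_lt hzr)
  have h5 : ‖z - p.1‖ ≤ ‖((z, w i z) : CC) - p - (ζ.re • X p + ζ.im • Y p)‖ := by
    refine le_trans (le_of_eq ?_) (norm_fst_le _)
    simp [hX0, hY0]
  have h6 : ‖z - p.1‖ ≤ 1 / (2 * M) * (‖z - p.1‖ * M) :=
    h5.trans (hζ.trans (mul_le_mul_of_nonneg_left hnorm (by positivity)))
  have h7 : 1 / (2 * M) * (‖z - p.1‖ * M) = ‖z - p.1‖ / 2 := by
    field_simp
  rw [h7] at h6
  linarith

/-- `0 < hh` almost everywhere. -/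
theorem ae_pos (h0 : ALG0) (h1 : CONE) (hD : DECAY) {μ β : CC → ℂ} {κ L : ℝ} (hB : SBox μ β κ L)
    {c : ℂ} {R ρ K : ℝ} {m : Measure CC} {X Y : CC → CC} (hm : BoxCur μ β c R ρ K m X Y)
    {k : ℕ} {S : ℂ → Multiset ℂ} {e : ℂ → ℝ} (hKG : KG μ β c R k S e)
    (hS : ∀ z ∈ ball c R, ∀ w, w ∈ S z ↔ InSupp m (z, w))
    (hloc : ∀ p ∈ ball c R, ∀ᶠ z in 𝓝[≠] p, (S z).Nodup) :
    ∀ᵐ p ∂m, 0 < hh (X p) (Y p) := by
  have := hm.fin
  have hnull : m (Del c R S ×ˢ (univ : Set ℂ)) = 0 := by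
    have h2 : Del c R S ×ˢ (univ : Set ℂ) = ⋃ z ∈ Del c R S, ({z} : Set ℂ) ×ˢ (univ : Set ℂ) := by
      ext p
      simp
    rw [h2, measure_biUnion_null_iff (del_countable hloc)]
    intro z hz
    obtain ⟨C, b, r₀, hC, hb, -, hr₀, -, h⟩ :=
      hD μ β κ L hB c R ρ K m X Y hm (dist z c) (mem_ball.1 hz.1)
    exact fibre_null hb hr₀ fun r hr hr' => (h z (mem_closedBall.2 le_rfl) r hr hr').1
  have hnull' : ∀ᵐ p ∂m, p ∉ Del c R S ×ˢ (univ : Set ℂ) :=
    measure_eq_zero_iff_ae_notMem.1 hnull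
  filter_upwards [hnull', ae_inSupp m, hm.flat, hm.supp] with p a1 a2 a3 a4
  refine pos_simple h0 h1 hB hm hKG hS a4.1 ?_ a2 a3
  by_contra hcon
  exact a1 ⟨⟨a4.1, hcon⟩, mem_univ _⟩

theorem slo_one (X Y : CC) : slo X Y 1 = ((hh X Y)⁻¹ : ℝ) • (V1 X Y).2 := by
  simp [slo]

theorem slo_I (X Y : CC) : slo X Y I = ((hh X Y)⁻¹ : ℝ) • (VI X Y).2 := by
  simp [slo]

/-- the plane form in terms of the slope. -/
theorem form_eq {X Y : CC} (hpos : 0 < hh X Y) (g : CC →L[ℝ] CC →L[ℝ] ℝ) (hg : ∀ v, g v v = 0) :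
    g X Y = g (1, slo X Y 1) (I, slo X Y I) * hh X Y := by
  have hanti : ∀ u v, g u v = - g v u := by
    intro u v
    have h := hg (u + v)
    simp only [map_add, add_apply, hg, zero_add, add_zero] at h
    linarith
  have hX : V1 X Y = (hh X Y) • ((1 : ℂ), slo X Y 1) := by
    rw [slo_one]
    have hne := hpos.ne'
    refine Prod.ext ?_ (by simp [hne])
    apply Complex.ext
    · simp [V1, hh]; ring
    · simp [V1, hh]; ring
  have hY : VI X Y = (hh X Y) • ((I : ℂ), slo X Y I) := by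
    rw [slo_I]
    have hne := hpos.ne'
    refine Prod.ext ?_ (by simp [hne])
    apply Complex.ext
    · simp [VI, hh]; ring
    · simp [VI, hh]
  have h1 : g (V1 X Y) (VI X Y) = hh X Y * g X Y := by
    simp only [V1, VI, map_sub, map_smul, sub_apply,
      smul_apply, smul_eq_mul, hg, hanti Y X, hh]
    ring
  rw [hX, hY] at h1
  simp only [map_smul, smul_apply, smul_eq_mul] at h1
  have h2 := mul_left_cancel₀ hpos.ne' h1
  rw [← h2]
  ring

theorem meas_hh {X Y : CC → CC} (hX : Measurable X) (hY : Measurable Y) :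
    Measurable fun p => hh (X p) (Y p) := by
  have h1 : Measurable fun p => (X p).1 := measurable_fst.comp hX
  have h2 : Measurable fun p => (Y p).1 := measurable_fst.comp hY
  exact ((measurable_re.comp h1).mul (measurable_im.comp h2)).sub
    ((measurable_re.comp h2).mul (measurable_im.comp h1))

theorem meas_V1 {X Y : CC → CC} (hX : Measurable X) (hY : Measurable Y) :
    Measurable fun p => V1 (X p) (Y p) := by
  have h1 : Measurable fun p => (X p).1 := measurable_fst.comp hX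
  have h2 : Measurable fun p => (Y p).1 := measurable_fst.comp hY
  exact ((measurable_im.comp h2).smul hX).sub ((measurable_im.comp h1).smul hY)

theorem meas_VI {X Y : CC → CC} (hX : Measurable X) (hY : Measurable Y) :
    Measurable fun p => VI (X p) (Y p) := by
  have h1 : Measurable fun p => (X p).1 := measurable_fst.comp hX
  have h2 : Measurable fun p => (Y p).1 := measurable_fst.comp hY
  exact ((measurable_re.comp h1).smul hY).sub ((measurable_re.comp h2).smul hX)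

theorem meas_slo_one {X Y : CC → CC} (hX : Measurable X) (hY : Measurable Y) :
    Measurable fun p => slo (X p) (Y p) 1 := by
  simp only [slo_one]
  exact (meas_hh hX hY).inv.smul (measurable_snd.comp (meas_V1 hX hY))

theorem meas_slo_I {X Y : CC → CC} (hX : Measurable X) (hY : Measurable Y) :
    Measurable fun p => slo (X p) (Y p) I := by
  simp only [slo_I]
  exact (meas_hh hX hY).inv.smul (measurable_snd.comp (meas_VI hX hY))

theorem meas_form {g : CC → (CC →L[ℝ] CC →L[ℝ] ℝ)} (hg : Continuous g) {U V : CC → CC}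
    (hU : Measurable U) (hV : Measurable V) : Measurable fun p => g p (U p) (V p) := by
  have hc : Continuous fun q : CC × CC × CC => g q.1 q.2.1 q.2.2 := by fun_prop
  exact hc.measurable.comp (measurable_id.prodMk (hU.prodMk hV))

/-- **CYLF.** -/
theorem cylf_of (h : CYL) (hL : LOC) (h0 : ALG0) (h1 : CONE) (hD : DECAY) (hd : DISI)
    (hw : SHEETS) : CYLF := by
  intro μ β κ L hB c R ρ K m X Y hm hR0
  have hfin := hm.fin
  obtain ⟨k, S, e, hKG, hDec, hbd, hS⟩ := h μ β κ L hB c R ρ K m X Y hm hR0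
  have hloc : ∀ p ∈ ball c R, ∀ᶠ z in 𝓝[≠] p, (S z).Nodup := hL μ β κ L hB.box c R k S e hKG
  refine ⟨k, S, e, hKG, hDec, hbd, hS, hloc, ?_⟩
  intro g hgc hgT hgv
  obtain ⟨T, hTR, hT, hgT⟩ := hgT
  -- the sheets
  have hHld : Hld c R S := by
    intro R' hR'
    obtain ⟨C, b, r₀, hC, hb, -, -, -, -, hcl⟩ := hDec R' hR'
    exact ⟨C, b, hC, hb, fun z hz z' hz' =>
      hcl z (ball_subset_closedBall hz) z' (ball_subset_closedBall hz')⟩
  have hfib : ∀ᵐ z : ℂ, z ∈ ball c R → (S z).Nodup ∧ ∀ w, w ∈ S z ↔ w ∈ fib m z := by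
    have h2 := hKG.null
    have h3 : ∀ᵐ z : ℂ, z ∉ {z ∈ ball c R | ¬ (S z).Nodup} :=
      measure_eq_zero_iff_ae_notMem.1 h2
    filter_upwards [h3] with z hz hz'
    refine ⟨?_, hS z hz'⟩
    by_contra hcon
    exact hz ⟨hz', hcon⟩
  have hsheets := hw μ β κ L hB c R ρ K m X Y hm hR0 k S hKG.card hHld hfib
  have hslope := ae_slope (X := X) (Y := Y) hKG.card (fun z hz => hKG.cont z hz)
    (fun V w hV hw => (hsheets V w hV hw).2.2)
  -- positivity
  have hpos := ae_pos h0 h1 hD hB hm hKG hS hloc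
  -- the integrand
  set Φ : CC → ℝ := fun p => g p (1, slo (X p) (Y p) 1) (I, slo (X p) (Y p) I) with hΦ
  have hΦm : Measurable Φ := meas_form hgc
    (measurable_const.prodMk (meas_slo_one hm.mX hm.mY))
    (measurable_const.prodMk (meas_slo_I hm.mX hm.mY))
  have heq : (fun p => g p (X p) (Y p)) =ᵐ[m] fun p => Φ p * hh (X p) (Y p) := by
    filter_upwards [hpos] with p hp
    exact form_eq hp (g p) (hgv p)
  have hgint : Integrable (fun p => g p (X p) (Y p)) m := by
    obtain ⟨M, hM⟩ : ∃ M : ℝ, ∀ p ∈ T ×ˢ closedBall (0 : ℂ) ρ, ‖g p‖ ≤ M := by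
      obtain ⟨M, hM⟩ := (hT.prod (isCompact_closedBall (0 : ℂ) ρ)).exists_bound_of_continuousOn
        (f := fun p => ‖g p‖)
        ((continuous_norm (E := CC →L[ℝ] CC →L[ℝ] ℝ)).comp hgc).continuousOn
      exact ⟨M, fun p hp => (le_abs_self _).trans (hM p hp)⟩
    refine Integrable.mono' (integrable_const (|M| * 1 * K))
      (meas_form hgc hm.mX hm.mY).aestronglyMeasurable ?_
    filter_upwards [hm.supp] with p hp
    have hK0 : 0 ≤ K := (norm_nonneg _).trans (hm.nY p)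
    by_cases hpT : p.1 ∈ T
    · have h4 : ‖g p‖ ≤ |M| := (hM p ⟨hpT, mem_closedBall_zero_iff.2 hp.2⟩).trans (le_abs_self _)
      calc ‖g p (X p) (Y p)‖ ≤ ‖g p‖ * ‖X p‖ * ‖Y p‖ := (g p).le_opNorm₂ _ _
        _ ≤ |M| * 1 * K := by
          rw [hm.nX p]
          exact mul_le_mul (mul_le_mul_of_nonneg_right h4 zero_le_one) (hm.nY p)
            (norm_nonneg _) (by positivity)
    · rw [hgT p hpT]
      simpa using by positivity
  obtain ⟨hFi, hFe⟩ := hd μ β κ L hB c R ρ K m X Y hm Φ hΦm (hgint.congr heq)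
  have hae : ∀ᵐ z : ℂ, z ∈ ball c R → FS m Φ z =
      ∑ w ∈ (S z).toFinset, g (z, w) (1, Loc.slope S z w 1) (I, Loc.slope S z w I) := by
    filter_upwards [hslope, hfib] with z a1 a2 hz
    obtain ⟨hnd, a3⟩ := a2 hz
    rw [FS_eq a3]
    refine Finset.sum_congr rfl fun w hw => ?_
    rw [a1 hz hnd w (Multiset.mem_toFinset.1 hw)]
  constructor
  · refine hFi.congr_fun_ae ?_
    rw [EventuallyEq, ae_restrict_iff' measurableSet_ball]
    exact hae
  · rw [integral_congr_ae heq, hFe]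
    exact setIntegral_congr_ae measurableSet_ball hae

end

end Crest.Agent.R235.CylF_437
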