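import Mathlib
import Crest.Agent.R235.Defs_837
import Crest.Agent.R240.Nsq
import Crest.Agent.R240.NrmM
import Crest.Agent.R240.SmAdj
import Crest.Agent.R240.Lin1
import Crest.Agent.R240.Ch4

-- ▼ part R235/PosDefs_358
section

/-!
Row 235 (S0364), SWC-AN positivity (helper358): INTERFACE.
`VSeq J F lam r Φ a j P`: the vorticity sequence (`a = 1 - |α|²`, `j = Im⟨dα,α⟩`, `F_A = -iΦ`,
`Φ + dj = aΦ + P`), smooth, with the energy bounds of `#1924`, all measured with a FIXED pair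
`(J, F)` (the limit pair; `F` smooth, `J`-invariant, positive, not necessarily closed).
-/

set_option autoImplicit false
set_option maxSynthPendingDepth 3

open Set Function Filter MeasureTheory
open scoped Manifold ContDiff Topology

namespace Crest.Agent.R235.PosDefs_358

open Crest.Agent.R240 Crest.Agent.R240.Ch

noncomputable section

variable {M : Type*} [TopologicalSpace M] [T2Space M] [CompactSpace M] [ChartedSpace E4 M]
  [IsManifold 𝓘(ℝ, E4) ∞ M] [MeasurableSpace M] [BorelSpace M]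

/-- the pair `(J, F)`: smooth, `J² = -1`, `F` smooth, `J`-invariant and positive. -/
structure Pair (J : EndF E4 M) (F : F2 E4 M) : Prop where
  smJ : SmoothJ J
  sq : ∀ x v, atJ J x (atJ J x v) = -v
  smF : Smooth2 F
  pos : SPosG J F

/-- a vorticity sequence with Taubes' energy bounds. -/
structure VSeq (J : EndF E4 M) (F : F2 E4 M) (lam : ℝ) (r : ℕ → ℝ) (Φ : ℕ → F2 E4 M)
    (a : ℕ → M → ℝ) (j : ℕ → F1 E4 M) (P : ℕ → F2 E4 M) : Prop where
  lam_pos : 0 < lam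
  r_pos : ∀ n, 0 < r n
  r_lim : Tendsto r atTop atTop
  smΦ : ∀ n, Smooth2 (Φ n)
  clΦ : ∀ n, Closed2 (Φ n)
  sma : ∀ n, SmoothF E4 (a n)
  smj : ∀ n, Smooth1 (j n)
  smP : ∀ n, Smooth2 (P n)
  /-- the vorticity form: `Φ + dj = aΦ + P` -/
  vort : ∀ n, Φ n + dG (j n) = fmul (a n) (Φ n) + P n
  /-- `∫ Φ∧Φ ≥ - C r` (it is a topological constant) -/
  top : ∃ C, ∀ n, - C * r n ≤ Int.I F (Φ n) (Φ n)
  /-- the `F`-component of `Φ` is `lam r a` up to `o(√r)` in `L²` -/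
  e1 : Tendsto (fun n => (r n)⁻¹ * ∫ x, (qG F (Φ n) F x - lam * r n * a n x) ^ 2 ∂(Int.mu F))
    atTop (𝓝 0)
  /-- the anti-invariant part of `Φ` is `o(√r)` in `L²` -/
  e2 : Tendsto (fun n => (r n)⁻¹ * ∫ x, nsqG J F (bpp J (Φ n)) x ∂(Int.mu F)) atTop (𝓝 0)
  /-- `r ∫ a² ≤ C` -/
  e3 : ∃ C, ∀ n, r n * ∫ x, (a n x) ^ 2 ∂(Int.mu F) ≤ C
  /-- `∫ |j|² ≤ C` -/
  e4 : ∃ C, ∀ n, ∃ m : M → ℝ, Integrable m (Int.mu F) ∧ ∫ x, m x ∂(Int.mu F) ≤ C ∧
    ∀ x v, (at1 (j n) x v) ^ 2 ≤ m x * at2 F x v (atJ J x v)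
  /-- `∫ |P| ≤ C` -/
  e5 : ∃ C, ∀ n, ∫ x, nrG J F (P n) x ∂(Int.mu F) ≤ C
  /-- `P` is semi-positive up to an error which tends to `0` in `L¹` -/
  e6 : ∃ e : ℕ → M → ℝ, (∀ n, Integrable (e n) (Int.mu F)) ∧
    Tendsto (fun n => ∫ x, e n x ∂(Int.mu F)) atTop (𝓝 0) ∧
    (∀ n x, Pos (atJ J x) (invp (atJ J x) (at2 (P n) x) + e n x • at2 F x)) ∧
    (∀ n x, nrG J F (bpp J (P n)) x ≤ e n x)

/-- the vorticity forms `T = aΦ + P`. -/
def TT (Φ : ℕ → F2 E4 M) (a : ℕ → M → ℝ) (P : ℕ → F2 E4 M) (n : ℕ) : F2 E4 M :=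
  fmul (a n) (Φ n) + P n

/-- DIV-CURL on `M`: closed forms bounded in `L²` and tending to `0` weakly (tested only with
`g du∧dv`) satisfy `∫ τ Ψ∧Ψ → 0`. -/
def DIVCURL (J : EndF E4 M) (F : F2 E4 M) : Prop :=
  ∀ Ψ : ℕ → F2 E4 M, (∀ n, Smooth2 (Ψ n)) → (∀ n, Closed2 (Ψ n)) →
    (∃ C, ∀ n, ∫ x, nsqG J F (Ψ n) x ∂(Int.mu F) ≤ C) →
    (∀ g u v : M → ℝ, SmoothF E4 g → SmoothF E4 u → SmoothF E4 v →
      Tendsto (fun n => Int.I F (Ψ n) (fmul g (wedG (dF u) (dF v)))) atTop (𝓝 0)) →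
    ∀ τ : M → ℝ, SmoothF E4 τ →
      Tendsto (fun n => Int.I F (Ψ n) (fmul τ (Ψ n))) atTop (𝓝 0)





end

end Crest.Agent.R235.PosDefs_358
end

-- ▼ part R235/PosAlg_358
section

/-!
Row 235 (S0364), SWC-AN positivity (helper358): the Hodge norm of a pair `(J, F)` on `M`, chart
formulas for `L²` bounds.
-/

set_option autoImplicit false
set_option maxSynthPendingDepth 3
set_option linter.unusedSectionVars false

open Set Function Filter MeasureTheory
open scoped Manifold ContDiff Topology ENNReal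

namespace Crest.Agent.R235.PosDefs_358

open Crest.Agent.R240 Crest.Agent.R240.Ch

noncomputable section

section NoMeas

variable {M : Type*} [TopologicalSpace M] [ChartedSpace E4 M] [IsManifold 𝓘(ℝ, E4) ∞ M]

variable {J : EndF E4 M} {F : F2 E4 M}

theorem Pair.sposx (h : Pair J F) (x : M) : SPos (atJ J x) (at2 F x) := h.pos x

theorem Pair.vol (h : Pair J F) : Int.Vol F := Int.vol_of_SPosG h.sq h.smF h.pos

theorem alt_at {b : F2 E4 M} (hb : Smooth2 b) (x : M) : Alt (at2 b x) := fun v => hb.1 x v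

theorem alt_rep {b : F2 E4 M} (hb : Smooth2 b) (p : M) (y : E4) : Alt (rep p b y) :=
  Int.rep_alt (fun x => alt_at hb x) p y


theorem continuous_qG (h : Pair J F) {b c : F2 E4 M} (hb : Smooth2 b) (hc : Smooth2 c) :
    Continuous (qG F b c) :=
  Int.continuous_qG h.vol (Int.Smooth2.cont2 hb) (Int.Smooth2.cont2 hc)

theorem nsqG_eq (b : F2 E4 M) (x : M) : nsqG J F b x =
    2 * qG F b F x * qG F b F x - qG F (bp J b) (bp J b) x
      + qG F (bpp J b) (bpp J b) x := rfl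

theorem continuous_nsq (h : Pair J F) {b : F2 E4 M} (hb : Smooth2 b) :
    Continuous (nsqG J F b) := by
  have h1 := continuous_qG h hb h.smF
  have h2 := continuous_qG h (Smooth2.bp h.smJ hb) (Smooth2.bp h.smJ hb)
  have h3 := continuous_qG h (Smooth2.bpp h.smJ hb) (Smooth2.bpp h.smJ hb)
  exact (((continuous_const.mul h1).mul h1).sub h2).add h3

theorem continuous_nr (h : Pair J F) {b : F2 E4 M} (hb : Smooth2 b) : Continuous (nrG J F b) :=
  Real.continuous_sqrt.comp (continuous_nsq h hb)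

theorem nr_nonneg (b : F2 E4 M) (x : M) : 0 ≤ nrG J F b x := Real.sqrt_nonneg _

theorem nsq_nonneg (h : Pair J F) {b : F2 E4 M} (hb : Smooth2 b) (x : M) : 0 ≤ nsqG J F b x :=
  Ns.nsq_nonneg (h.sq x) (h.sposx x) (alt_at hb x)

theorem nr_sq (h : Pair J F) {b : F2 E4 M} (hb : Smooth2 b) (x : M) :
    nrG J F b x ^ 2 = nsqG J F b x := Real.sq_sqrt (nsq_nonneg h hb x)

theorem abs_qG_le (h : Pair J F) {b c : F2 E4 M} (hb : Smooth2 b) (hc : Smooth2 c) (x : M) :
    |qG F b c x| ≤ nrG J F b x * nrG J F c x :=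
  Ns.abs_q_le' (h.sq x) (h.sposx x) (alt_at hb x) (alt_at hc x)

theorem nr_add_le (h : Pair J F) {b c : F2 E4 M} (hb : Smooth2 b) (hc : Smooth2 c) (x : M) :
    nrG J F (b + c) x ≤ nrG J F b x + nrG J F c x :=
  Ns.pn_add_le (h.sq x) (h.sposx x) (alt_at hb x) (alt_at hc x)


/-- the norm in the chart. -/
theorem nsqG_chart (h : Pair J F) {b : F2 E4 M} (hb : Smooth2 b) {p : M} {y : E4}
    (hy : y ∈ (chartAt E4 p).target) :
    nsqG J F b ((chartAt E4 p).symm y) = nsq (repJ p J y) (rep p F y) (rep p b y) := by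
  rw [nsqG_eq, Int.qG_chart h.vol (fun x => alt_at hb x) (fun x => alt_at h.smF x) hy,
    Int.qG_chart h.vol (fun x => alt_at (Smooth2.bp h.smJ hb) x)
      (fun x => alt_at (Smooth2.bp h.smJ hb) x) hy,
    Int.qG_chart h.vol (fun x => alt_at (Smooth2.bpp h.smJ hb) x)
      (fun x => alt_at (Smooth2.bpp h.smJ hb) x) hy, rep_bp hy, rep_bpp hy]
  rfl

/-- uniform comparison of the norms on a compact piece of a chart. -/
theorem exists_norm_le (h : Pair J F) (p : M) {K : Set E4} (hK : IsCompact K)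
    (hKt : K ⊆ (chartAt E4 p).target) :
    ∃ C : ℝ, 0 < C ∧ (∀ b : F2 E4 M, Smooth2 b → ∀ y ∈ K,
      ‖rep p b y‖ ^ 2 ≤ C * nsqG J F b ((chartAt E4 p).symm y)) ∧
      (∀ (s : F1 E4 M) (m : M → ℝ), (∀ x v, (at1 s x v) ^ 2 ≤ m x * at2 F x v (atJ J x v)) →
        ∀ y ∈ K, ‖rep1 p s y‖ ^ 2 ≤ C * m ((chartAt E4 p).symm y)) := by
  obtain ⟨m, m', hm, hm', hB⟩ := SmAdj.exists_Bd h.smJ h.sq h.smF h.pos p hK hKt
  refine ⟨2 * m' ^ 2 + m', by positivity, fun b hb y hy => ?_, fun s k hk y hy => ?_⟩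
  · rw [nsqG_chart h hb (hKt hy)]
    have h1 := (hB y hy).norm_sq_le_nsq (alt_rep hb p y)
    have h2 := (hB y hy).nsq_nonneg (alt_rep hb p y)
    nlinarith
  · have hk0 : 0 ≤ k ((chartAt E4 p).symm y) := by
      have h1 := hk ((chartAt E4 p).symm y) (ee 0)
      have h2 := (h.sposx ((chartAt E4 p).symm y)).pos (ee 0) (by
        intro h0
        have := norm_ee 0
        rw [h0, norm_zero] at this
        norm_num at this)
      by_contra hneg
      push Not at hneg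
      nlinarith [sq_nonneg (at1 s ((chartAt E4 p).symm y) (ee 0))]
    have h3 : ‖rep1 p s y‖ ≤ √(m' * k ((chartAt E4 p).symm y)) := by
      refine ContinuousLinearMap.opNorm_le_bound _ (Real.sqrt_nonneg _) fun v => ?_
      have h1 := hk ((chartAt E4 p).symm y) (tcc p ((chartAt E4 p).symm y)
        ((chartAt E4 p).symm y) v)
      rw [← rep_J_eq_apply (hKt hy), ← rep1_apply] at h1
      have h2 := (hB y hy).hi v
      rw [Real.norm_eq_abs]
      refine abs_le_of_sq_le_sq ?_ (by positivity)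
      rw [mul_pow, Real.sq_sqrt (by positivity)]
      calc (rep1 p s y v) ^ 2 ≤ k ((chartAt E4 p).symm y) * rep p F y v (repJ p J y v) := h1
        _ ≤ k ((chartAt E4 p).symm y) * (m' * ‖v‖ ^ 2) := by gcongr
        _ = _ := by ring
    have h4 : ‖rep1 p s y‖ ^ 2 ≤ m' * k ((chartAt E4 p).symm y) := by
      calc ‖rep1 p s y‖ ^ 2 ≤ √(m' * k ((chartAt E4 p).symm y)) ^ 2 := by gcongr
        _ = _ := Real.sq_sqrt (by positivity)
    have h5 : 0 ≤ 2 * m' ^ 2 * k ((chartAt E4 p).symm y) := by positivity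
    linarith

end NoMeas

section Meas

variable {M : Type*} [TopologicalSpace M] [T2Space M] [CompactSpace M] [ChartedSpace E4 M]
  [IsManifold 𝓘(ℝ, E4) ∞ M] [MeasurableSpace M] [BorelSpace M]

/-- chart formula for lower integrals, almost everywhere measurable version. -/
theorem lint_chart {F : F2 E4 M} (hF : Int.Vol F) (p : M) {f : M → ℝ≥0∞}
    (hf : AEMeasurable f (Int.mu F)) :
    ∫⁻ x in (chartAt E4 p).source, f x ∂(Int.mu F) =
      ∫⁻ y in (chartAt E4 p).target, ENNReal.ofReal (Int.dens F p y) *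
        f ((chartAt E4 p).symm y) := by
  have h1 : AEMeasurable f (Int.muc F p) := by
    rw [← Int.mu_restrict hF p]; exact hf.restrict
  rw [Int.mu_restrict hF p]
  unfold Int.muc at h1 ⊢
  rw [lintegral_map' h1 (Int.aemeas_symm F p)]
  have h2 : AEMeasurable (fun y => f ((chartAt E4 p).symm y)) (Int.nuc F p) :=
    h1.comp_aemeasurable (Int.aemeas_symm F p)
  unfold Int.nuc at h2 ⊢
  rw [lintegral_withDensity_eq_lintegral_mul₀' (Int.aemeas_dens hF p) h2]
  rfl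

/-- integrals over compact pieces of a chart. -/
theorem exists_int_le {F : F2 E4 M} (hF : Int.Vol F) (p : M) {K : Set E4} (hK : IsCompact K)
    (hKt : K ⊆ (chartAt E4 p).target) :
    ∃ c : ℝ, 0 < c ∧ ∀ (f : M → ℝ), Integrable f (Int.mu F) → (∀ x, 0 ≤ f x) →
      ∀ (A : ℝ), 0 ≤ A → ∀ g : E4 → ℝ, ContinuousOn g K → (∀ y ∈ K, 0 ≤ g y) →
        (∀ y ∈ K, g y ≤ A * f ((chartAt E4 p).symm y)) →
        ∫ y in K, g y ≤ c * A * ∫ x, f x ∂(Int.mu F) := by
  have hpos : ∀ y ∈ K, 0 < Int.dens F p y := fun y hy => hF.dens_pos (hKt hy)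
  have hcont : ContinuousOn (fun y => (Int.dens F p y)⁻¹) K :=
    ((hF.continuousOn_dens p).mono hKt).inv₀ fun y hy => (hpos y hy).ne'
  obtain ⟨c, hc⟩ := hK.exists_bound_of_continuousOn hcont
  refine ⟨|c| + 1, by positivity, fun f hf hf0 A hA g hg hg0 hgf => ?_⟩
  have hcy : ∀ y ∈ K, 1 ≤ (|c| + 1) * Int.dens F p y := by
    intro y hy
    have h1 := hc y hy
    have h2 := hpos y hy
    rw [Real.norm_eq_abs, abs_of_pos (inv_pos.2 h2)] at h1
    have h3 : (Int.dens F p y)⁻¹ ≤ |c| + 1 := by linarith [le_abs_self c]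
    calc (1:ℝ) = (Int.dens F p y)⁻¹ * Int.dens F p y := (inv_mul_cancel₀ h2.ne').symm
      _ ≤ _ := by gcongr
  have hgi : IntegrableOn g K := hg.integrableOn_compact hK
  have hI : 0 ≤ ∫ x, f x ∂(Int.mu F) := integral_nonneg hf0
  have h1 : ENNReal.ofReal (∫ y in K, g y) ≤
      ENNReal.ofReal ((|c| + 1) * A * ∫ x, f x ∂(Int.mu F)) := by
    rw [ofReal_integral_eq_lintegral_ofReal hgi
      ((ae_restrict_iff' hK.measurableSet).2 (Eventually.of_forall hg0))]
    calc ∫⁻ y in K, ENNReal.ofReal (g y)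
        ≤ ∫⁻ y in K, ENNReal.ofReal ((|c| + 1) * A) * (ENNReal.ofReal (Int.dens F p y) *
            ENNReal.ofReal (f ((chartAt E4 p).symm y))) := by
          refine setLIntegral_mono' hK.measurableSet fun y hy => ?_
          have h2 := hpos y hy
          rw [← ENNReal.ofReal_mul h2.le, ← ENNReal.ofReal_mul (by positivity)]
          refine ENNReal.ofReal_le_ofReal ?_
          calc g y ≤ 1 * (A * f ((chartAt E4 p).symm y)) := by rw [one_mul]; exact hgf y hy
            _ ≤ ((|c| + 1) * Int.dens F p y) * (A * f ((chartAt E4 p).symm y)) := by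
              have := hf0 ((chartAt E4 p).symm y)
              have := hcy y hy
              gcongr
            _ = _ := by ring
      _ ≤ ∫⁻ y in (chartAt E4 p).target, ENNReal.ofReal ((|c| + 1) * A) *
            (ENNReal.ofReal (Int.dens F p y) *
            ENNReal.ofReal (f ((chartAt E4 p).symm y))) := lintegral_mono_set hKt
      _ = ENNReal.ofReal ((|c| + 1) * A) * ∫⁻ x in (chartAt E4 p).source,
            ENNReal.ofReal (f x) ∂(Int.mu F) := by
          rw [lintegral_const_mul' _ _ ENNReal.ofReal_ne_top,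
            lint_chart hF p hf.aestronglyMeasurable.aemeasurable.ennreal_ofReal]
      _ ≤ ENNReal.ofReal ((|c| + 1) * A) * ∫⁻ x, ENNReal.ofReal (f x) ∂(Int.mu F) := by
          gcongr
          exact Measure.restrict_le_self
      _ = _ := by
          rw [← ofReal_integral_eq_lintegral_ofReal hf (Eventually.of_forall hf0),
            ← ENNReal.ofReal_mul (by positivity)]
  exact (ENNReal.ofReal_le_ofReal_iff (by positivity)).1 h1

end Meas

end

end Crest.Agent.R235.PosDefs_358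
end

-- ▼ part R235/DCFour_358
section

/-!
Row 235 (S0364), SWC-AN positivity (helper358): LOCAL DIV-CURL LEMMA on `ℝ⁴` by the Fourier
transform.  `A n`, `B n` smooth compactly supported two-forms, bounded in `L²` together with their
exterior derivatives, `B n → 0` weakly; then `∫ A n ∧ B n → 0`.
Main result: `local_divcurl`.
-/

set_option autoImplicit false
set_option maxSynthPendingDepth 3

open MeasureTheory Set Filter Topology
open scoped ContDiff SchwartzMap FourierTransform ComplexInnerProductSpace LineDeriv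

namespace Crest.Agent.R235.DCFour_358

open Crest.Agent.R240 Crest.Agent.R240.Ch

noncomputable section

/-- the complex wedge coefficient. -/
def cW (A B : Fin 4 → Fin 4 → ℂ) : ℂ :=
  A 0 1 * B 2 3 - A 0 2 * B 1 3 + A 0 3 * B 1 2 + A 1 2 * B 0 3 - A 1 3 * B 0 2 + A 2 3 * B 0 1

/-- the complex wedge with a covector. -/
def cD (x : Fin 4 → ℂ) (A : Fin 4 → Fin 4 → ℂ) (i j k : Fin 4) : ℂ :=
  x i * A j k - x j * A i k + x k * A i j

theorem key_identity (x : Fin 4 → ℂ) (A B : Fin 4 → Fin 4 → ℂ)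
    (hA : ∀ i j, A j i = - A i j) :
    (∑ i, x i ^ 2) * cW A B =
      cW (fun j k => ∑ i, x i * cD x A i j k) B
      - ((∑ i, x i * A i 0) * cD x B 1 2 3 - (∑ i, x i * A i 1) * cD x B 0 2 3
        + (∑ i, x i * A i 2) * cD x B 0 1 3 - (∑ i, x i * A i 3) * cD x B 0 1 2) := by
  have e : ∀ (C : Fin 4 → Fin 4 → ℂ), (∀ i j, C j i = - C i j) → ∀ i, C i i = 0 := by
    intro C hC i
    have := hC i i
    have h2 : (2:ℂ) * C i i = 0 := by linear_combination this
    simpa using h2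
  simp only [cW, cD, Fin.sum_univ_four]
  rw [hA 0 1, hA 0 2, hA 0 3, hA 1 2, hA 1 3, hA 2 3, e A hA 0, e A hA 1, e A hA 2, e A hA 3]
  ring

/-- squared length of a two-index array. -/
def N2 (A : Fin 4 → Fin 4 → ℂ) : ℝ := ∑ i, ∑ j, ‖A i j‖ ^ 2

/-- squared length of a three-index array. -/
def N3 (A : Fin 4 → Fin 4 → Fin 4 → ℂ) : ℝ := ∑ i, ∑ j, ∑ k, ‖A i j k‖ ^ 2

theorem N2_nonneg (A : Fin 4 → Fin 4 → ℂ) : 0 ≤ N2 A := by unfold N2; positivity

theorem N3_nonneg (A : Fin 4 → Fin 4 → Fin 4 → ℂ) : 0 ≤ N3 A := by unfold N3; positivity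

theorem sq_le_N2 (A : Fin 4 → Fin 4 → ℂ) (i j : Fin 4) : ‖A i j‖ ^ 2 ≤ N2 A := by
  unfold N2
  refine le_trans ?_ (Finset.single_le_sum (f := fun i => ∑ j, ‖A i j‖ ^ 2)
    (fun i _ => by positivity) (Finset.mem_univ i))
  exact Finset.single_le_sum (f := fun j => ‖A i j‖ ^ 2) (fun j _ => by positivity)
    (Finset.mem_univ j)

theorem sq_le_N3 (A : Fin 4 → Fin 4 → Fin 4 → ℂ) (i j k : Fin 4) : ‖A i j k‖ ^ 2 ≤ N3 A := by
  unfold N3
  refine le_trans ?_ (Finset.single_le_sum (f := fun i => ∑ j, ∑ k, ‖A i j k‖ ^ 2)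
    (fun i _ => by positivity) (Finset.mem_univ i))
  refine le_trans ?_ (Finset.single_le_sum (f := fun j => ∑ k, ‖A i j k‖ ^ 2)
    (fun j _ => by positivity) (Finset.mem_univ j))
  exact Finset.single_le_sum (f := fun k => ‖A i j k‖ ^ 2) (fun k _ => by positivity)
    (Finset.mem_univ k)

theorem norm_le_N2 (A : Fin 4 → Fin 4 → ℂ) (i j : Fin 4) : ‖A i j‖ ≤ √(N2 A) :=
  Real.le_sqrt_of_sq_le (sq_le_N2 A i j)

theorem norm_le_N3 (A : Fin 4 → Fin 4 → Fin 4 → ℂ) (i j k : Fin 4) : ‖A i j k‖ ≤ √(N3 A) :=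
  Real.le_sqrt_of_sq_le (sq_le_N3 A i j k)

theorem norm_cW_le {A B : Fin 4 → Fin 4 → ℂ} {a b : ℝ} (ha : ∀ i j, ‖A i j‖ ≤ a)
    (hb : ∀ i j, ‖B i j‖ ≤ b) : ‖cW A B‖ ≤ 6 * (a * b) := by
  have ha0 : 0 ≤ a := (norm_nonneg _).trans (ha 0 0)
  have h : ∀ i j k l, ‖A i j * B k l‖ ≤ a * b := fun i j k l => by
    rw [norm_mul]; exact mul_le_mul (ha i j) (hb k l) (norm_nonneg _) ha0
  unfold cW
  have t : ∀ u v : ℂ, ‖u + v‖ ≤ ‖u‖ + ‖v‖ := norm_add_le
  have t' : ∀ u v : ℂ, ‖u - v‖ ≤ ‖u‖ + ‖v‖ := norm_sub_le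
  have h1 := t (A 0 1 * B 2 3 - A 0 2 * B 1 3 + A 0 3 * B 1 2 + A 1 2 * B 0 3 - A 1 3 * B 0 2)
    (A 2 3 * B 0 1)
  have h2 := t' (A 0 1 * B 2 3 - A 0 2 * B 1 3 + A 0 3 * B 1 2 + A 1 2 * B 0 3) (A 1 3 * B 0 2)
  have h3 := t (A 0 1 * B 2 3 - A 0 2 * B 1 3 + A 0 3 * B 1 2) (A 1 2 * B 0 3)
  have h4 := t (A 0 1 * B 2 3 - A 0 2 * B 1 3) (A 0 3 * B 1 2)
  have h5 := t' (A 0 1 * B 2 3) (A 0 2 * B 1 3)
  have g1 := h 0 1 2 3
  have g2 := h 0 2 1 3
  have g3 := h 0 3 1 2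
  have g4 := h 1 2 0 3
  have g5 := h 1 3 0 2
  have g6 := h 2 3 0 1
  linarith

/-- low frequencies. -/
theorem cW_low (A B : Fin 4 → Fin 4 → ℂ) {s : ℝ} (hs : 0 < s) :
    ‖cW A B‖ ≤ 3 * (s * N2 A + s⁻¹ * N2 B) := by
  have h := norm_cW_le (norm_le_N2 A) (norm_le_N2 B)
  have hA := N2_nonneg A
  have hB := N2_nonneg B
  have h1 : 2 * (√(N2 A) * √(N2 B)) ≤ s * N2 A + s⁻¹ * N2 B := by
    have e1 := Real.sq_sqrt hA
    have e2 := Real.sq_sqrt hB
    have h2 : 0 ≤ s * (√(N2 A) - s⁻¹ * √(N2 B)) ^ 2 := by positivity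
    have h3 : s * (√(N2 A) - s⁻¹ * √(N2 B)) ^ 2 =
        s * √(N2 A) ^ 2 + s⁻¹ * √(N2 B) ^ 2 - 2 * (√(N2 A) * √(N2 B)) := by
      field_simp
      ring
    rw [h3, e1, e2] at h2
    linarith
  linarith

/-- high frequencies. -/
theorem cW_high (x : Fin 4 → ℂ) (A B : Fin 4 → Fin 4 → ℂ) (hA : ∀ i j, A j i = - A i j)
    {X : ℝ} (hX : 0 < X) (hx : ∀ i, ‖x i‖ ≤ X) (hs : ‖∑ i, x i ^ 2‖ = X ^ 2) :
    ‖cW A B‖ ≤ 12 / X * (N2 A + N2 B + N3 (cD x A) + N3 (cD x B)) := by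
  have hid := key_identity x A B hA
  set a := √(N2 A) with ha
  set b := √(N2 B) with hb
  set a3 := √(N3 (cD x A)) with ha3
  set b3 := √(N3 (cD x B)) with hb3
  have a0 : 0 ≤ a := Real.sqrt_nonneg _
  have b0 : 0 ≤ b := Real.sqrt_nonneg _
  have a30 : 0 ≤ a3 := Real.sqrt_nonneg _
  have b30 : 0 ≤ b3 := Real.sqrt_nonneg _
  have h1 : ∀ j k, ‖∑ i, x i * cD x A i j k‖ ≤ 4 * (X * a3) := by
    intro j k
    refine (norm_sum_le _ _).trans ?_
    have : ∑ i : Fin 4, ‖x i * cD x A i j k‖ ≤ ∑ i : Fin 4, X * a3 := by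
      refine Finset.sum_le_sum fun i _ => ?_
      rw [norm_mul]
      exact mul_le_mul (hx i) (norm_le_N3 (cD x A) i j k) (norm_nonneg _) hX.le
    refine this.trans (le_of_eq ?_)
    simp
  have h2 : ∀ k, ‖∑ i, x i * A i k‖ ≤ 4 * (X * a) := by
    intro k
    refine (norm_sum_le _ _).trans ?_
    have : ∑ i : Fin 4, ‖x i * A i k‖ ≤ ∑ i : Fin 4, X * a := by
      refine Finset.sum_le_sum fun i _ => ?_
      rw [norm_mul]
      exact mul_le_mul (hx i) (norm_le_N2 A i k) (norm_nonneg _) hX.le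
    refine this.trans (le_of_eq ?_)
    simp
  have h3 := norm_cW_le (A := fun j k => ∑ i, x i * cD x A i j k) (B := B) h1 (norm_le_N2 B)
  have h4 : ∀ k l m n, ‖(∑ i, x i * A i k) * cD x B l m n‖ ≤ 4 * (X * a) * b3 := by
    intro k l m n
    rw [norm_mul]
    exact mul_le_mul (h2 k) (norm_le_N3 (cD x B) l m n) (norm_nonneg _) (by positivity)
  have h5 : ‖(∑ i, x i * A i 0) * cD x B 1 2 3 - (∑ i, x i * A i 1) * cD x B 0 2 3
        + (∑ i, x i * A i 2) * cD x B 0 1 3 - (∑ i, x i * A i 3) * cD x B 0 1 2‖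
        ≤ 16 * (X * a) * b3 := by
    have g1 := h4 0 1 2 3
    have g2 := h4 1 0 2 3
    have g3 := h4 2 0 1 3
    have g4 := h4 3 0 1 2
    have t : ∀ u v : ℂ, ‖u + v‖ ≤ ‖u‖ + ‖v‖ := norm_add_le
    have t' : ∀ u v : ℂ, ‖u - v‖ ≤ ‖u‖ + ‖v‖ := norm_sub_le
    have k1 := t' ((∑ i, x i * A i 0) * cD x B 1 2 3 - (∑ i, x i * A i 1) * cD x B 0 2 3
        + (∑ i, x i * A i 2) * cD x B 0 1 3) ((∑ i, x i * A i 3) * cD x B 0 1 2)
    have k2 := t ((∑ i, x i * A i 0) * cD x B 1 2 3 - (∑ i, x i * A i 1) * cD x B 0 2 3)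
        ((∑ i, x i * A i 2) * cD x B 0 1 3)
    have k3 := t' ((∑ i, x i * A i 0) * cD x B 1 2 3) ((∑ i, x i * A i 1) * cD x B 0 2 3)
    linarith
  have h6 : X ^ 2 * ‖cW A B‖ ≤ 24 * X * (a3 * b + a * b3) := by
    rw [← hs, ← norm_mul, hid]
    refine (norm_sub_le _ _).trans ?_
    have e : 24 * X * (a3 * b + a * b3) = 6 * (4 * (X * a3) * b) + 24 * (X * a) * b3 := by ring
    rw [e]
    have : 16 * (X * a) * b3 ≤ 24 * (X * a) * b3 := by
      have : 0 ≤ (X * a) * b3 := by positivity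
      nlinarith
    linarith
  have h7 : 2 * (a3 * b + a * b3) ≤ N2 A + N2 B + N3 (cD x A) + N3 (cD x B) := by
    have e1 : a ^ 2 = N2 A := Real.sq_sqrt (N2_nonneg A)
    have e2 : b ^ 2 = N2 B := Real.sq_sqrt (N2_nonneg B)
    have e3 : a3 ^ 2 = N3 (cD x A) := Real.sq_sqrt (N3_nonneg _)
    have e4 : b3 ^ 2 = N3 (cD x B) := Real.sq_sqrt (N3_nonneg _)
    nlinarith [sq_nonneg (a3 - b), sq_nonneg (a - b3)]
  rw [div_mul_eq_mul_div, le_div_iff₀ hX]
  have h8 : X * (‖cW A B‖ * X) ≤ X * (12 * (N2 A + N2 B + N3 (cD x A) + N3 (cD x B))) := by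
    calc X * (‖cW A B‖ * X) = X ^ 2 * ‖cW A B‖ := by ring
      _ ≤ 24 * X * (a3 * b + a * b3) := h6
      _ = X * (12 * (2 * (a3 * b + a * b3))) := by ring
      _ ≤ _ := by gcongr
  exact le_of_mul_le_mul_left h8 hX


/-- a real smooth compactly supported function as a complex Schwartz function. -/
def toS (f : E4 → ℝ) (hc : HasCompactSupport f) (hf : ContDiff ℝ ∞ f) : 𝓢(E4, ℂ) :=
  HasCompactSupport.toSchwartzMap (f := fun y => (f y : ℂ))
    (hc.comp_left (g := ((↑) : ℝ → ℂ)) Complex.ofReal_zero) (Complex.ofRealCLM.contDiff.comp hf)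

@[simp] theorem toS_apply (f : E4 → ℝ) (hc : HasCompactSupport f) (hf : ContDiff ℝ ∞ f) (y : E4) :
    toS f hc hf y = (f y : ℂ) := rfl

theorem fourier_deriv (F : 𝓢(E4, ℂ)) (m ξ : E4) :
    (𝓕 (∂_{m} F)) ξ = (2 * Real.pi * Complex.I) * ((inner ℝ ξ m : ℝ) : ℂ) * (𝓕 F) ξ := by
  rw [SchwartzMap.fourier_lineDerivOp_eq]
  have : (fun x : E4 => (inner ℝ x m : ℝ)).HasTemperateGrowth :=
    ((innerSL ℝ).flip m).hasTemperateGrowth
  simp [this, SchwartzMap.smulLeftCLM_apply_apply]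
  ring

theorem planch (F G : 𝓢(E4, ℂ)) :
    ∫ ξ, (starRingEnd ℂ) ((𝓕 F) ξ) * (𝓕 G) ξ = ∫ x, (starRingEnd ℂ) (F x) * G x := by
  have h := SchwartzMap.integral_inner_fourier_fourier F G
  simpa [RCLike.inner_apply, mul_comm] using h

theorem planch_norm (F : 𝓢(E4, ℂ)) : ∫ ξ, ‖(𝓕 F) ξ‖ ^ 2 = ∫ x, ‖F x‖ ^ 2 :=
  SchwartzMap.integral_norm_sq_fourier F

theorem int_sq (F : 𝓢(E4, ℂ)) : Integrable (fun ξ => ‖F ξ‖ ^ 2) :=
  (memLp_two_iff_integrable_sq_norm F.continuous.aestronglyMeasurable).1 (F.memLp 2 volume)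

theorem int_mul (F G : 𝓢(E4, ℂ)) : Integrable (fun ξ => (starRingEnd ℂ) (F ξ) * G ξ) := by
  refine Integrable.mono' (g := fun ξ => ‖F ξ‖ ^ 2 + ‖G ξ‖ ^ 2) ((int_sq F).add (int_sq G)) ?_ ?_
  · exact ((Complex.continuous_conj.comp F.continuous).mul G.continuous).aestronglyMeasurable
  · refine Eventually.of_forall fun ξ => ?_
    rw [norm_mul, RCLike.norm_conj]
    nlinarith [sq_nonneg (‖F ξ‖ - ‖G ξ‖), sq_nonneg (‖F ξ‖), sq_nonneg (‖G ξ‖)]

/-- real form of Plancherel. -/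
theorem planch_real {f g : E4 → ℝ} (hfc : HasCompactSupport f) (hf : ContDiff ℝ ∞ f)
    (hgc : HasCompactSupport g) (hg : ContDiff ℝ ∞ g) :
    ((∫ y, f y * g y : ℝ) : ℂ) =
      ∫ ξ, (starRingEnd ℂ) ((𝓕 (toS f hfc hf)) ξ) * (𝓕 (toS g hgc hg)) ξ := by
  rw [planch, ← integral_complex_ofReal]
  simp

/-- the Fourier transform as an integral against cosine and sine. -/
theorem fourier_eq (f : E4 → ℝ) (hc : HasCompactSupport f) (hf : ContDiff ℝ ∞ f) (ξ : E4) :
    (𝓕 (toS f hc hf)) ξ =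
      ((∫ v, Real.cos (2 * Real.pi * inner ℝ v ξ) * f v : ℝ) : ℂ)
      - ((∫ v, Real.sin (2 * Real.pi * inner ℝ v ξ) * f v : ℝ) : ℂ) * Complex.I := by
  have hi : Integrable f := hf.continuous.integrable_of_hasCompactSupport hc
  have h1 : Integrable (fun v : E4 => Real.cos (2 * Real.pi * inner ℝ v ξ) * f v) := by
    refine (Continuous.integrable_of_hasCompactSupport ?_ hc.mul_left)
    exact (by fun_prop : Continuous fun v : E4 => Real.cos (2 * Real.pi * inner ℝ v ξ)).mul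
      hf.continuous
  have h2 : Integrable (fun v : E4 => Real.sin (2 * Real.pi * inner ℝ v ξ) * f v) := by
    refine (Continuous.integrable_of_hasCompactSupport ?_ hc.mul_left)
    exact (by fun_prop : Continuous fun v : E4 => Real.sin (2 * Real.pi * inner ℝ v ξ)).mul
      hf.continuous
  rw [SchwartzMap.fourier_coe, Real.fourier_eq', ← integral_complex_ofReal,
    ← integral_complex_ofReal, ← integral_mul_const, ← integral_sub h1.ofReal
      (h2.ofReal.mul_const _)]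
  congr 1
  funext v
  rw [toS_apply, smul_eq_mul]
  have e : (((-2 * Real.pi * inner ℝ v ξ : ℝ) : ℂ) * Complex.I)
      = ((-(2 * Real.pi * inner ℝ v ξ) : ℝ) : ℂ) * Complex.I := by
    push_cast; ring
  rw [e, Complex.exp_mul_I, ← Complex.ofReal_cos, ← Complex.ofReal_sin, Real.cos_neg,
    Real.sin_neg]
  push_cast
  ring

theorem norm_fourier_le (f : E4 → ℝ) (hc : HasCompactSupport f) (hf : ContDiff ℝ ∞ f) (ξ : E4) :
    ‖(𝓕 (toS f hc hf)) ξ‖ ≤ ∫ v, |f v| := by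
  rw [SchwartzMap.fourier_coe, Real.fourier_eq']
  refine (norm_integral_le_integral_norm _).trans (le_of_eq ?_)
  congr 1
  funext v
  rw [norm_smul, toS_apply, Complex.norm_real, Real.norm_eq_abs, Complex.norm_exp_ofReal_mul_I,
    one_mul]

/-! ### smooth compactly supported two-forms -/

/-- smooth compactly supported two-forms on `ℝ⁴`. -/
structure Cp (A : E4 → Bil) : Prop where
  smooth : ContDiff ℝ ∞ A
  cpt : HasCompactSupport A
  alt : ∀ y, Alt (A y)

theorem Cp.entS {A : E4 → Bil} (h : Cp A) (i j : Fin 4) :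
    ContDiff ℝ ∞ (fun y => ent (A y) i j) :=
  (h.smooth.clm_apply contDiff_const).clm_apply contDiff_const

theorem Cp.entC {A : E4 → Bil} (h : Cp A) (i j : Fin 4) :
    HasCompactSupport (fun y => ent (A y) i j) := by
  refine h.cpt.comp_left (g := fun b : Bil => ent b i j) ?_
  exact ent_zero i j

/-- the components as Schwartz functions. -/
def Sc {A : E4 → Bil} (h : Cp A) (i j : Fin 4) : 𝓢(E4, ℂ) := toS _ (h.entC i j) (h.entS i j)

theorem Sc_apply {A : E4 → Bil} (h : Cp A) (i j : Fin 4) (y : E4) :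
    Sc h i j y = (ent (A y) i j : ℂ) := rfl

/-- the Fourier transform. -/
def hat {A : E4 → Bil} (h : Cp A) (ξ : E4) : Fin 4 → Fin 4 → ℂ := fun i j => (𝓕 (Sc h i j)) ξ

theorem Sc_swap {A : E4 → Bil} (h : Cp A) (i j : Fin 4) : Sc h j i = - Sc h i j := by
  ext y
  rw [neg_apply, Sc_apply, Sc_apply, (h.alt y).ent_swap j i]
  push_cast
  ring

theorem hat_swap {A : E4 → Bil} (h : Cp A) (ξ : E4) (i j : Fin 4) :
    hat h ξ j i = - hat h ξ i j := by
  unfold hat
  rw [Sc_swap h i j, FourierTransform.fourier_neg]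
  rfl

/-- the components of the exterior derivative as Schwartz functions. -/
def D3 {A : E4 → Bil} (h : Cp A) (i j k : Fin 4) : 𝓢(E4, ℂ) :=
  ∂_{ee i} (Sc h j k) - ∂_{ee j} (Sc h i k) + ∂_{ee k} (Sc h i j)

theorem deriv_Sc {A : E4 → Bil} (h : Cp A) (m : E4) (i j : Fin 4) (y : E4) :
    (∂_{m} (Sc h i j)) y = ((fderiv ℝ A y m (ee i) (ee j) : ℝ) : ℂ) := by
  rw [SchwartzMap.lineDerivOp_apply_eq_fderiv]
  have hA : DifferentiableAt ℝ A y := h.smooth.differentiable (by simp) y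
  have h1 : HasFDerivAt (fun z => A z (ee i) (ee j))
      (((ContinuousLinearMap.apply ℝ ℝ (ee j)).comp
        ((ContinuousLinearMap.apply ℝ (E4 →L[ℝ] ℝ) (ee i)).comp (fderiv ℝ A y)))) y :=
    (ContinuousLinearMap.apply ℝ ℝ (ee j)).hasFDerivAt.comp y
      ((ContinuousLinearMap.apply ℝ (E4 →L[ℝ] ℝ) (ee i)).hasFDerivAt.comp y hA.hasFDerivAt)
  have h2 : HasFDerivAt (fun z => ((ent (A z) i j : ℝ) : ℂ)) (Complex.ofRealCLM.comp
      (((ContinuousLinearMap.apply ℝ ℝ (ee j)).comp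
        ((ContinuousLinearMap.apply ℝ (E4 →L[ℝ] ℝ) (ee i)).comp (fderiv ℝ A y))))) y :=
    Complex.ofRealCLM.hasFDerivAt.comp y h1
  have h3 : fderiv ℝ (Sc h i j) y = _ := h2.fderiv
  rw [h3]
  rfl

theorem D3_apply {A : E4 → Bil} (h : Cp A) (i j k : Fin 4) (y : E4) :
    D3 h i j k y = ((dd A y (ee i) (ee j) (ee k) : ℝ) : ℂ) := by
  unfold D3 dd
  rw [add_apply, sub_apply, deriv_Sc, deriv_Sc, deriv_Sc]
  push_cast
  rfl

/-- the symbol. -/
def xi (ξ : E4) (i : Fin 4) : ℂ := 2 * Real.pi * Complex.I * ((ξ i : ℝ) : ℂ)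

theorem fourier_D3 {A : E4 → Bil} (h : Cp A) (ξ : E4) (i j k : Fin 4) :
    (𝓕 (D3 h i j k)) ξ = cD (xi ξ) (hat h ξ) i j k := by
  have e : ∀ m : Fin 4, inner ℝ ξ (ee m) = ξ m := by
    intro m
    unfold ee
    rw [EuclideanSpace.inner_single_right]
    simp
  have h1 : 𝓕 (D3 h i j k) = 𝓕 (∂_{ee i} (Sc h j k)) - 𝓕 (∂_{ee j} (Sc h i k))
      + 𝓕 (∂_{ee k} (Sc h i j)) := by
    unfold D3
    rw [FourierTransform.fourier_add, sub_eq_add_neg, FourierTransform.fourier_add,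
      FourierTransform.fourier_neg, ← sub_eq_add_neg]
  rw [h1, add_apply, sub_apply, fourier_deriv, fourier_deriv,
    fourier_deriv, e, e, e]
  rfl

theorem norm_xi_le (ξ : E4) (i : Fin 4) : ‖xi ξ i‖ ≤ 2 * Real.pi * ‖ξ‖ := by
  unfold xi
  rw [norm_mul, norm_mul, norm_mul, Complex.norm_I, Complex.norm_real, Complex.norm_real]
  have h1 : ‖ξ i‖ ≤ ‖ξ‖ := PiLp.norm_apply_le ξ i
  have h2 : ‖(Real.pi : ℝ)‖ = Real.pi := Real.norm_of_nonneg Real.pi_pos.le
  rw [h2]
  have h3 : ‖(2 : ℂ)‖ = 2 := by simp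
  rw [h3, mul_one]
  gcongr

theorem sum_xi (ξ : E4) : ‖∑ i, xi ξ i ^ 2‖ = (2 * Real.pi * ‖ξ‖) ^ 2 := by
  have h1 : ∑ i, xi ξ i ^ 2 = ((-(2 * Real.pi * ‖ξ‖) ^ 2 : ℝ) : ℂ) := by
    have h2 : ‖ξ‖ ^ 2 = ∑ i, (ξ i) ^ 2 := by
      rw [EuclideanSpace.norm_sq_eq]
      simp
    rw [mul_pow, h2]
    unfold xi
    push_cast
    rw [Fin.sum_univ_four, Fin.sum_univ_four]
    linear_combination (4 * (Real.pi : ℂ) ^ 2 * ((ξ 0 : ℂ) ^ 2 + (ξ 1 : ℂ) ^ 2 + (ξ 2 : ℂ) ^ 2
      + (ξ 3 : ℂ) ^ 2)) * Complex.I_sq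
  rw [h1, Complex.norm_real, norm_neg, Real.norm_of_nonneg (by positivity)]

theorem N2_conj (A : Fin 4 → Fin 4 → ℂ) :
    N2 (fun i j => (starRingEnd ℂ) (A i j)) = N2 A := by
  unfold N2
  simp

theorem N3_conj (ξ : E4) (A : Fin 4 → Fin 4 → ℂ) :
    N3 (cD (xi ξ) (fun i j => (starRingEnd ℂ) (A i j))) = N3 (cD (xi ξ) A) := by
  have hx : ∀ i, (starRingEnd ℂ) (xi ξ i) = - xi ξ i := by
    intro i
    unfold xi
    rw [map_mul, map_mul, map_mul, Complex.conj_I, Complex.conj_ofReal, Complex.conj_ofReal,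
      map_ofNat]
    ring
  have h : ∀ i j k, cD (xi ξ) (fun i j => (starRingEnd ℂ) (A i j)) i j k =
      - (starRingEnd ℂ) (cD (xi ξ) A i j k) := by
    intro i j k
    unfold cD
    rw [map_add, map_sub, map_mul, map_mul, map_mul, hx, hx, hx]
    ring
  unfold N3
  simp only [h, norm_neg, RCLike.norm_conj]

/-! ### the wedge product as a sum over a table -/

def p1 : Fin 6 → Fin 4 := ![0, 0, 0, 1, 1, 2]
def p2 : Fin 6 → Fin 4 := ![1, 2, 3, 2, 3, 3]
def q1 : Fin 6 → Fin 4 := ![2, 1, 1, 0, 0, 0]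
def q2 : Fin 6 → Fin 4 := ![3, 3, 2, 3, 2, 1]
def sgn : Fin 6 → ℝ := ![1, -1, 1, 1, -1, 1]

theorem W_sum (a b : Bil) :
    W a b = ∑ t, sgn t * (ent a (p1 t) (p2 t) * ent b (q1 t) (q2 t)) := by
  simp [W, Fin.sum_univ_succ, sgn, p1, p2, q1, q2]
  ring

theorem cW_sum (A B : Fin 4 → Fin 4 → ℂ) :
    cW A B = ∑ t, (sgn t : ℂ) * (A (p1 t) (p2 t) * B (q1 t) (q2 t)) := by
  simp [cW, Fin.sum_univ_succ, sgn, p1, p2, q1, q2]
  ring

theorem int_W {A B : E4 → Bil} (hA : Cp A) (hB : Cp B) :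
    ((∫ y, W (A y) (B y) : ℝ) : ℂ) =
      ∫ ξ, cW (fun i j => (starRingEnd ℂ) (hat hA ξ i j)) (hat hB ξ) := by
  have i1 : ∀ t : Fin 6, Integrable (fun y => sgn t *
      (ent (A y) (p1 t) (p2 t) * ent (B y) (q1 t) (q2 t))) := by
    intro t
    refine Integrable.const_mul ?_ _
    exact Continuous.integrable_of_hasCompactSupport
      ((hA.entS _ _).continuous.mul (hB.entS _ _).continuous) (hB.entC _ _).mul_left
  have i2 : ∀ t : Fin 6, Integrable (fun ξ => (sgn t : ℂ) *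
      ((starRingEnd ℂ) (hat hA ξ (p1 t) (p2 t)) * hat hB ξ (q1 t) (q2 t))) := by
    intro t
    exact (int_mul (𝓕 (Sc hA (p1 t) (p2 t))) (𝓕 (Sc hB (q1 t) (q2 t)))).const_mul _
  simp only [W_sum, cW_sum]
  rw [integral_finsetSum _ (fun t _ => i1 t), integral_finsetSum _ (fun t _ => i2 t)]
  push_cast
  refine Finset.sum_congr rfl fun t _ => ?_
  rw [integral_const_mul, integral_const_mul]
  push_cast
  congr 1
  exact planch_real (hA.entC _ _) (hA.entS _ _) (hB.entC _ _) (hB.entS _ _)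

theorem norm_ee' (i : Fin 4) : ‖ee i‖ = 1 := by simp [ee]

theorem abs_ent_le (b : Bil) (i j : Fin 4) : |ent b i j| ≤ ‖b‖ := by
  have := b.le_opNorm₂ (ee i) (ee j)
  rw [norm_ee', norm_ee', mul_one, mul_one] at this
  exact this

/-- exchange of sum and integral. -/
theorem sum2 (f : Fin 4 → Fin 4 → 𝓢(E4, ℂ)) : Integrable (fun ξ => ∑ i, ∑ j, ‖f i j ξ‖ ^ 2) ∧
    ∫ ξ, ∑ i, ∑ j, ‖f i j ξ‖ ^ 2 = ∑ i, ∑ j, ∫ ξ, ‖f i j ξ‖ ^ 2 := by
  have h1 : ∀ i, Integrable (fun ξ => ∑ j, ‖f i j ξ‖ ^ 2) := fun i =>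
    integrable_finsetSum _ fun j _ => int_sq (f i j)
  refine ⟨integrable_finsetSum _ fun i _ => h1 i, ?_⟩
  rw [integral_finsetSum _ fun i _ => h1 i]
  exact Finset.sum_congr rfl fun i _ => integral_finsetSum _ fun j _ => int_sq (f i j)

/-- exchange of sum and integral. -/
theorem sum3 (f : Fin 4 → Fin 4 → Fin 4 → 𝓢(E4, ℂ)) :
    Integrable (fun ξ => ∑ i, ∑ j, ∑ k, ‖f i j k ξ‖ ^ 2) ∧
    ∫ ξ, ∑ i, ∑ j, ∑ k, ‖f i j k ξ‖ ^ 2 = ∑ i, ∑ j, ∑ k, ∫ ξ, ‖f i j k ξ‖ ^ 2 := by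
  have h1 : ∀ i, Integrable (fun ξ => ∑ j, ∑ k, ‖f i j k ξ‖ ^ 2) := fun i => (sum2 (f i)).1
  refine ⟨integrable_finsetSum _ fun i _ => h1 i, ?_⟩
  rw [integral_finsetSum _ fun i _ => h1 i]
  exact Finset.sum_congr rfl fun i _ => (sum2 (f i)).2

theorem sum_bd2 {g : Fin 4 → Fin 4 → ℝ} {c : ℝ} (h : ∀ i j, g i j ≤ c) :
    ∑ i, ∑ j, g i j ≤ 16 * c := by
  have h1 : ∑ i : Fin 4, ∑ j : Fin 4, g i j ≤ ∑ i : Fin 4, ∑ j : Fin 4, c :=
    Finset.sum_le_sum fun i _ => Finset.sum_le_sum fun j _ => h i j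
  refine h1.trans (le_of_eq ?_)
  rw [Finset.sum_const, Finset.sum_const, Finset.card_univ, Fintype.card_fin]
  ring

theorem sum_bd3 {g : Fin 4 → Fin 4 → Fin 4 → ℝ} {c : ℝ} (h : ∀ i j k, g i j k ≤ c) :
    ∑ i, ∑ j, ∑ k, g i j k ≤ 64 * c := by
  have h1 : ∑ i : Fin 4, ∑ j : Fin 4, ∑ k : Fin 4, g i j k ≤
      ∑ i : Fin 4, ∑ j : Fin 4, ∑ k : Fin 4, c :=
    Finset.sum_le_sum fun i _ => Finset.sum_le_sum fun j _ => Finset.sum_le_sum fun k _ => h i j k
  refine h1.trans (le_of_eq ?_)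
  rw [Finset.sum_const, Finset.sum_const, Finset.sum_const, Finset.card_univ, Fintype.card_fin]
  ring

theorem sq_four_le (f : 𝓢(E4, ℂ)) {h : E4 → ℝ} (hi : Integrable (fun y => h y ^ 2))
    (h1 : ∀ y, ‖f y‖ ≤ h y) : ∫ ξ, ‖(𝓕 f) ξ‖ ^ 2 ≤ ∫ y, h y ^ 2 := by
  rw [planch_norm f]
  refine integral_mono (int_sq _) hi fun y => ?_
  show ‖f y‖ ^ 2 ≤ h y ^ 2
  have := h1 y
  gcongr

theorem int_N2 {A : E4 → Bil} (hA : Cp A) : Integrable (fun ξ => N2 (hat hA ξ)) :=
  (sum2 fun i j => 𝓕 (Sc hA i j)).1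

theorem N3_eq {A : E4 → Bil} (hA : Cp A) (ξ : E4) :
    N3 (cD (xi ξ) (hat hA ξ)) = ∑ i, ∑ j, ∑ k, ‖(𝓕 (D3 hA i j k)) ξ‖ ^ 2 := by
  unfold N3
  simp only [fourier_D3 hA]

theorem int_N3 {A : E4 → Bil} (hA : Cp A) : Integrable (fun ξ => N3 (cD (xi ξ) (hat hA ξ))) := by
  simp only [N3_eq hA]
  exact (sum3 fun i j k => 𝓕 (D3 hA i j k)).1

theorem N2_le {A : E4 → Bil} (hA : Cp A) {h : E4 → ℝ} (hi : Integrable (fun y => h y ^ 2))
    (h1 : ∀ y, ‖A y‖ ≤ h y) : ∫ ξ, N2 (hat hA ξ) ≤ 16 * ∫ y, h y ^ 2 := by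
  have h2 : ∫ ξ, N2 (hat hA ξ) = ∑ i, ∑ j, ∫ ξ, ‖(𝓕 (Sc hA i j)) ξ‖ ^ 2 :=
    (sum2 fun i j => 𝓕 (Sc hA i j)).2
  rw [h2]
  refine sum_bd2 fun i j => sq_four_le _ hi fun y => ?_
  rw [Sc_apply, Complex.norm_real, Real.norm_eq_abs]
  exact (abs_ent_le (A y) i j).trans (h1 y)

theorem N3_le {A : E4 → Bil} (hA : Cp A) {h : E4 → ℝ} (hi : Integrable (fun y => h y ^ 2))
    (h1 : ∀ y i j k, |dd A y (ee i) (ee j) (ee k)| ≤ h y) :
    ∫ ξ, N3 (cD (xi ξ) (hat hA ξ)) ≤ 64 * ∫ y, h y ^ 2 := by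
  have h2 : ∫ ξ, N3 (cD (xi ξ) (hat hA ξ)) =
      ∑ i, ∑ j, ∑ k, ∫ ξ, ‖(𝓕 (D3 hA i j k)) ξ‖ ^ 2 := by
    simp only [N3_eq hA]
    exact (sum3 fun i j k => 𝓕 (D3 hA i j k)).2
  rw [h2]
  refine sum_bd3 fun i j k => sq_four_le _ hi fun y => ?_
  rw [D3_apply, Complex.norm_real, Real.norm_eq_abs]
  exact h1 y i j k

/-- the pointwise majorant. -/
theorem cW_hat_low {A B : E4 → Bil} (hA : Cp A) (hB : Cp B) (ξ : E4) {s : ℝ} (hs : 0 < s) :
    ‖cW (fun i j => (starRingEnd ℂ) (hat hA ξ i j)) (hat hB ξ)‖ ≤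
      3 * s * N2 (hat hA ξ) + 3 * s⁻¹ * N2 (hat hB ξ) := by
  have h1 := cW_low (fun i j => (starRingEnd ℂ) (hat hA ξ i j)) (hat hB ξ) hs
  rw [N2_conj] at h1
  refine h1.trans (le_of_eq ?_)
  ring

theorem cW_hat_high {A B : E4 → Bil} (hA : Cp A) (hB : Cp B) (ξ : E4) {R : ℝ} (hR : 0 < R)
    (hn : R < ‖ξ‖) :
    ‖cW (fun i j => (starRingEnd ℂ) (hat hA ξ i j)) (hat hB ξ)‖ ≤
      2 / R * (N2 (hat hA ξ) + N2 (hat hB ξ) + N3 (cD (xi ξ) (hat hA ξ)) +
        N3 (cD (xi ξ) (hat hB ξ))) := by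
  have hX : 0 < 2 * Real.pi * ‖ξ‖ := by
    have := Real.pi_pos
    have : 0 < ‖ξ‖ := hR.trans hn
    positivity
  have h1 := cW_high (xi ξ) (fun i j => (starRingEnd ℂ) (hat hA ξ i j)) (hat hB ξ)
    (fun i j => by rw [hat_swap hA ξ i j, map_neg]) hX (norm_xi_le ξ) (sum_xi ξ)
  rw [N2_conj, N3_conj] at h1
  have h2 : 12 / (2 * Real.pi * ‖ξ‖) ≤ 2 / R := by
    rw [div_le_div_iff₀ hX hR]
    have h3 := Real.pi_gt_three
    nlinarith
  refine h1.trans (mul_le_mul_of_nonneg_right h2 ?_)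
  have hNA := N2_nonneg (hat hA ξ)
  have hNB := N2_nonneg (hat hB ξ)
  have h3A := N3_nonneg (cD (xi ξ) (hat hA ξ))
  have h3B := N3_nonneg (cD (xi ξ) (hat hB ξ))
  exact add_nonneg (add_nonneg (add_nonneg hNA hNB) h3A) h3B

theorem cW_hat_le {A B : E4 → Bil} (hA : Cp A) (hB : Cp B) (ξ : E4) {s R : ℝ} (hs : 0 < s)
    (hR : 0 < R) :
    ‖cW (fun i j => (starRingEnd ℂ) (hat hA ξ i j)) (hat hB ξ)‖ ≤
      3 * s * N2 (hat hA ξ) +
      3 * s⁻¹ * (Metric.closedBall (0 : E4) R).indicator (fun ξ => N2 (hat hB ξ)) ξ +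
      2 / R * (N2 (hat hA ξ) + N2 (hat hB ξ) + N3 (cD (xi ξ) (hat hA ξ)) +
        N3 (cD (xi ξ) (hat hB ξ))) := by
  have hNA := N2_nonneg (hat hA ξ)
  have hsum : 0 ≤ N2 (hat hA ξ) + N2 (hat hB ξ) + N3 (cD (xi ξ) (hat hA ξ)) +
        N3 (cD (xi ξ) (hat hB ξ)) :=
    add_nonneg (add_nonneg (add_nonneg hNA (N2_nonneg _)) (N3_nonneg _)) (N3_nonneg _)
  have h2 : 0 ≤ 2 / R * (N2 (hat hA ξ) + N2 (hat hB ξ) + N3 (cD (xi ξ) (hat hA ξ)) +
        N3 (cD (xi ξ) (hat hB ξ))) := mul_nonneg (by positivity) hsum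
  by_cases hξ : ξ ∈ Metric.closedBall (0 : E4) R
  · rw [indicator_of_mem hξ]
    exact (cW_hat_low hA hB ξ hs).trans (le_add_of_nonneg_right h2)
  · rw [indicator_of_notMem hξ]
    have hn : R < ‖ξ‖ := by
      simpa [Metric.mem_closedBall, dist_zero_right] using hξ
    refine (cW_hat_high hA hB ξ hR hn).trans (le_add_of_nonneg_left ?_)
    rw [mul_zero, add_zero]
    exact mul_nonneg (by positivity) hNA

/-- bound for `∫ W(A,B)`. -/
theorem abs_int_W_le {A B : E4 → Bil} (hA : Cp A) (hB : Cp B) {h : E4 → ℝ}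
    (hi : Integrable (fun y => h y ^ 2)) (h1 : ∀ y, ‖A y‖ ≤ h y) (h2 : ∀ y, ‖B y‖ ≤ h y)
    (h3 : ∀ y i j k, |dd A y (ee i) (ee j) (ee k)| ≤ h y)
    (h4 : ∀ y i j k, |dd B y (ee i) (ee j) (ee k)| ≤ h y) {s R : ℝ} (hs : 0 < s) (hR : 0 < R) :
    |∫ y, W (A y) (B y)| ≤ 48 * s * (∫ y, h y ^ 2) + 320 / R * (∫ y, h y ^ 2) +
      3 * s⁻¹ * ∫ ξ in Metric.closedBall (0 : E4) R, N2 (hat hB ξ) := by
  have e0 : |∫ y, W (A y) (B y)| = ‖((∫ y, W (A y) (B y) : ℝ) : ℂ)‖ := by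
    rw [Complex.norm_real, Real.norm_eq_abs]
  rw [e0, int_W hA hB]
  have iA := int_N2 hA
  have iB := int_N2 hB
  have iA3 := int_N3 hA
  have iB3 := int_N3 hB
  have iI : Integrable ((Metric.closedBall (0 : E4) R).indicator (fun ξ => N2 (hat hB ξ))) :=
    iB.indicator measurableSet_closedBall
  have i1 : Integrable (fun ξ => 3 * s * N2 (hat hA ξ)) := iA.const_mul _
  have i2 : Integrable (fun ξ => 3 * s⁻¹ * (Metric.closedBall (0 : E4) R).indicator
    (fun ξ => N2 (hat hB ξ)) ξ) := iI.const_mul _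
  have i3 : Integrable (fun ξ => N2 (hat hA ξ) + N2 (hat hB ξ) + N3 (cD (xi ξ) (hat hA ξ)) +
        N3 (cD (xi ξ) (hat hB ξ))) := ((iA.add iB).add iA3).add iB3
  have i4 := i3.const_mul (2 / R)
  refine (norm_integral_le_integral_norm _).trans ?_
  have h5 : ∫ ξ, ‖cW (fun i j => (starRingEnd ℂ) (hat hA ξ i j)) (hat hB ξ)‖ ≤
      ∫ ξ, (3 * s * N2 (hat hA ξ) +
      3 * s⁻¹ * (Metric.closedBall (0 : E4) R).indicator (fun ξ => N2 (hat hB ξ)) ξ +
      2 / R * (N2 (hat hA ξ) + N2 (hat hB ξ) + N3 (cD (xi ξ) (hat hA ξ)) +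
        N3 (cD (xi ξ) (hat hB ξ)))) := by
    refine integral_mono_of_nonneg (Eventually.of_forall fun ξ => norm_nonneg _)
      ((i1.add i2).add i4) (Eventually.of_forall fun ξ => cW_hat_le hA hB ξ hs hR)
  refine h5.trans ?_
  have e1 : ∫ ξ, (3 * s * N2 (hat hA ξ) +
      3 * s⁻¹ * (Metric.closedBall (0 : E4) R).indicator (fun ξ => N2 (hat hB ξ)) ξ +
      2 / R * (N2 (hat hA ξ) + N2 (hat hB ξ) + N3 (cD (xi ξ) (hat hA ξ)) +
        N3 (cD (xi ξ) (hat hB ξ)))) =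
      3 * s * (∫ ξ, N2 (hat hA ξ)) +
      3 * s⁻¹ * (∫ ξ in Metric.closedBall (0 : E4) R, N2 (hat hB ξ)) +
      2 / R * ((∫ ξ, N2 (hat hA ξ)) + (∫ ξ, N2 (hat hB ξ)) +
        (∫ ξ, N3 (cD (xi ξ) (hat hA ξ))) + (∫ ξ, N3 (cD (xi ξ) (hat hB ξ)))) := by
    have i12 : Integrable (fun ξ => 3 * s * N2 (hat hA ξ) +
      3 * s⁻¹ * (Metric.closedBall (0 : E4) R).indicator (fun ξ => N2 (hat hB ξ)) ξ) := i1.add i2
    have j1 : Integrable (fun ξ => N2 (hat hA ξ) + N2 (hat hB ξ)) := iA.add iB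
    have j2 : Integrable (fun ξ => N2 (hat hA ξ) + N2 (hat hB ξ) +
      N3 (cD (xi ξ) (hat hA ξ))) := j1.add iA3
    rw [integral_add i12 i4, integral_add i1 i2, integral_const_mul, integral_const_mul,
      integral_const_mul, integral_indicator measurableSet_closedBall,
      integral_add j2 iB3, integral_add j1 iA3, integral_add iA iB]
  rw [e1]
  have b1 := N2_le hA hi h1
  have b2 := N2_le hB hi h2
  have b3 := N3_le hA hi h3
  have b4 := N3_le hB hi h4
  have c1 : 3 * s * (∫ ξ, N2 (hat hA ξ)) ≤ 3 * s * (16 * ∫ y, h y ^ 2) := by gcongr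
  have c2 : 2 / R * ((∫ ξ, N2 (hat hA ξ)) + (∫ ξ, N2 (hat hB ξ)) +
        (∫ ξ, N3 (cD (xi ξ) (hat hA ξ))) + (∫ ξ, N3 (cD (xi ξ) (hat hB ξ)))) ≤
      2 / R * (16 * (∫ y, h y ^ 2) + 16 * (∫ y, h y ^ 2) + 64 * (∫ y, h y ^ 2) +
        64 * (∫ y, h y ^ 2)) := by gcongr
  have c3 : 2 / R * (16 * (∫ y, h y ^ 2) + 16 * (∫ y, h y ^ 2) + 64 * (∫ y, h y ^ 2) +
        64 * (∫ y, h y ^ 2)) = 320 / R * (∫ y, h y ^ 2) := by ring
  linarith

/-- low frequencies tend to zero. -/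
theorem low_tendsto {B : ℕ → E4 → Bil} (hB : ∀ n, Cp (B n)) {K : Set E4} (hK : IsCompact K)
    (hBK : ∀ n y, y ∉ K → B n y = 0) {h : ℕ → E4 → ℝ}
    (hi : ∀ n, Integrable (fun y => h n y ^ 2)) {C : ℝ} (hC : ∀ n, ∫ y, h n y ^ 2 ≤ C)
    (h2 : ∀ n y, ‖B n y‖ ≤ h n y)
    (hw : ∀ φ : E4 → ℝ, ContDiff ℝ ∞ φ → ∀ i j,
      Tendsto (fun n => ∫ y, φ y * ent (B n y) i j) atTop (𝓝 0)) (R : ℝ) :
    Tendsto (fun n => ∫ ξ in Metric.closedBall (0 : E4) R, N2 (hat (hB n) ξ)) atTop (𝓝 0) := by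
  set D : ℝ := (volume K).toReal + C with hD
  have hKf : volume K ≠ ⊤ := hK.measure_lt_top.ne
  have b1 : ∀ n ξ i j, ‖hat (hB n) ξ i j‖ ≤ D := by
    intro n ξ i j
    refine (norm_fourier_le _ ((hB n).entC i j) ((hB n).entS i j) ξ).trans ?_
    have e1 : Integrable (K.indicator (fun _ => (1:ℝ))) :=
      (integrable_indicator_iff hK.measurableSet).2 (integrableOn_const hKf)
    have e2 : ∫ v, |ent (B n v) i j| ≤ ∫ v, (K.indicator (fun _ => (1:ℝ)) v + h n v ^ 2) := by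
      refine integral_mono_of_nonneg (Eventually.of_forall fun v => abs_nonneg _)
        (e1.add (hi n)) (Eventually.of_forall fun v => ?_)
      show |ent (B n v) i j| ≤ K.indicator (fun _ => (1:ℝ)) v + h n v ^ 2
      by_cases hv : v ∈ K
      · rw [indicator_of_mem hv]
        have := (abs_ent_le (B n v) i j).trans (h2 n v)
        nlinarith [sq_nonneg (h n v - 1), sq_nonneg (h n v)]
      · rw [indicator_of_notMem hv, hBK n v hv, ent_zero]
        simp only [abs_zero, zero_add]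
        positivity
    refine e2.trans ?_
    rw [integral_add e1 (hi n), integral_indicator hK.measurableSet]
    have e3 : ∫ v in K, (1:ℝ) = (volume K).toReal := by simp [Measure.real]
    rw [e3]
    have := hC n
    linarith
  have hD0 : 0 ≤ D := (norm_nonneg _).trans (b1 0 0 0 0)
  have b2 : ∀ n ξ, N2 (hat (hB n) ξ) ≤ 16 * D ^ 2 := by
    intro n ξ
    refine sum_bd2 fun i j => ?_
    have := b1 n ξ i j
    gcongr
  have p1 : ∀ ξ i j, Tendsto (fun n => hat (hB n) ξ i j) atTop (𝓝 0) := by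
    intro ξ i j
    have c0 : ContDiff ℝ ∞ (fun v : E4 => 2 * Real.pi * inner ℝ v ξ) :=
      contDiff_const.mul (contDiff_id.inner ℝ contDiff_const)
    have c1 := hw (fun v => Real.cos (2 * Real.pi * inner ℝ v ξ)) (Real.contDiff_cos.comp c0) i j
    have c2 := hw (fun v => Real.sin (2 * Real.pi * inner ℝ v ξ)) (Real.contDiff_sin.comp c0) i j
    have c3 : Tendsto (fun n => ((∫ y, Real.cos (2 * Real.pi * inner ℝ y ξ) *
        ent (B n y) i j : ℝ) : ℂ)) atTop (𝓝 0) :=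
      (Complex.continuous_ofReal.tendsto' 0 0 (by simp)).comp c1
    have c4 : Tendsto (fun n => ((∫ y, Real.sin (2 * Real.pi * inner ℝ y ξ) *
        ent (B n y) i j : ℝ) : ℂ)) atTop (𝓝 0) :=
      (Complex.continuous_ofReal.tendsto' 0 0 (by simp)).comp c2
    have c5 := c3.sub (c4.mul_const Complex.I)
    rw [zero_mul, sub_zero] at c5
    refine c5.congr fun n => ?_
    exact (fourier_eq _ ((hB n).entC i j) ((hB n).entS i j) ξ).symm
  have p2 : ∀ ξ, Tendsto (fun n => N2 (hat (hB n) ξ)) atTop (𝓝 0) := by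
    intro ξ
    unfold N2
    have : Tendsto (fun n => ∑ i : Fin 4, ∑ j : Fin 4, ‖hat (hB n) ξ i j‖ ^ 2) atTop
        (𝓝 (∑ i : Fin 4, ∑ j : Fin 4, (0:ℝ))) := by
      refine tendsto_finsetSum _ fun i _ => tendsto_finsetSum _ fun j _ => ?_
      have := ((p1 ξ i j).norm).pow 2
      simpa using this
    simpa using this
  have hfin : IsFiniteMeasure (volume.restrict (Metric.closedBall (0 : E4) R)) :=
    ⟨by rw [Measure.restrict_apply_univ]; exact (isCompact_closedBall _ _).measure_lt_top⟩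
  have := tendsto_integral_of_dominated_convergence (μ := volume.restrict (Metric.closedBall (0 : E4) R))
    (F := fun n ξ => N2 (hat (hB n) ξ)) (f := fun _ => 0) (fun _ => 16 * D ^ 2)
    (fun n => (int_N2 (hB n)).aestronglyMeasurable.restrict) (integrable_const _)
    (fun n => Eventually.of_forall fun ξ => by
      rw [Real.norm_of_nonneg (N2_nonneg _)]; exact b2 n ξ)
    (Eventually.of_forall fun ξ => p2 ξ)
  simpa using this

/-- **local div-curl lemma** for two sequences of compactly supported two-forms. -/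
theorem local_divcurl {A B : ℕ → E4 → Bil} (hA : ∀ n, Cp (A n)) (hB : ∀ n, Cp (B n))
    {K : Set E4} (hK : IsCompact K) (hBK : ∀ n y, y ∉ K → B n y = 0) {h : ℕ → E4 → ℝ}
    (hi : ∀ n, Integrable (fun y => h n y ^ 2)) {C : ℝ} (hC : ∀ n, ∫ y, h n y ^ 2 ≤ C)
    (h1 : ∀ n y, ‖A n y‖ ≤ h n y) (h2 : ∀ n y, ‖B n y‖ ≤ h n y)
    (h3 : ∀ n y i j k, |dd (A n) y (ee i) (ee j) (ee k)| ≤ h n y)
    (h4 : ∀ n y i j k, |dd (B n) y (ee i) (ee j) (ee k)| ≤ h n y)
    (hw : ∀ φ : E4 → ℝ, ContDiff ℝ ∞ φ → ∀ i j,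
      Tendsto (fun n => ∫ y, φ y * ent (B n y) i j) atTop (𝓝 0)) :
    Tendsto (fun n => ∫ y, W (A n y) (B n y)) atTop (𝓝 0) := by
  have hC0 : 0 ≤ C := (integral_nonneg fun y => sq_nonneg (h 0 y)).trans (hC 0)
  rw [Metric.tendsto_nhds]
  intro ε hε
  set s : ℝ := ε / (4 * (48 * C + 1)) with hs
  set R : ℝ := 4 * (320 * C + 1) / ε with hR
  have hs0 : 0 < s := by positivity
  have hR0 : 0 < R := by positivity
  have hlow := low_tendsto hB hK hBK hi hC h2 hw R
  have hlow2 : ∀ᶠ n in atTop, 3 * s⁻¹ * ∫ ξ in Metric.closedBall (0 : E4) R,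
      N2 (hat (hB n) ξ) < ε / 4 := by
    have := hlow.const_mul (3 * s⁻¹)
    rw [mul_zero] at this
    exact this.eventually (gt_mem_nhds (by positivity))
  filter_upwards [hlow2] with n hn
  rw [Real.dist_0_eq_abs]
  have hb := abs_int_W_le (hA n) (hB n) (hi n) (h1 n) (h2 n) (h3 n) (h4 n) hs0 hR0
  have hI : 0 ≤ ∫ y, h n y ^ 2 := integral_nonneg fun y => sq_nonneg (h n y)
  have c1 : 48 * s * (∫ y, h n y ^ 2) ≤ ε / 4 := by
    have : 48 * s * (∫ y, h n y ^ 2) ≤ 48 * s * C := by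
      have := hC n
      gcongr
    refine this.trans ?_
    rw [hs]
    rw [mul_div_assoc', div_mul_eq_mul_div, div_le_div_iff₀ (by positivity) (by norm_num)]
    nlinarith
  have c2 : 320 / R * (∫ y, h n y ^ 2) ≤ ε / 4 := by
    have : 320 / R * (∫ y, h n y ^ 2) ≤ 320 / R * C := by
      have := hC n
      gcongr
    refine this.trans ?_
    rw [hR]
    rw [div_div_eq_mul_div, div_mul_eq_mul_div, div_le_div_iff₀ (by positivity) (by norm_num)]
    nlinarith
  linarith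

end

end Crest.Agent.R235.DCFour_358
end

-- ▼ part R235/DCMan_358

/-!
Row 235 (S0364), SWC-AN positivity (helper358): DIV-CURL LEMMA on the compact manifold `M`.
Main result: `divcurl : Pair J F → DIVCURL J F`.
-/

set_option autoImplicit false
set_option maxSynthPendingDepth 3
set_option linter.unusedSectionVars false

open Set Function Filter MeasureTheory
open scoped Manifold ContDiff Topology ENNReal

namespace Crest.Agent.R235.DCMan_358

open Crest.Agent.R240 Crest.Agent.R240.Ch Crest.Agent.R235.PosDefs_358 Crest.Agent.R235.DCFour_358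

noncomputable section

variable {M : Type*} [TopologicalSpace M] [ChartedSpace E4 M] [IsManifold 𝓘(ℝ, E4) ∞ M]

open Classical in
/-- a two-form cut off in a chart. -/
def cut (p : M) (g : E4 → ℝ) (b : F2 E4 M) (y : E4) : Bil :=
  if y ∈ (chartAt E4 p).target then g y • rep p b y else 0

/-- admissible cut-off functions. -/
structure Sup (p : M) (K : Set E4) (g : E4 → ℝ) : Prop where
  cpt : IsCompact K
  sub : K ⊆ (chartAt E4 p).target
  smooth : ContDiffOn ℝ ∞ g (chartAt E4 p).target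
  zero : ∀ y ∈ (chartAt E4 p).target, y ∉ K → g y = 0

variable {p : M} {K : Set E4} {g : E4 → ℝ} {b : F2 E4 M}

theorem cut_of_mem {y : E4} (hy : y ∈ (chartAt E4 p).target) : cut p g b y = g y • rep p b y :=
  if_pos hy

theorem cut_zero (hs : Sup p K g) {y : E4} (hy : y ∉ K) : cut p g b y = 0 := by
  by_cases h : y ∈ (chartAt E4 p).target
  · rw [cut_of_mem h, hs.zero y h hy, zero_smul]
  · exact if_neg h

theorem cut_ev {y : E4} (hy : y ∈ (chartAt E4 p).target) :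
    cut p g b =ᶠ[𝓝 y] fun z => g z • rep p b z := by
  filter_upwards [(chartAt E4 p).open_target.mem_nhds hy] with z hz
  exact cut_of_mem hz

theorem cut_ev0 (hs : Sup p K g) {y : E4} (hy : y ∉ K) :
    cut p g b =ᶠ[𝓝 y] fun _ => 0 := by
  filter_upwards [hs.cpt.isClosed.isOpen_compl.mem_nhds hy] with z hz
  exact cut_zero hs hz

theorem cut_cp (hs : Sup p K g) (hb : Smooth2 b) : Cp (cut p g b) where
  smooth := by
    rw [contDiff_iff_contDiffAt]
    intro y
    by_cases hy : y ∈ K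
    · have hyt := hs.sub hy
      have hn := (chartAt E4 p).open_target.mem_nhds hyt
      exact ((hs.smooth.contDiffAt hn).smul ((hb.2 p).contDiffAt hn)).congr_of_eventuallyEq
        (cut_ev hyt)
    · exact contDiffAt_const.congr_of_eventuallyEq (cut_ev0 hs hy)
  cpt := HasCompactSupport.intro hs.cpt fun y hy => cut_zero hs hy
  alt := by
    intro y
    by_cases hy : y ∈ (chartAt E4 p).target
    · rw [cut_of_mem hy]
      exact (alt_rep hb p y).smul _
    · have : cut p g b y = 0 := if_neg hy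
      rw [this]
      exact Alt.zero

/-- bounds for the cut-off form and its exterior derivative. -/
theorem exists_cut_bound (hs : Sup p K g) : ∃ G : ℝ, 0 ≤ G ∧ ∀ b : F2 E4 M, Smooth2 b → Closed2 b →
    (∀ y, ‖cut p g b y‖ ≤ G * K.indicator (fun y => ‖rep p b y‖) y) ∧
    (∀ y i j k, |dd (cut p g b) y (ee i) (ee j) (ee k)| ≤
      G * K.indicator (fun y => ‖rep p b y‖) y) := by
  have ho := (chartAt E4 p).open_target
  obtain ⟨G1, hG1⟩ := hs.cpt.exists_bound_of_continuousOn (hs.smooth.continuousOn.mono hs.sub)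
  have hc2 : ContinuousOn (fderiv ℝ g) (chartAt E4 p).target :=
    hs.smooth.continuousOn_fderiv_of_isOpen ho (by simp)
  obtain ⟨G2, hG2⟩ := hs.cpt.exists_bound_of_continuousOn (hc2.mono hs.sub)
  refine ⟨|G1| + 3 * |G2|, by positivity, fun b hb hcl => ⟨fun y => ?_, fun y i j k => ?_⟩⟩
  · by_cases hy : y ∈ K
    · rw [indicator_of_mem hy, cut_of_mem (hs.sub hy), norm_smul]
      have h1 : ‖g y‖ ≤ |G1| + 3 * |G2| := by
        have := hG1 y hy
        have := le_abs_self G1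
        have := abs_nonneg G2
        linarith
      gcongr
    · rw [indicator_of_notMem hy, cut_zero hs hy, norm_zero, mul_zero]
  · by_cases hy : y ∈ K
    · have hyt := hs.sub hy
      have hn := ho.mem_nhds hyt
      have hg : DifferentiableAt ℝ g y := (hs.smooth.contDiffAt hn).differentiableAt (by simp)
      have hbd : DifferentiableAt ℝ (rep p b) y :=
        ((hb.2 p).contDiffAt hn).differentiableAt (by simp)
      have hc := hcl p y hyt (ee i) (ee j) (ee k)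
      rw [indicator_of_mem hy, dd_congr (cut_ev hyt)]
      have e1 : dd (fun z => g z • rep p b z) y (ee i) (ee j) (ee k) =
          fderiv ℝ g y (ee i) * rep p b y (ee j) (ee k) -
          fderiv ℝ g y (ee j) * rep p b y (ee i) (ee k) +
          fderiv ℝ g y (ee k) * rep p b y (ee i) (ee j) := by
        unfold dd
        unfold dd at hc
        rw [fderiv_fun_smul hg hbd]
        simp only [add_apply, smul_apply, ContinuousLinearMap.smulRight_apply, smul_eq_mul]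
        linear_combination (g y) * hc
      rw [e1]
      have h2 : ∀ u v w : Fin 4, |fderiv ℝ g y (ee u) * rep p b y (ee v) (ee w)| ≤
          |G2| * ‖rep p b y‖ := by
        intro u v w
        rw [abs_mul]
        have h3 : |fderiv ℝ g y (ee u)| ≤ |G2| := by
          have h4 := (fderiv ℝ g y).le_opNorm (ee u)
          rw [norm_ee', mul_one] at h4
          exact h4.trans ((hG2 y hy).trans (le_abs_self _))
        have h5 : |rep p b y (ee v) (ee w)| ≤ ‖rep p b y‖ := DCFour_358.abs_ent_le (rep p b y) v w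
        gcongr
      have t1 := h2 i j k
      have t2 := h2 j i k
      have t3 := h2 k i j
      have t4 := abs_add_le (fderiv ℝ g y (ee i) * rep p b y (ee j) (ee k) -
          fderiv ℝ g y (ee j) * rep p b y (ee i) (ee k))
          (fderiv ℝ g y (ee k) * rep p b y (ee i) (ee j))
      have t5 := abs_sub (fderiv ℝ g y (ee i) * rep p b y (ee j) (ee k))
          (fderiv ℝ g y (ee j) * rep p b y (ee i) (ee k))
      have t6 : 0 ≤ |G1| * ‖rep p b y‖ := by positivity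
      linarith
    · rw [indicator_of_notMem hy, mul_zero, dd_congr (cut_ev0 hs hy)]
      unfold dd
      simp

/-! ### the sign of the chart -/

variable [T2Space M] [CompactSpace M] [MeasurableSpace M] [BorelSpace M]

theorem sg_smooth {F : F2 E4 M} (hF : Int.Vol F) (p : M) :
    ContDiffOn ℝ ∞ (Int.sg F p) (chartAt E4 p).target := by
  intro y hy
  refine ContDiffAt.contDiffWithinAt ?_
  exact (contDiffAt_const (c := Int.sg F p y)).congr_of_eventuallyEq (Int.sg_locally_const hF hy)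

theorem sg_sq {F : F2 E4 M} (hF : Int.Vol F) {p : M} {y : E4} (hy : y ∈ (chartAt E4 p).target) :
    Int.sg F p y * Int.sg F p y = 1 := by
  unfold Int.sg
  rcases lt_or_gt_of_ne (hF.rep_ne hy) with h1 | h1
  · rw [sign_neg h1]; simp
  · rw [sign_pos h1]; simp

open Classical in
/-- a function on the chart target extended by zero to the model space. -/
def ez (p : M) (g : E4 → ℝ) (y : E4) : ℝ := if y ∈ (chartAt E4 p).target then g y else 0

theorem ez_smooth (hs : Sup p K g) : ContDiff ℝ ∞ (ez p g) := by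
  rw [contDiff_iff_contDiffAt]
  intro y
  by_cases hy : y ∈ K
  · have hyt := hs.sub hy
    have hn := (chartAt E4 p).open_target.mem_nhds hyt
    refine (hs.smooth.contDiffAt hn).congr_of_eventuallyEq ?_
    filter_upwards [hn] with z hz
    exact if_pos hz
  · refine contDiffAt_const (c := (0:ℝ)) |>.congr_of_eventuallyEq ?_
    filter_upwards [hs.cpt.isClosed.isOpen_compl.mem_nhds hy] with z hz
    by_cases h : z ∈ (chartAt E4 p).target
    · rw [ez, if_pos h, hs.zero z h hz]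
    · exact if_neg h

theorem ez_zero (hs : Sup p K g) {y : E4} (hy : y ∉ K) : ez p g y = 0 := by
  by_cases h : y ∈ (chartAt E4 p).target
  · rw [ez, if_pos h, hs.zero y h hy]
  · exact if_neg h

/-! ### covectors -/

/-- coordinate covectors. -/
abbrev pr (k : Fin 4) : E4 →L[ℝ] ℝ := EuclideanSpace.proj k

theorem ent_wed_pr (k l i j : Fin 4) : ent (wed (pr k) (pr l)) i j =
    (if k = i then 1 else 0) * (if l = j then 1 else 0) -
    (if l = i then 1 else 0) * (if k = j then 1 else 0) := by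
  unfold ent
  rw [wed_apply]
  simp [pr]

theorem ent_eq (i j : Fin 4) : ∃ (k l : Fin 4) (s : ℝ), ∀ b : Bil, Alt b →
    ent b i j = s * W b (wed (pr k) (pr l)) := by
  have e01 : ∀ b : Bil, W b (wed (pr 2) (pr 3)) = ent b 0 1 := by
    intro b; simp [W, ent_wed_pr]
  have e02 : ∀ b : Bil, W b (wed (pr 1) (pr 3)) = - ent b 0 2 := by
    intro b; simp [W, ent_wed_pr]
  have e03 : ∀ b : Bil, W b (wed (pr 1) (pr 2)) = ent b 0 3 := by
    intro b; simp [W, ent_wed_pr]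
  have e12 : ∀ b : Bil, W b (wed (pr 0) (pr 3)) = ent b 1 2 := by
    intro b; simp [W, ent_wed_pr]
  have e13 : ∀ b : Bil, W b (wed (pr 0) (pr 2)) = - ent b 1 3 := by
    intro b; simp [W, ent_wed_pr]
  have e23 : ∀ b : Bil, W b (wed (pr 0) (pr 1)) = ent b 2 3 := by
    intro b; simp [W, ent_wed_pr]
  have key : ∀ i j : Fin 4, i < j → ∃ (k l : Fin 4) (s : ℝ), ∀ b : Bil,
      ent b i j = s * W b (wed (pr k) (pr l)) := by
    intro i j hij
    fin_cases i <;> fin_cases j <;> first | (exfalso; revert hij; decide) | skip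
    · exact ⟨2, 3, 1, fun b => by rw [e01]; simp⟩
    · exact ⟨1, 3, -1, fun b => by rw [e02]; simp⟩
    · exact ⟨1, 2, 1, fun b => by rw [e03]; simp⟩
    · exact ⟨0, 3, 1, fun b => by rw [e12]; simp⟩
    · exact ⟨0, 2, -1, fun b => by rw [e13]; simp⟩
    · exact ⟨0, 1, 1, fun b => by rw [e23]; simp⟩
  rcases lt_trichotomy i j with h | h | h
  · obtain ⟨k, l, s, hs⟩ := key i j h
    exact ⟨k, l, s, fun b _ => hs b⟩
  · subst h
    exact ⟨0, 0, 0, fun b hb => by rw [hb.ent_self, zero_mul]⟩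
  · obtain ⟨k, l, s, hs⟩ := key j i h
    exact ⟨k, l, -s, fun b hb => by rw [hb.ent_swap, hs]; ring⟩

/-! ### the chart formula -/

variable {J : EndF E4 M} {F : F2 E4 M}

theorem sup_A (A : FA E4 M) (i : Fin A.n) {F : F2 E4 M} (hF : Int.Vol F) {τ : M → ℝ}
    (hτ : SmoothF E4 τ) : Sup (A.c i) (A.K i)
      (fun y => Int.sg F (A.c i) y * (repF (A.c i) (A.χ i) y * repF (A.c i) τ y)) where
  cpt := A.isCompact_K i
  sub := A.K_sub i
  smooth := (sg_smooth hF _).mul (((smoothF_iff (A.χ i)).1 (A.χ_smooth i) (A.c i)).mul (hτ (A.c i)))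
  zero := by
    intro y hy hyK
    have h1 : A.χ i ((chartAt E4 (A.c i)).symm y) = 0 := by
      by_contra hne
      have h2 := A.χ_supp i (subset_tsupport _ hne)
      rw [(chartAt E4 (A.c i)).right_inv hy] at h2
      exact hyK (interior_subset h2.2)
    simp only [repF, h1, zero_mul, mul_zero]

theorem sup_B (A : FA E4 M) (i : Fin A.n) : Sup (A.c i) (A.K i) (repF (A.c i) (A.χt i)) where
  cpt := A.isCompact_K i
  sub := A.K_sub i
  smooth := (smoothF_iff (A.χt i)).1 (A.χt_smooth i) (A.c i)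
  zero := by
    intro y hy hyK
    show A.χt i ((chartAt E4 (A.c i)).symm y) = 0
    by_contra hne
    have h2 := A.χt_supp i _ (subset_tsupport _ hne)
    rw [(chartAt E4 (A.c i)).right_inv hy] at h2
    exact hyK (interior_subset h2.2)

/-- the localised integral in the chart. -/
theorem chart_formula (h : Pair J F) (A : FA E4 M) (i : Fin A.n) {τ : M → ℝ}
    (hτ : SmoothF E4 τ) {b : F2 E4 M} (hb : Smooth2 b) :
    ∫ x, A.χ i x * (τ x * qG F b b x) ∂(Int.mu F) =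
      ∫ y, W (cut (A.c i) (fun y => Int.sg F (A.c i) y *
        (repF (A.c i) (A.χ i) y * repF (A.c i) τ y)) b y)
        (cut (A.c i) (repF (A.c i) (A.χt i)) b y) := by
  set p := A.c i with hp
  have hcont : Continuous (fun x => A.χ i x * (τ x * qG F b b x)) :=
    (A.χ_smooth i).continuous.mul ((Int.SmoothF.cont hτ).mul (continuous_qG h hb hb))
  rw [Int.integral_mu_of_supp h.vol p hcont.aestronglyMeasurable]
  · have ht : MeasurableSet (chartAt E4 p).target := (chartAt E4 p).open_target.measurableSet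
    rw [setIntegral_congr_fun ht (g := fun y => W (cut p (fun y => Int.sg F p y *
        (repF p (A.χ i) y * repF p τ y)) b y) (cut p (repF p (A.χt i)) b y))]
    · refine setIntegral_eq_integral_of_forall_compl_eq_zero fun y hy => ?_
      have h0 : cut p (repF p (A.χt i)) b y = 0 := if_neg hy
      rw [h0, W_comm]
      simp [W, ent_zero]
    · intro y hy
      simp only
      rw [cut_of_mem hy, cut_of_mem hy, W_smul_left, W_smul_right, smul_eq_mul,
        Int.qG_chart h.vol (fun x => alt_at hb x) (fun x => alt_at hb x) hy]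
      have h1 := Int.dens_mul_q h.vol hy (rep p b y) (rep p b y)
      have h2 : repF p (A.χ i) y * repF p (A.χt i) y = repF p (A.χ i) y := by
        rw [mul_comm]; exact A.χt_mul_χ i _
      have h3 : A.χ i ((chartAt E4 p).symm y) = repF p (A.χ i) y := rfl
      have h4 : τ ((chartAt E4 p).symm y) = repF p τ y := rfl
      rw [h3, h4]
      linear_combination (repF p (A.χ i) y * repF p τ y) * h1 -
        (Int.sg F p y * repF p τ y * W (rep p b y) (rep p b y)) * h2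
  · intro x hx
    have : A.χ i x = 0 := by
      by_contra hne
      exact hx (A.χ_supp i (subset_tsupport _ hne)).1
    rw [this, zero_mul]

/-- test forms: the localised components as pairings with `g du∧dv`. -/
theorem exists_test (h : Pair J F) {p : M} {K : Set E4} {g : E4 → ℝ} (hs : Sup p K g)
    {φ : E4 → ℝ} (hφ : ContDiff ℝ ∞ φ) (i j : Fin 4) :
    ∃ G u v : M → ℝ, SmoothF E4 G ∧ SmoothF E4 u ∧ SmoothF E4 v ∧
      ∀ b : F2 E4 M, Smooth2 b → ∫ y, φ y * ent (cut p g b y) i j =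
        Int.I F b (fmul G (wedG (dF u) (dF v))) := by
  obtain ⟨k, l, s, hent⟩ := ent_eq i j
  -- cut-off equal to one near `K`
  obtain ⟨K1, hK1, hKK1, hK1t⟩ := exists_compact_between hs.cpt (chartAt E4 p).open_target hs.sub
  obtain ⟨K2, hK2, hK12, hK2t⟩ := exists_compact_between hK1 (chartAt E4 p).open_target hK1t
  obtain ⟨f, hf1, hf0, -⟩ := exists_contMDiffMap_one_nhds_of_subset_interior (n := ⊤)
    𝓘(ℝ, E4) hK1.isClosed hK12
  have hθ : ContDiff ℝ ∞ (f : E4 → ℝ) := f.contMDiff.contDiff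
  have hθ1 : ∀ y ∈ K1, f y = 1 := fun y hy => (Filter.Eventually.self_of_nhdsSet hf1) y hy
  have hcoord : ∀ k : Fin 4, ContDiff ℝ ∞ (fun y : E4 => f y * y k) := fun k =>
    hθ.mul (pr k).contDiff
  have hcoord0 : ∀ k : Fin 4, ∀ y, y ∉ K2 → f y * y k = 0 := fun k y hy => by
    rw [hf0 y hy, zero_mul]
  set U : Fin 4 → M → ℝ := fun k => extF p (fun y => f y * y k) with hU
  have hUs : ∀ k, SmoothF E4 (U k) := fun k => smoothF_extF hK2 hK2t (hcoord k) (hcoord0 k)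
  have hUd : ∀ k, ∀ y ∈ K, rep1 p (dF (U k)) y = pr k := by
    intro k y hy
    have hyt := hs.sub hy
    rw [rep1_dF (hUs k) hyt]
    have hev : repF p (U k) =ᶠ[𝓝 y] fun z => pr k z := by
      filter_upwards [(chartAt E4 p).open_target.mem_nhds hyt,
        mem_interior_iff_mem_nhds.1 (hKK1 hy)] with z hz hz1
      rw [hU]
      simp only
      rw [repF_extF_self hz, hθ1 z hz1, one_mul]
      rfl
    rw [hev.fderiv_eq]
    exact (pr k).fderiv
  have hs' : Sup p K (fun y => s * (Int.sg F p y * (φ y * g y))) :=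
    ⟨hs.cpt, hs.sub, contDiffOn_const.mul ((sg_smooth h.vol p).mul (hφ.contDiffOn.mul hs.smooth)),
      fun y hy hyK => by rw [hs.zero y hy hyK]; ring⟩
  refine ⟨extF p (ez p (fun y => s * (Int.sg F p y * (φ y * g y)))), U k, U l,
    smoothF_extF hs.cpt hs.sub (ez_smooth hs') (fun y hy => ez_zero hs' hy), hUs k, hUs l,
    fun b hb => ?_⟩
  set G := extF p (ez p (fun y => s * (Int.sg F p y * (φ y * g y)))) with hG
  have hGs : SmoothF E4 G := smoothF_extF hs.cpt hs.sub (ez_smooth hs') (fun y hy => ez_zero hs' hy)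
  have hws : Smooth2 (wedG (dF (U k)) (dF (U l))) := Smooth2.wed (Smooth1.dF (hUs k)) (Smooth1.dF (hUs l))
  have hcs : Smooth2 (fmul G (wedG (dF (U k)) (dF (U l)))) := Smooth2.fmul hGs hws
  unfold Int.I
  rw [Int.integral_mu_of_supp h.vol p (continuous_qG h hb hcs).aestronglyMeasurable]
  · have ht : MeasurableSet (chartAt E4 p).target := (chartAt E4 p).open_target.measurableSet
    rw [← setIntegral_eq_integral_of_forall_compl_eq_zero (s := (chartAt E4 p).target)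
      (f := fun y => φ y * ent (cut p g b y) i j)]
    · refine setIntegral_congr_fun ht fun y hy => ?_
      rw [cut_of_mem hy, ent_smul, Int.qG_comm, Int.qG_fmul_left, smul_eq_mul,
        Int.qG_chart h.vol (fun x => alt_at hws x) (fun x => alt_at hb x) hy]
      have e1 : G ((chartAt E4 p).symm y) = s * (Int.sg F p y * (φ y * g y)) := by
        rw [hG]
        have := repF_extF_self hy (ez p (fun y => s * (Int.sg F p y * (φ y * g y))))
        rw [repF] at this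
        rw [this, ez, if_pos hy]
      rw [e1]
      by_cases hyK : y ∈ K
      · have h1 := Int.dens_mul_q h.vol hy (rep p (wedG (dF (U k)) (dF (U l))) y) (rep p b y)
        rw [Int.rep_wedG_eq, hUd k y hyK, hUd l y hyK] at h1 ⊢
        have h2 := hent (rep p b y) (alt_rep hb p y)
        have h3 := sg_sq h.vol hy (F := F)
        rw [W_comm] at h1
        rw [h2]
        linear_combination (-(s * (Int.sg F p y * (φ y * g y)))) * h1 -
          (s * φ y * g y * W (rep p b y) (wed (pr k) (pr l))) * h3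
      · rw [hs.zero y hy hyK]
        ring
    · intro y hy
      have h0 : cut p g b y = 0 := if_neg hy
      rw [h0, ent_zero, mul_zero]
  · intro x hx
    have : G x = 0 := extF_of_notMem hx _
    rw [Int.qG_comm, Int.qG_fmul_left, this, zero_mul]

/-- **DIV-CURL on `M`.** -/
theorem divcurl (h : Pair J F) : DIVCURL J F := by
  intro Ψ hΨ hcl hC hw τ hτ
  obtain ⟨C, hC⟩ := hC
  obtain ⟨A⟩ := exists_FA (E := E4) (M := M)
  have hloc : ∀ i : Fin A.n, Tendsto (fun n => ∫ x, A.χ i x * (τ x * qG F (Ψ n) (Ψ n) x)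
      ∂(Int.mu F)) atTop (𝓝 0) := by
    intro i
    have sA := sup_A A i h.vol hτ
    have sB := sup_B A i
    obtain ⟨G1, hG1, hb1⟩ := exists_cut_bound sA
    obtain ⟨G2, hG2, hb2⟩ := exists_cut_bound sB
    obtain ⟨c1, hc1, hn, -⟩ := exists_norm_le h (A.c i) (A.isCompact_K i) (A.K_sub i)
    obtain ⟨c2, hc2, hI⟩ := exists_int_le h.vol (A.c i) (A.isCompact_K i) (A.K_sub i)
    set H : ℝ := G1 + G2 with hH
    have hH0 : 0 ≤ H := by positivity
    have ind_nonneg : ∀ n y, 0 ≤ (A.K i).indicator (fun y => ‖rep (A.c i) (Ψ n) y‖) y :=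
      fun n y => indicator_nonneg (fun _ _ => norm_nonneg _) y
    have hsq : ∀ n y, (H * (A.K i).indicator (fun y => ‖rep (A.c i) (Ψ n) y‖) y) ^ 2 =
        (A.K i).indicator (fun y => H ^ 2 * ‖rep (A.c i) (Ψ n) y‖ ^ 2) y := by
      intro n y
      by_cases hy : y ∈ A.K i
      · rw [indicator_of_mem hy, indicator_of_mem hy, mul_pow]
      · rw [indicator_of_notMem hy, indicator_of_notMem hy]
        simp
    have hcr : ∀ n, ContinuousOn (fun y => ‖rep (A.c i) (Ψ n) y‖ ^ 2) (A.K i) := fun n =>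
      (((hΨ n).2 (A.c i)).continuousOn.mono (A.K_sub i)).norm.pow 2
    have hint : ∀ n, Integrable (fun y =>
        (H * (A.K i).indicator (fun y => ‖rep (A.c i) (Ψ n) y‖) y) ^ 2) := by
      intro n
      simp only [hsq]
      rw [integrable_indicator_iff (A.isCompact_K i).measurableSet]
      exact (((hcr n).integrableOn_compact (A.isCompact_K i)).const_mul (H ^ 2))
    have hbd : ∀ n, ∫ y, (H * (A.K i).indicator (fun y => ‖rep (A.c i) (Ψ n) y‖) y) ^ 2 ≤
        H ^ 2 * (c2 * c1 * |C|) := by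
      intro n
      simp only [hsq]
      rw [integral_indicator (A.isCompact_K i).measurableSet, integral_const_mul]
      have h1 := hI (nsqG J F (Ψ n)) (Int.integrable_of_cont h.vol (continuous_nsq h (hΨ n)))
        (fun x => nsq_nonneg h (hΨ n) x) c1 hc1.le (fun y => ‖rep (A.c i) (Ψ n) y‖ ^ 2) (hcr n)
        (fun y _ => by positivity) (fun y hy => hn (Ψ n) (hΨ n) y hy)
      have h2 : ∫ x, nsqG J F (Ψ n) x ∂(Int.mu F) ≤ |C| := (hC n).trans (le_abs_self C)
      have h3 : c2 * c1 * ∫ x, nsqG J F (Ψ n) x ∂(Int.mu F) ≤ c2 * c1 * |C| := by gcongr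
      have h4 := h1.trans h3
      gcongr
    have hmain := local_divcurl
      (A := fun n => cut (A.c i) (fun y => Int.sg F (A.c i) y *
        (repF (A.c i) (A.χ i) y * repF (A.c i) τ y)) (Ψ n))
      (B := fun n => cut (A.c i) (repF (A.c i) (A.χt i)) (Ψ n))
      (fun n => cut_cp sA (hΨ n)) (fun n => cut_cp sB (hΨ n)) (A.isCompact_K i)
      (fun n y hy => cut_zero sB hy)
      (h := fun n y => H * (A.K i).indicator (fun y => ‖rep (A.c i) (Ψ n) y‖) y) hint hbd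
      (fun n y => ((hb1 (Ψ n) (hΨ n) (hcl n)).1 y).trans (by
        have := ind_nonneg n y
        have : G1 ≤ H := by linarith
        gcongr))
      (fun n y => ((hb2 (Ψ n) (hΨ n) (hcl n)).1 y).trans (by
        have := ind_nonneg n y
        have : G2 ≤ H := by linarith
        gcongr))
      (fun n y k l m => ((hb1 (Ψ n) (hΨ n) (hcl n)).2 y k l m).trans (by
        have := ind_nonneg n y
        have : G1 ≤ H := by linarith
        gcongr))
      (fun n y k l m => ((hb2 (Ψ n) (hΨ n) (hcl n)).2 y k l m).trans (by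
        have := ind_nonneg n y
        have : G2 ≤ H := by linarith
        gcongr))
      (by
        intro φ hφ k l
        obtain ⟨G, u, v, hG, hu, hv, he⟩ := exists_test h sB hφ k l
        simp only [fun n => he (Ψ n) (hΨ n)]
        exact hw G u v hG hu hv)
    refine hmain.congr fun n => ?_
    exact (chart_formula h A i hτ (hΨ n)).symm
  have hsum : ∀ n, Int.I F (Ψ n) (fmul τ (Ψ n)) =
      ∑ i, ∫ x, A.χ i x * (τ x * qG F (Ψ n) (Ψ n) x) ∂(Int.mu F) := by
    intro n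
    have hc : ∀ i : Fin A.n, Continuous (fun x => A.χ i x * (τ x * qG F (Ψ n) (Ψ n) x)) := fun i =>
      (A.χ_smooth i).continuous.mul ((Int.SmoothF.cont hτ).mul (continuous_qG h (hΨ n) (hΨ n)))
    rw [← integral_finsetSum _ fun i _ => Int.integrable_of_cont h.vol (hc i)]
    unfold Int.I
    congr 1
    funext x
    rw [← Finset.sum_mul, A.χ_sum, one_mul, Int.qG_comm, Int.qG_fmul_left]
  simp only [hsum]
  have := tendsto_finsetSum (s := Finset.univ) (f := fun (i : Fin A.n) n =>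
    ∫ x, A.χ i x * (τ x * qG F (Ψ n) (Ψ n) x) ∂(Int.mu F)) (a := fun _ => (0:ℝ))
    fun i _ => hloc i
  simpa using this

end

end Crest.Agent.R235.DCMan_358
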