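import Crest.Agent.R235.SwcGlob_34
import Crest.Agent.R235.SwcDefs_34
import Mathlib

-- ▼ part R235/SwcBoxe_312
section

/-!
Row 235, package SWC-AN, task 429 (helper312): `BOXE` from `BOX` by pull-back along affine maps.
-/

set_option autoImplicit false
set_option maxSynthPendingDepth 3

open Set Function Filter MeasureTheory Metric
open scoped ContDiff Topology

namespace Crest.Agent.R235.SwcBoxe_312

open Crest.Agent.R240 Crest.Agent.R235.SwcDefs_34 Crest.Agent.R235.SwcGlob_34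

noncomputable section

section pull

variable {V W : Type} [NormedAddCommGroup V] [NormedSpace ℝ V] [NormedAddCommGroup W]
  [NormedSpace ℝ W]

theorem hasFDerivAt_aff (L : V →L[ℝ] W) (z : W) (p : V) :
    HasFDerivAt (fun p : V => z + L p) L p := L.hasFDerivAt.const_add z

/-- the pull-back of a connection form by an affine map. -/
def pA (A : W → W →L[ℝ] ℝ) (L : V →L[ℝ] W) (z : W) (p : V) : V →L[ℝ] ℝ := (A (z + L p)).comp L

theorem contDiff_aff (L : V →L[ℝ] W) (z : W) : ContDiff ℝ ∞ (fun p : V => z + L p) :=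
  contDiff_const.add L.contDiff

theorem contDiff_pA {A : W → W →L[ℝ] ℝ} (hA : ContDiff ℝ ∞ A) (L : V →L[ℝ] W) (z : W) :
    ContDiff ℝ ∞ (pA A L z) :=
  (hA.comp (contDiff_aff L z)).clm_comp contDiff_const

theorem eta_pull {α : W → ℂ} (A : W → W →L[ℝ] ℝ) (hα : ContDiff ℝ ∞ α) (L : V →L[ℝ] W) (z : W)
    (p : V) : eta (fun p => α (z + L p)) (pA A L z) p = (eta α A (z + L p)).comp L := by
  have h1 : HasFDerivAt (fun p : V => α (z + L p)) ((fderiv ℝ α (z + L p)).comp L) p :=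
    ((hα.differentiable (by simp)) (z + L p)).hasFDerivAt.comp p (hasFDerivAt_aff L z p)
  ext v
  simp only [eta, h1.fderiv, pA]
  simp

theorem dd_pull {A : W → W →L[ℝ] ℝ} (hA : ContDiff ℝ ∞ A) (L : V →L[ℝ] W) (z : W) (p u v : V) :
    dd (pA A L z) p u v = dd A (z + L p) (L u) (L v) := by
  have h1 : HasFDerivAt (fun p : V => A (z + L p)) ((fderiv ℝ A (z + L p)).comp L) p :=
    ((hA.differentiable (by simp)) (z + L p)).hasFDerivAt.comp p (hasFDerivAt_aff L z p)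
  have h2 := h1.clm_comp (hasFDerivAt_const L p)
  have h3 : fderiv ℝ (pA A L z) p = _ := h2.fderiv
  unfold dd
  rw [h3]
  simp

theorem psi_pull {α : W → ℂ} {A : W → W →L[ℝ] ℝ} (hα : ContDiff ℝ ∞ α) (hA : ContDiff ℝ ∞ A)
    (L : V →L[ℝ] W) (z : W) (p u v : V) :
    psi (fun p => α (z + L p)) (pA A L z) p u v = psi α A (z + L p) (L u) (L v) := by
  have h := dd_pull hA L z p u v
  simp only [psi, eta_pull A hα L z p, wdg, add_apply, smul_apply, h]
  simp

theorem norm_psi_pull {α : W → ℂ} {A : W → W →L[ℝ] ℝ} (hα : ContDiff ℝ ∞ α)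
    (hA : ContDiff ℝ ∞ A) (L : V →L[ℝ] W) (z : W) (p : V) :
    ‖psi (fun p => α (z + L p)) (pA A L z) p‖ ≤ ‖L‖ ^ 2 * ‖psi α A (z + L p)‖ := by
  refine ContinuousLinearMap.opNorm_le_bound₂ _ (by positivity) fun u v => ?_
  rw [psi_pull hα hA]
  calc ‖psi α A (z + L p) (L u) (L v)‖ ≤ ‖psi α A (z + L p)‖ * ‖L u‖ * ‖L v‖ :=
        ContinuousLinearMap.le_opNorm₂ _ _ _
    _ ≤ ‖psi α A (z + L p)‖ * (‖L‖ * ‖u‖) * (‖L‖ * ‖v‖) := by
        gcongr
        · exact L.le_opNorm u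
        · exact L.le_opNorm v
    _ = _ := by ring

theorem en_pull {α : W → ℂ} {A : W → W →L[ℝ] ℝ} (hα : ContDiff ℝ ∞ α) {r : ℝ} (hr : 0 ≤ r)
    (L : V →L[ℝ] W) (z : W) (p : V) :
    en r (fun p => α (z + L p)) (pA A L z) p ≤ (1 + ‖L‖ ^ 2) * en r α A (z + L p) := by
  have h1 : ‖(eta α A (z + L p)).comp L‖ ^ 2 ≤ ‖L‖ ^ 2 * ‖eta α A (z + L p)‖ ^ 2 := by
    have := ContinuousLinearMap.opNorm_comp_le (eta α A (z + L p)) L
    calc _ ≤ (‖eta α A (z + L p)‖ * ‖L‖) ^ 2 := by gcongr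
      _ = _ := by ring
  have h2 : 0 ≤ r * (1 - ‖α (z + L p)‖ ^ 2) ^ 2 := by positivity
  simp only [en, eta_pull A hα L z p]
  nlinarith [sq_nonneg ‖eta α A (z + L p)‖, sq_nonneg ‖L‖, mul_nonneg (sq_nonneg ‖L‖) h2]

theorem cont_eta {α : W → ℂ} {A : W → W →L[ℝ] ℝ} (hα : ContDiff ℝ ∞ α) (hA : ContDiff ℝ ∞ A) :
    Continuous (eta α A) := by
  have h1 : Continuous (fderiv ℝ α) := hα.continuous_fderiv (by simp)
  have h2 : Continuous fun p : W => (A p).smulRight (Complex.I * α p) := by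
    have := (ContinuousLinearMap.smulRightL ℝ W ℂ).continuous₂.comp
      (hA.continuous.prodMk (continuous_const.mul hα.continuous : Continuous fun p : W =>
        Complex.I * α p))
    exact this
  exact h1.sub h2

theorem cont_dd {A : W → W →L[ℝ] ℝ} (hA : ContDiff ℝ ∞ A) : Continuous (dd A) := by
  have h1 : Continuous (fderiv ℝ A) := hA.continuous_fderiv (by simp)
  exact h1.sub ((ContinuousLinearMap.flipₗᵢ ℝ W W ℝ).continuous.comp h1)

theorem cont_psi {α : W → ℂ} {A : W → W →L[ℝ] ℝ} (hα : ContDiff ℝ ∞ α) (hA : ContDiff ℝ ∞ A) :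
    Continuous (psi α A) := by
  have he := cont_eta hα hA
  have h1 : Continuous fun p => Complex.reCLM.comp (eta α A p) :=
    (ContinuousLinearMap.compL ℝ W ℂ ℝ Complex.reCLM).continuous.comp he
  have h2 : Continuous fun p => Complex.imCLM.comp (eta α A p) :=
    (ContinuousLinearMap.compL ℝ W ℂ ℝ Complex.imCLM).continuous.comp he
  have h3 : Continuous fun p => wdg (Complex.reCLM.comp (eta α A p))
      (Complex.imCLM.comp (eta α A p)) := by
    unfold wdg
    exact ((ContinuousLinearMap.smulRightL ℝ W (W →L[ℝ] ℝ)).continuous₂.comp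
      (h1.prodMk h2)).sub
      ((ContinuousLinearMap.smulRightL ℝ W (W →L[ℝ] ℝ)).continuous₂.comp (h2.prodMk h1))
  have h4 : Continuous fun p => (2 : ℝ) • wdg (Complex.reCLM.comp (eta α A p))
      (Complex.imCLM.comp (eta α A p)) := h3.const_smul (2 : ℝ)
  exact ((continuous_const.sub ((hα.continuous.norm).pow 2)).smul (cont_dd hA)).add h4

theorem cont_en {α : W → ℂ} {A : W → W →L[ℝ] ℝ} (hα : ContDiff ℝ ∞ α) (hA : ContDiff ℝ ∞ A)
    (r : ℝ) : Continuous (en r α A) :=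
  ((cont_eta hα hA).norm.pow 2).add
    (continuous_const.mul ((continuous_const.sub (hα.continuous.norm.pow 2)).pow 2))

end pull

/-- the box inequality for the pair `(L b0, L b1)`. -/
theorem box_aff {C : ℝ} (hC : 0 < C)
    (hB : ∀ (α : V4 → ℂ) (A : V4 → V4 →L[ℝ] ℝ) (r s K : ℝ),
      ContDiff ℝ ∞ α → ContDiff ℝ ∞ A → 0 < r → 0 < s → 1 ≤ K → 1 ≤ r * s ^ 2 →
      |∫ p, tf s p * psi α A p b0 b1| ≤
        C * (K ^ 2 / s ^ 2 * (∫ p in Metric.closedBall (0 : V4) (2 * s), ‖psi α A p‖) ^ 2 +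
          (∫ p in Metric.closedBall (0 : V4) (2 * s), ‖psi α A p‖) / K) +
        C / (s * √r) * ∫ p in Metric.closedBall (0 : V4) (2 * s), en r α A p)
    (L : V4 →L[ℝ] E4) (α : E4 → ℂ) (A : E4 → E4 →L[ℝ] ℝ) (z : E4) (r t K : ℝ)
    (hα : ContDiff ℝ ∞ α) (hA : ContDiff ℝ ∞ A) (hr : 0 < r) (ht : 0 < t) (hK : 1 ≤ K)
    (hrt : 1 ≤ r * t ^ 2) :
    |∫ p : V4, tf t p * psi α A (z + L p) (L b0) (L b1)| ≤
      C * (1 + ‖L‖ ^ 2) ^ 2 * (K ^ 2 / t ^ 2 *
        (∫ p in closedBall (0 : V4) (2 * t), ‖psi α A (z + L p)‖) ^ 2 +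
      (∫ p in closedBall (0 : V4) (2 * t), ‖psi α A (z + L p)‖) / K) +
      C * (1 + ‖L‖ ^ 2) ^ 2 / (t * √r) *
        ∫ p in closedBall (0 : V4) (2 * t), en r α A (z + L p) := by
  have h := hB (fun p => α (z + L p)) (pA A L z) r t K (hα.comp (contDiff_aff L z))
    (contDiff_pA hA L z) hr ht hK hrt
  simp only [psi_pull hα hA] at h
  have hK0 : 0 < K := by linarith
  have hsr : 0 < √r := Real.sqrt_pos.2 hr
  have hcomp : IsCompact (closedBall (0 : V4) (2 * t)) := isCompact_closedBall _ _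
  have hca : Continuous fun p : V4 => z + L p := (contDiff_aff L z).continuous
  have i1 : IntegrableOn (fun p : V4 => ‖psi α A (z + L p)‖) (closedBall (0 : V4) (2 * t)) :=
    (((cont_psi hα hA).comp hca).norm.continuousOn).integrableOn_compact hcomp
  have i1' : IntegrableOn (fun p : V4 => ‖psi (fun p => α (z + L p)) (pA A L z) p‖)
      (closedBall (0 : V4) (2 * t)) :=
    ((cont_psi (hα.comp (contDiff_aff L z)) (contDiff_pA hA L z)).norm.continuousOn
      ).integrableOn_compact hcomp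
  have i2 : IntegrableOn (fun p : V4 => en r α A (z + L p)) (closedBall (0 : V4) (2 * t)) :=
    (((cont_en hα hA r).comp hca).continuousOn).integrableOn_compact hcomp
  have i2' : IntegrableOn (fun p : V4 => en r (fun p => α (z + L p)) (pA A L z) p)
      (closedBall (0 : V4) (2 * t)) :=
    ((cont_en (hα.comp (contDiff_aff L z)) (contDiff_pA hA L z) r).continuousOn
      ).integrableOn_compact hcomp
  set P := ∫ p in closedBall (0 : V4) (2 * t), ‖psi α A (z + L p)‖ with hP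
  set E := ∫ p in closedBall (0 : V4) (2 * t), en r α A (z + L p) with hE
  set k := 1 + ‖L‖ ^ 2 with hk
  have hk1 : 1 ≤ k := by have := sq_nonneg ‖L‖; linarith
  have hP0 : 0 ≤ P := setIntegral_nonneg measurableSet_closedBall fun p _ => norm_nonneg _
  have hE0 : 0 ≤ E := setIntegral_nonneg measurableSet_closedBall fun p _ => by
    unfold en; positivity
  have hP' : ∫ p in closedBall (0 : V4) (2 * t), ‖psi (fun p => α (z + L p)) (pA A L z) p‖
      ≤ k * P := by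
    rw [hP, ← integral_const_mul]
    refine setIntegral_mono i1' (i1.const_mul k) fun p => ?_
    refine (norm_psi_pull hα hA L z p).trans ?_
    gcongr
    simp [hk]
  have hP'0 : 0 ≤ ∫ p in closedBall (0 : V4) (2 * t),
      ‖psi (fun p => α (z + L p)) (pA A L z) p‖ :=
    setIntegral_nonneg measurableSet_closedBall fun p _ => norm_nonneg _
  have hE' : ∫ p in closedBall (0 : V4) (2 * t), en r (fun p => α (z + L p)) (pA A L z) p
      ≤ k * E := by
    rw [hE, ← integral_const_mul]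
    exact setIntegral_mono i2' (i2.const_mul k) fun p => en_pull hα hr.le L z p
  have hkk : k ≤ k ^ 2 := by nlinarith
  calc _ ≤ _ := h
    _ ≤ C * (K ^ 2 / t ^ 2 * (k * P) ^ 2 + k * P / K) + C / (t * √r) * (k * E) := by
        gcongr
    _ ≤ _ := by
        have a1 : C * (K ^ 2 / t ^ 2 * (k * P) ^ 2 + k * P / K) ≤
            C * k ^ 2 * (K ^ 2 / t ^ 2 * P ^ 2 + P / K) := by
          have : k * P / K ≤ k ^ 2 * (P / K) := by
            rw [mul_div_assoc]
            gcongr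
          calc C * (K ^ 2 / t ^ 2 * (k * P) ^ 2 + k * P / K) ≤
              C * (K ^ 2 / t ^ 2 * (k * P) ^ 2 + k ^ 2 * (P / K)) := by gcongr
            _ = _ := by ring
        have a2 : C / (t * √r) * (k * E) ≤ C * k ^ 2 / (t * √r) * E := by
          calc C / (t * √r) * (k * E) ≤ C / (t * √r) * (k ^ 2 * E) := by gcongr
            _ = _ := by ring
        linarith

/-- exchanging the two factors of `V4`. -/
def sw : V4 ≃L[ℝ] V4 := ContinuousLinearEquiv.prodComm ℝ (ℝ × ℝ) (ℝ × ℝ)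

theorem sw_apply (p : V4) : sw p = p.swap := rfl

theorem mp_sw : MeasurePreserving (fun p : V4 => sw p) volume volume :=
  Measure.measurePreserving_swap

theorem emb_sw : MeasurableEmbedding (fun p : V4 => sw p) :=
  sw.toHomeomorph.measurableEmbedding

theorem integral_sw (f : V4 → ℝ) : ∫ p : V4, f (sw p) = ∫ p : V4, f p :=
  mp_sw.integral_comp emb_sw f

theorem setIntegral_sw (f : V4 → ℝ) (t : ℝ) :
    ∫ p in closedBall (0 : V4) t, f (sw p) = ∫ p in closedBall (0 : V4) t, f p := by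
  have h := mp_sw.setIntegral_preimage_emb emb_sw f (closedBall (0 : V4) t)
  rw [← h]
  congr 2
  ext p
  simp only [mem_closedBall_zero_iff, mem_preimage, sw_apply]
  rw [Prod.norm_def (x := p), Prod.norm_def (x := p.swap), Prod.fst_swap, Prod.snd_swap, max_comm]

theorem tf_sw (t : ℝ) (p : V4) : tf t (sw p) = tf t p := by
  simp only [tf, sw_apply, Prod.fst_swap, Prod.snd_swap]
  ring

theorem sw_b0 : sw b0 = b2 := rfl
theorem sw_b1 : sw b1 = b3 := rfl

/-- **BOXE** from **BOX**. -/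
theorem boxe (h : BOX) : BOXE := by
  obtain ⟨C, hC, hB⟩ := h
  intro L
  set L1 : V4 →L[ℝ] E4 := (L : V4 →L[ℝ] E4) with hL1
  set L2 : V4 →L[ℝ] E4 := (L : V4 →L[ℝ] E4).comp (sw : V4 →L[ℝ] V4) with hL2
  refine ⟨C * (1 + ‖L1‖ ^ 2) ^ 2 + C * (1 + ‖L2‖ ^ 2) ^ 2, by positivity, ?_⟩
  intro α A z r t K hα hA hr ht hK hrt
  have h1 := box_aff hC hB L1 α A z r t K hα hA hr ht hK hrt
  have h2 := box_aff hC hB L2 α A z r t K hα hA hr ht hK hrt
  have e0 : ∀ p, L2 p = L (sw p) := fun p => rfl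
  have e1 : ∀ p, L1 p = L p := fun p => rfl
  simp only [e0, sw_b0, sw_b1] at h2
  simp only [e1] at h1
  have e2 : ∫ p : V4, tf t p * psi α A (z + L (sw p)) (L b2) (L b3) =
      ∫ p : V4, tf t p * psi α A (z + L p) (L b2) (L b3) := by
    rw [← integral_sw (fun p : V4 => tf t p * psi α A (z + L p) (L b2) (L b3))]
    simp only [tf_sw]
  have e3 := setIntegral_sw (fun p : V4 => ‖psi α A (z + L p)‖) (2 * t)
  have e4 := setIntegral_sw (fun p : V4 => en r α A (z + L p)) (2 * t)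
  rw [e2, e3, e4] at h2
  refine (add_le_add h1 h2).trans (le_of_eq ?_)
  ring

end

end Crest.Agent.R235.SwcBoxe_312
end

-- ▼ part R235/SwcBox_193
section

/-!
Row 235, SWC-AN leaf L4: the quadratic box inequality `BOX` from `PSID`, `NEARINT`, `GNS2`, `GRADF`.
-/

set_option autoImplicit false
set_option maxSynthPendingDepth 3

open Set MeasureTheory Filter Topology
open scoped ContDiff

namespace Crest.Agent.R235.SwcBox_193

open Crest.Agent.R235.SwcDefs_34

noncomputable section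

/-! ### the cut-off -/

lemma hh_contDiff : ContDiff ℝ ∞ hh := by
  unfold hh
  exact (Real.smoothTransition.contDiff.comp (contDiff_const.sub contDiff_id)).mul
    (Real.smoothTransition.contDiff.comp (contDiff_const.add contDiff_id))


lemma hh_neg (x : ℝ) : hh (-x) = hh x := by
  unfold hh
  rw [mul_comm]
  congr 2
  ring

lemma hh_nonneg (x : ℝ) : 0 ≤ hh x :=
  mul_nonneg (Real.smoothTransition.nonneg _) (Real.smoothTransition.nonneg _)

lemma hh_le_one (x : ℝ) : hh x ≤ 1 :=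
  mul_le_one₀ (Real.smoothTransition.le_one _) (Real.smoothTransition.nonneg _)
    (Real.smoothTransition.le_one _)

lemma hh_one {x : ℝ} (h1 : -1 ≤ x) (h2 : x ≤ 1) : hh x = 1 := by
  unfold hh
  rw [Real.smoothTransition.one_of_one_le (by linarith),
    Real.smoothTransition.one_of_one_le (by linarith), one_mul]

lemma hh_zero {x : ℝ} (h : 2 ≤ |x|) : hh x = 0 := by
  unfold hh
  rcases le_abs.1 h with h | h
  · rw [Real.smoothTransition.zero_of_nonpos (by linarith : 2 - x ≤ 0), zero_mul]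
  · rw [Real.smoothTransition.zero_of_nonpos (by linarith : 2 + x ≤ 0), mul_zero]

/-- the square of the cut-off at scale `s`. -/
def ww (s x : ℝ) : ℝ := hh (x / s) ^ 2

lemma ww_contDiff (s : ℝ) : ContDiff ℝ ∞ (ww s) := by
  unfold ww
  exact (hh_contDiff.comp (contDiff_id.div_const s)).pow 2

lemma ww_neg (s x : ℝ) : ww s (-x) = ww s x := by
  unfold ww
  rw [neg_div, hh_neg]

lemma ww_one {s x : ℝ} (hs : 0 < s) (h1 : -s ≤ x) (h2 : x ≤ s) : ww s x = 1 := by
  unfold ww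
  rw [hh_one, one_pow]
  · rw [le_div_iff₀ hs]; linarith
  · rw [div_le_iff₀ hs]; linarith

lemma ww_two {s : ℝ} (hs : 0 < s) : ww s (2 * s) = 0 := by
  unfold ww
  rw [hh_zero]
  · norm_num
  · rw [mul_div_assoc, div_self hs.ne', mul_one, abs_of_pos (by norm_num : (0 : ℝ) < 2)]

/-- the derivative of the squared cut-off is bounded. -/
lemma exists_ww : ∃ C : ℝ, 0 < C ∧ ∀ s : ℝ, 0 < s → ∀ x, |deriv (ww s) x| ≤ C / s := by
  have hc : Continuous (deriv (fun x => hh x ^ 2)) :=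
    (hh_contDiff.pow 2).continuous_deriv (by simp)
  have hsup : HasCompactSupport (deriv (fun x => hh x ^ 2)) := by
    apply HasCompactSupport.deriv
    apply HasCompactSupport.intro (isCompact_Icc (a := (-2 : ℝ)) (b := 2))
    intro x hx
    rw [hh_zero, zero_pow (by norm_num)]
    by_contra h
    rw [not_le, abs_lt] at h
    exact hx ⟨h.1.le, h.2.le⟩
  obtain ⟨C, hC⟩ := hsup.exists_bound_of_continuous hc
  refine ⟨max C 1, lt_max_of_lt_right one_pos, fun s hs x => ?_⟩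
  have h1 : HasDerivAt (ww s) (deriv (fun x => hh x ^ 2) (x / s) * (1 / s)) x := by
    have h2 : HasDerivAt (fun x => hh x ^ 2) (deriv (fun x => hh x ^ 2) (x / s)) (x / s) :=
      (((hh_contDiff.pow 2).differentiable (by simp)) _).hasDerivAt
    have h3 : HasDerivAt (fun x : ℝ => x / s) (1 / s) x := (hasDerivAt_id x).div_const s
    exact h2.comp x h3
  rw [h1.deriv, abs_mul, abs_of_pos (by positivity : (0 : ℝ) < 1 / s), mul_one_div]
  gcongr
  exact (hC _).trans (le_max_left _ _)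

/-! ### layer cake -/

lemma cont_pm {X : Type*} [TopologicalSpace X] (g : X → ℝ → ℝ)
    (hg : Continuous (Function.uncurry g)) (a b : X → ℝ) (ha : Continuous a) (hb : Continuous b) :
    Continuous fun x => ∫ t in (a x)..(b x), g x t := by
  have h1 : ∀ x, ∫ t in (a x)..(b x), g x t = (∫ t in (0)..(b x), g x t) -
      ∫ t in (0)..(a x), g x t := by
    intro x
    have hx : Continuous (g x) := hg.uncurry_left x
    exact (intervalIntegral.integral_interval_sub_left (hx.intervalIntegrable _ _)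
      (hx.intervalIntegrable _ _)).symm
  simp_rw [h1]
  exact (intervalIntegral.continuous_parametric_intervalIntegral_of_continuous hg hb).sub
    (intervalIntegral.continuous_parametric_intervalIntegral_of_continuous hg ha)

lemma lay {s : ℝ} (hs : 0 < s) (G : ℝ → ℝ) (hG : Continuous G) :
    ∫ x in (-(2 * s))..(2 * s), ww s x * G x =
      ∫ ρ in s..(2 * s), -(deriv (ww s) ρ) * ∫ x in (-ρ)..ρ, G x := by
  have hw : Continuous (ww s) := (ww_contDiff s).continuous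
  have hw' : Continuous (deriv (ww s)) := (ww_contDiff s).continuous_deriv (by simp)
  have hi : ∀ a b : ℝ, IntervalIntegrable (fun x => ww s x * G x) volume a b :=
    fun a b => (hw.mul hG).intervalIntegrable a b
  have e1 : ∫ x in (-(2 * s))..(2 * s), ww s x * G x =
      (∫ x in (-(2 * s))..(-s), ww s x * G x) + (∫ x in (-s)..s, ww s x * G x) +
        ∫ x in s..(2 * s), ww s x * G x := by
    rw [intervalIntegral.integral_add_adjacent_intervals (hi _ _) (hi _ _),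
      intervalIntegral.integral_add_adjacent_intervals (hi _ _) (hi _ _)]
  have e2 : ∫ x in (-(2 * s))..(-s), ww s x * G x = ∫ x in s..(2 * s), ww s x * G (-x) := by
    rw [← intervalIntegral.integral_comp_neg (fun x => ww s x * G x)]
    apply intervalIntegral.integral_congr
    intro x _
    simp only [ww_neg]
  have e3 : ∫ x in (-s)..s, ww s x * G x = ∫ x in (-s)..s, G x := by
    apply intervalIntegral.integral_congr
    intro x hx
    rw [uIcc_of_le (by linarith)] at hx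
    simp only [ww_one hs hx.1 hx.2, one_mul]
  have hPhi : ∀ x, HasDerivAt (fun ρ => ∫ x in (-ρ)..ρ, G x) (G x + G (-x)) x := by
    intro x
    have h1 : ∀ ρ : ℝ, ∫ x in (-ρ)..ρ, G x = (∫ x in (0)..ρ, G x) - ∫ x in (0)..(-ρ), G x :=
      fun ρ => (intervalIntegral.integral_interval_sub_left (hG.intervalIntegrable _ _)
        (hG.intervalIntegrable _ _)).symm
    simp_rw [h1]
    have h2 : HasDerivAt (fun ρ => ∫ x in (0)..ρ, G x) (G x) x :=
      intervalIntegral.integral_hasDerivAt_right (hG.intervalIntegrable _ _)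
        (hG.stronglyMeasurableAtFilter _ _) hG.continuousAt
    have h3 : HasDerivAt (fun ρ => ∫ x in (0)..ρ, G x) (G (-x)) (-x) :=
      intervalIntegral.integral_hasDerivAt_right (hG.intervalIntegrable _ _)
        (hG.stronglyMeasurableAtFilter _ _) hG.continuousAt
    have h4 : HasDerivAt (fun ρ => ∫ x in (0)..(-ρ), G x) (G (-x) * -1) x :=
      h3.comp x (hasDerivAt_neg x)
    have e : G x + G (-x) = G x - G (-x) * -1 := by ring
    rw [e]
    exact h2.sub h4
  have e4 : ∫ x in s..(2 * s), ww s x * (G x + G (-x)) =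
      ww s (2 * s) * (∫ x in (-(2 * s))..(2 * s), G x) - ww s s * (∫ x in (-s)..s, G x) -
        ∫ x in s..(2 * s), deriv (ww s) x * ∫ y in (-x)..x, G y := by
    have hcP : Continuous fun ρ => ∫ x in (-ρ)..ρ, G x :=
      cont_pm (fun _ t => G t) (hG.comp continuous_snd) _ _ continuous_neg continuous_id
    exact intervalIntegral.integral_mul_deriv_eq_deriv_mul_of_hasDerivAt
      hw.continuousOn hcP.continuousOn
      (fun x _ => (((ww_contDiff s).differentiable (by simp)) x).hasDerivAt)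
      (fun x _ => hPhi x) (hw'.intervalIntegrable _ _)
      ((hG.add (hG.comp continuous_neg)).intervalIntegrable _ _)
  have e5 : ∫ x in s..(2 * s), ww s x * (G x + G (-x)) =
      (∫ x in s..(2 * s), ww s x * G x) + ∫ x in s..(2 * s), ww s x * G (-x) := by
    have hi2 : IntervalIntegrable (fun x => ww s x * G (-x)) volume s (2 * s) :=
      (hw.mul (hG.comp continuous_neg)).intervalIntegrable _ _
    rw [← intervalIntegral.integral_add (hi _ _) hi2]
    apply intervalIntegral.integral_congr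
    intro x _
    ring
  have e6 : ∫ ρ in s..(2 * s), -(deriv (ww s) ρ) * ∫ x in (-ρ)..ρ, G x =
      -∫ x in s..(2 * s), deriv (ww s) x * ∫ y in (-x)..x, G y := by
    rw [← intervalIntegral.integral_neg]
    apply intervalIntegral.integral_congr
    intro x _
    simp only [neg_mul]
  rw [e6, e1, e2, e3]
  rw [ww_two hs, ww_one hs (by linarith) le_rfl, e5] at e4
  linarith

/-! ### two dimensional layer cake -/

/-- the flux of a function. -/
def fl (k : V4 → ℝ) (ρ : ℝ × ℝ) (τ : ℝ × ℝ) : ℝ :=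
  ∫ x in (-ρ.1)..ρ.1, ∫ y in (-ρ.2)..ρ.2, k ((x, y), τ)

lemma fl_cont (k : V4 → ℝ) (hk : Continuous k) :
    Continuous (fun q : (ℝ × ℝ) × (ℝ × ℝ) => fl k q.1 q.2) := by
  unfold fl
  refine cont_pm (fun (q : (ℝ × ℝ) × (ℝ × ℝ)) x => ∫ y in (-q.1.2)..q.1.2, k ((x, y), q.2)) ?_ _ _
    (by fun_prop) (by fun_prop)
  exact cont_pm (fun (z : ((ℝ × ℝ) × (ℝ × ℝ)) × ℝ) y => k ((z.2, y), z.1.2)) (by fun_prop) _ _
    (by fun_prop) (by fun_prop)

lemma iter_eq (g : ℝ × ℝ → ℝ) (hg : Continuous g) {a b c d : ℝ} (hab : a ≤ b) (hcd : c ≤ d) :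
    ∫ x in a..b, ∫ y in c..d, g (x, y) = ∫ p in Icc a b ×ˢ Icc c d, g p := by
  rw [Measure.volume_eq_prod, setIntegral_prod g
    (hg.continuousOn.integrableOn_compact (isCompact_Icc.prod isCompact_Icc))]
  rw [intervalIntegral.integral_of_le hab, integral_Icc_eq_integral_Ioc]
  apply integral_congr_ae
  refine Eventually.of_forall fun x => ?_
  simp only
  rw [intervalIntegral.integral_of_le hcd, integral_Icc_eq_integral_Ioc]

lemma lay2 {s : ℝ} (hs : 0 < s) (f : ℝ × ℝ → ℝ) (hf : Continuous f) :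
    ∫ x in (-(2 * s))..(2 * s), ∫ y in (-(2 * s))..(2 * s), ww s x * ww s y * f (x, y) =
      ∫ ρ₁ in s..(2 * s), ∫ ρ₂ in s..(2 * s), deriv (ww s) ρ₁ * deriv (ww s) ρ₂ *
        ∫ x in (-ρ₁)..ρ₁, ∫ y in (-ρ₂)..ρ₂, f (x, y) := by
  have hw : Continuous (ww s) := (ww_contDiff s).continuous
  have hw' : Continuous (deriv (ww s)) := (ww_contDiff s).continuous_deriv (by simp)
  have hK : Continuous (fun q : ℝ × ℝ => ∫ y in (-q.2)..q.2, f (q.1, y)) :=
    cont_pm (fun (q : ℝ × ℝ) y => f (q.1, y)) (by fun_prop) _ _ (by fun_prop) (by fun_prop)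
  have hH : Continuous (fun x : ℝ => ∫ ρ in s..(2 * s), -(deriv (ww s) ρ) *
      ∫ y in (-ρ)..ρ, f (x, y)) := by
    refine cont_pm (fun (x : ℝ) ρ => -(deriv (ww s) ρ) * ∫ y in (-ρ)..ρ, f (x, y)) ?_ _ _
      continuous_const continuous_const
    exact ((hw'.comp continuous_snd).neg).mul hK
  have e1 : ∫ x in (-(2 * s))..(2 * s), ∫ y in (-(2 * s))..(2 * s), ww s x * ww s y * f (x, y) =
      ∫ x in (-(2 * s))..(2 * s), ww s x * ∫ ρ in s..(2 * s), -(deriv (ww s) ρ) *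
        ∫ y in (-ρ)..ρ, f (x, y) := by
    apply intervalIntegral.integral_congr
    intro x _
    simp only
    rw [← lay hs (fun y => f (x, y)) (by fun_prop), ← intervalIntegral.integral_const_mul]
    apply intervalIntegral.integral_congr
    intro y _
    simp only [mul_assoc]
  rw [e1, lay hs _ hH]
  apply intervalIntegral.integral_congr
  intro ρ₁ _
  simp only
  rw [intervalIntegral_intervalIntegral_swap (F := fun x ρ => -(deriv (ww s) ρ) *
    ∫ y in (-ρ)..ρ, f (x, y)), ← intervalIntegral.integral_const_mul]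
  · apply intervalIntegral.integral_congr
    intro ρ₂ _
    simp only
    rw [intervalIntegral.integral_const_mul]
    ring
  · have hc : Continuous (Function.uncurry fun x ρ => -(deriv (ww s) ρ) *
        ∫ y in (-ρ)..ρ, f (x, y)) := ((hw'.comp continuous_snd).neg).mul hK
    exact (hc.continuousOn.integrableOn_compact (isCompact_uIcc.prod isCompact_uIcc)).mono_set
      (prod_mono uIoc_subset_uIcc uIoc_subset_uIcc)

/-- the square of the radii. -/
def R2 (s : ℝ) : Set (ℝ × ℝ) := Icc s (2 * s) ×ˢ Icc s (2 * s)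

/-- the square of half side `2 s`. -/
def Q2 (s : ℝ) : Set (ℝ × ℝ) := Metric.closedBall 0 (2 * s)

lemma R2_compact (s : ℝ) : IsCompact (R2 s) := isCompact_Icc.prod isCompact_Icc

lemma Q2_compact (s : ℝ) : IsCompact (Q2 s) := isCompact_closedBall _ _

lemma Q2_eq (s : ℝ) : Q2 s = Icc (-(2 * s)) (2 * s) ×ˢ Icc (-(2 * s)) (2 * s) := by
  unfold Q2
  rw [show (0 : ℝ × ℝ) = ((0 : ℝ), (0 : ℝ)) from rfl, ← closedBall_prod_same, Real.closedBall_eq_Icc]
  simp

lemma cube_eq (s : ℝ) : Metric.closedBall (0 : V4) (2 * s) = Q2 s ×ˢ Q2 s := by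
  unfold Q2
  rw [show (0 : V4) = ((0 : ℝ × ℝ), (0 : ℝ × ℝ)) from rfl, ← closedBall_prod_same]

/-- integrals over the cube. -/
lemma int_cube (f : V4 → ℝ) (hf : Continuous f) (s : ℝ) :
    ∫ p in Metric.closedBall (0 : V4) (2 * s), f p = ∫ τ in Q2 s, ∫ x in Q2 s, f (x, τ) := by
  rw [cube_eq, Measure.volume_eq_prod, setIntegral_prod f
    (hf.continuousOn.integrableOn_compact ((Q2_compact s).prod (Q2_compact s)))]
  apply integral_integral_swap
  rw [Measure.prod_restrict, ← Measure.volume_eq_prod]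
  exact hf.continuousOn.integrableOn_compact ((Q2_compact s).prod (Q2_compact s))

/-- swapping two compact parameter sets. -/
lemma swap2 {A B : Set (ℝ × ℝ)} (hA : IsCompact A) (hB : IsCompact B)
    (f : (ℝ × ℝ) → (ℝ × ℝ) → ℝ) (hf : Continuous (Function.uncurry f)) :
    ∫ x in A, ∫ y in B, f x y = ∫ y in B, ∫ x in A, f x y := by
  apply integral_integral_swap
  rw [Measure.prod_restrict, ← Measure.volume_eq_prod]
  exact hf.continuousOn.integrableOn_compact (hA.prod hB)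

lemma int_inner {A B : Set (ℝ × ℝ)} (hA : IsCompact A) (hB : IsCompact B)
    (f : (ℝ × ℝ) → (ℝ × ℝ) → ℝ) (hf : Continuous (Function.uncurry f)) :
    IntegrableOn (fun y => ∫ x in A, f x y) B := by
  have h : Integrable (Function.uncurry f) ((volume.restrict A).prod (volume.restrict B)) := by
    rw [Measure.prod_restrict, ← Measure.volume_eq_prod]
    exact hf.continuousOn.integrableOn_compact (hA.prod hB)
  exact h.integral_prod_right

lemma int_Q2 (g : ℝ × ℝ → ℝ) (hg : Continuous g) {s : ℝ} (hs : 0 < s) :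
    ∫ x in Q2 s, g x = ∫ x in (-(2 * s))..(2 * s), ∫ y in (-(2 * s))..(2 * s), g (x, y) := by
  rw [Q2_eq, iter_eq g hg (by linarith) (by linarith)]

lemma lay2_le {C : ℝ} (hC : ∀ s : ℝ, 0 < s → ∀ x, |deriv (ww s) x| ≤ C / s) {s : ℝ} (hs : 0 < s)
    (k : V4 → ℝ) (hk : Continuous k) (τ : ℝ × ℝ) :
    |∫ x in Q2 s, ww s x.1 * ww s x.2 * k (x, τ)| ≤
      (C / s) ^ 2 * ∫ ρ in R2 s, |fl k ρ τ| := by
  have hw : Continuous (ww s) := (ww_contDiff s).continuous
  have hw' : Continuous (deriv (ww s)) := (ww_contDiff s).continuous_deriv (by simp)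
  have hfl : Continuous (fun ρ => fl k ρ τ) := (fl_cont k hk).comp (by fun_prop : Continuous
    fun ρ : ℝ × ℝ => (ρ, τ))
  have hint : ∀ g : ℝ × ℝ → ℝ, Continuous g → IntegrableOn g (R2 s) :=
    fun g hg => hg.continuousOn.integrableOn_compact (R2_compact s)
  have e := iter_eq (fun ρ => deriv (ww s) ρ.1 * deriv (ww s) ρ.2 * fl k ρ τ)
      (((hw'.comp continuous_fst).mul (hw'.comp continuous_snd)).mul hfl)
      (by linarith : s ≤ 2 * s) (by linarith : s ≤ 2 * s)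
  rw [int_Q2 _ (by fun_prop) hs, lay2 hs (fun x => k (x, τ)) (by fun_prop)]
  change |∫ ρ₁ in s..(2 * s), ∫ ρ₂ in s..(2 * s), deriv (ww s) ρ₁ * deriv (ww s) ρ₂ *
    fl k (ρ₁, ρ₂) τ| ≤ _
  rw [e]
  change |∫ ρ in R2 s, deriv (ww s) ρ.1 * deriv (ww s) ρ.2 * fl k ρ τ| ≤ _
  rw [← integral_const_mul]
  refine (abs_integral_le_integral_abs).trans ?_
  refine integral_mono
    (hint _ (((hw'.comp continuous_fst).mul (hw'.comp continuous_snd)).mul hfl).abs)
    ((hint _ hfl.abs).const_mul _) ?_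
  intro ρ
  simp only [abs_mul]
  have h1 := hC s hs ρ.1
  have h2 := hC s hs ρ.2
  have h3 : |deriv (ww s) ρ.1| * |deriv (ww s) ρ.2| ≤ (C / s) ^ 2 := by
    rw [pow_two]
    exact mul_le_mul h1 h2 (abs_nonneg _) ((abs_nonneg _).trans h1)
  exact mul_le_mul_of_nonneg_right h3 (abs_nonneg _)

/-! ### the average of the boundary integrals -/

/-- the boundary integral of `h` over the boundary of the rectangle `ρ` at `τ`. -/
def bd (h : V4 → ℝ) (ρ τ : ℝ × ℝ) : ℝ := bdF (fun x => h (x, τ)) (-ρ.1) ρ.1 (-ρ.2) ρ.2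

lemma bd_cont (h : V4 → ℝ) (hh : Continuous h) :
    Continuous (fun q : (ℝ × ℝ) × (ℝ × ℝ) => bd h q.1 q.2) := by
  unfold bd bdF
  refine Continuous.add ?_ ?_
  · exact cont_pm (fun (q : (ℝ × ℝ) × (ℝ × ℝ)) x => h ((x, -q.1.2), q.2) + h ((x, q.1.2), q.2))
      (by fun_prop) _ _ (by fun_prop) (by fun_prop)
  · exact cont_pm (fun (q : (ℝ × ℝ) × (ℝ × ℝ)) y => h ((q.1.1, y), q.2) + h ((-q.1.1, y), q.2))
      (by fun_prop) _ _ (by fun_prop) (by fun_prop)

lemma bdF_nonneg (f : ℝ × ℝ → ℝ) (h0 : ∀ x, 0 ≤ f x) {a1 b1 a2 b2 : ℝ} (h1 : a1 ≤ b1)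
    (h2 : a2 ≤ b2) : 0 ≤ bdF f a1 b1 a2 b2 := by
  unfold bdF
  exact add_nonneg (intervalIntegral.integral_nonneg h1 fun _ _ => add_nonneg (h0 _) (h0 _))
    (intervalIntegral.integral_nonneg h2 fun _ _ => add_nonneg (h0 _) (h0 _))

lemma bdF_mono (f g : ℝ × ℝ → ℝ) (hf : Continuous f) (hg : Continuous g) (h0 : ∀ x, f x ≤ g x)
    {a1 b1 a2 b2 : ℝ} (h1 : a1 ≤ b1) (h2 : a2 ≤ b2) :
    bdF f a1 b1 a2 b2 ≤ bdF g a1 b1 a2 b2 := by
  unfold bdF
  refine add_le_add (intervalIntegral.integral_mono_on h1 ?_ ?_ ?_)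
    (intervalIntegral.integral_mono_on h2 ?_ ?_ ?_)
  · exact (by fun_prop : Continuous fun x => f (x, a2) + f (x, b2)).intervalIntegrable _ _
  · exact (by fun_prop : Continuous fun x => g (x, a2) + g (x, b2)).intervalIntegrable _ _
  · exact fun x _ => add_le_add (h0 _) (h0 _)
  · exact (by fun_prop : Continuous fun y => f (b1, y) + f (a1, y)).intervalIntegrable _ _
  · exact (by fun_prop : Continuous fun y => g (b1, y) + g (a1, y)).intervalIntegrable _ _
  · exact fun x _ => add_le_add (h0 _) (h0 _)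

/-- one side: `∫_{y ∈ [s,2s]} (g y + g (-y)) ≤ ∫_{[-2s,2s]} g`. -/
lemma two_sides {s : ℝ} (hs : 0 < s) (g : ℝ → ℝ) (hg : Continuous g) (h0 : ∀ x, 0 ≤ g x) :
    ∫ y in s..(2 * s), (g (-y) + g y) ≤ ∫ y in (-(2 * s))..(2 * s), g y := by
  have hi : ∀ a b : ℝ, IntervalIntegrable g volume a b := fun a b => hg.intervalIntegrable a b
  have hi2 : IntervalIntegrable (fun y => g (-y)) volume s (2 * s) :=
    (hg.comp continuous_neg).intervalIntegrable _ _
  have e1 : ∫ x in (-(2 * s))..(2 * s), g x =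
      (∫ x in (-(2 * s))..(-s), g x) + (∫ x in (-s)..s, g x) + ∫ x in s..(2 * s), g x := by
    rw [intervalIntegral.integral_add_adjacent_intervals (hi _ _) (hi _ _),
      intervalIntegral.integral_add_adjacent_intervals (hi _ _) (hi _ _)]
  rw [intervalIntegral.integral_add hi2 (hi _ _), intervalIntegral.integral_comp_neg (fun y => g y),
    e1]
  have h1 : 0 ≤ ∫ x in (-s)..s, g x :=
    intervalIntegral.integral_nonneg (by linarith) fun x _ => h0 x
  linarith

lemma avg2 {s : ℝ} (hs : 0 < s) (f : ℝ × ℝ → ℝ) (hf : Continuous f) (h0 : ∀ x, 0 ≤ f x) :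
    ∫ ρ in R2 s, bdF f (-ρ.1) ρ.1 (-ρ.2) ρ.2 ≤ 2 * s * ∫ x in Q2 s, f x := by
  have hs2 : s ≤ 2 * s := by linarith
  have hss : -(2 * s) ≤ 2 * s := by linarith
  -- the enlarged boundary integral
  have hA : Continuous (fun ρ : ℝ × ℝ => ∫ x in (-(2 * s))..(2 * s), (f (x, -ρ.2) + f (x, ρ.2))) :=
    cont_pm (fun (ρ : ℝ × ℝ) x => f (x, -ρ.2) + f (x, ρ.2)) (by fun_prop) _ _ (by fun_prop)
      (by fun_prop)
  have hB : Continuous (fun ρ : ℝ × ℝ => ∫ y in (-(2 * s))..(2 * s), (f (ρ.1, y) + f (-ρ.1, y))) :=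
    cont_pm (fun (ρ : ℝ × ℝ) y => f (ρ.1, y) + f (-ρ.1, y)) (by fun_prop) _ _ (by fun_prop)
      (by fun_prop)
  have hint : ∀ g : ℝ × ℝ → ℝ, Continuous g → IntegrableOn g (R2 s) :=
    fun g hg => hg.continuousOn.integrableOn_compact (R2_compact s)
  have hbd : Continuous (fun ρ : ℝ × ℝ => bdF f (-ρ.1) ρ.1 (-ρ.2) ρ.2) :=
    (bd_cont (fun p => f p.1) (by fun_prop)).comp (by fun_prop :
      Continuous fun ρ : ℝ × ℝ => (ρ, ((0 : ℝ), (0 : ℝ))))
  have step1 : ∫ ρ in R2 s, bdF f (-ρ.1) ρ.1 (-ρ.2) ρ.2 ≤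
      ∫ ρ in R2 s, ((∫ x in (-(2 * s))..(2 * s), (f (x, -ρ.2) + f (x, ρ.2))) +
        ∫ y in (-(2 * s))..(2 * s), (f (ρ.1, y) + f (-ρ.1, y))) := by
    refine setIntegral_mono_on (hint _ hbd) (hint _ (hA.add hB))
      (R2_compact s).isClosed.measurableSet ?_
    rintro ρ ⟨⟨h1, h2⟩, ⟨h3, h4⟩⟩
    unfold bdF
    refine add_le_add ?_ ?_
    · refine intervalIntegral.integral_mono_interval (by linarith) (by linarith) h2
        (ae_of_all _ fun x => add_nonneg (h0 _) (h0 _)) ?_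
      exact (by fun_prop : Continuous fun x => f (x, -ρ.2) + f (x, ρ.2)).intervalIntegrable _ _
    · refine intervalIntegral.integral_mono_interval (by linarith) (by linarith) h4
        (ae_of_all _ fun x => add_nonneg (h0 _) (h0 _)) ?_
      exact (by fun_prop : Continuous fun y => f (ρ.1, y) + f (-ρ.1, y)).intervalIntegrable _ _
  refine step1.trans ?_
  rw [integral_add (hint _ hA) (hint _ hB)]
  have eA : ∫ ρ in R2 s, (∫ x in (-(2 * s))..(2 * s), (f (x, -ρ.2) + f (x, ρ.2))) ≤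
      s * ∫ x in Q2 s, f x := by
    have e := iter_eq (fun ρ => ∫ x in (-(2 * s))..(2 * s), (f (x, -ρ.2) + f (x, ρ.2))) hA hs2 hs2
    rw [show R2 s = Icc s (2 * s) ×ˢ Icc s (2 * s) from rfl, ← e]
    simp only [intervalIntegral.integral_const, smul_eq_mul]
    rw [show 2 * s - s = s by ring]
    refine mul_le_mul_of_nonneg_left ?_ hs.le
    rw [intervalIntegral_intervalIntegral_swap (F := fun ρ x => f (x, -ρ) + f (x, ρ)) (by
      have hc : Continuous (Function.uncurry fun ρ x => f (x, -ρ) + f (x, ρ)) := by fun_prop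
      exact (hc.continuousOn.integrableOn_compact (isCompact_uIcc.prod isCompact_uIcc)).mono_set
        (prod_mono uIoc_subset_uIcc uIoc_subset_uIcc)), int_Q2 f hf hs]
    refine intervalIntegral.integral_mono_on hss ?_ ?_ ?_
    · exact (cont_pm (fun x ρ => f (x, -ρ) + f (x, ρ)) (by fun_prop) _ _ continuous_const
        continuous_const).intervalIntegrable _ _
    · exact (cont_pm (fun x ρ => f (x, ρ)) (by fun_prop) _ _ continuous_const
        continuous_const).intervalIntegrable _ _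
    · exact fun x _ => two_sides hs (fun y => f (x, y)) (by fun_prop) fun _ => h0 _
  have eB : ∫ ρ in R2 s, (∫ y in (-(2 * s))..(2 * s), (f (ρ.1, y) + f (-ρ.1, y))) ≤
      s * ∫ x in Q2 s, f x := by
    have e := iter_eq (fun ρ => ∫ y in (-(2 * s))..(2 * s), (f (ρ.1, y) + f (-ρ.1, y))) hB hs2 hs2
    rw [show R2 s = Icc s (2 * s) ×ˢ Icc s (2 * s) from rfl, ← e]
    simp only [intervalIntegral.integral_const, smul_eq_mul]
    rw [intervalIntegral.integral_const_mul, show 2 * s - s = s by ring]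
    refine mul_le_mul_of_nonneg_left ?_ hs.le
    rw [intervalIntegral_intervalIntegral_swap (F := fun ρ y => f (ρ, y) + f (-ρ, y)) (by
      have hc : Continuous (Function.uncurry fun ρ y => f (ρ, y) + f (-ρ, y)) := by fun_prop
      exact (hc.continuousOn.integrableOn_compact (isCompact_uIcc.prod isCompact_uIcc)).mono_set
        (prod_mono uIoc_subset_uIcc uIoc_subset_uIcc)), int_Q2 f hf hs,
      intervalIntegral_intervalIntegral_swap (F := fun x y => f (x, y)) (by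
      have hc : Continuous (Function.uncurry fun x y => f (x, y)) := by fun_prop
      exact (hc.continuousOn.integrableOn_compact (isCompact_uIcc.prod isCompact_uIcc)).mono_set
        (prod_mono uIoc_subset_uIcc uIoc_subset_uIcc))]
    refine intervalIntegral.integral_mono_on hss ?_ ?_ ?_
    · exact (cont_pm (fun y ρ => f (ρ, y) + f (-ρ, y)) (by fun_prop) _ _ continuous_const
        continuous_const).intervalIntegrable _ _
    · exact (cont_pm (fun y ρ => f (ρ, y)) (by fun_prop) _ _ continuous_const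
        continuous_const).intervalIntegrable _ _
    · intro y _
      have h := two_sides hs (fun x => f (x, y)) (by fun_prop) fun _ => h0 _
      refine le_trans (le_of_eq ?_) h
      apply intervalIntegral.integral_congr
      intro ρ _
      simp only
      ring
  linarith

lemma avg4 {s : ℝ} (hs : 0 < s) (h : V4 → ℝ) (hc : Continuous h) (h0 : ∀ x, 0 ≤ h x) :
    ∫ ρ in R2 s, ∫ τ in Q2 s, bd h ρ τ ≤
      2 * s * ∫ p in Metric.closedBall (0 : V4) (2 * s), h p := by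
  rw [swap2 (R2_compact s) (Q2_compact s) (fun ρ τ => bd h ρ τ) (bd_cont h hc), int_cube h hc,
    ← integral_const_mul]
  have hbc := bd_cont h hc
  refine setIntegral_mono_on ?_ ?_ (Q2_compact s).isClosed.measurableSet ?_
  · exact int_inner (R2_compact s) (Q2_compact s) (fun ρ τ => bd h ρ τ) hbc
  · exact (int_inner (Q2_compact s) (Q2_compact s) (fun x τ => h (x, τ)) (by fun_prop)).const_mul _
  · exact fun τ _ => avg2 hs (fun x => h (x, τ)) (by fun_prop) fun _ => h0 _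

/-! ### restriction to the slices -/

/-- the restriction of `α` to the slice at `τ`. -/
def sα (α : V4 → ℂ) (τ x : ℝ × ℝ) : ℂ := α (x, τ)

/-- the restriction of `A` to the slice at `τ`. -/
def sA (A : V4 → V4 →L[ℝ] ℝ) (τ x : ℝ × ℝ) : ℝ × ℝ →L[ℝ] ℝ :=
  (A (x, τ)).comp (ContinuousLinearMap.inl ℝ (ℝ × ℝ) (ℝ × ℝ))

lemma sα_contDiff {α : V4 → ℂ} (hα : ContDiff ℝ ∞ α) (τ : ℝ × ℝ) : ContDiff ℝ ∞ (sα α τ) :=
  hα.comp (contDiff_id.prodMk contDiff_const)

lemma sA_contDiff {A : V4 → V4 →L[ℝ] ℝ} (hA : ContDiff ℝ ∞ A) (τ : ℝ × ℝ) :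
    ContDiff ℝ ∞ (sA A τ) :=
  (hA.comp (contDiff_id.prodMk contDiff_const)).clm_comp contDiff_const

lemma sα_fderiv {α : V4 → ℂ} (hα : ContDiff ℝ ∞ α) (τ x : ℝ × ℝ) :
    fderiv ℝ (sα α τ) x =
      (fderiv ℝ α (x, τ)).comp (ContinuousLinearMap.inl ℝ (ℝ × ℝ) (ℝ × ℝ)) :=
  (((hα.differentiable (by simp)) (x, τ)).hasFDerivAt.comp x
    (hasFDerivAt_prodMk_left x τ)).fderiv

lemma sA_fderiv {A : V4 → V4 →L[ℝ] ℝ} (hA : ContDiff ℝ ∞ A) (τ x u v : ℝ × ℝ) :
    fderiv ℝ (sA A τ) x u v = fderiv ℝ A (x, τ) (u, 0) (v, 0) := by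
  have h1 : HasFDerivAt (fun x : ℝ × ℝ => A (x, τ))
      ((fderiv ℝ A (x, τ)).comp (ContinuousLinearMap.inl ℝ (ℝ × ℝ) (ℝ × ℝ))) x :=
    ((hA.differentiable (by simp)) (x, τ)).hasFDerivAt.comp x (hasFDerivAt_prodMk_left x τ)
  have h2 := h1.clm_comp (hasFDerivAt_const (ContinuousLinearMap.inl ℝ (ℝ × ℝ) (ℝ × ℝ)) x)
  have h3 : fderiv ℝ (sA A τ) x = _ := h2.fderiv
  rw [h3]
  simp

lemma s_eta {α : V4 → ℂ} {A : V4 → V4 →L[ℝ] ℝ} (hα : ContDiff ℝ ∞ α) (τ x : ℝ × ℝ) :
    eta (sα α τ) (sA A τ) x =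
      (eta α A (x, τ)).comp (ContinuousLinearMap.inl ℝ (ℝ × ℝ) (ℝ × ℝ)) := by
  unfold eta
  rw [sα_fderiv hα]
  ext <;> simp [sα, sA]

lemma s_psi {α : V4 → ℂ} {A : V4 → V4 →L[ℝ] ℝ} (hα : ContDiff ℝ ∞ α) (hA : ContDiff ℝ ∞ A)
    (τ x u v : ℝ × ℝ) :
    psi (sα α τ) (sA A τ) x u v = psi α A (x, τ) (u, 0) (v, 0) := by
  unfold psi dd wdg
  rw [s_eta hα]
  simp [sA_fderiv hA, sα]

lemma s_en {α : V4 → ℂ} {A : V4 → V4 →L[ℝ] ℝ} (hα : ContDiff ℝ ∞ α) (r : ℝ) (τ x : ℝ × ℝ) :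
    en r (sα α τ) (sA A τ) x ≤ en r α A (x, τ) := by
  unfold en
  rw [s_eta hα]
  have h1 : ‖(eta α A (x, τ)).comp (ContinuousLinearMap.inl ℝ (ℝ × ℝ) (ℝ × ℝ))‖ ≤
      ‖eta α A (x, τ)‖ := by
    refine ((eta α A (x, τ)).opNorm_comp_le _).trans ?_
    exact mul_le_of_le_one_right (norm_nonneg _) (ContinuousLinearMap.norm_inl_le_one ℝ _ _)
  have h2 : ‖(eta α A (x, τ)).comp (ContinuousLinearMap.inl ℝ (ℝ × ℝ) (ℝ × ℝ))‖ ^ 2 ≤
      ‖eta α A (x, τ)‖ ^ 2 := pow_le_pow_left₀ (norm_nonneg _) h1 2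
  have h3 : sα α τ x = α (x, τ) := rfl
  rw [h3]
  linarith

lemma eta_cont {V : Type} [NormedAddCommGroup V] [NormedSpace ℝ V] {α : V → ℂ}
    {A : V → V →L[ℝ] ℝ} (hα : ContDiff ℝ ∞ α) (hA : ContDiff ℝ ∞ A) : Continuous (eta α A) := by
  unfold eta
  have h1 : Continuous (fderiv ℝ α) := hα.continuous_fderiv (by simp)
  have h2 : Continuous A := hA.continuous
  have h3 : Continuous α := hα.continuous
  exact h1.sub (((ContinuousLinearMap.smulRightL ℝ V ℂ).continuous.comp h2).clm_apply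
    (continuous_const.mul h3))

lemma psi_cont {V : Type} [NormedAddCommGroup V] [NormedSpace ℝ V] {α : V → ℂ}
    {A : V → V →L[ℝ] ℝ} (hα : ContDiff ℝ ∞ α) (hA : ContDiff ℝ ∞ A) : Continuous (psi α A) := by
  have h0 := eta_cont hα hA
  have h1 : Continuous (fderiv ℝ A) := hA.continuous_fderiv (by simp)
  have h3 : Continuous α := hα.continuous
  have h4 : Continuous fun p => Complex.reCLM.comp (eta α A p) := continuous_const.clm_comp h0
  have h5 : Continuous fun p => Complex.imCLM.comp (eta α A p) := continuous_const.clm_comp h0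
  have hsm : ∀ a b : V → V →L[ℝ] ℝ, Continuous a → Continuous b →
      Continuous fun p => (a p).smulRight (b p) := fun a b ha hb =>
    ((ContinuousLinearMap.smulRightL ℝ V (V →L[ℝ] ℝ)).continuous.comp ha).clm_apply hb
  have h6 : Continuous fun p => (fderiv ℝ A p).flip :=
    (ContinuousLinearMap.flipₗᵢ ℝ V V ℝ).continuous.comp h1
  unfold psi dd wdg
  exact ((continuous_const.sub (h3.norm.pow 2)).smul (h1.sub h6)).add
    (((hsm _ _ h4 h5).sub (hsm _ _ h5 h4)).const_smul (2 : ℝ))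

lemma en_cont {V : Type} [NormedAddCommGroup V] [NormedSpace ℝ V] {α : V → ℂ}
    {A : V → V →L[ℝ] ℝ} (hα : ContDiff ℝ ∞ α) (hA : ContDiff ℝ ∞ A) (r : ℝ) :
    Continuous (en r α A) := by
  have h0 := eta_cont hα hA
  have h3 : Continuous α := hα.continuous
  unfold en
  fun_prop

lemma en_nonneg {V : Type} [NormedAddCommGroup V] [NormedSpace ℝ V] {α : V → ℂ}
    {A : V → V →L[ℝ] ℝ} {r : ℝ} (hr : 0 ≤ r) (p : V) : 0 ≤ en r α A p := by
  unfold en
  positivity

/-! ### the cut-off in `τ` -/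

/-- the cut-off in `τ`. -/
def ch (s : ℝ) (τ : ℝ × ℝ) : ℝ := hh (τ.1 / s) * hh (τ.2 / s)

lemma ch_contDiff (s : ℝ) : ContDiff ℝ ∞ (ch s) := by
  unfold ch
  exact (hh_contDiff.comp (contDiff_fst.div_const s)).mul
    (hh_contDiff.comp (contDiff_snd.div_const s))

lemma ch_nonneg (s : ℝ) (τ : ℝ × ℝ) : 0 ≤ ch s τ := mul_nonneg (hh_nonneg _) (hh_nonneg _)

lemma ch_le_one (s : ℝ) (τ : ℝ × ℝ) : ch s τ ≤ 1 :=
  mul_le_one₀ (hh_le_one _) (hh_nonneg _) (hh_le_one _)

lemma ch_sq_le (s : ℝ) (τ : ℝ × ℝ) : ch s τ ^ 2 ≤ 1 := pow_le_one₀ (ch_nonneg _ _) (ch_le_one _ _)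

lemma ch_zero {s : ℝ} (hs : 0 < s) {τ : ℝ × ℝ} (h : τ ∉ Q2 s) : ch s τ = 0 := by
  unfold Q2 at h
  rw [mem_closedBall_zero_iff, Prod.norm_def, max_le_iff, not_and_or, not_le, not_le,
    Real.norm_eq_abs, Real.norm_eq_abs] at h
  unfold ch
  rcases h with h | h
  · rw [hh_zero, zero_mul]
    rw [abs_div, abs_of_pos hs, le_div_iff₀ hs]
    exact h.le
  · rw [hh_zero (x := τ.2 / s), mul_zero]
    rw [abs_div, abs_of_pos hs, le_div_iff₀ hs]
    exact h.le

lemma ch_compact {s : ℝ} (hs : 0 < s) : HasCompactSupport (ch s) :=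
  HasCompactSupport.intro (Q2_compact s) fun _ h => ch_zero hs h

lemma exists_ch : ∃ C : ℝ, 0 < C ∧ ∀ s : ℝ, 0 < s → ∀ τ, ‖fderiv ℝ (ch s) τ‖ ≤ C / s := by
  have hc : Continuous (fderiv ℝ (ch 1)) := (ch_contDiff 1).continuous_fderiv (by simp)
  obtain ⟨C, hC⟩ := ((ch_compact one_pos).fderiv (𝕜 := ℝ)).exists_bound_of_continuous hc
  refine ⟨max C 1, lt_max_of_lt_right one_pos, fun s hs τ => ?_⟩
  have h1 : ch s = fun τ => ch 1 (s⁻¹ • τ) := by
    ext τ
    simp only [ch, Prod.smul_fst, Prod.smul_snd, smul_eq_mul, div_one]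
    rw [div_eq_inv_mul, div_eq_inv_mul]
  have h2 : HasFDerivAt (fun τ : ℝ × ℝ => s⁻¹ • τ) (s⁻¹ • ContinuousLinearMap.id ℝ (ℝ × ℝ)) τ :=
    (hasFDerivAt_id τ).const_smul s⁻¹
  have h3 : HasFDerivAt (ch s) ((fderiv ℝ (ch 1) (s⁻¹ • τ)).comp
      (s⁻¹ • ContinuousLinearMap.id ℝ (ℝ × ℝ))) τ := by
    rw [h1]
    exact (((ch_contDiff 1).differentiable (by simp)) (s⁻¹ • τ)).hasFDerivAt.comp τ h2
  rw [h3.fderiv, ContinuousLinearMap.comp_smul, ContinuousLinearMap.comp_id, norm_smul,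
    Real.norm_eq_abs, abs_of_pos (inv_pos.2 hs), div_eq_inv_mul]
  exact mul_le_mul_of_nonneg_left ((hC _).trans (le_max_left _ _)) (inv_pos.2 hs).le

lemma tf_eq (s : ℝ) (x τ : ℝ × ℝ) : tf s (x, τ) = ch s τ ^ 2 * (ww s x.1 * ww s x.2) := by
  unfold tf ch ww
  ring

/-! ### the left hand side -/

lemma lhs_le {C : ℝ} (hC : ∀ s : ℝ, 0 < s → ∀ x, |deriv (ww s) x| ≤ C / s) {s : ℝ} (hs : 0 < s)
    (k : V4 → ℝ) (hk : Continuous k) :
    |∫ p, tf s p * k p| ≤ (C / s) ^ 2 * ∫ ρ in R2 s, ∫ τ in Q2 s, ch s τ ^ 2 * |fl k ρ τ| := by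
  have hch : Continuous (ch s) := (ch_contDiff s).continuous
  have hw : Continuous (ww s) := (ww_contDiff s).continuous
  have htf : Continuous (tf s) := by
    have : tf s = fun p : V4 => ch s p.2 ^ 2 * (ww s p.1.1 * ww s p.1.2) := by
      ext p
      exact tf_eq s p.1 p.2
    rw [this]
    fun_prop
  have h0 : ∀ p : V4, p ∉ Metric.closedBall (0 : V4) (2 * s) → tf s p * k p = 0 := by
    intro p hp
    have : tf s p = 0 := by
      rw [cube_eq, mem_prod, not_and_or] at hp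
      have h1 : tf s p = ch s p.2 ^ 2 * ch s p.1 ^ 2 := by
        unfold tf ch
        ring
      rw [h1]
      rcases hp with hp | hp
      · rw [ch_zero hs hp]; ring
      · rw [ch_zero hs hp]; ring
    rw [this, zero_mul]
  rw [← setIntegral_eq_integral_of_forall_compl_eq_zero h0,
    int_cube (fun p => tf s p * k p) (htf.mul hk)]
  have hflc := fl_cont k hk
  have e1 : ∀ τ, ∫ x in Q2 s, tf s (x, τ) * k (x, τ) =
      ch s τ ^ 2 * ∫ x in Q2 s, ww s x.1 * ww s x.2 * k (x, τ) := by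
    intro τ
    rw [← integral_const_mul]
    apply integral_congr_ae
    refine Eventually.of_forall fun x => ?_
    simp only [tf_eq]
    ring
  simp_rw [e1]
  rw [swap2 (R2_compact s) (Q2_compact s) (fun ρ τ => ch s τ ^ 2 * |fl k ρ τ|) (by fun_prop),
    ← integral_const_mul]
  refine (abs_integral_le_integral_abs).trans ?_
  have hin : IntegrableOn (fun τ => ∫ x in Q2 s, ww s x.1 * ww s x.2 * k (x, τ)) (Q2 s) :=
    int_inner (Q2_compact s) (Q2_compact s) (fun x τ => ww s x.1 * ww s x.2 * k (x, τ))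
      (by fun_prop)
  refine setIntegral_mono_on ?_ ?_ (Q2_compact s).isClosed.measurableSet ?_
  · refine Integrable.abs ?_
    exact hin.bdd_mul (c := 1) (hch.pow 2).aestronglyMeasurable (ae_of_all _ fun τ => by
      rw [Real.norm_eq_abs, abs_of_nonneg (sq_nonneg _)]
      exact ch_sq_le s τ)
  · exact (int_inner (R2_compact s) (Q2_compact s) (fun ρ τ => ch s τ ^ 2 * |fl k ρ τ|)
      (by fun_prop)).const_mul _
  · intro τ _
    rw [abs_mul, abs_of_nonneg (sq_nonneg _), integral_const_mul, mul_left_comm]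
    exact mul_le_mul_of_nonneg_left (lay2_le hC hs k hk τ) (sq_nonneg _)

/-! ### the estimates for one rectangle -/

lemma fl_le {k κ : V4 → ℝ} (hk : Continuous k) (hκ : Continuous κ) (h : ∀ p, |k p| ≤ κ p) {s : ℝ}
    {ρ : ℝ × ℝ} (hs : 0 < s) (hρ : ρ ∈ R2 s) (τ : ℝ × ℝ) :
    |fl k ρ τ| ≤ ∫ x in Q2 s, κ (x, τ) := by
  obtain ⟨⟨h1, h2⟩, ⟨h3, h4⟩⟩ := hρ
  unfold fl
  rw [iter_eq (fun x => k (x, τ)) (by fun_prop) (by linarith : -ρ.1 ≤ ρ.1)
    (by linarith : -ρ.2 ≤ ρ.2)]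
  refine (abs_integral_le_integral_abs).trans ?_
  have hsub : Icc (-ρ.1) ρ.1 ×ˢ Icc (-ρ.2) ρ.2 ⊆ Q2 s := by
    rw [Q2_eq]
    exact prod_mono (Icc_subset_Icc (by linarith) h2) (Icc_subset_Icc (by linarith) h4)
  have hκi : IntegrableOn (fun x => κ (x, τ)) (Q2 s) :=
    (by fun_prop : Continuous fun x => κ (x, τ)).continuousOn.integrableOn_compact (Q2_compact s)
  have hki : IntegrableOn (fun x => |k (x, τ)|) (Icc (-ρ.1) ρ.1 ×ˢ Icc (-ρ.2) ρ.2) :=
    (by fun_prop : Continuous fun x => |k (x, τ)|).continuousOn.integrableOn_compact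
      (isCompact_Icc.prod isCompact_Icc)
  refine (integral_mono hki (hκi.mono_set hsub) fun x => h _).trans ?_
  refine setIntegral_mono_set hκi (ae_of_all _ fun x => ?_) hsub.eventuallyLE
  exact (abs_nonneg _).trans (h _)

lemma int_fl_le {k κ : V4 → ℝ} (hk : Continuous k) (hκ : Continuous κ) (h : ∀ p, |k p| ≤ κ p)
    {s : ℝ} {ρ : ℝ × ℝ} (hs : 0 < s) (hρ : ρ ∈ R2 s) :
    ∫ τ in Q2 s, |fl k ρ τ| ≤ ∫ p in Metric.closedBall (0 : V4) (2 * s), κ p := by
  rw [int_cube κ hκ]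
  have hfl : Continuous (fun τ => fl k ρ τ) := (fl_cont k hk).comp (by fun_prop : Continuous
    fun τ : ℝ × ℝ => (ρ, τ))
  refine setIntegral_mono_on ?_ ?_ (Q2_compact s).isClosed.measurableSet ?_
  · exact hfl.abs.continuousOn.integrableOn_compact (Q2_compact s)
  · exact int_inner (Q2_compact s) (Q2_compact s) (fun x τ => κ (x, τ)) (by fun_prop)
  · exact fun τ _ => fl_le hk hκ h hs hρ τ

lemma J_le {k κ : V4 → ℝ} (hk : Continuous k) (hκ : Continuous κ) (h : ∀ p, |k p| ≤ κ p)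
    {s : ℝ} {ρ : ℝ × ℝ} (hs : 0 < s) (hρ : ρ ∈ R2 s) :
    ∫ τ in Q2 s, ch s τ ^ 2 * |fl k ρ τ| ≤ ∫ p in Metric.closedBall (0 : V4) (2 * s), κ p := by
  refine le_trans ?_ (int_fl_le hk hκ h hs hρ)
  have hch : Continuous (ch s) := (ch_contDiff s).continuous
  have hfl : Continuous (fun τ => fl k ρ τ) := (fl_cont k hk).comp (by fun_prop : Continuous
    fun τ : ℝ × ℝ => (ρ, τ))
  refine integral_mono ?_ ?_ fun τ => ?_
  · exact (by fun_prop : Continuous fun τ => ch s τ ^ 2 * |fl k ρ τ|).continuousOn.integrableOn_compact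
      (Q2_compact s)
  · exact hfl.abs.continuousOn.integrableOn_compact (Q2_compact s)
  · exact mul_le_of_le_one_left (abs_nonneg _) (ch_sq_le s τ)

lemma norm_b0 : ‖b0‖ = 1 := by
  simp [b0, Prod.norm_def]

lemma norm_b1 : ‖b1‖ = 1 := by
  simp [b1, Prod.norm_def]

lemma abs_b_le (T : V4 →L[ℝ] V4 →L[ℝ] ℝ) : |T b0 b1| ≤ ‖T‖ := by
  have h := T.le_opNorm₂ b0 b1
  rwa [norm_b0, norm_b1, mul_one, mul_one] at h

lemma gns_part {CG Cx : ℝ} (hCG : 0 < CG)
    (hG : ∀ g : ℝ × ℝ → ℝ, ContDiff ℝ 1 g → HasCompactSupport g →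
      ∫ p, g p ^ 2 ≤ CG * (∫ p, ‖fderiv ℝ g p‖) ^ 2)
    (hx : ∀ s : ℝ, 0 < s → ∀ τ, ‖fderiv ℝ (ch s) τ‖ ≤ Cx / s)
    {k κ : V4 → ℝ} (hk : Continuous k) (hκ : Continuous κ) (hle : ∀ p, |k p| ≤ κ p) {s : ℝ}
    {ρ : ℝ × ℝ} (hs : 0 < s) (hρ : ρ ∈ R2 s) (hF1 : ContDiff ℝ 1 (fl k ρ))
    (hF2 : ∀ τ, ‖fderiv ℝ (fl k ρ) τ‖ ≤ 2 * bd κ ρ τ) :
    ∫ τ in Q2 s, ch s τ ^ 2 * |fl k ρ τ| ^ 2 ≤
      CG * (2 * (∫ τ in Q2 s, bd κ ρ τ) +
        Cx / s * ∫ p in Metric.closedBall (0 : V4) (2 * s), κ p) ^ 2 := by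
  have hCx : 0 ≤ Cx / s := (norm_nonneg _).trans (hx s hs 0)
  have hchs : ContDiff ℝ 1 (ch s) := (ch_contDiff s).of_le (by simp)
  have hg1 : ContDiff ℝ 1 (fun τ => ch s τ * fl k ρ τ) := hchs.mul hF1
  have hg2 : HasCompactSupport (fun τ => ch s τ * fl k ρ τ) := (ch_compact hs).mul_right
  have hg3 := hG _ hg1 hg2
  have e1 : ∫ p, (ch s p * fl k ρ p) ^ 2 = ∫ τ in Q2 s, ch s τ ^ 2 * |fl k ρ τ| ^ 2 := by
    rw [← setIntegral_eq_integral_of_forall_compl_eq_zero (s := Q2 s)]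
    · apply integral_congr_ae
      refine Eventually.of_forall fun τ => ?_
      simp only [sq_abs, mul_pow]
    · intro τ hτ
      rw [ch_zero hs hτ, zero_mul]
      norm_num
  have hz : ∀ τ, τ ∉ Q2 s → ‖fderiv ℝ (fun τ => ch s τ * fl k ρ τ) τ‖ = 0 := by
    intro τ hτ
    have h5 : τ ∉ tsupport (fun τ => ch s τ * fl k ρ τ) := by
      intro h6
      apply hτ
      refine (closure_minimal ?_ (Q2_compact s).isClosed) h6
      intro τ' hτ'
      by_contra h7
      exact hτ' (by simp only [ch_zero hs h7, zero_mul])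
    have h6 : fderiv ℝ (fun τ => ch s τ * fl k ρ τ) τ = 0 := by
      by_contra h7
      exact h5 (support_fderiv_subset ℝ h7)
    rw [h6, norm_zero]
  have e2 : ∫ p, ‖fderiv ℝ (fun τ => ch s τ * fl k ρ τ) p‖ =
      ∫ τ in Q2 s, ‖fderiv ℝ (fun τ => ch s τ * fl k ρ τ) τ‖ :=
    (setIntegral_eq_integral_of_forall_compl_eq_zero hz).symm
  have hbd : Continuous fun τ => bd κ ρ τ :=
    (bd_cont _ hκ).comp (by fun_prop : Continuous fun τ : ℝ × ℝ => (ρ, τ))
  have hflc : Continuous (fun τ => fl k ρ τ) := (fl_cont k hk).comp (by fun_prop : Continuous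
    fun τ : ℝ × ℝ => (ρ, τ))
  have hint : ∀ f : ℝ × ℝ → ℝ, Continuous f → IntegrableOn f (Q2 s) :=
    fun f hf => hf.continuousOn.integrableOn_compact (Q2_compact s)
  have e3 : ∫ τ in Q2 s, ‖fderiv ℝ (fun τ => ch s τ * fl k ρ τ) τ‖ ≤
      ∫ τ in Q2 s, (2 * bd κ ρ τ + Cx / s * |fl k ρ τ|) := by
    refine integral_mono (hint _ (hg1.continuous_fderiv (by norm_num)).norm)
      (hint _ ((continuous_const.mul hbd).add (continuous_const.mul hflc.abs))) ?_
    intro τ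
    have h5 : fderiv ℝ (fun τ => ch s τ * fl k ρ τ) τ =
        ch s τ • fderiv ℝ (fl k ρ) τ + fl k ρ τ • fderiv ℝ (ch s) τ :=
      fderiv_fun_mul ((hchs.differentiable (by norm_num)) τ) ((hF1.differentiable (by norm_num)) τ)
    show ‖fderiv ℝ (fun τ => ch s τ * fl k ρ τ) τ‖ ≤ _
    rw [h5]
    refine (norm_add_le _ _).trans (add_le_add ?_ ?_)
    · rw [norm_smul, Real.norm_eq_abs, abs_of_nonneg (ch_nonneg _ _)]
      exact (mul_le_of_le_one_left (norm_nonneg _) (ch_le_one _ _)).trans (hF2 τ)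
    · rw [norm_smul, Real.norm_eq_abs, mul_comm]
      exact mul_le_mul_of_nonneg_right (hx s hs τ) (abs_nonneg _)
  have e4 : ∫ τ in Q2 s, (2 * bd κ ρ τ + Cx / s * |fl k ρ τ|) ≤
      2 * (∫ τ in Q2 s, bd κ ρ τ) +
        Cx / s * ∫ p in Metric.closedBall (0 : V4) (2 * s), κ p := by
    have hi1 : IntegrableOn (fun τ => 2 * bd κ ρ τ) (Q2 s) := hint _ (continuous_const.mul hbd)
    have hi2 : IntegrableOn (fun τ => Cx / s * |fl k ρ τ|) (Q2 s) :=
      hint _ (continuous_const.mul hflc.abs)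
    rw [integral_add hi1 hi2, integral_const_mul, integral_const_mul]
    have h5 := mul_le_mul_of_nonneg_left (int_fl_le hk hκ hle hs hρ) hCx
    linarith
  rw [← e1]
  refine hg3.trans ?_
  rw [e2]
  have h6 : 0 ≤ ∫ τ in Q2 s, ‖fderiv ℝ (fun τ => ch s τ * fl k ρ τ) τ‖ :=
    integral_nonneg fun _ => norm_nonneg _
  exact mul_le_mul_of_nonneg_left (pow_le_pow_left₀ h6 (e3.trans e4) 2) hCG.le

lemma near_part {CN : ℝ} (hCN : 0 < CN)
    (hN : ∀ (α : ℝ × ℝ → ℂ) (A : ℝ × ℝ → ℝ × ℝ →L[ℝ] ℝ) (r : ℝ),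
      ContDiff ℝ ∞ α → ContDiff ℝ ∞ A → 0 < r → ∀ a1 b1 a2 b2 : ℝ, a1 < b1 → a2 < b2 →
      1 ≤ r * (b1 - a1) ^ 2 → 1 ≤ r * (b2 - a2) ^ 2 →
      |∫ x in a1..b1, ∫ y in a2..b2, psi α A (x, y) (1, 0) (0, 1)| ≤
        CN * ((∫ x in a1..b1, ∫ y in a2..b2, psi α A (x, y) (1, 0) (0, 1)) ^ 2 +
          bdF (en r α A) a1 b1 a2 b2 / √r))
    {α : V4 → ℂ} {A : V4 → V4 →L[ℝ] ℝ} (hα : ContDiff ℝ ∞ α) (hA : ContDiff ℝ ∞ A) {r s : ℝ}
    (hr : 0 < r) (hs : 0 < s) (hrs : 1 ≤ r * s ^ 2) {ρ : ℝ × ℝ} (hρ : ρ ∈ R2 s) (τ : ℝ × ℝ) :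
    |fl (fun p => psi α A p b0 b1) ρ τ| ≤
      CN * (|fl (fun p => psi α A p b0 b1) ρ τ| ^ 2 + bd (en r α A) ρ τ / √r) := by
  obtain ⟨⟨h1, h2⟩, ⟨h3, h4⟩⟩ := id hρ
  have key : ∀ a b : ℝ, s ≤ a → b = 2 * a → 1 ≤ r * b ^ 2 := by
    intro a b ha hb
    rw [hb]
    have : s ^ 2 ≤ (2 * a) ^ 2 := pow_le_pow_left₀ hs.le (by linarith) 2
    nlinarith
  have h5 := hN (sα α τ) (sA A τ) r (sα_contDiff hα τ) (sA_contDiff hA τ) hr (-ρ.1) ρ.1 (-ρ.2) ρ.2
    (by linarith) (by linarith) (key ρ.1 _ h1 (by ring)) (key ρ.2 _ h3 (by ring))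
  have e1 : ∫ x in (-ρ.1)..ρ.1, ∫ y in (-ρ.2)..ρ.2, psi (sα α τ) (sA A τ) (x, y) (1, 0) (0, 1) =
      fl (fun p => psi α A p b0 b1) ρ τ := by
    unfold fl
    simp_rw [s_psi hα hA]
    rfl
  rw [e1] at h5
  rw [sq_abs]
  refine h5.trans (mul_le_mul_of_nonneg_left ?_ hCN.le)
  refine add_le_add le_rfl (div_le_div_of_nonneg_right ?_ (Real.sqrt_nonneg _))
  unfold bd
  refine bdF_mono _ _ (en_cont (sα_contDiff hα τ) (sA_contDiff hA τ) r) ?_
    (fun x => s_en hα r τ x) (by linarith) (by linarith)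
  have := en_cont hα hA r
  fun_prop

/-! ### the box inequality -/

/-- the pure inequality for one rectangle. -/
lemma one_rect {J S g m e K s r CG CN Cx : ℝ} (hs : 0 < s) (hK : 1 ≤ K) (hCG : 0 < CG)
    (hCN : 0 < CN) (hCx : 0 < Cx) (hm : 0 ≤ m) (hg : 0 ≤ g) (he : 0 ≤ e / √r)
    (h1 : J ≤ m) (h2 : S ≤ CG * (2 * g + Cx / s * m) ^ 2) (h3 : J ≤ CN * (S + e / √r)) :
    J ≤ CN * (CG * ((2 + Cx) * K * m / s) ^ 2) + s * g / K + CN * (e / √r) := by
  have hK0 : 0 < K := by linarith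
  rcases le_or_gt g (K * m / s) with h | h
  · have h4 : 2 * g + Cx / s * m ≤ (2 + Cx) * K * m / s := by
      have h5 : Cx / s * m ≤ Cx * K * m / s := by
        rw [div_mul_eq_mul_div, div_le_div_iff_of_pos_right hs]
        have : Cx * m ≤ Cx * m * K := le_mul_of_one_le_right (by positivity) hK
        nlinarith
      have h6 : (2 + Cx) * K * m / s = 2 * (K * m / s) + Cx * K * m / s := by ring
      rw [h6]
      linarith
    have h7 : (2 * g + Cx / s * m) ^ 2 ≤ ((2 + Cx) * K * m / s) ^ 2 :=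
      pow_le_pow_left₀ (by positivity) h4 2
    have h8 : CN * S ≤ CN * (CG * ((2 + Cx) * K * m / s) ^ 2) :=
      mul_le_mul_of_nonneg_left (h2.trans (mul_le_mul_of_nonneg_left h7 hCG.le)) hCN.le
    have h9 : 0 ≤ s * g / K := by positivity
    have h10 : CN * (S + e / √r) = CN * S + CN * (e / √r) := by ring
    linarith
  · have h4 : m ≤ s * g / K := by
      rw [le_div_iff₀ hK0]
      rw [div_lt_iff₀ hs] at h
      linarith
    have h5 : 0 ≤ CN * (CG * ((2 + Cx) * K * m / s) ^ 2) := by positivity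
    have h6 : 0 ≤ CN * (e / √r) := by positivity
    linarith

lemma rect {CG CN Cx : ℝ} (hCG : 0 < CG) (hCN : 0 < CN) (hCx : 0 < Cx)
    (hG : ∀ g : ℝ × ℝ → ℝ, ContDiff ℝ 1 g → HasCompactSupport g →
      ∫ p, g p ^ 2 ≤ CG * (∫ p, ‖fderiv ℝ g p‖) ^ 2)
    (hx : ∀ s : ℝ, 0 < s → ∀ τ, ‖fderiv ℝ (ch s) τ‖ ≤ Cx / s)
    {k κ ε : V4 → ℝ} (hk : Continuous k) (hκ : Continuous κ) (hε : Continuous ε)
    (hle : ∀ p, |k p| ≤ κ p) (hε0 : ∀ p, 0 ≤ ε p) {r s K : ℝ} (hr : 0 < r)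
    (hs : 0 < s) (hK : 1 ≤ K) {ρ : ℝ × ℝ} (hρ : ρ ∈ R2 s) (hF1 : ContDiff ℝ 1 (fl k ρ))
    (hF2 : ∀ τ, ‖fderiv ℝ (fl k ρ) τ‖ ≤ 2 * bd κ ρ τ)
    (hN : ∀ τ, |fl k ρ τ| ≤ CN * (|fl k ρ τ| ^ 2 + bd ε ρ τ / √r)) :
    ∫ τ in Q2 s, ch s τ ^ 2 * |fl k ρ τ| ≤
      CN * (CG * ((2 + Cx) * K * (∫ p in Metric.closedBall (0 : V4) (2 * s), κ p) / s) ^ 2) +
        s * (∫ τ in Q2 s, bd κ ρ τ) / K + CN * ((∫ τ in Q2 s, bd ε ρ τ) / √r) := by
  obtain ⟨⟨h1, h2⟩, ⟨h3, h4⟩⟩ := id hρ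
  have hρ1 : -ρ.1 ≤ ρ.1 := by linarith
  have hρ2 : -ρ.2 ≤ ρ.2 := by linarith
  have hκ0 : ∀ p, 0 ≤ κ p := fun p => (abs_nonneg _).trans (hle p)
  have hsr : 0 < √r := Real.sqrt_pos.2 hr
  have hch : Continuous (ch s) := (ch_contDiff s).continuous
  have hbκ0 : ∀ τ, 0 ≤ bd κ ρ τ := fun τ => bdF_nonneg _ (fun x => hκ0 _) hρ1 hρ2
  have hbe0 : ∀ τ, 0 ≤ bd ε ρ τ := fun τ => bdF_nonneg _ (fun x => hε0 _) hρ1 hρ2
  have hint : ∀ f : ℝ × ℝ → ℝ, Continuous f → IntegrableOn f (Q2 s) :=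
    fun f hf => hf.continuousOn.integrableOn_compact (Q2_compact s)
  have hflρ : Continuous (fun τ => fl k ρ τ) := (fl_cont k hk).comp (by fun_prop : Continuous
    fun τ : ℝ × ℝ => (ρ, τ))
  have hbeρ : Continuous (fun τ => bd ε ρ τ) := (bd_cont ε hε).comp (by fun_prop : Continuous
    fun τ : ℝ × ℝ => (ρ, τ))
  have hm : 0 ≤ ∫ p in Metric.closedBall (0 : V4) (2 * s), κ p := integral_nonneg fun p => hκ0 p
  refine one_rect (S := ∫ τ in Q2 s, ch s τ ^ 2 * |fl k ρ τ| ^ 2) hs hK hCG hCN hCx hm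
    (integral_nonneg fun τ => hbκ0 τ) (div_nonneg (integral_nonneg fun τ => hbe0 τ) hsr.le)
    (J_le hk hκ hle hs hρ) (gns_part hCG hG hx hk hκ hle hs hρ hF1 hF2) ?_
  have hi1 : IntegrableOn (fun τ => ch s τ ^ 2 * |fl k ρ τ|) (Q2 s) :=
    hint _ ((hch.pow 2).mul hflρ.abs)
  have hi2 : IntegrableOn (fun τ => ch s τ ^ 2 * |fl k ρ τ| ^ 2) (Q2 s) :=
    hint _ ((hch.pow 2).mul (hflρ.abs.pow 2))
  have hi3 : IntegrableOn (fun τ => bd ε ρ τ / √r) (Q2 s) :=
    hint _ (hbeρ.div_const _)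
  have hi4 : IntegrableOn (fun τ => ch s τ ^ 2 * |fl k ρ τ| ^ 2 + bd ε ρ τ / √r)
    (Q2 s) := hi2.add hi3
  have e1 : CN * ((∫ τ in Q2 s, ch s τ ^ 2 * |fl k ρ τ| ^ 2) +
      (∫ τ in Q2 s, bd ε ρ τ) / √r) =
      ∫ τ in Q2 s, CN * (ch s τ ^ 2 * |fl k ρ τ| ^ 2 + bd ε ρ τ / √r) := by
    rw [integral_const_mul, integral_add hi2 hi3, integral_div]
  rw [e1]
  refine integral_mono hi1 (hi4.const_mul CN) ?_
  intro τ
  have h5 := hN τ
  have h6 : 0 ≤ bd ε ρ τ / √r := div_nonneg (hbe0 τ) hsr.le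
  have h7 : ch s τ ^ 2 ≤ 1 := ch_sq_le s τ
  have h8 : 0 ≤ ch s τ ^ 2 := sq_nonneg _
  calc ch s τ ^ 2 * |fl k ρ τ| ≤ ch s τ ^ 2 * (CN * (|fl k ρ τ| ^ 2 + bd ε ρ τ / √r)) :=
        mul_le_mul_of_nonneg_left h5 h8
    _ = CN * (ch s τ ^ 2 * |fl k ρ τ| ^ 2 + ch s τ ^ 2 * (bd ε ρ τ / √r)) := by ring
    _ ≤ CN * (ch s τ ^ 2 * |fl k ρ τ| ^ 2 + bd ε ρ τ / √r) := by
        refine mul_le_mul_of_nonneg_left ?_ hCN.le
        have h9 := mul_le_mul_of_nonneg_right h7 h6
        rw [one_mul] at h9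
        linarith

lemma R2_integral_const {s : ℝ} (hs : 0 < s) (c : ℝ) : ∫ _ρ in R2 s, c = s ^ 2 * c := by
  have e := iter_eq (fun _ => c) continuous_const (by linarith : s ≤ 2 * s)
    (by linarith : s ≤ 2 * s)
  rw [show R2 s = Icc s (2 * s) ×ˢ Icc s (2 * s) from rfl, ← e]
  simp only [intervalIntegral.integral_const, smul_eq_mul]
  ring

lemma total {Cw CG CN Cx : ℝ} (hCG : 0 < CG) (hCN : 0 < CN) (hCx : 0 < Cx)
    (hw : ∀ s : ℝ, 0 < s → ∀ x, |deriv (ww s) x| ≤ Cw / s)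
    (hG : ∀ g : ℝ × ℝ → ℝ, ContDiff ℝ 1 g → HasCompactSupport g →
      ∫ p, g p ^ 2 ≤ CG * (∫ p, ‖fderiv ℝ g p‖) ^ 2)
    (hx : ∀ s : ℝ, 0 < s → ∀ τ, ‖fderiv ℝ (ch s) τ‖ ≤ Cx / s)
    {k κ ε : V4 → ℝ} (hk : Continuous k) (hκ : Continuous κ) (hε : Continuous ε)
    (hle : ∀ p, |k p| ≤ κ p) (hε0 : ∀ p, 0 ≤ ε p) {r s K : ℝ} (hr : 0 < r)
    (hs : 0 < s) (hK : 1 ≤ K) (hF1 : ∀ ρ ∈ R2 s, ContDiff ℝ 1 (fl k ρ))
    (hF2 : ∀ ρ ∈ R2 s, ∀ τ, ‖fderiv ℝ (fl k ρ) τ‖ ≤ 2 * bd κ ρ τ)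
    (hN : ∀ ρ ∈ R2 s, ∀ τ, |fl k ρ τ| ≤ CN * (|fl k ρ τ| ^ 2 + bd ε ρ τ / √r)) :
    |∫ p, tf s p * k p| ≤ (Cw / s) ^ 2 *
      (s ^ 2 * (CN * (CG * ((2 + Cx) * K *
          (∫ p in Metric.closedBall (0 : V4) (2 * s), κ p) / s) ^ 2)) +
        s * (2 * s * ∫ p in Metric.closedBall (0 : V4) (2 * s), κ p) / K +
        CN * ((2 * s * ∫ p in Metric.closedBall (0 : V4) (2 * s), ε p) / √r)) := by
  have hκ0 : ∀ p, 0 ≤ κ p := fun p => (abs_nonneg _).trans (hle p)
  have hsr : 0 < √r := Real.sqrt_pos.2 hr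
  have hK0 : 0 < K := by linarith
  have hch : Continuous (ch s) := (ch_contDiff s).continuous
  have hflc := fl_cont k hk
  have hbκ := bd_cont κ hκ
  have hbε := bd_cont ε hε
  refine (lhs_le hw hs k hk).trans (mul_le_mul_of_nonneg_left ?_ (sq_nonneg _))
  -- integrability in `ρ`
  have hiρ : ∀ f : (ℝ × ℝ) → (ℝ × ℝ) → ℝ, Continuous (Function.uncurry f) →
      IntegrableOn (fun ρ => ∫ τ in Q2 s, f ρ τ) (R2 s) := fun f hf =>
    int_inner (Q2_compact s) (R2_compact s) (fun τ ρ => f ρ τ) (hf.comp continuous_swap)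
  set M : ℝ := CN * (CG * ((2 + Cx) * K *
    (∫ p in Metric.closedBall (0 : V4) (2 * s), κ p) / s) ^ 2) with hM
  have hj1 : IntegrableOn (fun ρ => ∫ τ in Q2 s, ch s τ ^ 2 * |fl k ρ τ|) (R2 s) :=
    hiρ (fun ρ τ => ch s τ ^ 2 * |fl k ρ τ|) (by fun_prop)
  have hj2 : IntegrableOn (fun ρ => s * (∫ τ in Q2 s, bd κ ρ τ) / K) (R2 s) :=
    ((hiρ (fun ρ τ => bd κ ρ τ) hbκ).const_mul s).div_const K
  have hj3 : IntegrableOn (fun ρ => CN * ((∫ τ in Q2 s, bd ε ρ τ) / √r)) (R2 s) :=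
    ((hiρ (fun ρ τ => bd ε ρ τ) hbε).div_const (√r)).const_mul CN
  have hj4 : IntegrableOn (fun _ : ℝ × ℝ => M) (R2 s) :=
    continuous_const.continuousOn.integrableOn_compact (R2_compact s)
  have h1 : ∫ ρ in R2 s, ∫ τ in Q2 s, ch s τ ^ 2 * |fl k ρ τ| ≤
      ∫ ρ in R2 s, (M + s * (∫ τ in Q2 s, bd κ ρ τ) / K +
        CN * ((∫ τ in Q2 s, bd ε ρ τ) / √r)) := by
    refine setIntegral_mono_on hj1 ((hj4.add hj2).add hj3)
      (R2_compact s).isClosed.measurableSet ?_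
    intro ρ hρ
    exact rect hCG hCN hCx hG hx hk hκ hε hle hε0 hr hs hK hρ (hF1 ρ hρ) (hF2 ρ hρ) (hN ρ hρ)
  refine h1.trans ?_
  have hj5 : IntegrableOn (fun ρ => M + s * (∫ τ in Q2 s, bd κ ρ τ) / K) (R2 s) := hj4.add hj2
  rw [integral_add hj5 hj3, integral_add hj4 hj2, R2_integral_const hs, integral_div,
    integral_const_mul, integral_const_mul, integral_div]
  have h2 := avg4 hs κ hκ hκ0
  have h3 := avg4 hs ε hε hε0
  refine add_le_add (add_le_add le_rfl ?_) ?_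
  · exact div_le_div_of_nonneg_right (mul_le_mul_of_nonneg_left h2 hs.le) hK0.le
  · exact mul_le_mul_of_nonneg_left (div_le_div_of_nonneg_right h3 hsr.le) hCN.le

/-- the final bookkeeping of constants. -/
lemma final_alg {Cw CG CN Cx m e q s K : ℝ} (hCG : 0 < CG) (hCN : 0 < CN) (hCx : 0 < Cx)
    (hm : 0 ≤ m) (he : 0 ≤ e) (hq : 0 < q) (hs : 0 < s) (hK : 1 ≤ K) :
    (Cw / s) ^ 2 * (s ^ 2 * (CN * (CG * ((2 + Cx) * K * m / s) ^ 2)) + s * (2 * s * m) / K +
        CN * ((2 * s * e) / q)) ≤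
      Cw ^ 2 * (CN * CG * (2 + Cx) ^ 2 + 2 + 2 * CN) * (K ^ 2 / s ^ 2 * m ^ 2 + m / K) +
        Cw ^ 2 * (CN * CG * (2 + Cx) ^ 2 + 2 + 2 * CN) / (s * q) * e := by
  have hK0 : 0 < K := by linarith
  have e1 : (Cw / s) ^ 2 * (s ^ 2 * (CN * (CG * ((2 + Cx) * K * m / s) ^ 2)) +
      s * (2 * s * m) / K + CN * ((2 * s * e) / q)) =
      Cw ^ 2 * (CN * CG * (2 + Cx) ^ 2) * (K ^ 2 / s ^ 2 * m ^ 2) + Cw ^ 2 * 2 * (m / K) +
        Cw ^ 2 * (2 * CN) / (s * q) * e := by
    field_simp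
  rw [e1]
  have h1 : 0 ≤ K ^ 2 / s ^ 2 * m ^ 2 := by positivity
  have h2 : 0 ≤ m / K := by positivity
  have h3 : 0 ≤ e / (s * q) := by positivity
  have h4 : 0 ≤ Cw ^ 2 := sq_nonneg _
  have h5 : 0 ≤ CN * CG * (2 + Cx) ^ 2 := by positivity
  have e2 : Cw ^ 2 * (CN * CG * (2 + Cx) ^ 2 + 2 + 2 * CN) * (K ^ 2 / s ^ 2 * m ^ 2 + m / K) +
        Cw ^ 2 * (CN * CG * (2 + Cx) ^ 2 + 2 + 2 * CN) / (s * q) * e -
      (Cw ^ 2 * (CN * CG * (2 + Cx) ^ 2) * (K ^ 2 / s ^ 2 * m ^ 2) + Cw ^ 2 * 2 * (m / K) +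
        Cw ^ 2 * (2 * CN) / (s * q) * e) =
      Cw ^ 2 * (2 + 2 * CN) * (K ^ 2 / s ^ 2 * m ^ 2) +
        Cw ^ 2 * (CN * CG * (2 + Cx) ^ 2 + 2 * CN) * (m / K) +
        Cw ^ 2 * (CN * CG * (2 + Cx) ^ 2 + 2) * (e / (s * q)) := by ring
  have h6 : 0 ≤ Cw ^ 2 * (2 + 2 * CN) * (K ^ 2 / s ^ 2 * m ^ 2) +
        Cw ^ 2 * (CN * CG * (2 + Cx) ^ 2 + 2 * CN) * (m / K) +
        Cw ^ 2 * (CN * CG * (2 + Cx) ^ 2 + 2) * (e / (s * q)) := by positivity
  linarith

theorem box (hP : PSID) (hN : NEARINT) (hG : GNS2) (hF : GRADF) : BOX := by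
  obtain ⟨CN, hCN, hN⟩ := hN
  obtain ⟨CG, hCG, hG⟩ := hG
  obtain ⟨Cw, hCw, hw⟩ := exists_ww
  obtain ⟨Cx, hCx, hx⟩ := exists_ch
  refine ⟨Cw ^ 2 * (CN * CG * (2 + Cx) ^ 2 + 2 + 2 * CN), by positivity, ?_⟩
  intro α A r s K hα hA hr hs hK hrs
  obtain ⟨hB, hPB⟩ := hP V4 α A hα hA
  have hdd : psi α A = dd fun p => A p + jf α A p := funext hPB
  have hψ : Continuous (psi α A) := psi_cont hα hA
  have hk : Continuous fun p => psi α A p b0 b1 :=
    (hψ.clm_apply continuous_const).clm_apply continuous_const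
  have hκ : Continuous fun p => ‖psi α A p‖ := hψ.norm
  have hen : Continuous (en r α A) := en_cont hα hA r
  have hle : ∀ p, |psi α A p b0 b1| ≤ ‖psi α A p‖ := fun p => abs_b_le _
  have hFF : ∀ ρ ∈ R2 s, ContDiff ℝ 1 (fl (fun p => psi α A p b0 b1) ρ) ∧
      ∀ τ, ‖fderiv ℝ (fl (fun p => psi α A p b0 b1) ρ) τ‖ ≤
        2 * bd (fun p => ‖psi α A p‖) ρ τ := by
    rintro ρ ⟨⟨h1, h2⟩, ⟨h3, h4⟩⟩
    rw [hdd]
    exact hF (fun p => A p + jf α A p) hB ρ.1 ρ.2 (by linarith) (by linarith)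
  refine (total hCG hCN hCx hw hG hx hk hκ hen hle (fun p => en_nonneg hr.le p) hr hs hK
    (fun ρ hρ => (hFF ρ hρ).1) (fun ρ hρ => (hFF ρ hρ).2)
    (fun ρ hρ τ => near_part hCN hN hα hA hr hs hrs hρ τ)).trans ?_
  exact final_alg hCG hCN hCx (integral_nonneg fun _ => norm_nonneg _)
    (integral_nonneg fun p => en_nonneg hr.le p) (Real.sqrt_pos.2 hr) hs hK

end

end Crest.Agent.R235.SwcBox_193
end

-- ▼ part R235/SwcGns_734
section

/-!
Row 235, SWC-AN leaf L3a (helper734): the plane Gagliardo-Nirenberg-Sobolev inequality `GNS2`.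
-/

set_option autoImplicit false

open MeasureTheory Set Filter
open scoped ContDiff ENNReal

namespace Crest.Agent.R235.SwcGns_734

theorem gns2 : SwcDefs_34.GNS2 := by
  have hp : Real.HolderConjugate (Module.finrank ℝ (ℝ × ℝ) : ℝ) 2 := by
    have : Module.finrank ℝ (ℝ × ℝ) = 2 := by simp
    rw [this]
    norm_num
    exact Real.HolderConjugate.two_two
  set K : NNReal := lintegralPowLePowLIntegralFDerivConst (volume : Measure (ℝ × ℝ)) 2 with hK
  refine ⟨K + 1, by positivity, ?_⟩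
  intro g hg hc
  have h := lintegral_pow_le_pow_lintegral_fderiv (volume : Measure (ℝ × ℝ)) hg hc hp
  rw [← hK] at h
  have hcont : Continuous fun p => ‖fderiv ℝ g p‖ := (hg.continuous_fderiv one_ne_zero).norm
  have hint : Integrable fun p => ‖fderiv ℝ g p‖ := by
    refine hcont.integrable_of_hasCompactSupport ?_
    exact (hc.fderiv (𝕜 := ℝ)).norm
  have e1 : ∫ p, ‖fderiv ℝ g p‖ = (∫⁻ p, ‖fderiv ℝ g p‖ₑ).toReal := by
    rw [integral_eq_lintegral_of_nonneg_ae (ae_of_all _ fun p => norm_nonneg _)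
      hcont.aestronglyMeasurable]
    congr 1
    refine lintegral_congr fun p => ?_
    rw [ofReal_norm_eq_enorm]
  have e2 : ∫ p, g p ^ 2 = (∫⁻ p, ‖g p‖ₑ ^ (2 : ℝ)).toReal := by
    rw [integral_eq_lintegral_of_nonneg_ae (ae_of_all _ fun p => sq_nonneg _)
      (hg.continuous.pow 2).aestronglyMeasurable]
    congr 1
    refine lintegral_congr fun p => ?_
    rw [← Real.enorm_eq_ofReal (sq_nonneg _), enorm_pow]
    norm_cast
  have hfin : (∫⁻ p, ‖fderiv ℝ g p‖ₑ) ≠ ⊤ := by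
    have := hint.2
    unfold HasFiniteIntegral at this
    simp only [enorm_norm] at this
    exact this.ne
  rw [e1, e2]
  have h2 : (∫⁻ p, ‖g p‖ₑ ^ (2 : ℝ)).toReal ≤
      ((K : ℝ≥0∞) * (∫⁻ p, ‖fderiv ℝ g p‖ₑ) ^ (2 : ℝ)).toReal :=
    ENNReal.toReal_mono (ENNReal.mul_ne_top ENNReal.coe_ne_top
      (ENNReal.rpow_ne_top_of_nonneg (by norm_num) hfin)) h
  rw [ENNReal.toReal_mul, ENNReal.coe_toReal] at h2
  have e3 : ((∫⁻ p, ‖fderiv ℝ g p‖ₑ) ^ (2 : ℝ)).toReal = (∫⁻ p, ‖fderiv ℝ g p‖ₑ).toReal ^ 2 := by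
    rw [← ENNReal.toReal_rpow]
    norm_cast
  rw [e3] at h2
  have h3 : 0 ≤ (∫⁻ p, ‖fderiv ℝ g p‖ₑ).toReal ^ 2 := sq_nonneg _
  nlinarith

end Crest.Agent.R235.SwcGns_734
end

-- ▼ part R235/SwcGradF_168
section

/-!
Row 235 (S0364), package SWC-AN (leader helper34), leaf GRADF (helper168): the gradient of the flux is
controlled by the boundary mass.
-/

set_option autoImplicit false
set_option maxSynthPendingDepth 3

open Set MeasureTheory Filter Topology Function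
open scoped ContDiff

namespace Crest.Agent.R235.SwcGradF_168

open Crest.Agent.R235.SwcDefs_34

noncomputable section

/-! ### general lemmas -/

/-- differentiation under the integral sign. -/
lemma par {H : Type*} [NormedAddCommGroup H] [NormedSpace ℝ H] [ProperSpace H]
    {f : H → ℝ → ℝ} {f' : H → ℝ → H →L[ℝ] ℝ} (hf : Continuous (uncurry f))
    (hf' : Continuous (uncurry f')) (hd : ∀ x t, HasFDerivAt (fun x => f x t) (f' x t) x)
    (a b : ℝ) (x₀ : H) :
    HasFDerivAt (fun x => ∫ t in a..b, f x t) (∫ t in a..b, f' x₀ t) x₀ := by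
  obtain ⟨C, hC⟩ := ((isCompact_closedBall x₀ 1).prod (isCompact_uIcc (a := a) (b := b))).exists_bound_of_continuousOn
    hf'.continuousOn
  have hft : ∀ x, Continuous (f x) := fun x => hf.comp (Continuous.prodMk continuous_const continuous_id)
  have hft' : ∀ x, Continuous (f' x) := fun x =>
    hf'.comp (Continuous.prodMk continuous_const continuous_id)
  refine intervalIntegral.hasFDerivAt_integral_of_dominated_of_fderiv_le
    (F := f) (F' := f') (bound := fun _ => C) (Metric.closedBall_mem_nhds x₀ one_pos) ?_ ?_ ?_ ?_ ?_ ?_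
  · exact Eventually.of_forall fun x => (hft x).aestronglyMeasurable
  · exact (hft x₀).intervalIntegrable _ _
  · exact (hft' x₀).aestronglyMeasurable
  · refine Eventually.of_forall fun t ht x hx => ?_
    exact hC (x, t) ⟨hx, uIoc_subset_uIcc ht⟩
  · exact intervalIntegrable_const
  · exact Eventually.of_forall fun t _ x _ => hd x t

/-- Fubini for continuous functions. -/
lemma swap {f : ℝ × ℝ → ℝ} (hf : Continuous f) {a b c d : ℝ} (h : a ≤ b) (h' : c ≤ d) :
    ∫ x in a..b, ∫ y in c..d, f (x, y) = ∫ y in c..d, ∫ x in a..b, f (x, y) := by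
  simp_rw [intervalIntegral.integral_of_le h, intervalIntegral.integral_of_le h']
  refine integral_integral_swap (f := fun x y => f (x, y)) ?_
  rw [Measure.prod_restrict]
  exact (hf.continuousOn.integrableOn_compact (isCompact_Icc.prod isCompact_Icc)).mono_set
    (prod_mono Ioc_subset_Icc_self Ioc_subset_Icc_self)

/-! ### the sides -/

lemma dd_apply {V : Type} [NormedAddCommGroup V] [NormedSpace ℝ V] (B : V → V →L[ℝ] ℝ) (p u v : V) :
    dd B p u v = fderiv ℝ B p u v - fderiv ℝ B p v u := by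
  simp [dd]

section Sides

variable {B : V4 → V4 →L[ℝ] ℝ} (hB : ContDiff ℝ ∞ B)

include hB

lemma cont_fderiv : Continuous (fderiv ℝ B) :=
  hB.continuous_fderiv (by simp)

lemma diffB : Differentiable ℝ B := hB.differentiable (by simp)

lemma cont_dd : Continuous (dd B) := by
  have h := cont_fderiv hB
  unfold dd
  have h2 : Continuous fun p => (fderiv ℝ B p).flip :=
    (ContinuousLinearMap.flipₗᵢ ℝ V4 V4 ℝ).continuous.comp h
  exact h.sub h2

/-- the derivative of a side. -/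
lemma side_hasFDerivAt (c : ℝ → ℝ × ℝ) (hc : Continuous c) (T : V4) (a b : ℝ) (τ : ℝ × ℝ) :
    HasFDerivAt (fun τ : ℝ × ℝ => ∫ t in a..b, B (c t, τ) T)
      (∫ t in a..b, ((fderiv ℝ B (c t, τ)).flip T).comp (ContinuousLinearMap.inr ℝ (ℝ × ℝ) (ℝ × ℝ)))
      τ := by
  have hp : Continuous fun q : (ℝ × ℝ) × ℝ => ((c q.2, q.1) : V4) :=
    (hc.comp continuous_snd).prodMk continuous_fst
  refine par (f := fun τ t => B (c t, τ) T)
    (f' := fun τ t => ((fderiv ℝ B (c t, τ)).flip T).comp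
      (ContinuousLinearMap.inr ℝ (ℝ × ℝ) (ℝ × ℝ))) ?_ ?_ ?_ a b τ
  · exact (hB.continuous.comp hp).clm_apply continuous_const
  · have h1 : Continuous fun q : (ℝ × ℝ) × ℝ => (fderiv ℝ B (c q.2, q.1)).flip :=
      (ContinuousLinearMap.flipₗᵢ ℝ V4 V4 ℝ).continuous.comp ((cont_fderiv hB).comp hp)
    exact (h1.clm_apply continuous_const).clm_comp continuous_const
  · intro τ t
    have h1 : HasFDerivAt (fun τ : ℝ × ℝ => ((c t, τ) : V4))
        (ContinuousLinearMap.inr ℝ (ℝ × ℝ) (ℝ × ℝ)) τ := hasFDerivAt_prodMk_right _ _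
    have h2 := (diffB hB (c t, τ)).hasFDerivAt.comp τ h1
    have h3 : HasFDerivAt (fun τ : ℝ × ℝ => B (c t, τ) T) _ τ :=
      h2.clm_apply (hasFDerivAt_const T τ)
    refine h3.congr_fderiv ?_
    refine ContinuousLinearMap.ext fun v => ?_
    simp

lemma side_cont (c : ℝ → ℝ × ℝ) (hc : Continuous c) (T : V4) (a b : ℝ) :
    Continuous fun τ : ℝ × ℝ => (∫ t in a..b, ((fderiv ℝ B (c t, τ)).flip T).comp
      (ContinuousLinearMap.inr ℝ (ℝ × ℝ) (ℝ × ℝ)) : ℝ × ℝ →L[ℝ] ℝ) := by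
  have hp : Continuous fun q : (ℝ × ℝ) × ℝ => ((c q.2, q.1) : V4) :=
    (hc.comp continuous_snd).prodMk continuous_fst
  refine intervalIntegral.continuous_parametric_intervalIntegral_of_continuous'
    (f := fun τ t => ((fderiv ℝ B (c t, τ)).flip T).comp
      (ContinuousLinearMap.inr ℝ (ℝ × ℝ) (ℝ × ℝ))) ?_ a b
  have h1 : Continuous fun q : (ℝ × ℝ) × ℝ => (fderiv ℝ B (c q.2, q.1)).flip :=
    (ContinuousLinearMap.flipₗᵢ ℝ V4 V4 ℝ).continuous.comp ((cont_fderiv hB).comp hp)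
  exact (h1.clm_apply continuous_const).clm_comp continuous_const

/-- the value of the derivative of a side: the `dd`-part and the boundary terms. -/
lemma side_apply (c : ℝ → ℝ × ℝ) (hc : Continuous c) (T : ℝ × ℝ)
    (hcd : ∀ t, HasDerivAt c T t) (a b : ℝ) (τ v : ℝ × ℝ) :
    (∫ t in a..b, ((fderiv ℝ B (c t, τ)).flip (T, 0)).comp
      (ContinuousLinearMap.inr ℝ (ℝ × ℝ) (ℝ × ℝ)) : ℝ × ℝ →L[ℝ] ℝ) v =
      (∫ t in a..b, dd B (c t, τ) ((0 : ℝ × ℝ), v) (T, (0 : ℝ × ℝ))) +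
        (B (c b, τ) ((0 : ℝ × ℝ), v) - B (c a, τ) ((0 : ℝ × ℝ), v)) := by
  have hp : Continuous fun t : ℝ => ((c t, τ) : V4) := hc.prodMk continuous_const
  have hF : Continuous fun t : ℝ => fderiv ℝ B (c t, τ) := (cont_fderiv hB).comp hp
  have hint : IntervalIntegrable (fun t => (((fderiv ℝ B (c t, τ)).flip (T, 0)).comp
      (ContinuousLinearMap.inr ℝ (ℝ × ℝ) (ℝ × ℝ)) : ℝ × ℝ →L[ℝ] ℝ)) volume a b := by
    refine Continuous.intervalIntegrable ?_ _ _
    have h1 : Continuous fun t : ℝ => (fderiv ℝ B (c t, τ)).flip :=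
      (ContinuousLinearMap.flipₗᵢ ℝ V4 V4 ℝ).continuous.comp hF
    exact (h1.clm_apply continuous_const).clm_comp continuous_const
  rw [ContinuousLinearMap.intervalIntegral_apply hint v]
  have hder : ∀ t, HasDerivAt (fun t => B (c t, τ) ((0 : ℝ × ℝ), v))
      (fderiv ℝ B (c t, τ) (T, (0 : ℝ × ℝ)) ((0 : ℝ × ℝ), v)) t := by
    intro t
    have h1 : HasDerivAt (fun t : ℝ => ((c t, τ) : V4)) (T, (0 : ℝ × ℝ)) t :=
      (hcd t).prodMk (hasDerivAt_const t τ)
    have h2 := (diffB hB (c t, τ)).hasFDerivAt.comp_hasDerivAt t h1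
    have h3 := h2.clm_apply (hasDerivAt_const t (((0 : ℝ × ℝ), v) : V4))
    simpa using h3
  have hc1 : Continuous fun t : ℝ => fderiv ℝ B (c t, τ) (T, (0 : ℝ × ℝ)) ((0 : ℝ × ℝ), v) :=
    (hF.clm_apply continuous_const).clm_apply continuous_const
  have hc2 : Continuous fun t : ℝ => dd B (c t, τ) ((0 : ℝ × ℝ), v) (T, (0 : ℝ × ℝ)) :=
    (((cont_dd hB).comp hp).clm_apply continuous_const).clm_apply continuous_const
  have hftc := intervalIntegral.integral_eq_sub_of_hasDerivAt (a := a) (b := b)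
    (fun t _ => hder t) (hc1.intervalIntegrable _ _)
  rw [← hftc, ← intervalIntegral.integral_add (hc2.intervalIntegrable _ _)
    (hc1.intervalIntegrable _ _)]
  refine intervalIntegral.integral_congr fun t _ => ?_
  simp only [dd_apply, ContinuousLinearMap.comp_apply, ContinuousLinearMap.flip_apply,
    ContinuousLinearMap.inr_apply]
  ring

lemma norm_side_le (c : ℝ → ℝ × ℝ) (hc : Continuous c) (T : ℝ × ℝ) (hT : ‖T‖ ≤ 1) {a b : ℝ}
    (hab : a ≤ b) (τ v : ℝ × ℝ) :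
    |∫ t in a..b, dd B (c t, τ) ((0 : ℝ × ℝ), v) (T, (0 : ℝ × ℝ))| ≤
      (∫ t in a..b, ‖dd B (c t, τ)‖) * ‖v‖ := by
  have hp : Continuous fun t : ℝ => ((c t, τ) : V4) := hc.prodMk continuous_const
  have hD : Continuous fun t : ℝ => ‖dd B (c t, τ)‖ := ((cont_dd hB).comp hp).norm
  rw [← Real.norm_eq_abs, ← intervalIntegral.integral_mul_const]
  refine intervalIntegral.norm_integral_le_of_norm_le hab ?_
    ((hD.mul continuous_const).intervalIntegrable _ _)
  refine Eventually.of_forall fun t _ => ?_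
  have h1 := (dd B (c t, τ)).le_opNorm₂ ((0 : ℝ × ℝ), v) (T, (0 : ℝ × ℝ))
  have h2 : ‖(((0 : ℝ × ℝ), v) : V4)‖ = ‖v‖ := by simp [Prod.norm_def]
  have h3 : ‖((T, (0 : ℝ × ℝ)) : V4)‖ = ‖T‖ := by simp [Prod.norm_def]
  rw [h2, h3] at h1
  refine h1.trans ?_
  have h4 : 0 ≤ ‖dd B (c t, τ)‖ * ‖v‖ := by positivity
  calc ‖dd B (c t, τ)‖ * ‖v‖ * ‖T‖ ≤ ‖dd B (c t, τ)‖ * ‖v‖ * 1 := by gcongr
    _ = _ := mul_one _

/-- Green's formula for the flux. -/
lemma flux_eq {ρ1 ρ2 : ℝ} (h1 : 0 < ρ1) (h2 : 0 < ρ2) (τ : ℝ × ℝ) :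
    flux (dd B) ρ1 ρ2 τ =
      (∫ t in (-ρ1)..ρ1, B ((t, -ρ2), τ) ((1, 0), 0)) - (∫ t in (-ρ1)..ρ1, B ((t, ρ2), τ) ((1, 0), 0)) +
      ((∫ t in (-ρ2)..ρ2, B ((ρ1, t), τ) ((0, 1), 0)) -
        ∫ t in (-ρ2)..ρ2, B ((-ρ1, t), τ) ((0, 1), 0)) := by
  have hp : Continuous fun q : ℝ × ℝ => ((q, τ) : V4) := continuous_id.prodMk continuous_const
  have hF : Continuous fun q : ℝ × ℝ => fderiv ℝ B (q, τ) := (cont_fderiv hB).comp hp
  have hc1 : Continuous fun q : ℝ × ℝ => fderiv ℝ B (q, τ) b0 b1 :=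
    (hF.clm_apply continuous_const).clm_apply continuous_const
  have hc2 : Continuous fun q : ℝ × ℝ => fderiv ℝ B (q, τ) b1 b0 :=
    (hF.clm_apply continuous_const).clm_apply continuous_const
  have hin : ∀ (f : ℝ × ℝ → ℝ), Continuous f → ∀ x, Continuous fun y => f (x, y) :=
    fun f hf x => hf.comp (continuous_const.prodMk continuous_id)
  have hin' : ∀ (f : ℝ × ℝ → ℝ), Continuous f → ∀ y, Continuous fun x => f (x, y) :=
    fun f hf x => hf.comp (continuous_id.prodMk continuous_const)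
  have hout : ∀ (f : ℝ × ℝ → ℝ), Continuous f → Continuous fun x => ∫ y in (-ρ2)..ρ2, f (x, y) :=
    fun f hf => intervalIntegral.continuous_parametric_intervalIntegral_of_continuous'
      (f := fun x y => f (x, y)) hf _ _
  have e1 : flux (dd B) ρ1 ρ2 τ =
      (∫ x in (-ρ1)..ρ1, ∫ y in (-ρ2)..ρ2, fderiv ℝ B ((x, y), τ) b0 b1) -
      ∫ x in (-ρ1)..ρ1, ∫ y in (-ρ2)..ρ2, fderiv ℝ B ((x, y), τ) b1 b0 := by
    unfold flux
    rw [← intervalIntegral.integral_sub ((hout _ hc1).intervalIntegrable _ _)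
      ((hout _ hc2).intervalIntegrable _ _)]
    refine intervalIntegral.integral_congr fun x _ => ?_
    rw [← intervalIntegral.integral_sub ((hin _ hc1 x).intervalIntegrable _ _)
      ((hin _ hc2 x).intervalIntegrable _ _)]
    refine intervalIntegral.integral_congr fun y _ => ?_
    exact dd_apply _ _ _ _
  have e2 : (∫ x in (-ρ1)..ρ1, ∫ y in (-ρ2)..ρ2, fderiv ℝ B ((x, y), τ) b0 b1) =
      ∫ y in (-ρ2)..ρ2, (B ((ρ1, y), τ) b1 - B ((-ρ1, y), τ) b1) := by
    rw [swap hc1 (by linarith) (by linarith)]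
    refine intervalIntegral.integral_congr fun y _ => ?_
    refine intervalIntegral.integral_eq_sub_of_hasDerivAt (f := fun x => B ((x, y), τ) b1)
      (fun x _ => ?_) ((hin' _ hc1 y).intervalIntegrable _ _)
    have h1 : HasDerivAt (fun x : ℝ => (((x, y), τ) : V4)) b0 x :=
      ((hasDerivAt_id x).prodMk (hasDerivAt_const x y)).prodMk (hasDerivAt_const x τ)
    have h2 := (diffB hB ((x, y), τ)).hasFDerivAt.comp_hasDerivAt x h1
    have h3 := h2.clm_apply (hasDerivAt_const x b1)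
    simpa using h3
  have e3 : (∫ x in (-ρ1)..ρ1, ∫ y in (-ρ2)..ρ2, fderiv ℝ B ((x, y), τ) b1 b0) =
      ∫ x in (-ρ1)..ρ1, (B ((x, ρ2), τ) b0 - B ((x, -ρ2), τ) b0) := by
    refine intervalIntegral.integral_congr fun x _ => ?_
    refine intervalIntegral.integral_eq_sub_of_hasDerivAt (f := fun y => B ((x, y), τ) b0)
      (fun y _ => ?_) ((hin _ hc2 x).intervalIntegrable _ _)
    have h1 : HasDerivAt (fun y : ℝ => (((x, y), τ) : V4)) b1 y :=
      ((hasDerivAt_const y x).prodMk (hasDerivAt_id y)).prodMk (hasDerivAt_const y τ)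
    have h2 := (diffB hB ((x, y), τ)).hasFDerivAt.comp_hasDerivAt y h1
    have h3 := h2.clm_apply (hasDerivAt_const y b0)
    simpa using h3
  have hcB : ∀ (T : V4), Continuous fun q : ℝ × ℝ => B (q, τ) T := fun T =>
    (hB.continuous.comp hp).clm_apply continuous_const
  rw [e1, e2, e3, intervalIntegral.integral_sub ((hin _ (hcB b1) _).intervalIntegrable _ _)
    ((hin _ (hcB b1) _).intervalIntegrable _ _),
    intervalIntegral.integral_sub ((hin' _ (hcB b0) _).intervalIntegrable _ _)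
    ((hin' _ (hcB b0) _).intervalIntegrable _ _)]
  simp only [b0, b1, Prod.mk_zero_zero]
  ring

end Sides

/-- LEAF GRADF. -/
theorem gradf : GRADF := by
  intro B hB ρ1 ρ2 h1 h2
  have hfx : flux (dd B) ρ1 ρ2 = fun τ =>
      (∫ t in (-ρ1)..ρ1, B ((t, -ρ2), τ) ((1, 0), 0)) - (∫ t in (-ρ1)..ρ1, B ((t, ρ2), τ) ((1, 0), 0)) +
      ((∫ t in (-ρ2)..ρ2, B ((ρ1, t), τ) ((0, 1), 0)) -
        ∫ t in (-ρ2)..ρ2, B ((-ρ1, t), τ) ((0, 1), 0)) := funext fun τ => flux_eq hB h1 h2 τ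
  have cH : ∀ y : ℝ, Continuous fun t : ℝ => ((t, y) : ℝ × ℝ) := fun y =>
    continuous_id.prodMk continuous_const
  have cV : ∀ x : ℝ, Continuous fun t : ℝ => ((x, t) : ℝ × ℝ) := fun x =>
    continuous_const.prodMk continuous_id
  have dH : ∀ y t : ℝ, HasDerivAt (fun t : ℝ => ((t, y) : ℝ × ℝ)) (1, 0) t := fun y t =>
    (hasDerivAt_id t).prodMk (hasDerivAt_const t y)
  have dV : ∀ x t : ℝ, HasDerivAt (fun t : ℝ => ((x, t) : ℝ × ℝ)) (0, 1) t := fun x t =>
    (hasDerivAt_const t x).prodMk (hasDerivAt_id t)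
  set S : (ℝ → ℝ × ℝ) → (ℝ × ℝ) → ℝ → ℝ × ℝ → ℝ × ℝ →L[ℝ] ℝ := fun c T ρ τ =>
    ∫ t in (-ρ)..ρ, ((fderiv ℝ B (c t, τ)).flip (T, 0)).comp
      (ContinuousLinearMap.inr ℝ (ℝ × ℝ) (ℝ × ℝ)) with hS
  have hder : ∀ τ, HasFDerivAt (flux (dd B) ρ1 ρ2)
      (S (fun t => (t, -ρ2)) (1, 0) ρ1 τ - S (fun t => (t, ρ2)) (1, 0) ρ1 τ +
        (S (fun t => (ρ1, t)) (0, 1) ρ2 τ - S (fun t => (-ρ1, t)) (0, 1) ρ2 τ)) τ := by
    intro τ
    rw [hfx]
    exact ((side_hasFDerivAt hB _ (cH _) _ _ _ τ).sub (side_hasFDerivAt hB _ (cH _) _ _ _ τ)).add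
      ((side_hasFDerivAt hB _ (cV _) _ _ _ τ).sub (side_hasFDerivAt hB _ (cV _) _ _ _ τ))
  have hcS : ∀ (c : ℝ → ℝ × ℝ) (T : ℝ × ℝ) (ρ : ℝ), Continuous c → Continuous (S c T ρ) :=
    fun c T ρ hc => side_cont hB c hc (T, 0) (-ρ) ρ
  refine ⟨contDiff_one_iff_hasFDerivAt.2 ⟨_, ?_, hder⟩, fun τ => ?_⟩
  · exact ((hcS _ _ _ (cH _)).sub (hcS _ _ _ (cH _))).add
      ((hcS _ _ _ (cV _)).sub (hcS _ _ _ (cV _)))
  · rw [(hder τ).fderiv]
    have hI : ∀ (c : ℝ → ℝ × ℝ), Continuous c → ∀ a b : ℝ,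
        IntervalIntegrable (fun t => ‖dd B (c t, τ)‖) volume a b := fun c hc a b =>
      (((cont_dd hB).comp (hc.prodMk continuous_const)).norm).intervalIntegrable _ _
    have hbd : bdF (fun p => ‖dd B (p, τ)‖) (-ρ1) ρ1 (-ρ2) ρ2 =
        (∫ t in (-ρ1)..ρ1, ‖dd B ((t, -ρ2), τ)‖) + (∫ t in (-ρ1)..ρ1, ‖dd B ((t, ρ2), τ)‖) +
        ((∫ t in (-ρ2)..ρ2, ‖dd B ((ρ1, t), τ)‖) + ∫ t in (-ρ2)..ρ2, ‖dd B ((-ρ1, t), τ)‖) := by
      unfold bdF
      rw [intervalIntegral.integral_add (hI _ (cH _) _ _) (hI _ (cH _) _ _),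
        intervalIntegral.integral_add (hI _ (cV _) _ _) (hI _ (cV _) _ _)]
    have hnn : ∀ (c : ℝ → ℝ × ℝ) (ρ : ℝ), 0 < ρ → 0 ≤ ∫ t in (-ρ)..ρ, ‖dd B (c t, τ)‖ :=
      fun c ρ hρ => intervalIntegral.integral_nonneg (by linarith) fun t _ => norm_nonneg _
    have n1 := hnn (fun t => (t, -ρ2)) ρ1 h1
    have n2 := hnn (fun t => (t, ρ2)) ρ1 h1
    have n3 := hnn (fun t => (ρ1, t)) ρ2 h2
    have n4 := hnn (fun t => (-ρ1, t)) ρ2 h2
    refine ContinuousLinearMap.opNorm_le_bound _ ?_ fun v => ?_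
    · rw [hbd]; linarith
    · have hT1 : ‖((1, 0) : ℝ × ℝ)‖ ≤ 1 := by simp [Prod.norm_def]
      have hT2 : ‖((0, 1) : ℝ × ℝ)‖ ≤ 1 := by simp [Prod.norm_def]
      have hr1 : -ρ1 ≤ ρ1 := by linarith
      have hr2 : -ρ2 ≤ ρ2 := by linarith
      have a1 := abs_le.1 (norm_side_le hB (fun t => (t, -ρ2)) (cH _) (1, 0) hT1 hr1 τ v)
      have a2 := abs_le.1 (norm_side_le hB (fun t => (t, ρ2)) (cH _) (1, 0) hT1 hr1 τ v)
      have a3 := abs_le.1 (norm_side_le hB (fun t => (ρ1, t)) (cV _) (0, 1) hT2 hr2 τ v)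
      have a4 := abs_le.1 (norm_side_le hB (fun t => (-ρ1, t)) (cV _) (0, 1) hT2 hr2 τ v)
      have b1 := side_apply hB (fun t => (t, -ρ2)) (cH _) (1, 0) (dH _) (-ρ1) ρ1 τ v
      have b2 := side_apply hB (fun t => (t, ρ2)) (cH _) (1, 0) (dH _) (-ρ1) ρ1 τ v
      have b3 := side_apply hB (fun t => (ρ1, t)) (cV _) (0, 1) (dV _) (-ρ2) ρ2 τ v
      have b4 := side_apply hB (fun t => (-ρ1, t)) (cV _) (0, 1) (dV _) (-ρ2) ρ2 τ v
      have hv := norm_nonneg v
      simp only [add_apply, sub_apply, hS]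
      rw [b1, b2, b3, b4, hbd, Real.norm_eq_abs, abs_le]
      constructor <;> nlinarith [mul_nonneg n1 hv, mul_nonneg n2 hv, mul_nonneg n3 hv,
        mul_nonneg n4 hv]

end

end Crest.Agent.R235.SwcGradF_168
end

-- ▼ part R235/SwcNear_915
section

/-!
Row 235 (S0364), package SWC-AN, leaf NEARINT: fluxes are near integers, in quadratic form.
-/

set_option autoImplicit false

open Set MeasureTheory Filter Topology
open scoped ContDiff

namespace Crest.Agent.R235.SwcNear_915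

open Crest.Agent.R235.SwcDefs_34

noncomputable section

variable {α : ℝ × ℝ → ℂ} {A : ℝ × ℝ → ℝ × ℝ →L[ℝ] ℝ}

theorem cont_eta (hα : ContDiff ℝ ∞ α) (hA : ContDiff ℝ ∞ A) : Continuous (eta α A) := by
  unfold eta
  have h1 : Continuous (fderiv ℝ α) := hα.continuous_fderiv (by simp)
  have h2 : Continuous A := hA.continuous
  have h3 : Continuous α := hα.continuous
  refine h1.sub ?_
  have h4 : Continuous fun p => (Complex.I * α p) := continuous_const.mul h3
  exact (ContinuousLinearMap.smulRightL ℝ (ℝ × ℝ) ℂ).continuous₂.comp (h2.prodMk h4)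

theorem cont_en (hα : ContDiff ℝ ∞ α) (hA : ContDiff ℝ ∞ A) (r : ℝ) :
    Continuous (en r α A) := by
  unfold en
  have h1 := cont_eta hα hA
  have h3 : Continuous α := hα.continuous
  fun_prop

theorem en_nonneg {r : ℝ} (hr : 0 < r) (p : ℝ × ℝ) : 0 ≤ en r α A p := by
  unfold en; positivity

/-- `2 |a| ‖eta‖ ≤ en / √r`. -/
theorem young {r : ℝ} (hr : 0 < r) (p : ℝ × ℝ) :
    2 * (|1 - ‖α p‖ ^ 2| * ‖eta α A p‖) ≤ en r α A p / √r := by
  have hs : 0 < √r := Real.sqrt_pos.2 hr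
  have hss : √r * √r = r := Real.mul_self_sqrt hr.le
  rw [le_div_iff₀ hs]
  unfold en
  have h : 0 ≤ (‖eta α A p‖ - √r * |1 - ‖α p‖ ^ 2|) ^ 2 := sq_nonneg _
  have h2 : (√r * |1 - ‖α p‖ ^ 2|) ^ 2 = r * (1 - ‖α p‖ ^ 2) ^ 2 := by
    rw [mul_pow, sq_abs, sq √r, hss]
  nlinarith [h, h2]

theorem bilin (z w : ℂ) : |z.re * w.re + z.im * w.im| ≤ ‖z‖ * ‖w‖ := by
  have h : z.re * w.re + z.im * w.im = (starRingEnd ℂ z * w).re := by
    simp [Complex.mul_re]
  rw [h]
  refine (Complex.abs_re_le_norm _).trans ?_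
  rw [norm_mul, Complex.norm_conj]

theorem bilin2 (z w : ℂ) : |z.re * w.im - z.im * w.re| ≤ ‖z‖ * ‖w‖ := by
  have h : z.re * w.im - z.im * w.re = (starRingEnd ℂ z * w).im := by
    simp [Complex.mul_im]; ring
  rw [h]
  refine (Complex.abs_im_le_norm _).trans ?_
  rw [norm_mul, Complex.norm_conj]

theorem eta_le (p v : ℝ × ℝ) (hv : ‖v‖ ≤ 1) : ‖eta α A p v‖ ≤ ‖eta α A p‖ := by
  have h := (eta α A p).le_opNorm v
  have h2 : ‖eta α A p‖ * ‖v‖ ≤ ‖eta α A p‖ * 1 := by gcongr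
  linarith

/-- the bounded deviation -/
def ff (z : ℂ) : ℝ := ((1 - ‖z‖ ^ 2) / (1 + ‖z‖ ^ 2)) ^ 2


theorem ff_le (z : ℂ) : ff z ≤ (1 - ‖z‖ ^ 2) ^ 2 := by
  unfold ff
  rw [div_pow]
  apply div_le_self (sq_nonneg _)
  have : 0 ≤ ‖z‖ ^ 2 := sq_nonneg _
  nlinarith

/-- derivative of `u = ‖α‖²` along a line. -/
theorem hasDeriv_u (hα : ContDiff ℝ ∞ α) (A : ℝ × ℝ → ℝ × ℝ →L[ℝ] ℝ) (p v : ℝ × ℝ) (t : ℝ) :
    HasDerivAt (fun t : ℝ => ‖α (p + t • v)‖ ^ 2)
      (2 * ((α (p + t • v)).re * (eta α A (p + t • v) v).re +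
        (α (p + t • v)).im * (eta α A (p + t • v) v).im)) t := by
  have h1 : HasDerivAt (fun t : ℝ => p + t • v) v t := by
    have := ((hasDerivAt_id t).smul_const v).const_add p
    simpa using this
  have hd : Differentiable ℝ α := hα.differentiable (by simp)
  have h2 : HasDerivAt (fun t : ℝ => α (p + t • v)) (fderiv ℝ α (p + t • v) v) t :=
    (hd (p + t • v)).hasFDerivAt.comp_hasDerivAt t h1
  have h3 : HasDerivAt (fun t : ℝ => (α (p + t • v)).re) (fderiv ℝ α (p + t • v) v).re t :=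
    Complex.reCLM.hasFDerivAt.comp_hasDerivAt t h2
  have h4 : HasDerivAt (fun t : ℝ => (α (p + t • v)).im) (fderiv ℝ α (p + t • v) v).im t :=
    Complex.imCLM.hasFDerivAt.comp_hasDerivAt t h2
  have h5 := (h3.mul h3).add (h4.mul h4)
  have e : (fun t : ℝ => ‖α (p + t • v)‖ ^ 2) =
      fun t : ℝ => (α (p + t • v)).re * (α (p + t • v)).re +
        (α (p + t • v)).im * (α (p + t • v)).im := by
    funext s
    rw [Complex.sq_norm, Complex.normSq_apply]
  rw [e]
  refine h5.congr_deriv ?_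
  simp only [eta, sub_apply, ContinuousLinearMap.smulRight_apply,
    Complex.sub_re, Complex.sub_im, Complex.real_smul, Complex.mul_re, Complex.mul_im,
    Complex.I_re, Complex.I_im, Complex.ofReal_re, Complex.ofReal_im]
  ring

theorem hasDeriv_ff (hα : ContDiff ℝ ∞ α) (A : ℝ × ℝ → ℝ × ℝ →L[ℝ] ℝ) {r : ℝ} (hr : 0 < r)
    (p v : ℝ × ℝ) (hv : ‖v‖ ≤ 1) (t : ℝ) :
    ∃ d : ℝ, HasDerivAt (fun t : ℝ => ff (α (p + t • v))) d t ∧
      |d| ≤ 2 / √r * en r α A (p + t • v) := by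
  have hu := hasDeriv_u hα A p v t
  set q := p + t • v with hq
  set u' := 2 * ((α q).re * (eta α A q v).re + (α q).im * (eta α A q v).im) with hu'
  set m := ‖α q‖ with hm
  have hm0 : 0 ≤ m := norm_nonneg _
  have hpos : (0 : ℝ) < 1 + m ^ 2 := by positivity
  have h1 : HasDerivAt (fun t : ℝ => (1 - ‖α (p + t • v)‖ ^ 2)) (-u') t := by
    simpa using hu.const_sub 1
  have h2 : HasDerivAt (fun t : ℝ => (1 + ‖α (p + t • v)‖ ^ 2)) u' t := by
    simpa using hu.const_add 1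
  have h3 := (h1.div h2 (by rw [← hq, ← hm]; exact hpos.ne')).pow 2
  refine ⟨_, h3, ?_⟩
  simp only [← hq, ← hm]
  have hub : |u'| ≤ 2 * (m * ‖eta α A q‖) := by
    rw [hu', abs_mul, abs_two]
    have hb := bilin (α q) (eta α A q v)
    have he := eta_le (α := α) (A := A) q v hv
    have : ‖α q‖ * ‖eta α A q v‖ ≤ m * ‖eta α A q‖ := by rw [hm]; gcongr
    linarith
  have hy := young (α := α) (A := A) hr q
  rw [← hm] at hy
  have hs : 0 < √r := Real.sqrt_pos.2 hr
  have key : |(2 : ℕ) * ((1 - m ^ 2) / (1 + m ^ 2)) ^ (2 - 1) *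
      ((-u' * (1 + m ^ 2) - (1 - m ^ 2) * u') / (1 + m ^ 2) ^ 2)| ≤
      4 * (|1 - m ^ 2| * ‖eta α A q‖) := by
    have e1 : (2 : ℕ) * ((1 - m ^ 2) / (1 + m ^ 2)) ^ (2 - 1) *
      ((-u' * (1 + m ^ 2) - (1 - m ^ 2) * u') / (1 + m ^ 2) ^ 2) =
        -(4 * ((1 - m ^ 2) * u') / (1 + m ^ 2) ^ 3) := by
      rw [show -u' * (1 + m ^ 2) - (1 - m ^ 2) * u' = -(2 * u') by ring]
      have hw : (1 + m ^ 2) ≠ 0 := hpos.ne'
      generalize 1 + m ^ 2 = w at hw
      generalize 1 - m ^ 2 = c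
      push_cast
      rw [pow_one]
      field_simp
      ring
    rw [e1, abs_neg, abs_div, abs_mul, abs_mul, abs_of_pos (by positivity : (0:ℝ) < (1 + m ^ 2) ^ 3),
      div_le_iff₀ (by positivity)]
    have h4 : |(4 : ℝ)| = 4 := by norm_num
    rw [h4]
    have h5 : 2 * m ≤ (1 + m ^ 2) ^ 3 := by
      have h6 : 2 * m ≤ 1 + m ^ 2 := by nlinarith [sq_nonneg (m - 1)]
      have h7 : 1 + m ^ 2 ≤ (1 + m ^ 2) ^ 3 := by
        apply le_self_pow₀ (by nlinarith [sq_nonneg m]) (by norm_num)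
      linarith
    have h8 : |1 - m ^ 2| * |u'| ≤ |1 - m ^ 2| * (2 * (m * ‖eta α A q‖)) := by gcongr
    have h9 : (2 * m) * (|1 - m ^ 2| * ‖eta α A q‖) ≤
        (1 + m ^ 2) ^ 3 * (|1 - m ^ 2| * ‖eta α A q‖) := by gcongr
    nlinarith [h8, h9]
  refine key.trans ?_
  have : 2 / √r * en r α A q = 2 * (en r α A q / √r) := by ring
  rw [this]
  linarith

/-- the sup bound of the deviation on a side. -/
theorem side (hα : ContDiff ℝ ∞ α) (hA : ContDiff ℝ ∞ A) {r : ℝ} (hr : 0 < r)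
    (p v : ℝ × ℝ) (hv : ‖v‖ ≤ 1) {a b : ℝ} (hab : a < b) (hL : 1 ≤ r * (b - a) ^ 2) :
    ∀ t ∈ Icc a b, ff (α (p + t • v)) ≤
      3 * ((∫ s in a..b, en r α A (p + s • v)) / √r) := by
  have hs : 0 < √r := Real.sqrt_pos.2 hr
  have hss : √r * √r = r := Real.mul_self_sqrt hr.le
  have hcont : Continuous fun s : ℝ => en r α A (p + s • v) :=
    (cont_en hα hA r).comp (by fun_prop)
  have hint : ∀ x y : ℝ, IntervalIntegrable (fun s : ℝ => en r α A (p + s • v)) volume x y :=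
    fun x y => hcont.intervalIntegrable x y
  set G : ℝ → ℝ := fun t => ∫ s in a..t, en r α A (p + s • v) with hG
  have hGd : ∀ t, HasDerivAt G (en r α A (p + t • v)) t := fun t =>
    intervalIntegral.integral_hasDerivAt_right (hint a t)
      hcont.stronglyMeasurable.stronglyMeasurableAtFilter hcont.continuousAt
  have hGm : Monotone G := monotone_of_hasDerivAt_nonneg hGd fun t => en_nonneg hr _
  have hGa : G a = 0 := by simp [hG]
  have hff := fun t => hasDeriv_ff hα A hr p v hv t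
  choose d hd hdb using hff
  have hup : Monotone fun t => ff (α (p + t • v)) + 2 / √r * G t := by
    refine monotone_of_hasDerivAt_nonneg (fun t => (hd t).add ((hGd t).const_mul (2 / √r))) ?_
    intro t
    have := (abs_le.1 (hdb t)).1
    simp only [Pi.zero_apply]
    linarith
  have hdn : Antitone fun t => ff (α (p + t • v)) - 2 / √r * G t := by
    refine antitone_of_hasDerivAt_nonpos (fun t => (hd t).sub ((hGd t).const_mul (2 / √r))) ?_
    intro t
    have := (abs_le.1 (hdb t)).2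
    simp only [Pi.zero_apply]
    linarith
  have hc : 0 < 2 / √r := by positivity
  intro t ht
  have hG1 : ∀ s ∈ Icc a b, 0 ≤ G s ∧ G s ≤ G b := fun s hs' =>
    ⟨hGa ▸ hGm hs'.1, hGm hs'.2⟩
  have hstep : ∀ s ∈ Icc a b, ff (α (p + t • v)) - 2 / √r * G b ≤ en r α A (p + s • v) / r := by
    intro s hs'
    have h1 : ff (α (p + s • v)) ≤ en r α A (p + s • v) / r := by
      rw [le_div_iff₀ hr]
      have := ff_le (α (p + s • v))
      unfold en
      nlinarith [sq_nonneg ‖eta α A (p + s • v)‖]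
    have h2 : ff (α (p + t • v)) - 2 / √r * G b ≤ ff (α (p + s • v)) := by
      have gs := hG1 s hs'
      have gt := hG1 t ht
      rcases le_total s t with hst | hst
      · have h := hdn hst
        simp only at h
        nlinarith [mul_le_mul_of_nonneg_left gt.2 hc.le, mul_nonneg hc.le gs.1]
      · have h := hup hst
        simp only at h
        nlinarith [mul_le_mul_of_nonneg_left gs.2 hc.le, mul_nonneg hc.le gt.1]
    linarith
  have hint2 : (∫ s in a..b, (ff (α (p + t • v)) - 2 / √r * G b)) ≤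
      ∫ s in a..b, en r α A (p + s • v) / r :=
    intervalIntegral.integral_mono_on hab.le (by simp) ((hint a b).div_const r) hstep
  rw [intervalIntegral.integral_const, intervalIntegral.integral_div, smul_eq_mul] at hint2
  have hGb : (∫ s in a..b, en r α A (p + s • v)) = G b := rfl
  rw [hGb] at hint2 ⊢
  have hGb0 : 0 ≤ G b := (hG1 b ⟨hab.le, le_rfl⟩).1
  have hLpos : 0 < b - a := by linarith
  have hLs : 1 ≤ √r * (b - a) := by
    have h1 : (1 : ℝ) ≤ (√r * (b - a)) ^ 2 := by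
      rw [mul_pow, sq √r, hss]; exact hL
    by_contra hcon
    push Not at hcon
    have h0 : 0 ≤ √r * (b - a) := by positivity
    nlinarith
  have h3 : G b / r ≤ (b - a) * (G b / √r) := by
    rw [div_le_iff₀ hr]
    have : (b - a) * (G b / √r) * r = (√r * (b - a)) * G b := by
      field_simp
      rw [Real.sq_sqrt hr.le]
    rw [this]
    nlinarith
  have h4 : (b - a) * (ff (α (p + t • v)) - 2 / √r * G b) ≤ (b - a) * (G b / √r) :=
    hint2.trans h3
  have h5 := le_of_mul_le_mul_left h4 hLpos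
  have h6 : 2 / √r * G b = 2 * (G b / √r) := by ring
  rw [h6] at h5
  linarith

/-- small deviation gives two sided bounds. -/
theorem bounds {z : ℂ} (h : ff z ≤ 1 / 25) : 2 / 3 ≤ ‖z‖ ^ 2 ∧ ‖z‖ ^ 2 ≤ 3 / 2 := by
  unfold ff at h
  have hp : 0 < 1 + ‖z‖ ^ 2 := by positivity
  have h1 : |(1 - ‖z‖ ^ 2) / (1 + ‖z‖ ^ 2)| ≤ 1 / 5 := by
    apply abs_le_of_sq_le_sq _ (by norm_num)
    norm_num
    linarith
  rw [abs_le] at h1
  rw [le_div_iff₀ hp, div_le_iff₀ hp] at h1
  constructor <;> linarith [h1.1, h1.2]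

theorem jf_bound {r : ℝ} (hr : 0 < r) (p v : ℝ × ℝ) (hv : ‖v‖ ≤ 1) (h : 2 / 3 ≤ ‖α p‖ ^ 2) :
    |(((1 - ‖α p‖ ^ 2) / ‖α p‖ ^ 2) • jf α A p) v| ≤ en r α A p / √r := by
  have hm0 : 0 ≤ ‖α p‖ := norm_nonneg _
  have hm1 : 1 / 2 ≤ ‖α p‖ := by
    by_contra hc
    push Not at hc
    nlinarith
  have hmp : 0 < ‖α p‖ := by linarith
  have hj : |jf α A p v| ≤ ‖α p‖ * ‖eta α A p‖ := by
    have h1 : jf α A p v = (α p).re * (eta α A p v).im - (α p).im * (eta α A p v).re := by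
      simp [jf]
    rw [h1]
    refine (bilin2 _ _).trans ?_
    have := eta_le (α := α) (A := A) p v hv
    gcongr
  rw [smul_apply, smul_eq_mul, abs_mul, abs_div,
    abs_of_pos (by positivity : (0:ℝ) < ‖α p‖ ^ 2)]
  refine le_trans ?_ (young (α := α) (A := A) hr p)
  have h2 : |1 - ‖α p‖ ^ 2| / ‖α p‖ ^ 2 * |jf α A p v| ≤
      |1 - ‖α p‖ ^ 2| / ‖α p‖ ^ 2 * (‖α p‖ * ‖eta α A p‖) := by gcongr
  refine h2.trans ?_
  have h3 : |1 - ‖α p‖ ^ 2| / ‖α p‖ ^ 2 * (‖α p‖ * ‖eta α A p‖) =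
      (|1 - ‖α p‖ ^ 2| * ‖eta α A p‖) / ‖α p‖ := by
    field_simp
  rw [h3, div_le_iff₀ hmp]
  have h4 : 0 ≤ |1 - ‖α p‖ ^ 2| * ‖eta α A p‖ := by positivity
  nlinarith

theorem nearint (h : SLICE) : NEARINT := by
  refine ⟨75, by norm_num, ?_⟩
  intro α A r hα hA hr a1 b1 a2 b2 h1 h2 hr1 hr2
  have hs : 0 < √r := Real.sqrt_pos.2 hr
  have hc := cont_en (α := α) (A := A) hα hA r
  have hn10 : ‖((1 : ℝ), (0 : ℝ))‖ ≤ 1 := by simp [Prod.norm_def]
  have hn01 : ‖((0 : ℝ), (1 : ℝ))‖ ≤ 1 := by simp [Prod.norm_def]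
  set F := ∫ x in a1..b1, ∫ y in a2..b2, psi α A (x, y) (1, 0) (0, 1) with hF
  set E := bdF (en r α A) a1 b1 a2 b2 with hE
  -- the four sides
  have c1 : ∀ c : ℝ, Continuous fun x : ℝ => en r α A (x, c) := fun c => hc.comp (by fun_prop)
  have c2 : ∀ c : ℝ, Continuous fun y : ℝ => en r α A (c, y) := fun c => hc.comp (by fun_prop)
  have n1 : ∀ c : ℝ, 0 ≤ ∫ x in a1..b1, en r α A (x, c) := fun c =>
    intervalIntegral.integral_nonneg h1.le fun x _ => en_nonneg hr _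
  have n2 : ∀ c : ℝ, 0 ≤ ∫ y in a2..b2, en r α A (c, y) := fun c =>
    intervalIntegral.integral_nonneg h2.le fun x _ => en_nonneg hr _
  have hEs : E = (∫ x in a1..b1, en r α A (x, a2)) + (∫ x in a1..b1, en r α A (x, b2)) +
      ((∫ y in a2..b2, en r α A (b1, y)) + ∫ y in a2..b2, en r α A (a1, y)) := by
    rw [hE, bdF, intervalIntegral.integral_add ((c1 a2).intervalIntegrable _ _)
      ((c1 b2).intervalIntegrable _ _), intervalIntegral.integral_add
      ((c2 b1).intervalIntegrable _ _) ((c2 a1).intervalIntegrable _ _)]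
  have hE0 : 0 ≤ E := by
    rw [hEs]; have := n1 a2; have := n1 b2; have := n2 b1; have := n2 a1; linarith
  rcases lt_or_ge (√r / 75) E with hbig | hsmall
  · -- large boundary energy
    have h3 : 1 ≤ 75 * (E / √r) := by
      rw [← mul_div_assoc, le_div_iff₀ hs]
      linarith
    have h4 : |F| ≤ F ^ 2 + 1 := by
      rw [abs_le]; constructor <;> nlinarith [sq_nonneg (F + 1), sq_nonneg (F - 1), sq_nonneg F]
    nlinarith [sq_nonneg F]
  · have hEr : E / √r ≤ 1 / 75 := by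
      rw [div_le_iff₀ hs]; linarith
    -- deviations on the sides
    have s1 : ∀ c : ℝ, (∫ x in a1..b1, en r α A (x, c)) ≤ E → ∀ x ∈ Icc a1 b1,
        ff (α (x, c)) ≤ 1 / 25 := by
      intro c hcE x hx
      have := side hα hA hr (0, c) (1, 0) hn10 h1 hr1 x hx
      have e : ∀ s : ℝ, ((0 : ℝ), c) + s • ((1 : ℝ), (0 : ℝ)) = (s, c) := by
        intro s; simp
      simp only [e] at this
      have h5 : (∫ x in a1..b1, en r α A (x, c)) / √r ≤ E / √r := by gcongr
      linarith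
    have s2 : ∀ c : ℝ, (∫ y in a2..b2, en r α A (c, y)) ≤ E → ∀ y ∈ Icc a2 b2,
        ff (α (c, y)) ≤ 1 / 25 := by
      intro c hcE x hx
      have := side hα hA hr (c, 0) (0, 1) hn01 h2 hr2 x hx
      have e : ∀ s : ℝ, (c, (0 : ℝ)) + s • ((0 : ℝ), (1 : ℝ)) = (c, s) := by
        intro s; simp
      simp only [e] at this
      have h5 : (∫ y in a2..b2, en r α A (c, y)) / √r ≤ E / √r := by gcongr
      linarith
    have q1 := s1 a2 (by rw [hEs]; have := n1 b2; have := n2 b1; have := n2 a1; linarith)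
    have q2 := s1 b2 (by rw [hEs]; have := n1 a2; have := n2 b1; have := n2 a1; linarith)
    have q3 := s2 a1 (by rw [hEs]; have := n1 a2; have := n1 b2; have := n2 b1; linarith)
    have q4 := s2 b1 (by rw [hEs]; have := n1 a2; have := n1 b2; have := n2 a1; linarith)
    have nz : ∀ z : ℂ, ff z ≤ 1 / 25 → z ≠ 0 := by
      intro z hz h0
      have := (bounds hz).1
      rw [h0] at this
      norm_num at this
    obtain ⟨N, hN⟩ := h α A hα hA a1 b1 a2 b2 h1.le h2.le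
      (fun x hx => ⟨nz _ (q1 x hx), nz _ (q2 x hx)⟩)
      (fun y hy => ⟨nz _ (q3 y hy), nz _ (q4 y hy)⟩)
    rw [← hF] at hN
    set B : ℝ × ℝ → ℝ × ℝ →L[ℝ] ℝ :=
      fun p => ((1 - ‖α p‖ ^ 2) / ‖α p‖ ^ 2) • jf α A p with hB
    have hb : |bdI B a1 b1 a2 b2| ≤ E / √r := by
      have i1 : ‖∫ x in a1..b1, (B (x, a2) (1, 0) - B (x, b2) (1, 0))‖ ≤
          ∫ x in a1..b1, (en r α A (x, a2) + en r α A (x, b2)) / √r := by
        refine intervalIntegral.norm_integral_le_of_norm_le h1.le ?_ ?_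
        · refine Eventually.of_forall fun x hx => ?_
          have hx' : x ∈ Icc a1 b1 := Ioc_subset_Icc_self hx
          have j1 := jf_bound (α := α) (A := A) hr (x, a2) (1, 0) hn10 (bounds (q1 x hx')).1
          have j2 := jf_bound (α := α) (A := A) hr (x, b2) (1, 0) hn10 (bounds (q2 x hx')).1
          rw [add_div]
          exact (norm_sub_le _ _).trans (add_le_add j1 j2)
        · exact (((c1 a2).add (c1 b2)).div_const _).intervalIntegrable _ _
      have i2 : ‖∫ y in a2..b2, (B (b1, y) (0, 1) - B (a1, y) (0, 1))‖ ≤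
          ∫ y in a2..b2, (en r α A (b1, y) + en r α A (a1, y)) / √r := by
        refine intervalIntegral.norm_integral_le_of_norm_le h2.le ?_ ?_
        · refine Eventually.of_forall fun x hx => ?_
          have hx' : x ∈ Icc a2 b2 := Ioc_subset_Icc_self hx
          have j1 := jf_bound (α := α) (A := A) hr (b1, x) (0, 1) hn01 (bounds (q4 x hx')).1
          have j2 := jf_bound (α := α) (A := A) hr (a1, x) (0, 1) hn01 (bounds (q3 x hx')).1
          rw [add_div]
          exact (norm_sub_le _ _).trans (add_le_add j1 j2)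
        · exact (((c2 b1).add (c2 a1)).div_const _).intervalIntegrable _ _
      rw [intervalIntegral.integral_div] at i1 i2
      rw [hE, bdF, bdI, add_div]
      exact (abs_add_le _ _).trans (add_le_add i1 i2)
    have hbd : |bdI B a1 b1 a2 b2| ≤ 1 / 75 := hb.trans hEr
    rcases eq_or_ne N 0 with h0 | h0
    · have : |F| ≤ E / √r := by
        rw [hN, h0]
        simp only [Int.cast_zero, mul_zero, zero_sub, abs_neg]
        exact hb
      have h9 : 0 ≤ E / √r := by positivity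
      nlinarith [sq_nonneg F]
    · have hN1 : (1 : ℝ) ≤ |(N : ℝ)| := by
        have := Int.one_le_abs h0
        exact_mod_cast this
      have hpi := Real.pi_gt_three
      have h10 : 6 ≤ |2 * Real.pi * N| := by
        rw [abs_mul, abs_of_pos (by positivity)]
        nlinarith
      have h11 : |2 * Real.pi * N| - |bdI B a1 b1 a2 b2| ≤ |F| := by
        rw [hN]; exact abs_sub_abs_le_abs_sub _ _
      have h12 : 1 ≤ |F| := by linarith
      have h13 : |F| ≤ F ^ 2 := by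
        rw [← sq_abs]; nlinarith
      have h9 : 0 ≤ E / √r := by positivity
      nlinarith [sq_nonneg F]

end

end Crest.Agent.R235.SwcNear_915
end

-- ▼ part R235/SwcSlice_751
section

/-!
Row 235, package SWC-AN, task 391 (helper751): GREEN, WIND, SLICE of `SwcDefs_34`.
-/

set_option autoImplicit false

open Set MeasureTheory Filter Topology
open scoped ContDiff ComplexConjugate

namespace Crest.Agent.R235.SwcSlice_751

open Crest.Agent.R235.SwcDefs_34

noncomputable section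

theorem dd_apply {V : Type} [NormedAddCommGroup V] [NormedSpace ℝ V] (B : V → V →L[ℝ] ℝ)
    (p u v : V) : dd B p u v = fderiv ℝ B p u v - fderiv ℝ B p v u := by
  simp [dd, ContinuousLinearMap.flip_apply]

/-- evaluation of a 1-form along a continuous map is continuous -/
theorem cont_ev {X V : Type} [TopologicalSpace X] [NormedAddCommGroup V] [NormedSpace ℝ V]
    {B : V → V →L[ℝ] ℝ} (hB : Continuous B) {c : X → V} (hc : Continuous c) (v : V) :
    Continuous fun x => B (c x) v :=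
  (ContinuousLinearMap.apply ℝ ℝ v).continuous.comp (hB.comp hc)

theorem green : GREEN := by
  intro B hB a1 b1 a2 b2 h1 h2
  have hd : Differentiable ℝ B := hB.differentiable (by simp)
  have hc : Continuous (fderiv ℝ B) := hB.continuous_fderiv (by simp)
  have hB0 : Continuous B := hB.continuous
  have hev : ∀ v : ℝ × ℝ, ∀ p, HasFDerivAt (fun p => B p v)
      ((ContinuousLinearMap.apply ℝ ℝ v).comp (fderiv ℝ B p)) p := fun v p =>
    (ContinuousLinearMap.apply ℝ ℝ v).hasFDerivAt.comp p (hd p).hasFDerivAt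
  have key := integral2_divergence_prod_of_hasFDerivAt_off_countable
    (fun p => B p (0, 1)) (fun p => - B p (1, 0))
    (fun p => (ContinuousLinearMap.apply ℝ ℝ ((0, 1) : ℝ × ℝ)).comp (fderiv ℝ B p))
    (fun p => - (ContinuousLinearMap.apply ℝ ℝ ((1, 0) : ℝ × ℝ)).comp (fderiv ℝ B p))
    a1 a2 b1 b2 ∅ countable_empty
    (cont_ev hB0 continuous_id _).continuousOn
    (cont_ev hB0 continuous_id _).neg.continuousOn
    (fun p _ => hev _ p) (fun p _ => (hev _ p).neg)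
    (by
      refine ContinuousOn.integrableOn_compact (isCompact_uIcc.prod isCompact_uIcc)
        (Continuous.continuousOn ?_)
      refine Continuous.add ?_ ?_
      · exact (ContinuousLinearMap.apply ℝ ℝ ((0, 1) : ℝ × ℝ)).continuous.comp
          ((ContinuousLinearMap.apply ℝ (ℝ × ℝ →L[ℝ] ℝ) ((1, 0) : ℝ × ℝ)).continuous.comp hc)
      · exact ((ContinuousLinearMap.apply ℝ ℝ ((1, 0) : ℝ × ℝ)).continuous.comp
          ((ContinuousLinearMap.apply ℝ (ℝ × ℝ →L[ℝ] ℝ) ((0, 1) : ℝ × ℝ)).continuous.comp hc)).neg)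
  have e1 : ∀ x y : ℝ, dd B (x, y) (1, 0) (0, 1) =
      ((ContinuousLinearMap.apply ℝ ℝ ((0, 1) : ℝ × ℝ)).comp (fderiv ℝ B (x, y))) (1, 0) +
        (- (ContinuousLinearMap.apply ℝ ℝ ((1, 0) : ℝ × ℝ)).comp (fderiv ℝ B (x, y))) (0, 1) := by
    intro x y
    simp [dd_apply, sub_eq_add_neg]
  simp only [e1]
  rw [key]
  unfold bdI
  have ci : ∀ (v : ℝ × ℝ) (c : ℝ → ℝ × ℝ), Continuous c → ∀ a b : ℝ,
      IntervalIntegrable (fun x => B (c x) v) volume a b := fun v c hc a b =>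
    (cont_ev hB0 hc v).intervalIntegrable a b
  rw [intervalIntegral.integral_sub (ci _ _ (by fun_prop) _ _) (ci _ _ (by fun_prop) _ _),
    intervalIntegral.integral_sub (ci _ _ (by fun_prop) _ _) (ci _ _ (by fun_prop) _ _),
    intervalIntegral.integral_neg, intervalIntegral.integral_neg]
  ring

/-- along a curve without zeros the logarithmic derivative integrates to a logarithm -/
theorem exp_int {g g' : ℝ → ℂ} {a b : ℝ} (hab : a ≤ b) (hg : ∀ t, HasDerivAt g (g' t) t)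
    (hg' : Continuous g') (h0 : ∀ t ∈ Icc a b, g t ≠ 0) :
    IntervalIntegrable (fun t => g' t / g t) volume a b ∧
      g b = g a * Complex.exp (∫ t in a..b, g' t / g t) := by
  have hgc : Continuous g := continuous_iff_continuousAt.2 fun t => (hg t).continuousAt
  have hq : ContinuousOn (fun t => g' t / g t) (Icc a b) :=
    hg'.continuousOn.div hgc.continuousOn h0
  have hqi : IntervalIntegrable (fun t => g' t / g t) volume a b :=
    ContinuousOn.intervalIntegrable (by rwa [uIcc_of_le hab])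
  refine ⟨hqi, ?_⟩
  -- `F t = g t * exp (-∫_a^t)` is constant
  set P : ℝ → ℂ := fun t => ∫ u in a..t, g' u / g u with hP
  have hmeas : Measurable fun t => g' t / g t := hg'.measurable.div hgc.measurable
  have hPd : ∀ t ∈ Icc a b, HasDerivAt P (g' t / g t) t := by
    intro t ht
    have hti : IntervalIntegrable (fun t => g' t / g t) volume a t :=
      hqi.mono_set (by
        rw [uIcc_of_le hab, uIcc_of_le ht.1]
        exact Icc_subset_Icc_right ht.2)
    have hcat : ContinuousAt (fun t => g' t / g t) t :=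
      hg'.continuousAt.div hgc.continuousAt (h0 t ht)
    exact intervalIntegral.integral_hasDerivAt_right hti
      hmeas.stronglyMeasurable.stronglyMeasurableAtFilter hcat
  have hF : ∀ t ∈ Icc a b, HasDerivAt (fun t => g t * Complex.exp (-P t)) 0 t := by
    intro t ht
    have h1 := (hg t).mul ((hPd t ht).neg.cexp)
    have hz : g t ≠ 0 := h0 t ht
    have h2 : g' t * Complex.exp (-P t) + g t * (Complex.exp (-P t) * -(g' t / g t)) = 0 := by
      field_simp
      ring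
    rw [← h2]
    exact h1
  have hcst := constant_of_has_deriv_right_zero (f := fun t => g t * Complex.exp (-P t))
    (fun t ht => (hF t ht).continuousAt.continuousWithinAt)
    (fun t ht => (hF t (Ico_subset_Icc_self ht)).hasDerivWithinAt) b (right_mem_Icc.2 hab)
  have hPa : P a = 0 := by simp [hP]
  simp only [hPa, neg_zero, Complex.exp_zero, mul_one] at hcst
  rw [← hcst, mul_assoc, ← Complex.exp_add]
  simp [hP]

/-- the logarithmic derivative 1-form -/
def lf (α : ℝ × ℝ → ℂ) (p : ℝ × ℝ) : ℝ × ℝ →L[ℝ] ℝ :=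
  (‖α p‖ ^ 2)⁻¹ • ((α p).re • (Complex.imCLM.comp (fderiv ℝ α p)) -
    (α p).im • (Complex.reCLM.comp (fderiv ℝ α p)))

theorem lf_apply (α : ℝ × ℝ → ℂ) (p v : ℝ × ℝ) (h0 : α p ≠ 0) :
    lf α p v = (fderiv ℝ α p v / α p).im := by
  have h : (‖α p‖ ^ 2) = Complex.normSq (α p) := by rw [Complex.normSq_eq_norm_sq]
  have h1 : Complex.normSq (α p) ≠ 0 := by rwa [Ne, Complex.normSq_eq_zero]
  simp only [lf, smul_apply, sub_apply,
    ContinuousLinearMap.comp_apply, Complex.imCLM_apply, Complex.reCLM_apply, smul_eq_mul, h,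
    Complex.div_im]
  field_simp

/-- a side of the rectangle -/
theorem side {α : ℝ × ℝ → ℂ} (hα : ContDiff ℝ ∞ α) {a b : ℝ} (hab : a ≤ b) (c : ℝ → ℝ × ℝ)
    (v : ℝ × ℝ) (hc : ∀ t, HasDerivAt c v t) (h0 : ∀ t ∈ Icc a b, α (c t) ≠ 0) :
    ∃ L : ℂ, α (c b) = α (c a) * Complex.exp L ∧
      IntervalIntegrable (fun t => lf α (c t) v) volume a b ∧
      ∫ t in a..b, lf α (c t) v = L.im := by
  have hd : Differentiable ℝ α := hα.differentiable (by simp)
  have hcf : Continuous (fderiv ℝ α) := hα.continuous_fderiv (by simp)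
  have hcc : Continuous c := continuous_iff_continuousAt.2 fun t => (hc t).continuousAt
  have hg : ∀ t, HasDerivAt (fun t => α (c t)) (fderiv ℝ α (c t) v) t := fun t =>
    (hd (c t)).hasFDerivAt.comp_hasDerivAt t (hc t)
  have hg' : Continuous fun t => fderiv ℝ α (c t) v :=
    (ContinuousLinearMap.apply ℝ ℂ v).continuous.comp (hcf.comp hcc)
  obtain ⟨hi, he⟩ := exp_int hab hg hg' h0
  have e1 : EqOn (fun t => (fderiv ℝ α (c t) v / α (c t)).im) (fun t => lf α (c t) v)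
      (uIcc a b) := by
    intro t ht
    rw [uIcc_of_le hab] at ht
    exact (lf_apply α (c t) v (h0 t ht)).symm
  have hi2 : IntervalIntegrable (fun t => (fderiv ℝ α (c t) v / α (c t)).im) volume a b := by
    rw [intervalIntegrable_iff] at hi ⊢
    exact hi.im
  refine ⟨_, he, hi2.congr (fun t ht => e1 (uIoc_subset_uIcc ht)), ?_⟩
  rw [← intervalIntegral.integral_congr e1]
  exact Complex.imCLM.intervalIntegral_comp_comm hi

theorem wind : WIND := by
  intro α hα a1 b1 a2 b2 h1 h2 hx hy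
  have hd1 : ∀ (z : ℝ) (t : ℝ), HasDerivAt (fun x : ℝ => (x, z)) ((1, 0) : ℝ × ℝ) t := fun z t =>
    (hasDerivAt_id t).prodMk (hasDerivAt_const t z)
  have hd2 : ∀ (z : ℝ) (t : ℝ), HasDerivAt (fun y : ℝ => (z, y)) ((0, 1) : ℝ × ℝ) t := fun z t =>
    (hasDerivAt_const t z).prodMk (hasDerivAt_id t)
  obtain ⟨L1, e1, i1, j1⟩ := side hα h1 (fun x => (x, a2)) (1, 0) (hd1 a2) (fun t ht => (hx t ht).1)
  obtain ⟨L2, e2, i2, j2⟩ := side hα h1 (fun x => (x, b2)) (1, 0) (hd1 b2) (fun t ht => (hx t ht).2)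
  obtain ⟨L3, e3, i3, j3⟩ := side hα h2 (fun y => (a1, y)) (0, 1) (hd2 a1) (fun t ht => (hy t ht).1)
  obtain ⟨L4, e4, i4, j4⟩ := side hα h2 (fun y => (b1, y)) (0, 1) (hd2 b1) (fun t ht => (hy t ht).2)
  have hne : α (a1, a2) ≠ 0 := (hx a1 (left_mem_Icc.2 h1)).1
  have hexp : Complex.exp (L1 + L4 - L2 - L3) = 1 := by
    have h5 : α (b1, b2) = α (a1, a2) * Complex.exp (L1 + L4) := by
      rw [Complex.exp_add, ← mul_assoc, ← e1]; exact e4
    have h6 : α (b1, b2) = α (a1, a2) * Complex.exp (L3 + L2) := by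
      rw [Complex.exp_add, ← mul_assoc, ← e3]; exact e2
    have h7 : Complex.exp (L1 + L4) = Complex.exp (L3 + L2) :=
      mul_left_cancel₀ hne (h5.symm.trans h6)
    have h8 : L1 + L4 - L2 - L3 = (L1 + L4) - (L3 + L2) := by ring
    rw [h8, Complex.exp_sub, h7, div_self (Complex.exp_ne_zero _)]
  obtain ⟨N, hN⟩ := Complex.exp_eq_one_iff.1 hexp
  refine ⟨N, ?_⟩
  have h9 : (L1 + L4 - L2 - L3).im = 2 * Real.pi * N := by
    rw [hN]; simp; ring
  simp only [Complex.sub_im, Complex.add_im] at h9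
  change bdI (lf α) a1 b1 a2 b2 = _
  unfold bdI
  rw [intervalIntegral.integral_sub i1 i2, intervalIntegral.integral_sub i4 i3, j1, j2, j3, j4,
    ← h9]
  ring

theorem jf_apply {V : Type} [NormedAddCommGroup V] [NormedSpace ℝ V] (α : V → ℂ)
    (A : V → V →L[ℝ] ℝ) (p v : V) : jf α A p v =
      ((α p).re * (fderiv ℝ α p v).im - (α p).im * (fderiv ℝ α p v).re) -
        A p v * ‖α p‖ ^ 2 := by
  have h : (‖α p‖ ^ 2) = (α p).re * (α p).re + (α p).im * (α p).im := by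
    rw [← Complex.normSq_apply, Complex.normSq_eq_norm_sq]
  rw [h]
  simp only [jf, eta]
  simp
  ring

/-- `A + jf` on the set where `α ≠ 0` -/
theorem jf_eq (α : ℝ × ℝ → ℂ) (A : ℝ × ℝ → ℝ × ℝ →L[ℝ] ℝ) (p v : ℝ × ℝ) (h0 : α p ≠ 0) :
    (A p + jf α A p) v =
      lf α p v - (((1 - ‖α p‖ ^ 2) / ‖α p‖ ^ 2) • jf α A p) v := by
  have h1 : ‖α p‖ ^ 2 ≠ 0 := pow_ne_zero _ (norm_ne_zero_iff.2 h0)
  have h2 : lf α p v = (‖α p‖ ^ 2)⁻¹ *
      ((α p).re * (fderiv ℝ α p v).im - (α p).im * (fderiv ℝ α p v).re) := by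
    simp [lf]
  rw [add_apply, smul_apply, jf_apply, h2, smul_eq_mul]
  field_simp
  ring

theorem slice (hP : PSID) : SLICE := by
  intro α A hα hA a1 b1 a2 b2 h1 h2 hx hy
  obtain ⟨hs, hpsi⟩ := hP (ℝ × ℝ) α A hα hA
  obtain ⟨N, hN⟩ := wind α hα a1 b1 a2 b2 h1 h2 hx hy
  refine ⟨N, ?_⟩
  simp only [hpsi]
  rw [green _ hs a1 b1 a2 b2 h1 h2, ← hN]
  change bdI (fun p => A p + jf α A p) a1 b1 a2 b2 = bdI (lf α) a1 b1 a2 b2 - _
  have hAc : Continuous A := hA.continuous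
  have hsc : Continuous fun p => A p + jf α A p := hs.continuous
  have hac : Continuous α := hα.continuous
  have hjc : Continuous fun p => jf α A p := by
    have : (fun p => jf α A p) = fun p => (A p + jf α A p) - A p := by
      funext p; simp
    rw [this]; exact hsc.sub hAc
  -- the error term along a side
  have key : ∀ (a b : ℝ), a ≤ b → ∀ (c : ℝ → ℝ × ℝ) (v : ℝ × ℝ), Continuous c →
      (∀ t ∈ Icc a b, α (c t) ≠ 0) →
      ContinuousOn (fun t => (((1 - ‖α (c t)‖ ^ 2) / ‖α (c t)‖ ^ 2) • jf α A (c t)) v) (Icc a b) ∧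
      ContinuousOn (fun t => lf α (c t) v) (Icc a b) := by
    intro a b hab c v hc h0
    have hk : ContinuousOn (fun t => (((1 - ‖α (c t)‖ ^ 2) / ‖α (c t)‖ ^ 2) • jf α A (c t)) v)
        (Icc a b) := by
      simp only [smul_apply, smul_eq_mul]
      refine ContinuousOn.mul (ContinuousOn.div ?_ ?_ ?_) ?_
      · exact (continuous_const.sub (((hac.comp hc).norm).pow 2)).continuousOn
      · exact (((hac.comp hc).norm).pow 2).continuousOn
      · intro t ht
        exact pow_ne_zero _ (norm_ne_zero_iff.2 (h0 t ht))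
      · exact (cont_ev hjc hc v).continuousOn
    refine ⟨hk, ?_⟩
    have e : EqOn (fun t => lf α (c t) v) (fun t => (A (c t) + jf α A (c t)) v +
        (((1 - ‖α (c t)‖ ^ 2) / ‖α (c t)‖ ^ 2) • jf α A (c t)) v) (Icc a b) := by
      intro t ht
      simp only
      rw [jf_eq α A (c t) v (h0 t ht)]
      ring
    exact ((cont_ev hsc hc v).continuousOn.add hk).congr e
  have hint : ∀ (a b : ℝ), a ≤ b → ∀ (f : ℝ → ℝ), ContinuousOn f (Icc a b) →
      IntervalIntegrable f volume a b := fun a b hab f hf =>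
    ContinuousOn.intervalIntegrable (by rwa [uIcc_of_le hab])
  have c1 : ∀ z : ℝ, Continuous fun x : ℝ => ((x, z) : ℝ × ℝ) := fun z => by fun_prop
  have c2 : ∀ z : ℝ, Continuous fun y : ℝ => ((z, y) : ℝ × ℝ) := fun z => by fun_prop
  have k1 := key a1 b1 h1 (fun x => (x, a2)) (1, 0) (c1 a2) (fun t ht => (hx t ht).1)
  have k2 := key a1 b1 h1 (fun x => (x, b2)) (1, 0) (c1 b2) (fun t ht => (hx t ht).2)
  have k3 := key a2 b2 h2 (fun y => (a1, y)) (0, 1) (c2 a1) (fun t ht => (hy t ht).1)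
  have k4 := key a2 b2 h2 (fun y => (b1, y)) (0, 1) (c2 b1) (fun t ht => (hy t ht).2)
  unfold bdI
  have e1 : ∫ x in a1..b1, ((A (x, a2) + jf α A (x, a2)) (1, 0) -
      (A (x, b2) + jf α A (x, b2)) (1, 0)) =
      (∫ x in a1..b1, (lf α (x, a2) (1, 0) - lf α (x, b2) (1, 0))) -
      ∫ x in a1..b1, ((((1 - ‖α (x, a2)‖ ^ 2) / ‖α (x, a2)‖ ^ 2) • jf α A (x, a2)) (1, 0) -
        (((1 - ‖α (x, b2)‖ ^ 2) / ‖α (x, b2)‖ ^ 2) • jf α A (x, b2)) (1, 0)) := by
    refine Eq.trans (intervalIntegral.integral_congr ?_)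
      (intervalIntegral.integral_sub (hint a1 b1 h1 _ (k1.2.sub k2.2))
      (hint a1 b1 h1 _ (k1.1.sub k2.1)))
    intro x hx'
    rw [uIcc_of_le h1] at hx'
    simp only
    rw [jf_eq α A (x, a2) _ (hx x hx').1, jf_eq α A (x, b2) _ (hx x hx').2]
    ring
  have e2 : ∫ y in a2..b2, ((A (b1, y) + jf α A (b1, y)) (0, 1) -
      (A (a1, y) + jf α A (a1, y)) (0, 1)) =
      (∫ y in a2..b2, (lf α (b1, y) (0, 1) - lf α (a1, y) (0, 1))) -
      ∫ y in a2..b2, ((((1 - ‖α (b1, y)‖ ^ 2) / ‖α (b1, y)‖ ^ 2) • jf α A (b1, y)) (0, 1) -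
        (((1 - ‖α (a1, y)‖ ^ 2) / ‖α (a1, y)‖ ^ 2) • jf α A (a1, y)) (0, 1)) := by
    refine Eq.trans (intervalIntegral.integral_congr ?_)
      (intervalIntegral.integral_sub (hint a2 b2 h2 _ (k4.2.sub k3.2))
      (hint a2 b2 h2 _ (k4.1.sub k3.1)))
    intro y hy'
    rw [uIcc_of_le h2] at hy'
    simp only
    rw [jf_eq α A (b1, y) _ (hy y hy').2, jf_eq α A (a1, y) _ (hy y hy').1]
    ring
  rw [e1, e2]
  ring

end

end Crest.Agent.R235.SwcSlice_751
end

-- ▼ part R235/Dens4_181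
section

/-!
# R235, SWC-AN: clearing lemma (leaf C, DENS)

A locally finite measure on a space of dimension at most four whose ball masses
satisfy the quadratic inequality
`m (B x t) ≤ C * (t⁻² * m (B x (L t)) ^ 2 + t * m (B x (L t)) + t ^ 6)`
has a universal lower quadratic density at every point of its support.
-/

open MeasureTheory Metric Set Filter Topology Module

namespace Crest.Agent.R235.Dens4_181

/-- the universal small constant -/
noncomputable def del (C L : ℝ) : ℝ := 1 / (2 * L ^ 6 * (C + 1) * (L ^ 2 + 1))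

/-- the density threshold -/
noncomputable def eps0 (C L : ℝ) : ℝ := del C L / 4

/-- the scale threshold -/
noncomputable def s1 (C L : ℝ) : ℝ := min 1 (del C L / (2 * (C + 1)))

section const

variable {C L : ℝ} (hC : 0 ≤ C) (hL : 1 < L)
include hC hL

theorem del_pos : 0 < del C L := by
  unfold del
  positivity


theorem s1_pos : 0 < s1 C L := by
  have := del_pos hC hL
  unfold s1
  positivity

theorem s1_le_del : s1 C L ≤ del C L := by
  have h := del_pos hC hL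
  refine (min_le_right _ _).trans ?_
  rw [div_le_iff₀ (by positivity)]
  nlinarith

theorem mul_s1_le : C * s1 C L ≤ del C L / 2 := by
  have h := del_pos hC hL
  have h1 : s1 C L ≤ del C L / (2 * (C + 1)) := min_le_right _ _
  calc C * s1 C L ≤ (C + 1) * (del C L / (2 * (C + 1))) := by
        have := s1_pos hC hL
        gcongr
        linarith
    _ = del C L / 2 := by field_simp

/-- `κ = C δ (L² + 1) ≤ 1 / (2 L⁶)` -/
theorem kap_le : C * del C L * (L ^ 2 + 1) ≤ 1 / (2 * L ^ 6) := by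
  have hL0 : 0 < L := by linarith
  unfold del
  rw [div_eq_mul_inv, one_mul, div_eq_mul_inv, one_mul]
  have h1 : C * (2 * L ^ 6 * (C + 1) * (L ^ 2 + 1))⁻¹ * (L ^ 2 + 1)
      = (C * (C + 1)⁻¹) * (2 * L ^ 6)⁻¹ := by
    field_simp
  rw [h1]
  have h2 : C * (C + 1)⁻¹ ≤ 1 := by
    rw [← div_eq_mul_inv, div_le_one (by positivity)]
    linarith
  have h3 : 0 ≤ (2 * L ^ 6)⁻¹ := by positivity
  nlinarith

end const

/-- One step of the iteration: quadratic smallness and fifth power decay. -/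
theorem step {C L : ℝ} (hC : 0 ≤ C) (hL : 1 < L) {t A A' M : ℝ} (ht : 0 < t)
    (hts : t ≤ s1 C L) (hA0 : 0 ≤ A)
    (hrec : A' ≤ C * (t⁻¹ ^ 2 * A ^ 2 + t * A + t ^ 6))
    (hA : A ≤ del C L * (L * t) ^ 2) (hM : A ≤ M * (L * t) ^ 5) (hM' : 2 * C * t ≤ M) :
    A' ≤ del C L * t ^ 2 ∧ A' ≤ M * t ^ 5 := by
  have hd := del_pos hC hL
  have hk := kap_le hC hL
  have hs := mul_s1_le hC hL
  have ht1 : t ≤ 1 := hts.trans (min_le_left _ _)
  have htd : t ≤ del C L := hts.trans (s1_le_del hC hL)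
  have hL0 : 0 < L := by linarith
  set δ := del C L with hδ
  -- linearise
  have h1 : t⁻¹ ^ 2 * A ^ 2 ≤ δ * L ^ 2 * A := by
    have : t⁻¹ ^ 2 * A ^ 2 = (t⁻¹ ^ 2 * A) * A := by ring
    rw [this]
    refine mul_le_mul_of_nonneg_right ?_ hA0
    calc t⁻¹ ^ 2 * A ≤ t⁻¹ ^ 2 * (δ * (L * t) ^ 2) := by gcongr
      _ = δ * L ^ 2 := by field_simp
  have h2 : A' ≤ C * δ * (L ^ 2 + 1) * A + C * t ^ 6 := by
    refine hrec.trans ?_
    have h3 : t * A ≤ δ * A := by gcongr
    have h4 : t⁻¹ ^ 2 * A ^ 2 + t * A + t ^ 6 ≤ δ * L ^ 2 * A + δ * A + t ^ 6 := by linarith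
    calc C * (t⁻¹ ^ 2 * A ^ 2 + t * A + t ^ 6) ≤ C * (δ * L ^ 2 * A + δ * A + t ^ 6) := by
          gcongr
      _ = C * δ * (L ^ 2 + 1) * A + C * t ^ 6 := by ring
  have h5 : A' ≤ 1 / (2 * L ^ 6) * A + C * t ^ 6 := by
    have : C * δ * (L ^ 2 + 1) * A ≤ 1 / (2 * L ^ 6) * A := by gcongr
    linarith
  have hL6 : (0 : ℝ) < L ^ 6 := by positivity
  have hL1 : (1 : ℝ) ≤ L := hL.le
  constructor
  · have h6 : 1 / (2 * L ^ 6) * A ≤ δ * t ^ 2 / 2 := by
      calc 1 / (2 * L ^ 6) * A ≤ 1 / (2 * L ^ 6) * (δ * (L * t) ^ 2) := by gcongr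
        _ = (1 / L ^ 4) * (δ * t ^ 2 / 2) := by field_simp
        _ ≤ 1 * (δ * t ^ 2 / 2) := by
            gcongr
            rw [div_le_one (by positivity)]
            exact one_le_pow₀ hL1
        _ = δ * t ^ 2 / 2 := one_mul _
    have h7 : C * t ^ 6 ≤ δ * t ^ 2 / 2 := by
      have h8 : C * t ≤ δ / 2 := (mul_le_mul_of_nonneg_left hts hC).trans hs
      have h9 : t ^ 3 ≤ 1 := pow_le_one₀ ht.le ht1
      calc C * t ^ 6 = (C * t) * t ^ 3 * t ^ 2 := by ring
        _ ≤ (δ / 2) * 1 * t ^ 2 := by gcongr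
        _ = δ * t ^ 2 / 2 := by ring
    linarith
  · have hM0 : 0 ≤ M := by
      have : 0 ≤ 2 * C * t := by positivity
      linarith
    have h6 : 1 / (2 * L ^ 6) * A ≤ M * t ^ 5 / 2 := by
      calc 1 / (2 * L ^ 6) * A ≤ 1 / (2 * L ^ 6) * (M * (L * t) ^ 5) := by gcongr
        _ = (1 / L) * (M * t ^ 5 / 2) := by field_simp
        _ ≤ 1 * (M * t ^ 5 / 2) := by
            gcongr
            rw [div_le_one (by positivity)]
            exact hL1
        _ = M * t ^ 5 / 2 := one_mul _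
    have h7 : C * t ^ 6 ≤ M * t ^ 5 / 2 := by
      calc C * t ^ 6 = (2 * C * t) * t ^ 5 / 2 := by ring
        _ ≤ M * t ^ 5 / 2 := by gcongr
    linarith

variable {E : Type*} [NormedAddCommGroup E] [NormedSpace ℝ E] [FiniteDimensional ℝ E]
  [MeasurableSpace E] [BorelSpace E]

omit [NormedSpace ℝ E] [FiniteDimensional ℝ E] [BorelSpace E] in
/-- Decay of the ball masses along a geometric sequence of radii. -/
theorem decay (μ : Measure E) [IsLocallyFiniteMeasure μ] {C L : ℝ} (hC : 0 ≤ C) (hL : 1 < L)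
    {x : E} {t0 : ℝ} (ht0 : 0 < t0) (hts : t0 ≤ s1 C L)
    (H : ∀ t, 0 < t → L * t ≤ t0 → μ.real (closedBall x t) ≤
      C * (t⁻¹ ^ 2 * μ.real (closedBall x (L * t)) ^ 2 + t * μ.real (closedBall x (L * t)) + t ^ 6))
    (h0 : μ.real (closedBall x t0) ≤ del C L * t0 ^ 2) (k : ℕ) :
    μ.real (closedBall x (t0 / L ^ k)) ≤ del C L * (t0 / L ^ k) ^ 2 ∧
    μ.real (closedBall x (t0 / L ^ k)) ≤ (del C L / t0 ^ 3 + 2 * C * t0) * (t0 / L ^ k) ^ 5 := by
  have hL0 : 0 < L := by linarith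
  have hd := del_pos hC hL
  induction k with
  | zero =>
    simp only [pow_zero, div_one]
    refine ⟨h0, h0.trans ?_⟩
    have : del C L * t0 ^ 2 = del C L / t0 ^ 3 * t0 ^ 5 := by field_simp
    rw [this]
    have : 0 ≤ 2 * C * t0 := by positivity
    gcongr
    linarith
  | succ k ih =>
    have hLk : L * (t0 / L ^ (k + 1)) = t0 / L ^ k := by
      rw [pow_succ]
      field_simp
    have hle : t0 / L ^ k ≤ t0 := div_le_self ht0.le (one_le_pow₀ hL.le)
    have hle' : t0 / L ^ (k + 1) ≤ t0 := div_le_self ht0.le (one_le_pow₀ hL.le)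
    have hpos : 0 < t0 / L ^ (k + 1) := by positivity
    refine step hC hL hpos (hle'.trans hts) (A := μ.real (closedBall x (t0 / L ^ k)))
      measureReal_nonneg ?_ ?_ ?_ ?_
    · have := H _ hpos (by rw [hLk]; exact hle)
      rwa [hLk] at this
    · rw [hLk]; exact ih.1
    · rw [hLk]; exact ih.2
    · have h1 : 0 ≤ del C L / t0 ^ 3 := by positivity
      have h2 : 2 * C * (t0 / L ^ (k + 1)) ≤ 2 * C * t0 := by gcongr
      linarith

/-- Fubini: the average of the ball masses. -/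
theorem fub (μ : Measure E) [IsLocallyFiniteMeasure μ] (ν : Measure E) [ν.IsAddHaarMeasure]
    (x0 : E) (R r : ℝ) :
    μ (ball x0 (R - r)) * ν (closedBall 0 r) ≤
      ∫⁻ x in closedBall x0 R, μ (closedBall x r) ∂ν := by
  have : ProperSpace E := FiniteDimensional.proper ℝ E
  set S : Set (E × E) := {p | dist p.1 p.2 ≤ r} with hS
  have hSm : MeasurableSet S := (isClosed_le continuous_dist continuous_const).measurableSet
  have e1 : ((ν.restrict (closedBall x0 R)).prod μ) S =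
      ∫⁻ x in closedBall x0 R, μ (closedBall x r) ∂ν := by
    rw [Measure.prod_apply hSm]
    refine lintegral_congr fun x => ?_
    congr 1
    ext y
    simp [hS, mem_closedBall, dist_comm]
  rw [← e1, Measure.prod_apply_symm hSm]
  calc μ (ball x0 (R - r)) * ν (closedBall 0 r)
      = ∫⁻ _ in ball x0 (R - r), ν (closedBall 0 r) ∂μ := by
        rw [setLIntegral_const, mul_comm]
    _ ≤ ∫⁻ y in ball x0 (R - r), (ν.restrict (closedBall x0 R)) ((fun x => (x, y)) ⁻¹' S) ∂μ := by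
        refine setLIntegral_mono' measurableSet_ball fun y hy => ?_
        have hpre : (fun x => (x, y)) ⁻¹' S = closedBall y r := by
          ext x
          simp [hS, mem_closedBall]
        rw [hpre, Measure.restrict_apply measurableSet_closedBall]
        have hsub : closedBall y r ⊆ closedBall x0 R := by
          refine closedBall_subset_closedBall' ?_
          rw [mem_ball] at hy
          linarith
        rw [inter_eq_left.2 hsub]
        exact (Measure.addHaar_closedBall_center ν y r).ge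
    _ ≤ ∫⁻ y, (ν.restrict (closedBall x0 R)) ((fun x => (x, y)) ⁻¹' S) ∂μ :=
        setLIntegral_le_lintegral _ _

/-- **Clearing lemma.** In dimension at most four the quadratic inequality on all small balls
centred in `closedBall x0 (s/2)` and smallness of the quadratic density at scale `s` give
`μ = 0` on `ball x0 (s/2)`. The constants depend on `C`, `L` only. -/
theorem clear (μ : Measure E) [IsLocallyFiniteMeasure μ] (hd : finrank ℝ E ≤ 4)
    {C L : ℝ} (hC : 0 ≤ C) (hL : 1 < L) {x0 : E} {s : ℝ} (hs : 0 < s) (hss : s ≤ s1 C L)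
    (H : ∀ x ∈ closedBall x0 (s / 2), ∀ t, 0 < t → L * t ≤ s / 2 →
      μ.real (closedBall x t) ≤ C * (t⁻¹ ^ 2 * μ.real (closedBall x (L * t)) ^ 2 +
        t * μ.real (closedBall x (L * t)) + t ^ 6))
    (h0 : μ.real (closedBall x0 s) ≤ eps0 C L * s ^ 2) :
    μ (ball x0 (s / 2)) = 0 := by
  have : ProperSpace E := FiniteDimensional.proper ℝ E
  have hL0 : 0 < L := by linarith
  have hδ := del_pos hC hL
  set M : ℝ := del C L / (s / 2) ^ 3 + 2 * C * (s / 2) with hMdef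
  have hM0 : 0 ≤ M := by positivity
  set ν : Measure E := Measure.addHaar with hν
  -- decay at all points of the half ball
  have hdec : ∀ x ∈ closedBall x0 (s / 2), ∀ k : ℕ,
      μ.real (closedBall x (s / 2 / L ^ k)) ≤ M * (s / 2 / L ^ k) ^ 5 := by
    intro x hx k
    refine (decay μ hC hL (half_pos hs) (by linarith) (H x hx) ?_ k).2
    calc μ.real (closedBall x (s / 2)) ≤ μ.real (closedBall x0 s) := by
          refine measureReal_mono (closedBall_subset_closedBall' ?_)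
            (isCompact_closedBall _ _).measure_lt_top.ne
          rw [mem_closedBall] at hx
          linarith
      _ ≤ eps0 C L * s ^ 2 := h0
      _ = del C L * (s / 2) ^ 2 := by unfold eps0; ring
  -- radii
  set r : ℕ → ℝ := fun k => s / 2 / L ^ k with hr
  have hrpos : ∀ k, 0 < r k := fun k => by simp only [hr]; positivity
  have hrle : ∀ k, r k ≤ 1 := fun k => by
    have h1 : r k ≤ s / 2 := div_le_self (by positivity) (one_le_pow₀ hL.le)
    have h2 : s ≤ 1 := hss.trans (min_le_left _ _)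
    linarith
  have hrlim : Tendsto r atTop (𝓝 0) := by
    have : Tendsto (fun k : ℕ => L ^ k) atTop atTop := tendsto_pow_atTop_atTop_of_one_lt hL
    exact this.const_div_atTop _
  have hanti : Antitone r := by
    intro a b hab
    simp only [hr]
    gcongr
    exact hL.le
  -- main inequality
  have hkey : ∀ k, μ (ball x0 (s / 2 - r k)) ≤
      ENNReal.ofReal (M * r k) * ν (closedBall x0 (s / 2)) / ν (ball 0 1) := by
    intro k
    have h1 := fub μ ν x0 (s / 2) (r k)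
    have h2 : ∫⁻ x in closedBall x0 (s / 2), μ (closedBall x (r k)) ∂ν ≤
        ENNReal.ofReal (M * r k ^ 5) * ν (closedBall x0 (s / 2)) := by
      rw [← setLIntegral_const]
      refine setLIntegral_mono' measurableSet_closedBall fun x hx => ?_
      have h3 := hdec x hx k
      rw [← ofReal_measureReal (isCompact_closedBall _ _).measure_lt_top.ne]
      exact ENNReal.ofReal_le_ofReal h3
    have h3 : ν (closedBall (0 : E) (r k)) = ENNReal.ofReal (r k ^ finrank ℝ E) * ν (ball 0 1) :=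
      Measure.addHaar_closedBall ν 0 (hrpos k).le
    have h4 : ENNReal.ofReal (r k ^ 4) ≤ ENNReal.ofReal (r k ^ finrank ℝ E) :=
      ENNReal.ofReal_le_ofReal (pow_le_pow_of_le_one (hrpos k).le (hrle k) hd)
    have h5 : μ (ball x0 (s / 2 - r k)) * (ENNReal.ofReal (r k ^ 4) * ν (ball 0 1)) ≤
        ENNReal.ofReal (M * r k ^ 5) * ν (closedBall x0 (s / 2)) := by
      refine le_trans ?_ (h1.trans h2)
      rw [h3]
      gcongr
    have hb0 : ν (ball (0 : E) 1) ≠ 0 := (measure_ball_pos ν _ one_pos).ne'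
    have hbt : ν (ball (0 : E) 1) ≠ ⊤ := measure_ball_lt_top.ne
    have h6 : ENNReal.ofReal (M * r k ^ 5) = ENNReal.ofReal (r k ^ 4) * ENNReal.ofReal (M * r k) := by
      rw [← ENNReal.ofReal_mul (by have := hrpos k; positivity)]
      congr 1
      ring
    have h7 : ENNReal.ofReal (r k ^ 4) ≠ 0 := by
      have := hrpos k
      simp only [ne_eq, ENNReal.ofReal_eq_zero, not_le]
      positivity
    rw [ENNReal.le_div_iff_mul_le (Or.inl hb0) (Or.inl hbt)]
    rw [h6] at h5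
    have h8 : ENNReal.ofReal (r k ^ 4) * (μ (ball x0 (s / 2 - r k)) * ν (ball 0 1)) ≤
        ENNReal.ofReal (r k ^ 4) * (ENNReal.ofReal (M * r k) * ν (closedBall x0 (s / 2))) := by
      calc _ = μ (ball x0 (s / 2 - r k)) * (ENNReal.ofReal (r k ^ 4) * ν (ball 0 1)) := by ring
        _ ≤ _ := h5
        _ = _ := by ring
    exact (ENNReal.mul_le_mul_iff_right h7 ENNReal.ofReal_ne_top).1 h8
  -- each smaller ball is null
  have hnull : ∀ j, μ (ball x0 (s / 2 - r j)) = 0 := by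
    intro j
    have hlim : Tendsto (fun k => ENNReal.ofReal (M * r k) * ν (closedBall x0 (s / 2)) /
        ν (ball 0 1)) atTop (𝓝 0) := by
      have h1 : Tendsto (fun k => ENNReal.ofReal (M * r k)) atTop (𝓝 0) := by
        have : Tendsto (fun k => M * r k) atTop (𝓝 (M * 0)) := hrlim.const_mul M
        rw [mul_zero] at this
        simpa using ENNReal.tendsto_ofReal this
      have hc : ν (closedBall x0 (s / 2)) / ν (ball (0 : E) 1) ≠ ⊤ :=
        ENNReal.div_ne_top (isCompact_closedBall _ _).measure_lt_top.ne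
          (measure_ball_pos ν _ one_pos).ne'
      have h2 := ENNReal.Tendsto.mul_const h1 (Or.inr hc)
      simpa [mul_div_assoc] using h2
    refine le_antisymm (ge_of_tendsto hlim ?_) bot_le
    filter_upwards [eventually_ge_atTop j] with k hk
    refine le_trans (measure_mono (ball_subset_ball ?_)) (hkey k)
    have := hanti hk
    linarith
  have hU : ball x0 (s / 2) = ⋃ j, ball x0 (s / 2 - r j) := by
    ext y
    simp only [mem_ball, mem_iUnion]
    constructor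
    · intro hy
      have : ∀ᶠ k in atTop, r k < s / 2 - dist y x0 :=
        hrlim.eventually (gt_mem_nhds (by linarith))
      obtain ⟨k, hk⟩ := this.exists
      exact ⟨k, by linarith⟩
    · rintro ⟨k, hk⟩
      have := hrpos k
      linarith
  rw [hU]
  exact measure_iUnion_null hnull

/-- **Lower density at every point of the support.** -/
theorem dens (μ : Measure E) [IsLocallyFiniteMeasure μ] (hd : finrank ℝ E ≤ 4)
    {C L : ℝ} (hC : 0 ≤ C) (hL : 1 < L) {x0 : E} {s : ℝ} (hs : 0 < s) (hss : s ≤ s1 C L)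
    (H : ∀ x ∈ closedBall x0 (s / 2), ∀ t, 0 < t → L * t ≤ s / 2 →
      μ.real (closedBall x t) ≤ C * (t⁻¹ ^ 2 * μ.real (closedBall x (L * t)) ^ 2 +
        t * μ.real (closedBall x (L * t)) + t ^ 6))
    (hx : ∀ ρ > 0, 0 < μ (ball x0 ρ)) :
    eps0 C L * s ^ 2 < μ.real (closedBall x0 s) := by
  by_contra hcon
  have := clear μ hd hC hL hs hss H (not_lt.1 hcon)
  exact (hx (s / 2) (half_pos hs)).ne' this

end Crest.Agent.R235.Dens4_181
end

-- ▼ part R235/Dens_253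

/-!
Row 235 (S0364), SWC-AN leaf L5 (helper253): the exact Prop `SwcDefs_34.DENS`.
-/

set_option autoImplicit false

open MeasureTheory Metric Set Filter Topology Module

namespace Crest.Agent.R235.Dens_253

open Crest.Agent.R235.SwcDefs_34

variable {E : Type} [NormedAddCommGroup E] [NormedSpace ℝ E] [FiniteDimensional ℝ E]
  [MeasurableSpace E] [BorelSpace E]

/-- decay of ball masses at one centre. -/
theorem decay {L C K θ ε s : ℝ} (m : ℝ → ℝ) (hm : ∀ t, 0 ≤ m t) (hL : 1 ≤ L) (hC : 0 < C)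
    (hK : 0 < K) (hs : 0 < s) (hε : 0 ≤ ε) (hθ : 0 < θ) (hθL : θ * L ^ 2 ≤ 1)
    (hK1 : C / K ≤ θ / 2) (hε1 : 4 * C * K ^ 2 * L ^ 2 * ε ≤ θ / 2)
    (H : ∀ k : ℕ, m (s / 2 / L ^ (k + 1)) ≤ C * (K ^ 2 / (s / 2 / L ^ (k + 1)) ^ 2 *
      m (s / 2 / L ^ k) ^ 2 + m (s / 2 / L ^ k) / K))
    (h0 : m (s / 2) ≤ ε * s ^ 2) (k : ℕ) : m (s / 2 / L ^ k) ≤ θ ^ k * (ε * s ^ 2) := by
  have hL0 : 0 < L := by linarith
  induction k with
  | zero => simpa using h0
  | succ k ih =>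
    have h1 := H k
    set a := m (s / 2 / L ^ k) with ha
    have ha0 : 0 ≤ a := hm _
    have h2 : K ^ 2 / (s / 2 / L ^ (k + 1)) ^ 2 * a ≤ 4 * K ^ 2 * L ^ 2 * ε := by
      have e1 : K ^ 2 / (s / 2 / L ^ (k + 1)) ^ 2 * a
          ≤ K ^ 2 / (s / 2 / L ^ (k + 1)) ^ 2 * (θ ^ k * (ε * s ^ 2)) := by
        gcongr
      have e2 : K ^ 2 / (s / 2 / L ^ (k + 1)) ^ 2 * (θ ^ k * (ε * s ^ 2))
          = 4 * K ^ 2 * L ^ 2 * ε * (θ * L ^ 2) ^ k := by
        rw [mul_pow, ← pow_mul, pow_succ]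
        field_simp
        ring
      have e3 : (θ * L ^ 2) ^ k ≤ 1 := pow_le_one₀ (by positivity) hθL
      rw [e2] at e1
      refine e1.trans ?_
      have : 0 ≤ 4 * K ^ 2 * L ^ 2 * ε := by positivity
      nlinarith
    have h3 : m (s / 2 / L ^ (k + 1)) ≤ θ * a := by
      refine h1.trans ?_
      have e : C * (K ^ 2 / (s / 2 / L ^ (k + 1)) ^ 2 * a ^ 2 + a / K)
          = (C * (K ^ 2 / (s / 2 / L ^ (k + 1)) ^ 2 * a) + C / K) * a := by
        field_simp
      rw [e]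
      refine mul_le_mul_of_nonneg_right ?_ ha0
      have : C * (K ^ 2 / (s / 2 / L ^ (k + 1)) ^ 2 * a) ≤ C * (4 * K ^ 2 * L ^ 2 * ε) := by
        gcongr
      linarith
    calc m (s / 2 / L ^ (k + 1)) ≤ θ * a := h3
      _ ≤ θ * (θ ^ k * (ε * s ^ 2)) := by gcongr
      _ = θ ^ (k + 1) * (ε * s ^ 2) := by ring

/-- uniform decay faster than `L^{-d}` clears the half ball. -/
theorem clear (μ : Measure E) [IsLocallyFiniteMeasure μ] {L θ B s : ℝ} {x0 : E} (hL : 2 ≤ L)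
    (hs : 0 < s) (hB : 0 ≤ B) (hθ : 0 < θ) (hθL : θ * L ^ finrank ℝ E ≤ 1 / 2)
    (H : ∀ x ∈ closedBall x0 (s / 2), ∀ k : ℕ, μ.real (closedBall x (s / 2 / L ^ k)) ≤ θ ^ k * B) :
    μ (ball x0 (s / 4)) = 0 := by
  have : ProperSpace E := FiniteDimensional.proper ℝ E
  have hL0 : 0 < L := by linarith
  set ν : Measure E := Measure.addHaar with hν
  set r : ℕ → ℝ := fun k => s / 2 / L ^ k with hr
  have hrpos : ∀ k, 0 < r k := fun k => by simp only [hr]; positivity
  set d := finrank ℝ E with hd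
  have hb0 : ν (ball (0 : E) 1) ≠ 0 := (measure_ball_pos ν _ one_pos).ne'
  have hbt : ν (ball (0 : E) 1) ≠ ⊤ := measure_ball_lt_top.ne
  have hrk : ∀ k, 1 ≤ k → r k ≤ s / 4 := by
    intro k hk
    simp only [hr]
    rw [div_le_iff₀ (by positivity)]
    have : L ≤ L ^ k := le_self_pow₀ (by linarith) (by omega)
    nlinarith
  have hkey : ∀ k, 1 ≤ k → μ (ball x0 (s / 4)) ≤ ENNReal.ofReal (B * (1 / 2) ^ k) := by
    intro k hk
    have h1 := Dens4_181.fub μ ν x0 (s / 2) (r k)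
    have h2 : ∫⁻ x in closedBall x0 (s / 2), μ (closedBall x (r k)) ∂ν ≤
        ENNReal.ofReal (θ ^ k * B) * ν (closedBall x0 (s / 2)) := by
      rw [← setLIntegral_const]
      refine setLIntegral_mono' measurableSet_closedBall fun x hx => ?_
      have h3 := H x hx k
      rw [← ofReal_measureReal (isCompact_closedBall _ _).measure_lt_top.ne]
      exact ENNReal.ofReal_le_ofReal h3
    have h3 : ν (closedBall (0 : E) (r k)) = ENNReal.ofReal (r k ^ d) * ν (ball 0 1) :=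
      Measure.addHaar_closedBall ν 0 (hrpos k).le
    have h4 : ν (closedBall x0 (s / 2)) = ENNReal.ofReal ((s / 2) ^ d) * ν (ball 0 1) :=
      Measure.addHaar_closedBall ν x0 (by positivity)
    have h5 : μ (ball x0 (s / 4)) * (ENNReal.ofReal (r k ^ d) * ν (ball 0 1)) ≤
        ENNReal.ofReal (θ ^ k * B) * (ENNReal.ofReal ((s / 2) ^ d) * ν (ball 0 1)) := by
      rw [← h3, ← h4]
      refine le_trans ?_ (h1.trans h2)
      have : ball x0 (s / 4) ⊆ ball x0 (s / 2 - r k) := by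
        refine ball_subset_ball ?_
        have := hrk k hk
        linarith
      gcongr
    have h6 : θ ^ k * B * (s / 2) ^ d ≤ r k ^ d * (B * (1 / 2) ^ k) := by
      have e1 : (s / 2) ^ d = r k ^ d * (L ^ d) ^ k := by
        simp only [hr]
        rw [div_pow (s / 2), ← pow_mul, ← pow_mul, mul_comm k d]
        field_simp
      rw [e1]
      have e2 : (θ * L ^ d) ^ k ≤ (1 / 2) ^ k := pow_le_pow_left₀ (by positivity) hθL k
      calc θ ^ k * B * (r k ^ d * (L ^ d) ^ k) = r k ^ d * (B * (θ * L ^ d) ^ k) := by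
            rw [mul_pow]; ring
        _ ≤ r k ^ d * (B * (1 / 2) ^ k) := by
            have := hrpos k
            gcongr
    have h7 : ENNReal.ofReal (r k ^ d) ≠ 0 := by
      have := hrpos k
      simp only [ne_eq, ENNReal.ofReal_eq_zero, not_le]
      positivity
    have h8 : (ENNReal.ofReal (r k ^ d) * ν (ball (0 : E) 1)) * μ (ball x0 (s / 4)) ≤
        (ENNReal.ofReal (r k ^ d) * ν (ball (0 : E) 1)) * ENNReal.ofReal (B * (1 / 2) ^ k) := by
      calc (ENNReal.ofReal (r k ^ d) * ν (ball (0 : E) 1)) * μ (ball x0 (s / 4))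
          = μ (ball x0 (s / 4)) * (ENNReal.ofReal (r k ^ d) * ν (ball 0 1)) := by ring
        _ ≤ _ := h5
        _ = (ENNReal.ofReal (θ ^ k * B) * ENNReal.ofReal ((s / 2) ^ d)) * ν (ball (0 : E) 1) := by
            ring
        _ = ENNReal.ofReal (θ ^ k * B * (s / 2) ^ d) * ν (ball (0 : E) 1) := by
            rw [← ENNReal.ofReal_mul (by positivity)]
        _ ≤ ENNReal.ofReal (r k ^ d * (B * (1 / 2) ^ k)) * ν (ball (0 : E) 1) := by gcongr
        _ = _ := by
            rw [ENNReal.ofReal_mul (by have := hrpos k; positivity)]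
            ring
    exact (ENNReal.mul_le_mul_iff_right (mul_ne_zero h7 hb0)
      (ENNReal.mul_ne_top ENNReal.ofReal_ne_top hbt)).1 h8
  have hlim : Tendsto (fun k : ℕ => ENNReal.ofReal (B * (1 / 2) ^ k)) atTop (𝓝 0) := by
    have h1 : Tendsto (fun k : ℕ => B * (1 / 2 : ℝ) ^ k) atTop (𝓝 (B * 0)) :=
      (tendsto_pow_atTop_nhds_zero_of_lt_one (by norm_num) (by norm_num)).const_mul B
    rw [mul_zero] at h1
    simpa using ENNReal.tendsto_ofReal h1
  refine le_antisymm (ge_of_tendsto hlim ?_) bot_le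
  filter_upwards [eventually_ge_atTop 1] with k hk
  exact hkey k hk

theorem dens : SwcDefs_34.DENS := by
  intro E _ _ _ _ _ μ _ L0 C x0 R hL0 hC hR H
  have hprop : ProperSpace E := FiniteDimensional.proper ℝ E
  -- enlarge `L`
  set L : ℝ := max L0 2 with hLdef
  have hL2 : 2 ≤ L := le_max_right _ _
  have hL1 : 1 ≤ L := by linarith
  have hLp : 0 < L := by linarith
  have hLL : L0 ≤ L := le_max_left _ _
  have hfin : ∀ (x : E) (t : ℝ), μ (closedBall x t) ≠ ⊤ := fun x t =>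
    (isCompact_closedBall _ _).measure_lt_top.ne
  set d := finrank ℝ E with hd
  set θ : ℝ := 1 / L ^ (d + 2) with hθdef
  have hθ : 0 < θ := by positivity
  have hθL2 : θ * L ^ 2 ≤ 1 := by
    rw [hθdef, pow_add]
    have : 1 ≤ L ^ d := one_le_pow₀ hL1
    have h2 : 1 / (L ^ d * L ^ 2) * L ^ 2 = 1 / L ^ d := by field_simp
    rw [h2, div_le_one (by positivity)]
    exact this
  have hθLd : θ * L ^ d ≤ 1 / 2 := by
    rw [hθdef, pow_add]
    have h2 : 1 / (L ^ d * L ^ 2) * L ^ d = 1 / L ^ 2 := by field_simp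
    rw [h2]
    have : (2 : ℝ) ≤ L ^ 2 := by nlinarith
    exact one_div_le_one_div_of_le (by norm_num) this
  set K : ℝ := max 1 (2 * C / θ) with hKdef
  have hK1 : 1 ≤ K := le_max_left _ _
  have hKp : 0 < K := by linarith
  have hCK : C / K ≤ θ / 2 := by
    have h : 2 * C / θ ≤ K := le_max_right _ _
    rw [div_le_iff₀ hθ] at h
    rw [div_le_div_iff₀ hKp (by norm_num)]
    nlinarith
  obtain ⟨s0, hs0, H0⟩ := H K hK1
  set ε : ℝ := θ / (2 * (4 * C * K ^ 2 * L ^ 2)) with hεdef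
  have hε : 0 < ε := by positivity
  have hε1 : 4 * C * K ^ 2 * L ^ 2 * ε ≤ θ / 2 := by
    rw [hεdef]
    apply le_of_eq
    field_simp
  refine ⟨ε, min (s0 / 2) (R / 2) , hε, by positivity, ?_⟩
  intro x hx hxs s hs hs1
  have hss0 : s ≤ s0 := by
    have := hs1.trans (min_le_left _ _)
    linarith
  have hsR : s ≤ R / 2 := hs1.trans (min_le_right _ _)
  by_contra hcon
  push Not at hcon
  -- the decay at all points of the half ball
  have hdec : ∀ y ∈ closedBall x (s / 2), ∀ k : ℕ,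
      μ.real (closedBall y (s / 2 / L ^ k)) ≤ θ ^ k * (ε * s ^ 2) := by
    intro y hy k
    rw [mem_closedBall] at hy
    rw [mem_ball] at hx
    refine decay (fun t => μ.real (closedBall y t)) (fun _ => measureReal_nonneg) hL1 hC hKp hs
      hε.le hθ hθL2 hCK hε1 ?_ ?_ k
    · intro j
      have htpos : 0 < s / 2 / L ^ (j + 1) := by positivity
      have ht : L * (s / 2 / L ^ (j + 1)) = s / 2 / L ^ j := by
        rw [pow_succ]; field_simp
      have htle : s / 2 / L ^ j ≤ s / 2 := div_le_self (by positivity) (one_le_pow₀ hL1)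
      have htle' : s / 2 / L ^ (j + 1) ≤ s / 2 := div_le_self (by positivity) (one_le_pow₀ hL1)
      have hL0t : L0 * (s / 2 / L ^ (j + 1)) ≤ s / 2 / L ^ j := by
        rw [← ht]; gcongr
      have hyR : y ∈ ball x0 R := by
        rw [mem_ball]
        have := dist_triangle y x x0
        linarith
      have hsub : closedBall y (L0 * (s / 2 / L ^ (j + 1))) ⊆ ball x0 R := by
        intro z hz
        rw [mem_closedBall] at hz
        rw [mem_ball]
        have h1 := dist_triangle z y x0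
        have h2 := dist_triangle y x x0
        linarith
      have h := H0 y hyR _ htpos (by linarith) hsub
      refine h.trans ?_
      have hmono : μ.real (closedBall y (L0 * (s / 2 / L ^ (j + 1)))) ≤
          μ.real (closedBall y (s / 2 / L ^ j)) :=
        measureReal_mono (closedBall_subset_closedBall hL0t) (hfin _ _)
      have hnn : 0 ≤ μ.real (closedBall y (L0 * (s / 2 / L ^ (j + 1)))) := measureReal_nonneg
      gcongr
    · refine le_trans ?_ hcon.le
      refine measureReal_mono (closedBall_subset_closedBall' ?_) (hfin _ _)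
      linarith
  have hz := clear μ hL2 hs (by positivity) hθ hθLd hdec
  rw [Measure.mem_support_iff_forall] at hxs
  exact (hxs (ball x (s / 4)) (ball_mem_nhds x (by positivity))).ne' hz

end Crest.Agent.R235.Dens_253
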