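import Mathlib

-- ▼ part R235/DgStk_778
section

/-!
Row 235 (S0364), block FDJ (helper778): Piola's identity in weak, coordinate free form.

`Dt om e D = om (D e₁, …, D e_N)` for `D : X → Y` linear, `om` a form of degree `N` on `Y`;
`Cf om v e D ℓ = Σ (-1)^i ℓ (e_i) om (v, D e₁, …(omit i)…, D e_N)` (the cofactor functional).

`piola` : `∫ g (∂_v ζ)(F) Dt (dF) + ζ(F) Cf (dF) (dg) = 0` for `F : X → Y` of class `C²`,
`dim Y = N`, if `g · ζ ∘ F` has compact support.
-/

set_option autoImplicit false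

open MeasureTheory Set Filter Topology Module
open scoped ContDiff

noncomputable section

namespace Crest.Agent.R235.DgStk_778

variable {X Y : Type*} [NormedAddCommGroup X] [NormedSpace ℝ X]
  [NormedAddCommGroup Y] [NormedSpace ℝ Y] {n : ℕ}

/-- the determinant of `D : X → Y` with respect to `om`, `e` -/
def Dt (om : Y [⋀^Fin n]→L[ℝ] ℝ) (e : Fin n → X) (D : X →L[ℝ] Y) : ℝ := om (fun i => D (e i))

/-- the cofactor form of `D : X → Y` -/
def CfF (om : Y [⋀^Fin (n + 1)]→L[ℝ] ℝ) (v : Y) (D : X →L[ℝ] Y) (l : X →L[ℝ] ℝ) :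
    X [⋀^Fin (n + 1)]→L[ℝ] ℝ :=
  ContinuousAlternatingMap.alternatizeUncurryFin
    (l.smulRight ((om.curryLeft v).compContinuousLinearMap D))

/-- the cofactor functional of `D : X → Y` -/
def Cf (om : Y [⋀^Fin (n + 1)]→L[ℝ] ℝ) (v : Y) (e : Fin (n + 1) → X) (D : X →L[ℝ] Y)
    (l : X →L[ℝ] ℝ) : ℝ := CfF om v D l e

theorem cfF_apply (om : Y [⋀^Fin (n + 1)]→L[ℝ] ℝ) (v : Y) (D : X →L[ℝ] Y) (l : X →L[ℝ] ℝ)
    (e : Fin (n + 1) → X) :
    CfF om v D l e = ∑ i : Fin (n + 1), (-1 : ℝ) ^ (i : ℕ) *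
      (l (e i) * om (Matrix.vecCons v (fun j => D (i.removeNth e j)))) := by
  unfold CfF
  rw [ContinuousAlternatingMap.alternatizeUncurryFin_apply]
  refine Finset.sum_congr rfl fun i _ => ?_
  simp only [ContinuousLinearMap.smulRight_apply, zsmul_eq_mul]
  push_cast
  rfl

theorem cf_add (om : Y [⋀^Fin (n + 1)]→L[ℝ] ℝ) (v : Y) (e : Fin (n + 1) → X) (D : X →L[ℝ] Y)
    (l l' : X →L[ℝ] ℝ) : Cf om v e D (l + l') = Cf om v e D l + Cf om v e D l' := by
  unfold Cf
  simp only [cfF_apply, ← Finset.sum_add_distrib]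
  refine Finset.sum_congr rfl fun i _ => ?_
  simp only [_root_.add_apply]
  ring

theorem cf_smul (om : Y [⋀^Fin (n + 1)]→L[ℝ] ℝ) (v : Y) (e : Fin (n + 1) → X) (D : X →L[ℝ] Y)
    (c : ℝ) (l : X →L[ℝ] ℝ) : Cf om v e D (c • l) = c * Cf om v e D l := by
  unfold Cf
  simp only [cfF_apply, Finset.mul_sum]
  refine Finset.sum_congr rfl fun i _ => ?_
  simp only [_root_.smul_apply, smul_eq_mul]
  ring

/-- `Cf` as a linear map of the covector -/
def CfL (om : Y [⋀^Fin (n + 1)]→L[ℝ] ℝ) (v : Y) (e : Fin (n + 1) → X) (D : X →L[ℝ] Y) :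
    (X →L[ℝ] ℝ) →ₗ[ℝ] ℝ where
  toFun := Cf om v e D
  map_add' := cf_add om v e D
  map_smul' c l := by simpa using cf_smul om v e D c l

theorem alt_eq_zero {m : ℕ} [FiniteDimensional ℝ Y] (hF : finrank ℝ Y < m)
    (μ : Y [⋀^Fin m]→L[ℝ] ℝ) : μ = 0 := by
  ext v
  show μ v = 0
  have h1 : ¬ LinearIndependent ℝ v := by
    intro h
    have := h.fintype_card_le_finrank
    simp at this
    omega
  exact μ.toAlternatingMap.map_linearDependent v h1

/-- the integral of an exact compactly supported form is zero -/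
theorem int_extDeriv [MeasurableSpace X] [BorelSpace X] [FiniteDimensional ℝ X]
    (μ : Measure X) [μ.IsAddHaarMeasure] (α : X → X [⋀^Fin n]→L[ℝ] ℝ) (hd : Differentiable ℝ α)
    (e : Fin (n + 1) → X) (hα : ∀ i : Fin (n + 1), ContDiff ℝ 1 fun x => α x (i.removeNth e))
    (hc : HasCompactSupport α) : ∫ x, extDeriv α x e ∂μ = 0 := by
  let ev : Fin (n + 1) → (X [⋀^Fin n]→L[ℝ] ℝ) →L[ℝ] ℝ := fun i =>
    ContinuousAlternatingMap.apply ℝ _ ℝ (i.removeNth e)
  have h1 : ∀ x, extDeriv α x e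
      = ∑ i : Fin (n + 1), (-1 : ℝ) ^ (i : ℕ) * fderiv ℝ (fun x => ev i (α x)) x (e i) := by
    intro x
    rw [extDeriv_apply (hd x)]
    refine Finset.sum_congr rfl fun i _ => ?_
    simp only [zsmul_eq_mul]
    push_cast
    rfl
  have h2 : ∀ i, ContDiff ℝ 1 (fun x => ev i (α x)) := fun i => hα i
  have h3 : ∀ i, HasCompactSupport (fun x => ev i (α x)) := fun i =>
    hc.comp_left (map_zero (ev i))
  have h4 : ∀ i, Integrable (fun x => fderiv ℝ (fun x => ev i (α x)) x (e i)) μ := by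
    intro i
    refine Continuous.integrable_of_hasCompactSupport ?_ ?_
    · exact ((h2 i).continuous_fderiv one_ne_zero).clm_apply continuous_const
    · exact (h3 i).fderiv_apply ℝ (e i)
  simp only [h1]
  rw [integral_finsetSum _ fun i _ => (h4 i).const_mul _]
  refine Finset.sum_eq_zero fun i _ => ?_
  rw [integral_const_mul]
  have h5 := integral_mul_fderiv_eq_neg_fderiv_mul_of_integrable (μ := μ) (𝕜 := ℝ)
    (f := fun _ : X => (1 : ℝ)) (g := fun x => ev i (α x)) (v := e i)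
    (by simp) (by simpa using h4 i)
    (by
      simp only [one_mul]
      exact (h2 i).continuous.integrable_of_hasCompactSupport (h3 i))
    (fun x _ => differentiableAt_const _)
    (fun x _ => (h2 i).differentiable one_ne_zero x)
  simp only [one_mul, fderiv_fun_const, Pi.zero_apply, _root_.zero_apply, zero_mul,
    integral_zero, neg_zero] at h5
  rw [h5, mul_zero]

theorem extDeriv_mul (g : X → ℝ) (B : X → X [⋀^Fin n]→L[ℝ] ℝ) (x : X)
    (hg : DifferentiableAt ℝ g x) (hB : DifferentiableAt ℝ B x) :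
    extDeriv (fun x => g x • B x) x = g x • extDeriv B x
      + ContinuousAlternatingMap.alternatizeUncurryFin ((fderiv ℝ g x).smulRight (B x)) := by
  unfold extDeriv
  rw [fderiv_fun_smul hg hB, ContinuousAlternatingMap.alternatizeUncurryFin_add,
    ContinuousAlternatingMap.alternatizeUncurryFin_smul]

/-- `dζ ∧ ι_v om = (∂_v ζ) om` in top degree -/
theorem ext_contr [FiniteDimensional ℝ Y] (hY : finrank ℝ Y = n + 1)
    (om : Y [⋀^Fin (n + 1)]→L[ℝ] ℝ) (v : Y) (l : Y →L[ℝ] ℝ) :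
    ContinuousAlternatingMap.alternatizeUncurryFin (l.smulRight (om.curryLeft v)) = l v • om := by
  have h0 : ContinuousAlternatingMap.alternatizeUncurryFin (l.smulRight om) = 0 :=
    alt_eq_zero (by omega) _
  ext y
  have h1 := congrArg (fun w => w (Matrix.vecCons v y)) h0
  have h5 : (0 : Y [⋀^Fin (n + 2)]→L[ℝ] ℝ) (Matrix.vecCons v y) = 0 := rfl
  simp only [ContinuousAlternatingMap.alternatizeUncurryFin_apply] at h1
  rw [h5, Fin.sum_univ_succ] at h1
  rw [ContinuousAlternatingMap.alternatizeUncurryFin_apply]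
  simp only [ContinuousLinearMap.smulRight_apply, zsmul_eq_mul, Fin.val_zero, pow_zero,
    Int.cast_one, one_mul, Fin.val_succ, Matrix.cons_val_zero, Matrix.cons_val_succ,
    ContinuousAlternatingMap.smul_apply, ContinuousAlternatingMap.curryLeft_apply_apply,
    smul_eq_mul, Fin.removeNth_zero] at h1 ⊢
  have h2 : ∀ i : Fin (n + 1), (i.succ.removeNth (Matrix.vecCons v y) : Fin (n + 1) → Y)
      = Matrix.vecCons v (i.removeNth y) := by
    intro i
    funext k
    refine Fin.cases ?_ (fun j => ?_) k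
    · rfl
    · simp [Fin.removeNth]
  have h3 : (Fin.tail (Matrix.vecCons v y)) = y := rfl
  simp only [h2, h3] at h1
  have h4 : ∀ i : Fin (n + 1), (((-1 : ℤ) ^ ((i : ℕ) + 1) : ℤ) : ℝ)
      = -(((-1 : ℤ) ^ (i : ℕ) : ℤ) : ℝ) := by
    intro i
    rw [pow_succ]
    push_cast
    ring
  simp only [h4, neg_mul, Finset.sum_neg_distrib] at h1
  linarith

/-- **Piola's identity**, weak form -/
theorem piola [MeasurableSpace X] [BorelSpace X] [FiniteDimensional ℝ X]
    (μ : Measure X) [μ.IsAddHaarMeasure] [FiniteDimensional ℝ Y] (hY : finrank ℝ Y = n + 1)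
    (om : Y [⋀^Fin (n + 1)]→L[ℝ] ℝ) (v : Y) (e : Fin (n + 1) → X)
    (F : X → Y) (hF : ContDiff ℝ 2 F) (g : X → ℝ) (hg : ContDiff ℝ 1 g)
    (ζ : Y → ℝ) (hζ : ContDiff ℝ 1 ζ) (hc : HasCompactSupport fun x => g x * ζ (F x)) :
    ∫ x, (g x * (fderiv ℝ ζ (F x) v * Dt om e (fderiv ℝ F x))
      + ζ (F x) * Cf om v e (fderiv ℝ F x) (fderiv ℝ g x)) ∂μ = 0 := by
  let β : Y → Y [⋀^Fin n]→L[ℝ] ℝ := fun y => ζ y • om.curryLeft v
  have hβ : ContDiff ℝ 1 β := hζ.smul contDiff_const
  let B : X → X [⋀^Fin n]→L[ℝ] ℝ := fun x => (β (F x)).compContinuousLinearMap (fderiv ℝ F x)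
  have hF1 : ContDiff ℝ 1 (fderiv ℝ F) := hF.fderiv_right (by norm_num)
  have hFd : Differentiable ℝ F := hF.differentiable two_ne_zero
  have hB : Differentiable ℝ B := by
    intro x
    have h1 : DifferentiableAt ℝ (fun x => β (F x)) x :=
      (hβ.differentiable one_ne_zero (F x)).comp x (hFd x)
    exact h1.continuousAlternatingMapCompContinuousLinearMap (hF1.differentiable one_ne_zero x)
  have hB1 : ∀ i : Fin (n + 1), ContDiff ℝ 1 fun x => B x (i.removeNth e) := by
    intro i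
    have h1 : ∀ x, B x (i.removeNth e)
        = ζ (F x) * om (Matrix.vecCons v (fun j => fderiv ℝ F x (i.removeNth e j))) := fun x => rfl
    simp only [h1]
    refine (hζ.comp (hF.of_le (by norm_num))).mul ?_
    have h2 : ContDiff ℝ 1 fun x : X =>
        (Matrix.vecCons v (fun j => fderiv ℝ F x (i.removeNth e j)) : Fin (n + 1) → Y) := by
      rw [contDiff_pi]
      intro k
      refine Fin.cases ?_ (fun j => ?_) k
      · exact contDiff_const
      · exact hF1.clm_apply contDiff_const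
    exact om.toContinuousMultilinearMap.contDiff.comp h2
  let α : X → X [⋀^Fin n]→L[ℝ] ℝ := fun x => g x • B x
  have hα : Differentiable ℝ α := (hg.differentiable one_ne_zero).smul hB
  have hα1 : ∀ i : Fin (n + 1), ContDiff ℝ 1 fun x => α x (i.removeNth e) := fun i =>
    hg.mul (hB1 i)
  have hαc : HasCompactSupport α := by
    refine hc.mono' ?_
    refine (Function.support_subset_iff'.2 ?_).trans (subset_tsupport _)
    intro x hx
    have h1 : g x * ζ (F x) = 0 := by
      by_contra h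
      exact hx h
    show g x • B x = 0
    have h2 : B x = ζ (F x) • (om.curryLeft v).compContinuousLinearMap (fderiv ℝ F x) := by
      ext w; rfl
    rw [h2, smul_smul, h1, zero_smul]
  rw [← int_extDeriv μ α hα e hα1 hαc]
  refine integral_congr_ae (Eventually.of_forall fun x => ?_)
  show _ = extDeriv (fun x => g x • B x) x e
  rw [extDeriv_mul g B x (hg.differentiable one_ne_zero x) (hB x)]
  have h3 : extDeriv B x = (extDeriv β (F x)).compContinuousLinearMap (fderiv ℝ F x) :=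
    extDeriv_pullback (r := 2) (hβ.differentiable one_ne_zero (F x)) hF.contDiffAt (by simp)
  have h4 : extDeriv β (F x) = fderiv ℝ ζ (F x) v • om := by
    have h5 : fderiv ℝ β (F x) = (fderiv ℝ ζ (F x)).smulRight (om.curryLeft v) := by
      show fderiv ℝ (fun y => ζ y • om.curryLeft v) (F x) = _
      exact ((hζ.differentiable one_ne_zero (F x)).hasFDerivAt.smul_const (om.curryLeft v)).fderiv
    unfold extDeriv
    rw [h5]
    exact ext_contr hY om v _
  have h6 : ContinuousAlternatingMap.alternatizeUncurryFin ((fderiv ℝ g x).smulRight (B x)) e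
      = ζ (F x) * Cf om v e (fderiv ℝ F x) (fderiv ℝ g x) := by
    unfold Cf
    rw [cfF_apply, Finset.mul_sum, ContinuousAlternatingMap.alternatizeUncurryFin_apply]
    refine Finset.sum_congr rfl fun i _ => ?_
    simp only [ContinuousLinearMap.smulRight_apply, zsmul_eq_mul]
    have h7 : B x (i.removeNth e)
        = ζ (F x) * om (Matrix.vecCons v (fun j => fderiv ℝ F x (i.removeNth e j))) := rfl
    rw [ContinuousAlternatingMap.smul_apply, h7]
    simp only [smul_eq_mul]
    push_cast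
    ring
  rw [h3, h4, ContinuousAlternatingMap.add_apply, h6]
  congr 1

end Crest.Agent.R235.DgStk_778
end
end

-- ▼ part R235/DgTri_778
section

/-!
Row 235 (S0364), block FDJ (helper778): top forms and triangular maps, linear change of variables.
-/

set_option autoImplicit false

open MeasureTheory Set Filter Topology Module
open scoped ContDiff

noncomputable section

namespace Crest.Agent.R235.DgTri_778

open DgStk_778

section alg

variable {X Y : Type*} [NormedAddCommGroup X] [NormedSpace ℝ X]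
  [NormedAddCommGroup Y] [NormedSpace ℝ Y] {n : ℕ}

/-- a top form composed with a linear map -/
theorem top_comp (e : Basis (Fin n) ℝ X) (w : X [⋀^Fin n]→L[ℝ] ℝ) (M : X →L[ℝ] X) :
    w (fun i => M (e i)) = LinearMap.det (M : X →ₗ[ℝ] X) * w e := by
  have h1 := AlternatingMap.eq_smul_basis_det e w.toAlternatingMap
  have h2 := congrArg (fun u : X [⋀^Fin n]→ₗ[ℝ] ℝ => u (fun i => M (e i))) h1
  have h3 := e.det_comp (M : X →ₗ[ℝ] X) e
  rw [e.det_self, mul_one] at h3
  have h4 : e.det (fun i => M (e i)) = LinearMap.det (M : X →ₗ[ℝ] X) := h3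
  have h5 : (w.toAlternatingMap) (fun i => M (e i)) = w (fun i => M (e i)) := rfl
  rw [← h5, h2]
  show (w.toAlternatingMap e • e.det) (fun i => M (e i)) = _
  rw [AlternatingMap.smul_apply, h4, smul_eq_mul, mul_comm]
  rfl

theorem dt_comp (e : Basis (Fin n) ℝ X) (om : Y [⋀^Fin n]→L[ℝ] ℝ) (D : X →L[ℝ] Y)
    (M : X →L[ℝ] X) :
    Dt om e (D.comp M) = LinearMap.det (M : X →ₗ[ℝ] X) * Dt om e D :=
  top_comp e (om.compContinuousLinearMap D) M

theorem cf_comp (e : Basis (Fin (n + 1)) ℝ X) (om : Y [⋀^Fin (n + 1)]→L[ℝ] ℝ) (v : Y)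
    (D : X →L[ℝ] Y) (l : X →L[ℝ] ℝ) (M : X →L[ℝ] X) :
    Cf om v e (D.comp M) (l.comp M) = LinearMap.det (M : X →ₗ[ℝ] X) * Cf om v e D l := by
  unfold Cf
  rw [← top_comp e (CfF om v D l) M, cfF_apply, cfF_apply]
  rfl

/-- nonvanishing of the determinant of an isomorphism -/
theorem dt_ne [FiniteDimensional ℝ Y] (e : Basis (Fin n) ℝ X) (om : Y [⋀^Fin n]→L[ℝ] ℝ)
    (hom : om ≠ 0) (hY : finrank ℝ Y = n) (D : X →L[ℝ] Y) (hD : Function.Injective D) :
    Dt om e D ≠ 0 := by
  have : FiniteDimensional ℝ X := e.finiteDimensional_of_finite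
  have hX : finrank ℝ X = n := by rw [finrank_eq_card_basis e]; simp
  let E : X ≃ₗ[ℝ] Y := LinearMap.linearEquivOfInjective (D : X →ₗ[ℝ] Y) hD (hX.trans hY.symm)
  have h1 : om.toAlternatingMap ≠ 0 := by
    intro h
    apply hom
    ext v
    exact congrArg (fun u : Y [⋀^Fin n]→ₗ[ℝ] ℝ => u v) h
  have h2 := (AlternatingMap.map_basis_ne_zero_iff (e.map E) om.toAlternatingMap).2 h1
  have h3 : (⇑(e.map E) : Fin n → Y) = fun i => D (e i) := by
    funext i
    simp [E]
  rw [h3] at h2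
  exact h2

/-- there is a nonzero top form -/
theorem exists_top [FiniteDimensional ℝ Y] (hY : finrank ℝ Y = n) :
    ∃ om : Y [⋀^Fin n]→L[ℝ] ℝ, om ≠ 0 := by
  let b : Basis (Fin n) ℝ Y := (Module.finBasis ℝ Y).reindex (finCongr hY)
  have hc : Continuous fun v : Fin n → Y => b.det v := by
    simp only [Basis.det_apply]
    refine Continuous.matrix_det ?_
    refine continuous_matrix fun i j => ?_
    simp only [Basis.toMatrix_apply]
    exact (LinearMap.continuous_of_finiteDimensional (b.coord i)).comp (continuous_apply j)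
  let om : Y [⋀^Fin n]→L[ℝ] ℝ := { b.det with cont := hc }
  refine ⟨om, fun h => ?_⟩
  have h1 : om b = 1 := b.det_self
  rw [h] at h1
  exact zero_ne_one h1

/-- the triangular map `(τ, κ) ↦ (τ, A κ + B τ)` -/
def tri {U V : Type*} [NormedAddCommGroup U] [NormedSpace ℝ U] [NormedAddCommGroup V]
    [NormedSpace ℝ V] (A : V →L[ℝ] V) (B : U →L[ℝ] V) : U × V →L[ℝ] U × V :=
  (ContinuousLinearMap.fst ℝ U V).prod
    (A.comp (ContinuousLinearMap.snd ℝ U V) + B.comp (ContinuousLinearMap.fst ℝ U V))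

variable {U V : Type*} [NormedAddCommGroup U] [NormedSpace ℝ U] [NormedAddCommGroup V]
  [NormedSpace ℝ V]

theorem det_tri [FiniteDimensional ℝ U] [FiniteDimensional ℝ V] (A : V →L[ℝ] V) (B : U →L[ℝ] V) :
    LinearMap.det (tri A B : U × V →ₗ[ℝ] U × V) = LinearMap.det (A : V →ₗ[ℝ] V) := by
  -- shears have determinant one
  have h1 : ∀ B : U →L[ℝ] V, LinearMap.det (tri (ContinuousLinearMap.id ℝ V) B : U × V →ₗ[ℝ] U × V)
      * LinearMap.det (tri (ContinuousLinearMap.id ℝ V) B : U × V →ₗ[ℝ] U × V)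
      = LinearMap.det (tri (ContinuousLinearMap.id ℝ V) ((2 : ℝ) • B) : U × V →ₗ[ℝ] U × V) := by
    intro B
    rw [← LinearMap.det_comp]
    congr 1
    ext x <;> simp [tri, two_smul]
  have h2 : ∀ B : U →L[ℝ] V,
      LinearMap.det (tri (ContinuousLinearMap.id ℝ V) ((2 : ℝ) • B) : U × V →ₗ[ℝ] U × V)
      = LinearMap.det (tri (ContinuousLinearMap.id ℝ V) B : U × V →ₗ[ℝ] U × V) := by
    intro B
    let s : (U × V) ≃ₗ[ℝ] (U × V) :=
      (LinearEquiv.refl ℝ U).prodCongr (LinearEquiv.smulOfNeZero ℝ V (2 : ℝ) two_ne_zero)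
    rw [← LinearMap.det_conj (tri (ContinuousLinearMap.id ℝ V) B : U × V →ₗ[ℝ] U × V) s]
    congr 1
    refine LinearMap.ext fun x => ?_
    have h3 : s.symm x = (x.1, (2 : ℝ)⁻¹ • x.2) := by
      rw [LinearEquiv.symm_apply_eq]
      simp [s]
    simp only [LinearMap.comp_apply, LinearEquiv.coe_coe, h3]
    simp [s, tri, smul_smul]
  have h3 : ∀ B : U →L[ℝ] V,
      LinearMap.det (tri (ContinuousLinearMap.id ℝ V) B : U × V →ₗ[ℝ] U × V) = 1 := by
    intro B
    have h4 : LinearMap.det (tri (ContinuousLinearMap.id ℝ V) B : U × V →ₗ[ℝ] U × V) ≠ 0 := by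
      intro h
      have h5 : LinearMap.det (tri (ContinuousLinearMap.id ℝ V) (-B) : U × V →ₗ[ℝ] U × V)
          * LinearMap.det (tri (ContinuousLinearMap.id ℝ V) B : U × V →ₗ[ℝ] U × V) = 1 := by
        rw [← LinearMap.det_comp]
        have : (tri (ContinuousLinearMap.id ℝ V) (-B) : U × V →ₗ[ℝ] U × V) ∘ₗ
            (tri (ContinuousLinearMap.id ℝ V) B : U × V →ₗ[ℝ] U × V) = LinearMap.id := by
          ext x <;> simp [tri]
        rw [this, LinearMap.det_id]
      rw [h, mul_zero] at h5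
      exact zero_ne_one h5
    have h6 := (h1 B).trans (h2 B)
    exact mul_left_cancel₀ h4 (by rw [h6, mul_one])
  have h7 : (tri A B : U × V →ₗ[ℝ] U × V)
      = (tri (ContinuousLinearMap.id ℝ V) B : U × V →ₗ[ℝ] U × V) ∘ₗ
        (LinearMap.prodMap (LinearMap.id : U →ₗ[ℝ] U) (A : V →ₗ[ℝ] V)) := by
    ext x <;> simp [tri]
  rw [h7, LinearMap.det_comp, h3, one_mul, LinearMap.det_prodMap, LinearMap.det_id, one_mul]

end alg

section cov

variable {V : Type*} [NormedAddCommGroup V] [NormedSpace ℝ V] [FiniteDimensional ℝ V]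
  [MeasurableSpace V] [BorelSpace V]

/-- linear change of variables -/
theorem integral_comp_lin (μ : Measure V) [μ.IsAddHaarMeasure] (A : V →L[ℝ] V)
    (hA : 0 < LinearMap.det (A : V →ₗ[ℝ] V)) (k : V → ℝ) :
    ∫ q, LinearMap.det (A : V →ₗ[ℝ] V) * k (A q) ∂μ = ∫ q, k q ∂μ := by
  have hemb : MeasurableEmbedding A := by
    let E : V ≃ₗ[ℝ] V := LinearEquiv.ofIsUnitDet (f := (A : V →ₗ[ℝ] V)) (v := Module.finBasis ℝ V)
      (v' := Module.finBasis ℝ V) (by
        rw [LinearMap.det_toMatrix]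
        exact hA.ne'.isUnit)
    exact E.toContinuousLinearEquiv.toHomeomorph.measurableEmbedding
  rw [integral_const_mul, ← hemb.integral_map]
  have h1 := Measure.map_linearMap_addHaar_eq_smul_addHaar μ hA.ne'
  have h2 : Measure.map (⇑A) μ
      = ENNReal.ofReal |(LinearMap.det (A : V →ₗ[ℝ] V))⁻¹| • μ := h1
  rw [h2, integral_smul_measure, ENNReal.toReal_ofReal (abs_nonneg _), abs_of_pos (inv_pos.2 hA),
    smul_eq_mul, ← mul_assoc, mul_inv_cancel₀ hA.ne', one_mul]

end cov

end Crest.Agent.R235.DgTri_778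
end
end

-- ▼ part R235/DgInv_778

/-!
Row 235 (S0364), block FDJ (helper778): the torus gluing lemma.

`rho` is a smooth product cut-off on `Fin b → ℝ`, equal to one for `|θ j| ≤ 1/4`, zero if some
`|θ j| ≥ 3/4`, with `∂_i rho (θ) = a_i (θ + ε_i) - a_i (θ)`.

`glue` : if `F : R^b × Q → Y` satisfies `F (θ - ε_i, q) = F (θ, A_i(θ) q)` (fibre linear,
orientation preserving, only for `1/4 ≤ θ i`), and `ζ ∘ F` vanishes where `dχ ≠ 0`, then
`∫ rho χ (∂_v ζ)(F) Dt (dF) = 0`.
-/

set_option autoImplicit false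

open MeasureTheory Set Filter Topology Module
open scoped ContDiff

noncomputable section

namespace Crest.Agent.R235.DgInv_778

open DgStk_778 DgTri_778

/-- smooth step from `1/4` to `3/4` -/
def sg (x : ℝ) : ℝ := Real.smoothTransition (2 * x - 1 / 2)

theorem sg_zero {x : ℝ} (hx : x ≤ 1 / 4) : sg x = 0 :=
  Real.smoothTransition.zero_of_nonpos (by linarith)

theorem sg_one {x : ℝ} (hx : 3 / 4 ≤ x) : sg x = 1 :=
  Real.smoothTransition.one_of_one_le (by linarith)

theorem contDiff_sg : ContDiff ℝ ∞ sg :=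
  Real.smoothTransition.contDiff.comp ((contDiff_const.mul contDiff_id).sub contDiff_const)

/-- derivative of the step -/
def sd (x : ℝ) : ℝ := deriv sg x

theorem continuous_sd : Continuous sd :=
  contDiff_sg.continuous_deriv (by simp)

theorem hasDerivAt_sg (x : ℝ) : HasDerivAt sg (sd x) x :=
  (contDiff_sg.differentiable (by simp) x).hasDerivAt

theorem sd_ne {x : ℝ} (hx : sd x ≠ 0) : 1 / 4 ≤ x ∧ x ≤ 3 / 4 := by
  constructor
  · by_contra h
    push Not at h
    apply hx
    have h1 : sg =ᶠ[𝓝 x] fun _ => 0 := by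
      filter_upwards [Iio_mem_nhds h] with y hy using sg_zero (le_of_lt hy)
    exact (h1.deriv_eq).trans (deriv_const x 0)
  · by_contra h
    push Not at h
    apply hx
    have h1 : sg =ᶠ[𝓝 x] fun _ => 1 := by
      filter_upwards [Ioi_mem_nhds h] with y hy using sg_one (le_of_lt hy)
    exact (h1.deriv_eq).trans (deriv_const x 1)

/-- the one dimensional bump -/
def r1 (x : ℝ) : ℝ := sg (x + 1) - sg x

theorem contDiff_r1 : ContDiff ℝ ∞ r1 :=
  (contDiff_sg.comp (contDiff_id.add contDiff_const)).sub contDiff_sg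

theorem r1_one {x : ℝ} (hx : |x| ≤ 1 / 4) : r1 x = 1 := by
  rw [abs_le] at hx
  unfold r1
  rw [sg_one (by linarith), sg_zero (by linarith), sub_zero]

theorem r1_ne {x : ℝ} (hx : r1 x ≠ 0) : |x| ≤ 3 / 4 := by
  by_contra h
  push Not at h
  apply hx
  unfold r1
  rcases lt_abs.1 h with h | h
  · rw [sg_one (by linarith), sg_one (by linarith), sub_self]
  · rw [sg_zero (by linarith), sg_zero (by linarith), sub_self]

theorem hasDerivAt_r1 (x : ℝ) : HasDerivAt r1 (sd (x + 1) - sd x) x :=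
  ((hasDerivAt_sg (x + 1)).comp_add_const x 1).sub (hasDerivAt_sg x)

variable {b : ℕ}

/-- the product bump -/
def rho (θ : Fin b → ℝ) : ℝ := ∏ j, r1 (θ j)

theorem contDiff_rho : ContDiff ℝ ∞ (rho (b := b)) :=
  contDiff_prod fun j _ => contDiff_r1.comp (contDiff_apply ℝ ℝ j)

theorem rho_one {θ : Fin b → ℝ} (h : ∀ j, |θ j| ≤ 1 / 4) : rho θ = 1 :=
  Finset.prod_eq_one fun j _ => r1_one (h j)

theorem rho_ne {θ : Fin b → ℝ} (h : rho θ ≠ 0) : ∀ j, |θ j| ≤ 3 / 4 := fun j =>
  r1_ne fun h0 => h (Finset.prod_eq_zero (Finset.mem_univ j) h0)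

/-- half of the derivative of `rho` -/
def aa (i : Fin b) (θ : Fin b → ℝ) : ℝ := (∏ j ∈ Finset.univ.erase i, r1 (θ j)) * sd (θ i)

theorem continuous_aa (i : Fin b) : Continuous (aa i) := by
  refine Continuous.mul ?_ (continuous_sd.comp (continuous_apply i))
  exact continuous_finsetProd _ fun j _ => contDiff_r1.continuous.comp (continuous_apply j)

theorem aa_ne {i : Fin b} {θ : Fin b → ℝ} (h : aa i θ ≠ 0) :
    1 / 4 ≤ θ i ∧ ∀ j, |θ j| ≤ 3 / 4 := by
  unfold aa at h
  have h1 := sd_ne (right_ne_zero_of_mul h)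
  refine ⟨h1.1, fun j => ?_⟩
  by_cases hj : j = i
  · subst hj
    rw [abs_le]
    constructor <;> linarith [h1.1, h1.2]
  · exact r1_ne fun h0 => left_ne_zero_of_mul h
      (Finset.prod_eq_zero (Finset.mem_erase.2 ⟨hj, Finset.mem_univ j⟩) h0)

theorem hasFDerivAt_rho (θ : Fin b → ℝ) : HasFDerivAt rho
    (∑ i : Fin b, (aa i (θ + Pi.single i 1) - aa i θ) •
      (ContinuousLinearMap.proj i : (Fin b → ℝ) →L[ℝ] ℝ)) θ := by
  have h1 : ∀ i ∈ (Finset.univ : Finset (Fin b)), HasFDerivAt (fun θ : Fin b → ℝ => r1 (θ i))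
      ((sd (θ i + 1) - sd (θ i)) • (ContinuousLinearMap.proj i : (Fin b → ℝ) →L[ℝ] ℝ)) θ := by
    intro i _
    have h2 : HasFDerivAt (fun θ : Fin b → ℝ => θ i)
        (ContinuousLinearMap.proj i : (Fin b → ℝ) →L[ℝ] ℝ) θ :=
      (ContinuousLinearMap.proj i : (Fin b → ℝ) →L[ℝ] ℝ).hasFDerivAt
    exact (hasDerivAt_r1 (θ i)).comp_hasFDerivAt θ h2
  refine (HasFDerivAt.finsetProd h1).congr_fderiv ?_
  refine Finset.sum_congr rfl fun i _ => ?_
  rw [smul_smul]
  congr 1
  unfold aa
  have h3 : ∏ j ∈ Finset.univ.erase i, r1 ((θ + Pi.single i 1 : Fin b → ℝ) j)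
      = ∏ j ∈ Finset.univ.erase i, r1 (θ j) := by
    refine Finset.prod_congr rfl fun j hj => ?_
    rw [Pi.add_apply, Pi.single_eq_of_ne (Finset.ne_of_mem_erase hj), add_zero]
  rw [h3, Pi.add_apply, Pi.single_eq_same]
  ring

variable {n : ℕ} {Q Y : Type*} [NormedAddCommGroup Q] [NormedSpace ℝ Q]
  [NormedAddCommGroup Y] [NormedSpace ℝ Y]

theorem continuous_dt {Z X : Type*} [TopologicalSpace Z] [NormedAddCommGroup X] [NormedSpace ℝ X]
    (om : Y [⋀^Fin n]→L[ℝ] ℝ) (e : Fin n → X) {G : Z → X →L[ℝ] Y} (hG : Continuous G) :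
    Continuous fun z => Dt om e (G z) := by
  refine om.cont.comp (continuous_pi fun i => ?_)
  exact hG.clm_apply continuous_const

theorem continuous_cf {Z X : Type*} [TopologicalSpace Z] [NormedAddCommGroup X] [NormedSpace ℝ X]
    (om : Y [⋀^Fin (n + 1)]→L[ℝ] ℝ) (v : Y) (e : Fin (n + 1) → X) {G : Z → X →L[ℝ] Y}
    (hG : Continuous G) (l : X →L[ℝ] ℝ) :
    Continuous fun z => Cf om v e (G z) l := by
  unfold Cf
  simp only [cfF_apply]
  refine continuous_finsetSum _ fun i _ => ?_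
  refine continuous_const.mul (continuous_const.mul ?_)
  refine om.cont.comp (continuous_pi fun k => ?_)
  refine Fin.cases ?_ (fun j => ?_) k
  · exact continuous_const
  · exact hG.clm_apply continuous_const

/-- the projection to the `i`-th base coordinate -/
def pr (Q : Type*) [NormedAddCommGroup Q] [NormedSpace ℝ Q] (i : Fin b) :
    (Fin b → ℝ) × Q →L[ℝ] ℝ :=
  (ContinuousLinearMap.proj i : (Fin b → ℝ) →L[ℝ] ℝ).comp (ContinuousLinearMap.fst ℝ _ Q)

theorem glue [FiniteDimensional ℝ Q] [MeasurableSpace Q] [BorelSpace Q] (ν : Measure Q)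
    [ν.IsAddHaarMeasure] [FiniteDimensional ℝ Y] (hY : finrank ℝ Y = n + 1)
    (e : Basis (Fin (n + 1)) ℝ ((Fin b → ℝ) × Q)) (om : Y [⋀^Fin (n + 1)]→L[ℝ] ℝ) (v : Y)
    (F : (Fin b → ℝ) × Q → Y) (hF : ContDiff ℝ 2 F)
    (χ : (Fin b → ℝ) × Q → ℝ) (hχ : ContDiff ℝ 1 χ) (ζ : Y → ℝ) (hζ : ContDiff ℝ 1 ζ)
    (K : Set ((Fin b → ℝ) × Q)) (hK : IsCompact K)
    (hsupp : ∀ x, (∀ j, |x.1 j| ≤ 3 / 4) → χ x ≠ 0 → x ∈ K)
    (hshell : ∀ x, (∀ j, |x.1 j| ≤ 3 / 4) → ζ (F x) ≠ 0 → fderiv ℝ χ x = 0)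
    (hglue : ∀ (i : Fin b) (θ : Fin b → ℝ), 1 / 4 ≤ θ i → (∀ j, |θ j| ≤ 3 / 4) →
      ∃ A : (Fin b → ℝ) → Q →L[ℝ] Q, DifferentiableAt ℝ A θ ∧
        0 < LinearMap.det (A θ : Q →ₗ[ℝ] Q) ∧ ∀ᶠ θ' in 𝓝 θ, ∀ q,
          F (θ' - Pi.single i 1, q) = F (θ', A θ' q) ∧
          χ (θ' - Pi.single i 1, q) = χ (θ', A θ' q)) :
    ∫ x, rho x.1 * χ x * (fderiv ℝ ζ (F x) v * Dt om e (fderiv ℝ F x))
      ∂((volume : Measure (Fin b → ℝ)).prod ν) = 0 := by
  set μ : Measure ((Fin b → ℝ) × Q) := (volume : Measure (Fin b → ℝ)).prod ν with hμ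
  have hFc : Continuous F := hF.continuous
  have hdF : Continuous (fderiv ℝ F) := hF.continuous_fderiv two_ne_zero
  let g : (Fin b → ℝ) × Q → ℝ := fun x => rho x.1 * χ x
  have hrho : ContDiff ℝ 1 fun x : (Fin b → ℝ) × Q => rho x.1 :=
    (contDiff_rho.of_le (by simp)).comp contDiff_fst
  have hg : ContDiff ℝ 1 g := hrho.mul hχ
  have hgK : ∀ x, g x ≠ 0 → x ∈ K := fun x hx =>
    hsupp x (rho_ne (left_ne_zero_of_mul hx)) (right_ne_zero_of_mul hx)
  have hgc : HasCompactSupport fun x => g x * ζ (F x) :=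
    HasCompactSupport.intro hK fun x hx => by
      by_contra h
      exact hx (hgK x (left_ne_zero_of_mul h))
  have hP := piola μ hY om v e F hF g hg ζ hζ hgc
  -- the boundary functions
  let k : Fin b → (Fin b → ℝ) × Q → ℝ := fun i x =>
    χ x * (ζ (F x) * Cf om v e (fderiv ℝ F x) (pr Q i))
  have hk : ∀ i, Continuous (k i) := fun i =>
    hχ.continuous.mul ((hζ.continuous.comp hFc).mul (continuous_cf om v e hdF (pr Q i)))
  have hpt : ∀ x, ζ (F x) * Cf om v e (fderiv ℝ F x) (fderiv ℝ g x)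
      = ∑ i : Fin b, (aa i (x.1 + Pi.single i 1) - aa i x.1) * k i x := by
    intro x
    have h1 : fderiv ℝ g x = χ x • (∑ i : Fin b, (aa i (x.1 + Pi.single i 1) - aa i x.1) • pr Q i)
        + rho x.1 • fderiv ℝ χ x := by
      have h2 : HasFDerivAt (fun x : (Fin b → ℝ) × Q => rho x.1)
          ((∑ i : Fin b, (aa i (x.1 + Pi.single i 1) - aa i x.1) •
            (ContinuousLinearMap.proj i : (Fin b → ℝ) →L[ℝ] ℝ)).comp
              (ContinuousLinearMap.fst ℝ _ Q)) x :=
        (hasFDerivAt_rho x.1).comp x hasFDerivAt_fst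
      have h3 := (h2.mul (hχ.differentiable one_ne_zero x).hasFDerivAt).fderiv
      refine Eq.trans (b := _) h3 ?_
      rw [add_comm]
      congr 2
      ext y <;> simp [pr]
    have h4 : ζ (F x) * (rho x.1 * Cf om v e (fderiv ℝ F x) (fderiv ℝ χ x)) = 0 := by
      by_cases h5 : rho x.1 = 0
      · rw [h5, zero_mul, mul_zero]
      · by_cases h6 : ζ (F x) = 0
        · rw [h6, zero_mul]
        · rw [hshell x (rho_ne h5) h6]
          have : Cf om v e (fderiv ℝ F x) 0 = 0 := (CfL om v e (fderiv ℝ F x)).map_zero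
          rw [this, mul_zero, mul_zero]
    rw [h1, cf_add, cf_smul, cf_smul, mul_add, h4, add_zero]
    have h7 : Cf om v e (fderiv ℝ F x)
        (∑ i : Fin b, (aa i (x.1 + Pi.single i 1) - aa i x.1) • pr Q i)
        = ∑ i : Fin b, (aa i (x.1 + Pi.single i 1) - aa i x.1) *
          Cf om v e (fderiv ℝ F x) (pr Q i) := by
      have h8 := map_sum (CfL om v e (fderiv ℝ F x))
        (fun i : Fin b => (aa i (x.1 + Pi.single i 1) - aa i x.1) • pr Q i) Finset.univ
      simp only [map_smul, smul_eq_mul] at h8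
      exact h8
    rw [h7, Finset.mul_sum, Finset.mul_sum]
    refine Finset.sum_congr rfl fun i _ => ?_
    simp only [k]
    ring
  -- integrability
  have hint1 : Integrable (fun x => g x * (fderiv ℝ ζ (F x) v * Dt om e (fderiv ℝ F x))) μ := by
    refine Continuous.integrable_of_hasCompactSupport ?_ ?_
    · refine hg.continuous.mul (Continuous.mul ?_ (continuous_dt om e hdF))
      exact ((hζ.continuous_fderiv one_ne_zero).comp hFc).clm_apply continuous_const
    · exact HasCompactSupport.intro hK fun x hx => by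
        by_contra h
        exact hx (hgK x (left_ne_zero_of_mul h))
  have hint2 : ∀ i, Integrable (fun x : (Fin b → ℝ) × Q => aa i x.1 * k i x) μ := by
    intro i
    refine Continuous.integrable_of_hasCompactSupport
      (((continuous_aa i).comp continuous_fst).mul (hk i)) ?_
    refine HasCompactSupport.intro hK fun x hx => ?_
    by_contra h
    exact hx (hsupp x (aa_ne (left_ne_zero_of_mul h)).2
      (left_ne_zero_of_mul (right_ne_zero_of_mul h)))
  have hcube : ∀ (i : Fin b) (θ : Fin b → ℝ), aa i (θ + Pi.single i 1) ≠ 0 →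
      ∀ j, |θ j| ≤ 3 / 4 := by
    intro i θ h j
    have h1 := aa_ne h
    by_cases hj : j = i
    · subst hj
      have h2 := h1.1
      have h3 := h1.2 j
      rw [Pi.add_apply, Pi.single_eq_same] at h2 h3
      rw [abs_le] at h3 ⊢
      constructor <;> linarith [h3.1, h3.2]
    · have h3 := h1.2 j
      rwa [Pi.add_apply, Pi.single_eq_of_ne hj, add_zero] at h3
  have hint3 : ∀ i, Integrable
      (fun x : (Fin b → ℝ) × Q => aa i (x.1 + Pi.single i 1) * k i x) μ := by
    intro i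
    refine Continuous.integrable_of_hasCompactSupport
      (((continuous_aa i).comp (continuous_fst.add continuous_const)).mul (hk i)) ?_
    refine HasCompactSupport.intro hK fun x hx => ?_
    by_contra h
    exact hx (hsupp x (hcube i x.1 (left_ne_zero_of_mul h))
      (left_ne_zero_of_mul (right_ne_zero_of_mul h)))
  -- the shift
  have hshift : ∀ i, ∫ x, aa i (x.1 + Pi.single i 1) * k i x ∂μ = ∫ x, aa i x.1 * k i x ∂μ := by
    intro i
    have h1 : ∫ x, aa i (x.1 + Pi.single i 1) * k i x ∂μ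
        = ∫ x : (Fin b → ℝ) × Q, aa i x.1 * k i (x.1 - Pi.single i 1, x.2) ∂μ := by
      have h2 := integral_add_right_eq_self (μ := μ)
        (fun x : (Fin b → ℝ) × Q => aa i x.1 * k i (x.1 - Pi.single i 1, x.2))
        ((Pi.single i 1, 0) : (Fin b → ℝ) × Q)
      refine Eq.trans ?_ h2
      refine integral_congr_ae (Eventually.of_forall fun x => ?_)
      simp
    have hint4 : Integrable
        (fun x : (Fin b → ℝ) × Q => aa i x.1 * k i (x.1 - Pi.single i 1, x.2)) μ := by
      have h2 := (hint3 i).comp_add_right (-((Pi.single i 1, 0) : (Fin b → ℝ) × Q))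
      refine h2.congr (Eventually.of_forall fun x => ?_)
      have h3 : x + -((Pi.single i 1, 0) : (Fin b → ℝ) × Q) = (x.1 - Pi.single i 1, x.2) := by
        refine Prod.ext ?_ ?_ <;> simp [sub_eq_add_neg]
      show aa i ((x + -((Pi.single i 1, 0) : (Fin b → ℝ) × Q)).1 + Pi.single i 1)
        * k i (x + -((Pi.single i 1, 0) : (Fin b → ℝ) × Q)) = _
      rw [h3]
      simp
    rw [h1, hμ, integral_prod _ hint4, integral_prod _ (hint2 i)]
    refine integral_congr_ae (Eventually.of_forall fun θ => ?_)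
    show ∫ q, aa i θ * k i (θ - Pi.single i 1, q) ∂ν = ∫ q, aa i θ * k i (θ, q) ∂ν
    by_cases ha : aa i θ = 0
    · simp [ha]
    rw [integral_const_mul, integral_const_mul]
    congr 1
    obtain ⟨A, hA, hdet, hev⟩ := hglue i θ (aa_ne ha).1 (aa_ne ha).2
    rw [← integral_comp_lin ν (A θ) hdet (fun q => k i (θ, q))]
    refine integral_congr_ae (Eventually.of_forall fun q => ?_)
    show k i (θ - Pi.single i 1, q)
      = LinearMap.det (A θ : Q →ₗ[ℝ] Q) * k i (θ, A θ q)
    have hself := hev.self_of_nhds q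
    -- derivatives
    let M : (Fin b → ℝ) × Q →L[ℝ] (Fin b → ℝ) × Q :=
      tri (A θ) ((fderiv ℝ A θ).flip q)
    have hM : HasFDerivAt (fun x : (Fin b → ℝ) × Q => (x.1, A x.1 x.2)) M (θ, q) := by
      refine HasFDerivAt.prodMk hasFDerivAt_fst ?_
      have h5 : HasFDerivAt (fun x : (Fin b → ℝ) × Q => A x.1)
          ((fderiv ℝ A θ).comp (ContinuousLinearMap.fst ℝ _ Q)) (θ, q) :=
        HasFDerivAt.comp (θ, q) (hA.hasFDerivAt) hasFDerivAt_fst
      refine (h5.clm_apply hasFDerivAt_snd).congr_fderiv ?_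
      ext y <;> simp
    have hD : fderiv ℝ F (θ - Pi.single i 1, q) = (fderiv ℝ F (θ, A θ q)).comp M := by
      have h6 : HasFDerivAt (fun x : (Fin b → ℝ) × Q => F (x.1, A x.1 x.2))
          ((fderiv ℝ F (θ, A θ q)).comp M) (θ, q) :=
        HasFDerivAt.comp (θ, q) (g := F)
          ((hF.differentiable two_ne_zero (θ, A θ q)).hasFDerivAt) hM
      have h7 : HasFDerivAt (fun x : (Fin b → ℝ) × Q => F (x.1 - Pi.single i 1, x.2))
          (fderiv ℝ F (θ - Pi.single i 1, q)) (θ, q) := by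
        have h8 : HasFDerivAt (fun x : (Fin b → ℝ) × Q =>
            ((x.1 - Pi.single i 1, x.2) : (Fin b → ℝ) × Q))
            (ContinuousLinearMap.id ℝ _) (θ, q) := by
          have h9 : (fun x : (Fin b → ℝ) × Q =>
              ((x.1 - Pi.single i 1, x.2) : (Fin b → ℝ) × Q))
              = fun x => x - ((Pi.single i 1, 0) : (Fin b → ℝ) × Q) := by
            funext x
            ext <;> simp
          rw [h9]
          exact (hasFDerivAt_id (θ, q)).sub_const _
        have h10 := HasFDerivAt.comp (θ, q) (g := F)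
          (f := fun x : (Fin b → ℝ) × Q => ((x.1 - Pi.single i 1, x.2) : (Fin b → ℝ) × Q))
          ((hF.differentiable two_ne_zero (θ - Pi.single i 1, q)).hasFDerivAt) h8
        rw [ContinuousLinearMap.comp_id] at h10
        exact h10
      have h11 : (fun x : (Fin b → ℝ) × Q => F (x.1 - Pi.single i 1, x.2))
          =ᶠ[𝓝 (θ, q)] fun x => F (x.1, A x.1 x.2) := by
        have h12 : ∀ᶠ x : (Fin b → ℝ) × Q in 𝓝 (θ, q), ∀ q',
            F (x.1 - Pi.single i 1, q') = F (x.1, A x.1 q') ∧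
            χ (x.1 - Pi.single i 1, q') = χ (x.1, A x.1 q') :=
          (continuous_fst.tendsto (θ, q)).eventually hev
        filter_upwards [h12] with x hx using (hx x.2).1
      exact (h7.congr_of_eventuallyEq h11.symm).unique h6
    simp only [k]
    rw [hself.1, hself.2, hD]
    have h13 : (pr Q i : (Fin b → ℝ) × Q →L[ℝ] ℝ) = (pr Q i).comp M := by
      ext y <;> simp [pr, M, tri]
    have h14 : Cf om v e ((fderiv ℝ F (θ, A θ q)).comp M) (pr Q i)
        = LinearMap.det (A θ : Q →ₗ[ℝ] Q) * Cf om v e (fderiv ℝ F (θ, A θ q)) (pr Q i) := by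
      conv_lhs => rw [h13]
      rw [cf_comp, det_tri]
    rw [h14]
    ring
  -- conclusion
  have hsum : ∫ x, ζ (F x) * Cf om v e (fderiv ℝ F x) (fderiv ℝ g x) ∂μ = 0 := by
    simp only [hpt]
    rw [integral_finsetSum]
    · refine Finset.sum_eq_zero fun i _ => ?_
      simp only [sub_mul]
      rw [integral_sub (hint3 i) (hint2 i), hshift i, sub_self]
    · intro i _
      simp only [sub_mul]
      exact (hint3 i).sub (hint2 i)
  have hint5 : Integrable (fun x => ζ (F x) * Cf om v e (fderiv ℝ F x) (fderiv ℝ g x)) μ := by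
    simp only [hpt, sub_mul]
    exact integrable_finsetSum _ fun i _ => (hint3 i).sub (hint2 i)
  rw [integral_add hint1 hint5, hsum, add_zero] at hP
  exact hP

end Crest.Agent.R235.DgInv_778
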