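import Crest.Agent.R235.BPlus_723
import Crest.Agent.R235.T4R_837
import Crest.Agent.R235.DichH1_723

-- ▼ part R235/LatT_723
section

/-!
Row 235 (S0364), helper723: LATT (positive frames in elliptic position, torus type).
-/

set_option autoImplicit false
set_option maxSynthPendingDepth 3

open Set Function Filter MeasureTheory
open scoped Manifold ContDiff Topology

universe u

namespace Crest.Agent.R235

open Crest.Agent.R240 Crest.Agent.R240.Ch Crest.Agent.R240.Int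

namespace LatT_723

noncomputable section

/-- a positive number without integer relation of degree `≤ 5`. -/
theorem exists_generic : ∃ t : ℝ, 0 < t ∧ ∀ a b c d e r : ℤ,
    (a : ℝ) + b * t + c * t ^ 2 + d * t ^ 3 + e * t ^ 4 + r * t ^ 5 = 0 →
      a = 0 ∧ b = 0 ∧ c = 0 ∧ d = 0 ∧ e = 0 ∧ r = 0 := by
  have htr : Transcendental ℤ (liouvilleNumber (2 : ℕ)) := transcendental_liouvilleNumber le_rfl
  set x : ℝ := liouvilleNumber (2 : ℕ) with hxdef
  have hx0 : x ≠ 0 := by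
    intro h
    rw [h] at htr
    exact htr isAlgebraic_zero
  refine ⟨x ^ 2, by positivity, ?_⟩
  intro a b c d e r h
  let p : Polynomial ℤ := Polynomial.monomial 0 a + Polynomial.monomial 2 b +
    Polynomial.monomial 4 c + Polynomial.monomial 6 d + Polynomial.monomial 8 e +
    Polynomial.monomial 10 r
  have hp : Polynomial.aeval x p = 0 := by
    simp only [p, map_add, Polynomial.aeval_monomial]
    simp only [algebraMap_int_eq, eq_intCast]
    linear_combination h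
  have hp0 : p = 0 := by
    by_contra hne
    exact htr ⟨p, hne, hp⟩
  have hc : ∀ n, p.coeff n = 0 := fun n => by rw [hp0]; simp
  refine ⟨?_, ?_, ?_, ?_, ?_, ?_⟩
  · have h0 := hc 0
    simp only [p, Polynomial.coeff_add, Polynomial.coeff_monomial] at h0
    simpa using h0
  · have h2 := hc 2
    simp only [p, Polynomial.coeff_add, Polynomial.coeff_monomial] at h2
    simpa using h2
  · have h4 := hc 4
    simp only [p, Polynomial.coeff_add, Polynomial.coeff_monomial] at h4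
    simpa using h4
  · have h6 := hc 6
    simp only [p, Polynomial.coeff_add, Polynomial.coeff_monomial] at h6
    simpa using h6
  · have h8 := hc 8
    simp only [p, Polynomial.coeff_add, Polynomial.coeff_monomial] at h8
    simpa using h8
  · have h10 := hc 10
    simp only [p, Polynomial.coeff_add, Polynomial.coeff_monomial] at h10
    simpa using h10

theorem flip_sum {V : Type*} [AddCommGroup V] [Module ℝ V] (a : Fin 3 → ℝ) (b : Fin 3 → V) :
    ∑ i, a i • update b 0 (-b 0) i = ∑ i, (update a 0 (-a 0)) i • b i := by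
  simp only [Fin.sum_univ_three, update_self, update_of_ne (show (1 : Fin 3) ≠ 0 by decide),
    update_of_ne (show (2 : Fin 3) ≠ 0 by decide)]
  module

/-- linear combinations of vectors given in the coordinates `f, g` -/
theorem comb3 {V : Type*} [AddCommGroup V] [Module ℝ V] (f g : Fin 3 → V)
    (X Y : Fin 3 → Fin 3 → ℝ) (a : Fin 3 → ℝ) :
    ∑ k, a k • (∑ i, X k i • f i + ∑ i, Y k i • g i) =
      ∑ i, (∑ k, a k * X k i) • f i + ∑ i, (∑ k, a k * Y k i) • g i := by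
  simp only [Fin.sum_univ_three]
  module

theorem det_flip (D D' : Matrix (Fin 3) (Fin 3) ℝ) (h0 : ∀ j, D' 0 j = - D 0 j)
    (h1 : ∀ j, D' 1 j = D 1 j) (h2 : ∀ j, D' 2 j = D 2 j) : D'.det = - D.det := by
  rw [Matrix.det_fin_three, Matrix.det_fin_three]
  simp only [h0, h1, h2]
  ring

theorem latt_pos (t N : ℝ) (ht : 0 < t) (hN : 1 + 1 / (2 * (2 * t ^ 3 + 2 * t ^ 7)) < N * t ^ 5)
    (a : Fin 3 → ℝ) (ha : a ≠ 0) :
    0 < ∑ i, ((∑ k, a k * (![![N * t ^ 5, t, t ^ 3], ![1, t, t ^ 3], ![0, t ^ 5, -t ^ 3]] :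
        Fin 3 → Fin 3 → ℝ) k i) *
      (∑ k, a k * (![![1, t ^ 2, t ^ 4], ![0, t ^ 2, t ^ 4], ![0, t ^ 6, -t ^ 4]] :
        Fin 3 → Fin 3 → ℝ) k i) +
      (∑ k, a k * (![![1, t ^ 2, t ^ 4], ![0, t ^ 2, t ^ 4], ![0, t ^ 6, -t ^ 4]] :
        Fin 3 → Fin 3 → ℝ) k i) *
      (∑ k, a k * (![![N * t ^ 5, t, t ^ 3], ![1, t, t ^ 3], ![0, t ^ 5, -t ^ 3]] :
        Fin 3 → Fin 3 → ℝ) k i)) := by
  set β : ℝ := 2 * t ^ 3 + 2 * t ^ 7 with hβ
  have hβ0 : 0 < β := by positivity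
  have h1 : ∑ i, ((∑ k, a k * (![![N * t ^ 5, t, t ^ 3], ![1, t, t ^ 3], ![0, t ^ 5, -t ^ 3]] :
        Fin 3 → Fin 3 → ℝ) k i) *
      (∑ k, a k * (![![1, t ^ 2, t ^ 4], ![0, t ^ 2, t ^ 4], ![0, t ^ 6, -t ^ 4]] :
        Fin 3 → Fin 3 → ℝ) k i) +
      (∑ k, a k * (![![1, t ^ 2, t ^ 4], ![0, t ^ 2, t ^ 4], ![0, t ^ 6, -t ^ 4]] :
        Fin 3 → Fin 3 → ℝ) k i) *
      (∑ k, a k * (![![N * t ^ 5, t, t ^ 3], ![1, t, t ^ 3], ![0, t ^ 5, -t ^ 3]] :
        Fin 3 → Fin 3 → ℝ) k i)) =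
      a 0 ^ 2 * (β + 2 * (N * t ^ 5)) + 2 * a 0 * a 1 * (β + 1) + a 1 ^ 2 * β +
        (2 * t ^ 11 + 2 * t ^ 7) * a 2 ^ 2 := by
    simp only [Fin.sum_univ_three, Matrix.cons_val_zero, Matrix.cons_val_one,
      Matrix.cons_val_two, Matrix.head_cons, Matrix.tail_cons, hβ]
    ring
  have h2 : a 0 ^ 2 * (β + 2 * (N * t ^ 5)) + 2 * a 0 * a 1 * (β + 1) + a 1 ^ 2 * β +
        (2 * t ^ 11 + 2 * t ^ 7) * a 2 ^ 2 =
      β * (a 1 + (β + 1) / β * a 0) ^ 2 + 2 * (N * t ^ 5 - (1 + 1 / (2 * β))) * a 0 ^ 2 +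
        (2 * t ^ 11 + 2 * t ^ 7) * a 2 ^ 2 := by
    field_simp
    ring
  rw [h1, h2]
  have h3 : 0 < N * t ^ 5 - (1 + 1 / (2 * β)) := by linarith
  by_cases h4 : a 0 = 0
  · by_cases h5 : a 2 = 0
    · have h6 : a 1 ≠ 0 := by
        intro h6
        apply ha
        funext i
        fin_cases i
        · exact h4
        · exact h6
        · exact h5
      rw [h4, h5]
      have h7 : 0 < β * a 1 ^ 2 := by positivity
      simpa using h7
    · positivity
  · positivity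

theorem f0_eq {V : Type*} [AddCommGroup V] [Module ℝ V] (f g : Fin 3 → V) :
    f 0 = ∑ i, (![1, 0, 0] : Fin 3 → ℝ) i • f i + ∑ i, (0 : Fin 3 → ℝ) i • g i := by
  simp [Fin.sum_univ_three]

theorem f0_eq_int {V : Type*} [AddCommGroup V] [Module ℝ V] (f g : Fin 3 → V) :
    f 0 = ∑ i, (((![1, 0, 0] : Fin 3 → ℤ) i : ℤ) : ℝ) • f i +
      ∑ i, (((0 : Fin 3 → ℤ) i : ℤ) : ℝ) • g i := by
  simp [Fin.sum_univ_three]

theorem f0_neg_int {V : Type*} [AddCommGroup V] [Module ℝ V] (f g : Fin 3 → V) :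
    -f 0 = ∑ i, (((![-1, 0, 0] : Fin 3 → ℤ) i : ℤ) : ℝ) • f i +
      ∑ i, (((0 : Fin 3 → ℤ) i : ℤ) : ℝ) • g i := by
  simp [Fin.sum_univ_three]

theorem only_eq {V : Type*} [AddCommGroup V] [Module ℝ V] (f g : Fin 3 → V)
    (m n : Fin 3 → ℤ) (k1 : n 0 = 0) (k2 : n 1 = 0) (k3 : m 1 = 0) (k4 : n 2 = 0)
    (k5 : m 2 = 0) :
    ∑ i, (m i : ℝ) • f i + ∑ i, (n i : ℝ) • g i = (m 0 : ℝ) • f 0 := by
  simp [Fin.sum_univ_three, k1, k2, k3, k4, k5]

section Frames

variable {M : Type u} [TopologicalSpace M] [T2Space M] [CompactSpace M]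
  [ChartedSpace E4 M] [IsManifold 𝓘(ℝ, E4) ∞ M]

theorem posCls_flip {F : Z2 M} {b : Fin 3 → H2 M} (hb : PosCls F b) :
    PosCls F (update b 0 (-b 0)) := by
  intro a ha
  rw [flip_sum]
  refine hb _ fun h => ha ?_
  funext i
  have h2 := congrFun h i
  by_cases hi : i = 0
  · subst hi
    simpa using h2
  · simpa [hi] using h2


end Frames

end

end LatT_723


end Crest.Agent.R235
end

-- ▼ part R235/LatTR_723
section

/-!
Row 235 (S0364), helper723: the real torus type `T4R`: hyperbolic basis, negative definiteness of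
the complement of a positive frame, `lattr : LATTR`, `dichr_of_dich`.
-/

set_option autoImplicit false
set_option maxSynthPendingDepth 3
set_option linter.unusedSectionVars false

open Set Function Filter MeasureTheory
open scoped Manifold ContDiff Topology

universe u

namespace Crest.Agent.R235

open Crest.Agent.R240 Crest.Agent.R240.Ch Crest.Agent.R240.Int

namespace LatTR_723

open BPlus_723 LatT_723

noncomputable section

variable {M : Type u} [TopologicalSpace M] [T2Space M] [CompactSpace M]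
  [ChartedSpace E4 M] [IsManifold 𝓘(ℝ, E4) ∞ M]

/-- the classes of the products are antisymmetric. -/
theorem cls_anti {s : Fin 4 → F1 E4 M} {a : Fin 4 → Fin 4 → Z2 M}
    (ha : ∀ i j, (a i j).1.1 = wedG (s i) (s j)) (i j : Fin 4) :
    (cls (a j i) : H2 M) = - cls (a i j) := by
  rw [← map_neg]
  congr 1
  apply Z2_ext
  intro x
  show at2 ((a j i).1.1 : F2 E4 M) x = - at2 ((a i j).1.1 : F2 E4 M) x
  rw [ha, ha, wedG_anti]
  rfl

theorem cls_diag {s : Fin 4 → F1 E4 M} {a : Fin 4 → Fin 4 → Z2 M}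
    (ha : ∀ i j, (a i j).1.1 = wedG (s i) (s j)) (i : Fin 4) :
    (cls (a i i) : H2 M) = 0 := by
  have h1 := cls_anti ha i i
  have h2 : (2 : ℝ) • (cls (a i i) : H2 M) = 0 := by
    rw [two_smul]
    nth_rewrite 1 [h1]
    exact neg_add_cancel _
  calc (cls (a i i) : H2 M) = (1 / 2 : ℝ) • ((2 : ℝ) • (cls (a i i) : H2 M)) := by
        rw [smul_smul]; norm_num
    _ = 0 := by rw [h2, smul_zero]

/-- a real vector space spanned by three plus three vectors -/
def Phi {V : Type*} [AddCommGroup V] [Module ℝ V] (f g : Fin 3 → V) :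
    ((Fin 3 → ℝ) × (Fin 3 → ℝ)) →ₗ[ℝ] V :=
  LinearMap.coprod (Fintype.linearCombination ℝ f) (Fintype.linearCombination ℝ g)

theorem Phi_apply {V : Type*} [AddCommGroup V] [Module ℝ V] (f g : Fin 3 → V)
    (p : (Fin 3 → ℝ) × (Fin 3 → ℝ)) :
    Phi f g p = ∑ i, p.1 i • f i + ∑ i, p.2 i • g i := by
  simp [Phi, Fintype.linearCombination_apply]

theorem fin6 {s : Fin 4 → F1 E4 M} {a : Fin 4 → Fin 4 → Z2 M}
    (ha : ∀ i j, (a i j).1.1 = wedG (s i) (s j))
    (hspan : ∀ c : H2 M, ∃ n : Fin 4 → Fin 4 → ℝ, c = ∑ i, ∑ j, n i j • cls (a i j)) :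
    FiniteDimensional ℝ (H2 M) ∧ Module.finrank ℝ (H2 M) ≤ 6 := by
  set A : Fin 4 → Fin 4 → H2 M := fun i j => cls (a i j) with hA
  have hsurj : Function.Surjective (Phi (![A 0 1, A 0 2, A 0 3] : Fin 3 → H2 M)
      (![(1 : ℝ) • A 2 3, (-1 : ℝ) • A 1 3, (1 : ℝ) • A 1 2] : Fin 3 → H2 M)) := by
    intro c
    obtain ⟨n, hn⟩ := hspan c
    refine ⟨(![n 0 1 - n 1 0, n 0 2 - n 2 0, n 0 3 - n 3 0],
      ![1 * (n 2 3 - n 3 2), (-1) * (n 1 3 - n 3 1), 1 * (n 1 2 - n 2 1)]), ?_⟩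
    rw [Phi_apply]
    exact ((key A (cls_anti ha) (cls_diag ha) 1 (by norm_num) n).symm.trans hn.symm)
  have hfd : FiniteDimensional ℝ (H2 M) := Module.Finite.of_surjective _ hsurj
  refine ⟨hfd, ?_⟩
  have h1 := LinearMap.finrank_le_finrank_of_surjective hsurj
  rw [Module.finrank_prod, Module.finrank_fin_fun] at h1
  exact h1

theorem hyp_inj {F : Z2 M} (hF : Vol (F.1.1 : F2 E4 M)) {f g : Fin 3 → H2 M}
    (hff : ∀ i j, ip F (f i) (f j) = 0) (hgg : ∀ i j, ip F (g i) (g j) = 0)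
    (hfg : ∀ i j, ip F (f i) (g j) = if i = j then 1 else 0) :
    Function.Injective (Phi f g) := by
  rw [injective_iff_map_eq_zero]
  rintro ⟨x, y⟩ hxy
  rw [Phi_apply] at hxy
  have hx : ∀ j, x j = 0 := by
    intro j
    have h1 := hyp_pair hF hff hgg hfg x y 0 (Pi.single j 1)
    have h2 : ip F (∑ i, x i • f i + ∑ i, y i • g i)
        (∑ i, (0 : Fin 3 → ℝ) i • f i + ∑ i, (Pi.single j 1 : Fin 3 → ℝ) i • g i) = 0 := by
      rw [show (∑ i, x i • f i + ∑ i, y i • g i) = 0 from hxy, ip_zero_left hF]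
    rw [h2] at h1
    simpa [Pi.single_apply] using h1.symm
  have hy : ∀ j, y j = 0 := by
    intro j
    have h1 := hyp_pair hF hff hgg hfg x y (Pi.single j 1) 0
    have h2 : ip F (∑ i, x i • f i + ∑ i, y i • g i)
        (∑ i, (Pi.single j 1 : Fin 3 → ℝ) i • f i + ∑ i, (0 : Fin 3 → ℝ) i • g i) = 0 := by
      rw [show (∑ i, x i • f i + ∑ i, y i • g i) = 0 from hxy, ip_zero_left hF]
    rw [h2] at h1
    simpa [Pi.single_apply] using h1.symm
  exact Prod.ext (funext hx) (funext hy)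

/-- hyperbolic basis for the real torus type. -/
theorem T4R_hyp {F : Z2 M} (hF : Vol (F.1.1 : F2 E4 M)) (h : T4R F) :
    ∃ f g : Fin 3 → H2 M, (∀ i j, ip F (f i) (f j) = 0) ∧ (∀ i j, ip F (g i) (g j) = 0) ∧
      (∀ i j, ip F (f i) (g j) = if i = j then 1 else 0) ∧
      (∀ c : H2 M, ∃ x y : Fin 3 → ℝ, c = ∑ i, x i • f i + ∑ i, y i • g i) ∧
      HZ M = {c | ∃ m n : Fin 3 → ℤ, c = ∑ i, (m i : ℝ) • f i + ∑ i, (n i : ℝ) • g i} := by
  obtain ⟨⟨s, hs, -, a, ha, hG, hm, hspan⟩, f, g, hff, hgg, hfg, hHZ⟩ := h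
  obtain ⟨hfd, hdim⟩ := fin6 ha hspan
  have hinj := hyp_inj hF hff hgg hfg
  have hdim2 : Module.finrank ℝ ((Fin 3 → ℝ) × (Fin 3 → ℝ)) = 6 := by
    rw [Module.finrank_prod, Module.finrank_fin_fun]
  have hle := LinearMap.finrank_le_finrank_of_injective hinj
  have heq : Module.finrank ℝ ((Fin 3 → ℝ) × (Fin 3 → ℝ)) = Module.finrank ℝ (H2 M) := by
    omega
  have hsurj := (LinearMap.injective_iff_surjective_of_finrank_eq_finrank heq).1 hinj
  refine ⟨f, g, hff, hgg, hfg, fun c => ?_, hHZ⟩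
  obtain ⟨⟨x, y⟩, hxy⟩ := hsurj c
  rw [Phi_apply] at hxy
  exact ⟨x, y, hxy.symm⟩

/-- the negative definiteness from a hyperbolic basis. -/
theorem neg_of_hyp {F : Z2 M} (hF : Vol (F.1.1 : F2 E4 M)) {f g : Fin 3 → H2 M}
    (hff : ∀ i j, ip F (f i) (f j) = 0) (hgg : ∀ i j, ip F (g i) (g j) = 0)
    (hfg : ∀ i j, ip F (f i) (g j) = if i = j then 1 else 0)
    (hspan : ∀ c : H2 M, ∃ x y : Fin 3 → ℝ, c = ∑ i, x i • f i + ∑ i, y i • g i)
    (c : Fin 3 → H2 M)
    (hc : PosCls F c) (x : H2 M) (hx : ∀ i, ip F x (c i) = 0) (h0 : x ≠ 0) : ip F x x < 0 := by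
  have hsurj : Function.Surjective (Phi f g) := by
    intro c
    obtain ⟨x, y, hxy⟩ := hspan c
    exact ⟨(x, y), by rw [Phi_apply]; exact hxy.symm⟩
  have hfd : FiniteDimensional ℝ (H2 M) := Module.Finite.of_surjective _ hsurj
  have hdim : Module.finrank ℝ (H2 M) ≤ 6 := by
    have h1 := LinearMap.finrank_le_finrank_of_surjective hsurj
    rw [Module.finrank_prod, Module.finrank_fin_fun] at h1
    exact h1
  refine LatS_723.neg_of_sylvester (N := Fin 3 → ℝ) (ipB F hF)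
    (fun x y => ip_comm F x y) (Phi f g ∘ₗ LinearMap.prod LinearMap.id (-LinearMap.id)) ?_
    (k := 3) ?_ c hc x hx h0
  · intro n hn
    have h1 : (Phi f g ∘ₗ LinearMap.prod LinearMap.id (-LinearMap.id)) n =
        ∑ i, n i • f i + ∑ i, (-n i) • g i := by
      rw [LinearMap.comp_apply, Phi_apply]
      rfl
    rw [h1, ipB_apply, hyp_pair hF hff hgg hfg]
    obtain ⟨i, hi⟩ : ∃ i, n i ≠ 0 := by
      by_contra hcon
      push Not at hcon
      exact hn (funext hcon)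
    have h7 : ∀ i, n i * - n i + - n i * n i ≤ 0 := fun i => by
      nlinarith [sq_nonneg (n i)]
    refine Finset.sum_neg' (fun i _ => h7 i) ⟨i, Finset.mem_univ _, ?_⟩
    have := mul_self_pos.2 hi
    nlinarith
  · rw [Module.finrank_fin_fun]
    exact hdim

theorem neg_T4R {F : Z2 M} (hF : Vol (F.1.1 : F2 E4 M)) (h : T4R F) (c : Fin 3 → H2 M)
    (hc : PosCls F c) (x : H2 M) (hx : ∀ i, ip F x (c i) = 0) (h0 : x ≠ 0) : ip F x x < 0 := by
  obtain ⟨f, g, hff, hgg, hfg, hspan, _⟩ := T4R_hyp hF h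
  exact neg_of_hyp hF hff hgg hfg hspan c hc x hx h0

/-- both types: the orthogonal complement of a positive frame is negative definite. -/
theorem neg_of_typeR {F : Z2 M} (hF : Vol (F.1.1 : F2 E4 M)) (h : K3Type F ∨ T4R F)
    (c : Fin 3 → H2 M) (hc : PosCls F c) (x : H2 M) (hx : ∀ i, ip F x (c i) = 0)
    (h0 : x ≠ 0) : ip F x x < 0 := by
  rcases h with h | h
  · exact neg_K3 hF h c hc x hx h0
  · exact neg_T4R hF h c hc x hx h0

/-- a positive frame is non-degenerate against the classes of `w`. -/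
theorem frame_det_neR [Nonempty M] {w : Trip M} (hw : Pos3 w) (h : K3Type (w 0) ∨ T4R (w 0))
    (b : Fin 3 → H2 M) (hb : PosCls (w 0) b) :
    (Matrix.of fun i j => ip (w 0) (b i) (cls (w j))).det ≠ 0 :=
  LatS_723.det_ne_zero (ipB (w 0) (hw.vol 0)) b (fun j => cls (w j)) hb
    (fun x hx hi => neg_of_typeR (hw.vol 0) h _ (posCls_of_pos3 hw) x hi hx)

/-- up to the sign of `b 0`, a positive frame of classes is in the component of `w`. -/
theorem frame_orR [Nonempty M] {w : Trip M} (hw : Pos3 w) (h : K3Type (w 0) ∨ T4R (w 0))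
    (b : Fin 3 → H2 M) (hb : PosCls (w 0) b) :
    Frame w b ∨ Frame w (update b 0 (-b 0)) := by
  have hF := hw.vol 0
  have h1 := frame_det_neR hw h b hb
  have h2 : (Matrix.of fun i j => ip (w 0) (update b 0 (-b 0) i) (cls (w j))).det =
      - (Matrix.of fun i j => ip (w 0) (b i) (cls (w j))).det := by
    refine det_flip _ _ (fun j => ?_) (fun j => ?_) (fun j => ?_)
    · rw [Matrix.of_apply, Matrix.of_apply, update_self, ip_neg_left hF]
    · rw [Matrix.of_apply, Matrix.of_apply, update_of_ne (show (1 : Fin 3) ≠ 0 by decide)]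
    · rw [Matrix.of_apply, Matrix.of_apply, update_of_ne (show (2 : Fin 3) ≠ 0 by decide)]
  rcases lt_or_gt_of_ne h1 with h3 | h3
  · right
    refine ⟨(posCls_iff hF _).1 (posCls_flip hb), ?_⟩
    rw [h2]
    linarith
  · left
    exact ⟨(posCls_iff hF _).1 hb, h3⟩

end

end LatTR_723


open LatT_723 BPlus_723 in
/-- **LATTR**: frames in elliptic position exist. -/
theorem lattr : LATTR.{u} := by
  intro M _ _ _ _ _ _ w hw h
  have hF := hw.vol 0
  obtain ⟨f, g, hff, hgg, hfg, hspan, hHZ⟩ := LatTR_723.T4R_hyp hF h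
  obtain ⟨t, ht, hgen⟩ := exists_generic
  obtain ⟨N, hN⟩ := exists_nat_gt ((1 + 1 / (2 * (2 * t ^ 3 + 2 * t ^ 7))) / t ^ 5)
  have hN' : 1 + 1 / (2 * (2 * t ^ 3 + 2 * t ^ 7)) < N * t ^ 5 := by
    rwa [div_lt_iff₀ (by positivity)] at hN
  have hN0 : N ≠ 0 := by
    rintro rfl
    have : (0 : ℝ) < 1 + 1 / (2 * (2 * t ^ 3 + 2 * t ^ 7)) := by positivity
    rw [Nat.cast_zero, zero_mul] at hN'
    linarith
  have hpair := fun x y x' y' => hyp_pair hF hff hgg hfg x y x' y'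
  let X : Fin 3 → Fin 3 → ℝ := ![![N * t ^ 5, t, t ^ 3], ![1, t, t ^ 3], ![0, t ^ 5, -t ^ 3]]
  let Y : Fin 3 → Fin 3 → ℝ := ![![1, t ^ 2, t ^ 4], ![0, t ^ 2, t ^ 4], ![0, t ^ 6, -t ^ 4]]
  let b : Fin 3 → H2 M := fun k => ∑ i, X k i • f i + ∑ i, Y k i • g i
  have hb : PosCls (w 0) b := by
    intro a ha
    have h1 : ∑ k, a k • b k = ∑ i, (∑ k, a k * X k i) • f i + ∑ i, (∑ k, a k * Y k i) • g i :=
      comb3 f g X Y a
    rw [h1, hpair]
    exact latt_pos t N ht hN' a ha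
  have hdet := LatTR_723.frame_orR hw (Or.inr h) b hb
  have hb1 : ∀ m n : Fin 3 → ℝ, ip (w 0) (∑ i, m i • f i + ∑ i, n i • g i) (b 1) =
      n 0 + n 1 * t + m 1 * t ^ 2 + n 2 * t ^ 3 + m 2 * t ^ 4 := by
    intro m n
    show ip (w 0) _ (∑ i, X 1 i • f i + ∑ i, Y 1 i • g i) = _
    rw [hpair]
    simp [X, Y, Fin.sum_univ_three]
    ring
  have hb0 : ∀ m n : Fin 3 → ℝ, ip (w 0) (∑ i, m i • f i + ∑ i, n i • g i) (b 0) =
      m 0 + n 1 * t + m 1 * t ^ 2 + n 2 * t ^ 3 + m 2 * t ^ 4 + (n 0 * N) * t ^ 5 := by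
    intro m n
    show ip (w 0) _ (∑ i, X 0 i • f i + ∑ i, Y 0 i • g i) = _
    rw [hpair]
    simp [X, Y, Fin.sum_univ_three]
    ring
  have hf0 : f 0 = ∑ i, (![1, 0, 0] : Fin 3 → ℝ) i • f i + ∑ i, (0 : Fin 3 → ℝ) i • g i :=
    f0_eq f g
  have e0 : ip (w 0) (f 0) (b 0) = 1 := by
    rw [hf0, hb0]
    simp
  have e1 : ip (w 0) (f 0) (b 1) = 0 := by
    rw [hf0, hb1]
    simp
  have e2 : ip (w 0) (f 0) (b 2) = 0 := by
    show ip (w 0) _ (∑ i, X 2 i • f i + ∑ i, Y 2 i • g i) = _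
    rw [hf0, hpair]
    simp [X, Y, Fin.sum_univ_three]
  have honly : ∀ c ∈ HZ M, ip (w 0) c (b 1) = 0 → ∃ n : ℤ, c = (n : ℝ) • f 0 := by
    intro c hc hc1
    rw [hHZ] at hc
    obtain ⟨m, n, rfl⟩ := hc
    have h2 := hb1 (fun i => (m i : ℝ)) (fun i => (n i : ℝ))
    rw [h2] at hc1
    obtain ⟨k1, k2, k3, k4, k5, _⟩ := hgen (n 0) (n 1) (m 1) (n 2) (m 2) 0 (by
      rw [Int.cast_zero, zero_mul, add_zero]; exact hc1)
    refine ⟨m 0, ?_⟩
    exact only_eq f g m n k1 k2 k3 k4 k5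
  have hgen0 : ∀ c ∈ HZ M, c ≠ 0 → ip (w 0) c (b 0) ≠ 0 := by
    intro c hc hc0 hc1
    rw [hHZ] at hc
    obtain ⟨m, n, rfl⟩ := hc
    have h2 := hb0 (fun i => (m i : ℝ)) (fun i => (n i : ℝ))
    rw [h2] at hc1
    obtain ⟨k1, k2, k3, k4, k5, k6⟩ := hgen (m 0) (n 1) (m 1) (n 2) (m 2) (n 0 * N) (by
      rw [← hc1]
      push_cast
      ring)
    have k7 : n 0 = 0 := by
      rcases mul_eq_zero.1 k6 with h | h
      · exact h
      · exact absurd (by exact_mod_cast h) hN0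
    refine hc0 ?_
    rw [only_eq f g m n k7 k2 k3 k4 k5, k1, Int.cast_zero, zero_smul]
  have hmem : f 0 ∈ HZ M := by
    rw [hHZ]
    refine ⟨![1, 0, 0], 0, ?_⟩
    exact f0_eq_int f g
  have hmem' : -f 0 ∈ HZ M := by
    rw [hHZ]
    refine ⟨![-1, 0, 0], 0, ?_⟩
    exact f0_neg_int f g
  rcases hdet with hfr | hfr
  · refine ⟨f 0, b, hfr, hmem, hff 0 0, e1, e2, fun c hc hc1 _ => honly c hc hc1, ?_, hgen0⟩
    rw [e0]
    exact one_pos
  · have u1 : update b 0 (-b 0) 1 = b 1 := update_of_ne (show (1 : Fin 3) ≠ 0 by decide) _ _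
    have u2 : update b 0 (-b 0) 2 = b 2 := update_of_ne (show (2 : Fin 3) ≠ 0 by decide) _ _
    have u0 : update b 0 (-b 0) 0 = - b 0 := update_self _ _ _
    refine ⟨-f 0, update b 0 (-b 0), hfr, hmem', ?_, ?_, ?_, ?_, ?_, ?_⟩
    · rw [ip_neg_left hF, ip_neg_right hF, hff, neg_zero, neg_zero]
    · rw [u1, ip_neg_left hF, e1, neg_zero]
    · rw [u2, ip_neg_left hF, e2, neg_zero]
    · intro c hc hc1 _
      rw [u1] at hc1
      obtain ⟨n, hn⟩ := honly c hc hc1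
      refine ⟨-n, ?_⟩
      rw [hn, Int.cast_neg, neg_smul, smul_neg, neg_neg]
    · rw [u0, ip_neg_left hF, ip_neg_right hF, neg_neg, e0]
      exact one_pos
    · intro c hc hc0 hc1
      rw [u0, ip_neg_right hF, neg_eq_zero] at hc1
      exact hgen0 c hc hc0 hc1



end Crest.Agent.R235
end

-- ▼ part R235/DichW_723

/-!
Row 235 (S0364), helper723: intersection numbers of products of four closed one-forms; the
products span `H²` if `b₂ = 6` and the quadruple product is `≠ 0`.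
-/

set_option autoImplicit false
set_option maxSynthPendingDepth 3
set_option linter.unusedSectionVars false

open Set Function Filter MeasureTheory
open scoped Manifold ContDiff Topology

universe u

namespace Crest.Agent.R235.DichW_723

open Crest.Agent.R240 Crest.Agent.R240.Ch Crest.Agent.R240.Int
open DichProps_723 BPlus_723 LatTR_723 DichH1_723

noncomputable section

theorem W_sel (α : Fin 4 → (E4 →L[ℝ] ℝ)) (i j k l : Fin 4) :
    W (wed (α i) (α j)) (wed (α k) (α l)) =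
      Matrix.det (fun m : Fin 4 => (Pi.single (![i, j, k, l] m) 1 : Fin 4 → ℝ)) *
        W (wed (α 0) (α 1)) (wed (α 2) (α 3)) := by
  rw [W_wed4, W_wed4]
  refine Eq.trans (congrArg Matrix.det ?_) (Matrix.det_mul
    (Matrix.of fun m : Fin 4 => (Pi.single (![i, j, k, l] m) 1 : Fin 4 → ℝ))
    (Matrix.of fun i j => (![α 0, α 1, α 2, α 3] i) (ee j)))
  ext m n
  rw [Matrix.mul_apply]
  have h1 : ∀ t : Fin 4, (![α 0, α 1, α 2, α 3] t) = α t := by
    intro t; fin_cases t <;> rfl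
  have h2 : (![α i, α j, α k, α l] m) = α (![i, j, k, l] m) := by
    fin_cases m <;> rfl
  simp only [Matrix.of_apply, h1, h2]
  rw [Finset.sum_eq_single (![i, j, k, l] m)]
  · rw [Pi.single_eq_same, one_mul]
  · intro t _ ht
    rw [Pi.single_eq_of_ne ht, zero_mul]
  · intro h
    exact absurd (Finset.mem_univ _) h

theorem expand6 {V : Type*} [AddCommGroup V] [Module ℝ V] (A : Fin 4 → Fin 4 → V) (r : ℝ)
    (x y : Fin 3 → ℝ) :
    ∑ i, x i • (![A 0 1, A 0 2, A 0 3] : Fin 3 → V) i +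
      ∑ i, y i • (![r • A 2 3, (-r) • A 1 3, r • A 1 2] : Fin 3 → V) i =
    ∑ i, ∑ j, (![![0, x 0, x 1, x 2], ![0, 0, r * y 2, -(r * y 1)], ![0, 0, 0, r * y 0],
      ![0, 0, 0, 0]] : Fin 4 → Fin 4 → ℝ) i j • A i j := by
  simp only [Fin.sum_univ_four, Fin.sum_univ_three, Matrix.cons_val_zero, Matrix.cons_val_one,
    Matrix.cons_val_two, Matrix.cons_val_three, Matrix.head_cons, Matrix.tail_cons]
  module

variable {M : Type u} [TopologicalSpace M] [T2Space M] [CompactSpace M]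
  [ChartedSpace E4 M] [IsManifold 𝓘(ℝ, E4) ∞ M]

theorem pI_scale (F : Z2 M) {a b a' b' : Z2 M} {c : ℝ}
    (h : ∀ x, W (val a x) (val b x) = c * W (val a' x) (val b' x)) :
    pI F a b = c * pI F a' b' := by
  unfold pI Int.I
  rw [← integral_const_mul]
  congr 1
  funext x
  show W (val a x) (val b x) / _ = c * (W (val a' x) (val b' x) / _)
  rw [h, mul_div_assoc]

/-- the Gram formula of `T4Type` / `T4R`. -/
theorem gram_wed (F : Z2 M) {s : Fin 4 → F1 E4 M} {a : Fin 4 → Fin 4 → Z2 M}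
    (ha : ∀ i j, (a i j).1.1 = wedG (s i) (s j)) (i j k l : Fin 4) :
    pI F (a i j) (a k l) =
      Matrix.det (fun m : Fin 4 => (Pi.single (![i, j, k, l] m) 1 : Fin 4 → ℝ)) *
        pI F (a 0 1) (a 2 3) := by
  refine pI_scale F fun x => ?_
  have hval : ∀ i j, val (a i j) x = wed (at1 (s i) x) (at1 (s j) x) := by
    intro i j
    show at2 ((a i j).1.1 : F2 E4 M) x = _
    rw [ha]
    rfl
  rw [hval, hval, hval, hval]
  exact W_sel (fun i => at1 (s i) x) i j k l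

/-- hyperbolic-like vectors with constant `m ≠ 0` in dimension six span. -/
theorem span_products {F : Z2 M} (hF : Vol (F.1.1 : F2 E4 M)) [FiniteDimensional ℝ (H2 M)]
    (hdim : Module.finrank ℝ (H2 M) = 6) {s : Fin 4 → F1 E4 M} {a : Fin 4 → Fin 4 → Z2 M}
    (ha : ∀ i j, (a i j).1.1 = wedG (s i) (s j)) (hm : pI F (a 0 1) (a 2 3) ≠ 0) :
    ∀ c : H2 M, ∃ n : Fin 4 → Fin 4 → ℝ, c = ∑ i, ∑ j, n i j • cls (a i j) := by
  set A : Fin 4 → Fin 4 → H2 M := fun i j => cls (a i j) with hA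
  set m : ℝ := pI F (a 0 1) (a 2 3) with hmdef
  have hGA : ∀ i j k l, ip F (A i j) (A k l) = (DZ i j k l : ℝ) * m := by
    intro i j k l
    show ip F (cls (a i j)) (cls (a k l)) = _
    rw [ip_cls hF, gram_wed F ha, det_eq_DZ]
  obtain ⟨t1, t2, t3, t4, t5, t6, t7, t8, t9, t10, t11, t12, t13, t14, t15, t16, t17, t18⟩ :=
    DZ_tab
  let f : Fin 3 → H2 M := ![A 0 1, A 0 2, A 0 3]
  let g : Fin 3 → H2 M := ![m⁻¹ • A 2 3, (-m⁻¹) • A 1 3, m⁻¹ • A 1 2]
  have hff : ∀ i j, ip F (f i) (f j) = 0 := by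
    intro i j
    fin_cases i <;> fin_cases j <;> simp [f, hGA, DZ_ff]
  have hgg : ∀ i j, ip F (g i) (g j) = 0 := by
    intro i j
    fin_cases i <;> fin_cases j <;>
      simp [g, hGA, ip_smul_left hF, ip_smul_right hF, ip_neg_left hF, ip_neg_right hF, t10, t11,
        t12, t13, t14, t15, t16, t17, t18]
  have hfg : ∀ i j, ip F (f i) (g j) = if i = j then 1 else 0 := by
    intro i j
    fin_cases i <;> fin_cases j <;>
      simp [f, g, hGA, ip_smul_right hF, ip_neg_right hF, t1, t2, t3, t4, t5, t6, t7, t8, t9, hm]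
  have hinj := hyp_inj hF hff hgg hfg
  have heq : Module.finrank ℝ ((Fin 3 → ℝ) × (Fin 3 → ℝ)) = Module.finrank ℝ (H2 M) := by
    rw [Module.finrank_prod, Module.finrank_fin_fun, hdim]
  have hsurj := (LinearMap.injective_iff_surjective_of_finrank_eq_finrank heq).1 hinj
  intro c
  obtain ⟨⟨x, y⟩, hxy⟩ := hsurj c
  rw [Phi_apply] at hxy
  refine ⟨![![0, x 0, x 1, x 2], ![0, 0, m⁻¹ * y 2, -(m⁻¹ * y 1)], ![0, 0, 0, m⁻¹ * y 0],
    ![0, 0, 0, 0]], ?_⟩
  rw [← hxy]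
  exact expand6 A m⁻¹ x y

end

end Crest.Agent.R235.DichW_723
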