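import Mathlib

-- ▼ part R235/EqPertA_356
section

/-! Row 235 (helper356).  Part A of EqPert: the null image lemma (a map between spaces of equal
dimension whose differential has a kernel has a null image), and the local frames of a continuous
family of projections. -/

set_option autoImplicit false

open Set MeasureTheory Filter Topology Module
open scoped ENNReal

namespace Crest.Agent.R235.EqPert_356

/-- image of the set where the differential is not injective, equal dimensions: null -/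
theorem null_image {D Y : Type*} [NormedAddCommGroup D] [NormedSpace ℝ D] [FiniteDimensional ℝ D]
    [NormedAddCommGroup Y] [NormedSpace ℝ Y] [FiniteDimensional ℝ Y] [MeasurableSpace Y]
    [BorelSpace Y] (μ : Measure Y) [μ.IsAddHaarMeasure] (hdim : finrank ℝ D = finrank ℝ Y)
    (G : D → Y) (s : Set D) (G' : D → D →L[ℝ] Y) (hG : ∀ x ∈ s, HasFDerivAt G (G' x) x)
    (hk : ∀ x ∈ s, ∃ v : D, v ≠ 0 ∧ G' x v = 0) : μ (G '' s) = 0 := by
  let e : D ≃L[ℝ] Y := ContinuousLinearEquiv.ofFinrankEq hdim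
  have himg : G '' s = (G ∘ e.symm) '' (e '' s) := by
    ext y; constructor
    · rintro ⟨x, hx, rfl⟩; exact ⟨e x, ⟨x, hx, rfl⟩, by simp⟩
    · rintro ⟨_, ⟨x, hx, rfl⟩, rfl⟩; exact ⟨x, hx, by simp⟩
  rw [himg]
  refine addHaar_image_eq_zero_of_det_fderivWithin_eq_zero μ
    (f' := fun y => (G' (e.symm y)).comp (e.symm : Y →L[ℝ] D)) ?_ ?_
  · rintro _ ⟨x, hx, rfl⟩
    have h1 : HasFDerivAt G (G' x) (e.symm (e x)) := by simpa using hG x hx
    have h2 := h1.comp (e x) e.symm.hasFDerivAt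
    simpa using h2.hasFDerivWithinAt
  · rintro _ ⟨x, hx, rfl⟩
    obtain ⟨v, hv, h0⟩ := hk x hx
    have h1 : ((G' (e.symm (e x))).comp (e.symm : Y →L[ℝ] D)) (e v) = 0 := by simpa using h0
    have h2 : e v ≠ 0 := by simpa using hv
    by_contra hdet
    have h3 := (LinearMap.det ((((G' (e.symm (e x))).comp (e.symm : Y →L[ℝ] D)) : Y →L[ℝ] Y)
      : Y →ₗ[ℝ] Y))
    have h4 : LinearMap.ker (((G' (e.symm (e x))).comp (e.symm : Y →L[ℝ] D) : Y →L[ℝ] Y)
      : Y →ₗ[ℝ] Y) = ⊥ := by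
      by_contra hne
      exact hdet (LinearMap.det_eq_zero_iff_ker_ne_bot.2 hne)
    have h5 : e v ∈ LinearMap.ker (((G' (e.symm (e x))).comp (e.symm : Y →L[ℝ] D) : Y →L[ℝ] Y)
      : Y →ₗ[ℝ] Y) := h1
    rw [h4] at h5
    exact h2 (by simpa using h5)

/-- a projection close to a projection of the same rank maps its range onto -/
theorem proj_onto {H : Type*} [NormedAddCommGroup H] [InnerProductSpace ℂ H]
    [FiniteDimensional ℂ H] (P Q : H →L[ℂ] H) (hP : ∀ x, P (P x) = P x) (hQ : ∀ x, Q (Q x) = Q x)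
    (hr : finrank ℂ (LinearMap.range (P : H →ₗ[ℂ] H)) = finrank ℂ (LinearMap.range (Q : H →ₗ[ℂ] H)))
    (hd : ‖P - Q‖ < 1) (x : H) (hx : Q x = x) :
    ∃ u : LinearMap.range (P : H →ₗ[ℂ] H), Q u = x := by
  let f : LinearMap.range (P : H →ₗ[ℂ] H) →ₗ[ℂ] LinearMap.range (Q : H →ₗ[ℂ] H) :=
    ((Q : H →ₗ[ℂ] H).rangeRestrict).comp (LinearMap.range (P : H →ₗ[ℂ] H)).subtype
  have hinj : Function.Injective f := by
    rw [injective_iff_map_eq_zero]
    rintro ⟨u, w, hw⟩ hu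
    have hPu : P u = u := by rw [← hw]; exact hP w
    have hQu : Q u = 0 := by
      have := congrArg Subtype.val hu
      exact this
    have h1 : ‖u‖ ≤ ‖P - Q‖ * ‖u‖ := by
      calc ‖u‖ = ‖(P - Q) u‖ := by
            rw [ContinuousLinearMap.sub_apply, hPu, hQu, sub_zero]
        _ ≤ ‖P - Q‖ * ‖u‖ := (P - Q).le_opNorm u
    have h2 : ‖u‖ = 0 := by
      by_contra h
      have : 0 < ‖u‖ := lt_of_le_of_ne (norm_nonneg _) (Ne.symm h)
      nlinarith
    exact Subtype.ext (norm_eq_zero.1 h2)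
  have hsurj : Function.Surjective f :=
    (LinearMap.injective_iff_surjective_of_finrank_eq_finrank hr).1 hinj
  obtain ⟨u, hu⟩ := hsurj ⟨x, x, hx⟩
  exact ⟨u, congrArg Subtype.val hu⟩

end Crest.Agent.R235.EqPert_356
end

-- ▼ part R235/EqPertB_356
section

/-! Row 235 (helper356).  Part B of EqPert: generic perturbations of `S¹`-equivariant maps on the
total space of a bundle `{P h ψ = ψ}`: for almost all `(c, A)` the map `F + (c, Σ ψ_k A_k)` has no
zero with `ψ ≠ 0` (surplus 0 in the real count). -/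

set_option autoImplicit false

open Set MeasureTheory Filter Topology Module
open scoped ENNReal

namespace Crest.Agent.R235.EqPert_356

variable {T H YR YC : Type*} [NormedAddCommGroup T] [NormedSpace ℝ T] [FiniteDimensional ℝ T]
  [NormedAddCommGroup H] [InnerProductSpace ℂ H] [FiniteDimensional ℂ H]
  [NormedAddCommGroup YR] [NormedSpace ℝ YR] [FiniteDimensional ℝ YR]
  [NormedAddCommGroup YC] [NormedSpace ℂ YC] [FiniteDimensional ℂ YC] {b m : ℕ}
  {ι : Type*} [Fintype ι] [DecidableEq ι]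

/-- the parametrisation of the bad parameters -/
noncomputable def Gm (P : (Fin b → ℝ) → H →L[ℂ] H) (FR : T × (Fin b → ℝ) × H → YR)
    (FC : T × (Fin b → ℝ) × H → YC) (co : ι → H →L[ℂ] ℂ) (V : Submodule ℂ H) (j : ι)
    (x : T × (Fin b → ℝ) × V × ({k : ι // k ≠ j} → YC)) : YR × (ι → YC) :=
  (-FR (x.1, x.2.1, P x.2.1 x.2.2.1), fun k => if hk : k = j then
    -((co j (P x.2.1 x.2.2.1))⁻¹ • (FC (x.1, x.2.1, P x.2.1 x.2.2.1)
      + ∑ l : {k : ι // k ≠ j}, co l (P x.2.1 x.2.2.1) • x.2.2.2 l))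
    else x.2.2.2 ⟨k, hk⟩)

omit [FiniteDimensional ℂ H] [FiniteDimensional ℝ T] [FiniteDimensional ℝ YR]
  [FiniteDimensional ℂ YC] in
theorem Gm_diff (P : (Fin b → ℝ) → H →L[ℂ] H) (hPd : Differentiable ℝ P)
    (FR : T × (Fin b → ℝ) × H → YR)
    (FC : T × (Fin b → ℝ) × H → YC) (co : ι → H →L[ℂ] ℂ) (V : Submodule ℂ H) (j : ι)
    (x : T × (Fin b → ℝ) × V × ({k : ι // k ≠ j} → YC))
    (dR : DifferentiableAt ℝ FR (x.1, x.2.1, P x.2.1 x.2.2.1))
    (dC : DifferentiableAt ℝ FC (x.1, x.2.1, P x.2.1 x.2.2.1))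
    (hj : co j (P x.2.1 x.2.2.1) ≠ 0) : DifferentiableAt ℝ (Gm P FR FC co V j) x := by
  have hP' : Differentiable ℝ (fun h => (P h).restrictScalars ℝ) :=
    (ContinuousLinearMap.restrictScalarsL ℂ H H ℝ ℝ).differentiable.comp hPd
  have h1 : Differentiable ℝ (fun x : T × (Fin b → ℝ) × V × ({k : ι // k ≠ j} → YC) =>
      (P x.2.1).restrictScalars ℝ) := hP'.comp (differentiable_fst.comp differentiable_snd)
  have h2 : Differentiable ℝ (fun x : T × (Fin b → ℝ) × V × ({k : ι // k ≠ j} → YC) =>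
      (x.2.2.1 : H)) :=
    ((V.subtypeL).restrictScalars ℝ).differentiable.comp
      (differentiable_fst.comp (differentiable_snd.comp differentiable_snd))
  have h3 : Differentiable ℝ (fun x : T × (Fin b → ℝ) × V × ({k : ι // k ≠ j} → YC) =>
      P x.2.1 (x.2.2.1 : H)) := h1.clm_apply h2
  have h4 : Differentiable ℝ (fun x : T × (Fin b → ℝ) × V × ({k : ι // k ≠ j} → YC) =>
      ((x.1, x.2.1, P x.2.1 (x.2.2.1 : H)) : T × (Fin b → ℝ) × H)) :=
    differentiable_fst.prodMk ((differentiable_fst.comp differentiable_snd).prodMk h3)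
  have hR : DifferentiableAt ℝ (fun x : T × (Fin b → ℝ) × V × ({k : ι // k ≠ j} → YC) =>
      FR (x.1, x.2.1, P x.2.1 (x.2.2.1 : H))) x := DifferentiableAt.comp x dR (h4 x)
  have hC : DifferentiableAt ℝ (fun x : T × (Fin b → ℝ) × V × ({k : ι // k ≠ j} → YC) =>
      FC (x.1, x.2.1, P x.2.1 (x.2.2.1 : H))) x := DifferentiableAt.comp x dC (h4 x)
  have hco : ∀ k, Differentiable ℝ (fun x : T × (Fin b → ℝ) × V × ({k : ι // k ≠ j} → YC) =>
      co k (P x.2.1 (x.2.2.1 : H))) := fun k =>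
    ((co k).restrictScalars ℝ).differentiable.comp h3
  have hA : ∀ l : {k : ι // k ≠ j}, Differentiable ℝ
      (fun x : T × (Fin b → ℝ) × V × ({k : ι // k ≠ j} → YC) => x.2.2.2 l) := fun l =>
    (differentiable_pi.1 (differentiable_snd.comp (differentiable_snd.comp differentiable_snd)) l)
  refine DifferentiableAt.prodMk hR.neg ?_
  rw [differentiableAt_pi]
  intro k
  by_cases hk : k = j
  · simp only [hk, dif_pos]
    refine DifferentiableAt.neg ?_
    refine DifferentiableAt.smul ?_ ?_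
    · exact ((hco j) x).fun_inv hj
    · refine hC.add ?_
      refine DifferentiableAt.fun_sum fun l _ => ?_
      exact ((hco l) x).smul ((hA l) x)
  · simp only [hk, dif_neg, not_false_iff]
    exact hA ⟨k, hk⟩ x

omit [FiniteDimensional ℂ H] [FiniteDimensional ℝ T] [FiniteDimensional ℝ YR]
  [FiniteDimensional ℂ YC] in
theorem Gm_rot (P : (Fin b → ℝ) → H →L[ℂ] H) (FR : T × (Fin b → ℝ) × H → YR)
    (FC : T × (Fin b → ℝ) × H → YC) (co : ι → H →L[ℂ] ℂ) (V : Submodule ℂ H) (j : ι)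
    (eqR : ∀ t h ψ (z : ℂ), ‖z‖ = 1 → FR (t, h, z • ψ) = FR (t, h, ψ))
    (eqC : ∀ t h ψ (z : ℂ), ‖z‖ = 1 → FC (t, h, z • ψ) = z • FC (t, h, ψ))
    (t : T) (h : Fin b → ℝ) (u : V) (A : {k : ι // k ≠ j} → YC) (z : ℂ) (hz : ‖z‖ = 1) :
    Gm P FR FC co V j (t, h, z • u, A) = Gm P FR FC co V j (t, h, u, A) := by
  have hz0 : z ≠ 0 := by
    intro h0; rw [h0, norm_zero] at hz; exact zero_ne_one hz
  have hPz : P h ((z • u : V) : H) = z • P h (u : H) := by
    rw [Submodule.coe_smul, map_smul]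
  simp only [Gm, hPz, eqR _ _ _ z hz, eqC _ _ _ z hz]
  refine Prod.ext rfl ?_
  funext k
  by_cases hk : k = j
  · simp only [hk, dif_pos, map_smul, smul_eq_mul]
    congr 1
    have h1 : ∑ l : {k : ι // k ≠ j}, (z * (co l) (P h (u : H))) • A l
        = z • ∑ l : {k : ι // k ≠ j}, ((co l) (P h (u : H))) • A l := by
      rw [Finset.smul_sum]
      exact Finset.sum_congr rfl fun l _ => by rw [mul_smul]
    rw [h1, ← smul_add, smul_smul, mul_inv]
    congr 1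
    field_simp
  · simp only [hk, dif_neg, not_false_iff]

omit [FiniteDimensional ℂ H] [FiniteDimensional ℝ T] [FiniteDimensional ℝ YR]
  [FiniteDimensional ℂ YC] in
/-- the differential of `Gm` has a kernel -/
theorem Gm_ker (P : (Fin b → ℝ) → H →L[ℂ] H) (FR : T × (Fin b → ℝ) × H → YR)
    (FC : T × (Fin b → ℝ) × H → YC) (co : ι → H →L[ℂ] ℂ) (V : Submodule ℂ H) (j : ι)
    (eqR : ∀ t h ψ (z : ℂ), ‖z‖ = 1 → FR (t, h, z • ψ) = FR (t, h, ψ))
    (eqC : ∀ t h ψ (z : ℂ), ‖z‖ = 1 → FC (t, h, z • ψ) = z • FC (t, h, ψ))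
    (x : T × (Fin b → ℝ) × V × ({k : ι // k ≠ j} → YC))
    (hd : DifferentiableAt ℝ (Gm P FR FC co V j) x) (hu : x.2.2.1 ≠ 0) :
    ∃ v : T × (Fin b → ℝ) × V × ({k : ι // k ≠ j} → YC), v ≠ 0 ∧
      fderiv ℝ (Gm P FR FC co V j) x v = 0 := by
  obtain ⟨t, h, u, A⟩ := x
  refine ⟨(0, 0, Complex.I • u, 0), ?_, ?_⟩
  · intro h0
    have h1 : Complex.I • u = 0 := congrArg (fun y => y.2.2.1) h0
    rcases smul_eq_zero.1 h1 with h2 | h2
    · exact Complex.I_ne_zero h2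
    · exact hu h2
  · let γ : ℝ → T × (Fin b → ℝ) × V × ({k : ι // k ≠ j} → YC) := fun θ =>
      (t, h, Complex.exp (θ * Complex.I) • u, A)
    have hγ : HasDerivAt γ (0, 0, Complex.I • u, 0) 0 := by
      have h1 : HasDerivAt (fun θ : ℝ => Complex.exp (θ * Complex.I)) Complex.I 0 := by
        have h2 : HasDerivAt (fun θ : ℝ => (θ : ℂ) * Complex.I) Complex.I 0 := by
          simpa using (Complex.ofRealCLM.hasDerivAt (x := (0 : ℝ))).mul_const Complex.I
        have h3 := h2.cexp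
        simpa using h3
      have h4 : HasDerivAt (fun θ : ℝ => Complex.exp (θ * Complex.I) • u) (Complex.I • u) 0 := by
        exact h1.smul_const u
      exact (hasDerivAt_const _ _).prodMk ((hasDerivAt_const _ _).prodMk
        (h4.prodMk (hasDerivAt_const _ _)))
    have hγ0 : γ 0 = (t, h, u, A) := by simp [γ]
    have hc : HasDerivAt (fun θ => Gm P FR FC co V j (γ θ))
        (fderiv ℝ (Gm P FR FC co V j) (t, h, u, A) (0, 0, Complex.I • u, 0)) 0 := by
      have h1 : HasFDerivAt (Gm P FR FC co V j)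
        (fderiv ℝ (Gm P FR FC co V j) (t, h, u, A)) (γ 0) := by
        rw [hγ0]; exact hd.hasFDerivAt
      exact h1.comp_hasDerivAt 0 hγ
    have hconst : (fun θ => Gm P FR FC co V j (γ θ)) = fun _ => Gm P FR FC co V j (t, h, u, A) := by
      funext θ
      exact Gm_rot P FR FC co V j eqR eqC t h u A _ (by
        rw [Complex.norm_exp_ofReal_mul_I])
    rw [hconst] at hc
    exact hc.unique (hasDerivAt_const _ _)

/-- **generic perturbations**: for almost all small `(c, A)` no zero with `ψ ≠ 0` in `s` -/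
theorem exists_pert (P : (Fin b → ℝ) → H →L[ℂ] H) (hPd : Differentiable ℝ P)
    (hPP : ∀ h x, P h (P h x) = P h x)
    (hr : ∀ h, finrank ℂ (LinearMap.range (P h : H →ₗ[ℂ] H)) = m)
    (hdim : finrank ℝ T + b + 2 * m = finrank ℝ YR + 2 * finrank ℂ YC)
    (FR : T × (Fin b → ℝ) × H → YR) (FC : T × (Fin b → ℝ) × H → YC)
    (eqR : ∀ t h ψ (z : ℂ), ‖z‖ = 1 → FR (t, h, z • ψ) = FR (t, h, ψ))
    (eqC : ∀ t h ψ (z : ℂ), ‖z‖ = 1 → FC (t, h, z • ψ) = z • FC (t, h, ψ))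
    (s : Set (T × (Fin b → ℝ) × H)) (dR : ∀ x ∈ s, DifferentiableAt ℝ FR x)
    (dC : ∀ x ∈ s, DifferentiableAt ℝ FC x) (co : ι → H →L[ℂ] ℂ)
    (hco : ∀ ψ, ψ ≠ 0 → ∃ j, co j ψ ≠ 0) {η : ℝ} (hη : 0 < η) :
    ∃ (c : YR) (A : ι → YC), ‖c‖ < η ∧ ‖A‖ < η ∧ ∀ t h ψ, (t, h, ψ) ∈ s → P h ψ = ψ → ψ ≠ 0 →
      FR (t, h, ψ) + c = 0 → FC (t, h, ψ) + ∑ k, co k ψ • A k = 0 → False := by
  letI : MeasurableSpace (YR × (ι → YC)) := borel _
  haveI : BorelSpace (YR × (ι → YC)) := ⟨rfl⟩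
  let μ : Measure (YR × (ι → YC)) := Measure.addHaar
  obtain ⟨C, hC, hCU⟩ := TopologicalSpace.countable_cover_nhds (α := Fin b → ℝ)
    (f := fun h0 => {h | ‖P h0 - P h‖ < 1}) (by
      intro h0
      have h1 : Continuous (fun h => ‖P h0 - P h‖) :=
        (continuous_const.sub hPd.continuous).norm
      exact (isOpen_lt h1 continuous_const).mem_nhds (by simp))
  let V : (Fin b → ℝ) → Submodule ℂ H := fun h0 => LinearMap.range (P h0 : H →ₗ[ℂ] H)
  let S : ∀ (h0 : Fin b → ℝ) (j : ι), Set (T × (Fin b → ℝ) × V h0 × ({k : ι // k ≠ j} → YC)) :=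
    fun h0 j => {x | (x.1, x.2.1, P x.2.1 x.2.2.1) ∈ s ∧ co j (P x.2.1 x.2.2.1) ≠ 0}
  have hnull : ∀ h0 j, μ (Gm P FR FC co (V h0) j '' S h0 j) = 0 := by
    intro h0 j
    refine null_image μ ?_ _ _ (fun x => fderiv ℝ (Gm P FR FC co (V h0) j) x) ?_ ?_
    · have e1 : finrank ℝ (V h0) = 2 * m := by
        rw [finrank_real_of_complex, hr h0]
      have e2 : finrank ℝ YC = 2 * finrank ℂ YC := finrank_real_of_complex YC
      have e3 : Fintype.card {k : ι // k ≠ j} + 1 = Fintype.card ι := by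
        have : 0 < Fintype.card ι := Fintype.card_pos_iff.2 ⟨j⟩
        have h5 := Fintype.card_subtype_compl (fun k : ι => k = j)
        simp only [Fintype.card_subtype_eq] at h5
        have h6 : Fintype.card {k : ι // k ≠ j} = Fintype.card ι - 1 := h5
        omega
      rw [finrank_prod, finrank_prod, finrank_prod, finrank_prod, finrank_fin_fun,
        finrank_pi_fintype, finrank_pi_fintype, Finset.sum_const, Finset.sum_const,
        Finset.card_univ, Finset.card_univ, e1, e2, smul_eq_mul, smul_eq_mul, ← e3]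
      nlinarith
    · intro x hx
      exact (Gm_diff P hPd FR FC co (V h0) j x (dR _ hx.1) (dC _ hx.1) hx.2).hasFDerivAt
    · intro x hx
      refine Gm_ker P FR FC co (V h0) j eqR eqC x
        (Gm_diff P hPd FR FC co (V h0) j x (dR _ hx.1) (dC _ hx.1) hx.2) ?_
      intro h1
      apply hx.2
      rw [h1]; simp
  have hbad : μ (⋃ h0 ∈ C, ⋃ j, Gm P FR FC co (V h0) j '' S h0 j) = 0 := by
    rw [measure_biUnion_null_iff hC]
    intro h0 _
    rw [measure_iUnion_null_iff]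
    exact fun j => hnull h0 j
  have hpos : 0 < μ (Metric.ball (0 : YR × (ι → YC)) η) := Metric.measure_ball_pos μ 0 hη
  obtain ⟨y, hy1, hy2⟩ : ∃ y ∈ Metric.ball (0 : YR × (ι → YC)) η,
      y ∉ ⋃ h0 ∈ C, ⋃ j, Gm P FR FC co (V h0) j '' S h0 j := by
    by_contra hcon
    push Not at hcon
    have := measure_mono (μ := μ) (show Metric.ball (0 : YR × (ι → YC)) η ⊆ _ from hcon)
    rw [hbad] at this
    exact absurd hpos (not_lt.2 this)
  obtain ⟨c, A⟩ := y
  have hn : ‖((c, A) : YR × (ι → YC))‖ < η := by simpa using hy1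
  have hn1 : ‖c‖ < η := lt_of_le_of_lt (norm_fst_le ((c, A) : YR × (ι → YC))) hn
  have hn2 : ‖A‖ < η := lt_of_le_of_lt (norm_snd_le ((c, A) : YR × (ι → YC))) hn
  refine ⟨c, A, hn1, hn2, ?_⟩
  intro t h ψ hs hP h0 hR hCz
  apply hy2
  have hh : h ∈ ⋃ x ∈ C, {h | ‖P x - P h‖ < 1} := by rw [hCU]; trivial
  simp only [mem_iUnion, mem_setOf_eq] at hh
  obtain ⟨c0, hc0, hlt⟩ := hh
  obtain ⟨u, hu⟩ := proj_onto (P c0) (P h) (hPP c0) (hPP h) (by rw [hr, hr]) hlt ψ hP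
  obtain ⟨j, hj⟩ := hco ψ h0
  simp only [mem_iUnion]
  refine ⟨c0, hc0, j, (t, h, u, fun l => A l), ⟨?_, ?_⟩, ?_⟩
  · show (t, h, P h (u : H)) ∈ s
    rw [hu]; exact hs
  · show co j (P h (u : H)) ≠ 0
    rw [hu]; exact hj
  · simp only [Gm, hu]
    refine Prod.ext ?_ ?_
    · exact (eq_neg_of_add_eq_zero_right hR).symm
    · funext k
      by_cases hk : k = j
      · subst hk
        simp only [dif_pos]
        have h1 : ∑ l, co l ψ • A l = co k ψ • A k + ∑ l : {l : ι // l ≠ k}, co l ψ • A l := by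
          rw [Fintype.sum_eq_add_sum_subtype_ne _ k]
        rw [h1] at hCz
        have h2 : FC (t, h, ψ) + ∑ l : {l : ι // l ≠ k}, co l ψ • A l = -(co k ψ • A k) := by
          rw [eq_neg_iff_add_eq_zero, ← hCz]; abel
        rw [h2, smul_neg, neg_neg, smul_smul, inv_mul_cancel₀ hj, one_smul]
      · simp only [hk, dif_neg, not_false_iff]

end Crest.Agent.R235.EqPert_356
end

-- ▼ part R235/EqPertC_356

/-! Row 235 (helper356).  Part C of EqPert: smooth `S¹`-equivariant and `ℤ^b`-periodic approximation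
away from `ψ = 0`, by an explicit invariant partition of unity (no integrals). -/

set_option autoImplicit false

open Set Filter Topology Module
open scoped ENNReal InnerProductSpace Real

namespace Crest.Agent.R235.EqPert_356

variable {T H : Type*} [NormedAddCommGroup T] [NormedSpace ℝ T] [FiniteDimensional ℝ T]
  [NormedAddCommGroup H] [InnerProductSpace ℂ H] [FiniteDimensional ℂ H] {b n : ℕ}

/-- invariant smooth distance-like function: vanishes exactly on the orbit of `p` -/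
noncomputable def qf (B : Basis (Fin n) ℝ T) (p x : T × (Fin b → ℝ) × H) : ℝ :=
  (∑ i, (B.equivFun (x.1 - p.1) i) ^ 2) + (∑ k, Real.sin (π * (x.2.1 k - p.2.1 k)) ^ 2)
    + (‖x.2.2‖ ^ 2 - ‖p.2.2‖ ^ 2) ^ 2 + (‖p.2.2‖ ^ 2 * ‖x.2.2‖ ^ 2 - ‖⟪p.2.2, x.2.2⟫_ℂ‖ ^ 2)

omit [FiniteDimensional ℝ T] [FiniteDimensional ℂ H] in
theorem cs_nonneg (p x : H) : 0 ≤ ‖p‖ ^ 2 * ‖x‖ ^ 2 - ‖⟪p, x⟫_ℂ‖ ^ 2 := by
  have h := norm_inner_le_norm (𝕜 := ℂ) p x
  have h1 : ‖⟪p, x⟫_ℂ‖ ^ 2 ≤ (‖p‖ * ‖x‖) ^ 2 := by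
    exact pow_le_pow_left₀ (norm_nonneg _) h 2
  nlinarith

omit [FiniteDimensional ℝ T] [FiniteDimensional ℂ H] in
theorem qf_self (B : Basis (Fin n) ℝ T) (p : T × (Fin b → ℝ) × H) : qf B p p = 0 := by
  simp only [qf, sub_self, map_zero, Pi.zero_apply, mul_zero, Real.sin_zero]
  rw [inner_self_eq_norm_sq_to_K]
  simp
  ring

omit [FiniteDimensional ℝ T] [FiniteDimensional ℂ H] in
theorem qf_nonneg (B : Basis (Fin n) ℝ T) (p x : T × (Fin b → ℝ) × H) : 0 ≤ qf B p x := by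
  have h1 := cs_nonneg p.2.2 x.2.2
  have h2 : 0 ≤ ∑ i, (B.equivFun (x.1 - p.1) i) ^ 2 := Finset.sum_nonneg fun _ _ => sq_nonneg _
  have h3 : 0 ≤ ∑ k, Real.sin (π * (x.2.1 k - p.2.1 k)) ^ 2 :=
    Finset.sum_nonneg fun _ _ => sq_nonneg _
  have h4 := sq_nonneg (‖x.2.2‖ ^ 2 - ‖p.2.2‖ ^ 2)
  unfold qf
  linarith

omit [FiniteDimensional ℂ H] in
theorem qf_diff (B : Basis (Fin n) ℝ T) (p : T × (Fin b → ℝ) × H) :
    Differentiable ℝ (qf B p) := by
  have hx : Differentiable ℝ (fun x : T × (Fin b → ℝ) × H => x.1) := differentiable_fst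
  have hh : Differentiable ℝ (fun x : T × (Fin b → ℝ) × H => x.2.1) :=
    differentiable_fst.comp differentiable_snd
  have hψ : Differentiable ℝ (fun x : T × (Fin b → ℝ) × H => x.2.2) :=
    differentiable_snd.comp differentiable_snd
  have hn : Differentiable ℝ (fun x : T × (Fin b → ℝ) × H => ‖x.2.2‖ ^ 2) :=
    ((contDiff_norm_sq ℂ (n := 1)).differentiable one_ne_zero).comp hψ
  have hB : Differentiable ℝ (fun x : T × (Fin b → ℝ) × H => B.equivFun (x.1 - p.1)) := by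
    have h1 : Differentiable ℝ (fun y : T => B.equivFun y) :=
      (B.equivFun.toContinuousLinearEquiv).differentiable
    exact h1.comp (hx.sub_const _)
  have hi : Differentiable ℝ (fun x : T × (Fin b → ℝ) × H => ⟪p.2.2, x.2.2⟫_ℂ) := by
    have h1 : Differentiable ℝ (fun y : H => ⟪p.2.2, y⟫_ℂ) :=
      ((innerSL ℂ p.2.2).restrictScalars ℝ).differentiable
    exact h1.comp hψ
  have hin : Differentiable ℝ (fun x : T × (Fin b → ℝ) × H => ‖⟪p.2.2, x.2.2⟫_ℂ‖ ^ 2) :=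
    ((contDiff_norm_sq ℂ (n := 1)).differentiable one_ne_zero).comp hi
  unfold qf
  refine ((Differentiable.add ?_ ?_).add ((hn.sub_const _).pow 2)).add ?_
  · exact Differentiable.fun_sum fun i _ => ((differentiable_pi.1 hB i).pow 2)
  · refine Differentiable.fun_sum fun k _ => ?_
    have h1 : Differentiable ℝ (fun x : T × (Fin b → ℝ) × H => x.2.1 k) :=
      differentiable_pi.1 hh k
    exact ((((h1.sub_const _).const_mul π).sin).pow 2)
  · exact (hn.const_mul _).sub hin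

omit [FiniteDimensional ℝ T] [FiniteDimensional ℂ H] in
theorem qf_rot (B : Basis (Fin n) ℝ T) (p : T × (Fin b → ℝ) × H) (t : T) (h : Fin b → ℝ) (ψ : H)
    (z : ℂ) (hz : ‖z‖ = 1) : qf B p (t, h, z • ψ) = qf B p (t, h, ψ) := by
  simp only [qf, norm_smul, hz, one_mul, inner_smul_right, norm_mul]

omit [FiniteDimensional ℝ T] [FiniteDimensional ℂ H] in
theorem qf_per (B : Basis (Fin n) ℝ T) (p : T × (Fin b → ℝ) × H) (t : T) (h : Fin b → ℝ) (ψ : H)
    (k : Fin b → ℤ) : qf B p (t, fun i => h i + k i, ψ) = qf B p (t, h, ψ) := by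
  have hs : ∀ i, Real.sin (π * (h i + k i - p.2.1 i)) ^ 2 = Real.sin (π * (h i - p.2.1 i)) ^ 2 := by
    intro i
    have e : π * (h i + k i - p.2.1 i) = π * (h i - p.2.1 i) + (k i : ℤ) * π := by ring
    rw [e, Real.sin_add_int_mul_pi, mul_pow]
    have : (((-1 : ℝ) ^ (k i)) ^ 2) = 1 := by
      rw [← zpow_natCast, ← zpow_mul, mul_comm, zpow_mul]; norm_num
    rw [this, one_mul]
  simp only [qf, hs]

omit [FiniteDimensional ℝ T] [FiniteDimensional ℂ H] in
theorem qf_zero (B : Basis (Fin n) ℝ T) (p x : T × (Fin b → ℝ) × H) (hp : p.2.2 ≠ 0)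
    (h0 : qf B p x = 0) : x.1 = p.1 ∧ (∃ k : Fin b → ℤ, x.2.1 = fun i => p.2.1 i + k i) ∧
      ‖(⟪p.2.2, x.2.2⟫_ℂ / (‖p.2.2‖ ^ 2 : ℝ))‖ = 1 ∧
      x.2.2 = (⟪p.2.2, x.2.2⟫_ℂ / (‖p.2.2‖ ^ 2 : ℝ)) • p.2.2 := by
  have h1 := cs_nonneg p.2.2 x.2.2
  have h2 : 0 ≤ ∑ i, (B.equivFun (x.1 - p.1) i) ^ 2 := Finset.sum_nonneg fun _ _ => sq_nonneg _
  have h3 : 0 ≤ ∑ k, Real.sin (π * (x.2.1 k - p.2.1 k)) ^ 2 :=
    Finset.sum_nonneg fun _ _ => sq_nonneg _
  have h4 := sq_nonneg (‖x.2.2‖ ^ 2 - ‖p.2.2‖ ^ 2)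
  unfold qf at h0
  have e2 : ∑ i, (B.equivFun (x.1 - p.1) i) ^ 2 = 0 := by linarith
  have e3 : ∑ k, Real.sin (π * (x.2.1 k - p.2.1 k)) ^ 2 = 0 := by linarith
  have e4 : (‖x.2.2‖ ^ 2 - ‖p.2.2‖ ^ 2) ^ 2 = 0 := by linarith
  have e1 : ‖p.2.2‖ ^ 2 * ‖x.2.2‖ ^ 2 - ‖⟪p.2.2, x.2.2⟫_ℂ‖ ^ 2 = 0 := by linarith
  have hpn : 0 < ‖p.2.2‖ := norm_pos_iff.2 hp
  have hnorm : ‖x.2.2‖ = ‖p.2.2‖ := by
    have h5 : ‖x.2.2‖ ^ 2 - ‖p.2.2‖ ^ 2 = 0 := by simpa using e4
    have h6 : ‖x.2.2‖ ^ 2 = ‖p.2.2‖ ^ 2 := by linarith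
    exact (pow_left_inj₀ (norm_nonneg _) (norm_nonneg _) two_ne_zero).1 h6
  refine ⟨?_, ?_, ?_⟩
  · have h5 : B.equivFun (x.1 - p.1) = 0 := by
      funext i
      have := (Finset.sum_eq_zero_iff_of_nonneg fun i _ => sq_nonneg _).1 e2 i (Finset.mem_univ i)
      simpa using this
    have h6 : x.1 - p.1 = 0 := B.equivFun.map_eq_zero_iff.1 h5
    exact sub_eq_zero.1 h6
  · have h5 : ∀ i, ∃ k : ℤ, x.2.1 i = p.2.1 i + k := by
      intro i
      have h6 := (Finset.sum_eq_zero_iff_of_nonneg fun i _ => sq_nonneg _).1 e3 i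
        (Finset.mem_univ i)
      have h7 : Real.sin (π * (x.2.1 i - p.2.1 i)) = 0 := by simpa using h6
      obtain ⟨k, hk⟩ := Real.sin_eq_zero_iff.1 h7
      refine ⟨k, ?_⟩
      have h8 : π * ((k : ℝ) - (x.2.1 i - p.2.1 i)) = 0 := by linarith
      rcases mul_eq_zero.1 h8 with h9 | h9
      · exact absurd h9 Real.pi_ne_zero
      · linarith
    choose k hk using h5
    exact ⟨k, funext hk⟩
  · have h5 : ‖⟪p.2.2, x.2.2⟫_ℂ‖ = ‖p.2.2‖ * ‖x.2.2‖ := by
      have h6 : ‖⟪p.2.2, x.2.2⟫_ℂ‖ ^ 2 = (‖p.2.2‖ * ‖x.2.2‖) ^ 2 := by rw [mul_pow]; linarith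
      exact (pow_left_inj₀ (norm_nonneg _) (by positivity) two_ne_zero).1 h6
    have hx0 : x.2.2 ≠ 0 := by
      rw [← norm_pos_iff, hnorm]; exact hpn
    obtain ⟨r, hr0, hr⟩ := (norm_inner_eq_norm_iff (𝕜 := ℂ) hp hx0).1 h5
    have h6 : ⟪p.2.2, x.2.2⟫_ℂ / ((‖p.2.2‖ ^ 2 : ℝ) : ℂ) = r := by
      rw [hr, inner_smul_right, inner_self_eq_norm_sq_to_K]
      have : ((‖p.2.2‖ : ℝ) : ℂ) ≠ 0 := by exact_mod_cast hpn.ne'
      push_cast
      field_simp
      rfl
    rw [h6]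
    refine ⟨?_, hr⟩
    have h7 : ‖r‖ * ‖p.2.2‖ = ‖p.2.2‖ := by rw [← norm_smul, ← hr, hnorm]
    nlinarith [norm_nonneg r]

variable {YR YC : Type*} [NormedAddCommGroup YR] [NormedSpace ℝ YR]
  [NormedAddCommGroup YC] [NormedSpace ℂ YC]

/-- the local model at `p` -/
noncomputable def md (fR : T × (Fin b → ℝ) × H → YR) (fC : T × (Fin b → ℝ) × H → YC)
    (p x : T × (Fin b → ℝ) × H) : YR × YC :=
  (fR p, (⟪p.2.2, x.2.2⟫_ℂ / ((‖p.2.2‖ ^ 2 : ℝ) : ℂ)) • fC p)

omit [NormedSpace ℝ T] [FiniteDimensional ℝ T] [FiniteDimensional ℂ H] [NormedSpace ℝ YR] in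
theorem md_cont (fR : T × (Fin b → ℝ) × H → YR) (fC : T × (Fin b → ℝ) × H → YC)
    (p : T × (Fin b → ℝ) × H) : Continuous (md fR fC p) := by
  have h1 : Continuous (fun x : T × (Fin b → ℝ) × H => ⟪p.2.2, x.2.2⟫_ℂ) :=
    continuous_const.inner (continuous_snd.comp continuous_snd)
  exact continuous_const.prodMk ((h1.div_const _).smul continuous_const)

omit [FiniteDimensional ℝ T] [FiniteDimensional ℂ H] in
theorem md_diff (fR : T × (Fin b → ℝ) × H → YR) (fC : T × (Fin b → ℝ) × H → YC)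
    (p : T × (Fin b → ℝ) × H) : Differentiable ℝ (md fR fC p) := by
  have h1 : Differentiable ℝ (fun x : T × (Fin b → ℝ) × H => ⟪p.2.2, x.2.2⟫_ℂ) := by
    have h1 : Differentiable ℝ (fun y : H => ⟪p.2.2, y⟫_ℂ) :=
      ((innerSL ℂ p.2.2).restrictScalars ℝ).differentiable
    exact h1.comp (differentiable_snd.comp differentiable_snd)
  have h2 : Differentiable ℝ (fun x : T × (Fin b → ℝ) × H =>
      ⟪p.2.2, x.2.2⟫_ℂ / ((‖p.2.2‖ ^ 2 : ℝ) : ℂ)) := by
    simpa only [div_eq_mul_inv] using h1.mul_const (((‖p.2.2‖ ^ 2 : ℝ) : ℂ))⁻¹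
  exact (differentiable_const _).prodMk (h2.smul_const _)

omit [FiniteDimensional ℂ H] [NormedSpace ℝ YR] in
/-- local approximation -/
theorem exists_rad (B : Basis (Fin n) ℝ T) (fR : T × (Fin b → ℝ) × H → YR)
    (fC : T × (Fin b → ℝ) × H → YC) (cR : Continuous fR) (cC : Continuous fC)
    (eqR : ∀ t h ψ (z : ℂ), ‖z‖ = 1 → fR (t, h, z • ψ) = fR (t, h, ψ))
    (eqC : ∀ t h ψ (z : ℂ), ‖z‖ = 1 → fC (t, h, z • ψ) = z • fC (t, h, ψ))
    (pR : ∀ t h ψ (k : Fin b → ℤ), fR (t, fun i => h i + k i, ψ) = fR (t, h, ψ))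
    (pC : ∀ t h ψ (k : Fin b → ℤ), fC (t, fun i => h i + k i, ψ) = fC (t, h, ψ))
    (K : Set (T × (Fin b → ℝ) × H)) (hK : IsCompact K) (p : T × (Fin b → ℝ) × H)
    (hp : p.2.2 ≠ 0) {η : ℝ} (hη : 0 < η) :
    ∃ r > 0, ∀ x ∈ K, qf B p x < r → ‖md fR fC p x - (fR x, fC x)‖ < η := by
  have hc : Continuous (fun x => ‖md fR fC p x - (fR x, fC x)‖) :=
    ((md_cont fR fC p).sub (cR.prodMk cC)).norm
  let Bd : Set (T × (Fin b → ℝ) × H) := K ∩ {x | η ≤ ‖md fR fC p x - (fR x, fC x)‖}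
  have hBd : IsCompact Bd := hK.inter_right (isClosed_le continuous_const hc)
  rcases Bd.eq_empty_or_nonempty with he | hne
  · refine ⟨1, one_pos, fun x hx _ => ?_⟩
    by_contra hcon
    have : x ∈ Bd := ⟨hx, not_lt.1 hcon⟩
    rw [he] at this
    exact this
  · obtain ⟨x0, hx0, hmin⟩ := hBd.exists_isMinOn hne (qf_diff B p).continuous.continuousOn
    have hpos : 0 < qf B p x0 := by
      refine lt_of_le_of_ne (qf_nonneg B p x0) (Ne.symm ?_)
      intro h0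
      obtain ⟨h1, ⟨k, h2⟩, h3, h4⟩ := qf_zero B p x0 hp h0
      have h5 : η ≤ ‖md fR fC p x0 - (fR x0, fC x0)‖ := hx0.2
      have h6 : md fR fC p x0 = (fR x0, fC x0) := by
        obtain ⟨t, h, ψ⟩ := x0
        obtain ⟨t0, hh0, ψ0⟩ := p
        simp only at h1 h2 h3 h4
        simp only [md]
        set z := ⟪ψ0, ψ⟫_ℂ / ((‖ψ0‖ ^ 2 : ℝ) : ℂ) with hz
        rw [h1, h2, h4, pR, pC, eqR _ _ _ z h3, eqC _ _ _ z h3]
      rw [h6, sub_self, norm_zero] at h5
      linarith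
    refine ⟨qf B p x0, hpos, fun x hx hlt => ?_⟩
    by_contra hcon
    have h1 : x ∈ Bd := ⟨hx, not_lt.1 hcon⟩
    exact absurd hlt (not_lt.2 (hmin h1))

/-- **smooth equivariant periodic approximation** away from `ψ = 0` -/
theorem exists_approx (fR : T × (Fin b → ℝ) × H → YR)
    (fC : T × (Fin b → ℝ) × H → YC) (cR : Continuous fR) (cC : Continuous fC)
    (eqR : ∀ t h ψ (z : ℂ), ‖z‖ = 1 → fR (t, h, z • ψ) = fR (t, h, ψ))
    (eqC : ∀ t h ψ (z : ℂ), ‖z‖ = 1 → fC (t, h, z • ψ) = z • fC (t, h, ψ))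
    (pR : ∀ t h ψ (k : Fin b → ℤ), fR (t, fun i => h i + k i, ψ) = fR (t, h, ψ))
    (pC : ∀ t h ψ (k : Fin b → ℤ), fC (t, fun i => h i + k i, ψ) = fC (t, h, ψ))
    (δ R : ℝ) (hδ : 0 < δ) {η : ℝ} (hη : 0 < η) :
    ∃ F : T × (Fin b → ℝ) × H → YR × YC, Continuous F ∧
      (∀ t h ψ (z : ℂ), ‖z‖ = 1 → (F (t, h, z • ψ)).1 = (F (t, h, ψ)).1) ∧
      (∀ t h ψ (z : ℂ), ‖z‖ = 1 → (F (t, h, z • ψ)).2 = z • (F (t, h, ψ)).2) ∧
      (∀ t h ψ (k : Fin b → ℤ), F (t, fun i => h i + k i, ψ) = F (t, h, ψ)) ∧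
      ∀ t h ψ, ‖t‖ ≤ 1 → δ ≤ ‖ψ‖ → ‖ψ‖ ≤ R → DifferentiableAt ℝ F (t, h, ψ) ∧
        ‖F (t, h, ψ) - (fR (t, h, ψ), fC (t, h, ψ))‖ ≤ η := by
  classical
  let B := Module.finBasis ℝ T
  let K : Set (T × (Fin b → ℝ) × H) := Metric.closedBall (0 : T) 1 ×ˢ
    (Icc (0 : Fin b → ℝ) 1 ×ˢ {ψ : H | δ ≤ ‖ψ‖ ∧ ‖ψ‖ ≤ R})
  have : ProperSpace T := FiniteDimensional.proper ℝ T
  have : ProperSpace H := FiniteDimensional.proper ℂ H
  have hKψ : IsCompact {ψ : H | δ ≤ ‖ψ‖ ∧ ‖ψ‖ ≤ R} := by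
    refine (isCompact_closedBall (0 : H) R).of_isClosed_subset ?_ ?_
    · exact (isClosed_le continuous_const continuous_norm).inter
        (isClosed_le continuous_norm continuous_const)
    · intro ψ hψ; simpa using hψ.2
  have hK : IsCompact K := (isCompact_closedBall _ _).prod (isCompact_Icc.prod hKψ)
  have hKne : ∀ p ∈ K, p.2.2 ≠ 0 := by
    intro p hp h0
    have h1 : δ ≤ ‖p.2.2‖ := hp.2.2.1
    rw [h0, norm_zero] at h1; linarith
  choose! rad hrad hradK using fun p (hp : p ∈ K) =>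
    exists_rad B fR fC cR cC eqR eqC pR pC K hK p (hKne p hp) hη
  obtain ⟨S, hSK, hScov⟩ := hK.elim_nhds_subcover (fun p => {x | qf B p x < rad p}) (by
    intro p hp
    refine (isOpen_lt (qf_diff B p).continuous continuous_const).mem_nhds ?_
    show qf B p p < rad p
    rw [qf_self]; exact hrad p hp)
  let w : (T × (Fin b → ℝ) × H) → (T × (Fin b → ℝ) × H) → ℝ := fun p x =>
    Real.smoothTransition (1 - qf B p x / rad p)
  have hw0 : ∀ p x, 0 ≤ w p x := fun p x => Real.smoothTransition.nonneg _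
  have hwd : ∀ p, Differentiable ℝ (w p) := by
    intro p
    have h1 : Differentiable ℝ Real.smoothTransition :=
      (Real.smoothTransition.contDiff (n := 1)).differentiable one_ne_zero
    have h2 : Differentiable ℝ (fun x : T × (Fin b → ℝ) × H => qf B p x / rad p) := by
      simpa only [div_eq_mul_inv] using (qf_diff B p).mul_const (rad p)⁻¹
    exact h1.comp (h2.const_sub _)
  have hwpos : ∀ p ∈ S, ∀ x, w p x ≠ 0 → qf B p x < rad p := by
    intro p hp x hne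
    by_contra hcon
    apply hne
    apply Real.smoothTransition.zero_of_nonpos
    have h1 : 1 ≤ qf B p x / rad p := by
      rw [le_div_iff₀ (hrad p (hSK p hp))]; linarith [not_lt.1 hcon]
    linarith
  let W : (T × (Fin b → ℝ) × H) → ℝ := fun x => ∑ p ∈ S, w p x
  have hWd : Differentiable ℝ W := Differentiable.fun_sum fun p _ => hwd p
  have hW0 : ∀ x ∈ K, 0 < W x := by
    intro x hx
    have h1 := hScov hx
    simp only [mem_iUnion] at h1
    obtain ⟨p, hp, hlt⟩ := h1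
    refine Finset.sum_pos' (fun p _ => hw0 p x) ⟨p, hp, ?_⟩
    apply Real.smoothTransition.pos_of_pos
    have h2 : qf B p x / rad p < 1 := by
      rw [div_lt_one (hrad p (hSK p hp))]; exact hlt
    linarith
  obtain ⟨w0, hw0pos, hw0K⟩ : ∃ w0 > 0, ∀ x ∈ K, w0 < W x := by
    rcases K.eq_empty_or_nonempty with he | hne
    · exact ⟨1, one_pos, fun x hx => by rw [he] at hx; exact absurd hx (notMem_empty _)⟩
    · obtain ⟨x0, hx0, hmin⟩ := hK.exists_isMinOn hne hWd.continuous.continuousOn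
      exact ⟨W x0 / 2, half_pos (hW0 x0 hx0), fun x hx => by
        have h1 : W x0 ≤ W x := hmin hx
        have := hW0 x0 hx0
        linarith⟩
  let D : (T × (Fin b → ℝ) × H) → ℝ := fun x => max (W x) w0
  have hD0 : ∀ x, 0 < D x := fun x => lt_of_lt_of_le hw0pos (le_max_right _ _)
  have hDc : Continuous D := hWd.continuous.max continuous_const
  let F : T × (Fin b → ℝ) × H → YR × YC := fun x => (D x)⁻¹ • ∑ p ∈ S, w p x • md fR fC p x
  have hwrot : ∀ p t h ψ (z : ℂ), ‖z‖ = 1 → w p (t, h, z • ψ) = w p (t, h, ψ) := by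
    intro p t h ψ z hz
    simp only [w, qf_rot B p t h ψ z hz]
  have hDrot : ∀ t h ψ (z : ℂ), ‖z‖ = 1 → D (t, h, z • ψ) = D (t, h, ψ) := by
    intro t h ψ z hz
    simp only [D, W, hwrot _ t h ψ z hz]
  have hwper : ∀ p t h ψ (k : Fin b → ℤ), w p (t, fun i => h i + k i, ψ) = w p (t, h, ψ) := by
    intro p t h ψ k
    simp only [w, qf_per B p t h ψ k]
  have hWper : ∀ t h ψ (k : Fin b → ℤ), W (t, fun i => h i + k i, ψ) = W (t, h, ψ) := by
    intro t h ψ k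
    simp only [W, hwper _ t h ψ k]
  have hFper : ∀ t h ψ (k : Fin b → ℤ), F (t, fun i => h i + k i, ψ) = F (t, h, ψ) := by
    intro t h ψ k
    simp only [F, D, hWper t h ψ k, hwper _ t h ψ k]
    rfl
  -- reduction to the cube
  have hred : ∀ (t : T) (h : Fin b → ℝ) (ψ : H), ‖t‖ ≤ 1 → δ ≤ ‖ψ‖ → ‖ψ‖ ≤ R → ∃ k : Fin b → ℤ,
      ((t, fun i => h i + k i, ψ) : T × (Fin b → ℝ) × H) ∈ K := by
    intro t h ψ ht h1 h2
    refine ⟨fun i => -⌊h i⌋, ?_, ⟨?_, ?_⟩, h1, h2⟩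
    · simpa using ht
    · intro i
      have := Int.floor_le (h i)
      show (0 : ℝ) ≤ h i + ((-⌊h i⌋ : ℤ) : ℝ)
      push_cast; linarith
    · intro i
      have := Int.lt_floor_add_one (h i)
      show h i + ((-⌊h i⌋ : ℤ) : ℝ) ≤ (1 : ℝ)
      push_cast; linarith
  refine ⟨F, ?_, ?_, ?_, hFper, ?_⟩
  · refine (hDc.inv₀ fun x => (hD0 x).ne').smul ?_
    exact continuous_finsetSum _ fun p _ => (hwd p).continuous.smul (md_cont fR fC p)
  · intro t h ψ z hz
    simp only [F, hDrot t h ψ z hz, hwrot _ t h ψ z hz, Prod.smul_fst, Prod.fst_sum, md]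
  · intro t h ψ z hz
    simp only [F, hDrot t h ψ z hz, hwrot _ t h ψ z hz, Prod.smul_snd, Prod.snd_sum, md]
    have key : ∑ p ∈ S, w p (t, h, ψ) • (⟪p.2.2, z • ψ⟫_ℂ / ((‖p.2.2‖ ^ 2 : ℝ) : ℂ)) • fC p
        = z • ∑ p ∈ S, w p (t, h, ψ) • (⟪p.2.2, ψ⟫_ℂ / ((‖p.2.2‖ ^ 2 : ℝ) : ℂ)) • fC p := by
      rw [Finset.smul_sum]
      refine Finset.sum_congr rfl fun p _ => ?_
      rw [smul_comm z, inner_smul_right, mul_div_assoc, mul_smul]
    rw [key, smul_comm z]
  · intro t h ψ ht h1 h2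
    obtain ⟨k, hk⟩ := hred t h ψ ht h1 h2
    have hWx : w0 < W (t, h, ψ) := by rw [← hWper t h ψ k]; exact hw0K _ hk
    constructor
    · have hev : F =ᶠ[𝓝 (t, h, ψ)] fun x => (W x)⁻¹ • ∑ p ∈ S, w p x • md fR fC p x := by
        have : {x | w0 < W x} ∈ 𝓝 (t, h, ψ) :=
          (isOpen_lt continuous_const hWd.continuous).mem_nhds hWx
        filter_upwards [this] with x hx
        have h3 : D x = W x := max_eq_left (le_of_lt hx)
        simp only [F, h3]
      refine DifferentiableAt.congr_of_eventuallyEq ?_ hev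
      refine ((hWd _).fun_inv (lt_trans hw0pos hWx).ne').smul ?_
      exact DifferentiableAt.fun_sum fun p _ => ((hwd p) _).smul ((md_diff fR fC p) _)
    · rw [← hFper t h ψ k, ← pR t h ψ k, ← pC t h ψ k]
      set x : T × (Fin b → ℝ) × H := (t, fun i => h i + k i, ψ) with hx
      have hDx : D x = W x := max_eq_left (hw0K x hk).le
      have hWpos : 0 < W x := hW0 x hk
      have e1 : F x - (fR x, fC x) = (W x)⁻¹ • ∑ p ∈ S, w p x • (md fR fC p x - (fR x, fC x)) := by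
        have e0 : ∑ p ∈ S, w p x • (md fR fC p x - (fR x, fC x))
            = (∑ p ∈ S, w p x • md fR fC p x) - W x • ((fR x, fC x) : YR × YC) := by
          simp only [smul_sub, Finset.sum_sub_distrib, W, Finset.sum_smul]
        rw [e0, smul_sub, smul_smul, inv_mul_cancel₀ hWpos.ne', one_smul]
        simp only [F, hDx]
      rw [e1, norm_smul, norm_inv, Real.norm_of_nonneg hWpos.le]
      rw [inv_mul_le_iff₀ hWpos]
      calc ‖∑ p ∈ S, w p x • (md fR fC p x - (fR x, fC x))‖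
          ≤ ∑ p ∈ S, ‖w p x • (md fR fC p x - (fR x, fC x))‖ := norm_sum_le _ _
        _ ≤ ∑ p ∈ S, w p x * η := by
            refine Finset.sum_le_sum fun p hp => ?_
            rw [norm_smul, Real.norm_of_nonneg (hw0 p x)]
            by_cases hz : w p x = 0
            · rw [hz]; simp
            · exact mul_le_mul_of_nonneg_left
                (hradK p (hSK p hp) x hk (hwpos p hp x hz)).le (hw0 p x)
        _ = W x * η := by rw [← Finset.sum_mul]

end Crest.Agent.R235.EqPert_356
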