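import Mathlib
import Crest.Agent.R235.Top_837
import Crest.Agent.R240.Ch6
import Crest.Agent.R240.Lin4

/-!
Row 235 (S0364), helper900: EXJ, the almost complex structure of the pair `(w 1, w 2)` tamed by
`w 0`, and its uniqueness.
-/

set_option autoImplicit false
set_option maxSynthPendingDepth 3

open Set Function Filter MeasureTheory
open scoped Manifold ContDiff Topology

universe u

namespace Crest.Agent.R235.Exj_900

open Crest.Agent.R240 Crest.Agent.R240.Ch Crest.Agent.R235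

noncomputable section

/-! ### pointwise algebra -/

/-- the operator `K(a)`, with `K(a)(a(u,·)) = (W a a / 2) u`. -/
def Kop (a : Bil) (ξ : E4 →L[ℝ] ℝ) : E4 :=
  (ent a 2 3 * ξ (ee 1) - ent a 1 3 * ξ (ee 2) + ent a 1 2 * ξ (ee 3)) • ee 0 +
  (- ent a 2 3 * ξ (ee 0) + ent a 0 3 * ξ (ee 2) - ent a 0 2 * ξ (ee 3)) • ee 1 +
  (ent a 1 3 * ξ (ee 0) - ent a 0 3 * ξ (ee 1) + ent a 0 1 * ξ (ee 3)) • ee 2 +
  (- ent a 1 2 * ξ (ee 0) + ent a 0 2 * ξ (ee 1) - ent a 0 1 * ξ (ee 2)) • ee 3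

theorem Kop_0 (a : Bil) (ξ : E4 →L[ℝ] ℝ) : Kop a ξ 0 =
    ent a 2 3 * ξ (ee 1) - ent a 1 3 * ξ (ee 2) + ent a 1 2 * ξ (ee 3) := by
  simp [Kop]

theorem Kop_1 (a : Bil) (ξ : E4 →L[ℝ] ℝ) : Kop a ξ 1 =
    - ent a 2 3 * ξ (ee 0) + ent a 0 3 * ξ (ee 2) - ent a 0 2 * ξ (ee 3) := by
  simp [Kop]

theorem Kop_2 (a : Bil) (ξ : E4 →L[ℝ] ℝ) : Kop a ξ 2 =
    ent a 1 3 * ξ (ee 0) - ent a 0 3 * ξ (ee 1) + ent a 0 1 * ξ (ee 3) := by
  simp [Kop]

theorem Kop_3 (a : Bil) (ξ : E4 →L[ℝ] ℝ) : Kop a ξ 3 =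
    - ent a 1 2 * ξ (ee 0) + ent a 0 2 * ξ (ee 1) - ent a 0 1 * ξ (ee 2) := by
  simp [Kop]

theorem alt_ee0 {b : Bil} (hb : Alt b) (u : E4) : b u (ee 0) =
    - (u 1 * ent b 0 1) - u 2 * ent b 0 2 - u 3 * ent b 0 3 := by
  rw [alt_expand hb]; simp; ring

theorem alt_ee1 {b : Bil} (hb : Alt b) (u : E4) : b u (ee 1) =
    u 0 * ent b 0 1 - u 2 * ent b 1 2 - u 3 * ent b 1 3 := by
  rw [alt_expand hb]; simp; ring

theorem alt_ee2 {b : Bil} (hb : Alt b) (u : E4) : b u (ee 2) =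
    u 0 * ent b 0 2 + u 1 * ent b 1 2 - u 3 * ent b 2 3 := by
  rw [alt_expand hb]; simp; ring

theorem alt_ee3 {b : Bil} (hb : Alt b) (u : E4) : b u (ee 3) =
    u 0 * ent b 0 3 + u 1 * ent b 1 3 + u 2 * ent b 2 3 := by
  rw [alt_expand hb]; simp

theorem xi_expand (ξ : E4 →L[ℝ] ℝ) (v : E4) :
    ξ v = v 0 * ξ (ee 0) + v 1 * ξ (ee 1) + v 2 * ξ (ee 2) + v 3 * ξ (ee 3) := by
  conv_lhs => rw [sum_ee v]
  simp only [map_add, map_smul, smul_eq_mul]

theorem Kop_self {a : Bil} (ha : Alt a) (u : E4) : Kop a (a u) = (W a a / 2) • u := by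
  ext j
  fin_cases j
  · show Kop a (a u) 0 = _
    rw [Kop_0, alt_ee1 ha, alt_ee2 ha, alt_ee3 ha]
    simp only [W, Fin.zero_eta, PiLp.smul_apply, smul_eq_mul]
    ring
  · show Kop a (a u) 1 = _
    rw [Kop_1, alt_ee0 ha, alt_ee2 ha, alt_ee3 ha]
    simp only [W, Fin.mk_one, PiLp.smul_apply, smul_eq_mul]
    ring
  · show Kop a (a u) 2 = _
    rw [Kop_2, alt_ee0 ha, alt_ee1 ha, alt_ee3 ha]
    simp only [W, Fin.reduceFinMk, PiLp.smul_apply, smul_eq_mul]
    ring
  · show Kop a (a u) 3 = _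
    rw [Kop_3, alt_ee0 ha, alt_ee1 ha, alt_ee2 ha]
    simp only [W, Fin.reduceFinMk, PiLp.smul_apply, smul_eq_mul]
    ring

theorem a_Kop {a : Bil} (ha : Alt a) (ξ : E4 →L[ℝ] ℝ) (v : E4) :
    a (Kop a ξ) v = (W a a / 2) * ξ v := by
  rw [alt_expand ha, Kop_0, Kop_1, Kop_2, Kop_3, xi_expand ξ v]
  simp only [W]
  ring

/-- the operator `L = 2 K(a) b - W(a,b)`. -/
def Lop (a b : Bil) : E4 →L[ℝ] E4 :=
  LinearMap.toContinuousLinearMap
    { toFun := fun u => (2 : ℝ) • Kop a (b u) - W a b • u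
      map_add' := by
        intro u v
        ext j
        fin_cases j <;> simp [Kop] <;> ring
      map_smul' := by
        intro c u
        ext j
        fin_cases j <;> simp [Kop] <;> ring }

theorem Lop_apply (a b : Bil) (u : E4) : Lop a b u = (2 : ℝ) • Kop a (b u) - W a b • u := rfl

/-- minus the determinant. -/
def Dl (a b : Bil) : ℝ := W a a * W b b - W a b ^ 2

theorem a_Lop {a b : Bil} (ha : Alt a) (u v : E4) :
    a (Lop a b u) v = W a a * b u v - W a b * a u v := by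
  rw [Lop_apply, map_sub, map_smul, map_smul, sub_apply, smul_apply, smul_apply, a_Kop ha]
  simp only [smul_eq_mul]
  ring

theorem Lop_Lop {a b : Bil} (hb : Alt b) (u : E4) :
    Lop a b (Lop a b u) = - (Dl a b) • u := by
  have h0 : Lop a b u 0 = 2 * Kop a (b u) 0 - W a b * u 0 := by simp [Lop_apply]
  have h1 : Lop a b u 1 = 2 * Kop a (b u) 1 - W a b * u 1 := by simp [Lop_apply]
  have h2 : Lop a b u 2 = 2 * Kop a (b u) 2 - W a b * u 2 := by simp [Lop_apply]
  have h3 : Lop a b u 3 = 2 * Kop a (b u) 3 - W a b * u 3 := by simp [Lop_apply]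
  rw [Kop_0, alt_ee1 hb, alt_ee2 hb, alt_ee3 hb] at h0
  rw [Kop_1, alt_ee0 hb, alt_ee2 hb, alt_ee3 hb] at h1
  rw [Kop_2, alt_ee0 hb, alt_ee1 hb, alt_ee3 hb] at h2
  rw [Kop_3, alt_ee0 hb, alt_ee1 hb, alt_ee2 hb] at h3
  generalize hz : Lop a b u = z at h0 h1 h2 h3
  ext j
  fin_cases j
  · show Lop a b z 0 = _
    have g0 : Lop a b z 0 = 2 * Kop a (b z) 0 - W a b * z 0 := by simp [Lop_apply]
    rw [g0, Kop_0, alt_ee1 hb, alt_ee2 hb, alt_ee3 hb, h0, h1, h2, h3]
    simp only [W, Dl, Fin.zero_eta, PiLp.smul_apply, smul_eq_mul]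
    ring
  · show Lop a b z 1 = _
    have g0 : Lop a b z 1 = 2 * Kop a (b z) 1 - W a b * z 1 := by simp [Lop_apply]
    rw [g0, Kop_1, alt_ee0 hb, alt_ee2 hb, alt_ee3 hb, h0, h1, h2, h3]
    simp only [W, Dl, Fin.mk_one, PiLp.smul_apply, smul_eq_mul]
    ring
  · show Lop a b z 2 = _
    have g0 : Lop a b z 2 = 2 * Kop a (b z) 2 - W a b * z 2 := by simp [Lop_apply]
    rw [g0, Kop_2, alt_ee0 hb, alt_ee1 hb, alt_ee3 hb, h0, h1, h2, h3]
    simp only [W, Dl, Fin.reduceFinMk, PiLp.smul_apply, smul_eq_mul]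
    ring
  · show Lop a b z 3 = _
    have g0 : Lop a b z 3 = 2 * Kop a (b z) 3 - W a b * z 3 := by simp [Lop_apply]
    rw [g0, Kop_3, alt_ee0 hb, alt_ee1 hb, alt_ee2 hb, h0, h1, h2, h3]
    simp only [W, Dl, Fin.reduceFinMk, PiLp.smul_apply, smul_eq_mul]
    ring


/-- the structure of `J` at a point. -/
structure Jp (f a b : Bil) (J : E4 →L[ℝ] E4) : Prop where
  sq : ∀ v, J (J v) = -v
  anti1 : ∀ u v, a (J u) (J v) = - a u v
  anti2 : ∀ u v, b (J u) (J v) = - b u v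
  tame : ∀ v, v ≠ 0 → 0 < f v (J v)

/-- positivity at a point. -/
def P3 (f a b : Bil) : Prop :=
  ∀ c : Fin 3 → ℝ, c ≠ 0 → W (c 0 • f + c 1 • a + c 2 • b) (c 0 • f + c 1 • a + c 2 • b) ≠ 0

theorem P3.ne {f a b : Bil} (h : P3 f a b) : W a a ≠ 0 := by
  have h1 := h ![0, 1, 0] (by intro h0; have := congrFun h0 1; simp at this)
  simpa using h1

theorem P3.Dl_pos {f a b : Bil} (h : P3 f a b) : 0 < Dl a b := by
  by_contra hc
  push Not at hc
  have ha := h.ne
  have hD : 0 ≤ - Dl a b := by linarith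
  set t : ℝ := (- W a b + Real.sqrt (- Dl a b)) / W a a with ht
  have h1 := h ![0, t, 1] (by intro h0; have := congrFun h0 2; simp at this)
  apply h1
  have h2 : t * W a a = - W a b + Real.sqrt (- Dl a b) := by rw [ht]; field_simp
  have h3 : Real.sqrt (- Dl a b) * Real.sqrt (- Dl a b) = - Dl a b := Real.mul_self_sqrt hD
  have h4 : W a a * (t * (t * W a a) + 2 * t * W a b + W b b) = 0 := by
    have : W a a * (t * (t * W a a) + 2 * t * W a b + W b b) =
      (t * W a a) * (t * W a a) + 2 * (t * W a a) * W a b + W a a * W b b := by ring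
    rw [this, h2]
    have h5 : Dl a b = W a a * W b b - W a b ^ 2 := rfl
    rw [h5] at h3 ⊢
    nlinarith [h3]
  have h5 : t * (t * W a a) + 2 * t * W a b + W b b = 0 := by
    rcases mul_eq_zero.1 h4 with h | h
    · exact absurd h ha
    · exact h
  simp only [Matrix.cons_val_zero, Matrix.cons_val_one, Matrix.cons_val, zero_smul, zero_add,
    one_smul]
  rw [W_add_left, W_add_right, W_add_right, W_smul_left, W_smul_left, W_smul_right, W_smul_right,
    W_comm b a]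
  linarith

/-- the candidate. -/
def J0op (a b : Bil) : E4 →L[ℝ] E4 := (Real.sqrt (Dl a b))⁻¹ • Lop a b

section Pt

variable {f a b : Bil}

theorem J0_sq (hb : Alt b) (hD : 0 < Dl a b) (v : E4) : J0op a b (J0op a b v) = -v := by
  have h1 : Real.sqrt (Dl a b) * Real.sqrt (Dl a b) = Dl a b := Real.mul_self_sqrt hD.le
  have h2 : Real.sqrt (Dl a b) ≠ 0 := (Real.sqrt_pos.2 hD).ne'
  have h3 : J0op a b (J0op a b v) =
      (Real.sqrt (Dl a b))⁻¹ • (Real.sqrt (Dl a b))⁻¹ • Lop a b (Lop a b v) := by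
    simp [J0op, smul_apply, map_smul]
  rw [h3, Lop_Lop hb, smul_smul, smul_smul]
  have h4 : (Real.sqrt (Dl a b))⁻¹ * ((Real.sqrt (Dl a b))⁻¹ * -Dl a b) = -1 := by
    rw [← mul_assoc, ← mul_inv, h1]
    field_simp
  rw [← mul_assoc] at h4
  rw [h4, neg_one_smul]

theorem a_L_symm (ha : Alt a) (hb : Alt b) (u v : E4) :
    a (Lop a b u) v = a u (Lop a b v) := by
  rw [a_Lop ha, ha.swap u (Lop a b v), a_Lop ha, hb.swap u v, ha.swap u v]
  ring

theorem a_LL (ha : Alt a) (hb : Alt b) (u v : E4) :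
    a (Lop a b u) (Lop a b v) = - Dl a b * a u v := by
  rw [a_L_symm ha hb, Lop_Lop hb, map_smul]
  rfl

theorem b_LL (ha : Alt a) (hb : Alt b) (h0 : W a a ≠ 0) (u v : E4) :
    b (Lop a b u) (Lop a b v) = - Dl a b * b u v := by
  have h1 := a_Lop (b := b) ha (Lop a b u) (Lop a b v)
  rw [Lop_Lop hb, a_LL ha hb, map_smul, smul_apply, ← a_L_symm ha hb, a_Lop ha, smul_eq_mul] at h1
  apply mul_left_cancel₀ h0
  linear_combination (-1 : ℝ) * h1

theorem J0_anti1 (ha : Alt a) (hb : Alt b) (hD : 0 < Dl a b) (u v : E4) :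
    a (J0op a b u) (J0op a b v) = - a u v := by
  have h1 : Real.sqrt (Dl a b) * Real.sqrt (Dl a b) = Dl a b := Real.mul_self_sqrt hD.le
  have h2 : Real.sqrt (Dl a b) ≠ 0 := (Real.sqrt_pos.2 hD).ne'
  have h4 : (Real.sqrt (Dl a b))⁻¹ * ((Real.sqrt (Dl a b))⁻¹ * Dl a b) = 1 := by
    rw [← mul_assoc, ← mul_inv, h1]
    field_simp
  simp only [J0op, smul_apply, map_smul, smul_eq_mul]
  rw [a_LL ha hb]
  linear_combination (- a u v) * h4

theorem J0_anti2 (ha : Alt a) (hb : Alt b) (h0 : W a a ≠ 0) (hD : 0 < Dl a b) (u v : E4) :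
    b (J0op a b u) (J0op a b v) = - b u v := by
  have h1 : Real.sqrt (Dl a b) * Real.sqrt (Dl a b) = Dl a b := Real.mul_self_sqrt hD.le
  have h2 : Real.sqrt (Dl a b) ≠ 0 := (Real.sqrt_pos.2 hD).ne'
  have h4 : (Real.sqrt (Dl a b))⁻¹ * ((Real.sqrt (Dl a b))⁻¹ * Dl a b) = 1 := by
    rw [← mul_assoc, ← mul_inv, h1]
    field_simp
  simp only [J0op, smul_apply, map_smul, smul_eq_mul]
  rw [b_LL ha hb h0]
  linear_combination (- b u v) * h4

/-- an anti-invariant form vanishes on `(v, J v)`. -/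
theorem anti_diag {b : Bil} (hb : Alt b) {J : E4 →L[ℝ] E4} (hJ : ∀ v, J (J v) = -v)
    (h : ∀ u v, b (J u) (J v) = - b u v) (v : E4) : b v (J v) = 0 := by
  have h1 := h v (J v)
  rw [hJ, map_neg, hb.swap (J v) v] at h1
  linarith

/-- the kernel of a nondegenerate form. -/
theorem ker_W {c : Bil} (hc : Alt c) {v : E4} (hv : v ≠ 0) (h : ∀ u, c v u = 0) : W c c = 0 := by
  have h1 := Kop_self hc v
  have h2 : c v = 0 := by ext u; exact h u
  rw [h2] at h1
  have h3 : Kop c 0 = 0 := by simp [Kop]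
  rw [h3] at h1
  have h4 := smul_eq_zero.1 h1.symm
  rcases h4 with h4 | h4
  · linarith
  · exact absurd h4 hv

/-- `v` and `J v` are independent. -/
theorem indep_J {J : E4 →L[ℝ] E4} (hJ : ∀ v, J (J v) = -v) {v : E4} (hv : v ≠ 0) :
    LinearIndependent ℝ ![v, J v] := by
  rw [LinearIndependent.pair_iff]
  intro s t hst
  have h1 : J (s • v + t • J v) = 0 := by rw [hst, map_zero]
  rw [map_add, map_smul, map_smul, hJ] at h1
  have h2 : (s ^ 2 + t ^ 2) • v = 0 := by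
    have h3 : s • (s • v + t • J v) - t • (s • J v + t • -v) = (s ^ 2 + t ^ 2) • v := by
      module
    rw [← h3, hst, h1]; simp
  rcases smul_eq_zero.1 h2 with h3 | h3
  · constructor <;> nlinarith [sq_nonneg s, sq_nonneg t]
  · exact absurd h3 hv

theorem tame_ne (hf : Alt f) (ha : Alt a) (hb : Alt b) (h : P3 f a b) {J : E4 →L[ℝ] E4}
    (hJ : ∀ v, J (J v) = -v) (h1 : ∀ u v, a (J u) (J v) = - a u v)
    (h2 : ∀ u v, b (J u) (J v) = - b u v) {v : E4} (hv : v ≠ 0) : f v (J v) ≠ 0 := by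
  intro h0
  -- the span of `v, J v`
  set D : Submodule ℝ E4 := Submodule.span ℝ (Set.range ![v, J v]) with hD
  have hDf : Module.finrank ℝ D = 2 := by
    rw [hD, finrank_span_eq_card (indep_J hJ hv)]; simp
  have hq : Module.finrank ℝ (E4 ⧸ D) = 2 := by
    have := D.finrank_quotient_add_finrank
    rw [hDf] at this
    have h4 : Module.finrank ℝ E4 = 4 := by simp
    omega
  -- the combinations
  have key : ∀ c : Fin 3 → ℝ, D ≤ LinearMap.ker
      (((c 0 • f + c 1 • a + c 2 • b) v : E4 →L[ℝ] ℝ) : E4 →ₗ[ℝ] ℝ) := by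
    intro c
    rw [hD, Submodule.span_le]
    rintro _ ⟨i, rfl⟩
    rw [SetLike.mem_coe, LinearMap.mem_ker]
    fin_cases i
    · show (c 0 • f + c 1 • a + c 2 • b) v v = 0
      simp only [add_apply, smul_apply, hf v, ha v, hb v, smul_zero, add_zero]
    · show (c 0 • f + c 1 • a + c 2 • b) v (J v) = 0
      simp only [add_apply, smul_apply, h0, anti_diag ha hJ h1 v, anti_diag hb hJ h2 v, smul_zero,
        add_zero]
  let T : (Fin 3 → ℝ) →ₗ[ℝ] Module.Dual ℝ (E4 ⧸ D) :=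
    { toFun := fun c => D.liftQ _ (key c)
      map_add' := by
        intro c d
        apply Submodule.linearMap_qext
        ext x
        simp only [Submodule.liftQ_mkQ, LinearMap.comp_apply, LinearMap.add_apply,
          Submodule.mkQ_apply, Submodule.liftQ_apply, ContinuousLinearMap.coe_coe, Pi.add_apply,
          add_apply, smul_apply, smul_eq_mul]
        ring
      map_smul' := by
        intro r c
        apply Submodule.linearMap_qext
        ext x
        simp only [Submodule.liftQ_mkQ, LinearMap.comp_apply, LinearMap.smul_apply,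
          Submodule.mkQ_apply, Submodule.liftQ_apply, ContinuousLinearMap.coe_coe, Pi.smul_apply,
          add_apply, smul_apply, smul_eq_mul, RingHom.id_apply]
        ring }
  have hT : ¬ Function.Injective T := by
    intro hi
    have h3 := LinearMap.finrank_le_finrank_of_injective hi
    rw [Subspace.dual_finrank_eq, hq] at h3
    simp at h3
  rw [← LinearMap.ker_eq_bot, Submodule.eq_bot_iff] at hT
  push Not at hT
  obtain ⟨c, hc, hc0⟩ := hT
  apply h c hc0
  refine ker_W (((hf.smul _).add (ha.smul _)).add (hb.smul _)) hv fun u => ?_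
  have h5 := LinearMap.congr_fun (LinearMap.mem_ker.1 hc) (D.mkQ u)
  exact h5

/-- constant sign. -/
theorem sign_const {J : E4 →L[ℝ] E4} (h : ∀ v, v ≠ 0 → f v (J v) ≠ 0) :
    ∃ ε : ℝ, (ε = 1 ∨ ε = -1) ∧ ∀ v, v ≠ 0 → 0 < ε * f v (J v) := by
  have hc : IsPreconnected ({0}ᶜ : Set E4) := by
    have h1 : (1 : Cardinal) < Module.rank ℝ E4 := by
      rw [← Module.finrank_eq_rank]
      simp
    exact (isConnected_compl_singleton_of_one_lt_rank h1 (0 : E4)).isPreconnected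
  have hcont : ContinuousOn (fun v : E4 => f v (J v)) {0}ᶜ :=
    (f.continuous.clm_apply J.continuous).continuousOn
  have h0 : ee 0 ≠ 0 := by
    intro h0; have := congrArg (fun z : E4 => z 0) h0; simp at this
  rcases lt_or_gt_of_ne (h _ h0) with hs | hs
  · refine ⟨-1, Or.inr rfl, fun v hv => ?_⟩
    by_contra hcon
    push Not at hcon
    have h2 : 0 < f v (J v) := lt_of_le_of_ne (by linarith) (h v hv).symm
    obtain ⟨z, hz, hz0⟩ := hc.intermediate_value (a := ee 0) (b := v) h0 hv hcont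
      ⟨hs.le, h2.le⟩
    exact h z hz hz0
  · refine ⟨1, Or.inl rfl, fun v hv => ?_⟩
    by_contra hcon
    push Not at hcon
    have h2 : f v (J v) < 0 := lt_of_le_of_ne (by linarith) (h v hv)
    obtain ⟨z, hz, hz0⟩ := hc.intermediate_value (a := v) (b := ee 0) hv h0 hcont
      ⟨h2.le, hs.le⟩
    exact h z hz hz0

theorem exists_Jp (hf : Alt f) (ha : Alt a) (hb : Alt b) (h : P3 f a b) :
    ∃ ε : ℝ, (ε = 1 ∨ ε = -1) ∧ Jp f a b (ε • J0op a b) := by
  have hD := h.Dl_pos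
  obtain ⟨ε, hε, hpos⟩ := sign_const (f := f) (J := J0op a b) fun v hv =>
    tame_ne hf ha hb h (J0_sq hb hD) (J0_anti1 ha hb hD) (J0_anti2 ha hb h.ne hD) hv
  have hε2 : ε * ε = 1 := by rcases hε with rfl | rfl <;> norm_num
  refine ⟨ε, hε, ?_, ?_, ?_, ?_⟩
  · intro v
    simp only [smul_apply, map_smul, smul_smul, hε2, one_smul, J0_sq hb hD]
  · intro u v
    simp only [smul_apply, map_smul, smul_eq_mul]
    rw [← mul_assoc, hε2, one_mul, J0_anti1 ha hb hD]
  · intro u v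
    simp only [smul_apply, map_smul, smul_eq_mul]
    rw [← mul_assoc, hε2, one_mul, J0_anti2 ha hb h.ne hD]
  · intro v hv
    simp only [smul_apply, map_smul, smul_eq_mul]
    exact hpos v hv

/-- `J` commutes with `L`. -/
theorem Jp.comm {J : E4 →L[ℝ] E4} (hJ : Jp f a b J) (ha : Alt a) (h0 : W a a ≠ 0)
    (v : E4) : Lop a b (J v) = J (Lop a b v) := by
  have hsymm : ∀ {c : Bil}, (∀ u v, c (J u) (J v) = - c u v) → ∀ u v, c (J u) v = c u (J v) := by
    intro c hc u v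
    have h1 := hc u (J v)
    rw [hJ.sq, map_neg] at h1
    linarith
  have h1 : ∀ w, a (Lop a b (J v)) w = a (J (Lop a b v)) w := by
    intro w
    rw [a_Lop ha, hsymm hJ.anti1 (Lop a b v), a_Lop ha, hsymm hJ.anti1, hsymm hJ.anti2]
  by_contra hne
  have h2 : Lop a b (J v) - J (Lop a b v) ≠ 0 := sub_ne_zero.2 hne
  refine h0 (ker_W ha h2 fun u => ?_)
  rw [map_sub, sub_apply, h1, sub_self]

theorem Jp.comm0 {J : E4 →L[ℝ] E4} (hJ : Jp f a b J) (ha : Alt a) (h0 : W a a ≠ 0)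
    (v : E4) : J0op a b (J v) = J (J0op a b v) := by
  simp only [J0op, smul_apply, map_smul, hJ.comm ha h0]

/-- uniqueness. -/
theorem Jp.unique {J : E4 →L[ℝ] E4} (hJ : Jp f a b J) (ha : Alt a)
    (h0 : W a a ≠ 0) {ε : ℝ} (hK : Jp f a b (ε • J0op a b)) :
    J = ε • J0op a b := by
  set K := ε • J0op a b with hKdef
  have hcomm : ∀ v, K (J v) = J (K v) := by
    intro v
    simp only [hKdef, smul_apply, map_smul, hJ.comm0 ha h0]
  have h1 : ∀ v, v + J (K v) = 0 := by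
    intro v
    by_contra hv
    have h3 : K (J (K v)) = - J v := by
      rw [hcomm, hK.sq, map_neg]
    have h2 : J (K (v + J (K v))) = v + J (K v) := by
      rw [map_add, map_add, h3, map_neg, hJ.sq]
      abel
    set w := v + J (K v) with hw
    have h4 : K w = - J w := by
      have h5 := hJ.sq (K w)
      rw [h2] at h5
      rw [h5, neg_neg]
    have h6 := hK.tame w hv
    rw [h4, map_neg] at h6
    linarith [hJ.tame w hv]
  ext1 v
  have h2 := h1 v
  have h3 : J (J (K v)) = - K v := hJ.sq _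
  have h4 : J (K v) = - v := by
    rw [eq_neg_iff_add_eq_zero, add_comm]; exact h2
  rw [h4, map_neg] at h3
  exact neg_injective h3

end Pt

/-! ### charts -/

section Chart

variable {M : Type u} [TopologicalSpace M] [ChartedSpace E4 M] [IsManifold 𝓘(ℝ, E4) ∞ M]

/-- change of vectors from the chart at `p`, as an isomorphism. -/
theorem tcc_det_ne {p : M} {y : E4} (hy : y ∈ (chartAt E4 p).target) :
    LinearMap.det ((tcc p ((chartAt E4 p).symm y) ((chartAt E4 p).symm y) : E4 →L[ℝ] E4) :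
      E4 →ₗ[ℝ] E4) ≠ 0 := by
  have h : (tcc ((chartAt E4 p).symm y) p ((chartAt E4 p).symm y) : E4 →L[ℝ] E4) ∘L
      (tcc p ((chartAt E4 p).symm y) ((chartAt E4 p).symm y)) = ContinuousLinearMap.id ℝ E4 := by
    ext1 v
    exact tcc_cancel (symm_mem hy) v
  have h2 : LinearMap.det (((tcc ((chartAt E4 p).symm y) p ((chartAt E4 p).symm y) :
      E4 →L[ℝ] E4) : E4 →ₗ[ℝ] E4) ∘ₗ
      ((tcc p ((chartAt E4 p).symm y) ((chartAt E4 p).symm y) : E4 →L[ℝ] E4) :
        E4 →ₗ[ℝ] E4)) = 1 := by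
    have h3 := congrArg (fun A : E4 →L[ℝ] E4 => LinearMap.det (A : E4 →ₗ[ℝ] E4)) h
    have h4 : LinearMap.det ((ContinuousLinearMap.id ℝ E4 : E4 →L[ℝ] E4) : E4 →ₗ[ℝ] E4) = 1 :=
      LinearMap.det_id
    exact h3.trans h4
  rw [LinearMap.det_comp] at h2
  exact right_ne_zero_of_mul_eq_one h2


theorem P3_rep {f a b : F2 E4 M} (hf : ∀ x, Alt (at2 f x)) (ha : ∀ x, Alt (at2 a x))
    (hb : ∀ x, Alt (at2 b x)) (h : ∀ x, P3 (at2 f x) (at2 a x) (at2 b x)) {p : M} {y : E4}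
    (hy : y ∈ (chartAt E4 p).target) : P3 (rep p f y) (rep p a y) (rep p b y) := by
  intro c hc
  have h1 : c 0 • rep p f y + c 1 • rep p a y + c 2 • rep p b y =
      pull (tcc p ((chartAt E4 p).symm y) ((chartAt E4 p).symm y))
        (c 0 • at2 f ((chartAt E4 p).symm y) + c 1 • at2 a ((chartAt E4 p).symm y) +
          c 2 • at2 b ((chartAt E4 p).symm y)) := by
    ext u v
    simp only [add_apply, smul_apply, rep_apply, pull_apply]
  have hA : Alt (c 0 • at2 f ((chartAt E4 p).symm y) + c 1 • at2 a ((chartAt E4 p).symm y) +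
          c 2 • at2 b ((chartAt E4 p).symm y)) :=
    (((hf _).smul _).add ((ha _).smul _)).add ((hb _).smul _)
  rw [h1, W_pull hA hA]
  exact mul_ne_zero (tcc_det_ne hy) (h _ c hc)

theorem Jp_rep {f a b : F2 E4 M} {J : EndF E4 M}
    (h : ∀ x, Jp (at2 f x) (at2 a x) (at2 b x) (atJ J x)) {p : M} {y : E4}
    (hy : y ∈ (chartAt E4 p).target) : Jp (rep p f y) (rep p a y) (rep p b y) (repJ p J y) := by
  have hx := symm_mem hy
  have key : ∀ v, tcc p ((chartAt E4 p).symm y) ((chartAt E4 p).symm y) (repJ p J y v) =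
      atJ J ((chartAt E4 p).symm y)
        (tcc p ((chartAt E4 p).symm y) ((chartAt E4 p).symm y) v) := by
    intro v
    rw [repJ_apply, tcc_cancel' hx]
  refine ⟨?_, ?_, ?_, ?_⟩
  · intro v
    rw [repJ_apply, key, (h _).sq, map_neg, tcc_cancel hx]
  · intro u v
    rw [rep_apply, rep_apply, key, key, (h _).anti1]
  · intro u v
    rw [rep_apply, rep_apply, key, key, (h _).anti2]
  · intro v hv
    rw [rep_apply, key]
    exact (h _).tame _ (tcc_ne_zero hy hv)

theorem alt_rep {a : F2 E4 M} (ha : ∀ x, Alt (at2 a x)) (p : M) (y : E4) : Alt (rep p a y) := by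
  intro v
  rw [rep_apply]
  exact ha _ _

theorem contDiffAt_ent {a : E4 → Bil} {y : E4} (h : ContDiffAt ℝ ∞ a y) (i j : Fin 4) :
    ContDiffAt ℝ ∞ (fun z => ent (a z) i j) y :=
  (h.clm_apply contDiffAt_const).clm_apply contDiffAt_const

theorem contDiffAt_W {a b : E4 → Bil} {y : E4} (ha : ContDiffAt ℝ ∞ a y)
    (hb : ContDiffAt ℝ ∞ b y) : ContDiffAt ℝ ∞ (fun z => W (a z) (b z)) y := by
  unfold W
  have h := fun i j => contDiffAt_ent ha i j
  have h' := fun i j => contDiffAt_ent hb i j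
  exact (((((((h 0 1).mul (h' 2 3)).sub ((h 0 2).mul (h' 1 3))).add ((h 0 3).mul (h' 1 2))).add
    ((h 1 2).mul (h' 0 3))).sub ((h 1 3).mul (h' 0 2))).add ((h 2 3).mul (h' 0 1)))

theorem contDiffAt_end {f : E4 → E4 →L[ℝ] E4} {y : E4}
    (h : ∀ u, ContDiffAt ℝ ∞ (fun z => f z u) y) : ContDiffAt ℝ ∞ f y := by
  have h1 : f = fun z => ∑ i : Fin 4,
      ContinuousLinearMap.smulRightL ℝ E4 E4 (EuclideanSpace.proj i) (f z (ee i)) := by
    funext z
    ext1 v
    conv_lhs => rw [sum_ee v]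
    simp only [map_add, map_smul, Fin.sum_univ_four, add_apply]
    rfl
  rw [h1]
  refine ContDiffAt.sum fun i _ => ?_
  exact (ContinuousLinearMap.smulRightL ℝ E4 E4 (EuclideanSpace.proj i)).contDiff.contDiffAt.comp y
    (h (ee i))

theorem contDiffAt_Lop {a b : E4 → Bil} {y : E4} (ha : ContDiffAt ℝ ∞ a y)
    (hb : ContDiffAt ℝ ∞ b y) : ContDiffAt ℝ ∞ (fun z => Lop (a z) (b z)) y := by
  refine contDiffAt_end fun u => ?_
  have h := fun i j => contDiffAt_ent ha i j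
  have h' : ∀ j, ContDiffAt ℝ ∞ (fun z => b z u (ee j)) y := fun j =>
    (hb.clm_apply contDiffAt_const).clm_apply contDiffAt_const
  simp only [Lop_apply, Kop]
  have k0 : ContDiffAt ℝ ∞ (fun z => (ent (a z) 2 3 * b z u (ee 1) - ent (a z) 1 3 * b z u (ee 2) +
      ent (a z) 1 2 * b z u (ee 3)) • ee 0) y :=
    ((((h 2 3).mul (h' 1)).sub ((h 1 3).mul (h' 2))).add ((h 1 2).mul (h' 3))).smul
      contDiffAt_const
  have k1 : ContDiffAt ℝ ∞ (fun z => (- ent (a z) 2 3 * b z u (ee 0) +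
      ent (a z) 0 3 * b z u (ee 2) - ent (a z) 0 2 * b z u (ee 3)) • ee 1) y :=
    ((((h 2 3).neg.mul (h' 0)).add ((h 0 3).mul (h' 2))).sub ((h 0 2).mul (h' 3))).smul
      contDiffAt_const
  have k2 : ContDiffAt ℝ ∞ (fun z => (ent (a z) 1 3 * b z u (ee 0) - ent (a z) 0 3 * b z u (ee 1) +
      ent (a z) 0 1 * b z u (ee 3)) • ee 2) y :=
    ((((h 1 3).mul (h' 0)).sub ((h 0 3).mul (h' 1))).add ((h 0 1).mul (h' 3))).smul
      contDiffAt_const
  have k3 : ContDiffAt ℝ ∞ (fun z => (- ent (a z) 1 2 * b z u (ee 0) +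
      ent (a z) 0 2 * b z u (ee 1) - ent (a z) 0 1 * b z u (ee 2)) • ee 3) y :=
    ((((h 1 2).neg.mul (h' 0)).add ((h 0 2).mul (h' 1))).sub ((h 0 1).mul (h' 2))).smul
      contDiffAt_const
  have k4 := (((k0.add k1).add k2).add k3).const_smul (2 : ℝ)
  have k5 : ContDiffAt ℝ ∞ (fun z => W (a z) (b z) • u) y :=
    (contDiffAt_W ha hb).smul contDiffAt_const
  exact k4.sub k5

theorem contDiffAt_J0 {a b : E4 → Bil} {y : E4} (ha : ContDiffAt ℝ ∞ a y)
    (hb : ContDiffAt ℝ ∞ b y) (hD : 0 < Dl (a y) (b y)) :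
    ContDiffAt ℝ ∞ (fun z => J0op (a z) (b z)) y := by
  unfold J0op
  have h1 : ContDiffAt ℝ ∞ (fun z => Dl (a z) (b z)) y := by
    unfold Dl
    exact ((contDiffAt_W ha ha).mul (contDiffAt_W hb hb)).sub ((contDiffAt_W ha hb).pow 2)
  exact ((h1.sqrt hD.ne').inv (Real.sqrt_pos.2 hD).ne').smul (contDiffAt_Lop ha hb)

/-- smoothness of `J`. -/
theorem smoothJ_of {f a b : F2 E4 M} (hf : Smooth2 f) (ha : Smooth2 a) (hb : Smooth2 b)
    (h : ∀ x, P3 (at2 f x) (at2 a x) (at2 b x)) {J : EndF E4 M}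
    (hJ : ∀ x, Jp (at2 f x) (at2 a x) (at2 b x) (atJ J x)) : SmoothJ J := by
  intro p
  rw [contDiffOn_chart_iff]
  intro y0 hy0
  have hT := (chartAt E4 p).open_target.mem_nhds hy0
  have hP : ∀ y ∈ (chartAt E4 p).target, P3 (rep p f y) (rep p a y) (rep p b y) :=
    fun y hy => P3_rep (fun x => hf.1 x) (fun x => ha.1 x) (fun x => hb.1 x) h hy
  have hsf := hf.at hy0
  have hsa := ha.at hy0
  have hsb := hb.at hy0
  have hJ0 := contDiffAt_J0 hsa hsb (hP y0 hy0).Dl_pos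
  obtain ⟨ε, hε, hK⟩ := exists_Jp (alt_rep (fun x => hf.1 x) p y0) (alt_rep (fun x => ha.1 x) p y0)
    (alt_rep (fun x => hb.1 x) p y0) (hP y0 hy0)
  have hee : ee 0 ≠ 0 := by
    intro h0; have := congrArg (fun z : E4 => z 0) h0; simp at this
  have h1 : 0 < ε * rep p f y0 (ee 0) (J0op (rep p a y0) (rep p b y0) (ee 0)) := by
    have := hK.tame (ee 0) hee
    simpa [smul_apply, map_smul] using this
  have hcont : ContinuousAt (fun y => ε * rep p f y (ee 0)
      (J0op (rep p a y) (rep p b y) (ee 0))) y0 := by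
    have h2 : ContinuousAt (fun y => rep p f y (ee 0)) y0 :=
      hsf.continuousAt.clm_apply continuousAt_const
    have h3 : ContinuousAt (fun y => J0op (rep p a y) (rep p b y) (ee 0)) y0 :=
      hJ0.continuousAt.clm_apply continuousAt_const
    exact continuousAt_const.mul (h2.clm_apply h3)
  have hev := hcont.eventually (lt_mem_nhds h1)
  have hEq : repJ p J =ᶠ[𝓝 y0] fun y => ε • J0op (rep p a y) (rep p b y) := by
    filter_upwards [hev, hT] with y hy hyT
    obtain ⟨ε', hε', hK'⟩ := exists_Jp (alt_rep (fun x => hf.1 x) p y)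
      (alt_rep (fun x => ha.1 x) p y) (alt_rep (fun x => hb.1 x) p y) (hP y hyT)
    have h2 : 0 < ε' * rep p f y (ee 0) (J0op (rep p a y) (rep p b y) (ee 0)) := by
      have := hK'.tame (ee 0) hee
      simpa [smul_apply, map_smul] using this
    have h3 : ε' = ε := by
      rcases hε with rfl | rfl <;> rcases hε' with rfl | rfl <;> first | rfl | (exfalso; linarith)
    rw [h3] at hK'
    exact (Jp_rep hJ hyT).unique (alt_rep (fun x => ha.1 x) p y) (hP y hyT).ne hK'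
  have hfin : ContDiffAt ℝ ∞ (fun y => ε • J0op (rep p a y) (rep p b y)) y0 :=
    hJ0.const_smul ε
  exact hfin.congr_of_eventuallyEq hEq

end Chart

/-! ### the node -/

theorem P3_of_Pos3 {M : Type u} [TopologicalSpace M] [ChartedSpace E4 M]
    [IsManifold 𝓘(ℝ, E4) ∞ M] {w : Trip M} (hw : Pos3 w) (x : M) :
    P3 (val (w 0) x) (val (w 1) x) (val (w 2) x) := by
  intro c hc
  have h := hw x c hc
  rw [Fin.sum_univ_three] at h
  exact h

theorem isJ_iff {M : Type u} [TopologicalSpace M] [ChartedSpace E4 M]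
    [IsManifold 𝓘(ℝ, E4) ∞ M] {w : Trip M} (hw : Pos3 w) {J : EndF E4 M} :
    IsJ w J ↔ ∀ x, Jp (val (w 0) x) (val (w 1) x) (val (w 2) x) (atJ J x) := by
  constructor
  · intro h x
    exact ⟨h.sq x, h.anti1 x, h.anti2 x, h.tame x⟩
  · intro h
    exact ⟨smoothJ_of (w 0).1.2 (w 1).1.2 (w 2).1.2 (fun x => P3_of_Pos3 hw x) h,
      fun x => (h x).sq, fun x => (h x).anti1, fun x => (h x).anti2, fun x => (h x).tame⟩

/-- `J` is unique. -/
theorem isJ_unique {M : Type u} [TopologicalSpace M] [ChartedSpace E4 M]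
    [IsManifold 𝓘(ℝ, E4) ∞ M] {w : Trip M} (hw : Pos3 w) {J J' : EndF E4 M}
    (h : IsJ w J) (h' : IsJ w J') : J = J' := by
  funext x
  have h1 := (isJ_iff hw).1 h x
  have h2 := (isJ_iff hw).1 h' x
  have hP := P3_of_Pos3 hw x
  obtain ⟨ε, hε, hK⟩ := exists_Jp (fun v => (w 0).1.2.1 x v) (fun v => (w 1).1.2.1 x v)
    (fun v => (w 2).1.2.1 x v) hP
  have e1 := h1.unique (fun v => (w 1).1.2.1 x v) hP.ne hK
  have e2 := h2.unique (fun v => (w 1).1.2.1 x v) hP.ne hK
  exact e1.trans e2.symm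

/-- existence, no compactness. -/
theorem exists_isJ {M : Type u} [TopologicalSpace M] [ChartedSpace E4 M]
    [IsManifold 𝓘(ℝ, E4) ∞ M] {w : Trip M} (hw : Pos3 w) : ∃ J, IsJ w J := by
  have h : ∀ x : M, ∃ J : E4 →L[ℝ] E4, Jp (val (w 0) x) (val (w 1) x) (val (w 2) x) J := by
    intro x
    obtain ⟨ε, _, hK⟩ := exists_Jp (fun v => (w 0).1.2.1 x v) (fun v => (w 1).1.2.1 x v)
      (fun v => (w 2).1.2.1 x v) (P3_of_Pos3 hw x)
    exact ⟨_, hK⟩
  choose J hJ using h
  exact ⟨J, (isJ_iff hw).2 hJ⟩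

theorem exj : EXJ.{u} := by
  intro M _ _ _ _ _ _ w hw
  exact exists_isJ hw

end

end Crest.Agent.R235.Exj_900
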