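import Mathlib
import Crest.Agent.R235.FDADef_365
import Crest.Agent.R235.FdB1a_435

/-!
Row 235 (S0364), package FD-A (leader helper365), block B1 (helper435).

The equivariant Fredholm family `L_h = ∑ θ (h - h₀ - m) V_m Lp U_m⁻¹` and the remainder `K_h`.
-/

set_option autoImplicit false

open Topology Set

namespace Crest.Agent.R235.FdB1_435

open FDADef_365

/-! ### the family `L_h` -/

section family

variable {b : ℕ} {A P Ya Yp : Type} [NormedAddCommGroup A] [NormedSpace ℝ A]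
    [CompleteSpace A] [NormedAddCommGroup P] [NormedSpace ℝ P] [CompleteSpace P]
    [NormedAddCommGroup Ya] [InnerProductSpace ℝ Ya] [CompleteSpace Ya]
    [NormedAddCommGroup Yp] [InnerProductSpace ℝ Yp] [CompleteSpace Yp]

theorem lat_add (m n : Fin b → ℤ) : lat (m + n) = lat m + lat n := by
  ext i
  simp [lat]

theorem lat_zero : lat (0 : Fin b → ℤ) = 0 := by
  ext i
  simp [lat]

theorem lat_neg (m : Fin b → ℤ) : lat (-m) = - lat m := by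
  ext i
  simp [lat]

theorem lat_inj {m n : Fin b → ℤ} (h : lat m = lat n) : m = n := by
  ext i
  have := congrFun h i
  simpa [lat] using this

variable (S : SWData b A P Ya Yp)

theorem U_zero (ψ : P) : S.U 0 ψ = ψ := by
  have h := S.U_add 0 0 ψ
  rw [add_zero] at h
  exact ((S.U 0).injective h).symm

theorem V_zero (y : Yp) : S.V 0 y = y := by
  have h := S.V_add 0 0 y
  rw [add_zero] at h
  exact ((S.V 0).injective h).symm

theorem U_neg (m : Fin b → ℤ) (ψ : P) : S.U (-m) (S.U m ψ) = ψ := by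
  rw [← S.U_add, neg_add_cancel, U_zero]


theorem U_symm (m : Fin b → ℤ) (ψ : P) : (S.U m).symm ψ = S.U (-m) ψ := by
  rw [ContinuousLinearEquiv.symm_apply_eq, ← S.U_add, add_neg_cancel, U_zero]


/-- the translates of `Lp`. -/
noncomputable def Lm (m : Fin b → ℤ) : P →L[ℝ] Yp :=
  (S.V m : Yp →L[ℝ] Yp).comp (S.Lp.comp ((S.U m).symm : P →L[ℝ] P))

theorem Lm_apply (m : Fin b → ℤ) (ψ : P) : Lm S m ψ = S.V m (S.Lp (S.U (-m) ψ)) := by
  rw [← U_symm]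
  rfl

theorem Lm_zero : Lm S 0 = S.Lp := by
  ext ψ
  rw [Lm_apply, neg_zero, U_zero, V_zero]

theorem Lm_sub (m : Fin b → ℤ) (h : Fin b → ℝ) (a : A) (ψ : P) :
    Lm S m ψ - S.Lp ψ = S.Kp (h + lat m, a, ψ) - S.V m (S.Kp (h, a, S.U (-m) ψ)) := by
  have h1 := S.latP m h a (S.U (-m) ψ)
  have h2 : S.U m (S.U (-m) ψ) = ψ := by rw [← S.U_add, add_neg_cancel, U_zero]
  rw [h2, map_add] at h1
  rw [Lm_apply, sub_eq_sub_iff_add_eq_add, add_comm (S.Kp _) _, h1]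

theorem Lm_lat (m n : Fin b → ℤ) (ψ : P) : Lm S (m + n) (S.U n ψ) = S.V n (Lm S m ψ) := by
  rw [Lm_apply, Lm_apply, ← S.U_add, ← S.V_add]
  congr 2
  · rw [add_comm]
  · congr 2
    abel

theorem Lm_cpt (m : Fin b → ℤ) : IsCompactOperator (Lm S m - S.Lp) := by
  set R₁ : ℝ := max ‖lat m‖ 1 with hR₁
  set R₂ : ℝ := ‖((S.U (-m)) : P →L[ℝ] P)‖ with hR₂
  have hc : IsCompact ((fun p : Yp × Yp => p.1 - S.V m p.2) ''
      ((closure (S.Kp '' {p | ‖p‖ ≤ R₁})) ×ˢ (closure (S.Kp '' {p | ‖p‖ ≤ R₂})))) :=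
    ((S.cptP R₁).prod (S.cptP R₂)).image (by fun_prop)
  refine ⟨_, hc, ?_⟩
  filter_upwards [Metric.closedBall_mem_nhds (0 : P) one_pos] with ψ hψ
  rw [mem_closedBall_zero_iff] at hψ
  refine ⟨(S.Kp (0 + lat m, 0, ψ), S.Kp (0, 0, S.U (-m) ψ)), ⟨?_, ?_⟩, ?_⟩
  · apply subset_closure
    refine ⟨_, ?_, rfl⟩
    simp only [mem_ofPred_eq, Prod.norm_def, zero_add, norm_zero]
    refine max_le (le_max_left _ _) (max_le (by positivity) (hψ.trans (le_max_right _ _)))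
  · apply subset_closure
    refine ⟨_, ?_, rfl⟩
    have h1 : ‖S.U (-m) ψ‖ ≤ R₂ := by
      have := ((S.U (-m)) : P →L[ℝ] P).le_opNorm ψ
      refine this.trans ?_
      have h2 := norm_nonneg ((S.U (-m)) : P →L[ℝ] P)
      nlinarith
    simp only [mem_ofPred_eq, Prod.norm_def, norm_zero]
    have h3 : 0 ≤ R₂ := norm_nonneg _
    exact max_le h3 (max_le h3 h1)
  · exact (Lm_sub S m 0 0 ψ).symm

/-- a partition of unity on the torus, lifted. -/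
structure Cut (b : ℕ) (θ : (Fin b → ℝ) → ℝ) : Prop where
  cont : Continuous θ
  supp : HasCompactSupport θ
  nonneg : ∀ h, 0 ≤ θ h
  sum : ∀ h, ∑ᶠ m : Fin b → ℤ, θ (h - lat m) = 1

variable {θ : (Fin b → ℝ) → ℝ}

theorem Cut.bdd (hθ : Cut b θ) : ∃ r : ℝ, 0 ≤ r ∧ ∀ h, θ h ≠ 0 → ‖h‖ ≤ r := by
  obtain ⟨r, hr⟩ := hθ.supp.isBounded.exists_norm_le
  refine ⟨max r 0, le_max_right _ _, fun h hh => ?_⟩
  exact (hr h (subset_tsupport _ hh)).trans (le_max_left _ _)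

/-- a finite set of translations meeting a given ball. -/
theorem Cut.exists_finset (hθ : Cut b θ) (h₀ : Fin b → ℝ) (R : ℝ) :
    ∃ s : Finset (Fin b → ℤ), ∀ h, ‖h‖ ≤ R → ∀ m, θ (h - h₀ - lat m) ≠ 0 → m ∈ s := by
  obtain ⟨r, hr0, hr⟩ := hθ.bdd
  obtain ⟨N, hN⟩ := exists_nat_ge (R + ‖h₀‖ + r)
  refine ⟨Finset.Icc (fun _ => -(N : ℤ)) (fun _ => (N : ℤ)), fun h hh m hm => ?_⟩
  have h1 := hr _ hm
  have h2 : ‖lat m‖ ≤ N := by
    have h3 : lat m = h - h₀ - (h - h₀ - lat m) := by abel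
    rw [h3]
    calc ‖h - h₀ - (h - h₀ - lat m)‖ ≤ ‖h - h₀‖ + ‖h - h₀ - lat m‖ := norm_sub_le _ _
      _ ≤ (‖h‖ + ‖h₀‖) + r := add_le_add (norm_sub_le _ _) h1
      _ ≤ N := by linarith
  rw [Finset.mem_Icc]
  have h4 : ∀ i, |(m i : ℝ)| ≤ N := fun i => by
    have := norm_le_pi_norm (lat m) i
    exact this.trans h2
  constructor
  · intro i
    have := (abs_le.1 (h4 i)).1
    exact_mod_cast this
  · intro i
    have := (abs_le.1 (h4 i)).2
    exact_mod_cast this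

theorem Cut.finite (hθ : Cut b θ) (h : Fin b → ℝ) :
    (Function.support fun m : Fin b → ℤ => θ (h - lat m)).Finite := by
  obtain ⟨s, hs⟩ := hθ.exists_finset 0 ‖h‖
  refine s.finite_toSet.subset fun m hm => hs h le_rfl m ?_
  rw [sub_zero]
  exact hm

theorem Cut.sum' (hθ : Cut b θ) (h : Fin b → ℝ) {s : Finset (Fin b → ℤ)}
    (hs : ∀ m, θ (h - lat m) ≠ 0 → m ∈ s) : ∑ m ∈ s, θ (h - lat m) = 1 := by
  rw [← hθ.sum h]
  exact (finsum_eq_sum_of_support_subset _ fun m hm => hs m hm).symm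

theorem Cut.le_one (hθ : Cut b θ) (h : Fin b → ℝ) : θ h ≤ 1 := by
  have h1 := hθ.sum' h (s := (hθ.finite h).toFinset ∪ {0}) (by
    intro m hm
    rw [Finset.mem_union]
    left
    rw [Set.Finite.mem_toFinset]
    exact hm)
  rw [← h1]
  have h2 : θ h = θ (h - lat 0) := by rw [lat_zero, sub_zero]
  conv_lhs => rw [h2]
  exact Finset.single_le_sum (f := fun m => θ (h - lat m)) (fun m _ => hθ.nonneg _)
    (Finset.mem_union_right _ (Finset.mem_singleton_self _))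

theorem Cut.eq_zero (hθ : Cut b θ) {h : Fin b → ℝ} (h1 : θ h = 1) {m : Fin b → ℤ} (hm : m ≠ 0) :
    θ (h - lat m) = 0 := by
  by_contra hne
  have hs := hθ.sum' h (s := (hθ.finite h).toFinset) (by
    intro m hm
    rw [Set.Finite.mem_toFinset]
    exact hm)
  have h0 : (0 : Fin b → ℤ) ∈ (hθ.finite h).toFinset := by
    rw [Set.Finite.mem_toFinset, Function.mem_support, lat_zero, sub_zero, h1]
    exact one_ne_zero
  have hm' : m ∈ (hθ.finite h).toFinset.erase 0 := by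
    rw [Finset.mem_erase, Set.Finite.mem_toFinset]
    exact ⟨hm, hne⟩
  rw [← Finset.add_sum_erase _ _ h0, lat_zero, sub_zero, h1] at hs
  have h2 : ∑ x ∈ (hθ.finite h).toFinset.erase 0, θ (h - lat x) = 0 := by linarith
  rw [Finset.sum_eq_zero_iff_of_nonneg (fun _ _ => hθ.nonneg _)] at h2
  exact hne (h2 m hm')

/-- the equivariant family. -/
noncomputable def Lh (θ : (Fin b → ℝ) → ℝ) (h : Fin b → ℝ) : P →L[ℝ] Yp :=
  ∑ᶠ m : Fin b → ℤ, θ (h - S.h₀ - lat m) • Lm S m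

/-- the remainder. -/
noncomputable def Kh (θ : (Fin b → ℝ) → ℝ) (p : (Fin b → ℝ) × A × P) : Yp :=
  S.Kp p + (S.Lp - Lh S θ p.1) p.2.2

theorem Lh_eq_sum (h : Fin b → ℝ) {s : Finset (Fin b → ℤ)}
    (hs : ∀ m, θ (h - S.h₀ - lat m) ≠ 0 → m ∈ s) :
    Lh S θ h = ∑ m ∈ s, θ (h - S.h₀ - lat m) • Lm S m := by
  refine finsum_eq_sum_of_support_subset _ fun m hm => hs m fun h0 => ?_
  apply hm
  show θ (h - S.h₀ - lat m) • Lm S m = 0
  rw [h0, zero_smul]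

theorem Lh_sub_eq_sum (hθ : Cut b θ) (h : Fin b → ℝ) {s : Finset (Fin b → ℤ)}
    (hs : ∀ m, θ (h - S.h₀ - lat m) ≠ 0 → m ∈ s) :
    Lh S θ h - S.Lp = ∑ m ∈ s, θ (h - S.h₀ - lat m) • (Lm S m - S.Lp) := by
  simp only [smul_sub, Finset.sum_sub_distrib]
  rw [← Lh_eq_sum S h hs, ← Finset.sum_smul, hθ.sum' (h - S.h₀) hs, one_smul]

theorem Lh_cont (hθ : Cut b θ) : Continuous (Lh S θ) := by
  rw [continuous_iff_continuousAt]
  intro h₁
  obtain ⟨s, hs⟩ := hθ.exists_finset S.h₀ (‖h₁‖ + 1)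
  have hc : Continuous fun h => ∑ m ∈ s, θ (h - S.h₀ - lat m) • Lm S m := by
    have := hθ.cont
    fun_prop
  refine hc.continuousAt.congr ?_
  have h1 : ∀ᶠ h in 𝓝 h₁, ‖h‖ < ‖h₁‖ + 1 :=
    continuous_norm.continuousAt.eventually_lt continuousAt_const (by linarith)
  filter_upwards [h1] with h hh
  exact (Lh_eq_sum S h (hs h hh.le)).symm

theorem Lh_apply (hθ : Cut b θ) (h : Fin b → ℝ) (ψ : P) :
    Lh S θ h ψ = ∑ᶠ m : Fin b → ℤ, θ (h - S.h₀ - lat m) • Lm S m ψ := by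
  have hs : ∀ m, θ (h - S.h₀ - lat m) ≠ 0 → m ∈ (hθ.finite (h - S.h₀)).toFinset := by
    intro m hm
    rw [Set.Finite.mem_toFinset]
    exact hm
  rw [Lh_eq_sum S h hs, finsum_eq_sum_of_support_subset (s := (hθ.finite (h - S.h₀)).toFinset)]
  · simp
  · intro m hm
    refine hs m fun h0 => hm ?_
    show θ (h - S.h₀ - lat m) • Lm S m ψ = 0
    rw [h0, zero_smul]

theorem Lh_lat (hθ : Cut b θ) (h : Fin b → ℝ) (n : Fin b → ℤ) (ψ : P) :
    Lh S θ (h + lat n) (S.U n ψ) = S.V n (Lh S θ h ψ) := by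
  rw [Lh_apply S hθ, Lh_apply S hθ]
  have hfin : (Function.support fun m : Fin b → ℤ => θ (h - S.h₀ - lat m) • Lm S m ψ).Finite := by
    refine (hθ.finite (h - S.h₀)).subset fun m hm h0 => hm ?_
    show θ (h - S.h₀ - lat m) • Lm S m ψ = 0
    have : θ (h - S.h₀ - lat m) = 0 := h0
    rw [this, zero_smul]
  have h1 : S.V n (∑ᶠ m : Fin b → ℤ, θ (h - S.h₀ - lat m) • Lm S m ψ) =
      ∑ᶠ m : Fin b → ℤ, S.V n (θ (h - S.h₀ - lat m) • Lm S m ψ) :=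
    AddMonoidHom.map_finsum ((S.V n : Yp →L[ℝ] Yp) : Yp →+ Yp) hfin
  rw [h1, ← finsum_comp_equiv (Equiv.addRight n)]
  refine finsum_congr fun m => ?_
  show θ (h + lat n - S.h₀ - lat (m + n)) • Lm S (m + n) (S.U n ψ) = _
  rw [Lm_lat, map_smul, lat_add]
  congr 2
  abel

theorem Lh_cpt (hθ : Cut b θ) (h : Fin b → ℝ) : IsCompactOperator (Lh S θ h - S.Lp) := by
  have hs : ∀ m, θ (h - S.h₀ - lat m) ≠ 0 → m ∈ (hθ.finite (h - S.h₀)).toFinset := by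
    intro m hm
    rw [Set.Finite.mem_toFinset]
    exact hm
  rw [Lh_sub_eq_sum S hθ h hs]
  have h1 : (∑ m ∈ (hθ.finite (h - S.h₀)).toFinset, θ (h - S.h₀ - lat m) • (Lm S m - S.Lp)) ∈
      compactOperator (RingHom.id ℝ) P Yp :=
    Submodule.sum_mem _ fun m _ => Submodule.smul_mem _ _ (Lm_cpt S m)
  exact h1

theorem Lh_fred (hθ : Cut b θ) (h : Fin b → ℝ) : Fred (Lh S θ h) :=
  (fred_congr S.fredP (Lh_cpt S hθ h)).1

theorem Lh_ind (hθ : Cut b θ) (h : Fin b → ℝ) : ind (Lh S θ h) = ind S.Lp :=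
  (fred_congr S.fredP (Lh_cpt S hθ h)).2

theorem Lh_eq (hθ : Cut b θ) {h : Fin b → ℝ} (h1 : θ (h - S.h₀) = 1) : Lh S θ h = S.Lp := by
  rw [Lh_eq_sum S h (s := {0})]
  · rw [Finset.sum_singleton, lat_zero, sub_zero, h1, one_smul, Lm_zero]
  · intro m hm
    rw [Finset.mem_singleton]
    by_contra hne
    exact hm (hθ.eq_zero h1 hne)

theorem Lh_add_Kh (h : Fin b → ℝ) (a : A) (ψ : P) :
    Lh S θ h ψ + Kh S θ (h, a, ψ) = S.Lp ψ + S.Kp (h, a, ψ) := by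
  unfold Kh
  simp only [_root_.sub_apply]
  abel

theorem Kh_eq_sub (h : Fin b → ℝ) (a : A) (ψ : P) :
    Kh S θ (h, a, ψ) = S.Lp ψ + S.Kp (h, a, ψ) - Lh S θ h ψ := by
  rw [← Lh_add_Kh (θ := θ) S h a ψ, add_sub_cancel_left]

theorem Kh_eq (hθ : Cut b θ) {p : (Fin b → ℝ) × A × P} (h1 : θ (p.1 - S.h₀) = 1) :
    Kh S θ p = S.Kp p := by
  unfold Kh
  rw [Lh_eq S hθ h1, sub_self]
  simp

theorem Kh_cont (hθ : Cut b θ) : Continuous (Kh S θ) := by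
  have h1 := Lh_cont S hθ
  have h2 := S.contP
  have h3 : Continuous fun p : (Fin b → ℝ) × A × P => (S.Lp - Lh S θ p.1) p.2.2 :=
    (continuous_const.sub (h1.comp continuous_fst)).clm_apply (by fun_prop)
  exact h2.add h3

theorem Kh_odd (h : Fin b → ℝ) (a : A) (ψ : P) :
    Kh S θ (h, a, -ψ) = - Kh S θ (h, a, ψ) := by
  rw [Kh_eq_sub, Kh_eq_sub, S.oddP, map_neg, map_neg]
  abel

theorem Kh_lat (hθ : Cut b θ) (n : Fin b → ℤ) (h : Fin b → ℝ) (a : A) (ψ : P) :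
    Kh S θ (h + lat n, a, S.U n ψ) = S.V n (Kh S θ (h, a, ψ)) := by
  rw [Kh_eq_sub, Kh_eq_sub, S.latP, Lh_lat S hθ, map_sub]

theorem sum_cpt (hθ : Cut b θ) (R : ℝ) (s : Finset (Fin b → ℤ)) :
    ∃ K : Set Yp, IsCompact K ∧ ∀ (h : Fin b → ℝ) (ψ : P), ‖ψ‖ ≤ R →
      ∑ m ∈ s, θ (h - S.h₀ - lat m) • (Lm S m - S.Lp) ψ ∈ K := by
  classical
  induction s using Finset.induction_on with
  | empty => exact ⟨{0}, isCompact_singleton, fun h ψ _ => by simp⟩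
  | insert m s hm ih =>
    obtain ⟨K, hK, h1⟩ := ih
    have h2 : IsCompact (closure ((Lm S m - S.Lp) '' Metric.closedBall 0 R)) :=
      (Lm_cpt S m).isCompact_closure_image_closedBall R
    refine ⟨(fun q : ℝ × Yp × Yp => q.1 • q.2.1 + q.2.2) ''
      (Icc (0 : ℝ) 1 ×ˢ (closure ((Lm S m - S.Lp) '' Metric.closedBall 0 R) ×ˢ K)),
      (isCompact_Icc.prod (h2.prod hK)).image (by fun_prop), fun h ψ hψ => ?_⟩
    rw [Finset.sum_insert hm]
    exact ⟨(θ (h - S.h₀ - lat m), (Lm S m - S.Lp) ψ, _),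
      ⟨⟨hθ.nonneg _, hθ.le_one _⟩, subset_closure ⟨ψ, by simpa using hψ, rfl⟩, h1 h ψ hψ⟩, rfl⟩

theorem Kh_cptP (hθ : Cut b θ) (R : ℝ) : IsCompact (closure (Kh S θ '' {p | ‖p‖ ≤ R})) := by
  obtain ⟨s, hs⟩ := hθ.exists_finset S.h₀ R
  obtain ⟨K, hK, h1⟩ := sum_cpt S hθ R s
  have h2 : IsCompact ((fun q : Yp × Yp => q.1 - q.2) ''
      (closure (S.Kp '' {p | ‖p‖ ≤ R}) ×ˢ K)) := ((S.cptP R).prod hK).image (by fun_prop)
  refine h2.closure_of_subset ?_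
  rintro _ ⟨p, hp, rfl⟩
  have hp1 : ‖p.1‖ ≤ R := (norm_fst_le p).trans hp
  have hp2 : ‖p.2.2‖ ≤ R := (norm_snd_le p.2).trans ((norm_snd_le p).trans hp)
  refine ⟨(S.Kp p, (Lh S θ p.1 - S.Lp) p.2.2), ⟨subset_closure ⟨p, hp, rfl⟩, ?_⟩, ?_⟩
  · have h3 := h1 p.1 p.2.2 hp2
    rw [Lh_sub_eq_sum S hθ p.1 (hs p.1 hp1)]
    simpa using h3
  · show S.Kp p - (Lh S θ p.1 - S.Lp) p.2.2 = Kh S θ p
    unfold Kh
    simp only [_root_.sub_apply]
    abel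

end family

end Crest.Agent.R235.FdB1_435
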