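import Crest.Agent.R235.FDADef_365
import Mathlib
import Crest.Agent.R235.FdB1_435
import Crest.Agent.R235.FdB1a_435
import Crest.Agent.R235.FB6_365

-- ▼ part R235/Bet_785
section

/-!
Row 235, package FD-A (leader helper365), sub-block B0 (helper785): the partition functions
`bet ε : ℝᵇ → ℝ`, `ε : Fin b → Bool` over the torus `ℝᵇ/ℤᵇ`.

* `bet ε` is continuous, `0 ≤ bet ε ≤ 1`, supported in a box of side `3/4`, so that the lattice
  translates of its support are pairwise disjoint (`bet_disj`);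
* `∑ ε, ∑ᶠ m, bet ε (h - lat m) ^ 2 = 1` (`sum_sq`);
* near `0`: `bet 0 = 1` and all the other translates vanish (`plateau`).
* `bsum ε F h = ∑ᶠ m, bet ε (h - lat m) • F m`: a single term (`exists_single`), continuity with
  parameters (`continuous_bsum`), equivariance (`bsum_add`).
-/

set_option autoImplicit false

open Topology Set Function

namespace Crest.Agent.R235.Bet_785

open Crest.Agent.R235.FDADef_365

noncomputable section

/-- the plateau tent: `1` on `|x| ≤ 1/8`, `0` off `|x| ≤ 3/8`, linear in between. -/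
def p (x : ℝ) : ℝ := max 0 (min 1 (4 * (3 / 8 - |x|)))

theorem continuous_p : Continuous p := by unfold p; fun_prop

theorem p_nonneg (x : ℝ) : 0 ≤ p x := le_max_left _ _

theorem p_le_one (x : ℝ) : p x ≤ 1 := max_le zero_le_one (min_le_left _ _)

theorem p_eq_one {x : ℝ} (hx : |x| ≤ 1 / 8) : p x = 1 := by
  unfold p
  rw [min_eq_left (by linarith), max_eq_right zero_le_one]

theorem p_eq_zero {x : ℝ} (hx : 3 / 8 ≤ |x|) : p x = 0 := by
  unfold p
  exact max_eq_left ((min_le_right _ _).trans (by linarith))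

theorem abs_lt_of_p_ne {x : ℝ} (hx : p x ≠ 0) : |x| < 3 / 8 := by
  by_contra h
  exact hx (p_eq_zero (not_lt.1 h))

/-- the shift attached to a boolean. -/
def sh (e : Bool) : ℝ := if e then 1 / 2 else 0

/-- the functions `bet`. -/
def bet {b : ℕ} (ε : Fin b → Bool) (h : Fin b → ℝ) : ℝ := ∏ i, Real.sqrt (p (h i - sh (ε i)))

variable {b : ℕ}

theorem continuous_bet (ε : Fin b → Bool) : Continuous (bet ε) := by
  unfold bet
  exact continuous_finsetProd _ fun i _ =>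
    Real.continuous_sqrt.comp (continuous_p.comp (by fun_prop))

theorem bet_nonneg (ε : Fin b → Bool) (h : Fin b → ℝ) : 0 ≤ bet ε h :=
  Finset.prod_nonneg fun _ _ => Real.sqrt_nonneg _

theorem bet_le_one (ε : Fin b → Bool) (h : Fin b → ℝ) : bet ε h ≤ 1 :=
  Finset.prod_le_one (fun _ _ => Real.sqrt_nonneg _) fun _ _ =>
    Real.sqrt_le_one.2 (p_le_one _)

theorem bet_sq (ε : Fin b → Bool) (h : Fin b → ℝ) : bet ε h ^ 2 = ∏ i, p (h i - sh (ε i)) := by
  unfold bet
  rw [← Finset.prod_pow]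
  exact Finset.prod_congr rfl fun i _ => Real.sq_sqrt (p_nonneg _)

theorem abs_lt_of_bet_ne {ε : Fin b → Bool} {h : Fin b → ℝ} (hb : bet ε h ≠ 0) (i : Fin b) :
    |h i - sh (ε i)| < 3 / 8 := by
  refine abs_lt_of_p_ne fun h0 => hb ?_
  unfold bet
  refine Finset.prod_eq_zero (Finset.mem_univ i) ?_
  rw [h0, Real.sqrt_zero]

/-- the lattice translates of the support are disjoint. -/
theorem bet_disj {ε : Fin b → Bool} {h : Fin b → ℝ} {m n : Fin b → ℤ}
    (hm : bet ε (h - lat m) ≠ 0) (hn : bet ε (h - lat n) ≠ 0) : m = n := by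
  funext i
  have h1 := abs_lt.1 (abs_lt_of_bet_ne hm i)
  have h2 := abs_lt.1 (abs_lt_of_bet_ne hn i)
  simp only [Pi.sub_apply, lat] at h1 h2
  have h3 : ((m i - n i : ℤ) : ℝ) < 1 := by push_cast; linarith
  have h4 : (-1 : ℝ) < ((m i - n i : ℤ) : ℝ) := by push_cast; linarith
  have h5 : m i - n i < 1 := by exact_mod_cast h3
  have h6 : -1 < m i - n i := by exact_mod_cast h4
  omega

/-- bounded support. -/
theorem norm_lt_of_bet_ne {ε : Fin b → Bool} {h : Fin b → ℝ} (hb : bet ε h ≠ 0) : ‖h‖ < 1 := by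
  rw [pi_norm_lt_iff one_pos]
  intro i
  have h1 := abs_lt.1 (abs_lt_of_bet_ne hb i)
  rw [Real.norm_eq_abs, abs_lt]
  have h2 : 0 ≤ sh (ε i) ∧ sh (ε i) ≤ 1 / 2 := by
    unfold sh; split_ifs <;> norm_num
  constructor <;> linarith [h1.1, h1.2, h2.1, h2.2]


/-! ### the lattice points near a bounded set -/

/-- the lattice points of norm `≤ R + 1`. -/
def box (b : ℕ) (R : ℝ) : Finset (Fin b → ℤ) :=
  Fintype.piFinset fun _ => Finset.Icc (-⌈R + 1⌉) ⌈R + 1⌉

theorem mem_box {R : ℝ} {h : Fin b → ℝ} (hh : ‖h‖ ≤ R) {ε : Fin b → Bool} {m : Fin b → ℤ}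
    (hm : bet ε (h - lat m) ≠ 0) : m ∈ box b R := by
  rw [box, Fintype.mem_piFinset]
  intro i
  have h1 := norm_lt_of_bet_ne hm
  have h2 : |h i - m i| < 1 := lt_of_le_of_lt (norm_le_pi_norm (h - lat m) i) h1
  have h3 : |h i| ≤ R := (norm_le_pi_norm h i).trans hh
  have h4 := abs_lt.1 h2
  have h5 := abs_le.1 h3
  have h6 : R + 1 ≤ ⌈R + 1⌉ := Int.le_ceil _
  rw [Finset.mem_Icc]
  constructor
  · have : -((⌈R + 1⌉ : ℤ) : ℝ) ≤ m i := by linarith
    exact_mod_cast this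
  · have : (m i : ℝ) ≤ ((⌈R + 1⌉ : ℤ) : ℝ) := by linarith
    exact_mod_cast this

/-! ### sums over the lattice -/

section sums

variable {E : Type*} [AddCommGroup E] [Module ℝ E]

/-- `∑ m, bet ε (h - m) • F m` -/
def bsum (ε : Fin b → Bool) (F : (Fin b → ℤ) → E) (h : Fin b → ℝ) : E :=
  ∑ᶠ m : Fin b → ℤ, bet ε (h - lat m) • F m

theorem support_subset {R : ℝ} {h : Fin b → ℝ} (hh : ‖h‖ ≤ R) (ε : Fin b → Bool)
    (F : (Fin b → ℤ) → E) :
    (support fun m : Fin b → ℤ => bet ε (h - lat m) • F m) ⊆ box b R := by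
  intro m hm
  rw [mem_support] at hm
  exact mem_box hh (left_ne_zero_of_smul hm)

/-- the sum as a finite sum. -/
theorem bsum_eq_sum {R : ℝ} {h : Fin b → ℝ} (hh : ‖h‖ ≤ R) (ε : Fin b → Bool)
    (F : (Fin b → ℤ) → E) :
    bsum ε F h = ∑ m ∈ box b R, bet ε (h - lat m) • F m :=
  finsum_eq_sum_of_support_subset _ (support_subset hh ε F)


theorem bsum_of_ne {ε : Fin b → Bool} {h : Fin b → ℝ} {m₀ : Fin b → ℤ}
    (hm₀ : bet ε (h - lat m₀) ≠ 0) (F : (Fin b → ℤ) → E) :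
    bsum ε F h = bet ε (h - lat m₀) • F m₀ :=
  finsum_eq_single _ m₀ fun m hm => by
    have : bet ε (h - lat m) = 0 := by
      by_contra hne
      exact hm (bet_disj hne hm₀)
    rw [this, zero_smul]

theorem bsum_eq_zero {ε : Fin b → Bool} {h : Fin b → ℝ} (hz : ∀ m, bet ε (h - lat m) = 0)
    (F : (Fin b → ℤ) → E) : bsum ε F h = 0 := by
  unfold bsum
  simp [hz]

theorem lat_add (m n : Fin b → ℤ) : lat (m + n) = lat m + lat n := by
  funext i; simp [lat]


theorem lat_neg (m : Fin b → ℤ) : lat (-m) = -lat m := by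
  funext i; simp [lat]

theorem lat_zero : lat (0 : Fin b → ℤ) = 0 := by
  funext i; simp [lat]

/-- equivariance. -/
theorem bsum_add (ε : Fin b → Bool) (F : (Fin b → ℤ) → E) (h : Fin b → ℝ) (n : Fin b → ℤ) :
    bsum ε F (h + lat n) = bsum ε (fun m => F (m + n)) h := by
  unfold bsum
  rw [← finsum_comp_equiv (Equiv.addRight n)]
  refine finsum_congr fun m => ?_
  simp only [Equiv.coe_addRight]
  have : h + lat n - lat (m + n) = h - lat m := by rw [lat_add]; abel
  rw [this]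



/-- linear maps. -/
theorem bsum_map {E' : Type*} [AddCommGroup E'] [Module ℝ E'] (ε : Fin b → Bool) (T : E →ₗ[ℝ] E')
    (F : (Fin b → ℤ) → E) (h : Fin b → ℝ) :
    bsum ε (fun m => T (F m)) h = T (bsum ε F h) := by
  by_cases hex : ∃ m₀ : Fin b → ℤ, bet ε (h - lat m₀) ≠ 0
  · obtain ⟨m₀, hm₀⟩ := hex
    rw [bsum_of_ne hm₀, bsum_of_ne hm₀, map_smul]
  · push Not at hex
    rw [bsum_eq_zero hex, bsum_eq_zero hex, map_zero]

end sums

/-- continuity with parameters. -/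
theorem continuous_bsum {X E : Type*} [TopologicalSpace X] [NormedAddCommGroup E]
    [NormedSpace ℝ E] (ε : Fin b → Bool) (F : (Fin b → ℤ) → X → E) (hF : ∀ m, Continuous (F m))
    (g : X → Fin b → ℝ) (hg : Continuous g) :
    Continuous fun x => bsum ε (fun m => F m x) (g x) := by
  rw [continuous_iff_continuousAt]
  intro x₀
  have hU : ∀ᶠ x in 𝓝 x₀, ‖g x‖ ≤ ‖g x₀‖ + 1 := by
    have : ∀ᶠ x in 𝓝 x₀, ‖g x‖ < ‖g x₀‖ + 1 :=
      (hg.norm.tendsto x₀).eventually (gt_mem_nhds (lt_add_one _))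
    exact this.mono fun x hx => hx.le
  have hc : ContinuousAt (fun x => ∑ m ∈ box b (‖g x₀‖ + 1), bet ε (g x - lat m) • F m x) x₀ := by
    refine (continuous_finsetSum _ fun m _ => ?_).continuousAt
    exact ((continuous_bet ε).comp (hg.sub continuous_const)).smul (hF m)
  refine hc.congr ?_
  filter_upwards [hU] with x hx
  exact (bsum_eq_sum hx ε _).symm


/-! ### the partition of unity -/

/-- one dimension: `∑ e, ∑ᶠ k, p (x - k - sh e) = 1`. -/
theorem sum_p (x : ℝ) (N : ℕ) (hx : |x| ≤ N) :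
    ∑ k ∈ Finset.Icc (-(N + 1 : ℤ)) (N + 1), (p (x - k) + p (x - k - 1 / 2)) = 1 := by
  -- the integer part and the fractional part
  set n : ℤ := ⌊x⌋ with hn
  set f : ℝ := Int.fract x with hf
  have hxf : x = n + f := (Int.floor_add_fract x).symm
  have hf0 : 0 ≤ f := Int.fract_nonneg x
  have hf1 : f < 1 := Int.fract_lt_one x
  have hz : ∀ k : ℤ, k ≠ n → k ≠ n + 1 → p (x - k) + p (x - k - 1 / 2) = 0 := by
    intro k h1 h2
    rcases lt_or_gt_of_ne h1 with h | h
    · -- `k ≤ n - 1` : `x - k ≥ 1`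
      have h3 : (k : ℝ) ≤ n - 1 := by exact_mod_cast Int.le_sub_one_of_lt h
      rw [p_eq_zero, p_eq_zero, add_zero]
      · rw [abs_of_nonneg (by linarith)]; linarith
      · rw [abs_of_nonneg (by linarith)]; linarith
    · have h3 : n + 2 ≤ k := by omega
      have h4 : (n : ℝ) + 2 ≤ k := by exact_mod_cast h3
      rw [p_eq_zero, p_eq_zero, add_zero]
      · rw [abs_of_nonpos (by linarith)]; linarith
      · rw [abs_of_nonpos (by linarith)]; linarith
  have hab := abs_le.1 hx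
  have hn1 : -(N + 1 : ℤ) ≤ n := by
    have : -(N : ℝ) - 1 < n := by linarith
    have h2 : -(N : ℤ) - 1 < n := by exact_mod_cast this
    omega
  have hn2 : n ≤ N := by
    have : (n : ℝ) ≤ N := by linarith
    exact_mod_cast this
  have hsub : ({n, n + 1} : Finset ℤ) ⊆ Finset.Icc (-(N + 1 : ℤ)) (N + 1) := by
    intro k hk
    simp only [Finset.mem_insert, Finset.mem_singleton] at hk
    rw [Finset.mem_Icc]
    omega
  rw [← Finset.sum_subset hsub (by
    intro k _ hk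
    simp only [Finset.mem_insert, Finset.mem_singleton, not_or] at hk
    exact hz k hk.1 hk.2)]
  rw [Finset.sum_pair (by omega)]
  have e1 : x - (n : ℝ) = f := by linarith
  have e2 : x - ((n + 1 : ℤ) : ℝ) = f - 1 := by push_cast; linarith
  rw [e1, e2]
  -- now a computation with `0 ≤ f < 1`
  have e3 : p (f - 1 - 1 / 2) = 0 := by
    apply p_eq_zero; rw [abs_of_nonpos (by linarith)]; linarith
  rw [e3, add_zero]
  rcases le_total f (1 / 8) with h1 | h1
  · rw [p_eq_one (by rw [abs_of_nonneg hf0]; exact h1), p_eq_zero (x := f - 1 / 2)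
      (by rw [abs_of_nonpos (by linarith)]; linarith), p_eq_zero (x := f - 1)
      (by rw [abs_of_nonpos (by linarith)]; linarith)]
    norm_num
  rcases le_total f (3 / 8) with h2 | h2
  · have a1 : p f = 4 * (3 / 8 - f) := by
      unfold p
      rw [abs_of_nonneg hf0, min_eq_right (by linarith), max_eq_right (by linarith)]
    have a2 : p (f - 1 / 2) = 4 * (3 / 8 - (1 / 2 - f)) := by
      unfold p
      rw [abs_of_nonpos (by linarith), min_eq_right (by linarith), max_eq_right (by linarith)]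
      ring
    rw [a1, a2, p_eq_zero (x := f - 1) (by rw [abs_of_nonpos (by linarith)]; linarith)]
    ring
  rcases le_total f (5 / 8) with h3 | h3
  · rw [p_eq_zero (x := f) (by rw [abs_of_nonneg hf0]; exact h2), p_eq_one (x := f - 1 / 2)
      (by rw [abs_le]; constructor <;> linarith), p_eq_zero (x := f - 1)
      (by rw [abs_of_nonpos (by linarith)]; linarith)]
    norm_num
  rcases le_total f (7 / 8) with h4 | h4
  · have a1 : p (f - 1) = 4 * (3 / 8 - (1 - f)) := by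
      unfold p
      rw [abs_of_nonpos (by linarith), min_eq_right (by linarith), max_eq_right (by linarith)]
      ring
    have a2 : p (f - 1 / 2) = 4 * (3 / 8 - (f - 1 / 2)) := by
      unfold p
      rw [abs_of_nonneg (by linarith), min_eq_right (by linarith), max_eq_right (by linarith)]
    rw [a1, a2, p_eq_zero (x := f) (by rw [abs_of_nonneg hf0]; linarith)]
    ring
  · rw [p_eq_zero (x := f) (by rw [abs_of_nonneg hf0]; linarith), p_eq_zero (x := f - 1 / 2)
      (by rw [abs_of_nonneg (by linarith)]; linarith), p_eq_one (x := f - 1)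
      (by rw [abs_le]; constructor <;> linarith)]
    norm_num

/-- **the partition of unity**, finite form. -/
theorem sum_sq_box (h : Fin b → ℝ) (N : ℕ) (hN : ‖h‖ ≤ N) :
    ∑ ε : Fin b → Bool, ∑ m ∈ box b N, bet ε (h - lat m) ^ 2 = 1 := by
  have hbox : box b N = Fintype.piFinset fun _ : Fin b => Finset.Icc (-(N + 1 : ℤ)) (N + 1) := by
    unfold box
    have : ⌈(N : ℝ) + 1⌉ = (N + 1 : ℤ) := by
      have : ((N : ℝ) + 1) = (((N + 1 : ℤ)) : ℝ) := by push_cast; ring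
      rw [this, Int.ceil_intCast]
    rw [this]
  have h1 : ∀ i, ∑ e : Bool, ∑ k ∈ Finset.Icc (-(N + 1 : ℤ)) (N + 1), p (h i - k - sh e) = 1 := by
    intro i
    rw [Fintype.sum_bool, ← Finset.sum_add_distrib, ← sum_p (h i) N
      ((norm_le_pi_norm h i).trans hN)]
    refine Finset.sum_congr rfl fun k _ => ?_
    simp only [sh, if_true, Bool.false_eq_true, if_false, sub_zero]
    ring
  have h2 : ∑ ε : Fin b → Bool, ∑ m ∈ box b N, bet ε (h - lat m) ^ 2
      = ∏ i : Fin b, ∑ e : Bool, ∑ k ∈ Finset.Icc (-(N + 1 : ℤ)) (N + 1), p (h i - k - sh e) := by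
    rw [Finset.prod_univ_sum]
    rw [Fintype.piFinset_univ]
    refine Finset.sum_congr rfl fun ε _ => ?_
    rw [Finset.prod_univ_sum, hbox]
    refine Finset.sum_congr rfl fun m _ => ?_
    rw [bet_sq]
    rfl
  rw [h2]
  exact Finset.prod_eq_one fun i _ => h1 i

/-- **the partition of unity**. -/
theorem sum_sq (h : Fin b → ℝ) :
    ∑ ε : Fin b → Bool, ∑ᶠ m : Fin b → ℤ, bet ε (h - lat m) ^ 2 = 1 := by
  obtain ⟨N, hN⟩ := exists_nat_ge ‖h‖
  rw [← sum_sq_box h N hN]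
  refine Finset.sum_congr rfl fun ε _ => ?_
  refine finsum_eq_sum_of_support_subset _ ?_
  intro m hm
  rw [mem_support] at hm
  exact mem_box hN (fun h0 => hm (by rw [h0]; simp))

/-- some `bet` is bounded below. -/
theorem exists_ge (h : Fin b → ℝ) : ∃ (ε : Fin b → Bool) (m : Fin b → ℤ),
    bet ε (h - lat m) ≠ 0 := by
  by_contra hc
  push Not at hc
  have := sum_sq h
  simp [hc] at this

/-- the index `0`. -/
def z0 : Fin b → Bool := fun _ => false

/-- **plateau**: near `0` only `bet z0` (translate `0`) is there, and it is `1`. -/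
theorem plateau {h : Fin b → ℝ} (hh : ‖h‖ ≤ 1 / 8) : bet z0 h = 1 := by
  unfold bet
  refine Finset.prod_eq_one fun i _ => ?_
  have h1 : |h i| ≤ 1 / 8 := (norm_le_pi_norm h i).trans hh
  simp only [z0, sh, Bool.false_eq_true, if_false, sub_zero]
  rw [p_eq_one h1, Real.sqrt_one]

theorem plateau_zero {h : Fin b → ℝ} (hh : ‖h‖ ≤ 1 / 8) {ε : Fin b → Bool} {m : Fin b → ℤ}
    (hne : ε ≠ z0 ∨ m ≠ 0) : bet ε (h - lat m) = 0 := by
  by_contra hb
  have hm : m = 0 ∧ ε = z0 := by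
    have key : ∀ i, m i = 0 ∧ ε i = false := by
      intro i
      have h1 := abs_lt.1 (abs_lt_of_bet_ne hb i)
      have h2 := abs_le.1 ((norm_le_pi_norm h i).trans hh)
      simp only [Pi.sub_apply, lat] at h1
      cases he : ε i
      · rw [he] at h1
        simp only [sh, Bool.false_eq_true, if_false, sub_zero] at h1
        have h3 : (m i : ℝ) < 1 := by linarith [h1.1, h2.2]
        have h4 : (-1 : ℝ) < m i := by linarith [h1.2, h2.1]
        have h5 : m i < 1 := by exact_mod_cast h3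
        have h6 : -1 < m i := by exact_mod_cast h4
        exact ⟨by omega, rfl⟩
      · exfalso
        rw [he] at h1
        simp only [sh, if_true] at h1
        have h3 : (m i : ℝ) < 0 := by linarith [h1.1, h2.2]
        have h4 : (-1 : ℝ) < m i := by linarith [h1.2, h2.1]
        have h5 : m i < 0 := by exact_mod_cast h3
        have h6 : -1 < m i := by exact_mod_cast h4
        omega
    exact ⟨funext fun i => (key i).1, funext fun i => (key i).2⟩
  rcases hne with h | h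
  · exact h hm.2
  · exact h hm.1

end

end Crest.Agent.R235.Bet_785
end

-- ▼ part R235/FdB1b_435
section

/-!
Row 235 (S0364), package FD-A, block B1 (helper435): the cut-off built from 785's functions.
-/

set_option autoImplicit false

open Topology Set

namespace Crest.Agent.R235.FdB1_435

open FDADef_365 Bet_785

variable {b : ℕ}

/-- the cut-off `θ = ∑ β_ε²`. -/
noncomputable def th (b : ℕ) (h : Fin b → ℝ) : ℝ := ∑ ε : Fin b → Bool, bet ε h ^ 2

theorem th_ne {h : Fin b → ℝ} (hh : th b h ≠ 0) : ‖h‖ < 1 := by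
  obtain ⟨ε, _, hε⟩ := Finset.exists_ne_zero_of_sum_ne_zero hh
  exact norm_lt_of_bet_ne (fun h0 => hε (by rw [h0]; simp))

theorem cut_th : Cut b (th b) where
  cont := by
    unfold th
    exact continuous_finsetSum _ fun ε _ => (continuous_bet ε).pow 2
  supp := by
    refine HasCompactSupport.of_support_subset_isCompact
      (isCompact_closedBall (0 : Fin b → ℝ) 1) fun h hh => ?_
    rw [mem_closedBall_zero_iff]
    exact (th_ne hh).le
  nonneg := fun h => Finset.sum_nonneg fun ε _ => sq_nonneg _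
  sum := fun h => by
    have h1 := sum_sq (b := b) h
    rw [← h1]
    unfold th
    rw [finsum_sum_comm]
    intro ε _
    refine (box b ‖h‖).finite_toSet.subset fun m hm => ?_
    refine mem_box (le_refl ‖h‖) (ε := ε) fun h0 => hm ?_
    show bet ε (h - lat m) ^ 2 = 0
    rw [h0]
    simp

theorem th_plateau {h : Fin b → ℝ} (hh : ‖h‖ ≤ 1 / 8) : th b h = 1 := by
  unfold th
  rw [Finset.sum_eq_single z0]
  · rw [plateau hh, one_pow]
  · intro ε _ hε
    have := plateau_zero (m := 0) hh (Or.inl hε)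
    rw [Bet_785.lat_zero, sub_zero] at this
    rw [this]
    simp
  · intro h0
    exact absurd (Finset.mem_univ _) h0

end Crest.Agent.R235.FdB1_435
end

-- ▼ part R235/FB1_365
section

/-!
Row 235 (S0364), package FD-A (helper365), block B4, part 1: the finite dimensional data.

* `sec j h` : the equivariant sections spanning a complement of the range of `Lh h`;
* `Zc j p`  : the coefficients of the compact part;
* `LL h (a, ψ, z) = Lh h ψ - ∑ z_j sec_j h`.
-/

set_option autoImplicit false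

open Topology Set

namespace Crest.Agent.R235.FB1_365

open FDADef_365 Bet_785 FdB1_435

/-- the indices -/
abbrev J (N b : ℕ) : Type := Fin N × (Fin b → Bool)

variable {b : ℕ} {A P Ya Yp : Type} [NormedAddCommGroup A] [NormedSpace ℝ A]
    [CompleteSpace A] [NormedAddCommGroup P] [NormedSpace ℝ P] [CompleteSpace P]
    [NormedAddCommGroup Ya] [InnerProductSpace ℝ Ya] [CompleteSpace Ya]
    [NormedAddCommGroup Yp] [InnerProductSpace ℝ Yp] [CompleteSpace Yp]

variable (S : SWData b A P Ya Yp) {N : ℕ} (y : Fin N → Yp)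

/-- the sections -/
noncomputable def sec (j : J N b) (h : Fin b → ℝ) : Yp :=
  bsum j.2 (fun m => S.V m (y j.1)) (h - S.h₀)

theorem sec_lat (j : J N b) (h : Fin b → ℝ) (n : Fin b → ℤ) :
    sec S y j (h + lat n) = S.V n (sec S y j h) := by
  unfold sec
  have h1 : h + lat n - S.h₀ = (h - S.h₀) + lat n := by abel
  rw [h1, bsum_add]
  have h2 := bsum_map j.2 ((S.V n : Yp →L[ℝ] Yp) : Yp →ₗ[ℝ] Yp) (fun m => S.V m (y j.1))
    (h - S.h₀)
  refine Eq.trans ?_ h2
  congr 1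
  funext m
  rw [add_comm, S.V_add]
  rfl

theorem sec_cont (j : J N b) : Continuous (sec S y j) := by
  unfold sec
  exact continuous_bsum j.2 (fun m _ => S.V m (y j.1)) (fun m => continuous_const) _
    (continuous_id.sub continuous_const)

/-- the coefficients of the compact part -/
noncomputable def Zc (j : J N b) (p : (Fin b → ℝ) × A × P) : ℝ :=
  bsum j.2 (fun m => inner ℝ (y j.1) (Kh S (th b) (p.1 - lat m, p.2.1, S.U (-m) p.2.2)))
    (p.1 - S.h₀)

theorem Zc_lat (j : J N b) (n : Fin b → ℤ) (h : Fin b → ℝ) (a : A) (ψ : P) :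
    Zc S y j (h + lat n, a, S.U n ψ) = Zc S y j (h, a, ψ) := by
  unfold Zc
  have h1 : h + lat n - S.h₀ = (h - S.h₀) + lat n := by abel
  simp only
  rw [h1, bsum_add]
  congr 1
  funext m
  have h2 : h + lat n - lat (m + n) = h - lat m := by rw [Bet_785.lat_add]; abel
  have h3 : S.U (-(m + n)) (S.U n ψ) = S.U (-m) ψ := by
    rw [← S.U_add]
    congr 2
    abel
  rw [h2, h3]

theorem Zc_odd (j : J N b) (h : Fin b → ℝ) (a : A) (ψ : P) :
    Zc S y j (h, a, -ψ) = - Zc S y j (h, a, ψ) := by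
  unfold Zc
  simp only
  have h1 := bsum_map j.2 (-(LinearMap.id : ℝ →ₗ[ℝ] ℝ))
    (fun m => inner ℝ (y j.1) (Kh S (th b) (h - lat m, a, S.U (-m) ψ))) (h - S.h₀)
  refine Eq.trans ?_ h1
  congr 1
  funext m
  rw [map_neg, Kh_odd, inner_neg_right]
  rfl

theorem Zc_cont (j : J N b) : Continuous (Zc S y j) := by
  unfold Zc
  refine continuous_bsum j.2 (fun m (p : (Fin b → ℝ) × A × P) =>
    (inner ℝ (y j.1) (Kh S (th b) (p.1 - lat m, p.2.1, S.U (-m) p.2.2)) : ℝ)) (fun m => ?_) _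
    (continuous_fst.sub continuous_const)
  refine continuous_const.inner ((Kh_cont S cut_th).comp ?_)
  exact (continuous_fst.sub continuous_const).prodMk ((by fun_prop : Continuous
    fun p : (Fin b → ℝ) × A × P => p.2.1).prodMk ((S.U (-m)).continuous.comp (by fun_prop)))

/-! ### near the canonical solution -/

theorem bsum_z0 {E : Type*} [AddCommGroup E] [Module ℝ E] {h : Fin b → ℝ} (hh : ‖h‖ ≤ 1 / 8)
    (F : (Fin b → ℤ) → E) : bsum z0 F h = F 0 := by
  have h1 : bet z0 (h - lat (0 : Fin b → ℤ)) = 1 := by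
    rw [Bet_785.lat_zero, sub_zero, plateau hh]
  rw [bsum_of_ne (m₀ := 0) (by rw [h1]; exact one_ne_zero), h1, one_smul]

theorem bsum_ne {E : Type*} [AddCommGroup E] [Module ℝ E] {h : Fin b → ℝ} (hh : ‖h‖ ≤ 1 / 8)
    {ε : Fin b → Bool} (hε : ε ≠ z0) (F : (Fin b → ℤ) → E) : bsum ε F h = 0 :=
  bsum_eq_zero (fun m => plateau_zero hh (Or.inl hε)) F

theorem sec_z0 {h : Fin b → ℝ} (hh : ‖h - S.h₀‖ ≤ 1 / 8) (i : Fin N) :
    sec S y (i, z0) h = y i := by
  unfold sec
  rw [bsum_z0 hh, V_zero]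

theorem sec_ne {h : Fin b → ℝ} (hh : ‖h - S.h₀‖ ≤ 1 / 8) (i : Fin N) {ε : Fin b → Bool}
    (hε : ε ≠ z0) : sec S y (i, ε) h = 0 := by
  unfold sec
  exact bsum_ne hh hε _

theorem Zc_z0 {p : (Fin b → ℝ) × A × P} (hh : ‖p.1 - S.h₀‖ ≤ 1 / 8) (i : Fin N) :
    Zc S y (i, z0) p = inner ℝ (y i) (S.Kp p) := by
  unfold Zc
  rw [bsum_z0 hh, Bet_785.lat_zero, sub_zero, neg_zero, U_zero,
    Kh_eq S cut_th (th_plateau hh)]

theorem Zc_ne {p : (Fin b → ℝ) × A × P} (hh : ‖p.1 - S.h₀‖ ≤ 1 / 8) (i : Fin N)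
    {ε : Fin b → Bool} (hε : ε ≠ z0) : Zc S y (i, ε) p = 0 := by
  unfold Zc
  exact bsum_ne hh hε _

/-- the sum over `J` reduces to the sum over `Fin N` -/
theorem sum_sec {h : Fin b → ℝ} (hh : ‖h - S.h₀‖ ≤ 1 / 8) (z : J N b → ℝ) :
    ∑ j, z j • sec S y j h = ∑ i, z (i, z0) • y i := by
  rw [Fintype.sum_prod_type]
  refine Finset.sum_congr rfl fun i _ => ?_
  rw [Finset.sum_eq_single z0]
  · rw [sec_z0 S y hh]
  · intro ε _ hε
    rw [sec_ne S y hh i hε, smul_zero]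
  · intro h0
    exact absurd (Finset.mem_univ _) h0

/-! ### the family of operators -/

/-- `LL h (a, ψ, z) = Lh h ψ - ∑ z_j sec_j h` -/
noncomputable def LL (Va : Submodule ℝ A) (h : Fin b → ℝ) :
    (Va × P × (J N b → ℝ)) →L[ℝ] Yp :=
  ((Lh S (th b) h).comp (ContinuousLinearMap.fst ℝ P (J N b → ℝ)) -
    ∑ j, ((ContinuousLinearMap.proj (R := ℝ) (φ := fun _ : J N b => ℝ) j).comp
      (ContinuousLinearMap.snd ℝ P (J N b → ℝ))).smulRight (sec S y j h)).comp
    (ContinuousLinearMap.snd ℝ Va (P × (J N b → ℝ)))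

variable (Va : Submodule ℝ A)

theorem LL_apply (h : Fin b → ℝ) (v : Va × P × (J N b → ℝ)) :
    LL S y Va h v = Lh S (th b) h v.2.1 - ∑ j, v.2.2 j • sec S y j h := by
  simp [LL]

theorem LL_cont : Continuous (LL S y Va) := by
  unfold LL
  have h1 := Lh_cont S (cut_th (b := b))
  have h2 : Continuous fun h => (Lh S (th b) h).comp (ContinuousLinearMap.fst ℝ P (J N b → ℝ)) -
    ∑ j, ((ContinuousLinearMap.proj (R := ℝ) (φ := fun _ : J N b => ℝ) j).comp
      (ContinuousLinearMap.snd ℝ P (J N b → ℝ))).smulRight (sec S y j h) := by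
    refine (h1.clm_comp continuous_const).sub (continuous_finsetSum _ fun j _ => ?_)
    exact (ContinuousLinearMap.smulRightL ℝ (P × (J N b → ℝ)) Yp
      ((ContinuousLinearMap.proj (R := ℝ) (φ := fun _ : J N b => ℝ) j).comp
      (ContinuousLinearMap.snd ℝ P (J N b → ℝ)))).continuous.comp (sec_cont S y j)
  exact h2.clm_comp continuous_const

theorem LL_lat (h : Fin b → ℝ) (n : Fin b → ℤ) (a : Va) (ψ : P) (z : J N b → ℝ) :
    LL S y Va (h + lat n) (a, S.U n ψ, z) = S.V n (LL S y Va h (a, ψ, z)) := by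
  rw [LL_apply, LL_apply, map_sub, Lh_lat S cut_th, map_sum]
  congr 1
  refine Finset.sum_congr rfl fun j _ => ?_
  rw [map_smul, sec_lat]

theorem LL_neg (h : Fin b → ℝ) (a : Va) (ψ : P) (z : J N b → ℝ) :
    LL S y Va h (a, -ψ, -z) = - LL S y Va h (a, ψ, z) := by
  rw [LL_apply, LL_apply, map_neg]
  simp only [Pi.neg_apply, neg_smul, Finset.sum_neg_distrib]
  abel

/-- surjectivity of `LL`, from a complement over a cell -/
theorem LL_surj (hs : ∀ h : Fin b → ℝ, ‖h - S.h₀‖ ≤ 1 →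
    Submodule.span ℝ (range y) ⊔ LinearMap.range (Lh S (th b) h : P →ₗ[ℝ] Yp) = ⊤)
    (h : Fin b → ℝ) : Function.Surjective (LL S y Va h) := by
  intro w
  obtain ⟨ε, m, hm⟩ := exists_ge (h - S.h₀)
  have h1 := norm_lt_of_bet_ne hm
  have h2 := hs (h - lat m) (by
    have : h - lat m - S.h₀ = h - S.h₀ - lat m := by abel
    rw [this]
    exact h1.le)
  have h3 : S.V (-m) w ∈ Submodule.span ℝ (range y) ⊔
      LinearMap.range (Lh S (th b) (h - lat m) : P →ₗ[ℝ] Yp) := by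
    rw [h2]
    trivial
  obtain ⟨u, hu, v, ⟨ψ, hψ⟩, huv⟩ := Submodule.mem_sup.1 h3
  obtain ⟨c, hc⟩ := (Submodule.mem_span_range_iff_exists_fun ℝ).1 hu
  set β : ℝ := bet ε (h - S.h₀ - lat m) with hβ
  have hψ' : Lh S (th b) (h - lat m) ψ = v := hψ
  have h4 : w = S.V m u + S.V m v := by
    rw [← map_add, huv, ← S.V_add, add_neg_cancel, V_zero]
  have h5 : Lh S (th b) h (S.U m ψ) = S.V m v := by
    rw [← hψ', ← Lh_lat S cut_th, sub_add_cancel]
  refine ⟨(0, S.U m ψ, fun j => if j.2 = ε then -(c j.1 / β) else 0), ?_⟩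
  rw [LL_apply]
  simp only
  rw [h5, Fintype.sum_prod_type]
  have h6 : ∀ i : Fin N, ∑ ε' : Fin b → Bool, (if ε' = ε then -(c i / β) else 0) •
      sec S y (i, ε') h = -(c i • S.V m (y i)) := by
    intro i
    rw [Finset.sum_eq_single ε]
    · rw [if_pos rfl]
      unfold sec
      rw [bsum_of_ne hm, ← hβ, smul_smul, neg_mul, div_mul_cancel₀ _ hm, neg_smul]
    · intro ε' _ hε'
      rw [if_neg hε', zero_smul]
    · intro h0
      exact absurd (Finset.mem_univ _) h0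
  rw [Finset.sum_congr rfl fun i _ => h6 i, Finset.sum_neg_distrib, sub_neg_eq_add, h4, ← hc,
    map_sum]
  rw [add_comm]
  congr 1
  refine Finset.sum_congr rfl fun i _ => ?_
  rw [map_smul]

end Crest.Agent.R235.FB1_365
end

-- ▼ part R235/FB2_365
section

/-!
Row 235 (S0364), package FD-A (helper365), block B4, part 2: the error of the finite dimensional
approximation.
-/

set_option autoImplicit false

open Topology Set

namespace Crest.Agent.R235.FB2_365

open FDADef_365 Bet_785 FdB1_435 FB1_365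

variable {b : ℕ} {A P Ya Yp : Type} [NormedAddCommGroup A] [NormedSpace ℝ A]
    [CompleteSpace A] [NormedAddCommGroup P] [NormedSpace ℝ P] [CompleteSpace P]
    [NormedAddCommGroup Ya] [InnerProductSpace ℝ Ya] [CompleteSpace Ya]
    [NormedAddCommGroup Yp] [InnerProductSpace ℝ Yp] [CompleteSpace Yp]

variable (S : SWData b A P Ya Yp) {N : ℕ} (y : Fin N → Yp)

/-- `w ↦ ∑ ⟪y_i, w⟫ y_i` -/
noncomputable def Pl (w : Yp) : Yp := ∑ i, (inner ℝ (y i) w : ℝ) • y i

/-- the error as a convex combination -/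
theorem err_eq (h : Fin b → ℝ) (a : A) (ψ : P) : ∃ (c : (Fin b → Bool) → ℝ)
    (m : (Fin b → Bool) → (Fin b → ℤ)), (∀ ε, 0 ≤ c ε) ∧ ∑ ε, c ε = 1 ∧
    (∀ ε, c ε ≠ 0 → ‖h - S.h₀ - lat (m ε)‖ < 1) ∧
    Kh S (th b) (h, a, ψ) - ∑ j, Zc S y j (h, a, ψ) • sec S y j h =
      ∑ ε, c ε • S.V (m ε) (Kh S (th b) (h - lat (m ε), a, S.U (-m ε) ψ) -
        Pl y (Kh S (th b) (h - lat (m ε), a, S.U (-m ε) ψ))) := by
  have h0 : ∀ ε : Fin b → Bool, ∃ m₀ : Fin b → ℤ,
      (∀ m, m ≠ m₀ → bet ε (h - S.h₀ - lat m) = 0) ∧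
      (∀ F : (Fin b → ℤ) → Yp, bsum ε F (h - S.h₀) = bet ε (h - S.h₀ - lat m₀) • F m₀) ∧
      ∀ F : (Fin b → ℤ) → ℝ, bsum ε F (h - S.h₀) = bet ε (h - S.h₀ - lat m₀) • F m₀ := by
    intro ε
    by_cases hex : ∃ m₀ : Fin b → ℤ, bet ε (h - S.h₀ - lat m₀) ≠ 0
    · obtain ⟨m₀, hm₀⟩ := hex
      refine ⟨m₀, fun m hm => ?_, fun F => bsum_of_ne hm₀ F, fun F => bsum_of_ne hm₀ F⟩
      by_contra hne
      exact hm (bet_disj hne hm₀)
    · push Not at hex
      exact ⟨0, fun m _ => hex m, fun F => by rw [bsum_eq_zero hex, hex, zero_smul],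
        fun F => by rw [bsum_eq_zero hex, hex, zero_smul]⟩
  choose m hm1 hm2 hm3 using h0
  have hsum : ∑ ε : Fin b → Bool, bet ε (h - S.h₀ - lat (m ε)) ^ 2 = 1 := by
    rw [← sum_sq (h - S.h₀)]
    refine Finset.sum_congr rfl fun ε _ => ?_
    refine (finsum_eq_single (fun n => bet ε (h - S.h₀ - lat n) ^ 2) (m ε) fun n hn => ?_).symm
    rw [hm1 ε n hn]
    simp
  refine ⟨fun ε => bet ε (h - S.h₀ - lat (m ε)) ^ 2, m, fun ε => sq_nonneg _, hsum, ?_, ?_⟩
  · intro ε hε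
    exact norm_lt_of_bet_ne (ε := ε) fun h1 => hε (by simp only; rw [h1]; simp)
  · have hK : Kh S (th b) (h, a, ψ) = ∑ ε, bet ε (h - S.h₀ - lat (m ε)) ^ 2 •
        S.V (m ε) (Kh S (th b) (h - lat (m ε), a, S.U (-m ε) ψ)) := by
      have h1 : ∀ n, S.V n (Kh S (th b) (h - lat n, a, S.U (-n) ψ)) = Kh S (th b) (h, a, ψ) := by
        intro n
        rw [← Kh_lat S cut_th, sub_add_cancel, ← S.U_add, add_neg_cancel, U_zero]
      simp only [h1]
      rw [← Finset.sum_smul, hsum, one_smul]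
    rw [hK, Fintype.sum_prod_type_right, ← Finset.sum_sub_distrib]
    refine Finset.sum_congr rfl fun ε _ => ?_
    rw [map_sub, smul_sub]
    congr 1
    unfold Pl
    rw [map_sum, Finset.smul_sum]
    refine Finset.sum_congr rfl fun i _ => ?_
    unfold sec Zc
    simp only
    rw [hm2, hm3, map_smul]
    simp only [smul_eq_mul]
    rw [smul_smul, smul_smul]
    congr 1
    ring

theorem finite_lat (R : ℝ) : {m : Fin b → ℤ | ‖lat m‖ ≤ R}.Finite := by
  obtain ⟨n, hn⟩ := exists_nat_ge R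
  refine (Finset.Icc (fun _ : Fin b => -(n : ℤ)) (fun _ => (n : ℤ))).finite_toSet.subset ?_
  intro m hm
  have hm' : ‖lat m‖ ≤ R := hm
  rw [Finset.mem_coe, Finset.mem_Icc]
  have h4 : ∀ i, |(m i : ℝ)| ≤ n := fun i => (norm_le_pi_norm (lat m) i).trans (hm'.trans hn)
  constructor
  · intro i
    have := (abs_le.1 (h4 i)).1
    exact_mod_cast this
  · intro i
    have := (abs_le.1 (h4 i)).2
    exact_mod_cast this

/-- uniform bounds of the gauge transformations -/
theorem exists_UV (R : ℝ) : ∃ C : ℝ, 1 ≤ C ∧ ∀ m : Fin b → ℤ, ‖lat m‖ ≤ R →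
    (∀ ψ, ‖S.U m ψ‖ ≤ C * ‖ψ‖) ∧ (∀ ψ, ‖S.U (-m) ψ‖ ≤ C * ‖ψ‖) ∧ ∀ w, ‖S.V m w‖ ≤ C * ‖w‖ := by
  have hf := finite_lat (b := b) R
  set s := hf.toFinset with hs
  set C : ℝ := 1 + ∑ m ∈ s, (‖(S.U m : P →L[ℝ] P)‖ + ‖(S.U (-m) : P →L[ℝ] P)‖ +
    ‖(S.V m : Yp →L[ℝ] Yp)‖) with hC
  have h0 : ∀ m : Fin b → ℤ, 0 ≤ ‖(S.U m : P →L[ℝ] P)‖ + ‖(S.U (-m) : P →L[ℝ] P)‖ +
    ‖(S.V m : Yp →L[ℝ] Yp)‖ := fun m => by positivity
  refine ⟨C, ?_, fun m hm => ?_⟩
  · have := Finset.sum_nonneg fun m (_ : m ∈ s) => h0 m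
    linarith
  have hms : m ∈ s := by
    rw [hs, Set.Finite.mem_toFinset]
    exact hm
  have h1 := Finset.single_le_sum (f := fun m : Fin b → ℤ => ‖(S.U m : P →L[ℝ] P)‖ +
    ‖(S.U (-m) : P →L[ℝ] P)‖ + ‖(S.V m : Yp →L[ℝ] Yp)‖) (fun m _ => h0 m) hms
  have e1 := norm_nonneg (S.U m : P →L[ℝ] P)
  have e2 := norm_nonneg (S.U (-m) : P →L[ℝ] P)
  have e3 := norm_nonneg (S.V m : Yp →L[ℝ] Yp)
  refine ⟨fun ψ => ?_, fun ψ => ?_, fun w => ?_⟩
  · exact ((S.U m : P →L[ℝ] P).le_opNorm ψ).trans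
      (mul_le_mul_of_nonneg_right (by linarith) (norm_nonneg _))
  · exact ((S.U (-m) : P →L[ℝ] P).le_opNorm ψ).trans
      (mul_le_mul_of_nonneg_right (by linarith) (norm_nonneg _))
  · exact ((S.V m : Yp →L[ℝ] Yp).le_opNorm w).trans
      (mul_le_mul_of_nonneg_right (by linarith) (norm_nonneg _))

/-- the error bound -/
theorem err_le {C R' R₃ ε₀ : ℝ} (hC1 : 1 ≤ C)
    (hC : ∀ m : Fin b → ℤ, ‖lat m‖ ≤ 3 + ‖S.h₀‖ →
      (∀ ψ, ‖S.U m ψ‖ ≤ C * ‖ψ‖) ∧ (∀ ψ, ‖S.U (-m) ψ‖ ≤ C * ‖ψ‖) ∧ ∀ w, ‖S.V m w‖ ≤ C * ‖w‖)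
    (hR0 : 0 ≤ R') (hR₃ : 1 + ‖S.h₀‖ ≤ R₃) (hR₃' : C * R' ≤ R₃)
    (happ : ∀ q : (Fin b → ℝ) × A × P, ‖q‖ ≤ R₃ →
      ‖Kh S (th b) q - Pl y (Kh S (th b) q)‖ ≤ ε₀)
    {h : Fin b → ℝ} {a : A} {ψ : P} (hh : ‖h‖ ≤ 2) (ha : ‖a‖ ≤ R') (hψ : ‖ψ‖ ≤ R') :
    ‖Kh S (th b) (h, a, ψ) - ∑ j, Zc S y j (h, a, ψ) • sec S y j h‖ ≤ C * ε₀ := by
  obtain ⟨c, m, hc0, hc1, hm, he⟩ := err_eq S y h a ψ
  rw [he]
  refine (norm_sum_le _ _).trans ?_
  have h1 : ∀ ε, ‖c ε • S.V (m ε) (Kh S (th b) (h - lat (m ε), a, S.U (-m ε) ψ) -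
        Pl y (Kh S (th b) (h - lat (m ε), a, S.U (-m ε) ψ)))‖ ≤ c ε * (C * ε₀) := by
    intro ε
    rw [norm_smul, Real.norm_of_nonneg (hc0 ε)]
    by_cases hz : c ε = 0
    · rw [hz, zero_mul, zero_mul]
    refine mul_le_mul_of_nonneg_left ?_ (hc0 ε)
    have h2 := (hm ε hz).le
    have h3 : ‖lat (m ε)‖ ≤ 3 + ‖S.h₀‖ := by
      have e1 : lat (m ε) = h - S.h₀ - (h - S.h₀ - lat (m ε)) := by abel
      rw [e1]
      have e2 := norm_sub_le (h - S.h₀) (h - S.h₀ - lat (m ε))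
      have e3 := norm_sub_le h S.h₀
      linarith
    obtain ⟨-, h5, h6⟩ := hC _ h3
    refine (h6 _).trans (mul_le_mul_of_nonneg_left (happ _ ?_) (by linarith))
    have e4 : ‖h - lat (m ε)‖ ≤ R₃ := by
      have e5 : h - lat (m ε) = (h - S.h₀ - lat (m ε)) + S.h₀ := by abel
      rw [e5]
      refine (norm_add_le _ _).trans ?_
      linarith
    have e6 : ‖a‖ ≤ R₃ := by
      refine ha.trans (le_trans ?_ hR₃')
      nlinarith
    have e7 : ‖S.U (-m ε) ψ‖ ≤ R₃ := by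
      refine (h5 ψ).trans (le_trans ?_ hR₃')
      exact mul_le_mul_of_nonneg_left hψ (by linarith)
    rw [Prod.norm_def, Prod.norm_def]
    exact max_le e4 (max_le e6 e7)
  refine (Finset.sum_le_sum fun ε _ => h1 ε).trans ?_
  rw [← Finset.sum_mul, hc1, one_mul]

end Crest.Agent.R235.FB2_365
end

-- ▼ part R235/FB3_365
section

/-!
Row 235 (S0364), package FD-A (helper365), block B4, part 3: dimension count and a uniform
complement of the ranges of a compact family of Fredholm operators.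
-/

set_option autoImplicit false

open Topology Set Module

namespace Crest.Agent.R235.FB3_365

open FDADef_365

section dims

variable {A Y : Type} [NormedAddCommGroup A] [NormedSpace ℝ A]
    [NormedAddCommGroup Y] [InnerProductSpace ℝ Y] [CompleteSpace Y]

/-- the restriction of `L` to the preimage of `W` -/
def resW (L : A →L[ℝ] Y) (W : Submodule ℝ Y) : (W.comap (L : A →ₗ[ℝ] Y)) →ₗ[ℝ] W :=
  (L : A →ₗ[ℝ] Y).restrict (p := W.comap (L : A →ₗ[ℝ] Y)) (q := W) (fun _ hx => hx)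

/-- the kernel of the restriction is the kernel -/
def kerEquiv (L : A →L[ℝ] Y) (W : Submodule ℝ Y) :
    LinearMap.ker (resW L W) ≃ₗ[ℝ] LinearMap.ker (L : A →ₗ[ℝ] Y) where
  toFun x := ⟨((x : W.comap (L : A →ₗ[ℝ] Y)) : A), by
    have hx : resW L W x.1 = 0 := x.2
    have h1 : ((resW L W x.1 : W) : Y) = 0 := by rw [hx]; rfl
    exact h1⟩
  map_add' x y := rfl
  map_smul' c x := rfl
  invFun y := ⟨⟨(y : A), by
    have hy : L (y : A) = 0 := y.2
    show L (y : A) ∈ W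
    rw [hy]; exact W.zero_mem⟩, by
    have hy : L (y : A) = 0 := y.2
    exact Subtype.ext hy⟩
  left_inv x := rfl
  right_inv y := rfl

omit [CompleteSpace Y] in
theorem finDim_comap (L : A →L[ℝ] Y)
    (hk : FiniteDimensional ℝ (LinearMap.ker (L : A →ₗ[ℝ] Y)))
    (W : Submodule ℝ Y) (hW : FiniteDimensional ℝ W) :
    FiniteDimensional ℝ (W.comap (L : A →ₗ[ℝ] Y)) := by
  have hker : FiniteDimensional ℝ (LinearMap.ker (resW L W)) :=
    LinearEquiv.finiteDimensional (kerEquiv L W).symm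
  have hq : FiniteDimensional ℝ
      ((W.comap (L : A →ₗ[ℝ] Y)) ⧸ LinearMap.ker (resW L W)) :=
    LinearEquiv.finiteDimensional (resW L W).quotKerEquivRange.symm
  exact Module.Finite.of_submodule_quotient (LinearMap.ker (resW L W))

/-- the dimension of the preimage -/
theorem dimA (L : A →L[ℝ] Y) (hL : Fred L) (W : Submodule ℝ Y) [hW : FiniteDimensional ℝ W]
    (hWr : (LinearMap.range (L : A →ₗ[ℝ] Y))ᗮ ≤ W) :
    FiniteDimensional ℝ (W.comap (L : A →ₗ[ℝ] Y)) ∧
      (finrank ℝ (W.comap (L : A →ₗ[ℝ] Y)) : ℤ) = ind L + finrank ℝ W := by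
  have hcf := finDim_comap L hL.ker W hW
  have h1 := (resW L W).finrank_range_add_finrank_ker
  have h2 : finrank ℝ (LinearMap.ker (resW L W)) =
      finrank ℝ (LinearMap.ker (L : A →ₗ[ℝ] Y)) := (kerEquiv L W).finrank_eq
  have hclosed : IsClosed ((LinearMap.range (L : A →ₗ[ℝ] Y) : Submodule ℝ Y) : Set Y) := by
    have : ((LinearMap.range (L : A →ₗ[ℝ] Y) : Submodule ℝ Y) : Set Y) = Set.range L := by
      ext y; simp
    rw [this]; exact hL.closed
  have hperp : ((LinearMap.range (L : A →ₗ[ℝ] Y))ᗮ)ᗮ = LinearMap.range (L : A →ₗ[ℝ] Y) := by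
    rw [Submodule.orthogonal_orthogonal_eq_closure]
    exact hclosed.submodule_topologicalClosure_eq
  have h3 := Submodule.finrank_add_inf_finrank_orthogonal hWr
  rw [hperp] at h3
  have h4 : finrank ℝ (LinearMap.range (resW L W)) =
      finrank ℝ (LinearMap.range (L : A →ₗ[ℝ] Y) ⊓ W : Submodule ℝ Y) := by
    have hmap : (LinearMap.range (resW L W)).map W.subtype =
        LinearMap.range (L : A →ₗ[ℝ] Y) ⊓ W := by
      ext y
      constructor
      · rintro ⟨w, ⟨x, rfl⟩, rfl⟩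
        exact ⟨⟨(x : A), rfl⟩, (resW L W x).2⟩
      · rintro ⟨⟨x, rfl⟩, hxW⟩
        exact ⟨⟨L x, hxW⟩, ⟨⟨x, hxW⟩, rfl⟩, rfl⟩
    rw [← hmap]
    exact (LinearEquiv.finrank_eq (Submodule.equivMapOfInjective W.subtype
      (Submodule.injective_subtype W) _))
  refine ⟨hcf, ?_⟩
  unfold ind
  omega

/-- the kernel of `(x, z) ↦ L x - s z`, surjective -/
theorem dimP {E F : Type} [AddCommGroup E] [Module ℝ E] [AddCommGroup F] [Module ℝ F]
    [FiniteDimensional ℝ F] (L : A →L[ℝ] Y) (hL : Fred L) (e : E ≃ₗ[ℝ] A × F) (s : F →ₗ[ℝ] Y)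
    (T : E →ₗ[ℝ] Y) (hT : ∀ x, T x = L (e x).1 - s (e x).2) (hsurj : Function.Surjective T) :
    FiniteDimensional ℝ (LinearMap.ker T) ∧
      (finrank ℝ (LinearMap.ker T) : ℤ) = ind L + finrank ℝ F := by
  have hLk := hL.ker
  set R : Submodule ℝ Y := LinearMap.range (L : A →ₗ[ℝ] Y) with hR
  have hRc : IsClosed (R : Set Y) := hL.closed
  have : CompleteSpace R := hRc.completeSpace_coe
  -- the map onto the quotient
  let q : F →ₗ[ℝ] (Y ⧸ R) := R.mkQ ∘ₗ s
  have hq : Function.Surjective q := by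
    intro w
    obtain ⟨y, rfl⟩ := R.mkQ_surjective w
    obtain ⟨x, rfl⟩ := hsurj y
    refine ⟨-(e x).2, ?_⟩
    show R.mkQ (s (-(e x).2)) = R.mkQ (T x)
    rw [hT, map_sub, map_neg, map_neg]
    have : R.mkQ (L (e x).1) = 0 := by
      rw [Submodule.mkQ_apply, Submodule.Quotient.mk_eq_zero]
      exact ⟨(e x).1, rfl⟩
    rw [this, zero_sub]
  have hqf : finrank ℝ (LinearMap.range q) = finrank ℝ (Rᗮ : Submodule ℝ Y) := by
    rw [LinearMap.range_eq_top.2 hq, finrank_top]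
    exact (Submodule.quotientEquivOfIsCompl _ _ (Submodule.isCompl_orthogonal R)).finrank_eq
  have h1 := q.finrank_range_add_finrank_ker
  -- the projection of the kernel
  let g : LinearMap.ker T →ₗ[ℝ] F := (LinearMap.snd ℝ A F ∘ₗ (e : E →ₗ[ℝ] A × F)) ∘ₗ
    (LinearMap.ker T).subtype
  have hg : ∀ x : LinearMap.ker T, g x = (e (x : E)).2 := fun x => rfl
  have hgr : LinearMap.range g = LinearMap.ker q := by
    ext z
    constructor
    · rintro ⟨x, rfl⟩
      have hx : T (x : E) = 0 := x.2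
      rw [hT, sub_eq_zero] at hx
      show R.mkQ (s (g x)) = 0
      rw [hg, ← hx, Submodule.mkQ_apply, Submodule.Quotient.mk_eq_zero]
      exact ⟨_, rfl⟩
    · intro hz
      have hz' : R.mkQ (s z) = 0 := hz
      rw [Submodule.mkQ_apply, Submodule.Quotient.mk_eq_zero] at hz'
      obtain ⟨a, ha⟩ := hz'
      have ha' : L a = s z := ha
      refine ⟨⟨e.symm (a, z), ?_⟩, ?_⟩
      · show T (e.symm (a, z)) = 0
        rw [hT, e.apply_symm_apply, ha', sub_self]
      · rw [hg]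
        simp
  have hgk : LinearMap.ker g ≃ₗ[ℝ] LinearMap.ker (L : A →ₗ[ℝ] Y) :=
    { toFun := fun x => ⟨(e ((x : LinearMap.ker T) : E)).1, by
        have hx1 : T ((x : LinearMap.ker T) : E) = 0 := x.1.2
        have hx2 : (e ((x : LinearMap.ker T) : E)).2 = 0 := x.2
        rw [hT, hx2, map_zero, sub_zero] at hx1
        exact hx1⟩
      map_add' := fun x y => by
        apply Subtype.ext
        show (e (((x : LinearMap.ker T) : E) + ((y : LinearMap.ker T) : E))).1 = _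
        rw [map_add]
        rfl
      map_smul' := fun c x => by
        apply Subtype.ext
        show (e (c • ((x : LinearMap.ker T) : E))).1 = _
        rw [map_smul]
        rfl
      invFun := fun a => ⟨⟨e.symm ((a : A), 0), by
        have ha : L (a : A) = 0 := a.2
        show T (e.symm ((a : A), 0)) = 0
        rw [hT, e.apply_symm_apply, ha, map_zero, sub_zero]⟩, by
        show (e (e.symm ((a : A), 0))).2 = 0
        rw [e.apply_symm_apply]⟩
      left_inv := fun x => by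
        apply Subtype.ext
        apply Subtype.ext
        have hx2 : (e ((x : LinearMap.ker T) : E)).2 = 0 := x.2
        show e.symm ((e ((x : LinearMap.ker T) : E)).1, 0) = ((x : LinearMap.ker T) : E)
        rw [LinearEquiv.symm_apply_eq]
        exact Prod.ext rfl hx2.symm
      right_inv := fun a => by
        apply Subtype.ext
        show (e (e.symm ((a : A), 0))).1 = a
        rw [e.apply_symm_apply] }
  have hgkf : FiniteDimensional ℝ (LinearMap.ker g) := LinearEquiv.finiteDimensional hgk.symm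
  have hqk : FiniteDimensional ℝ (LinearMap.ker T ⧸ LinearMap.ker g) :=
    LinearEquiv.finiteDimensional g.quotKerEquivRange.symm
  have hfin : FiniteDimensional ℝ (LinearMap.ker T) :=
    Module.Finite.of_submodule_quotient (LinearMap.ker g)
  have h2 := g.finrank_range_add_finrank_ker
  rw [hgr, hgk.finrank_eq] at h2
  refine ⟨hfin, ?_⟩
  unfold ind
  rw [← hR]
  omega

end dims

section compl

variable {P Y : Type} [NormedAddCommGroup P] [NormedSpace ℝ P] [CompleteSpace P]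
    [NormedAddCommGroup Y] [InnerProductSpace ℝ Y] [CompleteSpace Y]

/-- a right inverse modulo the orthogonal complement of the range -/
theorem exists_rinv {L : P →L[ℝ] Y} (h : Fred L) : ∃ T : Y →L[ℝ] P,
    ∀ w, w - L (T w) ∈ (LinearMap.range (L : P →ₗ[ℝ] Y))ᗮ := by
  have hk := h.ker
  obtain ⟨Q, hQ, hKQ⟩ := FdB1_435.exists_compl L
  set R : Submodule ℝ Y := LinearMap.range (L : P →ₗ[ℝ] Y) with hR
  have hRc : IsClosed (R : Set Y) := h.closed
  have : CompleteSpace Q := hQ.completeSpace_coe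
  have : CompleteSpace R := hRc.completeSpace_coe
  let f : Q →L[ℝ] R := (L.comp Q.subtypeL).codRestrict R fun x => ⟨x, rfl⟩
  have hf : Function.Bijective f := by
    constructor
    · rw [injective_iff_map_eq_zero]
      intro x hx
      have h1 : L x = 0 := congrArg Subtype.val hx
      have h2 : (x : P) ∈ LinearMap.ker (L : P →ₗ[ℝ] Y) ⊓ Q := ⟨h1, x.2⟩
      rw [hKQ.inf_eq_bot] at h2
      exact Subtype.ext ((Submodule.mem_bot ℝ).1 h2)
    · rintro ⟨y, x, hx⟩
      have h3 : x ∈ LinearMap.ker (L : P →ₗ[ℝ] Y) ⊔ Q := by rw [hKQ.sup_eq_top]; trivial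
      obtain ⟨n, hn, q, hq, rfl⟩ := Submodule.mem_sup.1 h3
      refine ⟨⟨q, hq⟩, Subtype.ext ?_⟩
      have h4 : L n = 0 := hn
      have h5 : L (n + q) = y := hx
      rw [map_add, h4, zero_add] at h5
      exact h5
  let e : Q ≃L[ℝ] R := ContinuousLinearEquiv.ofBijective f
    (LinearMap.ker_eq_bot.2 hf.1) (LinearMap.range_eq_top.2 hf.2)
  let T : Y →L[ℝ] P := Q.subtypeL.comp ((e.symm : R →L[ℝ] Q).comp R.orthogonalProjectionOnto)
  refine ⟨T, fun w => ?_⟩
  have h9 : L (T w) = (R.orthogonalProjectionOnto w : Y) := by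
    show L ((e.symm (R.orthogonalProjectionOnto w) : Q) : P) = _
    have : L ((e.symm (R.orthogonalProjectionOnto w) : Q) : P) =
      ((e (e.symm (R.orthogonalProjectionOnto w)) : R) : Y) := rfl
    rw [this, e.apply_symm_apply]
  rw [h9]
  have h10 := R.sub_starProjection_mem_orthogonal w
  rwa [R.starProjection_apply] at h10

theorem exists_nhds_sup {L : P →L[ℝ] Y} (h : Fred L) : ∃ ε > 0, ∀ L' : P →L[ℝ] Y,
    ‖L' - L‖ < ε →
    (LinearMap.range (L : P →ₗ[ℝ] Y))ᗮ ⊔ LinearMap.range (L' : P →ₗ[ℝ] Y) = ⊤ := by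
  obtain ⟨T, hT⟩ := exists_rinv h
  refine ⟨1 / (‖T‖ + 1), by positivity, fun L' hL' => ?_⟩
  rw [eq_top_iff]
  intro w _
  set B : Y →L[ℝ] Y := (L' - L).comp T with hB
  have h1 : ‖-B‖ < 1 := by
    rw [norm_neg]
    refine lt_of_le_of_lt ((L' - L).opNorm_comp_le T) ?_
    rw [lt_div_iff₀ (by positivity)] at hL'
    have := norm_nonneg (L' - L)
    have := norm_nonneg T
    nlinarith
  have h2 : IsUnit (1 - -B) := isUnit_one_sub_of_norm_lt_one h1
  obtain ⟨u, hu⟩ := h2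
  have h3 : (u : Y →L[ℝ] Y) (((u⁻¹ : (Y →L[ℝ] Y)ˣ) : Y →L[ℝ] Y) w) = w := by
    have : ((u : Y →L[ℝ] Y) * ((u⁻¹ : (Y →L[ℝ] Y)ˣ) : Y →L[ℝ] Y)) w = w := by
      rw [Units.mul_inv]
      rfl
    exact this
  set v := ((u⁻¹ : (Y →L[ℝ] Y)ˣ) : Y →L[ℝ] Y) w with hv
  rw [hu] at h3
  have h4 : w = (v - L (T v)) + L' (T v) := by
    rw [← h3]
    show v - -((L' - L) (T v)) = _
    rw [_root_.sub_apply]
    abel
  rw [h4]
  exact Submodule.add_mem_sup (hT v) ⟨T v, rfl⟩

/-- **a uniform complement** -/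
theorem exists_compl_unif {H : Type*} [TopologicalSpace H] {C : Set H} (hC : IsCompact C)
    (Lf : H → P →L[ℝ] Y) (hLf : Continuous Lf) (hF : ∀ h, Fred (Lf h)) :
    ∃ W : Submodule ℝ Y, FiniteDimensional ℝ W ∧
      ∀ h ∈ C, W ⊔ LinearMap.range (Lf h : P →ₗ[ℝ] Y) = ⊤ := by
  have h1 : ∀ h₁ ∈ C, ∃ U ∈ 𝓝[C] h₁, ∀ h ∈ U,
      (LinearMap.range (Lf h₁ : P →ₗ[ℝ] Y))ᗮ ⊔ LinearMap.range (Lf h : P →ₗ[ℝ] Y) = ⊤ := by
    intro h₁ _
    obtain ⟨ε, hε, h2⟩ := exists_nhds_sup (hF h₁)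
    refine ⟨{h | ‖Lf h - Lf h₁‖ < ε}, ?_, fun h hh => h2 _ hh⟩
    apply mem_nhdsWithin_of_mem_nhds
    have h3 : ContinuousAt (fun h => ‖Lf h - Lf h₁‖) h₁ :=
      (hLf.sub continuous_const).norm.continuousAt
    have h4 : (fun h => ‖Lf h - Lf h₁‖) h₁ < ε := by
      simp only
      rw [sub_self, norm_zero]
      exact hε
    exact h3.eventually (gt_mem_nhds h4)
  refine hC.induction_on (p := fun D => ∃ W : Submodule ℝ Y, FiniteDimensional ℝ W ∧
      ∀ h ∈ D, W ⊔ LinearMap.range (Lf h : P →ₗ[ℝ] Y) = ⊤) ?_ ?_ ?_ ?_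
  · exact ⟨⊥, inferInstance, fun h hh => absurd hh (notMem_empty h)⟩
  · rintro D D' hDD' ⟨W, hW, h2⟩
    exact ⟨W, hW, fun h hh => h2 h (hDD' hh)⟩
  · rintro D D' ⟨W, hW, h2⟩ ⟨W', hW', h2'⟩
    refine ⟨W ⊔ W', Submodule.finiteDimensional_sup _ _, ?_⟩
    rintro h (hh | hh)
    · rw [eq_top_iff, ← h2 h hh]
      exact sup_le_sup_right le_sup_left _
    · rw [eq_top_iff, ← h2' h hh]
      exact sup_le_sup_right le_sup_right _
  · intro h₁ hh₁
    obtain ⟨U, hU, h2⟩ := h1 h₁ hh₁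
    exact ⟨U, hU, _, (hF h₁).coker, h2⟩

end compl

end Crest.Agent.R235.FB3_365
end

-- ▼ part R235/Tot_435
section

/-!
Row 235 (S0364), package FD-A (leader helper365), block B3 (helper435): the total space of the
kernels of a continuous family of surjective Fredholm operators over `ℝᵇ` is a topological
manifold, and its bounded closed pieces over compact sets are compact.
-/

set_option autoImplicit false

open Topology Set

namespace Crest.Agent.R235.Tot_435

open FDADef_365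

variable {b : ℕ} {E Y : Type} [NormedAddCommGroup E] [NormedSpace ℝ E] [CompleteSpace E]
  [NormedAddCommGroup Y] [NormedSpace ℝ Y] [CompleteSpace Y]

/-- local trivialisation: `(LL h, π)` is invertible near `h₀`. -/
theorem exists_triv {LL : (Fin b → ℝ) → (E →L[ℝ] Y)} (hc : Continuous LL) (h₀ : Fin b → ℝ)
    (hs : Function.Surjective (LL h₀)) (K : Submodule ℝ E) [FiniteDimensional ℝ K]
    (hK : ∀ v, v ∈ K ↔ LL h₀ v = 0) :
    ∃ (π : E →L[ℝ] K) (U : Set (Fin b → ℝ)) (g : (Fin b → ℝ) × K → E),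
      IsOpen U ∧ h₀ ∈ U ∧ ContinuousOn g (U ×ˢ univ) ∧
      (∀ q, LL q.1 (g q) = 0) ∧ (∀ q, q.1 ∈ U → π (g q) = q.2) ∧
      (∀ h ∈ U, ∀ v, LL h v = 0 → g (h, π v) = v) := by
  obtain ⟨π, hπ⟩ := Submodule.ClosedComplemented.of_finiteDimensional K
  let Φ : (Fin b → ℝ) → (E →L[ℝ] Y × K) := fun h => (LL h).prod π
  have hΦc : Continuous Φ :=
    (ContinuousLinearMap.prodₗᵢ (𝕜 := ℝ) (E := E) (F := Y) (G := K) ℝ).continuous.comp
      (hc.prodMk continuous_const)
  have hΦ0 : Function.Bijective (Φ h₀) := by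
    constructor
    · rw [injective_iff_map_eq_zero]
      intro v hv
      have h1 : LL h₀ v = 0 := congrArg Prod.fst hv
      have h2 : π v = 0 := congrArg Prod.snd hv
      have h3 := hπ ⟨v, (hK v).2 h1⟩
      have h4 : (⟨v, (hK v).2 h1⟩ : K) = 0 := by rw [← h3]; exact h2
      exact congrArg Subtype.val h4
    · rintro ⟨y, w⟩
      obtain ⟨v, hv⟩ := hs y
      refine ⟨v - (π v : E) + w, Prod.ext ?_ ?_⟩
      · have h1 : LL h₀ (π v : E) = 0 := (hK _).1 (π v).2
        have h2 : LL h₀ (w : E) = 0 := (hK _).1 w.2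
        show LL h₀ (v - (π v : E) + w) = y
        rw [map_add, map_sub, h1, h2, hv, sub_zero, add_zero]
      · show π (v - (π v : E) + w) = w
        rw [map_add, map_sub, hπ, hπ, sub_self, zero_add]
  let e₀ : E ≃L[ℝ] Y × K := ContinuousLinearEquiv.ofBijective (Φ h₀)
    (LinearMap.ker_eq_bot.2 hΦ0.1) (LinearMap.range_eq_top.2 hΦ0.2)
  have he₀ : (e₀ : E →L[ℝ] Y × K) = Φ h₀ := by ext <;> rfl
  let U : Set (Fin b → ℝ) := Φ ⁻¹' (range ((↑) : (E ≃L[ℝ] Y × K) → E →L[ℝ] Y × K))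
  have hUo : IsOpen U := ContinuousLinearEquiv.isOpen.preimage hΦc
  have hU0 : h₀ ∈ U := ⟨e₀, he₀⟩
  have hinv : ∀ h ∈ U, ContinuousAt (fun h => ContinuousLinearMap.inverse (Φ h)) h := by
    rintro h ⟨e, he⟩
    have h1 : ContinuousAt (ContinuousLinearMap.inverse : (E →L[ℝ] Y × K) → _) (Φ h) := by
      rw [← he]
      exact (contDiffAt_map_inverse (n := 0) e).continuousAt
    exact ContinuousAt.comp (f := Φ) h1 hΦc.continuousAt
  let g : (Fin b → ℝ) × K → E := fun q => ContinuousLinearMap.inverse (Φ q.1) (0, q.2)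
  refine ⟨π, U, g, hUo, hU0, ?_, ?_, ?_, ?_⟩
  · rintro ⟨h, w⟩ ⟨hh, -⟩
    apply ContinuousAt.continuousWithinAt
    have h1 : ContinuousAt (fun q : (Fin b → ℝ) × K => ContinuousLinearMap.inverse (Φ q.1)) (h, w) :=
      ContinuousAt.comp (g := fun h => ContinuousLinearMap.inverse (Φ h))
        (f := fun q : (Fin b → ℝ) × K => q.1) (x := (h, w)) (hinv h hh) continuousAt_fst
    have h2 : ContinuousAt (fun q : (Fin b → ℝ) × K => ((0 : Y), q.2)) (h, w) := by fun_prop
    exact h1.clm_apply h2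
  · intro q
    by_cases hq : q.1 ∈ U
    · obtain ⟨e, he⟩ := hq
      show LL q.1 (ContinuousLinearMap.inverse (Φ q.1) (0, q.2)) = 0
      rw [← he, ContinuousLinearMap.inverse_equiv]
      have h1 : Φ q.1 (e.symm (0, q.2)) = (0, q.2) := by
        rw [← he]
        exact e.apply_symm_apply _
      exact congrArg Prod.fst h1
    · have h1 : ¬ (Φ q.1).IsInvertible := hq
      show LL q.1 (ContinuousLinearMap.inverse (Φ q.1) (0, q.2)) = 0
      rw [ContinuousLinearMap.inverse_of_not_isInvertible h1]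
      simp
  · rintro q ⟨e, he⟩
    show π (ContinuousLinearMap.inverse (Φ q.1) (0, q.2)) = q.2
    rw [← he, ContinuousLinearMap.inverse_equiv]
    have h1 : Φ q.1 (e.symm (0, q.2)) = (0, q.2) := by
      rw [← he]
      exact e.apply_symm_apply _
    exact congrArg Prod.snd h1
  · rintro h ⟨e, he⟩ v hv
    show ContinuousLinearMap.inverse (Φ h) (0, π v) = v
    have h1 : ((0 : Y), π v) = e v := by
      have h2 : (e : E →L[ℝ] Y × K) v = Φ h v := by rw [he]
      refine Eq.trans ?_ h2.symm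
      exact Prod.ext hv.symm rfl
    rw [← he, ContinuousLinearMap.inverse_equiv, h1]
    exact e.symm_apply_apply v

/-- a chart near a point. -/
theorem exists_chart {LL : (Fin b → ℝ) → (E →L[ℝ] Y)} (hc : Continuous LL)
    (hs : ∀ h, Function.Surjective (LL h)) {k : ℕ}
    (hf : ∀ h, FiniteDimensional ℝ (LinearMap.ker (LL h : E →ₗ[ℝ] Y)))
    (hk : ∀ h, Module.finrank ℝ (LinearMap.ker (LL h : E →ₗ[ℝ] Y)) = k)
    (x : {p : (Fin b → ℝ) × E // LL p.1 p.2 = 0}) :
    ∃ e : OpenPartialHomeomorph {p : (Fin b → ℝ) × E // LL p.1 p.2 = 0} (EE (b + k)),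
      x ∈ e.source := by
  have hf' := hf x.1.1
  obtain ⟨π, U, g, hU, hxU, hg, h1, h2, h3⟩ := exists_triv hc x.1.1 (hs x.1.1)
    (LinearMap.ker (LL x.1.1 : E →ₗ[ℝ] Y)) (fun v => Iff.rfl)
  have hfr : Module.finrank ℝ ((Fin b → ℝ) × LinearMap.ker (LL x.1.1 : E →ₗ[ℝ] Y)) =
      Module.finrank ℝ (EE (b + k)) := by
    rw [Module.finrank_prod, Module.finrank_fin_fun, hk, finrank_euclideanSpace_fin]
  let J : ((Fin b → ℝ) × LinearMap.ker (LL x.1.1 : E →ₗ[ℝ] Y)) ≃L[ℝ] EE (b + k) :=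
    ContinuousLinearEquiv.ofFinrankEq hfr
  refine ⟨{ toFun := fun p => J (p.1.1, π p.1.2)
            invFun := fun y => ⟨((J.symm y).1, g (J.symm y)), h1 _⟩
            source := {p | p.1.1 ∈ U}
            target := {y | (J.symm y).1 ∈ U}
            map_source' := ?_
            map_target' := ?_
            left_inv' := ?_
            right_inv' := ?_
            open_source := ?_
            open_target := ?_
            continuousOn_toFun := ?_
            continuousOn_invFun := ?_ }, hxU⟩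
  · intro p hp
    show (J.symm (J (p.1.1, π p.1.2))).1 ∈ U
    rw [J.symm_apply_apply]
    exact hp
  · intro y hy
    exact hy
  · rintro ⟨⟨h, v⟩, hv⟩ hp
    apply Subtype.ext
    show ((J.symm (J (h, π v))).1, g (J.symm (J (h, π v)))) = (h, v)
    rw [J.symm_apply_apply, h3 h hp v hv]
  · intro y hy
    show J ((J.symm y).1, π (g (J.symm y))) = y
    rw [h2 _ hy]
    exact J.apply_symm_apply y
  · apply Continuous.continuousOn
    fun_prop
  · have hcont : ContinuousOn (fun y => ((J.symm y).1, g (J.symm y))) {y | (J.symm y).1 ∈ U} := by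
      refine ContinuousOn.prodMk (Continuous.continuousOn (by fun_prop)) ?_
      exact hg.comp (Continuous.continuousOn J.symm.continuous) fun y hy => ⟨hy, mem_univ _⟩
    exact (Topology.IsInducing.continuousOn_iff (g := Subtype.val)
      (Topology.IsInducing.mk rfl)).2 hcont
  · exact hU.preimage (continuous_fst.comp continuous_subtype_val)
  · exact hU.preimage (continuous_fst.comp J.symm.continuous)

/-- (a) the total space is a topological manifold of dimension `b + k`. -/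
theorem chartedSpace {LL : (Fin b → ℝ) → (E →L[ℝ] Y)} (hc : Continuous LL)
    (hs : ∀ h, Function.Surjective (LL h)) {k : ℕ}
    (hf : ∀ h, FiniteDimensional ℝ (LinearMap.ker (LL h : E →ₗ[ℝ] Y)))
    (hk : ∀ h, Module.finrank ℝ (LinearMap.ker (LL h : E →ₗ[ℝ] Y)) = k) :
    Nonempty (ChartedSpace (EE (b + k)) {p : (Fin b → ℝ) × E // LL p.1 p.2 = 0}) := by
  choose e he using exists_chart hc hs hf hk
  exact ⟨{ atlas := range e
           chartAt := e
           mem_chart_source := he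
           chart_mem_atlas := fun x => ⟨x, rfl⟩ }⟩

/-- (b) bounded closed pieces over compact sets are compact. -/
theorem isCompact_piece {LL : (Fin b → ℝ) → (E →L[ℝ] Y)} (hc : Continuous LL)
    (hs : ∀ h, Function.Surjective (LL h))
    (hf : ∀ h, FiniteDimensional ℝ (LinearMap.ker (LL h : E →ₗ[ℝ] Y)))
    {C : Set (Fin b → ℝ)} (hC : IsCompact C) (R : ℝ) :
    IsCompact {p : (Fin b → ℝ) × E | p.1 ∈ C ∧ LL p.1 p.2 = 0 ∧ ‖p.2‖ ≤ R} := by
  have hcov : ∃ Q : Set ((Fin b → ℝ) × E), IsCompact Q ∧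
      {p : (Fin b → ℝ) × E | p.1 ∈ C ∧ LL p.1 p.2 = 0 ∧ ‖p.2‖ ≤ R} ⊆ Q := by
    refine hC.induction_on (p := fun t => ∃ Q : Set ((Fin b → ℝ) × E), IsCompact Q ∧
      {p : (Fin b → ℝ) × E | p.1 ∈ t ∧ LL p.1 p.2 = 0 ∧ ‖p.2‖ ≤ R} ⊆ Q) ?_ ?_ ?_ ?_
    · exact ⟨∅, isCompact_empty, fun p hp => hp.1.elim⟩
    · rintro s t hst ⟨Q, hQ, h⟩
      exact ⟨Q, hQ, fun p hp => h ⟨hst hp.1, hp.2⟩⟩
    · rintro s t ⟨Q, hQ, h⟩ ⟨Q', hQ', h'⟩
      refine ⟨Q ∪ Q', hQ.union hQ', ?_⟩
      rintro p ⟨hp | hp, hp2⟩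
      · exact Or.inl (h ⟨hp, hp2⟩)
      · exact Or.inr (h' ⟨hp, hp2⟩)
    · intro h₀ _
      have hf' := hf h₀
      obtain ⟨π, U, g, hU, hxU, hg, h1, h2, h3⟩ := exists_triv hc h₀ (hs h₀)
        (LinearMap.ker (LL h₀ : E →ₗ[ℝ] Y)) (fun v => Iff.rfl)
      obtain ⟨ε, hε, hball⟩ := Metric.isOpen_iff.1 hU h₀ hxU
      have hsub : Metric.closedBall h₀ (ε / 2) ⊆ U :=
        (Metric.closedBall_subset_ball (by linarith)).trans hball
      refine ⟨Metric.closedBall h₀ (ε / 2),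
        mem_nhdsWithin_of_mem_nhds (Metric.closedBall_mem_nhds _ (by positivity)), ?_⟩
      let S : Set ((Fin b → ℝ) × LinearMap.ker (LL h₀ : E →ₗ[ℝ] Y)) :=
        Metric.closedBall h₀ (ε / 2) ×ˢ Metric.closedBall 0 (‖π‖ * R)
      have hS : IsCompact S := (isCompact_closedBall _ _).prod (isCompact_closedBall _ _)
      refine ⟨(fun q => (q.1, g q)) '' S, hS.image_of_continuousOn ?_, ?_⟩
      · exact continuousOn_fst.prodMk (hg.mono fun q hq => ⟨hsub hq.1, mem_univ _⟩)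
      · rintro ⟨h, v⟩ ⟨hh, hv, hR⟩
        refine ⟨(h, π v), ⟨hh, ?_⟩, ?_⟩
        · rw [mem_closedBall_zero_iff]
          exact (π.le_opNorm v).trans (mul_le_mul_of_nonneg_left hR (norm_nonneg _))
        · show (h, g (h, π v)) = (h, v)
          rw [h3 h (hsub hh) v hv]
  obtain ⟨Q, hQ, hsub⟩ := hcov
  refine hQ.of_isClosed_subset ?_ hsub
  refine (hC.isClosed.preimage continuous_fst).inter (IsClosed.inter ?_ ?_)
  · refine isClosed_eq ?_ continuous_const
    exact (hc.comp continuous_fst).clm_apply continuous_snd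
  · exact isClosed_le continuous_snd.norm continuous_const

end Crest.Agent.R235.Tot_435
end

-- ▼ part R235/FB4_365

/-!
Row 235 (S0364), package FD-A (helper365), block B4, part 4: the structure `Good` (everything which
is used about the finite dimensional data), the total space and its maps.
-/

set_option autoImplicit false

open Topology Set Module

namespace Crest.Agent.R235.FB4_365

open FDADef_365 Bet_785 FdB1_435 FB1_365 FB2_365 FB3_365

variable {b : ℕ} {A P Ya Yp : Type} [NormedAddCommGroup A] [NormedSpace ℝ A]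
    [CompleteSpace A] [NormedAddCommGroup P] [NormedSpace ℝ P] [CompleteSpace P]
    [NormedAddCommGroup Ya] [InnerProductSpace ℝ Ya] [CompleteSpace Ya]
    [NormedAddCommGroup Yp] [InnerProductSpace ℝ Yp] [CompleteSpace Yp]

/-- the canonical solution -/
def p0 (S : SWData b A P Ya Yp) : (Fin b → ℝ) × A × P := (S.h₀, S.a₀, S.ψ₀)

/-- the properties of the finite dimensional data -/
structure Good (S : SWData b A P Ya Yp) {N : ℕ} (y : Fin N → Yp) (Fa : Submodule ℝ Ya)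
    [FiniteDimensional ℝ Fa] (R' C δ : ℝ) (Ca : (Fin b → ℝ) × A × P →L[ℝ] Ya)
    (Cp : (Fin b → ℝ) × A × P →L[ℝ] Yp) (Dρ : (Fin b → ℝ) × A × P →L[ℝ] ℝ) : Prop where
  hN : 0 < N
  compl : ∀ h : Fin b → ℝ, ‖h - S.h₀‖ ≤ 1 →
    Submodule.span ℝ (range y) ⊔ LinearMap.range (Lh S (th b) h : P →ₗ[ℝ] Yp) = ⊤
  Fa_ge : (LinearMap.range (S.La : A →ₗ[ℝ] Ya))ᗮ ≤ Fa
  C1 : 1 ≤ C
  CU : ∀ m : Fin b → ℤ, ‖lat m‖ ≤ 3 + ‖S.h₀‖ → ∀ ψ, ‖S.U m ψ‖ ≤ C * ‖ψ‖
  δ0 : 0 < δ
  δ8 : δ ≤ 1 / 8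
  δψ : 2 * δ < ‖S.ψ₀‖
  Ra : ‖S.a₀‖ + δ < R'
  Rψ : ‖S.ψ₀‖ + δ < R'
  near : ∀ (h : Fin b → ℝ) (a : A) (ψ : P) (z : J N b → ℝ), (∀ i, h i ∈ Icc (0 : ℝ) 1) →
    ‖a‖ ≤ C * R' → ‖ψ‖ ≤ C * R' → Lh S (th b) h ψ = ∑ j, z j • sec S y j h →
    (∀ j, z j + Zc S y j (h, a, ψ) = 0) →
    S.La a + Fa.starProjection (S.Ka (h, a, ψ)) = 0 → S.ρ (h, a, ψ) ≤ 0 →
    ‖a‖ < R' ∧ ‖ψ‖ < R' ∧ ψ ≠ 0 ∧ (S.ρ (h, a, ψ) = 0 → ∃ m : Fin b → ℤ,
      ‖h + lat m - S.h₀‖ < δ ∧ ‖a - S.a₀‖ < δ ∧
      (‖S.U m ψ - S.ψ₀‖ < δ ∨ ‖-S.U m ψ - S.ψ₀‖ < δ))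
  loc : ∀ p : (Fin b → ℝ) × A × P, ‖p - p0 S‖ < δ → ∀ s ∈ Icc (0 : ℝ) 1,
    S.La p.2.1 + Fa.starProjection ((1 - s) • S.Ka p + s • (S.Ka (p0 S) + Ca (p - p0 S))) = 0 →
    S.Lp p.2.2 + Pl y ((1 - s) • S.Kp p + s • (S.Kp (p0 S) + Cp (p - p0 S))) = 0 →
    (1 - s) * S.ρ p + s * Dρ (p - p0 S) = 0 → ‖p - p0 S‖ ≤ δ / 2
  lin : ∀ v : (Fin b → ℝ) × A × P, S.La v.2.1 + Fa.starProjection (Ca v) = 0 →
    S.Lp v.2.2 + Pl y (Cp v) = 0 → Dρ v = 0 → v = 0
  aff : ∀ p : (Fin b → ℝ) × A × P,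
    S.La p.2.1 + Fa.starProjection (S.Ka (p0 S) + Ca (p - p0 S)) = 0 →
    S.Lp p.2.2 + Pl y (S.Kp (p0 S) + Cp (p - p0 S)) = 0 →
    Dρ (p - p0 S) = 0 → ‖p - p0 S‖ < δ

variable (S : SWData b A P Ya Yp) {N : ℕ} (y : Fin N → Yp) (Fa : Submodule ℝ Ya)

/-- the preimage of `Fa` -/
abbrev VA : Submodule ℝ A := Fa.comap (S.La : A →ₗ[ℝ] Ya)

theorem isClosed_VA [FiniteDimensional ℝ Fa] : IsClosed (VA S Fa : Set A) :=
  Fa.closed_of_finiteDimensional.preimage S.La.continuous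

/-- the fibre -/
abbrev EF (N : ℕ) : Type := VA S Fa × P × (J N b → ℝ)

/-- the total space -/
abbrev Tot : Type := {p : (Fin b → ℝ) × EF S Fa N // LL S y (VA S Fa) p.1 p.2 = 0}

variable {S y Fa}

/-- the projection to the data of the equations -/
def bas (x : Tot S y Fa) : (Fin b → ℝ) × A × P := (x.1.1, (x.1.2.1 : A), x.1.2.2.1)

/-- the auxiliary variables -/
def zz (x : Tot S y Fa) : J N b → ℝ := x.1.2.2.2

theorem bas_cont : Continuous (bas : Tot S y Fa → _) := by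
  unfold bas
  fun_prop

theorem zz_cont : Continuous (zz : Tot S y Fa → _) := by
  unfold zz
  fun_prop

theorem constr (x : Tot S y Fa) :
    Lh S (th b) (bas x).1 (bas x).2.2 = ∑ j, zz x j • sec S y j (bas x).1 := by
  have h1 := x.2
  rw [LL_apply, sub_eq_zero] at h1
  exact h1

/-- the action of the lattice -/
def actT (m : Fin b → ℤ) (x : Tot S y Fa) : Tot S y Fa :=
  ⟨(x.1.1 + lat m, (x.1.2.1, S.U m x.1.2.2.1, x.1.2.2.2)), by
    have h1 := LL_lat S y (VA S Fa) x.1.1 m x.1.2.1 x.1.2.2.1 x.1.2.2.2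
    have h2 : LL S y (VA S Fa) x.1.1 (x.1.2.1, x.1.2.2.1, x.1.2.2.2) = 0 := x.2
    rw [h2, map_zero] at h1
    exact h1⟩

/-- the involution -/
def iT (x : Tot S y Fa) : Tot S y Fa :=
  ⟨(x.1.1, (x.1.2.1, -x.1.2.2.1, -x.1.2.2.2)), by
    have h1 := LL_neg S y (VA S Fa) x.1.1 x.1.2.1 x.1.2.2.1 x.1.2.2.2
    have h2 : LL S y (VA S Fa) x.1.1 (x.1.2.1, x.1.2.2.1, x.1.2.2.2) = 0 := x.2
    rw [h2, neg_zero] at h1
    exact h1⟩

theorem actT_cont (m : Fin b → ℤ) : Continuous (actT m : Tot S y Fa → Tot S y Fa) := by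
  unfold actT
  refine Continuous.subtype_mk ?_ _
  have h1 := (S.U m).continuous
  fun_prop

theorem iT_cont : Continuous (iT : Tot S y Fa → Tot S y Fa) := by
  unfold iT
  refine Continuous.subtype_mk ?_ _
  fun_prop

theorem bas_act (m : Fin b → ℤ) (x : Tot S y Fa) :
    bas (actT m x) = ((bas x).1 + lat m, (bas x).2.1, S.U m (bas x).2.2) := rfl

theorem zz_act (m : Fin b → ℤ) (x : Tot S y Fa) : zz (actT m x) = zz x := rfl

theorem bas_iT (x : Tot S y Fa) : bas (iT x) = ((bas x).1, (bas x).2.1, -(bas x).2.2) := rfl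

theorem zz_iT (x : Tot S y Fa) : zz (iT x) = - zz x := rfl

theorem ext' {x x' : Tot S y Fa} (h1 : bas x = bas x') (h2 : zz x = zz x') : x = x' := by
  apply Subtype.ext
  refine Prod.ext ?_ (Prod.ext (Subtype.ext ?_) (Prod.ext ?_ h2))
  · exact congrArg (fun p : (Fin b → ℝ) × A × P => p.1) h1
  · exact congrArg (fun p : (Fin b → ℝ) × A × P => p.2.1) h1
  · exact congrArg (fun p : (Fin b → ℝ) × A × P => p.2.2) h1

theorem actT_zero (x : Tot S y Fa) : actT 0 x = x := by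
  refine ext' ?_ rfl
  rw [bas_act, Bet_785.lat_zero, add_zero, U_zero]

theorem actT_add (m m' : Fin b → ℤ) (x : Tot S y Fa) : actT (m + m') x = actT m (actT m' x) := by
  refine ext' ?_ rfl
  rw [bas_act, bas_act, bas_act, Bet_785.lat_add]
  refine Prod.ext ?_ (Prod.ext rfl ?_)
  · show (bas x).1 + (lat m + lat m') = (bas x).1 + lat m' + lat m
    abel
  · exact S.U_add m m' _

theorem iT_iT (x : Tot S y Fa) : iT (iT x) = x := by
  refine ext' ?_ ?_
  · rw [bas_iT, bas_iT, neg_neg]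
  · rw [zz_iT, zz_iT, neg_neg]

theorem iT_act (m : Fin b → ℤ) (x : Tot S y Fa) : iT (actT m x) = actT m (iT x) := by
  refine ext' ?_ rfl
  rw [bas_iT, bas_act, bas_act, bas_iT, map_neg]

variable [FiniteDimensional ℝ Fa]

/-- the target -/
abbrev TT (Fa : Submodule ℝ Ya) (N b : ℕ) : Type := Fa × (J N b → ℝ) × ℝ

/-- the finite dimensional map -/
noncomputable def FT (x : Tot S y Fa) : TT Fa N b :=
  ((⟨S.La (x.1.2.1 : A), x.1.2.1.2⟩ : Fa) + Fa.orthogonalProjectionOnto (S.Ka (bas x)),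
    fun j => zz x j + Zc S y j (bas x), S.ρ (bas x))

theorem FT_cont : Continuous (FT : Tot S y Fa → TT Fa N b) := by
  unfold FT
  have h1 := bas_cont (S := S) (y := y) (Fa := Fa)
  have h2 := zz_cont (S := S) (y := y) (Fa := Fa)
  refine Continuous.prodMk ?_ (Continuous.prodMk ?_ (S.contρ.comp h1))
  · refine Continuous.add ?_ (Fa.orthogonalProjectionOnto.continuous.comp (S.contA.comp h1))
    exact Continuous.subtype_mk (S.La.continuous.comp (by fun_prop)) _
  · exact continuous_pi fun j => ((continuous_apply j).comp h2).add ((Zc_cont S y j).comp h1)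

theorem FT_act (m : Fin b → ℤ) (x : Tot S y Fa) : FT (actT m x) = FT x := by
  unfold FT
  have h1 := S.latA m (bas x).1 (bas x).2.1 (bas x).2.2
  have h2 := S.latρ m (bas x).1 (bas x).2.1 (bas x).2.2
  rw [bas_act, h1, h2, zz_act]
  refine Prod.ext rfl (Prod.ext ?_ rfl)
  funext j
  show zz x j + Zc S y j _ = zz x j + Zc S y j _
  rw [Zc_lat]

/-- the involution of the target -/
def tau (Fa : Submodule ℝ Ya) (N b : ℕ) : TT Fa N b ≃ₗ[ℝ] TT Fa N b :=
  (LinearEquiv.refl ℝ Fa).prodCongr ((LinearEquiv.neg ℝ).prodCongr (LinearEquiv.refl ℝ ℝ))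

omit [CompleteSpace Ya] [FiniteDimensional ℝ Fa] in
theorem tau_apply (v : TT Fa N b) : tau Fa N b v = (v.1, -v.2.1, v.2.2) := rfl

theorem FT_iT (x : Tot S y Fa) : FT (iT x) = tau Fa N b (FT x) := by
  rw [tau_apply]
  unfold FT
  have h1 := S.evenA (bas x).1 (bas x).2.1 (bas x).2.2
  have h2 := S.evenρ (bas x).1 (bas x).2.1 (bas x).2.2
  rw [bas_iT, h1, h2, zz_iT]
  refine Prod.ext rfl (Prod.ext ?_ rfl)
  funext j
  show (-zz x) j + Zc S y j _ = -(zz x j + Zc S y j _)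
  rw [Zc_odd, Pi.neg_apply]
  ring

/-- the first component in the ambient space -/
theorem FT_fst (x : Tot S y Fa) (h : (FT x).1 = 0) :
    S.La (bas x).2.1 + Fa.starProjection (S.Ka (bas x)) = 0 := by
  have h1 := congrArg (Subtype.val) h
  exact h1

end Crest.Agent.R235.FB4_365
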