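import Mathlib.Analysis.InnerProductSpace.Projection.FiniteDimensional
import Mathlib.Analysis.Normed.Operator.Banach
import Mathlib.Analysis.InnerProductSpace.Adjoint
import Mathlib.Topology.Sequences

/-!
Row 235 (S0364), package SW, task 170 (general Galerkin reduction of a compact perturbation of a
Fredholm map, #1539 (5)); pure Hilbert space, no symmetry assumed, arbitrary compact parameter
space `T`, arbitrary closed "boundary" set `S`.

* `isCompact_pre`  : `{x | ‖x‖ ≤ R ∧ L x ∈ Q}` is compact (`L` with finite dimensional kernel and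
                     closed range, `Q` compact);
* `exists_eps`     : lower bound of a proper map on a closed set without zeros;
* `exists_findim`  : finite dimensional approximation of a compact set;
* `finrank_comap`  : the dimension count;
* `galerkin`       : the reduction (real part `X1 → Y1`, complex part `X2 → Y2`).
-/

set_option autoImplicit false

open Set Metric Module Filter Topology

open scoped NNReal

namespace Crest.Agent.R235.Gal_936

section Key

variable {𝕜 X Y : Type*} [RCLike 𝕜] [NormedAddCommGroup X] [InnerProductSpace 𝕜 X]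
  [CompleteSpace X] [NormedAddCommGroup Y] [InnerProductSpace 𝕜 Y] [CompleteSpace Y]

/-- `L` is bounded below on the orthogonal complement of its kernel. -/
theorem exists_anti (L : X →L[𝕜] Y) [FiniteDimensional 𝕜 (LinearMap.ker (L : X →ₗ[𝕜] Y))]
    (hc : IsClosed (range L)) :
    ∃ c : ℝ≥0, ∀ x ∈ (LinearMap.ker (L : X →ₗ[𝕜] Y))ᗮ, ‖x‖ ≤ c * ‖L x‖ := by
  set N : Submodule 𝕜 X := (LinearMap.ker (L : X →ₗ[𝕜] Y))ᗮ with hN
  have : CompleteSpace N := (Submodule.isClosed_orthogonal _).completeSpace_coe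
  let L' : N →L[𝕜] Y := L.comp N.subtypeL
  have hinj : Function.Injective L' := by
    intro x y hxy
    have h1 : L (x - y : X) = 0 := by
      have : L x = L y := hxy
      rw [map_sub, this, sub_self]
    have h2 : (x - y : X) ∈ LinearMap.ker (L : X →ₗ[𝕜] Y) := h1
    have h3 : (x - y : X) ∈ N := N.sub_mem x.2 y.2
    have h4 : (x - y : X) = 0 := by
      have := (Submodule.mem_orthogonal _ _).1 h3 _ h2
      exact inner_self_eq_zero.1 this
    exact Subtype.ext (sub_eq_zero.1 h4)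
  have hran : range L' = range L := by
    apply le_antisymm
    · rintro _ ⟨x, rfl⟩
      exact ⟨x, rfl⟩
    · rintro _ ⟨x, rfl⟩
      let k := (LinearMap.ker (L : X →ₗ[𝕜] Y)).starProjection x
      have hk : k ∈ LinearMap.ker (L : X →ₗ[𝕜] Y) :=
        Submodule.starProjection_apply_mem _ _
      have h1 : x - k ∈ N := Submodule.sub_starProjection_mem_orthogonal x
      refine ⟨⟨x - k, h1⟩, ?_⟩
      change L (x - k) = L x
      have h2 : L k = 0 := hk
      rw [map_sub, h2, sub_zero]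
  obtain ⟨c, hcL⟩ := L'.antilipschitz_of_injective_of_isClosed_range hinj (hran ▸ hc)
  refine ⟨c, fun x hx => ?_⟩
  have := hcL.le_mul_dist ⟨x, hx⟩ 0
  simpa [dist_eq_norm, L'] using this

/-- properness on bounded sets -/
theorem isCompact_pre (L : X →L[𝕜] Y) [FiniteDimensional 𝕜 (LinearMap.ker (L : X →ₗ[𝕜] Y))]
    (hc : IsClosed (range L)) {R : ℝ} {Q : Set Y} (hQ : IsCompact Q) :
    IsCompact {x : X | ‖x‖ ≤ R ∧ L x ∈ Q} := by
  obtain ⟨c, hcL⟩ := exists_anti L hc
  rw [isCompact_iff_isSeqCompact]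
  intro x hx
  obtain ⟨q, hq, φ, hφ, hlim⟩ := hQ.isSeqCompact (fun n => (hx n).2)
  set Kr : Submodule 𝕜 X := LinearMap.ker (L : X →ₗ[𝕜] Y) with hKr
  have : ProperSpace Kr := FiniteDimensional.proper_rclike 𝕜 Kr
  let k : ℕ → Kr := fun n => Kr.orthogonalProjectionOnto (x n)
  have hk : ∀ n, k n ∈ closedBall (0 : Kr) R := by
    intro n
    rw [mem_closedBall_zero_iff]
    exact (Submodule.norm_orthogonalProjectionOnto_apply_le _ _).trans (hx n).1
  obtain ⟨k0, -, ψ, hψ, hk0⟩ := (isCompact_closedBall (0 : Kr) R).isSeqCompact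
    (fun n => hk (φ n))
  let z : ℕ → X := fun n => x n - k n
  have hz : ∀ n, z n ∈ Krᗮ := fun n => Submodule.sub_starProjection_mem_orthogonal (x n)
  have hLz : ∀ n, L (z n) = L (x n) := by
    intro n
    have h2 : L (k n : X) = 0 := (k n).2
    change L (x n - k n) = _
    rw [map_sub, h2, sub_zero]
  have hlim' : Tendsto (fun n => L (x (φ (ψ n)))) atTop (𝓝 q) := hlim.comp hψ.tendsto_atTop
  have hcau : CauchySeq fun n => z (φ (ψ n)) := by
    have h1 := hlim'.cauchySeq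
    rw [Metric.cauchySeq_iff] at h1 ⊢
    intro ε hε
    obtain ⟨n0, hn0⟩ := h1 (ε / (c + 1)) (by positivity)
    refine ⟨n0, fun m hm n hn => ?_⟩
    have h2 := hn0 m hm n hn
    have h3 := hcL _ (Krᗮ.sub_mem (hz (φ (ψ m))) (hz (φ (ψ n))))
    rw [map_sub, hLz, hLz, ← dist_eq_norm, ← dist_eq_norm] at h3
    have h4 : (0 : ℝ) < (c : ℝ) + 1 := by positivity
    rw [lt_div_iff₀ h4] at h2
    refine h3.trans_lt (lt_of_le_of_lt ?_ h2)
    have := dist_nonneg (x := L (x (φ (ψ m)))) (y := L (x (φ (ψ n))))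
    nlinarith
  obtain ⟨z0, hz0⟩ := cauchySeq_tendsto_of_complete hcau
  have hx0 : Tendsto (fun n => x (φ (ψ n))) atTop (𝓝 ((k0 : X) + z0)) := by
    have h1 : Tendsto (fun n => ((k (φ (ψ n)) : Kr) : X)) atTop (𝓝 (k0 : X)) :=
      (continuous_subtype_val.tendsto k0).comp hk0
    have h2 := h1.add hz0
    refine h2.congr fun n => ?_
    change (k (φ (ψ n)) : X) + (x (φ (ψ n)) - k (φ (ψ n))) = _
    abel
  refine ⟨(k0 : X) + z0, ⟨?_, ?_⟩, φ ∘ ψ, hφ.comp hψ, hx0⟩
  · exact le_of_tendsto' hx0.norm fun n => (hx _).1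
  · have h1 : Tendsto (fun n => L (x (φ (ψ n)))) atTop (𝓝 (L ((k0 : X) + z0))) :=
      (L.continuous.tendsto _).comp hx0
    rw [tendsto_nhds_unique h1 hlim']
    exact hq

omit [CompleteSpace Y] in
/-- finite dimensional approximation of a compact set -/
theorem exists_findim {C : Set Y} (hC : IsCompact C) (W0 : Submodule 𝕜 Y)
    [FiniteDimensional 𝕜 W0] {ε : ℝ} (hε : 0 < ε) :
    ∃ (W : Submodule 𝕜 Y) (_ : FiniteDimensional 𝕜 W), W0 ≤ W ∧
      ∀ c ∈ C, ‖c - W.starProjection c‖ < ε := by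
  obtain ⟨t, -, ht, htC⟩ := (Metric.totallyBounded_iff.1 hC.totallyBounded ε hε)
    |> fun ⟨t, h1, h2⟩ => (⟨t, trivial, h1, h2⟩ : ∃ t : Set Y, True ∧ t.Finite ∧
      C ⊆ ⋃ y ∈ t, ball y ε)
  have : FiniteDimensional 𝕜 (Submodule.span 𝕜 t) := FiniteDimensional.span_of_finite 𝕜 ht
  have hfd : FiniteDimensional 𝕜 (W0 ⊔ Submodule.span 𝕜 t : Submodule 𝕜 Y) := inferInstance
  refine ⟨W0 ⊔ Submodule.span 𝕜 t, hfd, le_sup_left, fun c hc => ?_⟩
  obtain ⟨y, hy, hcy⟩ := mem_iUnion₂.1 (htC hc)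
  have hyW : y ∈ (W0 ⊔ Submodule.span 𝕜 t : Submodule 𝕜 Y) :=
    (le_sup_right : Submodule.span 𝕜 t ≤ _) (Submodule.subset_span hy)
  rw [Submodule.starProjection_minimal]
  refine lt_of_le_of_lt (ciInf_le ⟨0, ?_⟩ ⟨y, hyW⟩) ?_
  · rintro _ ⟨x, rfl⟩
    exact norm_nonneg _
  · rw [← dist_eq_norm]
    exact hcy


end Key


section Main

variable {T X1 X2 Y1 Y2 : Type*} [TopologicalSpace T] [CompactSpace T]
  [NormedAddCommGroup X1] [InnerProductSpace ℝ X1] [CompleteSpace X1]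
  [NormedAddCommGroup Y1] [InnerProductSpace ℝ Y1] [CompleteSpace Y1]
  [NormedAddCommGroup X2] [InnerProductSpace ℂ X2] [CompleteSpace X2]
  [NormedAddCommGroup Y2] [InnerProductSpace ℂ Y2] [CompleteSpace Y2]


/-- the standard boundary: `t ∈ T0` or `‖x1‖ = R1` or `‖x2‖ = R2`. -/
def Bd (T0 : Set T) (R1 R2 : ℝ) : Set (T × X1 × X2) :=
  {p | ‖p.2.1‖ ≤ R1 ∧ ‖p.2.2‖ ≤ R2 ∧ (p.1 ∈ T0 ∨ ‖p.2.1‖ = R1 ∨ ‖p.2.2‖ = R2)}



end Main

end Crest.Agent.R235.Gal_936
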