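import Crest.Agent.R235.FamP_151
import Crest.Agent.R235.FamDefs_307
import Crest.Agent.R235.GalA_755
import Crest.Agent.R235.Gal_936
import Crest.Agent.R235.Hopf_143

-- ▼ part R235/FamG_151
section

/-!
Row 235 (S0364), helper151. Block FAM: the nonlinear part of the reduction over the torus.
-/

set_option autoImplicit false
set_option linter.unusedSectionVars false

open Set Filter Topology Module
open scoped ContDiff

namespace Crest.Agent.R235.FamR_151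

namespace PFam

variable {b : ℕ} {X Y : Type*} [NormedAddCommGroup X] [InnerProductSpace ℂ X]
  [CompleteSpace X] [NormedAddCommGroup Y] [InnerProductSpace ℂ Y] [CompleteSpace Y]
  (Φ : PFam b X Y)

theorem pb_D (h : Fin b → ℝ) : GalA_755.PB (fun x => Φ.D h x) := by
  have hk := Φ.ker_fin h
  intro x R y hx hy
  have hQ : IsCompact (insert y (Set.range fun n => Φ.D h (x n))) := hy.isCompact_insert_range
  have hc := Gal_936.isCompact_pre (Φ.D h) (Φ.range_closed h) (R := R) hQ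
  obtain ⟨x0, -, φ, hφ, hx0⟩ := hc.tendsto_subseq (x := x)
    (fun n => ⟨hx n, Or.inr ⟨n, rfl⟩⟩)
  exact ⟨x0, φ, hφ, hx0⟩

theorem D_cont : Continuous Φ.D := Φ.smD.continuous

theorem app_cont {P E F : Type*} [TopologicalSpace P] [NormedAddCommGroup E] [NormedSpace ℂ E]
    [NormedAddCommGroup F] [NormedSpace ℂ F] {T : P → E →L[ℂ] F} {v : P → E} (hT : Continuous T)
    (hv : Continuous v) : Continuous (fun p => T p (v p)) :=
  isBoundedBilinearMap_apply.continuous.comp (hT.prodMk hv)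

theorem D_app_cont : Continuous (fun q : (Fin b → ℝ) × X => Φ.D q.1 q.2) :=
  app_cont (Φ.D_cont.comp continuous_fst) continuous_snd

theorem Th_cont : Continuous Φ.Th := Φ.smTh.continuous


/-- **properness.** -/
theorem proper {T : Type*} [NormedAddCommGroup T] [NormedSpace ℝ T] [FiniteDimensional ℝ T]
    (K : T → X → Y) (hKc : ContinuousOn (fun q : T × X => K q.1 q.2) {q | ‖q.1‖ ≤ 1})
    (hKp : ∀ R : ℝ, ∃ C, IsCompact C ∧ ∀ t x, ‖t‖ ≤ 1 → ‖x‖ ≤ R → K t x ∈ C)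
    {S : Set (T × (Fin b → ℝ) × X)} (hS : IsClosed S) {Q : Set (Fin b → ℝ)} (hQ : IsCompact Q)
    {R : ℝ} (hSR : ∀ q ∈ S, ‖q.1‖ ≤ 1 ∧ q.2.1 ∈ Q ∧ ‖q.2.2‖ ≤ R)
    (hne : ∀ q ∈ S, Φ.D q.2.1 q.2.2 + K q.1 q.2.2 ≠ 0) :
    ∃ ε > 0, ∀ q ∈ S, ε ≤ ‖Φ.D q.2.1 q.2.2 + K q.1 q.2.2‖ := by
  have : ProperSpace T := FiniteDimensional.proper ℝ T
  by_contra hcon
  push Not at hcon
  have h1 : ∀ n : ℕ, ∃ q ∈ S, ‖Φ.D q.2.1 q.2.2 + K q.1 q.2.2‖ < 1 / ((n : ℝ) + 1) := fun n =>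
    hcon _ (by positivity)
  choose q hqS hq using h1
  obtain ⟨C, hC, hCK⟩ := hKp R
  -- compactness in `t`, `h` and the value of `K`
  have hcpt : IsCompact ((Metric.closedBall (0 : T) 1 ×ˢ Q) ×ˢ C) :=
    ((isCompact_closedBall _ _).prod hQ).prod hC
  obtain ⟨⟨⟨t, h⟩, y⟩, -, φ, hφ, hlim⟩ := hcpt.tendsto_subseq
    (x := fun n => (((q n).1, (q n).2.1), K (q n).1 (q n).2.2)) (fun n => by
      obtain ⟨a1, a2, a3⟩ := hSR _ (hqS n)
      exact ⟨⟨mem_closedBall_zero_iff.2 a1, a2⟩, hCK _ _ a1 a3⟩)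
  have ht : Tendsto (fun n => (q (φ n)).1) atTop (𝓝 t) :=
    ((continuous_fst.comp continuous_fst).tendsto _).comp hlim
  have hh : Tendsto (fun n => (q (φ n)).2.1) atTop (𝓝 h) :=
    ((continuous_snd.comp continuous_fst).tendsto _).comp hlim
  have hy : Tendsto (fun n => K (q (φ n)).1 (q (φ n)).2.2) atTop (𝓝 y) :=
    (continuous_snd.tendsto _).comp hlim
  have h0 : Tendsto (fun n => Φ.D (q n).2.1 (q n).2.2 + K (q n).1 (q n).2.2) atTop (𝓝 0) := by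
    rw [tendsto_zero_iff_norm_tendsto_zero]
    exact squeeze_zero (fun n => norm_nonneg _) (fun n => (hq n).le)
      tendsto_one_div_add_atTop_nhds_zero_nat
  have h0' := h0.comp hφ.tendsto_atTop
  have hD : Tendsto (fun n => Φ.D (q (φ n)).2.1 (q (φ n)).2.2) atTop (𝓝 (-y)) := by
    have := h0'.sub hy
    simpa using this
  have hDD : Tendsto (fun n => (Φ.D (q (φ n)).2.1 - Φ.D h) (q (φ n)).2.2) atTop (𝓝 0) := by
    rw [tendsto_zero_iff_norm_tendsto_zero]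
    have h2 : Tendsto (fun n => ‖Φ.D (q (φ n)).2.1 - Φ.D h‖ * R) atTop (𝓝 0) := by
      have h3 : Tendsto (fun n => Φ.D (q (φ n)).2.1 - Φ.D h) atTop (𝓝 0) := by
        have := ((Φ.D_cont.tendsto h).comp hh).sub_const (Φ.D h)
        simpa using this
      have := h3.norm.mul_const R
      simpa using this
    refine squeeze_zero (fun n => norm_nonneg _) (fun n => ?_) h2
    exact (ContinuousLinearMap.le_opNorm _ _).trans
      (mul_le_mul_of_nonneg_left (hSR _ (hqS _)).2.2 (norm_nonneg _))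
  have hDh : Tendsto (fun n => Φ.D h (q (φ n)).2.2) atTop (𝓝 (-y)) := by
    have := hD.sub hDD
    simpa using this
  obtain ⟨x, χ, hχ, hx⟩ := Φ.pb_D h (fun n => (q (φ n)).2.2) R (-y)
    (fun n => (hSR _ (hqS _)).2.2) hDh
  have hq2 : Tendsto (fun n => q (φ (χ n))) atTop (𝓝 (t, h, x)) :=
    (ht.comp hχ.tendsto_atTop).prodMk_nhds ((hh.comp hχ.tendsto_atTop).prodMk_nhds hx)
  have hmem : (t, h, x) ∈ S := hS.mem_of_tendsto hq2 (Eventually.of_forall fun n => hqS _)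
  have hFc : ContinuousOn (fun q : T × (Fin b → ℝ) × X => Φ.D q.2.1 q.2.2 + K q.1 q.2.2) S := by
    refine (Φ.D_app_cont.comp continuous_snd).continuousOn.add ?_
    exact hKc.comp (f := fun q : T × (Fin b → ℝ) × X => (q.1, q.2.2))
      (continuous_fst.prodMk (continuous_snd.comp continuous_snd)).continuousOn
      (fun q hq => (hSR q hq).1)
  have hlim2 : Tendsto (fun n => Φ.D (q (φ (χ n))).2.1 (q (φ (χ n))).2.2 +
      K (q (φ (χ n))).1 (q (φ (χ n))).2.2) atTop (𝓝 (Φ.D h x + K t x)) := by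
    have := hFc (t, h, x) hmem
    exact this.tendsto.comp (tendsto_nhdsWithin_iff.2 ⟨hq2, Eventually.of_forall fun n => hqS _⟩)
  exact hne _ hmem (tendsto_nhds_unique hlim2 (h0'.comp hχ.tendsto_atTop))

/-- an invariant norm on `X`, depending on `h`. -/
theorem exists_N {Q : Set (Fin b → ℝ)} (hQ : IsCompact Q) :
    ∃ N : (Fin b → ℝ) → X → ℝ, Continuous (fun q : (Fin b → ℝ) × X => N q.1 q.2) ∧
      (∀ h x, 0 ≤ N h x) ∧ (∀ h (a : ℂ) x, N h (a • x) = ‖a‖ * N h x) ∧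
      (∀ h k x, N (h + zv k) (Φ.U k x) = N h x) ∧
      (∃ c > 0, ∀ h ∈ Q, ∀ x, c * ‖x‖ ≤ N h x) ∧ (∃ C, 0 ≤ C ∧ ∀ h ∈ Q, ∀ x, N h x ≤ C * ‖x‖) := by
  have hd0 : (0 : ℝ) < 1 / 4 := by norm_num
  have hd1 : (1 / 4 : ℝ) < 1 / 2 := by norm_num
  have hnh : ∀ h0 : Fin b → ℝ, {h : Fin b → ℝ | 1 / 2 < cb h0 (1 / 4) h ∧
      ∀ j, |h j - h0 j| < 1 / 2} ∈ 𝓝 h0 := by
    intro h0
    have h1 : ∀ᶠ h in 𝓝 h0, 1 / 2 < cb h0 (1 / 4) h := by
      have hc := (cb_smooth h0 (1 / 4)).continuous.continuousAt (x := h0)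
      refine hc.eventually_const_lt ?_
      rw [cb_one hd0 hd1]; norm_num
    have h2 : ∀ᶠ h in 𝓝 h0, ∀ j, |h j - h0 j| < 1 / 2 := by
      have : Metric.ball h0 (1 / 2) ∈ 𝓝 h0 := Metric.ball_mem_nhds _ (by norm_num)
      filter_upwards [this] with h hh j
      rw [Metric.mem_ball, dist_pi_lt_iff (by norm_num)] at hh
      have := hh j
      rwa [Real.dist_eq] at this
    filter_upwards [h1, h2] with h a1 a2
    exact ⟨a1, a2⟩
  obtain ⟨t, -, ht⟩ := hQ.elim_nhds_subcover _ (fun x _ => hnh x)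
  refine ⟨fun h x => ∑ i ∈ t, cb i (1 / 4) h * ‖Φ.U (kb i h) x‖, ?_, ?_, ?_, ?_, ?_, ?_⟩
  · refine continuous_finsetSum _ fun i _ => ?_
    exact cont_bump hd0 hd1 i (fun q : (Fin b → ℝ) × X => q.1) continuous_fst
      (fun k q => ‖Φ.U k q.2‖) (fun k => ((Φ.U k).continuous.comp continuous_snd).norm)
  · intro h x
    exact Finset.sum_nonneg fun i _ => mul_nonneg (cb_nonneg _ _ _) (norm_nonneg _)
  · intro h a x
    simp only [map_smul, norm_smul, Finset.mul_sum]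
    exact Finset.sum_congr rfl fun i _ => by ring
  · intro h k x
    refine Finset.sum_congr rfl fun i _ => ?_
    rw [cb_shift, kb_shift]
    congr 2
    have : Φ.U (kb i h) = (Φ.U (kb i h - k)).comp (Φ.U k) := by rw [← Φ.U_add, sub_add_cancel]
    rw [this]; rfl
  · refine ⟨1 / 2, by norm_num, fun h hh x => ?_⟩
    obtain ⟨i, hi, hx⟩ := mem_iUnion₂.1 (ht hh)
    have h1 : cb i (1 / 4) h * ‖Φ.U (kb i h) x‖ ≤ ∑ i ∈ t, cb i (1 / 4) h * ‖Φ.U (kb i h) x‖ :=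
      Finset.single_le_sum (f := fun i => cb i (1 / 4) h * ‖Φ.U (kb i h) x‖)
        (fun i _ => mul_nonneg (cb_nonneg _ _ _) (norm_nonneg _)) hi
    refine le_trans ?_ h1
    rw [kb_zero hx.2, Φ.U_zero]
    exact mul_le_mul_of_nonneg_right hx.1.le (norm_nonneg _)
  · have hc : Continuous (fun h => ∑ i ∈ t, cb i (1 / 4) h * ‖Φ.U (kb i h)‖) := by
      refine continuous_finsetSum _ fun i _ => ?_
      exact cont_bump hd0 hd1 i (fun q : (Fin b → ℝ) => q) continuous_id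
        (fun k _ => ‖Φ.U k‖) (fun k => continuous_const)
    obtain ⟨C, hC⟩ := (hQ.image hc).isBounded.exists_norm_le
    refine ⟨max C 0, le_max_right _ _, fun h hh x => ?_⟩
    have h1 := hC _ ⟨h, hh, rfl⟩
    have h2 : ∑ i ∈ t, cb i (1 / 4) h * ‖Φ.U (kb i h) x‖ ≤
        (∑ i ∈ t, cb i (1 / 4) h * ‖Φ.U (kb i h)‖) * ‖x‖ := by
      rw [Finset.sum_mul]
      refine Finset.sum_le_sum fun i _ => ?_
      rw [mul_assoc]
      exact mul_le_mul_of_nonneg_left ((Φ.U (kb i h)).le_opNorm x) (cb_nonneg _ _ _)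
    refine h2.trans (mul_le_mul_of_nonneg_right ?_ (norm_nonneg _))
    exact ((le_abs_self _).trans h1).trans (le_max_left _ _)

end PFam

section core

variable {b : ℕ} {X Y : Type*} [NormedAddCommGroup X] [InnerProductSpace ℂ X]
  [CompleteSpace X] [NormedAddCommGroup Y] [InnerProductSpace ℂ Y] [CompleteSpace Y]

/-- the data of the reduction: compact nonlinearity `K`, curvature equation `Ec`, the functional
`g`, an invariant norm `N` and a radius `R1` such that there is no zero with `N h x = R1`. -/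
structure Core (Φ : PFam b X Y) (T YR G : Type*) [NormedAddCommGroup T] [NormedSpace ℝ T]
    [NormedAddCommGroup YR] [NormedSpace ℝ YR] [NormedAddCommGroup G] [NormedSpace ℂ G] where
  K : T → X → Y
  Ec : T → (Fin b → ℝ) → X → YR
  g : T → (Fin b → ℝ) → X → G
  N : (Fin b → ℝ) → X → ℝ
  R1 : ℝ
  c : ℝ
  v : G
  K_cont : ContinuousOn (fun q : T × X => K q.1 q.2) {q | ‖q.1‖ ≤ 1}
  K_cpt : ∀ R : ℝ, ∃ C, IsCompact C ∧ ∀ t x, ‖t‖ ≤ 1 → ‖x‖ ≤ R → K t x ∈ C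
  K_eq : ∀ t x (z : ℂ), ‖z‖ = 1 → K t (z • x) = z • K t x
  K_U : ∀ t k x, K t (Φ.U k x) = Φ.Th (zv k) (K t x)
  Ec_cont : ContinuousOn (fun q : T × (Fin b → ℝ) × X => Ec q.1 q.2.1 q.2.2) {q | ‖q.1‖ ≤ 1}
  Ec_eq : ∀ t h x (z : ℂ), ‖z‖ = 1 → Ec t h (z • x) = Ec t h x
  Ec_U : ∀ t h k x, Ec t (h + zv k) (Φ.U k x) = Ec t h x
  g_cont : ContinuousOn (fun q : T × (Fin b → ℝ) × X => g q.1 q.2.1 q.2.2) {q | ‖q.1‖ ≤ 1}
  g_eq : ∀ t h x (z : ℂ), ‖z‖ = 1 → g t h (z • x) = z • g t h x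
  g_U : ∀ t h k x, g t (h + zv k) (Φ.U k x) = g t h x
  N_cont : Continuous (fun q : (Fin b → ℝ) × X => N q.1 q.2)
  N_nonneg : ∀ h x, 0 ≤ N h x
  N_smul : ∀ h (a : ℂ) x, N h (a • x) = ‖a‖ * N h x
  N_U : ∀ h k x, N (h + zv k) (Φ.U k x) = N h x
  c_pos : 0 < c
  N_low : ∀ h ∈ Icc (-1 : Fin b → ℝ) 1, ∀ x, c * ‖x‖ ≤ N h x
  R1_pos : 0 < R1
  v_ne : v ≠ 0
  bd : ∀ t h x, ‖t‖ ≤ 1 → N h x = R1 → Ec t h x = 0 → Φ.D h x + K t x ≠ 0

section cl

variable {T : Type*} [NormedAddCommGroup T] [NormedSpace ℝ T]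

/-- radial retraction onto the unit ball. -/
noncomputable def cl (t : T) : T := (max 1 ‖t‖)⁻¹ • t

theorem cl_cont : Continuous (cl : T → T) := by
  have h1 : Continuous (fun t : T => (max 1 ‖t‖)⁻¹) :=
    (continuous_const.max continuous_norm).inv₀ (fun t => by
      have : (1 : ℝ) ≤ max 1 ‖t‖ := le_max_left _ _
      linarith)
  exact h1.smul continuous_id

theorem cl_norm (t : T) : ‖cl t‖ ≤ 1 := by
  have h1 : (1 : ℝ) ≤ max 1 ‖t‖ := le_max_left _ _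
  have h2 : ‖t‖ ≤ max 1 ‖t‖ := le_max_right _ _
  rw [cl, norm_smul, norm_inv, Real.norm_eq_abs, abs_of_pos (by linarith)]
  rw [inv_mul_le_iff₀ (by linarith)]
  linarith

theorem cl_of_le {t : T} (ht : ‖t‖ ≤ 1) : cl t = t := by
  rw [cl, max_eq_left ht, inv_one, one_smul]

end cl

namespace Core

variable {Φ : PFam b X Y} {T YR G : Type*} [NormedAddCommGroup T] [NormedSpace ℝ T]
  [NormedAddCommGroup YR] [NormedSpace ℝ YR] [NormedAddCommGroup G] [NormedSpace ℂ G]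
  (Γ : Core Φ T YR G)

/-- the scaling factor. -/
noncomputable def rr (h : Fin b → ℝ) (x : X) : ℝ := Γ.R1 / max (Γ.N h x) Γ.R1

theorem max_pos (h : Fin b → ℝ) (x : X) : 0 < max (Γ.N h x) Γ.R1 :=
  lt_of_lt_of_le Γ.R1_pos (le_max_right _ _)

theorem rr_pos (h : Fin b → ℝ) (x : X) : 0 < Γ.rr h x := div_pos Γ.R1_pos (Γ.max_pos h x)

theorem rr_ne (h : Fin b → ℝ) (x : X) : ((Γ.rr h x : ℝ) : ℂ) ≠ 0 :=
  Complex.ofReal_ne_zero.2 (Γ.rr_pos h x).ne'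

theorem rr_of_le {h : Fin b → ℝ} {x : X} (hx : Γ.N h x ≤ Γ.R1) : Γ.rr h x = 1 := by
  rw [rr, max_eq_right hx, div_self Γ.R1_pos.ne']

theorem N_rr (h : Fin b → ℝ) (x : X) :
    Γ.N h (((Γ.rr h x : ℝ) : ℂ) • x) = min (Γ.N h x) Γ.R1 := by
  rw [Γ.N_smul, Complex.norm_real, Real.norm_eq_abs, abs_of_pos (Γ.rr_pos h x)]
  rcases le_total (Γ.N h x) Γ.R1 with h1 | h1
  · rw [Γ.rr_of_le h1, min_eq_left h1, one_mul]
  · rw [min_eq_right h1, rr, max_eq_left h1, div_mul_cancel₀ _ (Γ.R1_pos.trans_le h1).ne']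

theorem rr_cont : Continuous (fun q : (Fin b → ℝ) × X => Γ.rr q.1 q.2) :=
  continuous_const.div (Γ.N_cont.max continuous_const) (fun q => (Γ.max_pos q.1 q.2).ne')

theorem rr_U (h : Fin b → ℝ) (k : Fin b → ℤ) (x : X) :
    Γ.rr (h + zv k) (Φ.U k x) = Γ.rr h x := by rw [rr, rr, Γ.N_U]

theorem rr_smul (h : Fin b → ℝ) (x : X) {z : ℂ} (hz : ‖z‖ = 1) :
    Γ.rr h (z • x) = Γ.rr h x := by rw [rr, rr, Γ.N_smul, hz, one_mul]

/-- the extended nonlinearity. -/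
noncomputable def Kh (t : T) (h : Fin b → ℝ) (x : X) : Y :=
  ((Γ.rr h x : ℝ) : ℂ)⁻¹ • Γ.K (cl t) (((Γ.rr h x : ℝ) : ℂ) • x)

/-- the extended curvature equation. -/
noncomputable def Eh (t : T) (h : Fin b → ℝ) (x : X) : YR :=
  Γ.Ec (cl t) h (((Γ.rr h x : ℝ) : ℂ) • x)

theorem aux_cont : Continuous (fun q : T × (Fin b → ℝ) × X =>
    ((cl q.1, ((Γ.rr q.2.1 q.2.2 : ℝ) : ℂ) • q.2.2) : T × X)) :=
  (cl_cont.comp continuous_fst).prodMk ((Complex.continuous_ofReal.comp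
    (Γ.rr_cont.comp continuous_snd)).smul (continuous_snd.comp continuous_snd))

theorem Eh_cont : Continuous (fun q : T × (Fin b → ℝ) × X => Γ.Eh q.1 q.2.1 q.2.2) :=
  Γ.Ec_cont.comp_continuous (f := fun q : T × (Fin b → ℝ) × X =>
    ((cl q.1, q.2.1, ((Γ.rr q.2.1 q.2.2 : ℝ) : ℂ) • q.2.2) : T × (Fin b → ℝ) × X))
    ((continuous_fst.comp Γ.aux_cont).prodMk ((continuous_fst.comp continuous_snd).prodMk
      (continuous_snd.comp Γ.aux_cont))) (fun _ => cl_norm _)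

theorem Kh_cont : Continuous (fun q : T × (Fin b → ℝ) × X => Γ.Kh q.1 q.2.1 q.2.2) := by
  have h1 : Continuous (fun q : T × (Fin b → ℝ) × X => ((Γ.rr q.2.1 q.2.2 : ℝ) : ℂ)⁻¹) :=
    (Complex.continuous_ofReal.comp (Γ.rr_cont.comp continuous_snd)).inv₀
      (fun _ => Γ.rr_ne _ _)
  exact h1.smul (Γ.K_cont.comp_continuous Γ.aux_cont (fun q => cl_norm _))

theorem Eh_U (t : T) (h : Fin b → ℝ) (k : Fin b → ℤ) (x : X) :
    Γ.Eh t (h + zv k) (Φ.U k x) = Γ.Eh t h x := by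
  rw [Eh, Eh, Γ.rr_U, ← map_smul, Γ.Ec_U]

theorem Kh_U (t : T) (h : Fin b → ℝ) (k : Fin b → ℤ) (x : X) :
    Γ.Kh t (h + zv k) (Φ.U k x) = Φ.Th (zv k) (Γ.Kh t h x) := by
  rw [Kh, Kh, Γ.rr_U, ← map_smul, Γ.K_U, map_smul]

theorem Eh_smul (t : T) (h : Fin b → ℝ) (x : X) {z : ℂ} (hz : ‖z‖ = 1) :
    Γ.Eh t h (z • x) = Γ.Eh t h x := by
  rw [Eh, Eh, Γ.rr_smul h x hz, smul_comm, Γ.Ec_eq _ _ _ _ hz]

theorem Kh_smul (t : T) (h : Fin b → ℝ) (x : X) {z : ℂ} (hz : ‖z‖ = 1) :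
    Γ.Kh t h (z • x) = z • Γ.Kh t h x := by
  rw [Kh, Kh, Γ.rr_smul h x hz, smul_comm, Γ.K_eq _ _ _ hz, smul_comm]

section red

variable (W : Submodule ℂ Y) [FiniteDimensional ℂ W] {n : ℕ} (fr : Φ.Fr W n)

/-- coordinates on `W`. -/
noncomputable def rep : W ≃ₗᵢ[ℂ] EuclideanSpace ℂ (Fin (finrank ℂ W)) :=
  (stdOrthonormalBasis ℂ W).repr

/-- the `X`-component. -/
noncomputable def xx (h : Fin b → ℝ) (ψ : EuclideanSpace ℂ (Fin n)) : X := (fr.J h ψ).fst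

/-- the `W`-component. -/
noncomputable def ww (h : Fin b → ℝ) (ψ : EuclideanSpace ℂ (Fin n)) : W := (fr.J h ψ).snd

theorem xx_cont : Continuous (fun q : (Fin b → ℝ) × EuclideanSpace ℂ (Fin n) =>
    xx W fr q.1 q.2) := by
  have h1 : Continuous (fun q : (Fin b → ℝ) × EuclideanSpace ℂ (Fin n) => fr.J q.1 q.2) :=
    PFam.app_cont (fr.smJ.continuous.comp continuous_fst) continuous_snd
  exact (continuous_fst.comp (WithLp.prod_continuous_ofLp 2 X W)).comp h1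

theorem ww_cont : Continuous (fun q : (Fin b → ℝ) × EuclideanSpace ℂ (Fin n) =>
    ww W fr q.1 q.2) := by
  have h1 : Continuous (fun q : (Fin b → ℝ) × EuclideanSpace ℂ (Fin n) => fr.J q.1 q.2) :=
    PFam.app_cont (fr.smJ.continuous.comp continuous_fst) continuous_snd
  exact (continuous_snd.comp (WithLp.prod_continuous_ofLp 2 X W)).comp h1

theorem xx_per (h : Fin b → ℝ) (k : Fin b → ℤ) (ψ : EuclideanSpace ℂ (Fin n)) :
    xx W fr (h + zv k) ψ = Φ.U k (xx W fr h ψ) := by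
  rw [xx, fr.J_per]; rfl

theorem ww_per (h : Fin b → ℝ) (k : Fin b → ℤ) (ψ : EuclideanSpace ℂ (Fin n)) :
    ww W fr (h + zv k) ψ = ww W fr h ψ := by
  rw [ww, fr.J_per]; rfl

theorem xx_smul (h : Fin b → ℝ) (z : ℂ) (ψ : EuclideanSpace ℂ (Fin n)) :
    xx W fr h (z • ψ) = z • xx W fr h ψ := by
  rw [xx, map_smul]; rfl

theorem ww_smul (h : Fin b → ℝ) (z : ℂ) (ψ : EuclideanSpace ℂ (Fin n)) :
    ww W fr h (z • ψ) = z • ww W fr h ψ := by
  rw [ww, map_smul]; rfl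

theorem D_xx (h : Fin b → ℝ) (ψ : EuclideanSpace ℂ (Fin n)) :
    Φ.D h (xx W fr h ψ) + Φ.Th h (ww W fr h ψ : Y) = 0 := fr.A_J h ψ

/-- the reduced curvature equation. -/
noncomputable def fR (q : T × (Fin b → ℝ) × EuclideanSpace ℂ (Fin n)) : YR :=
  Γ.Eh q.1 q.2.1 (xx W fr q.2.1 q.2.2)

/-- the reduced Dirac equation. -/
noncomputable def fW (q : T × (Fin b → ℝ) × EuclideanSpace ℂ (Fin n)) : W :=
  -(ww W fr q.2.1 q.2.2) +
    W.orthogonalProjectionOnto (Φ.Th (-q.2.1) (Γ.Kh q.1 q.2.1 (xx W fr q.2.1 q.2.2)))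

/-- the reduced complex equations. -/
noncomputable def fC (q : T × (Fin b → ℝ) × EuclideanSpace ℂ (Fin n)) :
    EuclideanSpace ℂ (Fin (finrank ℂ W)) × G :=
  (rep W (Γ.fW W fr q), Γ.g (cl q.1) q.2.1 (xx W fr q.2.1 q.2.2))

theorem fR_cont : Continuous (Γ.fR W fr) :=
  Γ.Eh_cont.comp (continuous_fst.prodMk ((continuous_fst.comp continuous_snd).prodMk
    ((xx_cont W fr).comp continuous_snd)))

theorem fW_cont : Continuous (Γ.fW W fr) := by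
  have h1 : Continuous (fun q : T × (Fin b → ℝ) × EuclideanSpace ℂ (Fin n) =>
      Γ.Kh q.1 q.2.1 (xx W fr q.2.1 q.2.2)) :=
    Γ.Kh_cont.comp (continuous_fst.prodMk ((continuous_fst.comp continuous_snd).prodMk
      ((xx_cont W fr).comp continuous_snd)))
  have h2 : Continuous (fun q : T × (Fin b → ℝ) × EuclideanSpace ℂ (Fin n) =>
      Φ.Th (-q.2.1) (Γ.Kh q.1 q.2.1 (xx W fr q.2.1 q.2.2))) :=
    PFam.app_cont (Φ.Th_cont.comp (continuous_fst.comp continuous_snd).neg) h1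
  exact ((ww_cont W fr).comp continuous_snd).neg.add
    (W.orthogonalProjectionOnto.continuous.comp h2)

theorem fC_cont : Continuous (Γ.fC W fr) := by
  refine ((rep W).continuous.comp (Γ.fW_cont W fr)).prodMk ?_
  exact Γ.g_cont.comp_continuous (f := fun q : T × (Fin b → ℝ) × EuclideanSpace ℂ (Fin n) =>
    (cl q.1, q.2.1, xx W fr q.2.1 q.2.2)) ((cl_cont.comp continuous_fst).prodMk
    ((continuous_fst.comp continuous_snd).prodMk ((xx_cont W fr).comp continuous_snd)))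
    (fun _ => cl_norm _)

theorem fR_per (t : T) (h : Fin b → ℝ) (k : Fin b → ℤ) (ψ : EuclideanSpace ℂ (Fin n)) :
    Γ.fR W fr (t, h + zv k, ψ) = Γ.fR W fr (t, h, ψ) := by
  simp only [fR, xx_per, Γ.Eh_U]

theorem fW_per (t : T) (h : Fin b → ℝ) (k : Fin b → ℤ) (ψ : EuclideanSpace ℂ (Fin n)) :
    Γ.fW W fr (t, h + zv k, ψ) = Γ.fW W fr (t, h, ψ) := by
  simp only [fW, xx_per, ww_per, Γ.Kh_U]
  have h1 : Φ.Th (-(h + zv k)) (Φ.Th (zv k) (Γ.Kh t h (xx W fr h ψ))) =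
      Φ.Th (-h) (Γ.Kh t h (xx W fr h ψ)) := by
    have h2 : Φ.Th (-h) = (Φ.Th (-(h + zv k))).comp (Φ.Th (zv k)) := by
      rw [← Φ.Th_add]
      congr 1
      abel
    rw [h2]; rfl
  rw [h1]

theorem fC_per (t : T) (h : Fin b → ℝ) (k : Fin b → ℤ) (ψ : EuclideanSpace ℂ (Fin n)) :
    Γ.fC W fr (t, h + zv k, ψ) = Γ.fC W fr (t, h, ψ) := by
  simp only [fC, fW_per, xx_per, Γ.g_U]

theorem fR_smul (t : T) (h : Fin b → ℝ) (ψ : EuclideanSpace ℂ (Fin n)) {z : ℂ} (hz : ‖z‖ = 1) :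
    Γ.fR W fr (t, h, z • ψ) = Γ.fR W fr (t, h, ψ) := by
  simp only [fR, xx_smul, Γ.Eh_smul _ _ _ hz]

theorem fC_smul (t : T) (h : Fin b → ℝ) (ψ : EuclideanSpace ℂ (Fin n)) {z : ℂ} (hz : ‖z‖ = 1) :
    Γ.fC W fr (t, h, z • ψ) = z • Γ.fC W fr (t, h, ψ) := by
  have h1 : Γ.fW W fr (t, h, z • ψ) = z • Γ.fW W fr (t, h, ψ) := by
    simp only [fW, xx_smul, ww_smul, Γ.Kh_smul _ _ _ hz, map_smul, smul_add, smul_neg]
  simp only [fC, h1, xx_smul, Γ.g_eq _ _ _ _ hz, map_smul]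
  rfl

/-- the key identity: an approximate zero. -/
theorem zero_of {t : T} {h : Fin b → ℝ} {ψ : EuclideanSpace ℂ (Fin n)}
    (hf : Γ.fW W fr (t, h, ψ) = 0) :
    ‖Φ.D h (((Γ.rr h (xx W fr h ψ) : ℝ) : ℂ) • xx W fr h ψ) +
      Γ.K (cl t) (((Γ.rr h (xx W fr h ψ) : ℝ) : ℂ) • xx W fr h ψ)‖ =
    ‖Φ.Th (-h) (Γ.K (cl t) (((Γ.rr h (xx W fr h ψ) : ℝ) : ℂ) • xx W fr h ψ)) -
      W.starProjection (Φ.Th (-h) (Γ.K (cl t) (((Γ.rr h (xx W fr h ψ) : ℝ) : ℂ) •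
        xx W fr h ψ)))‖ := by
  set x := xx W fr h ψ with hx
  set r : ℂ := ((Γ.rr h x : ℝ) : ℂ) with hr
  have hr0 : r ≠ 0 := Γ.rr_ne h x
  set k := Γ.K (cl t) (r • x) with hk
  have h1 : ww W fr h ψ = W.orthogonalProjectionOnto (Φ.Th (-h) (r⁻¹ • k)) := by
    have : -(ww W fr h ψ) + W.orthogonalProjectionOnto (Φ.Th (-h) (r⁻¹ • k)) = 0 := hf
    exact (neg_add_eq_zero.1 this)
  have h2 : (ww W fr h ψ : Y) = r⁻¹ • W.starProjection (Φ.Th (-h) k) := by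
    rw [h1, map_smul, map_smul]; rfl
  have h3 : Φ.D h x = -(r⁻¹ • Φ.Th h (W.starProjection (Φ.Th (-h) k))) := by
    have := D_xx W fr h ψ
    rw [h2, map_smul] at this
    exact eq_neg_of_add_eq_zero_left this
  have h4 : Φ.D h (r • x) + k = Φ.Th h (Φ.Th (-h) k - W.starProjection (Φ.Th (-h) k)) := by
    rw [map_smul, h3, smul_neg, smul_smul, mul_inv_cancel₀ hr0, one_smul, map_sub, Φ.Th_neg]
    abel
  rw [h4, Φ.Th_norm]

end red

theorem g_ray_closed (v : G) : IsClosed {y : G | ∃ s : ℝ, 0 ≤ s ∧ y = (s : ℂ) • v} := by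
  rcases eq_or_ne v 0 with rfl | hv
  · have : {y : G | ∃ s : ℝ, 0 ≤ s ∧ y = (s : ℂ) • (0 : G)} = {0} := by
      ext y
      constructor
      · rintro ⟨s, -, hs⟩
        rw [smul_zero] at hs
        exact hs
      · intro hy
        exact ⟨0, le_rfl, by rw [smul_zero]; exact hy⟩
    rw [this]
    exact isClosed_singleton
  refine IsSeqClosed.isClosed ?_
  intro u y hu hy
  choose s hs0 hs using hu
  have hv' : 0 < ‖v‖ := norm_pos_iff.2 hv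
  have h1 : ∀ n, s n = ‖u n‖ / ‖v‖ := by
    intro n
    rw [hs n, norm_smul, Complex.norm_real, Real.norm_eq_abs, abs_of_nonneg (hs0 n),
      mul_div_cancel_right₀ _ hv'.ne']
  have h2 : Tendsto s atTop (𝓝 (‖y‖ / ‖v‖)) := by
    have : s = fun n => ‖u n‖ / ‖v‖ := funext h1
    rw [this]
    exact hy.norm.div_const _
  refine ⟨‖y‖ / ‖v‖, by positivity, ?_⟩
  have h3 : Tendsto (fun n => ((s n : ℝ) : ℂ) • v) atTop (𝓝 (((‖y‖ / ‖v‖ : ℝ) : ℂ) • v)) :=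
    ((Complex.continuous_ofReal.tendsto _).comp h2).smul_const v
  have h4 : u = fun n => ((s n : ℝ) : ℂ) • v := funext hs
  rw [h4] at hy
  exact tendsto_nhds_unique hy h3

/-- the unit cube with center `0`, twice enlarged. -/
abbrev QQ (b : ℕ) : Set (Fin b → ℝ) := Icc (-1 : Fin b → ℝ) 1

theorem norm_le_of_N {h : Fin b → ℝ} (hh : h ∈ QQ b) {x : X} (hx : Γ.N h x ≤ Γ.R1) :
    ‖x‖ ≤ Γ.R1 / Γ.c := by
  rw [le_div_iff₀ Γ.c_pos, mul_comm]
  exact (Γ.N_low h hh x).trans hx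

theorem low_bound [FiniteDimensional ℝ T] {S0 : Set (T × (Fin b → ℝ) × X)} (hS0 : IsClosed S0)
    (hne : ∀ q ∈ S0, ‖q.1‖ ≤ 1 → q.2.1 ∈ QQ b → Γ.N q.2.1 q.2.2 ≤ Γ.R1 → Γ.Ec q.1 q.2.1 q.2.2 = 0 →
      Φ.D q.2.1 q.2.2 + Γ.K q.1 q.2.2 ≠ 0) :
    ∃ ε > 0, ∀ q ∈ S0, ‖q.1‖ ≤ 1 → q.2.1 ∈ QQ b → Γ.N q.2.1 q.2.2 ≤ Γ.R1 →
      Γ.Ec q.1 q.2.1 q.2.2 = 0 → ε ≤ ‖Φ.D q.2.1 q.2.2 + Γ.K q.1 q.2.2‖ := by
  let A : Set (T × (Fin b → ℝ) × X) := {q | ‖q.1‖ ≤ 1}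
  have hA : IsClosed A := isClosed_le continuous_fst.norm continuous_const
  have hEc : ContinuousOn (fun q : T × (Fin b → ℝ) × X => Γ.Ec q.1 q.2.1 q.2.2) A := Γ.Ec_cont
  have hE : IsClosed (A ∩ (fun q : T × (Fin b → ℝ) × X => Γ.Ec q.1 q.2.1 q.2.2) ⁻¹' {0}) :=
    hEc.preimage_isClosed_of_isClosed hA isClosed_singleton
  have hQc : IsClosed {q : T × (Fin b → ℝ) × X | q.2.1 ∈ QQ b} :=
    isClosed_Icc.preimage (continuous_fst.comp continuous_snd)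
  have hNc : IsClosed {q : T × (Fin b → ℝ) × X | Γ.N q.2.1 q.2.2 ≤ Γ.R1} :=
    isClosed_le (Γ.N_cont.comp continuous_snd) continuous_const
  obtain ⟨ε, hε, h⟩ := Φ.proper Γ.K Γ.K_cont Γ.K_cpt
    (S := S0 ∩ ((A ∩ (fun q : T × (Fin b → ℝ) × X => Γ.Ec q.1 q.2.1 q.2.2) ⁻¹' {0}) ∩
      ({q : T × (Fin b → ℝ) × X | q.2.1 ∈ QQ b} ∩
      {q : T × (Fin b → ℝ) × X | Γ.N q.2.1 q.2.2 ≤ Γ.R1})))
    (hS0.inter (hE.inter (hQc.inter hNc))) (Q := QQ b) isCompact_Icc (R := Γ.R1 / Γ.c)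
    (fun q hq => ⟨hq.2.1.1, hq.2.2.1, Γ.norm_le_of_N hq.2.2.1 hq.2.2.2⟩)
    (fun q hq => hne q hq.1 hq.2.1.1 hq.2.2.1 hq.2.2.2 hq.2.1.2)
  exact ⟨ε, hε, fun q h0 h1 h2 h3 h4 => h q ⟨h0, ⟨h1, h4⟩, h2, h3⟩⟩

/-- the space `W` approximates the values of the nonlinearity. -/
def Appr (W : Submodule ℂ Y) [FiniteDimensional ℂ W] (ε : ℝ) : Prop :=
  ∀ t h x, ‖t‖ ≤ 1 → h ∈ QQ b → ‖x‖ ≤ Γ.R1 / Γ.c →
    ‖Φ.Th (-h) (Γ.K t x) - W.starProjection (Φ.Th (-h) (Γ.K t x))‖ < ε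

theorem exists_W (ε : ℝ) (hε : 0 < ε) (y0 : Y) :
    ∃ (W : Submodule ℂ Y) (_ : FiniteDimensional ℂ W), (∀ h, Function.Surjective (Φ.A W h)) ∧
      y0 ∈ W ∧ Γ.Appr W ε := by
  obtain ⟨W0, hW0, hs⟩ := Φ.exists_W0
  obtain ⟨C, hC, hCK⟩ := Γ.K_cpt (Γ.R1 / Γ.c)
  have hC' : IsCompact ((fun q : (Fin b → ℝ) × Y => Φ.Th (-q.1) q.2) '' (QQ b ×ˢ C)) := by
    refine (isCompact_Icc.prod hC).image ?_
    exact PFam.app_cont (Φ.Th_cont.comp continuous_fst.neg) continuous_snd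
  have : FiniteDimensional ℂ (W0 ⊔ Submodule.span ℂ {y0} : Submodule ℂ Y) := inferInstance
  obtain ⟨W, hW, hle, h⟩ := Gal_936.exists_findim hC' (W0 ⊔ Submodule.span ℂ {y0}) hε
  refine ⟨W, hW, hs W (le_sup_left.trans hle), hle ((le_sup_right : Submodule.span ℂ {y0} ≤ _)
    (Submodule.mem_span_singleton_self y0)), ?_⟩
  intro t hh x ht hh1 hx
  exact h _ ⟨(hh, Γ.K t x), ⟨hh1, hCK t x ht hx⟩, rfl⟩

section red2

variable (W : Submodule ℂ Y) [FiniteDimensional ℂ W] {n : ℕ} (fr : Φ.Fr W n)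

theorem small {ε : ℝ} (hW : Γ.Appr W ε) {t : T} {h : Fin b → ℝ} (hh : h ∈ QQ b)
    {ψ : EuclideanSpace ℂ (Fin n)} (hf : Γ.fW W fr (t, h, ψ) = 0) :
    ‖Φ.D h (((Γ.rr h (xx W fr h ψ) : ℝ) : ℂ) • xx W fr h ψ) +
      Γ.K (cl t) (((Γ.rr h (xx W fr h ψ) : ℝ) : ℂ) • xx W fr h ψ)‖ < ε := by
  rw [Γ.zero_of W fr hf]
  exact hW _ _ _ (cl_norm t) hh (Γ.norm_le_of_N hh (by rw [Γ.N_rr]; exact min_le_right _ _))

/-- an approximate zero lies in the region where nothing is changed. -/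
theorem inside {ε : ℝ} (hW : Γ.Appr W ε)
    (hε : ∀ t h x, ‖t‖ ≤ 1 → h ∈ QQ b → Γ.N h x = Γ.R1 → Γ.Ec t h x = 0 →
      ε ≤ ‖Φ.D h x + Γ.K t x‖) {t : T} (ht : ‖t‖ ≤ 1) {h : Fin b → ℝ} (hh : h ∈ QQ b)
    {ψ : EuclideanSpace ℂ (Fin n)} (hfR : Γ.fR W fr (t, h, ψ) = 0)
    (hf : Γ.fW W fr (t, h, ψ) = 0) :
    Γ.N h (xx W fr h ψ) < Γ.R1 ∧ Γ.Ec t h (xx W fr h ψ) = 0 ∧
      ‖Φ.D h (xx W fr h ψ) + Γ.K t (xx W fr h ψ)‖ < ε ∧
      ww W fr h ψ = W.orthogonalProjectionOnto (Φ.Th (-h) (Γ.K t (xx W fr h ψ))) := by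
  have h1 := Γ.small W fr hW hh hf
  have h2 : Γ.Ec (cl t) h (((Γ.rr h (xx W fr h ψ) : ℝ) : ℂ) • xx W fr h ψ) = 0 := hfR
  have hN : Γ.N h (xx W fr h ψ) < Γ.R1 := by
    by_contra hcon
    push Not at hcon
    have h3 := hε (cl t) h _ (cl_norm t) hh
      (by rw [Γ.N_rr, min_eq_right hcon]) h2
    linarith
  have hr : Γ.rr h (xx W fr h ψ) = 1 := Γ.rr_of_le hN.le
  rw [cl_of_le ht, hr, Complex.ofReal_one, one_smul] at h1 h2
  refine ⟨hN, h2, h1, ?_⟩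
  have h4 : -(ww W fr h ψ) + W.orthogonalProjectionOnto (Φ.Th (-h)
    (Γ.Kh t h (xx W fr h ψ))) = 0 := hf
  have h5 : Γ.Kh t h (xx W fr h ψ) = Γ.K t (xx W fr h ψ) := by
    rw [Kh, hr, cl_of_le ht]; simp
  rw [h5] at h4
  exact neg_add_eq_zero.1 h4

/-- no solutions on the ray for large `ψ`. -/
theorem big {ε : ℝ} (hW : Γ.Appr W ε)
    (hε : ∀ t h x, ‖t‖ ≤ 1 → h ∈ QQ b → Γ.N h x = Γ.R1 → Γ.Ec t h x = 0 →
      ε ≤ ‖Φ.D h x + Γ.K t x‖) :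
    ∃ R : ℝ, ∀ t h ψ, ‖t‖ ≤ 1 → fr.P h ψ = ψ → R ≤ ‖ψ‖ → Γ.fR W fr (t, h, ψ) = 0 →
      Γ.fW W fr (t, h, ψ) ≠ 0 := by
  obtain ⟨C, hC, hCK⟩ := Γ.K_cpt (Γ.R1 / Γ.c)
  obtain ⟨CK, hCK2⟩ := hC.isBounded.exists_norm_le
  obtain ⟨Cl, hCl⟩ := ((isCompact_Icc (a := (-1 : Fin b → ℝ)) (b := 1)).image
    fr.sml.continuous).isBounded.exists_norm_le
  refine ⟨Cl * (Γ.R1 / Γ.c + CK) + 1, ?_⟩
  have key : ∀ t h ψ, h ∈ QQ b → ‖t‖ ≤ 1 → fr.P h ψ = ψ → Γ.fR W fr (t, h, ψ) = 0 →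
      Γ.fW W fr (t, h, ψ) = 0 → ‖ψ‖ ≤ Cl * (Γ.R1 / Γ.c + CK) := by
    intro t h ψ hh ht hP hfR hfW
    obtain ⟨a1, a2, a3, a4⟩ := Γ.inside W fr hW hε ht hh hfR hfW
    have hx : ‖xx W fr h ψ‖ ≤ Γ.R1 / Γ.c := Γ.norm_le_of_N hh a1.le
    have hw : ‖ww W fr h ψ‖ ≤ CK := by
      rw [a4]
      refine (Submodule.norm_orthogonalProjectionOnto_apply_le W _).trans ?_
      rw [Φ.Th_norm]
      exact hCK2 _ (hCK _ _ ht hx)
    have h1 : ψ = fr.l h (fr.J h ψ) := by rw [fr.l_J, hP]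
    have h2 : ‖fr.J h ψ‖ ≤ ‖xx W fr h ψ‖ + ‖ww W fr h ψ‖ := by
      rw [WithLp.prod_norm_eq_of_L2]
      apply Real.sqrt_le_iff.2
      have n1 := norm_nonneg (xx W fr h ψ)
      have n2 := norm_nonneg (ww W fr h ψ)
      refine ⟨by positivity, ?_⟩
      show ‖xx W fr h ψ‖ ^ 2 + ‖ww W fr h ψ‖ ^ 2 ≤ (‖xx W fr h ψ‖ + ‖ww W fr h ψ‖) ^ 2
      nlinarith
    have h3 : ‖fr.l h‖ ≤ Cl := hCl _ ⟨h, hh, rfl⟩
    rw [h1]
    refine ((fr.l h).le_opNorm _).trans ?_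
    have h4 : 0 ≤ Cl := (norm_nonneg (fr.l h)).trans h3
    exact mul_le_mul h3 (h2.trans (add_le_add hx hw)) (norm_nonneg _) h4
  intro t h ψ ht hP hR hfR hfW
  obtain ⟨k, h', hh', rfl⟩ := exists_cube h
  have hh : h' ∈ QQ b := ⟨fun j => by
    have := hh'.1 j
    simp only [Pi.zero_apply] at this
    show (-1 : ℝ) ≤ h' j
    linarith, hh'.2⟩
  rw [fr.P_per] at hP
  rw [Γ.fR_per] at hfR
  rw [Γ.fW_per] at hfW
  have := key t h' ψ hh ht hP hfR hfW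
  linarith

end red2

end Core

/-- the output of the reduction (the common part). -/
structure RSys {T H YR YC : Type*} [NormedAddCommGroup T] [NormedSpace ℝ T]
    [NormedAddCommGroup H] [InnerProductSpace ℂ H] [FiniteDimensional ℂ H] [CompleteSpace H]
    [NormedAddCommGroup YR] [NormedSpace ℝ YR] [NormedAddCommGroup YC] [NormedSpace ℂ YC]
    (b m : ℕ) (P : (Fin b → ℝ) → H →L[ℂ] H) (fR : T × (Fin b → ℝ) × H → YR)
    (fC : T × (Fin b → ℝ) × H → YC) (v : YC) (R : ℝ) : Prop where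
  proj : FamDefs_307.PPer b m P
  cR : Continuous fR
  cC : Continuous fC
  eqR : ∀ t h ψ (z : ℂ), ‖z‖ = 1 → fR (t, h, z • ψ) = fR (t, h, ψ)
  eqC : ∀ t h ψ (z : ℂ), ‖z‖ = 1 → fC (t, h, z • ψ) = z • fC (t, h, ψ)
  pR : ∀ t h ψ (k : Fin b → ℤ), fR (t, fun i => h i + k i, ψ) = fR (t, h, ψ)
  pC : ∀ t h ψ (k : Fin b → ℤ), fC (t, fun i => h i + k i, ψ) = fC (t, h, ψ)
  vne : v ≠ 0
  big : ∀ t h ψ, ‖t‖ ≤ 1 → P h ψ = ψ → R ≤ ‖ψ‖ → fR (t, h, ψ) = 0 →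
    ∀ s : ℝ, 0 ≤ s → fC (t, h, ψ) ≠ (s : ℂ) • v

namespace Core

variable {Φ : PFam b X Y} {T YR G : Type*} [NormedAddCommGroup T] [NormedSpace ℝ T]
  [NormedAddCommGroup YR] [NormedSpace ℝ YR] [NormedAddCommGroup G] [NormedSpace ℂ G]
  (Γ : Core Φ T YR G)

theorem rsys (W : Submodule ℂ Y) [FiniteDimensional ℂ W] {n : ℕ} (fr : Φ.Fr W n)
    {ε : ℝ} (hW : Γ.Appr W ε)
    (hε : ∀ t h x, ‖t‖ ≤ 1 → h ∈ QQ b → Γ.N h x = Γ.R1 → Γ.Ec t h x = 0 →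
      ε ≤ ‖Φ.D h x + Γ.K t x‖) :
    ∃ R : ℝ, RSys b (finrank ℂ (kn (Φ.A W 0))) fr.P (Γ.fR W fr) (Γ.fC W fr) (0, Γ.v) R := by
  obtain ⟨R, hR⟩ := Γ.big W fr hW hε
  refine ⟨R, {
    proj := {
      smooth := fr.smP
      per := fun h k => fr.P_per h k
      idem := fr.P_P
      sa := fr.P_sa
      rank := fr.rank }
    cR := Γ.fR_cont W fr
    cC := Γ.fC_cont W fr
    eqR := fun t h ψ z hz => Γ.fR_smul W fr t h ψ hz
    eqC := fun t h ψ z hz => Γ.fC_smul W fr t h ψ hz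
    pR := fun t h ψ k => Γ.fR_per W fr t h k ψ
    pC := fun t h ψ k => Γ.fC_per W fr t h k ψ
    vne := fun h => Γ.v_ne (congrArg Prod.snd h)
    big := fun t h ψ ht hP hRψ hfR s hs hC => by
      refine hR t h ψ ht hP hRψ hfR ?_
      have h1 : rep W (Γ.fW W fr (t, h, ψ)) = 0 := by
        have h2 : (Γ.fC W fr (t, h, ψ)).1 = ((s : ℂ) • ((0, Γ.v) :
          EuclideanSpace ℂ (Fin (finrank ℂ W)) × G)).1 := congrArg Prod.fst hC
        rw [Prod.smul_fst, smul_zero] at h2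
        exact h2
      exact (map_eq_zero_iff (rep W) (rep W).injective).1 h1 }⟩

end Core

end core

end Crest.Agent.R235.FamR_151
end

-- ▼ part R235/FamO_151
section

/-!
Row 235 (S0364), helper151. Block FAM: the nondegenerate point over the boundary survives the
reduction (`OneRay`).
-/

set_option autoImplicit false
set_option linter.unusedSectionVars false

open Set Filter Topology Module
open scoped ContDiff

namespace Crest.Agent.R235.FamR_151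

section gen

variable {E F : Type*} [NormedAddCommGroup E] [NormedSpace ℝ E] [NormedAddCommGroup F]
  [NormedSpace ℝ F]

theorem near_of {f : E → F} {L : E →L[ℝ] F} {p : E} (hf : HasFDerivAt f L p) {η : ℝ}
    (hη : 0 < η) : ∃ ρ > 0, ∀ q, ‖q - p‖ ≤ ρ → ‖f q - f p - L (q - p)‖ ≤ η * ‖q - p‖ := by
  have h1 := hf.isLittleO.def hη
  obtain ⟨ρ, hρ, hsub⟩ := Metric.eventually_nhds_iff.1 h1
  refine ⟨ρ / 2, half_pos hρ, fun q hq => ?_⟩
  refine hsub ?_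
  rw [dist_eq_norm]
  linarith

theorem below_of {f : E → F} {L : E →L[ℝ] F} {p : E} (hf : HasFDerivAt f L p) (h0 : f p = 0)
    {c : ℝ} (hc : 0 < c) (hL : ∀ w, c * ‖w‖ ≤ ‖L w‖) :
    ∃ ρ > 0, ∀ q, ‖q - p‖ ≤ ρ → c / 2 * ‖q - p‖ ≤ ‖f q‖ := by
  obtain ⟨ρ, hρ, h⟩ := near_of hf (half_pos hc)
  refine ⟨ρ, hρ, fun q hq => ?_⟩
  have h1 := h q hq
  rw [h0, sub_zero] at h1
  have h2 := hL (q - p)
  have h3 : ‖L (q - p)‖ ≤ ‖f q‖ + ‖f q - L (q - p)‖ := by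
    have : L (q - p) = f q - (f q - L (q - p)) := by abel
    calc ‖L (q - p)‖ = ‖f q - (f q - L (q - p))‖ := by rw [← this]
      _ ≤ _ := norm_sub_le _ _
  linarith

end gen

section gen2

variable {E Y : Type*} [NormedAddCommGroup E] [NormedSpace ℝ E] [NormedAddCommGroup Y]
  [InnerProductSpace ℂ Y]

/-- the part orthogonal to `W` of a differentiable map is small of first order, uniformly. -/
theorem tail_le {f : E → Y} {L : E →L[ℝ] Y} {p : E} (hf : HasFDerivAt f L p) {η : ℝ}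
    (hη : 0 < η) : ∃ ρ0 > 0, ∀ ρ, 0 < ρ → ρ ≤ ρ0 → ∀ (W : Submodule ℂ Y) [FiniteDimensional ℂ W],
      f p ∈ W → (∀ q, ‖q - p‖ ≤ ρ → ‖f q - W.starProjection (f q)‖ ≤ η * ρ) →
      ∀ q, ‖q - p‖ ≤ ρ → ‖f q - W.starProjection (f q)‖ ≤ 3 * η * ‖q - p‖ := by
  obtain ⟨ρ0, hρ0, h⟩ := near_of hf hη
  refine ⟨ρ0, hρ0, fun ρ hρ hle W _ hpW hW q hq => ?_⟩
  -- the complementary projection
  have hnT : ∀ y : Y, ‖y - W.starProjection y‖ ≤ ‖y‖ := by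
    intro y
    have h1 : y - W.starProjection y = Wᗮ.starProjection y :=
      (Submodule.starProjection_orthogonal_val y).symm
    rw [h1]
    exact Submodule.norm_starProjection_apply_le _ _
  have hfp : f p - W.starProjection (f p) = 0 := by
    rw [Submodule.starProjection_eq_self_iff.2 hpW, sub_self]
  rcases eq_or_ne q p with rfl | hne
  · rw [hfp]; simp
  set u := q - p with hu
  have hu0 : 0 < ‖u‖ := norm_pos_iff.2 (sub_ne_zero.2 hne)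
  set lam : ℝ := ‖u‖ / ρ with hlam
  have hlam0 : 0 < lam := div_pos hu0 hρ
  set q1 : E := p + lam⁻¹ • u with hq1
  have hq1p : q1 - p = lam⁻¹ • u := by rw [hq1]; abel
  have hn1 : ‖q1 - p‖ = ρ := by
    rw [hq1p, norm_smul, norm_inv, Real.norm_eq_abs, abs_of_pos hlam0, hlam]
    field_simp
  have hLu : L u = lam • L (q1 - p) := by
    rw [hq1p, map_smul, smul_smul, mul_inv_cancel₀ hlam0.ne', one_smul]
  have hR := h q (hq.trans hle)
  have hR1 := h q1 (hn1.le.trans hle)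
  rw [← hu] at hR
  have hT1 : ∀ y y' : Y, (y + y') - W.starProjection (y + y') =
      (y - W.starProjection y) + (y' - W.starProjection y') := by
    intro y y'; rw [map_add]; abel
  -- decompose
  have e1 : f q = f p + (f q - f p - L u) + L u := by abel
  have e2 : L u = lam • (f q1 - f p - (f q1 - f p - L (q1 - p))) := by
    rw [hLu]; congr 1; abel
  have e3 : ‖L u - W.starProjection (L u)‖ ≤ 2 * η * ‖u‖ := by
    have h5 : L u - W.starProjection (L u) =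
        (lam : ℂ) • ((f q1 - W.starProjection (f q1)) -
        ((f q1 - f p - L (q1 - p)) - W.starProjection (f q1 - f p - L (q1 - p)))) := by
      have h6 : L u = (lam : ℂ) • (f q1 - f p - (f q1 - f p - L (q1 - p))) := by
        rw [e2]; exact (Complex.coe_smul lam _).symm
      rw [h6, map_smul, ← smul_sub]
      congr 1
      have h7 : W.starProjection (f p) = f p := Submodule.starProjection_eq_self_iff.2 hpW
      generalize f q1 - f p - L (q1 - p) = z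
      have h8 : W.starProjection (f q1 - f p - z) =
          W.starProjection (f q1) - f p - W.starProjection z := by
        rw [map_sub, map_sub, h7]
      rw [h8]
      abel
    rw [h5, norm_smul, Complex.norm_real, Real.norm_eq_abs, abs_of_pos hlam0]
    have h8 : ‖(f q1 - W.starProjection (f q1)) -
        ((f q1 - f p - L (q1 - p)) - W.starProjection (f q1 - f p - L (q1 - p)))‖ ≤
        η * ρ + η * ρ := by
      refine (norm_sub_le _ _).trans (add_le_add (hW q1 hn1.le) ?_)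
      refine (hnT _).trans (hR1.trans ?_)
      rw [hn1]
    have h9 : lam * ρ = ‖u‖ := by rw [hlam]; field_simp
    calc lam * _ ≤ lam * (η * ρ + η * ρ) := mul_le_mul_of_nonneg_left h8 hlam0.le
      _ = 2 * η * (lam * ρ) := by ring
      _ = 2 * η * ‖u‖ := by rw [h9]
  have e4 : f q - W.starProjection (f q) = (f p - W.starProjection (f p)) +
      ((f q - f p - L u) - W.starProjection (f q - f p - L u)) +
      (L u - W.starProjection (L u)) := by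
    rw [← hT1, ← hT1, ← e1]
  rw [e4, hfp, zero_add]
  refine (norm_add_le _ _).trans ?_
  have := (hnT (f q - f p - L u)).trans hR
  linarith

theorem da_apply {E' F' : Type*} [NormedAddCommGroup E'] [NormedSpace ℂ E']
    [NormedAddCommGroup F'] [NormedSpace ℂ F'] {S : E → E' →L[ℂ] F'} {v : E → E'} {p : E}
    (hS : DifferentiableAt ℝ S p) (hv : DifferentiableAt ℝ v p) :
    DifferentiableAt ℝ (fun q => S q (v q)) p :=
  DifferentiableAt.comp (g := fun r : (E' →L[ℂ] F') × E' => r.1 r.2) p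
    ((bil_apply (E := E') (F := F')).differentiableAt (S p, v p)) (hS.prodMk hv)

end gen2

section one

open FamDefs_307

variable {b : ℕ} {X Y : Type*} [NormedAddCommGroup X] [InnerProductSpace ℂ X]
  [CompleteSpace X] [NormedAddCommGroup Y] [InnerProductSpace ℂ Y] [CompleteSpace Y]
  {Φ : PFam b X Y} {T YR G : Type} [NormedAddCommGroup T] [NormedSpace ℝ T]
  [FiniteDimensional ℝ T] [NormedAddCommGroup YR] [NormedSpace ℝ YR] [FiniteDimensional ℝ YR]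
  [NormedAddCommGroup G] [NormedSpace ℂ G] [FiniteDimensional ℂ G]

namespace Core

variable (Γ : Core Φ T YR G)

/-- the collar map `(Ec, F, g - (|t| - 1) v)` at `(t/|t|, h, x)`. -/
noncomputable def FF (q : T × ((Fin b → ℝ) × X)) : (YR × Y) × G :=
  ((Γ.Ec (‖q.1‖⁻¹ • q.1) q.2.1 q.2.2, Φ.D q.2.1 q.2.2 + Γ.K (‖q.1‖⁻¹ • q.1) q.2.2),
    Γ.g (‖q.1‖⁻¹ • q.1) q.2.1 q.2.2 - ((‖q.1‖ - 1 : ℝ) : ℂ) • Γ.v)

/-- the only zero over the boundary on the ray, nondegenerate. -/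
structure Pt (t0 : T) (x0 : X) (r0 : ℝ) : Prop where
  t0_norm : ‖t0‖ = 1
  r0_pos : 0 < r0
  zero1 : Γ.Ec t0 0 x0 = 0
  zero2 : Φ.D 0 x0 + Γ.K t0 x0 = 0
  g0 : Γ.g t0 0 x0 = (r0 : ℂ) • Γ.v
  inside : Γ.N 0 x0 < Γ.R1
  uniq : ∀ t h x (s : ℝ), ‖t‖ = 1 → 0 ≤ s → Γ.N h x ≤ Γ.R1 → Γ.Ec t h x = 0 →
    Φ.D h x + Γ.K t x = 0 → Γ.g t h x = (s : ℂ) • Γ.v → t = t0 ∧ ∃ k, h = zv k ∧ x = Φ.U k x0
  der : ∃ (L : T × ((Fin b → ℝ) × X) →L[ℝ] (YR × Y) × G),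
    HasFDerivAt Γ.FF L ((1 + r0) • t0, (0, x0)) ∧ ∃ c > 0, ∀ w, c * ‖w‖ ≤ ‖L w‖

/-- the nonlinearity in the collar. -/
noncomputable def Gq (q : T × ((Fin b → ℝ) × X)) : Y :=
  Φ.Th (-q.2.1) (Γ.K (‖q.1‖⁻¹ • q.1) q.2.2)

theorem norm_inv_smul {t0 : T} (ht : ‖t0‖ = 1) {r : ℝ} (hr : 0 < r) :
    ‖r • t0‖⁻¹ • (r • t0) = t0 := by
  rw [norm_smul, ht, Real.norm_eq_abs, abs_of_pos hr, mul_one, smul_smul,
    inv_mul_cancel₀ hr.ne', one_smul]

theorem norm_bar_le (t : T) : ‖‖t‖⁻¹ • t‖ ≤ 1 := by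
  rcases eq_or_ne t 0 with rfl | h
  · simp
  · rw [norm_smul, norm_inv, norm_norm, inv_mul_cancel₀ (norm_ne_zero_iff.2 h)]

theorem nbhd {t0 : T} {x0 : X} {r0 : ℝ} (hp : Γ.Pt t0 x0 r0) :
    ∃ c > 0, ∃ ρ > 0, ρ ≤ 1 / 2 ∧
      (∀ q, ‖q - ((1 + r0) • t0, ((0 : Fin b → ℝ), x0))‖ ≤ ρ → Γ.N q.2.1 q.2.2 < Γ.R1) ∧
      (∀ q, ‖q - ((1 + r0) • t0, ((0 : Fin b → ℝ), x0))‖ ≤ ρ →
        c / 2 * ‖q - ((1 + r0) • t0, ((0 : Fin b → ℝ), x0))‖ ≤ ‖Γ.FF q‖) ∧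
      (∃ C, 0 ≤ C ∧ ∀ q, ‖q - ((1 + r0) • t0, ((0 : Fin b → ℝ), x0))‖ ≤ ρ →
        ‖Γ.Gq q - Γ.Gq ((1 + r0) • t0, ((0 : Fin b → ℝ), x0))‖ ≤
          C * ‖q - ((1 + r0) • t0, ((0 : Fin b → ℝ), x0))‖) ∧
      (∀ (W : Submodule ℂ Y) [FiniteDimensional ℂ W],
        Γ.Gq ((1 + r0) • t0, ((0 : Fin b → ℝ), x0)) ∈ W →
        (∀ q, ‖q - ((1 + r0) • t0, ((0 : Fin b → ℝ), x0))‖ ≤ ρ →
          ‖Γ.Gq q - W.starProjection (Γ.Gq q)‖ ≤ c / 12 * ρ) →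
        ∀ q, ‖q - ((1 + r0) • t0, ((0 : Fin b → ℝ), x0))‖ ≤ ρ →
          ‖Γ.Gq q - W.starProjection (Γ.Gq q)‖ ≤
            c / 4 * ‖q - ((1 + r0) • t0, ((0 : Fin b → ℝ), x0))‖) ∧
      DifferentiableAt ℝ Γ.Gq ((1 + r0) • t0, ((0 : Fin b → ℝ), x0)) := by
  set p : T × ((Fin b → ℝ) × X) := ((1 + r0) • t0, ((0 : Fin b → ℝ), x0)) with hpdef
  obtain ⟨L, hL, c, hc, hcL⟩ := hp.der
  have hr : 0 < 1 + r0 := by have := hp.r0_pos; linarith
  have hpbar : ‖p.1‖⁻¹ • p.1 = t0 := norm_inv_smul hp.t0_norm hr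
  have hFp : Γ.FF p = 0 := by
    have h1 : ‖p.1‖ - 1 = r0 := by
      show ‖(1 + r0) • t0‖ - 1 = r0
      rw [norm_smul, hp.t0_norm, Real.norm_eq_abs, abs_of_pos hr]; ring
    unfold FF
    rw [hpbar, h1]
    show ((Γ.Ec t0 0 x0, Φ.D 0 x0 + Γ.K t0 x0), Γ.g t0 0 x0 - (r0 : ℂ) • Γ.v) = 0
    rw [hp.zero1, hp.zero2, hp.g0, sub_self]; rfl
  -- differentiability of `Gq`
  have hFd : DifferentiableAt ℝ Γ.FF p := hL.differentiableAt
  have hDd : DifferentiableAt ℝ (fun q : T × ((Fin b → ℝ) × X) => Φ.D q.2.1 q.2.2) p := by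
    refine da_apply ?_ (differentiableAt_snd.snd)
    exact (Φ.smD.differentiable (by simp)).differentiableAt.comp p differentiableAt_snd.fst
  have hKd : DifferentiableAt ℝ
      (fun q : T × ((Fin b → ℝ) × X) => Γ.K (‖q.1‖⁻¹ • q.1) q.2.2) p := by
    have h1 : (fun q : T × ((Fin b → ℝ) × X) => Γ.K (‖q.1‖⁻¹ • q.1) q.2.2) =
        fun q => (Γ.FF q).1.2 - Φ.D q.2.1 q.2.2 := by
      funext q
      show _ = Φ.D q.2.1 q.2.2 + Γ.K (‖q.1‖⁻¹ • q.1) q.2.2 - Φ.D q.2.1 q.2.2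
      abel
    rw [h1]
    exact (hFd.fst.snd).sub hDd
  have hGd : DifferentiableAt ℝ Γ.Gq p := by
    refine da_apply ?_ hKd
    exact (Φ.smTh.differentiable (by simp)).differentiableAt.comp p
      (differentiableAt_snd.fst.neg)
  obtain ⟨ρ1, hρ1, h1⟩ := below_of hL hFp hc hcL
  obtain ⟨ρ2, hρ2, h2⟩ := tail_le hGd.hasFDerivAt (η := c / 12) (by positivity)
  obtain ⟨ρ3, hρ3, h3⟩ := near_of hGd.hasFDerivAt one_pos
  have h4 : ∀ᶠ q in 𝓝 p, Γ.N q.2.1 q.2.2 < Γ.R1 := by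
    have hc' : ContinuousAt (fun q : T × ((Fin b → ℝ) × X) => Γ.N q.2.1 q.2.2) p :=
      (Γ.N_cont.comp continuous_snd).continuousAt
    exact hc'.eventually_lt_const hp.inside
  obtain ⟨ρ4, hρ4, h4⟩ := Metric.eventually_nhds_iff.1 h4
  set ρ : ℝ := min (min ρ1 ρ2) (min (min ρ3 (ρ4 / 2)) (1 / 2)) with hρdef
  have hρpos : 0 < ρ := by positivity
  have l1 : ρ ≤ ρ1 := (min_le_left _ _).trans (min_le_left _ _)
  have l2 : ρ ≤ ρ2 := (min_le_left _ _).trans (min_le_right _ _)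
  have l3 : ρ ≤ ρ3 := (min_le_right _ _).trans ((min_le_left _ _).trans (min_le_left _ _))
  have l4 : ρ ≤ ρ4 / 2 := (min_le_right _ _).trans ((min_le_left _ _).trans (min_le_right _ _))
  have l5 : ρ ≤ 1 / 2 := (min_le_right _ _).trans (min_le_right _ _)
  refine ⟨c, hc, ρ, hρpos, l5, ?_, ?_, ?_, ?_, hGd⟩
  · intro q hq
    exact h4 (by rw [dist_eq_norm]; linarith)
  · intro q hq
    exact h1 q (hq.trans l1)
  · refine ⟨‖fderiv ℝ Γ.Gq p‖ + 1, by positivity, fun q hq => ?_⟩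
    have h5 := h3 q (hq.trans l3)
    have h6 : Γ.Gq q - Γ.Gq p = (Γ.Gq q - Γ.Gq p - fderiv ℝ Γ.Gq p (q - p)) +
      fderiv ℝ Γ.Gq p (q - p) := by abel
    rw [h6]
    refine (norm_add_le _ _).trans ?_
    have h7 := (fderiv ℝ Γ.Gq p).le_opNorm (q - p)
    linarith
  · intro W _ hpW hW q hq
    have := h2 ρ hρpos l2 W hpW hW q hq
    linarith

theorem exists_cube' {b : ℕ} (h : Fin b → ℝ) :
    ∃ (k : Fin b → ℤ) (h' : Fin b → ℝ), ‖h'‖ ≤ 1 / 2 ∧ h = h' + zv k := by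
  refine ⟨fun j => round (h j), fun j => h j - round (h j), ?_, ?_⟩
  · rw [pi_norm_le_iff_of_nonneg (by norm_num)]
    intro j
    rw [Real.norm_eq_abs]
    exact abs_sub_round _
  · funext j
    simp [zv]

theorem mem_QQ {b : ℕ} {h : Fin b → ℝ} (hh : ‖h‖ ≤ 1 / 2) : h ∈ QQ b := by
  refine ⟨fun j => ?_, fun j => ?_⟩
  · have h4 := (norm_le_pi_norm h j).trans hh
    rw [Real.norm_eq_abs] at h4
    have := (abs_le.1 h4).1
    show (-1 : ℝ) ≤ h j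
    linarith
  · have h4 := (norm_le_pi_norm h j).trans hh
    rw [Real.norm_eq_abs] at h4
    have := (abs_le.1 h4).2
    show h j ≤ (1 : ℝ)
    linarith

section red3

variable (W : Submodule ℂ Y) [FiniteDimensional ℂ W] {n : ℕ} (fr : Φ.Fr W n)

theorem xx_P (h : Fin b → ℝ) (ψ : EuclideanSpace ℂ (Fin n)) :
    xx W fr h (fr.P h ψ) = xx W fr h ψ := by rw [xx, fr.J_P]; rfl

theorem ww_P (h : Fin b → ℝ) (ψ : EuclideanSpace ℂ (Fin n)) :
    ww W fr h (fr.P h ψ) = ww W fr h ψ := by rw [ww, fr.J_P]; rfl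

theorem fR_eval {t : T} (ht : ‖t‖ ≤ 1) {h : Fin b → ℝ} {ψ : EuclideanSpace ℂ (Fin n)}
    (hN : Γ.N h (xx W fr h ψ) ≤ Γ.R1) :
    Γ.fR W fr (t, h, ψ) = Γ.Ec t h (xx W fr h ψ) := by
  show Γ.Ec (cl t) h (((Γ.rr h (xx W fr h ψ) : ℝ) : ℂ) • xx W fr h ψ) = _
  rw [cl_of_le ht, Γ.rr_of_le hN, Complex.ofReal_one, one_smul]

theorem fW_eval {t : T} (ht : ‖t‖ ≤ 1) {h : Fin b → ℝ} {ψ : EuclideanSpace ℂ (Fin n)}
    (hN : Γ.N h (xx W fr h ψ) ≤ Γ.R1) :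
    Γ.fW W fr (t, h, ψ) = -(ww W fr h ψ) +
      W.orthogonalProjectionOnto (Φ.Th (-h) (Γ.K t (xx W fr h ψ))) := by
  have h5 : Γ.Kh t h (xx W fr h ψ) = Γ.K t (xx W fr h ψ) := by
    rw [Kh, Γ.rr_of_le hN, cl_of_le ht]; simp
  show -(ww W fr h ψ) + W.orthogonalProjectionOnto (Φ.Th (-h) (Γ.Kh t h (xx W fr h ψ))) = _
  rw [h5]

/-- the point in the infinite dimensional space. -/
noncomputable def Qm (u : T × (Fin b → ℝ) × EuclideanSpace ℂ (Fin n)) :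
    T × ((Fin b → ℝ) × X) := (u.1, (u.2.1, xx W fr u.2.1 u.2.2))

/-- the collar map of the reduced system. -/
noncomputable def fh (u : T × (Fin b → ℝ) × EuclideanSpace ℂ (Fin n)) :
    YR × (EuclideanSpace ℂ (Fin (finrank ℂ W)) × G) :=
  (Γ.fR W fr (‖u.1‖⁻¹ • u.1, u.2.1, fr.P u.2.1 u.2.2),
    Γ.fC W fr (‖u.1‖⁻¹ • u.1, u.2.1, fr.P u.2.1 u.2.2) -
      ((‖u.1‖ - 1 : ℝ) : ℂ) • ((0, Γ.v) : EuclideanSpace ℂ (Fin (finrank ℂ W)) × G))

/-- the collar map in the region where nothing is changed. -/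
theorem fh_eval {u : T × (Fin b → ℝ) × EuclideanSpace ℂ (Fin n)}
    (hN : Γ.N u.2.1 (xx W fr u.2.1 u.2.2) ≤ Γ.R1) :
    Γ.fh W fr u = ((Γ.FF (Qm W fr u)).1.1,
      (rep W (-(ww W fr u.2.1 u.2.2) + W.orthogonalProjectionOnto (Γ.Gq (Qm W fr u))),
        (Γ.FF (Qm W fr u)).2)) := by
  have hb := norm_bar_le u.1
  have h1 : Γ.fR W fr (‖u.1‖⁻¹ • u.1, u.2.1, fr.P u.2.1 u.2.2) = (Γ.FF (Qm W fr u)).1.1 := by
    rw [Γ.fR_eval W fr hb (by rw [xx_P]; exact hN), xx_P]; rfl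
  have h2 : Γ.fW W fr (‖u.1‖⁻¹ • u.1, u.2.1, fr.P u.2.1 u.2.2) =
      -(ww W fr u.2.1 u.2.2) + W.orthogonalProjectionOnto (Γ.Gq (Qm W fr u)) := by
    rw [Γ.fW_eval W fr hb (by rw [xx_P]; exact hN), xx_P, ww_P]; rfl
  unfold fh
  rw [h1]
  refine Prod.ext rfl (Prod.ext ?_ ?_)
  · show rep W (Γ.fW W fr (‖u.1‖⁻¹ • u.1, u.2.1, fr.P u.2.1 u.2.2)) -
      ((‖u.1‖ - 1 : ℝ) : ℂ) • (0 : EuclideanSpace ℂ (Fin (finrank ℂ W))) = _
    rw [h2, smul_zero, sub_zero]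
  · show Γ.g (cl (‖u.1‖⁻¹ • u.1)) u.2.1 (xx W fr u.2.1 (fr.P u.2.1 u.2.2)) -
      ((‖u.1‖ - 1 : ℝ) : ℂ) • Γ.v = _
    rw [xx_P, cl_of_le hb]; rfl

/-- the Dirac component of the collar map in terms of the reduced one. -/
theorem FF_dirac (u : T × (Fin b → ℝ) × EuclideanSpace ℂ (Fin n)) :
    (Γ.FF (Qm W fr u)).1.2 = Φ.Th u.2.1
      (((-(ww W fr u.2.1 u.2.2) + W.orthogonalProjectionOnto (Γ.Gq (Qm W fr u)) : W) : Y) +
        (Γ.Gq (Qm W fr u) - W.starProjection (Γ.Gq (Qm W fr u)))) := by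
  have h1 := D_xx W fr u.2.1 u.2.2
  have h2 : Φ.Th u.2.1 (Γ.Gq (Qm W fr u)) =
      Γ.K (‖u.1‖⁻¹ • u.1) (xx W fr u.2.1 u.2.2) := Φ.Th_neg _ _
  have h3 : ((-(ww W fr u.2.1 u.2.2) + W.orthogonalProjectionOnto (Γ.Gq (Qm W fr u)) : W) : Y) =
      -(ww W fr u.2.1 u.2.2 : Y) + W.starProjection (Γ.Gq (Qm W fr u)) := rfl
  show Φ.D u.2.1 (xx W fr u.2.1 u.2.2) + Γ.K (‖u.1‖⁻¹ • u.1) (xx W fr u.2.1 u.2.2) = _
  rw [h3, map_add, map_add, map_sub, map_neg, h2, eq_neg_of_add_eq_zero_left h1]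
  abel

/-- the reduced collar map controls the distance. -/
theorem control {t0 : T} {x0 : X} {r0 c ρ C : ℝ} (hc : 0 < c) (hC : 0 ≤ C)
    (hN : ∀ q, ‖q - ((1 + r0) • t0, ((0 : Fin b → ℝ), x0))‖ ≤ ρ → Γ.N q.2.1 q.2.2 < Γ.R1)
    (h1 : ∀ q, ‖q - ((1 + r0) • t0, ((0 : Fin b → ℝ), x0))‖ ≤ ρ →
        c / 2 * ‖q - ((1 + r0) • t0, ((0 : Fin b → ℝ), x0))‖ ≤ ‖Γ.FF q‖)
    (h2 : ∀ q, ‖q - ((1 + r0) • t0, ((0 : Fin b → ℝ), x0))‖ ≤ ρ →
        ‖Γ.Gq q - Γ.Gq ((1 + r0) • t0, ((0 : Fin b → ℝ), x0))‖ ≤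
          C * ‖q - ((1 + r0) • t0, ((0 : Fin b → ℝ), x0))‖)
    (h3 : ∀ q, ‖q - ((1 + r0) • t0, ((0 : Fin b → ℝ), x0))‖ ≤ ρ →
          ‖Γ.Gq q - W.starProjection (Γ.Gq q)‖ ≤
            c / 4 * ‖q - ((1 + r0) • t0, ((0 : Fin b → ℝ), x0))‖)
    {u : T × (Fin b → ℝ) × EuclideanSpace ℂ (Fin n)}
    (hu : ‖Qm W fr u - ((1 + r0) • t0, ((0 : Fin b → ℝ), x0))‖ ≤ ρ) :
    ‖Qm W fr u - ((1 + r0) • t0, ((0 : Fin b → ℝ), x0))‖ ≤ 4 / c * ‖Γ.fh W fr u‖ ∧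
    ‖ww W fr u.2.1 u.2.2 - W.orthogonalProjectionOnto
      (Γ.Gq ((1 + r0) • t0, ((0 : Fin b → ℝ), x0)))‖ ≤ (1 + C * (4 / c)) * ‖Γ.fh W fr u‖ := by
  set p : T × ((Fin b → ℝ) × X) := ((1 + r0) • t0, ((0 : Fin b → ℝ), x0)) with hpdef
  set q := Qm W fr u with hq
  have hNq : Γ.N u.2.1 (xx W fr u.2.1 u.2.2) ≤ Γ.R1 := (hN q hu).le
  have he := Γ.fh_eval W fr hNq
  rw [← hq] at he
  set w' : W := -(ww W fr u.2.1 u.2.2) + W.orthogonalProjectionOnto (Γ.Gq q) with hw'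
  have n1 : ‖(Γ.FF q).1.1‖ ≤ ‖Γ.fh W fr u‖ := by
    have h0 : (Γ.fh W fr u).1 = (Γ.FF q).1.1 := by rw [he]
    rw [← h0]
    exact norm_fst_le (Γ.fh W fr u)
  have hz : (Γ.fh W fr u).2 = (rep W w', (Γ.FF q).2) := by rw [he]
  have nz := norm_snd_le (Γ.fh W fr u)
  rw [hz] at nz
  have n2 : ‖w'‖ ≤ ‖Γ.fh W fr u‖ := by
    have := norm_fst_le ((rep W w', (Γ.FF q).2) : EuclideanSpace ℂ (Fin (finrank ℂ W)) × G)
    have h8 : ‖rep W w'‖ = ‖w'‖ := (rep W).norm_map w'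
    rw [← h8]
    exact this.trans nz
  have n3 : ‖(Γ.FF q).2‖ ≤ ‖Γ.fh W fr u‖ := by
    have := norm_snd_le ((rep W w', (Γ.FF q).2) : EuclideanSpace ℂ (Fin (finrank ℂ W)) × G)
    exact this.trans nz
  have n4 : ‖(Γ.FF q).1.2‖ ≤ ‖Γ.fh W fr u‖ + c / 4 * ‖q - p‖ := by
    have := Γ.FF_dirac W fr u
    rw [← hq, ← hw'] at this
    rw [this, Φ.Th_norm]
    exact (norm_add_le _ _).trans (add_le_add n2 (h3 q hu))
  have n5 : ‖Γ.FF q‖ ≤ ‖Γ.fh W fr u‖ + c / 4 * ‖q - p‖ := by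
    have h0 : 0 ≤ c / 4 * ‖q - p‖ := by positivity
    have e1 : ‖Γ.FF q‖ = max (max ‖(Γ.FF q).1.1‖ ‖(Γ.FF q).1.2‖) ‖(Γ.FF q).2‖ := rfl
    rw [e1]
    exact max_le (max_le (by linarith) n4) (by linarith)
  have n6 := h1 q hu
  have n7 : ‖q - p‖ ≤ 4 / c * ‖Γ.fh W fr u‖ := by
    have h8 : c / 4 * ‖q - p‖ ≤ ‖Γ.fh W fr u‖ := by linarith
    rw [div_mul_eq_mul_div, le_div_iff₀ hc]
    linarith
  refine ⟨n7, ?_⟩
  have e2 : ww W fr u.2.1 u.2.2 - W.orthogonalProjectionOnto (Γ.Gq p) =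
      -w' + W.orthogonalProjectionOnto (Γ.Gq q - Γ.Gq p) := by
    rw [hw', map_sub]; abel
  rw [e2]
  refine (norm_add_le _ _).trans ?_
  rw [norm_neg]
  have e3 : ‖W.orthogonalProjectionOnto (Γ.Gq q - Γ.Gq p)‖ ≤ C * (4 / c) * ‖Γ.fh W fr u‖ := by
    refine (Submodule.norm_orthogonalProjectionOnto_apply_le W _).trans ((h2 q hu).trans ?_)
    rw [mul_assoc]
    exact mul_le_mul_of_nonneg_left n7 hC
  linarith

theorem fh_diff {t0 : T} {x0 : X} {r0 : ℝ} {ψ0 : EuclideanSpace ℂ (Fin n)}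
    (hψ : xx W fr 0 ψ0 = x0) (hN : Γ.N 0 x0 < Γ.R1)
    (hF : DifferentiableAt ℝ Γ.FF ((1 + r0) • t0, ((0 : Fin b → ℝ), x0)))
    (hG : DifferentiableAt ℝ Γ.Gq ((1 + r0) • t0, ((0 : Fin b → ℝ), x0))) :
    DifferentiableAt ℝ (Γ.fh W fr) ((1 + r0) • t0, ((0 : Fin b → ℝ), ψ0)) := by
  set p' : T × (Fin b → ℝ) × EuclideanSpace ℂ (Fin n) :=
    ((1 + r0) • t0, ((0 : Fin b → ℝ), ψ0)) with hp'
  have hJ : DifferentiableAt ℝ
      (fun u : T × (Fin b → ℝ) × EuclideanSpace ℂ (Fin n) => fr.J u.2.1 u.2.2) p' := by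
    refine da_apply ?_ (differentiableAt_snd.snd)
    exact (fr.smJ.differentiable (by simp)).differentiableAt.comp p' differentiableAt_snd.fst
  have hx : DifferentiableAt ℝ
      (fun u : T × (Fin b → ℝ) × EuclideanSpace ℂ (Fin n) => xx W fr u.2.1 u.2.2) p' :=
    da_apply (differentiableAt_const ((ContinuousLinearMap.fst ℂ X W).comp
      ((WithLp.prodContinuousLinearEquiv 2 ℂ X W : WithLp 2 (X × W) ≃L[ℂ] X × W) :
        WithLp 2 (X × W) →L[ℂ] X × W))) hJ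
  have hw : DifferentiableAt ℝ
      (fun u : T × (Fin b → ℝ) × EuclideanSpace ℂ (Fin n) => ww W fr u.2.1 u.2.2) p' :=
    da_apply (differentiableAt_const ((ContinuousLinearMap.snd ℂ X W).comp
      ((WithLp.prodContinuousLinearEquiv 2 ℂ X W : WithLp 2 (X × W) ≃L[ℂ] X × W) :
        WithLp 2 (X × W) →L[ℂ] X × W))) hJ
  have hQ : DifferentiableAt ℝ (Qm (T := T) W fr) p' :=
    differentiableAt_fst.prodMk (differentiableAt_snd.fst.prodMk hx)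
  have hQp : Qm W fr p' = ((1 + r0) • t0, ((0 : Fin b → ℝ), x0)) := by
    show ((1 + r0) • t0, ((0 : Fin b → ℝ), xx W fr 0 ψ0)) = _
    rw [hψ]
  rw [← hQp] at hF hG
  have hF' : DifferentiableAt ℝ (fun u => Γ.FF (Qm W fr u)) p' := hF.comp p' hQ
  have hG' : DifferentiableAt ℝ (fun u => Γ.Gq (Qm W fr u)) p' := hG.comp p' hQ
  have h1 : DifferentiableAt ℝ (fun u : T × (Fin b → ℝ) × EuclideanSpace ℂ (Fin n) =>
      rep W (-(ww W fr u.2.1 u.2.2) + W.orthogonalProjectionOnto (Γ.Gq (Qm W fr u)))) p' :=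
    da_apply (differentiableAt_const ((rep W).toContinuousLinearEquiv :
      W →L[ℂ] EuclideanSpace ℂ (Fin (finrank ℂ W))))
      (hw.neg.add (da_apply (differentiableAt_const (W.orthogonalProjectionOnto)) hG'))
  have h2 : DifferentiableAt ℝ (fun u : T × (Fin b → ℝ) × EuclideanSpace ℂ (Fin n) =>
      ((Γ.FF (Qm W fr u)).1.1,
      (rep W (-(ww W fr u.2.1 u.2.2) + W.orthogonalProjectionOnto (Γ.Gq (Qm W fr u))),
        (Γ.FF (Qm W fr u)).2))) p' :=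
    (hF'.fst.fst).prodMk (h1.prodMk hF'.snd)
  refine h2.congr_of_eventuallyEq ?_
  have h3 : ∀ᶠ u in 𝓝 p', Γ.N u.2.1 (xx W fr u.2.1 u.2.2) < Γ.R1 := by
    have hc' : ContinuousAt (fun u : T × (Fin b → ℝ) × EuclideanSpace ℂ (Fin n) =>
        Γ.N u.2.1 (xx W fr u.2.1 u.2.2)) p' :=
      (Γ.N_cont.comp ((continuous_fst.comp continuous_snd).prodMk
        ((xx_cont W fr).comp continuous_snd))).continuousAt
    refine hc'.eventually_lt_const ?_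
    show Γ.N 0 (xx W fr 0 ψ0) < Γ.R1
    rw [hψ]; exact hN
  filter_upwards [h3] with u hu
  exact Γ.fh_eval W fr hu.le

/-- injectivity of the derivative of the reduced collar map. -/
theorem inj_of_control {t0 : T} {x0 : X} {r0 ρ c1 c2 : ℝ} (hρ : 0 < ρ) {w0 : W}
    {ψ0 : EuclideanSpace ℂ (Fin n)} (hx : xx W fr 0 ψ0 = x0) (hw : ww W fr 0 ψ0 = w0)
    (h1 : ∀ u : T × (Fin b → ℝ) × EuclideanSpace ℂ (Fin n),
      ‖Qm W fr u - ((1 + r0) • t0, ((0 : Fin b → ℝ), x0))‖ ≤ ρ →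
      ‖Qm W fr u - ((1 + r0) • t0, ((0 : Fin b → ℝ), x0))‖ ≤ c1 * ‖Γ.fh W fr u‖ ∧
      ‖ww W fr u.2.1 u.2.2 - w0‖ ≤ c2 * ‖Γ.fh W fr u‖)
    (hc1 : 0 < c1) (hc2 : 0 < c2)
    {L : T × (Fin b → ℝ) × EuclideanSpace ℂ (Fin n) →L[ℝ]
      YR × (EuclideanSpace ℂ (Fin (finrank ℂ W)) × G)}
    (hL : HasFDerivAt (Γ.fh W fr) L ((1 + r0) • t0, ((0 : Fin b → ℝ), ψ0)))
    (h0 : Γ.fh W fr ((1 + r0) • t0, ((0 : Fin b → ℝ), ψ0)) = 0)
    {τ : T} {κ : Fin b → ℝ} {ξ : EuclideanSpace ℂ (Fin n)} (hξ : fr.P 0 ξ = ξ)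
    (hv : L (τ, κ, ξ) = 0) : τ = 0 ∧ κ = 0 ∧ ξ = 0 := by
  set p' : T × (Fin b → ℝ) × EuclideanSpace ℂ (Fin n) :=
    ((1 + r0) • t0, ((0 : Fin b → ℝ), ψ0)) with hp'
  set p : T × ((Fin b → ℝ) × X) := ((1 + r0) • t0, ((0 : Fin b → ℝ), x0)) with hp
  set vv : T × (Fin b → ℝ) × EuclideanSpace ℂ (Fin n) := (τ, κ, ξ) with hvv
  have hQc : Continuous (Qm (T := T) W fr) :=
    continuous_fst.prodMk ((continuous_fst.comp continuous_snd).prodMk
      ((xx_cont W fr).comp continuous_snd))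
  have hQp : Qm W fr p' = p := by
    show ((1 + r0) • t0, ((0 : Fin b → ℝ), xx W fr 0 ψ0)) = _
    rw [hx]
  have key : ∀ η > 0, ∃ e : ℝ, 0 < e ∧ ‖Qm W fr (p' + e • vv) - p‖ ≤ e * η ∧
      ‖ww W fr (p' + e • vv).2.1 (p' + e • vv).2.2 - w0‖ ≤ e * η := by
    intro η hη
    have hM : 0 < (c1 + c2) * (‖vv‖ + 1) := by positivity
    obtain ⟨ρ1, hρ1, h2⟩ := near_of hL (div_pos hη hM)
    have hcont : ContinuousAt (fun e : ℝ => Qm W fr (p' + e • vv)) 0 := by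
      have : Continuous (fun e : ℝ => Qm W fr (p' + e • vv)) :=
        hQc.comp (continuous_const.add (continuous_id.smul continuous_const))
      exact this.continuousAt
    have hev : ∀ᶠ e : ℝ in 𝓝 0, ‖Qm W fr (p' + e • vv) - p‖ < ρ := by
      have h3 : Metric.ball p ρ ∈ 𝓝 (Qm W fr (p' + (0 : ℝ) • vv)) := by
        rw [zero_smul, add_zero, hQp]; exact Metric.ball_mem_nhds _ hρ
      filter_upwards [hcont.preimage_mem_nhds h3] with e he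
      rwa [mem_preimage, mem_ball_iff_norm] at he
    obtain ⟨ρ2, hρ2, h4⟩ := Metric.eventually_nhds_iff.1 hev
    set e : ℝ := min (ρ1 / (‖vv‖ + 1)) (ρ2 / 2) with he
    have he0 : 0 < e := by positivity
    have he1 : e * (‖vv‖ + 1) ≤ ρ1 := by
      have : e ≤ ρ1 / (‖vv‖ + 1) := min_le_left _ _
      rwa [le_div_iff₀ (by positivity)] at this
    have he2 : e ≤ ρ2 / 2 := min_le_right _ _
    have h5 : p' + e • vv - p' = e • vv := by abel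
    have h6 : ‖e • vv‖ = e * ‖vv‖ := by rw [norm_smul, Real.norm_eq_abs, abs_of_pos he0]
    have h7 := h2 (p' + e • vv) (by rw [h5, h6]; nlinarith [norm_nonneg vv])
    rw [h0, sub_zero, h5, map_smul, hv, smul_zero, sub_zero, h6] at h7
    have h8 := h1 (p' + e • vv) (h4 (by
      rw [Real.dist_eq, sub_zero, abs_of_pos he0]; linarith)).le
    have h9 : (c1 + c2) * (η / ((c1 + c2) * (‖vv‖ + 1)) * (e * ‖vv‖)) ≤ e * η := by
      have : (c1 + c2) * (η / ((c1 + c2) * (‖vv‖ + 1)) * (e * ‖vv‖)) =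
          e * η * (‖vv‖ / (‖vv‖ + 1)) := by
        field_simp
      rw [this]
      have h10 : ‖vv‖ / (‖vv‖ + 1) ≤ 1 := by
        rw [div_le_one (by positivity)]; linarith
      calc e * η * (‖vv‖ / (‖vv‖ + 1)) ≤ e * η * 1 :=
            mul_le_mul_of_nonneg_left h10 (by positivity)
        _ = e * η := mul_one _
    have h11 : c1 * ‖Γ.fh W fr (p' + e • vv)‖ ≤ e * η := by
      refine le_trans ?_ h9
      calc c1 * ‖Γ.fh W fr (p' + e • vv)‖ ≤ (c1 + c2) * ‖Γ.fh W fr (p' + e • vv)‖ :=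
            mul_le_mul_of_nonneg_right (by linarith) (norm_nonneg _)
        _ ≤ _ := mul_le_mul_of_nonneg_left h7 (by linarith)
    have h12 : c2 * ‖Γ.fh W fr (p' + e • vv)‖ ≤ e * η := by
      refine le_trans ?_ h9
      calc c2 * ‖Γ.fh W fr (p' + e • vv)‖ ≤ (c1 + c2) * ‖Γ.fh W fr (p' + e • vv)‖ :=
            mul_le_mul_of_nonneg_right (by linarith) (norm_nonneg _)
        _ ≤ _ := mul_le_mul_of_nonneg_left h7 (by linarith)
    exact ⟨e, he0, h8.1.trans h11, h8.2.trans h12⟩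
  -- `τ = 0`, `κ = 0`
  have hτκ : τ = 0 ∧ κ = 0 := by
    have h13 : ∀ η > 0, ‖τ‖ ≤ η ∧ ‖κ‖ ≤ η := by
      intro η hη
      obtain ⟨e, he0, h8, -⟩ := key η hη
      have e1 : ‖(Qm W fr (p' + e • vv) - p).1‖ ≤ e * η := (norm_fst_le _).trans h8
      have e2 : ‖(Qm W fr (p' + e • vv) - p).2.1‖ ≤ e * η :=
        (norm_fst_le _).trans ((norm_snd_le _).trans h8)
      have e3 : (Qm W fr (p' + e • vv) - p).1 = e • τ := by
        show (1 + r0) • t0 + e • τ - (1 + r0) • t0 = _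
        abel
      have e4 : (Qm W fr (p' + e • vv) - p).2.1 = e • κ := by
        show (0 : Fin b → ℝ) + e • κ - 0 = _
        abel
      rw [e3, norm_smul, Real.norm_eq_abs, abs_of_pos he0] at e1
      rw [e4, norm_smul, Real.norm_eq_abs, abs_of_pos he0] at e2
      exact ⟨le_of_mul_le_mul_left e1 he0, le_of_mul_le_mul_left e2 he0⟩
    refine ⟨norm_le_zero_iff.1 (le_of_forall_pos_le_add fun η hη => ?_),
      norm_le_zero_iff.1 (le_of_forall_pos_le_add fun η hη => ?_)⟩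
    · rw [zero_add]; exact (h13 η hη).1
    · rw [zero_add]; exact (h13 η hη).2
  obtain ⟨rfl, rfl⟩ := hτκ
  refine ⟨rfl, rfl, ?_⟩
  have h14 : ∀ η > 0, ‖xx W fr 0 ξ‖ ≤ η ∧ ‖ww W fr 0 ξ‖ ≤ η := by
    intro η hη
    obtain ⟨e, he0, h8, h8'⟩ := key η hη
    have e2 : ‖(Qm W fr (p' + e • vv) - p).2.2‖ ≤ e * η :=
      (norm_snd_le _).trans ((norm_snd_le _).trans h8)
    have e0 : (p' + e • vv).2.1 = 0 := by
      show (0 : Fin b → ℝ) + e • (0 : Fin b → ℝ) = 0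
      simp
    have e00 : (p' + e • vv).2.2 = ψ0 + (e : ℂ) • ξ := by
      show ψ0 + e • ξ = _
      rw [← Complex.coe_smul e ξ]
    have e4 : (Qm W fr (p' + e • vv) - p).2.2 = (e : ℂ) • xx W fr 0 ξ := by
      show xx W fr (p' + e • vv).2.1 (p' + e • vv).2.2 - x0 = _
      rw [e0, e00, ← xx_smul, ← hx]
      show (fr.J 0 (ψ0 + (e : ℂ) • ξ)).fst - (fr.J 0 ψ0).fst = (fr.J 0 ((e : ℂ) • ξ)).fst
      rw [map_add]
      show (fr.J 0 ψ0).fst + (fr.J 0 ((e : ℂ) • ξ)).fst - (fr.J 0 ψ0).fst = _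
      abel
    have e5 : ww W fr (p' + e • vv).2.1 (p' + e • vv).2.2 - w0 = (e : ℂ) • ww W fr 0 ξ := by
      rw [e0, e00, ← ww_smul, ← hw]
      show (fr.J 0 (ψ0 + (e : ℂ) • ξ)).snd - (fr.J 0 ψ0).snd = (fr.J 0 ((e : ℂ) • ξ)).snd
      rw [map_add]
      show (fr.J 0 ψ0).snd + (fr.J 0 ((e : ℂ) • ξ)).snd - (fr.J 0 ψ0).snd = _
      abel
    rw [e4, norm_smul, Complex.norm_real, Real.norm_eq_abs, abs_of_pos he0] at e2
    rw [e5, norm_smul, Complex.norm_real, Real.norm_eq_abs, abs_of_pos he0] at h8'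
    exact ⟨le_of_mul_le_mul_left e2 he0, le_of_mul_le_mul_left h8' he0⟩
  have hx0 : xx W fr 0 ξ = 0 := norm_le_zero_iff.1 (le_of_forall_pos_le_add fun η hη => by
    rw [zero_add]; exact (h14 η hη).1)
  have hw0 : ww W fr 0 ξ = 0 := norm_le_zero_iff.1 (le_of_forall_pos_le_add fun η hη => by
    rw [zero_add]; exact (h14 η hη).2)
  have hJ : fr.J 0 ξ = 0 := PFam.ext2 hx0 hw0
  rw [← hξ, ← fr.l_J, hJ, map_zero]

end red3

/-- **the nondegenerate point over the boundary survives the reduction.** -/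
theorem one_ray {t0 : T} {x0 : X} {r0 : ℝ} (hp : Γ.Pt t0 x0 r0) :
    ∃ ε > 0, ∀ (W : Submodule ℂ Y) [FiniteDimensional ℂ W], Γ.K t0 x0 ∈ W → Γ.Appr W ε →
      ∀ {n : ℕ} (fr : Φ.Fr W n), OneRay fr.P (Γ.fR W fr) (Γ.fC W fr)
        ((0, Γ.v) : EuclideanSpace ℂ (Fin (finrank ℂ W)) × G) := by
  obtain ⟨c, hc, ρ, hρ, hρ1, hN, hF, ⟨C, hC, hGC⟩, htail, hGd⟩ := Γ.nbhd hp
  set p : T × ((Fin b → ℝ) × X) := ((1 + r0) • t0, ((0 : Fin b → ℝ), x0)) with hpdef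
  have hr0 := hp.r0_pos
  have hr : 0 < 1 + r0 := by linarith
  have hv0 : 0 < ‖Γ.v‖ := norm_pos_iff.2 Γ.v_ne
  -- the bound on the sphere
  obtain ⟨εa, hεa, ha⟩ := Γ.low_bound (S0 := {q | Γ.N q.2.1 q.2.2 = Γ.R1})
    (isClosed_eq (Γ.N_cont.comp continuous_snd) continuous_const)
    (fun q hq h1 _ _ h4 => Γ.bd q.1 q.2.1 q.2.2 h1 hq h4)
  have ha' : ∀ t h x, ‖t‖ ≤ 1 → h ∈ QQ b → Γ.N h x = Γ.R1 → Γ.Ec t h x = 0 →
      εa ≤ ‖Φ.D h x + Γ.K t x‖ := fun t h x h1 h2 h3 h4 => ha (t, h, x) h3 h1 h2 h3.le h4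
  -- the radius in `(t, h, x)`
  obtain ⟨ρ2, hρ2, hclose⟩ : ∃ ρ2 > 0, ∀ t h x (s : ℝ), ‖t‖ = 1 → 0 ≤ s →
      ‖((t, h, x) : T × (Fin b → ℝ) × X) - (t0, 0, x0)‖ < ρ2 → Γ.g t h x = (s : ℂ) • Γ.v →
      ‖(((1 + s) • t, (h, x)) : T × ((Fin b → ℝ) × X)) - p‖ ≤ ρ := by
    have hgc : ContinuousWithinAt (fun q : T × (Fin b → ℝ) × X => Γ.g q.1 q.2.1 q.2.2)
        {q | ‖q.1‖ ≤ 1} (t0, 0, x0) := Γ.g_cont _ hp.t0_norm.le
    obtain ⟨δ, hδ, hδg⟩ := Metric.continuousWithinAt_iff.1 hgc (‖Γ.v‖ * (ρ / 4)) (by positivity)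
    refine ⟨min δ (min ρ (ρ / (4 * (1 + r0)))), by positivity, fun t h x s ht hs hd hg => ?_⟩
    have d1 := hd.trans_le (min_le_left _ _)
    have d2 := hd.trans_le ((min_le_right _ _).trans (min_le_left _ _))
    have d3 := hd.trans_le ((min_le_right _ _).trans (min_le_right _ _))
    have e1 := hδg (x := (t, h, x)) ht.le (by rw [dist_eq_norm]; exact d1)
    rw [dist_eq_norm] at e1
    have e2 : Γ.g t h x - Γ.g t0 0 x0 = ((s - r0 : ℝ) : ℂ) • Γ.v := by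
      rw [hg, hp.g0, Complex.ofReal_sub, sub_smul]
    rw [e2, norm_smul, Complex.norm_real, Real.norm_eq_abs, mul_comm] at e1
    have e3 : |s - r0| < ρ / 4 := lt_of_mul_lt_mul_left e1 hv0.le
    have e4 : ‖t - t0‖ < ρ / (4 * (1 + r0)) := (norm_fst_le _).trans_lt d3
    have e5 : ‖((h, x) : (Fin b → ℝ) × X) - (0, x0)‖ < ρ := (norm_snd_le _).trans_lt d2
    have e6 : ‖(1 + s) • t - (1 + r0) • t0‖ ≤ ρ := by
      have : (1 + s) • t - (1 + r0) • t0 = (s - r0) • t + (1 + r0) • (t - t0) := by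
        rw [smul_sub, sub_smul, add_smul, add_smul]; abel_nf
        rw [add_smul, one_smul]; abel
      rw [this]
      refine (norm_add_le _ _).trans ?_
      rw [norm_smul, norm_smul, ht, Real.norm_eq_abs, Real.norm_eq_abs, abs_of_pos hr]
      have h7 : (1 + r0) * ‖t - t0‖ ≤ ρ / 4 := by
        have h8 : (1 + r0) * ‖t - t0‖ ≤ (1 + r0) * (ρ / (4 * (1 + r0))) :=
          mul_le_mul_of_nonneg_left e4.le hr.le
        have h9 : (1 + r0) * (ρ / (4 * (1 + r0))) = ρ / 4 := by field_simp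
        linarith
      linarith
    exact max_le e6 e5.le
  -- the bound away from the point
  let A : Set (T × (Fin b → ℝ) × X) := {q | ‖q.1‖ ≤ 1}
  have hA : IsClosed A := isClosed_le continuous_fst.norm continuous_const
  have hgray : IsClosed (A ∩ (fun q : T × (Fin b → ℝ) × X => Γ.g q.1 q.2.1 q.2.2) ⁻¹'
      {y : G | ∃ s : ℝ, 0 ≤ s ∧ y = (s : ℂ) • Γ.v}) :=
    Γ.g_cont.preimage_isClosed_of_isClosed hA (g_ray_closed Γ.v)
  have hcl1 : IsClosed {q : T × (Fin b → ℝ) × X | ‖q.1‖ = 1} :=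
    isClosed_eq continuous_fst.norm continuous_const
  have hcl2 : IsClosed {q : T × (Fin b → ℝ) × X | ‖q.2.1‖ ≤ 1 / 2} :=
    isClosed_le (continuous_fst.comp continuous_snd).norm continuous_const
  have hcl3 : IsClosed {q : T × (Fin b → ℝ) × X | ρ2 ≤ ‖q - (t0, 0, x0)‖} :=
    isClosed_le continuous_const (continuous_id.sub continuous_const).norm
  obtain ⟨εc, hεc, hcc⟩ := Γ.low_bound
    (hgray.inter (hcl1.inter (hcl2.inter hcl3)))
    (fun q hq h1 h2 h3 h4 h5 => by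
      obtain ⟨⟨-, s, hs, hg⟩, ht1, hh, hd⟩ := hq
      obtain ⟨e1, k, e2, e3⟩ := hp.uniq q.1 q.2.1 q.2.2 s ht1 hs h3 h4 h5 hg
      have hk : k = 0 := by
        funext j
        have hh' : ‖q.2.1‖ ≤ 1 / 2 := hh
        have h6 : ‖q.2.1 j‖ ≤ 1 / 2 := (norm_le_pi_norm _ j).trans hh'
        rw [e2, Real.norm_eq_abs] at h6
        have h7 : |(k j : ℝ)| ≤ 1 / 2 := h6
        have h8 : |k j| < 1 := by
          have : ((|k j| : ℤ) : ℝ) < 1 := by rw [Int.cast_abs]; linarith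
          exact_mod_cast this
        simpa using Int.abs_lt_one_iff.1 h8
      rw [hk, zv_zero] at e2
      rw [hk, Φ.U_zero] at e3
      have e4 : q = (t0, 0, x0) := Prod.ext e1 (Prod.ext e2 e3)
      have hd' : ρ2 ≤ ‖q - (t0, 0, x0)‖ := hd
      rw [e4, sub_self, norm_zero] at hd'
      linarith)
  refine ⟨min εa (min εc (c / 12 * ρ)), by positivity, fun W _ hKW hW n fr => ?_⟩
  have hWa : Γ.Appr W εa := fun t h x h1 h2 h3 => (hW t h x h1 h2 h3).trans_le (min_le_left _ _)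
  have hWc : Γ.Appr W εc := fun t h x h1 h2 h3 =>
    (hW t h x h1 h2 h3).trans_le ((min_le_right _ _).trans (min_le_left _ _))
  have hWr : Γ.Appr W (c / 12 * ρ) := fun t h x h1 h2 h3 =>
    (hW t h x h1 h2 h3).trans_le ((min_le_right _ _).trans (min_le_right _ _))
  -- the tail estimate
  have hGp : Γ.Gq p = Γ.K t0 x0 := by
    show Φ.Th (-(0 : Fin b → ℝ)) (Γ.K (‖(1 + r0) • t0‖⁻¹ • ((1 + r0) • t0)) x0) = _
    rw [norm_inv_smul hp.t0_norm hr, neg_zero, Φ.Th_zero]; rfl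
  have hQQ : ∀ q : T × ((Fin b → ℝ) × X), ‖q - p‖ ≤ ρ → q.2.1 ∈ QQ b := by
    intro q hq
    have h1 : ‖q.2.1‖ ≤ ρ := by
      have h2 : ‖(q - p).2.1‖ ≤ ρ := (norm_fst_le _).trans ((norm_snd_le _).trans hq)
      have h3 : (q - p).2.1 = q.2.1 := by
        show q.2.1 - 0 = q.2.1
        rw [sub_zero]
      rwa [h3] at h2
    refine ⟨fun j => ?_, fun j => ?_⟩
    · have h4 := (norm_le_pi_norm q.2.1 j).trans h1
      rw [Real.norm_eq_abs] at h4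
      have := (abs_le.1 h4).1
      show (-1 : ℝ) ≤ q.2.1 j
      linarith
    · have h4 := (norm_le_pi_norm q.2.1 j).trans h1
      rw [Real.norm_eq_abs] at h4
      have := (abs_le.1 h4).2
      show q.2.1 j ≤ (1 : ℝ)
      linarith
  have ht := htail W (by rw [hGp]; exact hKW) (fun q hq =>
    (hWr _ _ _ (norm_bar_le q.1) (hQQ q hq)
      (Γ.norm_le_of_N (hQQ q hq) (hN q hq).le)).le)
  -- the point
  set w0 : W := ⟨Γ.K t0 x0, hKW⟩ with hw0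
  set z0 : WithLp 2 (X × W) := WithLp.toLp 2 (x0, w0) with hz0
  have hAz : Φ.A W 0 z0 = 0 := by
    rw [PFam.A_apply]
    show Φ.D 0 x0 + Φ.Th 0 (Γ.K t0 x0) = 0
    rw [Φ.Th_zero]
    exact hp.zero2
  set ψ0 := fr.l 0 z0 with hψ0
  have hJ : fr.J 0 ψ0 = z0 := fr.J_l 0 z0 hAz
  have hxx : xx W fr 0 ψ0 = x0 := by rw [xx, hJ]; rfl
  have hww : ww W fr 0 ψ0 = w0 := by rw [ww, hJ]; rfl
  have hPψ : fr.P 0 ψ0 = ψ0 := fr.P_l 0 z0 hAz
  have hpr : W.orthogonalProjectionOnto (Γ.Gq p) = w0 := by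
    rw [hGp]
    exact Submodule.orthogonalProjectionOnto_mem_subspace_eq_self w0
  have hctrl : ∀ u : T × (Fin b → ℝ) × EuclideanSpace ℂ (Fin n), ‖Qm W fr u - p‖ ≤ ρ →
      ‖Qm W fr u - p‖ ≤ 4 / c * ‖Γ.fh W fr u‖ ∧
      ‖ww W fr u.2.1 u.2.2 - w0‖ ≤ (1 + C * (4 / c)) * ‖Γ.fh W fr u‖ := by
    intro u hu
    have := Γ.control W fr hc hC hN hF hGC ht hu
    rwa [hpr] at this
  -- the values at the point
  have hN0 : Γ.N 0 (xx W fr 0 ψ0) ≤ Γ.R1 := by rw [hxx]; exact hp.inside.le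
  have hfR0 : Γ.fR W fr (t0, 0, ψ0) = 0 := by
    rw [Γ.fR_eval W fr hp.t0_norm.le hN0, hxx, hp.zero1]
  have hfW0 : Γ.fW W fr (t0, 0, ψ0) = 0 := by
    rw [Γ.fW_eval W fr hp.t0_norm.le hN0, hxx, hww]
    have h1 : Φ.Th (-(0 : Fin b → ℝ)) (Γ.K t0 x0) = (w0 : Y) := by
      rw [neg_zero, Φ.Th_zero]; rfl
    rw [h1, Submodule.orthogonalProjectionOnto_mem_subspace_eq_self, neg_add_cancel]
  have hfC0 : Γ.fC W fr (t0, 0, ψ0) =
      (r0 : ℂ) • ((0, Γ.v) : EuclideanSpace ℂ (Fin (finrank ℂ W)) × G) := by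
    refine Prod.ext ?_ ?_
    · show rep W (Γ.fW W fr (t0, 0, ψ0)) = (r0 : ℂ) • (0 : EuclideanSpace ℂ (Fin (finrank ℂ W)))
      rw [hfW0, map_zero, smul_zero]
    · show Γ.g (cl t0) 0 (xx W fr 0 ψ0) = (r0 : ℂ) • Γ.v
      rw [hxx, cl_of_le hp.t0_norm.le, hp.g0]
  -- the collar map at a solution on the ray
  have hfh : ∀ (t : T) (h : Fin b → ℝ) (ψ : EuclideanSpace ℂ (Fin n)) (s : ℝ), ‖t‖ = 1 →
      0 ≤ s → fr.P h ψ = ψ → Γ.fR W fr (t, h, ψ) = 0 → Γ.fC W fr (t, h, ψ) =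
        (s : ℂ) • ((0, Γ.v) : EuclideanSpace ℂ (Fin (finrank ℂ W)) × G) →
      Γ.fh W fr ((1 + s) • t, (h, ψ)) = 0 := by
    intro t h ψ s ht1 hs hP hR hCC
    have hs' : 0 < 1 + s := by linarith
    have e1 : ‖(1 + s) • t‖ - 1 = s := by
      rw [norm_smul, ht1, Real.norm_eq_abs, abs_of_pos hs']; ring
    show (Γ.fR W fr (‖(1 + s) • t‖⁻¹ • ((1 + s) • t), h, fr.P h ψ),
      Γ.fC W fr (‖(1 + s) • t‖⁻¹ • ((1 + s) • t), h, fr.P h ψ) -
      ((‖(1 + s) • t‖ - 1 : ℝ) : ℂ) •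
        ((0, Γ.v) : EuclideanSpace ℂ (Fin (finrank ℂ W)) × G)) = 0
    rw [norm_inv_smul ht1 hs', e1, hP, hR, hCC, sub_self]
    rfl
  have hFd : DifferentiableAt ℝ Γ.FF p := hp.der.choose_spec.1.differentiableAt
  have hLd := Γ.fh_diff W fr (t0 := t0) (r0 := r0) hxx hp.inside hFd hGd
  refine ⟨t0, 0, ψ0, r0, fderiv ℝ (Γ.fh W fr) ((1 + r0) • t0, ((0 : Fin b → ℝ), ψ0)),
    hp.t0_norm, hPψ, hr0, hfR0, hfC0, ?_, hLd.hasFDerivAt, ?_⟩
  · intro t h ψ s ht1 hP hs hR hCC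
    obtain ⟨k, h', hh', rfl⟩ := exists_cube' h
    rw [fr.P_per] at hP
    rw [Γ.fR_per] at hR
    rw [Γ.fC_per] at hCC
    have hQ' : h' ∈ QQ b := mem_QQ hh'
    have hfW : Γ.fW W fr (t, h', ψ) = 0 := by
      have h2 : (Γ.fC W fr (t, h', ψ)).1 = ((s : ℂ) • ((0, Γ.v) :
        EuclideanSpace ℂ (Fin (finrank ℂ W)) × G)).1 := congrArg Prod.fst hCC
      rw [Prod.smul_fst, smul_zero] at h2
      exact (map_eq_zero_iff (rep W) (rep W).injective).1 h2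
    obtain ⟨b1, b2, b3, b4⟩ := Γ.inside W fr hWa ha' ht1.le hQ' hR hfW
    have b5 : ‖Φ.D h' (xx W fr h' ψ) + Γ.K t (xx W fr h' ψ)‖ < εc := by
      have := Γ.small W fr hWc hQ' hfW
      rwa [cl_of_le ht1.le, Γ.rr_of_le b1.le, Complex.ofReal_one, one_smul] at this
    have hg : Γ.g t h' (xx W fr h' ψ) = (s : ℂ) • Γ.v := by
      have h2 : Γ.g (cl t) h' (xx W fr h' ψ) = (s : ℂ) • Γ.v := congrArg Prod.snd hCC
      rwa [cl_of_le ht1.le] at h2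
    have b6 : ‖((t, h', xx W fr h' ψ) : T × (Fin b → ℝ) × X) - (t0, 0, x0)‖ < ρ2 := by
      by_contra hcon
      push Not at hcon
      have := hcc (t, h', xx W fr h' ψ) ⟨⟨ht1.le, s, hs, hg⟩, ht1, hh', hcon⟩ ht1.le hQ' b1.le b2
      exact absurd b5 (not_lt.2 this)
    have b7 := hclose t h' (xx W fr h' ψ) s ht1 hs b6 hg
    have b8 := hctrl ((1 + s) • t, (h', ψ)) b7
    rw [hfh t h' ψ s ht1 hs hP hR hCC, norm_zero, mul_zero, mul_zero] at b8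
    have b9 : Qm W fr ((1 + s) • t, (h', ψ)) = p :=
      sub_eq_zero.1 (norm_le_zero_iff.1 b8.1)
    have b10 : ww W fr h' ψ = w0 := sub_eq_zero.1 (norm_le_zero_iff.1 b8.2)
    have c1 : (1 + s) • t = (1 + r0) • t0 := congrArg Prod.fst b9
    have c2 : h' = 0 := congrArg (fun q : T × ((Fin b → ℝ) × X) => q.2.1) b9
    have c3 : xx W fr h' ψ = x0 := congrArg (fun q : T × ((Fin b → ℝ) × X) => q.2.2) b9
    subst c2
    have hs' : 0 < 1 + s := by linarith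
    have c4 : s = r0 := by
      have := congrArg norm c1
      rw [norm_smul, norm_smul, ht1, hp.t0_norm, Real.norm_eq_abs, Real.norm_eq_abs,
        abs_of_pos hs', abs_of_pos hr] at this
      linarith
    subst c4
    have c5 : t = t0 := by
      have := congrArg (fun y : T => (1 + s)⁻¹ • y) c1
      simpa [smul_smul, inv_mul_cancel₀ hs'.ne'] using this
    have c6 : ψ = ψ0 := by
      have h1 : fr.J 0 ψ = z0 := PFam.ext2 c3 b10
      rw [hψ0, ← h1, fr.l_J, hP]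
    refine ⟨c5, c6, rfl, k, ?_⟩
    funext i
    rfl
  · intro τ κ ξ hξ hv
    have hfh0 := hfh t0 0 ψ0 r0 hp.t0_norm hr0.le hPψ hfR0 hfC0
    exact Γ.inj_of_control W fr hρ hxx hww hctrl (by positivity) (by positivity)
      hLd.hasFDerivAt hfh0 hξ hv

end Core

end one

end Crest.Agent.R235.FamR_151
end

-- ▼ part R235/FamE_151

/-!
Row 235 (S0364), helper151. Block FAM: reparametrisation of the parameter ball. An abstract
"Hopf map" `pi : S³ → S²` is replaced by the standard one, and the family is made constant near the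
base point, by a continuous map `th` of the ball.
-/

set_option autoImplicit false
set_option linter.unusedSectionVars false

open Set Filter Topology Module

namespace Crest.Agent.R235.FamE_151

open Hopf_143

section rad

variable {𝕜 E V : Type*} [RCLike 𝕜] [NormedAddCommGroup E] [NormedSpace 𝕜 E] [ProperSpace E]
  [NormedAddCommGroup V] [NormedSpace ℝ V]

/-- radial extension of a map on the sphere. -/
noncomputable def rad (𝕜 : Type*) {E V : Type*} [RCLike 𝕜] [NormedAddCommGroup E]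
    [NormedSpace 𝕜 E] [NormedAddCommGroup V] [NormedSpace ℝ V] (F : E → V) (s : E) : V :=
  ‖s‖ • F (((‖s‖⁻¹ : ℝ) : 𝕜) • s)

theorem norm_unit {s : E} (hs : s ≠ 0) : ‖((‖s‖⁻¹ : ℝ) : 𝕜) • s‖ = 1 := by
  rw [norm_smul, RCLike.norm_ofReal, abs_of_nonneg (inv_nonneg.2 (norm_nonneg s)),
    inv_mul_cancel₀ (norm_ne_zero_iff.2 hs)]

theorem continuous_rad {F : E → V} (hc : ContinuousOn F (Metric.sphere 0 1)) :
    Continuous (rad 𝕜 F) := by
  rw [continuous_iff_continuousAt]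
  intro s
  by_cases hs : s = 0
  · subst hs
    obtain ⟨C, hC⟩ := (isCompact_sphere (0 : E) 1).exists_bound_of_continuousOn hc
    have h0 : rad 𝕜 F 0 = 0 := by simp [rad]
    rw [ContinuousAt, h0]
    have hb : ∀ s : E, ‖rad 𝕜 F s‖ ≤ ‖s‖ * |C| := by
      intro s
      by_cases hs : s = 0
      · subst hs
        simp [rad]
      · unfold rad
        rw [norm_smul, norm_norm]
        refine mul_le_mul_of_nonneg_left ((hC _ ?_).trans (le_abs_self C)) (norm_nonneg _)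
        rw [mem_sphere_zero_iff_norm]
        exact norm_unit hs
    refine squeeze_zero_norm hb ?_
    have : Tendsto (fun s : E => ‖s‖ * |C|) (𝓝 0) (𝓝 (‖(0 : E)‖ * |C|)) :=
      (continuous_norm.mul continuous_const).tendsto 0
    simpa using this
  · have hopen : IsOpen {s : E | s ≠ 0} := isOpen_ne
    have hco : ContinuousOn (rad 𝕜 F) {s : E | s ≠ 0} := by
      have h0 : ContinuousOn (fun s : E => ((‖s‖⁻¹ : ℝ) : 𝕜)) {s : E | s ≠ 0} := by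
        refine RCLike.continuous_ofReal.comp_continuousOn ?_
        exact continuous_norm.continuousOn.inv₀ fun s hs => norm_ne_zero_iff.2 hs
      have h1 : ContinuousOn (fun s : E => ((‖s‖⁻¹ : ℝ) : 𝕜) • s) {s : E | s ≠ 0} :=
        h0.smul continuousOn_id
      have h2 : MapsTo (fun s : E => ((‖s‖⁻¹ : ℝ) : 𝕜) • s) {s : E | s ≠ 0}
          (Metric.sphere 0 1) := by
        intro s hs
        rw [mem_sphere_zero_iff_norm]
        exact norm_unit hs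
      exact continuous_norm.continuousOn.smul (hc.comp h1 h2)
    exact hco.continuousAt (hopen.mem_nhds hs)

theorem rad_of_norm {F : E → V} {s : E} (hs : ‖s‖ = 1) : rad 𝕜 F s = F s := by
  simp [rad, hs]

end rad

/-! ### descending through the Hopf map -/

section desc

variable {V : Type*} [NormedAddCommGroup V] [NormedSpace ℝ V]

/-- the function on `E3` which descends a phase invariant function on `S³`. -/
noncomputable def desc (f : C2 → V) (t : E3) : V :=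
  (1 / 4 : ℝ) • (‖sig t‖ • rad ℂ f (sig t) + ‖sig' t‖ • rad ℂ f (sig' t))

theorem continuous_desc {f : C2 → V} (hc : ContinuousOn f (Metric.sphere 0 1)) :
    Continuous (desc f) := by
  have h1 : Continuous (rad ℂ f) := continuous_rad hc
  unfold desc
  exact continuous_const.smul ((continuous_sig.norm.smul (h1.comp continuous_sig)).add
    (continuous_sig'.norm.smul (h1.comp continuous_sig')))

theorem rad_smul {f : C2 → V} (hz : ∀ z : ℂ, ‖z‖ = 1 → ∀ s, ‖s‖ = 1 → f (z • s) = f s)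
    (c : ℂ) {s : C2} (hs : ‖s‖ = 1) : rad ℂ f (c • s) = ‖c‖ • f s := by
  by_cases hc : c = 0
  · subst hc; simp [rad]
  · have hc0 : (0 : ℝ) < ‖c‖ := norm_pos_iff.2 hc
    have h1 : ‖c • s‖ = ‖c‖ := by rw [norm_smul, hs, mul_one]
    unfold rad
    rw [h1, smul_smul, hz _ _ s hs]
    rw [norm_mul, RCLike.norm_ofReal, abs_of_pos (inv_pos.2 hc0), inv_mul_cancel₀ hc0.ne']

theorem desc_hopf {f : C2 → V} (hz : ∀ z : ℂ, ‖z‖ = 1 → ∀ s, ‖s‖ = 1 → f (z • s) = f s)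
    {s : C2} (hs : ‖s‖ = 1) : desc f (hopf s) = f s := by
  have h := norm_sq2 s
  rw [hs, one_pow] at h
  have n1 : ‖(2 : ℂ) * (starRingEnd ℂ) (s 0)‖ = 2 * ‖s 0‖ := by
    rw [norm_mul, RCLike.norm_conj]; norm_num
  have n2 : ‖(2 : ℂ) * (starRingEnd ℂ) (s 1)‖ = 2 * ‖s 1‖ := by
    rw [norm_mul, RCLike.norm_conj]; norm_num
  unfold desc
  rw [sig_hopf hs, sig'_hopf hs, rad_smul hz _ hs, rad_smul hz _ hs, norm_smul, norm_smul, hs,
    mul_one, mul_one, n1, n2, smul_smul, smul_smul, ← add_smul, smul_smul]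
  have : (1 / 4 : ℝ) * (2 * ‖s 0‖ * (2 * ‖s 0‖) + 2 * ‖s 1‖ * (2 * ‖s 1‖)) = 1 := by
    nlinarith
  rw [this, one_smul]

/-- the Hopf map is onto the sphere. -/
theorem hopf_surj {t : E3} (ht : ‖t‖ = 1) : ∃ s : C2, ‖s‖ = 1 ∧ hopf s = t := by
  by_cases h0 : 0 < 1 + t 0
  · exact exists_hopf ht h0
  · have h := norm_sq3 t
    rw [ht, one_pow] at h
    have h1 : t 0 ≤ -1 := by linarith
    have h2 : t 0 = -1 := by nlinarith [sq_nonneg (t 1), sq_nonneg (t 2)]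
    have h3 : t 1 = 0 := by
      have : t 1 ^ 2 = 0 := by nlinarith [sq_nonneg (t 1), sq_nonneg (t 2)]
      exact pow_eq_zero_iff (two_ne_zero) |>.1 this
    have h4 : t 2 = 0 := by
      have : t 2 ^ 2 = 0 := by nlinarith [sq_nonneg (t 1), sq_nonneg (t 2)]
      exact pow_eq_zero_iff (two_ne_zero) |>.1 this
    refine ⟨WithLp.toLp 2 ![0, 1], ?_, ?_⟩
    · have h5 := norm_sq2 (WithLp.toLp 2 ![0, 1])
      have h6 : (WithLp.toLp 2 ![(0 : ℂ), 1] : C2) 0 = 0 := rfl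
      have h7 : (WithLp.toLp 2 ![(0 : ℂ), 1] : C2) 1 = 1 := rfl
      rw [h6, h7, norm_zero, norm_one] at h5
      nlinarith [norm_nonneg (WithLp.toLp 2 ![(0 : ℂ), 1] : C2)]
    · have h6 : (WithLp.toLp 2 ![(0 : ℂ), 1] : C2) 0 = 0 := rfl
      have h7 : (WithLp.toLp 2 ![(0 : ℂ), 1] : C2) 1 = 1 := rfl
      refine ext3 ?_ ?_ ?_
      · rw [hopf_0, h6, h7, h2]; simp
      · rw [hopf_1, h6, h7, h3]; simp
      · rw [hopf_2, h6, h7, h4]; simp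

theorem norm_hopf (s : C2) : ‖hopf s‖ = ‖s‖ ^ 2 := by
  have h1 := norm_sq3 (hopf s)
  have h2 := norm_sq2 s
  have h3 : (s 0 * star (s 1)).re ^ 2 + (s 0 * star (s 1)).im ^ 2 = (‖s 0‖ * ‖s 1‖) ^ 2 := by
    have : ‖s 0 * star (s 1)‖ ^ 2 = (s 0 * star (s 1)).re ^ 2 + (s 0 * star (s 1)).im ^ 2 := by
      rw [← Complex.normSq_eq_norm_sq, Complex.normSq_apply]; ring
    rw [← this, norm_mul, norm_star]
  have h4 : ‖hopf s‖ ^ 2 = (‖s‖ ^ 2) ^ 2 := by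
    rw [h1, h2, hopf_0, hopf_1, hopf_2]
    nlinarith
  exact (pow_left_inj₀ (norm_nonneg _) (by positivity) two_ne_zero).1 h4


end desc

/-! ### the pinch map -/

section pinch

variable (δ : ℝ)

/-- the factor. -/
noncomputable def mu (s : C2) : ℝ := min 1 (max 0 (‖s 1‖ ^ 2 / δ - 1))

theorem mu_nonneg (s : C2) : 0 ≤ mu δ s := le_min zero_le_one (le_max_left _ _)

theorem mu_le (s : C2) : mu δ s ≤ 1 := min_le_left _ _

/-- the unnormalised pinch map. -/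
noncomputable def nn (s : C2) : C2 := WithLp.toLp 2 ![s 0, (mu δ s : ℂ) * s 1]

theorem nn_0 (s : C2) : nn δ s 0 = s 0 := rfl
theorem nn_1 (s : C2) : nn δ s 1 = (mu δ s : ℂ) * s 1 := rfl

/-- the pinch map of `S³`: constant (up to phase) near `s0`. -/
noncomputable def ph (s : C2) : C2 := ((‖nn δ s‖⁻¹ : ℝ) : ℂ) • nn δ s

variable {δ}

theorem nn_ne (hδ : 0 < δ) (hδ1 : δ < 1) {s : C2} (hs : ‖s‖ = 1) : nn δ s ≠ 0 := by
  intro h
  have h0 : s 0 = 0 := by rw [← nn_0 δ s, h]; rfl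
  have h1 : (mu δ s : ℂ) * s 1 = 0 := by rw [← nn_1 δ s, h]; rfl
  have h2 := norm_sq2 s
  rw [hs, h0, norm_zero] at h2
  have h3 : ‖s 1‖ ^ 2 = 1 := by linarith
  rcases mul_eq_zero.1 h1 with h4 | h4
  · have h5 : mu δ s = 0 := Complex.ofReal_eq_zero.1 h4
    unfold mu at h5
    rw [h3] at h5
    have h6 : 0 < 1 / δ - 1 := by
      rw [sub_pos, lt_div_iff₀ hδ]; linarith
    have h7 : 0 < min 1 (max 0 (1 / δ - 1)) := lt_min one_pos (lt_of_lt_of_le h6 (le_max_right _ _))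
    linarith
  · rw [h4, norm_zero] at h3
    norm_num at h3

theorem continuous_mu (δ : ℝ) : Continuous (mu δ) := by
  unfold mu
  fun_prop

theorem continuous_nn (δ : ℝ) : Continuous (nn δ) := by
  have h1 := continuous_mu δ
  unfold nn
  refine (PiLp.continuous_toLp 2 _).comp (continuous_pi fun i => ?_)
  fin_cases i
  · show Continuous fun s : C2 => s 0
    fun_prop
  · show Continuous fun s : C2 => (mu δ s : ℂ) * s 1
    fun_prop

theorem norm_ph (hδ : 0 < δ) (hδ1 : δ < 1) {s : C2} (hs : ‖s‖ = 1) : ‖ph δ s‖ = 1 :=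
  norm_unit (𝕜 := ℂ) (nn_ne hδ hδ1 hs)

theorem continuousOn_ph (hδ : 0 < δ) (hδ1 : δ < 1) :
    ContinuousOn (ph δ) (Metric.sphere 0 1) := by
  unfold ph
  have h0 : ContinuousOn (fun s : C2 => ((‖nn δ s‖⁻¹ : ℝ) : ℂ)) (Metric.sphere 0 1) := by
    refine Complex.continuous_ofReal.comp_continuousOn ?_
    exact (continuous_nn δ).norm.continuousOn.inv₀ fun s hs =>
      norm_ne_zero_iff.2 (nn_ne hδ hδ1 (mem_sphere_zero_iff_norm.1 hs))
  exact h0.smul (continuous_nn δ).continuousOn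

theorem mu_smul {z : ℂ} (hz : ‖z‖ = 1) (s : C2) : mu δ (z • s) = mu δ s := by
  unfold mu
  have : ‖(z • s) 1‖ = ‖s 1‖ := by
    show ‖z * s 1‖ = _
    rw [norm_mul, hz, one_mul]
  rw [this]

theorem nn_smul {z : ℂ} (hz : ‖z‖ = 1) (s : C2) : nn δ (z • s) = z • nn δ s := by
  refine ext2 ?_ ?_
  · rfl
  · show (mu δ (z • s) : ℂ) * (z * s 1) = z * ((mu δ s : ℂ) * s 1)
    rw [mu_smul hz]; ring

theorem ph_smul {z : ℂ} (hz : ‖z‖ = 1) (s : C2) : ph δ (z • s) = z • ph δ s := by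
  unfold ph
  rw [nn_smul hz, norm_smul, hz, one_mul, smul_comm]

theorem ph_near (hδ : 0 < δ) (hδ1 : δ < 1) {s : C2} (hs : ‖s‖ = 1) (h : ‖s 1‖ ^ 2 ≤ δ) :
    ∃ z : ℂ, ‖z‖ = 1 ∧ ph δ s = z • s0 := by
  have hm : mu δ s = 0 := by
    unfold mu
    have : ‖s 1‖ ^ 2 / δ - 1 ≤ 0 := by
      rw [sub_nonpos, div_le_one hδ]; exact h
    rw [max_eq_left this]
    simp
  have hn : nn δ s = s 0 • s0 := by
    refine ext2 ?_ ?_
    · show s 0 = s 0 * s0 0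
      rw [s0_0, mul_one]
    · show (mu δ s : ℂ) * s 1 = s 0 * s0 1
      rw [hm, s0_1]; simp
  by_cases h0 : s 0 = 0
  · exfalso
    have h2 := norm_sq2 s
    rw [hs, h0, norm_zero] at h2
    linarith
  · refine ⟨((‖s 0‖⁻¹ : ℝ) : ℂ) * s 0, ?_, ?_⟩
    · rw [norm_mul, Complex.norm_real, norm_inv, norm_norm, inv_mul_cancel₀
        (norm_ne_zero_iff.2 h0)]
    · unfold ph
      rw [hn, norm_smul, norm_s0, mul_one, smul_smul]

theorem ph_far (hδ : 0 < δ) {s : C2} (hs : ‖s‖ = 1) (h : 2 * δ ≤ ‖s 1‖ ^ 2) : ph δ s = s := by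
  have hm : mu δ s = 1 := by
    unfold mu
    have : 1 ≤ ‖s 1‖ ^ 2 / δ - 1 := by
      rw [le_sub_iff_add_le, le_div_iff₀ hδ]; linarith
    exact min_eq_left (this.trans (le_max_right _ _))
  have hn : nn δ s = s := by
    refine ext2 rfl ?_
    show (mu δ s : ℂ) * s 1 = s 1
    rw [hm]; simp
  unfold ph
  rw [hn, hs]; simp

end pinch

theorem dist_hopf {s : C2} (hs : ‖s‖ = 1) : ‖hopf s - hopf s0‖ ^ 2 = 4 * ‖s 1‖ ^ 2 := by
  have h1 := norm_sq3 (hopf s - hopf s0)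
  have h2 := norm_sq3 (hopf s)
  have h3 := norm_sq2 s
  rw [hs, one_pow] at h3
  rw [norm_hopf, hs, one_pow] at h2
  have e0 : (hopf s - hopf s0) 0 = hopf s 0 - 1 := by
    show hopf s 0 - hopf s0 0 = _
    rw [hopf_s0_0]
  have e1 : (hopf s - hopf s0) 1 = hopf s 1 := by
    show hopf s 1 - hopf s0 1 = _
    rw [hopf_s0_1, sub_zero]
  have e2 : (hopf s - hopf s0) 2 = hopf s 2 := by
    show hopf s 2 - hopf s0 2 = _
    rw [hopf_s0_2, sub_zero]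
  have e3 : hopf s 0 = ‖s 0‖ ^ 2 - ‖s 1‖ ^ 2 := rfl
  rw [h1, e0, e1, e2]
  nlinarith

theorem ph_close {η : ℝ} (hη : 0 < η) : ∃ δ : ℝ, 0 < δ ∧ δ < 1 ∧
    ∀ s : C2, ‖s‖ = 1 → ‖hopf (ph δ s) - hopf s‖ ≤ η := by
  set δ : ℝ := min (1 / 4) (η ^ 2 / 64) with hδdef
  have hδ : 0 < δ := by positivity
  have hδ4 : δ ≤ 1 / 4 := min_le_left _ _
  have hδη : δ ≤ η ^ 2 / 64 := min_le_right _ _
  refine ⟨δ, hδ, by linarith, fun s hs => ?_⟩
  by_cases h : 2 * δ ≤ ‖s 1‖ ^ 2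
  · rw [ph_far hδ hs h, sub_self, norm_zero]
    exact hη.le
  · push Not at h
    have hs' := norm_ph hδ (by linarith : δ < 1) hs
    have h1 := dist_hopf hs
    have h2 := dist_hopf hs'
    have h3 := norm_sq2 s
    rw [hs, one_pow] at h3
    -- the second coordinate of `ph δ s`
    have h4 : ‖(ph δ s) 1‖ ^ 2 ≤ 2 * ‖s 1‖ ^ 2 := by
      have e1 : (ph δ s) 1 = ((‖nn δ s‖⁻¹ : ℝ) : ℂ) * ((mu δ s : ℂ) * s 1) := rfl
      have e2 : ‖(ph δ s) 1‖ = ‖nn δ s‖⁻¹ * (mu δ s * ‖s 1‖) := by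
        rw [e1, norm_mul, norm_mul, Complex.norm_real, Complex.norm_real, norm_inv, norm_norm,
          Real.norm_eq_abs, abs_of_nonneg (mu_nonneg δ s)]
      have h5 := norm_sq2 (nn δ s)
      rw [nn_0, nn_1] at h5
      have h6 : 1 / 2 ≤ ‖nn δ s‖ ^ 2 := by
        rw [h5]
        nlinarith [sq_nonneg ‖(mu δ s : ℂ) * s 1‖]
      have h7 : (‖nn δ s‖⁻¹) ^ 2 ≤ 2 := by
        rw [inv_pow]
        rw [inv_le_comm₀ (by linarith) (by norm_num)]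
        linarith
      have h8 : (mu δ s * ‖s 1‖) ^ 2 ≤ ‖s 1‖ ^ 2 := by
        rw [mul_pow]
        have : mu δ s ^ 2 ≤ 1 := pow_le_one₀ (mu_nonneg δ s) (mu_le δ s)
        nlinarith [sq_nonneg ‖s 1‖]
      rw [e2, mul_pow]
      calc (‖nn δ s‖⁻¹) ^ 2 * (mu δ s * ‖s 1‖) ^ 2 ≤ 2 * ‖s 1‖ ^ 2 :=
            mul_le_mul h7 h8 (sq_nonneg _) (by norm_num)
        _ = _ := rfl
    have h9 : ‖hopf s - hopf s0‖ ≤ η / 2 := by
      refine abs_le_of_sq_le_sq' ?_ (by positivity) |>.2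
      rw [h1]
      nlinarith
    have h10 : ‖hopf (ph δ s) - hopf s0‖ ≤ η / 2 := by
      refine abs_le_of_sq_le_sq' ?_ (by positivity) |>.2
      rw [h2]
      nlinarith
    have h11 : hopf (ph δ s) - hopf s = (hopf (ph δ s) - hopf s0) - (hopf s - hopf s0) := by abel
    rw [h11]
    exact (norm_sub_le _ _).trans (by linarith)

/-- **the reparametrisation of the ball.** -/
theorem exists_theta {pi : C2 → E3} (hc : ContinuousOn pi (Metric.sphere 0 1))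
    (hn : ∀ s, ‖s‖ = 1 → ‖pi s‖ = 1)
    (hz : ∀ z : ℂ, ‖z‖ = 1 → ∀ s, ‖s‖ = 1 → pi (z • s) = pi s) {δ : ℝ} (hδ : 0 < δ)
    (hδ1 : δ < 1) :
    ∃ th : E3 → E3, Continuous th ∧ (∀ t, ‖t‖ ≤ 1 → ‖th t‖ ≤ 1) ∧ (∀ t, ‖t‖ = 1 → ‖th t‖ = 1) ∧
      (∀ s, ‖s‖ = 1 → th (hopf s) = pi (ph δ s)) ∧ (∀ t, th t = ‖t‖ • th (‖t‖⁻¹ • t)) ∧
      (∃ η > 0, ∀ t, ‖t‖ = 1 → ‖t - hopf s0‖ < η → th t = pi s0) := by
  set f : C2 → E3 := fun s => pi (ph δ s) with hf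
  have hfc : ContinuousOn f (Metric.sphere 0 1) := by
    refine hc.comp (continuousOn_ph hδ hδ1) ?_
    intro s hs
    rw [mem_sphere_zero_iff_norm] at hs ⊢
    exact norm_ph hδ hδ1 hs
  have hfz : ∀ z : ℂ, ‖z‖ = 1 → ∀ s, ‖s‖ = 1 → f (z • s) = f s := by
    intro z hz' s hs
    show pi (ph δ (z • s)) = pi (ph δ s)
    rw [ph_smul hz', hz z hz' _ (norm_ph hδ hδ1 hs)]
  have hth1 : ∀ s : C2, ‖s‖ = 1 → rad ℝ (desc f) (hopf s) = f s := by
    intro s hs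
    rw [rad_of_norm (by rw [norm_hopf, hs, one_pow]), desc_hopf hfz hs]
  have hth2 : ∀ t : E3, ‖t‖ = 1 → ‖rad ℝ (desc f) t‖ = 1 := by
    intro t ht
    obtain ⟨s, hs, rfl⟩ := hopf_surj ht
    rw [hth1 s hs]
    exact hn _ (norm_ph hδ hδ1 hs)
  have hth3 : ∀ t : E3, rad ℝ (desc f) t = ‖t‖ • rad ℝ (desc f) (‖t‖⁻¹ • t) := by
    intro t
    by_cases ht : t = 0
    · subst ht; simp [rad]
    · have h1 : ‖‖t‖⁻¹ • t‖ = 1 := by
        rw [norm_smul, norm_inv, norm_norm, inv_mul_cancel₀ (norm_ne_zero_iff.2 ht)]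
      rw [rad_of_norm h1]
      rfl
  refine ⟨rad ℝ (desc f), continuous_rad (continuous_desc hfc).continuousOn, ?_, hth2, hth1, hth3,
    ?_⟩
  · intro t ht
    by_cases ht0 : t = 0
    · subst ht0; simp [rad]
    · rw [hth3, norm_smul, norm_norm, hth2, mul_one]
      · exact ht
      · rw [norm_smul, norm_inv, norm_norm, inv_mul_cancel₀ (norm_ne_zero_iff.2 ht0)]
  · refine ⟨√(4 * δ), Real.sqrt_pos.2 (by positivity), fun t ht hd => ?_⟩
    obtain ⟨s, hs, rfl⟩ := hopf_surj ht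
    have h1 := dist_hopf hs
    have h2 : ‖hopf s - hopf s0‖ ^ 2 < 4 * δ := by
      have h3 := Real.lt_sqrt (norm_nonneg (hopf s - hopf s0)) |>.1 hd
      exact h3
    have h4 : ‖s 1‖ ^ 2 ≤ δ := by linarith
    obtain ⟨z, hz', hz2⟩ := ph_near hδ hδ1 hs h4
    rw [hth1 s hs]
    show pi (ph δ s) = pi s0
    rw [hz2, hz z hz' _ norm_s0]

end Crest.Agent.R235.FamE_151
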