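import Mathlib

/-!
Row 235 (S0364), helper151. Block FAM: `ℤ^b`-periodic families of Fredholm operators
(linear part of the finite dimensional reduction over the Jacobian torus).
-/

set_option autoImplicit false

open Set Filter Topology Module
open scoped ContDiff

namespace Crest.Agent.R235.FamR_151

section cal

variable {E F G P : Type*} [NormedAddCommGroup E] [NormedSpace ℂ E]
  [NormedAddCommGroup F] [NormedSpace ℂ F] [NormedAddCommGroup G] [NormedSpace ℂ G]
  [NormedAddCommGroup P] [NormedSpace ℝ P]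

theorem bil_comp : IsBoundedBilinearMap ℝ
    (fun p : (F →L[ℂ] G) × (E →L[ℂ] F) => p.1.comp p.2) where
  add_left x₁ x₂ y := by ext v; simp
  smul_left c x y := by ext v; simp
  add_right x y₁ y₂ := by ext v; simp
  smul_right c x y := by ext v; simp
  bound := ⟨1, one_pos, fun x y => by simpa using x.opNorm_comp_le y⟩

theorem bil_apply : IsBoundedBilinearMap ℝ (fun p : (E →L[ℂ] F) × E => p.1 p.2) where
  add_left x₁ x₂ y := by simp
  smul_left c x y := by simp
  add_right x y₁ y₂ := by simp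
  smul_right c x y := by simp
  bound := ⟨1, one_pos, fun x y => by simpa using x.le_opNorm y⟩

theorem cd_comp {n : WithTop ℕ∞} {s : Set P} {x : P} {T : P → F →L[ℂ] G} {S : P → E →L[ℂ] F}
    (hT : ContDiffWithinAt ℝ n T s x) (hS : ContDiffWithinAt ℝ n S s x) :
    ContDiffWithinAt ℝ n (fun p => (T p).comp (S p)) s x :=
  (bil_comp (E := E) (F := F) (G := G)).contDiff.comp_contDiffWithinAt (hT.prodMk hS)


theorem cd_inv [CompleteSpace E] {n : WithTop ℕ∞} {s : Set P} {x : P} {T : P → E →L[ℂ] E}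
    (hT : ContDiffWithinAt ℝ n T s x) (hu : IsUnit (T x)) :
    ContDiffWithinAt ℝ n (fun p => Ring.inverse (T p)) s x := by
  obtain ⟨u, hu⟩ := hu
  have h := contDiffAt_ringInverse (n := n) ℝ u
  rw [hu] at h
  exact h.comp_contDiffWithinAt x hT

end cal

section hilb

variable {E F P : Type*} [NormedAddCommGroup E] [InnerProductSpace ℂ E] [CompleteSpace E]
  [NormedAddCommGroup F] [InnerProductSpace ℂ F] [CompleteSpace F]
  [NormedAddCommGroup P] [NormedSpace ℝ P]

open ContinuousLinearMap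

/-- the adjoint as a real linear map. -/
noncomputable def adjR : (E →L[ℂ] F) →L[ℝ] (F →L[ℂ] E) :=
  LinearMap.mkContinuous
    { toFun := fun T => adjoint T
      map_add' := fun S T => map_add _ _ _
      map_smul' := fun c T => by
        have h : c • T = (c : ℂ) • T := by ext v; simp
        rw [h, map_smulₛₗ]
        ext v
        simp } 1 (fun T => by
      show ‖adjoint T‖ ≤ 1 * ‖T‖
      rw [one_mul]
      exact (LinearIsometryEquiv.norm_map adjoint T).le)


theorem cd_adj {n : WithTop ℕ∞} {s : Set P} {x : P} {T : P → E →L[ℂ] F}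
    (hT : ContDiffWithinAt ℝ n T s x) :
    ContDiffWithinAt ℝ n (fun p => adjoint (T p)) s x :=
  (adjR (E := E) (F := F)).contDiff.comp_contDiffWithinAt hT

/-- a surjective operator has a bounded below adjoint. -/
theorem adj_below (A : E →L[ℂ] F) (hA : Function.Surjective A) :
    ∃ c > 0, ∀ y, c * ‖y‖ ≤ ‖adjoint A y‖ := by
  obtain ⟨C, hC, h⟩ := A.exists_preimage_norm_le hA
  refine ⟨C⁻¹, inv_pos.2 hC, fun y => ?_⟩
  obtain ⟨x, hx, hn⟩ := h y
  have h1 : ‖y‖ * ‖y‖ ≤ (C * ‖y‖) * ‖adjoint A y‖ := by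
    have h2 : (‖y‖ * ‖y‖ : ℝ) = ‖inner ℂ x (adjoint A y)‖ := by
      rw [adjoint_inner_right, hx, inner_self_eq_norm_sq_to_K]
      simp [pow_two]
    rw [h2]
    exact (norm_inner_le_norm _ _).trans (mul_le_mul_of_nonneg_right hn (norm_nonneg _))
  rcases eq_or_ne y 0 with rfl | hy
  · simp
  have hy' : 0 < ‖y‖ := norm_pos_iff.2 hy
  have h3 : ‖y‖ ≤ C * ‖adjoint A y‖ := by nlinarith
  rw [inv_mul_le_iff₀ hC]
  exact h3

theorem isUnit_AA {A : E →L[ℂ] F} (hA : Function.Surjective A) :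
    IsUnit (A.comp (adjoint A)) := by
  obtain ⟨c, hc, h⟩ := adj_below A hA
  refine isUnit_of_forall_le_norm_inner_map (A.comp (adjoint A)) (c := Real.toNNReal (c ^ 2))
    (Real.toNNReal_pos.2 (by positivity)) (fun y => ?_)
  rw [Real.coe_toNNReal _ (by positivity : (0 : ℝ) ≤ c ^ 2)]
  have h2 : ‖inner ℂ (A.comp (adjoint A) y) y‖ = ‖adjoint A y‖ ^ 2 := by
    rw [ContinuousLinearMap.comp_apply, ← adjoint_inner_right, inner_self_eq_norm_sq_to_K]
    simp
  rw [h2, ← mul_pow, mul_comm]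
  exact pow_le_pow_left₀ (by positivity) (h y) 2

theorem surj_of_isUnit {A : E →L[ℂ] F} (h : IsUnit (A.comp (adjoint A))) :
    Function.Surjective A := by
  intro y
  obtain ⟨x, hx⟩ := (isUnit_iff_bijective.1 h).2 y
  exact ⟨_, hx⟩

/-- orthogonal projection onto the kernel of a surjective operator. -/
noncomputable def kp (A : E →L[ℂ] F) : E →L[ℂ] E :=
  ContinuousLinearMap.id ℂ E - (adjoint A).comp ((Ring.inverse (A.comp (adjoint A))).comp A)

theorem kp_mem {A : E →L[ℂ] F} (hA : Function.Surjective A) (x : E) : A (kp A x) = 0 := by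
  have h := isUnit_AA hA
  have h1 : (A.comp (adjoint A)) * Ring.inverse (A.comp (adjoint A)) = 1 :=
    Ring.mul_inverse_cancel _ h
  have h2 : A (adjoint A (Ring.inverse (A.comp (adjoint A)) (A x))) = A x := by
    have := congrArg (fun T : F →L[ℂ] F => T (A x)) h1
    simpa using this
  simp [kp, h2]

theorem kp_fix {A : E →L[ℂ] F} {x : E} (hx : A x = 0) : kp A x = x := by
  simp [kp, hx]

theorem cd_kp {n : WithTop ℕ∞} {s : Set P} {x : P} {T : P → E →L[ℂ] F}
    (hT : ContDiffWithinAt ℝ n T s x) (hs : Function.Surjective (T x)) :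
    ContDiffWithinAt ℝ n (fun p => kp (T p)) s x := by
  unfold kp
  refine contDiffWithinAt_const.sub ?_
  exact cd_comp (cd_adj hT) (cd_comp (cd_inv (cd_comp hT (cd_adj hT)) (isUnit_AA hs)) hT)

omit [NormedSpace ℝ P] in
theorem surj_nhds {s : Set P} {x : P} {T : P → E →L[ℂ] F} (hT : ContinuousWithinAt T s x)
    (hs : Function.Surjective (T x)) : ∀ᶠ p in 𝓝[s] x, Function.Surjective (T p) := by
  have h0 : IsUnit ((T x).comp (adjoint (T x))) := isUnit_AA hs
  have hc : ContinuousWithinAt (fun p => (T p).comp (adjoint (T p))) s x := by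
    have h1 : ContinuousWithinAt (fun p => adjoint (T p)) s x :=
      (adjR (E := E) (F := F)).continuous.continuousAt.comp_continuousWithinAt hT
    exact ((bil_comp (E := F) (F := E) (G := F)).continuous.continuousAt).comp_continuousWithinAt
      (hT.prodMk h1)
  have hopen : {S : F →L[ℂ] F | IsUnit S} ∈ 𝓝 ((T x).comp (adjoint (T x))) :=
    Units.isOpen.mem_nhds h0
  filter_upwards [hc hopen] with p hp
  exact surj_of_isUnit hp

end hilb

section fam

open ContinuousLinearMap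

/-- an integer vector as a real vector. -/
def zv {b : ℕ} (k : Fin b → ℤ) : Fin b → ℝ := fun j => (k j : ℝ)


theorem zv_zero {b : ℕ} : zv (0 : Fin b → ℤ) = 0 := by funext j; simp [zv]

theorem zv_neg {b : ℕ} (k : Fin b → ℤ) : zv (-k) = -zv k := by funext j; simp [zv]

theorem exists_cube {b : ℕ} (h : Fin b → ℝ) :
    ∃ (k : Fin b → ℤ) (h' : Fin b → ℝ), h' ∈ Icc (0 : Fin b → ℝ) 1 ∧ h = h' + zv k := by
  refine ⟨fun j => ⌊h j⌋, fun j => Int.fract (h j), ⟨fun j => Int.fract_nonneg _,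
    fun j => (Int.fract_lt_one _).le⟩, ?_⟩
  funext j
  simp [zv, Int.fract_add_floor]

/-- **a `ℤ^b`-periodic family of Fredholm operators** between Hilbert spaces. In the application
`D h` is the Dirac operator coupled to the flat connection with parameter `h`, `Th h` is the
multiplication by `exp (-i h·φ)` with a bounded measurable lift `φ` of the map to the torus, and
`U k` is the gauge transformation `exp (-i k·φ)`. -/
structure PFam (b : ℕ) (X Y : Type*) [NormedAddCommGroup X] [InnerProductSpace ℂ X]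
    [CompleteSpace X] [NormedAddCommGroup Y] [InnerProductSpace ℂ Y] [CompleteSpace Y] where
  D : (Fin b → ℝ) → X →L[ℂ] Y
  Th : (Fin b → ℝ) → Y →L[ℂ] Y
  U : (Fin b → ℤ) → X →L[ℂ] X
  smD : ContDiff ℝ ∞ D
  smTh : ContDiff ℝ ∞ Th
  Th_zero : Th 0 = ContinuousLinearMap.id ℂ Y
  Th_add : ∀ h h', Th (h + h') = (Th h).comp (Th h')
  Th_norm : ∀ h y, ‖Th h y‖ = ‖y‖
  U_zero : U 0 = ContinuousLinearMap.id ℂ X
  U_add : ∀ k l, U (k + l) = (U k).comp (U l)
  D_U : ∀ h k x, D (h + zv k) (U k x) = Th (zv k) (D h x)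
  range_closed : ∀ h, IsClosed (Set.range (D h))
  ker_fin : ∀ h, FiniteDimensional ℂ (LinearMap.ker (D h : X →ₗ[ℂ] Y))
  coker_fin : ∀ h, FiniteDimensional ℂ ((LinearMap.range (D h : X →ₗ[ℂ] Y))ᗮ : Submodule ℂ Y)

namespace PFam

variable {b : ℕ} {X Y : Type*} [NormedAddCommGroup X] [InnerProductSpace ℂ X]
  [CompleteSpace X] [NormedAddCommGroup Y] [InnerProductSpace ℂ Y] [CompleteSpace Y]
  (Φ : PFam b X Y)

theorem Th_neg (h : Fin b → ℝ) (y : Y) : Φ.Th h (Φ.Th (-h) y) = y := by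
  have := Φ.Th_add h (-h)
  rw [add_neg_cancel, Φ.Th_zero] at this
  have h2 := congrArg (fun T : Y →L[ℂ] Y => T y) this
  simpa using h2.symm


theorem U_neg (k : Fin b → ℤ) (x : X) : Φ.U k (Φ.U (-k) x) = x := by
  have := Φ.U_add k (-k)
  rw [add_neg_cancel, Φ.U_zero] at this
  have h2 := congrArg (fun T : X →L[ℂ] X => T x) this
  simpa using h2.symm


theorem Th_inner (h : Fin b → ℝ) (y y' : Y) :
    inner ℂ (Φ.Th h y) (Φ.Th h y') = inner ℂ y y' := by
  let L : Y →ₗᵢ[ℂ] Y := ⟨(Φ.Th h : Y →ₗ[ℂ] Y), Φ.Th_norm h⟩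
  exact L.inner_map_map y y'

variable (W : Submodule ℂ Y)

/-- the stabilised family `(x, w) ↦ D_h x + Θ_h w`. -/
noncomputable def A (h : Fin b → ℝ) : WithLp 2 (X × W) →L[ℂ] Y :=
  ((Φ.D h).comp (ContinuousLinearMap.fst ℂ X W) +
    (Φ.Th h).comp (W.subtypeL.comp (ContinuousLinearMap.snd ℂ X W))).comp
    ((WithLp.prodContinuousLinearEquiv 2 ℂ X W : WithLp 2 (X × W) ≃L[ℂ] X × W) :
      WithLp 2 (X × W) →L[ℂ] X × W)

theorem A_apply (h : Fin b → ℝ) (z : WithLp 2 (X × W)) :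
    Φ.A W h z = Φ.D h z.fst + Φ.Th h (z.snd : Y) := rfl

theorem cd_const_comp {E F G : Type*} [NormedAddCommGroup E] [NormedSpace ℂ E]
    [NormedAddCommGroup F] [NormedSpace ℂ F] [NormedAddCommGroup G] [NormedSpace ℂ G]
    {P : Type*} [NormedAddCommGroup P] [NormedSpace ℝ P] {n : WithTop ℕ∞} {T : P → F →L[ℂ] G}
    (hT : ContDiff ℝ n T) (S : E →L[ℂ] F) : ContDiff ℝ n (fun p => (T p).comp S) :=
  (bil_comp (E := E) (F := F) (G := G)).contDiff.comp (hT.prodMk contDiff_const)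

theorem sm_A : ContDiff ℝ ∞ (Φ.A W) := by
  unfold A
  refine cd_const_comp ?_ _
  exact (cd_const_comp Φ.smD _).add (cd_const_comp Φ.smTh _)

theorem A_mono {W W' : Submodule ℂ Y} (hW : W ≤ W') {h : Fin b → ℝ}
    (hs : Function.Surjective (Φ.A W h)) : Function.Surjective (Φ.A W' h) := by
  intro y
  obtain ⟨z, hz⟩ := hs y
  refine ⟨WithLp.toLp 2 (z.fst, ⟨(z.snd : Y), hW z.snd.2⟩), ?_⟩
  rw [A_apply] at hz ⊢
  exact hz

/-- the gauge transformation on the stabilised space. -/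
noncomputable def GU (k : Fin b → ℤ) : WithLp 2 (X × W) →L[ℂ] WithLp 2 (X × W) :=
  ((WithLp.prodContinuousLinearEquiv 2 ℂ X W).symm : X × W →L[ℂ] WithLp 2 (X × W)).comp
    ((((Φ.U k).comp (ContinuousLinearMap.fst ℂ X W)).prod (ContinuousLinearMap.snd ℂ X W)).comp
    ((WithLp.prodContinuousLinearEquiv 2 ℂ X W : WithLp 2 (X × W) ≃L[ℂ] X × W) :
      WithLp 2 (X × W) →L[ℂ] X × W))

theorem GU_fst (k : Fin b → ℤ) (z : WithLp 2 (X × W)) : (Φ.GU W k z).fst = Φ.U k z.fst := rfl

theorem GU_snd (k : Fin b → ℤ) (z : WithLp 2 (X × W)) : (Φ.GU W k z).snd = z.snd := rfl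

theorem A_GU (h : Fin b → ℝ) (k : Fin b → ℤ) (z : WithLp 2 (X × W)) :
    Φ.A W (h + zv k) (Φ.GU W k z) = Φ.Th (zv k) (Φ.A W h z) := by
  rw [A_apply, A_apply, GU_fst, GU_snd, Φ.D_U, map_add]
  congr 1
  rw [add_comm, Φ.Th_add]
  rfl

theorem ext2 {E₁ E₂ : Type*} {z z' : WithLp 2 (E₁ × E₂)} (h1 : z.fst = z'.fst)
    (h2 : z.snd = z'.snd) : z = z' := by
  apply (WithLp.equiv 2 (E₁ × E₂)).injective
  exact Prod.ext h1 h2

theorem GU_zero : Φ.GU W 0 = ContinuousLinearMap.id ℂ _ := by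
  ext1 z
  refine ext2 ?_ rfl
  show Φ.U 0 z.fst = z.fst
  rw [Φ.U_zero]; rfl

theorem GU_add (k l : Fin b → ℤ) : Φ.GU W (k + l) = (Φ.GU W k).comp (Φ.GU W l) := by
  ext1 z
  refine ext2 ?_ rfl
  show Φ.U (k + l) z.fst = Φ.U k (Φ.U l z.fst)
  rw [Φ.U_add]; rfl

theorem surj_shift {h : Fin b → ℝ} (hs : Function.Surjective (Φ.A W h)) (k : Fin b → ℤ) :
    Function.Surjective (Φ.A W (h + zv k)) := by
  intro y
  obtain ⟨z, hz⟩ := hs (Φ.Th (-zv k) y)
  refine ⟨Φ.GU W k z, ?_⟩
  rw [A_GU, hz, Φ.Th_neg]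

/-- a good space for one parameter. -/
noncomputable def W1 (h : Fin b → ℝ) : Submodule ℂ Y :=
  ((LinearMap.range (Φ.D h : X →ₗ[ℂ] Y))ᗮ).map (Φ.Th (-h) : Y →ₗ[ℂ] Y)

theorem W1_fin (h : Fin b → ℝ) : FiniteDimensional ℂ (Φ.W1 h) := by
  have := Φ.coker_fin h
  unfold W1
  infer_instance

theorem W1_surj (h : Fin b → ℝ) : Function.Surjective (Φ.A (Φ.W1 h) h) := by
  intro y
  have hcl : IsClosed ((LinearMap.range (Φ.D h : X →ₗ[ℂ] Y) : Submodule ℂ Y) : Set Y) := by
    have : ((LinearMap.range (Φ.D h : X →ₗ[ℂ] Y) : Submodule ℂ Y) : Set Y) = Set.range (Φ.D h) := by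
      ext y; simp
    rw [this]; exact Φ.range_closed h
  set R : Submodule ℂ Y := LinearMap.range (Φ.D h : X →ₗ[ℂ] Y) with hR
  have : CompleteSpace R := hcl.completeSpace_coe
  have h1 : y = (R.starProjection y) + (y - R.starProjection y) := by abel
  obtain ⟨x, hx⟩ : ∃ x, Φ.D h x = R.starProjection y := by
    have : R.starProjection y ∈ R := Submodule.starProjection_apply_mem R y
    obtain ⟨x, hx⟩ := this
    exact ⟨x, hx⟩
  have h2 : y - R.starProjection y ∈ Rᗮ := Submodule.sub_starProjection_mem_orthogonal y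
  refine ⟨WithLp.toLp 2 (x, ⟨Φ.Th (-h) (y - R.starProjection y), ⟨_, h2, rfl⟩⟩), ?_⟩
  rw [A_apply]
  show Φ.D h x + Φ.Th h (Φ.Th (-h) (y - R.starProjection y)) = y
  rw [Φ.Th_neg, hx]
  abel

/-- **stabilisation**. -/
theorem exists_W0 : ∃ W0 : Submodule ℂ Y, FiniteDimensional ℂ W0 ∧
    ∀ W : Submodule ℂ Y, W0 ≤ W → ∀ h, Function.Surjective (Φ.A W h) := by
  have hloc : ∀ h0 : Fin b → ℝ, ∃ N ∈ 𝓝 h0, ∀ h ∈ N, Function.Surjective (Φ.A (Φ.W1 h0) h) := by
    intro h0
    have := Φ.W1_fin h0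
    have := surj_nhds (s := univ) (x := h0) (T := Φ.A (Φ.W1 h0))
      ((Φ.sm_A (Φ.W1 h0)).continuous.continuousWithinAt) (Φ.W1_surj h0)
    rw [nhdsWithin_univ] at this
    exact ⟨_, this, fun h hh => hh⟩
  choose N hN hs using hloc
  obtain ⟨t, -, ht⟩ := (isCompact_Icc (a := (0 : Fin b → ℝ)) (b := 1)).elim_nhds_subcover N
    (fun x _ => hN x)
  refine ⟨⨆ i : t, Φ.W1 i, ?_, fun W hW h => ?_⟩
  · have : ∀ i : t, FiniteDimensional ℂ (Φ.W1 i) := fun i => Φ.W1_fin i
    exact Submodule.finiteDimensional_iSup _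
  · obtain ⟨k, h', hh', rfl⟩ := exists_cube h
    refine Φ.surj_shift W ?_ k
    obtain ⟨i, hi, hx⟩ := mem_iUnion₂.1 (ht hh')
    exact Φ.A_mono ((le_iSup (fun i : t => Φ.W1 i) ⟨i, hi⟩).trans hW) (hs i h' hx)

end PFam

end fam

section bump

variable {b : ℕ}

/-- nearest integer vector to `h0 - h`. -/
noncomputable def kb (h0 h : Fin b → ℝ) : Fin b → ℤ := fun j => -round (h j - h0 j)

theorem kb_shift (h0 h : Fin b → ℝ) (l : Fin b → ℤ) : kb h0 (h + zv l) = kb h0 h - l := by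
  funext j
  have : (h + zv l) j - h0 j = (h j - h0 j) + (l j : ℝ) := by
    simp [zv]; ring
  simp only [kb, this, round_add_intCast, Pi.sub_apply]
  ring

theorem kb_self (h0 : Fin b → ℝ) : kb h0 h0 = 0 := by
  funext j; simp [kb]

/-- periodic bump function of radius `δ` around `h0`. -/
noncomputable def cb (h0 : Fin b → ℝ) (δ : ℝ) (h : Fin b → ℝ) : ℝ :=
  ∏ j, Real.smoothTransition
    ((Real.cos (2 * Real.pi * (h j - h0 j)) - Real.cos (2 * Real.pi * δ)) /
      (1 - Real.cos (2 * Real.pi * δ)))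

theorem cos_lt_one {δ : ℝ} (h0 : 0 < δ) (h1 : δ < 1 / 2) : Real.cos (2 * Real.pi * δ) < 1 := by
  have hpi := Real.pi_pos
  rw [← Real.cos_zero]
  apply Real.cos_lt_cos_of_nonneg_of_le_pi le_rfl <;> nlinarith

theorem neg_one_lt_cos {δ : ℝ} (h0 : 0 < δ) (h1 : δ < 1 / 2) :
    -1 < Real.cos (2 * Real.pi * δ) := by
  have hpi := Real.pi_pos
  rw [← Real.cos_pi]
  apply Real.cos_lt_cos_of_nonneg_of_le_pi (by positivity) le_rfl
  nlinarith

theorem cb_nonneg (h0 : Fin b → ℝ) (δ : ℝ) (h : Fin b → ℝ) : 0 ≤ cb h0 δ h :=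
  Finset.prod_nonneg fun _ _ => Real.smoothTransition.nonneg _


theorem cb_smooth (h0 : Fin b → ℝ) (δ : ℝ) : ContDiff ℝ ∞ (cb h0 δ) := by
  unfold cb
  refine contDiff_prod fun j _ => ?_
  refine Real.smoothTransition.contDiff.comp ?_
  refine ContDiff.div_const (ContDiff.sub (Real.contDiff_cos.comp ?_) contDiff_const) _
  exact contDiff_const.mul ((contDiff_apply ℝ ℝ j).sub contDiff_const)

theorem cb_shift (h0 : Fin b → ℝ) (δ : ℝ) (h : Fin b → ℝ) (l : Fin b → ℤ) :
    cb h0 δ (h + zv l) = cb h0 δ h := by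
  unfold cb
  refine Finset.prod_congr rfl fun j _ => ?_
  congr 3
  have : 2 * Real.pi * ((h + zv l) j - h0 j) =
      2 * Real.pi * (h j - h0 j) + (l j : ℝ) * (2 * Real.pi) := by
    simp [zv]; ring
  rw [this, Real.cos_add_int_mul_two_pi]

theorem cb_pos {h0 : Fin b → ℝ} {δ : ℝ} (hd0 : 0 < δ) (hd : δ < 1 / 2) {h : Fin b → ℝ}
    (hh : ∀ j, |h j - h0 j| < δ) : 0 < cb h0 δ h := by
  unfold cb
  refine Finset.prod_pos fun j _ => Real.smoothTransition.pos_of_pos ?_
  have h1 := cos_lt_one hd0 hd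
  refine div_pos ?_ (by linarith)
  have hpi := Real.pi_pos
  have h2 : Real.cos (2 * Real.pi * δ) < Real.cos (2 * Real.pi * |h j - h0 j|) := by
    apply Real.cos_lt_cos_of_nonneg_of_le_pi (by positivity)
    · nlinarith
    · have := hh j
      nlinarith
  have h3 : Real.cos (2 * Real.pi * |h j - h0 j|) = Real.cos (2 * Real.pi * (h j - h0 j)) := by
    rw [← Real.cos_abs (2 * Real.pi * (h j - h0 j)), abs_mul, abs_of_pos (by positivity :
      (0 : ℝ) < 2 * Real.pi)]
  linarith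

theorem cb_one {h0 : Fin b → ℝ} {δ : ℝ} (hd0 : 0 < δ) (hd : δ < 1 / 2) : cb h0 δ h0 = 1 := by
  unfold cb
  refine Finset.prod_eq_one fun j _ => ?_
  have h1 := cos_lt_one hd0 hd
  rw [sub_self, mul_zero, Real.cos_zero, div_self (by linarith)]
  exact Real.smoothTransition.one

theorem kb_zero {h0 : Fin b → ℝ} {h : Fin b → ℝ} (hh : ∀ j, |h j - h0 j| < 1 / 2) :
    kb h0 h = 0 := by
  funext j
  have := abs_lt.1 (hh j)
  simp only [kb, Pi.zero_apply, neg_eq_zero]
  rw [round_eq_zero_iff]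
  exact ⟨this.1.le, this.2⟩

theorem lt_of_cos {x δ : ℝ} (hd0 : 0 < δ) (h : Real.cos (2 * Real.pi * δ) <
    Real.cos (2 * Real.pi * x)) : |x - round x| < δ := by
  by_contra hc
  push Not at hc
  have h1 : Real.cos (2 * Real.pi * x) = Real.cos (2 * Real.pi * |x - round x|) := by
    have : 2 * Real.pi * |x - round x| = |2 * Real.pi * x - (round x : ℝ) * (2 * Real.pi)| := by
      rw [← abs_of_pos (by positivity : (0 : ℝ) < 2 * Real.pi), ← abs_mul]
      rw [abs_of_pos (by positivity : (0 : ℝ) < 2 * Real.pi)]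
      congr 1; ring
    rw [this, Real.cos_abs, Real.cos_sub_int_mul_two_pi]
  have h2 := abs_sub_round x
  have hpi := Real.pi_pos
  have h3 : Real.cos (2 * Real.pi * |x - round x|) ≤ Real.cos (2 * Real.pi * δ) := by
    apply Real.cos_le_cos_of_nonneg_of_le_pi (by positivity)
    · nlinarith
    · nlinarith
  linarith


theorem bump_local {δ : ℝ} (hd0 : 0 < δ) (hd : δ < 1 / 2) (h0 h : Fin b → ℝ) :
    (∀ᶠ h' in 𝓝 h, kb h0 h' = kb h0 h) ∨ (∀ᶠ h' in 𝓝 h, cb h0 δ h' = 0) := by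
  by_cases hall : ∀ j, |(h j - h0 j) - round (h j - h0 j)| < 1 / 2
  · left
    have : ∀ j, ∀ᶠ h' in 𝓝 h, round (h' j - h0 j) = round (h j - h0 j) := by
      intro j
      have h1 := abs_lt.1 (hall j)
      have hc : Continuous (fun h' : Fin b → ℝ => h' j - h0 j) := by fun_prop
      have hm : Ioo ((round (h j - h0 j) : ℝ) - 1 / 2) ((round (h j - h0 j) : ℝ) + 1 / 2) ∈
          𝓝 (h j - h0 j) := Ioo_mem_nhds (by linarith [h1.1]) (by linarith [h1.2])
      filter_upwards [hc.continuousAt.preimage_mem_nhds hm] with h' hh'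
      rw [round_eq_iff]
      exact ⟨hh'.1.le, hh'.2⟩
    filter_upwards [eventually_all.2 this] with h' hh'
    funext j
    simp [kb, hh' j]
  · right
    push Not at hall
    obtain ⟨j, hj⟩ := hall
    have h1 : Real.cos (2 * Real.pi * (h j - h0 j)) < Real.cos (2 * Real.pi * δ) := by
      by_contra hcon
      push Not at hcon
      rcases hcon.lt_or_eq with hlt | heq
      · have := lt_of_cos hd0 hlt
        linarith
      · -- `|x - round x| = 1/2`
        have h2 := abs_sub_round (h j - h0 j)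
        have h3 : |(h j - h0 j) - round (h j - h0 j)| = 1 / 2 := le_antisymm h2 hj
        have h4 : Real.cos (2 * Real.pi * (h j - h0 j)) = -1 := by
          have : |2 * Real.pi * (h j - h0 j) - (round (h j - h0 j) : ℝ) * (2 * Real.pi)| =
              Real.pi := by
            have h5 : 2 * Real.pi * (h j - h0 j) - (round (h j - h0 j) : ℝ) * (2 * Real.pi) =
              2 * Real.pi * ((h j - h0 j) - round (h j - h0 j)) := by ring
            rw [h5, abs_mul, h3, abs_of_pos (by positivity : (0 : ℝ) < 2 * Real.pi)]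
            ring
          rw [← Real.cos_sub_int_mul_two_pi _ (round (h j - h0 j)), ← Real.cos_abs, this,
            Real.cos_pi]
        have := neg_one_lt_cos hd0 hd
        linarith
    have hc : Continuous (fun h' : Fin b → ℝ => Real.cos (2 * Real.pi * (h' j - h0 j))) := by
      fun_prop
    have hev := hc.continuousAt.eventually_lt (continuousAt_const (y := Real.cos (2 * Real.pi * δ)))
      h1
    filter_upwards [hev] with h' hh'
    unfold cb
    apply Finset.prod_eq_zero (Finset.mem_univ j)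
    apply Real.smoothTransition.zero_of_nonpos
    have := cos_lt_one hd0 hd
    exact div_nonpos_of_nonpos_of_nonneg (by linarith) (by linarith)

theorem cd_bump {V : Type*} [NormedAddCommGroup V] [NormedSpace ℝ V] {δ : ℝ} (hd0 : 0 < δ)
    (hd : δ < 1 / 2) (h0 : Fin b → ℝ) (f : (Fin b → ℤ) → (Fin b → ℝ) → V)
    (hf : ∀ k, ContDiff ℝ ∞ (f k)) :
    ContDiff ℝ ∞ (fun h => cb h0 δ h • f (kb h0 h) h) := by
  rw [contDiff_iff_contDiffAt]
  intro h
  rcases bump_local hd0 hd h0 h with hk | hc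
  · have h1 : ContDiffAt ℝ ∞ (fun h' => cb h0 δ h' • f (kb h0 h) h') h :=
      ((cb_smooth h0 δ).smul (hf _)).contDiffAt
    refine h1.congr_of_eventuallyEq ?_
    filter_upwards [hk] with h' hh'
    rw [hh']
  · refine (contDiffAt_const (c := (0 : V))).congr_of_eventuallyEq ?_
    filter_upwards [hc] with h' hh'
    rw [hh', zero_smul]

theorem cont_bump {V P : Type*} [NormedAddCommGroup V] [NormedSpace ℝ V] [TopologicalSpace P]
    {δ : ℝ} (hd0 : 0 < δ) (hd : δ < 1 / 2) (h0 : Fin b → ℝ) (hh : P → (Fin b → ℝ))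
    (hhc : Continuous hh) (f : (Fin b → ℤ) → P → V) (hf : ∀ k, Continuous (f k)) :
    Continuous (fun p => cb h0 δ (hh p) • f (kb h0 (hh p)) p) := by
  rw [continuous_iff_continuousAt]
  intro p
  rcases bump_local hd0 hd h0 (hh p) with hk | hc
  · have h1 : ContinuousAt (fun p' => cb h0 δ (hh p') • f (kb h0 (hh p)) p') p :=
      (((cb_smooth h0 δ).continuous.comp hhc).smul (hf _)).continuousAt
    refine h1.congr ?_
    filter_upwards [hhc.continuousAt.eventually hk] with p' hp'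
    rw [hp']
  · refine (continuousAt_const (y := (0 : V))).congr ?_
    filter_upwards [hhc.continuousAt.eventually hc] with p' hp'
    rw [hp', zero_smul]

end bump

end Crest.Agent.R235.FamR_151
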