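import Mathlib
import Crest.Agent.R235.FamDefs_307
import Crest.Agent.R235.FamR_151

-- ▼ part R235/DgStk_356
section

/-! Row 235 (helper356).  Stokes on a box for the pull back of a top degree form:
for `f : R^{n+1} → F`, `dim F = n`, of class `C²`, `φ : F → ℝ` of class `C¹`, `μ` a top degree
alternating form on `F`, the total flux of `f^* (φ μ)` through the faces of a box is zero. -/

set_option autoImplicit false

open Set MeasureTheory Filter Topology

namespace Crest.Agent.R235.DgStk_356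

variable {n : ℕ}

/-- the face integral of a form of degree `n` on the face `x i = c` of the box `[a,b]` -/
noncomputable def face (a b : Fin (n + 1) → ℝ)
    (ω : (Fin (n + 1) → ℝ) → (Fin (n + 1) → ℝ) [⋀^Fin n]→L[ℝ] ℝ) (i : Fin (n + 1)) (c : ℝ) : ℝ :=
  ∫ y in Icc (a ∘ i.succAbove) (b ∘ i.succAbove),
    ω (i.insertNth c y) (fun j => Pi.single (i.succAbove j) 1)

theorem stokes_box (a b : Fin (n + 1) → ℝ) (hle : a ≤ b)
    (ω : (Fin (n + 1) → ℝ) → (Fin (n + 1) → ℝ) [⋀^Fin n]→L[ℝ] ℝ)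
    (hc : ContinuousOn ω (Icc a b))
    (hd : ∀ x ∈ pi univ (fun i => Ioo (a i) (b i)), DifferentiableAt ℝ ω x)
    (h0 : ∀ x ∈ pi univ (fun i => Ioo (a i) (b i)), extDeriv ω x = 0) :
    ∑ i : Fin (n + 1), (-1 : ℝ) ^ (i : ℕ) * (face a b ω i (b i) - face a b ω i (a i)) = 0 := by
  classical
  let ev : Fin (n + 1) → ((Fin (n + 1) → ℝ) [⋀^Fin n]→L[ℝ] ℝ) →L[ℝ] ℝ := fun i =>
    ContinuousAlternatingMap.apply ℝ _ ℝ
      (fun j => (Pi.single (i.succAbove j) (1 : ℝ) : Fin (n + 1) → ℝ))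
  let g : Fin (n + 1) → (Fin (n + 1) → ℝ) → ℝ := fun i x => (-1 : ℝ) ^ (i : ℕ) * ev i (ω x)
  have hev : ∀ i x, ev i (ω x) = ω x (fun j => Pi.single (i.succAbove j) 1) := fun i x => rfl
  let S : Set (Fin (n + 1) → ℝ) := pi univ (fun i => Ioo (a i) (b i))
  let g' : Fin (n + 1) → (Fin (n + 1) → ℝ) → (Fin (n + 1) → ℝ) →L[ℝ] ℝ := fun i x =>
    if x ∈ S then fderiv ℝ (g i) x else 0
  have hgd : ∀ x ∈ S, ∀ i, DifferentiableAt ℝ (g i) x := by
    intro x hx i
    exact (((ev i).differentiableAt.comp x (hd x hx))).const_mul _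
  have hsum : ∀ x, ∑ i, g' i x (Pi.single i 1) = 0 := by
    intro x
    by_cases hx : x ∈ S
    · have h1 := h0 x hx
      have h2 := congrArg (fun u => u (fun k => (Pi.single k (1 : ℝ) : Fin (n + 1) → ℝ))) h1
      rw [extDeriv_apply (hd x hx)] at h2
      refine Eq.trans ?_ (h2.trans rfl)
      refine Finset.sum_congr rfl fun i _ => ?_
      simp only [g', if_pos hx, g]
      have h3 : DifferentiableAt ℝ (fun x => ev i (ω x)) x :=
        (ev i).differentiableAt.comp x (hd x hx)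
      have e1 : (fun x => ev i (ω x))
          = fun x => ω x (i.removeNth fun k => (Pi.single k (1 : ℝ) : Fin (n + 1) → ℝ)) := by
        funext x; rfl
      rw [fderiv_const_mul h3, e1]
      simp [zsmul_eq_mul, smul_eq_mul]
    · simp [g', hx]
  have key := integral_divergence_of_hasFDerivAt_off_countable' a b hle g g' ∅ countable_empty
    (fun i => by
      have := (ev i).continuous.comp_continuousOn hc
      exact continuousOn_const.mul this)
    (fun x hx i => by
      have hx' : x ∈ S := hx.1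
      simp only [g', if_pos hx']
      exact (hgd x hx' i).hasFDerivAt)
    (by
      simp only [hsum]
      exact integrableOn_zero)
  simp only [hsum, integral_zero] at key
  rw [key]
  refine Finset.sum_congr rfl fun i _ => ?_
  simp only [face, mul_sub, g, integral_const_mul, hev]



end Crest.Agent.R235.DgStk_356
end

-- ▼ part R235/FamC_192
section

/-! Row 235, block FAM/C (helper192), part 1.  Homotopy invariance of Chern-Weil integrals of periodic
families of idempotents `q = U W` in a Banach algebra `A`; the trace is only taken in a corner: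
`τ (W x U)` (no trace class operators).  Everything is Stokes on a box (356) for the pull back of a
form on the Banach space `A × A × A`. -/

set_option autoImplicit false

open Set MeasureTheory Filter Topology

namespace Crest.Agent.R235.FamC_192

/-! ### alternatization as a continuous linear map -/

section alt

variable {J : Type*} [NormedAddCommGroup J] [NormedSpace ℝ J]

/-- alternatization as a continuous linear map -/
noncomputable def altL (n : ℕ) :
    ContinuousMultilinearMap ℝ (fun _ : Fin n => J) ℂ →L[ℝ] J [⋀^Fin n]→L[ℝ] ℂ :=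
  LinearMap.mkContinuous
    { toFun := fun f => ContinuousMultilinearMap.alternatization f
      map_add' := fun f g => map_add _ f g
      map_smul' := fun c f => by
        ext v
        simp only [ContinuousMultilinearMap.alternatization_apply_apply,
          _root_.smul_apply, ContinuousAlternatingMap.smul_apply,
          RingHom.id_apply, Finset.smul_sum]
        refine Finset.sum_congr rfl fun σ _ => ?_
        rw [smul_comm] }
    (Fintype.card (Equiv.Perm (Fin n)))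
    (fun f => by
      refine ContinuousAlternatingMap.opNorm_le_bound _ (by positivity) fun v => ?_
      simp only [LinearMap.coe_mk, AddHom.coe_mk,
        ContinuousMultilinearMap.alternatization_apply_apply]
      refine (norm_sum_le _ _).trans ?_
      have : ∀ σ ∈ (Finset.univ : Finset (Equiv.Perm (Fin n))),
          ‖Equiv.Perm.sign σ • f (v ∘ σ)‖ ≤ ‖f‖ * ∏ i, ‖v i‖ := by
        intro σ _
        have h1 : ‖Equiv.Perm.sign σ • f (v ∘ σ)‖ = ‖f (v ∘ σ)‖ := by
          rcases Int.units_eq_one_or (Equiv.Perm.sign σ) with h | h <;> rw [h] <;> simp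
        rw [h1]
        refine (f.le_opNorm _).trans (le_of_eq ?_)
        congr 1
        exact Equiv.prod_comp σ (fun i => ‖v i‖)
      refine (Finset.sum_le_card_nsmul _ _ _ this).trans (le_of_eq ?_)
      simp [mul_assoc])

theorem altL_apply (n : ℕ) (f : ContinuousMultilinearMap ℝ (fun _ : Fin n => J) ℂ)
    (v : Fin n → J) : altL n f v = ∑ σ : Equiv.Perm (Fin n), Equiv.Perm.sign σ • f (v ∘ σ) := by
  simp only [altL, LinearMap.mkContinuous_apply, LinearMap.coe_mk, AddHom.coe_mk,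
    ContinuousMultilinearMap.alternatization_apply_apply]

theorem continuous_eval_alt {X : Type*} [TopologicalSpace X] {b : ℕ}
    {A : X → J [⋀^Fin b]→L[ℝ] ℂ} {v : X → Fin b → J} (hA : Continuous A) (hv : Continuous v) :
    Continuous fun x => A x (v x) := by
  have h1 : Continuous fun p : (ContinuousMultilinearMap ℝ (fun _ : Fin b => J) ℂ) × (Fin b → J) =>
      p.1 p.2 := continuous_eval
  exact h1.comp ((ContinuousAlternatingMap.isEmbedding_toContinuousMultilinearMap.continuous.comp hA).prodMk hv)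

end alt

/-! ### Stokes on the cube, periodic families -/

section stokes

variable {N : Type*} [NormedAddCommGroup N] [NormedSpace ℝ N]

section closed

variable {G : Type*} [NormedAddCommGroup G] [NormedSpace ℝ G]

/-- the pull back of `Ω` by `f` is closed -/
def ClP {E : Type*} [NormedAddCommGroup E] [NormedSpace ℝ E] {n : ℕ}
    (Ω : N → N [⋀^Fin n]→L[ℝ] G) (f : E → N) : Prop :=
  ∀ x (v : Fin (n + 1) → E) (i : Fin (n + 1)),
    fderiv ℝ Ω (f x) (fderiv ℝ f x (v i)) (i.removeNth fun j => fderiv ℝ f x (v j)) = 0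

theorem extDeriv_zero {E : Type*} [NormedAddCommGroup E] [NormedSpace ℝ E] {n : ℕ}
    {Ω : N → N [⋀^Fin n]→L[ℝ] G} (hΩ : ContDiff ℝ 1 Ω) {f : E → N} (hcl : ClP Ω f)
    {x : E} (hf : ContDiffAt ℝ 2 f x) :
    extDeriv (fun x => (Ω (f x)).compContinuousLinearMap (fderiv ℝ f x)) x = 0 := by
  rw [extDeriv_pullback (r := 2) (hΩ.differentiable one_ne_zero (f x)) hf (by simp)]
  ext v
  have hd := hΩ.differentiable one_ne_zero (f x)
  have h1 := extDeriv_apply hd (fun j => fderiv ℝ f x (v j))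
  change extDeriv Ω (f x) (fun j => fderiv ℝ f x (v j)) = 0
  rw [h1]
  refine Finset.sum_eq_zero fun i _ => ?_
  have h2 : HasFDerivAt (fun y => Ω y (i.removeNth fun j => fderiv ℝ f x (v j)))
      ((ContinuousAlternatingMap.apply ℝ N G (i.removeNth fun j => fderiv ℝ f x (v j))).comp
        (fderiv ℝ Ω (f x))) (f x) :=
    (ContinuousAlternatingMap.apply ℝ N G (i.removeNth fun j => fderiv ℝ f x (v j))).hasFDerivAt.comp
      (f x) hd.hasFDerivAt
  rw [h2.fderiv]
  simp only [ContinuousLinearMap.comp_apply]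
  have h3 := hcl x v i
  rw [show (ContinuousAlternatingMap.apply ℝ N G (i.removeNth fun j => fderiv ℝ f x (v j)))
    ((fderiv ℝ Ω (f x)) (fderiv ℝ f x (v i))) = (fderiv ℝ Ω (f x)) (fderiv ℝ f x (v i))
      (i.removeNth fun j => fderiv ℝ f x (v j)) from rfl, h3, smul_zero]

end closed

theorem fderiv_shift {E : Type*} [NormedAddCommGroup E] [NormedSpace ℝ E] {f : E → N}
    (hf : Differentiable ℝ f) (c : E) (α : N →L[ℝ] N) (hp : ∀ x, f (x + c) = α (f x)) (x : E) :
    fderiv ℝ f (x + c) = α.comp (fderiv ℝ f x) := by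
  rw [← fderiv_comp_add_right c, funext hp]
  exact (α.hasFDerivAt.comp x (hf x).hasFDerivAt).fderiv

theorem insertNth_shift {b : ℕ} (k : Fin (b + 1)) (y : Fin b → ℝ) :
    (k.insertNth (1 : ℝ) y : Fin (b + 1) → ℝ) = k.insertNth (0 : ℝ) y + Pi.single k 1 := by
  funext j
  refine Fin.succAboveCases k ?_ ?_ j
  · simp
  · intro i
    simp [Fin.succAbove_ne]

/-- **homotopy invariance**, real valued forms -/
theorem homotopyR {b : ℕ} {Ω : N → N [⋀^Fin b]→L[ℝ] ℝ} (hΩ : ContDiff ℝ 1 Ω)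
    (f : (Fin (b + 1) → ℝ) → N) (hf : ContDiff ℝ 2 f) (hcl : ClP Ω f)
    (hper : ∀ k : Fin b, ∃ α : N →L[ℝ] N, (∀ q (v : Fin b → N), Ω (α q) (fun j => α (v j)) = Ω q v) ∧
      ∀ x, f (x + Pi.single k.succ 1) = α (f x)) :
    ∫ y in Icc (0 : Fin b → ℝ) 1, Ω (f (Fin.cons 1 y))
        (fun j => fderiv ℝ f (Fin.cons 1 y) (Pi.single j.succ 1)) =
      ∫ y in Icc (0 : Fin b → ℝ) 1, Ω (f (Fin.cons 0 y))
        (fun j => fderiv ℝ f (Fin.cons 0 y) (Pi.single j.succ 1)) := by
  let ω : (Fin (b + 1) → ℝ) → (Fin (b + 1) → ℝ) [⋀^Fin b]→L[ℝ] ℝ := fun x =>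
    (Ω (f x)).compContinuousLinearMap (fderiv ℝ f x)
  have hωa : ∀ x v, ω x v = Ω (f x) (fun j => fderiv ℝ f x (v j)) := fun x v => rfl
  have hωd : ∀ x, DifferentiableAt ℝ ω x := by
    intro x
    have h1 : DifferentiableAt ℝ (fun x => Ω (f x)) x :=
      (hΩ.differentiable one_ne_zero (f x)).comp x (hf.differentiable two_ne_zero x)
    have h2 : DifferentiableAt ℝ (fderiv ℝ f) x :=
      ((hf.contDiffAt).fderiv_right (m := 1) (by norm_num)).differentiableAt one_ne_zero
    exact h1.continuousAlternatingMapCompContinuousLinearMap h2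
  have key := DgStk_356.stokes_box (n := b) 0 1 (by intro i; simp) ω
    (fun x _ => (hωd x).continuousAt.continuousWithinAt) (fun x _ => hωd x)
    (fun x _ => extDeriv_zero hΩ hcl hf.contDiffAt)
  have hk : ∀ k : Fin b, DgStk_356.face 0 1 ω k.succ 1 = DgStk_356.face 0 1 ω k.succ 0 := by
    intro k
    obtain ⟨α, hα, hp⟩ := hper k
    unfold DgStk_356.face
    refine integral_congr_ae (Eventually.of_forall fun y => ?_)
    simp only [hωa]
    rw [insertNth_shift, fderiv_shift (hf.differentiable two_ne_zero) _ α hp, hp]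
    exact hα _ _
  have h0 : DgStk_356.face 0 1 ω 0 1 = DgStk_356.face 0 1 ω 0 0 := by
    rw [Fin.sum_univ_succ] at key
    have h2 : ∑ i : Fin b, (-1 : ℝ) ^ (i.succ : ℕ) *
        (DgStk_356.face 0 1 ω i.succ ((1 : Fin (b + 1) → ℝ) i.succ)
          - DgStk_356.face 0 1 ω i.succ ((0 : Fin (b + 1) → ℝ) i.succ)) = 0 := by
      refine Finset.sum_eq_zero fun k _ => ?_
      rw [show ((1 : Fin (b + 1) → ℝ) k.succ) = 1 from rfl,
        show ((0 : Fin (b + 1) → ℝ) k.succ) = 0 from rfl, hk, sub_self, mul_zero]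
    rw [h2, add_zero] at key
    simpa [sub_eq_zero] using key
  have h3 : ∀ c : ℝ, DgStk_356.face 0 1 ω 0 c = ∫ y in Icc (0 : Fin b → ℝ) 1, Ω (f (Fin.cons c y))
        (fun j => fderiv ℝ f (Fin.cons c y) (Pi.single j.succ 1)) := by
    intro c
    unfold DgStk_356.face
    have hs : Icc ((0 : Fin (b + 1) → ℝ) ∘ (0 : Fin (b + 1)).succAbove)
        ((1 : Fin (b + 1) → ℝ) ∘ (0 : Fin (b + 1)).succAbove) = Icc (0 : Fin b → ℝ) 1 := rfl
    rw [hs]
    refine integral_congr_ae (Eventually.of_forall fun y => ?_)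
    simp only [hωa, Fin.insertNth_zero', Fin.zero_succAbove]
  rw [← h3, ← h3, h0]

/-- homotopy invariance, complex valued forms -/
theorem homotopyC {b : ℕ} {Ω : N → N [⋀^Fin b]→L[ℝ] ℂ} (hΩ : ContDiff ℝ 1 Ω)
    (f : (Fin (b + 1) → ℝ) → N) (hf : ContDiff ℝ 2 f) (hcl : ClP Ω f)
    (hper : ∀ k : Fin b, ∃ α : N →L[ℝ] N, (∀ q (v : Fin b → N), Ω (α q) (fun j => α (v j)) = Ω q v) ∧
      ∀ x, f (x + Pi.single k.succ 1) = α (f x)) :
    ∫ y in Icc (0 : Fin b → ℝ) 1, Ω (f (Fin.cons 1 y))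
        (fun j => fderiv ℝ f (Fin.cons 1 y) (Pi.single j.succ 1)) =
      ∫ y in Icc (0 : Fin b → ℝ) 1, Ω (f (Fin.cons 0 y))
        (fun j => fderiv ℝ f (Fin.cons 0 y) (Pi.single j.succ 1)) := by
  have hsm : ∀ L : ℂ →L[ℝ] ℝ, ContDiff ℝ 1 (fun q => L.compContinuousAlternatingMap (Ω q)) :=
    fun L => (ContinuousLinearMap.compContinuousAlternatingMapCLM ℝ N ℂ ℝ (Fin b) L).contDiff.comp hΩ
  have hclL : ∀ L : ℂ →L[ℝ] ℝ, ClP (fun q => L.compContinuousAlternatingMap (Ω q)) f := by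
    intro L x v i
    have h1 : HasFDerivAt (fun q => L.compContinuousAlternatingMap (Ω q))
        ((ContinuousLinearMap.compContinuousAlternatingMapCLM ℝ N ℂ ℝ (Fin b) L).comp
          (fderiv ℝ Ω (f x))) (f x) :=
      (ContinuousLinearMap.compContinuousAlternatingMapCLM ℝ N ℂ ℝ (Fin b) L).hasFDerivAt.comp (f x)
        (hΩ.differentiable one_ne_zero (f x)).hasFDerivAt
    rw [h1.fderiv]
    change L (fderiv ℝ Ω (f x) (fderiv ℝ f x (v i)) (i.removeNth fun j => fderiv ℝ f x (v j))) = 0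
    rw [hcl x v i, map_zero]
  have hc : ∀ c : ℝ, Continuous fun y : Fin b → ℝ => Ω (f (Fin.cons c y))
        (fun j => fderiv ℝ f (Fin.cons c y) (Pi.single j.succ 1)) := by
    intro c
    have h1 : Continuous fun y : Fin b → ℝ => (Fin.cons c y : Fin (b + 1) → ℝ) :=
      Continuous.finCons continuous_const continuous_id
    have h2 : Continuous fun y : Fin b → ℝ => Ω (f (Fin.cons c y)) :=
      hΩ.continuous.comp (hf.continuous.comp h1)
    have h3 : Continuous fun y : Fin b → ℝ =>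
        (fun j : Fin b => fderiv ℝ f (Fin.cons c y) (Pi.single j.succ 1)) := by
      refine continuous_pi fun j => ?_
      exact ((hf.continuous_fderiv two_ne_zero).comp h1).clm_apply continuous_const
    exact (continuous_eval_alt h2 h3)
  have hi : ∀ c : ℝ, IntegrableOn (fun y : Fin b → ℝ => Ω (f (Fin.cons c y))
        (fun j => fderiv ℝ f (Fin.cons c y) (Pi.single j.succ 1))) (Icc 0 1) := fun c =>
    (hc c).continuousOn.integrableOn_compact isCompact_Icc
  have key : ∀ L : ℂ →L[ℝ] ℝ, L (∫ y in Icc (0 : Fin b → ℝ) 1, Ω (f (Fin.cons 1 y))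
        (fun j => fderiv ℝ f (Fin.cons 1 y) (Pi.single j.succ 1))) =
      L (∫ y in Icc (0 : Fin b → ℝ) 1, Ω (f (Fin.cons 0 y))
        (fun j => fderiv ℝ f (Fin.cons 0 y) (Pi.single j.succ 1))) := by
    intro L
    rw [← L.integral_comp_comm (hi 1), ← L.integral_comp_comm (hi 0)]
    refine homotopyR (hsm L) f hf (hclL L) fun k => ?_
    obtain ⟨α, hα, hp⟩ := hper k
    refine ⟨α, fun q v => ?_, hp⟩
    change L (Ω (α q) fun j => α (v j)) = L (Ω q v)
    rw [hα]
  exact Complex.ext (key Complex.reCLM) (key Complex.imCLM)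

end stokes

/-! ### the algebra -/

section algebra

variable {A : Type*} [NormedRing A] [NormedAlgebra ℝ A]

/-- a trace on the corner `π A π` -/
structure PT (τ : A →L[ℝ] ℂ) (π : A) : Prop where
  idem : π * π = π
  cyc : ∀ x y, τ (π * x * π * y * π) = τ (π * y * π * x * π)

variable {τ : A →L[ℝ] ℂ} {π : A}

/-- a factorized idempotent `q = U W` -/
structure Fa (π U W : A) : Prop where
  r : U * π = U
  l : π * W = W
  uwu : U * W * U = U
  wuw : W * U * W = W

theorem van (h : PT τ π) {U W U0 W0 Z : A} (hF : Fa π U W) (hU0 : U0 * π = U0)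
    (hW0 : π * W0 = W0) (hZ : U * W * Z = Z * (U * W))
    (hP : (W * U) * (W0 * U + W * U0) * (W * U) = 0) :
    τ (W * Z * U0) + τ (W0 * Z * U) = 0 := by
  obtain ⟨hr, hl, h3, h4⟩ := hF
  have a1 : W * Z * U0 = π * (W * Z * U) * π * (W * U0) * π := by
    have e1 : W * Z * U0 = (W * Z * U) * (W * U0) := by
      calc W * Z * U0 = W * U * W * Z * U0 := by rw [h4]
        _ = W * (U * W * Z) * U0 := by simp only [mul_assoc]
        _ = W * (Z * (U * W)) * U0 := by rw [hZ]
        _ = _ := by simp only [mul_assoc]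
    rw [e1]
    calc (W * Z * U) * (W * U0) = ((π * W) * Z * (U * π)) * (W * (U0 * π)) := by rw [hl, hr, hU0]
      _ = _ := by simp only [mul_assoc]
  have a2 : W0 * Z * U = π * (W0 * U) * π * (W * Z * U) * π := by
    have e1 : W0 * Z * U = (W0 * U) * (W * Z * U) := by
      calc W0 * Z * U = W0 * Z * (U * W * U) := by rw [h3]
        _ = W0 * (Z * (U * W)) * U := by simp only [mul_assoc]
        _ = W0 * (U * W * Z) * U := by rw [hZ]
        _ = _ := by simp only [mul_assoc]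
    rw [e1]
    calc (W0 * U) * (W * Z * U) = ((π * W0) * (U * π)) * (W * Z * (U * π)) := by rw [hW0, hr]
      _ = _ := by simp only [mul_assoc]
  rw [a1, a2, h.cyc (W0 * U), ← map_add]
  have a3 : π * (W * Z * U) * π * (W * U0) * π + π * (W * Z * U) * π * (W0 * U) * π
      = π * (W * U) * π * ((W * Z * U) * (W * U) * (W0 * U + W * U0)) * π := by
    have e1 : W * Z * U = (W * U) * (W * Z * U) * (W * U) := by
      calc W * Z * U = (W * U * W) * Z * (U * W * U) := by rw [h3, h4]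
        _ = _ := by simp only [mul_assoc]
    have e2 : (W * U) * π = W * U := by rw [mul_assoc, hr]
    have e3 : ∀ x : A, π * (W * Z * U) * π * x * π = π * (W * U) * π * ((W * Z * U) * (W * U) * x) * π := by
      intro x
      calc π * (W * Z * U) * π * x * π
          = π * ((W * U) * (W * Z * U) * (W * U)) * π * x * π := by rw [← e1]
        _ = π * (((W * U) * π) * (W * Z * U) * ((W * U) * π)) * x * π := by
            rw [e2]; simp only [mul_assoc]; rw [← mul_assoc U π, hr]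
        _ = π * (((W * U) * π) * (W * Z * U) * (W * U)) * x * π := by rw [e2]
        _ = _ := by simp only [mul_assoc]
    rw [e3, e3, ← add_mul, ← mul_add, ← mul_add, add_comm (W * U0)]
  rw [a3, h.cyc]
  have a4 : π * ((W * Z * U) * (W * U) * (W0 * U + W * U0)) * π * (W * U) * π
      = π * (W * Z * U) * ((W * U) * (W0 * U + W * U0) * (W * U)) * π := by
    have e2 : π * (W * U) = W * U := by rw [← mul_assoc, hl]
    calc π * ((W * Z * U) * (W * U) * (W0 * U + W * U0)) * π * (W * U) * π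
        = π * ((W * Z * U) * (W * U) * (W0 * U + W * U0)) * (π * (W * U)) * π := by
          simp only [mul_assoc]
      _ = _ := by rw [e2]; simp only [mul_assoc]
  rw [a4, hP]
  simp

/-- odd elements with respect to an idempotent -/
def Odd (q e : A) : Prop := q * e + e * q = e

omit [NormedAlgebra ℝ A] in
theorem Odd.left {q e : A} (h : Odd q e) : q * e = e * (1 - q) := by
  rw [mul_sub, mul_one, eq_sub_iff_add_eq]; exact h

omit [NormedAlgebra ℝ A] in
theorem odd_list {q : A} (l : List A) (hl : ∀ e ∈ l, Odd q e) :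
    (Even l.length → q * l.prod = l.prod * q) ∧
      (¬ Even l.length → q * l.prod = l.prod * (1 - q)) := by
  induction l with
  | nil => simp
  | cons e l ih =>
    obtain ⟨ih1, ih2⟩ := ih fun x hx => hl x (List.mem_cons_of_mem _ hx)
    have he : q * e = e * (1 - q) := (hl e List.mem_cons_self).left
    constructor
    · intro hev
      have hl' : ¬ Even l.length := by
        rw [List.length_cons, Nat.even_add_one] at hev
        exact hev
      have h2 := ih2 hl'
      rw [List.prod_cons, ← mul_assoc, he]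
      calc e * (1 - q) * l.prod = e * (l.prod - q * l.prod) := by noncomm_ring
        _ = e * (l.prod - l.prod * (1 - q)) := by rw [h2]
        _ = _ := by noncomm_ring
    · intro hev
      have hl' : Even l.length := by
        rw [List.length_cons, Nat.even_add_one, not_not] at hev
        exact hev
      have h2 := ih1 hl'
      rw [List.prod_cons, ← mul_assoc, he]
      calc e * (1 - q) * l.prod = e * (l.prod - q * l.prod) := by noncomm_ring
        _ = e * (l.prod - l.prod * q) := by rw [h2]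
        _ = _ := by noncomm_ring

/-- `(W, U) ↦ (x ↦ τ (W x U))` -/
noncomputable def Lam (τ : A →L[ℝ] ℂ) : A →L[ℝ] A →L[ℝ] A →L[ℝ] ℂ :=
  (ContinuousLinearMap.compL ℝ A (A →L[ℝ] A) (A →L[ℝ] ℂ)
    (ContinuousLinearMap.compL ℝ A A ℂ τ)).comp (ContinuousLinearMap.mulLeftRight ℝ A)

theorem Lam_apply (W U x : A) : Lam τ W U x = τ (W * x * U) := rfl

/-- a functional on `A` gives a form on `A × A × A` -/
noncomputable def Psi (A : Type*) [NormedRing A] [NormedAlgebra ℝ A] (n : ℕ) :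
    (A →L[ℝ] ℂ) →L[ℝ] (A × A × A) [⋀^Fin n]→L[ℝ] ℂ :=
  ((ContinuousAlternatingMap.compContinuousLinearMapCLM
    ((ContinuousLinearMap.snd ℝ A A).comp (ContinuousLinearMap.snd ℝ A (A × A)))).comp (altL n)).comp
    ((ContinuousLinearMap.compContinuousMultilinearMapL ℝ (fun _ : Fin n => A) A ℂ).flip
      (ContinuousMultilinearMap.mkPiAlgebraFin ℝ n A))

theorem Psi_apply (n : ℕ) (L : A →L[ℝ] ℂ) (X : Fin n → A × A × A) :
    Psi A n L X = ∑ σ : Equiv.Perm (Fin n), Equiv.Perm.sign σ •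
      L ((List.ofFn fun i => (X (σ i)).2.2).prod) := by
  have h : Psi A n L X = altL n (L.compContinuousMultilinearMap
      (ContinuousMultilinearMap.mkPiAlgebraFin ℝ n A)) (fun i => (X i).2.2) := rfl
  rw [h, altL_apply]
  refine Finset.sum_congr rfl fun σ _ => ?_
  congr 1

/-- the form `(U, W, q) ↦ alt τ (W dq ... dq U)` -/
noncomputable def Om (τ : A →L[ℝ] ℂ) (n : ℕ) (x : A × A × A) : (A × A × A) [⋀^Fin n]→L[ℝ] ℂ :=
  Psi A n (Lam τ x.2.1 x.1)

theorem Om_apply (n : ℕ) (x : A × A × A) (X : Fin n → A × A × A) :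
    Om τ n x X = ∑ σ : Equiv.Perm (Fin n), Equiv.Perm.sign σ •
      τ (x.2.1 * (List.ofFn fun i => (X (σ i)).2.2).prod * x.1) := by
  rw [Om, Psi_apply]; rfl

theorem Om_smooth (n : ℕ) : ContDiff ℝ 1 (Om τ n) := by
  have h5 : ContDiff ℝ 1 (fun L : A →L[ℝ] ℂ => Psi A n L) :=
    ContinuousLinearMap.contDiff (𝕜 := ℝ) (E := A →L[ℝ] ℂ) (F := (A × A × A) [⋀^Fin n]→L[ℝ] ℂ) (n := 1) (Psi A n)
  have h6 : ContDiff ℝ 1 (fun x : A × A × A => Lam τ x.2.1 x.1) :=
    ((Lam τ).contDiff.comp (contDiff_fst.comp contDiff_snd)).clm_apply contDiff_fst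
  exact h5.comp h6

theorem Om_fderiv (n : ℕ) (x y : A × A × A) :
    fderiv ℝ (Om τ n) x y = Psi A n (Lam τ y.2.1 x.1) + Psi A n (Lam τ x.2.1 y.1) := by
  have h1 : HasFDerivAt (fun x : A × A × A => x.2.1)
      ((ContinuousLinearMap.fst ℝ A A).comp (ContinuousLinearMap.snd ℝ A (A × A))) x :=
    ((ContinuousLinearMap.fst ℝ A A).comp (ContinuousLinearMap.snd ℝ A (A × A))).hasFDerivAt
  have h2 : HasFDerivAt (fun x : A × A × A => x.1) (ContinuousLinearMap.fst ℝ A (A × A)) x :=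
    (ContinuousLinearMap.fst ℝ A (A × A)).hasFDerivAt
  have h3 := (Lam τ).hasFDerivAt_of_bilinear h1 h2
  have h5 : HasFDerivAt (fun L => Psi A n L) (Psi A n) (Lam τ x.2.1 x.1) := (Psi A n).hasFDerivAt
  have h4 : HasFDerivAt (Om τ n) _ x :=
    HasFDerivAt.comp (𝕜 := ℝ) (g := fun L => Psi A n L) (g' := Psi A n) x h5 h3
  rw [h4.fderiv, ← map_add]
  change Psi A n (_ + _) = _
  congr 1
  rw [add_comm]
  rfl

/-- the triple `(U, W, U W)` -/
def tri {E : Type*} (U W : E → A) (x : E) : A × A × A := (U x, W x, U x * W x)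

/-- derivative of the triple -/
theorem tri_fderiv {E : Type*} [NormedAddCommGroup E] [NormedSpace ℝ E] {U W : E → A} {x : E}
    (hU : DifferentiableAt ℝ U x) (hW : DifferentiableAt ℝ W x) (v : E) :
    fderiv ℝ (tri U W) x v = (fderiv ℝ U x v, fderiv ℝ W x v,
      U x * fderiv ℝ W x v + fderiv ℝ U x v * W x) := by
  have h := hU.hasFDerivAt.prodMk (hW.hasFDerivAt.prodMk (hU.hasFDerivAt.mul' hW.hasFDerivAt))
  have h' : HasFDerivAt (tri U W) _ x := h
  rw [h'.fderiv]
  rfl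

omit [NormedAlgebra ℝ A] in
theorem fa_idem {U W : A} (h : Fa π U W) : (U * W) * (U * W) = U * W := by
  rw [← mul_assoc, h.uwu]

/-- **closedness** -/
theorem clP {E : Type*} [NormedAddCommGroup E] [NormedSpace ℝ E] (hτ : PT τ π) {n : ℕ}
    (hn : Even n) {U W : E → A} (hU : Differentiable ℝ U) (hW : Differentiable ℝ W)
    (hF : ∀ x, Fa π (U x) (W x)) : ClP (Om τ n) (tri U W) := by
  intro x v i
  -- directional derivatives
  have dU : ∀ w, fderiv ℝ U x w * π = fderiv ℝ U x w := by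
    intro w
    have h1 : HasFDerivAt (fun x => U x * π) _ x := (hU x).hasFDerivAt.mul_const' π
    have h2 : HasFDerivAt (fun x => U x * π) (fderiv ℝ U x) x := by
      rw [show (fun x => U x * π) = U from funext fun x => (hF x).r]; exact (hU x).hasFDerivAt
    have h3 := congrArg (fun L : E →L[ℝ] A => L w) (h1.unique h2)
    simpa using h3
  have dW : ∀ w, π * fderiv ℝ W x w = fderiv ℝ W x w := by
    intro w
    have h1 : HasFDerivAt (fun x => π * W x) _ x := (hW x).hasFDerivAt.const_mul π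
    have h2 : HasFDerivAt (fun x => π * W x) (fderiv ℝ W x) x := by
      rw [show (fun x => π * W x) = W from funext fun x => (hF x).l]; exact (hW x).hasFDerivAt
    have h3 := congrArg (fun L : E →L[ℝ] A => L w) (h1.unique h2)
    simpa using h3
  have dq : ∀ w, Odd (U x * W x) (U x * fderiv ℝ W x w + fderiv ℝ U x w * W x) := by
    intro w
    have h0 := (hU x).hasFDerivAt.fun_mul' (hW x).hasFDerivAt
    have h1 := h0.fun_mul' h0
    rw [show (fun x => (U x * W x) * (U x * W x)) = fun x => U x * W x from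
        funext fun x => fa_idem (hF x)] at h1
    have h3 := congrArg (fun L : E →L[ℝ] A => L w) (h1.unique h0)
    simpa [Odd, mul_add, add_mul] using h3
  have dP : ∀ w, (W x * U x) * (fderiv ℝ W x w * U x + W x * fderiv ℝ U x w) * (W x * U x) = 0 := by
    intro w
    have hP : ∀ x, (W x * U x) * (W x * U x) = W x * U x := by
      intro x; rw [← mul_assoc, (hF x).wuw]
    have h0 := (hW x).hasFDerivAt.fun_mul' (hU x).hasFDerivAt
    have h1 := h0.fun_mul' h0
    rw [show (fun x => (W x * U x) * (W x * U x)) = fun x => W x * U x from funext hP] at h1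
    have h3 := congrArg (fun L : E →L[ℝ] A => L w) (h1.unique h0)
    have h4 : W x * U x * (W x * fderiv ℝ U x w + fderiv ℝ W x w * U x)
        + (W x * fderiv ℝ U x w + fderiv ℝ W x w * U x) * (W x * U x)
        = W x * fderiv ℝ U x w + fderiv ℝ W x w * U x := by
      simpa [mul_add, add_mul] using h3
    have hPP := hP x
    set P := W x * U x with hPdef
    set D := W x * fderiv ℝ U x w + fderiv ℝ W x w * U x with hD
    have h5 : fderiv ℝ W x w * U x + W x * fderiv ℝ U x w = D := by rw [hD, add_comm]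
    rw [h5]
    have h6 : P * (P * D + D * P) * P = P * D * P := by rw [h4]
    have h7 : P * (P * D + D * P) * P = (P * P) * D * P + P * D * (P * P) := by noncomm_ring
    rw [h7, hPP] at h6
    simpa using h6
  rw [Om_fderiv]
  change Psi A n _ _ + Psi A n _ _ = 0
  rw [Psi_apply, Psi_apply, ← Finset.sum_add_distrib]
  refine Finset.sum_eq_zero fun σ _ => ?_
  rw [← smul_add]
  have hZ : U x * W x * (List.ofFn fun j => (i.removeNth (fun j => fderiv ℝ (tri U W) x (v j)) (σ j)).2.2).prod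
      = (List.ofFn fun j => (i.removeNth (fun j => fderiv ℝ (tri U W) x (v j)) (σ j)).2.2).prod * (U x * W x) := by
    refine (odd_list (List.ofFn _) ?_).1 (by simpa using hn)
    intro e he
    rw [List.mem_ofFn] at he
    obtain ⟨j, rfl⟩ := he
    rw [show i.removeNth (fun j => fderiv ℝ (tri U W) x (v j)) (σ j)
      = fderiv ℝ (tri U W) x (v (i.succAbove (σ j))) from rfl, tri_fderiv (hU x) (hW x)]
    exact dq _
  have key := van hτ (hF x) (dU (v i)) (dW (v i)) hZ (dP (v i))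
  rw [Lam_apply, Lam_apply, tri_fderiv (hU x) (hW x) (v i)]
  change Equiv.Perm.sign σ • (τ (fderiv ℝ W x (v i) * _ * U x) + τ (W x * _ * fderiv ℝ U x (v i))) = 0
  rw [add_comm, key, smul_zero]

omit [NormedAlgebra ℝ A] in
theorem conj_list {V V' : A} (h : V' * V = 1) (l : List A) :
    V' * (l.map fun q => V * q * V').prod * V = l.prod := by
  induction l with
  | nil => simpa using h
  | cons e l ih =>
    rw [List.map_cons, List.prod_cons, List.prod_cons]
    calc V' * (V * e * V' * (l.map fun q => V * q * V').prod) * V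
        = (V' * V) * e * (V' * (l.map fun q => V * q * V').prod * V) := by noncomm_ring
      _ = e * l.prod := by rw [h, ih, one_mul]

/-- the Chern-Weil number of `q = U W` with the corner trace `τ` -/
noncomputable def den (τ : A →L[ℝ] ℂ) (n : ℕ) (U W : (Fin n → ℝ) → A) : ℂ :=
  ∫ y in Icc (0 : Fin n → ℝ) 1, ∑ σ : Equiv.Perm (Fin n), Equiv.Perm.sign σ •
    τ (W y * (List.ofFn fun i => fderiv ℝ (fun y => U y * W y) y (Pi.single (σ i) 1)).prod * U y)

theorem fderiv_slice {F : Type*} [NormedAddCommGroup F] [NormedSpace ℝ F] {n : ℕ}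
    {f : (Fin (n + 1) → ℝ) → F} (hf : Differentiable ℝ f) (c : ℝ) (y : Fin n → ℝ) (j : Fin n) :
    fderiv ℝ (fun y => f (Fin.cons c y)) y (Pi.single j 1)
      = fderiv ℝ f (Fin.cons c y) (Pi.single j.succ 1) := by
  have h1 : HasFDerivAt (fun y : Fin n → ℝ => (Fin.cons c y : Fin (n + 1) → ℝ))
      (ContinuousLinearMap.pi fun i : Fin (n + 1) =>
        Fin.cases (motive := fun _ => (Fin n → ℝ) →L[ℝ] ℝ) 0 (fun j => ContinuousLinearMap.proj j) i)
      y := by
    rw [hasFDerivAt_pi]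
    intro i
    refine Fin.cases ?_ (fun j => ?_) i
    · simpa using hasFDerivAt_const c y
    · simpa using hasFDerivAt_apply (𝕜 := ℝ) j y
  have h2 := (hf (Fin.cons c y)).hasFDerivAt.comp y h1
  have h3 : HasFDerivAt (fun y => f (Fin.cons c y)) _ y := h2
  rw [h3.fderiv, ContinuousLinearMap.comp_apply]
  congr 1
  funext i
  refine Fin.cases ?_ (fun k => ?_) i
  · simp
  · simp [Pi.single_apply]

/-- **homotopy invariance in a Banach algebra** -/
theorem homotopy_alg (hτ : PT τ π) {n : ℕ} (hn : Even n) {U W : (Fin (n + 1) → ℝ) → A}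
    (hU : ContDiff ℝ 2 U) (hW : ContDiff ℝ 2 W) (hF : ∀ x, Fa π (U x) (W x))
    (hper : ∀ k : Fin n, ∃ V V' : A, V' * V = 1 ∧ ∀ x, U (x + Pi.single k.succ 1) = V * U x ∧
      W (x + Pi.single k.succ 1) = W x * V') :
    den τ n (fun y => U (Fin.cons 1 y)) (fun y => W (Fin.cons 1 y))
      = den τ n (fun y => U (Fin.cons 0 y)) (fun y => W (Fin.cons 0 y)) := by
  have hU1 := hU.differentiable two_ne_zero
  have hW1 := hW.differentiable two_ne_zero
  have hf : ContDiff ℝ 2 (tri U W) := hU.prodMk (hW.prodMk (hU.mul hW))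
  have key := homotopyC (Om_smooth (τ := τ) n) (tri U W) hf (clP hτ hn hU1 hW1 hF) (by
    intro k
    obtain ⟨V, V', hV, hp⟩ := hper k
    refine ⟨(ContinuousLinearMap.mul ℝ A V).prodMap
      (((ContinuousLinearMap.mul ℝ A).flip V').prodMap (ContinuousLinearMap.mulLeftRight ℝ A V V')),
      fun q v => ?_, fun x => ?_⟩
    · rw [Om_apply, Om_apply]
      refine Finset.sum_congr rfl fun σ _ => ?_
      congr 2
      change q.2.1 * V' * (List.ofFn fun i => V * (v (σ i)).2.2 * V').prod * (V * q.1) = _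
      have h1 : (List.ofFn fun i => V * (v (σ i)).2.2 * V')
          = (List.ofFn fun i => (v (σ i)).2.2).map fun q => V * q * V' := by
        rw [List.map_ofFn]; rfl
      rw [h1]
      conv_rhs => rw [← conj_list hV (List.ofFn fun i => (v (σ i)).2.2)]
      simp only [mul_assoc]
    · obtain ⟨h1, h2⟩ := hp x
      simp only [tri, h1, h2]
      refine Prod.ext rfl (Prod.ext rfl ?_)
      change V * U x * (W x * V') = V * (U x * W x) * V'
      simp only [mul_assoc])
  have h2 : ∀ c : ℝ, den τ n (fun y => U (Fin.cons c y)) (fun y => W (Fin.cons c y))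
      = ∫ y in Icc (0 : Fin n → ℝ) 1, Om τ n (tri U W (Fin.cons c y))
        (fun j => fderiv ℝ (tri U W) (Fin.cons c y) (Pi.single j.succ 1)) := by
    intro c
    unfold den
    refine integral_congr_ae (Eventually.of_forall fun y => ?_)
    simp only
    rw [Om_apply]
    refine Finset.sum_congr rfl fun σ _ => ?_
    congr 5
    refine congrArg List.ofFn (funext fun i => ?_)
    rw [fderiv_slice (f := fun x => U x * W x) (hU1.mul hW1), tri_fderiv (hU1 _) (hW1 _)]
    have h3 := (hU1 (Fin.cons c y)).hasFDerivAt.fun_mul' (hW1 (Fin.cons c y)).hasFDerivAt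
    rw [h3.fderiv]
    rfl
  rw [h2, h2, key]

end algebra

end Crest.Agent.R235.FamC_192
end

-- ▼ part R235/FamC2_192
section

/-! Row 235, block FAM/C (helper192), part 2: the square form, embeddings (EMB). -/

set_option autoImplicit false
set_option maxSynthPendingDepth 3

open Set MeasureTheory Filter Topology
open scoped InnerProductSpace

namespace Crest.Agent.R235.FamC_192

section sq

variable {A : Type*} [NormedRing A] [NormedAlgebra ℝ A] {τ : A →L[ℝ] ℂ} {π : A}

/-- `(x₀,..,x₃) ↦ L (x₀ x₁) L' (x₂ x₃)` -/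
noncomputable def sqI (L L' : A →L[ℝ] ℂ) : ContinuousMultilinearMap ℝ (fun _ : Fin 4 => A) ℂ :=
  MultilinearMap.mkContinuous
      (MultilinearMap.mk' (fun X => L (X 0 * X 1) * L' (X 2 * X 3))
        (by
          intro v i x y
          fin_cases i <;> simp [Function.update, add_mul, mul_add])
        (by
          intro v i c x
          fin_cases i <;> simp [Function.update, mul_assoc, mul_left_comm]))
      (‖L‖ * ‖L'‖)
      (fun v => by
        simp only [MultilinearMap.coe_mk, MultilinearMap.mk']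
        rw [Fin.prod_univ_four, norm_mul]
        have h1 := (L.le_opNorm (v 0 * v 1)).trans
          (mul_le_mul_of_nonneg_left (norm_mul_le (v 0) (v 1)) (norm_nonneg L))
        have h2 := (L'.le_opNorm (v 2 * v 3)).trans
          (mul_le_mul_of_nonneg_left (norm_mul_le (v 2) (v 3)) (norm_nonneg L'))
        calc ‖L (v 0 * v 1)‖ * ‖L' (v 2 * v 3)‖
            ≤ (‖L‖ * (‖v 0‖ * ‖v 1‖)) * (‖L'‖ * (‖v 2‖ * ‖v 3‖)) := by gcongr
          _ = _ := by ring)

theorem sqI_apply (L L' : A →L[ℝ] ℂ) (X : Fin 4 → A) :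
    sqI L L' X = L (X 0 * X 1) * L' (X 2 * X 3) := rfl

theorem sqI_norm (L L' : A →L[ℝ] ℂ) : ‖sqI L L'‖ ≤ ‖L‖ * ‖L'‖ :=
  MultilinearMap.mkContinuous_norm_le _ (by positivity) _

/-- `(L, L') ↦ sqI L L'` -/
noncomputable def sqM (A : Type*) [NormedRing A] [NormedAlgebra ℝ A] :
    (A →L[ℝ] ℂ) →L[ℝ] (A →L[ℝ] ℂ) →L[ℝ] ContinuousMultilinearMap ℝ (fun _ : Fin 4 => A) ℂ :=
  LinearMap.mkContinuous₂
    (LinearMap.mk₂ ℝ (fun L L' => sqI L L')
      (by intro L₁ L₂ L'; ext v; simp [sqI_apply, add_mul])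
      (by intro c L L'; ext v; simp [sqI_apply, mul_assoc])
      (by intro L L₁ L₂; ext v; simp [sqI_apply, mul_add])
      (by intro c L L'; ext v; simp [sqI_apply, mul_left_comm]))
    1 (fun L L' => by
      rw [one_mul]
      exact sqI_norm L L')


/-- the square form on `A × A × A` -/
noncomputable def PsiSq (A : Type*) [NormedRing A] [NormedAlgebra ℝ A] :
    (A →L[ℝ] ℂ) →L[ℝ] (A →L[ℝ] ℂ) →L[ℝ] (A × A × A) [⋀^Fin 4]→L[ℝ] ℂ :=
  (ContinuousLinearMap.compL ℝ (A →L[ℝ] ℂ) _ _ ((ContinuousAlternatingMap.compContinuousLinearMapCLM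
    ((ContinuousLinearMap.snd ℝ A A).comp (ContinuousLinearMap.snd ℝ A (A × A)))).comp
      (altL 4))).comp (sqM A)

theorem PsiSq_apply (L L' : A →L[ℝ] ℂ) (X : Fin 4 → A × A × A) :
    PsiSq A L L' X = ∑ σ : Equiv.Perm (Fin 4), Equiv.Perm.sign σ •
      (L ((X (σ 0)).2.2 * (X (σ 1)).2.2) * L' ((X (σ 2)).2.2 * (X (σ 3)).2.2)) := by
  have h : PsiSq A L L' X = altL 4 (sqI L L') (fun i => (X i).2.2) := rfl
  rw [h, altL_apply]
  refine Finset.sum_congr rfl fun σ _ => ?_
  rw [sqI_apply]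
  rfl

/-- the square form -/
noncomputable def OmSq (τ : A →L[ℝ] ℂ) (x : A × A × A) : (A × A × A) [⋀^Fin 4]→L[ℝ] ℂ :=
  PsiSq A (Lam τ x.2.1 x.1) (Lam τ x.2.1 x.1)

theorem Lam_smooth (τ : A →L[ℝ] ℂ) : ContDiff ℝ 1 (fun x : A × A × A => Lam τ x.2.1 x.1) :=
  ((Lam τ).contDiff.comp (contDiff_fst.comp contDiff_snd)).clm_apply contDiff_fst

theorem Lam_fderiv (τ : A →L[ℝ] ℂ) (x y : A × A × A) :
    fderiv ℝ (fun x : A × A × A => Lam τ x.2.1 x.1) x y
      = Lam τ y.2.1 x.1 + Lam τ x.2.1 y.1 := by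
  have h1 : HasFDerivAt (fun x : A × A × A => x.2.1)
      ((ContinuousLinearMap.fst ℝ A A).comp (ContinuousLinearMap.snd ℝ A (A × A))) x :=
    ((ContinuousLinearMap.fst ℝ A A).comp (ContinuousLinearMap.snd ℝ A (A × A))).hasFDerivAt
  have h2 : HasFDerivAt (fun x : A × A × A => x.1) (ContinuousLinearMap.fst ℝ A (A × A)) x :=
    (ContinuousLinearMap.fst ℝ A (A × A)).hasFDerivAt
  have h3 := (Lam τ).hasFDerivAt_of_bilinear h1 h2
  rw [h3.fderiv]
  change Lam τ x.2.1 y.1 + Lam τ y.2.1 x.1 = _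
  rw [add_comm]

theorem OmSq_smooth : ContDiff ℝ 1 (OmSq τ) := by
  have h6 := Lam_smooth τ
  have h7 : ContDiff ℝ 1 (fun x : A × A × A => PsiSq A (Lam τ x.2.1 x.1)) := by
    have h5 : ContDiff ℝ 1 (fun L : A →L[ℝ] ℂ => PsiSq A L) :=
      ContinuousLinearMap.contDiff (𝕜 := ℝ) (E := A →L[ℝ] ℂ)
        (F := (A →L[ℝ] ℂ) →L[ℝ] (A × A × A) [⋀^Fin 4]→L[ℝ] ℂ) (n := 1) (PsiSq A)
    exact h5.comp h6
  exact h7.clm_apply h6

theorem OmSq_fderiv (x y : A × A × A) :
    fderiv ℝ (OmSq τ) x y = PsiSq A (Lam τ x.2.1 x.1) (Lam τ y.2.1 x.1 + Lam τ x.2.1 y.1)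
      + PsiSq A (Lam τ y.2.1 x.1 + Lam τ x.2.1 y.1) (Lam τ x.2.1 x.1) := by
  have h6 := ((Lam_smooth τ).differentiable one_ne_zero x).hasFDerivAt
  have h7 : HasFDerivAt (OmSq τ) _ x :=
    ContinuousLinearMap.hasFDerivAt_of_bilinear (𝕜 := ℝ) (PsiSq A) h6 h6
  rw [h7.fderiv, ← Lam_fderiv]
  rfl

section facts

variable {E : Type*} [NormedAddCommGroup E] [NormedSpace ℝ E] {U W : E → A}

theorem dU_r (hU : Differentiable ℝ U) (hF : ∀ x, Fa π (U x) (W x)) (x w : E) :
    fderiv ℝ U x w * π = fderiv ℝ U x w := by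
  have h1 : HasFDerivAt (fun x => U x * π) _ x := (hU x).hasFDerivAt.mul_const' π
  have h2 : HasFDerivAt (fun x => U x * π) (fderiv ℝ U x) x := by
    rw [show (fun x => U x * π) = U from funext fun x => (hF x).r]; exact (hU x).hasFDerivAt
  have h3 := congrArg (fun L : E →L[ℝ] A => L w) (h1.unique h2)
  simpa using h3

theorem dW_l (hW : Differentiable ℝ W) (hF : ∀ x, Fa π (U x) (W x)) (x w : E) :
    π * fderiv ℝ W x w = fderiv ℝ W x w := by
  have h1 : HasFDerivAt (fun x => π * W x) _ x := (hW x).hasFDerivAt.const_mul π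
  have h2 : HasFDerivAt (fun x => π * W x) (fderiv ℝ W x) x := by
    rw [show (fun x => π * W x) = W from funext fun x => (hF x).l]; exact (hW x).hasFDerivAt
  have h3 := congrArg (fun L : E →L[ℝ] A => L w) (h1.unique h2)
  simpa using h3

theorem dq_odd (hU : Differentiable ℝ U) (hW : Differentiable ℝ W) (hF : ∀ x, Fa π (U x) (W x))
    (x w : E) : Odd (U x * W x) (U x * fderiv ℝ W x w + fderiv ℝ U x w * W x) := by
  have h0 := (hU x).hasFDerivAt.fun_mul' (hW x).hasFDerivAt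
  have h1 := h0.fun_mul' h0
  rw [show (fun x => (U x * W x) * (U x * W x)) = fun x => U x * W x from
      funext fun x => fa_idem (hF x)] at h1
  have h3 := congrArg (fun L : E →L[ℝ] A => L w) (h1.unique h0)
  simpa [Odd, mul_add, add_mul] using h3

theorem dP_zero (hU : Differentiable ℝ U) (hW : Differentiable ℝ W) (hF : ∀ x, Fa π (U x) (W x))
    (x w : E) :
    (W x * U x) * (fderiv ℝ W x w * U x + W x * fderiv ℝ U x w) * (W x * U x) = 0 := by
  have hP : ∀ x, (W x * U x) * (W x * U x) = W x * U x := by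
    intro x; rw [← mul_assoc, (hF x).wuw]
  have h0 := (hW x).hasFDerivAt.fun_mul' (hU x).hasFDerivAt
  have h1 := h0.fun_mul' h0
  rw [show (fun x => (W x * U x) * (W x * U x)) = fun x => W x * U x from funext hP] at h1
  have h3 := congrArg (fun L : E →L[ℝ] A => L w) (h1.unique h0)
  have h4 : W x * U x * (W x * fderiv ℝ U x w + fderiv ℝ W x w * U x)
      + (W x * fderiv ℝ U x w + fderiv ℝ W x w * U x) * (W x * U x)
      = W x * fderiv ℝ U x w + fderiv ℝ W x w * U x := by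
    simpa [mul_add, add_mul] using h3
  have hPP := hP x
  set P := W x * U x with hPdef
  set D := W x * fderiv ℝ U x w + fderiv ℝ W x w * U x with hD
  have h5 : fderiv ℝ W x w * U x + W x * fderiv ℝ U x w = D := by rw [hD, add_comm]
  rw [h5]
  have h6 : P * (P * D + D * P) * P = P * D * P := by rw [h4]
  have h7 : P * (P * D + D * P) * P = (P * P) * D * P + P * D * (P * P) := by noncomm_ring
  rw [h7, hPP] at h6
  simpa using h6

/-- closedness of the square form -/
theorem clP_sq (hτ : PT τ π) (hU : Differentiable ℝ U) (hW : Differentiable ℝ W)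
    (hF : ∀ x, Fa π (U x) (W x)) : ClP (OmSq τ) (tri U W) := by
  intro x v i
  have hZ : ∀ a b : Fin 4, (Lam τ (fderiv ℝ W x (v i)) (U x) + Lam τ (W x) (fderiv ℝ U x (v i)))
      ((i.removeNth (fun j => fderiv ℝ (tri U W) x (v j)) a).2.2
        * (i.removeNth (fun j => fderiv ℝ (tri U W) x (v j)) b).2.2) = 0 := by
    intro a b
    have e1 : ∀ a : Fin 4, (i.removeNth (fun j => fderiv ℝ (tri U W) x (v j)) a)
      = fderiv ℝ (tri U W) x (v (i.succAbove a)) := fun _ => rfl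
    have key := van hτ (hF x) (dU_r hU hF x (v i)) (dW_l hW hF x (v i))
      (Z := (i.removeNth (fun j => fderiv ℝ (tri U W) x (v j)) a).2.2
        * (i.removeNth (fun j => fderiv ℝ (tri U W) x (v j)) b).2.2) (by
          have h1 := (odd_list (q := U x * W x) [(i.removeNth (fun j => fderiv ℝ (tri U W) x (v j)) a).2.2,
            (i.removeNth (fun j => fderiv ℝ (tri U W) x (v j)) b).2.2] (by
              intro e he
              simp only [List.mem_cons, List.not_mem_nil, or_false] at he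
              rcases he with rfl | rfl
              · rw [e1, tri_fderiv (hU x) (hW x)]
                exact dq_odd hU hW hF x _
              · rw [e1, tri_fderiv (hU x) (hW x)]
                exact dq_odd hU hW hF x _)).1 ⟨1, rfl⟩
          simpa using h1)
      (dP_zero hU hW hF x (v i))
    rw [_root_.add_apply, Lam_apply, Lam_apply, add_comm]
    exact key
  rw [OmSq_fderiv]
  have e2 : fderiv ℝ (tri U W) x (v i) = (fderiv ℝ U x (v i), fderiv ℝ W x (v i),
      U x * fderiv ℝ W x (v i) + fderiv ℝ U x (v i) * W x) := tri_fderiv (hU x) (hW x) (v i)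
  rw [e2]
  change PsiSq A _ (Lam τ (fderiv ℝ W x (v i)) (U x) + Lam τ (W x) (fderiv ℝ U x (v i))) _
    + PsiSq A (Lam τ (fderiv ℝ W x (v i)) (U x) + Lam τ (W x) (fderiv ℝ U x (v i))) _ _ = 0
  rw [PsiSq_apply, PsiSq_apply, ← Finset.sum_add_distrib]
  refine Finset.sum_eq_zero fun σ _ => ?_
  rw [hZ, hZ]
  simp

end facts

/-- the square number of `q = U W` with the corner trace `τ` -/
noncomputable def denSq (τ : A →L[ℝ] ℂ) (U W : (Fin 4 → ℝ) → A) : ℂ :=
  ∫ y in Icc (0 : Fin 4 → ℝ) 1, ∑ σ : Equiv.Perm (Fin 4), Equiv.Perm.sign σ •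
    (τ (W y * (fderiv ℝ (fun y => U y * W y) y (Pi.single (σ 0) 1)
        * fderiv ℝ (fun y => U y * W y) y (Pi.single (σ 1) 1)) * U y)
      * τ (W y * (fderiv ℝ (fun y => U y * W y) y (Pi.single (σ 2) 1)
        * fderiv ℝ (fun y => U y * W y) y (Pi.single (σ 3) 1)) * U y))

theorem OmSq_apply (x : A × A × A) (X : Fin 4 → A × A × A) :
    OmSq τ x X = ∑ σ : Equiv.Perm (Fin 4), Equiv.Perm.sign σ •
      (τ (x.2.1 * ((X (σ 0)).2.2 * (X (σ 1)).2.2) * x.1)
        * τ (x.2.1 * ((X (σ 2)).2.2 * (X (σ 3)).2.2) * x.1)) := by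
  rw [OmSq, PsiSq_apply]; rfl

/-- **homotopy invariance of the square number** -/
theorem homotopy_sq (hτ : PT τ π) {U W : (Fin 5 → ℝ) → A}
    (hU : ContDiff ℝ 2 U) (hW : ContDiff ℝ 2 W) (hF : ∀ x, Fa π (U x) (W x))
    (hper : ∀ k : Fin 4, ∃ V V' : A, V' * V = 1 ∧ ∀ x, U (x + Pi.single k.succ 1) = V * U x ∧
      W (x + Pi.single k.succ 1) = W x * V') :
    denSq τ (fun y => U (Fin.cons 1 y)) (fun y => W (Fin.cons 1 y))
      = denSq τ (fun y => U (Fin.cons 0 y)) (fun y => W (Fin.cons 0 y)) := by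
  have hU1 := hU.differentiable two_ne_zero
  have hW1 := hW.differentiable two_ne_zero
  have hf : ContDiff ℝ 2 (tri U W) := hU.prodMk (hW.prodMk (hU.mul hW))
  have key := homotopyC (OmSq_smooth (τ := τ)) (tri U W) hf (clP_sq hτ hU1 hW1 hF) (by
    intro k
    obtain ⟨V, V', hV, hp⟩ := hper k
    refine ⟨(ContinuousLinearMap.mul ℝ A V).prodMap
      (((ContinuousLinearMap.mul ℝ A).flip V').prodMap (ContinuousLinearMap.mulLeftRight ℝ A V V')),
      fun q v => ?_, fun x => ?_⟩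
    · rw [OmSq_apply, OmSq_apply]
      refine Finset.sum_congr rfl fun σ _ => ?_
      have h1 : ∀ a b : Fin 4, q.2.1 * V' * (V * (v a).2.2 * V' * (V * (v b).2.2 * V')) * (V * q.1)
          = q.2.1 * ((v a).2.2 * (v b).2.2) * q.1 := by
        intro a b
        calc q.2.1 * V' * (V * (v a).2.2 * V' * (V * (v b).2.2 * V')) * (V * q.1)
            = q.2.1 * (V' * V) * (v a).2.2 * (V' * V) * (v b).2.2 * (V' * V) * q.1 := by
              noncomm_ring
          _ = _ := by rw [hV]; noncomm_ring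
      congr 1
      change τ (q.2.1 * V' * (V * (v (σ 0)).2.2 * V' * (V * (v (σ 1)).2.2 * V')) * (V * q.1))
        * τ (q.2.1 * V' * (V * (v (σ 2)).2.2 * V' * (V * (v (σ 3)).2.2 * V')) * (V * q.1)) = _
      rw [h1, h1]
    · obtain ⟨h1, h2⟩ := hp x
      simp only [tri, h1, h2]
      refine Prod.ext rfl (Prod.ext rfl ?_)
      change V * U x * (W x * V') = V * (U x * W x) * V'
      simp only [mul_assoc])
  have h2 : ∀ c : ℝ, denSq τ (fun y => U (Fin.cons c y)) (fun y => W (Fin.cons c y))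
      = ∫ y in Icc (0 : Fin 4 → ℝ) 1, OmSq τ (tri U W (Fin.cons c y))
        (fun j => fderiv ℝ (tri U W) (Fin.cons c y) (Pi.single j.succ 1)) := by
    intro c
    unfold denSq
    refine integral_congr_ae (Eventually.of_forall fun y => ?_)
    simp only
    rw [OmSq_apply]
    refine Finset.sum_congr rfl fun σ _ => ?_
    have h5 : ∀ j : Fin 4, fderiv ℝ (fun y => U (Fin.cons c y) * W (Fin.cons c y)) y (Pi.single j 1)
        = (fderiv ℝ (tri U W) (Fin.cons c y) (Pi.single j.succ 1)).2.2 := by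
      intro j
      rw [fderiv_slice (f := fun x => U x * W x) (hU1.mul hW1), tri_fderiv (hU1 _) (hW1 _)]
      have h3 := (hU1 (Fin.cons c y)).hasFDerivAt.fun_mul' (hW1 (Fin.cons c y)).hasFDerivAt
      rw [h3.fderiv]
      rfl
    rw [h5, h5, h5, h5]
    rfl
  rw [h2, h2, key]

end sq

end Crest.Agent.R235.FamC_192
end

-- ▼ part R235/FamC3_192
section

/-! Row 235, block FAM/C (helper192), part 3: EMB.  Two embeddings of the same bundle have the same
Chern-Weil numbers. -/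

set_option autoImplicit false
set_option maxSynthPendingDepth 3

open Set MeasureTheory Filter Topology Module
open scoped InnerProductSpace ContDiff

namespace Crest.Agent.R235.FamC_192

open FamDefs_307

section emb

variable {H1 H2 : Type*} [NormedAddCommGroup H1] [InnerProductSpace ℂ H1] [FiniteDimensional ℂ H1]
  [NormedAddCommGroup H2] [InnerProductSpace ℂ H2]

theorem norm_tr_le (X : H1 →L[ℂ] H1) : ‖tr X‖ ≤ finrank ℂ H1 * ‖X‖ := by
  have h1 : tr X = ∑ i, ⟪stdOrthonormalBasis ℂ H1 i, X (stdOrthonormalBasis ℂ H1 i)⟫_ℂ := by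
    rw [tr, LinearMap.trace_eq_sum_inner _ (stdOrthonormalBasis ℂ H1)]
    rfl
  rw [h1]
  refine (norm_sum_le _ _).trans ?_
  have h2 : ∀ i ∈ Finset.univ, ‖⟪stdOrthonormalBasis ℂ H1 i, X (stdOrthonormalBasis ℂ H1 i)⟫_ℂ‖
      ≤ ‖X‖ := by
    intro i _
    refine (norm_inner_le_norm _ _).trans ?_
    have h3 : ‖stdOrthonormalBasis ℂ H1 i‖ = 1 := (stdOrthonormalBasis ℂ H1).norm_eq_one i
    have h4 := X.le_opNorm (stdOrthonormalBasis ℂ H1 i)
    rw [h3, mul_one] at h4
    rw [h3, one_mul]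
    exact h4
  refine (Finset.sum_le_card_nsmul _ _ _ h2).trans (le_of_eq ?_)
  simp

/-- the trace as a real continuous linear functional -/
noncomputable def trR (H1 : Type*) [NormedAddCommGroup H1] [InnerProductSpace ℂ H1]
    [FiniteDimensional ℂ H1] : (H1 →L[ℂ] H1) →L[ℝ] ℂ :=
  LinearMap.mkContinuous
    { toFun := fun X => tr X
      map_add' := fun X Y => by simp [tr]
      map_smul' := fun c X => by
        have h : c • X = (c : ℂ) • X := by ext v; simp
        rw [h]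
        simp [tr] }
    (finrank ℂ H1) (fun X => norm_tr_le X)


omit [FiniteDimensional ℂ H1] in
theorem tr_mul_comm (X Y : H1 →L[ℂ] H1) : tr (X * Y) = tr (Y * X) := by
  simp only [tr]
  exact LinearMap.trace_mul_comm ℂ (X : H1 →ₗ[ℂ] H1) (Y : H1 →ₗ[ℂ] H1)

/-- the algebra -/
abbrev Al (H1 H2 : Type*) [NormedAddCommGroup H1] [InnerProductSpace ℂ H1]
    [NormedAddCommGroup H2] [InnerProductSpace ℂ H2] := (H1 × H2) →L[ℂ] (H1 × H2)

/-- the corner `X ↦ fst X inl` -/
noncomputable def corner (H1 H2 : Type*) [NormedAddCommGroup H1] [InnerProductSpace ℂ H1]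
    [NormedAddCommGroup H2] [InnerProductSpace ℂ H2] : Al H1 H2 →L[ℝ] (H1 →L[ℂ] H1) :=
  ((ContinuousLinearMap.compL ℂ H1 (H1 × H2) H1 (ContinuousLinearMap.fst ℂ H1 H2)).comp
    ((ContinuousLinearMap.compL ℂ H1 (H1 × H2) (H1 × H2)).flip
      (ContinuousLinearMap.inl ℂ H1 H2))).restrictScalars ℝ


/-- corner trace -/
noncomputable def tau (H1 H2 : Type*) [NormedAddCommGroup H1] [InnerProductSpace ℂ H1]
    [FiniteDimensional ℂ H1] [NormedAddCommGroup H2] [InnerProductSpace ℂ H2] :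
    Al H1 H2 →L[ℝ] ℂ := (trR H1).comp (corner H1 H2)

theorem tau_apply (X : Al H1 H2) :
    tau H1 H2 X = tr ((ContinuousLinearMap.fst ℂ H1 H2) ∘L X ∘L (ContinuousLinearMap.inl ℂ H1 H2)) := rfl

/-- the projection onto the corner -/
noncomputable def pi1 (H1 H2 : Type*) [NormedAddCommGroup H1] [InnerProductSpace ℂ H1]
    [NormedAddCommGroup H2] [InnerProductSpace ℂ H2] : Al H1 H2 :=
  (ContinuousLinearMap.inl ℂ H1 H2) ∘L (ContinuousLinearMap.fst ℂ H1 H2)

theorem pt : PT (tau H1 H2) (pi1 H1 H2) where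
  idem := by ext x <;> simp [pi1]
  cyc := fun x y => by
    rw [tau_apply, tau_apply]
    have h : ∀ x y : Al H1 H2, (ContinuousLinearMap.fst ℂ H1 H2) ∘L
        (pi1 H1 H2 * x * pi1 H1 H2 * y * pi1 H1 H2) ∘L (ContinuousLinearMap.inl ℂ H1 H2)
        = ((ContinuousLinearMap.fst ℂ H1 H2) ∘L x ∘L (ContinuousLinearMap.inl ℂ H1 H2)) *
          ((ContinuousLinearMap.fst ℂ H1 H2) ∘L y ∘L (ContinuousLinearMap.inl ℂ H1 H2)) := by
      intro x y; ext v; simp [pi1]
    rw [h, h, tr_mul_comm]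

/-- `T ↦ a T b` -/
noncomputable def sand {E F G K : Type*} [NormedAddCommGroup E] [NormedSpace ℂ E]
    [NormedAddCommGroup F] [NormedSpace ℂ F] [NormedAddCommGroup G] [NormedSpace ℂ G]
    [NormedAddCommGroup K] [NormedSpace ℂ K] (a : F →L[ℂ] G) (b : K →L[ℂ] E) :
    (E →L[ℂ] F) →L[ℝ] (K →L[ℂ] G) :=
  ((ContinuousLinearMap.compL ℂ K F G a).comp
    ((ContinuousLinearMap.compL ℂ K E F).flip b)).restrictScalars ℝ

theorem sand_apply {E F G K : Type*} [NormedAddCommGroup E] [NormedSpace ℂ E]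
    [NormedAddCommGroup F] [NormedSpace ℂ F] [NormedAddCommGroup G] [NormedSpace ℂ G]
    [NormedAddCommGroup K] [NormedSpace ℂ K] (a : F →L[ℂ] G) (b : K →L[ℂ] E) (T : E →L[ℂ] F) :
    sand a b T = a ∘L T ∘L b := rfl

/-- `(x, y) ↦ (c P x, s A x)` -/
noncomputable def Um (c s : ℝ) (P : H1 →L[ℂ] H1) (Am : H1 →L[ℂ] H2) : Al H1 H2 :=
  c • sand (ContinuousLinearMap.inl ℂ H1 H2) (ContinuousLinearMap.fst ℂ H1 H2) P
    + s • sand (ContinuousLinearMap.inr ℂ H1 H2) (ContinuousLinearMap.fst ℂ H1 H2) Am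

/-- `(x, y) ↦ (c P x + s B y, 0)` -/
noncomputable def Wm (c s : ℝ) (P : H1 →L[ℂ] H1) (B : H2 →L[ℂ] H1) : Al H1 H2 :=
  c • sand (ContinuousLinearMap.inl ℂ H1 H2) (ContinuousLinearMap.fst ℂ H1 H2) P
    + s • sand (ContinuousLinearMap.inl ℂ H1 H2) (ContinuousLinearMap.snd ℂ H1 H2) B

omit [FiniteDimensional ℂ H1] in
theorem Um_apply (c s : ℝ) (P : H1 →L[ℂ] H1) (Am : H1 →L[ℂ] H2) (z : H1 × H2) :
    Um c s P Am z = (c • P z.1, s • Am z.1) := by
  simp [Um, sand_apply]

omit [FiniteDimensional ℂ H1] in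
theorem Wm_apply (c s : ℝ) (P : H1 →L[ℂ] H1) (B : H2 →L[ℂ] H1) (z : H1 × H2) :
    Wm c s P B z = (c • P z.1 + s • B z.2, 0) := by
  simp [Wm, sand_apply]

omit [FiniteDimensional ℂ H1] in
theorem al_ext {X Y : Al H1 H2} (h : ∀ z, X z = Y z) : X = Y := ContinuousLinearMap.ext h

omit [FiniteDimensional ℂ H1] in
theorem fa_uw {P : H1 →L[ℂ] H1} {Am : H1 →L[ℂ] H2} {B : H2 →L[ℂ] H1} {c s : ℝ}
    (hcs : c * c + s * s = 1) (hPP : ∀ x, P (P x) = P x) (hAP : ∀ x, Am (P x) = Am x)
    (hPB : ∀ y, P (B y) = B y) (hBA : ∀ x, B (Am x) = P x) :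
    Fa (pi1 H1 H2) (Um c s P Am) (Wm c s P B) where
  r := al_ext fun z => by simp [Um_apply, pi1]
  l := al_ext fun z => by simp [Wm_apply, pi1]
  uwu := al_ext fun z => by
    have h1 : c • P (c • P z.1) + s • B (s • Am z.1) = P z.1 := by
      rw [ContinuousLinearMap.map_smul_of_tower, ContinuousLinearMap.map_smul_of_tower, hPP, hBA, smul_smul, smul_smul, ← add_smul, hcs,
        one_smul]
    simp only [mul_apply_eq_comp, Um_apply, Wm_apply]
    rw [h1, hPP, hAP]
  wuw := al_ext fun z => by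
    simp only [mul_apply_eq_comp, Um_apply, Wm_apply]
    have h1 : c • P (c • P (c • P z.1 + s • B z.2)) + s • B (s • Am (c • P z.1 + s • B z.2))
        = c • P z.1 + s • B z.2 := by
      rw [ContinuousLinearMap.map_smul_of_tower, ContinuousLinearMap.map_smul_of_tower, hPP, hBA, smul_smul, smul_smul, ← add_smul, hcs,
        one_smul, map_add, ContinuousLinearMap.map_smul_of_tower, ContinuousLinearMap.map_smul_of_tower, hPP, hPB]
    rw [h1]

/-- `1 ⊕ V` -/
noncomputable def Vh (V : H2 →L[ℂ] H2) : Al H1 H2 :=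
  sand (ContinuousLinearMap.inl ℂ H1 H2) (ContinuousLinearMap.fst ℂ H1 H2) (ContinuousLinearMap.id ℂ H1)
    + sand (ContinuousLinearMap.inr ℂ H1 H2) (ContinuousLinearMap.snd ℂ H1 H2) V

omit [FiniteDimensional ℂ H1] in
theorem Vh_apply (V : H2 →L[ℂ] H2) (z : H1 × H2) : Vh V z = (z.1, V z.2) := by
  simp [Vh, sand_apply]

omit [FiniteDimensional ℂ H1] in
theorem Vh_inv {V V' : H2 →L[ℂ] H2} (h : ∀ y, V' (V y) = y) :
    (Vh V' : Al H1 H2) * Vh V = 1 := al_ext fun z => by
  simp [Vh_apply, h]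

omit [FiniteDimensional ℂ H1] in
theorem Vh_Um (V : H2 →L[ℂ] H2) (c s : ℝ) (P : H1 →L[ℂ] H1) (Am : H1 →L[ℂ] H2) :
    Vh V * Um c s P Am = Um c s P (V ∘L Am) := al_ext fun z => by
  simp only [mul_apply_eq_comp, Um_apply, Vh_apply, ContinuousLinearMap.comp_apply]
  rw [ContinuousLinearMap.map_smul_of_tower]

omit [FiniteDimensional ℂ H1] in
theorem Wm_Vh (V' : H2 →L[ℂ] H2) (c s : ℝ) (P : H1 →L[ℂ] H1) (B : H2 →L[ℂ] H1) :
    Wm c s P B * Vh V' = Wm c s P (B ∘L V') := al_ext fun z => by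
  simp only [mul_apply_eq_comp, Wm_apply, Vh_apply, ContinuousLinearMap.comp_apply]

theorem FamR_comp {X E F G : Type*} [NormedAddCommGroup X] [NormedSpace ℝ X]
    [NormedAddCommGroup E] [NormedSpace ℂ E] [NormedAddCommGroup F] [NormedSpace ℂ F]
    [NormedAddCommGroup G] [NormedSpace ℂ G] {r : WithTop ℕ∞} {a : X → F →L[ℂ] G} {b : X → E →L[ℂ] F}
    (ha : ContDiff ℝ r a) (hb : ContDiff ℝ r b) : ContDiff ℝ r (fun x => a x ∘L b x) := by
  have h : IsBoundedBilinearMap ℝ (fun p : (F →L[ℂ] G) × (E →L[ℂ] F) => p.1 ∘L p.2) :=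
    { add_left := fun x₁ x₂ y => by ext v; simp
      smul_left := fun c x y => by ext v; simp
      add_right := fun x y₁ y₂ => by ext v; simp
      smul_right := fun c x y => by ext v; simp
      bound := ⟨1, one_pos, fun x y => by simpa using x.opNorm_comp_le y⟩ }
  exact h.contDiff.comp (ha.prodMk hb)

/-- the data of an embedding: `P = B A`, `A B` the second idempotent -/
structure Em (n : ℕ) (P : (Fin n → ℝ) → H1 →L[ℂ] H1) (Am : (Fin n → ℝ) → H1 →L[ℂ] H2)
    (B : (Fin n → ℝ) → H2 →L[ℂ] H1) : Prop where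
  cP : ContDiff ℝ 2 P
  cA : ContDiff ℝ 2 Am
  cB : ContDiff ℝ 2 B
  PP : ∀ h x, P h (P h x) = P h x
  AP : ∀ h x, Am h (P h x) = Am h x
  PB : ∀ h y, P h (B h y) = B h y
  BA : ∀ h x, B h (Am h x) = P h x
  per : ∀ k : Fin n, ∃ V V' : H2 →L[ℂ] H2, (∀ y, V' (V y) = y) ∧ ∀ h,
    P (h + Pi.single k 1) = P h ∧ Am (h + Pi.single k 1) = V ∘L Am h ∧
      B (h + Pi.single k 1) = B h ∘L V'

/-- the rotation in the first coordinate -/
noncomputable def UU {n : ℕ} (P : (Fin n → ℝ) → H1 →L[ℂ] H1) (Am : (Fin n → ℝ) → H1 →L[ℂ] H2)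
    (x : Fin (n + 1) → ℝ) : Al H1 H2 :=
  Um (Real.cos (x 0 * (Real.pi / 2))) (Real.sin (x 0 * (Real.pi / 2)))
    (P fun i => x i.succ) (Am fun i => x i.succ)

/-- the rotation in the first coordinate -/
noncomputable def WW {n : ℕ} (P : (Fin n → ℝ) → H1 →L[ℂ] H1) (B : (Fin n → ℝ) → H2 →L[ℂ] H1)
    (x : Fin (n + 1) → ℝ) : Al H1 H2 :=
  Wm (Real.cos (x 0 * (Real.pi / 2))) (Real.sin (x 0 * (Real.pi / 2)))
    (P fun i => x i.succ) (B fun i => x i.succ)

variable {n : ℕ} {P : (Fin n → ℝ) → H1 →L[ℂ] H1} {Am : (Fin n → ℝ) → H1 →L[ℂ] H2}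
  {B : (Fin n → ℝ) → H2 →L[ℂ] H1}

theorem tail_smooth {n : ℕ} : ContDiff ℝ 2 (fun (x : Fin (n + 1) → ℝ) (i : Fin n) => x i.succ) :=
  contDiff_pi.2 fun i => contDiff_apply ℝ ℝ i.succ

theorem trig_smooth {n : ℕ} {F : Type*} [NormedAddCommGroup F] [NormedSpace ℝ F]
    {a b : (Fin (n + 1) → ℝ) → F} (ha : ContDiff ℝ 2 a) (hb : ContDiff ℝ 2 b) :
    ContDiff ℝ 2 (fun x : Fin (n + 1) → ℝ => Real.cos (x 0 * (Real.pi / 2)) • a x
      + Real.sin (x 0 * (Real.pi / 2)) • b x) := by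
  have h0 : ContDiff ℝ 2 (fun x : Fin (n + 1) → ℝ => x 0 * (Real.pi / 2)) :=
    (contDiff_apply ℝ ℝ 0).mul contDiff_const
  exact ((Real.contDiff_cos.comp h0).smul ha).add ((Real.contDiff_sin.comp h0).smul hb)

theorem sand_smooth {X E F G K : Type*} [NormedAddCommGroup X] [NormedSpace ℝ X]
    [NormedAddCommGroup E] [NormedSpace ℂ E]
    [NormedAddCommGroup F] [NormedSpace ℂ F] [NormedAddCommGroup G] [NormedSpace ℂ G]
    [NormedAddCommGroup K] [NormedSpace ℂ K] (a : F →L[ℂ] G) (b : K →L[ℂ] E)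
    {T : X → E →L[ℂ] F} (hT : ContDiff ℝ 2 T) : ContDiff ℝ 2 (fun x => sand a b (T x)) :=
  ContDiff.comp (𝕜 := ℝ) (g := fun T : E →L[ℂ] F => sand a b T)
    (ContinuousLinearMap.contDiff (𝕜 := ℝ) (sand a b)) hT

omit [FiniteDimensional ℂ H1] in
theorem UU_smooth (hP : ContDiff ℝ 2 P) (hA : ContDiff ℝ 2 Am) : ContDiff ℝ 2 (UU P Am) := by
  have h1 : ContDiff ℝ 2 (fun x : Fin (n + 1) → ℝ => P fun i => x i.succ) := hP.comp tail_smooth
  have h2 : ContDiff ℝ 2 (fun x : Fin (n + 1) → ℝ => Am fun i => x i.succ) := hA.comp tail_smooth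
  exact trig_smooth
    (sand_smooth (ContinuousLinearMap.inl ℂ H1 H2) (ContinuousLinearMap.fst ℂ H1 H2) h1)
    (sand_smooth (ContinuousLinearMap.inr ℂ H1 H2) (ContinuousLinearMap.fst ℂ H1 H2) h2)

omit [FiniteDimensional ℂ H1] in
theorem WW_smooth (hP : ContDiff ℝ 2 P) (hB : ContDiff ℝ 2 B) : ContDiff ℝ 2 (WW P B) := by
  have h1 : ContDiff ℝ 2 (fun x : Fin (n + 1) → ℝ => P fun i => x i.succ) := hP.comp tail_smooth
  have h2 : ContDiff ℝ 2 (fun x : Fin (n + 1) → ℝ => B fun i => x i.succ) := hB.comp tail_smooth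
  exact trig_smooth
    (sand_smooth (ContinuousLinearMap.inl ℂ H1 H2) (ContinuousLinearMap.fst ℂ H1 H2) h1)
    (sand_smooth (ContinuousLinearMap.inl ℂ H1 H2) (ContinuousLinearMap.snd ℂ H1 H2) h2)

omit [FiniteDimensional ℂ H1] in
theorem Em.fa (h : Em n P Am B) (x : Fin (n + 1) → ℝ) : Fa (pi1 H1 H2) (UU P Am x) (WW P B x) :=
  fa_uw (by nlinarith [Real.sin_sq_add_cos_sq (x 0 * (Real.pi / 2))]) (h.PP _) (h.AP _) (h.PB _)
    (h.BA _)

omit [FiniteDimensional ℂ H1] in
theorem Em.gauge (h : Em n P Am B) (k : Fin n) : ∃ V V' : Al H1 H2, V' * V = 1 ∧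
    ∀ x, UU P Am (x + Pi.single k.succ 1) = V * UU P Am x ∧
      WW P B (x + Pi.single k.succ 1) = WW P B x * V' := by
  obtain ⟨V, V', hV, hp⟩ := h.per k
  refine ⟨Vh V, Vh V', Vh_inv hV, fun x => ?_⟩
  have e1 : (fun i : Fin n => (x + Pi.single k.succ (1 : ℝ) : Fin (n + 1) → ℝ) i.succ)
      = (fun i => x i.succ) + Pi.single k 1 := by
    funext i
    simp [Pi.single_apply]
  have e0 : (x + Pi.single k.succ (1 : ℝ) : Fin (n + 1) → ℝ) 0 = x 0 := by simp
  obtain ⟨h1, h2, h3⟩ := hp (fun i => x i.succ)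
  constructor
  · simp only [UU]
    rw [Vh_Um, e0]
    have e2 : P (fun i : Fin n => (x + Pi.single k.succ (1 : ℝ) : Fin (n + 1) → ℝ) i.succ) = P fun i => x i.succ := by
      rw [e1, h1]
    have e3 : Am (fun i : Fin n => (x + Pi.single k.succ (1 : ℝ) : Fin (n + 1) → ℝ) i.succ)
        = V ∘L Am fun i => x i.succ := by
      rw [e1, h2]
    rw [e2, e3]
  · simp only [WW]
    rw [Wm_Vh, e0]
    have e2 : P (fun i : Fin n => (x + Pi.single k.succ (1 : ℝ) : Fin (n + 1) → ℝ) i.succ) = P fun i => x i.succ := by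
      rw [e1, h1]
    have e3 : B (fun i : Fin n => (x + Pi.single k.succ (1 : ℝ) : Fin (n + 1) → ℝ) i.succ)
        = (B fun i => x i.succ) ∘L V' := by
      rw [e1, h3]
    rw [e2, e3]

/-! ### the two ends -/

omit [FiniteDimensional ℂ H1] in
theorem U_zero (h : Fin n → ℝ) : UU P Am (Fin.cons 0 h)
    = sand (ContinuousLinearMap.inl ℂ H1 H2) (ContinuousLinearMap.fst ℂ H1 H2) (P h) := by
  simp [UU, Um]

omit [FiniteDimensional ℂ H1] in
theorem W_zero (h : Fin n → ℝ) : WW P B (Fin.cons 0 h)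
    = sand (ContinuousLinearMap.inl ℂ H1 H2) (ContinuousLinearMap.fst ℂ H1 H2) (P h) := by
  simp [WW, Wm]

omit [FiniteDimensional ℂ H1] in
theorem U_one (h : Fin n → ℝ) : UU P Am (Fin.cons 1 h)
    = sand (ContinuousLinearMap.inr ℂ H1 H2) (ContinuousLinearMap.fst ℂ H1 H2) (Am h) := by
  simp [UU, Um]

omit [FiniteDimensional ℂ H1] in
theorem W_one (h : Fin n → ℝ) : WW P B (Fin.cons 1 h)
    = sand (ContinuousLinearMap.inl ℂ H1 H2) (ContinuousLinearMap.snd ℂ H1 H2) (B h) := by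
  simp [WW, Wm]

theorem sand_fderiv {X E F G K : Type*} [NormedAddCommGroup X] [NormedSpace ℝ X]
    [NormedAddCommGroup E] [NormedSpace ℂ E]
    [NormedAddCommGroup F] [NormedSpace ℂ F] [NormedAddCommGroup G] [NormedSpace ℂ G]
    [NormedAddCommGroup K] [NormedSpace ℂ K] (a : F →L[ℂ] G) (b : K →L[ℂ] E)
    {T : X → E →L[ℂ] F} {x : X} (hT : DifferentiableAt ℝ T x) (v : X) :
    fderiv ℝ (fun x => sand a b (T x)) x v = sand a b (fderiv ℝ T x v) := by
  have h5 : HasFDerivAt (fun T : E →L[ℂ] F => sand a b T) (sand a b) (T x) := (sand a b).hasFDerivAt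
  have h : HasFDerivAt (fun x => sand a b (T x)) _ x :=
    HasFDerivAt.comp (𝕜 := ℝ) (g := fun T : E →L[ℂ] F => sand a b T) x h5 hT.hasFDerivAt
  rw [h.fderiv]; rfl

omit [FiniteDimensional ℂ H1] in
theorem list_inl (x : H1 →L[ℂ] H1) (l : List (H1 →L[ℂ] H1)) :
    sand (ContinuousLinearMap.inl ℂ H1 H2) (ContinuousLinearMap.fst ℂ H1 H2) x
      * (l.map fun y => sand (ContinuousLinearMap.inl ℂ H1 H2) (ContinuousLinearMap.fst ℂ H1 H2) y).prod
    = sand (ContinuousLinearMap.inl ℂ H1 H2) (ContinuousLinearMap.fst ℂ H1 H2) (x * l.prod) := by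
  induction l generalizing x with
  | nil => simp
  | cons y l ih =>
    rw [List.map_cons, List.prod_cons, List.prod_cons, ← mul_assoc, ← mul_assoc, ← ih]
    congr 1

omit [FiniteDimensional ℂ H1] in
theorem list_snd (x : H2 →L[ℂ] H1) (l : List (H2 →L[ℂ] H2)) :
    sand (ContinuousLinearMap.inl ℂ H1 H2) (ContinuousLinearMap.snd ℂ H1 H2) x
      * (l.map fun y => sand (ContinuousLinearMap.inr ℂ H1 H2) (ContinuousLinearMap.snd ℂ H1 H2) y).prod
    = sand (ContinuousLinearMap.inl ℂ H1 H2) (ContinuousLinearMap.snd ℂ H1 H2) (x ∘L l.prod) := by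
  induction l generalizing x with
  | nil => ext z <;> simp [sand_apply]
  | cons y l ih =>
    rw [List.map_cons, List.prod_cons, List.prod_cons, ← mul_assoc]
    have h : (x ∘L (y * l.prod)) = ((x ∘L y) ∘L l.prod) := rfl
    rw [h, ← ih]
    congr 1

/-- Chern-Weil number with a trace functional, as a product -/
noncomputable def chG {Y : Type*} [NormedAddCommGroup Y] [InnerProductSpace ℂ Y] (n : ℕ)
    (t : (Y →L[ℂ] Y) → ℂ) (p : (Fin n → ℝ) → Y →L[ℂ] Y) : ℂ :=
  ∫ y in Icc (0 : Fin n → ℝ) 1, ∑ σ : Equiv.Perm (Fin n), Equiv.Perm.sign σ •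
    t (p y * (List.ofFn fun i => fderiv ℝ p y (Pi.single (σ i) 1)).prod)

/-- Chern-Weil number of `A B` with the trace taken over `H1` -/
noncomputable def chE (n : ℕ) (Am : (Fin n → ℝ) → H1 →L[ℂ] H2) (B : (Fin n → ℝ) → H2 →L[ℂ] H1) : ℂ :=
  ∫ y in Icc (0 : Fin n → ℝ) 1, ∑ σ : Equiv.Perm (Fin n), Equiv.Perm.sign σ •
    tr (B y ∘L (List.ofFn fun i => fderiv ℝ (fun y => Am y ∘L B y) y (Pi.single (σ i) 1)).prod
      ∘L Am y)

/-- **EMB, abstract form** -/
theorem emb_gen (hn : Even n) (h : Em n P Am B) : chE n Am B = chG n tr P := by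
  have key := homotopy_alg (τ := tau H1 H2) pt hn (UU_smooth h.cP h.cA) (WW_smooth h.cP h.cB)
    h.fa h.gauge
  have hPd : Differentiable ℝ P := h.cP.differentiable two_ne_zero
  have hABd : Differentiable ℝ (fun y => Am y ∘L B y) :=
    fun x => ((FamR_comp h.cA h.cB).differentiable two_ne_zero x)
  have e1 : den (tau H1 H2) n (fun y => UU P Am (Fin.cons 1 y)) (fun y => WW P B (Fin.cons 1 y))
      = chE n Am B := by
    unfold den chE
    refine integral_congr_ae (Eventually.of_forall fun y => ?_)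
    refine Finset.sum_congr rfl fun σ _ => ?_
    congr 1
    have hq : (fun y => UU P Am (Fin.cons 1 y) * WW P B (Fin.cons 1 y))
        = fun y => sand (ContinuousLinearMap.inr ℂ H1 H2) (ContinuousLinearMap.snd ℂ H1 H2)
          (Am y ∘L B y) := by
      funext y
      rw [U_one, W_one]
      refine al_ext fun z => ?_
      simp [sand_apply]
    simp only [hq]
    have h1 : (List.ofFn fun i => fderiv ℝ (fun y => sand (ContinuousLinearMap.inr ℂ H1 H2)
        (ContinuousLinearMap.snd ℂ H1 H2) (Am y ∘L B y)) y (Pi.single (σ i) 1))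
        = (List.ofFn fun i => fderiv ℝ (fun y => Am y ∘L B y) y (Pi.single (σ i) 1)).map fun y =>
          sand (ContinuousLinearMap.inr ℂ H1 H2) (ContinuousLinearMap.snd ℂ H1 H2) y := by
      rw [List.map_ofFn]
      refine congrArg List.ofFn (funext fun i => ?_)
      exact sand_fderiv _ _ (hABd y) _
    rw [h1, U_one, W_one, list_snd]
    rfl
  have e0 : den (tau H1 H2) n (fun y => UU P Am (Fin.cons 0 y)) (fun y => WW P B (Fin.cons 0 y))
      = chG n tr P := by
    unfold den chG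
    refine integral_congr_ae (Eventually.of_forall fun y => ?_)
    refine Finset.sum_congr rfl fun σ _ => ?_
    congr 1
    have hPP : ∀ h, P h * P h = P h := fun y => ContinuousLinearMap.ext (h.PP y)
    have hq : (fun y => UU P Am (Fin.cons 0 y) * WW P B (Fin.cons 0 y))
        = fun y => sand (ContinuousLinearMap.inl ℂ H1 H2) (ContinuousLinearMap.fst ℂ H1 H2) (P y) := by
      funext y
      rw [U_zero, W_zero]
      have := list_inl (H2 := H2) (P y) [P y]
      simpa [hPP] using this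
    simp only [hq]
    have h1 : (List.ofFn fun i => fderiv ℝ (fun y => sand (ContinuousLinearMap.inl ℂ H1 H2)
        (ContinuousLinearMap.fst ℂ H1 H2) (P y)) y (Pi.single (σ i) 1))
        = (List.ofFn fun i => fderiv ℝ P y (Pi.single (σ i) 1)).map fun y =>
          sand (ContinuousLinearMap.inl ℂ H1 H2) (ContinuousLinearMap.fst ℂ H1 H2) y := by
      rw [List.map_ofFn]
      refine congrArg List.ofFn (funext fun i => ?_)
      exact sand_fderiv _ _ (hPd y) _
    rw [h1, U_zero, W_zero, list_inl]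
    have h2 := list_inl (H2 := H2)
      (P y * (List.ofFn fun i => fderiv ℝ P y (Pi.single (σ i) 1)).prod) [P y]
    simp only [List.map_cons, List.map_nil, List.prod_singleton] at h2
    rw [h2]
    change tr (P y * _ * P y) = _
    rw [tr_mul_comm, ← mul_assoc, hPP]
  rw [← e1, key, e0]

end emb

end Crest.Agent.R235.FamC_192
end

-- ▼ part R235/FamC4_192
section

/-! Row 235, block FAM/C (helper192), part 4: EMB for `ch2`, `ch4`, `chsq`. -/

set_option autoImplicit false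
set_option maxSynthPendingDepth 3

open Set MeasureTheory Filter Topology Module
open scoped InnerProductSpace ContDiff

namespace Crest.Agent.R235.FamC_192

open FamDefs_307

section emb

variable {H1 H2 : Type*} [NormedAddCommGroup H1] [InnerProductSpace ℂ H1] [FiniteDimensional ℂ H1]
  [NormedAddCommGroup H2] [InnerProductSpace ℂ H2]

/-- the square number with a trace functional -/
noncomputable def chS {Y : Type*} [NormedAddCommGroup Y] [InnerProductSpace ℂ Y]
    (t : (Y →L[ℂ] Y) → ℂ) (p : (Fin 4 → ℝ) → Y →L[ℂ] Y) : ℂ :=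
  ∫ y in Icc (0 : Fin 4 → ℝ) 1, ∑ σ : Equiv.Perm (Fin 4), Equiv.Perm.sign σ •
    (t (p y * (fderiv ℝ p y (Pi.single (σ 0) 1) * fderiv ℝ p y (Pi.single (σ 1) 1)))
      * t (p y * (fderiv ℝ p y (Pi.single (σ 2) 1) * fderiv ℝ p y (Pi.single (σ 3) 1))))

/-- the square number of `A B` with the trace taken over `H1` -/
noncomputable def chES (Am : (Fin 4 → ℝ) → H1 →L[ℂ] H2) (B : (Fin 4 → ℝ) → H2 →L[ℂ] H1) : ℂ :=
  ∫ y in Icc (0 : Fin 4 → ℝ) 1, ∑ σ : Equiv.Perm (Fin 4), Equiv.Perm.sign σ •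
    (tr (B y ∘L (fderiv ℝ (fun y => Am y ∘L B y) y (Pi.single (σ 0) 1)
        * fderiv ℝ (fun y => Am y ∘L B y) y (Pi.single (σ 1) 1)) ∘L Am y)
      * tr (B y ∘L (fderiv ℝ (fun y => Am y ∘L B y) y (Pi.single (σ 2) 1)
        * fderiv ℝ (fun y => Am y ∘L B y) y (Pi.single (σ 3) 1)) ∘L Am y))

variable {P : (Fin 4 → ℝ) → H1 →L[ℂ] H1} {Am : (Fin 4 → ℝ) → H1 →L[ℂ] H2}
  {B : (Fin 4 → ℝ) → H2 →L[ℂ] H1}

/-- **EMB, square form** -/
theorem emb_sq (h : Em 4 P Am B) : chES Am B = chS tr P := by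
  have key := homotopy_sq (τ := tau H1 H2) pt (UU_smooth h.cP h.cA) (WW_smooth h.cP h.cB)
    h.fa h.gauge
  have hPd : Differentiable ℝ P := h.cP.differentiable two_ne_zero
  have hABd : Differentiable ℝ (fun y => Am y ∘L B y) :=
    fun x => ((FamR_comp h.cA h.cB).differentiable two_ne_zero x)
  have e1 : denSq (tau H1 H2) (fun y => UU P Am (Fin.cons 1 y)) (fun y => WW P B (Fin.cons 1 y))
      = chES Am B := by
    unfold denSq chES
    refine integral_congr_ae (Eventually.of_forall fun y => ?_)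
    refine Finset.sum_congr rfl fun σ _ => ?_
    have hq : (fun y => UU P Am (Fin.cons 1 y) * WW P B (Fin.cons 1 y))
        = fun y => sand (ContinuousLinearMap.inr ℂ H1 H2) (ContinuousLinearMap.snd ℂ H1 H2)
          (Am y ∘L B y) := by
      funext y
      rw [U_one, W_one]
      refine al_ext fun z => ?_
      simp [sand_apply]
    have h2 : ∀ i j : Fin 4, (tau H1 H2) (WW P B (Fin.cons 1 y) *
        (fderiv ℝ (fun y => UU P Am (Fin.cons 1 y) * WW P B (Fin.cons 1 y)) y (Pi.single i 1) *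
          fderiv ℝ (fun y => UU P Am (Fin.cons 1 y) * WW P B (Fin.cons 1 y)) y (Pi.single j 1)) *
        UU P Am (Fin.cons 1 y))
        = tr (B y ∘L (fderiv ℝ (fun y => Am y ∘L B y) y (Pi.single i 1)
        * fderiv ℝ (fun y => Am y ∘L B y) y (Pi.single j 1)) ∘L Am y) := by
      intro i j
      rw [hq, sand_fderiv _ _ (hABd y), sand_fderiv _ _ (hABd y), U_one, W_one]
      have h3 := list_snd (H1 := H1) (B y) [fderiv ℝ (fun y => Am y ∘L B y) y (Pi.single i 1),
        fderiv ℝ (fun y => Am y ∘L B y) y (Pi.single j 1)]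
      simp only [List.map_cons, List.map_nil, List.prod_cons, List.prod_nil, mul_one] at h3
      rw [h3]
      rfl
    rw [h2, h2]
  have e0 : denSq (tau H1 H2) (fun y => UU P Am (Fin.cons 0 y)) (fun y => WW P B (Fin.cons 0 y))
      = chS tr P := by
    unfold denSq chS
    refine integral_congr_ae (Eventually.of_forall fun y => ?_)
    refine Finset.sum_congr rfl fun σ _ => ?_
    have hPP : ∀ h, P h * P h = P h := fun y => ContinuousLinearMap.ext (h.PP y)
    have hq : (fun y => UU P Am (Fin.cons 0 y) * WW P B (Fin.cons 0 y))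
        = fun y => sand (ContinuousLinearMap.inl ℂ H1 H2) (ContinuousLinearMap.fst ℂ H1 H2) (P y) := by
      funext y
      rw [U_zero, W_zero]
      have := list_inl (H2 := H2) (P y) [P y]
      simpa [hPP] using this
    have h2 : ∀ i j : Fin 4, (tau H1 H2) (WW P B (Fin.cons 0 y) *
        (fderiv ℝ (fun y => UU P Am (Fin.cons 0 y) * WW P B (Fin.cons 0 y)) y (Pi.single i 1) *
          fderiv ℝ (fun y => UU P Am (Fin.cons 0 y) * WW P B (Fin.cons 0 y)) y (Pi.single j 1)) *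
        UU P Am (Fin.cons 0 y))
        = tr (P y * (fderiv ℝ P y (Pi.single i 1) * fderiv ℝ P y (Pi.single j 1))) := by
      intro i j
      rw [hq, sand_fderiv _ _ (hPd y), sand_fderiv _ _ (hPd y), U_zero, W_zero]
      have h3 := list_inl (H2 := H2) (P y) [fderiv ℝ P y (Pi.single i 1),
        fderiv ℝ P y (Pi.single j 1)]
      have h4 := list_inl (H2 := H2) (P y * (fderiv ℝ P y (Pi.single i 1)
        * fderiv ℝ P y (Pi.single j 1))) [P y]
      simp only [List.map_cons, List.map_nil, List.prod_cons, List.prod_nil, mul_one] at h3 h4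
      rw [h3, h4]
      change tr (P y * _ * P y) = _
      rw [tr_mul_comm, ← mul_assoc, hPP]
    rw [h2, h2]
  rw [← e1, key, e0]

end emb

/-! ### conversions -/

section conv

variable {Y : Type*} [NormedAddCommGroup Y] [InnerProductSpace ℂ Y]

theorem sign_smul {n : ℕ} (σ : Equiv.Perm (Fin n)) (z : ℂ) :
    Equiv.Perm.sign σ • z = sg σ * z := by
  rcases Int.units_eq_one_or (Equiv.Perm.sign σ) with h | h <;> simp [sg, h]

theorem chG_two (t : (Y →L[ℂ] Y) → ℂ) (p : (Fin 2 → ℝ) → Y →L[ℂ] Y) : chG 2 t p = ch2 t p := by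
  unfold chG ch2
  refine integral_congr_ae (Eventually.of_forall fun y => Finset.sum_congr rfl fun σ _ => ?_)
  rw [sign_smul]
  simp [List.ofFn_succ, pdθ, mul_assoc]

theorem chG_four (t : (Y →L[ℂ] Y) → ℂ) (p : (Fin 4 → ℝ) → Y →L[ℂ] Y) : chG 4 t p = ch4 t p := by
  unfold chG ch4
  refine integral_congr_ae (Eventually.of_forall fun y => Finset.sum_congr rfl fun σ _ => ?_)
  rw [sign_smul]
  have h : (List.ofFn fun i : Fin 4 => fderiv ℝ p y (Pi.single (σ i) 1)).prod
      = fderiv ℝ p y (Pi.single (σ 0) 1) * (fderiv ℝ p y (Pi.single (σ 1) 1)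
        * (fderiv ℝ p y (Pi.single (σ 2) 1) * fderiv ℝ p y (Pi.single (σ 3) 1))) := by
    simp [List.ofFn_succ]
  rw [h]
  simp only [pdθ, mul_assoc]

theorem chS_eq (t : (Y →L[ℂ] Y) → ℂ) (p : (Fin 4 → ℝ) → Y →L[ℂ] Y) : chS t p = chsq t p := by
  unfold chS chsq
  refine integral_congr_ae (Eventually.of_forall fun y => Finset.sum_congr rfl fun σ _ => ?_)
  rw [sign_smul]
  simp only [pdθ, mul_assoc]

end conv

/-! ### the trace in a Hilbert basis -/

section trB

variable {H1 H2 : Type*} [NormedAddCommGroup H1] [InnerProductSpace ℂ H1] [FiniteDimensional ℂ H1]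
  [NormedAddCommGroup H2] [InnerProductSpace ℂ H2] [CompleteSpace H2]

/-- cyclicity through a finite dimensional space -/
theorem trB_comp {ι : Type*} (e : HilbertBasis ι ℂ H2) (Am : H1 →L[ℂ] H2) (T : H2 →L[ℂ] H1) :
    HasSum (fun i => ⟪e i, Am (T (e i))⟫_ℂ) (tr (T ∘L Am)) := by
  have : CompleteSpace H1 := FiniteDimensional.complete ℂ H1
  set f := stdOrthonormalBasis ℂ H1 with hf
  have h1 : tr (T ∘L Am) = ∑ j, ⟪f j, T (Am (f j))⟫_ℂ := by
    rw [tr, LinearMap.trace_eq_sum_inner _ f]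
    rfl
  rw [h1]
  have h2 : ∀ i, ⟪e i, Am (T (e i))⟫_ℂ = ∑ j, ⟪ContinuousLinearMap.adjoint T (f j), e i⟫_ℂ * ⟪e i, Am (f j)⟫_ℂ := by
    intro i
    conv_lhs => rw [← f.sum_repr' (T (e i))]
    rw [map_sum, inner_sum]
    refine Finset.sum_congr rfl fun j _ => ?_
    rw [map_smul, inner_smul_right, ContinuousLinearMap.adjoint_inner_left]
  simp only [h2]
  refine hasSum_sum fun j _ => ?_
  have h3 := e.hasSum_inner_mul_inner (ContinuousLinearMap.adjoint T (f j)) (Am (f j))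
  rwa [ContinuousLinearMap.adjoint_inner_left] at h3

theorem trB_eq {ι : Type*} (e : HilbertBasis ι ℂ H2) (Am : H1 →L[ℂ] H2) (T : H2 →L[ℂ] H1) :
    trB e (Am ∘L T) = tr (T ∘L Am) := (trB_comp e Am T).tsum_eq


end trB

end Crest.Agent.R235.FamC_192
end

-- ▼ part R235/FamEmb_192

/-! Row 235, block FAM/C (helper192): **EMB** (`EmbData.ch2_eq`, `ch4_eq`, `chsq_eq`): the Chern-Weil
numbers of a finite dimensional family `P` and of its image `p2` under smooth embeddings `J h` in a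
Hilbert space (gauge isometries `V k`) agree. -/

set_option autoImplicit false
set_option maxSynthPendingDepth 3

open Set MeasureTheory Filter Topology Module
open scoped InnerProductSpace ContDiff

namespace Crest.Agent.R235.FamC_192

open FamDefs_307 ContinuousLinearMap

variable {H1 H2 : Type*} [NormedAddCommGroup H1] [InnerProductSpace ℂ H1] [FiniteDimensional ℂ H1]
  [NormedAddCommGroup H2] [InnerProductSpace ℂ H2] [CompleteSpace H2]

/-- `p2 h` is the orthogonal projection onto `J h (range (P h))`, `J h` injective on `range (P h)`. -/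
structure EmbData (b m : ℕ) (P : (Fin b → ℝ) → H1 →L[ℂ] H1) (p2 : (Fin b → ℝ) → H2 →L[ℂ] H2)
    (J : (Fin b → ℝ) → H1 →L[ℂ] H2) (V : (Fin b → ℤ) → H2 →L[ℂ] H2) : Prop where
  proj : PPer b m P
  smJ : ContDiff ℝ ∞ J
  idem2 : ∀ h y, p2 h (p2 h y) = p2 h y
  sa2 : ∀ h x y, ⟪p2 h x, y⟫_ℂ = ⟪x, p2 h y⟫_ℂ
  fix : ∀ h x, P h x = x → p2 h (J h x) = J h x
  inj : ∀ h x, P h x = x → J h x = 0 → x = 0
  surj : ∀ h y, ∃ x, P h x = x ∧ J h x = p2 h y
  iso : ∀ k x y, ⟪V k x, V k y⟫_ℂ = ⟪x, y⟫_ℂ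
  per : ∀ (h : Fin b → ℝ) (k : Fin b → ℤ) x, P h x = x → J (fun i => h i + k i) x = V k (J h x)

section constr

variable (P : H1 →L[ℂ] H1) (A : H1 →L[ℂ] H2)

/-- `A^* A + 1 - P` -/
noncomputable def Gg : H1 →L[ℂ] H1 :=
  haveI := FiniteDimensional.complete ℂ H1
  adjoint A ∘L A + (ContinuousLinearMap.id ℂ H1 - P)

/-- the left inverse `(A^* A + 1 - P)⁻¹ A^*` -/
noncomputable def Bb : H2 →L[ℂ] H1 :=
  haveI := FiniteDimensional.complete ℂ H1
  Ring.inverse (Gg P A) ∘L adjoint A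

variable {P A}

theorem Gg_unit (hsa : ∀ x y, ⟪P x, y⟫_ℂ = ⟪x, P y⟫_ℂ) (hPP : ∀ x, P (P x) = P x)
    (hinj : ∀ x, P x = x → A x = 0 → x = 0) : IsUnit (Gg P A) := by
  have hc := FiniteDimensional.complete ℂ H1
  have hi : Function.Injective (Gg P A) := by
    rw [injective_iff_map_eq_zero]
    intro x hx
    have h1 : ⟪x, Gg P A x⟫_ℂ = 0 := by rw [hx, inner_zero_right]
    have h2 : ⟪x, Gg P A x⟫_ℂ = ⟪A x, A x⟫_ℂ + ⟪x - P x, x - P x⟫_ℂ := by
      simp only [Gg, _root_.add_apply, ContinuousLinearMap.comp_apply, inner_add_right,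
        adjoint_inner_right, _root_.sub_apply, ContinuousLinearMap.id_apply]
      congr 1
      rw [inner_sub_left, inner_sub_right (P x), hsa x x, hsa x (P x), hPP, sub_self, sub_zero]
    have h3 : RCLike.re ⟪A x, A x⟫_ℂ + RCLike.re ⟪x - P x, x - P x⟫_ℂ = 0 := by
      rw [← map_add, ← h2, h1, map_zero]
    rw [inner_self_eq_norm_sq, inner_self_eq_norm_sq] at h3
    have h4 : ‖A x‖ = 0 := by nlinarith [sq_nonneg ‖A x‖, sq_nonneg ‖x - P x‖]
    have h5 : ‖x - P x‖ = 0 := by nlinarith [sq_nonneg ‖A x‖, sq_nonneg ‖x - P x‖]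
    exact hinj x (sub_eq_zero.1 (norm_eq_zero.1 h5)).symm (norm_eq_zero.1 h4)
  rw [isUnit_iff_bijective]
  exact ⟨hi, (LinearMap.injective_iff_surjective (f := (Gg P A : H1 →ₗ[ℂ] H1))).1 hi⟩

theorem Gg_Bb (hG : IsUnit (Gg P A)) (y : H2) :
    haveI := FiniteDimensional.complete ℂ H1
    Gg P A (Bb P A y) = adjoint A y := by
  have hc := FiniteDimensional.complete ℂ H1
  have h1 := congrArg (fun T : H1 →L[ℂ] H1 => T (adjoint A y)) (Ring.mul_inverse_cancel _ hG)
  simpa [Bb] using h1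

theorem Gg_inj (hG : IsUnit (Gg P A)) {x y : H1} (h : Gg P A x = Gg P A y) : x = y := by
  have hc := FiniteDimensional.complete ℂ H1
  exact (isUnit_iff_bijective.1 hG).1 h

theorem Gg_P (hPP : ∀ x, P (P x) = P x) (hAP : ∀ x, A (P x) = A x) (x : H1) :
    haveI := FiniteDimensional.complete ℂ H1
    Gg P A (P x) = adjoint A (A x) := by
  simp [Gg, hPP, hAP]

theorem Bb_A (hG : IsUnit (Gg P A)) (hPP : ∀ x, P (P x) = P x) (hAP : ∀ x, A (P x) = A x) (x : H1) :
    Bb P A (A x) = P x := by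
  apply Gg_inj hG
  rw [Gg_Bb hG, Gg_P hPP hAP]

theorem P_adj (hsa : ∀ x y, ⟪P x, y⟫_ℂ = ⟪x, P y⟫_ℂ) (hAP : ∀ x, A (P x) = A x) (y : H2) :
    haveI := FiniteDimensional.complete ℂ H1
    P (adjoint A y) = adjoint A y := by
  have hc := FiniteDimensional.complete ℂ H1
  refine ext_inner_left ℂ fun x => ?_
  rw [← hsa, adjoint_inner_right, adjoint_inner_right, hAP]

theorem P_Bb (hG : IsUnit (Gg P A)) (hsa : ∀ x y, ⟪P x, y⟫_ℂ = ⟪x, P y⟫_ℂ)
    (hPP : ∀ x, P (P x) = P x) (hAP : ∀ x, A (P x) = A x) (y : H2) :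
    P (Bb P A y) = Bb P A y := by
  have hc := FiniteDimensional.complete ℂ H1
  apply Gg_inj hG
  rw [Gg_P hPP hAP]
  have h1 : P (Gg P A (Bb P A y)) = adjoint A (A (Bb P A y)) := by
    simp only [Gg, _root_.add_apply, ContinuousLinearMap.comp_apply, _root_.sub_apply,
      ContinuousLinearMap.id_apply,
      map_add, map_sub, hPP, sub_self, add_zero]
    exact P_adj hsa hAP _
  rw [← h1, Gg_Bb hG, P_adj hsa hAP]

theorem A_Bb {p : H2 →L[ℂ] H2} (hG : IsUnit (Gg P A)) (hsa : ∀ x y, ⟪P x, y⟫_ℂ = ⟪x, P y⟫_ℂ)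
    (hPP : ∀ x, P (P x) = P x) (hAP : ∀ x, A (P x) = A x)
    (hp : ∀ y, p (p y) = p y) (hps : ∀ x y, ⟪p x, y⟫_ℂ = ⟪x, p y⟫_ℂ)
    (hfix : ∀ x, p (A x) = A x) (hsurj : ∀ y, ∃ x, A x = p y) (y : H2) :
    A (Bb P A y) = p y := by
  have hc := FiniteDimensional.complete ℂ H1
  obtain ⟨x, hx⟩ := hsurj y
  -- `y - A B y ⟂ range A`
  have h1 : ∀ x, ⟪A x, y - A (Bb P A y)⟫_ℂ = 0 := by
    intro x
    have h2 : adjoint A (A (Bb P A y)) = adjoint A y := by
      rw [← Gg_P hPP hAP, P_Bb hG hsa hPP hAP, Gg_Bb hG]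
    rw [inner_sub_right, ← adjoint_inner_right, ← adjoint_inner_right, h2, sub_self]
  have h2 : ∀ x, ⟪A x, y - p y⟫_ℂ = 0 := by
    intro x
    rw [← hfix, hps, map_sub, hp, sub_self, inner_zero_right]
  have h3 : ⟪A (Bb P A y - x), A (Bb P A y) - p y⟫_ℂ = 0 := by
    have h4 := h2 (Bb P A y - x)
    have h5 := h1 (Bb P A y - x)
    have h6 : A (Bb P A y) - p y = (y - p y) - (y - A (Bb P A y)) := by abel
    rw [h6, inner_sub_right, h4, h5, sub_zero]
  rw [map_sub, hx] at h3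
  exact sub_eq_zero.1 (inner_self_eq_zero.1 h3)

end constr

/-! ### the theorem -/

variable {b m : ℕ} {P : (Fin b → ℝ) → H1 →L[ℂ] H1} {p2 : (Fin b → ℝ) → H2 →L[ℂ] H2}
    {J : (Fin b → ℝ) → H1 →L[ℂ] H2} {V : (Fin b → ℤ) → H2 →L[ℂ] H2}

namespace EmbData

omit [CompleteSpace H2] in
theorem hAP (h : EmbData b m P p2 J V) (θ : Fin b → ℝ) (x : H1) :
    (J θ ∘L P θ) (P θ x) = (J θ ∘L P θ) x := by
  simp [h.proj.idem θ x]

theorem unit (h : EmbData b m P p2 J V) (θ : Fin b → ℝ) : IsUnit (Gg (P θ) (J θ ∘L P θ)) := by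
  refine Gg_unit (h.proj.sa θ) (h.proj.idem θ) fun x hx h0 => ?_
  rw [ContinuousLinearMap.comp_apply, hx] at h0
  exact h.inj θ x hx h0

theorem AB (h : EmbData b m P p2 J V) (θ : Fin b → ℝ) :
    (J θ ∘L P θ) ∘L Bb (P θ) (J θ ∘L P θ) = p2 θ := by
  ext y
  exact A_Bb (h.unit θ) (h.proj.sa θ) (h.proj.idem θ) (h.hAP θ) (h.idem2 θ) (h.sa2 θ)
    (fun x => h.fix θ (P θ x) (h.proj.idem θ x))
    (fun y => by
      obtain ⟨x, hx, hy⟩ := h.surj θ y
      exact ⟨x, by rw [ContinuousLinearMap.comp_apply, hx, hy]⟩) y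

omit [CompleteSpace H2] in
theorem smA (h : EmbData b m P p2 J V) : ContDiff ℝ ∞ (fun θ => J θ ∘L P θ) :=
  FamR_comp h.smJ h.proj.smooth

theorem smB (h : EmbData b m P p2 J V) : ContDiff ℝ ∞ (fun θ => Bb (P θ) (J θ ∘L P θ)) := by
  have hc := FiniteDimensional.complete ℂ H1
  rw [contDiff_iff_contDiffAt]
  intro θ
  rw [← contDiffWithinAt_univ]
  have h1 : ContDiffWithinAt ℝ ∞ (fun θ => J θ ∘L P θ) univ θ := h.smA.contDiffAt.contDiffWithinAt
  have h2 : ContDiffWithinAt ℝ ∞ (fun θ => adjoint (J θ ∘L P θ)) univ θ := FamR_151.cd_adj h1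
  have h3 : ContDiffWithinAt ℝ ∞ (fun θ => Gg (P θ) (J θ ∘L P θ)) univ θ := by
    unfold Gg
    exact (FamR_151.cd_comp h2 h1).add
      (contDiffWithinAt_const.sub h.proj.smooth.contDiffAt.contDiffWithinAt)
  exact FamR_151.cd_comp (FamR_151.cd_inv h3 (h.unit θ)) h2

theorem em (h : EmbData b m P p2 J V) :
    Em b P (fun θ => J θ ∘L P θ) (fun θ => Bb (P θ) (J θ ∘L P θ)) where
  cP := h.proj.smooth.of_le ENat.LEInfty.out
  cA := h.smA.of_le ENat.LEInfty.out
  cB := h.smB.of_le ENat.LEInfty.out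
  PP := h.proj.idem
  AP := h.hAP
  PB := fun θ y => P_Bb (h.unit θ) (h.proj.sa θ) (h.proj.idem θ) (h.hAP θ) y
  BA := fun θ x => Bb_A (h.unit θ) (h.proj.idem θ) (h.hAP θ) x
  per := fun k => by
    have hc := FiniteDimensional.complete ℂ H1
    refine ⟨V (Pi.single k 1), adjoint (V (Pi.single k 1)), fun y => ?_, fun θ => ?_⟩
    · refine ext_inner_left ℂ fun x => ?_
      rw [adjoint_inner_right, h.iso]
    · have e : θ + Pi.single k 1 = fun i => θ i + ((Pi.single k 1 : Fin b → ℤ) i : ℝ) := by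
        funext i
        by_cases hi : i = k
        · subst hi; simp
        · simp [hi]
      have eP : P (θ + Pi.single k 1) = P θ := by rw [e, h.proj.per]
      have eA : J (θ + Pi.single k 1) ∘L P (θ + Pi.single k 1)
          = V (Pi.single k 1) ∘L (J θ ∘L P θ) := by
        rw [eP, e]
        ext x
        exact h.per θ _ (P θ x) (h.proj.idem θ x)
      refine ⟨eP, eA, ?_⟩
      rw [eA, eP]
      have hV : adjoint (V (Pi.single k 1)) ∘L V (Pi.single k 1) = ContinuousLinearMap.id ℂ H2 := by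
        ext y
        refine ext_inner_left ℂ fun x => ?_
        rw [ContinuousLinearMap.comp_apply, adjoint_inner_right, h.iso]
        rfl
      have eG : Gg (P θ) (V (Pi.single k 1) ∘L (J θ ∘L P θ)) = Gg (P θ) (J θ ∘L P θ) := by
        unfold Gg
        rw [adjoint_comp]
        congr 1
        rw [ContinuousLinearMap.comp_assoc, ← ContinuousLinearMap.comp_assoc _ _ (J θ ∘L P θ), hV,
          ContinuousLinearMap.id_comp]
      unfold Bb
      rw [eG, adjoint_comp, ContinuousLinearMap.comp_assoc]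

/-- the numbers of `p2` computed over `H1` -/
theorem chE_trB (h : EmbData b m P p2 J V) {ι : Type*} (e : HilbertBasis ι ℂ H2) :
    chG b (trB e) p2 = chE b (fun θ => J θ ∘L P θ) (fun θ => Bb (P θ) (J θ ∘L P θ)) := by
  unfold chG chE
  refine integral_congr_ae (Eventually.of_forall fun y => Finset.sum_congr rfl fun σ _ => ?_)
  congr 1
  have hp : (fun y => (J y ∘L P y) ∘L Bb (P y) (J y ∘L P y)) = p2 := funext h.AB
  simp only [hp]
  conv_lhs => rw [← h.AB y]
  exact trB_eq e (J y ∘L P y) (Bb (P y) (J y ∘L P y) ∘L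
    (List.ofFn fun i => (fderiv ℝ p2 y) (Pi.single (σ i) 1)).prod)

theorem chES_trB {P : (Fin 4 → ℝ) → H1 →L[ℂ] H1} {p2 : (Fin 4 → ℝ) → H2 →L[ℂ] H2}
    {J : (Fin 4 → ℝ) → H1 →L[ℂ] H2} {V : (Fin 4 → ℤ) → H2 →L[ℂ] H2}
    (h : EmbData 4 m P p2 J V) {ι : Type*} (e : HilbertBasis ι ℂ H2) :
    chS (trB e) p2 = chES (fun θ => J θ ∘L P θ) (fun θ => Bb (P θ) (J θ ∘L P θ)) := by
  unfold chS chES
  refine integral_congr_ae (Eventually.of_forall fun y => Finset.sum_congr rfl fun σ _ => ?_)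
  have hp : (fun y => (J y ∘L P y) ∘L Bb (P y) (J y ∘L P y)) = p2 := funext h.AB
  simp only [hp]
  have h1 : ∀ T : H2 →L[ℂ] H2, trB e (p2 y * T)
      = tr (Bb (P y) (J y ∘L P y) ∘L T ∘L (J y ∘L P y)) := by
    intro T
    conv_lhs => rw [← h.AB y]
    exact trB_eq e (J y ∘L P y) (Bb (P y) (J y ∘L P y) ∘L T)
  rw [h1, h1]

/-- **EMB2** -/
theorem ch2_eq {P : (Fin 2 → ℝ) → H1 →L[ℂ] H1} {p2 : (Fin 2 → ℝ) → H2 →L[ℂ] H2}
    {J : (Fin 2 → ℝ) → H1 →L[ℂ] H2} {V : (Fin 2 → ℤ) → H2 →L[ℂ] H2}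
    (h : EmbData 2 m P p2 J V) {ι : Type*} (e : HilbertBasis ι ℂ H2) :
    ch2 (trB e) p2 = ch2 tr P := by
  rw [← chG_two, ← chG_two, h.chE_trB e, emb_gen (by decide) h.em]

/-- **EMB4** -/
theorem ch4_eq {P : (Fin 4 → ℝ) → H1 →L[ℂ] H1} {p2 : (Fin 4 → ℝ) → H2 →L[ℂ] H2}
    {J : (Fin 4 → ℝ) → H1 →L[ℂ] H2} {V : (Fin 4 → ℤ) → H2 →L[ℂ] H2}
    (h : EmbData 4 m P p2 J V) {ι : Type*} (e : HilbertBasis ι ℂ H2) :
    ch4 (trB e) p2 = ch4 tr P := by
  rw [← chG_four, ← chG_four, h.chE_trB e, emb_gen (by decide) h.em]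

/-- **EMBSQ** -/
theorem chsq_eq {P : (Fin 4 → ℝ) → H1 →L[ℂ] H1} {p2 : (Fin 4 → ℝ) → H2 →L[ℂ] H2}
    {J : (Fin 4 → ℝ) → H1 →L[ℂ] H2} {V : (Fin 4 → ℤ) → H2 →L[ℂ] H2}
    (h : EmbData 4 m P p2 J V) {ι : Type*} (e : HilbertBasis ι ℂ H2) :
    chsq (trB e) p2 = chsq tr P := by
  rw [← chS_eq, ← chS_eq, h.chES_trB e, emb_sq h.em]

end EmbData

/-! ### finite dimensional target -/

theorem trB_tr {H3 : Type*} [NormedAddCommGroup H3] [InnerProductSpace ℂ H3]
    [FiniteDimensional ℂ H3] [CompleteSpace H3] {ι : Type*} (e : HilbertBasis ι ℂ H3) :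
    trB e = tr := by
  funext X
  have h := trB_eq e (ContinuousLinearMap.id ℂ H3) X
  simpa using h

/-- a Hilbert basis of a finite dimensional space -/
noncomputable def fdBasis (H3 : Type*) [NormedAddCommGroup H3] [InnerProductSpace ℂ H3]
    [FiniteDimensional ℂ H3] [CompleteSpace H3] :
    HilbertBasis (Fin (finrank ℂ H3)) ℂ H3 :=
  (stdOrthonormalBasis ℂ H3).toHilbertBasis

section fd

variable [FiniteDimensional ℂ H2]

theorem EmbData.ch2_fd {P : (Fin 2 → ℝ) → H1 →L[ℂ] H1} {p2 : (Fin 2 → ℝ) → H2 →L[ℂ] H2}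
    {J : (Fin 2 → ℝ) → H1 →L[ℂ] H2} {V : (Fin 2 → ℤ) → H2 →L[ℂ] H2}
    (h : EmbData 2 m P p2 J V) : ch2 tr p2 = ch2 tr P := by
  rw [← trB_tr (fdBasis H2)]; rw [h.ch2_eq]

theorem EmbData.ch4_fd {P : (Fin 4 → ℝ) → H1 →L[ℂ] H1} {p2 : (Fin 4 → ℝ) → H2 →L[ℂ] H2}
    {J : (Fin 4 → ℝ) → H1 →L[ℂ] H2} {V : (Fin 4 → ℤ) → H2 →L[ℂ] H2}
    (h : EmbData 4 m P p2 J V) : ch4 tr p2 = ch4 tr P := by
  rw [← trB_tr (fdBasis H2)]; rw [h.ch4_eq]

theorem EmbData.chsq_fd {P : (Fin 4 → ℝ) → H1 →L[ℂ] H1} {p2 : (Fin 4 → ℝ) → H2 →L[ℂ] H2}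
    {J : (Fin 4 → ℝ) → H1 →L[ℂ] H2} {V : (Fin 4 → ℤ) → H2 →L[ℂ] H2}
    (h : EmbData 4 m P p2 J V) : chsq tr p2 = chsq tr P := by
  rw [← trB_tr (fdBasis H2)]; rw [h.chsq_eq]

end fd

end Crest.Agent.R235.FamC_192
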