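import Mathlib

-- ▼ part R235/FdJa_778
section

/-!
Row 235 (S0364), block FDJ (helper778): the cut-off function of a ray, determinants of complex
linear maps, lower bounds of injective families.
-/

set_option autoImplicit false

open MeasureTheory Set Filter Topology Module
open scoped ContDiff

noncomputable section

namespace Crest.Agent.R235.FdJa_778

/-- smooth monotone step with derivative a bump in `(-δ, δ)` -/
theorem exists_step {δ : ℝ} (hδ : 0 < δ) : ∃ s a : ℝ → ℝ, ContDiff ℝ 1 s ∧ Continuous a ∧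
    (∀ x, HasDerivAt s (a x) x) ∧ (∀ x, 0 ≤ a x) ∧ 0 < a 0 ∧ (∀ x, a x ≠ 0 → |x| < δ) ∧
    (∀ x, s x ≠ 0 → -δ < x) := by
  let B : ContDiffBump (0 : ℝ) := ⟨δ / 2, δ, by positivity, by linarith⟩
  have hB : Continuous B := B.continuous
  have hB0 : ∀ x, x ≤ -δ → B x = 0 := by
    intro x hx
    refine B.zero_of_le_dist ?_
    show δ ≤ dist x 0
    rw [Real.dist_eq, sub_zero]
    have := neg_abs_le x
    linarith
  let s : ℝ → ℝ := fun x => ∫ u in (-δ)..x, B u
  have hs : ∀ x, HasDerivAt s (B x) x := fun x =>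
    intervalIntegral.integral_hasDerivAt_right (hB.intervalIntegrable _ _)
      (hB.stronglyMeasurableAtFilter _ _) hB.continuousAt
  refine ⟨s, B, ?_, hB, hs, fun x => B.nonneg, ?_, ?_, ?_⟩
  · rw [contDiff_one_iff_deriv]
    refine ⟨fun x => (hs x).differentiableAt, ?_⟩
    have : deriv s = B := by
      funext x
      exact (hs x).deriv
    rw [this]
    exact hB
  · rw [B.one_of_mem_closedBall (Metric.mem_closedBall_self (by positivity))]
    exact one_pos
  · intro x hx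
    by_contra h
    push Not at h
    refine hx (B.zero_of_le_dist ?_)
    show δ ≤ dist x 0
    rwa [Real.dist_eq, sub_zero]
  · intro x hx
    by_contra h
    push Not at h
    apply hx
    show ∫ u in (-δ)..x, B u = 0
    rw [intervalIntegral.integral_symm]
    rw [neg_eq_zero]
    refine intervalIntegral.integral_zero_ae (Eventually.of_forall fun u hu => ?_)
    rw [uIoc_of_le h] at hu
    exact hB0 u hu.2

/-- the cut-off function of the ray `{s v : s ≥ 0}` -/
theorem exists_zeta {Y : Type*} [NormedAddCommGroup Y] [NormedSpace ℝ Y] [FiniteDimensional ℝ Y]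
    (v : Y) (lam : Y →L[ℝ] ℝ) (hlam : lam v = 1) {δ : ℝ} (hδ : 0 < δ) :
    ∃ ζ : Y → ℝ, ContDiff ℝ 1 ζ ∧
      (∀ y, ζ y ≠ 0 → -δ < lam y ∧ ‖y - lam y • v‖ < δ) ∧
      (∀ y, 0 ≤ fderiv ℝ ζ y v) ∧ 0 < fderiv ℝ ζ 0 v ∧
      (∀ y, fderiv ℝ ζ y v ≠ 0 → |lam y| < δ ∧ ‖y - lam y • v‖ < δ) := by
  obtain ⟨s, a, hs1, hac, hsd, ha0, ha1, ha2, hs2⟩ := exists_step hδ
  let B : ContDiffBump (0 : Y) := ⟨δ / 2, δ, by positivity, by linarith⟩
  let pr : Y →L[ℝ] Y := ContinuousLinearMap.id ℝ Y - lam.smulRight v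
  have hpr : ∀ y, pr y = y - lam y • v := fun y => rfl
  have hprv : pr v = 0 := by rw [hpr, hlam, one_smul, sub_self]
  have hB1 : ContDiff ℝ 1 B := B.contDiff
  let ζ : Y → ℝ := fun y => s (lam y) * B (pr y)
  have hζ : ContDiff ℝ 1 ζ := (hs1.comp lam.contDiff).mul (hB1.comp pr.contDiff)
  have hBz : ∀ y, B y ≠ 0 → ‖y‖ < δ := by
    intro y hy
    by_contra h
    push Not at h
    refine hy (B.zero_of_le_dist ?_)
    show δ ≤ dist y 0
    rwa [dist_zero_right]
  have hder : ∀ y, fderiv ℝ ζ y v = a (lam y) * B (pr y) := by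
    intro y
    have h1 : HasFDerivAt (fun y => s (lam y)) (a (lam y) • lam) y :=
      (hsd (lam y)).comp_hasFDerivAt y lam.hasFDerivAt
    have h2 : HasFDerivAt (fun y => B (pr y)) ((fderiv ℝ B (pr y)).comp pr) y :=
      HasFDerivAt.comp y (g := B) (hB1.differentiable one_ne_zero (pr y)).hasFDerivAt
        pr.hasFDerivAt
    have h3 : fderiv ℝ ζ y = _ := (h1.mul h2).fderiv
    rw [h3]
    simp only [_root_.add_apply, _root_.smul_apply, ContinuousLinearMap.comp_apply, hprv,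
      map_zero, smul_eq_mul, mul_zero, zero_add, hlam, mul_one]
    ring
  refine ⟨ζ, hζ, ?_, ?_, ?_, ?_⟩
  · intro y hy
    exact ⟨hs2 _ (left_ne_zero_of_mul hy), hBz _ (right_ne_zero_of_mul hy)⟩
  · intro y
    rw [hder]
    exact mul_nonneg (ha0 _) B.nonneg
  · rw [hder, map_zero, map_zero,
      B.one_of_mem_closedBall (Metric.mem_closedBall_self (by positivity)), mul_one]
    exact ha1
  · intro y hy
    rw [hder] at hy
    exact ⟨ha2 _ (left_ne_zero_of_mul hy), hBz _ (right_ne_zero_of_mul hy)⟩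

/-- a compact set off a ray stays off a neighbourhood of the ray under small perturbations -/
theorem ray_far {X Y : Type*} [TopologicalSpace X] [NormedAddCommGroup Y] [NormedSpace ℝ Y]
    (v : Y) (lam : Y →L[ℝ] ℝ) (K : Set X) (hK : IsCompact K) (F : X → Y) (hF : Continuous F)
    (h : ∀ x ∈ K, ∀ s : ℝ, 0 ≤ s → F x ≠ s • v) :
    ∃ δ > 0, ∃ ε > 0, ∀ x ∈ K, ∀ y, ‖y - F x‖ < ε → ¬ (-δ < lam y ∧ ‖y - lam y • v‖ < δ) := by
  let φ : Y → ℝ := fun y => max (-lam y) ‖y - lam y • v‖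
  have hφ : Continuous φ :=
    lam.continuous.neg.max ((continuous_id.sub (lam.continuous.smul continuous_const)).norm)
  rcases K.eq_empty_or_nonempty with rfl | hne
  · exact ⟨1, one_pos, 1, one_pos, fun x hx => absurd hx (notMem_empty x)⟩
  obtain ⟨x₀, hx₀, hmin⟩ := hK.exists_isMinOn hne (hφ.comp hF).continuousOn
  have hpos : 0 < φ (F x₀) := by
    by_contra hle
    push Not at hle
    have h1 : 0 ≤ lam (F x₀) := by
      have := (le_max_left (-lam (F x₀)) _).trans hle
      linarith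
    have h2 : ‖F x₀ - lam (F x₀) • v‖ ≤ 0 := (le_max_right _ _).trans hle
    have h3 : F x₀ - lam (F x₀) • v = 0 := norm_le_zero_iff.1 h2
    exact h x₀ hx₀ _ h1 (sub_eq_zero.1 h3)
  set m₀ : ℝ := φ (F x₀) with hm₀
  let O : Set Y := {y | m₀ / 2 < φ y}
  have hO : IsOpen O := isOpen_lt continuous_const hφ
  have hsub : F '' K ⊆ O := by
    rintro _ ⟨x, hx, rfl⟩
    have h4 : φ (F x₀) ≤ φ (F x) := hmin hx
    show m₀ / 2 < φ (F x)
    linarith
  obtain ⟨ε, hε, hth⟩ := (hK.image hF).exists_thickening_subset_open hO hsub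
  refine ⟨m₀ / 2, by positivity, ε, hε, fun x hx y hy hcon => ?_⟩
  have h5 : y ∈ O := hth (Metric.mem_thickening_iff.2 ⟨F x, mem_image_of_mem F hx, by
    rwa [dist_eq_norm]⟩)
  have h6 : m₀ / 2 < max (-lam y) ‖y - lam y • v‖ := h5
  rcases lt_max_iff.1 h6 with h7 | h7
  · linarith [hcon.1]
  · linarith [hcon.2]

/-- complex linear isomorphisms preserve the orientation -/
theorem det_pos {W : Type*} [NormedAddCommGroup W] [NormedSpace ℂ W] [FiniteDimensional ℂ W]
    (a : W →L[ℂ] W) (ha : Function.Injective a) :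
    0 < LinearMap.det ((a : W →ₗ[ℂ] W).restrictScalars ℝ) := by
  rw [LinearMap.det_restrictScalars, Algebra.norm_complex_apply]
  refine Complex.normSq_pos.2 fun h0 => ?_
  have h1 : LinearMap.ker (a : W →ₗ[ℂ] W) = ⊥ := LinearMap.ker_eq_bot.2 ha
  have h2 := (LinearEquiv.ofInjectiveEndo (a : W →ₗ[ℂ] W) ha).isUnit_det'
  have h3 : ((LinearEquiv.ofInjectiveEndo (a : W →ₗ[ℂ] W) ha : W ≃ₗ[ℂ] W) : W →ₗ[ℂ] W)
      = (a : W →ₗ[ℂ] W) := by
    ext x; rfl
  rw [h3, h0] at h2
  exact not_isUnit_zero h2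

/-- uniform lower bound of an injective continuous family on a compact set -/
theorem lower_bound {B W H : Type*} [TopologicalSpace B] [NormedAddCommGroup W] [NormedSpace ℂ W]
    [FiniteDimensional ℂ W] [NormedAddCommGroup H] [NormedSpace ℂ H] (C : Set B)
    (hC : IsCompact C) (e : B → W →L[ℂ] H) (he : Continuous e)
    (hi : ∀ θ ∈ C, Function.Injective (e θ)) : ∃ c > 0, ∀ θ ∈ C, ∀ w, c * ‖w‖ ≤ ‖e θ w‖ := by
  have : ProperSpace W := FiniteDimensional.proper ℂ W
  let S : Set (B × W) := C ×ˢ Metric.sphere (0 : W) 1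
  have hS : IsCompact S := hC.prod (isCompact_sphere _ _)
  have hc : Continuous fun x : B × W => ‖e x.1 x.2‖ :=
    ((he.comp continuous_fst).clm_apply continuous_snd).norm
  rcases S.eq_empty_or_nonempty with hS0 | hne
  · refine ⟨1, one_pos, fun θ hθ w => ?_⟩
    by_cases hw : w = 0
    · simp [hw]
    · exfalso
      have h1 : (θ, ((‖w‖⁻¹ : ℝ) : ℂ) • w) ∈ S := by
        refine ⟨hθ, ?_⟩
        rw [mem_sphere_zero_iff_norm, norm_smul]
        have h2 : ‖w‖ ≠ 0 := norm_ne_zero_iff.2 hw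
        simp [h2]
      rw [hS0] at h1
      exact notMem_empty _ h1
  · obtain ⟨x₀, hx₀, hmin⟩ := hS.exists_isMinOn hne hc.continuousOn
    have hpos : 0 < ‖e x₀.1 x₀.2‖ := by
      rw [norm_pos_iff]
      intro h0
      have h1 : x₀.2 = 0 := (injective_iff_map_eq_zero (e x₀.1)).1 (hi _ hx₀.1) _ h0
      have h2 := mem_sphere_zero_iff_norm.1 hx₀.2
      rw [h1, norm_zero] at h2
      exact zero_ne_one h2
    refine ⟨‖e x₀.1 x₀.2‖, hpos, fun θ hθ w => ?_⟩
    by_cases hw : w = 0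
    · simp [hw]
    have h3 : ‖w‖ ≠ 0 := norm_ne_zero_iff.2 hw
    have h1 : (θ, ((‖w‖⁻¹ : ℝ) : ℂ) • w) ∈ S := by
      refine ⟨hθ, ?_⟩
      rw [mem_sphere_zero_iff_norm, norm_smul]
      simp [h3]
    have h4 : ‖e x₀.1 x₀.2‖ ≤ ‖e θ (((‖w‖⁻¹ : ℝ) : ℂ) • w)‖ := hmin h1
    rw [map_smul, norm_smul] at h4
    have h5 : ‖((‖w‖⁻¹ : ℝ) : ℂ)‖ = ‖w‖⁻¹ := by simp
    rw [h5] at h4
    have h6 : 0 < ‖w‖ := norm_pos_iff.2 hw
    calc ‖e x₀.1 x₀.2‖ * ‖w‖ ≤ (‖w‖⁻¹ * ‖e θ w‖) * ‖w‖ := by gcongr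
      _ = ‖e θ w‖ := by field_simp

end Crest.Agent.R235.FdJa_778
end
end

-- ▼ part R235/DgSmo_936
section

/-!
Row 235 (S0364), package SW/FDJ (helper778), leaf (B), helper936: smoothing of continuous maps by
convolution, preserving all the periods exactly.
-/

set_option autoImplicit false

open Set Function Filter MeasureTheory
open scoped ContDiff Topology Convolution

namespace Crest.Agent.R235.DgSmo_936

/-- smoothing by convolution; every period of `G` (with a linear multiplier `A` on the values) is a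
period of the smoothed map. -/
theorem exists_smooth {E Y : Type*} [NormedAddCommGroup E] [NormedSpace ℝ E]
    [FiniteDimensional ℝ E] [NormedAddCommGroup Y] [NormedSpace ℝ Y] [CompleteSpace Y]
    (G : E → Y) (hG : Continuous G) (K : Set E) (hK : IsCompact K) {ε : ℝ} (hε : 0 < ε) :
    ∃ S : E → Y, ContDiff ℝ ∞ S ∧
      (∀ (p : E) (A : Y →L[ℝ] Y), (∀ x, G (x + p) = A (G x)) → ∀ x, S (x + p) = A (S x)) ∧
      ∀ x ∈ K, ‖S x - G x‖ < ε := by
  let _ : MeasurableSpace E := borel E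
  have _ : BorelSpace E := ⟨rfl⟩
  let μ : Measure E := MeasureTheory.Measure.addHaar
  -- uniform continuity near `K`
  have hu := hK.uniformContinuousAt_of_continuousAt G (fun a _ => hG.continuousAt)
    (Metric.dist_mem_uniformity (half_pos hε))
  obtain ⟨δ, hδ, h⟩ := Metric.mem_uniformity_dist.1 hu
  let φ : ContDiffBump (0 : E) := ⟨δ / 2, δ, half_pos hδ, half_lt_self hδ⟩
  refine ⟨φ.normed μ ⋆[ContinuousLinearMap.lsmul ℝ ℝ, μ] G, ?_, ?_, ?_⟩
  · exact φ.hasCompactSupport_normed.contDiff_convolution_left _ φ.contDiff_normed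
      hG.locallyIntegrable
  · intro p A hA x
    have hint : Integrable (fun t => (ContinuousLinearMap.lsmul ℝ ℝ (φ.normed μ t)) (G (x - t))) μ :=
      (φ.hasCompactSupport_normed.convolutionExists_left (ContinuousLinearMap.lsmul ℝ ℝ)
        φ.continuous_normed hG.locallyIntegrable) x
    rw [convolution_def, convolution_def, ← A.integral_comp_comm hint]
    refine integral_congr_ae (Eventually.of_forall fun t => ?_)
    have e : x + p - t = x - t + p := by abel
    simp only [ContinuousLinearMap.lsmul_apply, map_smul]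
    rw [e, hA]
  · intro x hx
    have h1 := φ.dist_normed_convolution_le (μ := μ) (g := G) (x₀ := x) (ε := ε / 2)
      hG.aestronglyMeasurable (fun y hy => by
        have h2 := h (a := x) (b := y) (by rw [dist_comm]; exact hy) hx
        rw [dist_comm]
        exact le_of_lt h2)
    rw [← dist_eq_norm]
    linarith [half_lt_self hε]

/-- LEAF (B) of FDJ. -/
theorem exists_smooth_periodic {b : ℕ} {V Y : Type*} [NormedAddCommGroup V] [NormedSpace ℝ V]
    [FiniteDimensional ℝ V] [NormedAddCommGroup Y] [NormedSpace ℝ Y] [CompleteSpace Y]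
    (G : (Fin b → ℝ) → V → Y) (hG : Continuous fun x : (Fin b → ℝ) × V => G x.1 x.2)
    (hper : ∀ (n : Fin b → ℤ) (h : Fin b → ℝ) (v : V), G (h + fun i => (n i : ℝ)) v = G h v)
    (K : Set ((Fin b → ℝ) × V)) (hK : IsCompact K) {ε : ℝ} (hε : 0 < ε) :
    ∃ S : (Fin b → ℝ) → V → Y, ContDiff ℝ ∞ (fun x : (Fin b → ℝ) × V => S x.1 x.2) ∧
      (∀ (n : Fin b → ℤ) (h : Fin b → ℝ) (v : V), S (h + fun i => (n i : ℝ)) v = S h v) ∧
      ∀ x ∈ K, ‖S x.1 x.2 - G x.1 x.2‖ < ε := by
  obtain ⟨S, hS, hp, hSG⟩ := exists_smooth (fun x : (Fin b → ℝ) × V => G x.1 x.2) hG K hK hε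
  refine ⟨fun h v => S (h, v), hS, fun n h v => ?_, hSG⟩
  have h1 := hp ((fun i => (n i : ℝ)), (0 : V)) (ContinuousLinearMap.id ℝ Y) (fun x => by
    show G (x.1 + fun i => (n i : ℝ)) (x.2 + 0) = G x.1 x.2
    rw [add_zero]
    exact hper n x.1 x.2) (h, v)
  have e : ((h, v) + ((fun i => (n i : ℝ)), (0 : V)) : (Fin b → ℝ) × V) =
      (h + fun i => (n i : ℝ), v) := by
    rw [Prod.mk_add_mk, add_zero]
  rw [e] at h1
  exact h1

end Crest.Agent.R235.DgSmo_936
end

-- ▼ part R235/DgLoc_143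
section

/-!
# R235, block FDJ, leaf (C) (helper143): the local contribution of a nondegenerate zero

`local_ne` : `F₀` continuous with the only zero `p` in the compact set `K`, differentiable at `p` with
injective derivative `L`; every smooth `S` close to `F₀` on `K` can be changed near `p` (to
`L (x - p)`) such that the degree integral is nonzero.
-/

set_option autoImplicit false

open Set Filter Topology MeasureTheory Metric
open scoped ContDiff

noncomputable section

namespace Crest.Agent.R235.DgLoc_143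

variable {X Y : Type*} [NormedAddCommGroup X] [NormedSpace ℝ X] [FiniteDimensional ℝ X]
  [MeasurableSpace X] [BorelSpace X] [NormedAddCommGroup Y] [NormedSpace ℝ Y]

theorem local_ne (μ : Measure X) [μ.IsAddHaarMeasure] (F₀ : X → Y) (hc : Continuous F₀) (p : X)
    (L : X →L[ℝ] Y) (hL : HasFDerivAt F₀ L p) (h0 : F₀ p = 0) (hinj : Function.Injective L)
    (K : Set X) (hK : IsCompact K) (U : Set X) (hU : U ∈ 𝓝 p)
    (hne : ∀ x ∈ K, F₀ x = 0 → x = p) :
    ∃ δ > 0, ∀ S : X → Y, ContDiff ℝ ∞ S → (∀ x ∈ K, ‖S x - F₀ x‖ < δ) →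
      ∃ F : X → Y, ContDiff ℝ ∞ F ∧ (∀ x ∉ U, F x = S x) ∧
        ∀ (Dt : (X →L[ℝ] Y) → ℝ), Dt L ≠ 0 → ∀ η : Y → ℝ, Continuous η → (∀ y, 0 ≤ η y) →
          0 < η 0 → (∀ y, δ ≤ ‖y‖ → η y = 0) → ∀ g : X → ℝ, Continuous g → (∀ x ∈ U, g x = 1) →
          (∀ x ∉ K, g x = 0) → (∫ x, g x * (η (F x) * Dt (fderiv ℝ F x)) ∂μ) ≠ 0 := by
  -- lower bound of `L`
  obtain ⟨c, hc0, hcL⟩ : ∃ c : ℝ, 0 < c ∧ ∀ x, c * ‖x‖ ≤ ‖L x‖ := by
    obtain ⟨C, hC, hA⟩ := L.toLinearMap.exists_antilipschitzWith (LinearMap.ker_eq_bot.2 hinj)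
    refine ⟨(C : ℝ)⁻¹, by positivity, fun x => ?_⟩
    have h1 := hA.le_mul_dist x 0
    rw [dist_zero_right, map_zero, dist_zero_right] at h1
    have hC' : (0 : ℝ) < C := by exact_mod_cast hC
    rw [inv_mul_le_iff₀ hC']
    exact h1
  -- the radii
  have hlo := hL.isLittleO.def (c := c / 4) (by positivity)
  obtain ⟨r, hr, hball⟩ := Metric.eventually_nhds_iff.1 (hlo.and hU)
  set r₂ : ℝ := r / 2 with hr₂
  set r₁ : ℝ := r / 4 with hr₁
  have hr₂0 : 0 < r₂ := by positivity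
  have hr₁0 : 0 < r₁ := by positivity
  have hr12 : r₁ < r₂ := by rw [hr₁, hr₂]; linarith
  have hest : ∀ x, ‖x - p‖ ≤ r₂ → ‖F₀ x - L (x - p)‖ ≤ c / 4 * ‖x - p‖ ∧ x ∈ U := by
    intro x hx
    have h1 : dist x p < r := by rw [dist_eq_norm]; linarith
    have h2 := hball h1
    rw [h0, sub_zero] at h2
    exact h2
  -- lower bound of `F₀` far away
  obtain ⟨m, hm, hmK⟩ : ∃ m : ℝ, 0 < m ∧ ∀ x ∈ K, r₂ ≤ ‖x - p‖ → m ≤ ‖F₀ x‖ := by
    set K' : Set X := K ∩ {x | r₂ ≤ ‖x - p‖} with hK'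
    have hK'c : IsCompact K' := hK.inter_right (isClosed_le continuous_const (by fun_prop))
    rcases K'.eq_empty_or_nonempty with he | hn
    · refine ⟨1, one_pos, fun x hx hx2 => ?_⟩
      have : x ∈ K' := ⟨hx, hx2⟩
      rw [he] at this
      exact this.elim
    · obtain ⟨x₀, hx₀, hmin⟩ := hK'c.exists_isMinOn hn hc.norm.continuousOn
      refine ⟨‖F₀ x₀‖, norm_pos_iff.2 fun h => ?_, fun x hx hx2 => hmin ⟨hx, hx2⟩⟩
      have h1 := hne x₀ hx₀.1 h
      have h2 : r₂ ≤ ‖x₀ - p‖ := hx₀.2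
      rw [h1, sub_self, norm_zero] at h2
      linarith
  refine ⟨min (3 * c / 8 * r₁) (m / 2), by positivity, fun S hS hSK => ?_⟩
  set δ : ℝ := min (3 * c / 8 * r₁) (m / 2) with hδ
  have hδ1 : δ ≤ 3 * c / 8 * r₁ := min_le_left _ _
  have hδ2 : δ ≤ m / 2 := min_le_right _ _
  have hδ0 : 0 < δ := by positivity
  let lam : ContDiffBump p := ⟨r₁, r₂, hr₁0, hr12⟩
  let F : X → Y := fun x => (1 - lam x) • S x + lam x • L (x - p)
  have hF : ContDiff ℝ ∞ F :=
    ((contDiff_const.sub lam.contDiff).smul hS).add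
      (lam.contDiff.smul (L.contDiff.comp (contDiff_id.sub contDiff_const)))
  have hFU : ∀ x ∉ U, F x = S x := by
    intro x hx
    have h1 : lam x = 0 := by
      apply lam.zero_of_le_dist
      show r₂ ≤ dist x p
      by_contra hcon
      rw [not_le, dist_eq_norm] at hcon
      exact hx (hest x hcon.le).2
    simp [F, h1]
  have hFin : ∀ x, ‖x - p‖ ≤ r₁ → F x = L (x - p) := by
    intro x hx
    have h1 : lam x = 1 := lam.one_of_mem_closedBall (by
      show dist x p ≤ r₁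
      rw [dist_eq_norm]; exact hx)
    simp [F, h1]
  have hFd : ∀ x, ‖x - p‖ < r₁ → fderiv ℝ F x = L := by
    intro x hx
    have h1 : F =ᶠ[𝓝 x] fun y => L (y - p) := by
      have h2 : ball p r₁ ∈ 𝓝 x := isOpen_ball.mem_nhds (by rw [mem_ball, dist_eq_norm]; exact hx)
      filter_upwards [h2] with y hy
      rw [mem_ball, dist_eq_norm] at hy
      exact hFin y hy.le
    rw [h1.fderiv_eq]
    have h3 : HasFDerivAt (fun y => L (y - p)) L x := by
      exact L.hasFDerivAt.comp x ((hasFDerivAt_id x).sub_const p)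
    exact h3.fderiv
  have hFlow : ∀ x ∈ K, r₁ ≤ ‖x - p‖ → δ ≤ ‖F x‖ := by
    intro x hx hx1
    have hSx := hSK x hx
    by_cases hx2 : ‖x - p‖ ≤ r₂
    · have h1 := (hest x hx2).1
      have h2 := hcL (x - p)
      have h3 : F x = L (x - p) + (1 - lam x) • (S x - L (x - p)) := by
        simp only [F, smul_sub, sub_smul, one_smul]
        abel
      have h4 : ‖(1 - lam x) • (S x - L (x - p))‖ ≤ δ + c / 4 * ‖x - p‖ := by
        rw [norm_smul, Real.norm_of_nonneg (by linarith [lam.le_one (x := x)])]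
        have h5 : ‖S x - L (x - p)‖ ≤ δ + c / 4 * ‖x - p‖ := by
          have h6 : S x - L (x - p) = (S x - F₀ x) + (F₀ x - L (x - p)) := by abel
          rw [h6]
          exact (norm_add_le _ _).trans (add_le_add hSx.le h1)
        calc (1 - lam x) * ‖S x - L (x - p)‖ ≤ 1 * ‖S x - L (x - p)‖ := by
              gcongr
              linarith [lam.nonneg (x := x)]
          _ ≤ _ := by rw [one_mul]; exact h5
      have h7 : ‖L (x - p)‖ - ‖(1 - lam x) • (S x - L (x - p))‖ ≤ ‖F x‖ := by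
        rw [h3]
        have := norm_sub_norm_le (L (x - p)) (-((1 - lam x) • (S x - L (x - p))))
        rwa [norm_neg, sub_neg_eq_add] at this
      have h8 : 3 * c / 4 * r₁ ≤ 3 * c / 4 * ‖x - p‖ := by gcongr
      linarith
    · have hx3 : r₂ ≤ ‖x - p‖ := (not_le.1 hx2).le
      have h1 : lam x = 0 := lam.zero_of_le_dist (by
        show r₂ ≤ dist x p
        rw [dist_eq_norm]; exact hx3)
      have h2 : F x = S x := by simp [F, h1]
      have h3 := hmK x hx hx3
      rw [h2]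
      have h4 : ‖F₀ x‖ - ‖S x‖ ≤ ‖S x - F₀ x‖ := by
        rw [norm_sub_rev]; exact norm_sub_norm_le _ _
      linarith
  refine ⟨F, hF, hFU, fun Dt hDt η hη hη0 hηp hηδ g hg hgU hgK => ?_⟩
  have key : (fun x => g x * (η (F x) * Dt (fderiv ℝ F x))) = fun x => Dt L * η (L (x - p)) := by
    funext x
    by_cases hx : ‖x - p‖ < r₁
    · rw [hFin x hx.le, hFd x hx, hgU x (hest x (hx.le.trans hr12.le)).2]
      ring
    · rw [not_lt] at hx
      have h1 : η (L (x - p)) = 0 := by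
        apply hηδ
        have h2 := hcL (x - p)
        have h3 : c * r₁ ≤ c * ‖x - p‖ := by gcongr
        have h4 : 3 * c / 8 * r₁ ≤ c * r₁ := by
          have : 0 < c * r₁ := by positivity
          linarith
        linarith
      rw [h1, mul_zero]
      by_cases hxK : x ∈ K
      · rw [hηδ _ (hFlow x hxK hx)]
        ring
      · rw [hgK x hxK]
        ring
  rw [key, integral_const_mul]
  refine mul_ne_zero hDt (ne_of_gt ?_)
  have hcont : Continuous fun x => η (L (x - p)) := by fun_prop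
  refine hcont.integral_pos_of_hasCompactSupport_nonneg_nonzero (x := p) ?_ (fun x => hη0 _) ?_
  · refine HasCompactSupport.of_support_subset_isCompact
      (isCompact_closedBall p r₁) fun x hx => ?_
    by_contra hcon
    rw [mem_closedBall, dist_eq_norm, not_le] at hcon
    apply hx
    show η (L (x - p)) = 0
    apply hηδ
    have h2 := hcL (x - p)
    have h3 : c * r₁ ≤ c * ‖x - p‖ := by gcongr
    have h4 : 3 * c / 8 * r₁ ≤ c * r₁ := by
      have : 0 < c * r₁ := by positivity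
      linarith
    linarith
  · show η (L (p - p)) ≠ 0
    rw [sub_self, map_zero]
    exact hηp.ne'

end Crest.Agent.R235.DgLoc_143
end
end

-- ▼ part R235/Frame_143

/-!
# R235, block FDJ (helper143): smooth frames of a smooth family of projections

* `exists_frame` : `P : (Fin b → ℝ) → H →L[ℂ] H` smooth, `P h ∘ P h = P h`, rank `m` at `h₀`:
  on every ball round `h₀` there is a smooth injective frame `e h : ℂ^m → range (P h)`
  (`e h = P h ∘ P (h₀ + (k-1)(h-h₀)/k) ∘ ⋯ ∘ P (h₀ + (h-h₀)/k) ∘ e₀`).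
* `exists_frame_inv` : the same with a smooth left inverse near the ball.
-/

set_option autoImplicit false

open Set Filter Topology Module
open scoped ContDiff

noncomputable section

namespace Crest.Agent.R235.Frame_143

variable {B H F : Type*} [NormedAddCommGroup B] [NormedSpace ℝ B]
  [NormedAddCommGroup H] [NormedSpace ℂ H] [NormedAddCommGroup F] [NormedSpace ℂ F]

/-- the intermediate point -/
def pt (h₀ h : B) (k j : ℕ) : B := h₀ + ((j : ℝ) / k) • (h - h₀)

/-- product of projections along the segment -/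
def fr (P : B → H →L[ℂ] H) (e₀ : F →L[ℂ] H) (h₀ : B) (k : ℕ) : ℕ → B → F →L[ℂ] H
  | 0 => fun _ => e₀
  | j + 1 => fun h => (P (pt h₀ h k (j + 1))).comp (fr P e₀ h₀ k j h)

theorem contDiff_pt (h₀ : B) (k j : ℕ) : ContDiff ℝ ∞ (fun h => pt h₀ h k j) := by
  unfold pt
  exact contDiff_const.add ((contDiff_id.sub contDiff_const).const_smul _)

theorem contDiff_fr {P : B → H →L[ℂ] H} (hP : ContDiff ℝ ∞ P) (e₀ : F →L[ℂ] H) (h₀ : B) (k : ℕ) :
    ∀ j, ContDiff ℝ ∞ (fr P e₀ h₀ k j)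
  | 0 => contDiff_const
  | j + 1 => by
    have h1 := contDiff_fr hP e₀ h₀ k j
    have h2 : ContDiff ℝ ∞ (fun h => P (pt h₀ h k (j + 1))) := hP.comp (contDiff_pt h₀ k (j + 1))
    have h3 : IsBoundedBilinearMap ℝ
        (fun q : (H →L[ℂ] H) × (F →L[ℂ] H) => q.1.comp q.2) := by
      refine ⟨fun x₁ x₂ y => ?_, fun c x y => ?_, fun x y₁ y₂ => ?_, fun c x y => ?_, 1, one_pos,
        fun x y => ?_⟩
      · ext v; simp
      · ext v; simp
      · ext v; simp
      · ext v; simp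
      · simpa using x.opNorm_comp_le y
    exact h3.contDiff.comp (h2.prodMk h1)

theorem dist_pt {h₀ h : B} {r : ℝ} (hr : ‖h - h₀‖ ≤ r) {k j : ℕ} (hk : 0 < k) :
    ‖pt h₀ h k (j + 1) - pt h₀ h k j‖ ≤ r / k := by
  have hk' : (0 : ℝ) < k := by exact_mod_cast hk
  have h1 : pt h₀ h k (j + 1) - pt h₀ h k j = ((1 : ℝ) / k) • (h - h₀) := by
    unfold pt
    rw [add_sub_add_left_eq_sub, ← sub_smul]
    congr 1
    push_cast
    field_simp
    ring
  rw [h1, norm_smul, Real.norm_of_nonneg (by positivity)]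
  rw [div_mul_eq_mul_div, one_mul]
  gcongr

theorem pt_mem {h₀ h : B} {r : ℝ} (hr : ‖h - h₀‖ ≤ r) {k j : ℕ} (hk : 0 < k) (hj : j ≤ k) :
    pt h₀ h k j ∈ Metric.closedBall h₀ r := by
  have hk' : (0 : ℝ) < k := by exact_mod_cast hk
  have hj' : (j : ℝ) ≤ k := by exact_mod_cast hj
  rw [mem_closedBall_iff_norm]
  unfold pt
  rw [add_sub_cancel_left, norm_smul, Real.norm_of_nonneg (by positivity)]
  have h1 : (j : ℝ) / k ≤ 1 := (div_le_one hk').2 hj'
  calc (j : ℝ) / k * ‖h - h₀‖ ≤ 1 * ‖h - h₀‖ := by gcongr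
    _ ≤ r := by simpa using hr

theorem pt_zero (h₀ h : B) (k : ℕ) : pt h₀ h k 0 = h₀ := by simp [pt]

theorem pt_self (h₀ h : B) {k : ℕ} (hk : 0 < k) : pt h₀ h k k = h := by
  have hk' : (k : ℝ) ≠ 0 := by exact_mod_cast hk.ne'
  simp [pt, div_self hk']

/-- close projections: `Q` is injective on the range of `P` -/
theorem inj_of_close {P Q : H →L[ℂ] H} (h : ‖P - Q‖ < 1) {v : H} (hv : P v = v) (hQ : Q v = 0) :
    v = 0 := by
  by_contra hne
  have h1 : (0 : ℝ) < ‖v‖ := norm_pos_iff.2 hne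
  have h2 : ‖v‖ ≤ ‖P - Q‖ * ‖v‖ := by
    have := (P - Q).le_opNorm v
    rwa [_root_.sub_apply, hv, hQ, sub_zero] at this
  nlinarith

/-- frame on a ball, general base -/
theorem exists_frame' [ProperSpace B] {P : B → H →L[ℂ] H} (hP : ContDiff ℝ ∞ P)
    (hPP : ∀ h v, P h (P h v) = P h v) (h₀ : B) (r : ℝ) (e₀ : F →L[ℂ] H)
    (he₀ : Function.Injective e₀) (hP₀ : ∀ z, P h₀ (e₀ z) = e₀ z) :
    ∃ e : B → F →L[ℂ] H, ContDiff ℝ ∞ e ∧ (∀ h z, P h (e h z) = e h z) ∧
      ∀ h, ‖h - h₀‖ ≤ r → Function.Injective (e h) := by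
  have hK : IsCompact (Metric.closedBall h₀ r) := isCompact_closedBall h₀ r
  have huc := hK.uniformContinuousOn_of_continuous hP.continuous.continuousOn
  rw [Metric.uniformContinuousOn_iff] at huc
  obtain ⟨δ, hδ, hδ'⟩ := huc 1 one_pos
  obtain ⟨k, hk⟩ := exists_nat_gt (|r| / δ)
  have hk0 : (0 : ℝ) < k := lt_of_le_of_lt (by positivity) hk
  have hkn : 0 < k := by exact_mod_cast hk0
  have hrk : r / k < δ := by
    rw [div_lt_iff₀ hk0]
    rw [div_lt_iff₀ hδ] at hk
    linarith [le_abs_self r]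
  refine ⟨fr P e₀ h₀ k k, contDiff_fr hP e₀ h₀ k k, ?_, ?_⟩
  · intro h z
    obtain ⟨j, rfl⟩ := Nat.exists_eq_succ_of_ne_zero hkn.ne'
    show P h (P (pt h₀ h (j + 1) (j + 1)) _) = P (pt h₀ h (j + 1) (j + 1)) _
    rw [pt_self h₀ h hkn]
    exact hPP h _
  · intro h hh
    have key : ∀ j, j ≤ k → Function.Injective (fr P e₀ h₀ k j h) ∧
        ∀ z, P (pt h₀ h k j) (fr P e₀ h₀ k j h z) = fr P e₀ h₀ k j h z := by
      intro j
      induction j with
      | zero =>
        intro _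
        refine ⟨he₀, fun z => ?_⟩
        rw [pt_zero]
        exact hP₀ z
      | succ j ih =>
        intro hj
        obtain ⟨h1, h2⟩ := ih (Nat.le_of_succ_le hj)
        refine ⟨?_, fun z => hPP _ _⟩
        rw [injective_iff_map_eq_zero]
        intro z hz
        have h3 : ‖P (pt h₀ h k j) - P (pt h₀ h k (j + 1))‖ < 1 := by
          rw [← dist_eq_norm]
          refine hδ' _ (pt_mem hh hkn (Nat.le_of_succ_le hj)) _ (pt_mem hh hkn hj) ?_
          rw [dist_eq_norm, norm_sub_rev]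
          exact lt_of_le_of_lt (dist_pt hh hkn) hrk
        have h4 := inj_of_close h3 (h2 z) hz
        exact (injective_iff_map_eq_zero _).1 h1 z h4
    exact (key k le_rfl).1

/-- frame on a ball -/
theorem exists_frame {b m : ℕ} {P : (Fin b → ℝ) → H →L[ℂ] H} (hP : ContDiff ℝ ∞ P)
    (hPP : ∀ h v, P h (P h v) = P h v) (h₀ : Fin b → ℝ) (r : ℝ)
    [FiniteDimensional ℂ (LinearMap.range (P h₀).toLinearMap)]
    (hm : finrank ℂ (LinearMap.range (P h₀).toLinearMap) = m) :
    ∃ e : (Fin b → ℝ) → (Fin m → ℂ) →L[ℂ] H, ContDiff ℝ ∞ e ∧ (∀ h z, P h (e h z) = e h z) ∧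
      ∀ h, ‖h - h₀‖ ≤ r → Function.Injective (e h) := by
  have e1 : (Fin m → ℂ) ≃ₗ[ℂ] LinearMap.range (P h₀).toLinearMap :=
    LinearEquiv.ofFinrankEq _ _ (by simp [hm])
  let e₀ : (Fin m → ℂ) →L[ℂ] H :=
    LinearMap.toContinuousLinearMap ((LinearMap.range (P h₀).toLinearMap).subtype ∘ₗ e1.toLinearMap)
  have h0 : ∀ z, e₀ z = (e1 z : H) := fun z => rfl
  refine exists_frame' hP hPP h₀ r e₀ ?_ ?_
  · intro z w hzw
    rw [h0, h0] at hzw
    exact e1.injective (Subtype.ext hzw)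
  · intro z
    rw [h0]
    obtain ⟨w, hw⟩ := (e1 z).2
    rw [← hw]
    exact hPP h₀ w

/-- injectivity and surjectivity on the range -/
theorem range_eq [FiniteDimensional ℂ H] [FiniteDimensional ℂ F] {P : H →L[ℂ] H} {e : F →L[ℂ] H}
    (hr : finrank ℂ (LinearMap.range P.toLinearMap) = finrank ℂ F) (hi : Function.Injective e)
    (he : ∀ z, P (e z) = e z) (v : H) : ∃ z, e z = P v := by
  have h1 : LinearMap.range e.toLinearMap ≤ LinearMap.range P.toLinearMap := by
    rintro _ ⟨z, rfl⟩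
    exact ⟨e z, he z⟩
  have h2 : finrank ℂ (LinearMap.range e.toLinearMap) = finrank ℂ F :=
    LinearMap.finrank_range_of_inj hi
  have h3 := Submodule.eq_of_le_of_finrank_eq h1 (h2.trans hr.symm)
  have h4 : P v ∈ LinearMap.range e.toLinearMap := by
    rw [h3]
    exact ⟨v, rfl⟩
  exact h4

/-- smooth left inverse of a smooth frame: `D h (e h z) = z`, `e h (D h v) = P h v` -/
theorem exists_inv [FiniteDimensional ℂ H] [FiniteDimensional ℂ F] {P : B → H →L[ℂ] H}
    (hP : ContDiff ℝ ∞ P) (hr : ∀ h, finrank ℂ (LinearMap.range (P h).toLinearMap) = finrank ℂ F)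
    {e : B → F →L[ℂ] H} (he : ContDiff ℝ ∞ e) (hPe : ∀ h z, P h (e h z) = e h z) :
    ∃ D : B → H →L[ℂ] F, ∀ h, Function.Injective (e h) → ContDiffAt ℝ ∞ D h ∧
      (∀ z, D h (e h z) = z) ∧ (∀ v, e h (D h v) = P h v) := by
  classical
  have : CompleteSpace F := FiniteDimensional.complete ℂ F
  have hS : ∀ h, Function.Injective (e h) → ∃ S : H →L[ℂ] F, ∀ z, S (e h z) = z := by
    intro h hi
    obtain ⟨S, hS⟩ := LinearMap.exists_leftInverse_of_injective (e h).toLinearMap
      (LinearMap.ker_eq_bot.2 hi)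
    exact ⟨LinearMap.toContinuousLinearMap S, fun z => LinearMap.congr_fun hS z⟩
  let S : B → H →L[ℂ] F := fun h =>
    if hi : Function.Injective (e h) then Classical.choose (hS h hi) else 0
  have hSe : ∀ h, Function.Injective (e h) → ∀ z, S h (e h z) = z := by
    intro h hi z
    simp only [S, dif_pos hi]
    exact Classical.choose_spec (hS h hi) z
  have hcomp : IsBoundedBilinearMap ℝ (fun q : (H →L[ℂ] F) × (F →L[ℂ] H) => q.1.comp q.2) := by
    refine ⟨fun x₁ x₂ y => ?_, fun c x y => ?_, fun x y₁ y₂ => ?_, fun c x y => ?_, 1, one_pos,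
      fun x y => ?_⟩
    · ext v; simp
    · ext v; simp
    · ext v; simp
    · ext v; simp
    · simpa using x.opNorm_comp_le y
  have hcomp2 : IsBoundedBilinearMap ℝ (fun q : (H →L[ℂ] F) × (H →L[ℂ] H) => q.1.comp q.2) := by
    refine ⟨fun x₁ x₂ y => ?_, fun c x y => ?_, fun x y₁ y₂ => ?_, fun c x y => ?_, 1, one_pos,
      fun x y => ?_⟩
    · ext v; simp
    · ext v; simp
    · ext v; simp
    · ext v; simp
    · simpa using x.opNorm_comp_le y
  have hcomp3 : IsBoundedBilinearMap ℝ (fun q : (F →L[ℂ] F) × (H →L[ℂ] F) => q.1.comp q.2) := by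
    refine ⟨fun x₁ x₂ y => ?_, fun c x y => ?_, fun x y₁ y₂ => ?_, fun c x y => ?_, 1, one_pos,
      fun x y => ?_⟩
    · ext v; simp
    · ext v; simp
    · ext v; simp
    · ext v; simp
    · simpa using x.opNorm_comp_le y
  refine ⟨fun h => (S h).comp (P h), fun h₁ hi₁ => ⟨?_, ?_, ?_⟩⟩
  · -- local formula
    let G : B → F →L[ℂ] F := fun h => (S h₁).comp (e h)
    have hG : ContDiff ℝ ∞ G := hcomp.contDiff.comp (contDiff_const.prodMk he)
    have hG1 : G h₁ = ((ContinuousLinearEquiv.refl ℂ F : F ≃L[ℂ] F) : F →L[ℂ] F) := by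
      ext z
      exact hSe h₁ hi₁ z
    have hnb : ∀ᶠ h in 𝓝 h₁, ∃ u : F ≃L[ℂ] F, (u : F →L[ℂ] F) = G h := by
      have h1 := (ContinuousLinearEquiv.refl ℂ F).nhds
      rw [← hG1] at h1
      exact hG.continuous.continuousAt h1
    have hinv : ContDiffAt ℝ ∞ (fun h => ContinuousLinearMap.inverse (G h)) h₁ := by
      have h1 : ContDiffAt ℂ ∞ (ContinuousLinearMap.inverse : (F →L[ℂ] F) → (F →L[ℂ] F)) (G h₁) := by
        rw [hG1]
        exact contDiffAt_map_inverse _
      exact (h1.restrict_scalars ℝ).comp h₁ hG.contDiffAt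
    have hloc : ContDiffAt ℝ ∞
        (fun h => (ContinuousLinearMap.inverse (G h)).comp ((S h₁).comp (P h))) h₁ := by
      refine hcomp3.contDiff.contDiffAt.comp h₁ (hinv.prodMk ?_)
      exact hcomp2.contDiff.contDiffAt.comp h₁ (contDiffAt_const.prodMk hP.contDiffAt)
    refine hloc.congr_of_eventuallyEq ?_
    filter_upwards [hnb] with h ⟨u, hu⟩
    have hi : Function.Injective (e h) := by
      intro z w hzw
      apply u.injective
      have h2 : (u : F →L[ℂ] F) z = (u : F →L[ℂ] F) w := by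
        rw [hu]
        show S h₁ (e h z) = S h₁ (e h w)
        rw [hzw]
      exact h2
    ext v
    obtain ⟨z, hz⟩ := range_eq (hr h) hi (hPe h) v
    show S h (P h v) = ContinuousLinearMap.inverse (G h) (S h₁ (P h v))
    rw [← hz, hSe h hi z, ← hu, ContinuousLinearMap.inverse_equiv]
    have h3 : S h₁ (e h z) = u z := by
      have : (u : F →L[ℂ] F) z = G h z := by rw [hu]
      exact this.symm
    rw [h3]
    simp
  · intro z
    show S h₁ (P h₁ (e h₁ z)) = z
    rw [hPe, hSe h₁ hi₁]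
  · intro v
    obtain ⟨z, hz⟩ := range_eq (hr h₁) hi₁ (hPe h₁) v
    show e h₁ (S h₁ (P h₁ v)) = P h₁ v
    rw [← hz, hSe h₁ hi₁]


end Crest.Agent.R235.Frame_143
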