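import Mathlib
import Crest.Agent.R235.DgInv_778
import Crest.Agent.R235.Frame_143_Mg
import Crest.Agent.R235.Frame_936
import Crest.Agent.R235.FamDefs_307
import Crest.Agent.R235.EqPertC_356

-- ▼ part R235/FdsZ_778
section

/-!
Row 235 (S0364), block FAM-FDS (helper778): the cut-off function of a segment,
`ζ (y) = ∫_0^S η (y - s V) ds`, `∂_V ζ (y) = η (y) - η (y - S V)`.
-/

set_option autoImplicit false

open MeasureTheory Set Filter Topology Module
open scoped ContDiff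

noncomputable section

namespace Crest.Agent.R235.FdsZ_778

theorem exists_seg {Y : Type*} [NormedAddCommGroup Y] [NormedSpace ℝ Y]
    (V : Y) (η : Y → ℝ) (hη : ContDiff ℝ 1 η) (hc : HasCompactSupport η) {S : ℝ} (hS : 0 ≤ S) :
    ∃ ζ : Y → ℝ, ContDiff ℝ 1 ζ ∧ (∀ y, fderiv ℝ ζ y V = η y - η (y - S • V)) ∧
      ∀ y, ζ y ≠ 0 → ∃ s ∈ Icc 0 S, η (y - s • V) ≠ 0 := by
  let ζ : Y → ℝ := fun y => ∫ s in (0 : ℝ)..S, η (y - s • V)
  let D : Y → Y →L[ℝ] ℝ := fun y => ∫ s in (0 : ℝ)..S, fderiv ℝ η (y - s • V)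
  have hdη : Continuous (fderiv ℝ η) := hη.continuous_fderiv one_ne_zero
  have hpc : Continuous fun q : Y × ℝ => q.1 - q.2 • V :=
    continuous_fst.sub (continuous_snd.smul continuous_const)
  obtain ⟨C, hC⟩ : ∃ C, ∀ y, ‖fderiv ℝ η y‖ ≤ C :=
    hdη.bounded_above_of_compact_support (hc.fderiv ℝ)
  have hD : ∀ y, HasFDerivAt ζ (D y) y := by
    intro y
    refine intervalIntegral.hasFDerivAt_integral_of_dominated_of_fderiv_le (μ := volume)
      (F := fun y s => η (y - s • V)) (F' := fun y s => fderiv ℝ η (y - s • V))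
      (bound := fun _ => C) (s := univ) univ_mem ?_ ?_ ?_ ?_ ?_ ?_
    · refine Eventually.of_forall fun y => ?_
      exact ((hη.continuous.comp (hpc.comp (Continuous.prodMk_right y)))).aestronglyMeasurable
    · exact ((hη.continuous.comp (hpc.comp (Continuous.prodMk_right y)))).intervalIntegrable _ _
    · exact ((hdη.comp (hpc.comp (Continuous.prodMk_right y)))).aestronglyMeasurable
    · exact Eventually.of_forall fun s _ y _ => hC _
    · exact intervalIntegrable_const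
    · refine Eventually.of_forall fun s _ y _ => ?_
      have h1 : HasFDerivAt (fun y : Y => y - s • V) (ContinuousLinearMap.id ℝ Y) y :=
        (hasFDerivAt_id y).sub_const _
      have h2 := HasFDerivAt.comp y (g := η)
        (hη.differentiable one_ne_zero (y - s • V)).hasFDerivAt h1
      rw [ContinuousLinearMap.comp_id] at h2
      exact h2
  have hDc : Continuous D :=
    intervalIntegral.continuous_parametric_intervalIntegral_of_continuous'
      (f := fun y s => fderiv ℝ η (y - s • V)) (hdη.comp hpc) 0 S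
  refine ⟨ζ, ?_, ?_, ?_⟩
  · rw [contDiff_one_iff_fderiv]
    refine ⟨fun y => (hD y).differentiableAt, ?_⟩
    have : fderiv ℝ ζ = D := by
      funext y
      exact (hD y).fderiv
    rw [this]
    exact hDc
  · intro y
    rw [(hD y).fderiv]
    have h1 : D y V = ∫ s in (0 : ℝ)..S, fderiv ℝ η (y - s • V) V := by
      show (∫ s in (0 : ℝ)..S, fderiv ℝ η (y - s • V)) V = _
      rw [ContinuousLinearMap.intervalIntegral_apply]
      exact ((hdη.comp (hpc.comp (Continuous.prodMk_right y)))).intervalIntegrable _ _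
    rw [h1]
    have h2 : ∀ s : ℝ, HasDerivAt (fun s : ℝ => -η (y - s • V)) (fderiv ℝ η (y - s • V) V) s := by
      intro s
      have h3 : HasDerivAt (fun s : ℝ => y - s • V) (-V) s := by
        have := ((hasDerivAt_id s).smul_const V).const_sub y
        simpa using this
      have h4 := ((hη.differentiable one_ne_zero (y - s • V)).hasFDerivAt.comp_hasDerivAt s h3).neg
      rw [map_neg, neg_neg] at h4
      exact h4
    rw [intervalIntegral.integral_eq_sub_of_hasDerivAt (fun s _ => h2 s)]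
    · rw [zero_smul, sub_zero]
      ring
    · refine Continuous.intervalIntegrable ?_ _ _
      exact (hdη.comp (hpc.comp (Continuous.prodMk_right y))).clm_apply continuous_const
  · intro y hy
    by_contra hcon
    push Not at hcon
    apply hy
    show ∫ s in (0 : ℝ)..S, η (y - s • V) = 0
    refine intervalIntegral.integral_zero_ae (Eventually.of_forall fun s hs => ?_)
    rw [uIoc_of_le hS] at hs
    exact hcon s ⟨hs.1.le, hs.2⟩

end Crest.Agent.R235.FdsZ_778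
end
end

-- ▼ part R235/FdsT_778
section

/-!
Row 235 (S0364), block FAM-FDS (helper778): the degree identity over the torus with arbitrary test
functions.

`Sys` : the data of a continuous periodic map `G : T × R^b × H → Y` which avoids the ray `{s V}`
outside a compact set of the bundle `E_h = range (P h) = e h (W)`.

`total` : for every smooth `F` which is, outside a neighbourhood `UU` of `θ = 0`, a smooth periodic
approximation of `G`, and every test function `η` of small support: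
`∫ rho χ η(F) Dt(dF) = 0`.
-/

set_option autoImplicit false

open MeasureTheory Set Filter Topology Module
open scoped ContDiff

noncomputable section

namespace Crest.Agent.R235.FdsT_778

open DgStk_778 DgTri_778 DgInv_778 FdJa_778

variable {T H Y W : Type*} [NormedAddCommGroup T] [NormedSpace ℝ T]
  [NormedAddCommGroup H] [NormedSpace ℂ H]
  [NormedAddCommGroup Y] [NormedSpace ℝ Y]
  [NormedAddCommGroup W] [NormedSpace ℂ W] {b m : ℕ}

/-- the projection of the total space to `T × H` -/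
def pj (e : (Fin b → ℝ) → W →L[ℂ] H) (x : (Fin b → ℝ) × T × W) : T × H := (x.2.1, e x.1 x.2.2)

/-- real restriction of the frame -/
def eR (e : (Fin b → ℝ) → W →L[ℂ] H) (θ : Fin b → ℝ) : W →L[ℝ] H :=
  ContinuousLinearMap.restrictScalarsL ℂ W H ℝ ℝ (e θ)

theorem contDiff_eR {e : (Fin b → ℝ) → W →L[ℂ] H} (he : ContDiff ℝ ∞ e) :
    ContDiff ℝ ∞ (eR e) :=
  (ContinuousLinearMap.restrictScalarsL ℂ W H ℝ ℝ).contDiff.comp he

theorem contDiff_pj {e : (Fin b → ℝ) → W →L[ℂ] H} (he : ContDiff ℝ ∞ e) :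
    ContDiff ℝ ∞ (pj (T := T) e) := by
  have h1 : ContDiff ℝ ∞ fun x : (Fin b → ℝ) × T × W => eR e x.1 x.2.2 :=
    ((contDiff_eR he).comp contDiff_fst).clm_apply (contDiff_snd.comp contDiff_snd)
  exact (contDiff_fst.comp contDiff_snd).prodMk h1

/-- derivative of `pj` -/
theorem hasFDerivAt_pj {e : (Fin b → ℝ) → W →L[ℂ] H} (he : ContDiff ℝ ∞ e)
    (x : (Fin b → ℝ) × T × W) : ∃ (C : (Fin b → ℝ) × T × W →L[ℝ] T × H),
      HasFDerivAt (pj (T := T) e) C x ∧
      ∀ κ τ w, C (κ, τ, w) = (τ, fderiv ℝ (eR e) x.1 κ x.2.2 + e x.1 w) := by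
  have h2 : HasFDerivAt (fun x : (Fin b → ℝ) × T × W => eR e x.1)
      ((fderiv ℝ (eR e) x.1).comp (ContinuousLinearMap.fst ℝ _ _)) x :=
    HasFDerivAt.comp x (g := eR e)
      (((contDiff_eR he).differentiable (by simp) x.1).hasFDerivAt) hasFDerivAt_fst
  have h3 : HasFDerivAt (fun x : (Fin b → ℝ) × T × W => x.2.2)
      ((ContinuousLinearMap.snd ℝ T W).comp
        (ContinuousLinearMap.snd ℝ (Fin b → ℝ) (T × W))) x :=
    hasFDerivAt_snd.comp x hasFDerivAt_snd
  have h4 : HasFDerivAt (fun x : (Fin b → ℝ) × T × W => x.2.1)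
      ((ContinuousLinearMap.fst ℝ T W).comp
        (ContinuousLinearMap.snd ℝ (Fin b → ℝ) (T × W))) x :=
    hasFDerivAt_fst.comp x hasFDerivAt_snd
  refine ⟨_, h4.prodMk (h2.clm_apply h3), fun κ τ ww => ?_⟩
  simp only [ContinuousLinearMap.prod_apply, ContinuousLinearMap.comp_apply,
    ContinuousLinearMap.coe_fst', ContinuousLinearMap.coe_snd', _root_.add_apply,
    ContinuousLinearMap.flip_apply]
  refine Prod.ext rfl ?_
  show e x.1 ww + _ = _
  rw [add_comm]

/-- the compact region -/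
def KK (T : Type*) [NormedAddCommGroup T] (e : (Fin b → ℝ) → W →L[ℂ] H) (R : ℝ) :
    Set ((Fin b → ℝ) × T × W) :=
  {x | (∀ j, |x.1 j| ≤ 3 / 4) ∧ ‖pj e x‖ ≤ R + 1}

/-- the region where the map may be modified -/
def UU (T : Type*) [NormedAddCommGroup T] (e : (Fin b → ℝ) → W →L[ℂ] H) (R : ℝ) :
    Set ((Fin b → ℝ) × T × W) :=
  {x | ‖x.1‖ < 1 / 8 ∧ ‖pj e x‖ < R}

theorem cube_norm {θ : Fin b → ℝ} (h : ∀ j, |θ j| ≤ 3 / 4) : ‖θ‖ ≤ 3 / 4 :=
  (pi_norm_le_iff_of_nonneg (by norm_num)).2 h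

theorem isCompact_KK [FiniteDimensional ℝ T] [FiniteDimensional ℂ W]
    {e : (Fin b → ℝ) → W →L[ℂ] H} (he : ContDiff ℝ ∞ e)
    (hi : ∀ θ : Fin b → ℝ, ‖θ‖ ≤ 2 → Function.Injective (e θ)) (R : ℝ) : IsCompact (KK T e R) := by
  have hpT : ProperSpace T := FiniteDimensional.proper ℝ T
  have hpW : ProperSpace W := FiniteDimensional.proper ℂ W
  have hpjc : Continuous (pj (T := T) e) := (contDiff_pj he).continuous
  obtain ⟨c, hc, hlow⟩ := lower_bound (Metric.closedBall (0 : Fin b → ℝ) (3 / 4))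
    (isCompact_closedBall _ _) e he.continuous (fun θ hθ => hi θ (by
      have := mem_closedBall_zero_iff.1 hθ
      linarith))
  have hKc : IsClosed (KK T e R) := by
    have h1 : KK T e R = (⋂ j, {x : (Fin b → ℝ) × T × W | |x.1 j| ≤ 3 / 4}) ∩
        {x | ‖pj e x‖ ≤ R + 1} := by
      ext x; simp [KK]
    rw [h1]
    refine IsClosed.inter ?_ (isClosed_le hpjc.norm continuous_const)
    exact isClosed_iInter fun j =>
      isClosed_le (((continuous_apply j).comp continuous_fst).abs) continuous_const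
  refine IsCompact.of_isClosed_subset
    ((isCompact_closedBall (0 : Fin b → ℝ) (3 / 4)).prod
      ((isCompact_closedBall (0 : T) (R + 1)).prod
        (isCompact_closedBall (0 : W) ((R + 1) / c)))) hKc ?_
  rintro x ⟨h1, h2⟩
  have h3 : x.1 ∈ Metric.closedBall (0 : Fin b → ℝ) (3 / 4) := by simpa using cube_norm h1
  refine ⟨h3, ?_, ?_⟩
  · rw [mem_closedBall_zero_iff]
    exact (norm_fst_le (pj e x)).trans h2
  · rw [mem_closedBall_zero_iff, le_div_iff₀ hc, mul_comm]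
    exact (hlow x.1 h3 x.2.2).trans ((norm_snd_le (pj e x)).trans h2)

/-- the data -/
structure Sys (b m : ℕ) (P : (Fin b → ℝ) → H →L[ℂ] H) (e : (Fin b → ℝ) → W →L[ℂ] H)
    (G : T × (Fin b → ℝ) × H → Y) (V : Y) (R : ℝ) : Prop where
  smP : ContDiff ℝ ∞ P
  perP : ∀ (h : Fin b → ℝ) (k : Fin b → ℤ), P (fun i => h i + k i) = P h
  idem : ∀ h x, P h (P h x) = P h x
  rank : ∀ h, finrank ℂ (LinearMap.range (P h : H →ₗ[ℂ] H)) = m
  smE : ContDiff ℝ ∞ e
  Pe : ∀ h z, P h (e h z) = e h z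
  inj : ∀ θ : Fin b → ℝ, ‖θ‖ ≤ 2 → Function.Injective (e θ)
  fW : finrank ℂ W = m
  dim : finrank ℝ T + b + 2 * m = finrank ℝ Y
  cG : Continuous G
  pG : ∀ t h ψ (k : Fin b → ℤ), G (t, fun i => h i + k i, ψ) = G (t, h, ψ)
  vne : V ≠ 0
  pos : 0 < R
  ray : ∀ t h ψ, P h ψ = ψ → (R ≤ ‖t‖ ∨ R ≤ ‖ψ‖) → ∀ s : ℝ, 0 ≤ s → G (t, h, ψ) ≠ s • V

variable [FiniteDimensional ℝ T] [FiniteDimensional ℂ H]

/-- the cut-off function of the compact region -/
def chi (H : Type*) [NormedAddCommGroup H] [NormedSpace ℂ H] [FiniteDimensional ℂ H]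
    (T : Type*) [NormedAddCommGroup T] [NormedSpace ℝ T] [FiniteDimensional ℝ T]
    {R : ℝ} (hR : 0 < R) (y : T × H) : ℝ :=
  (⟨R, R + 1, hR, by linarith⟩ : ContDiffBump (0 : T × H)) y

theorem contDiff_chi {R : ℝ} (hR : 0 < R) : ContDiff ℝ ∞ (chi H T hR) :=
  ContDiffBump.contDiff _

theorem chi_one {R : ℝ} (hR : 0 < R) {y : T × H} (hy : ‖y‖ ≤ R) : chi H T hR y = 1 :=
  ContDiffBump.one_of_mem_closedBall _ (by simpa using hy)

theorem chi_zero {R : ℝ} (hR : 0 < R) {y : T × H} (hy : R + 1 ≤ ‖y‖) : chi H T hR y = 0 :=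
  ContDiffBump.zero_of_le_dist _ (by rw [dist_zero_right]; exact hy)

variable [FiniteDimensional ℂ W]
  [FiniteDimensional ℝ Y] [MeasurableSpace T] [BorelSpace T] [MeasurableSpace W] [BorelSpace W]

theorem total {P : (Fin b → ℝ) → H →L[ℂ] H} {e : (Fin b → ℝ) → W →L[ℂ] H}
    {G : T × (Fin b → ℝ) × H → Y} {V : Y} {R : ℝ} (hS : Sys b m P e G V R)
    (ν : Measure (T × W)) [ν.IsAddHaarMeasure] {n : ℕ} (hn : finrank ℝ Y = n + 1)
    (bs : Basis (Fin (n + 1)) ℝ ((Fin b → ℝ) × T × W)) (om : Y [⋀^Fin (n + 1)]→L[ℝ] ℝ) :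
    ∃ δ > 0, ∃ ε > 0, ∀ S : (Fin b → ℝ) → T × H → Y,
      ContDiff ℝ ∞ (fun x : (Fin b → ℝ) × (T × H) => S x.1 x.2) →
      (∀ (k : Fin b → ℤ) (h : Fin b → ℝ) (y : T × H), S (h + fun i => (k i : ℝ)) y = S h y) →
      (∀ x ∈ KK T e R, ‖S x.1 (pj e x) - G (x.2.1, x.1, e x.1 x.2.2)‖ < ε) →
      ∀ F : (Fin b → ℝ) × T × W → Y, ContDiff ℝ ∞ F → (∀ x ∉ UU T e R, F x = S x.1 (pj e x)) →
      ∀ η : Y → ℝ, ContDiff ℝ 1 η → (∀ y, δ ≤ ‖y‖ → η y = 0) →
      ∫ x, rho x.1 * chi H T hS.pos (pj e x) * (η (F x) * Dt om bs (fderiv ℝ F x))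
        ∂((volume : Measure (Fin b → ℝ)).prod ν) = 0 := by
  classical
  have hpY : ProperSpace Y := FiniteDimensional.proper ℝ Y
  obtain ⟨D, hD⟩ := Frame_143.exists_inv (P := P) (e := e) hS.smP (fun h => by
    rw [hS.fW]; exact hS.rank h) hS.smE hS.Pe
  have hK := isCompact_KK (T := T) hS.smE hS.inj R
  have hpj : ContDiff ℝ ∞ (pj (T := T) e) := contDiff_pj hS.smE
  have hpjc := hpj.continuous
  have hχ : ContDiff ℝ ∞ fun x : (Fin b → ℝ) × T × W => chi H T hS.pos (pj e x) :=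
    (contDiff_chi hS.pos).comp hpj
  let F₀ : (Fin b → ℝ) × T × W → Y := fun x => G (x.2.1, x.1, e x.1 x.2.2)
  have hF₀ : Continuous F₀ := by
    refine hS.cG.comp ?_
    exact (continuous_fst.comp continuous_snd).prodMk
      (continuous_fst.prodMk (continuous_snd.comp hpjc))
  let K' : Set ((Fin b → ℝ) × T × W) := KK T e R ∩ {x | R ≤ ‖pj e x‖}
  have hK' : IsCompact K' := hK.inter_right (isClosed_le continuous_const hpjc.norm)
  obtain ⟨lam, hlam⟩ := SeparatingDual.exists_eq_one (R := ℝ) hS.vne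
  obtain ⟨δa, hδa, εa, hεa, hfar⟩ := ray_far V lam K' hK' F₀ hF₀ (by
    rintro x ⟨hx1, hx2⟩ s hs
    have h1 : R ≤ max ‖x.2.1‖ ‖e x.1 x.2.2‖ := hx2
    exact hS.ray x.2.1 x.1 (e x.1 x.2.2) (hS.Pe _ _) (le_max_iff.1 h1) s hs)
  set δ : ℝ := δa / (2 + ‖lam‖ + ‖lam‖ * ‖V‖) with hδ
  have hden : 0 < 2 + ‖lam‖ + ‖lam‖ * ‖V‖ := by positivity
  have hδpos : 0 < δ := by positivity
  have hδ1 : δ * (2 + ‖lam‖ + ‖lam‖ * ‖V‖) = δa := by
    rw [hδ]
    field_simp
  refine ⟨δ, hδpos, εa, hεa, ?_⟩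
  intro S hSs hSp hSG F hF hFU η hη hη0
  have hηc : HasCompactSupport η := by
    refine HasCompactSupport.intro (isCompact_closedBall (0 : Y) δ) fun y hy => ?_
    refine hη0 y ?_
    rw [mem_closedBall_zero_iff, not_le] at hy
    exact hy.le
  -- the length of the segment
  obtain ⟨C, hC⟩ := hK.exists_bound_of_continuousOn hF.continuous.continuousOn
  obtain ⟨Sl, hSl, hSl0⟩ : ∃ Sl : ℝ, (∀ x ∈ KK T e R, η (F x - Sl • V) = 0) ∧ 0 ≤ Sl := by
    have hV : 0 < ‖V‖ := norm_pos_iff.2 hS.vne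
    refine ⟨(max C 0 + δ) / ‖V‖, fun x hx => hη0 _ ?_, by positivity⟩
    have h1 : ‖((max C 0 + δ) / ‖V‖) • V‖ = max C 0 + δ := by
      rw [norm_smul, Real.norm_of_nonneg (by positivity)]
      field_simp
    have h2 := norm_sub_norm_le (((max C 0 + δ) / ‖V‖) • V) (F x)
    rw [norm_sub_rev, h1] at h2
    have h3 := hC x hx
    have h4 := le_max_left C 0
    linarith
  obtain ⟨ζ, hζ, hζ1, hζ2⟩ := FdsZ_778.exists_seg V η hη hηc hSl0
  -- the integral vanishes
  have hzero := glue (b := b) (Q := T × W) ν hn bs om V F (contDiff_infty.1 hF 2)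
    (fun x => chi H T hS.pos (pj e x)) (hχ.of_le (by simp)) ζ hζ (KK T e R) hK
    (by
      intro x hx1 hx2
      refine ⟨hx1, ?_⟩
      by_contra h
      push Not at h
      exact hx2 (chi_zero hS.pos h.le))
    (by
      intro x hx1 hx2
      by_cases h1 : ‖pj e x‖ < R
      · have h2 : (fun x : (Fin b → ℝ) × T × W => chi H T hS.pos (pj e x)) =ᶠ[𝓝 x]
            fun _ => 1 := by
          filter_upwards [(isOpen_lt hpjc.norm continuous_const).mem_nhds h1] with y hy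
          exact chi_one hS.pos (le_of_lt hy)
        rw [h2.fderiv_eq]
        simp
      by_cases h3 : R + 1 < ‖pj e x‖
      · have h2 : (fun x : (Fin b → ℝ) × T × W => chi H T hS.pos (pj e x)) =ᶠ[𝓝 x]
            fun _ => 0 := by
          filter_upwards [(isOpen_lt continuous_const hpjc.norm).mem_nhds h3] with y hy
          exact chi_zero hS.pos (le_of_lt hy)
        rw [h2.fderiv_eq]
        simp
      push Not at h1 h3
      exfalso
      have hxK : x ∈ KK T e R := ⟨hx1, h3⟩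
      have hxU : x ∉ UU T e R := fun h => absurd h.2 (not_lt.2 h1)
      rw [hFU x hxU] at hx2
      obtain ⟨s, hs, hs2⟩ := hζ2 _ hx2
      have h4 : ‖S x.1 (pj e x) - s • V‖ < δ := by
        by_contra hcon
        exact hs2 (hη0 _ (not_lt.1 hcon))
      set y : Y := S x.1 (pj e x) with hy
      have h5 : |lam y - s| ≤ ‖lam‖ * δ := by
        have h6 : lam y - s = lam (y - s • V) := by
          rw [map_sub, map_smul, hlam, smul_eq_mul, mul_one]
        rw [h6, ← Real.norm_eq_abs]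
        exact (lam.le_opNorm _).trans (mul_le_mul_of_nonneg_left h4.le (norm_nonneg _))
      have h0 : 0 ≤ ‖lam‖ * ‖V‖ * δ := by positivity
      have h01 : 0 ≤ ‖lam‖ * δ := by positivity
      refine hfar x ⟨hxK, h1⟩ y (hSG x hxK) ⟨?_, ?_⟩
      · have h7 := (abs_le.1 h5).1
        have h8 := hs.1
        nlinarith
      · have h9 : y - lam y • V = (y - s • V) - (lam y - s) • V := by
          rw [sub_smul]
          abel
        rw [h9]
        refine (norm_sub_le _ _).trans_lt ?_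
        rw [norm_smul, Real.norm_eq_abs]
        have h10 : |lam y - s| * ‖V‖ ≤ ‖lam‖ * δ * ‖V‖ :=
          mul_le_mul_of_nonneg_right h5 (norm_nonneg V)
        nlinarith)
    (by
      intro i θ hθ1 hθ2
      have hnθ : ‖θ‖ ≤ 3 / 4 := cube_norm hθ2
      have hsi : ‖(Pi.single i 1 : Fin b → ℝ)‖ ≤ 1 := by
        rw [pi_norm_le_iff_of_nonneg zero_le_one]
        intro j
        by_cases hj : j = i
        · subst hj; simp
        · rw [Pi.single_eq_of_ne hj]; simp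
      let a : (Fin b → ℝ) → W →L[ℂ] W := fun θ' => (D θ').comp (e (θ' - Pi.single i 1))
      have hsi2 : ‖θ - Pi.single i 1‖ ≤ 2 := by
        have := norm_sub_le θ (Pi.single i 1 : Fin b → ℝ)
        linarith
      have hPs : ∀ θ' : Fin b → ℝ, P (θ' - Pi.single i 1) = P θ' := by
        intro θ'
        have h1 := hS.perP θ' (-Pi.single i 1)
        rw [← h1]
        congr 1
        funext j
        by_cases hj : j = i
        · subst hj; simp [sub_eq_add_neg]
        · simp [Pi.single_eq_of_ne hj]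
      have hSs' : ∀ (θ' : Fin b → ℝ) y, S (θ' - Pi.single i 1) y = S θ' y := by
        intro θ' y
        have h1 := hSp (-Pi.single i 1) θ' y
        rw [← h1]
        congr 1
        funext j
        by_cases hj : j = i
        · subst hj; simp [sub_eq_add_neg]
        · simp [Pi.single_eq_of_ne hj]
      have hea : ∀ θ' : Fin b → ℝ, ‖θ'‖ ≤ 2 → ∀ w, e θ' (a θ' w) = e (θ' - Pi.single i 1) w := by
        intro θ' hθ' w
        show e θ' (D θ' (e (θ' - Pi.single i 1) w)) = _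
        rw [(hD θ' (hS.inj θ' hθ')).2.2, ← hPs θ', hS.Pe]
      have hainj : Function.Injective (a θ) := by
        rw [injective_iff_map_eq_zero]
        intro w hw
        have h1 := hea θ (by linarith) w
        rw [hw, map_zero] at h1
        exact (injective_iff_map_eq_zero _).1 (hS.inj _ hsi2) w h1.symm
      have had : DifferentiableAt ℝ a θ := by
        have h1 : DifferentiableAt ℝ D θ :=
          ((hD θ (hS.inj θ (by linarith))).1).differentiableAt (by simp)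
        have h2 : DifferentiableAt ℝ (fun θ' : Fin b → ℝ => e (θ' - Pi.single i 1)) θ :=
          ((hS.smE.differentiable (by simp)) _).comp θ (differentiableAt_id.sub_const _)
        have h3 : DifferentiableAt ℝ (fun q : (H →L[ℂ] W) × (W →L[ℂ] H) => q.1.comp q.2)
            (D θ, e (θ - Pi.single i 1)) := by
          have h4 := (isBoundedBilinearMap_comp (𝕜 := ℂ) (E := W) (F := H)
            (G := W)).differentiableAt (D θ, e (θ - Pi.single i 1))
          exact h4.restrictScalars ℝ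
        exact h3.comp θ (h1.prodMk h2)
      let A : (Fin b → ℝ) → T × W →L[ℝ] T × W := fun θ' =>
        ContinuousLinearMap.prodMapL ℝ T T W W
          (ContinuousLinearMap.id ℝ T, ContinuousLinearMap.restrictScalarsL ℂ W W ℝ ℝ (a θ'))
      refine ⟨A, ?_, ?_, ?_⟩
      · have h1 : DifferentiableAt ℝ (fun θ' =>
            ContinuousLinearMap.restrictScalarsL ℂ W W ℝ ℝ (a θ')) θ :=
          (ContinuousLinearMap.differentiableAt _).comp θ had
        have h2 : DifferentiableAt ℝ (fun θ' =>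
            ((ContinuousLinearMap.id ℝ T,
              ContinuousLinearMap.restrictScalarsL ℂ W W ℝ ℝ (a θ')) :
              (T →L[ℝ] T) × (W →L[ℝ] W))) θ :=
          (differentiableAt_const _).prodMk h1
        exact (ContinuousLinearMap.differentiableAt _).comp θ h2
      · have h1 : (A θ : T × W →ₗ[ℝ] T × W)
            = LinearMap.prodMap (LinearMap.id : T →ₗ[ℝ] T)
              (((a θ : W →ₗ[ℂ] W)).restrictScalars ℝ) := by
          ext x <;> rfl
        rw [h1, LinearMap.det_prodMap, LinearMap.det_id, one_mul]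
        exact det_pos (a θ) hainj
      · have h1 : ∀ᶠ θ' : Fin b → ℝ in 𝓝 θ, ‖θ' - θ‖ < 1 / 16 := by
          have := Metric.ball_mem_nhds θ (show (0 : ℝ) < 1 / 16 by norm_num)
          filter_upwards [this] with θ' hθ'
          rwa [Metric.mem_ball, dist_eq_norm] at hθ'
        filter_upwards [h1] with θ' hθ' y
        have h2 : ‖θ'‖ ≤ 2 := by
          have h3 : ‖θ'‖ ≤ ‖θ' - θ‖ + ‖θ‖ := by
            simpa using norm_add_le (θ' - θ) θ
          linarith
        have h3 : |θ' i - θ i| < 1 / 16 := by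
          have := norm_le_pi_norm (θ' - θ) i
          rw [Pi.sub_apply, Real.norm_eq_abs] at this
          linarith
        rw [abs_lt] at h3
        have h4 := hθ2 i
        rw [abs_le] at h4
        have h5 : ∀ y', ((θ', y') : (Fin b → ℝ) × T × W) ∉ UU T e R := by
          intro y' hy'
          have h6 : ‖θ'‖ < 1 / 8 := hy'.1
          have h7 := norm_le_pi_norm θ' i
          rw [Real.norm_eq_abs] at h7
          have := le_abs_self (θ' i)
          linarith
        have h8 : ∀ y', ((θ' - Pi.single i 1, y') : (Fin b → ℝ) × T × W) ∉ UU T e R := by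
          intro y' hy'
          have h6 : ‖θ' - Pi.single i 1‖ < 1 / 8 := hy'.1
          have h7 := norm_le_pi_norm (θ' - Pi.single i 1) i
          rw [Real.norm_eq_abs, Pi.sub_apply, Pi.single_eq_same] at h7
          have := neg_le_abs (θ' i - 1)
          linarith
        have h9 : pj e (θ' - Pi.single i 1, y) = pj e (θ', A θ' y) := by
          show ((y.1, e (θ' - Pi.single i 1) y.2) : T × H) = (y.1, e θ' (a θ' y.2))
          rw [hea θ' h2]
        constructor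
        · rw [hFU _ (h5 _), hFU _ (h8 _)]
          show S (θ' - Pi.single i 1) (pj e (θ' - Pi.single i 1, y)) = S θ' (pj e (θ', A θ' y))
          rw [hSs', h9]
        · show chi H T hS.pos (pj e (θ' - Pi.single i 1, y))
            = chi H T hS.pos (pj e (θ', A θ' y))
          rw [h9])
  rw [← hzero]
  refine integral_congr_ae (Eventually.of_forall fun x => ?_)
  show rho x.1 * chi H T hS.pos (pj e x) * (η (F x) * Dt om bs (fderiv ℝ F x))
    = rho x.1 * chi H T hS.pos (pj e x) * (fderiv ℝ ζ (F x) V * Dt om bs (fderiv ℝ F x))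
  by_cases hx : rho x.1 * chi H T hS.pos (pj e x) = 0
  · rw [hx, zero_mul, zero_mul]
  · have h1 : x ∈ KK T e R := by
      refine ⟨rho_ne (left_ne_zero_of_mul hx), ?_⟩
      by_contra h
      push Not at h
      exact right_ne_zero_of_mul hx (chi_zero hS.pos h.le)
    rw [hζ1, hSl x h1, sub_zero]

end Crest.Agent.R235.FdsT_778
end
end

-- ▼ part R235/FdsS_778
section

/-!
Row 235 (S0364), block FAM-FDS (helper778): the contribution of a linear zero section.

`G` as in `FdsT_778.Sys`, equal to a real linear map `Λ (t, ψ)` for `‖t‖, ‖ψ‖ ≤ δ₀`.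
`I0 η = ∫ rho η(Λ pj) Dt(d(Λ pj))` is zero for all test functions of small support if `G` has no
other zero (`sec_zero`), and different from zero (`η ≥ 0`, `η 0 > 0`) if `G` has exactly one more
zero, which is nondegenerate (`sec_ne`).
-/

set_option autoImplicit false

open MeasureTheory Set Filter Topology Module
open scoped ContDiff

noncomputable section

namespace Crest.Agent.R235.FdsS_778

open DgStk_778 DgTri_778 DgInv_778 FdJa_778 FdsT_778

variable {T H Y W : Type*} [NormedAddCommGroup T] [NormedSpace ℝ T]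
  [NormedAddCommGroup H] [NormedSpace ℂ H]
  [NormedAddCommGroup Y] [NormedSpace ℝ Y]
  [NormedAddCommGroup W] [NormedSpace ℂ W] {b m : ℕ}

/-- uniform lower bound of a linear map which is injective on the fibres -/
theorem lowerL [FiniteDimensional ℝ T] [FiniteDimensional ℂ H]
    {P : (Fin b → ℝ) → H →L[ℂ] H} (hP : Continuous P) (L : T × H →L[ℝ] Y)
    (hL : ∀ h t ψ, P h ψ = ψ → L (t, ψ) = 0 → t = 0 ∧ ψ = 0) :
    ∃ c > 0, ∀ (θ : Fin b → ℝ) (y : T × H), ‖θ‖ ≤ 3 / 4 → P θ y.2 = y.2 → c * ‖y‖ ≤ ‖L y‖ := by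
  have hpT : ProperSpace T := FiniteDimensional.proper ℝ T
  have hpH : ProperSpace H := FiniteDimensional.proper ℂ H
  let S : Set ((Fin b → ℝ) × (T × H)) :=
    (Metric.closedBall (0 : Fin b → ℝ) (3 / 4) ×ˢ Metric.sphere (0 : T × H) 1) ∩
      {x | P x.1 x.2.2 = x.2.2}
  have hc1 : Continuous fun x : (Fin b → ℝ) × (T × H) => P x.1 x.2.2 :=
    (hP.comp continuous_fst).clm_apply (continuous_snd.comp continuous_snd)
  have hS : IsCompact S :=
    ((isCompact_closedBall _ _).prod (isCompact_sphere _ _)).inter_right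
      (isClosed_eq hc1 (continuous_snd.comp continuous_snd))
  have hc : Continuous fun x : (Fin b → ℝ) × (T × H) => ‖L x.2‖ :=
    (L.continuous.comp continuous_snd).norm
  have hmem : ∀ (θ : Fin b → ℝ) (y : T × H), ‖θ‖ ≤ 3 / 4 → P θ y.2 = y.2 → y ≠ 0 →
      (θ, ‖y‖⁻¹ • y) ∈ S := by
    intro θ y hθ hy hne
    refine ⟨⟨by simpa using hθ, ?_⟩, ?_⟩
    · rw [mem_sphere_zero_iff_norm, norm_smul, norm_inv, norm_norm]
      exact inv_mul_cancel₀ (norm_ne_zero_iff.2 hne)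
    · show P θ (‖y‖⁻¹ • y.2) = ‖y‖⁻¹ • y.2
      rw [(P θ).map_smul_of_tower, hy]
  rcases S.eq_empty_or_nonempty with hS0 | hne
  · refine ⟨1, one_pos, fun θ y hθ hy => ?_⟩
    by_cases hy0 : y = 0
    · simp [hy0]
    · exfalso
      have h1 := hmem θ y hθ hy hy0
      rw [hS0] at h1
      exact notMem_empty _ h1
  · obtain ⟨x₀, hx₀, hmin⟩ := hS.exists_isMinOn hne hc.continuousOn
    have hpos : 0 < ‖L x₀.2‖ := by
      rw [norm_pos_iff]
      intro h0
      obtain ⟨h1, h2⟩ := hL x₀.1 x₀.2.1 x₀.2.2 hx₀.2 h0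
      have h3 := mem_sphere_zero_iff_norm.1 hx₀.1.2
      have h4 : x₀.2 = 0 := Prod.ext h1 h2
      rw [h4, norm_zero] at h3
      exact zero_ne_one h3
    refine ⟨‖L x₀.2‖, hpos, fun θ y hθ hy => ?_⟩
    by_cases hy0 : y = 0
    · simp [hy0]
    have h4 : ‖L x₀.2‖ ≤ ‖L (‖y‖⁻¹ • y)‖ := hmin (hmem θ y hθ hy hy0)
    rw [map_smul, norm_smul, norm_inv, norm_norm] at h4
    have h6 : 0 < ‖y‖ := norm_pos_iff.2 hy0
    calc ‖L x₀.2‖ * ‖y‖ ≤ (‖y‖⁻¹ * ‖L y‖) * ‖y‖ := by gcongr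
      _ = ‖L y‖ := by field_simp

variable [FiniteDimensional ℝ T] [FiniteDimensional ℂ H] [FiniteDimensional ℂ W]
  [FiniteDimensional ℝ Y]

/-- smooth periodic approximation, exact near the zero section -/
theorem approx {P : (Fin b → ℝ) → H →L[ℂ] H} {e : (Fin b → ℝ) → W →L[ℂ] H}
    {G : T × (Fin b → ℝ) × H → Y} {V : Y} {R : ℝ} (hS : Sys b m P e G V R)
    (L : T × H →L[ℝ] Y) {δ₀ : ℝ} (hδ₀ : 0 < δ₀)
    (hlin : ∀ t h ψ, ‖t‖ ≤ δ₀ → ‖ψ‖ ≤ δ₀ → G (t, h, ψ) = L (t, ψ)) {ε : ℝ} (hε : 0 < ε) :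
    ∃ S : (Fin b → ℝ) → T × H → Y,
      ContDiff ℝ ∞ (fun x : (Fin b → ℝ) × (T × H) => S x.1 x.2) ∧
      (∀ (k : Fin b → ℤ) (h : Fin b → ℝ) (y : T × H), S (h + fun i => (k i : ℝ)) y = S h y) ∧
      (∀ x ∈ KK T e R, ‖S x.1 (pj e x) - G (x.2.1, x.1, e x.1 x.2.2)‖ < ε) ∧
      ∀ h y, ‖y‖ ≤ δ₀ / 2 → S h y = L y := by
  have hK := isCompact_KK (T := T) hS.smE hS.inj R
  have hpjc : Continuous (pj (T := T) e) := (contDiff_pj hS.smE).continuous
  obtain ⟨S, hSs, hSp, hSG⟩ := DgSmo_936.exists_smooth_periodic (b := b) (V := T × H)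
    (fun h y => G (y.1, h, y.2))
    (hS.cG.comp ((continuous_fst.comp continuous_snd).prodMk
      (continuous_fst.prodMk (continuous_snd.comp continuous_snd))))
    (fun k h y => hS.pG y.1 h y.2 k) ((fun x => (x.1, pj e x)) '' KK T e R)
    (hK.image (continuous_fst.prodMk hpjc)) hε
  let l : ContDiffBump (0 : T × H) := ⟨δ₀ / 2, δ₀, by positivity, by linarith⟩
  have hl1 : ∀ y : T × H, ‖y‖ ≤ δ₀ / 2 → l y = 1 := fun y hy =>
    l.one_of_mem_closedBall (by simpa using hy)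
  have hl0 : ∀ y : T × H, δ₀ ≤ ‖y‖ → l y = 0 := fun y hy =>
    l.zero_of_le_dist (by rw [dist_zero_right]; exact hy)
  have hls : ContDiff ℝ ∞ fun x : (Fin b → ℝ) × (T × H) => l x.2 :=
    l.contDiff.comp contDiff_snd
  refine ⟨fun h y => (1 - l y) • S h y + l y • L y, ?_, ?_, ?_, ?_⟩
  · exact ((contDiff_const.sub hls).smul hSs).add (hls.smul (L.contDiff.comp contDiff_snd))
  · intro k h y
    show (1 - l y) • S (h + fun i => (k i : ℝ)) y + l y • L y = _
    rw [hSp]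
  · intro x hx
    set y : T × H := pj e x with hy
    have h1 : ‖S x.1 y - G (x.2.1, x.1, e x.1 x.2.2)‖ < ε :=
      hSG (x.1, pj e x) (mem_image_of_mem _ hx)
    have h2 : (1 - l y) • S x.1 y + l y • L y - G (x.2.1, x.1, e x.1 x.2.2)
        = (1 - l y) • (S x.1 y - G (x.2.1, x.1, e x.1 x.2.2)) := by
      by_cases h3 : l y = 0
      · rw [h3]
        simp
      · have h4 : ‖y‖ < δ₀ := by
          by_contra hcon
          exact h3 (hl0 y (not_lt.1 hcon))
        have h5 : G (x.2.1, x.1, e x.1 x.2.2) = L y :=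
          hlin _ _ _ ((norm_fst_le y).trans h4.le) ((norm_snd_le y).trans h4.le)
        rw [h5]
        module
    show ‖(1 - l y) • S x.1 y + l y • L y - G (x.2.1, x.1, e x.1 x.2.2)‖ < ε
    rw [h2, norm_smul]
    have h3 : ‖1 - l y‖ ≤ 1 := by
      rw [Real.norm_eq_abs, abs_le]
      have h4 := l.nonneg (x := y)
      have h5 := l.le_one (x := y)
      constructor <;> linarith
    calc ‖1 - l y‖ * ‖S x.1 y - G (x.2.1, x.1, e x.1 x.2.2)‖
        ≤ 1 * ‖S x.1 y - G (x.2.1, x.1, e x.1 x.2.2)‖ := by gcongr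
      _ < ε := by rw [one_mul]; exact h1
  · intro h y hy
    show (1 - l y) • S h y + l y • L y = L y
    rw [hl1 y hy]
    simp

variable [MeasurableSpace T] [BorelSpace T] [MeasurableSpace W] [BorelSpace W]

/-- the local integral at the zero section -/
def I0 (e : (Fin b → ℝ) → W →L[ℂ] H) (L : T × H →L[ℝ] Y) (ν : Measure (T × W)) {n : ℕ}
    (bs : Basis (Fin (n + 1)) ℝ ((Fin b → ℝ) × T × W)) (om : Y [⋀^Fin (n + 1)]→L[ℝ] ℝ)
    (η : Y → ℝ) : ℝ :=
  ∫ x, rho x.1 * (η (L (pj e x)) * Dt om bs (fderiv ℝ (fun x => L (pj e x)) x))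
    ∂((volume : Measure (Fin b → ℝ)).prod ν)

/-- the bump separating the zero section -/
def c1 (T : Type*) [NormedAddCommGroup T] [NormedSpace ℝ T] [FiniteDimensional ℝ T]
    (H : Type*) [NormedAddCommGroup H] [NormedSpace ℂ H] [FiniteDimensional ℂ H]
    {δ₀ : ℝ} (hδ₀ : 0 < δ₀) (y : T × H) : ℝ :=
  (⟨δ₀ / 4, δ₀ / 2, by positivity, by linarith⟩ : ContDiffBump (0 : T × H)) y

omit [MeasurableSpace T] [BorelSpace T] [MeasurableSpace W] [BorelSpace W]
  [FiniteDimensional ℂ W] [FiniteDimensional ℝ Y] in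
theorem contDiff_c1 {δ₀ : ℝ} (hδ₀ : 0 < δ₀) : ContDiff ℝ ∞ (c1 T H hδ₀) :=
  ContDiffBump.contDiff _

omit [MeasurableSpace T] [BorelSpace T] [MeasurableSpace W] [BorelSpace W]
  [FiniteDimensional ℂ W] [FiniteDimensional ℝ Y] in
theorem c1_one {δ₀ : ℝ} (hδ₀ : 0 < δ₀) {y : T × H} (hy : ‖y‖ ≤ δ₀ / 4) : c1 T H hδ₀ y = 1 :=
  ContDiffBump.one_of_mem_closedBall _ (by simpa using hy)

omit [MeasurableSpace T] [BorelSpace T] [MeasurableSpace W] [BorelSpace W]
  [FiniteDimensional ℂ W] [FiniteDimensional ℝ Y] in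
theorem c1_zero {δ₀ : ℝ} (hδ₀ : 0 < δ₀) {y : T × H} (hy : δ₀ / 2 ≤ ‖y‖) : c1 T H hδ₀ y = 0 :=
  ContDiffBump.zero_of_le_dist _ (by rw [dist_zero_right]; exact hy)

/-- splitting off the zero section -/
theorem split {P : (Fin b → ℝ) → H →L[ℂ] H} {e : (Fin b → ℝ) → W →L[ℂ] H}
    {G : T × (Fin b → ℝ) × H → Y} {V : Y} {R : ℝ} (hS : Sys b m P e G V R)
    (L : T × H →L[ℝ] Y) {δ₀ : ℝ} (hδ₀ : 0 < δ₀) (hδR : δ₀ < R)
    (hL : ∀ h t ψ, P h ψ = ψ → L (t, ψ) = 0 → t = 0 ∧ ψ = 0)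
    (ν : Measure (T × W)) [ν.IsAddHaarMeasure] {n : ℕ} (hn : finrank ℝ Y = n + 1)
    (bs : Basis (Fin (n + 1)) ℝ ((Fin b → ℝ) × T × W)) (om : Y [⋀^Fin (n + 1)]→L[ℝ] ℝ) :
    ∃ δ > 0, ∃ ε > 0, ∀ S : (Fin b → ℝ) → T × H → Y,
      ContDiff ℝ ∞ (fun x : (Fin b → ℝ) × (T × H) => S x.1 x.2) →
      (∀ (k : Fin b → ℤ) (h : Fin b → ℝ) (y : T × H), S (h + fun i => (k i : ℝ)) y = S h y) →
      (∀ x ∈ KK T e R, ‖S x.1 (pj e x) - G (x.2.1, x.1, e x.1 x.2.2)‖ < ε) →
      (∀ h y, ‖y‖ ≤ δ₀ / 2 → S h y = L y) →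
      ∀ F : (Fin b → ℝ) × T × W → Y, ContDiff ℝ ∞ F →
      (∀ x ∉ UU T e R ∩ {x | δ₀ / 2 < ‖pj e x‖}, F x = S x.1 (pj e x)) →
      ∀ η : Y → ℝ, ContDiff ℝ 1 η → (∀ y, δ ≤ ‖y‖ → η y = 0) →
      (∫ x, (rho x.1 * chi H T hS.pos (pj e x) * (1 - c1 T H hδ₀ (pj e x))) *
        (η (F x) * Dt om bs (fderiv ℝ F x)) ∂((volume : Measure (Fin b → ℝ)).prod ν))
        + I0 e L ν bs om η = 0 := by
  obtain ⟨δ₁, hδ₁, ε, hε, htot⟩ := total hS ν hn bs om
  obtain ⟨c, hc, hlow⟩ := lowerL (b := b) hS.smP.continuous L hL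
  refine ⟨min δ₁ (c * (δ₀ / 4)), lt_min hδ₁ (by positivity), ε, hε, ?_⟩
  intro S hSs hSp hSG hSL F hF hFU η hη hη0
  have hK := isCompact_KK (T := T) hS.smE hS.inj R
  have hpj : ContDiff ℝ ∞ (pj (T := T) e) := contDiff_pj hS.smE
  have hpjc := hpj.continuous
  have htot1 := htot S hSs hSp hSG F hF (fun x hx => hFU x fun h => hx h.1) η hη
    (fun y hy => hη0 y ((min_le_left _ _).trans hy))
  have hdF : Continuous (fderiv ℝ F) := hF.continuous_fderiv (by simp)
  have hrc : Continuous fun x : (Fin b → ℝ) × T × W => rho x.1 :=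
    (contDiff_rho (b := b)).continuous.comp continuous_fst
  have hχc : Continuous fun x : (Fin b → ℝ) × T × W => chi H T hS.pos (pj e x) :=
    (contDiff_chi hS.pos).continuous.comp hpjc
  have hc1c : Continuous fun x : (Fin b → ℝ) × T × W => c1 T H hδ₀ (pj e x) :=
    (contDiff_c1 hδ₀).continuous.comp hpjc
  have hLpj : ContDiff ℝ ∞ fun x : (Fin b → ℝ) × T × W => L (pj e x) := L.contDiff.comp hpj
  have hdL : Continuous (fderiv ℝ fun x : (Fin b → ℝ) × T × W => L (pj e x)) :=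
    hLpj.continuous_fderiv (by simp)
  -- the two integrands
  let f1 : (Fin b → ℝ) × T × W → ℝ := fun x =>
    (rho x.1 * chi H T hS.pos (pj e x) * (1 - c1 T H hδ₀ (pj e x))) *
      (η (F x) * Dt om bs (fderiv ℝ F x))
  let f2 : (Fin b → ℝ) × T × W → ℝ := fun x =>
    rho x.1 * c1 T H hδ₀ (pj e x) *
      (η (L (pj e x)) * Dt om bs (fderiv ℝ (fun x => L (pj e x)) x))
  have hmemK : ∀ x : (Fin b → ℝ) × T × W, rho x.1 ≠ 0 → ‖pj e x‖ ≤ R + 1 → x ∈ KK T e R :=
    fun x h1 h2 => ⟨rho_ne h1, h2⟩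
  have hi1 : Integrable f1 ((volume : Measure (Fin b → ℝ)).prod ν) := by
    refine Continuous.integrable_of_hasCompactSupport ?_ ?_
    · exact ((hrc.mul hχc).mul (continuous_const.sub hc1c)).mul
        ((hη.continuous.comp hF.continuous).mul (continuous_dt om bs hdF))
    · refine HasCompactSupport.intro hK fun x hx => ?_
      by_contra h
      have h1 := left_ne_zero_of_mul (left_ne_zero_of_mul h)
      refine hx (hmemK x (left_ne_zero_of_mul h1) ?_)
      by_contra h2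
      push Not at h2
      exact right_ne_zero_of_mul h1 (chi_zero hS.pos h2.le)
  have hi2 : Integrable f2 ((volume : Measure (Fin b → ℝ)).prod ν) := by
    refine Continuous.integrable_of_hasCompactSupport ?_ ?_
    · exact (hrc.mul hc1c).mul
        ((hη.continuous.comp hLpj.continuous).mul (continuous_dt om bs hdL))
    · refine HasCompactSupport.intro hK fun x hx => ?_
      by_contra h
      have h1 := left_ne_zero_of_mul h
      refine hx (hmemK x (left_ne_zero_of_mul h1) ?_)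
      by_contra h2
      push Not at h2
      exact right_ne_zero_of_mul h1 (c1_zero hδ₀ (by linarith))
  have hsum : ∀ x, rho x.1 * chi H T hS.pos (pj e x) * (η (F x) * Dt om bs (fderiv ℝ F x))
      = f1 x + f2 x := by
    intro x
    by_cases h0 : c1 T H hδ₀ (pj e x) = 0
    · simp only [f1, f2, h0]
      ring
    · have h1 : ‖pj e x‖ < δ₀ / 2 := by
        by_contra h
        exact h0 (c1_zero hδ₀ (not_lt.1 h))
      have h2 : F =ᶠ[𝓝 x] fun x => L (pj e x) := by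
        filter_upwards [(isOpen_lt hpjc.norm continuous_const).mem_nhds h1] with y hy
        have hy' : ‖pj e y‖ < δ₀ / 2 := hy
        rw [hFU y (fun h => absurd h.2 (not_lt.2 hy'.le)), hSL _ _ hy'.le]
      have h3 : F x = L (pj e x) := h2.self_of_nhds
      simp only [f1, f2]
      rw [← h2.fderiv_eq, ← h3, chi_one hS.pos (by linarith)]
      ring
  have hI : ∫ x, f2 x ∂((volume : Measure (Fin b → ℝ)).prod ν) = I0 e L ν bs om η := by
    refine integral_congr_ae (Eventually.of_forall fun x => ?_)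
    show rho x.1 * c1 T H hδ₀ (pj e x) *
        (η (L (pj e x)) * Dt om bs (fderiv ℝ (fun x => L (pj e x)) x))
      = rho x.1 * (η (L (pj e x)) * Dt om bs (fderiv ℝ (fun x => L (pj e x)) x))
    by_cases h0 : rho x.1 = 0
    · rw [h0]
      ring
    by_cases h1 : η (L (pj e x)) = 0
    · rw [h1]
      ring
    have h2 : ‖L (pj e x)‖ < c * (δ₀ / 4) := by
      by_contra h
      exact h1 (hη0 _ ((min_le_right _ _).trans (not_lt.1 h)))
    have h3 := hlow x.1 (pj e x) (cube_norm (rho_ne h0)) (hS.Pe _ _)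
    have h4 : ‖pj e x‖ < δ₀ / 4 := by
      by_contra h
      push Not at h
      have : c * (δ₀ / 4) ≤ c * ‖pj e x‖ := by gcongr
      linarith
    rw [c1_one hδ₀ h4.le]
    ring
  simp only [hsum] at htot1
  rw [integral_add hi1 hi2, hI] at htot1
  exact htot1

/-- **no other zero** -/
theorem sec_zero {P : (Fin b → ℝ) → H →L[ℂ] H} {e : (Fin b → ℝ) → W →L[ℂ] H}
    {G : T × (Fin b → ℝ) × H → Y} {V : Y} {R : ℝ} (hS : Sys b m P e G V R)
    (L : T × H →L[ℝ] Y) {δ₀ : ℝ} (hδ₀ : 0 < δ₀) (hδR : δ₀ < R)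
    (hL : ∀ h t ψ, P h ψ = ψ → L (t, ψ) = 0 → t = 0 ∧ ψ = 0)
    (hlin : ∀ t h ψ, ‖t‖ ≤ δ₀ → ‖ψ‖ ≤ δ₀ → G (t, h, ψ) = L (t, ψ))
    (hz : ∀ t h ψ, P h ψ = ψ → G (t, h, ψ) = 0 → t = 0 ∧ ψ = 0)
    (ν : Measure (T × W)) [ν.IsAddHaarMeasure] {n : ℕ} (hn : finrank ℝ Y = n + 1)
    (bs : Basis (Fin (n + 1)) ℝ ((Fin b → ℝ) × T × W)) (om : Y [⋀^Fin (n + 1)]→L[ℝ] ℝ) :
    ∃ δ > 0, ∀ η : Y → ℝ, ContDiff ℝ 1 η → (∀ y, δ ≤ ‖y‖ → η y = 0) →
      I0 e L ν bs om η = 0 := by
  obtain ⟨δ, hδ, ε, hε, hsp⟩ := split hS L hδ₀ hδR hL ν hn bs om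
  have hK := isCompact_KK (T := T) hS.smE hS.inj R
  have hpjc : Continuous (pj (T := T) e) := (contDiff_pj hS.smE).continuous
  let K1 : Set ((Fin b → ℝ) × T × W) := KK T e R ∩ {x | δ₀ / 4 ≤ ‖pj e x‖}
  have hK1 : IsCompact K1 := hK.inter_right (isClosed_le continuous_const hpjc.norm)
  let F₀ : (Fin b → ℝ) × T × W → Y := fun x => G (x.2.1, x.1, e x.1 x.2.2)
  have hF₀ : Continuous F₀ := by
    refine hS.cG.comp ?_
    exact (continuous_fst.comp continuous_snd).prodMk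
      (continuous_fst.prodMk (continuous_snd.comp hpjc))
  obtain ⟨d, hd, hdl⟩ : ∃ d > 0, ∀ x ∈ K1, 2 * d ≤ ‖F₀ x‖ := by
    rcases K1.eq_empty_or_nonempty with h0 | hne
    · refine ⟨1, one_pos, fun x hx => ?_⟩
      rw [h0] at hx
      exact absurd hx (notMem_empty x)
    · obtain ⟨x₀, hx₀, hmin⟩ := hK1.exists_isMinOn hne hF₀.norm.continuousOn
      have hpos : 0 < ‖F₀ x₀‖ := by
        rw [norm_pos_iff]
        intro h0
        obtain ⟨h1, h2⟩ := hz _ _ _ (hS.Pe _ _) h0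
        have h3 : δ₀ / 4 ≤ ‖pj e x₀‖ := hx₀.2
        have h4 : pj e x₀ = 0 := Prod.ext h1 h2
        rw [h4, norm_zero] at h3
        linarith
      refine ⟨‖F₀ x₀‖ / 2, by positivity, fun x hx => ?_⟩
      have : ‖F₀ x₀‖ ≤ ‖F₀ x‖ := hmin hx
      linarith
  obtain ⟨S, hSs, hSp, hSG, hSL⟩ := approx hS L hδ₀ hlin (lt_min hε hd)
  refine ⟨min δ d, lt_min hδ hd, fun η hη hη0 => ?_⟩
  have hFs : ContDiff ℝ ∞ fun x : (Fin b → ℝ) × T × W => S x.1 (pj e x) :=
    hSs.comp (contDiff_fst.prodMk (contDiff_pj hS.smE))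
  have h1 := hsp S hSs hSp (fun x hx => (hSG x hx).trans_le (min_le_left _ _)) hSL
    (fun x => S x.1 (pj e x)) hFs (fun x _ => rfl) η hη
    (fun y hy => hη0 y ((min_le_left _ _).trans hy))
  have h2 : ∀ x : (Fin b → ℝ) × T × W,
      (rho x.1 * chi H T hS.pos (pj e x) * (1 - c1 T H hδ₀ (pj e x))) *
        (η (S x.1 (pj e x)) * Dt om bs (fderiv ℝ (fun x => S x.1 (pj e x)) x)) = 0 := by
    intro x
    by_contra h
    have h3 := left_ne_zero_of_mul h
    have h4 := left_ne_zero_of_mul h3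
    have h5 : x ∈ KK T e R := by
      refine ⟨rho_ne (left_ne_zero_of_mul h4), ?_⟩
      by_contra h6
      push Not at h6
      exact right_ne_zero_of_mul h4 (chi_zero hS.pos h6.le)
    have h6 : δ₀ / 4 ≤ ‖pj e x‖ := by
      by_contra h7
      push Not at h7
      exact right_ne_zero_of_mul h3 (by rw [c1_one hδ₀ h7.le, sub_self])
    have h7 := hdl x ⟨h5, h6⟩
    have h8 : ‖S x.1 (pj e x) - F₀ x‖ < d := (hSG x h5).trans_le (min_le_right _ _)
    have h9 : d ≤ ‖S x.1 (pj e x)‖ := by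
      have h10 : ‖F₀ x‖ ≤ ‖S x.1 (pj e x)‖ + ‖S x.1 (pj e x) - F₀ x‖ := by
        have := norm_sub_le (S x.1 (pj e x)) (S x.1 (pj e x) - F₀ x)
        rwa [sub_sub_cancel] at this
      linarith
    exact left_ne_zero_of_mul (right_ne_zero_of_mul h)
      (hη0 _ ((min_le_right _ _).trans h9))
  simp only [h2, integral_zero, zero_add] at h1
  exact h1

/-- **one more, nondegenerate zero** -/
theorem sec_ne {P : (Fin b → ℝ) → H →L[ℂ] H} {e : (Fin b → ℝ) → W →L[ℂ] H}
    {G : T × (Fin b → ℝ) × H → Y} {V : Y} {R : ℝ} (hS : Sys b m P e G V R)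
    (L : T × H →L[ℝ] Y) {δ₀ : ℝ} (hδ₀ : 0 < δ₀) (hδR : δ₀ < R)
    (hL : ∀ h t ψ, P h ψ = ψ → L (t, ψ) = 0 → t = 0 ∧ ψ = 0)
    (hlin : ∀ t h ψ, ‖t‖ ≤ δ₀ → ‖ψ‖ ≤ δ₀ → G (t, h, ψ) = L (t, ψ))
    (t₀ : T) (ψ₀ : H) (hbig : δ₀ < ‖((t₀, ψ₀) : T × H)‖) (ht : ‖t₀‖ < R) (hψ : ‖ψ₀‖ < R)
    (hPψ : P 0 ψ₀ = ψ₀) (hG0 : G (t₀, 0, ψ₀) = 0)
    (hz : ∀ t h ψ, P h ψ = ψ → (∀ j, |h j| ≤ 3 / 4) → G (t, h, ψ) = 0 →
      (t = 0 ∧ ψ = 0) ∨ (t = t₀ ∧ h = 0 ∧ ψ = ψ₀))
    (L' : T × (Fin b → ℝ) × H →L[ℝ] Y)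
    (hL' : HasFDerivAt (fun x : T × (Fin b → ℝ) × H => G (x.1, x.2.1, P x.2.1 x.2.2)) L'
      (t₀, 0, ψ₀))
    (hLi : ∀ τ κ ξ, P 0 ξ = ξ → L' (τ, κ, ξ) = 0 → τ = 0 ∧ κ = 0 ∧ ξ = 0)
    (ν : Measure (T × W)) [ν.IsAddHaarMeasure] {n : ℕ} (hn : finrank ℝ Y = n + 1)
    (bs : Basis (Fin (n + 1)) ℝ ((Fin b → ℝ) × T × W)) (om : Y [⋀^Fin (n + 1)]→L[ℝ] ℝ)
    (hom : om ≠ 0) :
    ∃ δ > 0, ∀ η : Y → ℝ, ContDiff ℝ 1 η → (∀ y, 0 ≤ η y) → 0 < η 0 →
      (∀ y, δ ≤ ‖y‖ → η y = 0) → I0 e L ν bs om η ≠ 0 := by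
  classical
  obtain ⟨δ, hδ, ε, hε, hsp⟩ := split hS L hδ₀ hδR hL ν hn bs om
  have hK := isCompact_KK (T := T) hS.smE hS.inj R
  have hpj : ContDiff ℝ ∞ (pj (T := T) e) := contDiff_pj hS.smE
  have hpjc := hpj.continuous
  obtain ⟨D, hD⟩ := Frame_143.exists_inv (P := P) (e := e) hS.smP (fun h => by
    rw [hS.fW]; exact hS.rank h) hS.smE hS.Pe
  set w₀ : W := D 0 ψ₀ with hw₀
  have hew₀ : e 0 w₀ = ψ₀ := by
    rw [hw₀, (hD 0 (hS.inj 0 (by simp))).2.2 ψ₀, hPψ]
  let p : (Fin b → ℝ) × T × W := (0, t₀, w₀)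
  have hpp : pj e p = (t₀, ψ₀) := by
    show ((t₀, e 0 w₀) : T × H) = _
    rw [hew₀]
  let K1 : Set ((Fin b → ℝ) × T × W) := KK T e R ∩ {x | δ₀ / 4 ≤ ‖pj e x‖}
  have hK1 : IsCompact K1 := hK.inter_right (isClosed_le continuous_const hpjc.norm)
  let F₀ : (Fin b → ℝ) × T × W → Y := fun x => G (x.2.1, x.1, e x.1 x.2.2)
  have hF₀ : Continuous F₀ := by
    refine hS.cG.comp ?_
    exact (continuous_fst.comp continuous_snd).prodMk
      (continuous_fst.prodMk (continuous_snd.comp hpjc))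
  let U1 : Set ((Fin b → ℝ) × T × W) := UU T e R ∩ {x | δ₀ / 2 < ‖pj e x‖}
  have hU1 : U1 ∈ 𝓝 p := by
    have h1 : IsOpen U1 := ((isOpen_lt continuous_fst.norm continuous_const).inter
      (isOpen_lt hpjc.norm continuous_const)).inter (isOpen_lt continuous_const hpjc.norm)
    refine h1.mem_nhds ⟨⟨?_, ?_⟩, ?_⟩
    · show ‖(0 : Fin b → ℝ)‖ < 1 / 8
      rw [norm_zero]
      norm_num
    · show ‖pj e p‖ < R
      rw [hpp, Prod.norm_def]
      exact max_lt ht hψ
    · show δ₀ / 2 < ‖pj e p‖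
      rw [hpp]
      linarith
  -- the derivative at `p`
  obtain ⟨C, hC, hCf⟩ := hasFDerivAt_pj (T := T) hS.smE p
  let C3 : (Fin b → ℝ) × T × W →L[ℝ] T × (Fin b → ℝ) × H :=
    ((ContinuousLinearMap.fst ℝ T H).comp C).prod
      ((ContinuousLinearMap.fst ℝ _ _).prod ((ContinuousLinearMap.snd ℝ T H).comp C))
  have hC3 : HasFDerivAt (fun x : (Fin b → ℝ) × T × W =>
      (((pj e x).1, x.1, (pj e x).2) : T × (Fin b → ℝ) × H)) C3 p :=
    (hC.fst).prodMk (hasFDerivAt_fst.prodMk hC.snd)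
  have hL0 : HasFDerivAt F₀ (L'.comp C3) p := by
    have h1 : F₀ = (fun x : T × (Fin b → ℝ) × H => G (x.1, x.2.1, P x.2.1 x.2.2)) ∘
        (fun x : (Fin b → ℝ) × T × W =>
          (((pj e x).1, x.1, (pj e x).2) : T × (Fin b → ℝ) × H)) := by
      funext x
      show G (x.2.1, x.1, e x.1 x.2.2) = G (x.2.1, x.1, P x.1 (e x.1 x.2.2))
      rw [hS.Pe]
    rw [h1]
    refine HasFDerivAt.comp p ?_ hC3
    rw [hpp]
    exact hL'
  have hLP : ∀ ξ, L' (0, 0, ξ - P 0 ξ) = 0 := by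
    intro ξ
    let ln : ℝ → T × (Fin b → ℝ) × H := fun s => (t₀, 0, ψ₀) + s • (0, 0, ξ - P 0 ξ)
    have h1 : HasDerivAt ln (0, 0, ξ - P 0 ξ) 0 := by
      have h2 := ((hasDerivAt_id (0 : ℝ)).smul_const
        ((0, 0, ξ - P 0 ξ) : T × (Fin b → ℝ) × H)).const_add (t₀, 0, ψ₀)
      rw [one_smul] at h2
      exact h2
    have h3 : HasDerivAt (fun s => G ((ln s).1, (ln s).2.1, P (ln s).2.1 (ln s).2.2))
        (L' (0, 0, ξ - P 0 ξ)) 0 := by
      have h4 : ln 0 = (t₀, 0, ψ₀) := by simp [ln]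
      have h5 := hL'
      rw [← h4] at h5
      exact h5.comp_hasDerivAt 0 h1
    have h6 : (fun s => G ((ln s).1, (ln s).2.1, P (ln s).2.1 (ln s).2.2))
        = fun _ => G (t₀, 0, ψ₀) := by
      funext s
      have h7 : ln s = (t₀, 0, ψ₀ + s • (ξ - P 0 ξ)) := by simp [ln]
      rw [h7]
      show G (t₀, 0, P 0 (ψ₀ + s • (ξ - P 0 ξ))) = _
      congr 3
      rw [map_add, hPψ, (P 0).map_smul_of_tower, map_sub, hS.idem, sub_self, smul_zero, add_zero]
    rw [h6] at h3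
    exact h3.unique (hasDerivAt_const _ _)
  have hinjL : Function.Injective (L'.comp C3) := by
    rw [injective_iff_map_eq_zero]
    rintro ⟨κ, τ, ww⟩ h0
    have h1 : L' (τ, κ, fderiv ℝ (eR e) p.1 κ p.2.2 + e p.1 ww) = 0 := by
      have h2 : C3 (κ, τ, ww) = (τ, κ, fderiv ℝ (eR e) p.1 κ p.2.2 + e p.1 ww) := by
        show ((C (κ, τ, ww)).1, κ, (C (κ, τ, ww)).2) = _
        rw [hCf]
      rw [← h2]
      exact h0
    set ξ : H := fderiv ℝ (eR e) p.1 κ p.2.2 + e p.1 ww with hξ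
    have h2 : L' (τ, κ, P 0 ξ) = 0 := by
      have h3 : ((τ, κ, ξ) : T × (Fin b → ℝ) × H) = (τ, κ, P 0 ξ) + (0, 0, ξ - P 0 ξ) := by
        simp
      rw [h3, map_add, hLP, add_zero] at h1
      exact h1
    obtain ⟨h4, h5, h6⟩ := hLi τ κ (P 0 ξ) (hS.idem 0 ξ) h2
    have h7 : ξ = e 0 ww := by
      rw [hξ, h5, map_zero]
      show (0 : W →L[ℝ] H) w₀ + e 0 ww = e 0 ww
      rw [_root_.zero_apply, zero_add]
    rw [h7, hS.Pe] at h6
    have h8 : ww = 0 := (injective_iff_map_eq_zero (e 0)).1 (hS.inj 0 (by simp)) ww h6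
    rw [h4, h5, h8]
    rfl
  have hne : ∀ x ∈ K1, F₀ x = 0 → x = p := by
    rintro x ⟨⟨hx1, hx2⟩, hx3⟩ hx
    rcases hz x.2.1 x.1 (e x.1 x.2.2) (hS.Pe _ _) hx1 hx with ⟨h1, h2⟩ | ⟨h1, h2, h3⟩
    · exfalso
      have h4 : δ₀ / 4 ≤ ‖pj e x‖ := hx3
      have h5 : pj e x = 0 := Prod.ext h1 h2
      rw [h5, norm_zero] at h4
      linarith
    · have h4 : x.2.2 = w₀ := by
        refine hS.inj 0 (by simp) ?_
        rw [hew₀, ← h3, h2]
      exact Prod.ext h2 (Prod.ext h1 h4)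
  have hμ : ((volume : Measure (Fin b → ℝ)).prod ν).IsAddHaarMeasure := by
    have hpT : ProperSpace T := FiniteDimensional.proper ℝ T
    have hpW : ProperSpace W := FiniteDimensional.proper ℂ W
    have h1 : SFinite ν := inferInstance
    have h2 : SFinite (volume : Measure (Fin b → ℝ)) := inferInstance
    have h4 : MeasurableAdd (T × W) := inferInstance
    have h5 : MeasurableAdd (Fin b → ℝ) := inferInstance
    have h6 : (volume : Measure (Fin b → ℝ)).IsAddHaarMeasure := inferInstance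
    exact Measure.prod.instIsAddHaarMeasure _ _
  obtain ⟨δ₁, hδ₁, hloc⟩ := DgLoc_143.local_ne
    ((volume : Measure (Fin b → ℝ)).prod ν) F₀ hF₀ p (L'.comp C3) hL0 (by
    show G (t₀, 0, e 0 w₀) = 0
    rw [hew₀]
    exact hG0) hinjL K1 hK1 U1 hU1 hne
  obtain ⟨S, hSs, hSp, hSG, hSL⟩ := approx hS L hδ₀ hlin (lt_min hε hδ₁)
  have hFs : ContDiff ℝ ∞ fun x : (Fin b → ℝ) × T × W => S x.1 (pj e x) :=
    hSs.comp (contDiff_fst.prodMk hpj)
  obtain ⟨F, hF, hFU, hint⟩ := hloc (fun x => S x.1 (pj e x)) hFs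
    (fun x hx => (hSG x hx.1).trans_le (min_le_right _ _))
  refine ⟨min δ δ₁, lt_min hδ hδ₁, fun η hη hηn hη1 hη0 => ?_⟩
  have h1 := hsp S hSs hSp (fun x hx => (hSG x hx).trans_le (min_le_left _ _)) hSL
    F hF hFU η hη (fun y hy => hη0 y ((min_le_left _ _).trans hy))
  have h2 := hint (Dt om bs) (dt_ne bs om hom hn _ hinjL) η hη.continuous hηn hη1
    (fun y hy => hη0 y ((min_le_right _ _).trans hy))
    (fun x => rho x.1 * chi H T hS.pos (pj e x) * (1 - c1 T H hδ₀ (pj e x)))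
    (((((contDiff_rho (b := b)).continuous.comp continuous_fst)).mul
      ((contDiff_chi hS.pos).continuous.comp hpjc)).mul
        (continuous_const.sub ((contDiff_c1 hδ₀).continuous.comp hpjc)))
    (by
      rintro x ⟨⟨hx1, hx2⟩, hx3⟩
      have h3 : rho x.1 = 1 := rho_one fun j => by
        have := norm_le_pi_norm x.1 j
        rw [Real.norm_eq_abs] at this
        linarith
      have h4 : δ₀ / 2 < ‖pj e x‖ := hx3
      show rho x.1 * chi H T hS.pos (pj e x) * (1 - c1 T H hδ₀ (pj e x)) = 1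
      rw [h3, chi_one hS.pos hx2.le, c1_zero hδ₀ h4.le]
      ring)
    (by
      intro x hx
      by_contra h
      have h3 := left_ne_zero_of_mul h
      refine hx ⟨⟨rho_ne (left_ne_zero_of_mul h3), ?_⟩, ?_⟩
      · by_contra h4
        push Not at h4
        exact right_ne_zero_of_mul h3 (chi_zero hS.pos h4.le)
      · by_contra h4
        have h5 : ‖pj e x‖ < δ₀ / 4 := not_le.1 h4
        exact right_ne_zero_of_mul h (by rw [c1_one hδ₀ h5.le, sub_self]))
  intro h3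
  rw [h3, add_zero] at h1
  exact h2 h1

end Crest.Agent.R235.FdsS_778
end
end

-- ▼ part R235/FdsC_778
section

/-!
Row 235 (S0364), block FAM-FDS (helper778): the local integral at a linear zero section
`(t, ψ) ↦ (L t, A₀ ψ)` as an iterated integral of `u (‖A e z‖²) det (e' ∘ tot B B_j z)`.
-/

set_option autoImplicit false
set_option maxSynthPendingDepth 3

open MeasureTheory Set Filter Topology Module Function
open scoped ContDiff

noncomputable section

namespace Crest.Agent.R235.FdsC_778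

open DgStk_778 DgTri_778 DgInv_778 FdJa_778 FdsT_778 FdsS_778 FamDefs_307

variable {T H YR YC Z YE : Type} [NormedAddCommGroup T] [NormedSpace ℝ T] [FiniteDimensional ℝ T]
  [NormedAddCommGroup H] [InnerProductSpace ℂ H] [FiniteDimensional ℂ H]
  [NormedAddCommGroup YR] [NormedSpace ℝ YR] [FiniteDimensional ℝ YR]
  [NormedAddCommGroup YC] [NormedSpace ℂ YC] [FiniteDimensional ℂ YC]
  [NormedAddCommGroup Z] [InnerProductSpace ℂ Z] [FiniteDimensional ℂ Z]
  [NormedAddCommGroup YE] [InnerProductSpace ℂ YE] [FiniteDimensional ℂ YE]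
  {b m n : ℕ}

/-- the linear model -/
def Lam (L : T ≃L[ℝ] YR) (A₀ : H →L[ℂ] YC) : T × H →L[ℝ] YR × YC :=
  ((L : T →L[ℝ] YR).comp (ContinuousLinearMap.fst ℝ T H)).prod
    ((A₀.restrictScalars ℝ).comp (ContinuousLinearMap.snd ℝ T H))

/-- the reference isomorphism -/
def Phi (L : T ≃L[ℝ] YR) (i : YC ≃L[ℂ] YE) (e' : YE ≃L[ℝ] (Fin b → ℝ) × Z) :
    (Fin b → ℝ) × T × Z →L[ℝ] YR × YC :=
  ((L : T →L[ℝ] YR).comp ((ContinuousLinearMap.fst ℝ T Z).comp
      (ContinuousLinearMap.snd ℝ (Fin b → ℝ) (T × Z)))).prod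
    (((i.symm : YE →L[ℂ] YC).restrictScalars ℝ).comp
      ((e'.symm : (Fin b → ℝ) × Z →L[ℝ] YE).comp
        ((ContinuousLinearMap.fst ℝ (Fin b → ℝ) (T × Z)).prod
          ((ContinuousLinearMap.snd ℝ T Z).comp
            (ContinuousLinearMap.snd ℝ (Fin b → ℝ) (T × Z))))))

theorem phi_apply (L : T ≃L[ℝ] YR) (i : YC ≃L[ℂ] YE) (e' : YE ≃L[ℝ] (Fin b → ℝ) × Z)
    (κ : Fin b → ℝ) (τ : T) (w : Z) : Phi L i e' (κ, τ, w) = (L τ, i.symm (e'.symm (κ, w))) := rfl

theorem phi_inj (L : T ≃L[ℝ] YR) (i : YC ≃L[ℂ] YE) (e' : YE ≃L[ℝ] (Fin b → ℝ) × Z) :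
    Injective (Phi L i e') := by
  rw [injective_iff_map_eq_zero]
  rintro ⟨κ, τ, w⟩ h
  rw [phi_apply] at h
  have h1 : L τ = 0 := congrArg Prod.fst h
  have h2 : i.symm (e'.symm (κ, w)) = 0 := congrArg Prod.snd h
  have h3 : τ = 0 := by simpa using h1
  have h4 : e'.symm (κ, w) = 0 := by simpa using h2
  have h5 : ((κ, w) : (Fin b → ℝ) × Z) = 0 := by simpa using h4
  have h6 : κ = 0 := congrArg Prod.fst h5
  have h7 : w = 0 := congrArg Prod.snd h5
  rw [h3, h6, h7]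
  rfl

/-- the map `M` with `Φ ∘ M = d(Λ pj)` -/
def MM (N : (Fin b → ℝ) × Z →L[ℝ] (Fin b → ℝ) × Z) :
    (Fin b → ℝ) × T × Z →L[ℝ] (Fin b → ℝ) × T × Z :=
  let q : (Fin b → ℝ) × T × Z →L[ℝ] (Fin b → ℝ) × Z :=
    (ContinuousLinearMap.fst ℝ (Fin b → ℝ) (T × Z)).prod
      ((ContinuousLinearMap.snd ℝ T Z).comp (ContinuousLinearMap.snd ℝ (Fin b → ℝ) (T × Z)))
  ((ContinuousLinearMap.fst ℝ (Fin b → ℝ) Z).comp (N.comp q)).prod
    (((ContinuousLinearMap.fst ℝ T Z).comp (ContinuousLinearMap.snd ℝ (Fin b → ℝ) (T × Z))).prod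
      ((ContinuousLinearMap.snd ℝ (Fin b → ℝ) Z).comp (N.comp q)))

theorem mm_apply (N : (Fin b → ℝ) × Z →L[ℝ] (Fin b → ℝ) × Z) (κ : Fin b → ℝ) (τ : T) (w : Z) :
    MM (T := T) N (κ, τ, w) = ((N (κ, w)).1, τ, (N (κ, w)).2) := rfl

theorem det_mm (N : (Fin b → ℝ) × Z →L[ℝ] (Fin b → ℝ) × Z) :
    LinearMap.det (MM (T := T) N : (Fin b → ℝ) × T × Z →ₗ[ℝ] (Fin b → ℝ) × T × Z)
      = LinearMap.det (N : (Fin b → ℝ) × Z →ₗ[ℝ] (Fin b → ℝ) × Z) := by
  let s : (T × ((Fin b → ℝ) × Z)) ≃ₗ[ℝ] ((Fin b → ℝ) × T × Z) :=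
    { toFun := fun x => (x.2.1, x.1, x.2.2)
      invFun := fun x => (x.2.1, x.1, x.2.2)
      map_add' := fun _ _ => rfl
      map_smul' := fun _ _ => rfl
      left_inv := fun _ => rfl
      right_inv := fun _ => rfl }
  have h1 := LinearMap.det_conj (LinearMap.prodMap (LinearMap.id : T →ₗ[ℝ] T)
    (N : (Fin b → ℝ) × Z →ₗ[ℝ] (Fin b → ℝ) × Z)) s
  rw [LinearMap.det_prodMap, LinearMap.det_id, one_mul] at h1
  rw [← h1]
  congr 1

/-- the derivative of the linear model in the frame -/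
theorem fderiv_model (L : T ≃L[ℝ] YR) (A₀ : H →L[ℂ] YC) (i : YC ≃L[ℂ] YE)
    (e' : YE ≃L[ℝ] (Fin b → ℝ) × Z) {e : (Fin b → ℝ) → Z →L[ℂ] H} (he : ContDiff ℝ ∞ e)
    (x : (Fin b → ℝ) × T × Z) :
    fderiv ℝ (fun x => Lam L A₀ (pj e x)) x
      = (Phi L i e').comp (MM ((e' : YE →L[ℝ] (Fin b → ℝ) × Z) ∘L
        tot ((i : YC →L[ℂ] YE) ∘L A₀ ∘L e x.1)
          (fun j => pdθ j (fun θ => (i : YC →L[ℂ] YE) ∘L A₀ ∘L e θ) x.1) x.2.2)) := by
  obtain ⟨C, hC, hCf⟩ := hasFDerivAt_pj (T := T) he x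
  have h1 : HasFDerivAt (fun x => Lam L A₀ (pj e x)) ((Lam L A₀).comp C) x :=
    HasFDerivAt.comp x (Lam L A₀).hasFDerivAt hC
  rw [h1.fderiv]
  -- the derivative of the frame
  have hed : HasFDerivAt e (fderiv ℝ e x.1) x.1 := (he.differentiable (by simp) x.1).hasFDerivAt
  have h2 : ∀ κ : Fin b → ℝ, (fderiv ℝ (eR e) x.1 κ : Z →L[ℝ] H)
      = (fderiv ℝ e x.1 κ).restrictScalars ℝ := by
    intro κ
    have h3 : HasFDerivAt (eR e)
        ((ContinuousLinearMap.restrictScalarsL ℂ Z H ℝ ℝ).comp (fderiv ℝ e x.1)) x.1 :=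
      HasFDerivAt.comp x.1 (ContinuousLinearMap.restrictScalarsL ℂ Z H ℝ ℝ).hasFDerivAt hed
    rw [h3.fderiv]
    rfl
  have h4 : ∀ j, pdθ j (fun θ => (i : YC →L[ℂ] YE) ∘L A₀ ∘L e θ) x.1
      = (i : YC →L[ℂ] YE) ∘L A₀ ∘L (fderiv ℝ e x.1 (Pi.single j 1)) := by
    intro j
    let K : (Z →L[ℂ] H) →L[ℝ] (Z →L[ℂ] YE) :=
      (ContinuousLinearMap.compL ℂ Z H YE ((i : YC →L[ℂ] YE) ∘L A₀)).restrictScalars ℝ
    have h5 : HasFDerivAt (fun θ => (i : YC →L[ℂ] YE) ∘L A₀ ∘L e θ)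
        (K.comp (fderiv ℝ e x.1)) x.1 := HasFDerivAt.comp x.1 K.hasFDerivAt hed
    unfold pdθ
    rw [h5.fderiv]
    rfl
  refine ContinuousLinearMap.ext fun y => ?_
  obtain ⟨κ, τ, w⟩ := y
  rw [ContinuousLinearMap.comp_apply, hCf, ContinuousLinearMap.comp_apply, mm_apply, phi_apply]
  show ((L τ, A₀ (fderiv ℝ (eR e) x.1 κ x.2.2 + e x.1 w)) : YR × YC) = _
  refine Prod.ext rfl ?_
  show A₀ (fderiv ℝ (eR e) x.1 κ x.2.2 + e x.1 w) = i.symm (e'.symm (e' (tot
    ((i : YC →L[ℂ] YE) ∘L A₀ ∘L e x.1)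
    (fun j => pdθ j (fun θ => (i : YC →L[ℂ] YE) ∘L A₀ ∘L e θ) x.1) x.2.2 (κ, w))))
  rw [ContinuousLinearEquiv.symm_apply_apply, ContinuousLinearEquiv.eq_symm_apply]
  have h6 : tot ((i : YC →L[ℂ] YE) ∘L A₀ ∘L e x.1)
      (fun j => pdθ j (fun θ => (i : YC →L[ℂ] YE) ∘L A₀ ∘L e θ) x.1) x.2.2 (κ, w)
      = (∑ j, κ j • i (A₀ (fderiv ℝ e x.1 (Pi.single j 1) x.2.2))) + i (A₀ (e x.1 w)) := by
    simp only [tot, h4]
    rw [ContinuousLinearMap.coprod_apply]
    congr 1
    rw [_root_.sum_apply]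
    rfl
  rw [h6, h2, map_add, map_add]
  congr 1
  have h7 : κ = ∑ j, κ j • (Pi.single j (1 : ℝ) : Fin b → ℝ) := by
    funext k
    simp [Finset.sum_apply, Pi.single_apply]
  have h8 : fderiv ℝ e x.1 κ = ∑ j, κ j • fderiv ℝ e x.1 (Pi.single j 1) := by
    conv_lhs => rw [h7]
    rw [map_sum]
    simp
  show i (A₀ (fderiv ℝ e x.1 κ x.2.2)) = _
  rw [h8, _root_.sum_apply, map_sum, map_sum]
  refine Finset.sum_congr rfl fun j _ => ?_
  rw [_root_.smul_apply, A₀.map_smul_of_tower]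
  exact (i : YC →L[ℂ] YE).map_smul_of_tower _ _

end Crest.Agent.R235.FdsC_778
end
end

-- ▼ part R235/FdsI_778
section

/-!
Row 235 (S0364), block FAM-FDS (helper778): `I0` as an iterated integral.
-/

set_option autoImplicit false
set_option maxSynthPendingDepth 3

open MeasureTheory Set Filter Topology Module Function
open scoped ContDiff

noncomputable section

namespace Crest.Agent.R235.FdsI_778

open DgStk_778 DgTri_778 DgInv_778 FdJa_778 FdsT_778 FdsS_778 FdsC_778 FamDefs_307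

variable {T H YR YC Z YE : Type} [NormedAddCommGroup T] [NormedSpace ℝ T] [FiniteDimensional ℝ T]
  [NormedAddCommGroup H] [InnerProductSpace ℂ H] [FiniteDimensional ℂ H]
  [NormedAddCommGroup YR] [NormedSpace ℝ YR] [FiniteDimensional ℝ YR]
  [NormedAddCommGroup YC] [NormedSpace ℂ YC] [FiniteDimensional ℂ YC]
  [NormedAddCommGroup Z] [InnerProductSpace ℂ Z] [FiniteDimensional ℂ Z]
  [NormedAddCommGroup YE] [InnerProductSpace ℂ YE] [FiniteDimensional ℂ YE]
  {b m n : ℕ}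

/-- the integrand of the iterated integral -/
def qq (A : H →L[ℂ] YE) (e : (Fin b → ℝ) → Z →L[ℂ] H) (e' : YE ≃L[ℝ] (Fin b → ℝ) × Z)
    (θ : Fin b → ℝ) (z : Z) : ℝ :=
  LinearMap.det ((e' : YE →L[ℝ] (Fin b → ℝ) × Z) ∘L tot (A ∘L e θ)
    (fun j => pdθ j (fun θ => A ∘L e θ) θ) z : ((Fin b → ℝ) × Z) →ₗ[ℝ] (Fin b → ℝ) × Z)

/-- the test function -/
def et (i : YC ≃L[ℂ] YE) (η₁ : YR → ℝ) (u : ℝ → ℝ) (y : YR × YC) : ℝ :=
  η₁ y.1 * u (‖i y.2‖ ^ 2)

variable [MeasurableSpace T] [BorelSpace T] [MeasurableSpace Z] [BorelSpace Z]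

theorem i0_eq {P : (Fin b → ℝ) → H →L[ℂ] H} (hP : Continuous P)
    {e : (Fin b → ℝ) → Z →L[ℂ] H} (he : ContDiff ℝ ∞ e)
    (hPe : ∀ h z, P h (e h z) = e h z)
    (hi : ∀ θ : Fin b → ℝ, ‖θ‖ ≤ 2 → Function.Injective (e θ))
    (L : T ≃L[ℝ] YR) (A₀ : H →L[ℂ] YC) (hA : ∀ h ψ, P h ψ = ψ → A₀ ψ = 0 → ψ = 0)
    (i : YC ≃L[ℂ] YE) (e' : YE ≃L[ℝ] (Fin b → ℝ) × Z)
    (νT : Measure T) [νT.IsAddHaarMeasure] (μ : Measure Z) [μ.IsAddHaarMeasure]
    (bs : Basis (Fin (n + 1)) ℝ ((Fin b → ℝ) × T × Z)) (om : (YR × YC) [⋀^Fin (n + 1)]→L[ℝ] ℝ)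
    (η₁ : YR → ℝ) (u : ℝ → ℝ) (hη₁ : Continuous η₁) (hu : Continuous u) {δ : ℝ}
    (hηδ : ∀ y, δ ≤ ‖y‖ → et i η₁ u y = 0) :
    I0 e (Lam L A₀) (νT.prod μ) bs om (et i η₁ u)
      = Dt om bs (Phi L i e') * (∫ t, η₁ (L t) ∂νT) *
        ∫ θ : Fin b → ℝ, rho θ * (∫ z, u (‖i (A₀ (e θ z))‖ ^ 2) *
          qq ((i : YC →L[ℂ] YE) ∘L A₀) e e' θ z ∂μ) := by
  have hpT : ProperSpace T := FiniteDimensional.proper ℝ T
  have hpZ : ProperSpace Z := FiniteDimensional.proper ℂ Z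
  have hη : Continuous (et i η₁ u) := by
    refine (hη₁.comp continuous_fst).mul (hu.comp ?_)
    exact ((i.continuous.comp continuous_snd).norm).pow 2
  have hpj : ContDiff ℝ ∞ (pj (T := T) e) := contDiff_pj he
  have hLpj : ContDiff ℝ ∞ fun x : (Fin b → ℝ) × T × Z => Lam L A₀ (pj e x) :=
    (Lam L A₀).contDiff.comp hpj
  have hdL : Continuous (fderiv ℝ fun x : (Fin b → ℝ) × T × Z => Lam L A₀ (pj e x)) :=
    hLpj.continuous_fderiv (by simp)
  have hLz : ∀ h t ψ, P h ψ = ψ → Lam L A₀ (t, ψ) = 0 → t = 0 ∧ ψ = 0 := by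
    intro h t ψ hψ h0
    have h1 : L t = 0 := congrArg Prod.fst h0
    have h2 : A₀ ψ = 0 := congrArg Prod.snd h0
    exact ⟨by simpa using h1, hA h ψ hψ h2⟩
  obtain ⟨c, hc, hlow⟩ := lowerL (b := b) hP (Lam L A₀) hLz
  have hK := isCompact_KK (T := T) he hi (δ / c)
  -- the integrand
  let f : (Fin b → ℝ) × T × Z → ℝ := fun x =>
    rho x.1 * (et i η₁ u (Lam L A₀ (pj e x)) *
      Dt om bs (fderiv ℝ (fun x => Lam L A₀ (pj e x)) x))
  have hf : Integrable f ((volume : Measure (Fin b → ℝ)).prod (νT.prod μ)) := by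
    have h1 : SFinite (νT.prod μ) := inferInstance
    have h4 : MeasurableAdd (T × Z) := inferInstance
    have hν : (νT.prod μ).IsAddHaarMeasure := Measure.prod.instIsAddHaarMeasure _ _
    have h2 : SFinite (volume : Measure (Fin b → ℝ)) := inferInstance
    have h5 : MeasurableAdd (Fin b → ℝ) := inferInstance
    have h6 : (volume : Measure (Fin b → ℝ)).IsAddHaarMeasure := inferInstance
    have hμ : ((volume : Measure (Fin b → ℝ)).prod (νT.prod μ)).IsAddHaarMeasure :=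
      Measure.prod.instIsAddHaarMeasure _ _
    refine Continuous.integrable_of_hasCompactSupport ?_ ?_
    · exact ((contDiff_rho (b := b)).continuous.comp continuous_fst).mul
        ((hη.comp hLpj.continuous).mul (continuous_dt om bs hdL))
    · refine HasCompactSupport.intro hK fun x hx => ?_
      by_contra h
      have h1 := left_ne_zero_of_mul h
      have h2 := left_ne_zero_of_mul (right_ne_zero_of_mul h)
      have h3 : ‖Lam L A₀ (pj e x)‖ < δ := by
        by_contra h4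
        exact h2 (hηδ _ (not_lt.1 h4))
      have h4 := hlow x.1 (pj e x) (cube_norm (rho_ne h1)) (hPe _ _)
      refine hx ⟨rho_ne h1, ?_⟩
      have h5 : ‖pj e x‖ ≤ δ / c := by
        rw [le_div_iff₀ hc, mul_comm]
        linarith
      linarith
  have hf2 : ∀ x, f x = Dt om bs (Phi L i e') * (rho x.1 * (η₁ (L x.2.1) *
      (u (‖i (A₀ (e x.1 x.2.2))‖ ^ 2) * qq ((i : YC →L[ℂ] YE) ∘L A₀) e e' x.1 x.2.2))) := by
    intro x
    simp only [f]
    rw [fderiv_model L A₀ i e' he x, dt_comp, det_mm]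
    have h1 : et i η₁ u (Lam L A₀ (pj e x))
        = η₁ (L x.2.1) * u (‖i (A₀ (e x.1 x.2.2))‖ ^ 2) := rfl
    rw [h1]
    show _ * (_ * (qq ((i : YC →L[ℂ] YE) ∘L A₀) e e' x.1 x.2.2 * _)) = _
    ring
  show ∫ x, f x ∂((volume : Measure (Fin b → ℝ)).prod (νT.prod μ)) = _
  rw [integral_prod _ hf]
  simp only [hf2]
  have h3 : ∀ θ : Fin b → ℝ, ∫ y : T × Z, Dt om bs (Phi L i e') * (rho θ * (η₁ (L y.1) *
      (u (‖i (A₀ (e θ y.2))‖ ^ 2) * qq ((i : YC →L[ℂ] YE) ∘L A₀) e e' θ y.2))) ∂(νT.prod μ)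
      = (Dt om bs (Phi L i e') * ∫ t, η₁ (L t) ∂νT) * (rho θ *
        ∫ z, u (‖i (A₀ (e θ z))‖ ^ 2) * qq ((i : YC →L[ℂ] YE) ∘L A₀) e e' θ z ∂μ) := by
    intro θ
    rw [integral_const_mul, integral_const_mul,
      integral_prod_mul (fun t => η₁ (L t)) (fun z => u (‖i (A₀ (e θ z))‖ ^ 2) *
        qq ((i : YC →L[ℂ] YE) ∘L A₀) e e' θ z)]
    ring
  simp only [h3]
  rw [integral_const_mul]

end Crest.Agent.R235.FdsI_778
end
end

-- ▼ part R235/EqPertRel_356
section

/-! Row 235 (helper356).  **Relative EqPert** (for the FDS / FDH theorems of package FAM): as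
`EqPert_356.eqPert`, but nothing is changed where a given continuous periodic function `κ` is `≤ 0`;
the zeros with `κ ≥ 0` are removed.  `eqPert` is the case `κ = 1`. -/

set_option autoImplicit false

open Set Filter Topology Module
open scoped ENNReal InnerProductSpace Real

namespace Crest.Agent.R235.EqPert_356

variable {T H YR YC : Type*} [NormedAddCommGroup T] [NormedSpace ℝ T] [FiniteDimensional ℝ T]
  [NormedAddCommGroup H] [InnerProductSpace ℂ H] [FiniteDimensional ℂ H]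
  [NormedAddCommGroup YR] [NormedSpace ℝ YR] [FiniteDimensional ℝ YR]
  [NormedAddCommGroup YC] [NormedSpace ℂ YC] [FiniteDimensional ℂ YC] {b m : ℕ}

/-- **relative EqPert**, uncurried form -/
theorem eqPert_rel (P : (Fin b → ℝ) → H →L[ℂ] H) (hPd : Differentiable ℝ P)
    (hPp : ∀ (h : Fin b → ℝ) (k : Fin b → ℤ), P (fun i => h i + k i) = P h)
    (hPP : ∀ h x, P h (P h x) = P h x)
    (hr : ∀ h, finrank ℂ (LinearMap.range (P h : H →ₗ[ℂ] H)) = m)
    (hdim : finrank ℝ T + b + 2 * m = finrank ℝ YR + 2 * finrank ℂ YC)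
    (fR : T × (Fin b → ℝ) × H → YR) (fC : T × (Fin b → ℝ) × H → YC)
    (cR : Continuous fR) (cC : Continuous fC)
    (eqR : ∀ t h ψ (z : ℂ), ‖z‖ = 1 → fR (t, h, z • ψ) = fR (t, h, ψ))
    (eqC : ∀ t h ψ (z : ℂ), ‖z‖ = 1 → fC (t, h, z • ψ) = z • fC (t, h, ψ))
    (pR : ∀ t h ψ (k : Fin b → ℤ), fR (t, fun i => h i + k i, ψ) = fR (t, h, ψ))
    (pC : ∀ t h ψ (k : Fin b → ℤ), fC (t, fun i => h i + k i, ψ) = fC (t, h, ψ))
    (κ : T × (Fin b → ℝ) × H → ℝ) (cκ : Continuous κ)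
    (pκ : ∀ t h ψ (k : Fin b → ℤ), κ (t, fun i => h i + k i, ψ) = κ (t, h, ψ))
    (R : ℝ) (hz : ∀ t h ψ, ‖t‖ ≤ 1 → P h ψ = ψ → 0 ≤ κ (t, h, ψ) → fR (t, h, ψ) = 0 →
      fC (t, h, ψ) = 0 → 0 < κ (t, h, ψ) ∧ ‖t‖ < 1 ∧ ψ ≠ 0 ∧ ‖ψ‖ < R) {ε : ℝ} (hε : 0 < ε) :
    ∃ (gR : T × (Fin b → ℝ) × H → YR) (gC : T × (Fin b → ℝ) × H → YC),
      Continuous gR ∧ Continuous gC ∧
      (∀ t h ψ (k : Fin b → ℤ), gR (t, fun i => h i + k i, ψ) = gR (t, h, ψ)) ∧
      (∀ t h ψ (k : Fin b → ℤ), gC (t, fun i => h i + k i, ψ) = gC (t, h, ψ)) ∧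
      (∀ x, ‖gR x - fR x‖ ≤ ε) ∧ (∀ x, ‖gC x - fC x‖ ≤ ε) ∧
      (∀ t h ψ, 1 ≤ ‖t‖ ∨ R ≤ ‖ψ‖ ∨ κ (t, h, ψ) ≤ 0 → gR (t, h, ψ) = fR (t, h, ψ) ∧ gC (t, h, ψ) = fC (t, h, ψ)) ∧
      ∀ t h ψ, ‖t‖ ≤ 1 → P h ψ = ψ → 0 ≤ κ (t, h, ψ) → gR (t, h, ψ) = 0 → gC (t, h, ψ) = 0 →
        False := by
  classical
  have : ProperSpace T := FiniteDimensional.proper ℝ T
  have : ProperSpace H := FiniteDimensional.proper ℂ H
  let mu : T × (Fin b → ℝ) × H → ℝ := fun x =>
    min (κ x) (min (1 - ‖x.1‖) (min ‖x.2.2‖ (R - ‖x.2.2‖)))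
  have hmu0' : ∀ x, mu x ≤ κ x := fun x => min_le_left _ _
  have hmu1 : ∀ x, mu x ≤ 1 - ‖x.1‖ := fun x => (min_le_right _ _).trans (min_le_left _ _)
  have hmu2 : ∀ x, mu x ≤ ‖x.2.2‖ := fun x =>
    (min_le_right _ _).trans ((min_le_right _ _).trans (min_le_left _ _))
  have hmu3 : ∀ x, mu x ≤ R - ‖x.2.2‖ := fun x =>
    (min_le_right _ _).trans ((min_le_right _ _).trans (min_le_right _ _))
  have hmuc : Continuous mu := by
    have h1 : Continuous (fun x : T × (Fin b → ℝ) × H => ‖x.1‖) := continuous_fst.norm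
    have h2 : Continuous (fun x : T × (Fin b → ℝ) × H => ‖x.2.2‖) :=
      (continuous_snd.comp continuous_snd).norm
    exact cκ.min ((continuous_const.sub h1).min (h2.min (continuous_const.sub h2)))
  let N : T × (Fin b → ℝ) × H → ℝ := fun x => ‖fR x‖ + ‖fC x‖
  have hNc : Continuous N := cR.norm.add cC.norm
  have hPap : Continuous (fun x : T × (Fin b → ℝ) × H => P x.2.1 x.2.2) :=
    (hPd.continuous.comp (continuous_fst.comp continuous_snd)).clm_apply
      (continuous_snd.comp continuous_snd)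
  let K : Set (T × (Fin b → ℝ) × H) := (Metric.closedBall (0 : T) 1 ×ˢ
    (Icc (0 : Fin b → ℝ) 1 ×ˢ Metric.closedBall (0 : H) R)) ∩
      ({x | P x.2.1 x.2.2 = x.2.2} ∩ {x | 0 ≤ κ x})
  have hK : IsCompact K := ((isCompact_closedBall _ _).prod
    (isCompact_Icc.prod (isCompact_closedBall _ _))).inter_right
    ((isClosed_eq hPap (continuous_snd.comp continuous_snd)).inter (isClosed_le continuous_const cκ))
  have hpos : ∀ x ∈ K, 0 < N x + mu x := by
    rintro ⟨t, h, ψ⟩ ⟨⟨h1, h2, h3⟩, h4, h5⟩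
    have e1 : ‖t‖ ≤ 1 := by simpa using h1
    have e3 : ‖ψ‖ ≤ R := by simpa using h3
    have hmu0 : 0 ≤ mu (t, h, ψ) :=
      le_min h5 (le_min (by simpa using e1) (le_min (norm_nonneg _) (by simpa using e3)))
    have hN0 : 0 ≤ N (t, h, ψ) := add_nonneg (norm_nonneg _) (norm_nonneg _)
    rcases hN0.eq_or_lt with h0 | h0
    · have n1 : ‖fR (t, h, ψ)‖ = 0 := by
        have := norm_nonneg (fR (t, h, ψ)); have := norm_nonneg (fC (t, h, ψ))
        simp only [N] at h0; linarith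
      have n2 : ‖fC (t, h, ψ)‖ = 0 := by
        have := norm_nonneg (fR (t, h, ψ)); have := norm_nonneg (fC (t, h, ψ))
        simp only [N] at h0; linarith
      obtain ⟨a0, a1, a2, a3⟩ := hz t h ψ e1 h4 h5 (norm_eq_zero.1 n1) (norm_eq_zero.1 n2)
      have : 0 < mu (t, h, ψ) :=
        lt_min a0 (lt_min (by simpa using a1) (lt_min (norm_pos_iff.2 a2) (by simpa using a3)))
      linarith
    · linarith
  obtain ⟨δ, hδ, hδK⟩ : ∃ δ > 0, ∀ x ∈ K, 2 * δ ≤ N x + mu x := by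
    rcases K.eq_empty_or_nonempty with he | hne
    · exact ⟨1, one_pos, fun x hx => by rw [he] at hx; exact absurd hx (notMem_empty _)⟩
    · obtain ⟨x0, hx0, hmin⟩ := hK.exists_isMinOn hne (hNc.add hmuc).continuousOn
      refine ⟨(N x0 + mu x0) / 2, half_pos (hpos x0 hx0), fun x hx => ?_⟩
      have h1 : N x0 + mu x0 ≤ N x + mu x := hmin hx
      linarith
  -- lower bound near the boundary of the region
  have hlow : ∀ t h ψ, ‖t‖ ≤ 1 → ‖ψ‖ ≤ R → P h ψ = ψ → 0 ≤ κ (t, h, ψ) → mu (t, h, ψ) ≤ δ →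
      δ ≤ N (t, h, ψ) := by
    intro t h ψ h1 h2 h3 hκ0 h4
    let k : Fin b → ℤ := fun i => -⌊h i⌋
    have hk : ((t, fun i => h i + k i, ψ) : T × (Fin b → ℝ) × H) ∈ K := by
      refine ⟨⟨by simpa using h1, ⟨?_, ?_⟩, by simpa using h2⟩, ?_, ?_⟩
      · intro i
        have := Int.floor_le (h i)
        show (0 : ℝ) ≤ h i + ((-⌊h i⌋ : ℤ) : ℝ)
        push_cast; linarith
      · intro i
        have := Int.lt_floor_add_one (h i)
        show h i + ((-⌊h i⌋ : ℤ) : ℝ) ≤ (1 : ℝ)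
        push_cast; linarith
      · show P (fun i => h i + k i) ψ = ψ
        rw [hPp, h3]
      · show 0 ≤ κ (t, fun i => h i + k i, ψ)
        rw [pκ]; exact hκ0
    have h5 := hδK _ hk
    have h6 : N (t, fun i => h i + k i, ψ) = N (t, h, ψ) := by simp only [N, pR, pC]
    have h7 : mu (t, fun i => h i + k i, ψ) = mu (t, h, ψ) := by simp only [mu, pκ]
    rw [h6, h7] at h5
    linarith
  -- smoothing
  set η : ℝ := min ε δ / 8 with hηdef
  have hη : 0 < η := by have := lt_min hε hδ; positivity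
  have hηε : 2 * η ≤ ε := by
    have := min_le_left ε δ; have := lt_min hε hδ
    rw [hηdef]; linarith
  have hηδ : 4 * η < δ := by
    have := min_le_right ε δ; have := lt_min hε hδ
    rw [hηdef]; linarith
  obtain ⟨F, Fc, F1, F2, Fp, Fa⟩ := exists_approx fR fC cR cC eqR eqC pR pC (δ / 2) R
    (half_pos hδ) hη
  -- coordinates
  let e := stdOrthonormalBasis ℂ H
  let co : Fin (finrank ℂ H) → H →L[ℂ] ℂ := fun k => innerSL ℂ (e k)
  have hco : ∀ ψ : H, ψ ≠ 0 → ∃ j, co j ψ ≠ 0 := by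
    intro ψ hψ
    by_contra hcon
    push Not at hcon
    apply hψ
    have h1 : ∀ j, ⟪e j, ψ⟫_ℂ = 0 := hcon
    rw [← e.sum_repr ψ]
    refine Finset.sum_eq_zero fun j _ => ?_
    rw [e.repr_apply_apply, h1 j, zero_smul]
  let M : ℝ := 1 + ∑ k, ‖co k‖ * |R|
  have hM : 1 ≤ M := by
    have : 0 ≤ ∑ k, ‖co k‖ * |R| :=
      Finset.sum_nonneg fun k _ => mul_nonneg (norm_nonneg _) (abs_nonneg _)
    simp only [M]; linarith
  obtain ⟨c, A, hcη, hAη, hno⟩ := exists_pert P hPd hPP hr hdim (fun x => (F x).1)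
    (fun x => (F x).2) F1 F2 {x | ‖x.1‖ ≤ 1 ∧ δ / 2 ≤ ‖x.2.2‖ ∧ ‖x.2.2‖ ≤ R}
    (by
      rintro ⟨t, h, ψ⟩ ⟨h1, h2, h3⟩
      exact (Fa t h ψ h1 h2 h3).1.fst)
    (by
      rintro ⟨t, h, ψ⟩ ⟨h1, h2, h3⟩
      exact (Fa t h ψ h1 h2 h3).1.snd)
    co hco (η := η / M) (div_pos hη (by linarith))
  have hηM : η / M ≤ η := div_le_self hη.le hM
  let χ : T × (Fin b → ℝ) × H → ℝ := fun x => max 0 (min 1 (2 * mu x / δ - 1))
  have hχc : Continuous χ :=
    continuous_const.max (continuous_const.min (((continuous_const.mul hmuc).div_const _).sub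
      continuous_const))
  have hχ0 : ∀ x, 0 ≤ χ x := fun x => le_max_left _ _
  have hχ1 : ∀ x, χ x ≤ 1 := fun x => max_le zero_le_one (min_le_left _ _)
  have hχp : ∀ t h ψ (k : Fin b → ℤ), χ (t, fun i => h i + k i, ψ) = χ (t, h, ψ) := by
    intro t h ψ k
    simp only [χ, mu, pκ]
  have hχz : ∀ x, χ x ≠ 0 → δ / 2 < mu x := by
    intro x hx
    by_contra hcon
    apply hx
    have h1 : 2 * mu x / δ - 1 ≤ 0 := by
      rw [sub_nonpos, div_le_one hδ]; linarith [not_lt.1 hcon]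
    exact max_eq_left (le_trans (min_le_right _ _) h1)
  have hχo : ∀ x, δ ≤ mu x → χ x = 1 := by
    intro x hx
    have h1 : 1 ≤ 2 * mu x / δ - 1 := by
      rw [le_sub_iff_add_le, le_div_iff₀ hδ]; linarith
    simp only [χ, min_eq_left h1]
    exact max_eq_right zero_le_one
  let pe : T × (Fin b → ℝ) × H → YC := fun x => ∑ k, co k x.2.2 • A k
  have hpec : Continuous pe := continuous_finsetSum _ fun k _ =>
    ((co k).continuous.comp (continuous_snd.comp continuous_snd)).smul continuous_const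
  have hpeb : ∀ x : T × (Fin b → ℝ) × H, ‖x.2.2‖ ≤ R → ‖pe x‖ ≤ η := by
    intro x hx
    have hR0 : 0 ≤ R := le_trans (norm_nonneg _) hx
    calc ‖pe x‖ ≤ ∑ k, ‖co k x.2.2 • A k‖ := norm_sum_le _ _
      _ ≤ ∑ k, (‖co k‖ * |R|) * (η / M) := by
          refine Finset.sum_le_sum fun k _ => ?_
          rw [norm_smul]
          refine mul_le_mul ?_ ((norm_le_pi_norm A k).trans hAη.le) (norm_nonneg _)
            (mul_nonneg (norm_nonneg _) (abs_nonneg _))
          refine ((co k).le_opNorm _).trans ?_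
          rw [abs_of_nonneg hR0]
          exact mul_le_mul_of_nonneg_left hx (norm_nonneg _)
      _ = (∑ k, ‖co k‖ * |R|) * (η / M) := by rw [← Finset.sum_mul]
      _ ≤ M * (η / M) := by
          refine mul_le_mul_of_nonneg_right ?_ (div_pos hη (by linarith)).le
          simp only [M]; linarith
      _ = η := by field_simp
  let gR : T × (Fin b → ℝ) × H → YR := fun x => fR x + χ x • ((F x).1 + c - fR x)
  let gC : T × (Fin b → ℝ) × H → YC := fun x => fC x + χ x • ((F x).2 + pe x - fC x)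
  have hbR : ∀ x, ‖gR x - fR x‖ ≤ 2 * η := by
    rintro ⟨t, h, ψ⟩
    have e1 : gR (t, h, ψ) - fR (t, h, ψ)
        = χ (t, h, ψ) • ((F (t, h, ψ)).1 + c - fR (t, h, ψ)) := by simp [gR]
    rw [e1, norm_smul, Real.norm_of_nonneg (hχ0 _)]
    by_cases h0 : χ (t, h, ψ) = 0
    · rw [h0, zero_mul]; positivity
    · have h1 := hχz _ h0
      have a1 : δ / 2 < 1 - ‖t‖ := lt_of_lt_of_le h1 (hmu1 _)
      have a2 : δ / 2 < ‖ψ‖ := lt_of_lt_of_le h1 (hmu2 _)
      have a3 : δ / 2 < R - ‖ψ‖ := lt_of_lt_of_le h1 (hmu3 _)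
      have a4 := (Fa t h ψ (by linarith) a2.le (by linarith)).2
      have a5 : ‖(F (t, h, ψ)).1 - fR (t, h, ψ)‖ ≤ η :=
        le_trans (norm_fst_le (F (t, h, ψ) - (fR (t, h, ψ), fC (t, h, ψ)))) a4
      have a6 : ‖(F (t, h, ψ)).1 + c - fR (t, h, ψ)‖ ≤ 2 * η := by
        have : (F (t, h, ψ)).1 + c - fR (t, h, ψ) = ((F (t, h, ψ)).1 - fR (t, h, ψ)) + c := by abel
        rw [this]
        exact (norm_add_le _ _).trans (by linarith)
      exact (mul_le_mul (hχ1 _) a6 (norm_nonneg _) zero_le_one).trans (by linarith)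
  have hbC : ∀ x, ‖gC x - fC x‖ ≤ 2 * η := by
    rintro ⟨t, h, ψ⟩
    have e1 : gC (t, h, ψ) - fC (t, h, ψ)
        = χ (t, h, ψ) • ((F (t, h, ψ)).2 + pe (t, h, ψ) - fC (t, h, ψ)) := by simp [gC]
    rw [e1, norm_smul, Real.norm_of_nonneg (hχ0 _)]
    by_cases h0 : χ (t, h, ψ) = 0
    · rw [h0, zero_mul]; positivity
    · have h1 := hχz _ h0
      have a1 : δ / 2 < 1 - ‖t‖ := lt_of_lt_of_le h1 (hmu1 _)
      have a2 : δ / 2 < ‖ψ‖ := lt_of_lt_of_le h1 (hmu2 _)
      have a3 : δ / 2 < R - ‖ψ‖ := lt_of_lt_of_le h1 (hmu3 _)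
      have a4 := (Fa t h ψ (by linarith) a2.le (by linarith)).2
      have a5 : ‖(F (t, h, ψ)).2 - fC (t, h, ψ)‖ ≤ η :=
        le_trans (norm_snd_le (F (t, h, ψ) - (fR (t, h, ψ), fC (t, h, ψ)))) a4
      have a7 : ‖pe (t, h, ψ)‖ ≤ η := hpeb _ (by show ‖ψ‖ ≤ R; linarith)
      have a6 : ‖(F (t, h, ψ)).2 + pe (t, h, ψ) - fC (t, h, ψ)‖ ≤ 2 * η := by
        have : (F (t, h, ψ)).2 + pe (t, h, ψ) - fC (t, h, ψ)
          = ((F (t, h, ψ)).2 - fC (t, h, ψ)) + pe (t, h, ψ) := by abel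
        rw [this]
        exact (norm_add_le _ _).trans (by linarith)
      exact (mul_le_mul (hχ1 _) a6 (norm_nonneg _) zero_le_one).trans (by linarith)
  refine ⟨gR, gC, cR.add (hχc.smul ((Fc.fst.add continuous_const).sub cR)),
    cC.add (hχc.smul ((Fc.snd.add hpec).sub cC)), ?_, ?_, fun x => (hbR x).trans hηε,
    fun x => (hbC x).trans hηε, ?_, ?_⟩
  · intro t h ψ k
    show fR (t, fun i => h i + k i, ψ) + χ (t, fun i => h i + k i, ψ) •
      ((F (t, fun i => h i + k i, ψ)).1 + c - fR (t, fun i => h i + k i, ψ)) = _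
    rw [pR, Fp, hχp]
  · intro t h ψ k
    show fC (t, fun i => h i + k i, ψ) + χ (t, fun i => h i + k i, ψ) •
      ((F (t, fun i => h i + k i, ψ)).2 + pe (t, h, ψ) - fC (t, fun i => h i + k i, ψ)) = _
    rw [pC, Fp, hχp]
  · intro t h ψ hor
    have h0 : χ (t, h, ψ) = 0 := by
      by_contra hcon
      have h1 := hχz _ hcon
      have a1 : δ / 2 < 1 - ‖t‖ := lt_of_lt_of_le h1 (hmu1 _)
      have a3 : δ / 2 < R - ‖ψ‖ := lt_of_lt_of_le h1 (hmu3 _)
      have a0 : δ / 2 < κ (t, h, ψ) := lt_of_lt_of_le h1 (hmu0' _)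
      rcases hor with h2 | h2 | h2
      · linarith
      · linarith
      · linarith
    constructor
    · simp only [gR, h0, zero_smul, add_zero]
    · simp only [gC, h0, zero_smul, add_zero]
  · intro t h ψ ht hP hκ h1 h2
    rcases le_or_gt δ (mu (t, h, ψ)) with hm | hm
    · have hone := hχo _ hm
      have a2 : δ ≤ ‖ψ‖ := le_trans hm (hmu2 _)
      have a3 : δ ≤ R - ‖ψ‖ := le_trans hm (hmu3 _)
      refine hno t h ψ ⟨ht, by show δ / 2 ≤ ‖ψ‖; linarith, by show ‖ψ‖ ≤ R; linarith⟩ hP ?_ ?_ ?_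
      · intro h0; rw [h0, norm_zero] at a2; linarith
      · have : gR (t, h, ψ) = (F (t, h, ψ)).1 + c := by simp [gR, hone]
        rw [← this]; exact h1
      · have : gC (t, h, ψ) = (F (t, h, ψ)).2 + pe (t, h, ψ) := by simp [gC, hone]
        rw [this] at h2; exact h2
    · rcases le_or_gt ‖ψ‖ R with hψR | hψR
      · have h3 := hlow t h ψ ht hψR hP hκ hm.le
        have h4 := hbR (t, h, ψ)
        have h5 := hbC (t, h, ψ)
        rw [h1, zero_sub, norm_neg] at h4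
        rw [h2, zero_sub, norm_neg] at h5
        simp only [N] at h3
        linarith
      · have h0 : χ (t, h, ψ) = 0 := by
          by_contra hcon
          have h1 := hχz _ hcon
          have a3 : δ / 2 < R - ‖ψ‖ := lt_of_lt_of_le h1 (hmu3 _)
          linarith
        have e1 : fR (t, h, ψ) = 0 := by
          simpa only [gR, h0, zero_smul, add_zero] using h1
        have e2 : fC (t, h, ψ) = 0 := by
          simpa only [gC, h0, zero_smul, add_zero] using h2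
        obtain ⟨_, _, _, a3⟩ := hz t h ψ ht hP hκ e1 e2
        linarith

end Crest.Agent.R235.EqPert_356
end

-- ▼ part R235/FdsA_356
section

/-!
Row 235, PACKAGE FAM (helper356), steps (a), (b), (c) of FDS (task 421): an equivariant system `FSys`
without zeros over `‖t‖ = 1` can be replaced, without changing it for `‖t‖ ≥ 1` or `‖ψ‖ ≥ R`, by a
continuous periodic system which is LINEAR, `(t, ψ) ↦ (L t, A ψ)` with `A` CONSTANT, near the zero section,
and has no other zero.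
-/

set_option autoImplicit false
set_option maxSynthPendingDepth 3

open Set Filter Module MeasureTheory Function
open scoped ContDiff Topology InnerProductSpace

namespace Crest.Agent.R235.FdsA_356

open Crest.Agent.R235.FamDefs_307 Crest.Agent.R235.EqPert_356

variable {T H YR YC : Type} [NormedAddCommGroup T] [NormedSpace ℝ T] [FiniteDimensional ℝ T]
  [NormedAddCommGroup H] [InnerProductSpace ℂ H] [FiniteDimensional ℂ H]
  [NormedAddCommGroup YR] [NormedSpace ℝ YR] [FiniteDimensional ℝ YR]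
  [NormedAddCommGroup YC] [NormedSpace ℂ YC] [FiniteDimensional ℂ YC]
  {b m : ℕ} {P : (Fin b → ℝ) → H →L[ℂ] H}

/-- (a) a generic linear map is injective on every fibre -/
theorem exists_lin (hP : PPer b m P) (hdim : b + 2 * m = 2 * finrank ℂ YC) :
    ∃ A : H →L[ℂ] YC, ∀ h ψ, P h ψ = ψ → A ψ = 0 → ψ = 0 := by
  classical
  let e := stdOrthonormalBasis ℂ H
  let co : Fin (finrank ℂ H) → H →L[ℂ] ℂ := fun k => innerSL ℂ (e k)
  have hco : ∀ ψ : H, ψ ≠ 0 → ∃ j, co j ψ ≠ 0 := by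
    intro ψ hψ
    by_contra hcon
    push Not at hcon
    apply hψ
    have h1 : ∀ j, ⟪e j, ψ⟫_ℂ = 0 := hcon
    rw [← e.sum_repr ψ]
    refine Finset.sum_eq_zero fun j _ => ?_
    rw [e.repr_apply_apply, h1 j, zero_smul]
  obtain ⟨c, A, -, -, hno⟩ := exists_pert (T := Fin 0 → ℝ) (YR := Fin 0 → ℝ) (YC := YC) P
    (hP.smooth.differentiable (by simp)) hP.idem hP.rank (by simpa using hdim)
    (fun _ => 0) (fun _ => 0) (fun _ _ _ _ _ => rfl) (fun _ _ _ _ _ => by simp) univ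
    (fun _ _ => differentiableAt_const _) (fun _ _ => differentiableAt_const _) co hco one_pos
  refine ⟨∑ k, (co k).smulRight (A k), fun h ψ hψ h0 => ?_⟩
  by_contra hne
  refine hno 0 h ψ (mem_univ _) hψ hne (Subsingleton.elim _ _) ?_
  rw [zero_add]
  simpa using h0

/-- **(a) + (b) + (c)** -/
theorem fds_abc {L : T ≃L[ℝ] YR} {fR : T × (Fin b → ℝ) × H → YR} {fC : T × (Fin b → ℝ) × H → YC}
    {v : YC} {R : ℝ} (hS : FSys b m P L fR fC v R)
    (h1 : ∀ t h ψ, ‖t‖ = 1 → P h ψ = ψ → fR (t, h, ψ) = 0 → fC (t, h, ψ) ≠ 0) :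
    ∃ (δ : ℝ) (A : H →L[ℂ] YC) (gR : T × (Fin b → ℝ) × H → YR) (gC : T × (Fin b → ℝ) × H → YC),
      0 < δ ∧ δ < 1 ∧ δ < R ∧ (∀ h ψ, P h ψ = ψ → A ψ = 0 → ψ = 0) ∧
      Continuous gR ∧ Continuous gC ∧
      (∀ t h ψ (k : Fin b → ℤ), gR (t, fun i => h i + k i, ψ) = gR (t, h, ψ)) ∧
      (∀ t h ψ (k : Fin b → ℤ), gC (t, fun i => h i + k i, ψ) = gC (t, h, ψ)) ∧
      (∀ t h ψ, ‖t‖ ≤ δ → ‖ψ‖ ≤ δ → gR (t, h, ψ) = L t ∧ gC (t, h, ψ) = A ψ) ∧
      (∀ t h ψ, 1 ≤ ‖t‖ ∨ R ≤ ‖ψ‖ → gR (t, h, ψ) = fR (t, h, ψ) ∧ gC (t, h, ψ) = fC (t, h, ψ)) ∧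
      ∀ t h ψ, ‖t‖ ≤ 1 → P h ψ = ψ → gR (t, h, ψ) = 0 → gC (t, h, ψ) = 0 → t = 0 ∧ ψ = 0 := by
  obtain ⟨A, hA⟩ := exists_lin (YC := YC) hS.proj hS.hdim
  have hfC0 : ∀ t h, fC (t, h, 0) = 0 := by
    intro t h
    have h2 := hS.eqC t h 0 (-1) (by simp)
    rw [smul_zero, neg_one_smul] at h2
    have h3 : (2 : ℂ) • fC (t, h, 0) = 0 := by
      rw [two_smul]
      nth_rewrite 1 [h2]
      exact neg_add_cancel _
    exact (smul_eq_zero.1 h3).resolve_left two_ne_zero
  have hR : 0 < R := by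
    by_contra hcon
    have h2 := hS.big 0 0 0 (by simp) (by simp) (by simpa using not_lt.1 hcon)
      (by rw [hS.fix 0 0 (by simp), map_zero]) 0 le_rfl
    exact h2 (by rw [hfC0]; simp)
  set δ : ℝ := min 1 R / 4 with hδdef
  have hmin : 0 < min 1 R := lt_min one_pos hR
  have hδ : 0 < δ := by rw [hδdef]; positivity
  have hδ1 : 4 * δ ≤ 1 := by have := min_le_left 1 R; rw [hδdef]; linarith
  have hδR : 4 * δ ≤ R := by have := min_le_right 1 R; rw [hδdef]; linarith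
  let mx : T × (Fin b → ℝ) × H → ℝ := fun x => max ‖x.1‖ ‖x.2.2‖
  have hmxc : Continuous mx := continuous_fst.norm.max (continuous_snd.comp continuous_snd).norm
  let χ : T × (Fin b → ℝ) × H → ℝ := fun x => max 0 (min 1 (2 - mx x / δ))
  have hχc : Continuous χ :=
    continuous_const.max (continuous_const.min (continuous_const.sub (hmxc.div_const _)))
  have hχ1 : ∀ x, mx x ≤ δ → χ x = 1 := by
    intro x hx
    have h2 : mx x / δ ≤ 1 := by rw [div_le_one hδ]; exact hx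
    have h3 : 1 ≤ 2 - mx x / δ := by linarith
    simp only [χ, min_eq_left h3]
    exact max_eq_right zero_le_one
  have hχ0 : ∀ x, 2 * δ ≤ mx x → χ x = 0 := by
    intro x hx
    have h2 : 2 ≤ mx x / δ := by rw [le_div_iff₀ hδ]; exact hx
    exact max_eq_left ((min_le_right _ _).trans (by linarith))
  let f1R : T × (Fin b → ℝ) × H → YR := fun x => (1 - χ x) • fR x + χ x • L x.1
  let f1C : T × (Fin b → ℝ) × H → YC := fun x => (1 - χ x) • fC x + χ x • A x.2.2
  have hLc : Continuous fun x : T × (Fin b → ℝ) × H => L x.1 := L.continuous.comp continuous_fst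
  have hAc : Continuous fun x : T × (Fin b → ℝ) × H => A x.2.2 :=
    A.continuous.comp (continuous_snd.comp continuous_snd)
  have c1R : Continuous f1R := ((continuous_const.sub hχc).smul hS.cR).add (hχc.smul hLc)
  have c1C : Continuous f1C := ((continuous_const.sub hχc).smul hS.cC).add (hχc.smul hAc)
  have hχrot : ∀ (t : T) (h : Fin b → ℝ) (ψ : H) (z : ℂ), ‖z‖ = 1 →
      χ (t, h, z • ψ) = χ (t, h, ψ) := by
    intro t h ψ z hz
    simp only [χ, mx, norm_smul, hz, one_mul]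
  have hnear : ∀ t h ψ, mx (t, h, ψ) ≤ δ → f1R (t, h, ψ) = L t ∧ f1C (t, h, ψ) = A ψ := by
    intro t h ψ hx
    simp only [f1R, f1C, hχ1 _ hx, sub_self, zero_smul, zero_add, one_smul, and_self]
  have hfar : ∀ t h ψ, 2 * δ ≤ mx (t, h, ψ) → f1R (t, h, ψ) = fR (t, h, ψ) ∧
      f1C (t, h, ψ) = fC (t, h, ψ) := by
    intro t h ψ hx
    simp only [f1R, f1C, hχ0 _ hx, sub_zero, zero_smul, add_zero, one_smul, and_self]
  obtain ⟨gR, gC, cgR, cgC, pgR, pgC, -, -, hgf, hg0⟩ := eqPert_rel P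
    (hS.proj.smooth.differentiable (by simp)) hS.proj.per hS.proj.idem hS.proj.rank
    (by have := hS.hdim; have := L.toLinearEquiv.finrank_eq; omega) f1R f1C c1R c1C
    (by
      intro t h ψ z hz
      simp only [f1R, hχrot t h ψ z hz, hS.eqR t h ψ z hz])
    (by
      intro t h ψ z hz
      simp only [f1C, hχrot t h ψ z hz, hS.eqC t h ψ z hz, map_smul, smul_add]
      rw [smul_comm z, smul_comm z])
    (by intro t h ψ k; show (1 - χ (t, h, ψ)) • fR _ + χ (t, h, ψ) • L t = _; rw [hS.pR])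
    (by intro t h ψ k; show (1 - χ (t, h, ψ)) • fC _ + χ (t, h, ψ) • A ψ = _; rw [hS.pC])
    (fun x => mx x - δ) (hmxc.sub continuous_const) (fun _ _ _ _ => rfl) R
    (by
      intro t h ψ ht hP hκ e1 e2
      have hκ' : δ ≤ mx (t, h, ψ) := by simpa using hκ
      refine ⟨?_, ?_, ?_, ?_⟩
      · show 0 < mx (t, h, ψ) - δ
        rcases hκ'.eq_or_lt with h2 | h2
        · exfalso
          obtain ⟨a1, a2⟩ := hnear t h ψ h2.symm.le
          rw [a1] at e1; rw [a2] at e2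
          have b1 : t = 0 := by simpa using e1
          have b2 : ψ = 0 := hA h ψ hP e2
          have b3 : mx (t, h, ψ) = 0 := by simp [mx, b1, b2]
          rw [b3] at h2; linarith
        · linarith
      · rcases ht.eq_or_lt with h2 | h2
        · exfalso
          have h3 : 2 * δ ≤ mx (t, h, ψ) := by
            have : ‖t‖ ≤ mx (t, h, ψ) := le_max_left _ _
            linarith
          obtain ⟨a1, a2⟩ := hfar t h ψ h3
          rw [a1] at e1; rw [a2] at e2
          exact h1 t h ψ h2 hP e1 e2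
        · exact h2
      · intro h0
        subst h0
        have h2 : f1R (t, h, 0) = L t := by
          simp only [f1R, hS.fix t h ht]
          rw [← add_smul, sub_add_cancel, one_smul]
        rw [h2] at e1
        have b1 : t = 0 := by simpa using e1
        have b3 : mx (t, h, (0 : H)) = 0 := by simp [mx, b1]
        rw [b3] at hκ'; linarith
      · by_contra hcon
        have h2 : R ≤ ‖ψ‖ := not_lt.1 hcon
        have h3 : 2 * δ ≤ mx (t, h, ψ) := by
          have : ‖ψ‖ ≤ mx (t, h, ψ) := le_max_right _ _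
          linarith
        obtain ⟨a1, a2⟩ := hfar t h ψ h3
        rw [a1] at e1; rw [a2] at e2
        exact hS.big t h ψ ht hP h2 e1 0 le_rfl (by rw [e2]; simp)) one_pos
  refine ⟨δ, A, gR, gC, hδ, by linarith, by linarith, hA, cgR, cgC, pgR, pgC, ?_, ?_, ?_⟩
  · intro t h ψ ht hψ
    have h2 : mx (t, h, ψ) ≤ δ := max_le ht hψ
    obtain ⟨a1, a2⟩ := hgf t h ψ (Or.inr (Or.inr (by show mx (t, h, ψ) - δ ≤ 0; linarith)))
    obtain ⟨b1, b2⟩ := hnear t h ψ h2
    exact ⟨a1.trans b1, a2.trans b2⟩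
  · intro t h ψ hor
    have h2 : 2 * δ ≤ mx (t, h, ψ) := by
      have h3 : ‖t‖ ≤ mx (t, h, ψ) := le_max_left _ _
      have h4 : ‖ψ‖ ≤ mx (t, h, ψ) := le_max_right _ _
      rcases hor with h5 | h5 <;> linarith
    obtain ⟨a1, a2⟩ := hgf t h ψ (by
      rcases hor with h5 | h5
      · exact Or.inl h5
      · exact Or.inr (Or.inl h5))
    obtain ⟨b1, b2⟩ := hfar t h ψ h2
    exact ⟨a1.trans b1, a2.trans b2⟩
  · intro t h ψ ht hP e1 e2
    rcases le_or_gt δ (mx (t, h, ψ)) with h2 | h2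
    · exact (hg0 t h ψ ht hP (by show 0 ≤ mx (t, h, ψ) - δ; linarith) e1 e2).elim
    · obtain ⟨a1, a2⟩ := hgf t h ψ (Or.inr (Or.inr (by show mx (t, h, ψ) - δ ≤ 0; linarith)))
      obtain ⟨b1, b2⟩ := hnear t h ψ h2.le
      rw [a1, b1] at e1; rw [a2, b2] at e2
      exact ⟨by simpa using e1, hA h ψ hP e2⟩

end Crest.Agent.R235.FdsA_356
end

-- ▼ part R235/FdsD_778
section

/-!
Row 235 (S0364), block FAM-FDS (helper778): part (D) of FDS / FDH (task 421).

`fds_d` : no value on the ray over `‖t‖ = 1` ⇒ the iterated integral over the torus of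
`u (‖A e z‖²) det (e' ∘ tot (A e) (∂_j (A e)) z)` is zero (all bumps `u` of small support);
`fdh_d` : one nondegenerate point on the ray ⇒ it is different from zero (after a translation of
the torus by `h₀`).
-/

set_option autoImplicit false
set_option maxSynthPendingDepth 3

open MeasureTheory Set Filter Topology Module Function
open scoped ContDiff

noncomputable section

namespace Crest.Agent.R235.FdsD_778

open DgStk_778 DgTri_778 DgInv_778 FdJa_778 FdsT_778 FdsS_778 FdsC_778 FdsI_778 FamDefs_307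

variable {T H YR YC : Type} [NormedAddCommGroup T] [NormedSpace ℝ T] [FiniteDimensional ℝ T]
  [NormedAddCommGroup H] [InnerProductSpace ℂ H] [FiniteDimensional ℂ H]
  [NormedAddCommGroup YR] [NormedSpace ℝ YR] [FiniteDimensional ℝ YR]
  [NormedAddCommGroup YC] [NormedSpace ℂ YC] [FiniteDimensional ℂ YC]
  {b m : ℕ}

/-- the model fibre -/
abbrev Zm (m : ℕ) : Type := EuclideanSpace ℂ (Fin m)

/-- the model target -/
abbrev YE (YC : Type) [NormedAddCommGroup YC] [NormedSpace ℂ YC] : Type :=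
  EuclideanSpace ℂ (Fin (finrank ℂ YC))

/-- the torus integral -/
def JJ (A : H →L[ℂ] YE YC) (e : (Fin b → ℝ) → Zm m →L[ℂ] H)
    (e' : YE YC ≃L[ℝ] (Fin b → ℝ) × Zm m) (μ : Measure (Zm m)) (u : ℝ → ℝ) : ℝ :=
  ∫ θ : Fin b → ℝ, rho θ * (∫ z, u (‖A (e θ z)‖ ^ 2) *
    LinearMap.det ((e' : YE YC →L[ℝ] (Fin b → ℝ) × Zm m) ∘L tot (A ∘L e θ)
      (fun j => pdθ j (fun θ => A ∘L e θ) θ) z :
      ((Fin b → ℝ) × Zm m) →ₗ[ℝ] (Fin b → ℝ) × Zm m) ∂μ)

/-- radial retraction to the unit ball -/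
def th (t : T) : T := (max 1 ‖t‖)⁻¹ • t

omit [FiniteDimensional ℝ T] in
theorem continuous_th : Continuous (th (T := T)) := by
  refine Continuous.smul (Continuous.inv₀ (continuous_const.max continuous_norm) fun t => ?_)
    continuous_id
  exact (lt_of_lt_of_le one_pos (le_max_left _ _)).ne'

omit [FiniteDimensional ℝ T] in
theorem th_small {t : T} (ht : ‖t‖ ≤ 1) : th t = t := by
  unfold th
  rw [max_eq_left ht, inv_one, one_smul]

omit [FiniteDimensional ℝ T] in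
theorem th_large {t : T} (ht : 1 ≤ ‖t‖) : th t = ‖t‖⁻¹ • t := by
  unfold th
  rw [max_eq_right ht]

omit [FiniteDimensional ℝ T] in
theorem norm_th_large {t : T} (ht : 1 ≤ ‖t‖) : ‖th t‖ = 1 := by
  rw [th_large ht, norm_smul, norm_inv, norm_norm, inv_mul_cancel₀]
  exact (lt_of_lt_of_le one_pos ht).ne'

/-- translation of a periodic family -/
theorem PPer.shift {P : (Fin b → ℝ) → H →L[ℂ] H} (hP : PPer b m P) (h₀ : Fin b → ℝ) :
    PPer b m (fun h => P (h + h₀)) where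
  smooth := hP.smooth.comp (contDiff_id.add contDiff_const)
  per h k := by
    have h1 : (fun i => h i + (k i : ℝ)) + h₀ = fun i => (h + h₀) i + (k i : ℝ) := by
      funext i
      simp only [Pi.add_apply]
      ring
    show P ((fun i => h i + (k i : ℝ)) + h₀) = P (h + h₀)
    rw [h1, hP.per]
  idem _ _ := hP.idem _ _
  sa _ _ _ := hP.sa _ _ _
  rank _ := hP.rank _

/-- frames modelled on `EuclideanSpace` -/
theorem exists_frameE {P : (Fin b → ℝ) → H →L[ℂ] H} (hP : PPer b m P) :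
    ∃ e : (Fin b → ℝ) → Zm m →L[ℂ] H, ContDiff ℝ ∞ e ∧ (∀ h z, P h (e h z) = e h z) ∧
      ∀ h : Fin b → ℝ, ‖h‖ ≤ 2 → Function.Injective (e h) := by
  obtain ⟨e, he, hPe, hei⟩ := Frame_936.exists_frame hP.smooth hP.idem
    (fun h => inferInstance) hP.rank 0 2
  let j : Zm m ≃L[ℂ] (Fin m → ℂ) := EuclideanSpace.equiv (Fin m) ℂ
  refine ⟨fun h => (e h).comp (j : Zm m →L[ℂ] (Fin m → ℂ)), ?_, fun h z => hPe h _, ?_⟩
  · exact Frame_936.contDiff_comp he contDiff_const
  · intro h hh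
    exact (hei h (by simpa using hh)).1.comp j.injective

/-- the system on the extended space -/
theorem exists_sys {P : (Fin b → ℝ) → H →L[ℂ] H} (hP : PPer b m P)
    (hdim : b + 2 * m = 2 * finrank ℂ YC) (L : T ≃L[ℝ] YR)
    {e : (Fin b → ℝ) → Zm m →L[ℂ] H} (he : ContDiff ℝ ∞ e) (hPe : ∀ h z, P h (e h z) = e h z)
    (hi : ∀ h : Fin b → ℝ, ‖h‖ ≤ 2 → Function.Injective (e h))
    {v : YC} (hv : v ≠ 0) {G : T × (Fin b → ℝ) × H → YR × YC} (cG : Continuous G)
    (pG : ∀ t h ψ (k : Fin b → ℤ), G (t, fun i => h i + k i, ψ) = G (t, h, ψ)) {R : ℝ}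
    (hR : 0 < R) (hray : ∀ t h ψ, P h ψ = ψ → (R ≤ ‖t‖ ∨ R ≤ ‖ψ‖) → ∀ s : ℝ, 0 ≤ s →
      G (t, h, ψ) ≠ s • ((0, v) : YR × YC)) :
    Sys b m P e G ((0, v) : YR × YC) R where
  smP := hP.smooth
  perP := hP.per
  idem := hP.idem
  rank := hP.rank
  smE := he
  Pe := hPe
  inj := hi
  fW := by simp
  dim := by
    have h1 := L.toLinearEquiv.finrank_eq
    rw [finrank_prod, finrank_real_of_complex]
    omega
  cG := cG
  pG := pG
  vne := fun h => hv (congrArg Prod.snd h)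
  pos := hR
  ray := hray

/-- the common final step: from `I0` to the torus integral -/
theorem to_JJ {P : (Fin b → ℝ) → H →L[ℂ] H} (hP : PPer b m P)
    (hdim : b + 2 * m = 2 * finrank ℂ YC) (L : T ≃L[ℝ] YR) {v : YC} (hv : v ≠ 0)
    {e : (Fin b → ℝ) → Zm m →L[ℂ] H} (he : ContDiff ℝ ∞ e) (hPe : ∀ h z, P h (e h z) = e h z)
    (hi : ∀ h : Fin b → ℝ, ‖h‖ ≤ 2 → Function.Injective (e h))
    (A₀ : H →L[ℂ] YC) (hA : ∀ h ψ, P h ψ = ψ → A₀ ψ = 0 → ψ = 0)
    (i : YC ≃L[ℂ] YE YC) (e' : YE YC ≃L[ℝ] (Fin b → ℝ) × Zm m)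
    [MeasurableSpace T] [BorelSpace T] (νT : Measure T) [νT.IsAddHaarMeasure]
    (μ : Measure (Zm m)) [μ.IsAddHaarMeasure] {n : ℕ} (hn : finrank ℝ (YR × YC) = n + 1)
    (bs : Basis (Fin (n + 1)) ℝ ((Fin b → ℝ) × T × Zm m))
    (om : (YR × YC) [⋀^Fin (n + 1)]→L[ℝ] ℝ) (hom : om ≠ 0) {δ : ℝ} (hδ : 0 < δ) :
    ∃ δ' > 0, ∀ u : ℝ → ℝ, ContDiff ℝ ∞ u → (∀ r, 0 ≤ u r) → 0 < u 0 →
      (∀ r, δ' ≤ r → u r = 0) → ∃ η : YR × YC → ℝ, ContDiff ℝ 1 η ∧ (∀ y, 0 ≤ η y) ∧ 0 < η 0 ∧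
        (∀ y, δ ≤ ‖y‖ → η y = 0) ∧ ∃ c : ℝ, c ≠ 0 ∧
          I0 e (Lam L A₀) (νT.prod μ) bs om η
            = c * JJ ((i : YC →L[ℂ] YE YC) ∘L A₀) e e' μ u := by
  set C : ℝ := ‖(i.symm : YE YC →L[ℂ] YC)‖ + 1 with hC
  have hCpos : 0 < C := by positivity
  have hiC : ∀ y : YC, ‖y‖ ≤ C * ‖i y‖ := by
    intro y
    have h1 := (i.symm : YE YC →L[ℂ] YC).le_opNorm (i y)
    have h2 : (i.symm : YE YC →L[ℂ] YC) (i y) = y := i.symm_apply_apply y
    rw [h2] at h1
    refine h1.trans ?_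
    gcongr
    rw [hC]
    linarith
  refine ⟨(δ / C) ^ 2, by positivity, fun u hu hu0 hu1 hu2 => ?_⟩
  let B : ContDiffBump (0 : YR) := ⟨δ / 2, δ, by positivity, by linarith⟩
  have hB0 : ∀ y : YR, δ ≤ ‖y‖ → B y = 0 := fun y hy =>
    B.zero_of_le_dist (by rw [dist_zero_right]; exact hy)
  have hB1 : B 0 = 1 := B.one_of_mem_closedBall (Metric.mem_closedBall_self (by positivity))
  have hη0 : ∀ y, δ ≤ ‖y‖ → et i B u y = 0 := by
    intro y hy
    rw [Prod.norm_def] at hy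
    rcases le_max_iff.1 hy with h1 | h1
    · show B y.1 * _ = 0
      rw [hB0 _ h1, zero_mul]
    · have h2 : δ / C ≤ ‖i y.2‖ := by
        rw [div_le_iff₀ hCpos, mul_comm]
        exact h1.trans (hiC _)
      show _ * u (‖i y.2‖ ^ 2) = 0
      rw [hu2 _ (by gcongr), mul_zero]
  refine ⟨et i B u, ?_, ?_, ?_, hη0, ?_⟩
  · have h1 : ContDiff ℝ 1 fun y : YR × YC => B y.1 := B.contDiff.comp contDiff_fst
    have h2 : ContDiff ℝ 1 fun y : YR × YC => ‖i y.2‖ ^ 2 := by
      have h3 : ContDiff ℝ 1 fun y : YR × YC => i y.2 :=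
        ((i : YC →L[ℂ] YE YC).restrictScalars ℝ).contDiff.comp contDiff_snd
      exact h3.norm_sq ℂ
    exact h1.mul ((hu.of_le (by simp)).comp h2)
  · intro y
    exact mul_nonneg B.nonneg (hu0 _)
  · show 0 < B 0 * u (‖i 0‖ ^ 2)
    rw [hB1, map_zero, norm_zero, one_mul]
    simpa using hu1
  · have h1 := i0_eq hP.smooth.continuous he hPe hi L A₀ hA i e' νT μ bs om B u B.continuous
      hu.continuous hη0
    refine ⟨Dt om bs (Phi L i e') * ∫ t, B (L t) ∂νT, ?_, h1⟩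
    refine mul_ne_zero (dt_ne bs om hom hn _ (phi_inj L i e')) ?_
    have hpT : ProperSpace T := FiniteDimensional.proper ℝ T
    have h2 : Continuous fun t : T => B (L t) := B.continuous.comp L.continuous
    have h3 : HasCompactSupport fun t : T => B (L t) :=
      B.hasCompactSupport.comp_homeomorph L.toHomeomorph
    refine (h2.integral_pos_of_hasCompactSupport_nonneg_nonzero h3 (fun t => B.nonneg)
      (x := 0) ?_).ne'
    rw [map_zero, hB1]
    exact one_ne_zero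

/-- **(D) of FDS** -/
theorem fds_d {P : (Fin b → ℝ) → H →L[ℂ] H} {L : T ≃L[ℝ] YR}
    {fR : T × (Fin b → ℝ) × H → YR} {fC : T × (Fin b → ℝ) × H → YC} {v : YC} {R : ℝ}
    (hS : FSys b m P L fR fC v R) (hN : NoRay P fR fC v) :
    ∃ (A : H →L[ℂ] YE YC) (e : (Fin b → ℝ) → Zm m →L[ℂ] H),
      (∀ h ψ, P h ψ = ψ → A ψ = 0 → ψ = 0) ∧ ContDiff ℝ ∞ e ∧
      (∀ h z, P h (e h z) = e h z) ∧ (∀ h : Fin b → ℝ, ‖h‖ ≤ 2 → Function.Injective (e h)) ∧
      ∀ (e' : YE YC ≃L[ℝ] (Fin b → ℝ) × Zm m) (μ : Measure (Zm m)) [μ.IsAddHaarMeasure],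
        ∃ δ > 0, ∀ u : ℝ → ℝ, ContDiff ℝ ∞ u → (∀ r, 0 ≤ u r) → 0 < u 0 →
          (∀ r, δ ≤ r → u r = 0) → JJ A e e' μ u = 0 := by
  classical
  obtain ⟨δa, A₀, gR, gC, hδa, hδ1, hδR, hA₀, cgR, cgC, pgR, pgC, hlin, hfar, hzer⟩ :=
    FdsA_356.fds_abc hS (fun t h ψ ht hψ hfR hfC =>
      hN t h ψ ht hψ hfR 0 le_rfl (by rw [hfC]; simp))
  obtain ⟨e, he, hPe, hi⟩ := exists_frameE hS.proj
  let cc : T → ℝ := fun t => max 0 (‖t‖ - 1)
  have hcc : Continuous cc := continuous_const.max (continuous_norm.sub continuous_const)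
  let G : T × (Fin b → ℝ) × H → YR × YC := fun x =>
    (gR (th x.1, x.2.1, x.2.2), gC (th x.1, x.2.1, x.2.2) - ((cc x.1 : ℝ) : ℂ) • v)
  have hsh : Continuous fun x : T × (Fin b → ℝ) × H =>
      ((th x.1, x.2.1, x.2.2) : T × (Fin b → ℝ) × H) :=
    (continuous_th.comp continuous_fst).prodMk continuous_snd
  have cG : Continuous G := by
    refine (cgR.comp hsh).prodMk ((cgC.comp hsh).sub ?_)
    exact (Complex.continuous_ofReal.comp (hcc.comp continuous_fst)).smul continuous_const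
  -- no solution in the collar
  have hcol : ∀ (t : T) (h : Fin b → ℝ) (ψ : H) (s : ℝ), P h ψ = ψ → 1 < ‖t‖ → 0 ≤ s →
      G (t, h, ψ) ≠ s • ((0, v) : YR × YC) := by
    intro t h ψ s hψ ht hs hG
    have e1 : gR (th t, h, ψ) = 0 := by
      have := congrArg Prod.fst hG
      simpa [G] using this
    have e2 : gC (th t, h, ψ) - ((cc t : ℝ) : ℂ) • v = (s : ℂ) • v := by
      have := congrArg Prod.snd hG
      simpa [G] using this
    have e3 : cc t = ‖t‖ - 1 := max_eq_right (by linarith)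
    obtain ⟨e4, e5⟩ := hfar (th t) h ψ (Or.inl (norm_th_large ht.le).ge)
    rw [e4] at e1
    rw [e5] at e2
    refine hN (th t) h ψ (norm_th_large ht.le) hψ e1 (s + (‖t‖ - 1)) (by linarith) ?_
    rw [sub_eq_iff_eq_add] at e2
    rw [e2, e3, ← add_smul]
    push_cast
    rfl
  set R' : ℝ := max R 0 + 2 with hR'
  have hR'1 : R ≤ R' := by
    have := le_max_left R 0
    linarith
  have hR'0 : 0 < R' := by
    have := le_max_right R 0
    linarith
  have hSys : Sys b m P e G ((0, v) : YR × YC) R' := by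
    refine exists_sys hS.proj hS.hdim L he hPe hi hS.vne cG ?_ hR'0 ?_
    · intro t h ψ k
      show (gR (th t, fun i => h i + (k i : ℝ), ψ),
        gC (th t, fun i => h i + (k i : ℝ), ψ) - ((cc t : ℝ) : ℂ) • v) = _
      rw [pgR, pgC]
    · intro t h ψ hψ hbig s hs hG
      rcases le_or_gt ‖t‖ 1 with ht | ht
      · have e0 : R' ≤ ‖ψ‖ := by
          rcases hbig with hb | hb
          · have := le_max_right R 0
            linarith
          · exact hb
        have e1 : gR (th t, h, ψ) = 0 := by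
          have := congrArg Prod.fst hG
          simpa [G] using this
        have e2 : gC (th t, h, ψ) - ((cc t : ℝ) : ℂ) • v = (s : ℂ) • v := by
          have := congrArg Prod.snd hG
          simpa [G] using this
        have e3 : cc t = 0 := max_eq_left (by linarith)
        rw [th_small ht] at e1 e2
        obtain ⟨e4, e5⟩ := hfar t h ψ (Or.inr (hR'1.trans e0))
        rw [e4] at e1
        rw [e5, e3] at e2
        simp only [Complex.ofReal_zero, zero_smul, sub_zero] at e2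
        exact hS.big t h ψ ht hψ (hR'1.trans e0) e1 s hs e2
      · exact hcol t h ψ s hψ ht hs hG
  have hLz : ∀ h t ψ, P h ψ = ψ → Lam L A₀ (t, ψ) = 0 → t = 0 ∧ ψ = 0 := by
    intro h t ψ hψ h0
    have h1 : L t = 0 := congrArg Prod.fst h0
    have h2 : A₀ ψ = 0 := congrArg Prod.snd h0
    exact ⟨by simpa using h1, hA₀ h ψ hψ h2⟩
  have hlin' : ∀ t h ψ, ‖t‖ ≤ δa → ‖ψ‖ ≤ δa → G (t, h, ψ) = Lam L A₀ (t, ψ) := by
    intro t h ψ ht hψ
    have ht1 : ‖t‖ ≤ 1 := ht.trans hδ1.le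
    obtain ⟨e1, e2⟩ := hlin t h ψ ht hψ
    have e3 : cc t = 0 := max_eq_left (by linarith)
    show (gR (th t, h, ψ), gC (th t, h, ψ) - ((cc t : ℝ) : ℂ) • v) = (L t, A₀ ψ)
    rw [th_small ht1, e1, e2, e3]
    simp
  have hz : ∀ t h ψ, P h ψ = ψ → G (t, h, ψ) = 0 → t = 0 ∧ ψ = 0 := by
    intro t h ψ hψ hG
    rcases le_or_gt ‖t‖ 1 with ht | ht
    · have e1 : gR (th t, h, ψ) = 0 := congrArg Prod.fst hG
      have e2 : gC (th t, h, ψ) - ((cc t : ℝ) : ℂ) • v = 0 := congrArg Prod.snd hG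
      have e3 : cc t = 0 := max_eq_left (by linarith)
      rw [th_small ht] at e1 e2
      rw [e3] at e2
      simp only [Complex.ofReal_zero, zero_smul, sub_zero] at e2
      exact hzer t h ψ ht hψ e1 e2
    · exact absurd (by rw [hG, zero_smul]) (hcol t h ψ 0 hψ ht le_rfl)
  -- bases
  obtain ⟨n, hn⟩ : ∃ n, finrank ℝ (YR × YC) = n + 1 := by
    have h1 : 0 < finrank ℝ (YR × YC) := by
      have : Nontrivial (YR × YC) := ⟨(0, v), 0, fun h => hS.vne (congrArg Prod.snd h)⟩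
      exact finrank_pos
    exact ⟨finrank ℝ (YR × YC) - 1, by omega⟩
  have hfX : finrank ℝ ((Fin b → ℝ) × T × Zm m) = n + 1 := by
    have h1 := hSys.dim
    rw [← hn, ← h1, finrank_prod, finrank_prod, Module.finrank_pi, Fintype.card_fin,
      finrank_real_of_complex, finrank_euclideanSpace, Fintype.card_fin]
    ring
  let bs : Basis (Fin (n + 1)) ℝ ((Fin b → ℝ) × T × Zm m) :=
    (Module.finBasis ℝ _).reindex (finCongr hfX)
  obtain ⟨om, hom⟩ := exists_top (Y := YR × YC) hn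
  let i : YC ≃L[ℂ] YE YC :=
    (LinearEquiv.ofFinrankEq YC (YE YC) (by simp)).toContinuousLinearEquiv
  refine ⟨(i : YC →L[ℂ] YE YC) ∘L A₀, e, ?_, he, hPe, hi, ?_⟩
  · intro h ψ hψ h0
    exact hA₀ h ψ hψ (by simpa using h0)
  intro e' μ hμ
  let _ : MeasurableSpace T := borel T
  have _ : BorelSpace T := ⟨rfl⟩
  have hpT : ProperSpace T := FiniteDimensional.proper ℝ T
  let νT : Measure T := Measure.addHaar
  have hν : (νT.prod μ).IsAddHaarMeasure := by
    have h1 : SFinite νT := inferInstance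
    have h2 : SFinite μ := inferInstance
    exact Measure.prod.instIsAddHaarMeasure _ _
  obtain ⟨δ, hδ, hzero⟩ := sec_zero hSys (Lam L A₀) hδa (hδR.trans_le hR'1) hLz hlin' hz
    (νT.prod μ) hn bs om
  obtain ⟨δ', hδ', hJ⟩ := to_JJ hS.proj hS.hdim L hS.vne he hPe hi A₀ hA₀ i e' νT μ hn bs om hom hδ
  refine ⟨δ', hδ', fun u hu hu0 hu1 hu2 => ?_⟩
  obtain ⟨η, hη, hηn, hη1, hη0, c, hc, hI⟩ := hJ u hu hu0 hu1 hu2
  have h1 := hzero η hη hη0
  rw [hI] at h1
  exact (mul_eq_zero.1 h1).resolve_left hc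

/-- **(D) of FDH** -/
theorem fdh_d {P : (Fin b → ℝ) → H →L[ℂ] H} {L : T ≃L[ℝ] YR}
    {fR : T × (Fin b → ℝ) × H → YR} {fC : T × (Fin b → ℝ) × H → YC} {v : YC} {R : ℝ}
    (hS : FSys b m P L fR fC v R) (hO : OneRay P fR fC v) :
    ∃ (h₀ : Fin b → ℝ) (A : H →L[ℂ] YE YC) (e : (Fin b → ℝ) → Zm m →L[ℂ] H),
      PPer b m (fun h => P (h + h₀)) ∧
      (∀ h ψ, P h ψ = ψ → A ψ = 0 → ψ = 0) ∧ ContDiff ℝ ∞ e ∧
      (∀ h z, P (h + h₀) (e h z) = e h z) ∧
      (∀ h : Fin b → ℝ, ‖h‖ ≤ 2 → Function.Injective (e h)) ∧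
      ∀ (e' : YE YC ≃L[ℝ] (Fin b → ℝ) × Zm m) (μ : Measure (Zm m)) [μ.IsAddHaarMeasure],
        ∃ δ > 0, ∀ u : ℝ → ℝ, ContDiff ℝ ∞ u → (∀ r, 0 ≤ u r) → 0 < u 0 →
          (∀ r, δ ≤ r → u r = 0) → JJ A e e' μ u ≠ 0 := by
  classical
  obtain ⟨t₀, h₀, ψ₀, s₀, L', ht₀, hψ₀, hs₀, hR₀, hC₀, h3, hL', hLi⟩ := hO
  obtain ⟨δa, A₀, gR, gC, hδa, hδ1, hδR, hA₀, cgR, cgC, pgR, pgC, hlin, hfar, hzer⟩ :=
    FdsA_356.fds_abc hS (fun t h ψ ht hψ hfR hfC => by
      have := (h3 t h ψ 0 ht hψ le_rfl hfR (by rw [hfC]; simp)).2.2.1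
      linarith)
  let P' : (Fin b → ℝ) → H →L[ℂ] H := fun h => P (h + h₀)
  have hP' : PPer b m P' := PPer.shift hS.proj h₀
  obtain ⟨e, he, hPe, hi⟩ := exists_frameE hP'
  let cc : T → ℝ := fun t => max 0 (‖t‖ - 1)
  have hcc : Continuous cc := continuous_const.max (continuous_norm.sub continuous_const)
  let G : T × (Fin b → ℝ) × H → YR × YC := fun x =>
    (gR (th x.1, x.2.1 + h₀, x.2.2), gC (th x.1, x.2.1 + h₀, x.2.2) - ((cc x.1 : ℝ) : ℂ) • v)
  have hsh : Continuous fun x : T × (Fin b → ℝ) × H =>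
      ((th x.1, x.2.1 + h₀, x.2.2) : T × (Fin b → ℝ) × H) :=
    (continuous_th.comp continuous_fst).prodMk
      (((continuous_fst.comp continuous_snd).add continuous_const).prodMk
        (continuous_snd.comp continuous_snd))
  have cG : Continuous G := by
    refine (cgR.comp hsh).prodMk ((cgC.comp hsh).sub ?_)
    exact (Complex.continuous_ofReal.comp (hcc.comp continuous_fst)).smul continuous_const
  -- solutions in the collar
  have hcol : ∀ (t : T) (h : Fin b → ℝ) (ψ : H) (s : ℝ), P' h ψ = ψ → 1 < ‖t‖ → 0 ≤ s →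
      G (t, h, ψ) = s • ((0, v) : YR × YC) → th t = t₀ ∧ ψ = ψ₀ ∧ s + (‖t‖ - 1) = s₀ ∧
        ∃ k : Fin b → ℤ, h = fun i => (k i : ℝ) := by
    intro t h ψ s hψ ht hs hG
    have e1 : gR (th t, h + h₀, ψ) = 0 := by
      have := congrArg Prod.fst hG
      simpa [G] using this
    have e2 : gC (th t, h + h₀, ψ) - ((cc t : ℝ) : ℂ) • v = (s : ℂ) • v := by
      have := congrArg Prod.snd hG
      simpa [G] using this
    have e3 : cc t = ‖t‖ - 1 := max_eq_right (by linarith)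
    obtain ⟨e4, e5⟩ := hfar (th t) (h + h₀) ψ (Or.inl (norm_th_large ht.le).ge)
    rw [e4] at e1
    rw [e5] at e2
    have e6 : fC (th t, h + h₀, ψ) = ((s + (‖t‖ - 1) : ℝ) : ℂ) • v := by
      rw [sub_eq_iff_eq_add] at e2
      rw [e2, e3, ← add_smul]
      push_cast
      rfl
    obtain ⟨e7, e8, e9, k, hk⟩ := h3 (th t) (h + h₀) ψ (s + (‖t‖ - 1))
      (norm_th_large ht.le) hψ (by linarith) e1 e6
    refine ⟨e7, e8, e9, k, ?_⟩
    funext i
    have := congrFun hk i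
    simp only [Pi.add_apply] at this
    linarith
  set R' : ℝ := max (max R 0) (‖ψ₀‖ + 1) + (2 + s₀) with hR'
  have hR'1 : R ≤ R' := by
    have := (le_max_left R 0).trans (le_max_left (max R 0) (‖ψ₀‖ + 1))
    linarith
  have hR'2 : ‖ψ₀‖ < R' := by
    have := le_max_right (max R 0) (‖ψ₀‖ + 1)
    linarith
  have hR'3 : 1 + s₀ < R' := by
    have := (le_max_right R 0).trans (le_max_left (max R 0) (‖ψ₀‖ + 1))
    linarith
  have hSys : Sys b m P' e G ((0, v) : YR × YC) R' := by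
    refine exists_sys hP' hS.hdim L he hPe hi hS.vne cG ?_ (by linarith) ?_
    · intro t h ψ k
      have h1 : (fun i => h i + (k i : ℝ)) + h₀ = fun i => (h + h₀) i + (k i : ℝ) := by
        funext i
        simp only [Pi.add_apply]
        ring
      show (gR (th t, (fun i => h i + (k i : ℝ)) + h₀, ψ),
        gC (th t, (fun i => h i + (k i : ℝ)) + h₀, ψ) - ((cc t : ℝ) : ℂ) • v) = _
      rw [h1, pgR, pgC]
    · intro t h ψ hψ hbig s hs hG
      rcases le_or_gt ‖t‖ 1 with ht | ht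
      · have e0 : R' ≤ ‖ψ‖ := by
          rcases hbig with hb | hb
          · linarith
          · exact hb
        have e1 : gR (th t, h + h₀, ψ) = 0 := by
          have := congrArg Prod.fst hG
          simpa [G] using this
        have e2 : gC (th t, h + h₀, ψ) - ((cc t : ℝ) : ℂ) • v = (s : ℂ) • v := by
          have := congrArg Prod.snd hG
          simpa [G] using this
        have e3 : cc t = 0 := max_eq_left (by linarith)
        rw [th_small ht] at e1 e2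
        obtain ⟨e4, e5⟩ := hfar t (h + h₀) ψ (Or.inr (hR'1.trans e0))
        rw [e4] at e1
        rw [e5, e3] at e2
        simp only [Complex.ofReal_zero, zero_smul, sub_zero] at e2
        exact hS.big t (h + h₀) ψ ht hψ (hR'1.trans e0) e1 s hs e2
      · obtain ⟨e1, e2, e3, -⟩ := hcol t h ψ s hψ ht hs hG
        rcases hbig with hb | hb
        · linarith
        · rw [e2] at hb
          linarith
  have hLz : ∀ h t ψ, P' h ψ = ψ → Lam L A₀ (t, ψ) = 0 → t = 0 ∧ ψ = 0 := by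
    intro h t ψ hψ h0
    have h1 : L t = 0 := congrArg Prod.fst h0
    have h2 : A₀ ψ = 0 := congrArg Prod.snd h0
    exact ⟨by simpa using h1, hA₀ (h + h₀) ψ hψ h2⟩
  have hlin' : ∀ t h ψ, ‖t‖ ≤ δa → ‖ψ‖ ≤ δa → G (t, h, ψ) = Lam L A₀ (t, ψ) := by
    intro t h ψ ht hψ
    have ht1 : ‖t‖ ≤ 1 := ht.trans hδ1.le
    obtain ⟨e1, e2⟩ := hlin t (h + h₀) ψ ht hψ
    have e3 : cc t = 0 := max_eq_left (by linarith)
    show (gR (th t, h + h₀, ψ), gC (th t, h + h₀, ψ) - ((cc t : ℝ) : ℂ) • v) = (L t, A₀ ψ)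
    rw [th_small ht1, e1, e2, e3]
    simp
  have hn1 : ‖(1 + s₀) • t₀‖ = 1 + s₀ := by
    rw [norm_smul, ht₀, mul_one, Real.norm_of_nonneg (by linarith)]
  have hz : ∀ t h ψ, P' h ψ = ψ → (∀ j, |h j| ≤ 3 / 4) → G (t, h, ψ) = 0 →
      (t = 0 ∧ ψ = 0) ∨ (t = (1 + s₀) • t₀ ∧ h = 0 ∧ ψ = ψ₀) := by
    intro t h ψ hψ hh hG
    rcases le_or_gt ‖t‖ 1 with ht | ht
    · left
      have e1 : gR (th t, h + h₀, ψ) = 0 := congrArg Prod.fst hG
      have e2 : gC (th t, h + h₀, ψ) - ((cc t : ℝ) : ℂ) • v = 0 := congrArg Prod.snd hG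
      have e3 : cc t = 0 := max_eq_left (by linarith)
      rw [th_small ht] at e1 e2
      rw [e3] at e2
      simp only [Complex.ofReal_zero, zero_smul, sub_zero] at e2
      exact hzer t (h + h₀) ψ ht hψ e1 e2
    · right
      obtain ⟨e1, e2, e3, k, hk⟩ := hcol t h ψ 0 hψ ht le_rfl (by rw [hG, zero_smul])
      have e4 : ‖t‖ = 1 + s₀ := by linarith
      have e5 : t = (1 + s₀) • t₀ := by
        rw [← e1, th_large ht.le, ← e4, smul_smul, mul_inv_cancel₀ (by linarith), one_smul]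
      refine ⟨e5, ?_, e2⟩
      funext i
      have e6 := hh i
      rw [hk] at e6 ⊢
      have e7 : (k i : ℤ) = 0 := by
        by_contra hne
        have e8 : (1 : ℝ) ≤ |(k i : ℝ)| := by
          have := Int.one_le_abs hne
          exact_mod_cast this
        have e9 : |(k i : ℝ)| ≤ 3 / 4 := e6
        linarith
      show ((k i : ℤ) : ℝ) = 0
      rw [e7]
      simp
  -- bases
  obtain ⟨n, hn⟩ : ∃ n, finrank ℝ (YR × YC) = n + 1 := by
    have h1 : 0 < finrank ℝ (YR × YC) := by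
      have : Nontrivial (YR × YC) := ⟨(0, v), 0, fun h => hS.vne (congrArg Prod.snd h)⟩
      exact finrank_pos
    exact ⟨finrank ℝ (YR × YC) - 1, by omega⟩
  have hfX : finrank ℝ ((Fin b → ℝ) × T × Zm m) = n + 1 := by
    have h1 := hSys.dim
    rw [← hn, ← h1, finrank_prod, finrank_prod, Module.finrank_pi, Fintype.card_fin,
      finrank_real_of_complex, finrank_euclideanSpace, Fintype.card_fin]
    ring
  let bs : Basis (Fin (n + 1)) ℝ ((Fin b → ℝ) × T × Zm m) :=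
    (Module.finBasis ℝ _).reindex (finCongr hfX)
  obtain ⟨om, hom⟩ := exists_top (Y := YR × YC) hn
  let i : YC ≃L[ℂ] YE YC :=
    (LinearEquiv.ofFinrankEq YC (YE YC) (by simp)).toContinuousLinearEquiv
  refine ⟨h₀, (i : YC →L[ℂ] YE YC) ∘L A₀, e, hP', ?_, he, hPe, hi, ?_⟩
  · intro h ψ hψ h0
    exact hA₀ h ψ hψ (by simpa using h0)
  intro e' μ hμ
  let _ : MeasurableSpace T := borel T
  have _ : BorelSpace T := ⟨rfl⟩
  have hpT : ProperSpace T := FiniteDimensional.proper ℝ T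
  let νT : Measure T := Measure.addHaar
  have hν : (νT.prod μ).IsAddHaarMeasure := by
    have h1 : SFinite νT := inferInstance
    have h2 : SFinite μ := inferInstance
    exact Measure.prod.instIsAddHaarMeasure _ _
  obtain ⟨δ, hδ, hne⟩ := sec_ne hSys (Lam L A₀) hδa (hδR.trans_le hR'1) hLz hlin'
    ((1 + s₀) • t₀) ψ₀
    (by
      have h1 := norm_fst_le ((((1 + s₀) • t₀, ψ₀)) : T × H)
      have h2 : ‖(1 + s₀) • t₀‖ ≤ ‖(((1 + s₀) • t₀, ψ₀) : T × H)‖ := h1
      rw [hn1] at h2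
      linarith)
    (by rw [hn1]; exact hR'3) hR'2
    (by
      show P (0 + h₀) ψ₀ = ψ₀
      rw [zero_add]
      exact hψ₀)
    (by
      have e2 : th ((1 + s₀) • t₀) = t₀ := by
        rw [th_large (by rw [hn1]; linarith), hn1, smul_smul, inv_mul_cancel₀ (by linarith),
          one_smul]
      have e3 : cc ((1 + s₀) • t₀) = s₀ := by
        show max 0 (‖(1 + s₀) • t₀‖ - 1) = s₀
        rw [hn1, max_eq_right (by linarith)]
        ring
      obtain ⟨e5, e6⟩ := hfar t₀ h₀ ψ₀ (Or.inl ht₀.ge)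
      show (gR (th ((1 + s₀) • t₀), 0 + h₀, ψ₀),
        gC (th ((1 + s₀) • t₀), 0 + h₀, ψ₀) - ((cc ((1 + s₀) • t₀) : ℝ) : ℂ) • v) = 0
      rw [e2, e3, zero_add, e5, e6, hR₀, hC₀, sub_self]
      rfl)
    hz L'
    (by
      let sh : T × (Fin b → ℝ) × H → T × (Fin b → ℝ) × H := fun x => x + (0, h₀, 0)
      have e2 : HasFDerivAt sh (ContinuousLinearMap.id ℝ _) ((1 + s₀) • t₀, 0, ψ₀) :=
        (hasFDerivAt_id _).add_const _
      have e3 : sh ((1 + s₀) • t₀, 0, ψ₀) = ((1 + s₀) • t₀, h₀, ψ₀) := by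
        simp [sh]
      have e4 := hL'
      rw [← e3] at e4
      have e5 := HasFDerivAt.comp ((1 + s₀) • t₀, (0 : Fin b → ℝ), ψ₀) e4 e2
      rw [ContinuousLinearMap.comp_id] at e5
      refine e5.congr_of_eventuallyEq ?_
      have e6 : ∀ᶠ x : T × (Fin b → ℝ) × H in 𝓝 ((1 + s₀) • t₀, 0, ψ₀), 1 < ‖x.1‖ := by
        refine (isOpen_lt continuous_const continuous_fst.norm).mem_nhds ?_
        show 1 < ‖(1 + s₀) • t₀‖
        rw [hn1]
        linarith
      filter_upwards [e6] with x hx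
      have e7 : th x.1 = ‖x.1‖⁻¹ • x.1 := th_large hx.le
      have e8 : cc x.1 = ‖x.1‖ - 1 := max_eq_right (by linarith)
      obtain ⟨e9, e10⟩ := hfar (th x.1) (x.2.1 + h₀)
        (P (x.2.1 + h₀) x.2.2) (Or.inl (norm_th_large hx.le).ge)
      have e11 : (sh x).1 = x.1 := by simp [sh]
      have e12 : (sh x).2.1 = x.2.1 + h₀ := by simp [sh]
      have e13 : (sh x).2.2 = x.2.2 := by simp [sh]
      show (gR (th x.1, x.2.1 + h₀, P (x.2.1 + h₀) x.2.2),
        gC (th x.1, x.2.1 + h₀, P (x.2.1 + h₀) x.2.2) - ((cc x.1 : ℝ) : ℂ) • v)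
        = (fR (‖(sh x).1‖⁻¹ • (sh x).1, (sh x).2.1, P (sh x).2.1 (sh x).2.2),
          fC (‖(sh x).1‖⁻¹ • (sh x).1, (sh x).2.1, P (sh x).2.1 (sh x).2.2)
            - ((‖(sh x).1‖ - 1 : ℝ) : ℂ) • v)
      rw [e9, e10, e8, e7, e11, e12, e13])
    (by
      intro τ κ ξ hξ
      refine hLi τ κ ξ ?_
      have e5 : P (0 + h₀) ξ = ξ := hξ
      rwa [zero_add] at e5)
    (νT.prod μ) hn bs om hom
  obtain ⟨δ', hδ', hJ⟩ := to_JJ hP' hS.hdim L hS.vne he hPe hi A₀
    (fun h ψ hψ => hA₀ (h + h₀) ψ hψ) i e' νT μ hn bs om hom hδ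
  refine ⟨δ', hδ', fun u hu hu0 hu1 hu2 h0 => ?_⟩
  obtain ⟨η, hη, hηn, hη1, hη0, c, hc, hI⟩ := hJ u hu hu0 hu1 hu2
  refine hne η hη hηn hη1 hη0 ?_
  rw [hI, h0, mul_zero]

end Crest.Agent.R235.FdsD_778
end
end

-- ▼ part R235/FamFour_504

/-!
Row 235 (S0364), package FAM, leaf FOUR (helper504): a closed periodic two-form with vanishing
means has `∫ w ∧ w = 0`.

No Fourier series: `∫ dη ∧ w = 0` for a periodic `η`, so `∫ (τ_a w) ∧ w` does not depend on the
translation `a`; its mean over `a` vanishes.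
-/

set_option autoImplicit false
set_option maxSynthPendingDepth 3

open Set Filter Module MeasureTheory Function
open scoped ContDiff Topology InnerProductSpace

namespace Crest.Agent.R235.FamFour_504

open Crest.Agent.R235.FamDefs_307

noncomputable section

/-- the torus coordinates. -/
abbrev C4 : Type := Fin 4 → ℝ

/-- the cube. -/
abbrev Q4 : Set C4 := Icc (0 : C4) 1

/-- periodic functions. -/
def Per (F : C4 → ℂ) : Prop := ∀ (h : C4) (k : Fin 4 → ℤ), F (fun l => h l + k l) = F h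

theorem vol_Q4 : volume.real Q4 = 1 := by
  rw [Measure.real, Real.volume_Icc_pi]
  simp


theorem cont_pdθ {F : C4 → ℂ} (hF : ContDiff ℝ ∞ F) (j : Fin 4) : Continuous (pdθ j F) :=
  (hF.continuous_fderiv (by simp)).clm_apply continuous_const

/-- the integral of a derivative over the torus. -/
theorem int_pdθ {F : C4 → ℂ} (hF : ContDiff ℝ 1 F) (hp : Per F) (j : Fin 4) :
    ∫ h in Q4, pdθ j F h = 0 := by
  have key := integral_divergence_of_hasFDerivAt_off_countable' (0 : C4) 1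
    (by intro i; simp) (fun i => if i = j then F else 0)
    (fun i => if i = j then fderiv ℝ F else 0) ∅ countable_empty
    (by
      intro i
      by_cases h : i = j
      · simp only [h, if_true]; exact hF.continuous.continuousOn
      · simp only [h, if_false]; exact continuousOn_const)
    (by
      intro x _ i
      by_cases h : i = j
      · simp only [h, if_true]
        exact (hF.differentiable (by simp) x).hasFDerivAt
      · simp only [h, if_false]
        exact hasFDerivAt_const 0 x)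
    (by
      apply ContinuousOn.integrableOn_Icc
      refine (continuous_finsetSum _ fun i _ => ?_).continuousOn
      by_cases h : i = j
      · simp only [h, if_true]
        exact (hF.continuous_fderiv (by simp)).clm_apply continuous_const
      · simp only [h, if_false]
        exact continuous_const)
  have hL : ∀ x : C4, ∑ i, (if i = j then fderiv ℝ F else 0) x (Pi.single i 1) = pdθ j F x := by
    intro x
    rw [Finset.sum_eq_single j]
    · simp [pdθ]
    · intro i _ hi; simp [hi]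
    · intro h; exact absurd (Finset.mem_univ j) h
  simp only [hL] at key
  rw [key]
  refine Finset.sum_eq_zero fun i _ => ?_
  by_cases h : i = j
  · subst h
    simp only [if_true]
    rw [sub_eq_zero]
    refine setIntegral_congr_fun measurableSet_Icc fun x _ => ?_
    have h1 := hp (Fin.insertNth i ((0 : C4) i) x) (Pi.single i 1)
    rw [← h1]
    congr 1
    funext l
    rcases eq_or_ne l i with rfl | hl
    · simp
    · obtain ⟨m, rfl⟩ := Fin.exists_succAbove_eq hl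
      simp
  · simp [h]

/-! ### antisymmetrisation -/

/-- the antisymmetrised sum. -/
def S4 (A : Fin 4 → Fin 4 → Fin 4 → Fin 4 → ℂ) : ℂ :=
  ∑ σ : Equiv.Perm (Fin 4), sg σ * A (σ 0) (σ 1) (σ 2) (σ 3)

theorem sg_mul (σ τ : Equiv.Perm (Fin 4)) : sg (σ * τ) = sg σ * sg τ := by
  unfold sg
  rw [Equiv.Perm.sign_mul]
  push_cast
  ring

theorem S4_comp (τ : Equiv.Perm (Fin 4)) (A : Fin 4 → Fin 4 → Fin 4 → Fin 4 → ℂ) :
    ∑ σ : Equiv.Perm (Fin 4), sg σ * A (σ (τ 0)) (σ (τ 1)) (σ (τ 2)) (σ (τ 3)) =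
      sg τ * S4 A := by
  have h := Equiv.sum_comp (Equiv.mulRight τ)
    (fun σ : Equiv.Perm (Fin 4) => sg σ * A (σ 0) (σ 1) (σ 2) (σ 3))
  unfold S4
  rw [← h, Finset.mul_sum]
  refine Finset.sum_congr rfl fun σ _ => ?_
  have h1 : sg τ * sg τ = 1 := by
    unfold sg
    rcases Int.units_eq_one_or (Equiv.Perm.sign τ) with h | h <;> simp [h]
  simp only [Equiv.coe_mulRight, sg_mul, Equiv.Perm.mul_apply]
  calc sg σ * A (σ (τ 0)) (σ (τ 1)) (σ (τ 2)) (σ (τ 3))
      = (sg τ * sg τ) * (sg σ * A (σ (τ 0)) (σ (τ 1)) (σ (τ 2)) (σ (τ 3))) := by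
        rw [h1, one_mul]
    _ = _ := by ring

theorem S4_add (A B : Fin 4 → Fin 4 → Fin 4 → Fin 4 → ℂ) :
    S4 (fun a b c d => A a b c d + B a b c d) = S4 A + S4 B := by
  unfold S4
  rw [← Finset.sum_add_distrib]
  exact Finset.sum_congr rfl fun σ _ => by ring

theorem S4_sub (A B : Fin 4 → Fin 4 → Fin 4 → Fin 4 → ℂ) :
    S4 (fun a b c d => A a b c d - B a b c d) = S4 A - S4 B := by
  unfold S4
  rw [← Finset.sum_sub_distrib]
  exact Finset.sum_congr rfl fun σ _ => by ring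

/-- exchange of the first two entries. -/
theorem S4_swap (A : Fin 4 → Fin 4 → Fin 4 → Fin 4 → ℂ) :
    S4 (fun a b c d => A b a c d) = - S4 A := by
  have h := S4_comp (Equiv.swap 0 1) A
  have h0 : (Equiv.swap (0 : Fin 4) 1) 0 = 1 := by decide
  have h1 : (Equiv.swap (0 : Fin 4) 1) 1 = 0 := by decide
  have h2 : (Equiv.swap (0 : Fin 4) 1) 2 = 2 := by decide
  have h3 : (Equiv.swap (0 : Fin 4) 1) 3 = 3 := by decide
  have h4 : sg (Equiv.swap (0 : Fin 4) 1) = -1 := by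
    unfold sg
    rw [Equiv.Perm.sign_swap (by decide)]
    simp
  rw [h0, h1, h2, h3, h4, neg_one_mul] at h
  exact h

/-- cyclic permutation of the entries `0, 2, 3`. -/
theorem S4_cyc (A : Fin 4 → Fin 4 → Fin 4 → Fin 4 → ℂ) :
    S4 (fun a b c d => A c b d a) = S4 A := by
  have h := S4_comp (Equiv.swap 0 2 * Equiv.swap 2 3) A
  have h0 : (Equiv.swap 0 2 * Equiv.swap 2 3 : Equiv.Perm (Fin 4)) 0 = 2 := by decide
  have h1 : (Equiv.swap 0 2 * Equiv.swap 2 3 : Equiv.Perm (Fin 4)) 1 = 1 := by decide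
  have h2 : (Equiv.swap 0 2 * Equiv.swap 2 3 : Equiv.Perm (Fin 4)) 2 = 3 := by decide
  have h3 : (Equiv.swap 0 2 * Equiv.swap 2 3 : Equiv.Perm (Fin 4)) 3 = 0 := by decide
  have h4 : sg (Equiv.swap 0 2 * Equiv.swap 2 3 : Equiv.Perm (Fin 4)) = 1 := by
    rw [sg_mul]
    unfold sg
    rw [Equiv.Perm.sign_swap (by decide), Equiv.Perm.sign_swap (by decide)]
    simp
  rw [h0, h1, h2, h3, h4, one_mul] at h
  exact h

theorem S4_congr {A B : Fin 4 → Fin 4 → Fin 4 → Fin 4 → ℂ} (h : ∀ a b c d, A a b c d = B a b c d) :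
    S4 A = S4 B := by
  unfold S4
  exact Finset.sum_congr rfl fun σ _ => by rw [h]

/-- the algebraic part of `dη ∧ w = d (η ∧ w)`. -/
theorem S4_exact {p : Fin 4 → Fin 4 → ℂ} {η : Fin 4 → ℂ} {w : Fin 4 → Fin 4 → ℂ}
    {dw : Fin 4 → Fin 4 → Fin 4 → ℂ} (hcl : ∀ i j k, dw i j k + dw j k i + dw k i j = 0) :
    S4 (fun a b c d => (p a b - p b a) * w c d) =
      2 * S4 (fun a b c d => p a b * w c d + η b * dw a c d) := by
  have h1 : S4 (fun a b c d => (p a b - p b a) * w c d) = 2 * S4 (fun a b c d => p a b * w c d) := by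
    have e1 : S4 (fun a b c d => (p a b - p b a) * w c d) =
        S4 (fun a b c d => p a b * w c d) - S4 (fun a b c d => p b a * w c d) := by
      rw [← S4_sub]
      exact S4_congr fun a b c d => by ring
    rw [e1, S4_swap (fun a b c d => p a b * w c d)]
    ring
  have h2 : S4 (fun a b c d => η b * dw a c d) = 0 := by
    have e1 : S4 (fun a b c d => η b * dw c d a) = S4 (fun a b c d => η b * dw a c d) :=
      S4_cyc (fun a b c d => η b * dw a c d)
    have e2 : S4 (fun a b c d => η b * dw d a c) = S4 (fun a b c d => η b * dw c d a) :=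
      S4_cyc (fun a b c d => η b * dw c d a)
    have e3 : S4 (fun a b c d => η b * dw a c d) + S4 (fun a b c d => η b * dw c d a) +
        S4 (fun a b c d => η b * dw d a c) = 0 := by
      rw [← S4_add, ← S4_add]
      unfold S4
      refine Finset.sum_eq_zero fun σ _ => ?_
      have h3 := hcl (σ 0) (σ 2) (σ 3)
      have : η (σ 1) * dw (σ 0) (σ 2) (σ 3) + η (σ 1) * dw (σ 2) (σ 3) (σ 0) +
          η (σ 1) * dw (σ 3) (σ 0) (σ 2) = 0 := by
        rw [← mul_add, ← mul_add, h3, mul_zero]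
      beta_reduce
      rw [this, mul_zero]
    rw [e2, e1] at e3
    have h4 : (3 : ℂ) * S4 (fun a b c d => η b * dw a c d) = 0 := by
      rw [← e3]; ring
    exact (mul_eq_zero.1 h4).resolve_left (by norm_num)
  rw [h1, S4_add (fun a b c d => p a b * w c d) (fun a b c d => η b * dw a c d), h2, add_zero]

/-! ### calculus on the torus -/

/-- the Fubini theorem used below. -/
theorem swap_int {G : C4 → ℝ → ℂ} (hG : Continuous fun z : C4 × ℝ => G z.1 z.2) :
    ∫ h in Q4, ∫ t in (0 : ℝ)..1, G h t = ∫ t in (0 : ℝ)..1, ∫ h in Q4, G h t := by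
  simp only [intervalIntegral.integral_of_le zero_le_one]
  refine integral_integral_swap ?_
  rw [Measure.prod_restrict]
  have h1 : IntegrableOn (uncurry G) (Q4 ×ˢ Icc (0 : ℝ) 1) (volume.prod volume) :=
    hG.continuousOn.integrableOn_compact (isCompact_Icc.prod isCompact_Icc)
  exact h1.mono_set (prod_mono_right Ioc_subset_Icc_self)

theorem swap_int' {G : C4 → C4 → ℂ} (hG : Continuous fun z : C4 × C4 => G z.1 z.2) :
    ∫ h in Q4, ∫ a in Q4, G h a = ∫ a in Q4, ∫ h in Q4, G h a := by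
  refine integral_integral_swap ?_
  rw [Measure.prod_restrict]
  exact hG.continuousOn.integrableOn_compact (isCompact_Icc.prod isCompact_Icc)

theorem fderiv_eq_sum {F : C4 → ℂ} (x a : C4) : fderiv ℝ F x a = ∑ k, (a k : ℂ) * pdθ k F x := by
  have h1 : a = ∑ k, a k • (Pi.single k 1 : C4) := by
    funext l
    simp [Finset.sum_apply, Pi.single_apply]
  conv_lhs => rw [h1]
  rw [map_sum]
  refine Finset.sum_congr rfl fun k _ => ?_
  rw [map_smul, Complex.real_smul]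
  rfl

/-- the fundamental theorem along a segment. -/
theorem sub_eq_int {F : C4 → ℂ} (hF : ContDiff ℝ ∞ F) (h a : C4) :
    F (h + a) - F h = ∫ t in (0 : ℝ)..1, fderiv ℝ F (h + t • a) a := by
  have h1 : ∀ t : ℝ, HasDerivAt (fun t : ℝ => F (h + t • a)) (fderiv ℝ F (h + t • a) a) t := by
    intro t
    have h2 : HasDerivAt (fun t : ℝ => h + t • a) a t := by
      have h3 : HasDerivAt (fun t : ℝ => t • a) ((1 : ℝ) • a) t := (hasDerivAt_id t).smul_const a
      rw [one_smul] at h3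
      exact h3.const_add h
    exact ((hF.differentiable (by simp) (h + t • a)).hasFDerivAt).comp_hasDerivAt t h2
  have h4 : Continuous fun t : ℝ => fderiv ℝ F (h + t • a) a :=
    ((hF.continuous_fderiv (by simp)).comp (by fun_prop)).clm_apply continuous_const
  rw [intervalIntegral.integral_eq_sub_of_hasDerivAt (fun t _ => h1 t) (h4.intervalIntegrable 0 1)]
  simp

theorem Per.shift {F : C4 → ℂ} (hF : Per F) (a : C4) : Per fun h => F (h + a) := by
  intro h k
  have h1 := hF (h + a) k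
  beta_reduce
  rw [← h1]
  congr 1
  funext l
  simp only [Pi.add_apply]
  ring

theorem smooth_shift {F : C4 → ℂ} (hF : ContDiff ℝ ∞ F) (a : C4) :
    ContDiff ℝ ∞ fun h => F (h + a) := hF.comp (contDiff_id.add contDiff_const)

theorem pdθ_shift {F : C4 → ℂ} (j : Fin 4) (a h : C4) :
    pdθ j (fun x => F (x + a)) h = pdθ j F (h + a) := by
  unfold pdθ
  rw [fderiv_comp_add_right]

/-- translation invariance. -/
theorem int_shift {F : C4 → ℂ} (hF : ContDiff ℝ ∞ F) (hp : Per F) (a : C4) :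
    ∫ h in Q4, F (h + a) = ∫ h in Q4, F h := by
  have hi1 : IntegrableOn (fun h => F (h + a)) Q4 :=
    ContinuousOn.integrableOn_Icc (hF.continuous.comp (by fun_prop)).continuousOn
  have hi2 : IntegrableOn F Q4 := ContinuousOn.integrableOn_Icc hF.continuous.continuousOn
  rw [← sub_eq_zero, ← integral_sub hi1 hi2]
  simp only [sub_eq_int hF]
  have hc : Continuous fun z : C4 × ℝ => fderiv ℝ F (z.1 + z.2 • a) a :=
    ((hF.continuous_fderiv (by simp)).comp (by fun_prop)).clm_apply continuous_const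
  rw [swap_int (G := fun h t => fderiv ℝ F (h + t • a) a) hc]
  have h1 : ∀ t : ℝ, ∫ h in Q4, fderiv ℝ F (h + t • a) a = 0 := by
    intro t
    simp only [fderiv_eq_sum]
    rw [integral_finsetSum]
    · refine Finset.sum_eq_zero fun k _ => ?_
      rw [integral_const_mul]
      simp only [← pdθ_shift]
      rw [int_pdθ ((smooth_shift hF _).of_le (by simp)) (hp.shift _), mul_zero]
    · intro k _
      apply ContinuousOn.integrableOn_Icc
      exact (continuous_const.mul ((cont_pdθ hF k).comp (by fun_prop))).continuousOn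
  simp only [h1]
  simp

theorem cont_S4 {X : Type*} [TopologicalSpace X] {A : X → Fin 4 → Fin 4 → Fin 4 → Fin 4 → ℂ}
    (hA : ∀ a b c d, Continuous fun x => A x a b c d) : Continuous fun x => S4 (A x) := by
  unfold S4
  exact continuous_finsetSum _ fun σ _ => continuous_const.mul (hA _ _ _ _)

theorem int_S4 {A : C4 → Fin 4 → Fin 4 → Fin 4 → Fin 4 → ℂ}
    (hA : ∀ a b c d, Continuous fun x => A x a b c d)
    (h0 : ∀ a b c d, ∫ h in Q4, A h a b c d = 0) : ∫ h in Q4, S4 (A h) = 0 := by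
  unfold S4
  rw [integral_finsetSum]
  · refine Finset.sum_eq_zero fun σ _ => ?_
    rw [integral_const_mul, h0, mul_zero]
  · intro σ _
    exact ContinuousOn.integrableOn_Icc (continuous_const.mul (hA _ _ _ _)).continuousOn

/-- closed periodic two-forms. -/
structure Cl (w : Fin 4 → Fin 4 → C4 → ℂ) : Prop where
  sm : ∀ i j, ContDiff ℝ ∞ (w i j)
  alt : ∀ i j h, w i j h = - w j i h
  per : ∀ i j, Per (w i j)
  cl : ∀ i j k h, pdθ i (w j k) h + pdθ j (w k i) h + pdθ k (w i j) h = 0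


/-- `∫ dη ∧ w = 0`. -/
theorem int_exact {η : Fin 4 → C4 → ℂ} (hη : ∀ i, ContDiff ℝ ∞ (η i)) (hp : ∀ i, Per (η i))
    {w : Fin 4 → Fin 4 → C4 → ℂ} (hw : Cl w) :
    ∫ h in Q4, S4 (fun a b c d => (pdθ a (η b) h - pdθ b (η a) h) * w c d h) = 0 := by
  have h1 : ∀ h, S4 (fun a b c d => (pdθ a (η b) h - pdθ b (η a) h) * w c d h) =
      2 * S4 (fun a b c d => pdθ a (fun x => η b x * w c d x) h) := by
    intro h
    rw [S4_exact (p := fun a b => pdθ a (η b) h) (η := fun i => η i h) (w := fun i j => w i j h)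
      (dw := fun i j k => pdθ i (w j k) h) (fun i j k => hw.cl i j k h)]
    congr 1
    refine S4_congr fun a b c d => ?_
    have h2 : DifferentiableAt ℝ (η b) h := (hη b).differentiable (by simp) h
    have h3 : DifferentiableAt ℝ (w c d) h := (hw.sm c d).differentiable (by simp) h
    have h4 : fderiv ℝ (fun x => η b x * w c d x) h =
        η b h • fderiv ℝ (w c d) h + w c d h • fderiv ℝ (η b) h := fderiv_fun_mul h2 h3
    unfold pdθ
    rw [h4]
    simp only [add_apply, smul_apply, smul_eq_mul]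
    ring
  simp only [h1]
  rw [integral_const_mul, int_S4, mul_zero]
  · intro a b c d
    exact cont_pdθ ((hη b).mul (hw.sm c d)) a
  · intro a b c d
    refine int_pdθ (((hη b).mul (hw.sm c d)).of_le (by simp)) (fun h k => ?_) a
    show η b _ * w c d _ = _
    rw [hp b h k, hw.per c d h k]

/-- the pairing with a translate does not depend on the translation. -/
theorem int_translate {w : Fin 4 → Fin 4 → C4 → ℂ} (hw : Cl w) (v : C4) :
    ∫ h in Q4, S4 (fun a b c d => w a b (h + v) * w c d h) =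
      ∫ h in Q4, S4 (fun a b c d => w a b h * w c d h) := by
  have hi : ∀ u : C4, IntegrableOn (fun h => S4 (fun a b c d => w a b (h + u) * w c d h)) Q4 := by
    intro u
    apply ContinuousOn.integrableOn_Icc
    refine (cont_S4 fun a b c d => ?_).continuousOn
    exact ((smooth_shift (hw.sm a b) u).continuous).mul (hw.sm c d).continuous
  have hi0 := hi 0
  simp only [add_zero] at hi0
  rw [← sub_eq_zero, ← integral_sub (hi v) hi0]
  let η : ℝ → Fin 4 → C4 → ℂ := fun t j x => ∑ k, (v k : ℂ) * w k j (x + t • v)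
  have hη : ∀ t j, ContDiff ℝ ∞ (η t j) := by
    intro t j
    exact ContDiff.sum fun k _ => contDiff_const.mul (smooth_shift (hw.sm k j) _)
  have hp : ∀ t j, Per (η t j) := by
    intro t j h k
    exact Finset.sum_congr rfl fun l _ =>
      congrArg (fun z => (v l : ℂ) * z) ((hw.per l j).shift (t • v) h k)
  have hD : ∀ t a b h, fderiv ℝ (w a b) (h + t • v) v = pdθ a (η t b) h - pdθ b (η t a) h := by
    intro t a b h
    have h1 : ∀ i j, pdθ i (η t j) h = ∑ k, (v k : ℂ) * pdθ i (w k j) (h + t • v) := by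
      intro i j
      have h2 : HasFDerivAt (η t j)
          (∑ k, (v k : ℂ) • fderiv ℝ (fun x => w k j (x + t • v)) h) h := by
        refine HasFDerivAt.fun_sum fun k _ => ?_
        exact (((smooth_shift (hw.sm k j) (t • v)).differentiable (by simp)
          h).hasFDerivAt).const_mul (v k : ℂ)
      unfold pdθ
      rw [h2.fderiv]
      simp only [sum_apply, smul_apply, smul_eq_mul,
        fderiv_comp_add_right]
    rw [fderiv_eq_sum, h1, h1, ← Finset.sum_sub_distrib]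
    refine Finset.sum_congr rfl fun k _ => ?_
    have h3 := hw.cl k a b (h + t • v)
    have h4 : pdθ a (w b k) (h + t • v) = - pdθ a (w k b) (h + t • v) := by
      have e : w b k = fun x => - w k b x := by funext x; exact hw.alt b k x
      unfold pdθ
      rw [e, fderiv_fun_neg]
      rfl
    rw [h4] at h3
    have h5 : pdθ k (w a b) (h + t • v) = pdθ a (w k b) (h + t • v) - pdθ b (w k a) (h + t • v) := by
      linear_combination h3
    rw [h5]
    ring
  have h1 : ∀ h, S4 (fun a b c d => w a b (h + v) * w c d h) -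
      S4 (fun a b c d => w a b h * w c d h) =
      ∫ t in (0 : ℝ)..1, S4 (fun a b c d => fderiv ℝ (w a b) (h + t • v) v * w c d h) := by
    intro h
    unfold S4
    rw [intervalIntegral.integral_finsetSum]
    · rw [← Finset.sum_sub_distrib]
      refine Finset.sum_congr rfl fun σ _ => ?_
      rw [intervalIntegral.integral_const_mul, intervalIntegral.integral_mul_const,
        ← sub_eq_int (hw.sm _ _)]
      ring
    · intro σ _
      apply Continuous.intervalIntegrable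
      exact continuous_const.mul (((((hw.sm _ _).continuous_fderiv (by simp)).comp
        (by fun_prop)).clm_apply continuous_const).mul continuous_const)
  simp only [h1]
  have hc : Continuous fun z : C4 × ℝ =>
      S4 (fun a b c d => fderiv ℝ (w a b) (z.1 + z.2 • v) v * w c d z.1) := by
    refine cont_S4 fun a b c d => ?_
    exact ((((hw.sm _ _).continuous_fderiv (by simp)).comp
        (by fun_prop)).clm_apply continuous_const).mul ((hw.sm c d).continuous.comp continuous_fst)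
  rw [swap_int (G := fun h t => S4 (fun a b c d => fderiv ℝ (w a b) (h + t • v) v * w c d h)) hc]
  have h2 : ∀ t : ℝ,
      ∫ h in Q4, S4 (fun a b c d => fderiv ℝ (w a b) (h + t • v) v * w c d h) = 0 := by
    intro t
    simp only [hD t]
    exact int_exact (hη t) (hp t) hw
  simp only [h2]
  simp

/-- FOUR. -/
theorem four : FOUR := by
  intro w hs ha hp hcl h0
  have hw : Cl w := ⟨hs, ha, hp, hcl⟩
  show ∫ h in Q4, S4 (fun a b c d => w a b h * w c d h) = 0
  have h1 : ∫ v in Q4, ∫ h in Q4, S4 (fun a b c d => w a b (h + v) * w c d h) =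
      ∫ h in Q4, S4 (fun a b c d => w a b h * w c d h) := by
    simp only [int_translate hw]
    rw [setIntegral_const, vol_Q4, one_smul]
  rw [← h1]
  have hc : Continuous fun z : C4 × C4 =>
      S4 (fun a b c d => w a b (z.2 + z.1) * w c d z.2) := by
    refine cont_S4 fun a b c d => ?_
    exact ((hs a b).continuous.comp (by fun_prop)).mul ((hs c d).continuous.comp continuous_snd)
  rw [swap_int' (G := fun v h => S4 (fun a b c d => w a b (h + v) * w c d h)) hc]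
  have h2 : ∀ h : C4, ∫ v in Q4, S4 (fun a b c d => w a b (h + v) * w c d h) = 0 := by
    intro h
    refine int_S4 (fun a b c d => ?_) (fun a b c d => ?_)
    · exact ((hs a b).continuous.comp (by fun_prop)).mul continuous_const
    · rw [integral_mul_const]
      have h3 : ∀ v : C4, w a b (h + v) = w a b (v + h) := fun v => by rw [add_comm]
      simp only [h3]
      rw [int_shift (hs a b) (hp a b), h0, zero_mul]
  simp only [h2]
  simp

end

end Crest.Agent.R235.FamFour_504
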