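import Crest.Agent.R235.K12AnDefs_776
import Crest.Agent.R235.K12Ext_168

/-!
Row 235 (S0364), block K12, leaf GEO (helper128): the retraction `Pi` onto `T S²`.
-/

set_option autoImplicit false
set_option maxSynthPendingDepth 3

open Set Function Filter MeasureTheory
open scoped Manifold ContDiff Topology RealInnerProductSpace

namespace Crest.Agent.R235.K12Geo_128

open Crest.Agent.R240 Crest.Agent.R240.Ch Crest.Agent.R235 Crest.Agent.R235.K12_417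
  Crest.Agent.R235.K12An_776 Crest.Agent.R235.K12Ext_168

noncomputable section


/-- the differential of `Pi` on tangent vectors of `T S²`. -/
lemma fderiv_Pi_tan {z : E6} (h1 : ‖z.1‖ = 1) (h2 : ⟪z.1, z.2⟫ = 0) {U : E6}
    (hu : ⟪z.1, U.1⟫ = 0) (hv : ⟪z.1, U.2⟫ + ⟪U.1, z.2⟫ = 0) : fderiv ℝ Pi z U = U := by
  have hz : z.1 ≠ 0 := by
    intro h; rw [h, norm_zero] at h1; exact zero_ne_one h1
  have hl1 : HasDerivAt (fun t : ℝ => z.1 + t • U.1) U.1 0 := by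
    simpa using ((hasDerivAt_id (0 : ℝ)).smul_const U.1).const_add z.1
  have hl2 : HasDerivAt (fun t : ℝ => z.2 + t • U.2) U.2 0 := by
    simpa using ((hasDerivAt_id (0 : ℝ)).smul_const U.2).const_add z.2
  have hn : HasDerivAt (fun t : ℝ => ‖z.1 + t • U.1‖ ^ 2) 0 0 := by
    have := hl1.norm_sq
    simpa [hu] using this
  have hs : HasDerivAt (fun t : ℝ => ‖z.1 + t • U.1‖) 0 0 := by
    have h := hn.sqrt (by simp [h1])
    simpa [Real.sqrt_sq (norm_nonneg _)] using h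
  have hi : HasDerivAt (fun t : ℝ => ‖z.1 + t • U.1‖⁻¹) 0 0 := by
    have h := hs.fun_inv (by simp [h1])
    simpa using h
  have hA : HasDerivAt (fun t : ℝ => ‖z.1 + t • U.1‖⁻¹ • (z.1 + t • U.1)) U.1 0 := by
    have h := hi.fun_smul hl1
    simpa [h1] using h
  have hB : HasDerivAt (fun t : ℝ => ⟪z.1 + t • U.1, z.2 + t • U.2⟫) 0 0 := by
    have h := hl1.inner ℝ hl2
    simpa [hv] using h
  have hC : HasDerivAt (fun t : ℝ => ⟪z.1 + t • U.1, z.2 + t • U.2⟫ / ‖z.1 + t • U.1‖ ^ 2) 0 0 := by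
    have h := hB.fun_div hn (by simp [h1])
    simpa [h1] using h
  have hD : HasDerivAt (fun t : ℝ => z.2 + t • U.2 -
      (⟪z.1 + t • U.1, z.2 + t • U.2⟫ / ‖z.1 + t • U.1‖ ^ 2) • (z.1 + t • U.1)) U.2 0 := by
    have h := hl2.fun_sub (hC.fun_smul hl1)
    simpa [h2] using h
  have hE : HasDerivAt (fun t : ℝ => Pi (z + t • U)) U 0 := hA.prodMk hD
  have hl : HasDerivAt (fun t : ℝ => z + t • U) U 0 := by
    simpa using ((hasDerivAt_id (0 : ℝ)).smul_const U).const_add z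
  have hP : HasFDerivAt Pi (fderiv ℝ Pi z) (z + (0 : ℝ) • U) := by
    rw [zero_smul, add_zero]
    exact ((contDiffAt_Pi hz).differentiableAt (by simp)).hasFDerivAt
  have h3 : HasDerivAt (fun t : ℝ => Pi (z + t • U)) (fderiv ℝ Pi z U) 0 :=
    HasFDerivAt.comp_hasDerivAt (0 : ℝ) (l := Pi) hP hl
  exact h3.unique hE

lemma cr_orth (q e : E3) : ⟪q, cr q e⟫ = 0 := by
  simp [cr, PiLp.inner_apply, Fin.sum_univ_three]; ring

lemma X_tan {r : ℝ} {z : E6} {e : E3} (hz : z ∈ TS r) (he : IsFr z.1 e) (i : Fin 4) :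
    ⟪z.1, (X z e i).1⟫ = 0 ∧ ⟪z.1, (X z e i).2⟫ + ⟪(X z e i).1, z.2⟫ = 0 := by
  obtain ⟨h1, h2, h3⟩ := hz
  obtain ⟨-, h4, h5⟩ := he
  have hq : ⟪z.1, z.1⟫ = 1 := by rw [real_inner_self_eq_norm_sq, h1, one_pow]
  fin_cases i
  · refine ⟨h5, ?_⟩
    show ⟪z.1, -(⟪z.2, e⟫ • z.1)⟫ + ⟪e, z.2⟫ = 0
    rw [inner_neg_right, inner_smul_right, hq, real_inner_comm]; ring
  · refine ⟨cr_orth _ _, ?_⟩
    show ⟪z.1, -(⟪z.2, cr z.1 e⟫ • z.1)⟫ + ⟪cr z.1 e, z.2⟫ = 0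
    rw [inner_neg_right, inner_smul_right, hq, real_inner_comm]; ring
  · refine ⟨inner_zero_right _, ?_⟩
    show ⟪z.1, e⟫ + ⟪(0 : E3), z.2⟫ = 0
    rw [h5, inner_zero_left, add_zero]
  · refine ⟨inner_zero_right _, ?_⟩
    show ⟪z.1, cr z.1 e⟫ + ⟪(0 : E3), z.2⟫ = 0
    rw [cr_orth, inner_zero_left, add_zero]

lemma fix {r : ℝ} {z : E6} {e : E3} (hz : z ∈ TS r) (he : IsFr z.1 e) (i : Fin 4) :
    fderiv ℝ Pi z (X z e i) = X z e i :=
  fderiv_Pi_tan hz.1 hz.2.1 (X_tan hz he i).1 (X_tan hz he i).2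

lemma Pi_Pi {z : E6} (hz : z.1 ≠ 0) : Pi (Pi z) = Pi z :=
  Pi_of_TS (r := ‖(Pi z).2‖ + 1) ⟨Pi_fst_norm hz, Pi_inner hz, lt_add_one _⟩

lemma Pi_ne {z : E6} (hz : z.1 ≠ 0) : (Pi z).1 ≠ 0 := by
  intro h
  have := Pi_fst_norm hz
  rw [h, norm_zero] at this
  exact zero_ne_one this

lemma isOpen_ne : IsOpen {z : E6 | z.1 ≠ 0} := isOpen_compl_singleton.preimage continuous_fst

lemma fderiv_fderiv {z : E6} (hz : z.1 ≠ 0) (U : E6) :
    fderiv ℝ Pi (Pi z) (fderiv ℝ Pi z U) = fderiv ℝ Pi z U := by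
  have h1 : HasFDerivAt Pi (fderiv ℝ Pi z) z :=
    ((contDiffAt_Pi hz).differentiableAt (by simp)).hasFDerivAt
  have h2 : HasFDerivAt Pi (fderiv ℝ Pi (Pi z)) (Pi z) :=
    ((contDiffAt_Pi (Pi_ne hz)).differentiableAt (by simp)).hasFDerivAt
  have h3 : Pi ∘ Pi =ᶠ[𝓝 z] Pi := by
    filter_upwards [isOpen_ne.mem_nhds hz] with y hy using Pi_Pi hy
  have h4 := (h2.comp z h1).unique (h1.congr_of_eventuallyEq h3)
  exact congrArg (fun L : E6 →L[ℝ] E6 => L U) h4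

lemma smooth_DPi {z : E6} (hz : z.1 ≠ 0) : ContDiffAt ℝ ∞ (fderiv ℝ Pi) z :=
  (contDiffAt_Pi hz).fderiv_right (m := ∞) (by simp)

lemma smooth_PB1 {β : E6 → E6 →L[ℝ] ℝ} {z : E6} (hz : z.1 ≠ 0)
    (hβ : ContDiffAt ℝ ∞ β (Pi z)) : ContDiffAt ℝ ∞ (PB1 β) z :=
  (hβ.comp z (contDiffAt_Pi hz)).clm_comp (smooth_DPi hz)

lemma smooth_PB2 {b : E6 → B6} {z : E6} (hz : z.1 ≠ 0)
    (hb : ContDiffAt ℝ ∞ b (Pi z)) : ContDiffAt ℝ ∞ (PB2 b) z :=
  PB_604.contDiffAt_pl (smooth_DPi hz) (hb.comp z (contDiffAt_Pi hz))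

theorem bas1 (r : ℝ) (β : E6 → E6 →L[ℝ] ℝ) (h : ∀ z ∈ OS r, ContDiffAt ℝ ∞ β (Pi z)) :
    Bas1 r (PB1 β) where
  smooth := fun z hz => (smooth_PB1 hz.1 (h z hz)).contDiffWithinAt
  bas := fun z hz U => by
    show β (Pi z) (fderiv ℝ Pi z U) = β (Pi (Pi z)) (fderiv ℝ Pi (Pi z) (fderiv ℝ Pi z U))
    rw [Pi_Pi hz.1, fderiv_fderiv hz.1]

theorem d1PB (r : ℝ) (β : E6 → E6 →L[ℝ] ℝ) (z : E6) (hz : z ∈ OS r)
    (hβ : DifferentiableAt ℝ β (Pi z)) :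
    d1 (PB1 β) z = PB_604.pl (fderiv ℝ Pi z) (d1 β (Pi z)) := by
  refine ContinuousLinearMap.ext fun U => ContinuousLinearMap.ext fun V => ?_
  rw [PB_604.pl_apply]
  exact PB_604.d1_pullback' (contDiffAt_Pi hz.1) hβ (Eventually.of_forall fun _ => rfl) U V

theorem basd (r : ℝ) (β : E6 → E6 →L[ℝ] ℝ) (h : Bas1 r β) : Bas r (d1 β) where
  smooth := fun z hz =>
    (d1_contDiffAt (h.smooth.contDiffAt ((isOpen_OS r).mem_nhds hz))).contDiffWithinAt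
  alt := fun z _ U => by rw [d1_apply, sub_self]
  closed := fun z hz U V Y => dd_d1 (h.smooth.contDiffAt ((isOpen_OS r).mem_nhds hz)) U V Y
  bas := fun z hz U V => by
    have h1 : Pi z ∈ OS r := TS_subset_OS r (Pi_mem_TS hz)
    refine PB_604.d1_pullback' (contDiffAt_Pi hz.1)
      ((h.smooth.contDiffAt ((isOpen_OS r).mem_nhds h1)).differentiableAt (by simp)) ?_ U V
    filter_upwards [(isOpen_OS r).mem_nhds hz] with y hy
    exact ContinuousLinearMap.ext fun W => h.bas y hy W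

theorem bas2 (r : ℝ) (b : E6 → B6) (h : ∀ z ∈ OS r, ContDiffAt ℝ ∞ b (Pi z))
    (halt : ∀ z ∈ TS r, ∀ U V : E6, b z U V = - b z V U)
    (hcl : ∀ z ∈ OS r, ∀ U V Y : E6, dd b (Pi z) (fderiv ℝ Pi z U) (fderiv ℝ Pi z V)
      (fderiv ℝ Pi z Y) = 0) : Bas r (PB2 b) where
  smooth := fun z hz => (smooth_PB2 hz.1 (h z hz)).contDiffWithinAt
  alt := fun z hz U => by
    have := halt (Pi z) (Pi_mem_TS hz) (fderiv ℝ Pi z U) (fderiv ℝ Pi z U)
    rw [PB2, PB_604.pl_apply]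
    linarith
  closed := fun z hz U V Y => by
    rw [PB_604.dd_pullback' (b := b) (t := PB2 b) (contDiffAt_Pi hz.1)
      ((h z hz).differentiableAt (by simp)) (halt (Pi z) (Pi_mem_TS hz))
      ((smooth_PB2 hz.1 (h z hz)).differentiableAt (by simp))
      (Eventually.of_forall fun y U V => by rw [PB2, PB_604.pl_apply])]
    exact hcl z hz U V Y
  bas := fun z hz U V => by
    rw [PB2, PB2, PB_604.pl_apply, PB_604.pl_apply, Pi_Pi hz.1, fderiv_fderiv hz.1,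
      fderiv_fderiv hz.1]

theorem en_PB1 (r : ℝ) (β : E6 → E6 →L[ℝ] ℝ) (z : E6) (e : E3) (hz : z ∈ TS r)
    (he : IsFr z.1 e) (i : Fin 4) : PB1 β z (X z e i) = β z (X z e i) := by
  show β (Pi z) (fderiv ℝ Pi z (X z e i)) = _
  rw [Pi_of_TS hz, fix hz he]

theorem en_PB2 (r : ℝ) (b : E6 → B6) (z : E6) (e : E3) (hz : z ∈ TS r) (he : IsFr z.1 e)
    (i j : Fin 4) : en (PB2 b z) z e i j = en (b z) z e i j := by
  rw [en, en, PB2, PB_604.pl_apply, Pi_of_TS hz, fix hz he, fix hz he]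

theorem fixh (q u : E3) (hq : ‖q‖ = 1) (hu : ⟪q, u⟫ = 0) :
    fderiv ℝ Pi ((q, 0) : E6) (u, 0) = (u, 0) := by
  refine fderiv_Pi_tan (z := (q, 0)) (U := (u, 0)) hq (inner_zero_right _) hu ?_
  show ⟪q, (0 : E3)⟫ + ⟪u, (0 : E3)⟫ = 0
  rw [inner_zero_right, inner_zero_right, add_zero]

theorem fixv (q u : E3) (hq : ‖q‖ = 1) (hu : ⟪q, u⟫ = 0) :
    fderiv ℝ Pi ((q, 0) : E6) (0, u) = (0, u) := by
  refine fderiv_Pi_tan (z := (q, 0)) (U := (0, u)) hq (inner_zero_right _) (inner_zero_right _) ?_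
  show ⟪q, u⟫ + ⟪(0 : E3), (0 : E3)⟫ = 0
  rw [inner_zero_right, hu, add_zero]

/-- LEAF GEO. -/
theorem geo : K12An_776.GEO where
  Pi_TS := fun _ _ hz => Pi_of_TS hz
  Pi_mem := fun _ _ hz => Pi_mem_TS hz
  TS_sub := TS_subset_OS
  open_OS := isOpen_OS
  smooth := fun _ hz => (contDiffAt_Pi hz).contDiffWithinAt
  fix := fun _ _ _ hz he i => fix hz he i
  fixh := fixh
  fixv := fixv
  bas1 := bas1
  d1PB := d1PB
  basd := basd
  bas2 := bas2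
  en_PB1 := en_PB1
  en_PB2 := en_PB2

end

end Crest.Agent.R235.K12Geo_128
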