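import Crest.Agent.R235.K12Defs_417
import Crest.Agent.R235.K12AnDefs_776
import Crest.Agent.R235.K12Ext_168

-- ▼ part R235/K12Phi_291
section

/-!
Row 235, package KUM, block K12 (helper417), leaf PHI (helper291): the neck parametrisation
`z ↦ (z̄ i z / |z|², t z̄ k z)`.
-/

set_option autoImplicit false
set_option maxSynthPendingDepth 3

open Set Function Filter
open scoped ContDiff Topology RealInnerProductSpace

namespace Crest.Agent.R235.K12Phi_291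

open Crest.Agent.R240 Crest.Agent.R240.Ch Crest.Agent.R235 Crest.Agent.R235.K12_417

noncomputable section

theorem n4 (z : E4) : ‖z‖ ^ 2 = z 0 ^ 2 + z 1 ^ 2 + z 2 ^ 2 + z 3 ^ 2 := by
  rw [EuclideanSpace.norm_sq_eq, Fin.sum_univ_four]
  simp [sq_abs]

theorem n3 (z : E3) : ‖z‖ ^ 2 = z 0 ^ 2 + z 1 ^ 2 + z 2 ^ 2 := by
  rw [EuclideanSpace.norm_sq_eq, Fin.sum_univ_three]
  simp [sq_abs]

theorem i4 (a b : E4) : ⟪a, b⟫ = a 0 * b 0 + a 1 * b 1 + a 2 * b 2 + a 3 * b 3 := by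
  rw [PiLp.inner_apply, Fin.sum_univ_four]
  simp [mul_comm]

theorem i3 (a b : E3) : ⟪a, b⟫ = a 0 * b 0 + a 1 * b 1 + a 2 * b 2 := by
  rw [PiLp.inner_apply, Fin.sum_univ_three]
  simp [mul_comm]

/-- `z̄ i z`. -/
def nN (z : E4) : E3 :=
  !₂[z 0 ^ 2 + z 1 ^ 2 - z 2 ^ 2 - z 3 ^ 2, 2 * (z 1 * z 2 - z 0 * z 3),
    2 * (z 1 * z 3 + z 0 * z 2)]

/-- `z̄ j z`. -/
def nJ (z : E4) : E3 :=
  !₂[2 * (z 1 * z 2 + z 0 * z 3), z 0 ^ 2 - z 1 ^ 2 + z 2 ^ 2 - z 3 ^ 2,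
    2 * (z 2 * z 3 - z 0 * z 1)]

/-- the derivative of `nN`. -/
def dN (z v : E4) : E3 :=
  !₂[2 * (z 0 * v 0 + z 1 * v 1 - z 2 * v 2 - z 3 * v 3),
    2 * (z 1 * v 2 + v 1 * z 2 - z 0 * v 3 - v 0 * z 3),
    2 * (z 1 * v 3 + v 1 * z 3 + z 0 * v 2 + v 0 * z 2)]

/-- the derivative of `hP`. -/
def dP (z v : E4) : E3 :=
  !₂[2 * (z 1 * v 3 + v 1 * z 3 - z 0 * v 2 - v 0 * z 2),
    2 * (z 2 * v 3 + v 2 * z 3 + z 0 * v 1 + v 0 * z 1),
    2 * (z 0 * v 0 - z 1 * v 1 - z 2 * v 2 + z 3 * v 3)]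

theorem hQ_eq (z : E4) : hQ z = (‖z‖ ^ 2)⁻¹ • nN z := rfl

theorem nsq_nN (z : E4) : ‖nN z‖ = ‖z‖ ^ 2 := by
  have h : ‖nN z‖ ^ 2 = (‖z‖ ^ 2) ^ 2 := by
    rw [n3, n4]; simp [nN]; ring
  exact (pow_left_inj₀ (norm_nonneg _) (by positivity) two_ne_zero).1 h

theorem nsq_hP (z : E4) : ‖hP z‖ = ‖z‖ ^ 2 := by
  have h : ‖hP z‖ ^ 2 = (‖z‖ ^ 2) ^ 2 := by
    rw [n3, n4]; simp [hP]; ring
  exact (pow_left_inj₀ (norm_nonneg _) (by positivity) two_ne_zero).1 h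

theorem inner_nN_hP (z : E4) : ⟪nN z, hP z⟫ = 0 := by
  rw [i3]; simp [nN, hP]; ring

theorem sq_ne {z : E4} (hz : z ≠ 0) : ‖z‖ ^ 2 ≠ 0 := by
  have : 0 < ‖z‖ := norm_pos_iff.2 hz
  positivity

theorem mem (z : E4) (t : ℝ) (hz : z ≠ 0) :
    ‖hQ z‖ = 1 ∧ ⟪hQ z, t • hP z⟫ = 0 ∧ ‖hP z‖ = ‖z‖ ^ 2 := by
  refine ⟨?_, ?_, nsq_hP z⟩
  · rw [hQ_eq, norm_smul, nsq_nN, norm_inv, norm_pow, norm_norm, inv_mul_cancel₀ (sq_ne hz)]
  · rw [hQ_eq, real_inner_smul_left, real_inner_smul_right, inner_nN_hP]; ring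

theorem nN_neg (z : E4) : nN (-z) = nN z := by
  ext i; fin_cases i <;> simp [nN]

theorem hP_neg (z : E4) : hP (-z) = hP z := by
  ext i; fin_cases i <;> simp [hP]

theorem even (z : E4) (t : ℝ) : hh t (-z) = hh t z := by
  simp only [hh, hQ_eq, nN_neg, hP_neg, norm_neg]

/-- products of the coordinates. -/
theorem prod_eq {z z' : E4} (hz : z ≠ 0) (hn : ‖z‖ ^ 2 = ‖z'‖ ^ 2) (hN : nN z = nN z')
    (hPe : hP z = hP z') (a b : Fin 4) : z a * z b = z' a * z' b := by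
  have e0 : nN z 0 = nN z' 0 := by rw [hN]
  have e1 : nN z 1 = nN z' 1 := by rw [hN]
  have e2 : nN z 2 = nN z' 2 := by rw [hN]
  have f0 : hP z 0 = hP z' 0 := by rw [hPe]
  have f1 : hP z 1 = hP z' 1 := by rw [hPe]
  have f2 : hP z 2 = hP z' 2 := by rw [hPe]
  have hn0 := sq_ne hz
  have g : ∀ w : E4, ‖w‖ ^ 2 * nJ w 0 = hP w 1 * nN w 2 - hP w 2 * nN w 1 ∧
      ‖w‖ ^ 2 * nJ w 1 = hP w 2 * nN w 0 - hP w 0 * nN w 2 ∧
      ‖w‖ ^ 2 * nJ w 2 = hP w 0 * nN w 1 - hP w 1 * nN w 0 := by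
    intro w
    rw [n4]
    simp only [nJ, hP, nN]
    refine ⟨?_, ?_, ?_⟩ <;> simp <;> ring
  have g0 : nJ z 0 = nJ z' 0 := by
    apply mul_left_cancel₀ hn0
    rw [(g z).1, hn, (g z').1, hN, hPe]
  have g1 : nJ z 1 = nJ z' 1 := by
    apply mul_left_cancel₀ hn0
    rw [(g z).2.1, hn, (g z').2.1, hN, hPe]
  have g2 : nJ z 2 = nJ z' 2 := by
    apply mul_left_cancel₀ hn0
    rw [(g z).2.2, hn, (g z').2.2, hN, hPe]
  rw [n4, n4] at hn
  simp [nN] at e0 e1 e2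
  simp [hP] at f0 f1 f2
  simp [nJ] at g0 g1 g2
  fin_cases a <;> fin_cases b <;> simp <;> linarith

theorem inj_aux {z z' : E4} (hz : z ≠ 0) (h : ∀ a b, z a * z b = z' a * z' b) :
    z' = z ∨ z' = -z := by
  obtain ⟨a, ha⟩ : ∃ a, z a ≠ 0 := by
    by_contra hc
    push Not at hc
    exact hz (by ext i; simpa using hc i)
  have h1 : (z' a - z a) * (z' a + z a) = 0 := by
    have := h a a
    linear_combination -this
  rcases mul_eq_zero.1 h1 with h2 | h2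
  · left
    have h3 : z' a = z a := by linarith
    ext b
    have := h a b
    rw [h3] at this
    exact (mul_left_cancel₀ ha this).symm
  · right
    have h3 : z' a = - z a := by linarith
    ext b
    have := h a b
    rw [h3] at this
    have h4 : z a * z b = z a * (- z' b) := by rw [this]; ring
    have := mul_left_cancel₀ ha h4
    simp only [PiLp.neg_apply]
    linarith

theorem inj (z z' : E4) (t : ℝ) (hz : z ≠ 0) (hz' : z' ≠ 0) (ht : t ≠ 0)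
    (h : hh t z = hh t z') : z' = z ∨ z' = -z := by
  have h1 : hQ z = hQ z' := congrArg Prod.fst h
  have h2 : t • hP z = t • hP z' := congrArg Prod.snd h
  have h3 : hP z = hP z' := smul_right_injective _ ht h2
  have hn : ‖z‖ ^ 2 = ‖z'‖ ^ 2 := by rw [← nsq_hP, ← nsq_hP, h3]
  have hN : nN z = nN z' := by
    rw [hQ_eq, hQ_eq, hn] at h1
    exact smul_right_injective _ (inv_ne_zero (sq_ne hz')) h1
  exact inj_aux hz (prod_eq hz hn hN h3)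

/-- `(a + b i) w`. -/
def mu (a b : ℝ) (w : E4) : E4 := a • w + b • qI w

theorem mu0 (a b : ℝ) (w : E4) : mu a b w 0 = a * w 0 - b * w 1 := by
  simp [mu, qI]; ring
theorem mu1 (a b : ℝ) (w : E4) : mu a b w 1 = a * w 1 + b * w 0 := by
  simp [mu, qI]
theorem mu2 (a b : ℝ) (w : E4) : mu a b w 2 = a * w 2 - b * w 3 := by
  simp [mu, qI]; ring
theorem mu3 (a b : ℝ) (w : E4) : mu a b w 3 = a * w 3 + b * w 2 := by
  simp [mu, qI]

theorem norm_mu (a b : ℝ) (w : E4) : ‖mu a b w‖ ^ 2 = (a ^ 2 + b ^ 2) * ‖w‖ ^ 2 := by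
  rw [n4, n4, mu0, mu1, mu2, mu3]; ring

theorem nN_mu (a b : ℝ) (w : E4) : nN (mu a b w) = (a ^ 2 + b ^ 2) • nN w := by
  ext i
  fin_cases i <;> simp [nN, mu0, mu1, mu2, mu3] <;> ring

theorem hP_mu (a b : ℝ) (w : E4) :
    hP (mu a b w) = (a ^ 2 - b ^ 2) • hP w + (2 * a * b) • nJ w := by
  ext i
  fin_cases i <;> simp [hP, nJ, mu0, mu1, mu2, mu3] <;> ring

theorem basis (w : E4) (x : E3) : (‖w‖ ^ 2) ^ 2 • x =
    ⟪nN w, x⟫ • nN w + ⟪nJ w, x⟫ • nJ w + ⟪hP w, x⟫ • hP w := by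
  rw [n4, i3, i3, i3]
  ext i
  fin_cases i <;> simp [nN, nJ, hP] <;> ring

theorem exists_w (q : E3) (hq : ‖q‖ = 1) : ∃ w : E4, w ≠ 0 ∧ nN w = ‖w‖ ^ 2 • q := by
  have hq2 : q 0 ^ 2 + q 1 ^ 2 + q 2 ^ 2 = 1 := by rw [← n3, hq]; norm_num
  by_cases h : q 0 = -1
  · have h1 : q 1 = 0 ∧ q 2 = 0 := by
      rw [h] at hq2
      constructor <;> nlinarith [sq_nonneg (q 1), sq_nonneg (q 2)]
    refine ⟨!₂[0, 0, 1, 0], ?_, ?_⟩
    · intro h0
      have := congrFun (congrArg (fun x : E4 => (x : Fin 4 → ℝ)) h0) 2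
      simp at this
    · rw [n4]
      ext i
      fin_cases i <;> simp [nN, h, h1.1, h1.2]
  · refine ⟨!₂[1 + q 0, 0, q 2, - q 1], ?_, ?_⟩
    · intro h0
      have := congrFun (congrArg (fun x : E4 => (x : Fin 4 → ℝ)) h0) 0
      simp at this
      exact h (by linarith)
    · rw [n4]
      have e : q 2 ^ 2 = 1 - q 0 ^ 2 - q 1 ^ 2 := by linarith
      ext i
      fin_cases i <;> simp [nN] <;> rw [e] <;> ring

theorem surj (q p : E3) (t : ℝ) (hq : ‖q‖ = 1) (hqp : ⟪q, p⟫ = 0) (hp : p ≠ 0) (ht : 0 < t) :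
    ∃ z : E4, z ≠ 0 ∧ hh t z = (q, p) := by
  obtain ⟨w, hw, hwq⟩ := exists_w q hq
  have hn := sq_ne hw
  set n : ℝ := ‖w‖ ^ 2 with hndef
  set A : ℝ := ⟪hP w, p⟫ / (t * n ^ 2) with hA
  set B : ℝ := ⟪nJ w, p⟫ / (t * n ^ 2) with hB
  obtain ⟨c, hc⟩ := IsAlgClosed.exists_pow_nat_eq (⟨A, B⟩ : ℂ) (n := 2) (by norm_num)
  have hcA : c.re ^ 2 - c.im ^ 2 = A := by
    have := congrArg Complex.re hc
    simp [pow_two] at this
    linarith
  have hcB : 2 * c.re * c.im = B := by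
    have := congrArg Complex.im hc
    simp [pow_two] at this
    linarith
  have hperp : ⟪nN w, p⟫ = 0 := by
    rw [hwq, real_inner_smul_left, hqp, mul_zero]
  have hb := basis w p
  rw [hperp, zero_smul, zero_add] at hb
  have hPz : t • hP (mu c.re c.im w) = p := by
    rw [hP_mu, hcA, hcB, hA, hB]
    have h1 : n ^ 2 • (t • ((⟪hP w, p⟫ / (t * n ^ 2)) • hP w + (⟪nJ w, p⟫ / (t * n ^ 2)) • nJ w)) =
        n ^ 2 • p := by
      rw [hb, smul_add, smul_add, smul_smul, smul_smul, smul_smul, smul_smul]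
      have e1 : ∀ x : ℝ, n ^ 2 * t * (x / (t * n ^ 2)) = x := by
        intro x
        field_simp
      rw [e1, e1]
      abel
    exact smul_right_injective _ (pow_ne_zero 2 hn) h1
  have hz : mu c.re c.im w ≠ 0 := by
    intro h0
    apply hp
    rw [← hPz, h0]
    have : hP (0 : E4) = 0 := by
      have := nsq_hP 0
      rw [norm_zero] at this
      exact norm_eq_zero.1 (by rw [this]; norm_num)
    rw [this, smul_zero]
  refine ⟨mu c.re c.im w, hz, ?_⟩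
  have hQz : hQ (mu c.re c.im w) = q := by
    have h0 := sq_ne hz
    rw [hQ_eq, nN_mu, hwq, smul_smul, smul_smul, norm_mu, mul_assoc]
    rw [norm_mu] at h0
    rw [inv_mul_cancel₀ h0, one_smul]
  rw [hh, hQz, hPz]

/-! ### derivatives -/

/-- the derivative of `nN` as a linear map. -/
def LN (z : E4) : E4 →L[ℝ] E3 :=
  LinearMap.toContinuousLinearMap
    { toFun := fun v => dN z v
      map_add' := fun a b => by
        ext i; fin_cases i <;> simp [dN] <;> ring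
      map_smul' := fun c a => by
        ext i; fin_cases i <;> simp [dN] <;> ring }

/-- the derivative of `hP` as a linear map. -/
def LP (z : E4) : E4 →L[ℝ] E3 :=
  LinearMap.toContinuousLinearMap
    { toFun := fun v => dP z v
      map_add' := fun a b => by
        ext i; fin_cases i <;> simp [dP] <;> ring
      map_smul' := fun c a => by
        ext i; fin_cases i <;> simp [dP] <;> ring }

theorem LN_apply (z v : E4) : LN z v = dN z v := rfl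

theorem LP_apply (z v : E4) : LP z v = dP z v := rfl

/-- quadratic maps. -/
theorem quad {f : E4 → E3} {L : E4 →L[ℝ] E3} {z : E4} (h : ∀ v, f (z + v) = f z + L v + f v)
    (hn : ∀ v, ‖f v‖ = ‖v‖ ^ 2) : HasFDerivAt f L z := by
  rw [hasFDerivAt_iff_isLittleO_nhds_zero]
  have h1 : (fun v => f (z + v) - f z - L v) = f := by
    funext v; rw [h]; abel
  rw [h1]
  have h2 : f =O[𝓝 0] fun v : E4 => ‖v‖ ^ 2 :=
    Asymptotics.IsBigO.of_bound 1 (Filter.Eventually.of_forall fun v => by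
      rw [hn, one_mul, norm_pow, norm_norm])
  refine h2.trans_isLittleO ?_
  have h3 := Asymptotics.isLittleO_norm_pow_id (E' := E4) (n := 2) (by norm_num)
  exact h3

theorem hasFDerivAt_nN (z : E4) : HasFDerivAt nN (LN z) z := by
  refine quad (fun v => ?_) nsq_nN
  rw [LN_apply]
  ext i
  fin_cases i <;> simp [nN, dN] <;> ring

theorem hasFDerivAt_hP (z : E4) : HasFDerivAt hP (LP z) z := by
  refine quad (fun v => ?_) nsq_hP
  rw [LP_apply]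
  ext i
  fin_cases i <;> simp [hP, dP] <;> ring

/-- the derivative of `(‖z‖ ^ 2)⁻¹`. -/
def cI (z v : E4) : ℝ := -(2 * ⟪z, v⟫) / (‖z‖ ^ 2) ^ 2

theorem fd (z v : E4) (t : ℝ) (hz : z ≠ 0) : fderiv ℝ (hh t) z v =
    ((‖z‖ ^ 2)⁻¹ • dN z v + cI z v • nN z, t • dP z v) := by
  have h1 : HasFDerivAt (fun z : E4 => ‖z‖ ^ 2) (2 • innerSL ℝ z) z :=
    (hasStrictFDerivAt_norm_sq z).hasFDerivAt
  have h2 := (hasDerivAt_inv (sq_ne hz)).comp_hasFDerivAt z h1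
  have h3 := h2.smul (hasFDerivAt_nN z)
  have h4 := (hasFDerivAt_hP z).const_smul t
  have h5 : HasFDerivAt (hh t) _ z := h3.prodMk h4
  rw [h5.fderiv]
  refine Prod.ext ?_ ?_
  · simp only [cI]
    show (‖z‖ ^ 2)⁻¹ • LN z v + (_ * ((2 : ℕ) • ⟪z, v⟫)) • nN z = _
    rw [LN_apply]
    congr 2
    simp
    ring
  · rfl

theorem id1 (z v : E4) : ⟪hP z, dN z v⟫ = 2 * ‖z‖ ^ 2 * ⟪qJ z, v⟫ := by
  rw [i3, i4, n4]; simp [hP, dN, qJ]; ring

theorem id2 (z v : E4) : ⟪hP z, cr (nN z) (dN z v)⟫ = -(2 * (‖z‖ ^ 2) ^ 2 * ⟪qK z, v⟫) := by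
  rw [i3, i4, n4]; simp [hP, dN, nN, cr, qK]; ring

theorem id3 (z v : E4) : ⟪cr (nN z) (hP z), dP z v⟫ = -(2 * (‖z‖ ^ 2) ^ 2 * ⟪qI z, v⟫) := by
  rw [i3, i4, n4]; simp [hP, dP, nN, cr, qI]; ring

theorem id4 (z v : E4) : ⟪hP z, dP z v⟫ = 2 * ‖z‖ ^ 2 * ⟪z, v⟫ := by
  rw [i3, i4, n4]; simp [hP, dP]; ring

theorem id5 (z v : E4) : ‖z‖ ^ 2 • v = ⟪z, v⟫ • z + ⟪qI z, v⟫ • qI z + ⟪qJ z, v⟫ • qJ z +
    ⟪qK z, v⟫ • qK z := by
  rw [n4, i4, i4, i4, i4]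
  ext i
  fin_cases i <;> simp [qI, qJ, qK] <;> ring

theorem cr_self (a : E3) : cr a a = 0 := by
  ext i; fin_cases i <;> simp [cr] <;> ring

theorem cr_smul_left (c : ℝ) (a b : E3) : cr (c • a) b = c • cr a b := by
  ext i; fin_cases i <;> simp [cr] <;> ring

theorem cr_smul_right (c : ℝ) (a b : E3) : cr a (c • b) = c • cr a b := by
  ext i; fin_cases i <;> simp [cr] <;> ring

theorem cr_add_right (a b c : E3) : cr a (b + c) = cr a b + cr a c := by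
  ext i; fin_cases i <;> simp [cr] <;> ring

theorem pl1 (z v : E4) (t : ℝ) (hz : z ≠ 0) :
    l1 (hh t z) (fderiv ℝ (hh t) z v) = 2 * t * ⟪qJ z, v⟫ := by
  rw [fd z v t hz]
  show ⟪t • hP z, (‖z‖ ^ 2)⁻¹ • dN z v + cI z v • nN z⟫ = _
  have hn := sq_ne hz
  rw [real_inner_smul_left, inner_add_right, real_inner_smul_right, real_inner_smul_right,
    id1, real_inner_comm (nN z) (hP z), inner_nN_hP]
  field_simp
  ring

theorem pl2 (z v : E4) (t : ℝ) (hz : z ≠ 0) :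
    l2 (hh t z) (fderiv ℝ (hh t) z v) = -(2 * t * ⟪qK z, v⟫) := by
  rw [fd z v t hz]
  show ⟪t • hP z, cr ((‖z‖ ^ 2)⁻¹ • nN z) ((‖z‖ ^ 2)⁻¹ • dN z v + cI z v • nN z)⟫ = _
  have hn := sq_ne hz
  rw [cr_add_right, cr_smul_right, cr_smul_left, cr_smul_right, cr_smul_left, cr_self,
    smul_zero, smul_zero, add_zero, real_inner_smul_left, real_inner_smul_right,
    real_inner_smul_right, id2]
  field_simp

theorem pps (z v : E4) (t : ℝ) (hz : z ≠ 0) (ht : 0 < t) :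
    ps (hh t z) (fderiv ℝ (hh t) z v) = -(2 * ⟪qI z, v⟫ / ‖z‖ ^ 2) := by
  rw [fd z v t hz]
  show (‖t • hP z‖ ^ 2)⁻¹ * ⟪cr ((‖z‖ ^ 2)⁻¹ • nN z) (t • hP z), t • dP z v⟫ = _
  have hn := sq_ne hz
  rw [cr_smul_left, cr_smul_right, real_inner_smul_left, real_inner_smul_left,
    real_inner_smul_right, id3, norm_smul, nsq_hP, Real.norm_eq_abs, mul_pow, sq_abs]
  field_simp

theorem imm (z v : E4) (t : ℝ) (hz : z ≠ 0) (ht : t ≠ 0) (h : fderiv ℝ (hh t) z v = 0) :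
    v = 0 := by
  rw [fd z v t hz] at h
  have hn := sq_ne hz
  have h1 : (‖z‖ ^ 2)⁻¹ • dN z v + cI z v • nN z = 0 := congrArg Prod.fst h
  have h2 : dP z v = 0 := (smul_eq_zero.1 (congrArg Prod.snd h : t • dP z v = 0)).resolve_left ht
  have h3 : ⟪z, v⟫ = 0 := by
    have := id4 z v
    rw [h2, inner_zero_right] at this
    have h4 : 2 * ‖z‖ ^ 2 ≠ 0 := mul_ne_zero two_ne_zero hn
    exact (mul_eq_zero.1 this.symm).resolve_left h4
  have h5 : dN z v = 0 := by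
    have h6 : cI z v = 0 := by rw [cI, h3]; simp
    rw [h6, zero_smul, add_zero] at h1
    exact (smul_eq_zero.1 h1).resolve_left (inv_ne_zero hn)
  have hI : ⟪qI z, v⟫ = 0 := by
    have := id3 z v
    rw [h2, inner_zero_right] at this
    have h4 : 2 * (‖z‖ ^ 2) ^ 2 ≠ 0 := mul_ne_zero two_ne_zero (pow_ne_zero 2 hn)
    exact (mul_eq_zero.1 (neg_eq_zero.1 this.symm)).resolve_left h4
  have hJ : ⟪qJ z, v⟫ = 0 := by
    have := id1 z v
    rw [h5, inner_zero_right] at this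
    have h4 : 2 * ‖z‖ ^ 2 ≠ 0 := mul_ne_zero two_ne_zero hn
    exact (mul_eq_zero.1 this.symm).resolve_left h4
  have hK : ⟪qK z, v⟫ = 0 := by
    have := id2 z v
    have h0 : cr (nN z) 0 = 0 := by
      have := cr_smul_right 0 (nN z) 0
      simpa using this
    rw [h5, h0, inner_zero_right] at this
    have h4 : 2 * (‖z‖ ^ 2) ^ 2 ≠ 0 := mul_ne_zero two_ne_zero (pow_ne_zero 2 hn)
    exact (mul_eq_zero.1 (neg_eq_zero.1 this.symm)).resolve_left h4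
  have h7 := id5 z v
  rw [h3, hI, hJ, hK] at h7
  simp only [zero_smul, add_zero] at h7
  exact (smul_eq_zero.1 h7).resolve_left hn

theorem contDiff_nN : ContDiff ℝ ∞ nN := by
  rw [contDiff_euclidean]
  have c : ∀ i : Fin 4, ContDiff ℝ ∞ (fun z : E4 => z i) := fun i =>
    (EuclideanSpace.proj (𝕜 := ℝ) i).contDiff
  intro i
  fin_cases i
  · exact (((c 0).pow 2).add ((c 1).pow 2)).sub ((c 2).pow 2) |>.sub ((c 3).pow 2)
  · exact contDiff_const.mul (((c 1).mul (c 2)).sub ((c 0).mul (c 3)))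
  · exact contDiff_const.mul (((c 1).mul (c 3)).add ((c 0).mul (c 2)))

theorem contDiff_hP : ContDiff ℝ ∞ hP := by
  rw [contDiff_euclidean]
  have c : ∀ i : Fin 4, ContDiff ℝ ∞ (fun z : E4 => z i) := fun i =>
    (EuclideanSpace.proj (𝕜 := ℝ) i).contDiff
  intro i
  fin_cases i
  · exact contDiff_const.mul (((c 1).mul (c 3)).sub ((c 0).mul (c 2)))
  · exact contDiff_const.mul (((c 2).mul (c 3)).add ((c 0).mul (c 1)))
  · exact (((c 0).pow 2).sub ((c 1).pow 2)).sub ((c 2).pow 2) |>.add ((c 3).pow 2)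

theorem smooth (t : ℝ) : ContDiffOn ℝ ∞ (hh t) {0}ᶜ := by
  intro z hz
  have hz' : z ≠ 0 := hz
  have h1 : ContDiffAt ℝ ∞ (fun z : E4 => (‖z‖ ^ 2)⁻¹) z :=
    ((contDiff_norm_sq ℝ).contDiffAt).inv (sq_ne hz')
  have h2 : ContDiffAt ℝ ∞ (fun z : E4 => (‖z‖ ^ 2)⁻¹ • nN z) z := h1.smul contDiff_nN.contDiffAt
  have h3 : ContDiffAt ℝ ∞ (fun z : E4 => t • hP z) z := (contDiff_hP.const_smul t).contDiffAt
  exact (h2.prodMk h3).contDiffWithinAt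

/-- **leaf PHI**. -/
theorem phi : PHI where
  mem := mem
  even := even
  inj := inj
  surj := surj
  smooth := smooth
  imm := imm
  pl1 := pl1
  pl2 := pl2
  pps := pps

end

end Crest.Agent.R235.K12Phi_291
end

-- ▼ part R235/K12StdA_235

/-!
Row 235 (S0364), block K12, leaf STDL (helper235), part A: the neck parametrisation
`φ = Ps ∘ hh ρ` of one standardised sphere.
-/

set_option autoImplicit false
set_option maxSynthPendingDepth 3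
set_option linter.unusedSectionVars false

open Set Function Filter MeasureTheory
open scoped Manifold ContDiff Topology RealInnerProductSpace

universe u

namespace Crest.Agent.R235.K12Std_235

open Crest.Agent.R240 Crest.Agent.R240.Ch Crest.Agent.R235 Crest.Agent.R235.K12_417
  Crest.Agent.R235.PB_604 Crest.Agent.R235.K12An_776 Crest.Agent.R235.K12Ext_168

noncomputable section

/-! ### the map `hh` -/

lemma hh_mem (hF : PHI) {ρ : ℝ} (hρ : 0 < ρ) {z : E4} (hz : z ≠ 0) {r : ℝ}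
    (hr : ρ * ‖z‖ ^ 2 < r) : hh ρ z ∈ TS r := by
  obtain ⟨h1, h2, h3⟩ := hF.mem z ρ hz
  refine ⟨h1, h2, ?_⟩
  show ‖ρ • hP z‖ < r
  rw [norm_smul, h3, Real.norm_eq_abs, abs_of_pos hρ]
  exact hr

lemma norm_hh2 (hF : PHI) {ρ : ℝ} (hρ : 0 < ρ) {z : E4} (hz : z ≠ 0) :
    ‖(hh ρ z).2‖ = ρ * ‖z‖ ^ 2 := by
  obtain ⟨-, -, h3⟩ := hF.mem z ρ hz
  show ‖ρ • hP z‖ = _
  rw [norm_smul, h3, Real.norm_eq_abs, abs_of_pos hρ]

lemma hh_PB (hF : PHI) {ρ : ℝ} (hρ : 0 < ρ) {z : E4} (hz : z ∈ KT_604.PB 1) : hh ρ z ∈ TS ρ := by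
  refine hh_mem hF hρ hz.1 ?_
  have h1 := hz.2
  have h2 : ‖z‖ ^ 2 < 1 := by
    have := norm_nonneg z
    nlinarith
  nlinarith

lemma hh_smoothAt (hF : PHI) (ρ : ℝ) {z : E4} (hz : z ≠ 0) : ContDiffAt ℝ ∞ (hh ρ) z :=
  (hF.smooth ρ).contDiffAt (isOpen_compl_singleton.mem_nhds hz)

lemma Pi_hh (hF : PHI) {ρ : ℝ} (hρ : 0 < ρ) {z : E4} (hz : z ≠ 0) : Pi (hh ρ z) = hh ρ z :=
  Pi_of_TS (hh_mem hF hρ hz (lt_add_one _))

lemma hh_fst_ne (hF : PHI) {ρ : ℝ} (hρ : 0 < ρ) {z : E4} (hz : z ≠ 0) : (hh ρ z).1 ≠ 0 :=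
  (TS_subset_OS _ (hh_mem hF hρ hz (lt_add_one _))).1

/-- the differential of `hh` is fixed by that of `Pi`. -/
lemma fderiv_Pi_hh (hF : PHI) {ρ : ℝ} (hρ : 0 < ρ) {z : E4} (hz : z ≠ 0) (v : E4) :
    fderiv ℝ Pi (hh ρ z) (fderiv ℝ (hh ρ) z v) = fderiv ℝ (hh ρ) z v := by
  have h1 : Pi ∘ hh ρ =ᶠ[𝓝 z] hh ρ := by
    filter_upwards [isOpen_compl_singleton.mem_nhds hz] with y hy using Pi_hh hF hρ hy
  have h2 : DifferentiableAt ℝ Pi (hh ρ z) :=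
    (contDiffAt_Pi (hh_fst_ne hF hρ hz)).differentiableAt (by simp)
  have h3 : DifferentiableAt ℝ (hh ρ) z := (hh_smoothAt hF ρ hz).differentiableAt (by simp)
  have h4 := h1.fderiv_eq (𝕜 := ℝ)
  rw [fderiv_comp z h2 h3] at h4
  exact congrArg (fun A : E4 →L[ℝ] E6 => A v) h4

lemma PB1_hh (hF : PHI) {ρ : ℝ} (hρ : 0 < ρ) (β : E6 → E6 →L[ℝ] ℝ) {z : E4} (hz : z ≠ 0) (v : E4) :
    PB1 β (hh ρ z) (fderiv ℝ (hh ρ) z v) = β (hh ρ z) (fderiv ℝ (hh ρ) z v) := by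
  unfold PB1
  rw [ContinuousLinearMap.comp_apply, fderiv_Pi_hh hF hρ hz, Pi_hh hF hρ hz]

/-- the differential of a one-form which is linear in the point. -/
lemma d1_lin {L : E4 → E4} (hadd : ∀ a b, L (a + b) = L a + L b)
    (hsm : ∀ (c : ℝ) a, L (c • a) = c • L a) (k : ℝ) (z u v : E4) :
    d1 (fun y => k • innerSL ℝ (L y)) z u v = k * (⟪L u, v⟫ - ⟪L v, u⟫) := by
  set A : E4 →L[ℝ] (E4 →L[ℝ] ℝ) := k • ((innerSL ℝ).comp
    (LinearMap.toContinuousLinearMap (⟨⟨L, hadd⟩, hsm⟩ : E4 →ₗ[ℝ] E4))) with hA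
  have h1 : (fun y => k • innerSL ℝ (L y)) = A := by
    funext y
    rfl
  rw [h1, d1_apply, A.fderiv]
  show k * ⟪L u, v⟫ - k * ⟪L v, u⟫ = _
  ring

lemma qI_add (a b : E4) : qI (a + b) = qI a + qI b := by
  ext i; fin_cases i <;> simp [qI] <;> ring

lemma qJ_add (a b : E4) : qJ (a + b) = qJ a + qJ b := by
  ext i; fin_cases i <;> simp [qJ] <;> ring

lemma qK_add (a b : E4) : qK (a + b) = qK a + qK b := by
  ext i; fin_cases i <;> simp [qK] <;> ring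

lemma qI_smul (c : ℝ) (a : E4) : qI (c • a) = c • qI a := by
  ext i; fin_cases i <;> simp [qI]

lemma qJ_smul (c : ℝ) (a : E4) : qJ (c • a) = c • qJ a := by
  ext i; fin_cases i <;> simp [qJ]

lemma qK_smul (c : ℝ) (a : E4) : qK (c • a) = c • qK a := by
  ext i; fin_cases i <;> simp [qK]

lemma qI_skew (u v : E4) : ⟪qI v, u⟫ = -⟪qI u, v⟫ := by
  rw [K12Phi_291.i4, K12Phi_291.i4]; simp [qI]; ring

lemma qJ_skew (u v : E4) : ⟪qJ v, u⟫ = -⟪qJ u, v⟫ := by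
  rw [K12Phi_291.i4, K12Phi_291.i4]; simp [qJ]; ring

lemma qK_skew (u v : E4) : ⟪qK v, u⟫ = -⟪qK u, v⟫ := by
  rw [K12Phi_291.i4, K12Phi_291.i4]; simp [qK]; ring

lemma smooth_l1 : ContDiff ℝ ∞ l1 := by
  have h : l1 = fun z : E6 => (innerSL ℝ z.2).comp (ContinuousLinearMap.fst ℝ E3 E3) := rfl
  rw [h]
  exact ((innerSL ℝ).contDiff.comp contDiff_snd).clm_comp contDiff_const

lemma smooth_crL : ContDiff ℝ ∞ crL := by
  set A : E3 →ₗ[ℝ] (E3 →L[ℝ] E3) :=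
    { toFun := crL
      map_add' := fun a b => by
        ext v i; fin_cases i <;> simp [crL, cr] <;> ring
      map_smul' := fun c a => by
        ext v i; fin_cases i <;> simp [crL, cr] <;> ring } with hA
  exact (LinearMap.toContinuousLinearMap A).contDiff

lemma smooth_l2 : ContDiff ℝ ∞ l2 := by
  have h : l2 = fun z : E6 => (innerSL ℝ z.2).comp ((crL z.1).comp
    (ContinuousLinearMap.fst ℝ E3 E3)) := rfl
  rw [h]
  exact ((innerSL ℝ).contDiff.comp contDiff_snd).clm_comp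
    ((smooth_crL.comp contDiff_fst).clm_comp contDiff_const)

lemma PB1_diff {β : E6 → E6 →L[ℝ] ℝ} (hβ : ContDiff ℝ ∞ β) {z : E6} (hz : z.1 ≠ 0) :
    DifferentiableAt ℝ (PB1 β) z := by
  have h1 : ContDiffAt ℝ ∞ (fun z => β (Pi z)) z := hβ.contDiffAt.comp z (contDiffAt_Pi hz)
  have h2 : ContDiffAt ℝ ∞ (fun z => fderiv ℝ Pi z) z :=
    (contDiffAt_Pi hz).fderiv_right (m := ∞) (by simp)
  exact (h1.clm_comp h2).differentiableAt (by simp)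

/-- the form `w 1` in the neck. -/
lemma d1_l1_hh (hF : PHI) {ρ : ℝ} (hρ : 0 < ρ) {z : E4} (hz : z ≠ 0) (u v : E4) :
    d1 (PB1 l1) (hh ρ z) (fderiv ℝ (hh ρ) z u) (fderiv ℝ (hh ρ) z v) = 4 * ρ * ⟪qJ u, v⟫ := by
  have h1 : ∀ᶠ y in 𝓝 z, (2 * ρ) • innerSL ℝ (qJ y) =
      (PB1 l1 (hh ρ y)).comp (fderiv ℝ (hh ρ) y) := by
    filter_upwards [isOpen_compl_singleton.mem_nhds hz] with y hy
    refine ContinuousLinearMap.ext fun w => ?_
    rw [ContinuousLinearMap.comp_apply, PB1_hh hF hρ l1 hy, hF.pl1 y w ρ hy]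
    rfl
  rw [← d1_pullback' (t := fun y => (2 * ρ) • innerSL ℝ (qJ y)) (hh_smoothAt hF ρ hz)
    (PB1_diff smooth_l1 (hh_fst_ne hF hρ hz)) h1 u v, d1_lin qJ_add qJ_smul, qJ_skew u v]
  ring

/-- the form `w 2` in the neck. -/
lemma d1_l2_hh (hF : PHI) {ρ : ℝ} (hρ : 0 < ρ) {z : E4} (hz : z ≠ 0) (u v : E4) :
    d1 (PB1 l2) (hh ρ z) (fderiv ℝ (hh ρ) z u) (fderiv ℝ (hh ρ) z v) =
      -(4 * ρ * ⟪qK u, v⟫) := by
  have h1 : ∀ᶠ y in 𝓝 z, (-(2 * ρ)) • innerSL ℝ (qK y) =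
      (PB1 l2 (hh ρ y)).comp (fderiv ℝ (hh ρ) y) := by
    filter_upwards [isOpen_compl_singleton.mem_nhds hz] with y hy
    refine ContinuousLinearMap.ext fun w => ?_
    rw [ContinuousLinearMap.comp_apply, PB1_hh hF hρ l2 hy, hF.pl2 y w ρ hy]
    show -(2 * ρ) * ⟪qK y, w⟫ = _
    ring
  rw [← d1_pullback' (t := fun y => (-(2 * ρ)) • innerSL ℝ (qK y)) (hh_smoothAt hF ρ hz)
    (PB1_diff smooth_l2 (hh_fst_ne hF hρ hz)) h1 u v, d1_lin qK_add qK_smul, qK_skew u v]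
  ring

/-! ### the form `w 0` in the neck -/

lemma exists_fr {q : E3} (hq : ‖q‖ = 1) : ∃ e : E3, IsFr q e := by
  have h1 : (ℝ ∙ q)ᗮ ≠ ⊥ := by
    intro h
    have h2 := Submodule.finrank_add_finrank_orthogonal (ℝ ∙ q)
    rw [h, finrank_bot, finrank_euclideanSpace_fin] at h2
    have h3 := finrank_span_le_card (R := ℝ) ({q} : Set E3)
    simp at h3
    omega
  obtain ⟨v, hv, hv0⟩ := Submodule.exists_mem_ne_zero_of_ne_bot h1
  refine ⟨‖v‖⁻¹ • v, hq, ?_, ?_⟩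
  · rw [norm_smul, norm_inv, norm_norm, inv_mul_cancel₀ (norm_ne_zero_iff.2 hv0)]
  · rw [inner_smul_right, Submodule.mem_orthogonal_singleton_iff_inner_right.1 hv, mul_zero]

lemma cr_inner_left (a b : E3) : ⟪a, cr a b⟫ = 0 := by
  rw [K12Phi_291.i3]; simp [cr]; ring

lemma cr_inner_right (a b : E3) : ⟪b, cr a b⟫ = 0 := by
  rw [K12Phi_291.i3]; simp [cr]; ring

lemma cr_norm {q e : E3} (h : IsFr q e) : ‖cr q e‖ = 1 := by
  obtain ⟨h1, h2, h3⟩ := h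
  have h4 : ‖cr q e‖ ^ 2 = ‖q‖ ^ 2 * ‖e‖ ^ 2 - ⟪q, e⟫ ^ 2 := by
    rw [K12Phi_291.n3, K12Phi_291.n3, K12Phi_291.n3, K12Phi_291.i3]; simp [cr]; ring
  rw [h1, h2, h3] at h4
  have h5 : ‖cr q e‖ ^ 2 = 1 := by rw [h4]; norm_num
  have h6 := norm_nonneg (cr q e)
  nlinarith

/-- the expansion of a vector orthogonal to `q`. -/
lemma expand {q e : E3} (h : IsFr q e) {a : E3} (ha : ⟪q, a⟫ = 0) :
    a = ⟪e, a⟫ • e + ⟪cr q e, a⟫ • cr q e := by
  have hon : Orthonormal ℝ ![q, e, cr q e] := by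
    rw [orthonormal_iff_ite]
    obtain ⟨h1, h2, h3⟩ := h
    have h4 := cr_norm ⟨h1, h2, h3⟩
    intro i j
    fin_cases i <;> fin_cases j <;>
      simp [h1, h2, h3, h4, cr_inner_left, cr_inner_right, real_inner_comm]
  set b := (basisOfOrthonormalOfCardEqFinrank hon (by simp)) with hb
  have hbon : Orthonormal ℝ b := by
    rw [hb, coe_basisOfOrthonormalOfCardEqFinrank]; exact hon
  have h5 := (b.toOrthonormalBasis hbon).sum_repr' a
  rw [Fin.sum_univ_three] at h5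
  simp only [Module.Basis.coe_toOrthonormalBasis, hb, coe_basisOfOrthonormalOfCardEqFinrank] at h5
  simp only [Matrix.cons_val_zero, Matrix.cons_val_one, Matrix.cons_val_two, Matrix.head_cons,
    Matrix.tail_cons, ha, zero_smul, zero_add] at h5
  exact h5.symm

/-- tangent vectors of `T S²` are combinations of the frame. -/
lemma tangent_span {z : E6} {e : E3} (h : IsFr z.1 e) {V : E6} (h1 : ⟪z.1, V.1⟫ = 0)
    (h2 : ⟪z.1, V.2⟫ + ⟪V.1, z.2⟫ = 0) : ∃ a : Fin 4 → ℝ, V = ∑ i, a i • X z e i := by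
  refine ⟨![⟪e, V.1⟫, ⟪cr z.1 e, V.1⟫, ⟪e, V.2⟫, ⟪cr z.1 e, V.2⟫], ?_⟩
  have h3 := expand h h1
  have h4 : ⟪z.1, V.2 + ⟪V.1, z.2⟫ • z.1⟫ = 0 := by
    rw [inner_add_right, inner_smul_right, real_inner_self_eq_norm_sq, h.1]
    linarith
  have h5 := expand h h4
  have h6 : ⟪e, V.2 + ⟪V.1, z.2⟫ • z.1⟫ = ⟪e, V.2⟫ := by
    rw [inner_add_right, inner_smul_right, real_inner_comm z.1 e, h.2.2, mul_zero, add_zero]
  have h7 : ⟪cr z.1 e, V.2 + ⟪V.1, z.2⟫ • z.1⟫ = ⟪cr z.1 e, V.2⟫ := by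
    rw [inner_add_right, inner_smul_right, real_inner_comm z.1, cr_inner_left, mul_zero, add_zero]
  rw [h6, h7] at h5
  have h8 : ⟪V.1, z.2⟫ = ⟪e, V.1⟫ * ⟪z.2, e⟫ + ⟪cr z.1 e, V.1⟫ * ⟪z.2, cr z.1 e⟫ := by
    conv_lhs => rw [h3]
    rw [inner_add_left, real_inner_smul_left, real_inner_smul_left, real_inner_comm z.2 e,
      real_inner_comm z.2 (cr z.1 e)]
  rw [Fin.sum_univ_four]
  simp only [X, hor, ver, Matrix.cons_val_zero, Matrix.cons_val_one, Matrix.cons_val]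
  refine Prod.ext ?_ ?_
  · simpa using h3
  · have h9 : V.2 = ⟪e, V.2⟫ • e + ⟪cr z.1 e, V.2⟫ • cr z.1 e - ⟪V.1, z.2⟫ • z.1 := by
      rw [← h5]; abel
    simp only [Prod.snd_add, Prod.smul_snd]
    conv_lhs => rw [h9, h8]
    module

lemma bil_eq {A A' : B6} {z : E6} {e : E3} (h : ∀ i j, en A z e i j = en A' z e i j) {V V' : E6}
    (hV : ∃ a : Fin 4 → ℝ, V = ∑ i, a i • X z e i)
    (hV' : ∃ a : Fin 4 → ℝ, V' = ∑ i, a i • X z e i) : A V V' = A' V V' := by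
  obtain ⟨a, rfl⟩ := hV
  obtain ⟨b, rfl⟩ := hV'
  simp only [map_sum, map_smul, _root_.sum_apply, _root_.smul_apply]
  refine Finset.sum_congr rfl fun i _ => ?_
  refine congrArg _ ?_
  refine Finset.sum_congr rfl fun j _ => ?_
  refine congrArg _ ?_
  exact h j i

lemma hh_tangent (hF : PHI) {ρ : ℝ} (hρ : 0 < ρ) {z : E4} (hz : z ≠ 0) (v : E4) :
    ⟪(hh ρ z).1, (fderiv ℝ (hh ρ) z v).1⟫ = 0 ∧
    ⟪(hh ρ z).1, (fderiv ℝ (hh ρ) z v).2⟫ + ⟪(fderiv ℝ (hh ρ) z v).1, (hh ρ z).2⟫ = 0 := by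
  have hd : DifferentiableAt ℝ (hh ρ) z := (hh_smoothAt hF ρ hz).differentiableAt (by simp)
  have hd1 : HasFDerivAt (fun y => (hh ρ y).1)
      ((ContinuousLinearMap.fst ℝ E3 E3).comp (fderiv ℝ (hh ρ) z)) z := hd.hasFDerivAt.fst
  have hd2 : HasFDerivAt (fun y => (hh ρ y).2)
      ((ContinuousLinearMap.snd ℝ E3 E3).comp (fderiv ℝ (hh ρ) z)) z := hd.hasFDerivAt.snd
  have e1 : (fun y => ⟪(hh ρ y).1, (hh ρ y).1⟫) =ᶠ[𝓝 z] fun _ => (1 : ℝ) := by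
    filter_upwards [isOpen_compl_singleton.mem_nhds hz] with y hy
    have h1 := (hh_mem hF hρ hy (lt_add_one _)).1
    rw [real_inner_self_eq_norm_sq, h1, one_pow]
  have e2 : (fun y => ⟪(hh ρ y).1, (hh ρ y).2⟫) =ᶠ[𝓝 z] fun _ => (0 : ℝ) := by
    filter_upwards [isOpen_compl_singleton.mem_nhds hz] with y hy
    exact (hh_mem hF hρ hy (lt_add_one _)).2.1
  have f1 := e1.fderiv_eq (𝕜 := ℝ)
  have f2 := e2.fderiv_eq (𝕜 := ℝ)
  have g1 := fderiv_inner_apply ℝ hd1.differentiableAt hd1.differentiableAt v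
  have g2 := fderiv_inner_apply ℝ hd1.differentiableAt hd2.differentiableAt v
  rw [f1, fderiv_fun_const, hd1.fderiv] at g1
  rw [f2, fderiv_fun_const, hd1.fderiv, hd2.fderiv] at g2
  simp only [ContinuousLinearMap.comp_apply, ContinuousLinearMap.coe_fst',
    ContinuousLinearMap.coe_snd', Pi.zero_apply, _root_.zero_apply] at g1 g2
  constructor
  · rw [real_inner_comm ((hh ρ z).1)] at g1
    linarith
  · linarith

lemma smooth_cr : ContDiff ℝ ∞ (fun z : E6 => cr z.1 z.2) := by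
  have h : (fun z : E6 => cr z.1 z.2) = fun z : E6 => crL z.1 z.2 := rfl
  rw [h]
  exact (smooth_crL.comp contDiff_fst).clm_apply contDiff_snd

lemma gps_diff {g : ℝ → ℝ} (hg : ContDiff ℝ ∞ g) {z : E6} (hz : z.2 ≠ 0) :
    DifferentiableAt ℝ (fun y : E6 => (-g ‖y.2‖) • ps y) z := by
  have h1 : ContDiffAt ℝ ∞ (fun y : E6 => ‖y.2‖) z := contDiffAt_snd.norm ℝ hz
  have h2 : ContDiffAt ℝ ∞ (fun y : E6 => (‖y.2‖ ^ 2)⁻¹) z :=
    (h1.pow 2).inv (pow_ne_zero 2 (norm_ne_zero_iff.2 hz))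
  have h3 : ContDiffAt ℝ ∞ ps z := by
    have h : ps = fun z : E6 => (‖z.2‖ ^ 2)⁻¹ •
        (innerSL ℝ (cr z.1 z.2)).comp (ContinuousLinearMap.snd ℝ E3 E3) := rfl
    rw [h]
    exact h2.smul ((((innerSL ℝ).contDiff.comp smooth_cr).contDiffAt).clm_comp contDiffAt_const)
  have h4 : ContDiffAt ℝ ∞ (fun y : E6 => -g ‖y.2‖) z := (hg.contDiffAt.comp z h1).neg
  exact (h4.smul h3).differentiableAt (by simp)

lemma hh2_ne (hF : PHI) {ρ : ℝ} (hρ : 0 < ρ) {z : E4} (hz : z ≠ 0) : (hh ρ z).2 ≠ 0 := by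
  rw [← norm_ne_zero_iff, norm_hh2 hF hρ hz]
  have := norm_ne_zero_iff.2 hz
  positivity

/-- the form `w 0` in the neck. -/
lemma FG_hh (hG : FGL) (hR : RADF) (hF : PHI) {ρ : ℝ} (hρ : 0 < ρ) {g : ℝ → ℝ} {c K t₀ : ℝ}
    (hg : Prof g c K t₀) {z : E4} (hz : z ≠ 0) (u v : E4) :
    FG g c K t₀ (hh ρ z) (fderiv ℝ (hh ρ) z u) (fderiv ℝ (hh ρ) z v) =
      4 * ρ * d1 (lg (fun t => g (ρ * t) / ρ)) z u v := by
  have hm := hh_mem hF hρ hz (lt_add_one _)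
  obtain ⟨e, he⟩ := exists_fr hm.1
  have hp := hh2_ne hF hρ hz
  have hpn : ‖(hh ρ z).2‖ ≠ 0 := norm_ne_zero_iff.2 hp
  have h1 : ∀ i j, en (FG g c K t₀ (hh ρ z)) (hh ρ z) e i j =
      en (d1 (fun y : E6 => (-g ‖y.2‖) • ps y) (hh ρ z)) (hh ρ z) e i j := by
    intro i j
    rw [hG.e _ g c K t₀ hg (hh ρ z) e hm he i j,
      hR.psf (hh ρ z) _ e (fun t => -g t) hm hp he
        ((hg.smooth.neg.contDiffAt).of_le (by exact_mod_cast le_top)) i j]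
    have h2 : deriv (fun t => -g t) ‖(hh ρ z).2‖ = - deriv g ‖(hh ρ z).2‖ := deriv.neg
    rw [h2]
    unfold gd
    rw [if_neg hpn]
    split_ifs <;> ring
  have hu := hh_tangent hF hρ hz u
  have hv := hh_tangent hF hρ hz v
  rw [bil_eq h1 (tangent_span he hu.1 hu.2) (tangent_span he hv.1 hv.2)]
  have h3 : ∀ᶠ y in 𝓝 z, (4 * ρ) • lg (fun t => g (ρ * t) / ρ) y =
      ((-g ‖(hh ρ y).2‖) • ps (hh ρ y)).comp (fderiv ℝ (hh ρ) y) := by
    filter_upwards [isOpen_compl_singleton.mem_nhds hz] with y hy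
    refine ContinuousLinearMap.ext fun w => ?_
    rw [ContinuousLinearMap.comp_apply]
    show (4 * ρ) * (lg (fun t => g (ρ * t) / ρ) y w) =
      (-g ‖(hh ρ y).2‖) * ps (hh ρ y) (fderiv ℝ (hh ρ) y w)
    rw [hF.pps y w ρ hy hρ, norm_hh2 hF hρ hy]
    show 4 * ρ * (g (ρ * ‖y‖ ^ 2) / ρ / ‖y‖ ^ 2 / 2 * ⟪qI y, w⟫) =
      -g (ρ * ‖y‖ ^ 2) * -(2 * ⟪qI y, w⟫ / ‖y‖ ^ 2)
    have hy' : ‖y‖ ≠ 0 := norm_ne_zero_iff.2 hy
    field_simp
    ring
  rw [← d1_pullback' (s := fun y : E6 => (-g ‖y.2‖) • ps y)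
    (t := fun y => (4 * ρ) • lg (fun t => g (ρ * t) / ρ) y) (hh_smoothAt hF ρ hz)
    (gps_diff hg.smooth hp) h3 u v]
  rw [d1_apply, d1_apply]
  have h4 : (fun y => (4 * ρ) • lg (fun t => g (ρ * t) / ρ) y) =
    (4 * ρ) • lg (fun t => g (ρ * t) / ρ) := rfl
  rw [h4, fderiv_const_smul_field]
  simp only [Pi.smul_apply, _root_.smul_apply, smul_eq_mul]
  ring

/-! ### the map to the manifold -/

section Man

variable {M : Type u} [TopologicalSpace M] [T2Space M] [CompactSpace M]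
  [ChartedSpace E4 M] [IsManifold 𝓘(ℝ, E4) ∞ M]

variable {σ : E3 → M} {r : ℝ} {Ps : E6 → M} {G : M → E6} {U : Set M}

/-- the neck. -/
def nk (Ps : E6 → M) (ρ : ℝ) : E4 → M := Ps ∘ hh ρ

lemma OS_mono {r r' : ℝ} (h : r ≤ r') : OS r ⊆ OS r' := fun _ hz => ⟨hz.1, hz.2.trans_le h⟩


lemma hh_OS (hF : PHI) {ρ : ℝ} (hρ : 0 < ρ) (hr : ρ < r) {z : E4} (hz : z ∈ KT_604.PB 1) :
    hh ρ z ∈ OS r := OS_mono hr.le (TS_subset_OS ρ (hh_PB hF hρ hz))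

lemma hh_contMDiffAt (hF : PHI) (ρ : ℝ) {z : E4} (hz : z ≠ 0) :
    ContMDiffAt 𝓘(ℝ, E4) 𝓘(ℝ, E6) ∞ (hh ρ) z := (hh_smoothAt hF ρ hz).contMDiffAt

lemma D1_hh (ρ : ℝ) (z : E4) : D1 E4 E6 (hh ρ) z = fderiv ℝ (hh ρ) z := rfl

lemma dmap_nk (ρ : ℝ) (z u : E4) : dmap (nk Ps ρ) z u = D1 E4 E4 (nk Ps ρ) z u := rfl

lemma D1_nk (h : Tube σ r Ps G U) (hF : PHI) {ρ : ℝ} (hρ : 0 < ρ) (hr : ρ < r) {z : E4}
    (hz : z ∈ KT_604.PB 1) :
    D1 E4 E4 (nk Ps ρ) z = (D1 E6 E4 Ps (hh ρ z)).comp (fderiv ℝ (hh ρ) z) := by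
  have h1 := (hh_contMDiffAt hF ρ hz.1).of_le one_le_infty
  have h2 := (smoothAt h (hh_OS hF hρ hr hz)).of_le one_le_infty
  exact D1_comp (E := E4) (F := E6) (G := E4) (X := E4) (M := E6) (N := M) h1 h2

lemma val_nk (h : Tube σ r Ps G U) (hF : PHI) {ρ : ℝ} (hρ : 0 < ρ) (hr : ρ < r) {z : E4}
    (hz : z ∈ KT_604.PB 1) (a : Z2 M) (u v : E4) :
    val a (nk Ps ρ z) (dmap (nk Ps ρ) z u) (dmap (nk Ps ρ) z v) =
      Om Ps a (hh ρ z) (fderiv ℝ (hh ρ) z u) (fderiv ℝ (hh ρ) z v) := by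
  rw [dmap_nk, dmap_nk, D1_nk h hF hρ hr hz]
  rfl

lemma imm_nk (h : Tube σ r Ps G U) (hF : PHI) {ρ : ℝ} (hρ : 0 < ρ) (hr : ρ < r) {z : E4}
    (hz : z ∈ KT_604.PB 1) {v : E4} (hv : dmap (nk Ps ρ) z v = 0) : v = 0 := by
  refine hF.imm z v ρ hz.1 hρ.ne' ?_
  have hz' := hh_OS hF hρ hr hz
  have h1 : G ∘ nk Ps ρ =ᶠ[𝓝 z] hh ρ := by
    have hop : IsOpen (KT_604.PB 1) := by
      have : KT_604.PB 1 = {0}ᶜ ∩ Metric.ball (0 : E4) 1 := by
        ext y; simp [KT_604.PB]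
      rw [this]
      exact isOpen_compl_singleton.inter Metric.isOpen_ball
    filter_upwards [hop.mem_nhds hz] with y hy
    show G (Ps (hh ρ y)) = _
    rw [h.right _ (hh_OS hF hρ hr hy), Pi_hh hF hρ hy.1]
  have h2 : ContMDiffAt 𝓘(ℝ, E4) 𝓘(ℝ, E4) 1 (nk Ps ρ) z :=
    ((smoothAt h hz').comp z (hh_contMDiffAt hF ρ hz.1)).of_le one_le_infty
  have h3 : ContMDiffAt 𝓘(ℝ, E4) 𝓘(ℝ, E6) 1 G (nk Ps ρ z) :=
    (smoothGAt h (h.maps _ hz')).of_le one_le_infty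
  have h4 := D1_comp (E := E4) (F := E4) (G := E6) (X := E4) (M := M) (N := E6) h2 h3
  rw [D1_congr h1, D1_hh] at h4
  rw [h4, ContinuousLinearMap.comp_apply, ← dmap_nk, hv, map_zero]

end Man

end

end Crest.Agent.R235.K12Std_235
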