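import Crest.Agent.R235.K12Ext_168

/-!
Row 235 (S0364), package KUM, node NECKTH (a) (helper785), part B: the model Thom form on
`E6 ⊇ T S²`.

* `aL q u v = ⟪q, u × v⟫`; `Ar` : the area form of the zero section, pulled back to `{q ≠ 0}`;
* `psb` : the angular form, pulled back by `Pi`; `d1_psb : d psb = - Ar` where `p ≠ 0`;
* `BB F` : the closed form `d(-F(|p|) psb)`, extended by `F 0 • Ar` to the zero section.
-/

set_option autoImplicit false
set_option maxSynthPendingDepth 3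
set_option linter.unusedSectionVars false

open Set Function Filter MeasureTheory
open scoped Manifold ContDiff Topology RealInnerProductSpace

universe u

namespace Crest.Agent.R235.KumThB_785

open Crest.Agent.R240 Crest.Agent.R240.Ch Crest.Agent.R235 Crest.Agent.R235.K12_417
  Crest.Agent.R235.PB_604 Crest.Agent.R235.K12Ext_168

noncomputable section

/-! ### algebra in `E3` -/

lemma in3 (x y : E3) : ⟪x, y⟫ = x 0 * y 0 + x 1 * y 1 + x 2 * y 2 := by
  rw [PiLp.inner_apply, Fin.sum_univ_three]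
  simp [mul_comm]

@[simp] lemma cr_0 (a b : E3) : cr a b 0 = a 1 * b 2 - a 2 * b 1 := rfl
@[simp] lemma cr_1 (a b : E3) : cr a b 1 = a 2 * b 0 - a 0 * b 2 := rfl
@[simp] lemma cr_2 (a b : E3) : cr a b 2 = a 0 * b 1 - a 1 * b 0 := rfl

@[simp] lemma crL_apply (q v : E3) : crL q v = cr q v := rfl

lemma cr_add_left (a b c : E3) : cr (a + b) c = cr a c + cr b c := by
  ext i; fin_cases i <;> simp <;> ring

lemma cr_smul_left (t : ℝ) (a b : E3) : cr (t • a) b = t • cr a b := by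
  ext i; fin_cases i <;> simp <;> ring

lemma cr_add_right (a b c : E3) : cr a (b + c) = cr a b + cr a c := by
  ext i; fin_cases i <;> simp <;> ring

lemma cr_smul_right (t : ℝ) (a b : E3) : cr a (t • b) = t • cr a b := by
  ext i; fin_cases i <;> simp <;> ring

lemma cr_self (a : E3) : cr a a = 0 := by
  ext i; fin_cases i <;> simp <;> ring

/-- `u ↦ v ↦ u × v`. -/
def crB : E3 →L[ℝ] E3 →L[ℝ] E3 :=
  LinearMap.toContinuousLinearMap
    { toFun := crL
      map_add' := fun a b => by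
        refine ContinuousLinearMap.ext fun v => ?_
        rw [crL_apply, cr_add_left]; rfl
      map_smul' := fun t a => by
        refine ContinuousLinearMap.ext fun v => ?_
        rw [crL_apply, cr_smul_left]; rfl }

@[simp] lemma crB_apply (u v : E3) : crB u v = cr u v := rfl

/-- `⟪q, u × v⟫`. -/
def aL : E3 →L[ℝ] E3 →L[ℝ] E3 →L[ℝ] ℝ :=
  LinearMap.toContinuousLinearMap
    { toFun := fun q => ((ContinuousLinearMap.compL ℝ E3 E3 ℝ) (innerSL ℝ q)).comp crB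
      map_add' := fun a b => by
        refine ContinuousLinearMap.ext fun u => ContinuousLinearMap.ext fun v => ?_
        simp
      map_smul' := fun t a => by
        refine ContinuousLinearMap.ext fun u => ContinuousLinearMap.ext fun v => ?_
        simp }

@[simp] lemma aL_apply (q u v : E3) : aL q u v = ⟪q, cr u v⟫ := rfl

/-- three vectors orthogonal to a non-zero vector are dependent. -/
lemma det_zero {q u v w : E3} (hq : q ≠ 0) (hu : ⟪q, u⟫ = 0) (hv : ⟪q, v⟫ = 0) (hw : ⟪q, w⟫ = 0) :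
    ⟪u, cr v w⟫ = 0 := by
  rw [in3] at hu hv hw
  rw [in3]
  simp only [cr_0, cr_1, cr_2]
  by_contra hne
  apply hq
  ext i
  fin_cases i
  · have : q 0 * (u 0 * (v 1 * w 2 - v 2 * w 1) + u 1 * (v 2 * w 0 - v 0 * w 2) +
      u 2 * (v 0 * w 1 - v 1 * w 0)) = 0 := by
      linear_combination (v 1 * w 2 - v 2 * w 1) * hu - (u 1 * w 2 - u 2 * w 1) * hv +
        (u 1 * v 2 - u 2 * v 1) * hw
    simpa using (mul_eq_zero.1 this).resolve_right hne
  · have : q 1 * (u 0 * (v 1 * w 2 - v 2 * w 1) + u 1 * (v 2 * w 0 - v 0 * w 2) +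
      u 2 * (v 0 * w 1 - v 1 * w 0)) = 0 := by
      linear_combination (v 2 * w 0 - v 0 * w 2) * hu - (u 2 * w 0 - u 0 * w 2) * hv +
        (u 2 * v 0 - u 0 * v 2) * hw
    simpa using (mul_eq_zero.1 this).resolve_right hne
  · have : q 2 * (u 0 * (v 1 * w 2 - v 2 * w 1) + u 1 * (v 2 * w 0 - v 0 * w 2) +
      u 2 * (v 0 * w 1 - v 1 * w 0)) = 0 := by
      linear_combination (v 0 * w 1 - v 1 * w 0) * hu - (u 0 * w 1 - u 1 * w 0) * hv +
        (u 0 * v 1 - u 1 * v 0) * hw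
    simpa using (mul_eq_zero.1 this).resolve_right hne

lemma norm_sq3 (x : E3) : ‖x‖ ^ 2 = x 0 ^ 2 + x 1 ^ 2 + x 2 ^ 2 := by
  rw [← real_inner_self_eq_norm_sq, in3]; ring

/-- existence of a frame. -/
lemma exists_fr {q : E3} (hq : ‖q‖ = 1) : ∃ e, IsFr q e := by
  have key : ∃ x : E3, x ≠ 0 ∧ ⟪q, x⟫ = 0 := by
    by_cases h : q 0 = 0 ∧ q 1 = 0
    · refine ⟨EuclideanSpace.single 0 1, ?_, ?_⟩
      · intro h0
        have := congrArg (fun v : E3 => v 0) h0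
        simp at this
      · rw [in3, h.1, h.2]; simp
    · refine ⟨!₂[-q 1, q 0, 0], ?_, ?_⟩
      · intro h0
        apply h
        have h1 := congrArg (fun v : E3 => v 0) h0
        have h2 := congrArg (fun v : E3 => v 1) h0
        simp at h1 h2
        exact ⟨h2, h1⟩
      · rw [in3]; simp; ring
  obtain ⟨x, hx, hqx⟩ := key
  have hn : ‖x‖ ≠ 0 := norm_ne_zero_iff.2 hx
  refine ⟨‖x‖⁻¹ • x, hq, ?_, ?_⟩
  · rw [norm_smul, norm_inv, norm_norm, inv_mul_cancel₀ hn]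
  · rw [inner_smul_right, hqx, mul_zero]

/-- the expansion in the frame `q, e, q × e`. -/
lemma fr_expand {q e : E3} (h : IsFr q e) (x : E3) :
    x = ⟪q, x⟫ • q + ⟪e, x⟫ • e + ⟪cr q e, x⟫ • cr q e := by
  obtain ⟨h1, h2, h3⟩ := h
  have a1 : q 0 ^ 2 + q 1 ^ 2 + q 2 ^ 2 = 1 := by rw [← norm_sq3, h1]; norm_num
  have a2 : e 0 ^ 2 + e 1 ^ 2 + e 2 ^ 2 = 1 := by rw [← norm_sq3, h2]; norm_num
  have a3 : q 0 * e 0 + q 1 * e 1 + q 2 * e 2 = 0 := by rw [← in3]; exact h3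
  have a4 : cr q e 0 ^ 2 + cr q e 1 ^ 2 + cr q e 2 ^ 2 = 1 := by
    simp only [cr_0, cr_1, cr_2]
    linear_combination (e 0 ^ 2 + e 1 ^ 2 + e 2 ^ 2) * a1 + a2 -
      (q 0 * e 0 + q 1 * e 1 + q 2 * e 2) * a3
  have a5 : q 0 * cr q e 0 + q 1 * cr q e 1 + q 2 * cr q e 2 = 0 := by
    simp only [cr_0, cr_1, cr_2]; ring
  have a6 : e 0 * cr q e 0 + e 1 * cr q e 1 + e 2 * cr q e 2 = 0 := by
    simp only [cr_0, cr_1, cr_2]; ring
  set f := cr q e with hf
  let Q : Matrix (Fin 3) (Fin 3) ℝ := !![q 0, q 1, q 2; e 0, e 1, e 2; f 0, f 1, f 2]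
  have hQ : Q * Q.transpose = 1 := by
    ext i j
    fin_cases i <;> fin_cases j <;>
      simp [Q, Matrix.mul_apply, Fin.sum_univ_three] <;> linarith
  have hQ' : Q.transpose * Q = 1 := mul_eq_one_comm.1 hQ
  have hij : ∀ i j : Fin 3, q i * q j + e i * e j + f i * f j = if i = j then 1 else 0 := by
    intro i j
    have := congrFun (congrFun hQ' i) j
    rw [Matrix.mul_apply, Fin.sum_univ_three, Matrix.one_apply] at this
    rw [← this]
    fin_cases i <;> fin_cases j <;> simp [Q]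
  ext i
  rw [in3, in3, in3]
  have e0 := hij i 0
  have e1 := hij i 1
  have e2 := hij i 2
  have key : (q 0 * x 0 + q 1 * x 1 + q 2 * x 2) * q i + (e 0 * x 0 + e 1 * x 1 + e 2 * x 2) * e i +
      (f 0 * x 0 + f 1 * x 1 + f 2 * x 2) * f i =
      x 0 * (q i * q 0 + e i * e 0 + f i * f 0) + x 1 * (q i * q 1 + e i * e 1 + f i * f 1) +
      x 2 * (q i * q 2 + e i * e 2 + f i * f 2) := by ring
  simp only [PiLp.add_apply, PiLp.smul_apply, smul_eq_mul]
  rw [key, e0, e1, e2]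
  fin_cases i <;> simp

/-! ### tangent vectors of `T S²` -/

/-- `U` is tangent to `T S²` at `z`. -/
def Tan (z U : E6) : Prop := ⟪z.1, U.1⟫ = 0 ∧ ⟪z.1, U.2⟫ + ⟪z.2, U.1⟫ = 0

lemma tan_expand {z U : E6} {e : E3} (h : IsFr z.1 e) (hU : Tan z U) :
    U = ⟪e, U.1⟫ • X z e 0 + ⟪cr z.1 e, U.1⟫ • X z e 1 + ⟪e, U.2⟫ • X z e 2 +
      ⟪cr z.1 e, U.2⟫ • X z e 3 := by
  have h1 := fr_expand h U.1
  have h2 := fr_expand h U.2
  rw [hU.1, zero_smul, zero_add] at h1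
  have h3 : ⟪z.1, U.2⟫ = - ⟪z.2, U.1⟫ := by linarith [hU.2]
  rw [h3] at h2
  have h4 : ⟪z.2, U.1⟫ = ⟪e, U.1⟫ * ⟪z.2, e⟫ + ⟪cr z.1 e, U.1⟫ * ⟪z.2, cr z.1 e⟫ := by
    conv_lhs => rw [h1]
    rw [inner_add_right, inner_smul_right, inner_smul_right]
  refine Prod.ext ?_ ?_
  · show U.1 = _
    simp only [X, hor, ver, Prod.fst_add, Prod.smul_fst, smul_zero, add_zero]
    exact h1
  · show U.2 = _
    simp only [X, hor, ver, Prod.snd_add, Prod.smul_snd]
    conv_lhs => rw [h2, h4]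
    simp only [smul_neg, smul_smul, neg_smul, add_smul]
    abel

/-- a bilinear form on tangent vectors, from its entries. -/
lemma bil_tan {b : B6} {z U V : E6} {e : E3} (h : IsFr z.1 e) (hU : Tan z U) (hV : Tan z V)
    (hb : ∀ i j, en b z e i j = if i = 0 ∧ j = 1 then -1 else if i = 1 ∧ j = 0 then 1 else 0) :
    b U V = - ⟪z.1, cr U.1 V.1⟫ := by
  have hU1 := fr_expand h U.1
  have hV1 := fr_expand h V.1
  rw [hU.1, zero_smul, zero_add] at hU1
  rw [hV.1, zero_smul, zero_add] at hV1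
  have hf : ⟪z.1, cr e (cr z.1 e)⟫ = 1 := by
    obtain ⟨h1, h2, h3⟩ := h
    have a1 : z.1 0 ^ 2 + z.1 1 ^ 2 + z.1 2 ^ 2 = 1 := by rw [← norm_sq3, h1]; norm_num
    have a2 : e 0 ^ 2 + e 1 ^ 2 + e 2 ^ 2 = 1 := by rw [← norm_sq3, h2]; norm_num
    have a3 : z.1 0 * e 0 + z.1 1 * e 1 + z.1 2 * e 2 = 0 := by rw [← in3]; exact h3
    rw [in3]
    simp only [cr_0, cr_1, cr_2]
    linear_combination (e 0 ^ 2 + e 1 ^ 2 + e 2 ^ 2) * a1 + a2 -
      (z.1 0 * e 0 + z.1 1 * e 1 + z.1 2 * e 2) * a3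
  have hf2 : cr (cr z.1 e) e = - cr e (cr z.1 e) := by
    ext i; fin_cases i <;> simp <;> ring
  have key : ⟪z.1, cr U.1 V.1⟫ = ⟪e, U.1⟫ * ⟪cr z.1 e, V.1⟫ - ⟪cr z.1 e, U.1⟫ * ⟪e, V.1⟫ := by
    conv_lhs => rw [hU1, hV1]
    simp only [cr_add_left, cr_add_right, cr_smul_left, cr_smul_right, cr_self, smul_zero,
      zero_add, add_zero, hf2, inner_add_right, inner_smul_right, inner_neg_right, hf,
      smul_neg]
    ring
  rw [key]
  conv_lhs => rw [tan_expand h hU, tan_expand h hV]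
  have hb' : ∀ i j, b (X z e i) (X z e j) =
      if i = 0 ∧ j = 1 then -1 else if i = 1 ∧ j = 0 then 1 else 0 := hb
  simp only [map_add, map_smul, add_apply, smul_apply, smul_eq_mul, hb']
  simp
  ring

/-! ### the model forms -/

/-- `q / |q|`. -/
def nn (z : E6) : E3 := (Pi z).1

lemma contDiffAt_nn {z : E6} (hz : z.1 ≠ 0) : ContDiffAt ℝ ∞ nn z := (contDiffAt_Pi hz).fst

lemma norm_nn {z : E6} (hz : z.1 ≠ 0) : ‖nn z‖ = 1 := Pi_fst_norm hz

lemma fst_ne_ev {z : E6} (hz : z.1 ≠ 0) : ∀ᶠ w : E6 in 𝓝 z, w.1 ≠ 0 :=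
  continuousAt_fst.eventually_ne hz

lemma fderiv_nn {z : E6} (hz : z.1 ≠ 0) (U : E6) : fderiv ℝ nn z U = (fderiv ℝ Pi z U).1 := by
  have h := (contDiffAt_Pi hz).differentiableAt infty_ne_zero
  have := h.hasFDerivAt.fst
  rw [show nn = fun z => (Pi z).1 from rfl, this.fderiv]
  rfl

/-- the differential of `Pi` has values in the tangent spaces. -/
lemma tan_fderiv_Pi {z : E6} (hz : z.1 ≠ 0) (U : E6) : Tan (Pi z) (fderiv ℝ Pi z U) := by
  have hd := (contDiffAt_Pi hz).differentiableAt infty_ne_zero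
  have h1 : DifferentiableAt ℝ (fun w => (Pi w).1) z := hd.fst
  have h2 : DifferentiableAt ℝ (fun w => (Pi w).2) z := hd.snd
  have e1 : ∀ U, fderiv ℝ (fun w => (Pi w).1) z U = (fderiv ℝ Pi z U).1 := by
    intro U; rw [hd.hasFDerivAt.fst.fderiv]; rfl
  have e2 : ∀ U, fderiv ℝ (fun w => (Pi w).2) z U = (fderiv ℝ Pi z U).2 := by
    intro U; rw [hd.hasFDerivAt.snd.fderiv]; rfl
  constructor
  · have h3 : (fun w => ⟪(Pi w).1, (Pi w).1⟫) =ᶠ[𝓝 z] fun _ => (1 : ℝ) := by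
      filter_upwards [fst_ne_ev hz] with w hw
      rw [real_inner_self_eq_norm_sq, Pi_fst_norm hw]; norm_num
    have h4 := fderiv_inner_apply ℝ h1 h1 U
    rw [h3.fderiv_eq, fderiv_const_apply, e1] at h4
    rw [real_inner_comm] at h4
    have h5 : (0 : ℝ) = ⟪(fderiv ℝ Pi z U).1, (Pi z).1⟫ + ⟪(fderiv ℝ Pi z U).1, (Pi z).1⟫ := h4
    rw [real_inner_comm]
    linarith
  · have h3 : (fun w => ⟪(Pi w).1, (Pi w).2⟫) =ᶠ[𝓝 z] fun _ => (0 : ℝ) := by
      filter_upwards [fst_ne_ev hz] with w hw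
      exact Pi_inner hw
    have h4 := fderiv_inner_apply ℝ h1 h2 U
    rw [h3.fderiv_eq, fderiv_const_apply, e1, e2] at h4
    have h5 : (0 : ℝ) = ⟪(Pi z).1, (fderiv ℝ Pi z U).2⟫ + ⟪(fderiv ℝ Pi z U).1, (Pi z).2⟫ := h4
    rw [real_inner_comm (fderiv ℝ Pi z U).1 (Pi z).2]
    linarith

/-- the area form of the zero section. -/
def Ar (z : E6) : B6 := pl (fderiv ℝ nn z) (aL (nn z))

lemma Ar_apply (z U V : E6) : Ar z U V = ⟪nn z, cr (fderiv ℝ nn z U) (fderiv ℝ nn z V)⟫ := by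
  unfold Ar
  rw [pl_apply, aL_apply]

lemma contDiffAt_Ar {z : E6} (hz : z.1 ≠ 0) : ContDiffAt ℝ ∞ Ar z :=
  contDiffAt_pl ((contDiffAt_nn hz).fderiv_right (m := ∞) (by simp))
    (aL.contDiff.contDiffAt.comp z (contDiffAt_nn hz))

lemma Ar_alt (z U : E6) : Ar z U U = 0 := by
  rw [Ar_apply, cr_self, inner_zero_right]

lemma inner_cr_swap (a b c : E3) : ⟪a, cr b c⟫ = - ⟪a, cr c b⟫ := by
  rw [in3, in3]; simp only [cr_0, cr_1, cr_2]; ring


lemma dd_Ar {z : E6} (hz : z.1 ≠ 0) (U V Y : E6) : dd Ar z U V Y = 0 := by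
  have h1 : DifferentiableAt ℝ (fun q : E3 => aL q) (nn z) := aL.differentiableAt
  rw [dd_pullback' (b := fun q : E3 => aL q) (φ := nn) (contDiffAt_nn hz) h1
    (fun u v => by
      show aL (nn z) u v = - aL (nn z) v u
      rw [aL_apply, aL_apply, inner_cr_swap])
    ((contDiffAt_Ar hz).differentiableAt infty_ne_zero)
    (Eventually.of_forall fun w u v => by rw [Ar_apply]; rfl)]
  have hf : fderiv ℝ (fun q : E3 => aL q) (nn z) = aL := aL.fderiv
  unfold dd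
  rw [hf]
  have hn : nn z ≠ 0 := by
    intro h0
    have := norm_nn hz
    rw [h0, norm_zero] at this
    exact zero_ne_one this
  have ht : ∀ U, ⟪nn z, fderiv ℝ nn z U⟫ = 0 := by
    intro U
    rw [fderiv_nn hz]
    exact (tan_fderiv_Pi hz U).1
  show ⟪_, cr _ _⟫ - ⟪_, cr _ _⟫ + ⟪_, cr _ _⟫ = (0 : ℝ)
  rw [det_zero hn (ht U) (ht V) (ht Y), det_zero hn (ht V) (ht U) (ht Y),
    det_zero hn (ht Y) (ht U) (ht V)]
  ring

lemma contDiffAt_ps {z : E6} (hz : z.2 ≠ 0) : ContDiffAt ℝ ∞ ps z := by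
  have h1 : ContDiffAt ℝ ∞ (fun z : E6 => z.1) z := contDiffAt_fst
  have h2 : ContDiffAt ℝ ∞ (fun z : E6 => z.2) z := contDiffAt_snd
  have h3 : ContDiffAt ℝ ∞ (fun z : E6 => (‖z.2‖ ^ 2)⁻¹) z :=
    ((h2.norm ℝ hz).pow 2).inv (pow_ne_zero 2 (norm_ne_zero_iff.2 hz))
  have h4 : ContDiffAt ℝ ∞ (fun z : E6 => cr z.1 z.2) z := by
    have : (fun z : E6 => cr z.1 z.2) = fun z : E6 => crB z.1 z.2 := rfl
    rw [this]
    exact (crB.contDiff.contDiffAt.comp z h1).clm_apply h2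
  have h5 : ContDiffAt ℝ ∞ (fun z : E6 => innerSL ℝ (cr z.1 z.2)) z :=
    (innerSL ℝ).contDiff.contDiffAt.comp z h4
  exact h3.smul (h5.clm_comp contDiffAt_const)

/-- the angular form, made basic. -/
def psb (z : E6) : E6 →L[ℝ] ℝ := (ps (Pi z)).comp (fderiv ℝ Pi z)

lemma Pi_snd_ev {z : E6} (hz : z.1 ≠ 0) (hp : (Pi z).2 ≠ 0) : ∀ᶠ w : E6 in 𝓝 z, (Pi w).2 ≠ 0 :=
  ((contDiffAt_Pi hz).continuousAt.snd).eventually_ne hp

lemma contDiffAt_psb {z : E6} (hz : z.1 ≠ 0) (hp : (Pi z).2 ≠ 0) : ContDiffAt ℝ ∞ psb z :=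
  ((contDiffAt_ps hp).comp z (contDiffAt_Pi hz)).clm_comp
    ((contDiffAt_Pi hz).fderiv_right (m := ∞) (by simp))

/-- `d psb = - Ar` off the zero section. -/
lemma d1_psb (hR : RADF) {z : E6} (hz : z.1 ≠ 0) (hp : (Pi z).2 ≠ 0) : d1 psb z = - Ar z := by
  refine ContinuousLinearMap.ext fun U => ContinuousLinearMap.ext fun V => ?_
  have h1 := d1_pullback' (s := ps) (t := psb) (φ := Pi) (contDiffAt_Pi hz)
    ((contDiffAt_ps hp).differentiableAt infty_ne_zero) (Eventually.of_forall fun w => rfl) U V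
  rw [h1]
  obtain ⟨e, he⟩ := exists_fr (Pi_fst_norm hz)
  have hT : Pi z ∈ TS (‖(Pi z).2‖ + 1) := ⟨Pi_fst_norm hz, Pi_inner hz, lt_add_one _⟩
  have hb := hR.psf (Pi z) _ e (fun _ => 1) hT hp he contDiffAt_const
  have hb' : ∀ i j, en (d1 ps (Pi z)) (Pi z) e i j =
      if i = 0 ∧ j = 1 then -1 else if i = 1 ∧ j = 0 then 1 else 0 := by
    intro i j
    have h2 := hb i j
    simp only [one_smul, deriv_const, zero_div, neg_zero] at h2
    rw [show (fun y : E6 => ps y) = ps from rfl] at h2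
    rw [h2]
    fin_cases i <;> fin_cases j <;> simp
  rw [bil_tan he (tan_fderiv_Pi hz U) (tan_fderiv_Pi hz V) hb']
  show _ = - (Ar z U V)
  rw [Ar_apply, fderiv_nn hz, fderiv_nn hz]
  rfl

/-- the one-form `-F(|p|) psb`. -/
def bb (F : ℝ → ℝ) (z : E6) : E6 →L[ℝ] ℝ := (-(F ‖(Pi z).2‖)) • psb z

lemma contDiffAt_bb {F : ℝ → ℝ} (hF : ContDiff ℝ ∞ F) {z : E6} (hz : z.1 ≠ 0)
    (hp : (Pi z).2 ≠ 0) : ContDiffAt ℝ ∞ (bb F) z := by
  have h1 : ContDiffAt ℝ ∞ (fun w : E6 => ‖(Pi w).2‖) z := (contDiffAt_Pi hz).snd.norm ℝ hp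
  exact ((hF.contDiffAt.comp z h1).neg).smul (contDiffAt_psb hz hp)

open Classical in
/-- the model Thom form. -/
def BB (F : ℝ → ℝ) (z : E6) : B6 := if (Pi z).2 = 0 then F 0 • Ar z else d1 (bb F) z

lemma BB_of_ne (F : ℝ → ℝ) {z : E6} (hp : (Pi z).2 ≠ 0) : BB F z = d1 (bb F) z := by
  unfold BB; rw [if_neg hp]

lemma BB_ev_of_ne (F : ℝ → ℝ) {z : E6} (hz : z.1 ≠ 0) (hp : (Pi z).2 ≠ 0) :
    BB F =ᶠ[𝓝 z] d1 (bb F) := by
  filter_upwards [Pi_snd_ev hz hp] with w hw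
  exact BB_of_ne F hw

/-- near the zero section the form is `F 0 • Ar`. -/
lemma BB_of_lt (hR : RADF) {F : ℝ → ℝ} {δ : ℝ} (hF : ∀ s < δ, F s = F 0) {z : E6} (hz : z.1 ≠ 0)
    (hp : ‖(Pi z).2‖ < δ) : BB F z = F 0 • Ar z := by
  by_cases h : (Pi z).2 = 0
  · unfold BB; rw [if_pos h]
  · rw [BB_of_ne F h]
    have h1 : bb F =ᶠ[𝓝 z] fun w => (-(F 0)) • psb w := by
      have h2 : ∀ᶠ w : E6 in 𝓝 z, ‖(Pi w).2‖ < δ :=
        ((contDiffAt_Pi hz).continuousAt.snd.norm).eventually_lt_const hp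
      filter_upwards [h2] with w hw
      unfold bb
      rw [hF _ hw]
    rw [d1_congr h1]
    have h3 : d1 (fun w => (-(F 0)) • psb w) z = (-(F 0)) • d1 psb z := by
      have hd := (contDiffAt_psb hz h).differentiableAt infty_ne_zero
      refine ContinuousLinearMap.ext fun U => ContinuousLinearMap.ext fun V => ?_
      rw [d1_apply]
      have h4 : fderiv ℝ (fun w => (-(F 0)) • psb w) z = (-(F 0)) • fderiv ℝ psb z :=
        fderiv_fun_const_smul hd _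
      rw [h4]
      show _ = -(F 0) * (d1 psb z U V)
      rw [d1_apply]
      simp only [smul_apply, smul_eq_mul]
      ring
    rw [h3, d1_psb hR hz h, smul_neg, neg_smul, neg_neg]

lemma BB_ev_of_lt (hR : RADF) {F : ℝ → ℝ} {δ : ℝ} (hF : ∀ s < δ, F s = F 0) {z : E6}
    (hz : z.1 ≠ 0) (hp : ‖(Pi z).2‖ < δ) : BB F =ᶠ[𝓝 z] fun w => F 0 • Ar w := by
  have h2 : ∀ᶠ w : E6 in 𝓝 z, ‖(Pi w).2‖ < δ :=
    ((contDiffAt_Pi hz).continuousAt.snd.norm).eventually_lt_const hp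
  filter_upwards [h2, fst_ne_ev hz] with w hw hw1
  exact BB_of_lt hR hF hw1 hw

/-- the model form is smooth and closed. -/
theorem BB_z2 (hR : RADF) {F : ℝ → ℝ} (hs : ContDiff ℝ ∞ F) {δ : ℝ} (hδ : 0 < δ)
    (hF : ∀ s < δ, F s = F 0) {z : E6} (hz : z.1 ≠ 0) : Z2At (E := E6) (X := E6) (BB F) z := by
  have hrep : rep z (BB F : F2 E6 E6) = BB F := by
    funext y
    exact rep_model z _ y
  by_cases h : ‖(Pi z).2‖ < δ
  · have hev := BB_ev_of_lt hR hF hz h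
    refine ⟨fun v => ?_, ?_, fun u v w => ?_⟩
    · show BB F z v v = 0
      rw [hev.self_of_nhds]
      show F 0 * (Ar z v v) = 0
      rw [Ar_alt, mul_zero]
    · rw [hrep]
      exact (((contDiffAt_Ar hz).const_smul (F 0))).congr_of_eventuallyEq hev
    · rw [hrep]
      show dd (BB F) z u v w = 0
      rw [dd_congr hev]
      have hd := (contDiffAt_Ar hz).differentiableAt infty_ne_zero
      have h4 : fderiv ℝ (fun w => F 0 • Ar w) z = F 0 • fderiv ℝ Ar z :=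
        fderiv_fun_const_smul hd _
      have h5 := dd_Ar hz u v w
      unfold dd at h5 ⊢
      rw [h4]
      simp only [smul_apply, smul_eq_mul]
      linear_combination (F 0) * h5
  · have hp : (Pi z).2 ≠ 0 := by
      intro h0
      rw [h0, norm_zero] at h
      exact h hδ
    have hev := BB_ev_of_ne F hz hp
    have hb := contDiffAt_bb hs hz hp
    refine ⟨fun v => ?_, ?_, fun u v w => ?_⟩
    · show BB F z v v = 0
      rw [hev.self_of_nhds, d1_apply, sub_self]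
    · rw [hrep]
      refine ContDiffAt.congr_of_eventuallyEq ?_ hev
      have h1 : ContDiffAt ℝ ∞ (fderiv ℝ (bb F)) z := hb.fderiv_right (m := ∞) (by simp)
      have h2 : d1 (bb F) = fun y => fderiv ℝ (bb F) y -
          (ContinuousLinearMap.flipₗᵢ ℝ E6 E6 ℝ) (fderiv ℝ (bb F) y) := rfl
      rw [h2]
      exact h1.sub ((ContinuousLinearMap.flipₗᵢ ℝ E6 E6 ℝ).contDiff.contDiffAt.comp z h1)
    · rw [hrep]
      show dd (BB F) z u v w = 0
      rw [dd_congr hev]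
      exact dd_d1 hb u v w

/-- the support of the model form. -/
lemma BB_zero {F : ℝ → ℝ} {s₀ : ℝ} (h0 : 0 < s₀) (hF : ∀ s, s₀ ≤ s → F s = 0) {z : E6}
    (hz : z.1 ≠ 0) (hp : s₀ < ‖(Pi z).2‖) : BB F z = 0 := by
  have hp' : (Pi z).2 ≠ 0 := by
    intro h
    rw [h, norm_zero] at hp
    linarith
  rw [BB_of_ne F hp']
  have h2 : ∀ᶠ w : E6 in 𝓝 z, s₀ < ‖(Pi w).2‖ :=
    ((contDiffAt_Pi hz).continuousAt.snd.norm).eventually_const_lt hp
  have h1 : bb F =ᶠ[𝓝 z] fun _ => 0 := by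
    filter_upwards [h2] with w hw
    unfold bb
    rw [hF _ hw.le, neg_zero, zero_smul]
  exact d1_zero_of_ev h1

end

end Crest.Agent.R235.KumThB_785
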