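import Crest.Agent.R235.K12Defs_417
import Crest.Agent.R235.K12StdA_235
import Crest.Agent.R235.IndTriA_451
import Crest.Agent.R235.KumThB_785
import Crest.Agent.R235.K12Geo_128
import Crest.Agent.R235.Exj_900
import Crest.Agent.R235.K12Ext_168
import Crest.Agent.R235.Pull_153

-- ▼ part R235/K12Alg_417
section

/-! Row 235, K12 (helper417): the Pfaffian inequalities `algq : ALGQ`, `algi : ALGI`. -/

set_option autoImplicit false

open Set Function Filter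

namespace Crest.Agent.R235.K12_417

/-- a positive definite binary form. -/
theorem bin_pos {P Q k t s : ℝ} (hP : 0 < P) (hQ : Q ^ 2 < 4 * k * P) (h : t ≠ 0 ∨ s ≠ 0) :
    0 < P * t ^ 2 - Q * t * s + k * s ^ 2 := by
  have h1 : P * (P * t ^ 2 - Q * t * s + k * s ^ 2) =
      (P * t - Q * s / 2) ^ 2 + (4 * k * P - Q ^ 2) / 4 * s ^ 2 := by ring
  have h2 : 0 < (P * t - Q * s / 2) ^ 2 + (4 * k * P - Q ^ 2) / 4 * s ^ 2 := by
    by_cases hs : s = 0
    · have ht : t ≠ 0 := by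
        rcases h with h | h
        · exact h
        · exact absurd hs h
      subst hs
      have : 0 < (P * t) ^ 2 := by positivity
      nlinarith
    · have : 0 < s ^ 2 := by positivity
      have h3 : 0 < (4 * k * P - Q ^ 2) / 4 * s ^ 2 := mul_pos (by linarith) this
      nlinarith [sq_nonneg (P * t - Q * s / 2)]
  rw [← h1] at h2
  exact (mul_pos_iff_of_pos_left hP).1 h2

theorem abs_lin {x y a b B : ℝ} (ha : |a| ≤ B) (hb : |b| ≤ B) :
    |x * a + y * b| ≤ B * (|x| + |y|) := by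
  calc |x * a + y * b| ≤ |x * a| + |y * b| := abs_add_le _ _
    _ = |x| * |a| + |y| * |b| := by rw [abs_mul, abs_mul]
    _ ≤ |x| * B + |y| * B := by gcongr
    _ = B * (|x| + |y|) := by ring

theorem abs_mul_le' {x y X Y : ℝ} (hx : |x| ≤ X) (hy : |y| ≤ Y) : -(X * Y) ≤ x * y := by
  have h1 : |x * y| ≤ X * Y := by
    rw [abs_mul]
    exact mul_le_mul hx hy (abs_nonneg _) ((abs_nonneg _).trans hx)
  exact (abs_le.1 h1).1

theorem sq_sum_le (a b : ℝ) : (|a| + |b|) ^ 2 ≤ 2 * (a ^ 2 + b ^ 2) := by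
  have h1 : a ^ 2 = |a| ^ 2 := (sq_abs a).symm
  have h2 : b ^ 2 = |b| ^ 2 := (sq_abs b).symm
  rw [h1, h2]
  nlinarith [sq_nonneg (|a| - |b|)]

theorem algq : ALGQ := by
  intro κ a b m B e₁ e₂ E hκ ha hb h01 h23 m1 m2 m3 m4 p1 p2 q1 q2 B1 B2 B3 B4 B5 B6 B7 B8 hdet
    he hQ c hc
  have hm : 0 ≤ m := (abs_nonneg _).trans m1
  have hB : 0 ≤ B := (abs_nonneg _).trans B1
  have he1 : 0 ≤ e₁ := (abs_nonneg _).trans p1
  have he2 : 0 ≤ e₂ := (abs_nonneg _).trans q1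
  have hd := hdet (c 1) (c 2)
  simp only [detE] at hd
  simp only [pfE, Fin.sum_univ_three, h01, h23]
  set x := c 0
  set y := c 1
  set w := c 2
  set s := |y| + |w| with hs
  have hs0 : 0 ≤ s := by positivity
  have b1 := abs_lin (x := y) (y := w) p1 p2
  have b2 := abs_lin (x := y) (y := w) q1 q2
  have n02 := abs_lin (x := y) (y := w) B1 B5
  have n03 := abs_lin (x := y) (y := w) B2 B6
  have n12 := abs_lin (x := y) (y := w) B3 B7
  have n13 := abs_lin (x := y) (y := w) B4 B8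
  rw [← hs] at b1 b2 n02 n03 n12 n13
  set ε := y * E 1 0 1 + w * E 2 0 1
  set δ := y * E 1 2 3 + w * E 2 2 3
  set N02 := y * E 1 0 2 + w * E 2 0 2
  set N03 := y * E 1 0 3 + w * E 2 0 3
  set N12 := y * E 1 1 2 + w * E 2 1 2
  set N13 := y * E 1 1 3 + w * E 2 1 3
  have hx : |x| = |x| := rfl
  -- the diagonal part
  have d1 : -(|x| * (a * (e₂ * s))) ≤ -(x * (a * δ)) := by
    have := abs_mul_le' (x := x) (y := -(a * δ)) (X := |x|) (Y := a * (e₂ * s)) le_rfl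
      (by rw [abs_neg, abs_mul, abs_of_pos ha]; gcongr)
    linarith
  have d2 : -(|x| * (b * (e₁ * s))) ≤ x * (b * ε) := by
    have := abs_mul_le' (x := x) (y := b * ε) (X := |x|) (Y := b * (e₁ * s)) le_rfl
      (by rw [abs_mul, abs_of_pos hb]; gcongr)
    linarith
  have d3 : -((e₁ * s) * (e₂ * s)) ≤ -(ε * δ) := by
    have := abs_mul_le' (x := ε) (y := -δ) (Y := e₂ * s) b1 (by rw [abs_neg]; exact b2)
    linarith
  -- the mixed part
  have k1 : -(m * m) ≤ E 0 0 2 * E 0 1 3 := abs_mul_le' m1 m4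
  have k2 : -(m * m) ≤ -(E 0 0 3) * E 0 1 2 := abs_mul_le' (by rw [abs_neg]; exact m2) m3
  have l1 : -(|x| * (m * (B * s))) ≤ x * (E 0 0 2 * N13) :=
    abs_mul_le' le_rfl (by rw [abs_mul]; gcongr)
  have l2 : -(|x| * ((B * s) * m)) ≤ x * (N02 * E 0 1 3) :=
    abs_mul_le' le_rfl (by rw [abs_mul]; gcongr)
  have l3 : -(|x| * (m * (B * s))) ≤ x * (-(E 0 0 3 * N12)) :=
    abs_mul_le' le_rfl (by rw [abs_neg, abs_mul]; gcongr)
  have l4 : -(|x| * ((B * s) * m)) ≤ x * (-(N03 * E 0 1 2)) :=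
    abs_mul_le' le_rfl (by rw [abs_neg, abs_mul]; gcongr)
  have hss : s ^ 2 ≤ 2 * (y ^ 2 + w ^ 2) := sq_sum_le y w
  have hne : |x| ≠ 0 ∨ s ≠ 0 := by
    by_contra hcon
    rw [not_or, not_not, not_not] at hcon
    apply hc
    have hx0 : x = 0 := abs_eq_zero.1 hcon.1
    have h1 := abs_nonneg y
    have h2 := abs_nonneg w
    have h3 : |y| + |w| = 0 := hcon.2
    have hy0 : y = 0 := abs_eq_zero.1 (by linarith)
    have hw0 : w = 0 := abs_eq_zero.1 (by linarith)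
    funext i
    fin_cases i
    · exact hx0
    · exact hy0
    · exact hw0
  have hP : 0 < a * b - 2 * m ^ 2 := by
    by_contra hcon
    have h1 : κ * (a * b - 2 * m ^ 2) ≤ 0 :=
      mul_nonpos_of_nonneg_of_nonpos hκ.le (not_lt.1 hcon)
    have h2 := sq_nonneg (a * e₂ + b * e₁ + 4 * (m * B))
    linarith
  have hmain := bin_pos (P := a * b - 2 * m ^ 2) (Q := a * e₂ + b * e₁ + 4 * (m * B)) (k := κ / 4)
    (t := |x|) (s := s) hP (by
      have : 4 * (κ / 4) * (a * b - 2 * m ^ 2) = κ * (a * b - 2 * m ^ 2) := by ring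
      rw [this]; exact hQ) hne
  have hx2 : |x| ^ 2 = x ^ 2 := sq_abs x
  rw [hx2] at hmain
  have hes : (e₁ * s) * (e₂ * s) ≤ κ / 4 * s ^ 2 := by
    have h1 : (e₁ * s) * (e₂ * s) = (e₁ * e₂) * s ^ 2 := by ring
    rw [h1]
    exact mul_le_mul_of_nonneg_right (by linarith) (sq_nonneg s)
  have hk : κ / 2 * s ^ 2 ≤ κ * (y ^ 2 + w ^ 2) := by
    have := mul_le_mul_of_nonneg_left hss hκ.le
    linarith
  have k3 : -(2 * m ^ 2 * x ^ 2) ≤ x ^ 2 * (E 0 0 2 * E 0 1 3 - E 0 0 3 * E 0 1 2) := by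
    have h1 : -(2 * m ^ 2) ≤ E 0 0 2 * E 0 1 3 - E 0 0 3 * E 0 1 2 := by linarith
    have h2 := mul_le_mul_of_nonneg_left h1 (sq_nonneg x)
    linarith
  have hd' : κ * (y ^ 2 + w ^ 2) ≤ N02 * N13 - N03 * N12 := hd
  have key : (x * a + y * E 1 0 1 + w * E 2 0 1) * (x * -b + y * E 1 2 3 + w * E 2 2 3) -
      (x * E 0 0 2 + y * E 1 0 2 + w * E 2 0 2) * (x * E 0 1 3 + y * E 1 1 3 + w * E 2 1 3) +
      (x * E 0 0 3 + y * E 1 0 3 + w * E 2 0 3) * (x * E 0 1 2 + y * E 1 1 2 + w * E 2 1 2) =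
      -(x ^ 2 * (a * b)) + x * (a * δ) - x * (b * ε) + ε * δ
      - x ^ 2 * (E 0 0 2 * E 0 1 3 - E 0 0 3 * E 0 1 2)
      - x * (E 0 0 2 * N13) - x * (N02 * E 0 1 3) - x * (-(E 0 0 3 * N12))
      - x * (-(N03 * E 0 1 2)) - (N02 * N13 - N03 * N12) := by ring
  rw [key]
  linarith

theorem algi : ALGI := by
  intro κ α C A L e₁ E hκ hα hA hL he h01 h23 p1 p2 hpf hA1 hA2 hL1 c hc
  have h := hpf c
  simp only [pfE, Fin.sum_univ_three] at h ⊢
  simp only [Fin.isValue, and_self, and_true, and_false, ite_true, ite_false,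
    Fin.reduceEq, sub_zero]
  have hC : 0 ≤ C := (abs_nonneg _).trans (h23 0)
  set x := c 0
  set y := c 1
  set w := c 2
  set s := |y| + |w| with hs
  have hs0 : 0 ≤ s := by positivity
  have b1 := abs_lin (x := y) (y := w) p1 p2
  rw [← hs] at b1
  have b2 : |x * E 0 2 3 + y * E 1 2 3 + w * E 2 2 3| ≤ C * (|x| + s) := by
    have h1 := abs_lin (x := y) (y := w) (h23 1) (h23 2)
    have h2 : |x * E 0 2 3| ≤ |x| * C := by
      rw [abs_mul]; exact mul_le_mul_of_nonneg_left (h23 0) (abs_nonneg x)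
    have h3 : x * E 0 2 3 + y * E 1 2 3 + w * E 2 2 3 =
      x * E 0 2 3 + (y * E 1 2 3 + w * E 2 2 3) := by ring
    rw [h3]
    have h4 := abs_add_le (x * E 0 2 3) (y * E 1 2 3 + w * E 2 2 3)
    rw [← hs] at h1
    linarith
  have hss : s ^ 2 ≤ 2 * (y ^ 2 + w ^ 2) := sq_sum_le y w
  set a := E 0 0 1
  set ε := y * E 1 0 1 + w * E 2 0 1
  set S := x * E 0 2 3 + y * E 1 2 3 + w * E 2 2 3
  have hx0 : 0 ≤ |x| := abs_nonneg x
  have hx2 : |x| ^ 2 = x ^ 2 := sq_abs x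
  -- the three error terms
  have t1 : -(|x| * A * (C * (|x| + s))) ≤ (x * A) * S := by
    refine abs_mul_le' ?_ b2
    rw [abs_mul, abs_of_nonneg hA]
  have t2 : -(|x| * L * (e₁ * s)) ≤ (x * L) * ε := by
    refine abs_mul_le' ?_ b1
    rw [abs_mul, abs_of_nonneg hL]
  have hpos : 0 < x ^ 2 + y ^ 2 + w ^ 2 := by
    by_contra hcon
    apply hc
    have h1 := sq_nonneg x
    have h2 := sq_nonneg y
    have h3 := sq_nonneg w
    have hx : x = 0 := pow_eq_zero_iff (two_ne_zero) |>.1 (by linarith)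
    have hy : y = 0 := pow_eq_zero_iff (two_ne_zero) |>.1 (by linarith)
    have hw : w = 0 := pow_eq_zero_iff (two_ne_zero) |>.1 (by linarith)
    funext i
    fin_cases i
    · exact hx
    · exact hy
    · exact hw
  have u1 : |x| * A * (C * (|x| + s)) ≤ κ / 16 * (2 * (x ^ 2 + 2 * (y ^ 2 + w ^ 2))) := by
    have h1 : |x| * (|x| + s) ≤ 2 * |x| ^ 2 + s ^ 2 := by
      clear * -
      nlinarith [sq_nonneg (|x| - s), sq_nonneg |x|, sq_nonneg s]
    have h2 : |x| * (|x| + s) ≤ 2 * (x ^ 2 + 2 * (y ^ 2 + w ^ 2)) := by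
      rw [hx2] at h1
      have := sq_nonneg y
      have := sq_nonneg w
      linarith
    have h3 : A * C ≤ κ / 16 := by linarith
    have h4 : 0 ≤ |x| * (|x| + s) := by positivity
    calc |x| * A * (C * (|x| + s)) = (A * C) * (|x| * (|x| + s)) := by ring
      _ ≤ κ / 16 * (|x| * (|x| + s)) := mul_le_mul_of_nonneg_right h3 h4
      _ ≤ _ := mul_le_mul_of_nonneg_left h2 (by positivity)
  have u2 : |x| * L * (e₁ * s) ≤ L * x ^ 2 * (α / 2) + κ / 16 * s ^ 2 := by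
    -- 2 |x| √.. ≤ ..
    have h1 : 0 ≤ (α * |x| - e₁ * s) ^ 2 := sq_nonneg _
    have h2 : 2 * α * (|x| * (e₁ * s)) ≤ α ^ 2 * x ^ 2 + e₁ ^ 2 * s ^ 2 := by
      rw [← hx2]; linarith
    have h3 : L * (2 * α * (|x| * (e₁ * s))) ≤ L * (α ^ 2 * x ^ 2 + e₁ ^ 2 * s ^ 2) :=
      mul_le_mul_of_nonneg_left h2 hL
    have h4 : (L * e₁ ^ 2) * s ^ 2 ≤ κ * α / 16 * s ^ 2 :=
      mul_le_mul_of_nonneg_right (by linarith) (sq_nonneg s)
    have h5 : α * (2 * (|x| * L * (e₁ * s))) ≤ α * (2 * (L * x ^ 2 * (α / 2)) + κ / 16 * s ^ 2) := by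
      clear * - h3 h4
      linarith
    have h6 := le_of_mul_le_mul_left h5 hα
    have h7 : 0 ≤ κ / 16 * s ^ 2 := by positivity
    clear * - h6 h7
    linarith
  have u3 : α / 2 * (L * x ^ 2) ≤ (a - A) * (L * x ^ 2) := by
    have h1 : 0 ≤ L * x ^ 2 := by positivity
    exact mul_le_mul_of_nonneg_right (by linarith) h1
  have key : (x * a + y * E 1 0 1 + w * E 2 0 1 - x * A) *
      (x * E 0 2 3 + y * E 1 2 3 + w * E 2 2 3 - x * L) -
      (x * E 0 0 2 + y * E 1 0 2 + w * E 2 0 2) * (x * E 0 1 3 + y * E 1 1 3 + w * E 2 1 3) +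
      (x * E 0 0 3 + y * E 1 0 3 + w * E 2 0 3) * (x * E 0 1 2 + y * E 1 1 2 + w * E 2 1 2) =
      ((x * a + y * E 1 0 1 + w * E 2 0 1) * (x * E 0 2 3 + y * E 1 2 3 + w * E 2 2 3) -
      (x * E 0 0 2 + y * E 1 0 2 + w * E 2 0 2) * (x * E 0 1 3 + y * E 1 1 3 + w * E 2 1 3) +
      (x * E 0 0 3 + y * E 1 0 3 + w * E 2 0 3) * (x * E 0 1 2 + y * E 1 1 2 + w * E 2 1 2))
      - (x * A) * S - (a - A) * (L * x ^ 2) - (x * L) * ε := by ring
  rw [key]
  have hss' : κ / 16 * s ^ 2 ≤ κ / 16 * (2 * (y ^ 2 + w ^ 2)) :=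
    mul_le_mul_of_nonneg_left hss (by positivity)
  have hfin : 0 < κ * (x ^ 2 + y ^ 2 + w ^ 2) := by positivity
  have hy2 : 0 ≤ κ * y ^ 2 := by positivity
  have hw2 : 0 ≤ κ * w ^ 2 := by positivity
  have hx2' : 0 ≤ κ * x ^ 2 := by positivity
  linarith

end Crest.Agent.R235.K12_417
end

-- ▼ part R235/K12StdB_235
section

/-!
Row 235 (S0364), block K12, leaf STDL (helper235), part B: the standard data `LStd` of one
standardised sphere (`Out1 ⇒ LStd`).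
-/

set_option autoImplicit false
set_option maxSynthPendingDepth 3
set_option linter.unusedSectionVars false

open Set Function Filter MeasureTheory
open scoped Manifold ContDiff Topology RealInnerProductSpace

universe u

namespace Crest.Agent.R235.K12Std_235

open Crest.Agent.R240 Crest.Agent.R240.Ch Crest.Agent.R235 Crest.Agent.R235.K12_417
  Crest.Agent.R235.PB_604 Crest.Agent.R235.K12An_776 Crest.Agent.R235.K12Ext_168

noncomputable section

variable {M : Type u} [TopologicalSpace M] [T2Space M] [CompactSpace M]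
  [ChartedSpace E4 M] [IsManifold 𝓘(ℝ, E4) ∞ M]

/-- the standard data of one sphere. -/
structure LStd (w : Trip M) (σ : E3 → M) (U : Set M) (φ : E4 → M) (s R r₀ : ℝ) (g : ℝ → ℝ) :
    Prop where
  smooth : ContMDiffOn 𝓘(ℝ, E4) 𝓘(ℝ, E4) ∞ φ (KT_604.PB 1)
  even : ∀ z ∈ KT_604.PB 1, φ (-z) = φ z
  inj : ∀ z ∈ KT_604.PB 1, ∀ z' ∈ KT_604.PB 1, φ z = φ z' → z' = z ∨ z' = -z
  imm : ∀ z ∈ KT_604.PB 1, ∀ v : E4, dmap φ z v = 0 → v = 0
  out : ∀ z ∈ KT_604.PB 1, φ z ∉ im σ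
  mapsU : ∀ z ∈ KT_604.PB 1, φ z ∈ U
  imU : im σ ⊆ U
  nbh : ∀ (r : ℝ), 0 < r → r ≤ 1 → IsOpen (im σ ∪ φ '' KT_604.PB r)
  shrink : ∀ (O : Set M), IsOpen O → im σ ⊆ O →
    ∃ r : ℝ, 0 < r ∧ r ≤ 1 ∧ φ '' KT_604.PB r ⊆ O
  sgn : s = 1 ∨ s = -1
  R_pos : 0 < R
  r_pos : 0 < r₀ ∧ r₀ < 1
  w1 : ∀ z ∈ KT_604.PB 1, ∀ u v : E4,
    val (w 1) (φ z) (dmap φ z u) (dmap φ z v) = R * ⟪qJ u, v⟫
  w2 : ∀ z ∈ KT_604.PB 1, ∀ u v : E4,
    val (w 2) (φ z) (dmap φ z u) (dmap φ z v) = s * R * ⟪qK u, v⟫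
  w0 : ∀ z ∈ KT_604.PB 1, ∀ u v : E4,
    val (w 0) (φ z) (dmap φ z u) (dmap φ z v) = R * d1 (lg g) z u v
  g_smooth : ContDiffOn ℝ ∞ g (Ioi 0)
  g_pos : ∀ t, 0 < t → t < 1 → 0 < g t ∧ 0 < deriv g t
  g_flat : ∀ t, r₀ ^ 2 ≤ t → t < 1 → g t = t


lemma PB_mono {r : ℝ} (hr : r ≤ 1) : KT_604.PB r ⊆ KT_604.PB 1 :=
  fun _ hz => ⟨hz.1, hz.2.trans_le hr⟩

lemma zero_mem_TS {y : E3} (hy : ‖y‖ = 1) {r : ℝ} (hr : 0 < r) : ((y, 0) : E6) ∈ TS r :=
  ⟨hy, inner_zero_right y, by simpa using hr⟩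

variable {σ : E3 → M} {r : ℝ} {Ps : E6 → M} {G : M → E6} {U : Set M}

lemma im_subset (h : Tube σ r Ps G U) : im σ ⊆ U := by
  rintro _ ⟨y, hy, rfl⟩
  have hy' : ‖y‖ = 1 := by simpa using hy
  rw [← h.zero y hy']
  exact h.maps _ (TS_subset_OS r (zero_mem_TS hy' h.r_pos))

lemma G_im (h : Tube σ r Ps G U) {y : E3} (hy : ‖y‖ = 1) : G (σ y) = (y, 0) := by
  rw [← h.zero y hy, h.right _ (TS_subset_OS r (zero_mem_TS hy h.r_pos)),
    Pi_of_TS (zero_mem_TS hy h.r_pos)]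

lemma G_nk (h : Tube σ r Ps G U) (hF : PHI) {ρ : ℝ} (hρ : 0 < ρ) (hr : ρ < r) {z : E4}
    (hz : z ∈ KT_604.PB 1) : G (nk Ps ρ z) = hh ρ z := by
  show G (Ps (hh ρ z)) = _
  rw [h.right _ (hh_OS hF hρ hr hz), Pi_hh hF hρ hz.1]

/-- the neighbourhoods of the sphere. -/
lemma nbh_eq (h : Tube σ r Ps G U) (hF : PHI) {ρ : ℝ} (hρ : 0 < ρ) (hr : ρ < r) {a : ℝ}
    (ha : 0 < a) (ha1 : a ≤ 1) :
    im σ ∪ nk Ps ρ '' KT_604.PB a = U ∩ G ⁻¹' {y : E6 | ‖y.2‖ < ρ * a ^ 2} := by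
  ext x
  constructor
  · rintro (hx | ⟨z, hz, rfl⟩)
    · refine ⟨im_subset h hx, ?_⟩
      obtain ⟨y, hy, rfl⟩ := hx
      have hy' : ‖y‖ = 1 := by simpa using hy
      show ‖(G (σ y)).2‖ < _
      rw [G_im h hy']
      simp only [norm_zero]
      positivity
    · have hz1 := PB_mono ha1 hz
      refine ⟨h.maps _ (hh_OS hF hρ hr hz1), ?_⟩
      show ‖(G (nk Ps ρ z)).2‖ < _
      rw [G_nk h hF hρ hr hz1, norm_hh2 hF hρ hz.1]
      have h1 : ‖z‖ ^ 2 < a ^ 2 := by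
        have := norm_nonneg z
        have := hz.2
        nlinarith
      exact mul_lt_mul_of_pos_left h1 hρ
  · rintro ⟨hxU, hx⟩
    have hx' : ‖(G x).2‖ < ρ * a ^ 2 := hx
    have hT := h.mapsG x hxU
    by_cases hp : (G x).2 = 0
    · left
      refine ⟨(G x).1, by simpa using hT.1, ?_⟩
      rw [← h.zero _ hT.1, ← hp]
      exact h.left x hxU
    · right
      obtain ⟨z, hz0, hz⟩ := hF.surj (G x).1 (G x).2 ρ hT.1 hT.2.1 hp hρ
      refine ⟨z, ⟨hz0, ?_⟩, ?_⟩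
      · have h1 := norm_hh2 hF hρ hz0
        rw [hz] at h1
        have h2 : ρ * ‖z‖ ^ 2 < ρ * a ^ 2 := by rw [← h1]; exact hx'
        have h3 : ‖z‖ ^ 2 < a ^ 2 := lt_of_mul_lt_mul_left h2 hρ.le
        exact lt_of_pow_lt_pow_left₀ 2 ha.le h3
      · show Ps (hh ρ z) = x
        rw [hz]
        exact h.left x hxU

lemma nbh_open (h : Tube σ r Ps G U) (c : ℝ) : IsOpen (U ∩ G ⁻¹' {y : E6 | ‖y.2‖ < c}) :=
  h.smoothG.continuousOn.isOpen_inter_preimage h.openU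
    (isOpen_lt continuous_snd.norm continuous_const)

lemma shrink_nk (h : Tube σ r Ps G U) (hF : PHI) {ρ : ℝ} (hρ : 0 < ρ) (_hr : ρ < r) {O : Set M}
    (hO : IsOpen O) (hσ : im σ ⊆ O) :
    ∃ a : ℝ, 0 < a ∧ a ≤ 1 ∧ nk Ps ρ '' KT_604.PB a ⊆ O := by
  have hK := isCompact_TSle 0
  have hop : IsOpen (OS r ∩ Ps ⁻¹' O) :=
    h.smooth.continuousOn.isOpen_inter_preimage (isOpen_OS r) hO
  have hsub : {z : E6 | ‖z.1‖ = 1 ∧ ⟪z.1, z.2⟫ = 0 ∧ ‖z.2‖ ≤ 0} ⊆ OS r ∩ Ps ⁻¹' O := by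
    rintro ⟨y, p⟩ ⟨h1, h2, h3⟩
    have hp : p = 0 := by simpa using h3
    subst hp
    refine ⟨TS_subset_OS r (zero_mem_TS h1 h.r_pos), ?_⟩
    show Ps (y, 0) ∈ O
    rw [h.zero y h1]
    exact hσ ⟨y, by simpa using h1, rfl⟩
  obtain ⟨δ, hδ, hth⟩ := hK.exists_thickening_subset_open hop hsub
  refine ⟨min 1 (Real.sqrt (δ / (2 * ρ))), by positivity, min_le_left _ _, ?_⟩
  rintro _ ⟨z, hz, rfl⟩
  set a := min 1 (Real.sqrt (δ / (2 * ρ))) with ha
  have hz1 : z ∈ KT_604.PB 1 := PB_mono (min_le_left _ _) hz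
  have h1 : ‖z‖ ^ 2 < δ / ρ := by
    have h2 : ‖z‖ < Real.sqrt (δ / (2 * ρ)) := hz.2.trans_le (min_le_right _ _)
    have h3 : ‖z‖ ^ 2 < Real.sqrt (δ / (2 * ρ)) ^ 2 := by
      have := norm_nonneg z
      nlinarith
    rw [Real.sq_sqrt (by positivity)] at h3
    refine h3.trans_le ?_
    rw [div_le_div_iff₀ (by positivity) hρ]
    nlinarith
  have h4 : hh ρ z ∈ Metric.thickening δ {z : E6 | ‖z.1‖ = 1 ∧ ⟪z.1, z.2⟫ = 0 ∧ ‖z.2‖ ≤ 0} := by
    rw [Metric.mem_thickening_iff]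
    have hT := hh_PB hF hρ hz1
    refine ⟨((hh ρ z).1, 0), ⟨hT.1, inner_zero_right _, by simp⟩, ?_⟩
    rw [Prod.dist_eq, dist_self, dist_eq_norm]
    simp only [sub_zero]
    rw [norm_hh2 hF hρ hz.1]
    refine max_lt hδ ?_
    rw [lt_div_iff₀ hρ] at h1
    linarith
  exact (hth h4).2

theorem lstd_of (hF : PHI) (hL : FGL) (hR : RADF) {w' : Trip M} {O : Set M}
    {ρ s : ℝ} {g : ℝ → ℝ} {c K t₀ t₁ : ℝ} (h : Out1 w' σ O r Ps G U ρ s g c K t₀ t₁) :
    LStd w' σ U (nk Ps ρ) (-s) (4 * ρ) (Real.sqrt (t₁ / ρ)) (fun t => g (ρ * t) / ρ) := by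
  have hT := h.tube
  have hρ := h.ρ_pos
  have hr := h.ρ_lt
  refine ⟨?_, ?_, ?_, ?_, ?_, ?_, ?_, ?_, ?_, ?_, ?_, ?_, ?_, ?_, ?_, ?_, ?_, ?_⟩
  · intro z hz
    exact ((smoothAt hT (hh_OS hF hρ hr hz)).comp z
      (hh_contMDiffAt hF ρ hz.1)).contMDiffWithinAt
  · intro z _
    show Ps (hh ρ (-z)) = Ps (hh ρ z)
    rw [hF.even]
  · intro z hz z' hz' he
    refine hF.inj z z' ρ hz.1 hz'.1 hρ.ne' ?_
    rw [← G_nk hT hF hρ hr hz, he, G_nk hT hF hρ hr hz']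
  · intro z hz v hv
    exact imm_nk hT hF hρ hr hz hv
  · rintro z hz ⟨y, hy, he⟩
    have hy' : ‖y‖ = 1 := by simpa using hy
    have h1 := G_nk hT hF hρ hr hz
    rw [← he, G_im hT hy'] at h1
    exact hh2_ne hF hρ hz.1 (by rw [← h1])
  · intro z hz
    exact hT.maps _ (hh_OS hF hρ hr hz)
  · exact im_subset hT
  · intro a ha ha1
    rw [nbh_eq hT hF hρ hr ha ha1]
    exact nbh_open hT _
  · intro O' hO' hσ
    exact shrink_nk hT hF hρ hr hO' hσ
  · rcases h.sgn with hs | hs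
    · right; rw [hs]
    · left; rw [hs, neg_neg]
  · positivity
  · have h1 : t₁ / ρ < 1 := by rw [div_lt_one hρ]; exact h.t_lt
    refine ⟨Real.sqrt_pos.2 (div_pos h.t_pos hρ), ?_⟩
    rw [Real.sqrt_lt' one_pos]
    linarith
  · intro z hz u v
    rw [val_nk hT hF hρ hr hz, h.one _ (TS_subset_OS ρ (hh_PB hF hρ hz)),
      d1_l1_hh hF hρ hz.1]
  · intro z hz u v
    rw [val_nk hT hF hρ hr hz, h.two _ (TS_subset_OS ρ (hh_PB hF hρ hz))]
    show s * d1 (PB1 l2) (hh ρ z) (fderiv ℝ (hh ρ) z u) (fderiv ℝ (hh ρ) z v) = _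
    rw [d1_l2_hh hF hρ hz.1]
    ring
  · intro z hz u v
    rw [val_nk hT hF hρ hr hz, h.zero _ (TS_subset_OS ρ (hh_PB hF hρ hz)),
      FG_hh hL hR hF hρ h.prof hz.1]
  · refine ContDiff.contDiffOn ?_
    exact (h.prof.smooth.comp (contDiff_const.mul contDiff_id)).div_const ρ
  · intro t ht ht1
    have h1 : 0 < ρ * t := by positivity
    have h2 : ρ * t < ρ := by nlinarith
    have h3 : deriv (fun t => g (ρ * t) / ρ) t = deriv g (ρ * t) := by
      have h4 : HasDerivAt g (deriv g (ρ * t)) (ρ * t) :=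
        (h.prof.smooth.differentiable (by simp)).differentiableAt.hasDerivAt
      have h5 : HasDerivAt (fun t => ρ * t) ρ t := by
        simpa using (hasDerivAt_id t).const_mul ρ
      have h6 := (h4.comp t h5).div_const ρ
      have h7 : deriv (fun t => g (ρ * t) / ρ) t = deriv g (ρ * t) * ρ / ρ := h6.deriv
      rw [h7]
      field_simp
    refine ⟨div_pos (h.g_pos _ h1.le h2) hρ, ?_⟩
    rw [h3]
    exact h.g_deriv _ h1 h2
  · intro t ht ht1
    rw [Real.sq_sqrt (div_pos h.t_pos hρ).le, div_le_iff₀ hρ] at ht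
    have h2 : ρ * t < ρ := by nlinarith
    show g (ρ * t) / ρ = t
    rw [h.flat (ρ * t) (by linarith) h2]
    field_simp

end

end Crest.Agent.R235.K12Std_235
end

-- ▼ part R235/K12StdC_235
section

/-!
Row 235 (S0364), block K12, leaf STDL (helper235), part C: the sign of a positive triple on a
connected manifold is constant.
-/

set_option autoImplicit false
set_option maxSynthPendingDepth 3
set_option linter.unusedSectionVars false

open Set Function Filter MeasureTheory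
open scoped Manifold ContDiff Topology RealInnerProductSpace

universe u

namespace Crest.Agent.R235.K12Std_235

open Crest.Agent.R240 Crest.Agent.R240.Ch Crest.Agent.R235 Crest.Agent.R235.K12_417
  Crest.Agent.R235.PB_604 Crest.Agent.R235.K12An_776 Crest.Agent.R235.K12Ext_168
  Crest.Agent.R235.IndTri_451

noncomputable section

/-! ### pointwise -/

/-- positive triples of two-forms at a point. -/
def Po (b : Fin 3 → Bil) : Prop :=
  (∀ i, Alt (b i)) ∧ ∀ c : Fin 3 → ℝ, c ≠ 0 → W (∑ i, c i • b i) (∑ i, c i • b i) ≠ 0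

/-- `b 2 (u, b₀⁻¹ b₁ u)`. -/
def Q (b : Fin 3 → Bil) (u : E4) : ℝ := b 2 u (quo (b 0) (b 1) u)

lemma Po.w0 {b : Fin 3 → Bil} (hb : Po b) : W (b 0) (b 0) ≠ 0 := by
  have h := hb.2 ![1, 0, 0] (by
    intro h
    have := congrFun h 0
    simp at this)
  simpa [Fin.sum_univ_three] using h

lemma Po.alt {b : Fin 3 → Bil} (hb : Po b) (c : Fin 3 → ℝ) : Alt (∑ i, c i • b i) := by
  intro v
  simp only [_root_.sum_apply, _root_.smul_apply, hb.1 _ v, smul_zero, Finset.sum_const_zero]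

lemma Po.inj {b : Fin 3 → Bil} (hb : Po b) {c : Fin 3 → ℝ} {u : E4} (hu : u ≠ 0)
    (h : ∀ y, ∑ i, c i * b i u y = 0) : c = 0 := by
  by_contra hc
  refine hu (nondeg (hb.alt c) (hb.2 c hc) (x := u) (y := 0) fun v => ?_)
  have h1 := h v
  simp only [_root_.sum_apply, _root_.smul_apply, smul_eq_mul, map_zero, _root_.zero_apply]
  exact h1

lemma Q_ne {b : Fin 3 → Bil} (hb : Po b) {u : E4} (hu : u ≠ 0) : Q b u ≠ 0 := by
  intro hQ
  set v := quo (b 0) (b 1) u with hv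
  have h0 : ∀ y, b 0 v y = b 1 u y := fun y => b_quo (hb.1 0) hb.w0 (b 1) u y
  -- `u`, `v` are independent
  have hli : LinearIndependent ℝ ![u, v] := by
    rw [LinearIndependent.pair_iff]
    intro s t hst
    by_contra hne
    have ht : t ≠ 0 := by
      intro ht
      rw [ht, zero_smul, add_zero] at hst
      rcases smul_eq_zero.1 hst with h | h
      · exact hne ⟨h, ht⟩
      · exact hu h
    have h1 : v = (-(s / t)) • u := by
      have h2 : t • v = -(s • u) := eq_neg_of_add_eq_zero_right hst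
      have h3 : v = t⁻¹ • (t • v) := by rw [smul_smul, inv_mul_cancel₀ ht, one_smul]
      rw [h3, h2]
      module
    have h4 : (![-(s / t), -1, 0] : Fin 3 → ℝ) = 0 := by
      refine hb.inj hu fun y => ?_
      rw [Fin.sum_univ_three]
      have h5 := h0 y
      rw [h1, map_smul, _root_.smul_apply, smul_eq_mul] at h5
      simp only [Matrix.cons_val_zero, Matrix.cons_val_one, Matrix.cons_val]
      linarith
    have h6 := congrFun h4 1
    simp at h6
  -- the map `y ↦ (b i u y)`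
  set T : E4 →ₗ[ℝ] (Fin 3 → ℝ) := LinearMap.pi fun i => (b i u : E4 →ₗ[ℝ] ℝ) with hT
  have hTa : ∀ y i, T y i = b i u y := fun y i => rfl
  have hker : Submodule.span ℝ (Set.range ![u, v]) ≤ LinearMap.ker T := by
    rw [Submodule.span_le]
    rintro _ ⟨j, rfl⟩
    rw [SetLike.mem_coe, LinearMap.mem_ker]
    funext i
    fin_cases j
    · show b i u u = 0
      exact hb.1 i u
    · show b i u v = 0
      fin_cases i
      · show b 0 u v = 0
        rw [(hb.1 0).swap, h0, hb.1 1 u, neg_zero]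
      · show b 1 u v = 0
        rw [← h0 v, hb.1 0 v]
      · exact hQ
  have h1 : 2 ≤ Module.finrank ℝ (LinearMap.ker T) := by
    have h2 := Submodule.finrank_mono hker
    rw [finrank_span_eq_card hli, Fintype.card_fin] at h2
    exact h2
  have h3 := LinearMap.finrank_range_add_finrank_ker T
  rw [finrank_euclideanSpace_fin] at h3
  have h4 : LinearMap.range T < ⊤ := by
    rw [lt_top_iff_ne_top]
    intro h5
    rw [h5, finrank_top, Module.finrank_fin_fun] at h3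
    omega
  obtain ⟨f, hf, hfr⟩ := Submodule.exists_le_ker_of_lt_top _ h4
  have h6 : (fun i => f (Pi.single i 1)) = (0 : Fin 3 → ℝ) := by
    refine hb.inj hu fun y => ?_
    have h7 : f (T y) = 0 := hfr (LinearMap.mem_range_self T y)
    rw [← h7]
    conv_rhs => rw [← Finset.univ_sum_single (T y)]
    rw [map_sum]
    refine Finset.sum_congr rfl fun i _ => ?_
    rw [← hTa]
    have h8 : (Pi.single i (T y i) : Fin 3 → ℝ) =
        (T y i) • (Pi.single i (1 : ℝ) : Fin 3 → ℝ) := by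
      funext j
      by_cases hj : j = i
      · subst hj; simp
      · simp [hj]
    rw [h8, map_smul, smul_eq_mul, mul_comm]
  refine hf ?_
  refine LinearMap.pi_ext' fun i => ?_
  ext
  exact congrFun h6 i

lemma Q_continuous (b : Fin 3 → Bil) : Continuous (Q b) := by
  unfold Q
  exact (b 2).continuous.clm_apply (quo (b 0) (b 1)).continuous

lemma Q_sign {b : Fin 3 → Bil} (hb : Po b) :
    (∀ u : E4, u ≠ 0 → 0 < Q b u) ∨ (∀ u : E4, u ≠ 0 → Q b u < 0) := by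
  have hconn : IsPreconnected ({0}ᶜ : Set E4) :=
    (isConnected_compl_singleton_of_one_lt_rank (by
      rw [← Module.finrank_eq_rank, finrank_euclideanSpace_fin]; norm_num) 0).isPreconnected
  by_contra hcon
  push Not at hcon
  obtain ⟨⟨u, hu, hu1⟩, ⟨v, hv, hv1⟩⟩ := hcon
  have h1 : (0 : ℝ) ∈ Q b '' ({0}ᶜ : Set E4) := by
    have h2 := hconn.intermediate_value (a := u) (b := v) hu hv (Q_continuous b).continuousOn
    exact h2 ⟨hu1, hv1⟩
  obtain ⟨x, hx, hx0⟩ := h1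
  exact Q_ne hb hx hx0

lemma Po.pull {b : Fin 3 → Bil} (hb : Po b) {A : E4 →L[ℝ] E4} (hA : Function.Injective A) :
    Po (fun i => R240.pull A (b i)) := by
  have hdet : LinearMap.det (A : E4 →ₗ[ℝ] E4) ≠ 0 := by
    intro h
    have h2 : LinearMap.ker (A : E4 →ₗ[ℝ] E4) = ⊥ := LinearMap.ker_eq_bot.2 hA
    exact (LinearMap.bot_lt_ker_of_det_eq_zero h).ne' h2
  refine ⟨fun i => (hb.1 i).pull A, fun c hc => ?_⟩
  have h1 : (∑ i, c i • R240.pull A (b i)) = R240.pull A (∑ i, c i • b i) := by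
    ext u v
    simp only [_root_.sum_apply, _root_.smul_apply, pull_apply]
  rw [h1, W_pull (hb.alt c) (hb.alt c)]
  exact mul_ne_zero hdet (hb.2 c hc)

lemma Q_pull {b : Fin 3 → Bil} (hb : Po b) {A : E4 →L[ℝ] E4} (hA : Function.Injective A)
    (u : E4) : Q (fun i => R240.pull A (b i)) u = Q b (A u) := by
  have hs : Function.Surjective A :=
    (LinearMap.injective_iff_surjective (f := (A : E4 →ₗ[ℝ] E4))).1 hA
  obtain ⟨x, hx⟩ := hs (quo (b 0) (b 1) (A u))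
  have h1 : x = quo (R240.pull A (b 0)) (R240.pull A (b 1)) u := by
    refine eq_quo ((hb.pull hA).1 0) (hb.pull hA).w0 fun v => ?_
    rw [pull_apply, pull_apply, hx, b_quo (hb.1 0) hb.w0]
  show R240.pull A (b 2) u (quo (R240.pull A (b 0)) (R240.pull A (b 1)) u) = _
  rw [← h1, pull_apply, hx]
  rfl

lemma Q_contAt {X : Type*} [TopologicalSpace X] {b : X → Fin 3 → Bil} {x₀ : X}
    (hb : ∀ i, ContinuousAt (fun x => b x i) x₀) (h0 : W (b x₀ 0) (b x₀ 0) ≠ 0) (u : E4) :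
    ContinuousAt (fun x => Q (b x) u) x₀ := by
  have he : ∀ i j k, ContinuousAt (fun x => ent (b x k) i j) x₀ := by
    intro i j k
    unfold ent
    exact ((hb k).clm_apply continuousAt_const).clm_apply continuousAt_const
  have hW : ContinuousAt (fun x => W (b x 0) (b x 0)) x₀ := by
    unfold W
    fun_prop
  have hstm : ∀ i j, ContinuousAt (fun x => stm (b x 0) i j) x₀ := by
    intro i j
    fin_cases i <;> fin_cases j <;> simp [stm] <;> fun_prop
  have hc : ∀ v, ContinuousAt (fun x => b x 1 u v) x₀ := fun v =>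
    ((hb 1).clm_apply continuousAt_const).clm_apply continuousAt_const
  have hq : ∀ k, ContinuousAt (fun x => (quo (b x 0) (b x 1) u) k) x₀ := by
    intro k
    simp only [quo_apply]
    refine ContinuousAt.mul ?_ ?_
    · exact ContinuousAt.div continuousAt_const hW h0
    · refine tendsto_finsetSum _ fun i _ => ?_
      exact (hc _).mul (hstm i k)
  have hq' : ContinuousAt (fun x => quo (b x 0) (b x 1) u) x₀ := by
    have h2 : (fun x => quo (b x 0) (b x 1) u) = fun x =>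
        (quo (b x 0) (b x 1) u) 0 • ee 0 + (quo (b x 0) (b x 1) u) 1 • ee 1 +
        (quo (b x 0) (b x 1) u) 2 • ee 2 + (quo (b x 0) (b x 1) u) 3 • ee 3 := by
      funext x
      exact sum_ee _
    rw [h2]
    exact ((((hq 0).smul continuousAt_const).add ((hq 1).smul continuousAt_const)).add
      ((hq 2).smul continuousAt_const)).add ((hq 3).smul continuousAt_const)
  unfold Q
  exact ((hb 2).clm_apply continuousAt_const).clm_apply hq'

/-! ### on the manifold -/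

section Man

variable {M : Type u} [TopologicalSpace M] [T2Space M] [CompactSpace M]
  [ChartedSpace E4 M] [IsManifold 𝓘(ℝ, E4) ∞ M]

lemma po_of {w : Trip M} (hw : Pos3 w) (x : M) : Po (fun i => val (w i) x) :=
  ⟨fun i v => (w i).1.2.1 x v, fun c hc => hw x c hc⟩

lemma rep_eq_pull (a : Z2 M) {p x : M} (hx : x ∈ (chartAt E4 p).source) :
    rep p (a.1.1 : F2 E4 M) (chartAt E4 p x) = R240.pull (tcc p x x) (val a x) := by
  ext u v
  rw [rep_apply, (chartAt E4 p).left_inv hx, pull_apply]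
  rfl

/-- the sign is locally constant. -/
lemma sign_open {w : Trip M} (hw : Pos3 w) (s : ℝ) (hs : s = 1 ∨ s = -1) :
    IsOpen {x : M | ∀ u : E4, u ≠ 0 → 0 < s * Q (fun i => val (w i) x) u} := by
  rw [isOpen_iff_mem_nhds]
  intro x₀ hx₀
  have hsrc := mem_chart_source E4 x₀
  have hee : ee 0 ≠ 0 := by
    intro h
    have := congrFun (congrArg (fun v : E4 => (v : Fin 4 → ℝ)) h) 0
    simp at this
  have hinj : ∀ x ∈ (chartAt E4 x₀).source, Function.Injective (tcc (E := E4) x₀ x x) := by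
    intro x hx u v h
    have := congrArg (tcc (E := E4) x x₀ x) h
    rwa [tcc_cancel hx, tcc_cancel hx] at this
  have hcont : ∀ i, ContinuousAt
      (fun x => rep x₀ ((w i).1.1 : F2 E4 M) (chartAt E4 x₀ x)) x₀ := by
    intro i
    have h1 : ContinuousAt (rep x₀ ((w i).1.1 : F2 E4 M)) (chartAt E4 x₀ x₀) :=
      (((w i).1.2.2 x₀).contDiffAt ((chartAt E4 x₀).open_target.mem_nhds
        ((chartAt E4 x₀).map_source hsrc))).continuousAt
    exact ContinuousAt.comp (g := rep x₀ ((w i).1.1 : F2 E4 M)) (f := chartAt E4 x₀) h1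
      ((chartAt E4 x₀).continuousAt hsrc)
  have hpt : ∀ x ∈ (chartAt E4 x₀).source,
      (fun i => rep x₀ ((w i).1.1 : F2 E4 M) (chartAt E4 x₀ x)) =
        fun i => R240.pull (tcc x₀ x x) (val (w i) x) := by
    intro x hx
    funext i
    exact rep_eq_pull (w i) hx
  have hpo0 : Po (fun i => rep x₀ ((w i).1.1 : F2 E4 M) (chartAt E4 x₀ x₀)) := by
    rw [hpt x₀ hsrc]
    exact (po_of hw x₀).pull (hinj x₀ hsrc)
  have hQ := Q_contAt (X := M)
    (b := fun x i => rep x₀ ((w i).1.1 : F2 E4 M) (chartAt E4 x₀ x)) hcont hpo0.w0 (ee 0)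
  have hval : ∀ x ∈ (chartAt E4 x₀).source,
      Q (fun i => rep x₀ ((w i).1.1 : F2 E4 M) (chartAt E4 x₀ x)) (ee 0) =
        Q (fun i => val (w i) x) (tcc x₀ x x (ee 0)) := by
    intro x hx
    rw [hpt x hx]
    exact Q_pull (po_of hw x) (hinj x hx) (ee 0)
  have hne : ∀ x ∈ (chartAt E4 x₀).source, tcc (E := E4) x₀ x x (ee 0) ≠ 0 := by
    intro x hx h
    exact hee (hinj x hx (by rw [h, map_zero]))
  have hpos : 0 < s * Q (fun i => rep x₀ ((w i).1.1 : F2 E4 M) (chartAt E4 x₀ x₀)) (ee 0) := by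
    rw [hval x₀ hsrc]
    exact hx₀ _ (hne x₀ hsrc)
  have hev := (continuousAt_const.mul hQ).eventually (lt_mem_nhds hpos)
  filter_upwards [hev, (chartAt E4 x₀).open_source.mem_nhds hsrc] with x hx hxs
  intro u hu
  have hx' : 0 < s * Q (fun i => val (w i) x) (tcc x₀ x x (ee 0)) := by
    rw [← hval x hxs]; exact hx
  rcases Q_sign (po_of hw x) with h | h
  · have h1 := h _ (hne x hxs)
    have h2 := h u hu
    rcases hs with rfl | rfl
    · linarith
    · linarith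
  · have h1 := h _ (hne x hxs)
    have h2 := h u hu
    rcases hs with rfl | rfl
    · linarith
    · linarith

/-- the sign of a positive triple on a connected manifold. -/
theorem sign_const [ConnectedSpace M] {w : Trip M} (hw : Pos3 w) :
    (∀ (x : M) (u : E4), u ≠ 0 → 0 < Q (fun i => val (w i) x) u) ∨
      (∀ (x : M) (u : E4), u ≠ 0 → Q (fun i => val (w i) x) u < 0) := by
  have h1 := sign_open hw 1 (Or.inl rfl)
  have h2 := sign_open hw (-1) (Or.inr rfl)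
  have hee : ee 0 ≠ 0 := by
    intro h
    have := congrFun (congrArg (fun v : E4 => (v : Fin 4 → ℝ)) h) 0
    simp at this
  have hcompl : {x : M | ∀ u : E4, u ≠ 0 → 0 < (1 : ℝ) * Q (fun i => val (w i) x) u}ᶜ =
      {x : M | ∀ u : E4, u ≠ 0 → 0 < (-1 : ℝ) * Q (fun i => val (w i) x) u} := by
    ext x
    simp only [mem_compl_iff, mem_ofPred_eq, one_mul]
    constructor
    · intro hx u hu
      rcases Q_sign (po_of hw x) with h | h
      · exact absurd h hx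
      · have := h u hu; linarith
    · intro hx h
      have h3 := hx (ee 0) hee
      have h4 := h (ee 0) hee
      linarith
  have hclopen : IsClopen {x : M | ∀ u : E4, u ≠ 0 → 0 < (1 : ℝ) * Q (fun i => val (w i) x) u} :=
    ⟨⟨by rw [hcompl]; exact h2⟩, h1⟩
  rcases isClopen_iff.1 hclopen with h | h
  · right
    intro x u hu
    have h3 : x ∈ {x : M | ∀ u : E4, u ≠ 0 → 0 < (1 : ℝ) * Q (fun i => val (w i) x) u}ᶜ := by
      rw [h]; simp
    rw [hcompl] at h3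
    have := h3 u hu
    linarith
  · left
    intro x u hu
    have h3 : x ∈ {x : M | ∀ u : E4, u ≠ 0 → 0 < (1 : ℝ) * Q (fun i => val (w i) x) u} := by
      rw [h]; trivial
    have := h3 u hu
    linarith

/-- the sign of the standard model. -/
theorem sign_lstd {w : Trip M} (hw : Pos3 w) {σ : E3 → M} {U : Set M} {φ : E4 → M} {s R r₀ : ℝ}
    {g : ℝ → ℝ} (h : LStd w σ U φ s R r₀ g) :
    ∃ (x : M) (u : E4), u ≠ 0 ∧ ∃ k : ℝ, 0 < k ∧ Q (fun i => val (w i) x) u = -(s * k) := by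
  -- a point in the flat zone
  obtain ⟨t, ht1, ht2⟩ := exists_between h.r_pos.2
  have ht0 : 0 < t := h.r_pos.1.trans ht1
  set z : E4 := t • ee 0 with hz
  have hee : ‖ee 0‖ = 1 := by simp [ee]
  have hzn : ‖z‖ = t := by rw [hz, norm_smul, hee, mul_one, Real.norm_eq_abs, abs_of_pos ht0]
  have hz0 : z ≠ 0 := by rw [← norm_ne_zero_iff, hzn]; exact ht0.ne'
  have hzP : z ∈ KT_604.PB 1 := ⟨hz0, by rw [hzn]; exact ht2⟩
  have hlg : lg g =ᶠ[𝓝 z] fun y => (1 / 2 : ℝ) • innerSL ℝ (qI y) := by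
    have hop : IsOpen {y : E4 | r₀ < ‖y‖ ∧ ‖y‖ < 1} :=
      (isOpen_lt continuous_const continuous_norm).inter
        (isOpen_lt continuous_norm continuous_const)
    filter_upwards [hop.mem_nhds (show r₀ < ‖z‖ ∧ ‖z‖ < 1 by rw [hzn]; exact ⟨ht1, ht2⟩)] with y hy
    have hr := h.r_pos.1
    have hy0 : 0 < ‖y‖ := hr.trans hy.1
    have h1 : g (‖y‖ ^ 2) = ‖y‖ ^ 2 := by
      refine h.g_flat _ ?_ ?_
      · nlinarith [hy.1]
      · nlinarith [hy.2]
    unfold lg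
    rw [h1, div_self (pow_ne_zero 2 hy0.ne')]
  have hd1 : ∀ u v : E4, d1 (lg g) z u v = ⟪qI u, v⟫ := by
    intro u v
    rw [d1_congr hlg, d1_lin qI_add qI_smul, qI_skew u v]
    ring
  -- the differential
  set A : E4 →L[ℝ] E4 := fderiv ℝ (fun y : E4 => chartAt E4 (φ z) (φ y)) z with hA
  have hAd : ∀ v, dmap φ z v = A v := fun v => rfl
  have hinj : Function.Injective A := by
    rw [injective_iff_map_eq_zero]
    intro v hv
    exact h.imm z hzP v hv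
  have hpo := po_of hw (φ z)
  have hR := h.R_pos
  set u : E4 := ee 0 with hu
  have hu0 : u ≠ 0 := by rw [← norm_ne_zero_iff, hu, hee]; exact one_ne_zero
  refine ⟨φ z, A u, fun h0 => hu0 (hinj (by rw [h0, map_zero])), R * ‖qK u‖ ^ 2, ?_, ?_⟩
  · have : ‖qK u‖ ^ 2 = 1 := by
      rw [K12Phi_291.n4]; simp [qK, hu]
    rw [this]; linarith
  · rw [← Q_pull hpo hinj u]
    have h1 : (-qK u) = quo (R240.pull A (val (w 0) (φ z))) (R240.pull A (val (w 1) (φ z))) u := by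
      refine eq_quo ((hpo.pull hinj).1 0) (hpo.pull hinj).w0 fun v => ?_
      rw [pull_apply, pull_apply, ← hAd, ← hAd, ← hAd, h.w0 z hzP, h.w1 z hzP, hd1]
      congr 1
      rw [K12Phi_291.i4, K12Phi_291.i4]
      simp [qI, qJ, qK]
    show R240.pull A (val (w 2) (φ z)) u (quo (R240.pull A (val (w 0) (φ z)))
      (R240.pull A (val (w 1) (φ z))) u) = _
    rw [← h1, pull_apply, ← hAd, ← hAd, h.w2 z hzP, inner_neg_right, real_inner_self_eq_norm_sq]
    ring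

/-- all the signs are equal. -/
theorem sign_eq [ConnectedSpace M] {w : Trip M} (hw : Pos3 w) :
    ∃ s : ℝ, (s = 1 ∨ s = -1) ∧ ∀ (σ : E3 → M) (U : Set M) (φ : E4 → M) (s' R r₀ : ℝ)
      (g : ℝ → ℝ), LStd w σ U φ s' R r₀ g → s' = s := by
  rcases sign_const hw with h | h
  · refine ⟨-1, Or.inr rfl, fun σ U φ s' R r₀ g hl => ?_⟩
    obtain ⟨x, u, hu, k, hk, he⟩ := sign_lstd hw hl
    have h1 := h x u hu
    rw [he] at h1
    rcases hl.sgn with hs | hs
    · rw [hs] at h1; linarith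
    · exact hs
  · refine ⟨1, Or.inl rfl, fun σ U φ s' R r₀ g hl => ?_⟩
    obtain ⟨x, u, hu, k, hk, he⟩ := sign_lstd hw hl
    have h1 := h x u hu
    rw [he] at h1
    rcases hl.sgn with hs | hs
    · exact hs
    · rw [hs] at h1; linarith

end Man

end

end Crest.Agent.R235.K12Std_235
end

-- ▼ part R235/K12Std_235
section

/-!
Row 235 (S0364), block K12, leaf STDL (helper235), part D: induction over the spheres and
assembly: `theorem stdl : K12An_776.STDL M`.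
-/

set_option autoImplicit false
set_option maxSynthPendingDepth 3
set_option linter.unusedSectionVars false

open Set Function Filter MeasureTheory
open scoped Manifold ContDiff Topology RealInnerProductSpace

universe u

namespace Crest.Agent.R235.K12Std_235

open Crest.Agent.R240 Crest.Agent.R240.Ch Crest.Agent.R235 Crest.Agent.R235.K12_417
  Crest.Agent.R235.PB_604 Crest.Agent.R235.K12An_776 Crest.Agent.R235.K12Ext_168

noncomputable section

variable {M : Type u} [TopologicalSpace M] [T2Space M] [CompactSpace M]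
  [ChartedSpace E4 M] [IsManifold 𝓘(ℝ, E4) ∞ M]

/-- disjoint compact sets have disjoint open neighbourhoods. -/
lemma sep_opens {X : Type*} [TopologicalSpace X] [T2Space X] {m : ℕ} {C : Fin m → Set X}
    (hC : ∀ i, IsCompact (C i)) (hd : ∀ i j, i ≠ j → Disjoint (C i) (C j)) :
    ∃ O : Fin m → Set X, (∀ i, IsOpen (O i)) ∧ (∀ i, C i ⊆ O i) ∧
      ∀ i j, i ≠ j → Disjoint (O i) (O j) := by
  have h1 : ∀ i j, i ≠ j → ∃ A B : Set X, IsOpen A ∧ IsOpen B ∧ C i ⊆ A ∧ C j ⊆ B ∧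
      Disjoint A B := by
    intro i j hij
    obtain ⟨A, B, hA, hB, hCA, hCB, hAB⟩ :=
      SeparatedNhds.of_isCompact_isCompact (hC i) (hC j) (hd i j hij)
    exact ⟨A, B, hA, hB, hCA, hCB, hAB⟩
  choose A B hA hB hCA hCB hAB using h1
  refine ⟨fun i => ⋂ j, ⋂ h : i ≠ j, (A i j h ∩ B j i h.symm), fun i => ?_, fun i => ?_, ?_⟩
  · exact isOpen_iInter_of_finite fun j => isOpen_iInter_of_finite fun h =>
      (hA i j h).inter (hB j i h.symm)
  · refine subset_iInter fun j => subset_iInter fun h => ?_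
    exact subset_inter (hCA i j h) (hCB j i h.symm)
  · intro i j hij
    rw [Set.disjoint_left]
    intro x hx hx'
    have h2 := mem_iInter.1 (mem_iInter.1 hx j) hij
    have h3 := mem_iInter.1 (mem_iInter.1 hx' i) hij.symm
    exact (Set.disjoint_left.1 (hAB i j hij)) h2.1 h3.2

lemma isCompact_im {σ : E3 → M} (h : EmbS σ) : IsCompact (im σ) := by
  refine (isCompact_sphere (0 : E3) 1).image_of_continuousOn ?_
  refine h.smooth.continuousOn.mono ?_
  intro y hy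
  have hy' : ‖y‖ = 1 := by simpa using hy
  intro h0
  rw [mem_singleton_iff] at h0
  rw [h0, norm_zero] at hy'
  exact zero_ne_one hy'

/-- `Out1` only depends on the values on `O`. -/
lemma out1_congr {w w' : Trip M} {σ : E3 → M} {O : Set M} {r : ℝ} {Ps : E6 → M} {G : M → E6}
    {U : Set M} {ρ s : ℝ} {g : ℝ → ℝ} {c K t₀ t₁ : ℝ}
    (h : Out1 w σ O r Ps G U ρ s g c K t₀ t₁) (he : ∀ k, ∀ x ∈ O, val (w' k) x = val (w k) x) :
    Out1 w' σ O r Ps G U ρ s g c K t₀ t₁ := by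
  have hOm : ∀ k, ∀ z ∈ OS ρ, Om Ps (w' k) z = Om Ps (w k) z := by
    intro k z hz
    have hx : Ps z ∈ O := h.sub (h.tube.maps z (OS_mono h.ρ_lt.le hz))
    show pl (D1 E6 E4 Ps z) (val (w' k) (Ps z)) = pl (D1 E6 E4 Ps z) (val (w k) (Ps z))
    rw [he k _ hx]
  exact
    { tube := h.tube
      sub := h.sub
      ρ_pos := h.ρ_pos
      ρ_lt := h.ρ_lt
      sgn := h.sgn
      one := fun z hz => by rw [hOm 1 z hz]; exact h.one z hz
      two := fun z hz => by rw [hOm 2 z hz]; exact h.two z hz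
      prof := h.prof
      c_pos := h.c_pos
      K_pos := h.K_pos
      g_pos := h.g_pos
      g_deriv := h.g_deriv
      t_pos := h.t_pos
      t_lt := h.t_lt
      flat := h.flat
      zero := fun z hz => by rw [hOm 0 z hz]; exact h.zero z hz }

lemma sphI_congr {σ : E3 → M} {a b : Z2 M} (h : ∀ x ∈ im σ, val a x = val b x) :
    sphI σ (a.1.1 : F2 E4 M) = sphI σ (b.1.1 : F2 E4 M) := by
  unfold sphI
  refine integral_congr_ae (Filter.Eventually.of_forall fun y => ?_)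
  have h1 : at2 (a.1.1 : F2 E4 M) (σ y) = at2 (b.1.1 : F2 E4 M) (σ y) :=
    h (σ y) ⟨y, y.2, rfl⟩
  simp only [h1]

/-- the induction over the spheres. -/
theorem induct (hone : ONE M) {w : Trip M} (hw : Pos3 w) {m : ℕ} {σ : Fin m → E3 → M}
    (hemb : ∀ i, EmbS (σ i))
    (hl1 : ∀ i, ∀ y u v : E3, ‖y‖ = 1 →
      val (w 1) (σ i y) (dmap (σ i) y u) (dmap (σ i) y v) = 0)
    (hl2 : ∀ i, ∀ y u v : E3, ‖y‖ = 1 →
      val (w 2) (σ i y) (dmap (σ i) y u) (dmap (σ i) y v) = 0)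
    (hpos : ∀ i, 0 < sphI (σ i) ((w 0).1.1 : F2 E4 M))
    {O : Fin m → Set M} (hO : ∀ i, IsOpen (O i)) (hsub : ∀ i, im (σ i) ⊆ O i)
    (hdisj : ∀ i j, i ≠ j → Disjoint (O i) (O j)) (n : ℕ) (hn : n ≤ m) :
    ∃ w' : Trip M, PL w w' ∧ Pos3 w' ∧
      (∀ k x, (∀ i : Fin m, i.val < n → x ∉ O i) → val (w' k) x = val (w k) x) ∧
      ∀ i : Fin m, i.val < n → ∃ (r : ℝ) (Ps : E6 → M) (G : M → E6) (U : Set M) (ρ s : ℝ)
        (g : ℝ → ℝ) (c K t₀ t₁ : ℝ), Out1 w' (σ i) (O i) r Ps G U ρ s g c K t₀ t₁ := by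
  induction n with
  | zero =>
    exact ⟨w, Relation.ReflTransGen.refl, hw, fun k x _ => rfl,
      fun i hi => absurd hi (Nat.not_lt_zero _)⟩
  | succ n ih =>
    obtain ⟨w₁, hPL, hw₁, heq, hout⟩ := ih (Nat.le_of_succ_le hn)
    set a : Fin m := ⟨n, hn⟩ with ha
    have hna : ∀ i : Fin m, i.val < n → i ≠ a := by
      intro i hi he
      rw [he] at hi
      exact lt_irrefl _ hi
    have hval : ∀ k, ∀ x ∈ im (σ a), val (w₁ k) x = val (w k) x := by
      intro k x hx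
      refine heq k x fun i hi hxi => ?_
      exact (Set.disjoint_left.1 (hdisj i a (hna i hi))) hxi (hsub a hx)
    have himy : ∀ y : E3, ‖y‖ = 1 → σ a y ∈ im (σ a) := fun y hy => ⟨y, by simpa using hy, rfl⟩
    obtain ⟨w₂, r, Ps, G, U, ρ, s, g, c, K, t₀, t₁, hPL2, hw₂, heq2, hout2⟩ :=
      hone w₁ hw₁ (σ a) (hemb a)
        (fun y u v hy => by rw [hval 1 _ (himy y hy)]; exact hl1 a y u v hy)
        (fun y u v hy => by rw [hval 2 _ (himy y hy)]; exact hl2 a y u v hy)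
        (by rw [sphI_congr (hval 0)]; exact hpos a) (O a) (hO a) (hsub a)
    refine ⟨w₂, hPL.trans hPL2, hw₂, ?_, ?_⟩
    · intro k x hx
      rw [heq2 k x (hx a (Nat.lt_succ_self n)), heq k x fun i hi => hx i (Nat.lt_succ_of_lt hi)]
    · intro i hi
      rcases Nat.lt_succ_iff_lt_or_eq.1 hi with h | h
      · obtain ⟨r', Ps', G', U', ρ', s', g', c', K', t₀', t₁', h'⟩ := hout i h
        refine ⟨r', Ps', G', U', ρ', s', g', c', K', t₀', t₁', out1_congr h' ?_⟩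
        intro k x hx
        exact heq2 k x fun hxa => (Set.disjoint_left.1 (hdisj i a (hna i h))) hx hxa
      · have hia : i = a := Fin.ext h
        subst hia
        exact ⟨r, Ps, G, U, ρ, s, g, c, K, t₀, t₁, hout2⟩


end

end Crest.Agent.R235.K12Std_235
end

-- ▼ part R235/K12Fgl_417
section

/-!
Row 235 (S0364), block K12, leaf FGL (helper417): the form `FG g = - d (g(|p|) ψ)`.
-/

set_option autoImplicit false
set_option maxSynthPendingDepth 3

open Set Function Filter MeasureTheory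
open scoped Manifold ContDiff Topology RealInnerProductSpace

namespace Crest.Agent.R235.K12Fgl_417

open Crest.Agent.R240 Crest.Agent.R240.Ch Crest.Agent.R235 Crest.Agent.R235.K12_417
  Crest.Agent.R235.K12An_776 Crest.Agent.R235.KumThB_785 Crest.Agent.R235.K12Ext_168
  Crest.Agent.R235.K12Geo_128 Crest.Agent.R235.PB_604

noncomputable section

/-! ### the area form -/

theorem ar_apply (z U V : E6) : ar z U V = ⟪z.1, cr U.1 V.1⟫ := by
  have hw : ∀ i j, wd (dq i) (dq j) U V = U.1 i * V.1 j - U.1 j * V.1 i := by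
    intro i j
    rfl
  rw [ar]
  simp only [add_apply, smul_apply, hw, smul_eq_mul]
  rw [in3]
  simp only [cr_0, cr_1, cr_2]

theorem PB2_ar {z : E6} (hz : z.1 ≠ 0) : PB2 ar z = Ar z := by
  refine ContinuousLinearMap.ext fun U => ContinuousLinearMap.ext fun V => ?_
  rw [PB2, pl_apply, ar_apply, Ar_apply, fderiv_nn hz, fderiv_nn hz]
  rfl

/-! ### profiles -/

section Prof

variable {g : ℝ → ℝ} {c K t₀ : ℝ}

theorem kf_of_le {t : ℝ} (h : t ≤ t₀) : kf g c K t₀ t = K / 2 := by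
  unfold kf; rw [if_pos h]

/-- `kf t * t² = g t - c` for `t ≠ 0`. -/
theorem kf_eq (hp : Prof g c K t₀) {t : ℝ} (ht : t ≠ 0) : kf g c K t₀ t = (g t - c) / t ^ 2 := by
  unfold kf
  split_ifs with h
  · rw [hp.eq t h]; field_simp; ring
  · rfl

theorem cda_kf (hp : Prof g c K t₀) (t : ℝ) : ContDiffAt ℝ ∞ (kf g c K t₀) t := by
  by_cases ht : t < t₀
  · have h1 : kf g c K t₀ =ᶠ[𝓝 t] fun _ => K / 2 := by
      filter_upwards [eventually_lt_nhds ht] with s hs using kf_of_le hs.le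
    exact contDiffAt_const.congr_of_eventuallyEq h1
  · have ht0 : t ≠ 0 := by
      have := hp.pos; intro h; apply ht; rw [h]; exact this
    have h1 : kf g c K t₀ =ᶠ[𝓝 t] fun s => (g s - c) / s ^ 2 := by
      filter_upwards [eventually_ne_nhds ht0] with s hs using kf_eq hp hs
    refine ContDiffAt.congr_of_eventuallyEq ?_ h1
    exact (hp.smooth.contDiffAt.sub contDiffAt_const).div (contDiffAt_id.pow 2)
      (pow_ne_zero 2 ht0)

end Prof

/-! ### the primitive -/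

/-- the primitive on `E6`. -/
def bt (g : ℝ → ℝ) (c K t₀ : ℝ) (y : E6) : E6 →L[ℝ] ℝ := (- kf g c K t₀ ‖y.2‖) • l3 y

theorem contDiff_l3 : ContDiff ℝ ∞ l3 := by
  unfold l3
  have h1 : ContDiff ℝ ∞ (fun z : E6 => cr z.1 z.2) := by
    have h2 : (fun z : E6 => cr z.1 z.2) = fun z => crB z.1 z.2 := rfl
    rw [h2]
    exact (crB.contDiff.comp contDiff_fst).clm_apply contDiff_snd
  have h3 : ContDiff ℝ ∞ (fun z : E6 => innerSL ℝ (cr z.1 z.2)) := (innerSL ℝ).contDiff.comp h1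
  exact h3.clm_comp contDiff_const


section Beta

variable {g : ℝ → ℝ} {c K t₀ : ℝ}

theorem bt_small {z : E6} (hz : z.2 = 0) (h0 : 0 < t₀) :
    bt g c K t₀ =ᶠ[𝓝 z] fun y => (- (K / 2)) • l3 y := by
  have h1 : ∀ᶠ y : E6 in 𝓝 z, ‖y.2‖ < t₀ := by
    have : ContinuousAt (fun y : E6 => ‖y.2‖) z := by fun_prop
    refine this.eventually (gt_mem_nhds ?_)
    show ‖z.2‖ < t₀
    rw [hz, norm_zero]; exact h0
  filter_upwards [h1] with y hy
  rw [bt, kf_of_le hy.le]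

theorem cda_bt (hp : Prof g c K t₀) (z : E6) : ContDiffAt ℝ ∞ (bt g c K t₀) z := by
  by_cases hz : z.2 = 0
  · exact (contDiff_l3.contDiffAt.const_smul (- (K / 2))).congr_of_eventuallyEq
      (bt_small hz hp.pos)
  · have h1 : ContDiffAt ℝ ∞ (fun y : E6 => ‖y.2‖) z := contDiffAt_snd.norm ℝ hz
    have h2 : ContDiffAt ℝ ∞ (fun y : E6 => kf g c K t₀ ‖y.2‖) z :=
      ContDiffAt.comp (g := kf g c K t₀) (f := fun y : E6 => ‖y.2‖) z (cda_kf hp _) h1
    exact h2.neg.smul contDiff_l3.contDiffAt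

theorem PB1_bt (y : E6) : PB1 (bt g c K t₀) y = (- kf g c K t₀ (rho y)) • PB1 l3 y := by
  rw [PB1, bt, PB1, rho, ContinuousLinearMap.smul_comp]

theorem FG_eq (z : E6) : FG g c K t₀ z = d1 (PB1 (bt g c K t₀)) z + c • PB2 ar z := by
  have h : (fun y => (- kf g c K t₀ (rho y)) • PB1 l3 y) = PB1 (bt g c K t₀) :=
    funext fun y => (PB1_bt y).symm
  rw [FG, h]

theorem dbt (r : ℝ) (hp : Prof g c K t₀) {z : E6} (hz : z ∈ OS r) :
    d1 (PB1 (bt g c K t₀)) z = PB2 (d1 (bt g c K t₀)) z :=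
  d1PB r _ z hz ((cda_bt hp _).differentiableAt (by simp))

/-- a two-form on `OS r` which is basic. -/
theorem bas_Ar (r : ℝ) : Bas r (fun z => PB2 ar z) := by
  refine ⟨?_, fun z hz U => ?_, fun z hz U V Y => ?_, fun z hz U V => ?_⟩
  · refine ContDiffOn.congr (f := Ar) (fun z hz => (contDiffAt_Ar hz.1).contDiffWithinAt) ?_
    exact fun z hz => PB2_ar hz.1
  · rw [PB2_ar hz.1, Ar_alt]
  · have h1 : (fun z => PB2 ar z) =ᶠ[𝓝 z] Ar := by
      filter_upwards [fst_ne_ev hz.1] with y hy using PB2_ar hy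
    have h2 := dd_Ar hz.1 U V Y
    unfold dd at h2 ⊢
    rw [h1.fderiv_eq]
    exact h2
  · show PB2 ar z U V = PB2 ar (Pi z) (fderiv ℝ Pi z U) (fderiv ℝ Pi z V)
    rw [PB2, PB2, pl_apply, pl_apply, Pi_Pi hz.1, fderiv_fderiv hz.1, fderiv_fderiv hz.1]

theorem bas (r : ℝ) (g : ℝ → ℝ) (c K t₀ : ℝ) (hp : Prof g c K t₀) : Bas r (FG g c K t₀) := by
  have h1 : Bas r (d1 (PB1 (bt g c K t₀))) := basd r _ (bas1 r _ fun z _ => cda_bt hp _)
  have h2 := bas_Ar r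
  have hF : FG g c K t₀ = fun z => d1 (PB1 (bt g c K t₀)) z + c • PB2 ar z := funext FG_eq
  rw [hF]
  have hs : ∀ z ∈ OS r, DifferentiableAt ℝ (d1 (PB1 (bt g c K t₀))) z := fun z hz =>
    (h1.smooth.contDiffAt ((isOpen_OS r).mem_nhds hz)).differentiableAt (by simp)
  have hs' : ∀ z ∈ OS r, DifferentiableAt ℝ (fun z => PB2 ar z) z := fun z hz =>
    (h2.smooth.contDiffAt ((isOpen_OS r).mem_nhds hz)).differentiableAt (by simp)
  refine ⟨h1.smooth.add (h2.smooth.const_smul c), ?_, ?_, ?_⟩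
  · intro z hz U
    have e1 := h1.alt z hz U
    have e2 : PB2 ar z U U = 0 := h2.alt z hz U
    simp only [add_apply, smul_apply, e1, e2, smul_zero,
      add_zero]
  · intro z hz U V Y
    have e1 := h1.closed z hz U V Y
    have e2 := h2.closed z hz U V Y
    unfold dd at e1 e2 ⊢
    have h3 : fderiv ℝ (fun z => d1 (PB1 (bt g c K t₀)) z + c • PB2 ar z) z =
        fderiv ℝ (d1 (PB1 (bt g c K t₀))) z + c • fderiv ℝ (fun z => PB2 ar z) z := by
      have e3 : DifferentiableAt ℝ (fun z => c • PB2 ar z) z := (hs' z hz).const_smul c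
      rw [fderiv_fun_add (hs z hz) e3, fderiv_fun_const_smul (hs' z hz)]
    rw [h3]
    simp only [add_apply, smul_apply, smul_eq_mul]
    linear_combination e1 + c * e2
  · intro z hz U V
    have e1 := h1.bas z hz U V
    have e2 : PB2 ar z U V = PB2 ar (Pi z) (fderiv ℝ Pi z U) (fderiv ℝ Pi z V) :=
      h2.bas z hz U V
    simp only [add_apply, smul_apply]
    rw [e1, e2]

/-! ### the entries -/

theorem cr_fr {q e : E3} (h : IsFr q e) : ⟪q, cr e (cr q e)⟫ = 1 := by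
  obtain ⟨h1, h2, h3⟩ := h
  have a1 : q 0 ^ 2 + q 1 ^ 2 + q 2 ^ 2 = 1 := by rw [← norm_sq3, h1]; norm_num
  have a2 : e 0 ^ 2 + e 1 ^ 2 + e 2 ^ 2 = 1 := by rw [← norm_sq3, h2]; norm_num
  have a3 : q 0 * e 0 + q 1 * e 1 + q 2 * e 2 = 0 := by rw [← in3]; exact h3
  rw [in3]
  simp only [cr_0, cr_1, cr_2]
  linear_combination (e 0 ^ 2 + e 1 ^ 2 + e 2 ^ 2) * a1 + a2 -
    (q 0 * e 0 + q 1 * e 1 + q 2 * e 2) * a3

theorem en_ar {z : E6} {e : E3} (h : IsFr z.1 e) (i j : Fin 4) : en (ar z) z e i j =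
    if i = 0 ∧ j = 1 then 1 else if i = 1 ∧ j = 0 then -1 else 0 := by
  have h1 := cr_fr h
  have h2 : ⟪z.1, cr (cr z.1 e) e⟫ = -1 := by rw [inner_cr_swap, h1]
  have h3 : ∀ x : E3, cr x x = 0 := cr_self
  have h4 : ∀ x : E3, cr x 0 = 0 := by intro x; ext i; fin_cases i <;> simp
  have h5 : ∀ x : E3, cr 0 x = 0 := by intro x; ext i; fin_cases i <;> simp
  rw [en, ar_apply]
  fin_cases i <;> fin_cases j <;> simp [X, hor, ver, h1, h2, h3, h4, h5]

/-- the differential of `l3` at the zero section. -/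
theorem d1_l3 {z : E6} (hz : z.2 = 0) (U V : E6) :
    d1 l3 z U V = 2 * ⟪cr z.1 U.2, V.2⟫ := by
  have hl : HasFDerivAt (fun y : E6 => cr y.1 y.2) ((crB z.1).comp (ContinuousLinearMap.snd ℝ E3 E3)
      + (crB.flip z.2).comp (ContinuousLinearMap.fst ℝ E3 E3)) z := by
    have h1 : HasFDerivAt (fun y : E6 => crB y.1 y.2) _ z :=
      (crB.hasFDerivAt.comp z hasFDerivAt_fst).clm_apply hasFDerivAt_snd
    refine h1.congr_fderiv ?_
    ext V <;> simp
  have hd : ∀ U V : E6, fderiv ℝ l3 z U V = ⟪cr z.1 U.2, V.2⟫ + ⟪cr U.1 z.2, V.2⟫ := by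
    intro U V
    have h2 : HasFDerivAt (fun y : E6 => l3 y V) (fderiv ℝ l3 z |>.flip V) z := by
      have h3 := (contDiff_l3.differentiable (by simp) z).hasFDerivAt
      have h4 := h3.clm_apply (hasFDerivAt_const V z)
      refine h4.congr_fderiv ?_
      ext U <;> simp
    have h5 : HasFDerivAt (fun y : E6 => l3 y V) _ z := hl.inner ℝ (hasFDerivAt_const V.2 z)
    have h6 := congrArg (fun L : E6 →L[ℝ] ℝ => L U) (h2.unique h5)
    simp at h6
    rw [h6, inner_add_left]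
  rw [d1_apply, hd, hd, hz]
  have h4 : ∀ x : E3, cr x 0 = 0 := by intro x; ext i; fin_cases i <;> simp
  rw [h4, h4, inner_zero_left, inner_zero_left, add_zero, add_zero]
  rw [in3, in3]
  simp only [cr_0, cr_1, cr_2]
  ring

/-- the entries of `d bt`. -/
theorem en_dbt (hR : RADF) (hp : Prof g c K t₀) {r : ℝ} {z : E6} {e : E3} (hz : z ∈ TS r)
    (he : IsFr z.1 e) (i j : Fin 4) : en (d1 (bt g c K t₀) z) z e i j =
      if i = 0 ∧ j = 1 then g ‖z.2‖ - c else if i = 1 ∧ j = 0 then - (g ‖z.2‖ - c)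
      else if i = 2 ∧ j = 3 then - gd g K ‖z.2‖
      else if i = 3 ∧ j = 2 then gd g K ‖z.2‖ else 0 := by
  by_cases h0 : z.2 = 0
  · have h1 : d1 (bt g c K t₀) z = d1 (fun y => (- (K / 2)) • l3 y) z :=
      d1_congr (bt_small h0 hp.pos)
    have h2 : ∀ U V, d1 (fun y => (- (K / 2)) • l3 y) z U V = - K * ⟪cr z.1 U.2, V.2⟫ := by
      intro U V
      have h3 : fderiv ℝ (fun y => (- (K / 2)) • l3 y) z = (- (K / 2)) • fderiv ℝ l3 z :=
        fderiv_fun_const_smul (contDiff_l3.differentiable (by simp) z) _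
      have h4 := d1_l3 h0 U V
      rw [d1_apply] at h4 ⊢
      rw [h3]
      simp only [smul_apply, smul_eq_mul]
      linear_combination (- (K / 2)) * h4
    have h5 : ⟪cr z.1 e, cr z.1 e⟫ = 1 := by
      obtain ⟨a1, a2, a3⟩ := he
      have b1 : z.1 0 ^ 2 + z.1 1 ^ 2 + z.1 2 ^ 2 = 1 := by rw [← norm_sq3, a1]; norm_num
      have b2 : e 0 ^ 2 + e 1 ^ 2 + e 2 ^ 2 = 1 := by rw [← norm_sq3, a2]; norm_num
      have b3 : z.1 0 * e 0 + z.1 1 * e 1 + z.1 2 * e 2 = 0 := by rw [← in3]; exact a3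
      rw [in3]
      simp only [cr_0, cr_1, cr_2]
      linear_combination (e 0 ^ 2 + e 1 ^ 2 + e 2 ^ 2) * b1 + b2 -
        (z.1 0 * e 0 + z.1 1 * e 1 + z.1 2 * e 2) * b3
    have h6 : ⟪cr z.1 e, e⟫ = 0 := by
      rw [in3]; simp only [cr_0, cr_1, cr_2]; ring
    have h7 : ⟪cr z.1 (cr z.1 e), e⟫ = -1 := by
      rw [← h5, in3, in3]; simp only [cr_0, cr_1, cr_2]; ring
    have h8 : ⟪cr z.1 (cr z.1 e), cr z.1 e⟫ = 0 := by
      rw [in3]; simp only [cr_0, cr_1, cr_2]; ring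
    have h9 : ∀ x : E3, cr x 0 = 0 := by intro x; ext i; fin_cases i <;> simp
    have hg : g ‖z.2‖ = c := by
      rw [h0, norm_zero, hp.eq 0 hp.pos.le]; ring
    have hgd : gd g K ‖z.2‖ = K := by rw [h0, norm_zero, gd, if_pos rfl]
    have h10 : ‖cr z.1 e‖ ^ 2 = 1 := by rw [← real_inner_self_eq_norm_sq, h5]
    rw [h1, en, h2, hg, hgd]
    fin_cases i <;> fin_cases j <;> simp [X, hor, ver, h0, h6, h7, h8, h9, h10]
  · have h1 : bt g c K t₀ =ᶠ[𝓝 z] fun y => (fun t => - (g t - c)) ‖y.2‖ • ps y := by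
      have h2 : ∀ᶠ y : E6 in 𝓝 z, y.2 ≠ 0 := continuousAt_snd.eventually_ne h0
      filter_upwards [h2] with y hy
      have hy' : ‖y.2‖ ≠ 0 := norm_ne_zero_iff.2 hy
      rw [bt, kf_eq hp hy', ps, l3, smul_smul]
      congr 1
      field_simp
    have h2 : ContDiffAt ℝ 1 (fun t => - (g t - c)) ‖z.2‖ :=
      ((hp.smooth.sub contDiff_const).neg.contDiffAt).of_le (by simp)
    have h3 : deriv (fun t => - (g t - c)) ‖z.2‖ = - deriv g ‖z.2‖ := by
      have h4 : (fun t => - (g t - c)) = fun t => - (fun t => g t - c) t := rfl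
      rw [h4, deriv.fun_neg, deriv_sub_const]
    rw [d1_congr h1, hR.psf z r e _ hz h0 he h2 i j, h3, gd, if_neg (norm_ne_zero_iff.2 h0)]
    fin_cases i <;> fin_cases j <;> simp <;> ring

theorem entries (hR : RADF) (r : ℝ) (g : ℝ → ℝ) (c K t₀ : ℝ) (hp : Prof g c K t₀) (z : E6) (e : E3)
    (hz : z ∈ TS r) (he : IsFr z.1 e) (i j : Fin 4) : en (FG g c K t₀ z) z e i j =
      if i = 0 ∧ j = 1 then g ‖z.2‖ else if i = 1 ∧ j = 0 then - g ‖z.2‖
      else if i = 2 ∧ j = 3 then - gd g K ‖z.2‖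
      else if i = 3 ∧ j = 2 then gd g K ‖z.2‖ else 0 := by
  have h1 : en (FG g c K t₀ z) z e i j = en (PB2 (d1 (bt g c K t₀)) z) z e i j +
      c * en (PB2 ar z) z e i j := by
    rw [FG_eq, dbt r hp (TS_subset_OS r hz)]
    simp only [en, add_apply, smul_apply, smul_eq_mul]
  rw [h1, en_PB2 r _ z e hz he, en_PB2 r _ z e hz he, en_dbt hR hp hz he, en_ar he]
  fin_cases i <;> fin_cases j <;> simp <;> ring

end Beta

/-! ### the other fields -/

theorem add (r : ℝ) (g g' : ℝ → ℝ) (c K t₀ c' K' t₀' : ℝ) (hp : Prof g c K t₀)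
    (hp' : Prof g' c' K' t₀') (t : ℝ) (t₁ : ℝ) (h1 : 0 < t₁) (h2 : t₁ ≤ t₀) (h3 : t₁ ≤ t₀')
    (z : E6) (hz : z ∈ OS r) :
      FG (fun x => g x + t * g' x) (c + t * c') (K + t * K') t₁ z =
        FG g c K t₀ z + t • FG g' c' K' t₀' z := by
  have hp1 : Prof (fun x => g x + t * g' x) (c + t * c') (K + t * K') t₁ :=
    ⟨hp.smooth.add (contDiff_const.mul hp'.smooth), h1, fun s hs => by
      rw [hp.eq s (hs.trans h2), hp'.eq s (hs.trans h3)]; ring⟩
  have hk : ∀ s, kf (fun x => g x + t * g' x) (c + t * c') (K + t * K') t₁ s =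
      kf g c K t₀ s + t * kf g' c' K' t₀' s := by
    intro s
    by_cases hs : s = 0
    · rw [hs, kf_of_le h1.le, kf_of_le hp.pos.le, kf_of_le hp'.pos.le]; ring
    · rw [kf_eq hp1 hs, kf_eq hp hs, kf_eq hp' hs]; field_simp; ring
  have hb : bt (fun x => g x + t * g' x) (c + t * c') (K + t * K') t₁ =
      fun y => bt g c K t₀ y + t • bt g' c' K' t₀' y := by
    funext y
    rw [bt, bt, bt, hk]
    module
  have hd : ∀ y, DifferentiableAt ℝ (bt g c K t₀) y := fun y => (cda_bt hp y).differentiableAt (by simp)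
  have hd' : ∀ y, DifferentiableAt ℝ (bt g' c' K' t₀') y :=
    fun y => (cda_bt hp' y).differentiableAt (by simp)
  have h5 : d1 (bt (fun x => g x + t * g' x) (c + t * c') (K + t * K') t₁) (Pi z) =
      d1 (bt g c K t₀) (Pi z) + t • d1 (bt g' c' K' t₀') (Pi z) := by
    have h6 : fderiv ℝ (fun y => bt g c K t₀ y + t • bt g' c' K' t₀' y) (Pi z) =
        fderiv ℝ (bt g c K t₀) (Pi z) + t • fderiv ℝ (bt g' c' K' t₀') (Pi z) := by
      have e3 : DifferentiableAt ℝ (fun y => t • bt g' c' K' t₀' y) (Pi z) :=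
        (hd' _).const_smul t
      rw [fderiv_fun_add (hd _) e3, fderiv_fun_const_smul (hd' _)]
    rw [hb]
    refine ContinuousLinearMap.ext fun U => ContinuousLinearMap.ext fun V => ?_
    rw [d1_apply, h6]
    simp only [add_apply, smul_apply, smul_eq_mul, d1_apply]
    ring
  rw [FG_eq, FG_eq, FG_eq, dbt r hp1 hz, dbt r hp hz, dbt r hp' hz]
  refine ContinuousLinearMap.ext fun U => ContinuousLinearMap.ext fun V => ?_
  simp only [PB2, h5, add_apply, smul_apply, pl_apply, smul_eq_mul]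
  ring

theorem rho_cont {z : E6} (hz : z.1 ≠ 0) : ContinuousAt rho z :=
  (contDiffAt_Pi hz).continuousAt.snd.norm

theorem congr (r : ℝ) (g g' : ℝ → ℝ) (c K t₀ t₀' : ℝ) (hp : Prof g c K t₀)
    (hp' : Prof g' c K t₀') (ρ : ℝ) (h : ∀ t < ρ, g t = g' t) (z : E6) (hz : z ∈ OS r)
    (hρ : rho z < ρ) : FG g c K t₀ z = FG g' c K t₀' z := by
  have hk : ∀ s < ρ, kf g c K t₀ s = kf g' c K t₀' s := by
    intro s hs
    by_cases h0 : s = 0
    · rw [h0, kf_of_le hp.pos.le, kf_of_le hp'.pos.le]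
    · rw [kf_eq hp h0, kf_eq hp' h0, h s hs]
  have h1 : PB1 (bt g c K t₀) =ᶠ[𝓝 z] PB1 (bt g' c K t₀') := by
    filter_upwards [(rho_cont hz.1).eventually (gt_mem_nhds hρ)] with y hy
    rw [PB1_bt, PB1_bt, hk _ hy]
  rw [FG_eq, FG_eq, d1_congr h1]

theorem supp (hR : RADF) (r : ℝ) (g : ℝ → ℝ) (c K t₀ : ℝ) (hp : Prof g c K t₀) (ρ : ℝ)
    (h : ∀ t, ρ ≤ t → g t = 0) (z : E6) (hz : z ∈ OS r) (hρ : ρ ≤ rho z) :
    FG g c K t₀ z = 0 := by
  have hPz := Pi_mem_TS hz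
  obtain ⟨e, he⟩ := exists_fr hPz.1
  have hg0 : g ‖(Pi z).2‖ = 0 := h _ hρ
  have hgd : gd g K ‖(Pi z).2‖ = 0 := by
    by_cases h0 : ‖(Pi z).2‖ = 0
    · rw [gd, if_pos h0]
      have h1 : ρ ≤ 0 := by rw [← h0]; exact hρ
      have h2 := hp.eq 0 hp.pos.le
      have h3 := hp.eq t₀ le_rfl
      rw [h 0 h1] at h2
      rw [h t₀ (h1.trans hp.pos.le)] at h3
      have h4 := hp.pos
      have h5 : c = 0 := by linarith
      have h6 : K * t₀ ^ 2 = 0 := by rw [h5] at h3; linarith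
      exact (mul_eq_zero.1 h6).resolve_right (pow_ne_zero 2 h4.ne')
    · rw [gd, if_neg h0]
      have h1 : deriv g ‖(Pi z).2‖ = 0 := by
        have h2 : HasDerivAt g (deriv g ‖(Pi z).2‖) ‖(Pi z).2‖ :=
          (hp.smooth.differentiable (by simp) _).hasDerivAt
        have h3 : HasDerivWithinAt g (deriv g ‖(Pi z).2‖) (Ici ‖(Pi z).2‖) ‖(Pi z).2‖ :=
          h2.hasDerivWithinAt
        have h4 : HasDerivWithinAt g 0 (Ici ‖(Pi z).2‖) ‖(Pi z).2‖ := by
          refine (hasDerivWithinAt_const _ _ (0 : ℝ)).congr (fun s hs => ?_) hg0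
          exact h s (le_trans hρ hs)
        exact (uniqueDiffOn_Ici _ _ self_mem_Ici).eq_deriv _ h3 h4
      rw [h1, zero_div]
  have hen : ∀ i j, FG g c K t₀ (Pi z) (X (Pi z) e i) (X (Pi z) e j) = 0 := by
    intro i j
    have h1 := entries hR r g c K t₀ hp (Pi z) e hPz he i j
    rw [hg0, hgd] at h1
    rw [en] at h1
    rw [h1]
    simp
  refine ContinuousLinearMap.ext fun U => ContinuousLinearMap.ext fun V => ?_
  rw [(bas r g c K t₀ hp).bas z hz U V]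
  rw [tan_expand he (tan_fderiv_Pi hz.1 U), tan_expand he (tan_fderiv_Pi hz.1 V)]
  simp only [map_add, map_smul, add_apply, smul_apply, smul_eq_mul, hen, mul_zero, add_zero]
  rfl

/-- **FGL.** -/
theorem fgl (hR : RADF) : K12An_776.FGL where
  bas := bas
  e := entries hR
  add := add
  congr := congr
  supp := supp hR

end

end Crest.Agent.R235.K12Fgl_417
end

-- ▼ part R235/K12TubDefs_417
section

/-!
Row 235 (S0364), block K12 (helper417): the two halves of TUBE.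

* `TUBA` : a smooth map `Ps` of `{q ≠ 0}` into `M` which factors through `Pi`, restricts to the
  embedded sphere `σ` on the zero section and is immersive there, is a tube on a small disc bundle;
* `NUX` : existence of such a map with the right one-jet (`Jet`).
-/

set_option autoImplicit false
set_option maxSynthPendingDepth 3

open Set Function Filter MeasureTheory
open scoped Manifold ContDiff Topology RealInnerProductSpace

universe u

namespace Crest.Agent.R235.K12_417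

open Crest.Agent.R240 Crest.Agent.R240.Ch Crest.Agent.R235

noncomputable section

section Closed

variable (M : Type u) [TopologicalSpace M] [T2Space M] [CompactSpace M]
  [ChartedSpace E4 M] [IsManifold 𝓘(ℝ, E4) ∞ M]

/-- LEAF TUBA: the abstract tube theorem. -/
def TUBA : Prop :=
  ∀ (σ : E3 → M) (Ps : E6 → M), EmbS σ →
    ContMDiffOn 𝓘(ℝ, E6) 𝓘(ℝ, E4) ∞ Ps {z | z.1 ≠ 0} →
    (∀ z : E6, z.1 ≠ 0 → Ps (Pi z) = Ps z) →
    (∀ q : E3, ‖q‖ = 1 → Ps (q, 0) = σ q) →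
    (∀ q u v : E3, ‖q‖ = 1 → ⟪q, u⟫ = 0 → ⟪q, v⟫ = 0 → dmap Ps ((q, 0) : E6) (u, v) = 0 →
      u = 0 ∧ v = 0) →
    ∀ O : Set M, IsOpen O → im σ ⊆ O →
    ∃ (r : ℝ) (G : M → E6) (U : Set M), Tube σ r Ps G U ∧ U ⊆ O

/-- LEAF NUX: the map. -/
def NUX : Prop :=
  ∀ (w : Trip M), Pos3 w → ∀ σ : E3 → M, EmbS σ →
    (∀ y u v : E3, ‖y‖ = 1 → val (w 1) (σ y) (dmap σ y u) (dmap σ y v) = 0) →
    (∀ y u v : E3, ‖y‖ = 1 → val (w 2) (σ y) (dmap σ y u) (dmap σ y v) = 0) →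
    ∃ Ps : E6 → M, ContMDiffOn 𝓘(ℝ, E6) 𝓘(ℝ, E4) ∞ Ps {z | z.1 ≠ 0} ∧
      (∀ z : E6, z.1 ≠ 0 → Ps (Pi z) = Ps z) ∧
      (∀ q : E3, ‖q‖ = 1 → Ps (q, 0) = σ q) ∧
      (∀ q u v : E3, ‖q‖ = 1 → ⟪q, u⟫ = 0 → ⟪q, v⟫ = 0 → dmap Ps ((q, 0) : E6) (u, v) = 0 →
        u = 0 ∧ v = 0) ∧
      Jet w Ps

theorem tube_of (hA : TUBA M) (hN : NUX M) : TUBE M := by
  intro w hw σ hσ h1 h2 O hO hσO
  obtain ⟨Ps, hs, hf, hz, hi, hJ⟩ := hN w hw σ hσ h1 h2
  obtain ⟨r, G, U, hT, hU⟩ := hA σ Ps hσ hs hf hz hi O hO hσO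
  exact ⟨r, Ps, G, U, hT, hU, hJ⟩

end Closed

end

end Crest.Agent.R235.K12_417
end

-- ▼ part R235/K12NuA_417
section

/-!
Row 235 (S0364), block K12 (helper417): POINTWISE ALGEBRA of the normal vector `ν(q,p)`.
-/

set_option autoImplicit false
set_option maxSynthPendingDepth 3

open Set Function Filter
open scoped Manifold ContDiff Topology RealInnerProductSpace

namespace Crest.Agent.R235.K12_417

open Crest.Agent.R240 Crest.Agent.R240.Ch Crest.Agent.R235 Crest.Agent.R235.Exj_900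

noncomputable section

/-! ### `a⁻¹` -/

/-- `a⁻¹`. -/
def ainv (a : Bil) (ξ : E4 →L[ℝ] ℝ) : E4 := (2 / W a a) • Kop a ξ

theorem a_ainv {a : Bil} (ha : Alt a) (h0 : W a a ≠ 0) (ξ : E4 →L[ℝ] ℝ) (v : E4) :
    a (ainv a ξ) v = ξ v := by
  rw [ainv, map_smul, smul_apply, a_Kop ha, smul_eq_mul]
  field_simp

theorem a_inj {a : Bil} (ha : Alt a) (h0 : W a a ≠ 0) {u v : E4} (h : ∀ w, a u w = a v w) :
    u = v := by
  by_contra hne
  refine h0 (ker_W ha (sub_ne_zero.2 hne) fun w => ?_)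
  rw [map_sub, sub_apply, h, sub_self]

/-- the `J`-invariant part. -/
def FJ (f : Bil) (J : E4 →L[ℝ] E4) (u : E4) : E4 →L[ℝ] ℝ := (1 / 2 : ℝ) • (f u + (f (J u)).comp J)

theorem FJ_apply (f : Bil) (J : E4 →L[ℝ] E4) (u v : E4) :
    FJ f J u v = (f u v + f (J u) (J v)) / 2 := by
  simp [FJ]; ring

/-- `K = a⁻¹ F`. -/
def KJ (f a : Bil) (J : E4 →L[ℝ] E4) (u : E4) : E4 := ainv a (FJ f J u)

section Alg

variable {f a b : Bil} {J : E4 →L[ℝ] E4}

theorem a_KJ (ha : Alt a) (h0 : W a a ≠ 0) (u v : E4) :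
    a (KJ f a J u) v = FJ f J u v := a_ainv ha h0 _ _

theorem KJ_lin (ha : Alt a) (h0 : W a a ≠ 0) (s t : ℝ) (u v : E4) :
    KJ f a J (s • u + t • v) = s • KJ f a J u + t • KJ f a J v := by
  refine a_inj ha h0 fun w => ?_
  rw [a_KJ ha h0, map_add, map_smul, map_smul, add_apply, smul_apply, smul_apply, a_KJ ha h0,
    a_KJ ha h0, FJ_apply, FJ_apply, FJ_apply]
  simp only [map_add, map_smul, add_apply, smul_apply, smul_eq_mul]
  ring

theorem KJ_J (ha : Alt a) (h0 : W a a ≠ 0) (hJ : ∀ v, J (J v) = -v)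
    (h1 : ∀ u v, a (J u) (J v) = - a u v) (v : E4) : KJ f a J (J v) = - J (KJ f a J v) := by
  refine a_inj ha h0 fun w => ?_
  have h2 : a (J (KJ f a J v)) w = a (KJ f a J v) (J w) := by
    have h3 := h1 (KJ f a J v) (J w)
    rw [hJ, map_neg] at h3
    linarith
  rw [a_KJ ha h0, map_neg, neg_apply, h2, a_KJ ha h0, FJ_apply, FJ_apply, hJ, hJ]
  simp only [map_neg, neg_apply]
  ring

end Alg

/-! ### the plane -/

section Plane

variable {f a b : Bil} {J : E4 →L[ℝ] E4} {T : E3 →L[ℝ] E4} {q : E3}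

theorem ker_pair_rank (ha : Alt a) (hb : Alt b) (h : P3 f a b) {x : E4} (hx : x ≠ 0) :
    Module.finrank ℝ (LinearMap.ker ((((a x : E4 →L[ℝ] ℝ) : E4 →ₗ[ℝ] ℝ)).prod
      ((b x : E4 →L[ℝ] ℝ) : E4 →ₗ[ℝ] ℝ))) = 2 := by
  set L : E4 →ₗ[ℝ] ℝ × ℝ := (((a x : E4 →L[ℝ] ℝ) : E4 →ₗ[ℝ] ℝ)).prod
      ((b x : E4 →L[ℝ] ℝ) : E4 →ₗ[ℝ] ℝ) with hL
  have hsurj : Function.Surjective L := by
    rw [← LinearMap.range_eq_top]
    by_contra hne
    obtain ⟨φ, hφ0, hφ⟩ := Submodule.exists_dual_map_eq_bot_of_lt_top (lt_top_iff_ne_top.2 hne)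
      inferInstance
    have h1 : ∀ y, φ (L y) = 0 := by
      intro y
      have h2 : φ (L y) ∈ (LinearMap.range L).map φ := ⟨L y, ⟨y, rfl⟩, rfl⟩
      rw [hφ] at h2
      simpa using h2
    set c1 := φ (1, 0) with hc1
    set c2 := φ (0, 1) with hc2
    have h2 : ∀ s t : ℝ, φ (s, t) = s * c1 + t * c2 := by
      intro s t
      have : ((s, t) : ℝ × ℝ) = s • (1, 0) + t • (0, 1) := by simp
      rw [this, map_add, map_smul, map_smul, smul_eq_mul, smul_eq_mul]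
    have h3 : ![0, c1, c2] ≠ 0 := by
      intro h0
      apply hφ0
      have e1 : c1 = 0 := by simpa using congrFun h0 1
      have e2 : c2 = 0 := by simpa using congrFun h0 2
      ext
      · show φ (1, 0) = 0
        exact e1
      · show φ (0, 1) = 0
        exact e2
    refine h _ h3 ?_
    have hA : Alt ((![0, c1, c2] : Fin 3 → ℝ) 0 • f + (![0, c1, c2] : Fin 3 → ℝ) 1 • a +
        (![0, c1, c2] : Fin 3 → ℝ) 2 • b) := by
      simp only [Matrix.cons_val_zero, Matrix.cons_val_one, Matrix.cons_val, zero_smul, zero_add]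
      exact (ha.smul _).add (hb.smul _)
    refine ker_W hA hx fun u => ?_
    simp only [Matrix.cons_val_zero, Matrix.cons_val_one, Matrix.cons_val, zero_smul, zero_add,
      add_apply, smul_apply, smul_eq_mul]
    have h4 := h1 u
    have h5 : L u = (a x u, b x u) := rfl
    rw [h5, h2] at h4
    linarith
  have h1 := LinearMap.finrank_range_add_finrank_ker L
  rw [LinearMap.range_eq_top.2 hsurj, finrank_top] at h1
  have h2 : Module.finrank ℝ E4 = 4 := by simp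
  have h3 : Module.finrank ℝ (ℝ × ℝ) = 2 := by simp
  omega

theorem range_rank (hq : q ≠ 0) (hTq : T q = 0) (hTi : ∀ u, T u = 0 → ∃ t : ℝ, u = t • q) :
    Module.finrank ℝ (LinearMap.range (T : E3 →ₗ[ℝ] E4)) = 2 := by
  have h1 := LinearMap.finrank_range_add_finrank_ker (T : E3 →ₗ[ℝ] E4)
  have h2 : LinearMap.ker (T : E3 →ₗ[ℝ] E4) = Submodule.span ℝ {q} := by
    ext u
    rw [LinearMap.mem_ker, Submodule.mem_span_singleton]
    constructor
    · intro h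
      obtain ⟨t, ht⟩ := hTi u h
      exact ⟨t, ht.symm⟩
    · rintro ⟨t, rfl⟩
      show T (t • q) = 0
      rw [map_smul, hTq, smul_zero]
  rw [h2, finrank_span_singleton hq] at h1
  have h3 : Module.finrank ℝ E3 = 3 := by simp
  omega

/-- `T u = s x + t J x` for every `x ≠ 0` in the plane. -/
theorem plane (ha : Alt a) (hb : Alt b) (h : P3 f a b) (hJ : Jp f a b J) (hq : q ≠ 0)
    (hTq : T q = 0) (hTi : ∀ u, T u = 0 → ∃ t : ℝ, u = t • q)
    (hla : ∀ u v, a (T u) (T v) = 0) (hlb : ∀ u v, b (T u) (T v) = 0) {x : E3} (hx : T x ≠ 0) :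
    (∀ u, ∃ s t : ℝ, T u = s • T x + t • J (T x)) ∧ ∃ v, T v = J (T x) := by
  set S := LinearMap.ker ((((a (T x) : E4 →L[ℝ] ℝ) : E4 →ₗ[ℝ] ℝ)).prod
      ((b (T x) : E4 →L[ℝ] ℝ) : E4 →ₗ[ℝ] ℝ)) with hS
  have hSr : Module.finrank ℝ S = 2 := ker_pair_rank ha hb h hx
  have hmem : ∀ y, y ∈ S ↔ a (T x) y = 0 ∧ b (T x) y = 0 := by
    intro y
    rw [hS, LinearMap.mem_ker]
    show (a (T x) y, b (T x) y) = 0 ↔ _
    rw [Prod.mk_eq_zero]
  have hR : LinearMap.range (T : E3 →ₗ[ℝ] E4) = S := by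
    refine Submodule.eq_of_le_of_finrank_eq ?_ ?_
    · rintro _ ⟨u, rfl⟩
      exact (hmem _).2 ⟨hla x u, hlb x u⟩
    · rw [range_rank hq hTq hTi, hSr]
  have hJx : J (T x) ∈ S :=
    (hmem _).2 ⟨anti_diag ha hJ.sq hJ.anti1 _, anti_diag hb hJ.sq hJ.anti2 _⟩
  have hx' : T x ∈ S := (hmem _).2 ⟨ha _, hb _⟩
  have hD : Submodule.span ℝ (Set.range ![T x, J (T x)]) = S := by
    refine Submodule.eq_of_le_of_finrank_eq ?_ ?_
    · rw [Submodule.span_le]
      rintro _ ⟨i, rfl⟩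
      fin_cases i
      · exact hx'
      · exact hJx
    · rw [finrank_span_eq_card (indep_J hJ.sq hx), hSr]; simp
  constructor
  · intro u
    have h1 : T u ∈ S := by rw [← hR]; exact ⟨u, rfl⟩
    rw [← hD, Matrix.range_cons, Matrix.range_cons, Matrix.range_empty, Set.union_empty,
      Set.singleton_union, Submodule.mem_span_pair] at h1
    obtain ⟨s, t, hst⟩ := h1
    exact ⟨s, t, hst.symm⟩
  · have h1 : J (T x) ∈ LinearMap.range (T : E3 →ₗ[ℝ] E4) := by rw [hR]; exact hJx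
    obtain ⟨v, hv⟩ := h1
    exact ⟨v, hv⟩

end Plane

/-! ### vectors in three-space -/

theorem in3 (u v : E3) : ⟪u, v⟫ = u 0 * v 0 + u 1 * v 1 + u 2 * v 2 := by
  simp [PiLp.inner_apply, Fin.sum_univ_three]
  ring

theorem cr0 (u v : E3) : cr u v 0 = u 1 * v 2 - u 2 * v 1 := by simp [cr]
theorem cr1 (u v : E3) : cr u v 1 = u 2 * v 0 - u 0 * v 2 := by simp [cr]
theorem cr2 (u v : E3) : cr u v 2 = u 0 * v 1 - u 1 * v 0 := by simp [cr]

theorem e3ext {u v : E3} (h0 : u 0 = v 0) (h1 : u 1 = v 1) (h2 : u 2 = v 2) : u = v := by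
  ext i; fin_cases i <;> assumption

/-- the basis. -/
def bs (i : Fin 3) : E3 := EuclideanSpace.single i 1

theorem bs_00 : bs 0 0 = 1 := by simp [bs]
theorem bs_01 : bs 0 1 = 0 := by simp [bs]
theorem bs_02 : bs 0 2 = 0 := by simp [bs]
theorem bs_10 : bs 1 0 = 0 := by simp [bs]
theorem bs_11 : bs 1 1 = 1 := by simp [bs]
theorem bs_12 : bs 1 2 = 0 := by simp [bs]
theorem bs_20 : bs 2 0 = 0 := by simp [bs]
theorem bs_21 : bs 2 1 = 0 := by simp [bs]
theorem bs_22 : bs 2 2 = 1 := by simp [bs]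

theorem expand3 (T : E3 →L[ℝ] E4) (u : E3) :
    T u = u 0 • T (bs 0) + u 1 • T (bs 1) + u 2 • T (bs 2) := by
  have h : u = u 0 • bs 0 + u 1 • bs 1 + u 2 • bs 2 := by
    refine e3ext ?_ ?_ ?_ <;> simp [bs]
  conv_lhs => rw [h]
  simp only [map_add, map_smul]

/-- the density of a two-form on the plane. -/
def dn (f : Bil) (T : E3 →L[ℝ] E4) (q : E3) : ℝ :=
  q 0 * f (T (bs 1)) (T (bs 2)) + q 1 * f (T (bs 2)) (T (bs 0)) + q 2 * f (T (bs 0)) (T (bs 1))

theorem dn_eq {f : Bil} (hf : Alt f) {T : E3 →L[ℝ] E4} {q : E3} (hq : ‖q‖ = 1) (hTq : T q = 0)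
    (u v : E3) : f (T u) (T v) = dn f T q * ⟪q, cr u v⟫ := by
  have hexp : ∀ u v : E3, f (T u) (T v) =
      f (T (bs 1)) (T (bs 2)) * (u 1 * v 2 - u 2 * v 1) +
      f (T (bs 2)) (T (bs 0)) * (u 2 * v 0 - u 0 * v 2) +
      f (T (bs 0)) (T (bs 1)) * (u 0 * v 1 - u 1 * v 0) := by
    intro u v
    rw [expand3 T u, expand3 T v]
    simp only [map_add, map_smul, add_apply, smul_apply, smul_eq_mul, hf (T (bs 0)),
      hf (T (bs 1)), hf (T (bs 2)), hf.swap (T (bs 2)) (T (bs 1)), hf.swap (T (bs 0)) (T (bs 2)),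
      hf.swap (T (bs 1)) (T (bs 0))]
    ring
  have h1 : ∀ v, f (T q) (T v) = 0 := by intro v; rw [hTq]; simp
  have h2 := h1 (bs 0)
  have h3 := h1 (bs 1)
  have h4 := h1 (bs 2)
  rw [hexp] at h2 h3 h4
  simp only [bs_00, bs_01, bs_02, bs_10, bs_11, bs_12, bs_20, bs_21, bs_22] at h2 h3 h4
  have hn : q 0 * q 0 + q 1 * q 1 + q 2 * q 2 = 1 := by
    rw [← in3, real_inner_self_eq_norm_sq, hq]; norm_num
  rw [hexp u v, in3, cr0, cr1, cr2, dn]
  set A := f (T (bs 1)) (T (bs 2))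
  set B := f (T (bs 2)) (T (bs 0))
  set C := f (T (bs 0)) (T (bs 1))
  have eA : A = (q 0 * A + q 1 * B + q 2 * C) * q 0 := by
    linear_combination (-A) * hn + (q 1) * h4 - (q 2) * h3
  have eB : B = (q 0 * A + q 1 * B + q 2 * C) * q 1 := by
    linear_combination (-B) * hn - (q 0) * h4 + (q 2) * h2
  have eC : C = (q 0 * A + q 1 * B + q 2 * C) * q 2 := by
    linear_combination (-C) * hn + (q 0) * h3 - (q 1) * h2
  linear_combination (u 1 * v 2 - u 2 * v 1) * eA + (u 2 * v 0 - u 0 * v 2) * eB +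
    (u 0 * v 1 - u 1 * v 0) * eC

/-- `f (T x)(T u) = F (T x) (T u)`. -/
theorem FJ_plane {f : Bil} {J : E4 →L[ℝ] E4} (hf : Alt f) (hJ : ∀ v, J (J v) = -v) {x y : E4}
    (h : ∃ s t : ℝ, y = s • x + t • J x) : FJ f J x y = f x y := by
  obtain ⟨s, t, rfl⟩ := h
  rw [FJ_apply]
  simp only [map_add, map_smul, hJ, smul_neg, map_neg, smul_eq_mul, hf x, hf (J x),
    hf.swap (J x) x]
  ring

/-! ### the normal vector -/

/-- `ν(q,p)`. -/
def nu (f a : Bil) (J : E4 →L[ℝ] E4) (T : E3 →L[ℝ] E4) (q p : E3) : E4 :=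
  (- (dn f T q)⁻¹) • KJ f a J (T (cr q p))

/-- the data at a point of the sphere. -/
structure Pt (f a b : Bil) (J : E4 →L[ℝ] E4) (T : E3 →L[ℝ] E4) (q : E3) : Prop where
  hf : Alt f
  ha : Alt a
  hb : Alt b
  P : P3 f a b
  J : Jp f a b J
  hq : ‖q‖ = 1
  Tq : T q = 0
  Ti : ∀ u, T u = 0 → ∃ t : ℝ, u = t • q
  la : ∀ u v, a (T u) (T v) = 0
  lb : ∀ u v, b (T u) (T v) = 0

section Nu

variable {f a b : Bil} {J : E4 →L[ℝ] E4} {T : E3 →L[ℝ] E4} {q : E3}

theorem Pt.q0 (h : Pt f a b J T q) : q ≠ 0 := by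
  intro h0
  have := h.hq
  rw [h0, norm_zero] at this
  norm_num at this

theorem Pt.ne (h : Pt f a b J T q) {u : E3} (hu : ⟪q, u⟫ = 0) (hu0 : u ≠ 0) : T u ≠ 0 := by
  intro h0
  obtain ⟨t, ht⟩ := h.Ti u h0
  rw [ht, inner_smul_right, real_inner_self_eq_norm_sq, h.hq] at hu
  have : t = 0 := by simpa using hu
  rw [this, zero_smul] at ht
  exact hu0 ht

theorem Pt.plane (h : Pt f a b J T q) {x : E3} (hx : T x ≠ 0) :
    (∀ u, ∃ s t : ℝ, T u = s • T x + t • J (T x)) ∧ ∃ v, T v = J (T x) :=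
  K12_417.plane h.ha h.hb h.P h.J h.q0 h.Tq h.Ti h.la h.lb hx

/-- a unit tangential vector. -/
theorem exists_tan (q : E3) (hq : ‖q‖ = 1) : ∃ u : E3, ⟪q, u⟫ = 0 ∧ u ≠ 0 := by
  have hn : q 0 * q 0 + q 1 * q 1 + q 2 * q 2 = 1 := by
    rw [← in3, real_inner_self_eq_norm_sq, hq]; norm_num
  by_cases h0 : q 0 = 0 ∧ q 1 = 0
  · refine ⟨bs 0, ?_, ?_⟩
    · rw [in3]; simp [h0.1, bs_01, bs_02]
    · intro h; have := congrArg (fun z : E3 => z 0) h; simp [bs_00] at this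
  · refine ⟨!₂[- q 1, q 0, 0], ?_, ?_⟩
    · rw [in3]; simp; ring
    · intro h
      apply h0
      have e0 := congrArg (fun z : E3 => z 0) h
      have e1 := congrArg (fun z : E3 => z 1) h
      simp at e0 e1
      exact ⟨e1, e0⟩

theorem Pt.dn_ne (h : Pt f a b J T q) : dn f T q ≠ 0 := by
  intro h0
  obtain ⟨u, hu, hu0⟩ := exists_tan q h.hq
  have hTu := h.ne hu hu0
  obtain ⟨v, hv⟩ := (h.plane hTu).2
  have h1 := h.J.tame (T u) hTu
  rw [← hv, dn_eq h.hf h.hq h.Tq, h0, zero_mul] at h1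
  exact lt_irrefl _ h1

theorem cr_cr {q p u : E3} (hp : ⟪q, p⟫ = 0) (hq : ‖q‖ = 1) :
    ⟪q, cr (cr q p) u⟫ = - ⟪p, u⟫ := by
  have hn : q 0 * q 0 + q 1 * q 1 + q 2 * q 2 = 1 := by
    rw [← in3, real_inner_self_eq_norm_sq, hq]; norm_num
  rw [in3] at hp
  rw [in3, in3]
  simp only [cr0, cr1, cr2]
  linear_combination (u 0 * q 0 + u 1 * q 1 + u 2 * q 2) * hp -
    (p 0 * u 0 + p 1 * u 1 + p 2 * u 2) * hn

theorem cr_tan (q p : E3) : ⟪q, cr q p⟫ = 0 := by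
  rw [in3, cr0, cr1, cr2]; ring

theorem cr_ne {q p : E3} (hp : ⟪q, p⟫ = 0) (hq : ‖q‖ = 1) (hp0 : p ≠ 0) : cr q p ≠ 0 := by
  intro h0
  have h1 := cr_cr (u := p) hp hq
  rw [h0] at h1
  have h2 : cr 0 p = 0 := by refine e3ext ?_ ?_ ?_ <;> simp [cr0, cr1, cr2]
  rw [h2, inner_zero_right, real_inner_self_eq_norm_sq] at h1
  have h3 : ‖p‖ ^ 2 = 0 := by linarith
  exact hp0 (norm_eq_zero.1 (pow_eq_zero_iff (two_ne_zero)|>.1 h3))

/-- `a (ν(q,p), T u) = ⟪p, u⟫`. -/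
theorem Pt.nu_T (h : Pt f a b J T q) {p : E3} (hp : ⟪q, p⟫ = 0) (u : E3) :
    a (nu f a J T q p) (T u) = ⟪p, u⟫ := by
  have hd := h.dn_ne
  have key : FJ f J (T (cr q p)) (T u) = f (T (cr q p)) (T u) := by
    by_cases h0 : p = 0
    · have h2 : cr q p = 0 := by rw [h0]; refine e3ext ?_ ?_ ?_ <;> simp [cr0, cr1, cr2]
      rw [h2]; simp [FJ_apply]
    · exact FJ_plane h.hf h.J.sq ((h.plane (h.ne (cr_tan q p) (cr_ne hp h.hq h0))).1 u)
  rw [nu, map_smul, smul_apply, a_KJ h.ha h.P.ne, key, dn_eq h.hf h.hq h.Tq, cr_cr hp h.hq,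
    smul_eq_mul]
  field_simp

theorem Pt.nu_mem (h : Pt f a b J T q) {p p' : E3} (hp : ⟪q, p⟫ = 0)
    (hp0 : p ≠ 0) : ∃ s t : ℝ, nu f a J T q p' = s • nu f a J T q p + t • J (nu f a J T q p) := by
  obtain ⟨s, t, hst⟩ := (h.plane (h.ne (cr_tan q p) (cr_ne hp h.hq hp0))).1 (cr q p')
  refine ⟨s, -t, ?_⟩
  rw [nu, nu, hst, KJ_lin h.ha h.P.ne, KJ_J h.ha h.P.ne h.J.sq h.J.anti1, map_smul]
  module

theorem Pt.nu_nu (h : Pt f a b J T q) {p p' : E3} (hp : ⟪q, p⟫ = 0) :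
    a (nu f a J T q p) (nu f a J T q p') = 0 ∧ b (nu f a J T q p) (nu f a J T q p') = 0 := by
  by_cases h0 : p = 0
  · have h2 : nu f a J T q p = 0 := by
      have h3 : cr q p = 0 := by rw [h0]; refine e3ext ?_ ?_ ?_ <;> simp [cr0, cr1, cr2]
      have h4 : KJ f a J 0 = 0 := by
        have := KJ_lin (f := f) (J := J) h.ha h.P.ne 0 0 0 0
        simpa using this
      rw [nu, h3, map_zero, h4, smul_zero]
    rw [h2]; simp
  · obtain ⟨s, t, hst⟩ := h.nu_mem (p' := p') hp h0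
    rw [hst]
    simp only [map_add, map_smul, h.ha (nu f a J T q p), h.hb (nu f a J T q p),
      anti_diag h.ha h.J.sq h.J.anti1, anti_diag h.hb h.J.sq h.J.anti2, smul_zero, add_zero,
      and_self]

theorem nu_lin (ha : Alt a) (h0 : W a a ≠ 0) (s : ℝ) (p : E3) :
    nu f a J T q (s • p) = s • nu f a J T q p := by
  have h3 : cr q (s • p) = s • cr q p := by
    refine e3ext ?_ ?_ ?_ <;> simp [cr0, cr1, cr2] <;> ring
  have h4 := KJ_lin (f := f) (J := J) ha h0 s 0 (T (cr q p)) 0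
  rw [nu, nu, h3, map_smul]
  rw [zero_smul, zero_smul, add_zero, add_zero] at h4
  rw [h4, smul_comm]


/-- change of coordinates. -/
theorem nu_pull {A : E4 →L[ℝ] E4} (hA : Function.Surjective A) {f' a' : Bil} {J' : E4 →L[ℝ] E4}
    {T' : E3 →L[ℝ] E4} (ha : Alt a) (h0 : W a a ≠ 0) (ha' : Alt a') (h0' : W a' a' ≠ 0)
    (hf : ∀ u v, f' u v = f (A u) (A v)) (haa : ∀ u v, a' u v = a (A u) (A v))
    (hJ : ∀ u, A (J' u) = J (A u)) (hT : ∀ u, A (T' u) = T u) (p : E3) :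
    A (nu f' a' J' T' q p) = nu f a J T q p := by
  have hd : dn f' T' q = dn f T q := by
    simp only [dn, hf, hT]
  rw [nu, nu, map_smul, hd]
  congr 1
  refine a_inj ha h0 fun w => ?_
  obtain ⟨w', rfl⟩ := hA w
  rw [← haa, a_KJ ha' h0', a_KJ ha h0, FJ_apply, FJ_apply, hf, hf, hJ, hJ, hT]

end Nu

end

end Crest.Agent.R235.K12_417
end

-- ▼ part R235/K12Tuba_930

/-!
Row 235 (S0364), block K12 (helper417), leaf TUBA (helper930): the abstract tube theorem round an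
embedded sphere.

`tuba : TUBA M`
-/

set_option autoImplicit false
set_option maxSynthPendingDepth 3

open Set Function Filter
open scoped Manifold ContDiff Topology RealInnerProductSpace

universe u

namespace Crest.Agent.R235.K12Tuba_930

open Crest.Agent.R240 Crest.Agent.R240.Ch Crest.Agent.R235 Crest.Agent.R235.K12_417
  Crest.Agent.R235.K12Ext_168 Crest.Agent.R235.Pull_153

noncomputable section

/-! ### the constraints -/

/-- the constraint functions `|q|²`, `q · p`. -/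
def co (z : E6) : ℝ × ℝ := (⟪z.1, z.1⟫, ⟪z.1, z.2⟫)

lemma contDiff_co : ContDiff ℝ ∞ co :=
  (contDiff_fst.inner ℝ contDiff_fst).prodMk (contDiff_fst.inner ℝ contDiff_snd)

lemma fderiv_co (z U : E6) : fderiv ℝ co z U = (2 * ⟪z.1, U.1⟫, ⟪z.1, U.2⟫ + ⟪U.1, z.2⟫) := by
  have h1 : HasFDerivAt (fun z : E6 => z.1) (ContinuousLinearMap.fst ℝ E3 E3) z := hasFDerivAt_fst
  have h2 : HasFDerivAt (fun z : E6 => z.2) (ContinuousLinearMap.snd ℝ E3 E3) z := hasFDerivAt_snd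
  have h3 := (h1.inner ℝ h1).prodMk (h1.inner ℝ h2)
  have h4 : HasFDerivAt co _ z := h3
  rw [h4.fderiv]
  ext1
  · simp [real_inner_comm U.1 z.1]; ring
  · simp

lemma co_TS {r : ℝ} {z : E6} (hz : z ∈ TS r) : co z = (1, 0) := by
  obtain ⟨h1, h2, -⟩ := hz
  unfold co
  rw [real_inner_self_eq_norm_sq, h1, h2, one_pow]

lemma ne_of_TS {r : ℝ} {z : E6} (hz : z ∈ TS r) : z.1 ≠ 0 := (TS_subset_OS r hz).1

lemma norm_of_co {z : E6} (h : co z = (1, 0)) : ‖z.1‖ = 1 ∧ ⟪z.1, z.2⟫ = 0 := by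
  have h1 : ⟪z.1, z.1⟫ = (1 : ℝ) := congrArg Prod.fst h
  have h2 : ⟪z.1, z.2⟫ = (0 : ℝ) := congrArg Prod.snd h
  refine ⟨?_, h2⟩
  rw [real_inner_self_eq_norm_sq] at h1
  have h3 := norm_nonneg z.1
  nlinarith

section Man

variable {M : Type u} [TopologicalSpace M] [ChartedSpace E4 M] [IsManifold 𝓘(ℝ, E4) ∞ M]

/-- the extended map in the chart at `p`. -/
def Fx (Ps : E6 → M) (p : M) (z : E6) : E4 × (ℝ × ℝ) := (chartAt E4 p (Ps z), co z)

/-- `Ps` together with the constraints is immersive at `z`. -/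
def Good (Ps : E6 → M) (z : E6) : Prop := ∀ U : E6, Dm Ps z U = 0 → fderiv ℝ co z U = 0 → U = 0

variable {Ps : E6 → M}

lemma Fx_contDiffAt {z : E6} (h : ContMDiffAt 𝓘(ℝ, E6) 𝓘(ℝ, E4) ∞ Ps z) {p : M}
    (hp : Ps z ∈ (chartAt E4 p).source) : ContDiffAt ℝ ∞ (Fx Ps p) z :=
  (chart_comp le_rfl h hp).prodMk contDiff_co.contDiffAt

lemma fderiv_Fx {z : E6} (h : ContMDiffAt 𝓘(ℝ, E6) 𝓘(ℝ, E4) ∞ Ps z) {p : M}
    (hp : Ps z ∈ (chartAt E4 p).source) (U : E6) :
    fderiv ℝ (Fx Ps p) z U = (tcc (E := E4) (Ps z) p (Ps z) (Dm Ps z U), fderiv ℝ co z U) := by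
  have h1 : DifferentiableAt ℝ (fun z => chartAt E4 p (Ps z)) z :=
    (chart_comp le_rfl h hp).differentiableAt (by simp)
  have h2 : DifferentiableAt ℝ co z := contDiff_co.contDiffAt.differentiableAt (by simp)
  have h3 : HasFDerivAt (Fx Ps p) _ z := h1.hasFDerivAt.prodMk h2.hasFDerivAt
  rw [h3.fderiv, fderiv_chart (h.of_le (by simp)) hp]
  rfl

lemma good_iff {z : E6} (h : ContMDiffAt 𝓘(ℝ, E6) 𝓘(ℝ, E4) ∞ Ps z) {p : M}
    (hp : Ps z ∈ (chartAt E4 p).source) : Good Ps z ↔ Injective (fderiv ℝ (Fx Ps p) z) := by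
  rw [injective_iff_map_eq_zero]
  constructor
  · intro h1 U h0
    rw [fderiv_Fx h hp] at h0
    have h2 : tcc (E := E4) (Ps z) p (Ps z) (Dm Ps z U) = 0 := congrArg Prod.fst h0
    have h3 : fderiv ℝ co z U = 0 := congrArg Prod.snd h0
    refine h1 U ?_ h3
    have h4 := congrArg (tcc (E := E4) p (Ps z) (Ps z)) h2
    rwa [tcc_cancel' hp, map_zero] at h4
  · intro h1 U h2 h3
    refine h1 U ?_
    rw [fderiv_Fx h hp, h2, h3, map_zero]
    rfl

omit [IsManifold 𝓘(ℝ, E4) ∞ M] in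
lemma smooth_at (hs : ContMDiffOn 𝓘(ℝ, E6) 𝓘(ℝ, E4) ∞ Ps {z | z.1 ≠ 0}) {z : E6}
    (hz : z.1 ≠ 0) : ContMDiffAt 𝓘(ℝ, E6) 𝓘(ℝ, E4) ∞ Ps z :=
  hs.contMDiffAt ((isOpen_ne_fun continuous_fst continuous_const).mem_nhds hz)

lemma good_nhds (hs : ContMDiffOn 𝓘(ℝ, E6) 𝓘(ℝ, E4) ∞ Ps {z | z.1 ≠ 0}) {z : E6}
    (hz : z.1 ≠ 0) (hg : Good Ps z) : ∀ᶠ y in 𝓝 z, Good Ps y := by
  have h := smooth_at hs hz
  have hp := mem_chart_source E4 (Ps z)
  have h1 : ContinuousAt (fderiv ℝ (Fx Ps (Ps z))) z :=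
    ((Fx_contDiffAt h hp).fderiv_right (m := ∞) (by simp)).continuousAt
  have h2 : ∀ᶠ y in 𝓝 z, Injective (fderiv ℝ (Fx Ps (Ps z)) y) :=
    h1.eventually (ContinuousLinearMap.isOpen_injective.mem_nhds ((good_iff h hp).1 hg))
  have h3 : ∀ᶠ y in 𝓝 z, Ps y ∈ (chartAt E4 (Ps z)).source :=
    h.continuousAt.eventually ((chartAt E4 (Ps z)).open_source.mem_nhds hp)
  have h4 : ∀ᶠ y : E6 in 𝓝 z, y.1 ≠ 0 := continuousAt_fst.eventually_ne hz
  filter_upwards [h2, h3, h4] with y h2 h3 h4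
  exact (good_iff (smooth_at hs h4) h3).2 h2

lemma exists_equiv {z : E6} (h : ContMDiffAt 𝓘(ℝ, E6) 𝓘(ℝ, E4) ∞ Ps z) (hg : Good Ps z) :
    ∃ e : E6 ≃L[ℝ] E4 × (ℝ × ℝ), HasFDerivAt (Fx Ps (Ps z)) (e : E6 →L[ℝ] E4 × (ℝ × ℝ)) z := by
  have hp := mem_chart_source E4 (Ps z)
  have hi : Injective (fderiv ℝ (Fx Ps (Ps z)) z) := (good_iff h hp).1 hg
  have hd : Module.finrank ℝ E6 = Module.finrank ℝ (E4 × (ℝ × ℝ)) := by
    simp [Module.finrank_prod]
  let e0 : E6 ≃ₗ[ℝ] E4 × (ℝ × ℝ) :=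
    LinearEquiv.ofInjectiveOfFinrankEq (fderiv ℝ (Fx Ps (Ps z)) z : E6 →ₗ[ℝ] E4 × (ℝ × ℝ)) hi hd
  refine ⟨e0.toContinuousLinearEquiv, ?_⟩
  have h1 : ((e0.toContinuousLinearEquiv : E6 ≃L[ℝ] E4 × (ℝ × ℝ)) : E6 →L[ℝ] E4 × (ℝ × ℝ)) =
      fderiv ℝ (Fx Ps (Ps z)) z := by
    exact ContinuousLinearMap.ext fun U => rfl
  rw [h1]
  exact ((Fx_contDiffAt h hp).differentiableAt (by simp)).hasFDerivAt

/-- local injectivity. -/
lemma loc_inj {z : E6} (h : ContMDiffAt 𝓘(ℝ, E6) 𝓘(ℝ, E4) ∞ Ps z) (hg : Good Ps z) :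
    ∃ O : Set E6, O ∈ 𝓝 z ∧ ∀ y ∈ O, ∀ y' ∈ O, Ps y = Ps y' → co y = co y' → y = y' := by
  obtain ⟨e, he⟩ := exists_equiv h hg
  have hF := Fx_contDiffAt h (mem_chart_source E4 (Ps z))
  have hinf : (∞ : WithTop ℕ∞) ≠ 0 := by simp
  set Φ := hF.toOpenPartialHomeomorph (Fx Ps (Ps z)) he hinf with hΦ
  refine ⟨Φ.source, Φ.open_source.mem_nhds (hF.mem_toOpenPartialHomeomorph_source he hinf), ?_⟩
  intro y hy y' hy' h1 h2
  refine Φ.injOn hy hy' ?_
  show Fx Ps (Ps z) y = Fx Ps (Ps z) y'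
  unfold Fx
  rw [h1, h2]

/-- local sections. -/
lemma loc_section {z : E6} (h : ContMDiffAt 𝓘(ℝ, E6) 𝓘(ℝ, E4) ∞ Ps z) (hg : Good Ps z) :
    ∃ s : M → E6, ContMDiffAt 𝓘(ℝ, E4) 𝓘(ℝ, E6) ∞ s (Ps z) ∧ s (Ps z) = z ∧
      ∀ᶠ x in 𝓝 (Ps z), Ps (s x) = x ∧ co (s x) = co z := by
  obtain ⟨e, he⟩ := exists_equiv h hg
  have hp := mem_chart_source E4 (Ps z)
  have hF := Fx_contDiffAt h hp
  have hinf : (∞ : WithTop ℕ∞) ≠ 0 := by simp
  set Φ := hF.toOpenPartialHomeomorph (Fx Ps (Ps z)) he hinf with hΦ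
  have hsrc : z ∈ Φ.source := hF.mem_toOpenPartialHomeomorph_source he hinf
  have hval : Φ z = (chartAt E4 (Ps z) (Ps z), co z) := rfl
  have hsm : ContDiffAt ℝ ∞ Φ.symm (chartAt E4 (Ps z) (Ps z), co z) :=
    hF.to_localInverse he hinf
  have hs0 : Φ.symm (chartAt E4 (Ps z) (Ps z), co z) = z := by
    rw [← hval]; exact Φ.left_inv hsrc
  have ht : (chartAt E4 (Ps z) (Ps z), co z) ∈ Φ.target := by
    rw [← hval]; exact Φ.map_source hsrc
  have hc : ContMDiffAt 𝓘(ℝ, E4) 𝓘(ℝ, E4 × (ℝ × ℝ)) ∞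
      (fun x : M => (chartAt E4 (Ps z) x, co z)) (Ps z) := by
    have h1 : ContMDiffAt 𝓘(ℝ, E4) 𝓘(ℝ, E4) ∞ (chartAt E4 (Ps z)) (Ps z) :=
      (contMDiffOn_chart (I := 𝓘(ℝ, E4)) (x := Ps z) (n := ∞)).contMDiffAt
        ((chartAt E4 (Ps z)).open_source.mem_nhds hp)
    exact h1.prodMk_space contMDiffAt_const
  have hS : ContMDiffAt 𝓘(ℝ, E4) 𝓘(ℝ, E6) ∞
      (fun x : M => Φ.symm (chartAt E4 (Ps z) x, co z)) (Ps z) :=
    ContMDiffAt.comp (Ps z) (g := Φ.symm) (f := fun x : M => (chartAt E4 (Ps z) x, co z))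
      hsm.contMDiffAt hc
  refine ⟨fun x => Φ.symm (chartAt E4 (Ps z) x, co z), hS, hs0, ?_⟩
  have e1 : ∀ᶠ x in 𝓝 (Ps z), (chartAt E4 (Ps z) x, co z) ∈ Φ.target :=
    hc.continuousAt.eventually (Φ.open_target.mem_nhds ht)
  have e2 : ∀ᶠ x in 𝓝 (Ps z), x ∈ (chartAt E4 (Ps z)).source :=
    (chartAt E4 (Ps z)).open_source.mem_nhds hp
  have e3 : ∀ᶠ x in 𝓝 (Ps z), Ps (Φ.symm (chartAt E4 (Ps z) x, co z)) ∈
      (chartAt E4 (Ps z)).source := by
    have h1 : ContinuousAt (fun x : M => Ps (Φ.symm (chartAt E4 (Ps z) x, co z))) (Ps z) := by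
      refine ContinuousAt.comp (g := Ps) ?_ hS.continuousAt
      show ContinuousAt Ps (Φ.symm (chartAt E4 (Ps z) (Ps z), co z))
      rw [hs0]; exact h.continuousAt
    refine h1.eventually ((chartAt E4 (Ps z)).open_source.mem_nhds ?_)
    show Ps (Φ.symm (chartAt E4 (Ps z) (Ps z), co z)) ∈ _
    rw [hs0]; exact hp
  filter_upwards [e1, e2, e3] with x h1 h2 h3
  have h4 : Fx Ps (Ps z) (Φ.symm (chartAt E4 (Ps z) x, co z)) = (chartAt E4 (Ps z) x, co z) :=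
    Φ.right_inv h1
  have h5 : chartAt E4 (Ps z) (Ps (Φ.symm (chartAt E4 (Ps z) x, co z))) = chartAt E4 (Ps z) x :=
    congrArg Prod.fst h4
  exact ⟨(chartAt E4 (Ps z)).injOn h3 h2 h5, congrArg Prod.snd h4⟩

end Man

/-! ### uniformity along the sphere -/

lemma tube_of_nhds {P : E6 → Prop} (h : ∀ q : E3, ‖q‖ = 1 → ∀ᶠ z in 𝓝 ((q, 0) : E6), P z) :
    ∃ r : ℝ, 0 < r ∧ ∀ z ∈ TS r, P z := by
  have h1 : ∀ᶠ v in 𝓝 (0 : E3), ∀ y ∈ Metric.sphere (0 : E3) 1, P (y, v) := by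
    refine (isCompact_sphere (0 : E3) 1).eventually_forall_of_forall_eventually fun y hy => ?_
    have hsw : Tendsto (fun z : E3 × E3 => (z.2, z.1)) (𝓝 (0, y)) (𝓝 (y, 0)) :=
      (continuous_snd.prodMk continuous_fst).tendsto' _ _ rfl
    exact hsw.eventually (h y (by simpa using hy))
  obtain ⟨r, hr, hr'⟩ := Metric.eventually_nhds_iff.1 h1
  refine ⟨r, hr, fun z hz => ?_⟩
  exact hr' (y := z.2) (by rw [dist_zero_right]; exact hz.2.2) z.1 (by simpa using hz.1)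

lemma tube_of_nhds2 {P : E6 → E6 → Prop}
    (h : ∀ q q' : E3, ‖q‖ = 1 → ‖q'‖ = 1 → ∀ᶠ z in 𝓝 (((q, 0), (q', 0)) : E6 × E6), P z.1 z.2) :
    ∃ r : ℝ, 0 < r ∧ ∀ z ∈ TS r, ∀ z' ∈ TS r, P z z' := by
  have h1 : ∀ᶠ v in 𝓝 ((0, 0) : E3 × E3), ∀ y ∈ Metric.sphere (0 : E3) 1 ×ˢ
      Metric.sphere (0 : E3) 1, P (y.1, v.1) (y.2, v.2) := by
    refine ((isCompact_sphere (0 : E3) 1).prod
      (isCompact_sphere (0 : E3) 1)).eventually_forall_of_forall_eventually fun y hy => ?_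
    have hsw : Tendsto (fun z : (E3 × E3) × (E3 × E3) => (((z.2.1, z.1.1), (z.2.2, z.1.2)) : E6 × E6))
        (𝓝 ((0, 0), y)) (𝓝 ((y.1, 0), (y.2, 0))) := by
      have : Continuous fun z : (E3 × E3) × (E3 × E3) =>
          (((z.2.1, z.1.1), (z.2.2, z.1.2)) : E6 × E6) := by fun_prop
      exact this.tendsto' _ _ rfl
    exact hsw.eventually (h y.1 y.2 (by simpa using hy.1) (by simpa using hy.2))
  obtain ⟨r, hr, hr'⟩ := Metric.eventually_nhds_iff.1 h1
  refine ⟨r, hr, fun z hz z' hz' => ?_⟩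
  refine hr' (y := (z.2, z'.2)) ?_ (z.1, z'.1) ⟨by simpa using hz.1, by simpa using hz'.1⟩
  rw [Prod.dist_eq]
  simp only [dist_zero_right]
  exact max_lt hz.2.2 hz'.2.2

/-! ### the theorem -/

variable (M : Type u) [TopologicalSpace M] [T2Space M] [CompactSpace M]
  [ChartedSpace E4 M] [IsManifold 𝓘(ℝ, E4) ∞ M]

/-- LEAF TUBA. -/
theorem tuba : TUBA M := by
  classical
  intro σ Ps hσ hs hf hz hi O hO hσO
  have hne : ∀ q : E3, ‖q‖ = 1 → ((q, 0) : E6).1 ≠ 0 := by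
    intro q hq h
    have h1 : q = 0 := h
    rw [h1, norm_zero] at hq
    exact zero_ne_one hq
  have hcont : ∀ q : E3, ‖q‖ = 1 → ContinuousAt Ps ((q, 0) : E6) := fun q hq =>
    (smooth_at hs (hne q hq)).continuousAt
  have hgood : ∀ q : E3, ‖q‖ = 1 → Good Ps ((q, 0) : E6) := by
    rintro q hq ⟨u, v⟩ h1 h2
    rw [fderiv_co, Prod.mk_eq_zero] at h2
    obtain ⟨h3, h4⟩ := h2
    simp only [inner_zero_right, add_zero] at h3 h4
    have h5 : ⟪q, u⟫ = (0 : ℝ) := by linarith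
    obtain ⟨h6, h7⟩ := hi q u v hq h5 h4 h1
    rw [h6, h7]; rfl
  obtain ⟨r1, hr1, h1⟩ := tube_of_nhds (P := Good Ps)
    fun q hq => good_nhds hs (hne q hq) (hgood q hq)
  obtain ⟨r2, hr2, h2⟩ := tube_of_nhds (P := fun z => Ps z ∈ O) fun q hq => by
    refine (hcont q hq).eventually (hO.mem_nhds ?_)
    rw [hz q hq]
    exact hσO ⟨q, by simpa using hq, rfl⟩
  obtain ⟨r3, hr3, h3⟩ := tube_of_nhds2 (P := fun z z' => co z = (1, 0) → co z' = (1, 0) →
      Ps z = Ps z' → z = z') fun q q' hq hq' => by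
    by_cases hqq : q = q'
    · subst hqq
      obtain ⟨N, hN, hN'⟩ := loc_inj (smooth_at hs (hne q hq)) (hgood q hq)
      filter_upwards [prod_mem_nhds hN hN] with z hzN h4 h5 h6
      exact hN' z.1 hzN.1 z.2 hzN.2 h6 (by rw [h4, h5])
    · have hne' : σ q ≠ σ q' := fun h => hqq (hσ.inj q q' hq hq' h)
      have hop : IsOpen {q : M × M | q.1 ≠ q.2} := isClosed_diagonal.isOpen_compl
      have hc : ContinuousAt (fun z : E6 × E6 => (Ps z.1, Ps z.2)) ((q, 0), (q', 0)) := by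
        refine ContinuousAt.prodMk ?_ ?_
        · exact ContinuousAt.comp (g := Ps) (hcont q hq) continuousAt_fst
        · exact ContinuousAt.comp (g := Ps) (hcont q' hq') continuousAt_snd
      have hmem : (Ps ((q, 0) : E6), Ps ((q', 0) : E6)) ∈ {q : M × M | q.1 ≠ q.2} := by
        rw [hz q hq, hz q' hq']; exact hne'
      filter_upwards [hc.eventually (hop.mem_nhds hmem)] with z h4 _ _ h5
      exact absurd h5 h4
  set r := min r1 (min r2 r3) with hr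
  have hr0 : 0 < r := lt_min hr1 (lt_min hr2 hr3)
  have hsub : ∀ {ρ : ℝ}, r ≤ ρ → TS r ⊆ TS ρ := fun h z hz => ⟨hz.1, hz.2.1, hz.2.2.trans_le h⟩
  have g1 : ∀ z ∈ TS r, Good Ps z := fun z hz => h1 z (hsub (min_le_left _ _) hz)
  have g2 : ∀ z ∈ TS r, Ps z ∈ O := fun z hz =>
    h2 z (hsub ((min_le_right _ _).trans (min_le_left _ _)) hz)
  have g3 : ∀ z ∈ TS r, ∀ z' ∈ TS r, Ps z = Ps z' → z = z' := fun z hz z' hz' h =>
    h3 z (hsub ((min_le_right _ _).trans (min_le_right _ _)) hz) z'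
      (hsub ((min_le_right _ _).trans (min_le_right _ _)) hz') (co_TS hz) (co_TS hz') h
  let G : M → E6 := fun x => if h : ∃ z ∈ TS r, Ps z = x then h.choose else 0
  have hG : ∀ z ∈ TS r, G (Ps z) = z := by
    intro z hz
    have hex : ∃ z' ∈ TS r, Ps z' = Ps z := ⟨z, hz, rfl⟩
    have h4 : G (Ps z) = hex.choose := dif_pos hex
    rw [h4]
    exact g3 _ hex.choose_spec.1 z hz hex.choose_spec.2
  -- the local sections
  have key : ∀ z ∈ TS r, ∃ s : M → E6, ContMDiffAt 𝓘(ℝ, E4) 𝓘(ℝ, E6) ∞ s (Ps z) ∧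
      ∀ᶠ x in 𝓝 (Ps z), s x ∈ TS r ∧ Ps (s x) = x := by
    intro z hzr
    obtain ⟨s, hs1, hs2, hs3⟩ := loc_section (smooth_at hs (ne_of_TS hzr)) (g1 z hzr)
    refine ⟨s, hs1, ?_⟩
    have h4 : ∀ᶠ x in 𝓝 (Ps z), ‖(s x).2‖ < r := by
      have h5 : ContinuousAt (fun x => ‖(s x).2‖) (Ps z) := hs1.continuousAt.snd.norm
      refine h5.eventually_lt_const ?_
      show ‖(s (Ps z)).2‖ < r
      rw [hs2]; exact hzr.2.2
    filter_upwards [hs3, h4] with x h5 h6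
    have h7 := norm_of_co (h5.2.trans (co_TS hzr))
    exact ⟨⟨h7.1, h7.2, h6⟩, h5.1⟩
  refine ⟨r, G, Ps '' TS r, ⟨hr0, ?_, ?_, hz, ?_, ?_, ?_, ?_, ?_, ?_⟩, ?_⟩
  · exact hs.mono fun z hz => hz.1
  · exact fun z hz => hf z hz.1
  · rw [isOpen_iff_mem_nhds]
    rintro _ ⟨z, hzr, rfl⟩
    obtain ⟨s, -, hs2⟩ := key z hzr
    filter_upwards [hs2] with x hx
    exact ⟨s x, hx.1, hx.2⟩
  · intro z hzr
    exact ⟨Pi z, Pi_mem_TS hzr, hf z hzr.1⟩
  · rintro _ ⟨z, hzr, rfl⟩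
    obtain ⟨s, hs1, hs2⟩ := key z hzr
    refine (hs1.congr_of_eventuallyEq ?_).contMDiffWithinAt
    filter_upwards [hs2] with x hx
    have h4 := hG (s x) hx.1
    rwa [hx.2] at h4
  · rintro _ ⟨z, hzr, rfl⟩
    rw [hG z hzr]; exact hzr
  · rintro _ ⟨z, hzr, rfl⟩
    rw [hG z hzr]
  · intro z hzr
    rw [← hf z hzr.1]
    exact hG (Pi z) (Pi_mem_TS hzr)
  · rintro _ ⟨z, hzr, rfl⟩
    exact g2 z hzr

end

end Crest.Agent.R235.K12Tuba_930
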