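import Crest.Agent.R235.K12NuB_417_Mg
import Crest.Agent.R235.K12Tuba_930_Mg
import Crest.Agent.R235.FdsE_143
import Mathlib
import Crest.Agent.R235.FamDefs_307
import Crest.Agent.R235.TorF_692
import Crest.Agent.R235.FamW_307
import Crest.Agent.R235.FamFour_504_Mg
import Crest.Agent.R235.FamEmb_192
import Crest.Agent.R235.SWGeo_659
import Crest.Agent.R235.SWJDefs_53
import Crest.Agent.R235.Dens_433

-- ▼ part R235/K12Top_417
section

/-!
Row 235 (S0364), block K12 (helper417): **`K12T`, without hypotheses.**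
-/

set_option autoImplicit false
set_option maxSynthPendingDepth 3

open scoped Manifold ContDiff

universe u

namespace Crest.Agent.R235.K12_417

open Crest.Agent.R240 Crest.Agent.R240.Ch Crest.Agent.R235

/-- **Node K12T of row 235.** -/
theorem k12t : K12T.{u} :=
  K12OneA_776.k12t_of (K12Fgl_417.fgl K12Radf_843.radf) fun M _ _ _ _ _ => tube (M := M)

end Crest.Agent.R235.K12_417
end

-- ▼ part R235/FdsAsm_143
section

/-!
Row 235 (S0364), FAM-FDS (task 421), assembly (helper143): FDS2, FDS4, FDH4 from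

* `GAUSS2`, `GAUSS4` (355 / 895);
* `EMB2`, `EMB4` : the numbers of the bundle `A (range P)` are those of `P` (192 / 842);
* `Out` : the output of (D) (778, `fds_d`, `fdh_d`).
-/

set_option autoImplicit false
set_option maxSynthPendingDepth 3
set_option linter.unusedSectionVars false
set_option linter.unusedVariables false

open Set Filter Module MeasureTheory Function
open scoped ContDiff Topology InnerProductSpace

namespace Crest.Agent.R235.FdsAsm_143

open FamDefs_307 FdsF_143 FdsE_143 DgInv_778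

noncomputable section

/-- the numbers of `A (range P)`, constant `A`, `b = 2`. -/
def EMB2 : Prop :=
  ∀ (H Y : Type) [NormedAddCommGroup H] [InnerProductSpace ℂ H] [FiniteDimensional ℂ H]
    [NormedAddCommGroup Y] [InnerProductSpace ℂ Y] [FiniteDimensional ℂ Y]
    (m : ℕ) (P : (Fin 2 → ℝ) → H →L[ℂ] H) (A : H →L[ℂ] Y), PPer 2 m P →
    (∀ h ψ, P h ψ = ψ → A ψ = 0 → ψ = 0) → ch2 tr (fun h => proj A (P h)) = ch2 tr P

/-- the numbers of `A (range P)`, constant `A`, `b = 4`. -/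
def EMB4 : Prop :=
  ∀ (H Y : Type) [NormedAddCommGroup H] [InnerProductSpace ℂ H] [FiniteDimensional ℂ H]
    [NormedAddCommGroup Y] [InnerProductSpace ℂ Y] [FiniteDimensional ℂ Y]
    (m : ℕ) (P : (Fin 4 → ℝ) → H →L[ℂ] H) (A : H →L[ℂ] Y), PPer 4 m P →
    (∀ h ψ, P h ψ = ψ → A ψ = 0 → ψ = 0) → ch4 tr (fun h => proj A (P h)) = ch4 tr P ∧
      chsq tr (fun h => proj A (P h)) = chsq tr P

/-- the output of (D): `rel` is `= 0` or `≠ 0`. -/
def Out {b : ℕ} (m M : ℕ) {H : Type} [NormedAddCommGroup H] [InnerProductSpace ℂ H]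
    [FiniteDimensional ℂ H] (P : (Fin b → ℝ) → H →L[ℂ] H) (rel : ℝ → Prop) : Prop :=
  ∃ (A : H →L[ℂ] EuclideanSpace ℂ (Fin M)) (e : (Fin b → ℝ) → EuclideanSpace ℂ (Fin m) →L[ℂ] H),
    (∀ h ψ, P h ψ = ψ → A ψ = 0 → ψ = 0) ∧ ContDiff ℝ ∞ e ∧ (∀ h z, P h (e h z) = e h z) ∧
    (∀ h, ‖h‖ ≤ 2 → Injective (e h)) ∧
    ∀ e' : EuclideanSpace ℂ (Fin M) ≃L[ℝ] (Fin b → ℝ) × EuclideanSpace ℂ (Fin m),
    ∃ (i1 : MeasurableSpace (EuclideanSpace ℂ (Fin m)))
      (i2 : @BorelSpace (EuclideanSpace ℂ (Fin m)) _ i1)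
      (μ : @Measure (EuclideanSpace ℂ (Fin m)) i1) (i3 : μ.IsAddHaarMeasure),
    ∃ δ : ℝ, 0 < δ ∧ ∀ u : ℝ → ℝ, ContDiff ℝ ∞ u → (∀ r, 0 ≤ u r) → 0 < u 0 →
      (∀ r, δ ≤ r → u r = 0) →
      rel (∫ θ : Fin b → ℝ, rho θ * (∫ z, u (‖A (e θ z)‖ ^ 2) *
        LinearMap.det ((e' : EuclideanSpace ℂ (Fin M) →L[ℝ]
          (Fin b → ℝ) × EuclideanSpace ℂ (Fin m)) ∘L
          tot (A ∘L e θ) (fun j => pdθ j (fun θ => A ∘L e θ) θ) z :
            ((Fin b → ℝ) × EuclideanSpace ℂ (Fin m)) →ₗ[ℝ]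
              (Fin b → ℝ) × EuclideanSpace ℂ (Fin m)) ∂μ))

lemma exists_u {δ : ℝ} (hδ : 0 < δ) : ∃ u : ℝ → ℝ, ContDiff ℝ ∞ u ∧ (∀ r, 0 ≤ u r) ∧ 0 < u 0 ∧
    ∀ r, δ ≤ r → u r = 0 := by
  refine ⟨fun r => Real.smoothTransition (1 - r / δ), ?_, fun r => Real.smoothTransition.nonneg _,
    ?_, fun r hr => ?_⟩
  · exact Real.smoothTransition.contDiff.comp (contDiff_const.sub (contDiff_id.div_const δ))
  · show 0 < Real.smoothTransition (1 - 0 / δ)
    rw [zero_div, sub_zero, Real.smoothTransition.one_of_one_le le_rfl]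
    exact one_pos
  · refine Real.smoothTransition.zero_of_nonpos ?_
    rw [sub_nonpos, le_div_iff₀ hδ, one_mul]
    exact hr

lemma exists_e' {b m M : ℕ} (h : b + 2 * m = 2 * M) :
    Nonempty (EuclideanSpace ℂ (Fin M) ≃L[ℝ] (Fin b → ℝ) × EuclideanSpace ℂ (Fin m)) := by
  have : FiniteDimensional ℝ (EuclideanSpace ℂ (Fin M)) := FiniteDimensional.complexToReal _
  have : FiniteDimensional ℝ (EuclideanSpace ℂ (Fin m)) := FiniteDimensional.complexToReal _
  refine FiniteDimensional.nonempty_continuousLinearEquiv_of_finrank_eq ?_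
  rw [finrank_real_of_complex, finrank_prod, finrank_real_of_complex, finrank_euclideanSpace_fin,
    finrank_euclideanSpace_fin, finrank_fin_fun]
  omega

section

variable {H : Type} [NormedAddCommGroup H] [InnerProductSpace ℂ H] [FiniteDimensional ℂ H]
  {m M : ℕ}

theorem out4 (hG : GAUSS4) (hE : EMB4) {P : (Fin 4 → ℝ) → H →L[ℂ] H} (hP : PPer 4 m P)
    (hdim : 4 + 2 * m = 2 * M) {rel : ℝ → Prop} (hO : Out m M P rel) :
    ∃ x : ℝ, rel x ∧ ∃ c : ℂ, c ≠ 0 ∧ (x : ℂ) = c * (ch4 tr P + chsq tr P) := by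
  obtain ⟨A, e, hA, he, hPe, hei, h1⟩ := hO
  obtain ⟨e'⟩ := exists_e' (b := 4) hdim
  obtain ⟨i1, i2, μ, i3, δ, hδ, h2⟩ := h1 e'
  obtain ⟨u, u1, u2, u3, u4⟩ := exists_u hδ
  obtain ⟨c, hc, h3⟩ := val4 (Z := EuclideanSpace ℂ (Fin m)) (Y := EuclideanSpace ℂ (Fin M)) hG hP A
    hA finrank_euclideanSpace_fin (by rw [finrank_euclideanSpace_fin]; omega) e he hPe hei μ e'
  obtain ⟨a, ha, h4⟩ := h3 u u1.continuous u2 u3 δ u4
  obtain ⟨h5, h6⟩ := hE H _ m P A hP hA
  refine ⟨_, h2 u u1 u2 u3 u4, a * c, mul_ne_zero (by exact_mod_cast ha.ne') hc, ?_⟩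
  rw [← h5, ← h6, mul_assoc]
  exact h4

theorem out2 (hG : GAUSS2) (hE : EMB2) {P : (Fin 2 → ℝ) → H →L[ℂ] H} (hP : PPer 2 m P)
    (hdim : 2 + 2 * m = 2 * M) {rel : ℝ → Prop} (hO : Out m M P rel) :
    ∃ x : ℝ, rel x ∧ ∃ c : ℂ, c ≠ 0 ∧ (x : ℂ) = c * ch2 tr P := by
  obtain ⟨A, e, hA, he, hPe, hei, h1⟩ := hO
  obtain ⟨e'⟩ := exists_e' (b := 2) hdim
  obtain ⟨i1, i2, μ, i3, δ, hδ, h2⟩ := h1 e'
  obtain ⟨u, u1, u2, u3, u4⟩ := exists_u hδ
  obtain ⟨c, hc, h3⟩ := val2 (Z := EuclideanSpace ℂ (Fin m)) (Y := EuclideanSpace ℂ (Fin M)) hG hP A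
    hA finrank_euclideanSpace_fin (by rw [finrank_euclideanSpace_fin]; omega) e he hPe hei μ e'
  obtain ⟨a, ha, h4⟩ := h3 u u1.continuous u2 u3 δ u4
  have h5 := hE H _ m P A hP hA
  refine ⟨_, h2 u u1 u2 u3 u4, a * c, mul_ne_zero (by exact_mod_cast ha.ne') hc, ?_⟩
  rw [← h5, mul_assoc]
  exact h4

end

/-- (D), the system without values on the ray. -/
def DN (b : ℕ) : Prop :=
  ∀ (T H YR YC : Type) [NormedAddCommGroup T] [NormedSpace ℝ T] [FiniteDimensional ℝ T]
    [NormedAddCommGroup H] [InnerProductSpace ℂ H] [FiniteDimensional ℂ H]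
    [NormedAddCommGroup YR] [NormedSpace ℝ YR] [FiniteDimensional ℝ YR]
    [NormedAddCommGroup YC] [NormedSpace ℂ YC] [FiniteDimensional ℂ YC]
    (m : ℕ) (P : (Fin b → ℝ) → H →L[ℂ] H) (L : T ≃L[ℝ] YR)
    (fR : T × (Fin b → ℝ) × H → YR) (fC : T × (Fin b → ℝ) × H → YC) (v : YC) (R : ℝ),
    FSys b m P L fR fC v R → NoRay P fR fC v → Out m (finrank ℂ YC) P (fun x => x = 0)


theorem fds2_of (hG : GAUSS2) (hE : EMB2) (hD : DN 2) : FDS2 := by
  intro T H YR YC _ _ _ _ _ _ _ _ _ _ _ _ m P L fR fC v R hS hN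
  obtain ⟨x, hx, c, hc, h⟩ := out2 hG hE hS.proj hS.hdim (hD T H YR YC m P L fR fC v R hS hN)
  rw [hx, Complex.ofReal_zero] at h
  exact (mul_eq_zero.1 h.symm).resolve_left hc

theorem fds4_of (hG : GAUSS4) (hE : EMB4) (hD : DN 4) : FDS4 := by
  intro T H YR YC _ _ _ _ _ _ _ _ _ _ _ _ m P L fR fC v R hS hN
  obtain ⟨x, hx, c, hc, h⟩ := out4 hG hE hS.proj hS.hdim (hD T H YR YC m P L fR fC v R hS hN)
  rw [hx, Complex.ofReal_zero] at h
  exact (mul_eq_zero.1 h.symm).resolve_left hc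


end

end Crest.Agent.R235.FdsAsm_143
end

-- ▼ part R235/FamGaussA_355
section

/-!
# Row 235, package FAM, block B (GAUSS), part 1 (helper355): complex Gaussian moments

`ι → ℂ` with Lebesgue measure.

* `mom1` : `∫ conj w ^ p * w ^ q * exp (-‖w‖²) = δ_pq π p!`;
* `mom4` : fourth moments; `mom_one`, `mom_two` : `∫ (w*Cw) e = π^m tr C`,
  `∫ (w*Cw)(w*Dw) e = π^m (tr C tr D + tr (C D))`;
* `gauss_one`, `gauss_two` : the same for the weight `exp (-‖B z‖²)`.
-/

set_option autoImplicit false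

open MeasureTheory Matrix Complex
open scoped ComplexConjugate Nat

namespace Crest.Agent.R235.FamGaussA_355

noncomputable section

/-- the weight on `ℂ`. -/
def ew (w : ℂ) : ℝ := Real.exp (-‖w‖ ^ 2)

lemma integral_norm_pow (n : ℕ) :
    ∫ w : ℂ, ‖w‖ ^ (2 * n) * ew w = Real.pi * n ! := by
  have h := Complex.integral_rpow_mul_exp_neg_rpow (p := 2) (q := (2 * n : ℕ)) (by norm_num)
    (by have : (0 : ℝ) ≤ ((2 * n : ℕ) : ℝ) := Nat.cast_nonneg _
        linarith)
  have h2 : ∀ w : ℂ, ‖w‖ ^ ((2 * n : ℕ) : ℝ) * Real.exp (-‖w‖ ^ (2 : ℝ)) = ‖w‖ ^ (2 * n) * ew w := by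
    intro w
    rw [Real.rpow_natCast, ew]
    norm_num
  simp_rw [h2] at h
  rw [h]
  have h3 : (((2 * n : ℕ) : ℝ) + 2) / 2 = (n : ℝ) + 1 := by push_cast; ring
  rw [h3, Real.Gamma_nat_eq_factorial]
  ring

lemma integrable_norm_pow (n : ℕ) : Integrable fun w : ℂ => ‖w‖ ^ (2 * n) * ew w := by
  by_contra h
  have h1 := integral_norm_pow n
  rw [integral_undef h] at h1
  have : (0 : ℝ) < Real.pi * n ! := by positivity
  linarith

lemma ew_pos (w : ℂ) : 0 < ew w := Real.exp_pos _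

lemma continuous_ew : Continuous ew := by
  unfold ew
  fun_prop

lemma integrable_mom (p q : ℕ) :
    Integrable fun w : ℂ => conj w ^ p * w ^ q * (ew w : ℂ) := by
  have h1 : Integrable fun w : ℂ => ‖w‖ ^ (2 * 0) * ew w + ‖w‖ ^ (2 * (p + q)) * ew w :=
    (integrable_norm_pow 0).add (integrable_norm_pow (p + q))
  refine h1.mono' ?_ (Filter.Eventually.of_forall fun w => ?_)
  · exact Continuous.aestronglyMeasurable
      (((Complex.continuous_conj.pow p).mul (continuous_id.pow q)).mul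
        (Complex.continuous_ofReal.comp continuous_ew))
  · rw [norm_mul, norm_mul, norm_pow, norm_pow, Complex.norm_conj, Complex.norm_real,
      Real.norm_of_nonneg (ew_pos w).le, ← pow_add, ← add_mul]
    refine mul_le_mul_of_nonneg_right ?_ (ew_pos w).le
    have h2 : ‖w‖ ^ (p + q) ≤ 1 + ‖w‖ ^ (2 * (p + q)) := by
      rw [mul_comm 2, pow_mul]
      nlinarith [sq_nonneg (‖w‖ ^ (p + q) - 1), pow_nonneg (norm_nonneg w) (p + q)]
    simpa using h2

lemma mom1 (p q : ℕ) :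
    ∫ w : ℂ, conj w ^ p * w ^ q * (ew w : ℂ) = if p = q then ((Real.pi * p ! : ℝ) : ℂ) else 0 := by
  split_ifs with h
  · subst h
    have h1 : ∀ w : ℂ, conj w ^ p * w ^ p * (ew w : ℂ) = ((‖w‖ ^ (2 * p) * ew w : ℝ) : ℂ) := by
      intro w
      rw [← mul_pow, ← Complex.normSq_eq_conj_mul_self, Complex.normSq_eq_norm_sq]
      push_cast
      rw [← pow_mul]
    simp_rw [h1]
    rw [integral_complex_ofReal, integral_norm_pow]
  · -- rotation
    have hrot : ∀ u : Circle, ∫ w : ℂ, conj w ^ p * w ^ q * (ew w : ℂ) =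
        (conj (u : ℂ) ^ p * (u : ℂ) ^ q) * ∫ w : ℂ, conj w ^ p * w ^ q * (ew w : ℂ) := by
      intro u
      have h1 := (rotation u).measurePreserving.integral_comp
        (rotation u).toHomeomorph.measurableEmbedding
        (fun w : ℂ => conj w ^ p * w ^ q * (ew w : ℂ))
      calc ∫ w : ℂ, conj w ^ p * w ^ q * (ew w : ℂ)
          = ∫ w : ℂ, conj (rotation u w) ^ p * (rotation u w) ^ q * (ew (rotation u w) : ℂ) :=
            h1.symm
        _ = ∫ w : ℂ, (conj (u : ℂ) ^ p * (u : ℂ) ^ q) * (conj w ^ p * w ^ q * (ew w : ℂ)) := by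
            refine integral_congr_ae (Filter.Eventually.of_forall fun w => ?_)
            simp only [rotation_apply, map_mul, mul_pow, ew, norm_mul, Circle.norm_coe, one_mul]
            ring
        _ = _ := integral_const_mul _ _
    set I0 := ∫ w : ℂ, conj w ^ p * w ^ q * (ew w : ℂ) with hI0
    -- a rotation for which the factor is not one
    obtain ⟨θ, hθ⟩ : ∃ θ : ℝ, Complex.exp (θ * I) ^ q ≠ Complex.exp (θ * I) ^ p := by
      refine ⟨1, fun hc => ?_⟩
      rw [← Complex.exp_nat_mul, ← Complex.exp_nat_mul, Complex.exp_eq_exp_iff_exists_int] at hc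
      obtain ⟨n, hn⟩ := hc
      have h2 : ((q : ℂ) - p) = 2 * Real.pi * n := by
        have h3 : ((q : ℂ) - p) * I = (2 * Real.pi * n) * I := by
          push_cast at hn
          linear_combination hn
        exact mul_right_cancel₀ I_ne_zero h3
      have h4 : ((q : ℝ) - p) = 2 * Real.pi * n := by exact_mod_cast h2
      have h5 : n ≠ 0 := by
        rintro rfl
        apply h
        have : (q : ℝ) = p := by push_cast at h4; linarith
        exact_mod_cast this.symm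
      have h6 : Real.pi = (((q : ℤ) - p : ℤ) : ℝ) / ((2 * n : ℤ) : ℝ) := by
        have : ((2 * n : ℤ) : ℝ) ≠ 0 := by
          have : (2 * n : ℤ) ≠ 0 := by omega
          exact_mod_cast this
        rw [eq_div_iff this]
        push_cast
        linarith
      refine irrational_pi ⟨(((q : ℤ) - p : ℤ) : ℚ) / ((2 * n : ℤ) : ℚ), ?_⟩
      rw [h6]
      push_cast
      rfl
    have h7 := hrot (Circle.exp θ)
    rw [Circle.coe_exp] at h7
    have h8 : conj (Complex.exp (θ * I)) ^ p * Complex.exp (θ * I) ^ q ≠ 1 := by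
      intro hc
      apply hθ
      have h9 : Complex.exp (θ * I) ^ p * conj (Complex.exp (θ * I)) ^ p = 1 := by
        rw [← mul_pow, Complex.mul_conj, Complex.normSq_eq_norm_sq, Complex.norm_exp_ofReal_mul_I]
        simp
      calc Complex.exp (θ * I) ^ q
          = (Complex.exp (θ * I) ^ p * conj (Complex.exp (θ * I)) ^ p) * Complex.exp (θ * I) ^ q := by
            rw [h9, one_mul]
        _ = Complex.exp (θ * I) ^ p * (conj (Complex.exp (θ * I)) ^ p * Complex.exp (θ * I) ^ q) := by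
            ring
        _ = _ := by rw [hc, mul_one]
    have h10 : (1 - conj (Complex.exp (θ * I)) ^ p * Complex.exp (θ * I) ^ q) * I0 = 0 := by
      rw [sub_mul, one_mul, ← h7, sub_self]
    exact (mul_eq_zero.1 h10).resolve_left (sub_ne_zero.2 (Ne.symm h8))

/-! ### product measure -/

section prod

set_option linter.unusedSectionVars false

variable {ι : Type*} [Fintype ι] [DecidableEq ι]

/-- the weight on `ι → ℂ`. -/
def EW (w : ι → ℂ) : ℝ := Real.exp (-∑ i, ‖w i‖ ^ 2)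

lemma EW_eq (w : ι → ℂ) : ((EW w : ℝ) : ℂ) = ∏ i, (ew (w i) : ℂ) := by
  unfold EW ew
  rw [← Finset.sum_neg_distrib, Real.exp_sum]
  push_cast
  rfl

/-- a monomial times the weight. -/
def mon (p q : ι → ℕ) (w : ι → ℂ) : ℂ := ∏ i, (conj (w i) ^ p i * w i ^ q i * (ew (w i) : ℂ))

lemma integrable_mon (p q : ι → ℕ) : Integrable (mon p q) := by
  unfold mon
  exact Integrable.fintype_prod fun i => integrable_mom (p i) (q i)

lemma integral_mon (p q : ι → ℕ) : ∫ w, mon p q w =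
    if p = q then ((Real.pi ^ Fintype.card ι * ∏ i, (p i) ! : ℝ) : ℂ) else 0 := by
  unfold mon
  rw [integral_fintype_prod_volume_eq_prod (𝕜 := ℂ) (ι := ι) (E := fun _ => ℂ)
    (fun i u => conj u ^ p i * u ^ q i * (ew u : ℂ))]
  simp_rw [mom1]
  split_ifs with h
  · subst h
    simp only [if_true]
    push_cast
    rw [Finset.prod_mul_distrib, Finset.prod_const, Finset.card_univ]
  · obtain ⟨i, hi⟩ := Function.ne_iff.1 h
    exact Finset.prod_eq_zero (Finset.mem_univ i) (if_neg hi)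

lemma prod_pow_single (x : ι → ℂ) (i : ι) : ∏ a, x a ^ (Pi.single i 1 : ι → ℕ) a = x i := by
  rw [Finset.prod_eq_single i]
  · simp
  · intro b _ hb
    simp [Pi.single_eq_of_ne hb]
  · simp

lemma mon_four (i j k l : ι) (w : ι → ℂ) :
    mon (Pi.single i 1 + Pi.single k 1) (Pi.single j 1 + Pi.single l 1) w =
      conj (w i) * w j * (conj (w k) * w l) * (EW w : ℂ) := by
  unfold mon
  rw [EW_eq, Finset.prod_mul_distrib, Finset.prod_mul_distrib]
  simp only [Pi.add_apply, pow_add, Finset.prod_mul_distrib]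
  rw [prod_pow_single (fun a => conj (w a)), prod_pow_single (fun a => conj (w a)),
    prod_pow_single w, prod_pow_single w]
  ring

lemma mon_two (i j : ι) (w : ι → ℂ) :
    mon (Pi.single i 1) (Pi.single j 1) w = conj (w i) * w j * (EW w : ℂ) := by
  unfold mon
  rw [EW_eq, Finset.prod_mul_distrib, Finset.prod_mul_distrib]
  rw [prod_pow_single (fun a => conj (w a)), prod_pow_single w]

lemma single_add_eq {i j k l : ι} :
    (Pi.single i 1 + Pi.single k 1 : ι → ℕ) = Pi.single j 1 + Pi.single l 1 ↔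
      (i = j ∧ k = l) ∨ (i = l ∧ k = j) := by
  constructor
  · intro h
    have hi := congrFun h i
    have hk := congrFun h k
    have hj := congrFun h j
    have hl := congrFun h l
    simp only [Pi.add_apply, Pi.single_apply] at hi hk hj hl
    by_cases h1 : i = j
    · subst h1
      by_cases h2 : k = l
      · exact Or.inl ⟨rfl, h2⟩
      · exfalso
        simp only [if_true] at hi hk hl
        rw [if_neg h2] at hk
        split_ifs at hk <;> omega
    · by_cases h2 : i = l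
      · subst h2
        by_cases h3 : k = j
        · exact Or.inr ⟨rfl, h3⟩
        · exfalso
          simp only [if_true] at hi hk hj
          rw [if_neg h3] at hk
          split_ifs at hk <;> omega
      · exfalso
        rw [if_neg h1, if_neg h2] at hi
        simp at hi
  · rintro (⟨rfl, rfl⟩ | ⟨rfl, rfl⟩)
    · rfl
    · exact add_comm _ _

lemma prod_fact (i k : ι) :
    ∏ a, ((Pi.single i 1 + Pi.single k 1 : ι → ℕ) a) ! = if i = k then 2 else 1 := by
  split_ifs with h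
  · subst h
    rw [Finset.prod_eq_single i]
    · simp
    · intro b _ hb
      simp [Pi.single_eq_of_ne hb]
    · simp
  · refine Finset.prod_eq_one fun a _ => ?_
    by_cases h1 : a = i
    · subst h1
      simp [Pi.single_eq_of_ne h]
    · by_cases h2 : a = k
      · subst h2
        simp [Pi.single_eq_of_ne h1]
      · simp [Pi.single_eq_of_ne h1, Pi.single_eq_of_ne h2]

lemma prod_fact_one (i : ι) : ∏ a, ((Pi.single i 1 : ι → ℕ) a) ! = 1 := by
  refine Finset.prod_eq_one fun a _ => ?_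
  by_cases h1 : a = i
  · subst h1; simp
  · simp [Pi.single_eq_of_ne h1]

/-- fourth moments. -/
theorem mom4 (i j k l : ι) :
    ∫ w : ι → ℂ, conj (w i) * w j * (conj (w k) * w l) * (EW w : ℂ) =
      (Real.pi : ℂ) ^ Fintype.card ι *
        ((if i = j then 1 else 0) * (if k = l then 1 else 0) +
          (if i = l then 1 else 0) * (if k = j then 1 else 0)) := by
  have h := integral_mon (Pi.single i 1 + Pi.single k 1) (Pi.single j 1 + Pi.single l 1)
  simp_rw [mon_four] at h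
  rw [h, prod_fact]
  simp only [single_add_eq]
  by_cases h1 : i = j <;> by_cases h2 : k = l <;> by_cases h3 : i = l <;> by_cases h4 : k = j <;>
    by_cases h5 : i = k <;> simp_all
  all_goals norm_num

theorem mom2 (i j : ι) :
    ∫ w : ι → ℂ, conj (w i) * w j * (EW w : ℂ) =
      (Real.pi : ℂ) ^ Fintype.card ι * (if i = j then 1 else 0) := by
  have h := integral_mon (Pi.single i 1) (Pi.single j 1)
  simp_rw [mon_two] at h
  rw [h, prod_fact_one]
  by_cases h1 : i = j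
  · subst h1; simp
  · have : ¬ ((Pi.single i 1 : ι → ℕ) = Pi.single j 1) := by
      intro hc
      have := congrFun hc i
      simp [Pi.single_apply, h1] at this
    simp [h1, this]

lemma integrable_four (i j k l : ι) :
    Integrable fun w : ι → ℂ => conj (w i) * w j * (conj (w k) * w l) * (EW w : ℂ) := by
  have h := integrable_mon (Pi.single i 1 + Pi.single k 1 : ι → ℕ) (Pi.single j 1 + Pi.single l 1)
  have e : mon (Pi.single i 1 + Pi.single k 1 : ι → ℕ) (Pi.single j 1 + Pi.single l 1) =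
      fun w : ι → ℂ => conj (w i) * w j * (conj (w k) * w l) * (EW w : ℂ) := by
    funext w; exact mon_four i j k l w
  rwa [e] at h

lemma integrable_two (i j : ι) :
    Integrable fun w : ι → ℂ => conj (w i) * w j * (EW w : ℂ) := by
  have h := integrable_mon (Pi.single i 1 : ι → ℕ) (Pi.single j 1)
  have e : mon (Pi.single i 1 : ι → ℕ) (Pi.single j 1) =
      fun w : ι → ℂ => conj (w i) * w j * (EW w : ℂ) := by
    funext w; exact mon_two i j w
  rwa [e] at h

/-- the quadratic form `w* C w`. -/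
def qf (C : Matrix ι ι ℂ) (w : ι → ℂ) : ℂ := star w ⬝ᵥ (C *ᵥ w)

lemma qf_eq (C : Matrix ι ι ℂ) (w : ι → ℂ) : qf C w = ∑ i, ∑ j, C i j * (conj (w i) * w j) := by
  unfold qf dotProduct mulVec dotProduct
  refine Finset.sum_congr rfl fun i _ => ?_
  rw [Finset.mul_sum]
  refine Finset.sum_congr rfl fun j _ => ?_
  simp only [Pi.star_apply, RCLike.star_def]
  ring

theorem mom_one (C : Matrix ι ι ℂ) :
    Integrable (fun w : ι → ℂ => qf C w * (EW w : ℂ)) ∧
    ∫ w : ι → ℂ, qf C w * (EW w : ℂ) = (Real.pi : ℂ) ^ Fintype.card ι * C.trace := by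
  have e : (fun w : ι → ℂ => qf C w * (EW w : ℂ)) =
      fun w => ∑ i, ∑ j, C i j * (conj (w i) * w j * (EW w : ℂ)) := by
    funext w
    rw [qf_eq, Finset.sum_mul]
    refine Finset.sum_congr rfl fun i _ => ?_
    rw [Finset.sum_mul]
    refine Finset.sum_congr rfl fun j _ => ?_
    ring
  rw [e]
  have hint : ∀ i j, Integrable fun w : ι → ℂ => C i j * (conj (w i) * w j * (EW w : ℂ)) :=
    fun i j => (integrable_two i j).const_mul _
  refine ⟨integrable_finsetSum _ fun i _ => integrable_finsetSum _ fun j _ => hint i j, ?_⟩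
  rw [integral_finsetSum _ fun i _ => integrable_finsetSum _ fun j _ => hint i j]
  simp_rw [integral_finsetSum _ fun j _ => hint _ j, integral_const_mul, mom2]
  simp only [mul_ite, mul_one, mul_zero, Finset.sum_ite_eq, Finset.mem_univ, if_true]
  rw [← Finset.sum_mul, mul_comm]
  rfl

theorem mom_two (C D : Matrix ι ι ℂ) :
    Integrable (fun w : ι → ℂ => qf C w * qf D w * (EW w : ℂ)) ∧
    ∫ w : ι → ℂ, qf C w * qf D w * (EW w : ℂ) =
      (Real.pi : ℂ) ^ Fintype.card ι * (C.trace * D.trace + (C * D).trace) := by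
  have e : (fun w : ι → ℂ => qf C w * qf D w * (EW w : ℂ)) =
      fun w => ∑ i, ∑ j, ∑ k, ∑ l, (C i j * D k l) *
        (conj (w i) * w j * (conj (w k) * w l) * (EW w : ℂ)) := by
    funext w
    rw [qf_eq, qf_eq, Finset.sum_mul, Finset.sum_mul]
    refine Finset.sum_congr rfl fun i _ => ?_
    rw [Finset.sum_mul, Finset.sum_mul]
    refine Finset.sum_congr rfl fun j _ => ?_
    rw [Finset.mul_sum, Finset.sum_mul]
    refine Finset.sum_congr rfl fun k _ => ?_
    rw [Finset.mul_sum, Finset.sum_mul]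
    refine Finset.sum_congr rfl fun l _ => ?_
    ring
  rw [e]
  have hint : ∀ i j k l, Integrable fun w : ι → ℂ => (C i j * D k l) *
        (conj (w i) * w j * (conj (w k) * w l) * (EW w : ℂ)) :=
    fun i j k l => (integrable_four i j k l).const_mul _
  have h3 : ∀ i j k, Integrable fun w : ι → ℂ => ∑ l, (C i j * D k l) *
        (conj (w i) * w j * (conj (w k) * w l) * (EW w : ℂ)) :=
    fun i j k => integrable_finsetSum _ fun l _ => hint i j k l
  have h2 : ∀ i j, Integrable fun w : ι → ℂ => ∑ k, ∑ l, (C i j * D k l) *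
        (conj (w i) * w j * (conj (w k) * w l) * (EW w : ℂ)) :=
    fun i j => integrable_finsetSum _ fun k _ => h3 i j k
  have h1 : ∀ i, Integrable fun w : ι → ℂ => ∑ j, ∑ k, ∑ l, (C i j * D k l) *
        (conj (w i) * w j * (conj (w k) * w l) * (EW w : ℂ)) :=
    fun i => integrable_finsetSum _ fun j _ => h2 i j
  refine ⟨integrable_finsetSum _ fun i _ => h1 i, ?_⟩
  rw [integral_finsetSum _ fun i _ => h1 i]
  have e2 : ∀ i, ∫ w : ι → ℂ, ∑ j, ∑ k, ∑ l, (C i j * D k l) *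
        (conj (w i) * w j * (conj (w k) * w l) * (EW w : ℂ)) =
      ∑ j, ∑ k, ∑ l, (C i j * D k l) * ((Real.pi : ℂ) ^ Fintype.card ι *
        ((if i = j then 1 else 0) * (if k = l then 1 else 0) +
          (if i = l then 1 else 0) * (if k = j then 1 else 0))) := by
    intro i
    rw [integral_finsetSum _ fun j _ => h2 i j]
    refine Finset.sum_congr rfl fun j _ => ?_
    rw [integral_finsetSum _ fun k _ => h3 i j k]
    refine Finset.sum_congr rfl fun k _ => ?_
    rw [integral_finsetSum _ fun l _ => hint i j k l]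
    refine Finset.sum_congr rfl fun l _ => ?_
    rw [integral_const_mul, mom4]
  simp_rw [e2]
  have e3 : ∀ i j k l : ι, (C i j * D k l) * ((Real.pi : ℂ) ^ Fintype.card ι *
        ((if i = j then 1 else 0) * (if k = l then 1 else 0) +
          (if i = l then 1 else 0) * (if k = j then 1 else 0))) =
      (Real.pi : ℂ) ^ Fintype.card ι *
        ((if i = j then (if k = l then C i j * D k l else 0) else 0) +
          (if k = j then (if i = l then C i j * D k l else 0) else 0)) := by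
    intro i j k l
    split_ifs <;> simp <;> ring
  simp_rw [e3, ← Finset.mul_sum, Finset.sum_add_distrib]
  congr 1
  congr 1
  · have s1 : ∀ i j : ι, ∑ k, ∑ l, (if i = j then (if k = l then C i j * D k l else 0) else 0) =
        if i = j then ∑ k, C i j * D k k else 0 := by
      intro i j
      split_ifs <;> simp
    simp_rw [s1]
    simp only [Finset.sum_ite_eq, Finset.mem_univ, if_true, trace, diag_apply, Finset.sum_mul_sum]
  · have s1 : ∀ i j : ι, ∑ k, ∑ l, (if k = j then (if i = l then C i j * D k l else 0) else 0) =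
        C i j * D j i := by
      intro i j
      rw [Finset.sum_eq_single j]
      · simp
      · intro k _ hk
        simp [hk]
      · simp
    simp_rw [s1]
    simp only [trace, diag_apply, mul_apply]

end prod

end

end Crest.Agent.R235.FamGaussA_355
end

-- ▼ part R235/FamGaussB_355
section

/-!
# Row 235, package FAM, block B (GAUSS), part 2 (helper355): moments on a complex inner product space

* `moments` : for a Haar measure `μ` on `Z` there is `c > 0` with
  `∫ ⟪y, C y⟫ e^{-‖y‖²} = c tr C`, `∫ ⟪y, C y⟫⟪y, D y⟫ e^{-‖y‖²} = c (tr C tr D + tr (C D))`;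
* `integral_comp_lin` : change of variables by a linear equivalence.
-/

set_option autoImplicit false

open MeasureTheory Matrix Complex Module
open scoped ComplexConjugate InnerProductSpace

namespace Crest.Agent.R235.FamGaussB_355

open FamGaussA_355

noncomputable section

variable {Z : Type*} [NormedAddCommGroup Z] [InnerProductSpace ℂ Z] [FiniteDimensional ℂ Z]

/-- coordinates. -/
def coor {ι : Type*} [Fintype ι] (b : OrthonormalBasis ι ℂ Z) : (ι → ℂ) ≃ₗ[ℂ] Z :=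
  b.toBasis.equivFun.symm

lemma coor_apply {ι : Type*} [Fintype ι] (b : OrthonormalBasis ι ℂ Z) (w : ι → ℂ) :
    coor b w = ∑ i, w i • b i := by
  unfold coor
  rw [Basis.equivFun_symm_apply]
  simp

lemma inner_coor {ι : Type*} [Fintype ι] (b : OrthonormalBasis ι ℂ Z) (w : ι → ℂ) (i : ι) :
    ⟪b i, coor b w⟫_ℂ = w i := by
  classical
  rw [coor_apply, inner_sum]
  simp only [inner_smul_right, b.inner_eq_ite]
  simp

lemma norm_coor {ι : Type*} [Fintype ι] (b : OrthonormalBasis ι ℂ Z) (w : ι → ℂ) :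
    ‖coor b w‖ ^ 2 = ∑ i, ‖w i‖ ^ 2 := by
  rw [← b.sum_sq_norm_inner_right]
  simp only [inner_coor]

lemma inner_coor_map {ι : Type*} [Fintype ι] [DecidableEq ι] (b : OrthonormalBasis ι ℂ Z)
    (C : Z →ₗ[ℂ] Z) (w : ι → ℂ) :
    ⟪coor b w, C (coor b w)⟫_ℂ = qf (LinearMap.toMatrix b.toBasis b.toBasis C) w := by
  have h1 : ∀ i j, LinearMap.toMatrix b.toBasis b.toBasis C i j = ⟪b i, C (b j)⟫_ℂ := by
    intro i j
    rw [LinearMap.toMatrix_apply, b.coe_toBasis, b.coe_toBasis_repr_apply, b.repr_apply_apply]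
  rw [qf_eq]
  conv_lhs => rw [coor_apply, map_sum, sum_inner]
  refine Finset.sum_congr rfl fun i _ => ?_
  rw [inner_sum]
  refine Finset.sum_congr rfl fun j _ => ?_
  rw [map_smul, inner_smul_left, inner_smul_right, h1]
  ring

variable [MeasurableSpace Z] [BorelSpace Z]

theorem moments (μ : Measure Z) [μ.IsAddHaarMeasure] : ∃ c : ℝ, 0 < c ∧
    (∀ C : Z →ₗ[ℂ] Z, Integrable (fun y : Z => ⟪y, C y⟫_ℂ * (Real.exp (-‖y‖ ^ 2) : ℂ)) μ ∧
      ∫ y : Z, ⟪y, C y⟫_ℂ * (Real.exp (-‖y‖ ^ 2) : ℂ) ∂μ = c * LinearMap.trace ℂ Z C) ∧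
    (∀ C D : Z →ₗ[ℂ] Z,
      Integrable (fun y : Z => ⟪y, C y⟫_ℂ * ⟪y, D y⟫_ℂ * (Real.exp (-‖y‖ ^ 2) : ℂ)) μ ∧
      ∫ y : Z, ⟪y, C y⟫_ℂ * ⟪y, D y⟫_ℂ * (Real.exp (-‖y‖ ^ 2) : ℂ) ∂μ =
        c * (LinearMap.trace ℂ Z C * LinearMap.trace ℂ Z D + LinearMap.trace ℂ Z (C ∘ₗ D))) := by
  classical
  set b := stdOrthonormalBasis ℂ Z with hb
  set r := finrank ℂ Z with hr
  set φ : (Fin r → ℂ) ≃L[ℝ] Z := ((coor b).restrictScalars ℝ).toContinuousLinearEquiv with hφ
  have hφa : ∀ w, φ w = coor b w := fun w => rfl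
  set ν : Measure Z := Measure.map φ (volume : Measure (Fin r → ℂ)) with hν
  haveI : ν.IsAddHaarMeasure := φ.isAddHaarMeasure_map volume
  have h1 : μ = Measure.addHaarScalarFactor μ ν • ν := Measure.isAddLeftInvariant_eq_smul μ ν
  have h2 : 0 < Measure.addHaarScalarFactor μ ν := Measure.addHaarScalarFactor_pos_of_isAddHaarMeasure μ ν
  set s := Measure.addHaarScalarFactor μ ν with hs
  have hme : MeasurableEmbedding φ := φ.toHomeomorph.measurableEmbedding
  have key : ∀ (F : Z → ℂ) (G : (Fin r → ℂ) → ℂ) (I : ℂ), (∀ w, F (φ w) = G w) → Integrable G →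
      ∫ w, G w = I → Integrable F μ ∧ ∫ y, F y ∂μ = (s : ℝ) * I := by
    intro F G I hFG hG hI
    have e : F ∘ φ = G := funext hFG
    constructor
    · rw [h1]
      refine Integrable.smul_measure_nnreal ?_
      rw [hν, hme.integrable_map_iff, e]
      exact hG
    · rw [h1, integral_smul_nnreal_measure, hν, hme.integral_map]
      simp_rw [hFG]
      rw [hI]
      rfl
  refine ⟨s * Real.pi ^ r, by positivity, fun C => ?_, fun C D => ?_⟩
  · obtain ⟨g1, g2⟩ := mom_one (LinearMap.toMatrix b.toBasis b.toBasis C)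
    obtain ⟨k1, k2⟩ := key (fun y : Z => ⟪y, C y⟫_ℂ * (Real.exp (-‖y‖ ^ 2) : ℂ)) _ _ (fun w => by
      simp only [hφa]
      rw [inner_coor_map, norm_coor]
      rfl) g1 g2
    refine ⟨k1, ?_⟩
    rw [k2, LinearMap.trace_eq_matrix_trace ℂ b.toBasis C, Fintype.card_fin]
    push_cast
    ring
  · obtain ⟨g1, g2⟩ := mom_two (LinearMap.toMatrix b.toBasis b.toBasis C)
      (LinearMap.toMatrix b.toBasis b.toBasis D)
    obtain ⟨k1, k2⟩ := key (fun y : Z => ⟪y, C y⟫_ℂ * ⟪y, D y⟫_ℂ * (Real.exp (-‖y‖ ^ 2) : ℂ)) _ _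
      (fun w => by
        simp only [hφa]
        rw [inner_coor_map, inner_coor_map, norm_coor]
        rfl) g1 g2
    refine ⟨k1, ?_⟩
    rw [k2, LinearMap.trace_eq_matrix_trace ℂ b.toBasis C, LinearMap.trace_eq_matrix_trace ℂ b.toBasis D,
      LinearMap.trace_eq_matrix_trace ℂ b.toBasis (C ∘ₗ D), LinearMap.toMatrix_comp _ b.toBasis,
      Fintype.card_fin]
    push_cast
    ring

/-- change of variables by a linear equivalence. -/
theorem integral_comp_lin (μ : Measure Z) [μ.IsAddHaarMeasure] (g : Z ≃ₗ[ℝ] Z) (F : Z → ℝ)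
    (hF : Integrable (fun y => F (g y)) μ) :
    Integrable F μ ∧ ∫ z, F z ∂μ = |LinearMap.det (g : Z →ₗ[ℝ] Z)| * ∫ y, F (g y) ∂μ := by
  have hdet : LinearMap.det (g : Z →ₗ[ℝ] Z) ≠ 0 := g.isUnit_det'.ne_zero
  have h1 := Measure.map_linearMap_addHaar_eq_smul_addHaar μ hdet
  set gl := g.toContinuousLinearEquiv with hgl
  have hme : MeasurableEmbedding gl := gl.toHomeomorph.measurableEmbedding
  have hco : (((g : Z →ₗ[ℝ] Z)) : Z → Z) = gl := rfl
  rw [hco] at h1
  have hpos : 0 < |(LinearMap.det (g : Z →ₗ[ℝ] Z))⁻¹| := abs_pos.2 (inv_ne_zero hdet)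
  have h2 : Integrable F (Measure.map gl μ) := by
    rw [hme.integrable_map_iff]
    exact hF
  have h3 : ∫ z, F z ∂(Measure.map gl μ) = ∫ y, F (g y) ∂μ := by
    rw [hme.integral_map]
    rfl
  rw [h1] at h2 h3
  rw [integral_smul_measure] at h3
  constructor
  · rwa [integrable_smul_measure (by simpa using hpos.ne') ENNReal.ofReal_ne_top] at h2
  · rw [← h3, ENNReal.toReal_ofReal hpos.le, smul_eq_mul, ← mul_assoc, ← abs_mul,
      mul_inv_cancel₀ hdet, abs_one, one_mul]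

end

end Crest.Agent.R235.FamGaussB_355
end

-- ▼ part R235/FamGaussC_355
section

/-!
# Row 235, package FAM, block B (GAUSS), part 3 (helper355): the determinant

* `det_isom`   : the real determinant of a complex isometry is `1`;
* `det_block`  : block triangular maps;
* `Adapted`    : `G : ℂ^M × Z ≃ Y` isometric with `G (0, ζ) = V ζ`;
* `det_tot`    : `det (e ∘ tot V Bj z) = det (e ∘ G ∘ (J × 1)) * det (J⁻¹ x_j)`, `x_j = (G⁻¹ (Bj z))₁`;
* `det_const`  : the first factor does not depend on `G`.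
-/

set_option autoImplicit false
set_option maxSynthPendingDepth 3

open MeasureTheory Matrix Complex Module
open scoped ComplexConjugate InnerProductSpace

namespace Crest.Agent.R235.FamGaussC_355

open FamGaussA_355 FamGaussB_355 FamDefs_307

noncomputable section

variable {Z : Type*} [NormedAddCommGroup Z] [InnerProductSpace ℂ Z] [FiniteDimensional ℂ Z]
variable {Y : Type*} [NormedAddCommGroup Y] [InnerProductSpace ℂ Y] [FiniteDimensional ℂ Y]

lemma det_isom (f : Y ≃ₗ[ℂ] Y) (hf : ∀ y, ‖f y‖ = ‖y‖) :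
    LinearMap.det ((f : Y →ₗ[ℂ] Y).restrictScalars ℝ) = 1 := by
  rw [LinearMap.det_restrictScalars, Algebra.norm_complex_apply, Complex.normSq_eq_norm_sq]
  have h : ‖LinearMap.det (f : Y →ₗ[ℂ] Y)‖ = 1 := by
    rw [← LinearMap.normDet_eq_norm_det]
    exact LinearIsometry.normDet_eq_one ⟨(f : Y →ₗ[ℂ] Y), hf⟩
  rw [h]
  norm_num

lemma det_pos (g : Z ≃ₗ[ℂ] Z) : 0 < LinearMap.det ((g : Z →ₗ[ℂ] Z).restrictScalars ℝ) := by
  rw [LinearMap.det_restrictScalars, Algebra.norm_complex_apply]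
  exact Complex.normSq_pos.2 g.isUnit_det'.ne_zero

section block

variable {E F : Type*} [NormedAddCommGroup E] [NormedSpace ℝ E] [FiniteDimensional ℝ E]
  [NormedAddCommGroup F] [NormedSpace ℝ F] [FiniteDimensional ℝ F]

/-- the unipotent map `(x, y) ↦ (x, y + S x)`. -/
def uni (S : E →ₗ[ℝ] F) : (E × F) →ₗ[ℝ] (E × F) :=
  LinearMap.id + (LinearMap.inr ℝ E F) ∘ₗ S ∘ₗ (LinearMap.fst ℝ E F)

lemma uni_apply (S : E →ₗ[ℝ] F) (p : E × F) : uni S p = (p.1, p.2 + S p.1) := by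
  unfold uni
  ext <;> simp

lemma uni_comp (S S' : E →ₗ[ℝ] F) : uni S * uni S' = uni (S + S') := by
  refine LinearMap.ext fun p => ?_
  rw [Module.End.mul_apply, uni_apply, uni_apply, uni_apply]
  ext
  · rfl
  · simp only [LinearMap.add_apply]
    abel

lemma det_uni (S : E →ₗ[ℝ] F) : LinearMap.det (uni S) = 1 := by
  have h1 : LinearMap.det (uni S) * LinearMap.det (uni (-S)) = 1 := by
    rw [← map_mul, uni_comp, add_neg_cancel]
    have : uni (0 : E →ₗ[ℝ] F) = LinearMap.id := by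
      refine LinearMap.ext fun p => ?_
      rw [uni_apply]
      simp
    rw [this, LinearMap.det_id]
  have h2 : LinearMap.det (uni S) = LinearMap.det (uni (-S)) := by
    have e : (LinearMap.prodMap (-LinearMap.id) LinearMap.id : (E × F) →ₗ[ℝ] (E × F)) * uni S *
        (LinearMap.prodMap (-LinearMap.id) LinearMap.id) = uni (-S) := by
      refine LinearMap.ext fun p => ?_
      rw [Module.End.mul_apply, Module.End.mul_apply, uni_apply, uni_apply]
      ext <;> simp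
    have e2 : (LinearMap.prodMap (-LinearMap.id) LinearMap.id : (E × F) →ₗ[ℝ] (E × F)) *
        (LinearMap.prodMap (-LinearMap.id) LinearMap.id) = 1 := by
      refine LinearMap.ext fun p => ?_
      rw [Module.End.mul_apply]
      ext <;> simp
    rw [← e, map_mul, map_mul, mul_comm, ← mul_assoc, ← map_mul, e2, map_one, one_mul]
  have h3 : LinearMap.det (uni S) = LinearMap.det (uni ((1 / 2 : ℝ) • S)) ^ 2 := by
    rw [pow_two, ← map_mul, uni_comp, ← add_smul]
    norm_num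
  rw [← h2] at h1
  have h4 : 0 ≤ LinearMap.det (uni S) := by rw [h3]; positivity
  nlinarith


end block

/-! ### adapted isometries -/

/-- `G : ℂ^M × Z ≃ Y` isometric, equal to `V` on `Z`. -/
structure Adapted (M : ℕ) (V : Z →ₗᵢ[ℂ] Y) (G : ((Fin M → ℂ) × Z) ≃ₗ[ℂ] Y) : Prop where
  map : ∀ ζ, G (0, ζ) = V ζ
  inn : ∀ p p', ⟪G p, G p'⟫_ℂ = ∑ i, conj (p.1 i) * p'.1 i + ⟪p.2, p'.2⟫_ℂ

lemma inner_coor2 {ι : Type*} [Fintype ι] (b : OrthonormalBasis ι ℂ Z) (w w' : ι → ℂ) :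
    ⟪coor b w, coor b w'⟫_ℂ = ∑ i, conj (w i) * w' i := by
  conv_lhs => rw [coor_apply b w, sum_inner]
  refine Finset.sum_congr rfl fun i _ => ?_
  rw [inner_smul_left, inner_coor]

lemma exists_adapted {M : ℕ} (hM : finrank ℂ Y = finrank ℂ Z + M) (V : Z →ₗᵢ[ℂ] Y) :
    ∃ G : ((Fin M → ℂ) × Z) ≃ₗ[ℂ] Y, Adapted M V G := by
  set R := LinearMap.range V.toLinearMap with hR
  have h1 : finrank ℂ R = finrank ℂ Z := LinearMap.finrank_range_of_inj V.injective
  have h2 : finrank ℂ Rᗮ = M := by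
    have := R.finrank_add_finrank_orthogonal
    omega
  set k : OrthonormalBasis (Fin M) ℂ Rᗮ := (stdOrthonormalBasis ℂ Rᗮ).reindex (finCongr h2) with hk
  set G0 : ((Fin M → ℂ) × Z) →ₗ[ℂ] Y :=
    (Rᗮ.subtype ∘ₗ (coor k : (Fin M → ℂ) →ₗ[ℂ] Rᗮ)).coprod V.toLinearMap with hG0
  have hG : ∀ p, G0 p = (coor k p.1 : Y) + V p.2 := fun p => by
    simp [hG0]
  have hin : ∀ p p', ⟪G0 p, G0 p'⟫_ℂ = ∑ i, conj (p.1 i) * p'.1 i + ⟪p.2, p'.2⟫_ℂ := by
    intro p p'
    have o1 : ⟪(coor k p.1 : Y), V p'.2⟫_ℂ = 0 :=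
      (Submodule.mem_orthogonal' _ _).1 (coor k p.1).2 _ ⟨p'.2, rfl⟩
    have o2 : ⟪V p.2, (coor k p'.1 : Y)⟫_ℂ = 0 :=
      (Submodule.mem_orthogonal _ _).1 (coor k p'.1).2 _ ⟨p.2, rfl⟩
    rw [hG, hG, inner_add_left, inner_add_right, inner_add_right, o1, o2, V.inner_map_map,
      ← inner_coor2 k, Submodule.coe_inner]
    ring
  have hinj : Function.Injective G0 := by
    rw [injective_iff_map_eq_zero]
    intro p hp
    have h3 := hin p p
    rw [hp, inner_zero_left] at h3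
    have h4 : (∑ i, conj (p.1 i) * p.1 i + ⟪p.2, p.2⟫_ℂ) =
        ((∑ i, ‖p.1 i‖ ^ 2 + ‖p.2‖ ^ 2 : ℝ) : ℂ) := by
      rw [inner_self_eq_norm_sq_to_K]
      push_cast
      congr 1
      refine Finset.sum_congr rfl fun i _ => ?_
      rw [← Complex.normSq_eq_conj_mul_self, Complex.normSq_eq_norm_sq]
      push_cast
      rfl
    rw [h4] at h3
    have h5 : (∑ i, ‖p.1 i‖ ^ 2 + ‖p.2‖ ^ 2 : ℝ) = 0 := by exact_mod_cast h3.symm
    have h6 : 0 ≤ ∑ i, ‖p.1 i‖ ^ 2 := Finset.sum_nonneg fun i _ => by positivity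
    have h7 : ∑ i, ‖p.1 i‖ ^ 2 = 0 := by nlinarith [sq_nonneg ‖p.2‖]
    have h8 : ‖p.2‖ ^ 2 = 0 := by nlinarith [sq_nonneg ‖p.2‖]
    have h9 := (Finset.sum_eq_zero_iff_of_nonneg fun i _ => by positivity).1 h7
    ext i
    · simpa using h9 i (Finset.mem_univ i)
    · simpa using h8
  have hfr : finrank ℂ ((Fin M → ℂ) × Z) = finrank ℂ Y := by
    rw [Module.finrank_prod, Module.finrank_fin_fun, hM]
    ring
  refine ⟨LinearMap.linearEquivOfInjective G0 hinj hfr, ⟨fun ζ => ?_, fun p p' => ?_⟩⟩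
  · rw [LinearMap.linearEquivOfInjective_apply, hG]
    simp
  · rw [LinearMap.linearEquivOfInjective_apply, LinearMap.linearEquivOfInjective_apply, hin]

/-- the projection on the complement in coordinates. -/
lemma Adapted.inner_fst {M : ℕ} {V : Z →ₗᵢ[ℂ] Y} {G : ((Fin M → ℂ) × Z) ≃ₗ[ℂ] Y}
    (h : Adapted M V G) (y y' : Y) :
    ∑ i, conj ((G.symm y).1 i) * (G.symm y').1 i =
      ⟪y, y' - V.toContinuousLinearMap (V.toContinuousLinearMap.adjoint y')⟫_ℂ := by
  have h1 : ∀ y : Y, (G.symm y).2 = V.toContinuousLinearMap.adjoint y := by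
    intro y
    refine ext_inner_left ℂ fun ζ => ?_
    rw [ContinuousLinearMap.adjoint_inner_right]
    have h2 := h.inn (0, ζ) (G.symm y)
    rw [h.map, G.apply_symm_apply] at h2
    simpa using h2.symm
  have h2 : y' - V.toContinuousLinearMap (V.toContinuousLinearMap.adjoint y') =
      G ((G.symm y').1, 0) := by
    have h3 : G ((G.symm y').1, 0) + G (0, (G.symm y').2) = y' := by
      rw [← map_add]
      simp
    rw [h.map, h1] at h3
    exact sub_eq_iff_eq_add.2 h3.symm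
  rw [h2]
  conv_rhs => rw [← G.apply_symm_apply y]
  rw [h.inn]
  simp

/-! ### the determinant of `e ∘ tot` -/

variable {b M : ℕ}

/-- `e ∘ G ∘ (J × 1)`. -/
def egj (J : (Fin b → ℝ) ≃ₗ[ℝ] (Fin M → ℂ)) (e : Y ≃L[ℝ] (Fin b → ℝ) × Z)
    (G : ((Fin M → ℂ) × Z) ≃ₗ[ℂ] Y) : ((Fin b → ℝ) × Z) ≃ₗ[ℝ] ((Fin b → ℝ) × Z) :=
  ((J.prodCongr (LinearEquiv.refl ℝ Z)).trans (G.restrictScalars ℝ)).trans e.toLinearEquiv

lemma egj_apply (J : (Fin b → ℝ) ≃ₗ[ℝ] (Fin M → ℂ)) (e : Y ≃L[ℝ] (Fin b → ℝ) × Z)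
    (G : ((Fin M → ℂ) × Z) ≃ₗ[ℂ] Y) (p : (Fin b → ℝ) × Z) :
    egj J e G p = e (G (J p.1, p.2)) := rfl

lemma tot_apply (B : Z →L[ℂ] Y) (Bj : Fin b → Z →L[ℂ] Y) (z : Z) (p : (Fin b → ℝ) × Z) :
    tot B Bj z p = ∑ j, p.1 j • Bj j z + B p.2 := by
  simp [tot]

theorem det_const (J : (Fin b → ℝ) ≃ₗ[ℝ] (Fin M → ℂ)) (e : Y ≃L[ℝ] (Fin b → ℝ) × Z)
    {V V' : Z →ₗᵢ[ℂ] Y} {G G' : ((Fin M → ℂ) × Z) ≃ₗ[ℂ] Y} (hG : Adapted M V G)
    (hG' : Adapted M V' G') :
    LinearMap.det (egj J e G : ((Fin b → ℝ) × Z) →ₗ[ℝ] ((Fin b → ℝ) × Z)) =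
      LinearMap.det (egj J e G' : ((Fin b → ℝ) × Z) →ₗ[ℝ] ((Fin b → ℝ) × Z)) := by
  set f : Y ≃ₗ[ℂ] Y := G'.symm.trans G with hf
  have hiso : ∀ y, ‖f y‖ = ‖y‖ := by
    intro y
    have h1 := hG.inn (G'.symm y) (G'.symm y)
    have h2 := hG'.inn (G'.symm y) (G'.symm y)
    rw [G'.apply_symm_apply] at h2
    rw [← h2, inner_self_eq_norm_sq_to_K, inner_self_eq_norm_sq_to_K] at h1
    have h3 : ‖G (G'.symm y)‖ ^ 2 = ‖y‖ ^ 2 := by exact_mod_cast h1
    have h4 := (sq_eq_sq₀ (norm_nonneg _) (norm_nonneg _)).1 h3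
    exact h4
  have h1 := det_isom f hiso
  have e1 : (egj J e G : ((Fin b → ℝ) × Z) →ₗ[ℝ] ((Fin b → ℝ) × Z)) =
      ((e.toLinearEquiv : Y →ₗ[ℝ] _) ∘ₗ ((f : Y →ₗ[ℂ] Y).restrictScalars ℝ) ∘ₗ
        (e.toLinearEquiv.symm : _ →ₗ[ℝ] Y)) *
      (egj J e G' : ((Fin b → ℝ) × Z) →ₗ[ℝ] ((Fin b → ℝ) × Z)) := by
    refine LinearMap.ext fun p => ?_
    rw [Module.End.mul_apply]
    simp [egj_apply, hf]
  rw [e1, map_mul, LinearMap.det_conj, h1, one_mul]

theorem det_tot (J : (Fin b → ℝ) ≃ₗ[ℝ] (Fin M → ℂ)) (e : Y ≃L[ℝ] (Fin b → ℝ) × Z)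
    {V : Z →ₗᵢ[ℂ] Y} {G : ((Fin M → ℂ) × Z) ≃ₗ[ℂ] Y} (hG : Adapted M V G)
    (Bj : Fin b → Z →L[ℂ] Y) (z : Z) :
    LinearMap.det ((e : Y →L[ℝ] (Fin b → ℝ) × Z) ∘L tot V.toContinuousLinearMap Bj z :
          ((Fin b → ℝ) × Z) →ₗ[ℝ] (Fin b → ℝ) × Z) =
      LinearMap.det (egj J e G : ((Fin b → ℝ) × Z) →ₗ[ℝ] ((Fin b → ℝ) × Z)) *
        Matrix.det (Matrix.of fun i j => J.symm ((G.symm (Bj j z)).1) i) := by
  set x : Fin b → Fin M → ℂ := fun j => (G.symm (Bj j z)).1 with hx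
  set A : (Fin b → ℝ) →ₗ[ℝ] (Fin b → ℝ) :=
    Matrix.toLin' (Matrix.of fun i j => J.symm (x j) i) with hA
  set S : (Fin b → ℝ) →ₗ[ℝ] Z :=
    (∑ j, (LinearMap.proj j : (Fin b → ℝ) →ₗ[ℝ] ℝ).smulRight (G.symm (Bj j z)).2) with hS
  have hAa : ∀ κ : Fin b → ℝ, A κ = J.symm (∑ j, κ j • x j) := by
    intro κ
    rw [map_sum]
    ext i
    simp only [hA, Matrix.toLin'_apply, Matrix.mulVec, dotProduct, Matrix.of_apply, map_smul,
      Finset.sum_apply, Pi.smul_apply, smul_eq_mul]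
    exact Finset.sum_congr rfl fun j _ => mul_comm _ _
  have hSa : ∀ κ : Fin b → ℝ, S κ = ∑ j, κ j • (G.symm (Bj j z)).2 := by
    intro κ
    simp [hS]
  have e1 : ((e : Y →L[ℝ] (Fin b → ℝ) × Z) ∘L tot V.toContinuousLinearMap Bj z :
          ((Fin b → ℝ) × Z) →ₗ[ℝ] (Fin b → ℝ) × Z) =
      (egj J e G : ((Fin b → ℝ) × Z) →ₗ[ℝ] ((Fin b → ℝ) × Z)) *
        ((A.prodMap LinearMap.id) * uni S) := by
    refine LinearMap.ext fun p => ?_
    rw [Module.End.mul_apply, Module.End.mul_apply, uni_apply, LinearMap.prodMap_apply]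
    change e (tot V.toContinuousLinearMap Bj z p) = e (G (J (A p.1), p.2 + S p.1))
    congr 1
    rw [tot_apply, hAa, J.apply_symm_apply, hSa]
    have h1 : ((∑ j, p.1 j • x j, p.2 + ∑ j, p.1 j • (G.symm (Bj j z)).2) : (Fin M → ℂ) × Z) =
        ∑ j, (p.1 j : ℂ) • (G.symm (Bj j z)) + (0, p.2) := by
      ext i
      · simp [Prod.fst_sum, hx]
      · simp [Prod.snd_sum]
        rw [add_comm]
    rw [h1, map_add, map_sum, hG.map]
    congr 1
    refine Finset.sum_congr rfl fun j _ => ?_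
    rw [map_smul, G.apply_symm_apply]
    simp
  rw [e1, map_mul, map_mul, det_uni, LinearMap.det_prodMap, LinearMap.det_id, hA,
    LinearMap.det_toLin']
  ring

end

end Crest.Agent.R235.FamGaussC_355
end

-- ▼ part R235/FamGaussD_355
section

/-!
# Row 235, package FAM, block B (GAUSS), part 4 (helper355): `GAUSS2` and `GAUSS4`
-/

set_option autoImplicit false
set_option maxSynthPendingDepth 3

open MeasureTheory Matrix Complex Module
open scoped ComplexConjugate InnerProductSpace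

namespace Crest.Agent.R235.FamGaussD_355

open FamGaussA_355 FamGaussB_355 FamGaussC_355 FamDefs_307

noncomputable section

/-! ### the identities for `ℂ` and `ℂ²` -/

/-- `ℝ² = ℂ`. -/
def J2 : (Fin 2 → ℝ) ≃ₗ[ℝ] (Fin 1 → ℂ) where
  toFun κ := ![⟨κ 0, κ 1⟩]
  invFun a := ![(a 0).re, (a 0).im]
  map_add' κ κ' := by
    ext i
    fin_cases i
    simp [Complex.ext_iff]
  map_smul' s κ := by
    ext i
    fin_cases i
    simp [Complex.ext_iff]
  left_inv κ := by
    ext i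
    fin_cases i <;> simp
  right_inv a := by
    ext i
    fin_cases i
    simp

/-- `ℝ⁴ = ℂ²`. -/
def J4 : (Fin 4 → ℝ) ≃ₗ[ℝ] (Fin 2 → ℂ) where
  toFun κ := ![⟨κ 0, κ 1⟩, ⟨κ 2, κ 3⟩]
  invFun a := ![(a 0).re, (a 0).im, (a 1).re, (a 1).im]
  map_add' κ κ' := by
    ext i
    fin_cases i <;> simp [Complex.ext_iff]
  map_smul' s κ := by
    ext i
    fin_cases i <;> simp [Complex.ext_iff]
  left_inv κ := by
    ext i
    fin_cases i <;> simp
  right_inv a := by
    ext i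
    fin_cases i <;> simp

lemma J2_symm (a : Fin 1 → ℂ) : J2.symm a = ![(a 0).re, (a 0).im] := rfl

lemma J4_symm (a : Fin 2 → ℂ) : J4.symm a = ![(a 0).re, (a 0).im, (a 1).re, (a 1).im] := rfl

lemma sum2 (x : Fin 2 → Fin 1 → ℂ) :
    ((Matrix.det (Matrix.of fun i j => J2.symm (x j) i) : ℝ) : ℂ) =
      -(I / 2) * ∑ σ : Equiv.Perm (Fin 2), sg σ * ∑ a, conj (x (σ 0) a) * x (σ 1) a := by
  have h1 : ∑ σ : Equiv.Perm (Fin 2), sg σ * ∑ a, conj (x (σ 0) a) * x (σ 1) a =
      Matrix.det (Matrix.of fun i (k : Fin 2) => ![conj (x i 0), x i 0] k) := by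
    rw [Matrix.det_apply']
    refine Finset.sum_congr rfl fun σ _ => ?_
    simp [sg, Fin.prod_univ_two]
  rw [h1, Matrix.det_fin_two, Matrix.det_fin_two]
  simp only [J2_symm]
  apply Complex.ext <;> simp <;> ring

/-- the change of basis `(re, im) → (conj, id)`. -/
def T4 : Matrix (Fin 4) (Fin 4) ℂ :=
  !![1, 1, 0, 0; -I, I, 0, 0; 0, 0, 1, 1; 0, 0, -I, I]

lemma det_T4 : T4.det = -4 := by
  unfold T4
  simp [Matrix.det_succ_row_zero, Fin.sum_univ_succ, Fin.succAbove]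
  ring_nf
  simp

lemma det4 (x : Fin 4 → Fin 2 → ℂ) :
    Matrix.det (Matrix.of fun i (k : Fin 4) => ![conj (x i 0), x i 0, conj (x i 1), x i 1] k) =
      -4 * ((Matrix.det (Matrix.of fun i j => J4.symm (x j) i) : ℝ) : ℂ) := by
  have h : (Matrix.of fun i (k : Fin 4) => ![conj (x i 0), x i 0, conj (x i 1), x i 1] k) =
      ((Matrix.of fun i j => J4.symm (x j) i).map (algebraMap ℝ ℂ))ᵀ * T4 := by
    ext i k
    rw [Matrix.mul_apply, Fin.sum_univ_four]
    fin_cases k <;> simp [T4, J4_symm] <;> apply Complex.ext <;> simp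
  rw [h, Matrix.det_mul, Matrix.det_transpose, det_T4, ← RingHom.mapMatrix_apply, ← RingHom.map_det]
  simp only [Complex.coe_algebraMap]
  ring

lemma sum4 (x : Fin 4 → Fin 2 → ℂ) :
    ((Matrix.det (Matrix.of fun i j => J4.symm (x j) i) : ℝ) : ℂ) =
      -(1 / 8) * ∑ σ : Equiv.Perm (Fin 4), sg σ * ((∑ a, conj (x (σ 0) a) * x (σ 1) a) *
        (∑ a, conj (x (σ 2) a) * x (σ 3) a)) := by
  have h0 : ∀ a c : Fin 2, ∑ σ : Equiv.Perm (Fin 4), sg σ * ((conj (x (σ 0) a) * x (σ 1) a) *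
        (conj (x (σ 2) c) * x (σ 3) c)) =
      Matrix.det (Matrix.of fun i (k : Fin 4) => ![conj (x i a), x i a, conj (x i c), x i c] k) := by
    intro a c
    rw [Matrix.det_apply']
    refine Finset.sum_congr rfl fun σ _ => ?_
    simp [sg, Fin.prod_univ_four]
    ring
  have h1 : ∀ a : Fin 2,
      Matrix.det (Matrix.of fun i (k : Fin 4) => ![conj (x i a), x i a, conj (x i a), x i a] k) = 0 := by
    intro a
    refine Matrix.det_zero_of_column_eq (i := 0) (j := 2) (by decide) fun k => ?_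
    simp
  have h2 : Matrix.det (Matrix.of fun i (k : Fin 4) => ![conj (x i 1), x i 1, conj (x i 0), x i 0] k) =
      Matrix.det (Matrix.of fun i (k : Fin 4) => ![conj (x i 0), x i 0, conj (x i 1), x i 1] k) := by
    rw [← h0, ← h0]
    -- reindex by the double transposition
    refine Fintype.sum_equiv (Equiv.mulRight (Equiv.swap (0 : Fin 4) 2 * Equiv.swap 1 3)) _ _
      fun σ => ?_
    have s1 : sg (σ * (Equiv.swap (0 : Fin 4) 2 * Equiv.swap 1 3)) = sg σ := by
      unfold sg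
      rw [Equiv.Perm.sign_mul, Equiv.Perm.sign_mul, Equiv.Perm.sign_swap (by decide),
        Equiv.Perm.sign_swap (by decide)]
      simp
    rw [Equiv.coe_mulRight, s1]
    have t0 : (Equiv.swap (0 : Fin 4) 2 * Equiv.swap 1 3 : Equiv.Perm (Fin 4)) 0 = 2 := by decide
    have t1 : (Equiv.swap (0 : Fin 4) 2 * Equiv.swap 1 3 : Equiv.Perm (Fin 4)) 1 = 3 := by decide
    have t2 : (Equiv.swap (0 : Fin 4) 2 * Equiv.swap 1 3 : Equiv.Perm (Fin 4)) 2 = 0 := by decide
    have t3 : (Equiv.swap (0 : Fin 4) 2 * Equiv.swap 1 3 : Equiv.Perm (Fin 4)) 3 = 1 := by decide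
    rw [Equiv.Perm.mul_apply σ, Equiv.Perm.mul_apply σ, Equiv.Perm.mul_apply σ,
      Equiv.Perm.mul_apply σ, t0, t1, t2, t3]
    ring
  have h3 : ∑ σ : Equiv.Perm (Fin 4), sg σ * ((∑ a, conj (x (σ 0) a) * x (σ 1) a) *
        (∑ a, conj (x (σ 2) a) * x (σ 3) a)) =
      ∑ a, ∑ c, ∑ σ : Equiv.Perm (Fin 4), sg σ * ((conj (x (σ 0) a) * x (σ 1) a) *
        (conj (x (σ 2) c) * x (σ 3) c)) := by
    simp only [Fin.sum_univ_two, ← Finset.sum_add_distrib]
    refine Finset.sum_congr rfl fun σ _ => ?_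
    ring
  rw [h3]
  simp only [h0, Fin.sum_univ_two, h1, h2, det4]
  ring

/-! ### the integrals -/

section main

variable {Z : Type} [NormedAddCommGroup Z] [InnerProductSpace ℂ Z] [FiniteDimensional ℂ Z]
variable {Y : Type} [NormedAddCommGroup Y] [InnerProductSpace ℂ Y] [FiniteDimensional ℂ Y]

lemma exists_iso (B : Z →L[ℂ] Y) (hB : Function.Injective B) :
    ∃ (V : Z →ₗᵢ[ℂ] Y) (g : Z ≃ₗ[ℂ] Z), ∀ y, B (g y) = V y := by
  set R := LinearMap.range (B : Z →ₗ[ℂ] Y) with hR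
  have h1 : finrank ℂ R = finrank ℂ Z :=
    LinearMap.finrank_range_of_inj (f := (B : Z →ₗ[ℂ] Y)) hB
  set V' : Z ≃ₗᵢ[ℂ] R := (stdOrthonormalBasis ℂ Z).equiv (stdOrthonormalBasis ℂ R)
    (finCongr h1.symm) with hV'
  set Bi : Z ≃ₗ[ℂ] R := LinearEquiv.ofInjective (B : Z →ₗ[ℂ] Y) hB with hBi
  refine ⟨R.subtypeₗᵢ.comp V'.toLinearIsometry, V'.toLinearEquiv.trans Bi.symm, fun y => ?_⟩
  have h2 : ((Bi (Bi.symm (V' y)) : R) : Y) = B (Bi.symm (V' y)) := rfl
  rw [Bi.apply_symm_apply] at h2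
  exact h2.symm

/-- `C_ij = g* B_i* (1 - V V*) B_j g`. -/
def Cij (V : Z →ₗᵢ[ℂ] Y) (g : Z →L[ℂ] Z) (Bi Bj : Z →L[ℂ] Y) : Z →L[ℂ] Z :=
  g.adjoint ∘L Bi.adjoint ∘L (Bj - V.toContinuousLinearMap ∘L V.toContinuousLinearMap.adjoint ∘L Bj)
    ∘L g

lemma inner_Cij (V : Z →ₗᵢ[ℂ] Y) (g : Z →L[ℂ] Z) (Bi Bj : Z →L[ℂ] Y) (y : Z) :
    ⟪y, Cij V g Bi Bj y⟫_ℂ = ⟪Bi (g y), Bj (g y) -
      V.toContinuousLinearMap (V.toContinuousLinearMap.adjoint (Bj (g y)))⟫_ℂ := by
  unfold Cij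
  simp only [ContinuousLinearMap.comp_apply, ContinuousLinearMap.adjoint_inner_right,
    _root_.sub_apply]

lemma inverse_eq (B : Z →L[ℂ] Y) (V : Z →ₗᵢ[ℂ] Y) (g : Z ≃L[ℂ] Z) (h : ∀ y, B (g y) = V y) :
    Ring.inverse (B.adjoint ∘L B) = (g : Z →L[ℂ] Z) ∘L (g : Z →L[ℂ] Z).adjoint := by
  set gc : Z →L[ℂ] Z := (g : Z →L[ℂ] Z) with hgc
  set hc : Z →L[ℂ] Z := (g.symm : Z →L[ℂ] Z) with hhc
  have g1 : gc ∘L hc = ContinuousLinearMap.id ℂ Z := g.coe_comp_coe_symm
  have g2 : hc ∘L gc = ContinuousLinearMap.id ℂ Z := g.coe_symm_comp_coe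
  have g3 : hc.adjoint ∘L gc.adjoint = ContinuousLinearMap.id ℂ Z := by
    rw [← ContinuousLinearMap.adjoint_comp, g1, ContinuousLinearMap.adjoint_id]
  have g4 : gc.adjoint ∘L hc.adjoint = ContinuousLinearMap.id ℂ Z := by
    rw [← ContinuousLinearMap.adjoint_comp, g2, ContinuousLinearMap.adjoint_id]
  have hV : V.toContinuousLinearMap.adjoint ∘L V.toContinuousLinearMap =
      ContinuousLinearMap.id ℂ Z :=
    (ContinuousLinearMap.norm_map_iff_adjoint_comp_self _).1 V.norm_map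
  have hBV : B = V.toContinuousLinearMap ∘L hc := by
    refine ContinuousLinearMap.ext fun z => ?_
    have := h (g.symm z)
    rw [g.apply_symm_apply] at this
    exact this
  have hBB : B.adjoint ∘L B = hc.adjoint ∘L hc := by
    rw [hBV, ContinuousLinearMap.adjoint_comp]
    calc (hc.adjoint ∘L V.toContinuousLinearMap.adjoint) ∘L V.toContinuousLinearMap ∘L hc
        = hc.adjoint ∘L (V.toContinuousLinearMap.adjoint ∘L V.toContinuousLinearMap) ∘L hc := rfl
      _ = _ := by rw [hV]; rfl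
  have k1 : (B.adjoint ∘L B) * (gc ∘L gc.adjoint) = 1 := by
    rw [hBB]
    calc (hc.adjoint ∘L hc) * (gc ∘L gc.adjoint)
        = hc.adjoint ∘L (hc ∘L gc) ∘L gc.adjoint := rfl
      _ = hc.adjoint ∘L gc.adjoint := by rw [g2]; rfl
      _ = 1 := g3
  have k2 : (gc ∘L gc.adjoint) * (B.adjoint ∘L B) = 1 := by
    rw [hBB]
    calc (gc ∘L gc.adjoint) * (hc.adjoint ∘L hc)
        = gc ∘L (gc.adjoint ∘L hc.adjoint) ∘L hc := rfl
      _ = gc ∘L hc := by rw [g4]; rfl
      _ = 1 := g1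
  exact Ring.inverse_unit (⟨B.adjoint ∘L B, gc ∘L gc.adjoint, k1, k2⟩ : (Z →L[ℂ] Z)ˣ)

lemma Xij_eq (B : Z →L[ℂ] Y) (V : Z →ₗᵢ[ℂ] Y) (g : Z ≃L[ℂ] Z) (h : ∀ y, B (g y) = V y)
    (Bi Bj : Z →L[ℂ] Y) :
    Xij B Bi Bj = (g : Z →L[ℂ] Z) ∘L (g : Z →L[ℂ] Z).adjoint ∘L Bi.adjoint ∘L
      (Bj - V.toContinuousLinearMap ∘L V.toContinuousLinearMap.adjoint ∘L Bj) := by
  have hV : V.toContinuousLinearMap = B ∘L (g : Z →L[ℂ] Z) := by
    refine ContinuousLinearMap.ext fun z => ?_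
    exact (h z).symm
  have h1 : Xij B Bi Bj = Ring.inverse (B.adjoint ∘L B) ∘L Bi.adjoint ∘L
      (Bj - B ∘L Ring.inverse (B.adjoint ∘L B) ∘L B.adjoint ∘L Bj) := rfl
  rw [h1, inverse_eq B V g h, hV, ContinuousLinearMap.adjoint_comp]
  rfl

lemma trace_Cij (B : Z →L[ℂ] Y) (V : Z →ₗᵢ[ℂ] Y) (g : Z ≃L[ℂ] Z) (h : ∀ y, B (g y) = V y)
    (Bi Bj : Z →L[ℂ] Y) :
    LinearMap.trace ℂ Z (Cij V g Bi Bj : Z →ₗ[ℂ] Z) = tr (Xij B Bi Bj) := by
  unfold tr
  rw [Xij_eq B V g h]
  set A : Z →L[ℂ] Z := (g : Z →L[ℂ] Z).adjoint ∘L Bi.adjoint ∘L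
      (Bj - V.toContinuousLinearMap ∘L V.toContinuousLinearMap.adjoint ∘L Bj) with hA
  exact LinearMap.trace_mul_comm ℂ (A : Z →ₗ[ℂ] Z) ((g : Z →L[ℂ] Z) : Z →ₗ[ℂ] Z)

lemma trace_Cij2 (B : Z →L[ℂ] Y) (V : Z →ₗᵢ[ℂ] Y) (g : Z ≃L[ℂ] Z) (h : ∀ y, B (g y) = V y)
    (Bi Bj Bk Bl : Z →L[ℂ] Y) :
    LinearMap.trace ℂ Z ((Cij V g Bi Bj : Z →ₗ[ℂ] Z) ∘ₗ (Cij V g Bk Bl : Z →ₗ[ℂ] Z)) =
      tr (Xij B Bi Bj ∘L Xij B Bk Bl) := by
  unfold tr
  rw [Xij_eq B V g h, Xij_eq B V g h]
  set A : Z →L[ℂ] Z := (g : Z →L[ℂ] Z).adjoint ∘L Bi.adjoint ∘L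
      (Bj - V.toContinuousLinearMap ∘L V.toContinuousLinearMap.adjoint ∘L Bj) with hA
  set A' : Z →L[ℂ] Z := (g : Z →L[ℂ] Z).adjoint ∘L Bk.adjoint ∘L
      (Bl - V.toContinuousLinearMap ∘L V.toContinuousLinearMap.adjoint ∘L Bl) with hA'
  exact LinearMap.trace_mul_comm ℂ (((A ∘L (g : Z →L[ℂ] Z) ∘L A' : Z →L[ℂ] Z)) : Z →ₗ[ℂ] Z)
    ((g : Z →L[ℂ] Z) : Z →ₗ[ℂ] Z)

variable [MeasurableSpace Z] [BorelSpace Z] {b M : ℕ}

/-- the integrand after the change of variables. -/
theorem core (μ : Measure Z) [μ.IsAddHaarMeasure] (J : (Fin b → ℝ) ≃ₗ[ℝ] (Fin M → ℂ))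
    (e : Y ≃L[ℝ] (Fin b → ℝ) × Z) (B : Z →L[ℂ] Y) (Bj : Fin b → Z →L[ℂ] Y)
    (V : Z →ₗᵢ[ℂ] Y) (g : Z ≃ₗ[ℂ] Z) (h : ∀ y, B (g y) = V y)
    {G : ((Fin M → ℂ) × Z) ≃ₗ[ℂ] Y} (hG : Adapted M V G) (I0 : ℂ)
    (hint : Integrable (fun y : Z =>
      ((Matrix.det (Matrix.of fun i j => J.symm ((G.symm (Bj j (g y))).1) i) : ℝ) : ℂ) *
        (Real.exp (-‖y‖ ^ 2) : ℂ)) μ)
    (hI : ∫ y : Z, ((Matrix.det (Matrix.of fun i j => J.symm ((G.symm (Bj j (g y))).1) i) : ℝ) : ℂ) *
        (Real.exp (-‖y‖ ^ 2) : ℂ) ∂μ = I0) :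
    Integrable (fun z => Real.exp (-‖B z‖ ^ 2) *
        LinearMap.det ((e : Y →L[ℝ] (Fin b → ℝ) × Z) ∘L tot B Bj z :
          ((Fin b → ℝ) × Z) →ₗ[ℝ] (Fin b → ℝ) × Z)) μ ∧
      ((∫ z, Real.exp (-‖B z‖ ^ 2) *
        LinearMap.det ((e : Y →L[ℝ] (Fin b → ℝ) × Z) ∘L tot B Bj z :
          ((Fin b → ℝ) × Z) →ₗ[ℝ] (Fin b → ℝ) × Z) ∂μ : ℝ) : ℂ) =
      ((LinearMap.det (egj J e G : ((Fin b → ℝ) × Z) →ₗ[ℝ] ((Fin b → ℝ) × Z)) : ℝ) : ℂ) * I0 := by
  set Dl : Z → ℝ := fun y => Matrix.det (Matrix.of fun i j => J.symm ((G.symm (Bj j (g y))).1) i)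
    with hDl
  set ce := LinearMap.det (egj J e G : ((Fin b → ℝ) × Z) →ₗ[ℝ] ((Fin b → ℝ) × Z)) with hce
  set dg := LinearMap.det ((g : Z →ₗ[ℂ] Z).restrictScalars ℝ) with hdg
  have hdgpos : 0 < dg := det_pos g
  set gr : Z ≃ₗ[ℝ] Z := g.restrictScalars ℝ with hgr
  have hdgr : LinearMap.det (gr : Z →ₗ[ℝ] Z) = dg := rfl
  set F : Z → ℝ := fun z => Real.exp (-‖B z‖ ^ 2) *
        LinearMap.det ((e : Y →L[ℝ] (Fin b → ℝ) × Z) ∘L tot B Bj z :
          ((Fin b → ℝ) × Z) →ₗ[ℝ] (Fin b → ℝ) × Z) with hF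
  have hdet : ∀ z, LinearMap.det ((e : Y →L[ℝ] (Fin b → ℝ) × Z) ∘L tot B Bj z :
          ((Fin b → ℝ) × Z) →ₗ[ℝ] (Fin b → ℝ) × Z) * dg =
      ce * Matrix.det (Matrix.of fun i j => J.symm ((G.symm (Bj j z)).1) i) := by
    intro z
    rw [← det_tot J e hG Bj z]
    have e1 : ((e : Y →L[ℝ] (Fin b → ℝ) × Z) ∘L tot V.toContinuousLinearMap Bj z :
          ((Fin b → ℝ) × Z) →ₗ[ℝ] (Fin b → ℝ) × Z) =
        ((e : Y →L[ℝ] (Fin b → ℝ) × Z) ∘L tot B Bj z :
          ((Fin b → ℝ) × Z) →ₗ[ℝ] (Fin b → ℝ) × Z) * (LinearMap.id.prodMap (gr : Z →ₗ[ℝ] Z)) := by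
      refine LinearMap.ext fun p => ?_
      rw [Module.End.mul_apply, LinearMap.prodMap_apply]
      change e (tot V.toContinuousLinearMap Bj z p) = e (tot B Bj z (p.1, g p.2))
      rw [tot_apply, tot_apply]
      congr 2
      exact (h p.2).symm
    rw [e1, map_mul, LinearMap.det_prodMap, LinearMap.det_id, hdgr, one_mul]
  have hFg : ∀ y, F (g y) = (ce / dg) * (Dl y * Real.exp (-‖y‖ ^ 2)) := by
    intro y
    have h1 : ‖B (g y)‖ = ‖y‖ := by rw [h, V.norm_map]
    have h2 := hdet (g y)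
    simp only [hF, h1]
    have h3 : LinearMap.det ((e : Y →L[ℝ] (Fin b → ℝ) × Z) ∘L tot B Bj (g y) :
          ((Fin b → ℝ) × Z) →ₗ[ℝ] (Fin b → ℝ) × Z) = ce / dg * Dl y := by
      rw [eq_comm, div_mul_eq_mul_div, div_eq_iff hdgpos.ne', ← h2]
    rw [h3]
    ring
  have hcast : (fun y : Z => ((Dl y : ℝ) : ℂ) * (Real.exp (-‖y‖ ^ 2) : ℂ)) =
      fun y => ((Dl y * Real.exp (-‖y‖ ^ 2) : ℝ) : ℂ) := by
    funext y
    push_cast
    rfl
  have hr : Integrable (fun y : Z => Dl y * Real.exp (-‖y‖ ^ 2)) μ := by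
    have h4 : Integrable (fun y : Z => ((Dl y * Real.exp (-‖y‖ ^ 2) : ℝ) : ℂ)) μ := by
      rw [← hcast]
      exact hint
    exact h4.re
  have hI2 : ((∫ y : Z, Dl y * Real.exp (-‖y‖ ^ 2) ∂μ : ℝ) : ℂ) = I0 := by
    rw [← hI, ← integral_complex_ofReal]
    exact congrArg (fun f : Z → ℂ => ∫ y, f y ∂μ) hcast.symm
  have hFgi : Integrable (fun y => F (gr y)) μ := by
    have : (fun y => F (gr y)) = fun y => (ce / dg) * (Dl y * Real.exp (-‖y‖ ^ 2)) := funext hFg
    rw [this]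
    exact hr.const_mul _
  obtain ⟨k1, k2⟩ := integral_comp_lin μ gr F hFgi
  refine ⟨k1, ?_⟩
  rw [k2, hdgr, abs_of_pos hdgpos]
  have h6 : ∫ y, F (gr y) ∂μ = (ce / dg) * ∫ y : Z, Dl y * Real.exp (-‖y‖ ^ 2) ∂μ := by
    rw [← integral_const_mul]
    exact congrArg (fun f : Z → ℝ => ∫ y, f y ∂μ) (funext hFg)
  rw [h6, ← hI2]
  push_cast
  have : (dg : ℂ) ≠ 0 := by exact_mod_cast hdgpos.ne'
  field_simp

lemma egj_ne (J : (Fin b → ℝ) ≃ₗ[ℝ] (Fin M → ℂ)) (e : Y ≃L[ℝ] (Fin b → ℝ) × Z)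
    (G : ((Fin M → ℂ) × Z) ≃ₗ[ℂ] Y) :
    LinearMap.det (egj J e G : ((Fin b → ℝ) × Z) →ₗ[ℝ] ((Fin b → ℝ) × Z)) ≠ 0 :=
  (egj J e G).isUnit_det'.ne_zero

end main

theorem gauss2 : GAUSS2 := by
  intro Z Y _ _ _ _ _ _ _ _ μ _ hdim e
  obtain ⟨c, hc, m1, -⟩ := moments (Z := Z) μ
  rcases isEmpty_or_nonempty (Z →ₗᵢ[ℂ] Y) with hempty | ⟨⟨V0⟩⟩
  · exact ⟨1, one_ne_zero, fun B _ hB => (hempty.false (exists_iso B hB).choose).elim⟩
  obtain ⟨G0, hG0⟩ := exists_adapted hdim V0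
  refine ⟨LinearMap.det (egj J2 e G0 : ((Fin 2 → ℝ) × Z) →ₗ[ℝ] ((Fin 2 → ℝ) × Z)) * (-(1 / 2) * c),
    mul_ne_zero (egj_ne J2 e G0) (mul_ne_zero (by norm_num) hc.ne'), fun B Bj hB => ?_⟩
  obtain ⟨V, g, h⟩ := exists_iso B hB
  obtain ⟨G, hG⟩ := exists_adapted hdim V
  set gc : Z ≃L[ℂ] Z := g.toContinuousLinearEquiv with hgc
  have hx : ∀ y i j, ∑ a, conj ((G.symm (Bj i (g y))).1 a) * (G.symm (Bj j (g y))).1 a =
      ⟪y, (Cij V gc (Bj i) (Bj j) : Z →ₗ[ℂ] Z) y⟫_ℂ := by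
    intro y i j
    rw [hG.inner_fst]
    exact (inner_Cij V gc (Bj i) (Bj j) y).symm
  have hD : ∀ y : Z,
      ((Matrix.det (Matrix.of fun i j => J2.symm ((G.symm (Bj j (g y))).1) i) : ℝ) : ℂ) *
        (Real.exp (-‖y‖ ^ 2) : ℂ) =
      ∑ σ : Equiv.Perm (Fin 2), -(I / 2) * sg σ *
        (⟪y, (Cij V gc (Bj (σ 0)) (Bj (σ 1)) : Z →ₗ[ℂ] Z) y⟫_ℂ * (Real.exp (-‖y‖ ^ 2) : ℂ)) := by
    intro y
    rw [sum2, Finset.mul_sum, Finset.sum_mul]
    refine Finset.sum_congr rfl fun σ _ => ?_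
    rw [hx]
    ring
  obtain ⟨k1, k2⟩ := core μ J2 e B Bj V g h hG _ (by
    simp_rw [hD]
    exact integrable_finsetSum _ fun σ _ => ((m1 _).1.const_mul _)) rfl
  refine ⟨k1, ?_⟩
  rw [k2]
  simp_rw [hD]
  rw [integral_finsetSum _ fun σ _ => ((m1 _).1.const_mul _)]
  simp_rw [integral_const_mul, (m1 _).2, trace_Cij B V gc h]
  rw [det_const J2 e hG hG0]
  push_cast
  rw [Finset.mul_sum, Finset.mul_sum, Finset.mul_sum]
  refine Finset.sum_congr rfl fun σ _ => ?_
  ring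

theorem gauss4 : GAUSS4 := by
  intro Z Y _ _ _ _ _ _ _ _ μ _ hdim e
  obtain ⟨c, hc, -, m2⟩ := moments (Z := Z) μ
  rcases isEmpty_or_nonempty (Z →ₗᵢ[ℂ] Y) with hempty | ⟨⟨V0⟩⟩
  · exact ⟨1, one_ne_zero, fun B _ hB => (hempty.false (exists_iso B hB).choose).elim⟩
  obtain ⟨G0, hG0⟩ := exists_adapted hdim V0
  refine ⟨LinearMap.det (egj J4 e G0 : ((Fin 4 → ℝ) × Z) →ₗ[ℝ] ((Fin 4 → ℝ) × Z)) * (-(1 / 8) * c),
    mul_ne_zero (egj_ne J4 e G0) (mul_ne_zero (by norm_num) hc.ne'), fun B Bj hB => ?_⟩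
  obtain ⟨V, g, h⟩ := exists_iso B hB
  obtain ⟨G, hG⟩ := exists_adapted hdim V
  set gc : Z ≃L[ℂ] Z := g.toContinuousLinearEquiv with hgc
  have hx : ∀ y i j, ∑ a, conj ((G.symm (Bj i (g y))).1 a) * (G.symm (Bj j (g y))).1 a =
      ⟪y, (Cij V gc (Bj i) (Bj j) : Z →ₗ[ℂ] Z) y⟫_ℂ := by
    intro y i j
    rw [hG.inner_fst]
    exact (inner_Cij V gc (Bj i) (Bj j) y).symm
  have hD : ∀ y : Z,
      ((Matrix.det (Matrix.of fun i j => J4.symm ((G.symm (Bj j (g y))).1) i) : ℝ) : ℂ) *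
        (Real.exp (-‖y‖ ^ 2) : ℂ) =
      ∑ σ : Equiv.Perm (Fin 4), -(1 / 8) * sg σ *
        (⟪y, (Cij V gc (Bj (σ 0)) (Bj (σ 1)) : Z →ₗ[ℂ] Z) y⟫_ℂ *
          ⟪y, (Cij V gc (Bj (σ 2)) (Bj (σ 3)) : Z →ₗ[ℂ] Z) y⟫_ℂ * (Real.exp (-‖y‖ ^ 2) : ℂ)) := by
    intro y
    rw [sum4, Finset.mul_sum, Finset.sum_mul]
    refine Finset.sum_congr rfl fun σ _ => ?_
    rw [hx, hx]
    ring
  obtain ⟨k1, k2⟩ := core μ J4 e B Bj V g h hG _ (by
    simp_rw [hD]
    exact integrable_finsetSum _ fun σ _ => ((m2 _ _).1.const_mul _)) rfl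
  refine ⟨k1, ?_⟩
  rw [k2]
  simp_rw [hD]
  rw [integral_finsetSum _ fun σ _ => ((m2 _ _).1.const_mul _)]
  simp_rw [integral_const_mul, (m2 _ _).2, trace_Cij B V gc h, trace_Cij2 B V gc h]
  rw [det_const J4 e hG hG0]
  push_cast
  rw [Finset.mul_sum, Finset.mul_sum]
  refine Finset.sum_congr rfl fun σ _ => ?_
  ring

end

end Crest.Agent.R235.FamGaussD_355
end

-- ▼ part R235/FamFin_143
section

/-!
Row 235 (S0364), package FAM (helper143): FIN4 and FINH4 of `FamW_307` from FDS2, FDS4, FDH4, FOUR.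

* `ww P i j = tr (P [d_iP, d_jP])` is closed, periodic, antisymmetric (`ww_cl`, `tr_odd`);
* `int_red` : its integral over the cube is the integral over the slice `h_k = 1/2`;
* `slice`   : no zeros over the slice ⇒ `∫ ww P i j = 0` (FDS2);
* `fin4_of`, `finh4_of`.
-/

set_option autoImplicit false
set_option maxSynthPendingDepth 3
set_option linter.unusedSectionVars false
set_option linter.unusedVariables false

open Set Filter Module MeasureTheory Function
open scoped ContDiff Topology InnerProductSpace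

namespace Crest.Agent.R235.FamFin_143

open FamDefs_307 FamW_307 FdsF_143 FdsE_143

noncomputable section

section forms

variable {H : Type*} [NormedAddCommGroup H] [InnerProductSpace ℂ H] [FiniteDimensional ℂ H]

/-- the trace as a real linear map. -/
def trL : (H →L[ℂ] H) →L[ℝ] ℂ :=
  { toFun := tr
    map_add' := fun X Y => by unfold tr; simp
    map_smul' := fun c X => by
      have h : ((c • X : H →L[ℂ] H) : H →ₗ[ℂ] H) = (c : ℂ) • (X : H →ₗ[ℂ] H) := by
        ext x; simp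
      unfold tr
      rw [h, map_smul]; simp
    cont := tr_cont }

@[simp] lemma trL_apply (X : H →L[ℂ] H) : trL X = tr X := rfl

lemma tr_add (X Y : H →L[ℂ] H) : tr (X + Y) = tr X + tr Y := trL.map_add X Y
lemma tr_sub (X Y : H →L[ℂ] H) : tr (X - Y) = tr X - tr Y := trL.map_sub X Y
lemma tr_mul (X Y : H →L[ℂ] H) : tr (X * Y) = tr (Y * X) := tr_comm X Y

/-- the trace of a product of three odd operators vanishes. -/
lemma tr_odd {P A B C : H →L[ℂ] H} (hP : P * P = P) (hA : A * P + P * A = A)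
    (hB : B * P + P * B = B) (hC : C * P + P * C = C) : tr (A * B * C) = 0 := by
  have h1 : A * B * C * P = A * B * C - P * (A * B * C) := by
    have e1 : C * P = C - P * C := eq_sub_of_add_eq hC
    have e2 : B * P = B - P * B := eq_sub_of_add_eq hB
    have e3 : A * P = A - P * A := eq_sub_of_add_eq hA
    calc A * B * C * P = A * B * (C * P) := by rw [mul_assoc]
      _ = A * B * C - A * (B * P) * C := by rw [e1]; noncomm_ring
      _ = A * P * (B * C) := by rw [e2]; noncomm_ring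
      _ = A * B * C - P * (A * B * C) := by rw [e3]; noncomm_ring
  have h2 : tr (A * B * C * P) = 0 := by
    have h3 : tr (A * B * C * P) = tr (P * (A * B * C * P)) := by
      rw [tr_mul P, mul_assoc (A * B * C) P P, hP]
    rw [h3, h1, mul_sub, ← mul_assoc P P, hP, sub_self]
    exact trL.map_zero
  have h4 : tr (P * (A * B * C)) = 0 := by rw [← tr_mul]; exact h2
  have h5 := congrArg tr h1
  rw [tr_sub, h2, h4, sub_zero] at h5
  exact h5.symm

variable {n : ℕ}

lemma two_le : (2 : ℕ∞ω) ≤ ∞ := ENat.LEInfty.out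

/-- smooth periodic families of idempotents. -/
structure PS (P : (Fin n → ℝ) → H →L[ℂ] H) : Prop where
  smooth : ContDiff ℝ ∞ P
  per : ∀ (h : Fin n → ℝ) (k : Fin n → ℤ), P (fun i => h i + k i) = P h
  idem : ∀ h, P h * P h = P h

/-- `tr (P [d_iP, d_jP])`. -/
def ww (P : (Fin n → ℝ) → H →L[ℂ] H) (i j : Fin n) (h : Fin n → ℝ) : ℂ :=
  tr (P h * (pdθ i P h * pdθ j P h - pdθ j P h * pdθ i P h))

lemma pd_smooth {V : Type*} [NormedAddCommGroup V] [NormedSpace ℝ V] {P : (Fin n → ℝ) → V}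
    (hP : ContDiff ℝ ∞ P) (i : Fin n) : ContDiff ℝ ∞ (pdθ i P) :=
  (hP.fderiv_right (m := ∞) (by exact le_rfl)).clm_apply contDiff_const

lemma pd_symm {V : Type*} [NormedAddCommGroup V] [NormedSpace ℝ V] {P : (Fin n → ℝ) → V}
    (hP : ContDiff ℝ ∞ P) (i j : Fin n) (h : Fin n → ℝ) :
    pdθ i (pdθ j P) h = pdθ j (pdθ i P) h := by
  have h1 : ∀ (i j : Fin n), pdθ i (pdθ j P) h =
      fderiv ℝ (fderiv ℝ P) h (Pi.single i 1) (Pi.single j 1) := by
    intro i j
    have h2 : DifferentiableAt ℝ (fderiv ℝ P) h :=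
      ((hP.fderiv_right (m := 1) (by rw [one_add_one_eq_two]; exact two_le)).differentiable (by simp)) h
    have h3 : pdθ j P = fun x => fderiv ℝ P x (Pi.single j 1) := rfl
    unfold pdθ
    rw [fderiv_clm_apply h2 (differentiableAt_const _)]
    simp
  rw [h1, h1]
  have h4 : IsSymmSndFDerivAt ℝ P h :=
    hP.contDiffAt.isSymmSndFDerivAt (by simp; exact two_le)
  exact h4.eq _ _

lemma mul_contDiff {P Q : (Fin n → ℝ) → H →L[ℂ] H} {k : ℕ∞ω} (hP : ContDiff ℝ k P)
    (hQ : ContDiff ℝ k Q) : ContDiff ℝ k (fun x => P x * Q x) :=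
  comp_contDiff hP hQ

lemma mul_fderiv {P Q : (Fin n → ℝ) → H →L[ℂ] H} {h : Fin n → ℝ} (hP : DifferentiableAt ℝ P h)
    (hQ : DifferentiableAt ℝ Q h) (v : Fin n → ℝ) :
    fderiv ℝ (fun x => P x * Q x) h v = P h * fderiv ℝ Q h v + fderiv ℝ P h v * Q h :=
  comp_fderiv hP hQ v

lemma ww_smooth {P : (Fin n → ℝ) → H →L[ℂ] H} (hP : ContDiff ℝ ∞ P) (i j : Fin n) :
    ContDiff ℝ ∞ (ww P i j) := by
  have h1 := pd_smooth hP i
  have h2 := pd_smooth hP j
  exact trL.contDiff.comp (mul_contDiff hP ((mul_contDiff h1 h2).sub (mul_contDiff h2 h1)))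

lemma ww_alt (P : (Fin n → ℝ) → H →L[ℂ] H) (i j : Fin n) (h : Fin n → ℝ) :
    ww P i j h = - ww P j i h := by
  unfold ww
  rw [← neg_sub (pdθ j P h * pdθ i P h), mul_neg]
  exact map_neg (trL (H := H)) _

lemma PS.ww_per {P : (Fin n → ℝ) → H →L[ℂ] H} (hP : PS P) (i j : Fin n) (h : Fin n → ℝ)
    (k : Fin n → ℤ) : ww P i j (fun l => h l + k l) = ww P i j h := by
  unfold ww
  rw [hP.per, pd_per hP.per, pd_per hP.per]

lemma PS.odd {P : (Fin n → ℝ) → H →L[ℂ] H} (hP : PS P) (i : Fin n) (h : Fin n → ℝ) :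
    pdθ i P h * P h + P h * pdθ i P h = pdθ i P h := by
  have hd : DifferentiableAt ℝ P h := hP.smooth.contDiffAt.differentiableAt (by simp)
  have h1 := mul_fderiv hd hd (Pi.single i 1)
  have h2 : (fun x => P x * P x) = P := funext hP.idem
  rw [h2] at h1
  rw [add_comm]
  exact h1.symm

lemma ww_fderiv {P : (Fin n → ℝ) → H →L[ℂ] H} (hP : ContDiff ℝ ∞ P) (i j k : Fin n)
    (h : Fin n → ℝ) : fderiv ℝ (ww P i j) h (Pi.single k 1) =
      tr (P h * (pdθ i P h * pdθ k (pdθ j P) h + pdθ k (pdθ i P) h * pdθ j P h -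
        (pdθ j P h * pdθ k (pdθ i P) h + pdθ k (pdθ j P) h * pdθ i P h)) +
        pdθ k P h * (pdθ i P h * pdθ j P h - pdθ j P h * pdθ i P h)) := by
  have d0 : DifferentiableAt ℝ P h := hP.contDiffAt.differentiableAt (by simp)
  have di : ∀ i, DifferentiableAt ℝ (pdθ i P) h := fun i =>
    (pd_smooth hP i).contDiffAt.differentiableAt (by simp)
  have dm : ∀ i j, DifferentiableAt ℝ (fun x => pdθ i P x * pdθ j P x) h := fun i j =>
    (mul_contDiff (pd_smooth hP i) (pd_smooth hP j)).contDiffAt.differentiableAt (by simp)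
  have e1 : ww P i j = fun x => trL (P x * (pdθ i P x * pdθ j P x - pdθ j P x * pdθ i P x)) := rfl
  have d1 : DifferentiableAt ℝ
      (fun x => P x * (pdθ i P x * pdθ j P x - pdθ j P x * pdθ i P x)) h :=
    (mul_contDiff hP ((mul_contDiff (pd_smooth hP i) (pd_smooth hP j)).sub
      (mul_contDiff (pd_smooth hP j) (pd_smooth hP i)))).contDiffAt.differentiableAt (by simp)
  rw [e1, fderiv_fun_comp h trL.differentiableAt d1]
  simp only [ContinuousLinearMap.fderiv, ContinuousLinearMap.comp_apply, trL_apply]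
  rw [mul_fderiv d0 ((dm i j).fun_sub (dm j i)), fderiv_fun_sub (dm i j) (dm j i),
    sub_apply, mul_fderiv (di i) (di j), mul_fderiv (di j) (di i)]
  rfl

lemma PS.ww_cl {P : (Fin n → ℝ) → H →L[ℂ] H} (hP : PS P) (i j k : Fin n) (h : Fin n → ℝ) :
    fderiv ℝ (ww P j k) h (Pi.single i 1) + fderiv ℝ (ww P k i) h (Pi.single j 1) +
      fderiv ℝ (ww P i j) h (Pi.single k 1) = 0 := by
  rw [ww_fderiv hP.smooth, ww_fderiv hP.smooth, ww_fderiv hP.smooth, ← tr_add, ← tr_add,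
    pd_symm hP.smooth k j, pd_symm hP.smooth k i, pd_symm hP.smooth j i]
  set A := pdθ i P h
  set B := pdθ j P h
  set C := pdθ k P h
  set Q := P h
  have hA : A * Q + Q * A = A := hP.odd i h
  have hB : B * Q + Q * B = B := hP.odd j h
  have hC : C * Q + Q * C = C := hP.odd k h
  have hQ : Q * Q = Q := hP.idem h
  have e : ∀ X Y Z : H →L[ℂ] H,
      Q * (B * Y + X * C - (C * X + Y * B)) + A * (B * C - C * B) +
      (Q * (C * X + Z * A - (A * Z + X * C)) + B * (C * A - A * C)) +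
      (Q * (A * Z + Y * B - (B * Y + Z * A)) + C * (A * B - B * A)) =
      A * B * C - A * C * B + (B * C * A - B * A * C) + (C * A * B - C * B * A) := by
    intro X Y Z; noncomm_ring
  rw [e, tr_add, tr_add, tr_sub, tr_sub, tr_sub, tr_odd hQ hA hB hC, tr_odd hQ hA hC hB,
    tr_odd hQ hB hC hA, tr_odd hQ hB hA hC, tr_odd hQ hC hA hB, tr_odd hQ hC hB hA]
  simp

end forms

/-! ### slices -/

section slices

variable {V : Type*} [NormedAddCommGroup V] [NormedSpace ℝ V] {n : ℕ}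

/-- the linear part of `insertNth`. -/
def insL (k : Fin (n + 1)) : (Fin n → ℝ) →L[ℝ] (Fin (n + 1) → ℝ) :=
  LinearMap.toContinuousLinearMap
    { toFun := fun y => k.insertNth (0 : ℝ) y
      map_add' := fun x y => by
        funext j
        refine Fin.succAboveCases k ?_ (fun i => ?_) j <;> simp
      map_smul' := fun c y => by
        funext j
        refine Fin.succAboveCases k ?_ (fun i => ?_) j <;> simp }

lemma ins_eq (k : Fin (n + 1)) (c : ℝ) (y : Fin n → ℝ) :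
    (k.insertNth c y : Fin (n + 1) → ℝ) = insL k y + Pi.single k c := by
  funext j
  show _ = (k.insertNth (0 : ℝ) y : Fin (n + 1) → ℝ) j + (Pi.single k c : Fin (n + 1) → ℝ) j
  refine Fin.succAboveCases k ?_ (fun i => ?_) j <;> simp

lemma insL_single (k : Fin (n + 1)) (i : Fin n) :
    insL k (Pi.single i (1 : ℝ)) = Pi.single (k.succAbove i) 1 := by
  funext j
  show (k.insertNth (0 : ℝ) (Pi.single i (1 : ℝ)) : Fin (n + 1) → ℝ) j = _
  refine Fin.succAboveCases k ?_ (fun l => ?_) j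
  · simp
  · by_cases h : l = i
    · subst h; simp
    · simp [h]

lemma ins_hasFDerivAt (k : Fin (n + 1)) (c : ℝ) (y : Fin n → ℝ) :
    HasFDerivAt (fun y : Fin n → ℝ => (k.insertNth c y : Fin (n + 1) → ℝ)) (insL k) y := by
  have h : (fun y : Fin n → ℝ => (k.insertNth c y : Fin (n + 1) → ℝ)) =
      fun y => insL k y + Pi.single k c := funext fun y => ins_eq k c y
  rw [h]
  exact (insL k).hasFDerivAt.add_const _

lemma ins_contDiff (k : Fin (n + 1)) (c : ℝ) {m : ℕ∞ω} :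
    ContDiff ℝ m (fun y : Fin n → ℝ => (k.insertNth c y : Fin (n + 1) → ℝ)) := by
  have h : (fun y : Fin n → ℝ => (k.insertNth c y : Fin (n + 1) → ℝ)) =
      fun y => insL k y + Pi.single k c := funext fun y => ins_eq k c y
  rw [h]
  exact (insL k).contDiff.add contDiff_const

/-- restriction to the slice `h_k = 1/2`. -/
def rs (P : (Fin (n + 1) → ℝ) → V) (k : Fin (n + 1)) (y : Fin n → ℝ) : V :=
  P (k.insertNth (1 / 2 : ℝ) y)

lemma fderiv_ins {f : (Fin (n + 1) → ℝ) → V} (k : Fin (n + 1)) (c : ℝ) (y : Fin n → ℝ)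
    (hf : DifferentiableAt ℝ f (k.insertNth c y)) (i : Fin n) :
    fderiv ℝ (fun y : Fin n → ℝ => f (k.insertNth c y)) y (Pi.single i 1) =
      fderiv ℝ f (k.insertNth c y) (Pi.single (k.succAbove i) 1) := by
  have h := (hf.hasFDerivAt.comp y (ins_hasFDerivAt k c y)).fderiv
  have h2 : (f ∘ fun y : Fin n → ℝ => (k.insertNth c y : Fin (n + 1) → ℝ)) =
    fun y : Fin n → ℝ => f (k.insertNth c y) := rfl
  rw [h2] at h
  rw [h, ContinuousLinearMap.comp_apply, insL_single]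

lemma pd_rs {P : (Fin (n + 1) → ℝ) → V} (hP : ContDiff ℝ ∞ P) (k : Fin (n + 1)) (i : Fin n)
    (y : Fin n → ℝ) : pdθ i (rs P k) y = pdθ (k.succAbove i) P (k.insertNth (1 / 2 : ℝ) y) :=
  fderiv_ins k _ y (hP.contDiffAt.differentiableAt (by simp)) i

lemma ins_add (k : Fin (n + 1)) (c : ℝ) (y : Fin n → ℝ) (κ : Fin n → ℤ) :
    (k.insertNth c (fun i => y i + κ i) : Fin (n + 1) → ℝ) =
      fun i => (k.insertNth c y : Fin (n + 1) → ℝ) i +
        ((k.insertNth (0 : ℤ) κ : Fin (n + 1) → ℤ) i : ℝ) := by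
  funext j
  refine Fin.succAboveCases k ?_ (fun i => ?_) j <;> simp

lemma rs_per {P : (Fin (n + 1) → ℝ) → V}
    (hper : ∀ (h : Fin (n + 1) → ℝ) (k : Fin (n + 1) → ℤ), P (fun i => h i + k i) = P h)
    (k : Fin (n + 1)) (y : Fin n → ℝ) (κ : Fin n → ℤ) :
    rs P k (fun i => y i + κ i) = rs P k y := by
  unfold rs
  rw [ins_add, hper]

end slices

section red

variable {H : Type*} [NormedAddCommGroup H] [InnerProductSpace ℂ H] [FiniteDimensional ℂ H]

lemma PS.rs {n : ℕ} {P : (Fin (n + 1) → ℝ) → H →L[ℂ] H} (hP : PS P) (k : Fin (n + 1)) :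
    PS (rs P k) where
  smooth := hP.smooth.comp (ins_contDiff k _)
  per := rs_per hP.per k
  idem y := hP.idem _

lemma ww_rs {n : ℕ} {P : (Fin (n + 1) → ℝ) → H →L[ℂ] H} (hP : PS P) (k : Fin (n + 1))
    (i j : Fin n) (y : Fin n → ℝ) : ww (FamFin_143.rs P k) i j y =
      ww P (k.succAbove i) (k.succAbove j) (k.insertNth (1 / 2 : ℝ) y) := by
  unfold ww
  rw [pd_rs hP.smooth, pd_rs hP.smooth]
  rfl

lemma int_cont {n : ℕ} {f : (Fin n → ℝ) → ℂ} (hf : Continuous f) :
    Integrable f (volume.restrict (Icc (0 : Fin n → ℝ) 1)) :=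
  hf.continuousOn.integrableOn_compact isCompact_Icc

lemma per_single {n : ℕ} {V : Type*} {f : (Fin n → ℝ) → V}
    (h : ∀ (x : Fin n → ℝ) (k : Fin n → ℤ), f (fun l => x l + k l) = f x) (i : Fin n)
    (x : Fin n → ℝ) : f (x + Pi.single i 1) = f x := by
  have h1 := h x (Pi.single i 1)
  rw [← h1]
  congr 1
  funext l
  by_cases hl : l = i
  · subst hl; simp
  · simp [hl]

/-- the slice integral does not depend on the slice. -/
lemma const_slice {n : ℕ} {P : (Fin (n + 2) → ℝ) → H →L[ℂ] H} (hP : PS P) (k : Fin (n + 2))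
    (i j : Fin (n + 1)) (t : ℝ) :
    ∫ y in Icc (0 : Fin (n + 1) → ℝ) 1, ww P (k.succAbove i) (k.succAbove j) (k.insertNth t y) =
    ∫ y in Icc (0 : Fin (n + 1) → ℝ) 1,
      ww P (k.succAbove i) (k.succAbove j) (k.insertNth (1 / 2 : ℝ) y) := by
  set a := k.succAbove i with ha
  set b := k.succAbove j with hb
  have hs : ∀ i j, ContDiff ℝ ∞ (ww P i j) := fun i j => ww_smooth hP.smooth i j
  have hdiff : ∀ i j x, DifferentiableAt ℝ (ww P i j) x := fun i j x =>
    (hs i j).contDiffAt.differentiableAt (by simp)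
  have hcins : Continuous fun p : ℝ × (Fin (n + 1) → ℝ) =>
      (k.insertNth p.1 p.2 : Fin (n + 2) → ℝ) := by
    have h : (fun p : ℝ × (Fin (n + 1) → ℝ) => (k.insertNth p.1 p.2 : Fin (n + 2) → ℝ)) =
        fun p => insL k p.2 + Pi.single k p.1 := funext fun p => ins_eq k p.1 p.2
    rw [h]
    exact ((insL k).continuous.comp continuous_snd).add
      ((continuous_single k).comp continuous_fst)
  have hcd : ∀ i j v, Continuous fun x => fderiv ℝ (ww P i j) x v := fun i j v =>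
    ((hs i j).continuous_fderiv (by simp)).clm_apply continuous_const
  have hder : ∀ t : ℝ, HasDerivAt
      (fun t : ℝ => ∫ y in Icc (0 : Fin (n + 1) → ℝ) 1, ww P a b (k.insertNth t y)) 0 t := by
    intro t
    have h1 := TorF_692.hasDerivAt_cube (n := n + 1) (F := fun t y => ww P a b (k.insertNth t y))
      (F' := fun t y => fderiv ℝ (ww P a b) (k.insertNth t y) (Pi.single k 1))
      ((hs a b).continuous.comp hcins) ((hcd a b (Pi.single k 1)).comp hcins)
      (fun t y => by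
        have h2 : HasDerivAt (fun t : ℝ => (k.insertNth t y : Fin (n + 2) → ℝ))
            (Pi.single k 1) t := by
          have h3 : (fun t : ℝ => (k.insertNth t y : Fin (n + 2) → ℝ)) =
              fun t => t • (Pi.single k 1 : Fin (n + 2) → ℝ) + insL k y := by
            funext t
            rw [ins_eq, add_comm (insL k y)]
            congr 1
            rw [← Pi.single_smul]; simp
          rw [h3]
          simpa using ((hasDerivAt_id t).smul_const (Pi.single k 1 : Fin (n + 2) → ℝ)).add_const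
            (insL k y)
        exact (hdiff a b _).hasFDerivAt.comp_hasDerivAt t h2) t
    have h0 : ∀ (c d : Fin (n + 2)) (i : Fin (n + 1)),
        ∫ y in Icc (0 : Fin (n + 1) → ℝ) 1,
          fderiv ℝ (ww P c d) (k.insertNth t y) (Pi.single (k.succAbove i) 1) = 0 := by
      intro c d i
      have h4 := TorF_692.integral_fderiv_periodic (n := n)
        (f := fun y : Fin (n + 1) → ℝ => ww P c d (k.insertNth t y))
        (((hs c d).comp (ins_contDiff k t)).of_le (by exact_mod_cast le_top)) i (fun y => by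
          refine per_single (f := fun y : Fin (n + 1) → ℝ => ww P c d (k.insertNth t y))
            (fun x κ => ?_) i y
          show ww P c d (k.insertNth t fun l => x l + κ l) = ww P c d (k.insertNth t x)
          rw [ins_add, hP.ww_per])
      rw [← h4]
      refine integral_congr_ae (Eventually.of_forall fun y => ?_)
      exact (fderiv_ins k t y (hdiff c d _) i).symm
    have h5 : ∀ y : Fin (n + 1) → ℝ, fderiv ℝ (ww P a b) (k.insertNth t y) (Pi.single k 1) =
        - (fderiv ℝ (ww P b k) (k.insertNth t y) (Pi.single a 1) +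
          fderiv ℝ (ww P k a) (k.insertNth t y) (Pi.single b 1)) := fun y => by
      have := hP.ww_cl a b k (k.insertNth t y)
      exact (neg_eq_of_add_eq_zero_right this).symm
    have h6 : ∫ y in Icc (0 : Fin (n + 1) → ℝ) 1,
        fderiv ℝ (ww P a b) (k.insertNth t y) (Pi.single k 1) = 0 := by
      simp only [h5]
      rw [integral_neg, integral_add (int_cont ?_) (int_cont ?_), ha, hb, h0, h0, add_zero,
        neg_zero]
      · exact (hcd b k _).comp (ins_contDiff (m := 0) k t).continuous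
      · exact (hcd k a _).comp (ins_contDiff (m := 0) k t).continuous
    rw [h6] at h1
    exact h1
  exact is_const_of_deriv_eq_zero (fun t => (hder t).differentiableAt) (fun t => (hder t).deriv) _ _

/-- the integral over the cube is the integral over the slice. -/
theorem int_red {n : ℕ} {P : (Fin (n + 2) → ℝ) → H →L[ℂ] H} (hP : PS P) (k : Fin (n + 2))
    (i j : Fin (n + 1)) :
    ∫ h in Icc (0 : Fin (n + 2) → ℝ) 1, ww P (k.succAbove i) (k.succAbove j) h =
    ∫ y in Icc (0 : Fin (n + 1) → ℝ) 1, ww (FamFin_143.rs P k) i j y := by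
  set W := ww P (k.succAbove i) (k.succAbove j) with hW
  have hWc : Continuous W := (ww_smooth hP.smooth _ _).continuous
  have hmp := (volume_preserving_piFinSuccAbove (fun _ : Fin (n + 2) => ℝ) k).symm
  have h1 := hmp.setIntegral_preimage_emb (MeasurableEquiv.measurableEmbedding _) W
    (Icc (0 : Fin (n + 2) → ℝ) 1)
  have h2 : ((MeasurableEquiv.piFinSuccAbove (fun _ : Fin (n + 2) => ℝ) k).symm ⁻¹'
      (Icc (0 : Fin (n + 2) → ℝ) 1)) = Icc (0 : ℝ) 1 ×ˢ Icc (0 : Fin (n + 1) → ℝ) 1 := by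
    ext ⟨t, y⟩
    show (k.insertNth t y : Fin (n + 2) → ℝ) ∈ Icc (0 : Fin (n + 2) → ℝ) 1 ↔
      (t, y) ∈ Icc (0 : ℝ) 1 ×ˢ Icc (0 : Fin (n + 1) → ℝ) 1
    simp only [mem_Icc, mem_prod, Pi.le_def, Fin.forall_iff_succAbove k, Fin.insertNth_apply_same,
      Fin.insertNth_apply_succAbove, Pi.zero_apply, Pi.one_apply]
    tauto
  rw [h2] at h1
  rw [← h1, Measure.volume_eq_prod, setIntegral_prod]
  · have h3 : ∀ t : ℝ, ∫ y in Icc (0 : Fin (n + 1) → ℝ) 1,
        W ((MeasurableEquiv.piFinSuccAbove (fun _ : Fin (n + 2) => ℝ) k).symm (t, y)) =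
        ∫ y in Icc (0 : Fin (n + 1) → ℝ) 1, ww (FamFin_143.rs P k) i j y := by
      intro t
      have h4 := const_slice hP k i j t
      simp only [ww_rs hP]
      exact h4
    simp only [h3]
    rw [integral_const]
    simp
  · rw [← Measure.volume_eq_prod]
    refine Continuous.continuousOn ?_ |>.integrableOn_compact (isCompact_Icc.prod isCompact_Icc)
    refine hWc.comp ?_
    show Continuous fun p : ℝ × (Fin (n + 1) → ℝ) => (k.insertNth p.1 p.2 : Fin (n + 2) → ℝ)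
    have h : (fun p : ℝ × (Fin (n + 1) → ℝ) => (k.insertNth p.1 p.2 : Fin (n + 2) → ℝ)) =
        fun p => insL k p.2 + Pi.single k p.1 := funext fun p => ins_eq k p.1 p.2
    rw [h]
    exact ((insL k).continuous.comp continuous_snd).add
      ((continuous_single k).comp continuous_fst)

/-! ### the numbers -/

lemma sum_perm2 (f : Fin 2 → Fin 2 → ℂ) :
    ∑ σ : Equiv.Perm (Fin 2), sg σ * f (σ 0) (σ 1) = f 0 1 - f 1 0 := by
  have h : (Finset.univ : Finset (Equiv.Perm (Fin 2))) = {1, Equiv.swap 0 1} := by decide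
  rw [h, Finset.sum_insert (by decide), Finset.sum_singleton]
  unfold sg
  rw [Equiv.Perm.sign_one, Equiv.Perm.sign_swap (by decide)]
  simp
  ring

lemma ch2_eq (P : (Fin 2 → ℝ) → H →L[ℂ] H) :
    ch2 tr P = ∫ h in Icc (0 : Fin 2 → ℝ) 1, ww P 0 1 h := by
  unfold ch2
  refine integral_congr_ae (Eventually.of_forall fun h => ?_)
  have h1 := sum_perm2 (fun i j => tr (P h * pdθ i P h * pdθ j P h))
  refine h1.trans ?_
  show _ = tr (P h * (pdθ 0 P h * pdθ 1 P h - pdθ 1 P h * pdθ 0 P h))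
  rw [mul_sub, tr_sub, mul_assoc, mul_assoc]

lemma S_swap01 (A : Fin 4 → Fin 4 → Fin 4 → Fin 4 → ℂ) :
    TorF_692.S (fun a b c d => A b a c d) = - TorF_692.S A := by
  unfold TorF_692.S
  rw [← Equiv.sum_comp (Equiv.mulRight (Equiv.swap (0 : Fin 4) 1)) fun σ : Equiv.Perm (Fin 4) =>
    ((Equiv.Perm.sign σ : ℤ) : ℂ) * A (σ 0) (σ 1) (σ 2) (σ 3), ← Finset.sum_neg_distrib]
  refine Finset.sum_congr rfl fun σ _ => ?_
  have e0 : Equiv.swap (0 : Fin 4) 1 0 = 1 := by decide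
  have e1 : Equiv.swap (0 : Fin 4) 1 1 = 0 := by decide
  have e2 : Equiv.swap (0 : Fin 4) 1 2 = 2 := by decide
  have e3 : Equiv.swap (0 : Fin 4) 1 3 = 3 := by decide
  simp only [Equiv.coe_mulRight, Equiv.Perm.mul_apply, e0, e1, e2, e3, Equiv.Perm.sign_mul]
  rw [Equiv.Perm.sign_swap (by decide)]
  simp

lemma S_four (A : Fin 4 → Fin 4 → ℂ) :
    TorF_692.S (fun a b c d => (A a b - A b a) * (A c d - A d c)) =
      4 * TorF_692.S (fun a b c d => A a b * A c d) := by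
  have e1 : (fun a b c d : Fin 4 => (A a b - A b a) * (A c d - A d c)) = fun a b c d =>
      (A a b * A c d - A b a * A c d) - (A a b * A d c - A b a * A d c) := by
    funext a b c d; ring
  have e2 := S_swap01 (fun a b c d => A a b * A c d)
  have e3 := TorF_692.S_swap (fun a b c d => A a b * A c d)
  have e4 := TorF_692.S_swap (fun a b c d => A b a * A c d)
  rw [e1, TorF_692.S_sub (fun a b c d => A a b * A c d - A b a * A c d)
    (fun a b c d => A a b * A d c - A b a * A d c), TorF_692.S_sub, TorF_692.S_sub]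
  rw [e4, e3]
  rw [e2]
  ring

/-- **all periods zero ⇒ `chsq = 0`.** -/
theorem chsq_zero (hFo : FOUR) {P : (Fin 4 → ℝ) → H →L[ℂ] H} (hP : PS P)
    (h0 : ∀ i j : Fin 4, i ≠ j → ∫ h in Icc (0 : Fin 4 → ℝ) 1, ww P i j h = 0) :
    chsq tr P = 0 := by
  have h1 := hFo (ww P) (ww_smooth hP.smooth) (ww_alt P) (fun i j => hP.ww_per i j)
    (fun i j k h => hP.ww_cl i j k h) (fun i j => by
      by_cases hij : i = j
      · subst hij
        have : ∀ h, ww P i i h = 0 := fun h => by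
          unfold ww
          rw [sub_self, mul_zero]
          exact trL.map_zero
        simp [this]
      · exact h0 i j hij)
  have h2 : ∀ h : Fin 4 → ℝ, ∑ σ : Equiv.Perm (Fin 4),
      sg σ * (ww P (σ 0) (σ 1) h * ww P (σ 2) (σ 3) h) =
      4 * ∑ σ : Equiv.Perm (Fin 4), sg σ * (tr (P h * pdθ (σ 0) P h * pdθ (σ 1) P h) *
        tr (P h * pdθ (σ 2) P h * pdθ (σ 3) P h)) := by
    intro h
    have h3 := S_four (fun i j => tr (P h * pdθ i P h * pdθ j P h))
    have h4 : ∀ i j, ww P i j h = tr (P h * pdθ i P h * pdθ j P h) -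
        tr (P h * pdθ j P h * pdθ i P h) := fun i j => by
      unfold ww
      rw [mul_sub, tr_sub, mul_assoc, mul_assoc]
    simp only [h4]
    exact h3
  simp only [h2] at h1
  rw [integral_const_mul] at h1
  unfold chsq
  exact (mul_eq_zero.1 h1).resolve_left (by norm_num)

end red

/-! ### the slice systems -/

section sys

variable {T H YR YW : Type} [NormedAddCommGroup T] [NormedSpace ℝ T] [FiniteDimensional ℝ T]
  [NormedAddCommGroup H] [InnerProductSpace ℂ H] [FiniteDimensional ℂ H]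
  [NormedAddCommGroup YR] [NormedSpace ℝ YR] [FiniteDimensional ℝ YR]
  [NormedAddCommGroup YW] [NormedSpace ℂ YW] [FiniteDimensional ℂ YW]

lemma ps_of {b m : ℕ} {P : (Fin b → ℝ) → H →L[ℂ] H} (hP : PPer b m P) : PS P :=
  ⟨hP.smooth, hP.per, fun h => by ext x; exact hP.idem h x⟩

lemma pper_rs {n m : ℕ} {P : (Fin (n + 1) → ℝ) → H →L[ℂ] H} (hP : PPer (n + 1) m P)
    (k : Fin (n + 1)) : PPer n m (rs P k) where
  smooth := hP.smooth.comp (ins_contDiff k _)
  per := rs_per hP.per k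
  idem y := hP.idem _
  sa y := hP.sa _
  rank y := hP.rank _

/-- the embedding of the 2-torus. -/
def io (k : Fin 4) (l : Fin 3) (y : Fin 2 → ℝ) : Fin 4 → ℝ :=
  k.insertNth (1 / 2 : ℝ) (l.insertNth (1 / 2 : ℝ) y : Fin 3 → ℝ)

lemma io_cont (k : Fin 4) (l : Fin 3) : Continuous (io k l) :=
  (ins_contDiff (m := 0) k _).continuous.comp (ins_contDiff (m := 0) l _).continuous

lemma io_add (k : Fin 4) (l : Fin 3) (y : Fin 2 → ℝ) (κ : Fin 2 → ℤ) :
    io k l (fun i => y i + κ i) = fun i => io k l y i +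
      ((k.insertNth (0 : ℤ) (l.insertNth (0 : ℤ) κ : Fin 3 → ℤ) : Fin 4 → ℤ) i : ℝ) := by
  unfold io
  rw [ins_add l, ins_add k]

lemma io_mem (k : Fin 4) (l : Fin 3) (y : Fin 2 → ℝ) (q : Fin 4)
    (h0 : q ≠ k.succAbove (l.succAbove 0)) (h1 : q ≠ k.succAbove (l.succAbove 1)) :
    io k l y q = 1 / 2 := by
  unfold io
  rcases eq_or_ne q k with rfl | hk
  · simp
  · obtain ⟨r, rfl⟩ := Fin.exists_succAbove_eq hk
    rw [Fin.insertNth_apply_succAbove]
    rcases eq_or_ne r l with rfl | hl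
    · simp
    · obtain ⟨u, rfl⟩ := Fin.exists_succAbove_eq hl
      fin_cases u
      · exact absurd rfl h0
      · exact absurd rfl h1

variable {m : ℕ} {P : (Fin 4 → ℝ) → H →L[ℂ] H} {L : T ≃L[ℝ] YR}
  {fR : T × (Fin 4 → ℝ) × H → YR} {fW : T × (Fin 4 → ℝ) × H → YW} {R : ℝ}

lemma ray_ne {Y2 : Type} [NormedAddCommGroup Y2] [NormedSpace ℂ Y2] {w : YW} {g v : Y2}
    (hw : w ≠ 0) (s : ℝ) : ((w, g) : YW × Y2) ≠ (s : ℂ) • ((0 : YW), v) := by
  intro h
  have := congrArg Prod.fst h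
  simp at this
  exact hw this

theorem ch2_slice (hF : FDS2) (hW : FW 4 m P L fR fW R) (k : Fin 4) (l : Fin 3)
    (hN : NZ P fR fW {h | ∀ q, q ≠ k.succAbove (l.succAbove 0) →
      q ≠ k.succAbove (l.succAbove 1) → h q = 1 / 2}) :
    ch2 tr (rs (rs P k) l) = 0 := by
  have hzero : ∀ (s : ℝ) (w : YW), w ≠ 0 → ((w, (0 : ℂ)) : YW × ℂ) ≠ (s : ℂ) • ((0 : YW), (1 : ℂ)) :=
    fun s w hw => ray_ne hw s
  have hmap : Continuous fun x : T × (Fin 2 → ℝ) × H => (x.1, io k l x.2.1, x.2.2) :=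
    continuous_fst.prodMk (((io_cont k l).comp (continuous_fst.comp continuous_snd)).prodMk
      (continuous_snd.comp continuous_snd))
  refine hF T H YR (YW × ℂ) m (rs (rs P k) l) L (fun x => fR (x.1, io k l x.2.1, x.2.2))
    (fun x => (fW (x.1, io k l x.2.1, x.2.2), 0)) ((0 : YW), (1 : ℂ)) R ?_ ?_
  · exact
      { proj := pper_rs (pper_rs hW.proj k) l
        hdim := by rw [finrank_prod, hW.wdim, finrank_self]; ring
        cR := hW.cR.comp hmap
        cC := (hW.cW.comp hmap).prodMk continuous_const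
        eqR := fun t h ψ z hz => hW.eqR _ _ _ _ hz
        eqC := fun t h ψ z hz => by
          show (fW (t, io k l h, z • ψ), (0 : ℂ)) = z • (fW (t, io k l h, ψ), (0 : ℂ))
          rw [hW.eqW _ _ _ _ hz]
          simp
        pR := fun t h ψ κ => by
          show fR (t, io k l _, ψ) = _
          rw [io_add, hW.pR]
        pC := fun t h ψ κ => by
          show (fW (t, io k l _, ψ), (0 : ℂ)) = _
          rw [io_add, hW.pW]
        fix := fun t h ht => hW.fix _ _ ht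
        vne := by simp
        big := fun t h ψ ht hψ hR h0 s hs => hzero s _ (hW.big t _ ψ ht hψ hR h0) }
  · intro t h ψ ht hψ h0 s hs
    refine hzero s _ (hN t _ ψ ht ?_ hψ h0)
    intro q h1 h2
    exact io_mem k l h q h1 h2

/-- all periods vanish. -/
theorem periods (hF : FDS2) (hW : FW 4 m P L fR fW R)
    (hN : ∀ i j : Fin 4, i ≠ j → NZ P fR fW {h | ∀ k, k ≠ i → k ≠ j → h k = 1 / 2})
    (i j : Fin 4) (hij : i ≠ j) : ∫ h in Icc (0 : Fin 4 → ℝ) 1, ww P i j h = 0 := by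
  have hPS := ps_of hW.proj
  obtain ⟨k, hki, hkj⟩ : ∃ k : Fin 4, k ≠ i ∧ k ≠ j := by
    revert i j; decide
  obtain ⟨i1, rfl⟩ := Fin.exists_succAbove_eq hki.symm
  obtain ⟨j1, rfl⟩ := Fin.exists_succAbove_eq hkj.symm
  have hij1 : i1 ≠ j1 := fun h => hij (by rw [h])
  obtain ⟨l, hli, hlj⟩ : ∃ l : Fin 3, l ≠ i1 ∧ l ≠ j1 := by
    clear hki hkj hij
    revert i1 j1; decide
  obtain ⟨i2, rfl⟩ := Fin.exists_succAbove_eq hli.symm
  obtain ⟨j2, rfl⟩ := Fin.exists_succAbove_eq hlj.symm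
  have hij2 : i2 ≠ j2 := fun h => hij1 (by rw [h])
  have hc : ch2 tr (rs (rs P k) l) = 0 := ch2_slice hF hW k l (hN _ _ (by
    intro h
    have h1 := Fin.succAbove_right_injective (Fin.succAbove_right_injective h)
    exact absurd h1 (by decide)))
  rw [ch2_eq] at hc
  rw [int_red hPS k, int_red (hPS.rs k) l]
  have h01 : (i2 = 0 ∧ j2 = 1) ∨ (i2 = 1 ∧ j2 = 0) := by
    clear * - hij2
    revert i2 j2; decide
  rcases h01 with ⟨rfl, rfl⟩ | ⟨rfl, rfl⟩
  · exact hc
  · have h2 : ∀ y, ww (rs (rs P k) l) 1 0 y = - ww (rs (rs P k) l) 0 1 y := ww_alt _ 1 0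
    simp only [h2]
    rw [integral_neg, hc, neg_zero]

lemma fsys4 (hW : FW 4 m P L fR fW R) {g : T × (Fin 4 → ℝ) × H → EuclideanSpace ℂ (Fin 2)}
    (cg : Continuous g)
    (eg : ∀ t h ψ (z : ℂ), ‖z‖ = 1 → g (t, h, z • ψ) = z • g (t, h, ψ))
    (pg : ∀ t h ψ (k : Fin 4 → ℤ), g (t, fun i => h i + k i, ψ) = g (t, h, ψ)) :
    FSys 4 m P L fR (fun x => (fW x, g x))
      ((0 : YW), EuclideanSpace.single (0 : Fin 2) (1 : ℂ)) R where
  proj := hW.proj
  hdim := by rw [finrank_prod, hW.wdim, finrank_euclideanSpace_fin]; ring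
  cR := hW.cR
  cC := hW.cW.prodMk cg
  eqR := hW.eqR
  eqC t h ψ z hz := by
    show (fW (t, h, z • ψ), g (t, h, z • ψ)) = z • (fW (t, h, ψ), g (t, h, ψ))
    rw [hW.eqW _ _ _ _ hz, eg _ _ _ _ hz]; rfl
  pR := hW.pR
  pC t h ψ k := by
    show (fW (t, _, ψ), g (t, _, ψ)) = _
    rw [hW.pW, pg]
  fix := hW.fix
  vne := by
    intro h
    have h1 := congrArg Prod.snd h
    have h2 : EuclideanSpace.single (0 : Fin 2) (1 : ℂ) = 0 := h1
    rw [PiLp.single_eq_zero_iff] at h2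
    exact one_ne_zero h2
  big t h ψ ht hψ hR h0 s hs := ray_ne (hW.big t h ψ ht hψ hR h0) s

end sys

/-- **FIN4.** -/
theorem fin4_of (h2 : FDS2) (h4 : FDS4) (hF : FOUR) : FIN4 := by
  intro T H YR YW _ _ _ _ _ _ _ _ _ _ _ _ m P L fR fW R hW hN
  have h0 := chsq_zero hF (ps_of hW.proj) (periods h2 hW fun i j _ t h ψ ht _ hψ hz =>
    hN t h ψ ht (mem_univ _) hψ hz)
  have h1 := h4 T H YR (YW × EuclideanSpace ℂ (Fin 2)) m P L fR (fun x => (fW x, 0))
    ((0 : YW), EuclideanSpace.single (0 : Fin 2) (1 : ℂ)) R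
    (fsys4 hW continuous_const (fun _ _ _ z _ => (smul_zero z).symm) (fun _ _ _ _ => rfl))
    (fun t h ψ ht hψ hz s hs => ray_ne (hN t h ψ ht (mem_univ _) hψ hz) s)
  rw [h0, add_zero] at h1
  exact h1

/-- **FINH4.** -/
theorem finh4_of (h2 : FDS2) (h4 : FDH4) (hF : FOUR) : FINH4 := by
  intro T H YR YW _ _ _ _ _ _ _ _ _ _ _ _ m P L fR fW R hW hO hN
  have h0 := chsq_zero hF (ps_of hW.proj) (periods h2 hW hN)
  obtain ⟨g, cg, eg, pg, hR⟩ := hO
  have h1 := h4 T H YR (YW × EuclideanSpace ℂ (Fin 2)) m P L fR (fun x => (fW x, g x))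
    ((0 : YW), EuclideanSpace.single (0 : Fin 2) (1 : ℂ)) R (fsys4 hW cg eg pg) hR
  rw [h0, add_zero] at h1
  exact h1

end

end Crest.Agent.R235.FamFin_143
end

-- ▼ part R235/FdsFin_778
section

/-!
Row 235 (S0364), block FAM-FDS (helper778): the end of task 421: **FDS2, FDS4, FDH4** and
**FIN4, FINH4** are theorems.
-/

set_option autoImplicit false
set_option maxSynthPendingDepth 3

open MeasureTheory Set Filter Topology Module Function
open scoped ContDiff

noncomputable section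

namespace Crest.Agent.R235.FdsFin_778

open FamDefs_307 FdsF_143 FdsAsm_143 FamC_192 FamFour_504 FamFin_143

variable {H Y : Type} [NormedAddCommGroup H] [InnerProductSpace ℂ H] [FiniteDimensional ℂ H]
  [NormedAddCommGroup Y] [InnerProductSpace ℂ Y] [FiniteDimensional ℂ Y] {b m : ℕ}

theorem embData {P : (Fin b → ℝ) → H →L[ℂ] H} (hP : PPer b m P) (A : H →L[ℂ] Y)
    (hA : ∀ h ψ, P h ψ = ψ → A ψ = 0 → ψ = 0) :
    EmbData b m P (fun h => proj A (P h)) (fun _ => A)
      (fun _ => ContinuousLinearMap.id ℂ Y) where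
  proj := hP
  smJ := contDiff_const
  idem2 h y := (dt_of hP (A := fun _ => A) hA h).proj_idem y
  sa2 h x y := (pper_proj hP (A := fun _ => A) contDiff_const (fun _ _ => rfl) hA).sa h x y
  fix h x hx := by
    have h1 := (dt_of hP (A := fun _ => A) hA h).proj_A x
    rw [hx] at h1
    exact h1
  inj h x hx h0 := hA h x hx h0
  surj h y := by
    obtain ⟨x, hx⟩ := Dt.proj_rg (A := A) (P := P h) y
    exact ⟨P h x, hP.idem h x, hx.symm⟩
  iso _ _ _ := rfl
  per _ _ _ _ := rfl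

theorem emb2 : EMB2 := by
  intro H Y _ _ _ _ _ _ m P A hP hA
  exact (embData hP A hA).ch2_fd

theorem emb4 : EMB4 := by
  intro H Y _ _ _ _ _ _ m P A hP hA
  exact ⟨(embData hP A hA).ch4_fd, (embData hP A hA).chsq_fd⟩

theorem dn (b : ℕ) : DN b := by
  intro T H YR YC _ _ _ _ _ _ _ _ _ _ _ _ m P L fR fC v R hS hN
  obtain ⟨A, e, hA, he, hPe, hi, h⟩ := FdsD_778.fds_d hS hN
  refine ⟨A, e, hA, he, hPe, hi, fun e' => ?_⟩
  obtain ⟨δ, hδ, h1⟩ := h e' Measure.addHaar
  exact ⟨inferInstance, inferInstance, Measure.addHaar, inferInstance, δ, hδ, h1⟩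

theorem dh {T H YR YC : Type} [NormedAddCommGroup T] [NormedSpace ℝ T] [FiniteDimensional ℝ T]
    [NormedAddCommGroup H] [InnerProductSpace ℂ H] [FiniteDimensional ℂ H]
    [NormedAddCommGroup YR] [NormedSpace ℝ YR] [FiniteDimensional ℝ YR]
    [NormedAddCommGroup YC] [NormedSpace ℂ YC] [FiniteDimensional ℂ YC]
    {b m : ℕ} {P : (Fin b → ℝ) → H →L[ℂ] H} {L : T ≃L[ℝ] YR}
    {fR : T × (Fin b → ℝ) × H → YR} {fC : T × (Fin b → ℝ) × H → YC} {v : YC} {R : ℝ}
    (hS : FSys b m P L fR fC v R) (hO : OneRay P fR fC v) :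
    ∃ h₀ : Fin b → ℝ, PPer b m (fun h => P (h + h₀)) ∧
      Out m (finrank ℂ YC) (fun h => P (h + h₀)) (fun x => x ≠ 0) := by
  obtain ⟨h₀, A, e, hP', hA, he, hPe, hi, h⟩ := FdsD_778.fdh_d hS hO
  refine ⟨h₀, hP', A, e, fun h => hA (h + h₀), he, hPe, hi, fun e' => ?_⟩
  obtain ⟨δ, hδ, h1⟩ := h e' Measure.addHaar
  exact ⟨inferInstance, inferInstance, Measure.addHaar, inferInstance, δ, hδ, h1⟩

/-! ### translation invariance -/

theorem pd_shift {P : (Fin b → ℝ) → H →L[ℂ] H} (a : Fin b → ℝ) (j : Fin b) (h : Fin b → ℝ) :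
    pdθ j (fun h => P (h + a)) h = pdθ j P (h + a) := by
  unfold pdθ
  rw [fderiv_comp_add_right]

theorem pd_per {P : (Fin b → ℝ) → H →L[ℂ] H} (hP : PPer b m P) (j : Fin b) (h : Fin b → ℝ)
    (k : Fin b → ℤ) : pdθ j P (fun l => h l + k l) = pdθ j P h := by
  have h1 : (fun x : Fin b → ℝ => P (x + fun l => (k l : ℝ))) = P := by
    funext x; exact hP.per x k
  have h2 := congrArg (fun G : (Fin b → ℝ) → H →L[ℂ] H => fderiv ℝ G h (Pi.single j 1)) h1
  simp only [fderiv_comp_add_right] at h2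
  exact h2

theorem ch4_shift {P : (Fin 4 → ℝ) → H →L[ℂ] H} (hP : PPer 4 m P) (a : Fin 4 → ℝ) :
    ch4 tr (fun h => P (h + a)) = ch4 tr P := by
  let F : (Fin 4 → ℝ) → ℂ := fun h => ∑ σ : Equiv.Perm (Fin 4),
    sg σ * tr (P h * pdθ (σ 0) P h * pdθ (σ 1) P h * pdθ (σ 2) P h * pdθ (σ 3) P h)
  have hd : ∀ j, ContDiff ℝ ∞ (pdθ j P) := fun j => pd_smooth hP.smooth j
  have hF : ContDiff ℝ ∞ F := by
    refine ContDiff.sum fun σ _ => contDiff_const.mul ?_
    exact trL.contDiff.comp (mul_contDiff (mul_contDiff (mul_contDiff (mul_contDiff hP.smooth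
      (hd _)) (hd _)) (hd _)) (hd _))
  have hp : Per F := by
    intro h k
    simp only [F, pd_per hP, hP.per]
  have h1 := int_shift hF hp a
  unfold ch4
  simp only [pd_shift]
  exact h1

theorem chsq_shift {P : (Fin 4 → ℝ) → H →L[ℂ] H} (hP : PPer 4 m P) (a : Fin 4 → ℝ) :
    chsq tr (fun h => P (h + a)) = chsq tr P := by
  let F : (Fin 4 → ℝ) → ℂ := fun h => ∑ σ : Equiv.Perm (Fin 4),
    sg σ * (tr (P h * pdθ (σ 0) P h * pdθ (σ 1) P h) * tr (P h * pdθ (σ 2) P h * pdθ (σ 3) P h))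
  have hd : ∀ j, ContDiff ℝ ∞ (pdθ j P) := fun j => pd_smooth hP.smooth j
  have hF : ContDiff ℝ ∞ F := by
    refine ContDiff.sum fun σ _ => contDiff_const.mul (ContDiff.mul ?_ ?_)
    · exact trL.contDiff.comp (mul_contDiff (mul_contDiff hP.smooth (hd _)) (hd _))
    · exact trL.contDiff.comp (mul_contDiff (mul_contDiff hP.smooth (hd _)) (hd _))
  have hp : Per F := by
    intro h k
    simp only [F, pd_per hP, hP.per]
  have h1 := int_shift hF hp a
  unfold chsq
  simp only [pd_shift]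
  exact h1

/-! ### the theorems -/

theorem fds2 : FDS2 := fds2_of FamGaussD_355.gauss2 emb2 (dn 2)

theorem fds4 : FDS4 := fds4_of FamGaussD_355.gauss4 emb4 (dn 4)

theorem fdh4 : FDH4 := by
  intro T H YR YC _ _ _ _ _ _ _ _ _ _ _ _ m P L fR fC v R hS hO h0
  obtain ⟨h₀, hP', hOut⟩ := dh hS hO
  obtain ⟨x, hx, c, hc, h⟩ := out4 FamGaussD_355.gauss4 emb4 hP' hS.hdim hOut
  rw [ch4_shift hS.proj, chsq_shift hS.proj, h0, mul_zero] at h
  exact hx (by exact_mod_cast h)

theorem fin4 : FamW_307.FIN4 := fin4_of fds2 fds4 four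

theorem finh4 : FamW_307.FINH4 := finh4_of fds2 fdh4 four

end Crest.Agent.R235.FdsFin_778
end
end

-- ▼ part R235/FamLin_307
section

/-!
Row 235 (S0364), PACKAGE FAM (leader helper307): linear algebra.  `b⁺ = 3` from the splitting and
the negativity of the orthogonal complement of a positive triple.
-/

set_option autoImplicit false

namespace Crest.Agent.R235.FamLin_307

open Module

theorem bp_eq {V : Type*} [AddCommGroup V] [Module ℝ V] [FiniteDimensional ℝ V]
    (B : V →ₗ[ℝ] V →ₗ[ℝ] ℝ) (P N : Submodule ℝ V) (hs : P ⊔ N = ⊤)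
    (hP : ∀ x ∈ P, x ≠ 0 → 0 < B x x) (hN : ∀ x ∈ N, x ≠ 0 → B x x < 0) (b : Fin 3 → V)
    (hb : ∀ a : Fin 3 → ℝ, a ≠ 0 → 0 < B (∑ i, a i • b i) (∑ i, a i • b i))
    (hneg : ∀ c : V, (∀ i, B c (b i) = 0) → c ≠ 0 → B c c < 0) : finrank ℝ P = 3 := by
  apply le_antisymm
  · -- at most three
    by_contra hcon
    push Not at hcon
    let ψ : P →ₗ[ℝ] (Fin 3 → ℝ) :=
      { toFun := fun x i => B x (b i)
        map_add' := fun x y => by
          funext i
          simp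
        map_smul' := fun r x => by
          funext i
          simp }
    have h1 : ¬ Function.Injective ψ := by
      intro hinj
      have h2 := LinearMap.finrank_le_finrank_of_injective hinj
      simp only [finrank_pi, Fintype.card_fin] at h2
      omega
    rw [← LinearMap.ker_eq_bot, Submodule.eq_bot_iff] at h1
    push Not at h1
    obtain ⟨x, hx, hx0⟩ := h1
    have h3 : ∀ i, B (x : V) (b i) = 0 := fun i => by
      have := LinearMap.mem_ker.1 hx
      exact congrFun this i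
    have h4 : (x : V) ≠ 0 := fun h => hx0 (Subtype.ext h)
    exact absurd (hneg x h3 h4) (not_lt.2 (hP x x.2 h4).le)
  · -- at least three
    let φ : (Fin 3 → ℝ) →ₗ[ℝ] V :=
      { toFun := fun a => ∑ i, a i • b i
        map_add' := fun a a' => by
          simp only [Pi.add_apply, add_smul, Finset.sum_add_distrib]
        map_smul' := fun r a => by
          simp only [Pi.smul_apply, smul_eq_mul, mul_smul, RingHom.id_apply, Finset.smul_sum] }
    have hφ : ∀ a, φ a = ∑ i, a i • b i := fun _ => rfl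
    have hinj : Function.Injective φ := by
      refine (injective_iff_map_eq_zero φ).2 fun a ha => ?_
      by_contra h
      have h1 := hb a h
      rw [← hφ, ha, map_zero] at h1
      exact lt_irrefl _ h1
    have hdis : Disjoint (LinearMap.range φ) N := by
      rw [Submodule.disjoint_def]
      rintro x ⟨a, rfl⟩ hx
      by_contra h
      have h1 : a ≠ 0 := by
        rintro rfl
        exact h (map_zero φ)
      exact absurd (hN _ hx h) (not_lt.2 (by rw [hφ]; exact (hb a h1).le))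
    have h1 := Submodule.finrank_add_finrank_le_of_disjoint hdis
    have h2 : finrank ℝ (LinearMap.range φ) = 3 := by
      rw [LinearMap.finrank_range_of_inj hinj]
      simp
    have h3 : finrank ℝ V ≤ finrank ℝ P + finrank ℝ N := by
      have h4 := Submodule.finrank_add_le_finrank_add_finrank P N
      rw [hs, finrank_top] at h4
      exact h4
    omega

end Crest.Agent.R235.FamLin_307
end

-- ▼ part R235/FamEndA_307
section

/-!
Row 235 (S0364), PACKAGE FAM (leader helper307): the data `d` with `ϑ = 0` of a family of Taubes data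
(no flatness): `mkx ww τ r` is admissible and fits the family for `r ≥ r0`.
-/

set_option autoImplicit false
set_option maxSynthPendingDepth 3
set_option linter.unusedSectionVars false

open scoped ContDiff ENNReal NNReal Topology Manifold Bundle RealInnerProductSpace
open MeasureTheory Set Filter Metric Bundle Module

universe v

namespace Crest.Agent.R235.FamEndA_307

open Crest.Agent.R249.Tv57 Crest.Agent.R247.Ms322 Crest.Agent.R247.Dir593
open Crest.Agent.R235.SWDefs_53 Crest.Agent.R235.SWEnd_53 Crest.Agent.R235.SWGeo_659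

noncomputable section

variable {M : Type v} [MetricSpace M] [CompactSpace M] [ConnectedSpace M]
  [ChartedSpace (EuclideanSpace ℝ (Fin 4)) M] [IsManifold (𝓡 4) ∞ M]
  [RiemannianBundle (fun p : M => TangentSpace (𝓡 4) p)]
  [IsContMDiffRiemannianBundle (𝓡 4) ∞ (EuclideanSpace ℝ (Fin 4))
    (fun p : M => TangentSpace (𝓡 4) p)]
  [IsRiemannianManifold (𝓡 4) M] [MeasurableSpace M] [BorelSpace M]
  [SecondCountableTopology M] [Nonempty M] [IsFiniteMeasureOnCompacts (μHE[4] : Measure M)]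
  {κ0 κ1 κT : Type} [Fintype κ0] [Fintype κ1] [Fintype κT]

/-- the data with `ϑ = 0` of a family of Taubes data. -/
def mkx (ww : Fin 3 → Fin 3 → M → ℝ) (τ : E3 → TD M κT) (r : ℝ) : SWD M κT where
  th := fun _ _ _ => 0
  mu := fun t z => (nwt ww t z + (1 - ‖t‖)) ^ (-(1 / 2) : ℝ)
  ww := ww
  et := fun t k z => -(‖t‖ * (τ (‖t‖⁻¹ • t)).fE k z)
  r := r

/-- the part of the family used here. -/
structure FX (S : SWS M κ0 κ1 κT) (ww : Fin 3 → Fin 3 → M → ℝ) (τ : E3 → TD M κT) (C : ℝ) :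
    Prop where
  smw : ∀ i k, ContMDiff (𝓡 4) 𝓘(ℝ, ℝ) ∞ (ww i k)
  harm : ∀ i x z, S.H.A (Fin.cons (fun _ => 0) (ww i)) x z = 0
  rr : ∀ (t : E3) z, ‖t‖ = 1 → (τ t).rr z = √(∑ k, (∑ i, t i * ww i k z) ^ 2)
  nn : ∀ (t : E3) k z, ‖t‖ = 1 → (τ t).rr z * (τ t).n k z = ∑ i, t i * ww i k z
  tau : ∀ t : E3, ‖t‖ = 1 → (τ t).OK S C
  cfE : ∀ k, ContinuousOn (fun q : E3 × M => (τ q.1).fE k q.2) {q | ‖q.1‖ = 1}

variable {S : SWS M κ0 κ1 κT} {ww : Fin 3 → Fin 3 → M → ℝ} {τ : E3 → TD M κT} {C : ℝ}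

theorem nwt_contx (F : FX S ww τ C) : Continuous fun q : E3 × M => nwt ww q.1 q.2 := by
  refine Real.continuous_sqrt.comp (continuous_finsetSum _ fun k _ => ?_)
  refine (continuous_finsetSum _ fun i _ => ?_).pow 2
  refine Continuous.mul ?_ ((F.smw i k).continuous.comp continuous_snd)
  exact (EuclideanSpace.proj (𝕜 := ℝ) i).continuous.comp continuous_fst

theorem nwt_smul (c : ℝ) (hc : 0 ≤ c) (t : E3) (z : M) : nwt ww (c • t) z = c * nwt ww t z := by
  unfold nwt
  have h1 : ∑ k, (∑ i, (c • t) i * ww i k z) ^ 2 = c ^ 2 * ∑ k, (∑ i, t i * ww i k z) ^ 2 := by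
    rw [Finset.mul_sum]
    refine Finset.sum_congr rfl fun k _ => ?_
    rw [← mul_pow, Finset.mul_sum]
    congr 1
    refine Finset.sum_congr rfl fun i _ => ?_
    rw [PiLp.smul_apply, smul_eq_mul]
    ring
  rw [h1, Real.sqrt_mul (sq_nonneg c), Real.sqrt_sq hc]

theorem nwt_posx (F : FX S ww τ C) {t : E3} (z : M) (ht : t ≠ 0) : 0 < nwt ww t z := by
  have hn : 0 < ‖t‖ := norm_pos_iff.2 ht
  have h1 : ‖(‖t‖⁻¹ • t : E3)‖ = 1 := norm_inv_smul ht
  have h2 := (F.tau _ h1).pos z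
  rw [F.rr _ z h1] at h2
  have h3 : 0 < nwt ww (‖t‖⁻¹ • t) z := h2
  have h4 : ‖t‖ • (‖t‖⁻¹ • t) = t := by
    rw [smul_smul, mul_inv_cancel₀ hn.ne', one_smul]
  have h5 := nwt_smul (ww := ww) ‖t‖ (norm_nonneg _) (‖t‖⁻¹ • t) z
  rw [h4] at h5
  rw [h5]
  exact mul_pos hn h3

theorem int_wt_posx (F : FX S ww τ C) {t : E3} (ht : ‖t‖ = 1) :
    0 < ∫ z, nwt ww t z ^ 2 ∂(μHE[4] : Measure M) := by
  have hopen := isOpenPosMeasure 4 M
  have hcont : Continuous fun z => nwt ww t z ^ 2 :=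
    ((nwt_contx F).comp (Continuous.prodMk_right t)).pow 2
  have hint : Integrable (fun z => nwt ww t z ^ 2) (μHE[4] : Measure M) :=
    hcont.integrable_of_hasCompactSupport (HasCompactSupport.of_compactSpace _)
  refine integral_pos_of_integrable_nonneg_nonzero hcont hint (fun z => sq_nonneg _)
    (x := Classical.arbitrary M) ?_
  exact pow_ne_zero 2 (nwt_posx F _ (ne_of_norm ht)).ne'

set_option maxHeartbeats 1000000 in
/-- **the data**: admissible and fitting for all large `r`. -/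
theorem exists_adm (F : FX S ww τ C) : ∃ r0 : ℝ, 0 < r0 ∧ ∀ r : ℝ, r0 ≤ r →
    (mkx ww τ r).Adm S ∧ ∀ t : E3, ‖t‖ = 1 → (τ t).Fit S (mkx ww τ r) t := by
  classical
  set K : Set (E3 × M) := {q | ‖q.1‖ = 1} with hK
  have hKc : IsCompact K := by
    have h1 : K = Metric.sphere (0 : E3) 1 ×ˢ (univ : Set M) := by
      ext q
      simp [hK]
    rw [h1]
    exact (isCompact_sphere _ _).prod isCompact_univ
  obtain ⟨m, hm0, hm⟩ : ∃ m : ℝ, 0 < m ∧ ∀ (t : E3) (z : M), ‖t‖ = 1 → m ≤ nwt ww t z := by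
    by_cases hKe : K.Nonempty
    · obtain ⟨q, hq, hmin⟩ := hKc.exists_isMinOn (f := fun q : E3 × M => nwt ww q.1 q.2) hKe
        (nwt_contx F).continuousOn
      refine ⟨nwt ww q.1 q.2, nwt_posx F q.2 (ne_of_norm hq), fun t z ht => ?_⟩
      have h2 : (t, z) ∈ K := ht
      exact isMinOn_iff.1 hmin (t, z) h2
    · refine ⟨1, one_pos, fun t z ht => ?_⟩
      exact absurd ⟨(t, z), (ht : (t, z) ∈ K)⟩ hKe
  obtain ⟨B, hB0, hB⟩ : ∃ B : ℝ, 0 ≤ B ∧ ∀ (t : E3) (k : Fin 3) (z : M), ‖t‖ = 1 →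
      |(τ t).fE k z| ≤ B := by
    have h1 : ∀ k : Fin 3, ∃ B : ℝ, ∀ q ∈ K, |(τ q.1).fE k q.2| ≤ B := by
      intro k
      obtain ⟨B, hB⟩ := hKc.exists_bound_of_continuousOn (F.cfE k)
      exact ⟨B, fun q hq => hB q hq⟩
    choose B hB using h1
    refine ⟨∑ k, |B k|, Finset.sum_nonneg fun k _ => abs_nonneg _, fun t k z ht => ?_⟩
    refine (hB k (t, z) ht).trans ((le_abs_self _).trans ?_)
    exact Finset.single_le_sum (f := fun k => |B k|) (fun k _ => abs_nonneg _) (Finset.mem_univ k)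
  refine ⟨3 * B / m + 1, by positivity, fun r hr => ?_⟩
  have hr0 : 0 < r := lt_of_lt_of_le (by positivity) hr
  have hbase : ∀ (t : E3) (z : M), ‖t‖ ≤ 1 → 0 < nwt ww t z + (1 - ‖t‖) := by
    intro t z ht
    by_cases h0 : t = 0
    · subst h0
      have := nwt_nonneg (ww := ww) (0 : E3) z
      simp only [norm_zero, sub_zero]
      linarith
    · have := nwt_posx F z h0
      linarith
  have hth : ∀ t, (mkx ww τ r).th t = fun _ _ => 0 := fun t => rfl
  refine ⟨?_, ?_⟩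
  · refine
      { smth := fun t => smV_zero
        secth := fun t => sec_zero _
        cth := fun A => continuousOn_const
        cdth := fun k => ?_
        smw := F.smw
        cmu := ?_
        pmu := fun t z ht => Real.rpow_pos_of_pos (hbase t z ht) _
        cet := fun k => ?_
        harm := F.harm
        big := fun t ht => ?_ }
    · have h1 := S.H.smB _ (smV_zero (M := M) (κ := κT)) (sec_zero S.DT) k
      exact (h1.continuous.comp continuous_snd).continuousOn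
    · refine ContinuousOn.rpow_const ?_ fun q hq => Or.inl (hbase q.1 q.2 hq).ne'
      exact ((nwt_contx F).add (continuous_const.sub continuous_fst.norm)).continuousOn
    · exact (cone_cont (f := fun t z => (τ t).fE k z) (F.cfE k)).neg.continuousOn
    · have hcont : Continuous fun z => nwt ww t z ^ 2 :=
        ((nwt_contx F).comp (Continuous.prodMk_right t)).pow 2
      have hint : Integrable (fun z => nwt ww t z ^ 2) (μHE[4] : Measure M) :=
        hcont.integrable_of_hasCompactSupport (HasCompactSupport.of_compactSpace _)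
      have hpos := int_wt_posx F ht
      have hpt : ∀ z, |∑ k, (mkx ww τ r).et t k z * (mkx ww τ r).wt t k z| ≤
          (3 * B / m) * nwt ww t z ^ 2 := by
        intro z
        have h1 : ∀ k, |(mkx ww τ r).et t k z * (mkx ww τ r).wt t k z| ≤ B * nwt ww t z := by
          intro k
          rw [abs_mul]
          have h2 : |(mkx ww τ r).et t k z| ≤ B := by
            show |-(‖t‖ * (τ (‖t‖⁻¹ • t)).fE k z)| ≤ B
            rw [ht, inv_one, one_smul, one_mul, abs_neg]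
            exact hB t k z ht
          have h3 : |(mkx ww τ r).wt t k z| ≤ nwt ww t z := by
            refine Real.abs_le_sqrt ?_
            exact Finset.single_le_sum (f := fun k => (∑ i, t i * ww i k z) ^ 2)
              (fun k _ => sq_nonneg _) (Finset.mem_univ k)
          exact mul_le_mul h2 h3 (abs_nonneg _) hB0
        calc |∑ k, (mkx ww τ r).et t k z * (mkx ww τ r).wt t k z|
            ≤ ∑ k, |(mkx ww τ r).et t k z * (mkx ww τ r).wt t k z| :=
              Finset.abs_sum_le_sum_abs _ _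
          _ ≤ ∑ _k : Fin 3, B * nwt ww t z := Finset.sum_le_sum fun k _ => h1 k
          _ = 3 * B * nwt ww t z := by simp; ring
          _ ≤ (3 * B / m) * nwt ww t z ^ 2 := by
              have h4 := hm t z ht
              have h5 : 3 * B * nwt ww t z = (3 * B / m) * (m * nwt ww t z) := by field_simp
              rw [h5, sq]
              exact mul_le_mul_of_nonneg_left
                (mul_le_mul_of_nonneg_right h4 (nwt_nonneg t z)) (by positivity)
      have h6 : |∫ z, ∑ k, (mkx ww τ r).et t k z * (mkx ww τ r).wt t k z ∂(μHE[4] : Measure M)| ≤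
          (3 * B / m) * ∫ z, nwt ww t z ^ 2 ∂(μHE[4] : Measure M) := by
        rw [← integral_const_mul]
        have h61 : ‖∫ z, (∑ k, (mkx ww τ r).et t k z * (mkx ww τ r).wt t k z : ℝ)
            ∂(μHE[4] : Measure M)‖ ≤
            ∫ z, (3 * B / m) * nwt ww t z ^ 2 ∂(μHE[4] : Measure M) :=
          norm_integral_le_of_norm_le (hint.const_mul _) (Eventually.of_forall fun z => hpt z)
        exact h61
      have h7 : ∫ z, ∑ k, (mkx ww τ r).wt t k z ^ 2 ∂(μHE[4] : Measure M) =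
          ∫ z, nwt ww t z ^ 2 ∂(μHE[4] : Measure M) := by
        refine integral_congr_ae (Eventually.of_forall fun z => ?_)
        exact nwt_sq t z
      rw [h7]
      refine lt_of_le_of_lt h6 ?_
      refine mul_lt_mul_of_pos_right ?_ hpos
      show 3 * B / m < |r|
      rw [abs_of_pos hr0]
      linarith
  · intro t ht
    refine
      { mu := fun z => ?_
        wt := fun k z => (F.nn t k z ht).symm
        et := fun k z => ?_
        smth := smV_zero
        secth := sec_zero _ }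
    · show (nwt ww t z + (1 - ‖t‖)) ^ (-(1 / 2) : ℝ) = _
      rw [F.rr t z ht, ht, sub_self, add_zero]
      rfl
    · show -(‖t‖ * (τ (‖t‖⁻¹ • t)).fE k z) = _
      have h1 : S.H.B ((mkx ww τ r).th t) k.succ z = 0 := B_zero S.H k.succ z
      rw [h1, ht, inv_one, one_smul, one_mul, add_zero]

end

end Crest.Agent.R235.FamEndA_307
end

-- ▼ part R235/SWReg_915
section

/-!
Row 235 (S0364), PACKAGE SW, leaf SW-REG (helper915): `reg : REG`, elliptic regularity of
`A + c(th) i` with a smooth form `th`.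

Proof: the Weitzenboeck identity of `S.OK` says that `A' = A + c(th) i` has the energy of the bundle
data `twD` (connection `∇ + i th`, potential `Q + ∑ (d^+ th)_k ρ_k`).  For its eigensections
`B' A' φ_k = μ_k φ_k`; a weak solution `u` is orthogonal to all `B' w`, so `μ_k ⟨u, φ_k⟩ = 0` and `u` is
a finite combination of smooth sections (Parseval).

* `smooth_of_weak` : the abstract statement, for `Spec D`.
-/

set_option autoImplicit false
set_option maxSynthPendingDepth 3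
set_option linter.unusedSectionVars false

open scoped ContDiff ENNReal NNReal Topology Manifold Bundle RealInnerProductSpace
open MeasureTheory Set Filter Metric Bundle

universe v

namespace Crest.Agent.R235.SWReg_915

open Crest.Agent.R249.Tv57 Crest.Agent.R247.Ms322 Crest.Agent.R247.Dir593
open Crest.Agent.R235.SWDefs_53 Crest.Agent.R235.SWSym_451

noncomputable section

section gen

variable {n : ℕ} {M : Type*} [MetricSpace M] [ChartedSpace (EuclideanSpace ℝ (Fin n)) M]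
  [IsManifold (𝓡 n) ∞ M]
  [RiemannianBundle (fun p : M => TangentSpace (𝓡 n) p)]
  [IsContMDiffRiemannianBundle (𝓡 n) ∞ (EuclideanSpace ℝ (Fin n)) (fun p : M => TangentSpace (𝓡 n) p)]
  [IsRiemannianManifold (𝓡 n) M] [MeasurableSpace M] [BorelSpace M]
  [SecondCountableTopology M] [Nonempty M]
  [CompactSpace M] [IsFiniteMeasureOnCompacts (μHE[n] : Measure M)]
  {κ : Type} [Fintype κ]

local notation "ipn" => Crest.Agent.R249.Tv57.ip n

/-- `L²` vector functions -/
def L2V (u : κ → M → ℝ) : Prop := ∀ a, MemLp (u a) 2 (μHE[n] : Measure M)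


theorem integrable_l2 {u w : κ → M → ℝ} (hu : L2V (n := n) u) (hw : L2V (n := n) w) :
    Integrable (fun z => ∑ a, u a z * w a z) (μHE[n] : Measure M) :=
  integrable_finsetSum _ fun a _ => (hu a).integrable_mul (hw a)

theorem ip_add_l {u v w : κ → M → ℝ} (hu : L2V (n := n) u) (hv : L2V (n := n) v)
    (hw : L2V (n := n) w) : ipn (fun a z => u a z + v a z) w = ipn u w + ipn v w := by
  have h := integral_add (integrable_l2 hu hw) (integrable_l2 hv hw)
  rw [Crest.Agent.R249.Tv57.ip, Crest.Agent.R249.Tv57.ip, Crest.Agent.R249.Tv57.ip, ← h]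
  refine integral_congr_ae (Eventually.of_forall fun z => ?_)
  simp only [add_mul, Finset.sum_add_distrib]





end gen

section four

variable {M : Type v} [MetricSpace M] [CompactSpace M] [ConnectedSpace M]
  [ChartedSpace (EuclideanSpace ℝ (Fin 4)) M] [IsManifold (𝓡 4) ∞ M]
  [RiemannianBundle (fun p : M => TangentSpace (𝓡 4) p)]
  [IsContMDiffRiemannianBundle (𝓡 4) ∞ (EuclideanSpace ℝ (Fin 4))
    (fun p : M => TangentSpace (𝓡 4) p)]
  [IsRiemannianManifold (𝓡 4) M] [MeasurableSpace M] [BorelSpace M]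
  [SecondCountableTopology M] [Nonempty M] [IsFiniteMeasureOnCompacts (μHE[4] : Measure M)]
  {κ0 κ1 κT : Type} [Fintype κ0] [Fintype κ1] [Fintype κT]
  {S : SWS M κ0 κ1 κT} {cc : κ1 → κ0 → M → EuclideanSpace ℝ (Fin 4)}

local notation "ipp" => Crest.Agent.R249.Tv57.ip 4

















end four


end

end Crest.Agent.R235.SWReg_915
end

-- ▼ part R235/FamEndB_307

/-!
Row 235 (S0364), PACKAGE FAM (leader helper307): from a solution with the twist `h` in the unit cube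
to a solution with bounded harmonic part: `a ↦ a + j.fm h`.
-/

set_option autoImplicit false
set_option maxSynthPendingDepth 3
set_option linter.unusedSectionVars false

open scoped ContDiff ENNReal NNReal Topology Manifold Bundle RealInnerProductSpace
open MeasureTheory Set Filter Metric Bundle Module

universe v

namespace Crest.Agent.R235.FamEndB_307

open Crest.Agent.R249.Tv57 Crest.Agent.R247.Ms322 Crest.Agent.R247.Dir593
open Crest.Agent.R235.SWDefs_53 Crest.Agent.R235.SWEnd_53 Crest.Agent.R235.SWGeo_659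
open Crest.Agent.R235.Dens_433 (secW coe_secW)

noncomputable section

local notation "ipp" => Crest.Agent.R249.Tv57.ip 4

variable {M : Type v} [MetricSpace M] [CompactSpace M] [ConnectedSpace M]
  [ChartedSpace (EuclideanSpace ℝ (Fin 4)) M] [IsManifold (𝓡 4) ∞ M]
  [RiemannianBundle (fun p : M => TangentSpace (𝓡 4) p)]
  [IsContMDiffRiemannianBundle (𝓡 4) ∞ (EuclideanSpace ℝ (Fin 4))
    (fun p : M => TangentSpace (𝓡 4) p)]
  [IsRiemannianManifold (𝓡 4) M] [MeasurableSpace M] [BorelSpace M]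
  [SecondCountableTopology M] [Nonempty M] [IsFiniteMeasureOnCompacts (μHE[4] : Measure M)]
  {κ0 κ1 κT : Type} [Fintype κ0] [Fintype κ1] [Fintype κT]

/-- Cauchy-Schwarz. -/
theorem ip_le {κ : Type} [Fintype κ] {f w : κ → M → ℝ}
    (hf : ∀ a, MemLp (f a) 2 (μHE[4] : Measure M)) (hw : ∀ a, MemLp (w a) 2 (μHE[4] : Measure M)) :
    |ipp f w| ≤ √(ipp f f) * √(ipp w w) := by
  have hff : Integrable (fun z => ∑ a, f a z * f a z) (μHE[4] : Measure M) :=
    integrable_finsetSum _ fun a _ => (hf a).integrable_mul (hf a)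
  have hww : Integrable (fun z => ∑ a, w a z * w a z) (μHE[4] : Measure M) :=
    integrable_finsetSum _ fun a _ => (hw a).integrable_mul (hw a)
  have hfw : Integrable (fun z => ∑ a, f a z * w a z) (μHE[4] : Measure M) :=
    integrable_finsetSum _ fun a _ => (hf a).integrable_mul (hw a)
  have hA : 0 ≤ ipp f f := integral_nonneg fun z => Finset.sum_nonneg fun a _ => mul_self_nonneg _
  have key : ∀ x : ℝ, 0 ≤ ipp f f * (x * x) + (2 * ipp f w) * x + ipp w w := by
    intro x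
    have h1 : ipp f f * (x * x) + (2 * ipp f w) * x + ipp w w =
        ∫ z, ∑ a, (x * f a z + w a z) ^ 2 ∂(μHE[4] : Measure M) := by
      have h2 : (fun z => ∑ a, (x * f a z + w a z) ^ 2) = fun z =>
          (x * x) * (∑ a, f a z * f a z) + (2 * x) * (∑ a, f a z * w a z) +
            ∑ a, w a z * w a z := by
        funext z
        rw [Finset.mul_sum, Finset.mul_sum, ← Finset.sum_add_distrib, ← Finset.sum_add_distrib]
        exact Finset.sum_congr rfl fun a _ => by ring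
      have e1 := integral_add ((hff.const_mul (x * x)).add (hfw.const_mul (2 * x))) hww
      have e2 := integral_add (hff.const_mul (x * x)) (hfw.const_mul (2 * x))
      simp only [Pi.add_apply] at e1 e2
      rw [h2, e1, e2, integral_const_mul, integral_const_mul]
      show _ = (x * x) * ipp f f + (2 * x) * ipp f w + ipp w w
      ring
    rw [h1]
    exact integral_nonneg fun z => Finset.sum_nonneg fun a _ => sq_nonneg _
  have hdis := discrim_le_zero key
  rw [discrim] at hdis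
  have h3 : (ipp f w) ^ 2 ≤ ipp f f * ipp w w := by nlinarith
  rw [← Real.sqrt_mul hA]
  exact Real.abs_le_sqrt h3

theorem inW_memLp {κ : Type} [Fintype κ] {D : Dat 4 M κ} {u : κ → M → ℝ} (h : InW D u) (a : κ) :
    MemLp (u a) 2 (μHE[4] : Measure M) := by
  obtain ⟨w, hw⟩ := h
  exact (memLp_congr_ae (hw a)).1 (Lp.memLp _)

theorem smV_memLp {κ : Type} [Fintype κ] {u : κ → M → ℝ} (h : SmV (n := 4) u) (a : κ) :
    MemLp (u a) 2 (μHE[4] : Measure M) :=
  (h a).continuous.memLp_of_hasCompactSupport (HasCompactSupport.of_compactSpace _)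

theorem inW_add_sm {κ : Type} [Fintype κ] {D : Dat 4 M κ} {u v : κ → M → ℝ} (hu : InW D u)
    (hv : SmV (n := 4) v) (hs : D.Sec v) : InW D (u + v) := by
  obtain ⟨w, hw⟩ := hu
  refine ⟨w + secW D hv hs, fun a => ?_⟩
  have h1 := coe_secW D hv hs
  have h2 : D.toAD.i1 (w + secW D hv hs) a = D.toAD.i1 w a + D.toAD.i1 (secW D hv hs) a := by
    rw [map_add]
    rfl
  rw [h2]
  filter_upwards [hw a, h1, Lp.coeFn_add (D.toAD.i1 w a) (D.toAD.i1 (secW D hv hs) a)]
    with z e1 e2 e3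
  rw [e3, Pi.add_apply, e1, e2 a]
  rfl

variable {S : SWS M κ0 κ1 κT} {b : ℕ} {j : JD M κT b}

theorem fm_eq (h : Fin b → ℝ) : j.fm h = ∑ i, (2 * Real.pi * h i) • j.al i := by
  funext A z
  simp only [JD.fm, Finset.sum_apply, Pi.smul_apply, smul_eq_mul, Finset.mul_sum, mul_assoc]

theorem fm_all (hj : j.OK S) (h : Fin b → ℝ) : SmV (n := 4) (j.fm h) ∧ S.DT.Sec (j.fm h) ∧
    (∀ k z, S.H.B (j.fm h) k z = 0) ∧ ∀ w : κT → M → ℝ, SmV (n := 4) w →
      ipp (j.fm h) w = ∑ i, (2 * Real.pi * h i) * ipp (j.al i) w := by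
  obtain ⟨h1, h2, h3, h4⟩ := sum_all S.H.swap Finset.univ (fun i => 2 * Real.pi * h i) j.al
    hj.sm hj.sec
  rw [← fm_eq] at h1 h2 h3 h4
  refine ⟨h1, h2, fun k z => ?_, h4⟩
  have h5 := h3 k z
  have h6 : ∀ i, S.H.swap.A (j.al i) k z = 0 := fun i => hj.harm i k z
  simp only [h6, mul_zero, Finset.sum_const_zero] at h5
  exact h5

/-- the bound of the harmonic part. -/
def Hbd (j : JD M κT b) : ℝ := 2 * Real.pi * ∑ i, √(ipp (j.al i) (j.al i))

theorem fm_bd (hj : j.OK S) {h : Fin b → ℝ} (hh : ∀ i, 0 ≤ h i ∧ h i ≤ 1) {w : κT → M → ℝ}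
    (hw : SmV (n := 4) w) : |ipp (j.fm h) w| ≤ Hbd j * √(ipp w w) := by
  rw [(fm_all hj h).2.2.2 w hw, Hbd, mul_assoc, Finset.sum_mul, Finset.mul_sum]
  refine (Finset.abs_sum_le_sum_abs _ _).trans (Finset.sum_le_sum fun i _ => ?_)
  have h1 := ip_le (f := j.al i) (w := w) (smV_memLp (hj.sm i)) (smV_memLp hw)
  rw [abs_mul, abs_mul, abs_of_pos (by positivity : (0 : ℝ) < 2 * Real.pi),
    abs_of_nonneg (hh i).1]
  have h2 : 2 * Real.pi * h i ≤ 2 * Real.pi := by
    have := mul_le_mul_of_nonneg_left (hh i).2 (by positivity : (0 : ℝ) ≤ 2 * Real.pi)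
    linarith
  exact mul_le_mul h2 h1 (abs_nonneg _) (by positivity)

/-- **the twist becomes a harmonic part.** -/
theorem solB_all (hj : j.OK S) {d : SWD M κT} {h : Fin b → ℝ} (hh : ∀ i, 0 ≤ h i ∧ h i ≤ 1)
    {t : E3} {a : κT → M → ℝ} {u : κ0 → M → ℝ} (hs : Sol S (d.tw j h) t a u) :
    InW S.DT (a + j.fm h) ∧ InW S.D0 u ∧
    (∃ C : ℝ, ∀ᵐ z ∂(μHE[4] : Measure M), ∑ y, u y z ^ 2 ≤ C) ∧
    WkA S.P u (fun x z => - S.cm ((a + j.fm h) + d.th t) u x z) ∧
    WkA S.H.swap (a + j.fm h) (rhs S d t u) ∧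
    (∀ w : κT → M → ℝ, SmV (n := 4) w → S.DT.Sec w → (∀ k z, S.H.B w k z = 0) →
      |ipp (a + j.fm h) w| ≤ Hbd j * √(ipp w w)) := by
  obtain ⟨f1, f2, f3, f4⟩ := fm_all hj h
  have hadd : ∀ w : κT → M → ℝ, SmV (n := 4) w →
      ipp (a + j.fm h) w = ipp a w + ipp (j.fm h) w := by
    intro w hw
    exact Crest.Agent.R235.SWReg_915.ip_add_l (n := 4) (u := a) (v := j.fm h)
      (fun A => inW_memLp hs.wa A) (fun A => smV_memLp f1 A) (fun A => smV_memLp hw A)
  refine ⟨inW_add_sm hs.wa f1 f2, hs.wu, hs.bd, ?_, ?_, ?_⟩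
  · have h1 : (a + j.fm h) + d.th t = a + (d.tw j h).th t := by
      show (a + j.fm h) + d.th t = a + (d.th t + j.fm h)
      abel
    rw [h1]
    exact hs.dir
  · obtain ⟨g1, g2, g3⟩ := hs.cur
    refine ⟨g1, g2, fun w hw hsw => ?_⟩
    have h1 : ipp (rhs S d t u) w = ipp a (S.H.swap.B w) := g3 w hw hsw
    have h2 := hadd (S.H.swap.B w) (S.H.smA w hw hsw)
    rw [h1, h2]
    have h3 : ipp (j.fm h) (S.H.swap.B w) = 0 := by
      have h4 := S.H.adj w (j.fm h) hw hsw f1 f2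
      rw [ip_comm]
      refine h4.trans ?_
      unfold Crest.Agent.R249.Tv57.ip
      simp only [f3, mul_zero, Finset.sum_const_zero, integral_zero]
    rw [h3, add_zero]
  · intro w hw hsw hB
    rw [hadd w hw, hs.har w hw hsw hB, zero_add]
    exact fm_bd hj hh hw

end

end Crest.Agent.R235.FamEndB_307
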