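import Crest.Agent.R235.FamTop_307

/-!
Row 235 (S0364), PACKAGE FAM (leader helper307): the form of `FWX0`, `FAMX` used by `MODX`: the
parameter `h` of the twist may be taken in the unit cube (the harmonic part stays bounded).

* `FWX0C` (151): no solution with `h` in the unit cube at `‖t‖ = 1`  ⇒  `Model0`  (hence `FWX0`);
* `FAMXC` : `numJ ≠ 0` ⇒ there is a solution at `‖t‖ = 1` with `h` in the unit cube.
-/

set_option autoImplicit false
set_option maxSynthPendingDepth 3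
set_option linter.unusedSectionVars false

open scoped ContDiff ENNReal NNReal Topology Manifold Bundle RealInnerProductSpace
open MeasureTheory Set Filter Metric Bundle Module

universe v

namespace Crest.Agent.R235.FamTop2_307

open Crest.Agent.R235
open Crest.Agent.R249.Tv57 (Dat OpPair SmF SmV KerD)
open Crest.Agent.R235.SWDefs_53 Crest.Agent.R235.SWSym_451
open Crest.Agent.R235.FamDefs_307 Crest.Agent.R235.FamW_307 Crest.Agent.R235.FamTop_307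
open Crest.Agent.R235.FamR_151 (PFam)

noncomputable section

/-- **FWX0C**: no solutions with `h` in the unit cube at `‖t‖ = 1`. -/
def FWX0C : Prop :=
  ∀ (M : Type v) [MetricSpace M] [CompactSpace M] [ConnectedSpace M]
    [ChartedSpace (EuclideanSpace ℝ (Fin 4)) M] [IsManifold (𝓡 4) ∞ M]
    [RiemannianBundle (fun p : M => TangentSpace (𝓡 4) p)]
    [IsContMDiffRiemannianBundle (𝓡 4) ∞ (EuclideanSpace ℝ (Fin 4))
      (fun p : M => TangentSpace (𝓡 4) p)]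
    [IsRiemannianManifold (𝓡 4) M] [MeasurableSpace M] [BorelSpace M]
    [SecondCountableTopology M] [Nonempty M] [IsFiniteMeasureOnCompacts (μHE[4] : Measure M)]
    (κ0 κ1 κT : Type) [Fintype κ0] [Fintype κ1] [Fintype κT]
    (S : SWS M κ0 κ1 κT) (cc : κ1 → κ0 → M → EuclideanSpace ℝ (Fin 4)) (J1 : κ1 → κ1 → M → ℝ)
    (j : JD M κT 4) (d : SWD M κT), S.OK → Sym S cc → CJ1 S cc J1 → j.OK S → d.Adm S →
    ∀ (X Y : Type v) [NormedAddCommGroup X] [InnerProductSpace ℂ X] [CompleteSpace X]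
      [NormedAddCommGroup Y] [InnerProductSpace ℂ Y] [CompleteSpace Y]
      (Φ : PFam 4 X Y) (eX : X ≃L[ℝ] S.D0.toAD.WE) (eY : Y ≃L[ℝ] S.D1.toAD.HE)
      (φ : Fin 4 → M → ℝ), Rep S j J1 Φ eX eY φ →
    finrank ℂ (LinearMap.ker (Φ.D 0 : X →ₗ[ℂ] Y)) =
      finrank ℂ ((LinearMap.range (Φ.D 0 : X →ₗ[ℂ] Y))ᗮ : Submodule ℂ Y) →
    Nonempty (KerD S.DL S.H.A 4) →
    (∀ (t : E3) (h : Fin 4 → ℝ) (a : κT → M → ℝ) (u : κ0 → M → ℝ), ‖t‖ = 1 →
      (∀ i, 0 ≤ h i ∧ h i ≤ 1) → ¬ Sol S (d.tw j h) t a u) → Model0 Φ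

/-- **FAMXC** (assembly 307). -/
def FAMXC : Prop :=
  ∀ (M : Type v) [MetricSpace M] [CompactSpace M] [ConnectedSpace M]
    [ChartedSpace (EuclideanSpace ℝ (Fin 4)) M] [IsManifold (𝓡 4) ∞ M]
    [RiemannianBundle (fun p : M => TangentSpace (𝓡 4) p)]
    [IsContMDiffRiemannianBundle (𝓡 4) ∞ (EuclideanSpace ℝ (Fin 4))
      (fun p : M => TangentSpace (𝓡 4) p)]
    [IsRiemannianManifold (𝓡 4) M] [MeasurableSpace M] [BorelSpace M]
    [SecondCountableTopology M] [Nonempty M] [IsFiniteMeasureOnCompacts (μHE[4] : Measure M)]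
    (κ0 κ1 κT : Type) [Fintype κ0] [Fintype κ1] [Fintype κT]
    (S : SWS M κ0 κ1 κT) (cc : κ1 → κ0 → M → EuclideanSpace ℝ (Fin 4)) (J1 : κ1 → κ1 → M → ℝ)
    (j : JD M κT 4) (d : SWD M κT) (d0 : ℕ), S.OK → Sym S cc → CJ1 S cc J1 → j.OK S → d.Adm S →
    Nonempty (KerD S.D0 S.P.A d0) → Nonempty (KerD S.D1 S.P.B d0) →
    Nonempty (KerD S.DL S.H.A 4) → numJ S j ≠ 0 →
    ∃ (t : E3) (h : Fin 4 → ℝ) (a : κT → M → ℝ) (u : κ0 → M → ℝ), ‖t‖ = 1 ∧
      (∀ i, 0 ≤ h i ∧ h i ≤ 1) ∧ Sol S (d.tw j h) t a u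


/-- **FAMXC** from the blocks. -/
theorem famxc_of (hR : RCMAN.{v}) (hS : FWX0C.{v}) (hF : FIN4) : FAMXC.{v} := by
  intro M _ _ _ _ _ _ _ _ _ _ _ _ _ κ0 κ1 κT _ _ _ S cc J1 j d d0 hOK hsym hJ1 hj hd h0 h1 h4 hn
  obtain ⟨K0, hK0, hR⟩ := hR
  by_contra hcon
  push Not at hcon
  obtain ⟨X, Y, iX, jX, kX, iY, jY, kY, Φ, eX, eY, φ, hrep, hind, hch⟩ :=
    hR M κ0 κ1 κT S cc J1 j hOK hsym hJ1 hj
  obtain ⟨W, hW, n, m, fr, L, fR, fW, R, hs, hfw, hnz⟩ :=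
    hS M κ0 κ1 κT S cc J1 j d hOK hsym hJ1 hj hd X Y Φ eX eY φ hrep (hind d0 h0 h1) h4
      (fun t h a u ht hh => hcon t h a u ht hh)
  have e1 := hF _ _ _ _ m fr.P L fR fW R hfw hnz
  have e2 := hch W n fr hs
  rw [e1] at e2
  exact mul_ne_zero hK0 (Complex.ofReal_ne_zero.2 hn) e2.symm

end

end Crest.Agent.R235.FamTop2_307
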