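import Crest.Agent.R235.SWDefs_53
import Crest.Agent.R235.Dns_433

-- ▼ part R235/Green_649
section

/-!
Row 235 (S0364), PACKAGE SW, E2 (helper649): the Green operator of an elliptic pair
`P : OpPair D0 D1` (format `Tv57`).

* `SS D`           : smooth sections, a submodule of `κ → M → ℝ`;
* `hl : SS D → HH`, `wl : SS D → W^{1,2}` : linear maps to the Hilbert spaces;
* `OpPair.al`      : `A` as a linear map `SS D0 → SS D1` (linearity follows from adjointness);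
* `exists_series`  : abstract summation lemma;
* `exists_grn`     : the Green operator `f ↦ ∑_{μ_k ≠ 0} μ_k⁻¹ ⟨f, φ_k⟩ A φ_k`, bounded into `W^{1,2}(D1)`.
-/

set_option autoImplicit false
set_option maxSynthPendingDepth 3
set_option linter.unusedSectionVars false

open scoped ContDiff ENNReal NNReal Topology Manifold Bundle RealInnerProductSpace
open MeasureTheory Set Filter Metric Bundle

namespace Crest.Agent.R235.Green_649

open Crest.Agent.R249.Tv57 Crest.Agent.R247.Ms322 Crest.Agent.R247.Dir593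

noncomputable section

/-! ### abstract summation -/

section abs

variable {H W : Type*} [NormedAddCommGroup H] [InnerProductSpace ℝ H] [NormedAddCommGroup W]
  [NormedSpace ℝ W] [CompleteSpace W]

/-- **abstract summation lemma.** -/
theorem exists_series {b : ℕ → H} (hb : ∀ (f : H) (s : Finset ℕ), ∑ k ∈ s, ⟪f, b k⟫ ^ 2 ≤ ‖f‖ ^ 2)
    {e : ℕ → W} {C : ℝ} (hC0 : 0 ≤ C)
    (hC : ∀ (s : Finset ℕ) (c : ℕ → ℝ), ‖∑ k ∈ s, c k • e k‖ ^ 2 ≤ C ^ 2 * ∑ k ∈ s, c k ^ 2) :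
    ∃ G : H →L[ℝ] W, (∀ f, HasSum (fun k => ⟪f, b k⟫ • e k) (G f)) ∧ ∀ f, ‖G f‖ ≤ C * ‖f‖ := by
  have hsq : ∀ f : H, Summable fun k => ⟪f, b k⟫ ^ 2 := fun f =>
    summable_of_sum_le (fun k => sq_nonneg _) (hb f)
  have hsum : ∀ f : H, Summable fun k => ⟪f, b k⟫ • e k := by
    intro f
    rw [summable_iff_vanishing_norm]
    intro ε hε
    obtain ⟨s, hs⟩ := (summable_iff_vanishing_norm.1 (hsq f)) ((ε / (C + 1)) ^ 2) (by positivity)
    refine ⟨s, fun t ht => ?_⟩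
    have h1 := hs t ht
    rw [Real.norm_of_nonneg (Finset.sum_nonneg fun k _ => sq_nonneg _)] at h1
    have h2 := hC t (fun k => ⟪f, b k⟫)
    have h3 : ‖∑ k ∈ t, ⟪f, b k⟫ • e k‖ ^ 2 < ε ^ 2 := by
      refine lt_of_le_of_lt h2 ?_
      have h4 : C ^ 2 * ∑ k ∈ t, ⟪f, b k⟫ ^ 2 ≤ C ^ 2 * (ε / (C + 1)) ^ 2 :=
        mul_le_mul_of_nonneg_left h1.le (sq_nonneg _)
      refine lt_of_le_of_lt h4 ?_
      have h5 : C ^ 2 * (ε / (C + 1)) ^ 2 = (C / (C + 1)) ^ 2 * ε ^ 2 := by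
        field_simp
      rw [h5]
      have h6 : (C / (C + 1)) ^ 2 < 1 := by
        have : C / (C + 1) < 1 := (div_lt_one (by linarith)).2 (by linarith)
        have h7 : 0 ≤ C / (C + 1) := by positivity
        nlinarith
      have h8 : 0 < ε ^ 2 := by positivity
      nlinarith
    exact lt_of_pow_lt_pow_left₀ 2 hε.le h3
  have hG : ∀ f : H, HasSum (fun k => ⟪f, b k⟫ • e k) (∑' k, ⟪f, b k⟫ • e k) := fun f =>
    (hsum f).hasSum
  have hbd : ∀ f : H, ‖∑' k, ⟪f, b k⟫ • e k‖ ≤ C * ‖f‖ := by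
    intro f
    have h1 : Tendsto (fun s : Finset ℕ => ‖∑ k ∈ s, ⟪f, b k⟫ • e k‖) atTop
        (𝓝 ‖∑' k, ⟪f, b k⟫ • e k‖) := (hG f).norm
    refine le_of_tendsto' h1 fun s => ?_
    have h2 := (hC s (fun k => ⟪f, b k⟫)).trans
      (mul_le_mul_of_nonneg_left (hb f s) (sq_nonneg C))
    rw [← mul_pow] at h2
    exact (pow_le_pow_iff_left₀ (norm_nonneg _) (by positivity) two_ne_zero).1 h2
  let L : H →ₗ[ℝ] W :=
    { toFun := fun f => ∑' k, ⟪f, b k⟫ • e k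
      map_add' := fun f g => by
        have h1 := (hG f).add (hG g)
        have h2 : (fun k => ⟪f, b k⟫ • e k + ⟪g, b k⟫ • e k) = fun k => ⟪f + g, b k⟫ • e k := by
          funext k
          rw [inner_add_left, add_smul]
        rw [h2] at h1
        exact (hG (f + g)).unique h1
      map_smul' := fun c f => by
        have h1 := (hG f).const_smul c
        have h2 : (fun k => c • ⟪f, b k⟫ • e k) = fun k => ⟪c • f, b k⟫ • e k := by
          funext k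
          rw [real_inner_smul_left, mul_smul]
        rw [h2] at h1
        exact (hG (c • f)).unique h1 }
  exact ⟨L.mkContinuous C hbd, hG, hbd⟩

end abs

/-! ### smooth sections in the Hilbert spaces -/

variable {n : ℕ} {M : Type*} [MetricSpace M] [ChartedSpace (EuclideanSpace ℝ (Fin n)) M]
  [IsManifold (𝓡 n) ∞ M]
  [RiemannianBundle (fun p : M => TangentSpace (𝓡 n) p)]
  [IsContMDiffRiemannianBundle (𝓡 n) ∞ (EuclideanSpace ℝ (Fin n)) (fun p : M => TangentSpace (𝓡 n) p)]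
  [IsRiemannianManifold (𝓡 n) M] [MeasurableSpace M] [BorelSpace M]
  [SecondCountableTopology M] [Nonempty M]
  [CompactSpace M] [IsFiniteMeasureOnCompacts (μHE[n] : Measure M)]
variable {κ κ' : Type} [Fintype κ] [Fintype κ'] {D0 : Dat n M κ} {D1 : Dat n M κ'}

/-- the smooth sections of `D`. -/
def SS (D : Dat n M κ) : Submodule ℝ (κ → M → ℝ) where
  carrier := {u | SmV (n := n) u ∧ D.Sec u}
  zero_mem' := ⟨fun a => contMDiff_const, fun a z => by simp⟩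
  add_mem' := fun {u v} hu hv => ⟨fun a => (hu.1 a).add (hv.1 a), fun a z => by
    simp only [Pi.add_apply, mul_add, Finset.sum_add_distrib, hu.2 a z, hv.2 a z]⟩
  smul_mem' := fun c u hu => ⟨fun a => contMDiff_const.mul (hu.1 a), fun a z => by
    have h1 := hu.2 a z
    simp only [Pi.smul_apply, smul_eq_mul]
    rw [← h1, Finset.mul_sum]
    exact Finset.sum_congr rfl fun b _ => by ring⟩

theorem ssm {D : Dat n M κ} (u : SS D) : SmV (n := n) (u : κ → M → ℝ) := u.2.1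
theorem sse {D : Dat n M κ} (u : SS D) : D.Sec (u : κ → M → ℝ) := u.2.2

theorem ext_ss {D : Dat n M κ} {u v : SS D} (h : (u : κ → M → ℝ) = v) : u = v := Subtype.ext h

/-- a smooth function as an element of `L²`. -/
def tl {f : M → ℝ} (hf : ContMDiff (𝓡 n) 𝓘(ℝ, ℝ) ∞ f) : Lp ℝ 2 (μHE[n] : Measure M) :=
  GradS.tL (isT_smooth hf)

theorem coe_tl {f : M → ℝ} (hf : ContMDiff (𝓡 n) 𝓘(ℝ, ℝ) ∞ f) :
    (tl hf : Lp ℝ 2 (μHE[n] : Measure M)) =ᵐ[(μHE[n] : Measure M)] f :=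
  GradS.coe_tL _

/-- a smooth section as an element of `L²`. -/
def hl (D : Dat n M κ) : SS D →ₗ[ℝ] HH (μHE[n] : Measure M) κ where
  toFun := fun u => WithLp.toLp 2 fun a => tl (ssm u a)
  map_add' := fun u v => by
    ext a
    filter_upwards [coe_tl (ssm (u + v) a), coe_tl (ssm u a), coe_tl (ssm v a),
      Lp.coeFn_add (tl (ssm u a) : Lp ℝ 2 (μHE[n] : Measure M)) (tl (ssm v a))] with x e1 e2 e3 e4
    have : ((WithLp.toLp 2 fun a => tl (ssm u a) : HH (μHE[n] : Measure M) κ) +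
        (WithLp.toLp 2 fun a => tl (ssm v a) : HH (μHE[n] : Measure M) κ)) a
          = tl (ssm u a) + tl (ssm v a) := rfl
    rw [this, e4, Pi.add_apply, e2, e3]
    exact e1
  map_smul' := fun c u => by
    ext a
    filter_upwards [coe_tl (ssm (c • u) a), coe_tl (ssm u a),
      Lp.coeFn_smul c (tl (ssm u a) : Lp ℝ 2 (μHE[n] : Measure M))] with x e1 e2 e3
    have : ((RingHom.id ℝ) c • (WithLp.toLp 2 fun a => tl (ssm u a) :
        HH (μHE[n] : Measure M) κ)) a = c • tl (ssm u a) := rfl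
    rw [this, e3, Pi.smul_apply, e2]
    exact e1

theorem coe_hl {D : Dat n M κ} (u : SS D) :
    ∀ᵐ x ∂(μHE[n] : Measure M), ∀ a, (hl D u a : M → ℝ) x = (u : κ → M → ℝ) a x := by
  rw [ae_all_iff]
  intro a
  exact coe_tl (ssm u a)

theorem hl_V {D : Dat n M κ} (u : SS D) (a : κ) : hl D u a ∈ (gradS n M).V :=
  (gradS n M).tL_mem (isT_smooth (ssm u a))

theorem hl_P {D : Dat n M κ} (u : SS D) : D.toAD.P (hl D u) = hl D u := by
  ext a
  filter_upwards [D.toAD.coe_P (hl D u), coe_hl u] with x e1 e2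
  rw [e1 a, e2 a, ← sse u a x]
  exact Finset.sum_congr rfl fun b _ => by rw [e2 b]; rfl

theorem inner_hl {D D' : Dat n M κ} (u : SS D) (v : SS D') :
    ⟪hl D u, hl D' v⟫ = Crest.Agent.R249.Tv57.ip n (u : κ → M → ℝ) (v : κ → M → ℝ) :=
  inner_HH _ _ (coe_hl u) (coe_hl v)

/-- a smooth section as an element of `W^{1,2}`. -/
def wl (D : Dat n M κ) : SS D →ₗ[ℝ] D.toAD.WE where
  toFun := fun u => D.toAD.mkW (hl D u) (hl_V u) (hl_P u)
  map_add' := fun u v => by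
    apply D.toAD.jj_injective
    apply Subtype.ext
    have h1 : ((D.toAD.jj (D.toAD.mkW (hl D u) (hl_V u) (hl_P u) +
        D.toAD.mkW (hl D v) (hl_V v) (hl_P v)) : D.toAD.HE) : HH (μHE[n] : Measure M) κ)
          = hl D u + hl D v := rfl
    rw [h1, ← map_add]
    rfl
  map_smul' := fun c u => by
    apply D.toAD.jj_injective
    apply Subtype.ext
    have h1 : ((D.toAD.jj ((RingHom.id ℝ) c • D.toAD.mkW (hl D u) (hl_V u) (hl_P u)) :
        D.toAD.HE) : HH (μHE[n] : Measure M) κ) = c • hl D u := rfl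
    rw [h1, ← map_smul]
    rfl

@[simp] theorem i1_wl {D : Dat n M κ} (u : SS D) : D.toAD.i1 (wl D u) = hl D u := rfl

set_option synthInstance.maxHeartbeats 200000 in
instance instT2WE (D : Dat n M κ) : T2Space D.toAD.WE := inferInstance

theorem i1_injective (D : Dat n M κ) : Function.Injective D.toAD.i1 := fun _ _ h =>
  D.toAD.jj_injective (Subtype.ext h)

/-- the energy of smooth sections. -/
theorem form_wl {D : Dat n M κ} (u v : SS D) :
    ⟪D.toAD.c1 (wl D u), D.toAD.c1 (wl D v)⟫ + ⟪D.toAD.qL (hl D u), hl D v⟫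
      = ∫ z, D.ed (u : κ → M → ℝ) (v : κ → M → ℝ) z ∂(μHE[n] : Measure M) := by
  have h0 := D.toAD.form_eq (wl D u) (wl D v)
  rw [i1_wl, i1_wl] at h0
  rw [h0]
  have hD : ∀ w : SS D, ∀ᵐ x ∂(μHE[n] : Measure M), ∀ a,
      ((gradS n M).D (hl D w a) : M → EuclideanSpace ℝ (Fin n)) x
        = Gr (n := n) ((w : κ → M → ℝ) a) x := by
    intro w
    rw [ae_all_iff]
    intro a
    exact (gradS n M).D_tL (isT_smooth (ssm w a))
  refine integral_congr_ae ?_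
  filter_upwards [coe_hl u, coe_hl v, hD u, hD v] with x e1 e2 e3 e4
  rw [AD.en, Dat.ed]
  congr 1
  · refine Finset.sum_congr rfl fun a _ => ?_
    have c1 : D.cv (u : κ → M → ℝ) a x = D.toAD.cvf (hl D u) a x := by
      rw [Dat.cv, AD.cvf, e3 a]
      congr 1
      exact Finset.sum_congr rfl fun b _ => by rw [e1 b]; rfl
    have c2 : D.cv (v : κ → M → ℝ) a x = D.toAD.cvf (hl D v) a x := by
      rw [Dat.cv, AD.cvf, e4 a]
      congr 1
      exact Finset.sum_congr rfl fun b _ => by rw [e2 b]; rfl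
    rw [c1, c2]
  · refine Finset.sum_congr rfl fun a _ => Finset.sum_congr rfl fun b _ => ?_
    rw [e1 b, e2 a]
    rfl

/-- **Garding** for smooth sections. -/
theorem exists_garding (D : Dat n M κ) : ∃ C : ℝ, 0 ≤ C ∧ ∀ u : SS D,
    ‖wl D u‖ ^ 2 ≤ 2 * ∫ z, D.ed (u : κ → M → ℝ) (u : κ → M → ℝ) z ∂(μHE[n] : Measure M)
      + C * ‖hl D u‖ ^ 2 := by
  refine ⟨1 + 2 * ‖D.toAD.qL‖ + 2 * ‖matF D.toAD.hw‖ ^ 2, by positivity, fun u => ?_⟩
  have h1 := D.toAD.norm_WE_le (wl D u)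
  have h2 := form_wl u u
  rw [real_inner_self_eq_norm_sq] at h2
  rw [i1_wl] at h1
  have h3 : |⟪D.toAD.qL (hl D u), hl D u⟫| ≤ ‖D.toAD.qL‖ * ‖hl D u‖ ^ 2 := by
    refine (abs_real_inner_le_norm _ _).trans ?_
    rw [sq, ← mul_assoc]
    gcongr
    exact ContinuousLinearMap.le_opNorm _ _
  have h4 := (abs_le.1 h3).1
  nlinarith

/-- a smooth section orthogonal to itself vanishes. -/
theorem ss_zero {D : Dat n M κ} {u : SS D}
    (h : Crest.Agent.R249.Tv57.ip n (u : κ → M → ℝ) (u : κ → M → ℝ) = 0) : u = 0 :=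
  ext_ss (funext fun a => funext fun z => eq_zero_of_ip (ssm u) h a z)

theorem ss_zero' {D : Dat n M κ} {u : SS D} (h : ⟪hl D u, hl D u⟫ = (0 : ℝ)) : u = 0 :=
  ss_zero (by rw [← inner_hl]; exact h)

/-- the eigensections. -/
def ef {D : Dat n M κ} (S : Spec D) (k : ℕ) : SS D := ⟨S.φ k, S.smV k, S.sec k⟩

theorem inner_ef {D : Dat n M κ} (S : Spec D) (k l : ℕ) :
    ⟪hl D (ef S k), hl D (ef S l)⟫ = (if k = l then 1 else 0 : ℝ) := by
  rw [inner_hl]
  exact S.ortho k l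

theorem orthonormal_ef {D : Dat n M κ} (S : Spec D) : Orthonormal ℝ fun k => hl D (ef S k) := by
  rw [orthonormal_iff_ite]
  exact inner_ef S

/-- Bessel. -/
theorem bessel {D : Dat n M κ} (S : Spec D) (f : HH (μHE[n] : Measure M) κ) (s : Finset ℕ) :
    ∑ k ∈ s, ⟪f, hl D (ef S k)⟫ ^ 2 ≤ ‖f‖ ^ 2 := by
  have h := (orthonormal_ef S).sum_inner_products_le f (s := s)
  refine le_trans (le_of_eq ?_) h
  refine Finset.sum_congr rfl fun k _ => ?_
  rw [Real.norm_eq_abs, sq_abs, real_inner_comm]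

/-- Parseval. -/
theorem parseval {D : Dat n M κ} (S : Spec D) {f : HH (μHE[n] : Measure M) κ}
    (hf : D.toAD.P f = f) : HasSum (fun k => ⟪f, hl D (ef S k)⟫ ^ 2) (‖f‖ ^ 2) := by
  have h0 := D.toAD.coe_P f
  rw [hf] at h0
  have h1 := S.pars (fun a => (f a : M → ℝ)) (fun a => Lp.memLp _) (by
    filter_upwards [h0] with z e1 a
    exact (e1 a).symm)
  have hfe : ∀ᵐ x ∂(μHE[n] : Measure M), ∀ a, (f a : M → ℝ) x = (f a : M → ℝ) x :=
    Eventually.of_forall fun _ _ => rfl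
  have e1 : ∫ z, ∑ a, (f a : M → ℝ) z ^ 2 ∂(μHE[n] : Measure M) = ‖f‖ ^ 2 := by
    rw [← real_inner_self_eq_norm_sq, inner_HH f f hfe hfe]
    refine integral_congr_ae (Eventually.of_forall fun x => ?_)
    exact Finset.sum_congr rfl fun a _ => by ring
  have e2 : ∀ k, ∫ z, ∑ a, (f a : M → ℝ) z * S.φ k a z ∂(μHE[n] : Measure M)
      = ⟪f, hl D (ef S k)⟫ := fun k => (inner_HH f _ hfe (coe_hl (ef S k))).symm
  rw [e1] at h1
  simp only [e2] at h1
  exact h1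

/-- polarised Parseval. -/
theorem parseval2 {D : Dat n M κ} (S : Spec D) {f g : HH (μHE[n] : Measure M) κ}
    (hf : D.toAD.P f = f) (hg : D.toAD.P g = g) :
    HasSum (fun k => ⟪f, hl D (ef S k)⟫ * ⟪g, hl D (ef S k)⟫) ⟪f, g⟫ := by
  have h1 := parseval S (f := f + g) (by rw [map_add, hf, hg])
  have h2 := parseval S (f := f - g) (by rw [map_sub, hf, hg])
  have h3 := (h1.sub h2).mul_left (1 / 4)
  have e1 : 1 / 4 * (‖f + g‖ ^ 2 - ‖f - g‖ ^ 2) = ⟪f, g⟫ := by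
    rw [← real_inner_self_eq_norm_sq, ← real_inner_self_eq_norm_sq]
    simp only [inner_add_left, inner_add_right, inner_sub_left, inner_sub_right]
    rw [real_inner_comm f g]
    ring
  rw [e1] at h3
  refine h3.congr_fun ?_ |> fun h => h
  intro k
  simp only [inner_add_left, inner_sub_left]
  ring

/-- the same, `f` arbitrary. -/
theorem parseval3 {D : Dat n M κ} (S : Spec D) (f : HH (μHE[n] : Measure M) κ)
    {g : HH (μHE[n] : Measure M) κ} (hg : D.toAD.P g = g) :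
    HasSum (fun k => ⟪f, hl D (ef S k)⟫ * ⟪g, hl D (ef S k)⟫) ⟪f, g⟫ := by
  have h1 := parseval2 S (D.toAD.P_P f) hg
  have e1 : ⟪D.toAD.P f, g⟫ = ⟪f, g⟫ := by rw [D.toAD.inner_P, hg]
  have e2 : ∀ k, ⟪D.toAD.P f, hl D (ef S k)⟫ = ⟪f, hl D (ef S k)⟫ := fun k => by
    rw [D.toAD.inner_P, hl_P]
  rw [e1] at h1
  simp only [e2] at h1
  exact h1

/-- an element of `L²(E)` orthogonal to all eigensections vanishes. -/
theorem eq_zero_of {D : Dat n M κ} (S : Spec D) {f : HH (μHE[n] : Measure M) κ}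
    (hf : D.toAD.P f = f) (h : ∀ k, ⟪f, hl D (ef S k)⟫ = (0 : ℝ)) : f = 0 := by
  have h1 := parseval S hf
  simp only [h] at h1
  have h2 : ‖f‖ ^ 2 = 0 := by
    have := h1.tsum_eq
    simpa using this.symm
  exact norm_eq_zero.1 (pow_eq_zero_iff two_ne_zero |>.1 h2)

/-! ### `A` as a linear map -/

/-- `A` on smooth sections. -/
def al0 (P : OpPair D0 D1) (u : SS D0) : SS D1 := ⟨P.A u, P.smA _ (ssm u) (sse u),
  P.secA _ (ssm u) (sse u)⟩

theorem adj0 (P : OpPair D0 D1) (u : SS D0) (w : SS D1) :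
    ⟪hl D1 (al0 P u), hl D1 w⟫ = ⟪hl D0 u, hl D0 (al0 P.swap w)⟫ := by
  rw [inner_hl, inner_hl]
  exact P.adj _ _ (ssm u) (sse u) (ssm w) (sse w)

theorem ext_inner {D : Dat n M κ} {u v : SS D} (h : ∀ w : SS D, ⟪hl D u, hl D w⟫ = ⟪hl D v, hl D w⟫) :
    u = v := by
  have h1 : u - v = 0 := by
    apply ss_zero'
    have h2 := h (u - v)
    have h3 : hl D (u - v) = hl D u - hl D v := map_sub _ _ _
    conv_lhs => rw [h3]
    rw [inner_sub_left, ← h3, h2, sub_self]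
  exact sub_eq_zero.1 h1

/-- **`A` as a linear map.** -/
def al (P : OpPair D0 D1) : SS D0 →ₗ[ℝ] SS D1 where
  toFun := al0 P
  map_add' := fun u v => by
    apply ext_inner
    intro w
    rw [adj0, map_add, inner_add_left, map_add, inner_add_left, adj0, adj0]
  map_smul' := fun c u => by
    apply ext_inner
    intro w
    rw [adj0, map_smul, real_inner_smul_left, map_smul, real_inner_smul_left, adj0]
    rfl


/-- adjointness. -/
theorem adj (P : OpPair D0 D1) (u : SS D0) (w : SS D1) :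
    ⟪hl D1 (al P u), hl D1 w⟫ = ⟪hl D0 u, hl D0 (al P.swap w)⟫ := adj0 P u w

/-- the energy identity. -/
theorem energy (P : OpPair D0 D1) (u v : SS D0) :
    ∫ z, D0.ed (u : κ → M → ℝ) (v : κ → M → ℝ) z ∂(μHE[n] : Measure M)
      = ⟪hl D1 (al P u), hl D1 (al P v)⟫ := by
  rw [inner_hl]
  exact P.enA _ _ (ssm u) (sse u) (ssm v) (sse v)

/-- `⟨A φ_k, A v⟩ = μ_k ⟨φ_k, v⟩`. -/
theorem inner_al (P : OpPair D0 D1) (S0 : Spec D0) (k : ℕ) (v : SS D0) :
    ⟪hl D1 (al P (ef S0 k)), hl D1 (al P v)⟫ = S0.μ k * ⟪hl D0 (ef S0 k), hl D0 v⟫ := by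
  rw [← energy, inner_hl]
  exact S0.eig k _ (ssm v)

/-- `B A φ_k = μ_k φ_k`. -/
theorem al_al (P : OpPair D0 D1) (S0 : Spec D0) (k : ℕ) :
    al P.swap (al P (ef S0 k)) = S0.μ k • ef S0 k := by
  apply ext_inner
  intro w
  have h1 := adj P w (al P (ef S0 k))
  rw [real_inner_comm, ← h1, real_inner_comm, inner_al, map_smul, real_inner_smul_left]

theorem al_ker (P : OpPair D0 D1) (S0 : Spec D0) {k : ℕ} (hk : S0.μ k = 0) :
    al P (ef S0 k) = 0 := by
  apply ss_zero'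
  rw [inner_al, hk, zero_mul]

/-- the positive eigenvalues are bounded below. -/
theorem exists_gap (P : OpPair D0 D1) (S0 : Spec D0) :
    ∃ m : ℝ, 0 < m ∧ ∀ k, S0.μ k ≠ 0 → m ≤ S0.μ k := by
  classical
  obtain ⟨N, hN⟩ := eventually_atTop.1 (S0.lim.eventually_ge_atTop 1)
  have h0 := P.mu_nonneg S0
  set s := (Finset.range N).filter fun k => S0.μ k ≠ 0 with hs
  by_cases hne : s.Nonempty
  · obtain ⟨k0, hk0, hmin⟩ := s.exists_min_image S0.μ hne
    have hk0' := (Finset.mem_filter.1 hk0).2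
    have hpos : 0 < S0.μ k0 := lt_of_le_of_ne (h0 k0) (Ne.symm hk0')
    refine ⟨min 1 (S0.μ k0), lt_min one_pos hpos, fun k hk => ?_⟩
    by_cases hkN : k < N
    · exact (min_le_right _ _).trans
        (hmin k (Finset.mem_filter.2 ⟨Finset.mem_range.2 hkN, hk⟩))
    · exact (min_le_left _ _).trans (hN k (not_lt.1 hkN))
  · refine ⟨1, one_pos, fun k hk => ?_⟩
    by_cases hkN : k < N
    · exact absurd ⟨k, Finset.mem_filter.2 ⟨Finset.mem_range.2 hkN, hk⟩⟩ hne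
    · exact hN k (not_lt.1 hkN)

/-! ### the Green operator -/

/-- finite combinations of eigensections. -/
theorem norm_comb {D : Dat n M κ} (S : Spec D) (s : Finset ℕ) (b : ℕ → ℝ) :
    ‖hl D (∑ k ∈ s, b k • ef S k)‖ ^ 2 = ∑ k ∈ s, b k ^ 2 := by
  have h1 : hl D (∑ k ∈ s, b k • ef S k) = ∑ k ∈ s, b k • hl D (ef S k) := by
    rw [map_sum]
    exact Finset.sum_congr rfl fun k _ => map_smul _ _ _
  rw [h1, ← real_inner_self_eq_norm_sq, (orthonormal_ef S).inner_sum]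
  refine Finset.sum_congr rfl fun k _ => ?_
  simp only [conj_trivial]
  ring

/-- the directions of the Green operator. -/
def gdir (P : OpPair D0 D1) (S0 : Spec D0) (k : ℕ) : D1.toAD.WE :=
  if S0.μ k = 0 then 0 else (S0.μ k)⁻¹ • wl D1 (al P (ef S0 k))

theorem gdir_bound (P : OpPair D0 D1) (S0 : Spec D0) : ∃ C : ℝ, 0 ≤ C ∧
    ∀ (s : Finset ℕ) (c : ℕ → ℝ), ‖∑ k ∈ s, c k • gdir P S0 k‖ ^ 2 ≤ C ^ 2 * ∑ k ∈ s, c k ^ 2 := by
  obtain ⟨K, hK0, hK⟩ := exists_garding D1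
  obtain ⟨m, hm0, hm⟩ := exists_gap P S0
  have hmu := P.mu_nonneg S0
  refine ⟨√(2 + K * m⁻¹), Real.sqrt_nonneg _, fun s c => ?_⟩
  rw [Real.sq_sqrt (by positivity)]
  set a : ℕ → ℝ := fun k => if S0.μ k = 0 then 0 else c k * (S0.μ k)⁻¹ with ha
  set v : SS D0 := ∑ k ∈ s, a k • ef S0 k with hv
  have h1 : ∑ k ∈ s, c k • gdir P S0 k = wl D1 (al P v) := by
    rw [hv, map_sum, map_sum]
    refine Finset.sum_congr rfl fun k _ => ?_
    rw [map_smul, map_smul, gdir, ha]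
    simp only
    split_ifs with h
    · rw [smul_zero, zero_smul]
    · rw [smul_smul]
  have h2 : al P.swap (al P v) = ∑ k ∈ s, (a k * S0.μ k) • ef S0 k := by
    rw [hv, map_sum, map_sum]
    refine Finset.sum_congr rfl fun k _ => ?_
    rw [map_smul, map_smul, al_al, smul_smul]
  have h3 : ‖hl D0 (al P.swap (al P v))‖ ^ 2 ≤ ∑ k ∈ s, c k ^ 2 := by
    rw [h2, norm_comb]
    refine Finset.sum_le_sum fun k _ => ?_
    simp only [ha]
    split_ifs with h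
    · rw [h]
      simpa using sq_nonneg (c k)
    · rw [mul_assoc, inv_mul_cancel₀ h, mul_one]
  have h4 : ‖hl D1 (al P v)‖ ^ 2 ≤ m⁻¹ * ∑ k ∈ s, c k ^ 2 := by
    have e1 : ‖hl D1 (al P v)‖ ^ 2 = ∑ k ∈ s, a k ^ 2 * S0.μ k := by
      rw [← real_inner_self_eq_norm_sq, adj, h2, ← real_inner_comm]
      have e2 : hl D0 (∑ k ∈ s, (a k * S0.μ k) • ef S0 k)
          = ∑ k ∈ s, (a k * S0.μ k) • hl D0 (ef S0 k) := by
        rw [map_sum]
        exact Finset.sum_congr rfl fun k _ => map_smul _ _ _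
      have e3 : hl D0 v = ∑ k ∈ s, a k • hl D0 (ef S0 k) := by
        rw [hv, map_sum]
        exact Finset.sum_congr rfl fun k _ => map_smul _ _ _
      rw [e2, e3, (orthonormal_ef S0).inner_sum]
      refine Finset.sum_congr rfl fun k _ => ?_
      simp only [conj_trivial]
      ring
    rw [e1, Finset.mul_sum]
    refine Finset.sum_le_sum fun k _ => ?_
    simp only [ha]
    split_ifs with h
    · rw [h]
      simp only [ne_eq, OfNat.ofNat_ne_zero, not_false_eq_true, zero_pow, zero_mul]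
      positivity
    · have h5 : (c k * (S0.μ k)⁻¹) ^ 2 * S0.μ k = (S0.μ k)⁻¹ * c k ^ 2 := by
        field_simp
      rw [h5]
      have h6 : (S0.μ k)⁻¹ ≤ m⁻¹ := inv_anti₀ hm0 (hm k h)
      exact mul_le_mul_of_nonneg_right h6 (sq_nonneg _)
  rw [h1]
  have h7 := hK (al P v)
  have h8 := energy P.swap (al P v) (al P v)
  rw [real_inner_self_eq_norm_sq] at h8
  have h9 : ∫ z, D1.ed ((al P v : SS D1) : κ' → M → ℝ) ((al P v : SS D1) : κ' → M → ℝ) z
      ∂(μHE[n] : Measure M) = ‖hl D0 (al P.swap (al P v))‖ ^ 2 := h8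
  rw [h9] at h7
  have h10 : K * ‖hl D1 (al P v)‖ ^ 2 ≤ K * (m⁻¹ * ∑ k ∈ s, c k ^ 2) :=
    mul_le_mul_of_nonneg_left h4 hK0
  linarith

/-- **the Green operator** `G = A (B A)⁻¹` of the pair, from `L²` to `W^{1,2}(D1)`. -/
theorem exists_grn (P : OpPair D0 D1) (S0 : Spec D0) :
    ∃ G : HH (μHE[n] : Measure M) κ →L[ℝ] D1.toAD.WE,
      ∀ f, HasSum (fun k => ⟪f, hl D0 (ef S0 k)⟫ • gdir P S0 k) (G f) := by
  obtain ⟨C, hC0, hC⟩ := gdir_bound P S0
  obtain ⟨G, hG, -⟩ := exists_series (b := fun k => hl D0 (ef S0 k)) (bessel S0) hC0 hC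
  exact ⟨G, hG⟩

/-- the Green operator. -/
def grn (P : OpPair D0 D1) (S0 : Spec D0) : HH (μHE[n] : Measure M) κ →L[ℝ] D1.toAD.WE :=
  Classical.choose (exists_grn P S0)

theorem hasSum_grn (P : OpPair D0 D1) (S0 : Spec D0) (f : HH (μHE[n] : Measure M) κ) :
    HasSum (fun k => ⟪f, hl D0 (ef S0 k)⟫ • gdir P S0 k) (grn P S0 f) :=
  Classical.choose_spec (exists_grn P S0) f

/-- the projection onto the kernel. -/
def pik (S0 : Spec D0) (f : HH (μHE[n] : Measure M) κ) : HH (μHE[n] : Measure M) κ :=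
  ∑ k ∈ S0.ker, ⟪f, hl D0 (ef S0 k)⟫ • hl D0 (ef S0 k)

/-- continuous functionals of `grn f`. -/
theorem hasSum_inner (P : OpPair D0 D1) (S0 : Spec D0) (f : HH (μHE[n] : Measure M) κ)
    (g : HH (μHE[n] : Measure M) κ') :
    HasSum (fun k => ⟪f, hl D0 (ef S0 k)⟫ * ⟪D1.toAD.i1 (gdir P S0 k), g⟫)
      ⟪D1.toAD.i1 (grn P S0 f), g⟫ := by
  have h1 := (hasSum_grn P S0 f).mapL ((innerSL ℝ g).comp D1.toAD.i1)
  have e1 : ∀ w : D1.toAD.WE, ((innerSL ℝ g).comp D1.toAD.i1) w = ⟪D1.toAD.i1 w, g⟫ := by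
    intro w
    simp only [ContinuousLinearMap.comp_apply, innerSL_apply_apply]
    exact real_inner_comm _ _
  simp only [e1, map_smul] at h1
  refine h1.congr_fun ?_ |> fun h => h
  intro k
  rw [real_inner_smul_left]

theorem inner_gdir (P : OpPair D0 D1) (S0 : Spec D0) (k : ℕ) (w : SS D0) :
    ⟪D1.toAD.i1 (gdir P S0 k), hl D1 (al P w)⟫
      = if S0.μ k = 0 then 0 else ⟪hl D0 (ef S0 k), hl D0 w⟫ := by
  unfold gdir
  split_ifs with h
  · rw [map_zero, inner_zero_left]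
  · rw [map_smul, i1_wl, real_inner_smul_left, inner_al, ← mul_assoc, inv_mul_cancel₀ h, one_mul]

theorem inner_pik (S0 : Spec D0) (f g : HH (μHE[n] : Measure M) κ) :
    ⟪pik S0 f, g⟫ = ∑ k ∈ S0.ker, ⟪f, hl D0 (ef S0 k)⟫ * ⟪g, hl D0 (ef S0 k)⟫ := by
  unfold pik
  rw [sum_inner]
  refine Finset.sum_congr rfl fun k _ => ?_
  rw [real_inner_smul_left, real_inner_comm g]

/-- **weakly `B (G f) = f - Π f`**. -/
theorem grn_weak (P : OpPair D0 D1) (S0 : Spec D0) (f : HH (μHE[n] : Measure M) κ) (w : SS D0) :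
    ⟪D1.toAD.i1 (grn P S0 f), hl D1 (al P w)⟫ = ⟪f - pik S0 f, hl D0 w⟫ := by
  classical
  have h1 := hasSum_inner P S0 f (hl D1 (al P w))
  have h2 := parseval3 S0 f (hl_P w)
  have h3 : HasSum (fun k => if k ∈ S0.ker then
      ⟪f, hl D0 (ef S0 k)⟫ * ⟪hl D0 w, hl D0 (ef S0 k)⟫ else 0)
      (∑ k ∈ S0.ker, ⟪f, hl D0 (ef S0 k)⟫ * ⟪hl D0 w, hl D0 (ef S0 k)⟫) := by
    have h4 : HasSum (fun k => if k ∈ S0.ker then
        ⟪f, hl D0 (ef S0 k)⟫ * ⟪hl D0 w, hl D0 (ef S0 k)⟫ else 0)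
        (∑ k ∈ S0.ker, (if k ∈ S0.ker then
        ⟪f, hl D0 (ef S0 k)⟫ * ⟪hl D0 w, hl D0 (ef S0 k)⟫ else 0)) :=
      hasSum_sum_of_ne_finset_zero fun k hk => if_neg hk
    have h5 : ∑ k ∈ S0.ker, (if k ∈ S0.ker then
        ⟪f, hl D0 (ef S0 k)⟫ * ⟪hl D0 w, hl D0 (ef S0 k)⟫ else 0)
          = ∑ k ∈ S0.ker, ⟪f, hl D0 (ef S0 k)⟫ * ⟪hl D0 w, hl D0 (ef S0 k)⟫ :=
      Finset.sum_congr rfl fun k hk => if_pos hk
    rwa [h5] at h4
  have h6 := h2.sub h3
  rw [← inner_pik, ← inner_sub_left] at h6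
  refine h1.unique ?_
  refine h6.congr_fun ?_ |> fun h => h
  intro k
  rw [inner_gdir]
  by_cases hk : S0.μ k = 0
  · rw [if_pos hk, if_pos (S0.mem_ker.2 hk), mul_zero, sub_self]
  · rw [if_neg hk, if_neg (fun h => hk (S0.mem_ker.1 h)), sub_zero,
      real_inner_comm (hl D0 w)]

/-- **`G f` is orthogonal to the kernel of `B`**. -/
theorem grn_orth (P : OpPair D0 D1) (S0 : Spec D0) (f : HH (μHE[n] : Measure M) κ) {w : SS D1}
    (hw : al P.swap w = 0) : ⟪D1.toAD.i1 (grn P S0 f), hl D1 w⟫ = (0 : ℝ) := by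
  have h1 := hasSum_inner P S0 f (hl D1 w)
  have h2 : ∀ k, ⟪D1.toAD.i1 (gdir P S0 k), hl D1 w⟫ = (0 : ℝ) := by
    intro k
    unfold gdir
    split_ifs with h
    · rw [map_zero, inner_zero_left]
    · rw [map_smul, i1_wl, real_inner_smul_left, adj, hw, map_zero, inner_zero_right, mul_zero]
  simp only [h2, mul_zero] at h1
  exact h1.unique hasSum_zero



/-- **uniqueness**: `a ∈ L²(D1)` with weakly `B a = 0` and orthogonal to `ker B` vanishes. -/
theorem uniq (P : OpPair D0 D1) (S1 : Spec D1) {a : HH (μHE[n] : Measure M) κ'}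
    (ha : D1.toAD.P a = a) (h1 : ∀ w : SS D0, ⟪a, hl D1 (al P w)⟫ = (0 : ℝ))
    (h2 : ∀ w : SS D1, al P.swap w = 0 → ⟪a, hl D1 w⟫ = (0 : ℝ)) : a = 0 := by
  refine eq_zero_of S1 ha fun l => ?_
  by_cases hl' : S1.μ l = 0
  · exact h2 _ (al_ker P.swap S1 hl')
  · have h3 : ef S1 l = (S1.μ l)⁻¹ • al P (al P.swap (ef S1 l)) := by
      have h4 : al P (al P.swap (ef S1 l)) = S1.μ l • ef S1 l := al_al P.swap S1 l
      rw [h4, smul_smul, inv_mul_cancel₀ hl', one_smul]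
    rw [h3, map_smul, real_inner_smul_right, h1, mul_zero]

end

end Crest.Agent.R235.Green_649
end

-- ▼ part R235/Fred_649

/-!
Row 235 (S0364), PACKAGE SW, FS5 (helper649): Fredholm theory of `Ah P : W^{1,2}(D0) → L²(D1)`
(`Fs4_546`), with the Green operator of `Green_649`.

* `Go P S1 : D1.toAD.HE →L D0.toAD.WE`  the Green operator, `Pk S` the projection onto the kernel;
* `Ah_Go`      : `Ah P (Go P S1 f) = f - Pk S1 f`;
* `Go_Ah`      : `Go P S1 (Ah P u) = u - ∑_{k ∈ S0.ker} ⟪u, φ_k⟫ φ_k`;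
* `mem_range`, `isClosed_range`, `finrank_ker`, `finrank_coker`;
* `exists_wkA`, `uniq_wkA` : the same in the language of `SWDefs_53`.
-/

set_option autoImplicit false
set_option maxSynthPendingDepth 3
set_option linter.unusedSectionVars false

open scoped ContDiff ENNReal NNReal Topology Manifold Bundle RealInnerProductSpace
open MeasureTheory Set Filter Metric Bundle

namespace Crest.Agent.R235.Fred_649

open Crest.Agent.R249.Tv57 Crest.Agent.R247.Ms322 Crest.Agent.R247.Dir593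
open Crest.Agent.R247.Frd657 Crest.Agent.R202.Sp
open Crest.Agent.R235.Fs4_546

noncomputable section

variable {n : ℕ} {M : Type*} [MetricSpace M] [ChartedSpace (EuclideanSpace ℝ (Fin n)) M]
  [IsManifold (𝓡 n) ∞ M]
  [RiemannianBundle (fun p : M => TangentSpace (𝓡 n) p)]
  [IsContMDiffRiemannianBundle (𝓡 n) ∞ (EuclideanSpace ℝ (Fin n)) (fun p : M => TangentSpace (𝓡 n) p)]
  [IsRiemannianManifold (𝓡 n) M] [MeasurableSpace M] [BorelSpace M]
  [SecondCountableTopology M] [Nonempty M]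
  [CompactSpace M] [IsFiniteMeasureOnCompacts (μHE[n] : Measure M)]
variable {κ κ' : Type} [Fintype κ] [Fintype κ'] {D0 : Dat n M κ} {D1 : Dat n M κ'}

/-! ### the bridge between `SmS` and `SS` -/

/-- a smooth section of `Fs4_546` in the format of `Green_649`. -/
def tS {D : Dat n M κ} (u : SmS D) : Green_649.SS D := ⟨u.1, u.2.1, u.2.2⟩

/-- and back. -/
def sT {D : Dat n M κ} (u : Green_649.SS D) : SmS D := ⟨u.1, u.2.1, u.2.2⟩



theorem al_tS (P : OpPair D0 D1) (u : SmS D0) : Green_649.al P (tS u) = tS (lA P u) := rfl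

theorem ef_eq {D : Dat n M κ} (S : Spec D) (k : ℕ) : Green_649.ef S k = tS (ph S k) := rfl

theorem lA_ker (P : OpPair D0 D1) (S0 : Spec D0) {k : ℕ} (hk : S0.μ k = 0) :
    lA P (ph S0 k) = 0 := by
  have h := Green_649.al_ker P S0 hk
  rw [ef_eq, al_tS] at h
  exact Subtype.ext (congrArg Subtype.val h)

/-! ### the operators -/

/-- **the Green operator** -/
def Go (P : OpPair D0 D1) (S1 : Spec D1) : D1.toAD.HE →L[ℝ] D0.toAD.WE :=
  (Green_649.grn P.swap S1).comp D1.toAD.HE.subtypeL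

/-- **the projection onto the kernel** -/
def Pk {D : Dat n M κ} (S : Spec D) : D.toAD.HE →L[ℝ] D.toAD.HE :=
  ∑ k ∈ S.ker, (innerSL ℝ (cH D (ph S k))).smulRight (cH D (ph S k))

theorem Pk_apply {D : Dat n M κ} (S : Spec D) (f : D.toAD.HE) :
    Pk S f = ∑ k ∈ S.ker, (⟪f, cH D (ph S k)⟫ : ℝ) • cH D (ph S k) := by
  rw [Pk, sum_apply]
  refine Finset.sum_congr rfl fun k _ => ?_
  rw [ContinuousLinearMap.smulRight_apply, innerSL_apply_apply, real_inner_comm]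

theorem coe_Pk {D : Dat n M κ} (S : Spec D) (f : D.toAD.HE) :
    ((Pk S f : D.toAD.HE) : HH (μHE[n] : Measure M) κ) = Green_649.pik S f := by
  rw [Pk_apply, Green_649.pik, Submodule.coe_sum]
  rfl

/-- **weakly `A (G f) = f - Π f`** -/
theorem inner_Go (P : OpPair D0 D1) (S1 : Spec D1) (f : D1.toAD.HE) (w : SmS D1) :
    (⟪D0.toAD.jj (Go P S1 f), cH D0 (lA P.swap w)⟫ : ℝ) = ⟪f - Pk S1 f, cH D1 w⟫ := by
  have h := Green_649.grn_weak P.swap S1 (f : HH (μHE[n] : Measure M) κ') (tS w)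
  rw [← coe_Pk] at h
  exact h

/-- `G f ⊥ ker A` -/
theorem Go_orth (P : OpPair D0 D1) (S1 : Spec D1) (f : D1.toAD.HE) {w : SmS D0}
    (hw : lA P w = 0) : (⟪D0.toAD.jj (Go P S1 f), cH D0 w⟫ : ℝ) = 0 := by
  refine Green_649.grn_orth P.swap S1 (f : HH (μHE[n] : Measure M) κ') (w := tS w) ?_
  have h1 : Green_649.al P (tS w) = 0 := by
    rw [al_tS, hw]
    rfl
  exact h1

theorem Go_orth_ph (P : OpPair D0 D1) (S0 : Spec D0) (S1 : Spec D1) (f : D1.toAD.HE) {k : ℕ}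
    (hk : k ∈ S0.ker) : (⟪D0.toAD.jj (Go P S1 f), cH D0 (ph S0 k)⟫ : ℝ) = 0 :=
  Go_orth P S1 f (lA_ker P S0 (S0.mem_ker.1 hk))

/-- **(2)** `A G = 1 - Π` -/
theorem Ah_Go {P : OpPair D0 D1} (hd0 : Dns D0) (hd1 : Dns D1) (S1 : Spec D1) (f : D1.toAD.HE) :
    Ah P (Go P S1 f) = f - Pk S1 f := by
  refine sub_eq_zero.1 (eq_zero_of_coef S1 fun k => ?_)
  rw [inner_sub_left]
  have h1 := adj (P := P) hd0 hd1 (Go P S1 f) (cW D1 (ph S1 k))
  rw [jj_cW, Ah_cW hd1] at h1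
  rw [h1, inner_Go, sub_self]

/-- `⟪A u, φ⟫ = 0` for `φ ∈ ker B`. -/
theorem inner_Ah_ker {P : OpPair D0 D1} (hd0 : Dns D0) (hd1 : Dns D1) (S1 : Spec D1)
    (u : D0.toAD.WE) {l : ℕ} (hl : l ∈ S1.ker) : (⟪Ah P u, cH D1 (ph S1 l)⟫ : ℝ) = 0 := by
  have h1 := adj (P := P) hd0 hd1 u (cW D1 (ph S1 l))
  rw [jj_cW, Ah_cW hd1, lA_ker P.swap S1 (S1.mem_ker.1 hl), map_zero, inner_zero_right] at h1
  exact h1

theorem Pk_eq_zero {D : Dat n M κ} (S : Spec D) {f : D.toAD.HE}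
    (h : ∀ l ∈ S.ker, (⟪f, cH D (ph S l)⟫ : ℝ) = 0) : Pk S f = 0 := by
  rw [Pk_apply]
  exact Finset.sum_eq_zero fun l hl => by rw [h l hl, zero_smul]



theorem Pk_Ah {P : OpPair D0 D1} (hd0 : Dns D0) (hd1 : Dns D1) (S1 : Spec D1) (u : D0.toAD.WE) :
    Pk S1 (Ah P u) = 0 := Pk_eq_zero S1 fun _ hl => inner_Ah_ker hd0 hd1 S1 u hl

/-- **(4)** `G A = 1 - Π` -/
theorem Go_Ah {P : OpPair D0 D1} (hd0 : Dns D0) (hd1 : Dns D1) (S0 : Spec D0) (S1 : Spec D1)
    (u : D0.toAD.WE) : Go P S1 (Ah P u) =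
      u - ∑ k ∈ S0.ker, (⟪D0.toAD.jj u, cH D0 (ph S0 k)⟫ : ℝ) • cW D0 (ph S0 k) := by
  have h1 : Ah P (u - Go P S1 (Ah P u)) = 0 := by
    rw [map_sub, Ah_Go hd0 hd1, Pk_Ah hd0 hd1, sub_zero, sub_self]
  have h2 := ker_eq S0 hd0 h1
  have h3 : ∑ k ∈ S0.ker, (⟪D0.toAD.jj (u - Go P S1 (Ah P u)),
      D0.toAD.jj (cW D0 (ph S0 k))⟫ : ℝ) • cW D0 (ph S0 k) =
      ∑ k ∈ S0.ker, (⟪D0.toAD.jj u, cH D0 (ph S0 k)⟫ : ℝ) • cW D0 (ph S0 k) := by
    refine Finset.sum_congr rfl fun k hk => ?_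
    rw [jj_cW, map_sub, inner_sub_left, Go_orth_ph P S0 S1 _ hk, sub_zero]
  rw [h3] at h2
  rw [← h2, sub_sub_cancel]

/-! ### the kernel and the range -/

theorem mem_ker_iff {P : OpPair D0 D1} (hd0 : Dns D0) (S0 : Spec D0) (u : D0.toAD.WE) :
    Ah P u = 0 ↔ u ∈ Submodule.span ℝ (Set.range fun k : S0.ker => cW D0 (ph S0 k)) := by
  constructor
  · intro h
    rw [ker_eq S0 hd0 h]
    exact Submodule.sum_mem _ fun k hk =>
      Submodule.smul_mem _ _ (Submodule.subset_span ⟨⟨k, hk⟩, rfl⟩)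
  · intro h
    have h1 : Submodule.span ℝ (Set.range fun k : S0.ker => cW D0 (ph S0 k)) ≤
        LinearMap.ker (Ah P : D0.toAD.WE →ₗ[ℝ] D1.toAD.HE) := by
      rw [Submodule.span_le]
      rintro _ ⟨k, rfl⟩
      exact Ah_ph_ker S0 hd0 (S0.mem_ker.1 k.2)
    exact h1 h

theorem linInd_cH {D : Dat n M κ} (S : Spec D) :
    LinearIndependent ℝ fun k : S.ker => cH D (ph S k) :=
  (orthonormal_ph S).linearIndependent.comp _ Subtype.coe_injective

theorem linInd_cW {D : Dat n M κ} (S : Spec D) :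
    LinearIndependent ℝ fun k : S.ker => cW D (ph S k) := by
  refine LinearIndependent.of_comp (D.toAD.jj : D.toAD.WE →ₗ[ℝ] D.toAD.HE) ?_
  exact linInd_cH S

/-- **(1)** -/
theorem ker_eq_span {P : OpPair D0 D1} (hd0 : Dns D0) (S0 : Spec D0) :
    LinearMap.ker (Ah P : D0.toAD.WE →ₗ[ℝ] D1.toAD.HE) =
      Submodule.span ℝ (Set.range fun k : S0.ker => cW D0 (ph S0 k)) := by
  ext u
  rw [LinearMap.mem_ker]
  exact mem_ker_iff hd0 S0 u

theorem finiteDimensional_ker {P : OpPair D0 D1} (hd0 : Dns D0) (S0 : Spec D0) :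
    FiniteDimensional ℝ (LinearMap.ker (Ah P : D0.toAD.WE →ₗ[ℝ] D1.toAD.HE)) := by
  rw [ker_eq_span hd0 S0]
  exact FiniteDimensional.span_of_finite ℝ (Set.finite_range _)

theorem finrank_ker {P : OpPair D0 D1} (hd0 : Dns D0) (S0 : Spec D0) :
    Module.finrank ℝ (LinearMap.ker (Ah P : D0.toAD.WE →ₗ[ℝ] D1.toAD.HE)) = S0.ker.card := by
  rw [ker_eq_span hd0 S0, finrank_span_eq_card (linInd_cW S0), Fintype.card_coe]

/-- **(3)** -/
theorem mem_range {P : OpPair D0 D1} (hd0 : Dns D0) (hd1 : Dns D1) (S1 : Spec D1)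
    (f : D1.toAD.HE) : f ∈ LinearMap.range (Ah P : D0.toAD.WE →ₗ[ℝ] D1.toAD.HE) ↔
      ∀ l ∈ S1.ker, (⟪f, cH D1 (ph S1 l)⟫ : ℝ) = 0 := by
  constructor
  · rintro ⟨u, rfl⟩ l hl
    exact inner_Ah_ker hd0 hd1 S1 u hl
  · intro h
    refine ⟨Go P S1 f, ?_⟩
    have h1 := Ah_Go (P := P) hd0 hd1 S1 f
    rw [Pk_eq_zero S1 h, sub_zero] at h1
    exact h1

theorem range_eq {P : OpPair D0 D1} (hd0 : Dns D0) (hd1 : Dns D1) (S1 : Spec D1) :
    LinearMap.range (Ah P : D0.toAD.WE →ₗ[ℝ] D1.toAD.HE) =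
      (Submodule.span ℝ (Set.range fun k : S1.ker => cH D1 (ph S1 k)))ᗮ := by
  ext f
  rw [mem_range hd0 hd1 S1, Submodule.mem_orthogonal']
  constructor
  · intro h u hu
    refine Submodule.span_induction ?_ ?_ ?_ ?_ hu
    · rintro _ ⟨k, rfl⟩
      exact h k k.2
    · exact inner_zero_right _
    · intro x y _ _ hx hy
      rw [inner_add_right, hx, hy, add_zero]
    · intro c x _ hx
      rw [real_inner_smul_right, hx, mul_zero]
  · intro h l hl
    exact h _ (Submodule.subset_span ⟨⟨l, hl⟩, rfl⟩)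

theorem isClosed_range {P : OpPair D0 D1} (hd0 : Dns D0) (hd1 : Dns D1) (S1 : Spec D1) :
    IsClosed ((LinearMap.range (Ah P : D0.toAD.WE →ₗ[ℝ] D1.toAD.HE) : Submodule ℝ D1.toAD.HE) :
      Set D1.toAD.HE) := by
  rw [range_eq hd0 hd1 S1]
  exact Submodule.isClosed_orthogonal _

instance finDim_span {D : Dat n M κ} (S : Spec D) :
    FiniteDimensional ℝ (Submodule.span ℝ (Set.range fun k : S.ker => cH D (ph S k))) :=
  FiniteDimensional.span_of_finite ℝ (Set.finite_range _)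

theorem orth_range {P : OpPair D0 D1} (hd0 : Dns D0) (hd1 : Dns D1) (S1 : Spec D1) :
    (LinearMap.range (Ah P : D0.toAD.WE →ₗ[ℝ] D1.toAD.HE))ᗮ =
      Submodule.span ℝ (Set.range fun k : S1.ker => cH D1 (ph S1 k)) := by
  rw [range_eq hd0 hd1 S1, Submodule.orthogonal_orthogonal]

theorem finrank_coker {P : OpPair D0 D1} (hd0 : Dns D0) (hd1 : Dns D1) (S1 : Spec D1) :
    Module.finrank ℝ ((LinearMap.range (Ah P : D0.toAD.WE →ₗ[ℝ] D1.toAD.HE))ᗮ :
      Submodule ℝ D1.toAD.HE) = S1.ker.card := by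
  rw [orth_range hd0 hd1 S1, finrank_span_eq_card (linInd_cH S1), Fintype.card_coe]

/-! ### representatives -/

/-- the class of an `L²` vector function. -/
def cls (f : κ → M → ℝ) (hf : ∀ a, MemLp (f a) 2 (μHE[n] : Measure M)) :
    HH (μHE[n] : Measure M) κ := WithLp.toLp 2 fun a => (hf a).toLp (f a)

theorem coe_cls (f : κ → M → ℝ) (hf : ∀ a, MemLp (f a) 2 (μHE[n] : Measure M)) :
    ∀ᵐ x ∂(μHE[n] : Measure M), ∀ a, (cls f hf a : M → ℝ) x = f a x := by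
  rw [ae_all_iff]
  intro a
  exact (hf a).coeFn_toLp

theorem cls_mem (D : Dat n M κ) (f : κ → M → ℝ) (hf : ∀ a, MemLp (f a) 2 (μHE[n] : Measure M))
    (hs : ∀ᵐ z ∂(μHE[n] : Measure M), ∀ a, ∑ b, D.p a b z * f b z = f a z) :
    D.toAD.P (cls f hf) = cls f hf := by
  ext a
  filter_upwards [D.toAD.coe_P (cls f hf), coe_cls f hf, hs] with x e1 e2 e3
  rw [e1 a, e2 a]
  simp only [e2]
  exact e3 a

/-- the class of an `L²` section. -/
def cHf (D : Dat n M κ) (f : κ → M → ℝ) (hf : ∀ a, MemLp (f a) 2 (μHE[n] : Measure M))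
    (hs : ∀ᵐ z ∂(μHE[n] : Measure M), ∀ a, ∑ b, D.p a b z * f b z = f a z) : D.toAD.HE :=
  ⟨cls f hf, cls_mem D f hf hs⟩


/-- the `L²` product with a smooth section, any representative. -/
theorem inner_rep {D : Dat n M κ} {F : HH (μHE[n] : Measure M) κ} {f : κ → M → ℝ}
    (hf : ∀ᵐ x ∂(μHE[n] : Measure M), ∀ a, (F a : M → ℝ) x = f a x) (w : SmS D) :
    (⟪F, ((cH D w : D.toAD.HE) : HH (μHE[n] : Measure M) κ)⟫ : ℝ) =
      Crest.Agent.R249.Tv57.ip n f w.1 :=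
  inner_HH F (clH w.1 w.2.1) hf (coe_clH w.1 w.2.1)

theorem inner_cHf {D : Dat n M κ} (f : κ → M → ℝ) (hf : ∀ a, MemLp (f a) 2 (μHE[n] : Measure M))
    (hs : ∀ᵐ z ∂(μHE[n] : Measure M), ∀ a, ∑ b, D.p a b z * f b z = f a z) (w : SmS D) :
    (⟪cHf D f hf hs, cH D w⟫ : ℝ) = Crest.Agent.R249.Tv57.ip n f w.1 :=
  inner_rep (coe_cls f hf) w

/-- the representative of an element of `W^{1,2}(D)`. -/
def rp {D : Dat n M κ} (u : D.toAD.WE) : κ → M → ℝ := fun a => (D.toAD.i1 u a : M → ℝ)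


theorem sec_rp {D : Dat n M κ} (u : D.toAD.WE) :
    ∀ᵐ z ∂(μHE[n] : Measure M), ∀ a, ∑ b, D.p a b z * rp u b z = rp u a z := by
  have h0 : D.toAD.P (D.toAD.i1 u) = D.toAD.i1 u := (D.toAD.jj u).2
  have h1 := D.toAD.coe_P (D.toAD.i1 u)
  rw [h0] at h1
  filter_upwards [h1] with z hz a
  exact (hz a).symm

theorem ip_rp {D : Dat n M κ} (u : D.toAD.WE) (w : SmS D) :
    Crest.Agent.R249.Tv57.ip n (rp u) w.1 = (⟪D.toAD.jj u, cH D w⟫ : ℝ) :=
  (inner_rep (F := D.toAD.i1 u) (Eventually.of_forall fun _ _ => rfl) w).symm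

/-- the equation `A u = f` together with `u ⊥ ker A`. -/
theorem Ah_orth_iff {P : OpPair D0 D1} (hd0 : Dns D0) (hd1 : Dns D1) (S0 : Spec D0) (S1 : Spec D1)
    {u : D0.toAD.WE} {f : D1.toAD.HE} :
    (Ah P u = f ∧ ∀ k ∈ S0.ker, (⟪D0.toAD.jj u, cH D0 (ph S0 k)⟫ : ℝ) = 0) ↔
      (u = Go P S1 f ∧ ∀ l ∈ S1.ker, (⟪f, cH D1 (ph S1 l)⟫ : ℝ) = 0) := by
  constructor
  · rintro ⟨rfl, h⟩
    refine ⟨?_, fun l hl => inner_Ah_ker hd0 hd1 S1 u hl⟩
    rw [Go_Ah hd0 hd1 S0 S1, Finset.sum_eq_zero (fun k hk => by rw [h k hk, zero_smul]), sub_zero]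
  · rintro ⟨rfl, h⟩
    refine ⟨?_, fun k hk => Go_orth_ph P S0 S1 f hk⟩
    rw [Ah_Go hd0 hd1, Pk_eq_zero S1 h, sub_zero]

/-- the dimension of a kernel is unique. -/
theorem kerD_card {D : Dat n M κ} {A : (κ → M → ℝ) → κ' → M → ℝ} {N N' : ℕ}
    (K : KerD D A N) (K' : KerD D A N') : N = N' := by
  have h : ∀ {N N' : ℕ} (K : KerD D A N) (K' : KerD D A N'),
      Submodule.span ℝ (Set.range K.u) ≤ Submodule.span ℝ (Set.range K'.u) := by
    intro N N' K K'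
    rw [Submodule.span_le]
    rintro _ ⟨i, rfl⟩
    have h1 : K.u i = ∑ j, Crest.Agent.R249.Tv57.ip n (K.u i) (K'.u j) • K'.u j := by
      funext a z
      rw [K'.span (K.u i) (K.smooth i) (K.sec i) (K.ker i) a z]
      simp only [Finset.sum_apply, Pi.smul_apply, smul_eq_mul]
    rw [h1]
    exact Submodule.sum_mem _ fun j _ => Submodule.smul_mem _ _ (Submodule.subset_span ⟨j, rfl⟩)
  have h1 := finrank_span_eq_card K.li
  have h2 := finrank_span_eq_card K'.li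
  rw [le_antisymm (h K K') (h K' K), h2] at h1
  simpa using h1.symm

/-- `S0.ker.card` from `KerD`. -/
theorem card_ker (P : OpPair D0 D1) (S0 : Spec D0) {N : ℕ} (h : Nonempty (KerD D0 P.A N)) :
    S0.ker.card = N := by
  obtain ⟨K⟩ := h
  obtain ⟨K'⟩ := exists_kerD P S0
  exact kerD_card K' K

end

/-! ### in the language of `SWDefs_53` -/

noncomputable section

open Crest.Agent.R235.SWDefs_53

variable {M : Type*} [MetricSpace M] [CompactSpace M] [ConnectedSpace M]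
  [ChartedSpace (EuclideanSpace ℝ (Fin 4)) M] [IsManifold (𝓡 4) ∞ M]
  [RiemannianBundle (fun p : M => TangentSpace (𝓡 4) p)]
  [IsContMDiffRiemannianBundle (𝓡 4) ∞ (EuclideanSpace ℝ (Fin 4))
    (fun p : M => TangentSpace (𝓡 4) p)]
  [IsRiemannianManifold (𝓡 4) M] [MeasurableSpace M] [BorelSpace M]
  [SecondCountableTopology M] [Nonempty M] [IsFiniteMeasureOnCompacts (μHE[4] : Measure M)]
  {κ κ' : Type} [Fintype κ] [Fintype κ'] {D0 : Dat 4 M κ} {D1 : Dat 4 M κ'}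

/-- the density of smooth sections, `n = 4`. -/
theorem dns4 (D : Dat 4 M κ) : Dns D := Dns_433.dns D (by norm_num)


theorem inW_rp {D : Dat 4 M κ} (u : D.toAD.WE) : InW D (rp u) :=
  ⟨u, fun _ => Filter.EventuallyEq.rfl⟩

/-- the weak equation, tested against a smooth section. -/
theorem ip_lA {P : OpPair D0 D1} {u : κ → M → ℝ} {U : D0.toAD.WE}
    (hU : ∀ a, rp U a =ᵐ[(μHE[4] : Measure M)] u a) (w : SmS D1) :
    Crest.Agent.R249.Tv57.ip 4 u (P.B w.1) = (⟪Ah P U, cH D1 w⟫ : ℝ) := by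
  have h1 := adj (P := P) (dns4 D0) (dns4 D1) U (cW D1 w)
  rw [jj_cW, Ah_cW (dns4 D1)] at h1
  rw [h1]
  exact (inner_rep (F := D0.toAD.i1 U) (f := u) (by
    rw [ae_all_iff]
    exact hU) (lA P.swap w)).symm

/-- **the weak equation `A u = f` is `Ah P U = f`** -/
theorem wkA_iff {P : OpPair D0 D1} {u : κ → M → ℝ} {U : D0.toAD.WE}
    (hU : ∀ a, rp U a =ᵐ[(μHE[4] : Measure M)] u a) {f : κ' → M → ℝ} :
    WkA P u f ↔ ∀ b, (((Ah P U : D1.toAD.HE) : HH (μHE[4] : Measure M) κ') b : M → ℝ)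
      =ᵐ[(μHE[4] : Measure M)] f b := by
  constructor
  · rintro ⟨hf, hs, h⟩
    have h1 : Ah P U = cHf D1 f hf hs := by
      refine Dns_433.eq_of_inner_cH D1 (by norm_num) fun w => ?_
      rw [inner_cHf, h w.1 w.2.1 w.2.2, ip_lA hU]
    rw [h1]
    exact fun b => (hf b).coeFn_toLp
  · intro h
    have hs : ∀ᵐ z ∂(μHE[4] : Measure M), ∀ b,
        (((Ah P U : D1.toAD.HE) : HH (μHE[4] : Measure M) κ') b : M → ℝ) z = f b z := by
      rw [ae_all_iff]
      exact h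
    refine ⟨fun b => (memLp_congr_ae (h b)).1 (Lp.memLp _), ?_, fun w hw hsw => ?_⟩
    · have h0 : D1.toAD.P ((Ah P U : D1.toAD.HE) : HH (μHE[4] : Measure M) κ') =
          (Ah P U : D1.toAD.HE) := (Ah P U).2
      have h1 := D1.toAD.coe_P ((Ah P U : D1.toAD.HE) : HH (μHE[4] : Measure M) κ')
      rw [h0] at h1
      filter_upwards [h1, hs] with z e1 e2 b
      have h3 := e1 b
      simp only [e2] at h3
      exact h3.symm
    · have h1 := inner_rep (D := D1) (F := ((Ah P U : D1.toAD.HE) : HH (μHE[4] : Measure M) κ'))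
        (f := f) hs ⟨w, hw, hsw⟩
      rw [← h1]
      exact (ip_lA hU ⟨w, hw, hsw⟩).symm

/-- the weak equation for a given right hand side. -/
theorem wkA_iff_eq {P : OpPair D0 D1} {u : κ → M → ℝ} {U : D0.toAD.WE}
    (hU : ∀ a, rp U a =ᵐ[(μHE[4] : Measure M)] u a) {f : κ' → M → ℝ} {F : D1.toAD.HE}
    (hF : ∀ b, ((F : HH (μHE[4] : Measure M) κ') b : M → ℝ) =ᵐ[(μHE[4] : Measure M)] f b) :
    WkA P u f ↔ Ah P U = F := by
  rw [wkA_iff hU]
  constructor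
  · intro h
    apply Subtype.ext
    ext b
    exact (h b).trans (hF b).symm
  · intro h
    rw [h]
    exact hF

/-- orthogonality to the kernel, smooth elements. -/
theorem orth_ker_iff (P : OpPair D0 D1) (S0 : Spec D0) {u : κ → M → ℝ} {U : D0.toAD.WE}
    (hU : ∀ a, rp U a =ᵐ[(μHE[4] : Measure M)] u a) :
    (∀ w : κ → M → ℝ, SmV (n := 4) w → D0.Sec w → (∀ k z, P.A w k z = 0) →
      Crest.Agent.R249.Tv57.ip 4 u w = 0) ↔
      ∀ k ∈ S0.ker, (⟪D0.toAD.jj U, cH D0 (ph S0 k)⟫ : ℝ) = 0 := by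
  have hU' : ∀ᵐ x ∂(μHE[4] : Measure M), ∀ a, (D0.toAD.i1 U a : M → ℝ) x = u a x := by
    rw [ae_all_iff]
    exact hU
  have e1 : ∀ w : SmS D0, (⟪D0.toAD.jj U, cH D0 w⟫ : ℝ) = Crest.Agent.R249.Tv57.ip 4 u w.1 :=
    fun w => inner_rep (F := D0.toAD.i1 U) hU' w
  constructor
  · intro h k hk
    rw [e1]
    refine h _ (ph S0 k).2.1 (ph S0 k).2.2 fun b z => ?_
    have h2 := congrArg (fun v : SmS D1 => v.1 b z) (lA_ker P S0 (S0.mem_ker.1 hk))
    exact h2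
  · intro h w hw hs hz
    set w' : SmS D0 := ⟨w, hw, hs⟩ with hw'
    have h2 : lA P w' = 0 := by
      apply Subtype.ext
      funext b z
      exact hz b z
    have h3 : Ah P (cW D0 w') = 0 := by rw [Ah_cW (dns4 D0), h2, map_zero]
    have h4 := ker_eq S0 (dns4 D0) h3
    have h5 : cH D0 w' = ∑ k ∈ S0.ker, (⟪D0.toAD.jj (cW D0 w'),
        D0.toAD.jj (cW D0 (ph S0 k))⟫ : ℝ) • cH D0 (ph S0 k) := by
      have h6 := congrArg D0.toAD.jj h4
      rw [map_sum] at h6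
      simp only [map_smul] at h6
      exact h6
    have h7 := e1 w'
    rw [h5, inner_sum] at h7
    rw [Finset.sum_eq_zero (fun k hk => by rw [real_inner_smul_right, h k hk, mul_zero])] at h7
    exact h7.symm

variable {κ0 κ1 κT : Type} [Fintype κ0] [Fintype κ1] [Fintype κT]

/-- `NoHarm` in `W^{1,2}`. -/
theorem noHarm_iff (S : SWS M κ0 κ1 κT) (S1 : Spec S.DT) {a : κT → M → ℝ} {A : S.DT.toAD.WE}
    (hA : ∀ b, rp A b =ᵐ[(μHE[4] : Measure M)] a b) :
    NoHarm S a ↔ ∀ l ∈ S1.ker, (⟪S.DT.toAD.jj A, cH S.DT (ph S1 l)⟫ : ℝ) = 0 :=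
  orth_ker_iff S.H.swap S1 hA

/-- **the curvature equation with the gauge condition**: `A` solves `d^+ a = F`, `d^* a = 0`
(`F` of class `L²`) and is orthogonal to the harmonic forms iff `A = G F` and `F ⊥ ker`. -/
theorem cur_iff (S : SWS M κ0 κ1 κT) (S0 : Spec S.DL) (S1 : Spec S.DT) {a : κT → M → ℝ}
    {A : S.DT.toAD.WE} (hA : ∀ b, rp A b =ᵐ[(μHE[4] : Measure M)] a b) {f : Fin 4 → M → ℝ}
    {F : S.DL.toAD.HE}
    (hF : ∀ b, ((F : HH (μHE[4] : Measure M) (Fin 4)) b : M → ℝ) =ᵐ[(μHE[4] : Measure M)] f b) :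
    (WkA S.H.swap a f ∧ NoHarm S a) ↔
      (A = Go S.H.swap S0 F ∧ ∀ l ∈ S0.ker, (⟪F, cH S.DL (ph S0 l)⟫ : ℝ) = 0) := by
  rw [wkA_iff_eq hA hF, noHarm_iff S S1 hA]
  exact Ah_orth_iff (dns4 _) (dns4 _) S1 S0

end

end Crest.Agent.R235.Fred_649
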