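import Crest.Agent.R235.SWJDefs_53
import Crest.Agent.R235.Fred_649
import Crest.Agent.R235.FamR_151

/-!
Row 235 (S0364), PACKAGE SW (helper53): the Seiberg-Witten system over the Jacobian torus as an abstract
family in COMPLEX HILBERT SPACES (interface between the SW side and `FamG_151`, `FamTop_307`, RC).

* `CJ1 S cc J1`        : complex structure of the target `W⁻ ⊗ L`; `J1X` : it exists;
* `Rep S j J1 Φ eX eY` : the family `Φ : PFam b X Y` of `FamR_151` is `D_h = A + c(2π ∑ h_j al_j) i`;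
* `PFX`                : it exists;

The nonlinear part (independent of `h`) is `PL S.D1 (KKt hS hd s0 R t ·)` of `Swx3_333`.
-/

set_option autoImplicit false
set_option maxSynthPendingDepth 3
set_option linter.unusedSectionVars false

open scoped ContDiff ENNReal NNReal Topology Manifold Bundle RealInnerProductSpace
open MeasureTheory Set Filter Metric Bundle Module

universe v

namespace Crest.Agent.R235.SWDefs_53

open Crest.Agent.R249.Tv57 Crest.Agent.R247.Ms322 Crest.Agent.R247.Dir593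
open Crest.Agent.R235.SWSym_451 Crest.Agent.R235.Fs4_546 Crest.Agent.R235.Fred_649
open Crest.Agent.R235.FamR_151

noncomputable section

local notation "ipp" => Crest.Agent.R249.Tv57.ip 4

section defs

variable {M : Type v} [MetricSpace M] [CompactSpace M] [ConnectedSpace M]
  [ChartedSpace (EuclideanSpace ℝ (Fin 4)) M] [IsManifold (𝓡 4) ∞ M]
  [RiemannianBundle (fun p : M => TangentSpace (𝓡 4) p)]
  [IsContMDiffRiemannianBundle (𝓡 4) ∞ (EuclideanSpace ℝ (Fin 4))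
    (fun p : M => TangentSpace (𝓡 4) p)]
  [IsRiemannianManifold (𝓡 4) M] [MeasurableSpace M] [BorelSpace M]
  [SecondCountableTopology M] [Nonempty M] [IsFiniteMeasureOnCompacts (μHE[4] : Measure M)]
  {κ0 κ1 κT : Type} [Fintype κ0] [Fintype κ1] [Fintype κT]

/-- the complex structure of `W⁻ ⊗ L`. -/
structure CJ1 (S : SWS M κ0 κ1 κT) (cc : κ1 → κ0 → M → EuclideanSpace ℝ (Fin 4))
    (J1 : κ1 → κ1 → M → ℝ) : Prop where
  sm : ∀ x x', ContMDiff (𝓡 4) 𝓘(ℝ, ℝ) ∞ (J1 x x')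
  skew : ∀ x x' z, J1 x x' z = - J1 x' x z
  pJ : ∀ x x'' z, ∑ x', S.D1.p x x' z * J1 x' x'' z = J1 x x'' z
  sq : ∀ x x'' z, ∑ x', J1 x x' z * J1 x' x'' z = - S.D1.p x x'' z
  cc : ∀ x y z, ∑ x', J1 x x' z • cc x' y z = ∑ y', S.J y' y z • cc x y' z

/-- `Φ` is the family `A + c(2π ∑ h_j al_j) i` : `W^{1,2}(W⁺ ⊗ L) → L²(W⁻ ⊗ L)`, `U k` the multiplication
by `g^{-k}`, `Th h` the multiplication by `exp (-2π i h·φ)`, `φ` bounded measurable. -/
structure Rep (S : SWS M κ0 κ1 κT) {b : ℕ} (j : JD M κT b) (J1 : κ1 → κ1 → M → ℝ)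
    {X Y : Type v} [NormedAddCommGroup X] [InnerProductSpace ℂ X] [CompleteSpace X]
    [NormedAddCommGroup Y] [InnerProductSpace ℂ Y] [CompleteSpace Y] (Φ : PFam b X Y)
    (eX : X ≃L[ℝ] S.D0.toAD.WE) (eY : Y ≃L[ℝ] S.D1.toAD.HE) (φ : Fin b → M → ℝ) : Prop where
  iX : ∀ x, ∀ᵐ z ∂(μHE[4] : Measure M), ∀ y, rp (eX (Complex.I • x)) y z = S.iu (rp (eX x)) y z
  iY : ∀ f, ∀ᵐ z ∂(μHE[4] : Measure M), ∀ x,
    (((eY (Complex.I • f) : S.D1.toAD.HE) : HH (μHE[4] : Measure M) κ1) x : M → ℝ) z =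
      ∑ x', J1 x x' z * (((eY f : S.D1.toAD.HE) : HH (μHE[4] : Measure M) κ1) x' : M → ℝ) z
  nY : ∀ f, ‖eY f‖ = ‖f‖
  D : ∀ h x, ∀ᵐ z ∂(μHE[4] : Measure M), ∀ l,
    (((eY (Φ.D h x) : S.D1.toAD.HE) : HH (μHE[4] : Measure M) κ1) l : M → ℝ) z =
      (((Ah S.P (eX x) : S.D1.toAD.HE) : HH (μHE[4] : Measure M) κ1) l : M → ℝ) z +
        S.cm (j.fm h) (rp (eX x)) l z
  U : ∀ k x, ∀ᵐ z ∂(μHE[4] : Measure M), ∀ y,
    rp (eX (Φ.U k x)) y z = j.gau S (fun i => - k i) (rp (eX x)) y z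
  mphi : ∀ i, Measurable (φ i)
  bphi : ∀ i z, |φ i z| ≤ 1
  cphi : ∀ i z, j.gc i z = Real.cos (2 * Real.pi * φ i z)
  sphi : ∀ i z, j.gs i z = Real.sin (2 * Real.pi * φ i z)
  Th : ∀ h f, ∀ᵐ z ∂(μHE[4] : Measure M), ∀ x,
    (((eY (Φ.Th h f) : S.D1.toAD.HE) : HH (μHE[4] : Measure M) κ1) x : M → ℝ) z =
      Real.cos (2 * Real.pi * ∑ i, h i * φ i z) *
        (((eY f : S.D1.toAD.HE) : HH (μHE[4] : Measure M) κ1) x : M → ℝ) z -
      Real.sin (2 * Real.pi * ∑ i, h i * φ i z) * ∑ x', J1 x x' z *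
        (((eY f : S.D1.toAD.HE) : HH (μHE[4] : Measure M) κ1) x' : M → ℝ) z

end defs

/-- **J1X** -/
def J1X : Prop :=
  ∀ (M : Type v) [MetricSpace M] [CompactSpace M] [ConnectedSpace M]
    [ChartedSpace (EuclideanSpace ℝ (Fin 4)) M] [IsManifold (𝓡 4) ∞ M]
    [RiemannianBundle (fun p : M => TangentSpace (𝓡 4) p)]
    [IsContMDiffRiemannianBundle (𝓡 4) ∞ (EuclideanSpace ℝ (Fin 4))
      (fun p : M => TangentSpace (𝓡 4) p)]
    [IsRiemannianManifold (𝓡 4) M] [MeasurableSpace M] [BorelSpace M]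
    [SecondCountableTopology M] [Nonempty M] [IsFiniteMeasureOnCompacts (μHE[4] : Measure M)]
    (κ0 κ1 κT : Type) [Fintype κ0] [Fintype κ1] [Fintype κT]
    (S : SWS M κ0 κ1 κT) (cc : κ1 → κ0 → M → EuclideanSpace ℝ (Fin 4)), Sym S cc →
    ∃ J1 : κ1 → κ1 → M → ℝ, CJ1 S cc J1


end

end Crest.Agent.R235.SWDefs_53
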