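import Crest.Agent.R235.DgInv_778
import Crest.Agent.R235.Frame_143_Mg
import Crest.Agent.R235.Frame_936
import Crest.Agent.R235.EqPertC_356
import Crest.Agent.R235.FamE_151_Mg
import Crest.Agent.R235.FamW_307

-- ▼ part R235/FdJb_778
section

/-!
Row 235 (S0364), block FDJ (helper778): the degree argument over the torus.

`core` : `E_h = range (P h)` a periodic family of `m`-dimensional subspaces, `G : T × R^b × H → Y`
continuous, periodic, `dim T + b + 2 m = dim Y`; if the values of `G` on `E` avoid the ray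
`{s V : s ≥ 0}` outside a compact set, then `G` cannot have exactly one zero (mod `Z^b`) which is
nondegenerate.
-/

set_option autoImplicit false

open MeasureTheory Set Filter Topology Module
open scoped ContDiff

noncomputable section

namespace Crest.Agent.R235.FdJb_778

open DgStk_778 DgTri_778 DgInv_778 FdJa_778

variable {T H Y : Type*} [NormedAddCommGroup T] [NormedSpace ℝ T] [FiniteDimensional ℝ T]
  [NormedAddCommGroup H] [NormedSpace ℂ H] [FiniteDimensional ℂ H]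
  [NormedAddCommGroup Y] [NormedSpace ℝ Y] [FiniteDimensional ℝ Y] {b m : ℕ}

/-- the total chart `(θ, (t, w)) ↦ (t, θ, e(θ) w)` -/
def ch (e : (Fin b → ℝ) → (Fin m → ℂ) →L[ℂ] H) (x : (Fin b → ℝ) × T × (Fin m → ℂ)) :
    T × (Fin b → ℝ) × H := (x.2.1, x.1, e x.1 x.2.2)

/-- real restriction of the frame -/
def eR (e : (Fin b → ℝ) → (Fin m → ℂ) →L[ℂ] H) (θ : Fin b → ℝ) : (Fin m → ℂ) →L[ℝ] H :=
  ContinuousLinearMap.restrictScalarsL ℂ (Fin m → ℂ) H ℝ ℝ (e θ)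

theorem contDiff_eR {e : (Fin b → ℝ) → (Fin m → ℂ) →L[ℂ] H} (he : ContDiff ℝ ∞ e) :
    ContDiff ℝ ∞ (eR e) :=
  (ContinuousLinearMap.restrictScalarsL ℂ (Fin m → ℂ) H ℝ ℝ).contDiff.comp he

theorem contDiff_ch {e : (Fin b → ℝ) → (Fin m → ℂ) →L[ℂ] H} (he : ContDiff ℝ ∞ e) :
    ContDiff ℝ ∞ (ch (T := T) e) := by
  have h1 : ContDiff ℝ ∞ fun x : (Fin b → ℝ) × T × (Fin m → ℂ) => eR e x.1 x.2.2 :=
    ((contDiff_eR he).comp contDiff_fst).clm_apply (contDiff_snd.comp contDiff_snd)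
  exact (contDiff_fst.comp contDiff_snd).prodMk (contDiff_fst.prodMk h1)

/-- derivative of the chart -/
theorem hasFDerivAt_ch {e : (Fin b → ℝ) → (Fin m → ℂ) →L[ℂ] H} (he : ContDiff ℝ ∞ e)
    (x : (Fin b → ℝ) × T × (Fin m → ℂ)) : ∃ (C : (Fin b → ℝ) × T × (Fin m → ℂ) →L[ℝ]
      T × (Fin b → ℝ) × H), HasFDerivAt (ch (T := T) e) C x ∧
      ∀ κ τ ww, C (κ, τ, ww) = (τ, κ, fderiv ℝ (eR e) x.1 κ x.2.2 + e x.1 ww) := by
  have h2 : HasFDerivAt (fun x : (Fin b → ℝ) × T × (Fin m → ℂ) => eR e x.1)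
      ((fderiv ℝ (eR e) x.1).comp (ContinuousLinearMap.fst ℝ _ _)) x :=
    HasFDerivAt.comp x (g := eR e)
      (((contDiff_eR he).differentiable (by simp) x.1).hasFDerivAt) hasFDerivAt_fst
  have h3 : HasFDerivAt (fun x : (Fin b → ℝ) × T × (Fin m → ℂ) => x.2.2)
      ((ContinuousLinearMap.snd ℝ T (Fin m → ℂ)).comp
        (ContinuousLinearMap.snd ℝ (Fin b → ℝ) (T × (Fin m → ℂ)))) x :=
    hasFDerivAt_snd.comp x hasFDerivAt_snd
  have h4 : HasFDerivAt (fun x : (Fin b → ℝ) × T × (Fin m → ℂ) => x.2.1)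
      ((ContinuousLinearMap.fst ℝ T (Fin m → ℂ)).comp
        (ContinuousLinearMap.snd ℝ (Fin b → ℝ) (T × (Fin m → ℂ)))) x :=
    hasFDerivAt_fst.comp x hasFDerivAt_snd
  refine ⟨_, h4.prodMk (hasFDerivAt_fst.prodMk (h2.clm_apply h3)), fun κ τ ww => ?_⟩
  simp only [ContinuousLinearMap.prod_apply, ContinuousLinearMap.comp_apply,
    ContinuousLinearMap.coe_fst', ContinuousLinearMap.coe_snd', _root_.add_apply,
    ContinuousLinearMap.flip_apply]
  refine Prod.ext rfl (Prod.ext rfl ?_)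
  show e x.1 ww + _ = _
  rw [add_comm]

theorem core (P : (Fin b → ℝ) → H →L[ℂ] H) (hP : ContDiff ℝ ∞ P)
    (hPp : ∀ (h : Fin b → ℝ) (k : Fin b → ℤ), P (fun i => h i + k i) = P h)
    (hPP : ∀ h x, P h (P h x) = P h x)
    (hr : ∀ h, finrank ℂ (LinearMap.range (P h : H →ₗ[ℂ] H)) = m)
    (hdim : finrank ℝ T + b + 2 * m = finrank ℝ Y)
    (G : T × (Fin b → ℝ) × H → Y) (cG : Continuous G)
    (pG : ∀ t h ψ (k : Fin b → ℤ), G (t, fun i => h i + k i, ψ) = G (t, h, ψ))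
    (V : Y) (hV : V ≠ 0) (R : ℝ)
    (hray : ∀ t h ψ, P h ψ = ψ → (R ≤ ‖t‖ ∨ R ≤ ‖ψ‖) → ∀ s : ℝ, 0 ≤ s → G (t, h, ψ) ≠ s • V)
    (t₀ : T) (ψ₀ : H) (ht : ‖t₀‖ < R) (hψ : ‖ψ₀‖ < R) (hPψ : P 0 ψ₀ = ψ₀)
    (hG0 : G (t₀, 0, ψ₀) = 0)
    (hz : ∀ t h ψ, P h ψ = ψ → (∀ j, |h j| ≤ 3 / 4) → G (t, h, ψ) = 0 → t = t₀ ∧ h = 0 ∧ ψ = ψ₀)
    (L : T × (Fin b → ℝ) × H →L[ℝ] Y)
    (hL : HasFDerivAt (fun x : T × (Fin b → ℝ) × H => G (x.1, x.2.1, P x.2.1 x.2.2)) L (t₀, 0, ψ₀))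
    (hLi : ∀ τ κ ξ, P 0 ξ = ξ → L (τ, κ, ξ) = 0 → τ = 0 ∧ κ = 0 ∧ ξ = 0) : False := by
  classical
  have hpT : ProperSpace T := FiniteDimensional.proper ℝ T
  have hpH : ProperSpace H := FiniteDimensional.proper ℂ H
  -- frames
  obtain ⟨e, he, hPe, hei⟩ := Frame_936.exists_frame hP hPP (fun h => inferInstance) hr 0 2
  have hinj : ∀ θ : Fin b → ℝ, ‖θ‖ ≤ 2 → Function.Injective (e θ) := fun θ hθ =>
    (hei θ (by simpa using hθ)).1
  obtain ⟨D, hD⟩ := Frame_143.exists_inv (P := P) (e := e) hP (fun h => by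
    rw [show finrank ℂ (Fin m → ℂ) = m by simp]; exact hr h) he hPe
  have hcube : ∀ {θ : Fin b → ℝ}, (∀ j, |θ j| ≤ 3 / 4) → ‖θ‖ ≤ 3 / 4 := fun {θ} h =>
    (pi_norm_le_iff_of_nonneg (by norm_num)).2 h
  -- the point
  set w₀ : Fin m → ℂ := D 0 ψ₀ with hw₀
  have hew₀ : e 0 w₀ = ψ₀ := by
    rw [hw₀, (hD 0 (hinj 0 (by simp))).2.2 ψ₀, hPψ]
  -- spaces
  let Q := T × (Fin m → ℂ)
  let _ : MeasurableSpace T := borel T
  have _ : BorelSpace T := ⟨rfl⟩
  let ν : Measure (T × (Fin m → ℂ)) := Measure.addHaar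
  let μ : Measure ((Fin b → ℝ) × T × (Fin m → ℂ)) := (volume : Measure (Fin b → ℝ)).prod ν
  have hν : ν.IsAddHaarMeasure := inferInstance
  have hν2 : SFinite ν := inferInstance
  have hμ : μ.IsAddHaarMeasure := by
    have h2 : SFinite (volume : Measure (Fin b → ℝ)) := inferInstance
    have h4 : MeasurableAdd (T × (Fin m → ℂ)) := inferInstance
    have h5 : MeasurableAdd (Fin b → ℝ) := inferInstance
    have h6 : (volume : Measure (Fin b → ℝ)).IsAddHaarMeasure := inferInstance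
    exact Measure.prod.instIsAddHaarMeasure _ _
  have hRpos : 0 < R := (norm_nonneg t₀).trans_lt ht
  have hce : Continuous e := he.continuous
  have hcc : Continuous (ch (T := T) e) := (contDiff_ch he).continuous
  let F₀ : (Fin b → ℝ) × T × (Fin m → ℂ) → Y := fun x => G (ch e x)
  have hF₀ : Continuous F₀ := cG.comp hcc
  let p : (Fin b → ℝ) × T × (Fin m → ℂ) := (0, t₀, w₀)
  have hchp : ch e p = (t₀, 0, ψ₀) := by
    show (t₀, (0 : Fin b → ℝ), e 0 w₀) = _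
    rw [hew₀]
  -- the cut-off function
  let c₀ : ContDiffBump (0 : T × H) := ⟨R, R + 1, hRpos, by linarith⟩
  let pj : (Fin b → ℝ) × T × (Fin m → ℂ) → T × H := fun x => (x.2.1, e x.1 x.2.2)
  have hpj : ContDiff ℝ ∞ pj := by
    have h1 := contDiff_ch (T := T) he
    exact (contDiff_fst.comp h1).prodMk ((contDiff_snd.comp contDiff_snd).comp h1)
  have hpjc : Continuous pj := hpj.continuous
  let χ : (Fin b → ℝ) × T × (Fin m → ℂ) → ℝ := fun x => c₀ (pj x)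
  have hχ : ContDiff ℝ ∞ χ := c₀.contDiff.comp hpj
  have hχ1 : ∀ x, ‖pj x‖ ≤ R → χ x = 1 := fun x hx =>
    c₀.one_of_mem_closedBall (by simpa using hx)
  have hχ0 : ∀ x, R + 1 ≤ ‖pj x‖ → χ x = 0 := fun x hx =>
    c₀.zero_of_le_dist (by rw [dist_zero_right]; exact hx)
  -- the compact sets
  obtain ⟨c, hc, hlow⟩ := lower_bound (Metric.closedBall (0 : Fin b → ℝ) (3 / 4))
    (isCompact_closedBall _ _) e hce (fun θ hθ => hinj θ (by
      have := mem_closedBall_zero_iff.1 hθ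
      linarith))
  let K : Set ((Fin b → ℝ) × T × (Fin m → ℂ)) := {x | (∀ j, |x.1 j| ≤ 3 / 4) ∧ ‖pj x‖ ≤ R + 1}
  have hKc : IsClosed K := by
    have h1 : K = (⋂ j, {x : (Fin b → ℝ) × T × (Fin m → ℂ) | |x.1 j| ≤ 3 / 4}) ∩
        {x | ‖pj x‖ ≤ R + 1} := by
      ext x; simp [K]
    rw [h1]
    refine IsClosed.inter ?_ (isClosed_le hpjc.norm continuous_const)
    exact isClosed_iInter fun j =>
      isClosed_le (((continuous_apply j).comp continuous_fst).abs) continuous_const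
  have hK : IsCompact K := by
    refine IsCompact.of_isClosed_subset
      ((isCompact_closedBall (0 : Fin b → ℝ) (3 / 4)).prod
        ((isCompact_closedBall (0 : T) (R + 1)).prod
          (isCompact_closedBall (0 : Fin m → ℂ) ((R + 1) / c)))) hKc ?_
    rintro x ⟨h1, h2⟩
    have h3 : x.1 ∈ Metric.closedBall (0 : Fin b → ℝ) (3 / 4) := by simpa using hcube h1
    refine ⟨h3, ?_, ?_⟩
    · rw [mem_closedBall_zero_iff]
      exact (norm_fst_le (pj x)).trans h2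
    · rw [mem_closedBall_zero_iff, le_div_iff₀ hc, mul_comm]
      exact (hlow x.1 h3 x.2.2).trans ((norm_snd_le (pj x)).trans h2)
  let K' : Set ((Fin b → ℝ) × T × (Fin m → ℂ)) := K ∩ {x | R ≤ ‖pj x‖}
  have hK' : IsCompact K' := hK.inter_right (isClosed_le continuous_const hpjc.norm)
  let U : Set ((Fin b → ℝ) × T × (Fin m → ℂ)) := {x | ‖x.1‖ < 1 / 8 ∧ ‖pj x‖ < R}
  have hU : U ∈ 𝓝 p := by
    have h1 : IsOpen U := (isOpen_lt continuous_fst.norm continuous_const).inter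
      (isOpen_lt hpjc.norm continuous_const)
    refine h1.mem_nhds ⟨?_, ?_⟩
    · show ‖(0 : Fin b → ℝ)‖ < 1 / 8
      rw [norm_zero]
      norm_num
    · show ‖((t₀, e 0 w₀) : T × H)‖ < R
      rw [hew₀, Prod.norm_def]
      exact max_lt ht hψ
  -- the ray
  obtain ⟨lam, hlam⟩ := SeparatingDual.exists_eq_one (R := ℝ) hV
  obtain ⟨δa, hδa, εa, hεa, hfar⟩ := ray_far V lam K' hK' F₀ hF₀ (by
    rintro x ⟨hx1, hx2⟩ s hs
    have h1 : R ≤ max ‖x.2.1‖ ‖e x.1 x.2.2‖ := hx2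
    exact hray x.2.1 x.1 (e x.1 x.2.2) (hPe _ _) (le_max_iff.1 h1) s hs)
  -- the derivative
  obtain ⟨C, hC, hCf⟩ := hasFDerivAt_ch (T := T) he p
  have hL0 : HasFDerivAt F₀ (L.comp C) p := by
    have h1 : F₀ = (fun x : T × (Fin b → ℝ) × H => G (x.1, x.2.1, P x.2.1 x.2.2)) ∘ ch e := by
      funext x
      show G (x.2.1, x.1, e x.1 x.2.2) = G (x.2.1, x.1, P x.1 (e x.1 x.2.2))
      rw [hPe]
    rw [h1]
    refine HasFDerivAt.comp p ?_ hC
    rw [hchp]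
    exact hL
  have hLP : ∀ ξ, L (0, 0, ξ - P 0 ξ) = 0 := by
    intro ξ
    let ln : ℝ → T × (Fin b → ℝ) × H := fun s => (t₀, 0, ψ₀) + s • (0, 0, ξ - P 0 ξ)
    have h1 : HasDerivAt ln (0, 0, ξ - P 0 ξ) 0 := by
      have h2 := ((hasDerivAt_id (0 : ℝ)).smul_const
        ((0, 0, ξ - P 0 ξ) : T × (Fin b → ℝ) × H)).const_add (t₀, 0, ψ₀)
      rw [one_smul] at h2
      exact h2
    have h3 : HasDerivAt (fun s => G ((ln s).1, (ln s).2.1, P (ln s).2.1 (ln s).2.2))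
        (L (0, 0, ξ - P 0 ξ)) 0 := by
      have h4 : ln 0 = (t₀, 0, ψ₀) := by simp [ln]
      have h5 := hL
      rw [← h4] at h5
      exact h5.comp_hasDerivAt 0 h1
    have h6 : (fun s => G ((ln s).1, (ln s).2.1, P (ln s).2.1 (ln s).2.2))
        = fun _ => G (t₀, 0, ψ₀) := by
      funext s
      have h7 : ln s = (t₀, 0, ψ₀ + s • (ξ - P 0 ξ)) := by simp [ln]
      rw [h7]
      show G (t₀, 0, P 0 (ψ₀ + s • (ξ - P 0 ξ))) = _
      congr 3
      rw [map_add, hPψ, (P 0).map_smul_of_tower, map_sub, hPP, sub_self, smul_zero, add_zero]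
    rw [h6] at h3
    exact h3.unique (hasDerivAt_const _ _)
  have hinjL : Function.Injective (L.comp C) := by
    rw [injective_iff_map_eq_zero]
    rintro ⟨κ, τ, ww⟩ h0
    have h1 : L (τ, κ, fderiv ℝ (eR e) p.1 κ p.2.2 + e p.1 ww) = 0 := by
      rw [← hCf]
      exact h0
    set ξ : H := fderiv ℝ (eR e) p.1 κ p.2.2 + e p.1 ww with hξ
    have h2 : L (τ, κ, P 0 ξ) = 0 := by
      have h3 : ((τ, κ, ξ) : T × (Fin b → ℝ) × H) = (τ, κ, P 0 ξ) + (0, 0, ξ - P 0 ξ) := by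
        simp
      rw [h3, map_add, hLP, add_zero] at h1
      exact h1
    obtain ⟨h4, h5, h6⟩ := hLi τ κ (P 0 ξ) (hPP 0 ξ) h2
    have h7 : ξ = e 0 ww := by
      rw [hξ, h5, map_zero]
      show (0 : (Fin m → ℂ) →L[ℝ] H) w₀ + e 0 ww = e 0 ww
      rw [_root_.zero_apply, zero_add]
    rw [h7, hPe] at h6
    have h8 : ww = 0 := (injective_iff_map_eq_zero (e 0)).1 (hinj 0 (by simp)) ww h6
    rw [h4, h5, h8]
    rfl
  -- the zeros
  have hne : ∀ x ∈ K, F₀ x = 0 → x = p := by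
    rintro x ⟨hx1, hx2⟩ hx
    obtain ⟨h1, h2, h3⟩ := hz x.2.1 x.1 (e x.1 x.2.2) (hPe _ _) hx1 hx
    have h4 : x.2.2 = w₀ := by
      refine hinj 0 (by simp) ?_
      rw [hew₀, ← h3, h2]
    exact Prod.ext h2 (Prod.ext h1 h4)
  obtain ⟨δ₁, hδ₁, hloc⟩ := DgLoc_143.local_ne μ F₀ hF₀ p (L.comp C) hL0 (by
    show G (ch e p) = 0
    rw [hchp]
    exact hG0) hinjL K hK U hU hne
  -- the cut-off in the target
  set δ : ℝ := min δa (δ₁ / (1 + ‖V‖)) with hδ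
  have hδpos : 0 < δ := lt_min hδa (by positivity)
  obtain ⟨ζ, hζ, hζ1, hζ2, hζ3, hζ4⟩ := exists_zeta V lam hlam hδpos
  -- smoothing
  obtain ⟨S, hS, hSp, hSG⟩ := DgSmo_936.exists_smooth_periodic (b := b) (V := T × H)
    (fun h y => G (y.1, h, y.2))
    (cG.comp ((continuous_fst.comp continuous_snd).prodMk
      (continuous_fst.prodMk (continuous_snd.comp continuous_snd))))
    (fun k h y => pG y.1 h y.2 k) ((fun x => (x.1, pj x)) '' K)
    (hK.image (continuous_fst.prodMk hpjc)) (lt_min hδ₁ hεa)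
  let S' : (Fin b → ℝ) × T × (Fin m → ℂ) → Y := fun x => S x.1 (pj x)
  have hS' : ContDiff ℝ ∞ S' := hS.comp (contDiff_fst.prodMk hpj)
  have hSF : ∀ x ∈ K, ‖S' x - F₀ x‖ < min δ₁ εa := fun x hx =>
    hSG (x.1, pj x) (mem_image_of_mem _ hx)
  obtain ⟨F, hF, hFU, hint⟩ := hloc S' hS' fun x hx => (hSF x hx).trans_le (min_le_left _ _)
  -- bases
  obtain ⟨n, hn⟩ : ∃ n, finrank ℝ Y = n + 1 := by
    have h1 : 0 < finrank ℝ Y := by
      have : Nontrivial Y := ⟨V, 0, hV⟩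
      exact finrank_pos
    exact ⟨finrank ℝ Y - 1, by omega⟩
  have hfX : finrank ℝ ((Fin b → ℝ) × T × (Fin m → ℂ)) = n + 1 := by
    rw [← hn, ← hdim, finrank_prod, finrank_prod, Module.finrank_pi, Fintype.card_fin,
      finrank_real_of_complex, Module.finrank_pi, Fintype.card_fin]
    ring
  let bs : Basis (Fin (n + 1)) ℝ ((Fin b → ℝ) × T × (Fin m → ℂ)) :=
    (Module.finBasis ℝ _).reindex (finCongr hfX)
  obtain ⟨om, hom⟩ := exists_top (Y := Y) hn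
  -- the integral vanishes
  have hzero := glue (b := b) (Q := T × (Fin m → ℂ)) ν hn bs om V F (contDiff_infty.1 hF 2) χ
    (hχ.of_le (by simp)) ζ hζ K hK
    (by
      intro x hx1 hx2
      refine ⟨hx1, ?_⟩
      by_contra h
      push Not at h
      exact hx2 (hχ0 x h.le))
    (by
      intro x hx1 hx2
      by_cases h1 : ‖pj x‖ < R
      · have h2 : χ =ᶠ[𝓝 x] fun _ => 1 := by
          filter_upwards [(isOpen_lt hpjc.norm continuous_const).mem_nhds h1] with y hy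
          exact hχ1 y (le_of_lt hy)
        rw [h2.fderiv_eq]
        simp
      by_cases h3 : R + 1 < ‖pj x‖
      · have h2 : χ =ᶠ[𝓝 x] fun _ => 0 := by
          filter_upwards [(isOpen_lt continuous_const hpjc.norm).mem_nhds h3] with y hy
          exact hχ0 y (le_of_lt hy)
        rw [h2.fderiv_eq]
        simp
      push Not at h1 h3
      exfalso
      have hxK : x ∈ K := ⟨hx1, h3⟩
      have hxU : x ∉ U := fun h => absurd h.2 (not_lt.2 h1)
      rw [hFU x hxU] at hx2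
      obtain ⟨h4, h5⟩ := hζ1 _ hx2
      refine hfar x ⟨hxK, h1⟩ (S' x) ((hSF x hxK).trans_le (min_le_right _ _)) ⟨?_, ?_⟩
      · have : δ ≤ δa := min_le_left _ _
        linarith
      · exact h5.trans_le (min_le_left _ _))
    (by
      intro i θ hθ1 hθ2
      have hnθ : ‖θ‖ ≤ 3 / 4 := hcube hθ2
      have hsi : ‖(Pi.single i 1 : Fin b → ℝ)‖ ≤ 1 := by
        rw [pi_norm_le_iff_of_nonneg zero_le_one]
        intro j
        by_cases hj : j = i
        · subst hj; simp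
        · rw [Pi.single_eq_of_ne hj]; simp
      -- the transition map
      let a : (Fin b → ℝ) → (Fin m → ℂ) →L[ℂ] (Fin m → ℂ) := fun θ' =>
        (D θ').comp (e (θ' - Pi.single i 1))
      have hsi2 : ‖θ - Pi.single i 1‖ ≤ 2 := by
        have := norm_sub_le θ (Pi.single i 1 : Fin b → ℝ)
        linarith
      have hPs : ∀ θ' : Fin b → ℝ, P (θ' - Pi.single i 1) = P θ' := by
        intro θ'
        have h1 := hPp θ' (-Pi.single i 1)
        rw [← h1]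
        congr 1
        funext j
        by_cases hj : j = i
        · subst hj; simp [sub_eq_add_neg]
        · simp [Pi.single_eq_of_ne hj]
      have hSs : ∀ (θ' : Fin b → ℝ) y, S (θ' - Pi.single i 1) y = S θ' y := by
        intro θ' y
        have h1 := hSp (-Pi.single i 1) θ' y
        rw [← h1]
        congr 1
        funext j
        by_cases hj : j = i
        · subst hj; simp [sub_eq_add_neg]
        · simp [Pi.single_eq_of_ne hj]
      have hea : ∀ θ' : Fin b → ℝ, ‖θ'‖ ≤ 2 → ∀ w, e θ' (a θ' w) = e (θ' - Pi.single i 1) w := by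
        intro θ' hθ' w
        show e θ' (D θ' (e (θ' - Pi.single i 1) w)) = _
        rw [(hD θ' (hinj θ' hθ')).2.2, ← hPs θ', hPe]
      have hainj : Function.Injective (a θ) := by
        rw [injective_iff_map_eq_zero]
        intro w hw
        have h1 := hea θ (by linarith) w
        rw [hw, map_zero] at h1
        exact (injective_iff_map_eq_zero _).1 (hinj _ hsi2) w h1.symm
      have had : DifferentiableAt ℝ a θ := by
        have h1 : DifferentiableAt ℝ D θ :=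
          ((hD θ (hinj θ (by linarith))).1).differentiableAt (by simp)
        have h2 : DifferentiableAt ℝ (fun θ' : Fin b → ℝ => e (θ' - Pi.single i 1)) θ :=
          ((he.differentiable (by simp)) _).comp θ (differentiableAt_id.sub_const _)
        have h3 : DifferentiableAt ℝ (fun q : (H →L[ℂ] (Fin m → ℂ)) × ((Fin m → ℂ) →L[ℂ] H) =>
            q.1.comp q.2) (D θ, e (θ - Pi.single i 1)) := by
          have h4 := (isBoundedBilinearMap_comp (𝕜 := ℂ) (E := Fin m → ℂ) (F := H)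
            (G := Fin m → ℂ)).differentiableAt (D θ, e (θ - Pi.single i 1))
          exact h4.restrictScalars ℝ
        exact h3.comp θ (h1.prodMk h2)
      let A : (Fin b → ℝ) → T × (Fin m → ℂ) →L[ℝ] T × (Fin m → ℂ) := fun θ' =>
        ContinuousLinearMap.prodMapL ℝ T T (Fin m → ℂ) (Fin m → ℂ)
          (ContinuousLinearMap.id ℝ T,
            ContinuousLinearMap.restrictScalarsL ℂ (Fin m → ℂ) (Fin m → ℂ) ℝ ℝ (a θ'))
      have hA : ∀ θ' y, A θ' y = (y.1, a θ' y.2) := fun θ' y => rfl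
      refine ⟨A, ?_, ?_, ?_⟩
      · have h1 : DifferentiableAt ℝ (fun θ' =>
            ContinuousLinearMap.restrictScalarsL ℂ (Fin m → ℂ) (Fin m → ℂ) ℝ ℝ (a θ')) θ :=
          (ContinuousLinearMap.differentiableAt _).comp θ had
        have h2 : DifferentiableAt ℝ (fun θ' =>
            ((ContinuousLinearMap.id ℝ T,
              ContinuousLinearMap.restrictScalarsL ℂ (Fin m → ℂ) (Fin m → ℂ) ℝ ℝ (a θ')) :
              (T →L[ℝ] T) × ((Fin m → ℂ) →L[ℝ] (Fin m → ℂ)))) θ :=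
          (differentiableAt_const _).prodMk h1
        exact (ContinuousLinearMap.differentiableAt _).comp θ h2
      · have h1 : (A θ : T × (Fin m → ℂ) →ₗ[ℝ] T × (Fin m → ℂ))
            = LinearMap.prodMap (LinearMap.id : T →ₗ[ℝ] T)
              (((a θ : (Fin m → ℂ) →ₗ[ℂ] (Fin m → ℂ))).restrictScalars ℝ) := by
          ext x <;> rfl
        rw [h1, LinearMap.det_prodMap, LinearMap.det_id, one_mul]
        exact det_pos (a θ) hainj
      · have h1 : ∀ᶠ θ' : Fin b → ℝ in 𝓝 θ, ‖θ' - θ‖ < 1 / 16 := by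
          have := Metric.ball_mem_nhds θ (show (0 : ℝ) < 1 / 16 by norm_num)
          filter_upwards [this] with θ' hθ'
          rwa [Metric.mem_ball, dist_eq_norm] at hθ'
        filter_upwards [h1] with θ' hθ' y
        have h2 : ‖θ'‖ ≤ 2 := by
          have h3 : ‖θ'‖ ≤ ‖θ' - θ‖ + ‖θ‖ := by
            simpa using norm_add_le (θ' - θ) θ
          linarith
        have h3 : |θ' i - θ i| < 1 / 16 := by
          have := norm_le_pi_norm (θ' - θ) i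
          rw [Pi.sub_apply, Real.norm_eq_abs] at this
          linarith
        rw [abs_lt] at h3
        have h4 := hθ2 i
        rw [abs_le] at h4
        have h5 : ∀ y', ((θ', y') : (Fin b → ℝ) × T × (Fin m → ℂ)) ∉ U := by
          intro y' hy'
          have h6 : ‖θ'‖ < 1 / 8 := hy'.1
          have h7 := norm_le_pi_norm θ' i
          rw [Real.norm_eq_abs] at h7
          have := le_abs_self (θ' i)
          linarith
        have h8 : ∀ y', ((θ' - Pi.single i 1, y') : (Fin b → ℝ) × T × (Fin m → ℂ)) ∉ U := by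
          intro y' hy'
          have h6 : ‖θ' - Pi.single i 1‖ < 1 / 8 := hy'.1
          have h7 := norm_le_pi_norm (θ' - Pi.single i 1) i
          rw [Real.norm_eq_abs, Pi.sub_apply, Pi.single_eq_same] at h7
          have := neg_le_abs (θ' i - 1)
          linarith
        have h9 : pj (θ' - Pi.single i 1, y) = pj (θ', A θ' y) := by
          show ((y.1, e (θ' - Pi.single i 1) y.2) : T × H) = (y.1, e θ' (a θ' y.2))
          rw [hea θ' h2]
        constructor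
        · rw [hFU _ (h5 _), hFU _ (h8 _)]
          show S (θ' - Pi.single i 1) (pj (θ' - Pi.single i 1, y)) = S θ' (pj (θ', A θ' y))
          rw [hSs, h9]
        · show c₀ (pj (θ' - Pi.single i 1, y)) = c₀ (pj (θ', A θ' y))
          rw [h9])
  -- the integral does not vanish
  refine hint (Dt om bs) (dt_ne bs om hom hn _ hinjL) (fun y => fderiv ℝ ζ y V)
    ((hζ.continuous_fderiv one_ne_zero).clm_apply continuous_const) hζ2 hζ3 ?_
    (fun x => rho x.1 * χ x) ?_ ?_ ?_ hzero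
  · intro y hy
    by_contra h0
    obtain ⟨h1, h2⟩ := hζ4 y h0
    have h3 : ‖y‖ ≤ |lam y| * ‖V‖ + ‖y - lam y • V‖ := by
      calc ‖y‖ = ‖lam y • V + (y - lam y • V)‖ := by rw [add_sub_cancel]
        _ ≤ ‖lam y • V‖ + ‖y - lam y • V‖ := norm_add_le _ _
        _ = |lam y| * ‖V‖ + ‖y - lam y • V‖ := by rw [norm_smul, Real.norm_eq_abs]
    have h4 : |lam y| * ‖V‖ ≤ δ * ‖V‖ := mul_le_mul_of_nonneg_right h1.le (norm_nonneg V)
    have h5 : δ ≤ δ₁ / (1 + ‖V‖) := min_le_right _ _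
    have h6 : δ * (1 + ‖V‖) ≤ δ₁ := by
      rwa [le_div_iff₀ (by positivity)] at h5
    nlinarith
  · exact ((contDiff_rho (b := b)).continuous.comp continuous_fst).mul hχ.continuous
  · rintro x ⟨hx1, hx2⟩
    have h1 : rho x.1 = 1 := rho_one fun j => by
      have := norm_le_pi_norm x.1 j
      rw [Real.norm_eq_abs] at this
      linarith
    show rho x.1 * χ x = 1
    rw [h1, hχ1 x hx2.le, one_mul]
  · intro x hx
    by_contra h
    refine hx ⟨rho_ne (left_ne_zero_of_mul h), ?_⟩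
    by_contra h2
    push Not at h2
    exact right_ne_zero_of_mul h (hχ0 x h2.le)

end Crest.Agent.R235.FdJb_778
end
end

-- ▼ part R235/FdJ_778
section

/-!
Row 235 (S0364), block FDJ (helper778): **the finite dimensional theorem over the Jacobian torus**.

`T` real (`= R^3`), `E_h = range (P h) ⊆ H` a smooth `Z^b`-periodic family of complex subspaces of
dimension `m`, `(fR, fC) : T × R^b × H → YR × YC` continuous, periodic, `S¹`-equivariant,
`dim T + b + 2 m = dim YR + 2 dim_C YC`, `v ≠ 0` in `YC`.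

1. no zero with `|t| ≤ 1`, `ψ = 0`;
2. no point with `|t| ≤ 1`, `|ψ| ≥ R`, `fR = 0`, `fC ∈ R_{≥0} v`;
3. on `|t| = 1` the equations `fR = 0`, `fC = s v`, `s ≥ 0` have the only solution
   `(t₀, h₀, ψ₀)` (mod `Z^b`), with `s = s₀ > 0`, nondegenerate in the collar.

These are contradictory.
-/

set_option autoImplicit false

open Set Filter Topology Module
open scoped ContDiff

noncomputable section

namespace Crest.Agent.R235.FdJ_778

variable {T H YR YC : Type*} [NormedAddCommGroup T] [NormedSpace ℝ T] [FiniteDimensional ℝ T]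
  [NormedAddCommGroup H] [InnerProductSpace ℂ H] [FiniteDimensional ℂ H]
  [NormedAddCommGroup YR] [NormedSpace ℝ YR] [FiniteDimensional ℝ YR]
  [NormedAddCommGroup YC] [NormedSpace ℂ YC] [FiniteDimensional ℂ YC] {b m : ℕ}

/-- radial retraction to the unit ball -/
def th (t : T) : T := (max 1 ‖t‖)⁻¹ • t






end Crest.Agent.R235.FdJ_778
end
end

-- ▼ part R235/FamT_151
section

/-!
Row 235 (S0364), helper151. Block FAM: from the Seiberg-Witten data over the torus to the finite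
dimensional theorems.
-/

set_option autoImplicit false
set_option linter.unusedSectionVars false

open Set Filter Topology Module
open scoped ContDiff

namespace Crest.Agent.R235.FamR_151

section sw

open FamDefs_307

variable {b : ℕ} {X Y : Type*} [NormedAddCommGroup X] [InnerProductSpace ℂ X]
  [CompleteSpace X] [NormedAddCommGroup Y] [InnerProductSpace ℂ Y] [CompleteSpace Y]
  {Φ : PFam b X Y} {T YR G : Type} [NormedAddCommGroup T] [NormedSpace ℝ T]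
  [FiniteDimensional ℝ T] [NormedAddCommGroup YR] [NormedSpace ℝ YR]
  [NormedAddCommGroup G] [NormedSpace ℂ G]

/-- **the Seiberg-Witten data over the torus**: `K` compact, `Ec` the curvature equation. -/
structure SWd (Φ : PFam b X Y) (K : T → X → Y) (Ec : T → X → YR) : Prop where
  K_cont : ContinuousOn (fun q : T × X => K q.1 q.2) {q | ‖q.1‖ ≤ 1}
  K_cpt : ∀ R : ℝ, ∃ C, IsCompact C ∧ ∀ t x, ‖t‖ ≤ 1 → ‖x‖ ≤ R → K t x ∈ C
  K_eq : ∀ t x (z : ℂ), ‖z‖ = 1 → K t (z • x) = z • K t x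
  K_U : ∀ t k x, K t (Φ.U k x) = Φ.Th (zv k) (K t x)
  Ec_cont : ContinuousOn (fun q : T × X => Ec q.1 q.2) {q | ‖q.1‖ ≤ 1}
  Ec_eq : ∀ t x (z : ℂ), ‖z‖ = 1 → Ec t (z • x) = Ec t x
  Ec_U : ∀ t k x, Ec t (Φ.U k x) = Ec t x
  bdd : ∃ R0 : ℝ, ∀ t h x, ‖t‖ ≤ 1 → h ∈ Icc (0 : Fin b → ℝ) 1 → Ec t x = 0 →
    Φ.D h x + K t x = 0 → ‖x‖ ≤ R0

namespace SWd

variable {K : T → X → Y} {Ec : T → X → YR}

theorem comp (hS : SWd Φ K Ec) {th : T → T} (hc : Continuous th)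
    (hb : ∀ t, ‖t‖ ≤ 1 → ‖th t‖ ≤ 1) :
    SWd Φ (fun t => K (th t)) (fun t => Ec (th t)) where
  K_cont := hS.K_cont.comp (f := fun q : T × X => (th q.1, q.2))
    ((hc.comp continuous_fst).prodMk continuous_snd).continuousOn (fun q hq => hb _ hq)
  K_cpt R := by
    obtain ⟨C, hC, h⟩ := hS.K_cpt R
    exact ⟨C, hC, fun t x ht hx => h _ _ (hb t ht) hx⟩
  K_eq t x z hz := hS.K_eq _ _ _ hz
  K_U t k x := hS.K_U _ _ _
  Ec_cont := hS.Ec_cont.comp (f := fun q : T × X => (th q.1, q.2))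
    ((hc.comp continuous_fst).prodMk continuous_snd).continuousOn (fun q hq => hb _ hq)
  Ec_eq t x z hz := hS.Ec_eq _ _ _ hz
  Ec_U t k x := hS.Ec_U _ _ _
  bdd := by
    obtain ⟨R0, h⟩ := hS.bdd
    exact ⟨R0, fun t h' x ht hh h1 h2 => h _ _ _ (hb t ht) hh h1 h2⟩

/-- a zero is moved to the cube. -/
theorem shift (hS : SWd Φ K Ec) {t : T} {h' : Fin b → ℝ} {k : Fin b → ℤ} {x : X}
    (h2 : Φ.D (h' + zv k) x + K t x = 0) : Φ.D h' (Φ.U (-k) x) + K t (Φ.U (-k) x) = 0 := by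
  have h3 := Φ.D_U (h' + zv k) (-k) x
  rw [zv_neg, add_assoc, add_neg_cancel, add_zero] at h3
  rw [h3, hS.K_U, zv_neg, ← map_add, h2, map_zero]

/-- **the core data** of a Seiberg-Witten family; near `x = 0` the curvature equation is modified
so that its value at `x = 0` is the given function `Lm`. -/
theorem exists_core (hS : SWd Φ K Ec) (Lm : T → YR) (hLm : ContinuousOn Lm {t | ‖t‖ ≤ 1})
    (hseg : ∀ t, ‖t‖ = 1 → ∀ s ∈ Icc (0 : ℝ) 1, (1 - s) • Ec t 0 + s • Lm t ≠ 0)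
    (g : T → (Fin b → ℝ) → X → G)
    (hgc : ContinuousOn (fun q : T × (Fin b → ℝ) × X => g q.1 q.2.1 q.2.2) {q | ‖q.1‖ ≤ 1})
    (hge : ∀ t h x (z : ℂ), ‖z‖ = 1 → g t h (z • x) = z • g t h x)
    (hgU : ∀ t h k x, g t (h + zv k) (Φ.U k x) = g t h x) (v : G) (hv : v ≠ 0) (x0 : X) :
    ∃ Γ : Core Φ T YR G, Γ.K = K ∧ Γ.g = g ∧ Γ.v = v ∧ (∀ t h, Γ.Ec t h 0 = Lm t) ∧
      (∀ t h x, ‖t‖ = 1 → Γ.Ec t h x = 0 → Ec t x = 0) ∧
      (x0 ≠ 0 → ∀ᶠ w in 𝓝 (((0 : Fin b → ℝ), x0) : (Fin b → ℝ) × X), ∀ t,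
        Γ.Ec t w.1 w.2 = Ec t w.2) ∧
      (∀ t h x, ‖t‖ ≤ 1 → Ec t x = 0 → Φ.D h x + K t x = 0 → Γ.N h x < Γ.R1) := by
  obtain ⟨N, hNc, hN0, hNs, hNU, ⟨c, hc, hNl⟩, C, hC, hNu⟩ :=
    Φ.exists_N (isCompact_Icc (a := (-1 : Fin b → ℝ)) (b := 1))
  obtain ⟨R0, hR0⟩ := hS.bdd
  have hcube : Icc (0 : Fin b → ℝ) 1 ⊆ Icc (-1) 1 := Icc_subset_Icc_left (by
    intro j; show (-1 : ℝ) ≤ 0; norm_num)
  set R1 : ℝ := C * max R0 0 + 1 with hR1
  have hR1pos : 0 < R1 := by positivity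
  have hzero : ∀ t h x, ‖t‖ ≤ 1 → Ec t x = 0 → Φ.D h x + K t x = 0 → N h x < R1 := by
    intro t h x ht h1 h2
    obtain ⟨k, h', hh', rfl⟩ := exists_cube h
    have h3 := hS.shift h2
    have h4 : ‖Φ.U (-k) x‖ ≤ R0 := hR0 t h' _ ht hh' (by rw [hS.Ec_U, h1]) h3
    have h5 : N (h' + zv k) x = N h' (Φ.U (-k) x) := by
      have := hNU h' k (Φ.U (-k) x)
      rwa [Φ.U_neg] at this
    rw [h5]
    have h6 := hNu h' (hcube hh') (Φ.U (-k) x)
    have h7 : C * ‖Φ.U (-k) x‖ ≤ C * max R0 0 :=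
      mul_le_mul_of_nonneg_left (h4.trans (le_max_left _ _)) hC
    linarith
  -- the lower bound of the segment
  obtain ⟨m0, hm0, hm⟩ : ∃ m0 > 0, ∀ t, ‖t‖ = 1 → ∀ s ∈ Icc (0 : ℝ) 1,
      m0 ≤ ‖(1 - s) • Ec t 0 + s • Lm t‖ := by
    have : ProperSpace T := FiniteDimensional.proper ℝ T
    have hcpt : IsCompact (Metric.sphere (0 : T) 1 ×ˢ Icc (0 : ℝ) 1) :=
      (isCompact_sphere _ _).prod isCompact_Icc
    have hcont : ContinuousOn (fun q : T × ℝ => ‖(1 - q.2) • Ec q.1 0 + q.2 • Lm q.1‖)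
        (Metric.sphere (0 : T) 1 ×ˢ Icc (0 : ℝ) 1) := by
      have e1 : ContinuousOn (fun q : T × ℝ => Ec q.1 0)
          (Metric.sphere (0 : T) 1 ×ˢ Icc (0 : ℝ) 1) :=
        hS.Ec_cont.comp (f := fun q : T × ℝ => (q.1, (0 : X)))
          (continuous_fst.prodMk continuous_const).continuousOn
          (fun q hq => (mem_sphere_zero_iff_norm.1 hq.1).le)
      have e2 : ContinuousOn (fun q : T × ℝ => Lm q.1)
          (Metric.sphere (0 : T) 1 ×ˢ Icc (0 : ℝ) 1) :=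
        hLm.comp continuous_fst.continuousOn (fun q hq => (mem_sphere_zero_iff_norm.1 hq.1).le)
      exact (((continuous_const.sub continuous_snd).continuousOn.smul e1).add
        (continuous_snd.continuousOn.smul e2)).norm
    rcases (Metric.sphere (0 : T) 1 ×ˢ Icc (0 : ℝ) 1).eq_empty_or_nonempty with hE | hE
    · refine ⟨1, one_pos, fun t ht s hs => ?_⟩
      have : (t, s) ∈ Metric.sphere (0 : T) 1 ×ˢ Icc (0 : ℝ) 1 :=
        ⟨mem_sphere_zero_iff_norm.2 ht, hs⟩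
      rw [hE] at this
      exact this.elim
    · obtain ⟨q, hq, hmin⟩ := hcpt.exists_isMinOn hE hcont
      refine ⟨_, norm_pos_iff.2 (hseg q.1 (mem_sphere_zero_iff_norm.1 hq.1) q.2 hq.2),
        fun t ht s hs => hmin (⟨mem_sphere_zero_iff_norm.2 ht, hs⟩ :
          (t, s) ∈ Metric.sphere (0 : T) 1 ×ˢ Icc (0 : ℝ) 1)⟩
  obtain ⟨δ, hδ, hδE⟩ : ∃ δ > 0, ∀ t x, ‖t‖ = 1 → ‖x‖ < δ → ‖Ec t x - Ec t 0‖ < m0 := by
    have : ProperSpace T := FiniteDimensional.proper ℝ T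
    have h1 : ∀ᶠ x in 𝓝 (0 : X), ∀ t ∈ Metric.sphere (0 : T) 1, ‖Ec t x - Ec t 0‖ < m0 := by
      have h2 := (isCompact_sphere (0 : T) 1).eventually_forall_of_forall_eventually
        (x₀ := (0 : X)) (P := fun x t => ‖t‖ ≤ 1 → ‖Ec t x - Ec t 0‖ < m0) (fun t ht => by
          have ht1 : ‖t‖ = 1 := mem_sphere_zero_iff_norm.1 ht
          have e1 : ContinuousWithinAt (fun q : T × X => Ec q.1 q.2) {q | ‖q.1‖ ≤ 1} (t, 0) :=
            hS.Ec_cont _ ht1.le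
          have e2 : ContinuousWithinAt (fun q : T × X => Ec q.1 q.2 - Ec q.1 0)
              {q | ‖q.1‖ ≤ 1} (t, 0) := by
            have e3 : ContinuousOn (fun q : T × X => Ec q.1 0) {q | ‖q.1‖ ≤ 1} :=
              hS.Ec_cont.comp (f := fun q : T × X => (q.1, (0 : X)))
                (continuous_fst.prodMk continuous_const).continuousOn (fun q hq => hq)
            exact e1.sub (e3 _ ht1.le)
          have e4 : ∀ᶠ q in 𝓝[{q : T × X | ‖q.1‖ ≤ 1}] (t, 0), ‖Ec q.1 q.2 - Ec q.1 0‖ < m0 := by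
            refine e2.norm.eventually_lt_const ?_
            simpa using hm0
          rw [eventually_nhdsWithin_iff] at e4
          have e5 : Tendsto (fun z : X × T => (z.2, z.1)) (𝓝 (0, t)) (𝓝 (t, 0)) :=
            (continuous_snd.prodMk continuous_fst).tendsto _
          exact e5.eventually e4)
      filter_upwards [h2] with x hx t ht
      exact hx t ht (mem_sphere_zero_iff_norm.1 ht).le
    obtain ⟨δ, hδ, hsub⟩ := Metric.eventually_nhds_iff.1 h1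
    exact ⟨δ, hδ, fun t x ht hx => hsub (by rwa [dist_zero_right]) t
      (mem_sphere_zero_iff_norm.2 ht)⟩
  -- the cut radius
  set ρ : ℝ := min (min (c * δ) (R1 / 2)) (if 0 < N 0 x0 then N 0 x0 / 2 else 1) with hρdef
  have hρ : 0 < ρ := by
    refine lt_min (lt_min (by positivity) (by positivity)) ?_
    split_ifs with h
    · linarith
    · exact one_pos
  have hρ1 : ρ ≤ c * δ := (min_le_left _ _).trans (min_le_left _ _)
  have hρ2 : ρ < R1 := ((min_le_left _ _).trans (min_le_right _ _)).trans_lt (by linarith)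
  let cut : (Fin b → ℝ) → X → ℝ := fun h x => max 0 (1 - N h x / ρ)
  have hcut0 : ∀ h x, ρ ≤ N h x → cut h x = 0 := by
    intro h x hx
    refine max_eq_left ?_
    rw [sub_nonpos, le_div_iff₀ hρ]; linarith
  have hcut1 : ∀ h x, cut h x ∈ Icc (0 : ℝ) 1 := by
    intro h x
    refine ⟨le_max_left _ _, max_le zero_le_one ?_⟩
    have := div_nonneg (hN0 h x) hρ.le
    linarith
  have hN00 : ∀ h, N h 0 = 0 := by
    intro h
    have := hNs h 0 0
    rwa [zero_smul, norm_zero, zero_mul] at this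
  have hcutc : Continuous (fun q : (Fin b → ℝ) × X => cut q.1 q.2) :=
    continuous_const.max (continuous_const.sub (hNc.div_const ρ))
  refine ⟨{
    K := K
    Ec := fun t h x => Ec t x + cut h x • (Lm t - Ec t 0)
    g := g
    N := N
    R1 := R1
    c := c
    v := v
    K_cont := hS.K_cont
    K_cpt := hS.K_cpt
    K_eq := hS.K_eq
    K_U := hS.K_U
    Ec_cont := ?_
    Ec_eq := ?_
    Ec_U := ?_
    g_cont := hgc
    g_eq := hge
    g_U := hgU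
    N_cont := hNc
    N_nonneg := hN0
    N_smul := hNs
    N_U := hNU
    c_pos := hc
    N_low := hNl
    R1_pos := hR1pos
    v_ne := hv
    bd := ?_ }, rfl, rfl, rfl, ?_, ?_, ?_, ?_⟩
  · have e1 : ContinuousOn (fun q : T × (Fin b → ℝ) × X => Ec q.1 q.2.2) {q | ‖q.1‖ ≤ 1} :=
      hS.Ec_cont.comp (f := fun q : T × (Fin b → ℝ) × X => (q.1, q.2.2))
        (continuous_fst.prodMk (continuous_snd.comp continuous_snd)).continuousOn
        (fun q hq => hq)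
    have e2 : ContinuousOn (fun q : T × (Fin b → ℝ) × X => Ec q.1 0) {q | ‖q.1‖ ≤ 1} :=
      hS.Ec_cont.comp (f := fun q : T × (Fin b → ℝ) × X => (q.1, (0 : X)))
        (continuous_fst.prodMk continuous_const).continuousOn (fun q hq => hq)
    have e3 : ContinuousOn (fun q : T × (Fin b → ℝ) × X => Lm q.1) {q | ‖q.1‖ ≤ 1} :=
      hLm.comp continuous_fst.continuousOn (fun q hq => hq)
    exact e1.add ((hcutc.comp continuous_snd).continuousOn.smul (e3.sub e2))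
  · intro t h x z hz
    have : cut h (z • x) = cut h x := by
      show max 0 (1 - N h (z • x) / ρ) = _
      rw [hNs, hz, one_mul]
    show Ec t (z • x) + cut h (z • x) • (Lm t - Ec t 0) = _
    rw [this, hS.Ec_eq _ _ _ hz]
  · intro t h k x
    have : cut (h + zv k) (Φ.U k x) = cut h x := by
      show max 0 (1 - N (h + zv k) (Φ.U k x) / ρ) = _
      rw [hNU]
    show Ec t (Φ.U k x) + cut (h + zv k) (Φ.U k x) • (Lm t - Ec t 0) = _
    rw [this, hS.Ec_U]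
  · intro t h x ht hN h1 h2
    have h3 : cut h x = 0 := hcut0 h x (by rw [hN]; exact hρ2.le)
    have h4 : Ec t x + cut h x • (Lm t - Ec t 0) = 0 := h1
    rw [h3, zero_smul, add_zero] at h4
    have := hzero t h x ht h4 h2
    linarith
  · intro t h
    show Ec t 0 + cut h 0 • (Lm t - Ec t 0) = Lm t
    have : cut h 0 = 1 := by
      show max 0 (1 - N h 0 / ρ) = 1
      rw [hN00]; simp
    rw [this, one_smul]
    abel
  · intro t h x ht h1
    have h1' : Ec t x + cut h x • (Lm t - Ec t 0) = 0 := h1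
    by_cases hx : ρ ≤ N h x
    · rwa [hcut0 h x hx, zero_smul, add_zero] at h1'
    · exfalso
      push Not at hx
      obtain ⟨k, h', hh', rfl⟩ := exists_cube h
      have h5 : N (h' + zv k) x = N h' (Φ.U (-k) x) := by
        have := hNU h' k (Φ.U (-k) x)
        rwa [Φ.U_neg] at this
      have h6 := hNl h' (hcube hh') (Φ.U (-k) x)
      have h7 : ‖Φ.U (-k) x‖ < δ := by
        have : c * ‖Φ.U (-k) x‖ < c * δ := by
          calc c * ‖Φ.U (-k) x‖ ≤ N h' (Φ.U (-k) x) := h6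
            _ < ρ := by rw [← h5]; exact hx
            _ ≤ c * δ := hρ1
        exact lt_of_mul_lt_mul_left this hc.le
      have h8 := hδE t _ ht h7
      rw [hS.Ec_U] at h8
      have h9 := hm t ht _ (hcut1 (h' + zv k) x)
      set s := cut (h' + zv k) x with hs
      have h10 : (1 - s) • Ec t 0 + s • Lm t = -(Ec t x - Ec t 0) := by
        have h11 : (1 - s) • Ec t 0 + s • Lm t + (Ec t x - Ec t 0) = 0 := by
          rw [← h1']
          rw [sub_smul, one_smul, smul_sub]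
          abel
        exact eq_neg_of_add_eq_zero_left h11
      rw [h10, norm_neg] at h9
      linarith
  · intro hx0
    have hNx : 0 < N 0 x0 := by
      have h0 : (0 : Fin b → ℝ) ∈ Icc (-1 : Fin b → ℝ) 1 :=
        ⟨fun j => by show (-1 : ℝ) ≤ 0; norm_num, fun j => by show (0 : ℝ) ≤ 1; norm_num⟩
      have := hNl 0 h0 x0
      have h2 : 0 < c * ‖x0‖ := mul_pos hc (norm_pos_iff.2 hx0)
      linarith
    have hρ3 : ρ < N 0 x0 := by
      have : ρ ≤ N 0 x0 / 2 := by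
        refine (min_le_right _ _).trans ?_
        rw [if_pos hNx]
      linarith
    have hev : ∀ᶠ w in 𝓝 (((0 : Fin b → ℝ), x0) : (Fin b → ℝ) × X), ρ < N w.1 w.2 :=
      hNc.continuousAt.eventually_const_lt hρ3
    filter_upwards [hev] with w hw t
    show Ec t w.2 + cut w.1 w.2 • (Lm t - Ec t 0) = Ec t w.2
    rw [hcut0 _ _ hw.le, zero_smul, add_zero]
  · exact hzero

end SWd

namespace Core

/-- no zeros over the boundary survive. -/
theorem nz (Γ : Core Φ T YR G) {s : Set (Fin b → ℝ)} (hs : IsClosed s)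
    (hper : ∀ h k, h + zv k ∈ s → h ∈ s)
    (hno : ∀ t h x, ‖t‖ = 1 → h ∈ s → Γ.Ec t h x = 0 → Φ.D h x + Γ.K t x ≠ 0) :
    ∃ ε > 0, ∀ (W : Submodule ℂ Y) [FiniteDimensional ℂ W], Γ.Appr W ε →
      ∀ {n : ℕ} (fr : Φ.Fr W n) (t : T) (h : Fin b → ℝ) (ψ : EuclideanSpace ℂ (Fin n)),
        ‖t‖ = 1 → h ∈ s → Γ.fR W fr (t, h, ψ) = 0 → Γ.fW W fr (t, h, ψ) ≠ 0 := by
  obtain ⟨εa, hεa, ha⟩ := Γ.low_bound (S0 := {q | Γ.N q.2.1 q.2.2 = Γ.R1})
    (isClosed_eq (Γ.N_cont.comp continuous_snd) continuous_const)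
    (fun q hq h1 _ _ h4 => Γ.bd q.1 q.2.1 q.2.2 h1 hq h4)
  have ha' : ∀ t h x, ‖t‖ ≤ 1 → h ∈ QQ b → Γ.N h x = Γ.R1 → Γ.Ec t h x = 0 →
      εa ≤ ‖Φ.D h x + Γ.K t x‖ := fun t h x h1 h2 h3 h4 => ha (t, h, x) h3 h1 h2 h3.le h4
  have hcl1 : IsClosed {q : T × (Fin b → ℝ) × X | ‖q.1‖ = 1} :=
    isClosed_eq continuous_fst.norm continuous_const
  have hcl2 : IsClosed {q : T × (Fin b → ℝ) × X | q.2.1 ∈ s} :=
    hs.preimage (continuous_fst.comp continuous_snd)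
  obtain ⟨εb, hεb, hb⟩ := Γ.low_bound (hcl1.inter hcl2)
    (fun q hq _ _ _ h4 => hno q.1 q.2.1 q.2.2 hq.1 hq.2 h4)
  refine ⟨min εa εb, lt_min hεa hεb, fun W _ hW n fr t h ψ ht hh hfR hfW => ?_⟩
  have hWa : Γ.Appr W εa := fun t h x h1 h2 h3 => (hW t h x h1 h2 h3).trans_le (min_le_left _ _)
  have hWb : Γ.Appr W εb := fun t h x h1 h2 h3 => (hW t h x h1 h2 h3).trans_le (min_le_right _ _)
  obtain ⟨k, h', hh', rfl⟩ := exists_cube' h
  rw [Γ.fR_per] at hfR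
  rw [Γ.fW_per] at hfW
  have hQ' : h' ∈ QQ b := mem_QQ hh'
  obtain ⟨b1, b2, b3, b4⟩ := Γ.inside W fr hWa ha' ht.le hQ' hfR hfW
  have b5 : ‖Φ.D h' (xx W fr h' ψ) + Γ.K t (xx W fr h' ψ)‖ < εb := by
    have := Γ.small W fr hWb hQ' hfW
    rwa [cl_of_le ht.le, Γ.rr_of_le b1.le, Complex.ofReal_one, one_smul] at this
  have := hb (t, h', xx W fr h' ψ) ⟨ht, hper h' k hh⟩ ht.le hQ' b1.le b2
  exact absurd b5 (not_lt.2 this)

/-- the choice of a good finite dimensional space. -/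
theorem good (Γ : Core Φ T YR G) : ∃ ε > 0, ∀ t h x, ‖t‖ ≤ 1 → h ∈ QQ b → Γ.N h x = Γ.R1 →
    Γ.Ec t h x = 0 → ε ≤ ‖Φ.D h x + Γ.K t x‖ := by
  obtain ⟨εa, hεa, ha⟩ := Γ.low_bound (S0 := {q | Γ.N q.2.1 q.2.2 = Γ.R1})
    (isClosed_eq (Γ.N_cont.comp continuous_snd) continuous_const)
    (fun q hq h1 _ _ h4 => Γ.bd q.1 q.2.1 q.2.2 h1 hq h4)
  exact ⟨εa, hεa, fun t h x h1 h2 h3 h4 => ha (t, h, x) h3 h1 h2 h3.le h4⟩

theorem Appr.mono {Γ : Core Φ T YR G} {W : Submodule ℂ Y} [FiniteDimensional ℂ W] {ε ε' : ℝ}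
    (h : Γ.Appr W ε) (hle : ε ≤ ε') : Γ.Appr W ε' :=
  fun t h' x h1 h2 h3 => (h t h' x h1 h2 h3).trans_le hle

end Core

section hopf

open Hopf_143

/-- the periodic cut-off, `1` near the lattice. -/
noncomputable def kap (h : Fin b → ℝ) : ℝ := Real.smoothTransition (2 * cb 0 (1 / 4) h)

/-- the functional over the torus. -/
noncomputable def gf (Φ : PFam b X Y) (g0 : E3 → X → C2) (t : E3) (h : Fin b → ℝ) (x : X) : C2 :=
  ((kap h : ℝ) : ℂ) • g0 t (Φ.U (kb 0 h) x)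

theorem kap_cont : Continuous (kap : (Fin b → ℝ) → ℝ) :=
  Real.smoothTransition.continuous.comp (continuous_const.mul (cb_smooth 0 (1 / 4)).continuous)

theorem gf_cont {g0 : E3 → X → C2} (hg : Continuous (fun q : E3 × X => g0 q.1 q.2)) :
    Continuous (fun q : E3 × (Fin b → ℝ) × X => gf Φ g0 q.1 q.2.1 q.2.2) := by
  have hd0 : (0 : ℝ) < 1 / 4 := by norm_num
  have hd1 : (1 / 4 : ℝ) < 1 / 2 := by norm_num
  have hh : Continuous (fun q : E3 × (Fin b → ℝ) × X => q.2.1) :=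
    continuous_fst.comp continuous_snd
  rw [continuous_iff_continuousAt]
  intro q
  rcases bump_local hd0 hd1 0 q.2.1 with hk | hc
  · have h1 : ContinuousAt (fun q' : E3 × (Fin b → ℝ) × X =>
        ((kap q'.2.1 : ℝ) : ℂ) • g0 q'.1 (Φ.U (kb 0 q.2.1) q'.2.2)) q := by
      refine Continuous.continuousAt ?_
      refine (Complex.continuous_ofReal.comp (kap_cont.comp hh)).smul ?_
      exact hg.comp (continuous_fst.prodMk ((Φ.U (kb 0 q.2.1)).continuous.comp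
        (continuous_snd.comp continuous_snd)))
    refine h1.congr ?_
    filter_upwards [hh.continuousAt.eventually hk] with q' hq'
    simp only [gf, hq']
  · refine (continuousAt_const (y := (0 : C2))).congr ?_
    filter_upwards [hh.continuousAt.eventually hc] with q' hq'
    have : kap q'.2.1 = 0 := by
      rw [kap, hq', mul_zero, Real.smoothTransition.zero]
    simp only [gf, this]
    simp

theorem gf_smul {g0 : E3 → X → C2} (hg : ∀ t x, ∀ z : ℂ, ‖z‖ = 1 → g0 t (z • x) = z • g0 t x)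
    (t : E3) (h : Fin b → ℝ) (x : X) (z : ℂ) (hz : ‖z‖ = 1) :
    gf Φ g0 t h (z • x) = z • gf Φ g0 t h x := by
  unfold gf
  rw [map_smul, hg _ _ _ hz, smul_comm]

theorem gf_U (g0 : E3 → X → C2) (t : E3) (h : Fin b → ℝ) (k : Fin b → ℤ) (x : X) :
    gf Φ g0 t (h + zv k) (Φ.U k x) = gf Φ g0 t h x := by
  unfold gf kap
  rw [cb_shift, kb_shift]
  have : Φ.U (kb 0 h) = (Φ.U (kb 0 h - k)).comp (Φ.U k) := by rw [← Φ.U_add, sub_add_cancel]
  rw [this]; rfl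

theorem kap_near : ∀ᶠ h in 𝓝 (0 : Fin b → ℝ), kap h = 1 ∧ kb 0 h = 0 := by
  have hd0 : (0 : ℝ) < 1 / 4 := by norm_num
  have hd1 : (1 / 4 : ℝ) < 1 / 2 := by norm_num
  have h1 : ∀ᶠ h in 𝓝 (0 : Fin b → ℝ), 1 / 2 < cb 0 (1 / 4) h := by
    have hc := (cb_smooth (0 : Fin b → ℝ) (1 / 4)).continuous.continuousAt (x := 0)
    refine hc.eventually_const_lt ?_
    rw [cb_one hd0 hd1]; norm_num
  have h2 : ∀ᶠ h in 𝓝 (0 : Fin b → ℝ), ∀ j, |h j - (0 : Fin b → ℝ) j| < 1 / 2 := by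
    have : Metric.ball (0 : Fin b → ℝ) (1 / 2) ∈ 𝓝 0 := Metric.ball_mem_nhds _ (by norm_num)
    filter_upwards [this] with h hh j
    rw [Metric.mem_ball, dist_pi_lt_iff (by norm_num)] at hh
    have := hh j
    rwa [Real.dist_eq] at this
  filter_upwards [h1, h2] with h a1 a2
  exact ⟨Real.smoothTransition.one_of_one_le (by linarith), kb_zero a2⟩

theorem gf_zero (g0 : E3 → X → C2) (t : E3) (x : X) : gf Φ g0 t 0 x = g0 t x := by
  have hd0 : (0 : ℝ) < 1 / 4 := by norm_num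
  have hd1 : (1 / 4 : ℝ) < 1 / 2 := by norm_num
  unfold gf kap
  rw [cb_one hd0 hd1, kb_self, Φ.U_zero, Real.smoothTransition.one_of_one_le (by norm_num)]
  simp

/-- **the solutions over the boundary**, for the standard Hopf map, the family constant near the
base point. -/
structure HopfZ (Φ : PFam b X Y) (K : E3 → X → Y) (Ec : E3 → X → YR) (Ψ : C2 → X) : Prop where
  cΨ : ContinuousOn Ψ (Metric.sphere 0 1)
  eqΨ : ∀ z : ℂ, ‖z‖ = 1 → ∀ s, ‖s‖ = 1 → Ψ (z • s) = z • Ψ s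
  neΨ : ∀ s, ‖s‖ = 1 → Ψ s ≠ 0
  z0 : Ec (hopf s0) (Ψ s0) = 0 ∧ Φ.D 0 (Ψ s0) + K (hopf s0) (Ψ s0) = 0
  zz : ∀ t h x, ‖t‖ = 1 → Ec t x = 0 → Φ.D h x + K t x = 0 →
    ∃ s, ‖s‖ = 1 ∧ hopf s = t ∧ ∃ k, h = zv k ∧ x = Φ.U k (Ψ s)
  const : ∃ δ > 0, ∀ t, ‖t‖ = 1 → ‖t - hopf s0‖ < δ → ∀ x,
    Ec t x = Ec (hopf s0) x ∧ K t x = K (hopf s0) x
  der : ∃ L : ((Fin b → ℝ) × X) →L[ℝ] YR × Y,
    HasFDerivAt (fun w : (Fin b → ℝ) × X =>
      (Ec (hopf s0) w.2, Φ.D w.1 w.2 + K (hopf s0) w.2)) L ((0 : Fin b → ℝ), Ψ s0) ∧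
    (∀ w, L w = 0 → ∃ a : ℝ, w = (0, ((a : ℂ) * Complex.I) • Ψ s0)) ∧ ∀ z, ∃ w, L w = z

theorem below_of_bij {E F : Type*} [NormedAddCommGroup E] [NormedSpace ℝ E] [CompleteSpace E]
    [NormedAddCommGroup F] [NormedSpace ℝ F] [CompleteSpace F] (L : E →L[ℝ] F)
    (hL : Function.Bijective L) : ∃ c > 0, ∀ w, c * ‖w‖ ≤ ‖L w‖ := by
  let e : E ≃L[ℝ] F := ContinuousLinearEquiv.ofBijective L
    (LinearMap.ker_eq_bot.2 hL.1) (LinearMap.range_eq_top.2 hL.2)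
  have he : ∀ w, e w = L w := fun w => rfl
  refine ⟨(‖(e.symm : F →L[ℝ] E)‖ + 1)⁻¹, by positivity, fun w => ?_⟩
  have h1 : w = e.symm (L w) := by rw [← he, e.symm_apply_apply]
  have h2 : ‖w‖ ≤ ‖(e.symm : F →L[ℝ] E)‖ * ‖L w‖ := by
    conv_lhs => rw [h1]
    exact (e.symm : F →L[ℝ] E).le_opNorm (L w)
  rw [inv_mul_le_iff₀ (by positivity)]
  nlinarith [norm_nonneg (L w)]

/-- the solution at the base point, as data of the core. -/
theorem SWd.exists_pt [FiniteDimensional ℝ YR] {K : E3 → X → Y} {Ec : E3 → X → YR} {Ψ : C2 → X}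
    (hS : SWd Φ K Ec)
    (hZ : HopfZ Φ K Ec Ψ) (Lm : E3 → YR) (hLm : ContinuousOn Lm {t | ‖t‖ ≤ 1})
    (hseg : ∀ t, ‖t‖ = 1 → ∀ s ∈ Icc (0 : ℝ) 1, (1 - s) • Ec t 0 + s • Lm t ≠ 0) :
    ∃ Γ : Core Φ E3 YR C2, Γ.K = K ∧ Γ.v = s0 ∧ (∀ t h, Γ.Ec t h 0 = Lm t) ∧
      (∀ t h x, ‖t‖ = 1 → Γ.Ec t h x = 0 → Ec t x = 0) ∧
      ∃ r0, Γ.Pt (hopf s0) (Ψ s0) r0 := by
  obtain ⟨g0, hgc, hge, hg1, hg2, δg, hδg, hg3⟩ := exists_g Ψ hZ.cΨ hZ.eqΨ hZ.neΨ
  have hx0 : Ψ s0 ≠ 0 := hZ.neΨ s0 norm_s0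
  have hs0 : (s0 : C2) ≠ 0 := by
    intro h
    have := norm_s0
    rw [h, norm_zero] at this
    norm_num at this
  obtain ⟨Γ, hK, hg, hv, hEc0, hEc1, hEc2, hin⟩ := hS.exists_core Lm hLm hseg (gf Φ g0)
    (gf_cont hgc).continuousOn (gf_smul hge) (gf_U g0) s0 hs0 (Ψ s0)
  have hEc2 := hEc2 hx0
  refine ⟨Γ, hK, hv, hEc0, hEc1, 2 * ‖Ψ s0‖ ^ 2, ?_⟩
  have hr0 : 0 < 2 * ‖Ψ s0‖ ^ 2 := by
    have := norm_pos_iff.2 hx0
    positivity
  obtain ⟨δ, hδ, hconst⟩ := hZ.const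
  obtain ⟨L, hL, hk, hs⟩ := hZ.der
  set x0 := Ψ s0 with hx0def
  have hpos : 0 < 1 + 2 * ‖x0‖ ^ 2 := by linarith
  set p : E3 × ((Fin b → ℝ) × X) := ((1 + 2 * ‖x0‖ ^ 2) • hopf s0, ((0 : Fin b → ℝ), x0))
    with hp
  have hn0 : ‖hopf s0‖ = 1 := norm_hopf_s0
  -- near `p` the direction is near the base point
  have hbar : ∀ᶠ q : E3 × ((Fin b → ℝ) × X) in 𝓝 p, ‖‖q.1‖⁻¹ • q.1‖ = 1 ∧
      ‖‖q.1‖⁻¹ • q.1 - hopf s0‖ < min δ δg := by
    have hpne : p.1 ≠ 0 := by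
      show (1 + 2 * ‖x0‖ ^ 2) • hopf s0 ≠ 0
      intro h
      have := congrArg norm h
      rw [norm_smul, hn0, norm_zero, Real.norm_eq_abs, abs_of_pos hpos, mul_one] at this
      linarith
    have h1 : ∀ᶠ q : E3 × ((Fin b → ℝ) × X) in 𝓝 p, q.1 ≠ 0 :=
      continuous_fst.continuousAt.eventually_ne hpne
    have h2 : ContinuousAt (fun q : E3 × ((Fin b → ℝ) × X) => ‖‖q.1‖⁻¹ • q.1 - hopf s0‖) p := by
      refine ContinuousAt.norm (ContinuousAt.sub (ContinuousAt.smul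
        (ContinuousAt.inv₀ continuous_fst.norm.continuousAt (norm_ne_zero_iff.2 hpne))
        continuous_fst.continuousAt) continuousAt_const)
    have h3 : ‖‖p.1‖⁻¹ • p.1 - hopf s0‖ = 0 := by
      have : ‖p.1‖⁻¹ • p.1 = hopf s0 := Core.norm_inv_smul hn0 hpos
      rw [this, sub_self, norm_zero]
    have h4 : ∀ᶠ q : E3 × ((Fin b → ℝ) × X) in 𝓝 p,
        ‖‖q.1‖⁻¹ • q.1 - hopf s0‖ < min δ δg := by
      refine h2.eventually_lt_const ?_
      show ‖‖p.1‖⁻¹ • p.1 - hopf s0‖ < min δ δg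
      rw [h3]; exact lt_min hδ hδg
    filter_upwards [h1, h4] with q a1 a2
    refine ⟨?_, a2⟩
    rw [norm_smul, norm_inv, norm_norm, inv_mul_cancel₀ (norm_ne_zero_iff.2 a1)]
  -- the derivative of the equations
  set Fc : E3 × ((Fin b → ℝ) × X) → YR × Y := fun q =>
    (Γ.Ec (‖q.1‖⁻¹ • q.1) q.2.1 q.2.2, Φ.D q.2.1 q.2.2 + Γ.K (‖q.1‖⁻¹ • q.1) q.2.2) with hFc
  have hFcd : HasFDerivAt Fc (L.comp (ContinuousLinearMap.snd ℝ E3 ((Fin b → ℝ) × X))) p := by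
    have h1 : HasFDerivAt (fun q : E3 × ((Fin b → ℝ) × X) =>
        (Ec (hopf s0) q.2.2, Φ.D q.2.1 q.2.2 + K (hopf s0) q.2.2))
        (L.comp (ContinuousLinearMap.snd ℝ E3 ((Fin b → ℝ) × X))) p :=
      HasFDerivAt.comp (g := fun w : (Fin b → ℝ) × X =>
        (Ec (hopf s0) w.2, Φ.D w.1 w.2 + K (hopf s0) w.2)) p hL hasFDerivAt_snd
    refine h1.congr_of_eventuallyEq ?_
    have h2 : ∀ᶠ q : E3 × ((Fin b → ℝ) × X) in 𝓝 p, ∀ t, Γ.Ec t q.2.1 q.2.2 = Ec t q.2.2 :=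
      (continuous_snd.tendsto p).eventually hEc2
    filter_upwards [hbar, h2] with q hq1 hq2
    have h3 := hconst _ hq1.1 (hq1.2.trans_le (min_le_left _ _)) q.2.2
    show (Γ.Ec (‖q.1‖⁻¹ • q.1) q.2.1 q.2.2, Φ.D q.2.1 q.2.2 + Γ.K (‖q.1‖⁻¹ • q.1) q.2.2) = _
    rw [hq2, hK, h3.1, h3.2]
  have hrad : (L.comp (ContinuousLinearMap.snd ℝ E3 ((Fin b → ℝ) × X))) (hopf s0, 0) = 0 := by
    show L 0 = 0
    exact map_zero L
  have hker : (L.comp (ContinuousLinearMap.snd ℝ E3 ((Fin b → ℝ) × X)))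
      (0, ((0 : Fin b → ℝ), Complex.I • x0)) = 0 := by
    show L ((0 : Fin b → ℝ), Complex.I • x0) = 0
    -- the orbit
    have hc : HasDerivAt (fun a : ℝ => Complex.exp ((a : ℂ) * Complex.I) • x0)
        ((Complex.exp ((0 : ℝ) * Complex.I) * Complex.I) • x0) 0 := by
      have h1 : HasDerivAt (fun a : ℝ => (a : ℂ) * Complex.I) Complex.I 0 := by
        simpa using (Complex.ofRealCLM.hasDerivAt (x := (0 : ℝ))).mul_const Complex.I
      have h2 := h1.cexp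
      exact h2.smul_const x0
    have hc' : HasDerivAt (fun a : ℝ => (((0 : Fin b → ℝ), Complex.exp ((a : ℂ) * Complex.I) • x0) :
        (Fin b → ℝ) × X)) ((0 : Fin b → ℝ), Complex.I • x0) 0 := by
      have h3 := (hasDerivAt_const (0 : ℝ) (0 : Fin b → ℝ)).prodMk hc
      simpa using h3
    have h4 : (fun a : ℝ => (((0 : Fin b → ℝ), Complex.exp ((a : ℂ) * Complex.I) • x0) :
        (Fin b → ℝ) × X)) 0 = ((0 : Fin b → ℝ), x0) := by simp
    rw [← h4] at hL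
    have h5 := hL.comp_hasDerivAt (0 : ℝ) hc'
    have h6 : ((fun w : (Fin b → ℝ) × X =>
        (Ec (hopf s0) w.2, Φ.D w.1 w.2 + K (hopf s0) w.2)) ∘
        fun a : ℝ => (((0 : Fin b → ℝ), Complex.exp ((a : ℂ) * Complex.I) • x0) :
        (Fin b → ℝ) × X)) = fun _ => 0 := by
      funext a
      have hz : ‖Complex.exp ((a : ℂ) * Complex.I)‖ = 1 := Complex.norm_exp_ofReal_mul_I a
      show (Ec (hopf s0) (Complex.exp ((a : ℂ) * Complex.I) • x0),
        Φ.D 0 (Complex.exp ((a : ℂ) * Complex.I) • x0) +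
          K (hopf s0) (Complex.exp ((a : ℂ) * Complex.I) • x0)) = 0
      rw [hS.Ec_eq _ _ _ hz, hS.K_eq _ _ _ hz, map_smul, ← smul_add, hZ.z0.1, hZ.z0.2, smul_zero]
      rfl
    rw [h6] at h5
    exact (h5.unique (hasDerivAt_const _ _))
  -- the functional near `p`
  set Gf : E3 × ((Fin b → ℝ) × X) → C2 := fun q => Γ.g (‖q.1‖⁻¹ • q.1) q.2.1 q.2.2 with hGfdef
  have hGf : ∀ᶠ q in 𝓝 p, Gf q = inner ℂ x0 q.2.2 • sig (‖q.1‖⁻¹ • q.1) := by
    have hh : Continuous (fun q : E3 × ((Fin b → ℝ) × X) => q.2.1) :=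
      continuous_fst.comp continuous_snd
    filter_upwards [hbar, (hh.tendsto p).eventually kap_near] with q hq1 hq2
    show Γ.g (‖q.1‖⁻¹ • q.1) q.2.1 q.2.2 = _
    rw [hg]
    show ((kap q.2.1 : ℝ) : ℂ) • g0 (‖q.1‖⁻¹ • q.1) (Φ.U (kb 0 q.2.1) q.2.2) = _
    rw [hq2.1, hq2.2, Φ.U_zero, Complex.ofReal_one, one_smul]
    exact hg3 _ hq1.1 (hq1.2.trans_le (min_le_right _ _)) _
  obtain ⟨L', hL', hbij, hGp⟩ := nondeg x0 hx0 (0 : Fin b → ℝ) (2 * ‖x0‖ ^ 2) rfl Fc _ hFcd hrad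
    hker (fun w hw => hk w hw) (fun z => hs z) Gf hGf
  have hbar0 : ‖p.1‖⁻¹ • p.1 = hopf s0 := Core.norm_inv_smul hn0 hpos
  refine {
    t0_norm := hn0
    r0_pos := hr0
    zero1 := ?_
    zero2 := ?_
    g0 := ?_
    inside := hin _ _ _ hn0.le hZ.z0.1 hZ.z0.2
    uniq := ?_
    der := ⟨L', ?_, below_of_bij L' hbij⟩ }
  · have := hEc2.self_of_nhds (hopf s0)
    rw [this]
    exact hZ.z0.1
  · rw [hK]
    exact hZ.z0.2
  · have h1 : Gf p = Γ.g (hopf s0) 0 x0 := by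
      show Γ.g (‖p.1‖⁻¹ • p.1) 0 x0 = _
      rw [hbar0]
    rw [← h1, hv]
    exact hGp
  · intro t h x s ht hs' hN h1 h2 h3
    obtain ⟨s', hs1, hs2, k, hk1, hk2⟩ := hZ.zz t h x ht (hEc1 t h x ht h1) (by rwa [hK] at h2)
    rw [hg, hv, hk1, hk2] at h3
    have h4 : gf Φ g0 t (zv k) (Φ.U k (Ψ s')) = g0 t (Ψ s') := by
      have := gf_U g0 t 0 k (Ψ s') (Φ := Φ)
      rw [zero_add] at this
      rw [this, gf_zero]
    rw [h4, ← hs2] at h3
    have h5 := hg2 s' hs1 s hs' h3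
    subst h5
    exact ⟨hs2.symm, k, hk1, hk2⟩
  · have h1 : Γ.FF = fun q => (Fc q, Gf q - ((‖q.1‖ - 1 : ℝ) : ℂ) • s0) := by
      funext q
      simp only [Core.FF, hv, hFc, hGfdef]
    rw [h1]
    exact hL'

/-- **the solutions over the boundary**, abstract (continuous) Hopf map `pi`. -/
structure HopfP (Φ : PFam b X Y) (K : E3 → X → Y) (Ec : E3 → X → YR) (pi : C2 → E3)
    (Ψ : C2 → X) : Prop where
  cpi : ContinuousOn pi (Metric.sphere 0 1)
  npi : ∀ s, ‖s‖ = 1 → ‖pi s‖ = 1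
  piz : ∀ z : ℂ, ‖z‖ = 1 → ∀ s, ‖s‖ = 1 → pi (z • s) = pi s
  fib : ∀ s s', ‖s‖ = 1 → ‖s'‖ = 1 → pi s = pi s' → ∃ z : ℂ, ‖z‖ = 1 ∧ s' = z • s
  cΨ : ContinuousOn Ψ (Metric.sphere 0 1)
  eqΨ : ∀ z : ℂ, ‖z‖ = 1 → ∀ s, ‖s‖ = 1 → Ψ (z • s) = z • Ψ s
  neΨ : ∀ s, ‖s‖ = 1 → Ψ s ≠ 0
  z0 : Ec (pi s0) (Ψ s0) = 0 ∧ Φ.D 0 (Ψ s0) + K (pi s0) (Ψ s0) = 0
  zz : ∀ t h x, ‖t‖ = 1 → Ec t x = 0 → Φ.D h x + K t x = 0 →
    ∃ s, ‖s‖ = 1 ∧ pi s = t ∧ ∃ k, h = zv k ∧ x = Φ.U k (Ψ s)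
  der : ∃ L : ((Fin b → ℝ) × X) →L[ℝ] YR × Y,
    HasFDerivAt (fun w : (Fin b → ℝ) × X =>
      (Ec (pi s0) w.2, Φ.D w.1 w.2 + K (pi s0) w.2)) L ((0 : Fin b → ℝ), Ψ s0) ∧
    (∀ w, L w = 0 → ∃ a : ℝ, w = (0, ((a : ℂ) * Complex.I) • Ψ s0)) ∧ ∀ z, ∃ w, L w = z

open FamE_151 in
/-- the frozen family. -/
theorem HopfP.toZ {K : E3 → X → Y} {Ec : E3 → X → YR} {pi : C2 → E3} {Ψ : C2 → X}
    (hP : HopfP Φ K Ec pi Ψ) {δ : ℝ} (hδ : 0 < δ) (hδ1 : δ < 1) {th : E3 → E3}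
    (h1 : ∀ t, ‖t‖ = 1 → ‖th t‖ = 1) (h2 : ∀ s, ‖s‖ = 1 → th (hopf s) = pi (ph δ s))
    (h3 : ∃ η > 0, ∀ t, ‖t‖ = 1 → ‖t - hopf s0‖ < η → th t = pi s0) :
    HopfZ Φ (fun t => K (th t)) (fun t => Ec (th t)) (fun s => Ψ (ph δ s)) := by
  have hph0 : ∃ z : ℂ, ‖z‖ = 1 ∧ ph δ s0 = z • s0 :=
    ph_near hδ hδ1 norm_s0 (by rw [s0_1, norm_zero]; simpa using hδ.le)
  have hphs : ph δ s0 = s0 := by
    have hn : nn δ s0 = s0 := by
      refine Hopf_143.ext2 rfl ?_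
      show (mu δ s0 : ℂ) * s0 1 = s0 1
      rw [s0_1, mul_zero]
    unfold ph
    rw [hn, norm_s0]; simp
  have hth0 : th (hopf s0) = pi s0 := by rw [h2 s0 norm_s0, hphs]
  refine {
    cΨ := hP.cΨ.comp (continuousOn_ph hδ hδ1) (fun s hs => ?_)
    eqΨ := fun z hz s hs => ?_
    neΨ := fun s hs => hP.neΨ _ (norm_ph hδ hδ1 hs)
    z0 := ?_
    zz := ?_
    const := ?_
    der := ?_ }
  · rw [mem_sphere_zero_iff_norm] at hs ⊢
    exact norm_ph hδ hδ1 hs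
  · show Ψ (ph δ (z • s)) = z • Ψ (ph δ s)
    rw [ph_smul hz, hP.eqΨ z hz _ (norm_ph hδ hδ1 hs)]
  · show Ec (th (hopf s0)) (Ψ (ph δ s0)) = 0 ∧
      Φ.D 0 (Ψ (ph δ s0)) + K (th (hopf s0)) (Ψ (ph δ s0)) = 0
    rw [hth0, hphs]
    exact hP.z0
  · intro t h x ht e1 e2
    obtain ⟨s, hs, hs2, k, hk1, hk2⟩ := hP.zz (th t) h x (h1 t ht) e1 e2
    obtain ⟨s1, hs1, hs3⟩ := hopf_surj ht
    have e3 : pi (ph δ s1) = pi s := by rw [← h2 s1 hs1, hs3, hs2]
    obtain ⟨z, hz, hz2⟩ := hP.fib _ _ (norm_ph hδ hδ1 hs1) hs e3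
    refine ⟨z • s1, by rw [norm_smul, hz, hs1, one_mul], ?_, k, hk1, ?_⟩
    · rw [hopf_smul, hz, one_pow, one_smul, hs3]
    · show x = Φ.U k (Ψ (ph δ (z • s1)))
      rw [ph_smul hz, ← hz2, hk2]
  · obtain ⟨η, hη, h4⟩ := h3
    refine ⟨η, hη, fun t ht hd x => ?_⟩
    show Ec (th t) x = Ec (th (hopf s0)) x ∧ K (th t) x = K (th (hopf s0)) x
    rw [h4 t ht hd, hth0]
    exact ⟨rfl, rfl⟩
  · show ∃ L : ((Fin b → ℝ) × X) →L[ℝ] YR × Y,
      HasFDerivAt (fun w : (Fin b → ℝ) × X =>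
        (Ec (th (hopf s0)) w.2, Φ.D w.1 w.2 + K (th (hopf s0)) w.2)) L
        ((0 : Fin b → ℝ), Ψ (ph δ s0)) ∧
      (∀ w, L w = 0 → ∃ a : ℝ, w = (0, ((a : ℂ) * Complex.I) • Ψ (ph δ s0))) ∧
      ∀ z, ∃ w, L w = z
    rw [hth0, hphs]
    exact hP.der


end hopf

end sw

end Crest.Agent.R235.FamR_151
end

-- ▼ part R235/FamU_151

/-!
Row 235 (S0364), helper151. Block FAM: the output for index `0`, `b₊ = 3`: `FW`, `NZ`, `OneRayW`
of `FamW_307`.
-/

set_option autoImplicit false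
set_option linter.unusedSectionVars false

open Set Filter Topology Module
open scoped ContDiff

namespace Crest.Agent.R235.FamR_151

section sw

open FamDefs_307 FamW_307 Hopf_143

variable {b : ℕ} {X Y : Type*} [NormedAddCommGroup X] [InnerProductSpace ℂ X]
  [CompleteSpace X] [NormedAddCommGroup Y] [InnerProductSpace ℂ Y] [CompleteSpace Y]
  {Φ : PFam b X Y} {T YR G : Type} [NormedAddCommGroup T] [NormedSpace ℝ T]
  [FiniteDimensional ℝ T] [NormedAddCommGroup YR] [NormedSpace ℝ YR] [FiniteDimensional ℝ YR]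
  [NormedAddCommGroup G] [NormedSpace ℂ G] [FiniteDimensional ℂ G]

/-- the reduced system for index `0`. -/
theorem Core.fw (Γ : Core Φ T YR G) (L : T ≃L[ℝ] YR)
    (hL : ∀ t h, ‖t‖ ≤ 1 → Γ.Ec t h 0 = L t)
    (hind : finrank ℂ (LinearMap.ker (Φ.D 0 : X →ₗ[ℂ] Y)) =
      finrank ℂ ((LinearMap.range (Φ.D 0 : X →ₗ[ℂ] Y))ᗮ : Submodule ℂ Y))
    (W : Submodule ℂ Y) [FiniteDimensional ℂ W] (hs : ∀ h, Function.Surjective (Φ.A W h))
    {n : ℕ} (fr : Φ.Fr W n) {ε : ℝ} (hW : Γ.Appr W ε)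
    (hε : ∀ t h x, ‖t‖ ≤ 1 → h ∈ QQ b → Γ.N h x = Γ.R1 → Γ.Ec t h x = 0 →
      ε ≤ ‖Φ.D h x + Γ.K t x‖) :
    ∃ R : ℝ, FW b (finrank ℂ W) fr.P L (Γ.fR W fr) (fun q => Core.rep W (Γ.fW W fr q)) R := by
  obtain ⟨R, hR⟩ := Γ.rsys W fr hW hε
  obtain ⟨R', hR'⟩ := Γ.big W fr hW hε
  have hnc := Φ.kn_finrank W hs 0
  have hm : finrank ℂ (kn (Φ.A W 0)) = finrank ℂ W := by omega
  refine ⟨R', {
    proj := by rw [← hm]; exact hR.proj
    wdim := finrank_euclideanSpace_fin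
    cR := hR.cR
    cW := (Core.rep W).continuous.comp (Γ.fW_cont W fr)
    eqR := hR.eqR
    eqW := fun t h ψ z hz => congrArg Prod.fst (Γ.fC_smul W fr t h ψ hz)
    pR := hR.pR
    pW := fun t h ψ k => congrArg Prod.fst (Γ.fC_per W fr t h k ψ)
    fix := fun t h ht => by
      show Γ.Ec (cl t) h (((Γ.rr h (Core.xx W fr h 0) : ℝ) : ℂ) • Core.xx W fr h 0) = _
      have e4 : Core.xx W fr h 0 = 0 := by
        rw [Core.xx, map_zero]; rfl
      rw [e4, smul_zero, cl_of_le ht, hL t h ht]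
    big := fun t h ψ ht hP hRψ hfR h0 =>
      hR' t h ψ ht hP hRψ hfR ((map_eq_zero_iff (Core.rep W) (Core.rep W).injective).1 h0) }⟩

/-- **no solutions over the boundary.** -/
theorem fw_nz {K : T → X → Y} {Ec : T → X → YR} (hS : SWd Φ K Ec) (L : T ≃L[ℝ] YR)
    (hseg : ∀ t, ‖t‖ = 1 → ∀ s ∈ Icc (0 : ℝ) 1, (1 - s) • Ec t 0 + s • L t ≠ 0)
    (hind : finrank ℂ (LinearMap.ker (Φ.D 0 : X →ₗ[ℂ] Y)) =
      finrank ℂ ((LinearMap.range (Φ.D 0 : X →ₗ[ℂ] Y))ᗮ : Submodule ℂ Y))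
    (hno : ∀ t h x, ‖t‖ = 1 → Ec t x = 0 → Φ.D h x + K t x ≠ 0) :
    ∃ (W : Submodule ℂ Y) (_ : FiniteDimensional ℂ W), (∀ h, Function.Surjective (Φ.A W h)) ∧
      ∃ (n : ℕ) (fr : Φ.Fr W n) (fR : T × (Fin b → ℝ) × EuclideanSpace ℂ (Fin n) → YR)
        (fW : T × (Fin b → ℝ) × EuclideanSpace ℂ (Fin n) →
          EuclideanSpace ℂ (Fin (finrank ℂ W))) (R : ℝ),
        FW b (finrank ℂ W) fr.P L fR fW R ∧ NZ fr.P fR fW univ := by
  obtain ⟨Γ, hK, hg, hv, hE0, hE1, -, hin⟩ := hS.exists_core (G := ℂ) (fun t => L t)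
    L.continuous.continuousOn hseg (fun _ _ _ => 0) continuousOn_const
    (fun t h x z hz => by simp) (fun t h k x => rfl) 1 one_ne_zero 0
  obtain ⟨ε1, hε1, hnz⟩ := Γ.nz (s := univ) isClosed_univ (fun _ _ _ => mem_univ _)
    (fun t h x ht _ h1 => by
      rw [hK]
      exact hno t h x ht (hE1 t h x ht h1))
  obtain ⟨ε2, hε2, hgood⟩ := Γ.good
  obtain ⟨W, hWf, hWs, -, hWA⟩ := Γ.exists_W (min ε1 ε2) (lt_min hε1 hε2) 0
  obtain ⟨n, ⟨fr⟩⟩ := Φ.exists_Fr W hWs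
  obtain ⟨R, hR⟩ := Γ.fw L (fun t h _ => hE0 t h) hind W hWs fr (hWA.mono (min_le_right _ _)) hgood
  refine ⟨W, hWf, hWs, n, fr, _, _, R, hR, fun t h ψ ht _ hψ h1 h2 => ?_⟩
  exact hnz W (hWA.mono (min_le_left _ _)) fr t h ψ ht (mem_univ _) h1
    ((map_eq_zero_iff (Core.rep W) (Core.rep W).injective).1 h2)

/-- points with a half-integral coordinate. -/
def Half (b : ℕ) : Set (Fin b → ℝ) := {h | ∃ k, Real.cos (2 * Real.pi * h k) = -1}

theorem half_closed (b : ℕ) : IsClosed (Half b) := by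
  have : Half b = ⋃ k : Fin b, {h : Fin b → ℝ | Real.cos (2 * Real.pi * h k) = -1} := by
    ext h; simp [Half]
  rw [this]
  refine isClosed_iUnion_of_finite fun k => ?_
  exact isClosed_eq (by fun_prop) continuous_const

theorem half_per {b : ℕ} (h : Fin b → ℝ) (k : Fin b → ℤ) (hh : h + zv k ∈ Half b) :
    h ∈ Half b := by
  obtain ⟨j, hj⟩ := hh
  refine ⟨j, ?_⟩
  have : 2 * Real.pi * (h + zv k) j = 2 * Real.pi * h j + (k j : ℝ) * (2 * Real.pi) := by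
    simp [zv]; ring
  rwa [this, Real.cos_add_int_mul_two_pi] at hj

theorem zv_not_half {b : ℕ} (k : Fin b → ℤ) : zv k ∉ Half b := by
  rintro ⟨j, hj⟩
  have h1 : 2 * Real.pi * zv k j = (k j : ℝ) * (2 * Real.pi) := by simp [zv]; ring
  rw [h1] at hj
  have h2 : Real.cos ((k j : ℝ) * (2 * Real.pi)) = 1 := Real.cos_int_mul_two_pi _
  rw [h2] at hj
  norm_num at hj

theorem slice_half {i j : Fin 4} {h : Fin 4 → ℝ}
    (hh : ∀ k, k ≠ i → k ≠ j → h k = 1 / 2) : h ∈ Half 4 := by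
  have hex : ∀ i j : Fin 4, ∃ k : Fin 4, k ≠ i ∧ k ≠ j := by decide
  obtain ⟨k, hk⟩ := hex i j
  refine ⟨k, ?_⟩
  rw [hh k hk.1 hk.2]
  have : 2 * Real.pi * (1 / 2) = Real.pi := by ring
  rw [this, Real.cos_pi]

theorem s0_eq : s0 = EuclideanSpace.single (0 : Fin 2) (1 : ℂ) := by
  refine Hopf_143.ext2 ?_ ?_
  · simp
  · simp

/-- the value `C²` functional gives `OneRayW`. -/
theorem oneRayW_of {Γ : Core Φ E3 YR C2} (hv : Γ.v = s0)
    (W : Submodule ℂ Y) [FiniteDimensional ℂ W] {n : ℕ} (fr : Φ.Fr W n)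
    (h : OneRay fr.P (Γ.fR W fr) (Γ.fC W fr)
      ((0, Γ.v) : EuclideanSpace ℂ (Fin (finrank ℂ W)) × C2)) :
    OneRayW fr.P (Γ.fR W fr) (fun q => Core.rep W (Γ.fW W fr q)) := by
  refine ⟨fun q => (Γ.fC W fr q).2, continuous_snd.comp (Γ.fC_cont W fr), ?_, ?_, ?_⟩
  · intro t h ψ z hz
    exact congrArg Prod.snd (Γ.fC_smul W fr t h ψ hz)
  · intro t h ψ k
    exact congrArg Prod.snd (Γ.fC_per W fr t h k ψ)
  · rw [hv, s0_eq] at h
    exact h

/-- the lower bound of a segment. -/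
theorem seg_bound {Ec : E3 → X → YR} (hc : ContinuousOn (fun q : E3 × X => Ec q.1 q.2)
    {q | ‖q.1‖ ≤ 1}) (Lm : E3 → YR) (hLm : ContinuousOn Lm {t | ‖t‖ ≤ 1})
    (hseg : ∀ t, ‖t‖ = 1 → ∀ s ∈ Icc (0 : ℝ) 1, (1 - s) • Ec t 0 + s • Lm t ≠ 0) :
    ∃ m0 > 0, ∀ t, ‖t‖ = 1 → ∀ s ∈ Icc (0 : ℝ) 1, m0 ≤ ‖(1 - s) • Ec t 0 + s • Lm t‖ := by
  have hcpt : IsCompact (Metric.sphere (0 : E3) 1 ×ˢ Icc (0 : ℝ) 1) :=
    (isCompact_sphere _ _).prod isCompact_Icc
  have hcont : ContinuousOn (fun q : E3 × ℝ => ‖(1 - q.2) • Ec q.1 0 + q.2 • Lm q.1‖)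
      (Metric.sphere (0 : E3) 1 ×ˢ Icc (0 : ℝ) 1) := by
    have e1 : ContinuousOn (fun q : E3 × ℝ => Ec q.1 0)
        (Metric.sphere (0 : E3) 1 ×ˢ Icc (0 : ℝ) 1) :=
      hc.comp (f := fun q : E3 × ℝ => (q.1, (0 : X)))
        (continuous_fst.prodMk continuous_const).continuousOn
        (fun q hq => (mem_sphere_zero_iff_norm.1 hq.1).le)
    have e2 : ContinuousOn (fun q : E3 × ℝ => Lm q.1)
        (Metric.sphere (0 : E3) 1 ×ˢ Icc (0 : ℝ) 1) :=
      hLm.comp continuous_fst.continuousOn (fun q hq => (mem_sphere_zero_iff_norm.1 hq.1).le)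
    exact (((continuous_const.sub continuous_snd).continuousOn.smul e1).add
      (continuous_snd.continuousOn.smul e2)).norm
  have hE : (Metric.sphere (0 : E3) 1 ×ˢ Icc (0 : ℝ) 1).Nonempty :=
    ⟨(hopf s0, 0), mem_sphere_zero_iff_norm.2 norm_hopf_s0, ⟨le_rfl, zero_le_one⟩⟩
  obtain ⟨q, hq, hmin⟩ := hcpt.exists_isMinOn hE hcont
  exact ⟨_, norm_pos_iff.2 (hseg q.1 (mem_sphere_zero_iff_norm.1 hq.1) q.2 hq.2),
    fun t ht s hs => hmin (⟨mem_sphere_zero_iff_norm.2 ht, hs⟩ :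
      (t, s) ∈ Metric.sphere (0 : E3) 1 ×ˢ Icc (0 : ℝ) 1)⟩

open FamE_151 in
/-- **the Hopf family over the boundary**, index `0`. -/
theorem fw_hopf {K : E3 → X → Y} {Ec : E3 → X → YR} {Ψ : C2 → X} (hS : SWd Φ K Ec)
    (A : E3 ≃ₗᵢ[ℝ] E3) (hP : HopfP Φ K Ec (fun s => A (hopf s)) Ψ) (L0 : E3 ≃L[ℝ] YR)
    (hseg : ∀ t, ‖t‖ = 1 → ∀ s ∈ Icc (0 : ℝ) 1, (1 - s) • Ec t 0 + s • L0 t ≠ 0)
    (hind : finrank ℂ (LinearMap.ker (Φ.D 0 : X →ₗ[ℂ] Y)) =
      finrank ℂ ((LinearMap.range (Φ.D 0 : X →ₗ[ℂ] Y))ᗮ : Submodule ℂ Y)) :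
    ∃ (W : Submodule ℂ Y) (_ : FiniteDimensional ℂ W), (∀ h, Function.Surjective (Φ.A W h)) ∧
      ∃ (n : ℕ) (fr : Φ.Fr W n) (fR : E3 × (Fin b → ℝ) × EuclideanSpace ℂ (Fin n) → YR)
        (fW : E3 × (Fin b → ℝ) × EuclideanSpace ℂ (Fin n) →
          EuclideanSpace ℂ (Fin (finrank ℂ W))) (R : ℝ),
        FW b (finrank ℂ W) fr.P (A.toContinuousLinearEquiv.trans L0) fR fW R ∧
        OneRayW fr.P fR fW ∧ NZ fr.P fR fW (Half b) := by
  obtain ⟨m0, hm0, hm⟩ := seg_bound hS.Ec_cont (fun t => L0 t) L0.continuous.continuousOn hseg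
  set η : ℝ := m0 / (2 * (‖(L0 : E3 →L[ℝ] YR)‖ + 1)) with hηdef
  have hη : 0 < η := by positivity
  obtain ⟨δ, hδ, hδ1, hclose⟩ := ph_close hη
  obtain ⟨th, thc, th1, th2, th3, th4, th5⟩ := exists_theta hP.cpi hP.npi hP.piz hδ hδ1
  have hS' := hS.comp thc th1
  have hZ := hP.toZ hδ hδ1 th2 th3 th5
  have hthA : ∀ t, ‖t‖ = 1 → ‖A t - th t‖ ≤ η := by
    intro t ht
    obtain ⟨s, hs, rfl⟩ := hopf_surj ht
    rw [th3 s hs, ← map_sub, A.norm_map, norm_sub_rev]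
    exact hclose s hs
  obtain ⟨Γ, hK, hv, hE0, hE1, r0, hpt⟩ := hS'.exists_pt hZ (fun t => L0 (A t))
    (L0.continuous.comp A.continuous).continuousOn (by
      intro t ht s hs h0
      have e1 := hm (th t) (th2 t ht) s hs
      have e2 : (1 - s) • Ec (th t) 0 + s • L0 (th t) = -(s • L0 (A t - th t)) := by
        have e3 : (1 - s) • Ec (th t) 0 + s • L0 (th t) + s • L0 (A t - th t) = 0 := by
          rw [map_sub, smul_sub, ← h0]
          abel
        exact eq_neg_of_add_eq_zero_left e3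
      rw [e2, norm_neg, norm_smul, Real.norm_eq_abs, abs_of_nonneg hs.1] at e1
      have e4 : ‖L0 (A t - th t)‖ ≤ ‖(L0 : E3 →L[ℝ] YR)‖ * η :=
        ((L0 : E3 →L[ℝ] YR).le_opNorm _).trans
          (mul_le_mul_of_nonneg_left (hthA t ht) (norm_nonneg _))
      have e5 : ‖(L0 : E3 →L[ℝ] YR)‖ * η ≤ m0 / 2 := by
        have e6 : (‖(L0 : E3 →L[ℝ] YR)‖ + 1) * η = m0 / 2 := by
          rw [hηdef]; field_simp
        nlinarith
      have e7 : s * ‖L0 (A t - th t)‖ ≤ m0 / 2 := by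
        calc s * ‖L0 (A t - th t)‖ ≤ 1 * ‖L0 (A t - th t)‖ :=
              mul_le_mul_of_nonneg_right hs.2 (norm_nonneg _)
          _ ≤ m0 / 2 := by rw [one_mul]; exact e4.trans e5
      linarith)
  obtain ⟨ε1, hε1, hone⟩ := Γ.one_ray hpt
  obtain ⟨ε2, hε2, hgood⟩ := Γ.good
  obtain ⟨ε3, hε3, hnz⟩ := Γ.nz (half_closed b) half_per (fun t h x ht hh h1 h2 => by
    rw [hK] at h2
    obtain ⟨s, hs, -, k, hk, -⟩ := hZ.zz t h x ht (hE1 t h x ht h1) h2
    rw [hk] at hh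
    exact zv_not_half k hh)
  obtain ⟨W, hWf, hWs, hWK, hWA⟩ := Γ.exists_W (min ε1 (min ε2 ε3))
    (lt_min hε1 (lt_min hε2 hε3)) (Γ.K (hopf s0) (Ψ (FamE_151.ph δ s0)))
  obtain ⟨n, ⟨fr⟩⟩ := Φ.exists_Fr W hWs
  obtain ⟨R, hR⟩ := Γ.fw (A.toContinuousLinearEquiv.trans L0) (fun t h _ => hE0 t h) hind W hWs fr
    (hWA.mono ((min_le_right _ _).trans (min_le_left _ _))) hgood
  refine ⟨W, hWf, hWs, n, fr, _, _, R, hR,
    oneRayW_of hv W fr (hone W hWK (hWA.mono (min_le_left _ _)) fr), ?_⟩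
  intro t h ψ ht hh hψ h1 h2
  exact hnz W (hWA.mono ((min_le_right _ _).trans (min_le_right _ _))) fr t h ψ ht hh h1
    ((map_eq_zero_iff (Core.rep W) (Core.rep W).injective).1 h2)

end sw

end Crest.Agent.R235.FamR_151
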