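import Crest.Agent.R235.TorDefs_225
import Crest.Agent.R235.Pull_129
import Crest.Agent.R213.J0bGen
import Crest.Agent.R235.FibLin_129

-- ▼ part R235/FibTr_129
section

/-!
Row 235 (S0364), package TOR / A2 (helper129): transitions between product charts of a foliation
by tori.
-/

set_option autoImplicit false
set_option maxSynthPendingDepth 3
set_option linter.unusedSectionVars false

open Set Function Filter MeasureTheory
open scoped Manifold ContDiff Topology

universe u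

namespace Crest.Agent.R235.FibTr_129

open Crest.Agent.R240 Crest.Agent.R240.Ch Crest.Agent.R235.Pull_129

noncomputable section

/-! ### coordinates -/

@[simp] lemma lv_0 (s t : ℝ) : (lv s t) 0 = 0 := rfl
@[simp] lemma lv_1 (s t : ℝ) : (lv s t) 1 = 0 := rfl
@[simp] lemma lv_2 (s t : ℝ) : (lv s t) 2 = s := rfl
@[simp] lemma lv_3 (s t : ℝ) : (lv s t) 3 = t := rfl
@[simp] lemma bv_0 (s t : ℝ) : (bv s t) 0 = s := rfl
@[simp] lemma bv_1 (s t : ℝ) : (bv s t) 1 = t := rfl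
@[simp] lemma bv_2 (s t : ℝ) : (bv s t) 2 = 0 := rfl
@[simp] lemma bv_3 (s t : ℝ) : (bv s t) 3 = 0 := rfl

lemma ext4 {u v : E4} (h0 : u 0 = v 0) (h1 : u 1 = v 1) (h2 : u 2 = v 2) (h3 : u 3 = v 3) :
    u = v := by
  ext i; fin_cases i <;> assumption

lemma decomp (v : E4) : v = bv (v 0) (v 1) + lv (v 2) (v 3) := by
  apply ext4 <;> simp

lemma lv_add (s t s' t' : ℝ) : lv (s + s') (t + t') = lv s t + lv s' t' := by
  apply ext4 <;> simp

lemma lv_smul (r s t : ℝ) : lv (r * s) (r * t) = r • lv s t := by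
  apply ext4 <;> simp



lemma lv_zero : lv 0 0 = 0 := by apply ext4 <;> simp

lemma lv_eq (s t : ℝ) : lv s t = s • lv 1 0 + t • lv 0 1 := by
  apply ext4 <;> simp

lemma bv_eq (s t : ℝ) : bv s t = s • bv 1 0 + t • bv 0 1 := by
  apply ext4 <;> simp

lemma eq_add_lv {y z : E4} (h0 : z 0 = y 0) (h1 : z 1 = y 1) :
    z = y + lv (z 2 - y 2) (z 3 - y 3) := by
  apply ext4 <;> simp [h0, h1]

lemma eq_lv {z : E4} (h0 : z 0 = 0) (h1 : z 1 = 0) : z = lv (z 2) (z 3) := by
  apply ext4 <;> simp [h0, h1]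

/-! ### tubes -/

section Tube

variable {M : Type u} [TopologicalSpace M] [T2Space M] [CompactSpace M]
  [ChartedSpace E4 M] [IsManifold 𝓘(ℝ, E4) ∞ M]

variable {w : Trip M} {f : H2 M} {Φ Ψ : E4 → M}


lemma tube_inj (h : Tube w f Φ) (y : E4) : Injective (dL (E := E4) Φ y) := by
  intro u v huv
  have h0 : dmap Φ y (u - v) = 0 := by
    show dL (E := E4) Φ y (u - v) = 0
    rw [map_sub, huv, sub_self]
  exact sub_eq_zero.1 (h.imm y _ h0)

lemma tube_bij (h : Tube w f Φ) (y : E4) : Bijective (dL (E := E4) Φ y) :=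
  ⟨tube_inj h y, (LinearMap.injective_iff_surjective
    (f := ((dL (E := E4) Φ y : E4 →L[ℝ] E4) : E4 →ₗ[ℝ] E4))).1 (tube_inj h y)⟩

/-- local transition. -/
lemma exists_tr (hΦ : Tube w f Φ) (hΨ : Tube w f Ψ) {y z : E4} (h : Ψ z = Φ y) :
    ∃ g : E4 → E4, ContDiffAt ℝ ∞ g z ∧ g z = y ∧ ∀ᶠ z' in 𝓝 z, Φ (g z') = Ψ z' :=
  exists_transition (hΨ.smooth z) (hΦ.smooth y) (tube_bij hΦ y) h

lemma dL_tr (hΦ : Tube w f Φ) {y z : E4} {g : E4 → E4} (hg : ContDiffAt ℝ ∞ g z)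
    (hz : g z = y) (he : ∀ᶠ z' in 𝓝 z, Φ (g z') = Ψ z') (v : E4) :
    dL (E := E4) Φ y (fderiv ℝ g z v) = dL (E := E4) Ψ z v := by
  have h1 : dL (E := E4) (fun z' => Φ (g z')) z = dL (E := E4) Ψ z := dL_congr he
  rw [← h1, dL_comp (hΦ.smooth (g z)) (hg.differentiableAt infty_ne_zero), hz]
  rfl

variable {T : Set (E4 → M)}

/-- points of the same leaf have the same base coordinates. -/
lemma same_base (hT : TAtlas w f T) (hΦ : Φ ∈ T) (hΨ : Ψ ∈ T) {y y1 z : E4} {s t : ℝ}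
    (h : Ψ z = Φ y) (h1 : Ψ (z + lv s t) = Φ y1) : y1 0 = y 0 ∧ y1 1 = y 1 := by
  have hr := hT.cons Ψ hΨ Φ hΦ z y h
  have hm : Ψ (z + lv s t) ∈ range (slice Ψ z) := ⟨WithLp.toLp 2 ![s, t], rfl⟩
  rw [hr] at hm
  obtain ⟨q, hq⟩ := hm
  have hq' : Φ (y + lv (q 0) (q 1)) = Φ y1 := by rw [← h1, ← hq]; rfl
  obtain ⟨m, n, hmn⟩ := (hT.tube Φ hΦ).inj _ _ hq'
  rw [hmn]
  simp

/-- the base coordinates of the transition do not depend on the position on the leaf. -/
lemma tr_base (hT : TAtlas w f T) (hΦ : Φ ∈ T) (hΨ : Ψ ∈ T) {z : E4} {s t : ℝ} {g g1 : E4 → E4}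
    (hg : ∀ᶠ z' in 𝓝 z, Φ (g z') = Ψ z') (hg1 : ∀ᶠ z' in 𝓝 (z + lv s t), Φ (g1 z') = Ψ z') :
    ∀ᶠ z' in 𝓝 z, (g1 (z' + lv s t)) 0 = (g z') 0 ∧ (g1 (z' + lv s t)) 1 = (g z') 1 := by
  have hc : Tendsto (fun z' : E4 => z' + lv s t) (𝓝 z) (𝓝 (z + lv s t)) :=
    (continuous_id.add continuous_const).continuousAt
  filter_upwards [hg, hc.eventually hg1] with z' h1 h2
  exact same_base hT hΦ hΨ h1.symm h2.symm

lemma fderiv_coord {g : E4 → E4} {z : E4} (hg : DifferentiableAt ℝ g z) (i : Fin 4) (v : E4) :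
    fderiv ℝ (fun z' => (g z') i) z v = (fderiv ℝ g z v) i := by
  have h1 : HasFDerivAt (fun z' => (g z') i)
      ((EuclideanSpace.proj i : E4 →L[ℝ] ℝ).comp (fderiv ℝ g z)) z :=
    (EuclideanSpace.proj i : E4 →L[ℝ] ℝ).hasFDerivAt.comp z hg.hasFDerivAt
  rw [h1.fderiv]; rfl

lemma tr_dbase (hT : TAtlas w f T) (hΦ : Φ ∈ T) (hΨ : Ψ ∈ T) {z : E4} {s t : ℝ} {g g1 : E4 → E4}
    (hg : ∀ᶠ z' in 𝓝 z, Φ (g z') = Ψ z') (hg1 : ∀ᶠ z' in 𝓝 (z + lv s t), Φ (g1 z') = Ψ z')
    (hd : DifferentiableAt ℝ g z) (hd1 : DifferentiableAt ℝ g1 (z + lv s t)) (v : E4) :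
    (fderiv ℝ g1 (z + lv s t) v) 0 = (fderiv ℝ g z v) 0 ∧
      (fderiv ℝ g1 (z + lv s t) v) 1 = (fderiv ℝ g z v) 1 := by
  have key : ∀ i : Fin 4, (∀ᶠ z' in 𝓝 z, (g1 (z' + lv s t)) i = (g z') i) →
      (fderiv ℝ g1 (z + lv s t) v) i = (fderiv ℝ g z v) i := by
    intro i hi
    rw [← fderiv_coord hd i, ← fderiv_coord hd1 i]
    have h1 : fderiv ℝ (fun z' => (g1 (z' + lv s t)) i) z = fderiv ℝ (fun z' => (g z') i) z :=
      Filter.EventuallyEq.fderiv_eq hi
    rw [← h1]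
    have h2 := fderiv_comp_add_right (𝕜 := ℝ) (f := fun z' : E4 => (g1 z') i) (x := z) (lv s t)
    rw [h2]
  have h := tr_base hT hΦ hΨ hg hg1
  exact ⟨key 0 (h.mono fun _ h => h.1), key 1 (h.mono fun _ h => h.2)⟩

/-- the transition maps leaf directions to leaf directions. -/
lemma tr_leaf (hT : TAtlas w f T) (hΦ : Φ ∈ T) (hΨ : Ψ ∈ T) {z : E4} {g : E4 → E4}
    (hg : ∀ᶠ z' in 𝓝 z, Φ (g z') = Ψ z') (hd : DifferentiableAt ℝ g z) (s t : ℝ) :
    (fderiv ℝ g z (lv s t)) 0 = 0 ∧ (fderiv ℝ g z (lv s t)) 1 = 0 := by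
  have hline : ∀ i : Fin 4, HasDerivAt (fun r : ℝ => (g (z + r • lv s t)) i)
      ((fderiv ℝ g z (lv s t)) i) 0 := by
    intro i
    have h1 : HasFDerivAt (fun z' => (g z') i)
        ((EuclideanSpace.proj i : E4 →L[ℝ] ℝ).comp (fderiv ℝ g z)) (z + (0 : ℝ) • lv s t) := by
      rw [zero_smul, add_zero]
      exact (EuclideanSpace.proj i : E4 →L[ℝ] ℝ).hasFDerivAt.comp z hd.hasFDerivAt
    have h2 : HasDerivAt (fun r : ℝ => z + r • lv s t) (lv s t) 0 := by
      have := ((hasDerivAt_id (0 : ℝ)).smul_const (lv s t)).const_add z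
      simpa using this
    have h3 := h1.comp_hasDerivAt (0 : ℝ) h2
    exact h3
  have hev : ∀ᶠ r in 𝓝 (0 : ℝ), (g (z + r • lv s t)) 0 = (g z) 0 ∧
      (g (z + r • lv s t)) 1 = (g z) 1 := by
    have hc : Tendsto (fun r : ℝ => z + r • lv s t) (𝓝 0) (𝓝 z) := by
      have : ContinuousAt (fun r : ℝ => z + r • lv s t) 0 := by fun_prop
      have := this.tendsto
      simpa using this
    filter_upwards [hc.eventually hg] with r hr
    rw [← lv_smul] at hr ⊢
    exact same_base hT hΦ hΨ hg.self_of_nhds.symm hr.symm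
  have hconst : ∀ i : Fin 4, (∀ᶠ r in 𝓝 (0 : ℝ), (g (z + r • lv s t)) i = (g z) i) →
      (fderiv ℝ g z (lv s t)) i = 0 := by
    intro i hi
    have h1 := (hline i)
    have h2 : HasDerivAt (fun r : ℝ => (g (z + r • lv s t)) i) 0 0 :=
      (hasDerivAt_const (0 : ℝ) ((g z) i)).congr_of_eventuallyEq hi
    exact h1.unique h2
  exact ⟨hconst 0 (hev.mono fun _ h => h.1), hconst 1 (hev.mono fun _ h => h.2)⟩

/-! ### descent of periodic functions -/

open Classical in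
/-- the function on `M` induced by a periodic function in the tube. -/
def dsc (Φ : E4 → M) (u : E4 → ℝ) (x : M) : ℝ := if h : ∃ y, Φ y = x then u h.choose else 0

lemma dsc_apply (hΦ : Tube w f Φ) {u : E4 → ℝ} (hu : ∀ (y : E4) (m n : ℤ), u (y + lv m n) = u y)
    (y : E4) : dsc Φ u (Φ y) = u y := by
  have h : ∃ y', Φ y' = Φ y := ⟨y, rfl⟩
  unfold dsc
  rw [dif_pos h]
  obtain ⟨m, n, hmn⟩ := hΦ.inj y h.choose h.choose_spec.symm
  rw [hmn, hu]

/-! ### the leaves are lagrangian -/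

lemma slice_dL (hΦ : Tube w f Φ) (y : E4) (q v : Ep) :
    dmap (slice Φ y) q v = dmap Φ (y + lv (q 0) (q 1)) (lv (v 0) (v 1)) := by
  let L : Ep →L[ℝ] E4 := (LinearMap.toContinuousLinearMap
    { toFun := fun v : Ep => lv (v 0) (v 1)
      map_add' := fun a b => by
        show lv (a 0 + b 0) (a 1 + b 1) = _
        exact lv_add _ _ _ _
      map_smul' := fun r a => by
        show lv (r * a 0) (r * a 1) = _
        exact lv_smul _ _ _ })
  have hL : ∀ v : Ep, L v = lv (v 0) (v 1) := fun v => rfl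
  have hg : HasFDerivAt (fun q : Ep => y + lv (q 0) (q 1)) L q := by
    have : (fun q : Ep => y + lv (q 0) (q 1)) = fun q => y + L q := rfl
    rw [this]
    exact L.hasFDerivAt.const_add y
  have h1 := dL_comp (Φ := Φ) (g := fun q : Ep => y + lv (q 0) (q 1)) (z := q)
    (hΦ.smooth _) hg.differentiableAt
  have h2 : dmap (slice Φ y) q v = dL (E := E4) (fun q : Ep => Φ (y + lv (q 0) (q 1))) q v := rfl
  rw [h2, h1, hg.fderiv]
  rfl

lemma leaf_lag (hΦ : Tube w f Φ) (y : E4) (s t s' t' : ℝ) :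
    pb2 Φ ((w 1).1.1 : F2 E4 M) y (lv s t) (lv s' t') = 0 ∧
    pb2 Φ ((w 2).1.1 : F2 E4 M) y (lv s t) (lv s' t') = 0 := by
  have hJ := hΦ.leaf y
  have h1 := hJ.lag1 0 (WithLp.toLp 2 ![s, t]) (WithLp.toLp 2 ![s', t'])
  have h2 := hJ.lag2 0 (WithLp.toLp 2 ![s, t]) (WithLp.toLp 2 ![s', t'])
  have h0 : y + lv ((0 : Ep) 0) ((0 : Ep) 1) = y := by
    have : lv ((0 : Ep) 0) ((0 : Ep) 1) = 0 := by apply ext4 <;> simp
    rw [this, add_zero]
  have hs : slice Φ y 0 = Φ y := by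
    show Φ (y + lv ((0 : Ep) 0) ((0 : Ep) 1)) = Φ y
    rw [h0]
  rw [slice_dL hΦ, slice_dL hΦ, h0, hs] at h1 h2
  exact ⟨h1, h2⟩

end Tube

end

end Crest.Agent.R235.FibTr_129
end

-- ▼ part R235/TorPer_82
section

/-!
Row 235 (S0364), PACKAGE TOR, leaf TOR-PER (helper82): `ℤ²`-periodic closed leaf forms on `E4`
with parameters: periods, primitives, Riemann's bilinear identity, closedness of the periods of a
closed two-form on the base.
-/

set_option autoImplicit false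
set_option maxSynthPendingDepth 3

open Set Function Filter MeasureTheory
open scoped Manifold ContDiff Topology

universe u

namespace Crest.Agent.R235.TorPer_82

open Crest.Agent.R235 Crest.Agent.R240 Crest.Agent.R240.Ch

noncomputable section

/-! ### averages along a direction -/

section Avg

variable {E : Type} [NormedAddCommGroup E] [NormedSpace ℝ E]

/-- parametric integrals of smooth functions are smooth. -/
theorem contDiff_pint {F : Type} [NormedAddCommGroup F] [NormedSpace ℝ F] {H : ℝ × E → F}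
    (hH : ContDiff ℝ ∞ H) : ContDiff ℝ ∞ (fun q : E => ∫ r in (0 : ℝ)..1, H (r, q)) := by
  have h := R213.contDiffOn_pint (a := 0) (b := 1) zero_lt_one (convex_univ (E := E))
    uniqueDiffOn_univ (H := H) hH.contDiffOn
  exact contDiffOn_univ.1 h

/-- derivative of parametric integrals. -/
theorem hasFDerivAt_pint {F : Type} [NormedAddCommGroup F] [NormedSpace ℝ F] {H : ℝ × E → F}
    (hH : ContDiff ℝ ∞ H) (q : E) :
    HasFDerivAt (fun q : E => ∫ r in (0 : ℝ)..1, H (r, q))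
      (∫ r in (0 : ℝ)..1, (fderiv ℝ H (r, q)).comp (ContinuousLinearMap.inr ℝ ℝ E)) q := by
  have hd : Differentiable ℝ H := hH.differentiable (by simp)
  have hc : Continuous (fun z : ℝ × E => (fderiv ℝ H z).comp (ContinuousLinearMap.inr ℝ ℝ E)) :=
    (hH.continuous_fderiv (by simp)).clm_comp continuous_const
  have h := R213.hasFDerivWithinAt_pint (a := 0) (b := 1) zero_le_one (convex_univ (E := E))
    (H := H) (H' := fun z : ℝ × E => (fderiv ℝ H z).comp (ContinuousLinearMap.inr ℝ ℝ E))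
    hH.continuous.continuousOn hc.continuousOn (fun r _ p _ => by
      have h1 := (hd (r, p)).hasFDerivAt
      have h2 : HasFDerivAt (fun q : E => ((r, q) : ℝ × E)) (ContinuousLinearMap.inr ℝ ℝ E) p :=
        (hasFDerivAt_const r p).prodMk (hasFDerivAt_id p)
      exact (h1.comp p h2).hasFDerivWithinAt) (mem_univ q)
  exact h.hasFDerivAt_of_univ

theorem fderiv_pint_apply {F : Type} [NormedAddCommGroup F] [NormedSpace ℝ F] [CompleteSpace F]
    {H : ℝ × E → F} (hH : ContDiff ℝ ∞ H) (q w : E) :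
    fderiv ℝ (fun q : E => ∫ r in (0 : ℝ)..1, H (r, q)) q w =
      ∫ r in (0 : ℝ)..1, fderiv ℝ (fun q : E => H (r, q)) q w := by
  have hd : Differentiable ℝ H := hH.differentiable (by simp)
  have hc : Continuous (fun z : ℝ × E => (fderiv ℝ H z).comp (ContinuousLinearMap.inr ℝ ℝ E)) :=
    (hH.continuous_fderiv (by simp)).clm_comp continuous_const
  have hI : IntervalIntegrable
      (fun r : ℝ => (fderiv ℝ H (r, q)).comp (ContinuousLinearMap.inr ℝ ℝ E)) volume 0 1 :=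
    (hc.comp (by fun_prop : Continuous fun r : ℝ => (r, q))).intervalIntegrable _ _
  rw [(hasFDerivAt_pint hH q).fderiv, ContinuousLinearMap.intervalIntegral_apply hI]
  refine intervalIntegral.integral_congr fun r _ => ?_
  have h1 := (hd (r, q)).hasFDerivAt
  have h2 : HasFDerivAt (fun q : E => ((r, q) : ℝ × E)) (ContinuousLinearMap.inr ℝ ℝ E) q :=
    (hasFDerivAt_const r q).prodMk (hasFDerivAt_id q)
  have h3 : fderiv ℝ (fun q : E => H (r, q)) q = _ := (h1.comp q h2).fderiv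
  rw [h3]

/-- the mean of `f` over the segment `[y, y + v]`. -/
def Av (v : E) (f : E → ℝ) (y : E) : ℝ := ∫ r in (0 : ℝ)..1, f (y + r • v)

variable {f : E → ℝ} (v : E)

theorem Av.smooth (hf : ContDiff ℝ ∞ f) : ContDiff ℝ ∞ (Av v f) :=
  contDiff_pint (H := fun z : ℝ × E => f (z.2 + z.1 • v)) (hf.comp (by fun_prop))

theorem Av.fderiv (hf : ContDiff ℝ ∞ f) (y w : E) :
    fderiv ℝ (Av v f) y w = Av v (fun z => fderiv ℝ f z w) y := by
  have h := fderiv_pint_apply (H := fun z : ℝ × E => f (z.2 + z.1 • v)) (hf.comp (by fun_prop))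
    y w
  refine h.trans (intervalIntegral.integral_congr fun r _ => ?_)
  exact congrArg (fun L : E →L[ℝ] ℝ => L w) (fderiv_comp_add_right (f := f) (x := y) (r • v))

/-- the fundamental theorem along `v`. -/
theorem Av.ftc (hf : ContDiff ℝ ∞ f) (y : E) :
    Av v (fun z => _root_.fderiv ℝ f z v) y = f (y + v) - f y := by
  have h1 : ∀ r ∈ uIcc (0 : ℝ) 1, HasDerivAt (fun r : ℝ => f (y + r • v))
      (_root_.fderiv ℝ f (y + r • v) v) r := by
    intro r _
    have h2 : HasDerivAt (fun r : ℝ => y + r • v) v r := by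
      simpa using ((hasDerivAt_id r).smul_const v).const_add y
    exact ((hf.differentiable (by simp) _).hasFDerivAt).comp_hasDerivAt r h2
  have hc : Continuous (fun r : ℝ => _root_.fderiv ℝ f (y + r • v) v) :=
    ((hf.continuous_fderiv (by simp)).comp (by fun_prop)).clm_apply continuous_const
  have h3 := intervalIntegral.integral_eq_sub_of_hasDerivAt h1 (hc.intervalIntegrable _ _)
  simpa [Av] using h3

theorem Av.congr {g : E → ℝ} {y : E} (h : ∀ z, f z = g z) : Av v f y = Av v g y := by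
  rw [show f = g from funext h]

theorem Av.zero_of (y : E) (h : ∀ z, f z = 0) : Av v f y = 0 := by
  rw [show f = fun _ => 0 from funext h]
  simp [Av]

theorem Av.sub {g : E → ℝ} (hf : Continuous f) (hg : Continuous g) (y : E) :
    Av v (fun z => f z - g z) y = Av v f y - Av v g y :=
  intervalIntegral.integral_sub ((hf.comp (by fun_prop)).intervalIntegrable _ _)
    ((hg.comp (by fun_prop)).intervalIntegrable _ _)

theorem Av.add {g : E → ℝ} (hf : Continuous f) (hg : Continuous g) (y : E) :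
    Av v (fun z => f z + g z) y = Av v f y + Av v g y :=
  intervalIntegral.integral_add ((hf.comp (by fun_prop)).intervalIntegrable _ _)
    ((hg.comp (by fun_prop)).intervalIntegrable _ _)

theorem Av.per (h : ∀ y, f (y + v) = f y) (y : E) (s : ℝ) : Av v f (y + s • v) = Av v f y := by
  have hp : Function.Periodic (fun r : ℝ => f (y + r • v)) 1 := by
    intro r
    show f (y + (r + 1) • v) = f (y + r • v)
    rw [add_smul, one_smul, ← add_assoc, h]
  have h1 := hp.intervalIntegral_add_eq s 0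
  have h2 : Av v f (y + s • v) = ∫ r in s..(s + 1), f (y + r • v) := by
    have h3 := intervalIntegral.integral_comp_add_right (a := 0) (b := 1)
      (fun r : ℝ => f (y + r • v)) s
    rw [zero_add, add_comm 1 s] at h3
    rw [← h3]
    refine intervalIntegral.integral_congr fun r _ => ?_
    show f (y + s • v + r • v) = f (y + (r + s) • v)
    rw [add_assoc, ← add_smul, add_comm s r]
  rw [h2, h1, zero_add]
  rfl

/-- a smooth function with zero derivative along `v` is constant along `v`. -/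
theorem const_of_fderiv (hf : ContDiff ℝ ∞ f) (h : ∀ y, _root_.fderiv ℝ f y v = 0) (y : E)
    (s : ℝ) : f (y + s • v) = f y := by
  have h1 := Av.ftc (s • v) hf y
  rw [Av.zero_of (s • v) y (fun z => by rw [map_smul, h, smul_zero])] at h1
  linarith

end Avg

/-! ### the radial primitive of a one-form which is closed along a subspace -/

section Prim

variable {E : Type} [NormedAddCommGroup E] [NormedSpace ℝ E]

/-- the radial primitive along the range of `A`. -/
def rprim (A : E →L[ℝ] E) (g : E → E →L[ℝ] ℝ) (y : E) : ℝ :=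
  ∫ r in (0 : ℝ)..1, g (y - A y + r • A y) (A y)

theorem rprim_smooth (A : E →L[ℝ] E) {g : E → E →L[ℝ] ℝ} (hg : ContDiff ℝ ∞ g) :
    ContDiff ℝ ∞ (rprim A g) :=
  contDiff_pint (H := fun z : ℝ × E => g (z.2 - A z.2 + z.1 • A z.2) (A z.2))
    ((hg.comp (by fun_prop)).clm_apply (by fun_prop))

theorem rprim_fderiv (A : E →L[ℝ] E) (hA : ∀ y, A (A y) = A y) {g : E → E →L[ℝ] ℝ}
    (hg : ContDiff ℝ ∞ g) (hcl : ∀ z a b, fderiv ℝ g z (A a) (A b) = fderiv ℝ g z (A b) (A a))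
    (y w : E) : fderiv ℝ (rprim A g) y (A w) = g y (A w) := by
  have h := fderiv_pint_apply (H := fun z : ℝ × E => g (z.2 - A z.2 + z.1 • A z.2) (A z.2))
    ((hg.comp (by fun_prop)).clm_apply (by fun_prop)) y (A w)
  refine h.trans ?_
  have hd : Differentiable ℝ g := hg.differentiable (by simp)
  -- the integrand is the derivative of `r ↦ r • g (y - A y + r • A y) (A w)`
  have h1 : ∀ r ∈ uIcc (0 : ℝ) 1, HasDerivAt (fun r : ℝ => r * g (y - A y + r • A y) (A w))
      (fderiv ℝ (fun q : E => g (q - A q + r • A q) (A q)) y (A w)) r := by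
    intro r _
    have e1 : HasFDerivAt (fun q : E => q - A q + r • A q)
        (ContinuousLinearMap.id ℝ E - A + r • A) y :=
      ((hasFDerivAt_id y).sub A.hasFDerivAt).add (A.hasFDerivAt.const_smul r)
    have e2 := (hd (y - A y + r • A y)).hasFDerivAt.comp y e1
    have e3 := (e2.clm_apply A.hasFDerivAt).fderiv
    have e3' : fderiv ℝ (fun q : E => g (q - A q + r • A q) (A q)) y = _ := e3
    have e4 : HasDerivAt (fun r : ℝ => y - A y + r • A y) (A y) r := by
      simpa using ((hasDerivAt_id r).smul_const (A y)).const_add (y - A y)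
    have e5 := (hd (y - A y + r • A y)).hasFDerivAt.comp_hasDerivAt r e4
    have e6 := (hasDerivAt_id r).mul (e5.clm_apply (hasDerivAt_const r (A w)))
    rw [e3']
    refine e6.congr_deriv ?_
    have e7 := hcl (y - A y + r • A y) y w
    simp only [add_apply, ContinuousLinearMap.comp_apply, hA,
      ContinuousLinearMap.flip_apply, sub_apply, ContinuousLinearMap.id_apply,
      smul_apply, Function.comp_apply, id, map_zero, one_mul, add_zero,
      sub_self, zero_add, map_smul, smul_eq_mul, e7]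
  have hc : Continuous (fun r : ℝ => fderiv ℝ (fun q : E => g (q - A q + r • A q) (A q)) y
      (A w)) := by
    have hH : ContDiff ℝ ∞ (fun z : ℝ × E => g (z.2 - A z.2 + z.1 • A z.2) (A z.2)) :=
      (hg.comp (by fun_prop)).clm_apply (by fun_prop)
    have h2 : ∀ r : ℝ, fderiv ℝ (fun q : E => g (q - A q + r • A q) (A q)) y (A w) =
        (fderiv ℝ (fun z : ℝ × E => g (z.2 - A z.2 + z.1 • A z.2) (A z.2)) (r, y)) (0, A w) := by
      intro r
      have h3 := (hH.differentiable (by simp) (r, y)).hasFDerivAt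
      have h4 : HasFDerivAt (fun q : E => ((r, q) : ℝ × E)) (ContinuousLinearMap.inr ℝ ℝ E) y :=
        (hasFDerivAt_const r y).prodMk (hasFDerivAt_id y)
      have h5 : fderiv ℝ (fun q : E => g (q - A q + r • A q) (A q)) y = _ := (h3.comp y h4).fderiv
      rw [h5]
      simp
    simp_rw [h2]
    exact ((hH.continuous_fderiv (by simp)).comp (by fun_prop)).clm_apply continuous_const
  rw [intervalIntegral.integral_eq_sub_of_hasDerivAt h1 (hc.intervalIntegrable _ _)]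
  simp

theorem rprim_zero (A : E →L[ℝ] E) (g : E → E →L[ℝ] ℝ) {y : E} (h : A y = 0) :
    rprim A g y = 0 := by
  simp [rprim, h]

end Prim

/-! ### leaf directions -/

theorem lv_eq (s t : ℝ) : lv s t = s • lv 1 0 + t • lv 0 1 := by
  ext i
  fin_cases i <;> simp [lv]

theorem lv_left (s : ℝ) : lv s 0 = s • lv 1 0 := by
  rw [lv_eq, zero_smul, add_zero]

theorem lv_right (t : ℝ) : lv 0 t = t • lv 0 1 := by
  rw [lv_eq, zero_smul, zero_add]

theorem lv_add (s t s' t' : ℝ) : lv (s + s') (t + t') = lv s t + lv s' t' := by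
  ext i
  fin_cases i <;> simp [lv]

theorem lv_split (s t : ℝ) : lv s t = lv s 0 + lv 0 t := by
  rw [← lv_add, add_zero, zero_add]

@[simp] theorem lv_zero : lv 0 0 = 0 := by
  ext i
  fin_cases i <;> simp [lv]

@[simp] theorem lv_0 (s t : ℝ) : lv s t 0 = 0 := rfl
@[simp] theorem lv_1 (s t : ℝ) : lv s t 1 = 0 := rfl
@[simp] theorem lv_2 (s t : ℝ) : lv s t 2 = s := rfl
@[simp] theorem lv_3 (s t : ℝ) : lv s t 3 = t := rfl

/-- the projection to the leaf directions. -/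
def lp : E4 →L[ℝ] E4 :=
  (EuclideanSpace.proj (2 : Fin 4) : E4 →L[ℝ] ℝ).smulRight (lv 1 0) +
    (EuclideanSpace.proj (3 : Fin 4) : E4 →L[ℝ] ℝ).smulRight (lv 0 1)

theorem lp_apply (y : E4) : lp y = lv (y 2) (y 3) := by
  rw [lv_eq]
  rfl

@[simp] theorem lp_lv (s t : ℝ) : lp (lv s t) = lv s t := by
  rw [lp_apply]
  rfl

theorem lp_lp (y : E4) : lp (lp y) = lp y := by
  rw [lp_apply y, lp_lv]

/-- a smooth function whose leaf derivatives vanish is constant along the leaves. -/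
theorem const_leaf {f : E4 → ℝ} (hf : ContDiff ℝ ∞ f) (h2 : ∀ y, fderiv ℝ f y (lv 1 0) = 0)
    (h3 : ∀ y, fderiv ℝ f y (lv 0 1) = 0) (y : E4) (s t : ℝ) : f (y + lv s t) = f y := by
  rw [lv_eq, ← add_assoc, const_of_fderiv _ hf h3, const_of_fderiv _ hf h2]

theorem cont_l {X : Type*} [TopologicalSpace X] {f : E4 → X} (hf : Continuous f) (y : E4) :
    Continuous (fun r : ℝ => f (y + lv r 0)) := by
  have e : (fun r : ℝ => f (y + lv r 0)) = fun r => f (y + r • lv 1 0) :=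
    funext fun r => by rw [lv_left r]
  rw [e]
  exact hf.comp (by fun_prop)

theorem cont_r {X : Type*} [TopologicalSpace X] {f : E4 → X} (hf : Continuous f) (y : E4) :
    Continuous (fun r : ℝ => f (y + lv 0 r)) := by
  have e : (fun r : ℝ => f (y + lv 0 r)) = fun r => f (y + r • lv 0 1) :=
    funext fun r => by rw [lv_right r]
  rw [e]
  exact hf.comp (by fun_prop)

/-! ### periods -/

/-- the period in the direction `2`. -/
def P2 (f : E4 → ℝ) (y : E4) : ℝ := ∫ r in (0 : ℝ)..1, f (y + lv r 0)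

/-- the period in the direction `3`. -/
def P3 (f : E4 → ℝ) (y : E4) : ℝ := ∫ r in (0 : ℝ)..1, f (y + lv 0 r)

theorem P2_eq (f : E4 → ℝ) : P2 f = Av (lv 1 0) f := by
  funext y
  refine intervalIntegral.integral_congr fun r _ => ?_
  show f (y + lv r 0) = f (y + r • lv 1 0)
  rw [lv_left r]

theorem P3_eq (f : E4 → ℝ) : P3 f = Av (lv 0 1) f := by
  funext y
  refine intervalIntegral.integral_congr fun r _ => ?_
  show f (y + lv 0 r) = f (y + r • lv 0 1)
  rw [lv_right r]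

/-- periodicity along the leaves. -/
def Per (f : E4 → ℝ) : Prop := ∀ (y : E4) (m n : ℤ), f (y + lv m n) = f y

/-- a closed leaf form. -/
structure ClF (f2 f3 : E4 → ℝ) : Prop where
  s2 : ContDiff ℝ ∞ f2
  s3 : ContDiff ℝ ∞ f3
  p2 : Per f2
  p3 : Per f3
  cl : ∀ y, fderiv ℝ f3 y (lv 1 0) = fderiv ℝ f2 y (lv 0 1)

theorem Per.e2 {f : E4 → ℝ} (h : Per f) (y : E4) : f (y + lv 1 0) = f y := by
  simpa using h y 1 0

theorem Per.e3 {f : E4 → ℝ} (h : Per f) (y : E4) : f (y + lv 0 1) = f y := by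
  simpa using h y 0 1

theorem Per.of {f : E4 → ℝ} (h2 : ∀ y, f (y + lv 1 0) = f y) (h3 : ∀ y, f (y + lv 0 1) = f y) :
    Per f := by
  have key : ∀ v : E4, (∀ y, f (y + v) = f y) → ∀ (n : ℤ) (y : E4), f (y + (n : ℝ) • v) = f y := by
    intro v hv n
    induction n using Int.induction_on with
    | zero => intro y; simp
    | succ n ih =>
      intro y
      have h1 : y + (((n : ℤ) + 1 : ℤ) : ℝ) • v = (y + ((n : ℤ) : ℝ) • v) + v := by
        push_cast
        module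
      rw [h1, hv, ih]
    | pred n ih =>
      intro y
      have h1 : y + ((-(n : ℤ) - 1 : ℤ) : ℝ) • v = (y - v) + ((-(n : ℤ) : ℤ) : ℝ) • v := by
        push_cast
        module
      rw [h1, ih, ← hv (y - v), sub_add_cancel]
  intro y m n
  rw [lv_eq, ← add_assoc, key _ h3, key _ h2]

section Periods

variable {f2 f3 g2 g3 : E4 → ℝ}

theorem P2_smooth (h : ContDiff ℝ ∞ f2) : ContDiff ℝ ∞ (P2 f2) := by
  rw [P2_eq]
  exact Av.smooth _ h

theorem P3_smooth (h : ContDiff ℝ ∞ f3) : ContDiff ℝ ∞ (P3 f3) := by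
  rw [P3_eq]
  exact Av.smooth _ h

theorem ClF.fP2_e2 (h : ClF f2 f3) (y : E4) : fderiv ℝ (P2 f2) y (lv 1 0) = 0 := by
  rw [P2_eq, Av.fderiv _ h.s2, Av.ftc _ h.s2, h.p2.e2, sub_self]

theorem ClF.fP2_e3 (h : ClF f2 f3) (y : E4) : fderiv ℝ (P2 f2) y (lv 0 1) = 0 := by
  rw [P2_eq, Av.fderiv _ h.s2, Av.congr _ (fun z => (h.cl z).symm), Av.ftc _ h.s3, h.p3.e2,
    sub_self]

theorem ClF.fP3_e3 (h : ClF f2 f3) (y : E4) : fderiv ℝ (P3 f3) y (lv 0 1) = 0 := by
  rw [P3_eq, Av.fderiv _ h.s3, Av.ftc _ h.s3, h.p3.e3, sub_self]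

theorem ClF.fP3_e2 (h : ClF f2 f3) (y : E4) : fderiv ℝ (P3 f3) y (lv 1 0) = 0 := by
  rw [P3_eq, Av.fderiv _ h.s3, Av.congr _ h.cl, Av.ftc _ h.s2, h.p2.e3, sub_self]

/-- (1) the periods are constant along the leaves. -/
theorem ClF.P2_const (h : ClF f2 f3) (y : E4) (s t : ℝ) : P2 f2 (y + lv s t) = P2 f2 y :=
  const_leaf (P2_smooth h.s2) h.fP2_e2 h.fP2_e3 y s t

theorem ClF.P3_const (h : ClF f2 f3) (y : E4) (s t : ℝ) : P3 f3 (y + lv s t) = P3 f3 y :=
  const_leaf (P3_smooth h.s3) h.fP3_e2 h.fP3_e3 y s t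

/-! ### (2) the primitive -/

/-- the one-form `f2 dy2 + f3 dy3`. -/
def lform (f2 f3 : E4 → ℝ) (z : E4) : E4 →L[ℝ] ℝ :=
  f2 z • (EuclideanSpace.proj (2 : Fin 4) : E4 →L[ℝ] ℝ) +
    f3 z • (EuclideanSpace.proj (3 : Fin 4) : E4 →L[ℝ] ℝ)

theorem lform_apply (z v : E4) : lform f2 f3 z v = f2 z * v 2 + f3 z * v 3 := rfl

theorem lform_smooth (h2 : ContDiff ℝ ∞ f2) (h3 : ContDiff ℝ ∞ f3) :
    ContDiff ℝ ∞ (lform f2 f3) :=
  (h2.smul contDiff_const).add (h3.smul contDiff_const)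

theorem fderiv_lform (h2 : ContDiff ℝ ∞ f2) (h3 : ContDiff ℝ ∞ f3) (z a v : E4) :
    fderiv ℝ (lform f2 f3) z a v = fderiv ℝ f2 z a * v 2 + fderiv ℝ f3 z a * v 3 := by
  have e2 := ((h2.differentiable (by simp) z).hasFDerivAt.smul_const
    (EuclideanSpace.proj (2 : Fin 4) : E4 →L[ℝ] ℝ))
  have e3 := ((h3.differentiable (by simp) z).hasFDerivAt.smul_const
    (EuclideanSpace.proj (3 : Fin 4) : E4 →L[ℝ] ℝ))
  have e := (e2.add e3).fderiv
  have e' : fderiv ℝ (lform f2 f3) z = _ := e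
  rw [e']
  rfl

theorem ClF.lform_closed (h : ClF f2 f3) (z a b : E4) :
    fderiv ℝ (lform f2 f3) z (lp a) (lp b) = fderiv ℝ (lform f2 f3) z (lp b) (lp a) := by
  have key : ∀ (f : E4 → ℝ) (c : E4), fderiv ℝ f z (lp c) =
      c 2 * fderiv ℝ f z (lv 1 0) + c 3 * fderiv ℝ f z (lv 0 1) := by
    intro f c
    rw [lp_apply, lv_eq, map_add, map_smul, map_smul, smul_eq_mul, smul_eq_mul]
  rw [fderiv_lform h.s2 h.s3, fderiv_lform h.s2 h.s3, key, key, key, key, h.cl z]
  simp only [lp_apply, lv_2, lv_3]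
  ring

/-- the primitive of a closed leaf form, normalised on the section `y 2 = y 3 = 0`. -/
def prim (f2 f3 : E4 → ℝ) : E4 → ℝ := rprim lp (lform f2 f3)

theorem prim_smooth (h2 : ContDiff ℝ ∞ f2) (h3 : ContDiff ℝ ∞ f3) :
    ContDiff ℝ ∞ (prim f2 f3) :=
  rprim_smooth lp (lform_smooth h2 h3)

theorem ClF.prim_e2 (h : ClF f2 f3) (y : E4) : fderiv ℝ (prim f2 f3) y (lv 1 0) = f2 y := by
  have h1 := rprim_fderiv lp lp_lp (lform_smooth h.s2 h.s3) h.lform_closed y (lv 1 0)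
  rw [lp_lv] at h1
  rw [prim, h1, lform_apply]
  simp

theorem ClF.prim_e3 (h : ClF f2 f3) (y : E4) : fderiv ℝ (prim f2 f3) y (lv 0 1) = f3 y := by
  have h1 := rprim_fderiv lp lp_lp (lform_smooth h.s2 h.s3) h.lform_closed y (lv 0 1)
  rw [lp_lv] at h1
  rw [prim, h1, lform_apply]
  simp

theorem prim_zero {y : E4} (h2 : y 2 = 0) (h3 : y 3 = 0) : prim f2 f3 y = 0 := by
  refine rprim_zero lp _ ?_
  rw [lp_apply, h2, h3, lv_zero]

theorem fderiv_shift {f : E4 → ℝ} (v y w : E4) :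
    fderiv ℝ (fun z => f (z + v)) y w = fderiv ℝ f (y + v) w :=
  congrArg (fun L : E4 →L[ℝ] ℝ => L w) (fderiv_comp_add_right (f := f) (x := y) v)

/-- the primitive picks up the periods. -/
theorem ClF.prim_add_e2 (h : ClF f2 f3) (y : E4) :
    prim f2 f3 (y + lv 1 0) = prim f2 f3 y + P2 f2 y := by
  have hs := prim_smooth h.s2 h.s3
  have hP := P2_smooth h.s2
  have hsh : ContDiff ℝ ∞ (fun z => prim f2 f3 (z + lv 1 0)) := hs.comp (by fun_prop)
  let k : E4 → ℝ := fun z => prim f2 f3 (z + lv 1 0) - prim f2 f3 z - P2 f2 z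
  have hk : ContDiff ℝ ∞ k := (hsh.sub hs).sub hP
  have hd : ∀ z w, fderiv ℝ k z w = fderiv ℝ (prim f2 f3) (z + lv 1 0) w
      - fderiv ℝ (prim f2 f3) z w - fderiv ℝ (P2 f2) z w := by
    intro z w
    have e := (((hsh.differentiable (by simp) z).hasFDerivAt.sub
      (hs.differentiable (by simp) z).hasFDerivAt).sub
      (hP.differentiable (by simp) z).hasFDerivAt).fderiv
    have e' : fderiv ℝ k z = _ := e
    rw [e', ← fderiv_shift (f := prim f2 f3)]
    rfl
  have hc := const_leaf hk (fun z => by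
      rw [hd, h.prim_e2, h.prim_e2, h.fP2_e2, h.p2.e2]; ring) (fun z => by
      rw [hd, h.prim_e3, h.prim_e3, h.fP2_e3, h.p3.e2]; ring) (y - lp y) (y 2) (y 3)
  have h1 : y - lp y + lv (y 2) (y 3) = y := by
    rw [lp_apply, sub_add_cancel]
  rw [h1] at hc
  have h2 : k (y - lp y) = 0 := by
    have e1 : lp (y - lp y) = 0 := by rw [map_sub, lp_lp, sub_self]
    have e2 : prim f2 f3 (y - lp y) = 0 := rprim_zero lp _ e1
    have e3 : prim f2 f3 (y - lp y + lv 1 0) = P2 f2 (y - lp y) := by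
      simp only [prim, rprim, map_add, e1, lp_lv, zero_add, add_sub_cancel_right, P2]
      refine intervalIntegral.integral_congr fun r _ => ?_
      simp only [lform_apply, lv_2, lv_3, mul_one, mul_zero, add_zero]
      rw [lv_left r]
    show prim f2 f3 (y - lp y + lv 1 0) - prim f2 f3 (y - lp y) - P2 f2 (y - lp y) = 0
    rw [e2, e3]
    ring
  rw [h2] at hc
  have h3 : prim f2 f3 (y + lv 1 0) - prim f2 f3 y - P2 f2 y = 0 := hc
  linarith

theorem ClF.prim_add_e3 (h : ClF f2 f3) (y : E4) :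
    prim f2 f3 (y + lv 0 1) = prim f2 f3 y + P3 f3 y := by
  have hs := prim_smooth h.s2 h.s3
  have hP := P3_smooth h.s3
  have hsh : ContDiff ℝ ∞ (fun z => prim f2 f3 (z + lv 0 1)) := hs.comp (by fun_prop)
  let k : E4 → ℝ := fun z => prim f2 f3 (z + lv 0 1) - prim f2 f3 z - P3 f3 z
  have hk : ContDiff ℝ ∞ k := (hsh.sub hs).sub hP
  have hd : ∀ z w, fderiv ℝ k z w = fderiv ℝ (prim f2 f3) (z + lv 0 1) w
      - fderiv ℝ (prim f2 f3) z w - fderiv ℝ (P3 f3) z w := by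
    intro z w
    have e := (((hsh.differentiable (by simp) z).hasFDerivAt.sub
      (hs.differentiable (by simp) z).hasFDerivAt).sub
      (hP.differentiable (by simp) z).hasFDerivAt).fderiv
    have e' : fderiv ℝ k z = _ := e
    rw [e', ← fderiv_shift (f := prim f2 f3)]
    rfl
  have hc := const_leaf hk (fun z => by
      rw [hd, h.prim_e2, h.prim_e2, h.fP3_e2, h.p2.e3]; ring) (fun z => by
      rw [hd, h.prim_e3, h.prim_e3, h.fP3_e3, h.p3.e3]; ring) (y - lp y) (y 2) (y 3)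
  have h1 : y - lp y + lv (y 2) (y 3) = y := by
    rw [lp_apply, sub_add_cancel]
  rw [h1] at hc
  have h2 : k (y - lp y) = 0 := by
    have e1 : lp (y - lp y) = 0 := by rw [map_sub, lp_lp, sub_self]
    have e2 : prim f2 f3 (y - lp y) = 0 := rprim_zero lp _ e1
    have e3 : prim f2 f3 (y - lp y + lv 0 1) = P3 f3 (y - lp y) := by
      simp only [prim, rprim, map_add, e1, lp_lv, zero_add, add_sub_cancel_right, P3]
      refine intervalIntegral.integral_congr fun r _ => ?_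
      simp only [lform_apply, lv_2, lv_3, mul_one, mul_zero, zero_add]
      rw [lv_right r]
    show prim f2 f3 (y - lp y + lv 0 1) - prim f2 f3 (y - lp y) - P3 f3 (y - lp y) = 0
    rw [e2, e3]
    ring
  rw [h2] at hc
  have h3 : prim f2 f3 (y + lv 0 1) - prim f2 f3 y - P3 f3 y = 0 := hc
  linarith

/-- (2) PRIMITIVE. -/
theorem ClF.exists_prim (h : ClF f2 f3) (h2 : ∀ y, P2 f2 y = 0) (h3 : ∀ y, P3 f3 y = 0) :
    ∃ u : E4 → ℝ, ContDiff ℝ ∞ u ∧ Per u ∧ (∀ y, fderiv ℝ u y (lv 1 0) = f2 y) ∧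
      (∀ y, fderiv ℝ u y (lv 0 1) = f3 y) ∧ ∀ y, y 2 = 0 → y 3 = 0 → u y = 0 :=
  ⟨prim f2 f3, prim_smooth h.s2 h.s3, Per.of (fun y => by rw [h.prim_add_e2, h2, add_zero])
    (fun y => by rw [h.prim_add_e3, h3, add_zero]), h.prim_e2, h.prim_e3,
    fun _ a b => prim_zero a b⟩

end Periods

/-! ### (2') the primitive on one leaf -/





section Leaf

variable {f2 f3 g2 g3 : E4 → ℝ}




/-! ### (3) Riemann's bilinear identity -/

theorem double_eq (h : E4 → ℝ) (y : E4) :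
    ∫ s in (0 : ℝ)..1, ∫ t in (0 : ℝ)..1, h (y + lv s t) = P2 (P3 h) y := by
  refine intervalIntegral.integral_congr fun s _ => ?_
  refine intervalIntegral.integral_congr fun t _ => ?_
  show h (y + lv s t) = h (y + lv s 0 + lv 0 t)
  rw [add_assoc, ← lv_split]

/-- (3) RIEMANN. -/
theorem ClF.riemann (hf : ClF f2 f3) (hg : ClF g2 g3) (y : E4) :
    ∫ s in (0 : ℝ)..1, ∫ t in (0 : ℝ)..1,
      (f2 (y + lv s t) * g3 (y + lv s t) - f3 (y + lv s t) * g2 (y + lv s t)) =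
    P2 f2 y * P3 g3 y - P3 f3 y * P2 g2 y := by
  rw [double_eq (fun z => f2 z * g3 z - f3 z * g2 z) y]
  obtain ⟨u, hs, u2, u3, a2, a3⟩ : ∃ u : E4 → ℝ, ContDiff ℝ ∞ u ∧
      (∀ z, fderiv ℝ u z (lv 1 0) = f2 z) ∧ (∀ z, fderiv ℝ u z (lv 0 1) = f3 z) ∧
      (∀ z, u (z + lv 1 0) = u z + P2 f2 z) ∧ (∀ z, u (z + lv 0 1) = u z + P3 f3 z) :=
    ⟨prim f2 f3, prim_smooth hf.s2 hf.s3, hf.prim_e2, hf.prim_e3, hf.prim_add_e2, hf.prim_add_e3⟩
  set F : E4 → ℝ := fun z => u z * g3 z with hF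
  set G : E4 → ℝ := fun z => u z * g2 z with hG
  have sF : ContDiff ℝ ∞ F := hs.mul hg.s3
  have sG : ContDiff ℝ ∞ G := hs.mul hg.s2
  have fd : ∀ (a b : E4 → ℝ), ContDiff ℝ ∞ a → ContDiff ℝ ∞ b → ∀ z w,
      fderiv ℝ (fun z => a z * b z) z w = a z * fderiv ℝ b z w + b z * fderiv ℝ a z w := by
    intro a b ha hb z w
    have e := ((ha.differentiable (by simp) z).hasFDerivAt.mul
      (hb.differentiable (by simp) z).hasFDerivAt).fderiv
    have e' : fderiv ℝ (fun z => a z * b z) z = _ := e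
    rw [e']
    rfl
  have key : ∀ z, f2 z * g3 z - f3 z * g2 z =
      fderiv ℝ F z (lv 1 0) - fderiv ℝ G z (lv 0 1) := by
    intro z
    rw [hF, hG, fd u g3 hs hg.s3, fd u g2 hs hg.s2, u2, u3, hg.cl]
    ring
  have cF : ∀ w : E4, Continuous (fun z => fderiv ℝ F z w) := fun w =>
    (sF.continuous_fderiv (by simp)).clm_apply continuous_const
  have cG : ∀ w : E4, Continuous (fun z => fderiv ℝ G z w) := fun w =>
    (sG.continuous_fderiv (by simp)).clm_apply continuous_const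
  -- the inner mean
  have inner : ∀ z, P3 (fun z => f2 z * g3 z - f3 z * g2 z) z =
      fderiv ℝ (P3 F) z (lv 1 0) - P3 f3 y * g2 z + (P3 f3 y - P3 f3 z) * g2 z := by
    intro z
    rw [P3_eq, Av.congr _ key, Av.sub _ (cF _) (cG _), ← Av.fderiv _ sF, Av.ftc _ sG, ← P3_eq]
    have e1 : G (z + lv 0 1) - G z = P3 f3 z * g2 z := by
      show u (z + lv 0 1) * g2 (z + lv 0 1) - u z * g2 z = P3 f3 z * g2 z
      rw [a3, hg.p2.e3]
      ring
    rw [e1]
    ring
  have sPF : ContDiff ℝ ∞ (P3 F) := P3_smooth sF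
  have outer : P2 (P3 (fun z => f2 z * g3 z - f3 z * g2 z)) y =
      ∫ r in (0 : ℝ)..1, (fderiv ℝ (P3 F) (y + lv r 0) (lv 1 0) - P3 f3 y * g2 (y + lv r 0)) := by
    refine intervalIntegral.integral_congr fun r _ => ?_
    show P3 (fun z => f2 z * g3 z - f3 z * g2 z) (y + lv r 0) = _
    rw [inner, hf.P3_const, sub_self, zero_mul, add_zero]
  have c1 : Continuous (fun r : ℝ => fderiv ℝ (P3 F) (y + lv r 0) (lv 1 0)) :=
    cont_l ((sPF.continuous_fderiv (by simp)).clm_apply continuous_const) y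
  have c2 : Continuous (fun r : ℝ => P3 f3 y * g2 (y + lv r 0)) :=
    continuous_const.mul (cont_l hg.s2.continuous y)
  rw [outer, intervalIntegral.integral_sub (c1.intervalIntegrable _ _)
    (c2.intervalIntegrable _ _), intervalIntegral.integral_const_mul]
  have e2 : ∫ r in (0 : ℝ)..1, fderiv ℝ (P3 F) (y + lv r 0) (lv 1 0) =
      P3 F (y + lv 1 0) - P3 F y := by
    have := Av.ftc (lv 1 0) sPF y
    rw [← P2_eq] at this
    exact this
  have e3 : P3 F (y + lv 1 0) - P3 F y = P2 f2 y * P3 g3 y := by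
    have cFc : ∀ w : E4, Continuous (fun r : ℝ => F (w + lv 0 r)) := fun w =>
      cont_r sF.continuous w
    rw [P3, P3, P3, ← intervalIntegral.integral_sub ((cFc _).intervalIntegrable _ _)
      ((cFc _).intervalIntegrable _ _), ← intervalIntegral.integral_const_mul]
    refine intervalIntegral.integral_congr fun r _ => ?_
    show F (y + lv 1 0 + lv 0 r) - F (y + lv 0 r) = P2 f2 y * g3 (y + lv 0 r)
    have e4 : y + lv 1 0 + lv 0 r = (y + lv 0 r) + lv 1 0 := by abel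
    rw [e4]
    show u (y + lv 0 r + lv 1 0) * g3 (y + lv 0 r + lv 1 0) - u (y + lv 0 r) * g3 (y + lv 0 r) = _
    rw [a2, hg.p3.e2, hf.P2_const]
    ring
  rw [e2, e3]
  rfl

end Leaf

/-! ### integrals over the unit square -/

/-- the integral over the unit square as an iterated integral. -/
theorem square_eq {h : ℝ × ℝ → ℝ} (hc : Continuous h) :
    ∫ q : Fin 2 → ℝ in Set.pi univ (fun _ => Set.Icc (0 : ℝ) 1), h (q 0, q 1) =
      ∫ s in (0 : ℝ)..1, ∫ t in (0 : ℝ)..1, h (s, t) := by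
  have hm := volume_preserving_finTwoArrow ℝ
  have h1 : Set.pi univ (fun _ : Fin 2 => Set.Icc (0 : ℝ) 1) =
      (MeasurableEquiv.finTwoArrow : (Fin 2 → ℝ) ≃ᵐ ℝ × ℝ) ⁻¹'
        (Set.Icc (0 : ℝ) 1 ×ˢ Set.Icc (0 : ℝ) 1) := by
    ext q
    rw [Set.mem_preimage, Set.mem_univ_pi, Fin.forall_fin_two]
    exact Iff.rfl
  have h2 : ∫ q : Fin 2 → ℝ in Set.pi univ (fun _ => Set.Icc (0 : ℝ) 1), h (q 0, q 1) =
      ∫ z in Set.Icc (0 : ℝ) 1 ×ˢ Set.Icc (0 : ℝ) 1, h z := by
    rw [h1]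
    exact hm.setIntegral_preimage_emb (MeasurableEquiv.measurableEmbedding _) h _
  rw [h2, Measure.volume_eq_prod, setIntegral_prod h
    ((hc.continuousOn).integrableOn_compact (isCompact_Icc.prod isCompact_Icc))]
  rw [intervalIntegral.integral_of_le zero_le_one, integral_Icc_eq_integral_Ioc]
  refine setIntegral_congr_fun measurableSet_Ioc fun s _ => ?_
  show ∫ t in Icc (0 : ℝ) 1, h (s, t) = ∫ t in (0 : ℝ)..1, h (s, t)
  rw [intervalIntegral.integral_of_le zero_le_one, integral_Icc_eq_integral_Ioc]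

theorem square_leaf {h : E4 → ℝ} (hc : Continuous h) (y : E4) :
    ∫ q : Fin 2 → ℝ in Set.pi univ (fun _ => Set.Icc (0 : ℝ) 1), h (y + lv (q 0) (q 1)) =
      ∫ s in (0 : ℝ)..1, ∫ t in (0 : ℝ)..1, h (y + lv s t) := by
  refine square_eq (h := fun z => h (y + lv z.1 z.2)) ?_
  have e : (fun z : ℝ × ℝ => h (y + lv z.1 z.2)) =
      fun z => h (y + (z.1 • lv 1 0 + z.2 • lv 0 1)) := by
    funext z
    rw [← lv_eq]
  rw [e]
  exact hc.comp (by fun_prop)

section Man

variable {M : Type u} [TopologicalSpace M] [ChartedSpace E4 M] [IsManifold 𝓘(ℝ, E4) ∞ M]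




end Man

section Closed

variable {M : Type u} [TopologicalSpace M] [T2Space M] [CompactSpace M]
  [ChartedSpace E4 M] [IsManifold 𝓘(ℝ, E4) ∞ M]


end Closed

/-! ### (4) periods of a closed two-form -/

section Base

variable {m : E4 → Bil}

theorem fderiv_entry (hm : ContDiff ℝ ∞ m) (a b z w : E4) :
    fderiv ℝ (fun z => m z a b) z w = fderiv ℝ m z w a b := by
  have h1 := (hm.differentiable (by simp) z).hasFDerivAt
  have h2 := ((h1.clm_apply (hasFDerivAt_const a z)).clm_apply (hasFDerivAt_const b z)).fderiv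
  have h3 : fderiv ℝ (fun z => m z a b) z = _ := h2
  rw [h3]
  simp

theorem entry_smooth (hm : ContDiff ℝ ∞ m) (a b : E4) : ContDiff ℝ ∞ (fun z => m z a b) :=
  (hm.clm_apply contDiff_const).clm_apply contDiff_const


/-- (4) the periods of a closed periodic two-form are closed on the base: for a leaf period `e`
and any two directions `b0`, `b1`. -/
theorem base_closed (hm : ContDiff ℝ ∞ m) (e b0 b1 : E4) (hp : ∀ y, m (y + e) = m y)
    (hd : ∀ y u v w, dd m y u v w = 0) (y : E4) :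
    fderiv ℝ (Av e fun z => m z e b0) y b1 = fderiv ℝ (Av e fun z => m z e b1) y b0 := by
  rw [Av.fderiv _ (entry_smooth hm _ _), Av.fderiv _ (entry_smooth hm _ _)]
  have c : ∀ u v w : E4, Continuous (fun z => fderiv ℝ (fun z => m z u v) z w) := fun u v w =>
    ((entry_smooth hm u v).continuous_fderiv (by simp)).clm_apply continuous_const
  have h1 : ∀ z, fderiv ℝ (fun z => m z e b0) z b1 - fderiv ℝ (fun z => m z e b1) z b0 =
      - fderiv ℝ (fun z => m z b0 b1) z e := by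
    intro z
    rw [fderiv_entry hm, fderiv_entry hm, fderiv_entry hm]
    have h := hd z e b0 b1
    unfold dd at h
    linarith
  have h2 : Av e (fun z => fderiv ℝ (fun z => m z e b0) z b1 -
      fderiv ℝ (fun z => m z e b1) z b0) y = 0 := by
    rw [Av.congr _ h1]
    have h3 := Av.ftc e (entry_smooth hm b0 b1) y
    rw [hp, sub_self] at h3
    have h4 : Av e (fun z => - fderiv ℝ (fun z => m z b0 b1) z e) y =
        - Av e (fun z => fderiv ℝ (fun z => m z b0 b1) z e) y :=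
      intervalIntegral.integral_neg
    rw [h4, h3, neg_zero]
  rw [Av.sub _ (c _ _ _) (c _ _ _)] at h2
  linarith



end Base

end

end Crest.Agent.R235.TorPer_82
end

-- ▼ part R235/FibPer_129
section

/-!
Row 235 (S0364), package TOR / A2 (helper129): the interface of TOR-PER (helper82) in the form
used by the flux forms.
-/

set_option autoImplicit false
set_option maxSynthPendingDepth 3

open Set Function Filter MeasureTheory
open scoped Manifold ContDiff Topology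

namespace Crest.Agent.R235.FibPer_129

open Crest.Agent.R240 Crest.Agent.R240.Ch

noncomputable section

/-- periodic along the leaves. -/
def Per (f : E4 → ℝ) : Prop := ∀ (y : E4) (m n : ℤ), f (y + lv m n) = f y

/-- the period in the direction `2`. -/
def P2 (f : E4 → ℝ) (y : E4) : ℝ := ∫ r in (0 : ℝ)..1, f (y + lv r 0)

/-- the period in the direction `3`. -/
def P3 (f : E4 → ℝ) (y : E4) : ℝ := ∫ r in (0 : ℝ)..1, f (y + lv 0 r)

/-- closed leaf form. -/
def Cl (f2 f3 : E4 → ℝ) : Prop := ∀ y, fderiv ℝ f3 y (lv 1 0) = fderiv ℝ f2 y (lv 0 1)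

theorem contDiff_P2 {f : E4 → ℝ} (hf : ContDiff ℝ ∞ f) : ContDiff ℝ ∞ (P2 f) :=
  TorPer_82.P2_smooth hf
theorem contDiff_P3 {f : E4 → ℝ} (hf : ContDiff ℝ ∞ f) : ContDiff ℝ ∞ (P3 f) :=
  TorPer_82.P3_smooth hf

theorem P2_leaf {f2 f3 : E4 → ℝ} (h2 : ContDiff ℝ ∞ f2) (h3 : ContDiff ℝ ∞ f3) (p2 : Per f2)
    (p3 : Per f3) (hc : Cl f2 f3) (y : E4) (s t : ℝ) : P2 f2 (y + lv s t) = P2 f2 y :=
  TorPer_82.ClF.P2_const ⟨h2, h3, p2, p3, hc⟩ y s t
theorem P3_leaf {f2 f3 : E4 → ℝ} (h2 : ContDiff ℝ ∞ f2) (h3 : ContDiff ℝ ∞ f3) (p2 : Per f2)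
    (p3 : Per f3) (hc : Cl f2 f3) (y : E4) (s t : ℝ) : P3 f3 (y + lv s t) = P3 f3 y :=
  TorPer_82.ClF.P3_const ⟨h2, h3, p2, p3, hc⟩ y s t

theorem prim {f2 f3 : E4 → ℝ} (h2 : ContDiff ℝ ∞ f2) (h3 : ContDiff ℝ ∞ f3) (p2 : Per f2)
    (p3 : Per f3) (hc : Cl f2 f3) (z2 : ∀ y, P2 f2 y = 0) (z3 : ∀ y, P3 f3 y = 0) :
    ∃ u : E4 → ℝ, ContDiff ℝ ∞ u ∧ Per u ∧
      ∀ y, fderiv ℝ u y (lv 1 0) = f2 y ∧ fderiv ℝ u y (lv 0 1) = f3 y := by
  obtain ⟨u, h1, h4, h5, h6, -⟩ := TorPer_82.ClF.exists_prim ⟨h2, h3, p2, p3, hc⟩ z2 z3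
  exact ⟨u, h1, h4, fun y => ⟨h5 y, h6 y⟩⟩

theorem riem {f2 f3 g2 g3 : E4 → ℝ} (h2 : ContDiff ℝ ∞ f2) (h3 : ContDiff ℝ ∞ f3) (p2 : Per f2)
    (p3 : Per f3) (hc : Cl f2 f3) (k2 : ContDiff ℝ ∞ g2) (k3 : ContDiff ℝ ∞ g3) (q2 : Per g2)
    (q3 : Per g3) (kc : Cl g2 g3) (y : E4) :
    (∫ q : Fin 2 → ℝ in Set.pi univ (fun _ => Set.Icc (0 : ℝ) 1),
      (f2 (y + lv (q 0) (q 1)) * g3 (y + lv (q 0) (q 1)) -
        f3 (y + lv (q 0) (q 1)) * g2 (y + lv (q 0) (q 1)))) =
      P2 f2 y * P3 g3 y - P3 f3 y * P2 g2 y := by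
  have h1 := TorPer_82.square_leaf (h := fun z => f2 z * g3 z - f3 z * g2 z)
    ((h2.continuous.mul k3.continuous).sub (h3.continuous.mul k2.continuous)) y
  have h4 := TorPer_82.ClF.riemann (f2 := f2) (f3 := f3) (g2 := g2) (g3 := g3)
    ⟨h2, h3, p2, p3, hc⟩ ⟨k2, k3, q2, q3, kc⟩ y
  exact h1.trans h4

theorem const_of_fderiv {f : E4 → ℝ} (hf : ContDiff ℝ ∞ f) (h : ∀ y v, fderiv ℝ f y v = 0)
    (y y' : E4) : f y = f y' := by
  have h1 := TorPer_82.const_of_fderiv (y - y') hf (fun z => h z _) y' 1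
  rw [one_smul, add_sub_cancel] at h1
  exact h1

theorem app_deriv {s : E4 → E4 →L[ℝ] ℝ} (hs : ContDiff ℝ ∞ s) (e y v : E4) :
    fderiv ℝ (fun z => s z e) y v = fderiv ℝ s y v e := by
  rw [fderiv_clm_apply (hs.contDiffAt.differentiableAt infty_ne_zero) (differentiableAt_const e)]
  simp

theorem Av_const {s : E4 → E4 →L[ℝ] ℝ} (hs : ContDiff ℝ ∞ s) (hc : ∀ y, d1 s y = 0) (e : E4)
    (hp : ∀ y : E4, s (y + e) = s y) (y y' : E4) :
    TorPer_82.Av e (fun z => s z e) y = TorPer_82.Av e (fun z => s z e) y' := by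
  have hse : ContDiff ℝ ∞ (fun z => s z e) := hs.clm_apply contDiff_const
  refine const_of_fderiv (TorPer_82.Av.smooth e hse) (fun y v => ?_) y y'
  rw [TorPer_82.Av.fderiv e hse]
  have hsv : ContDiff ℝ ∞ (fun z => s z v) := hs.clm_apply contDiff_const
  have h1 : ∀ z, fderiv ℝ (fun z => s z e) z v = fderiv ℝ (fun z => s z v) z e := by
    intro z
    rw [app_deriv hs, app_deriv hs]
    have h2 : d1 s z v e = 0 := by rw [hc z]; rfl
    rw [d1_apply] at h2
    linarith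
  rw [TorPer_82.Av.congr e h1, TorPer_82.Av.ftc e hsv]
  show s (y + e) v - s y v = 0
  rw [hp, sub_self]

theorem P2_const {s : E4 → E4 →L[ℝ] ℝ} (hs : ContDiff ℝ ∞ s) (hc : ∀ y, d1 s y = 0)
    (hp : ∀ (y : E4) (m n : ℤ), s (y + lv m n) = s y) (y y' : E4) :
    P2 (fun z => s z (lv 1 0)) y = P2 (fun z => s z (lv 1 0)) y' := by
  have h1 := Av_const hs hc (lv 1 0) (fun y => by simpa using hp y 1 0) y y'
  rw [← TorPer_82.P2_eq] at h1
  exact h1
theorem P3_const {s : E4 → E4 →L[ℝ] ℝ} (hs : ContDiff ℝ ∞ s) (hc : ∀ y, d1 s y = 0)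
    (hp : ∀ (y : E4) (m n : ℤ), s (y + lv m n) = s y) (y y' : E4) :
    P3 (fun z => s z (lv 0 1)) y = P3 (fun z => s z (lv 0 1)) y' := by
  have h1 := Av_const hs hc (lv 0 1) (fun y => by simpa using hp y 0 1) y y'
  rw [← TorPer_82.P3_eq] at h1
  exact h1

theorem base_cl {m : E4 → Bil} (hm : ContDiff ℝ ∞ m) (_ha : ∀ y, Alt (m y))
    (hd : ∀ y u v w, dd m y u v w = 0) (h0 : ∀ y, m y (lv 1 0) (lv 0 1) = 0) (b : E4) :
    Cl (fun y => m y b (lv 1 0)) (fun y => m y b (lv 0 1)) := by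
  intro y
  have h1 := hd y b (lv 1 0) (lv 0 1)
  unfold dd at h1
  have h2 : fderiv ℝ m y b (lv 1 0) (lv 0 1) = 0 := by
    rw [← TorPer_82.fderiv_entry hm]
    have : (fun z => m z (lv 1 0) (lv 0 1)) = fun _ => 0 := funext h0
    rw [this]; simp
  rw [TorPer_82.fderiv_entry hm, TorPer_82.fderiv_entry hm]
  linarith

theorem base_av {m : E4 → Bil} (hm : ContDiff ℝ ∞ m) (ha : ∀ y, Alt (m y)) (e : E4)
    (hp : ∀ y : E4, m (y + e) = m y) (hd : ∀ y u v w, dd m y u v w = 0) (b b' y : E4) :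
    fderiv ℝ (TorPer_82.Av e (fun y => m y b e)) y b' =
      fderiv ℝ (TorPer_82.Av e (fun y => m y b' e)) y b := by
  have h1 := TorPer_82.base_closed hm e b b' hp hd y
  have h2 : ∀ b : E4, (TorPer_82.Av e (fun y => m y b e)) =
      fun y => -(TorPer_82.Av e (fun y => m y e b) y) := by
    intro b
    funext y
    show ∫ r in (0 : ℝ)..1, m (y + r • e) b e = -∫ r in (0 : ℝ)..1, m (y + r • e) e b
    rw [← intervalIntegral.integral_neg]
    congr 1
    funext r
    exact (ha _).swap _ _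
  rw [h2 b, h2 b', fderiv_fun_neg, fderiv_fun_neg, neg_apply, neg_apply, h1]

theorem base2 {m : E4 → Bil} (hm : ContDiff ℝ ∞ m) (ha : ∀ y, Alt (m y))
    (hp : ∀ (y : E4) (k n : ℤ), m (y + lv k n) = m y)
    (hd : ∀ y u v w, dd m y u v w = 0) (_h0 : ∀ y, m y (lv 1 0) (lv 0 1) = 0) (b b' y : E4) :
    fderiv ℝ (P2 (fun y => m y b (lv 1 0))) y b' = fderiv ℝ (P2 (fun y => m y b' (lv 1 0))) y b := by
  have h1 := base_av hm ha (lv 1 0) (fun y => by simpa using hp y 1 0) hd b b' y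
  rw [← TorPer_82.P2_eq, ← TorPer_82.P2_eq] at h1
  exact h1
theorem base3 {m : E4 → Bil} (hm : ContDiff ℝ ∞ m) (ha : ∀ y, Alt (m y))
    (hp : ∀ (y : E4) (k n : ℤ), m (y + lv k n) = m y)
    (hd : ∀ y u v w, dd m y u v w = 0) (_h0 : ∀ y, m y (lv 1 0) (lv 0 1) = 0) (b b' y : E4) :
    fderiv ℝ (P3 (fun y => m y b (lv 0 1))) y b' = fderiv ℝ (P3 (fun y => m y b' (lv 0 1))) y b := by
  have h1 := base_av hm ha (lv 0 1) (fun y => by simpa using hp y 0 1) hd b b' y
  rw [← TorPer_82.P3_eq, ← TorPer_82.P3_eq] at h1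
  exact h1

end

end Crest.Agent.R235.FibPer_129
end

-- ▼ part R235/FibFlux_129

/-!
Row 235 (S0364), package TOR / A2 (helper129): the flux forms in one product chart.
-/

set_option autoImplicit false
set_option maxSynthPendingDepth 3
set_option linter.unusedSectionVars false

open Set Function Filter MeasureTheory
open scoped Manifold ContDiff Topology

universe u

namespace Crest.Agent.R235.FibFlux_129

open Crest.Agent.R240 Crest.Agent.R240.Ch Crest.Agent.R235.Pull_129 Crest.Agent.R235.FibTr_129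
  Crest.Agent.R235.FibPer_129

noncomputable section

/-! ### leafwise constant functions -/

/-- constant along the leaves. -/
def LC {F : Type*} (f : E4 → F) : Prop := ∀ (y : E4) (s t : ℝ), f (y + lv s t) = f y

lemma LC.per {f : E4 → ℝ} (h : LC f) : Per f := fun y m n => h y m n

lemma LC.fderiv {F : Type*} [NormedAddCommGroup F] [NormedSpace ℝ F] {f : E4 → F} (h : LC f)
    {y : E4} (hd : DifferentiableAt ℝ f y) (s t : ℝ) : fderiv ℝ f y (lv s t) = 0 := by
  have h1 : HasDerivAt (fun r : ℝ => f (y + r • lv s t)) (_root_.fderiv ℝ f y (lv s t)) 0 := by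
    have h2 : HasDerivAt (fun r : ℝ => y + r • lv s t) (lv s t) 0 := by
      have := ((hasDerivAt_id (0 : ℝ)).smul_const (lv s t)).const_add y
      simpa using this
    have h3 : HasFDerivAt f (_root_.fderiv ℝ f y) (y + (0 : ℝ) • lv s t) := by
      rw [zero_smul, add_zero]; exact hd.hasFDerivAt
    exact h3.comp_hasDerivAt (0 : ℝ) h2
  have h4 : (fun r : ℝ => f (y + r • lv s t)) = fun _ => f y := by
    funext r
    rw [← lv_smul]; exact h _ _ _
  rw [h4] at h1
  exact h1.unique (hasDerivAt_const _ _)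

lemma fderiv_lv {f : E4 → ℝ} {y : E4} (s t : ℝ) : fderiv ℝ f y (lv s t) =
    s * fderiv ℝ f y (lv 1 0) + t * fderiv ℝ f y (lv 0 1) := by
  rw [lv_eq s t, map_add, map_smul, map_smul]; rfl

lemma P2_LC_mul {f g : E4 → ℝ} (h : LC f) (y : E4) :
    P2 (fun z => f z * g z) y = f y * P2 g y := by
  unfold P2
  rw [← intervalIntegral.integral_const_mul]
  congr 1
  funext r
  show f (y + lv r 0) * g (y + lv r 0) = _
  rw [h y r 0]

lemma P3_LC_mul {f g : E4 → ℝ} (h : LC f) (y : E4) :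
    P3 (fun z => f z * g z) y = f y * P3 g y := by
  unfold P3
  rw [← intervalIntegral.integral_const_mul]
  congr 1
  funext r
  show f (y + lv 0 r) * g (y + lv 0 r) = _
  rw [h y 0 r]

lemma P2_add {f g : E4 → ℝ} (hf : Continuous f) (hg : Continuous g) (y : E4) :
    P2 (fun z => f z + g z) y = P2 f y + P2 g y := by
  unfold P2
  have hl : Continuous fun r : ℝ => y + lv r 0 := by
    have : (fun r : ℝ => y + lv r 0) = fun r => y + r • lv 1 0 := by
      funext r; rw [← lv_smul]; simp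
    rw [this]; fun_prop
  exact intervalIntegral.integral_add ((hf.comp hl).intervalIntegrable _ _)
    ((hg.comp hl).intervalIntegrable _ _)

lemma P3_add {f g : E4 → ℝ} (hf : Continuous f) (hg : Continuous g) (y : E4) :
    P3 (fun z => f z + g z) y = P3 f y + P3 g y := by
  unfold P3
  have hl : Continuous fun r : ℝ => y + lv 0 r := by
    have : (fun r : ℝ => y + lv 0 r) = fun r => y + r • lv 0 1 := by
      funext r; rw [← lv_smul]; simp
    rw [this]; fun_prop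
  exact intervalIntegral.integral_add ((hf.comp hl).intervalIntegrable _ _)
    ((hg.comp hl).intervalIntegrable _ _)

/-! ### pull-backs by a tube -/

section Tube

variable {M : Type u} [TopologicalSpace M] [T2Space M] [CompactSpace M]
  [ChartedSpace E4 M] [IsManifold 𝓘(ℝ, E4) ∞ M]

variable {w : Trip M} {f : H2 M} {Φ : E4 → M}

lemma pb1_contDiff (hΦ : Tube w f Φ) {s : F1 E4 M} (hs : Smooth1 s) :
    ContDiff ℝ ∞ (pb1 Φ s) :=
  contDiffOn_univ.1 (pb1_contDiffOn isOpen_univ hΦ.smooth.contMDiffOn hs)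

lemma pb2_contDiff (hΦ : Tube w f Φ) {a : F2 E4 M} (ha : Smooth2 a) :
    ContDiff ℝ ∞ (pb2 Φ a) :=
  contDiffOn_univ.1 (pb2_contDiffOn isOpen_univ hΦ.smooth.contMDiffOn ha)

lemma dL_per (hΦ : Tube w f Φ) (y : E4) (m n : ℤ) :
    dL (E := E4) Φ (y + lv m n) = dL (E := E4) Φ y := by
  have h1 := dL_comp (E := E4) (Φ := Φ) (g := fun z => z + lv m n) (z := y) (hΦ.smooth _)
    (by fun_prop)
  have h2 : (fun z => Φ (z + lv (m : ℝ) n)) = Φ := funext fun z => hΦ.per z m n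
  rw [h2] at h1
  have h3 : fderiv ℝ (fun z : E4 => z + lv (m : ℝ) n) y = ContinuousLinearMap.id ℝ E4 := by
    rw [fderiv_add_const, fderiv_fun_id]
  rw [h3] at h1
  rw [h1]; rfl

lemma pb1_per (hΦ : Tube w f Φ) (s : F1 E4 M) (y : E4) (m n : ℤ) :
    pb1 Φ s (y + lv m n) = pb1 Φ s y := by
  ext v
  rw [pb1_apply, pb1_apply, dL_per hΦ, hΦ.per]

lemma pb2_per (hΦ : Tube w f Φ) (a : F2 E4 M) (y : E4) (m n : ℤ) :
    pb2 Φ a (y + lv m n) = pb2 Φ a y := by
  ext u v
  rw [pb2_apply, pb2_apply, dL_per hΦ, hΦ.per]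

lemma closed1_pb (hΦ : Tube w f Φ) {s : F1 E4 M} (hs : Closed1 s) (y : E4) :
    d1 (pb1 Φ s) y = 0 := by
  ext u v
  have h := d1_pb1 isOpen_univ hΦ.smooth.contMDiffOn (mem_univ y) hs.1 u v
  rw [h, pb2_apply]
  have h2 : dG s (Φ y) = 0 := hs.2 (Φ y) _ (mem_chart_target E4 (Φ y))
  have h3 : at2 (dG s) (Φ y) = 0 := h2
  rw [h3]
  rfl

/-- the pulled back forms `w i`. -/
lemma alt_pb2 (a : Z2 M) (y : E4) : Alt (pb2 Φ (a.1.1 : F2 E4 M) y) := fun v => by
  rw [pb2_apply]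
  exact a.1.2.1 _ _

lemma dd_pb (hΦ : Tube w f Φ) (a : Z2 M) (y u v z : E4) :
    dd (pb2 Φ (a.1.1 : F2 E4 M)) y u v z = 0 :=
  dd_pb2 isOpen_univ hΦ.smooth.contMDiffOn (mem_univ y) a.1.2 a.2 u v z

/-- the wedge square of a pulled back combination does not vanish. -/
lemma W_pb (hw : Pos3 w) (hΦ : Tube w f Φ) (y : E4) {c c' : ℝ} (hc : ¬ (c = 0 ∧ c' = 0)) :
    W (c • pb2 Φ ((w 1).1.1 : F2 E4 M) y + c' • pb2 Φ ((w 2).1.1 : F2 E4 M) y)
      (c • pb2 Φ ((w 1).1.1 : F2 E4 M) y + c' • pb2 Φ ((w 2).1.1 : F2 E4 M) y) ≠ 0 := by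
  have h1 : c • pb2 Φ ((w 1).1.1 : F2 E4 M) y + c' • pb2 Φ ((w 2).1.1 : F2 E4 M) y =
      pull (dL (E := E4) Φ y) (c • val (w 1) (Φ y) + c' • val (w 2) (Φ y)) := by
    ext u v
    rw [pull_apply]
    rfl
  have ha : ∀ i, Alt (val (w i) (Φ y)) := fun i => (w i).1.2.1 (Φ y)
  have halt : Alt (c • val (w 1) (Φ y) + c' • val (w 2) (Φ y)) := fun v => by
    simp only [add_apply, smul_apply, smul_eq_mul]
    rw [ha 1 v, ha 2 v]; ring
  rw [h1, W_pull halt halt]
  refine mul_ne_zero ?_ ?_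
  · have hb := tube_bij hΦ y
    have hu : IsUnit ((dL (E := E4) Φ y : E4 →L[ℝ] E4) : E4 →ₗ[ℝ] E4) := by
      rw [LinearMap.isUnit_iff_ker_eq_bot]
      exact LinearMap.ker_eq_bot.2 hb.1
    exact (LinearMap.isUnit_iff_isUnit_det _).1 hu |>.ne_zero
  · have h2 := hw (Φ y) ![0, c, c'] (by
      intro h0
      apply hc
      exact ⟨by simpa using congrFun h0 1, by simpa using congrFun h0 2⟩)
    simpa [Fin.sum_univ_three] using h2

/-- the pointwise non-degeneracy of the flux integrand. -/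
lemma flux_ne (hw : Pos3 w) (hΦ : Tube w f Φ) (y : E4) {s t : ℝ} (hst : ¬ (s = 0 ∧ t = 0)) :
    pb2 Φ ((w 1).1.1 : F2 E4 M) y (bv s t) (lv 1 0) *
        pb2 Φ ((w 2).1.1 : F2 E4 M) y (bv s t) (lv 0 1) -
      pb2 Φ ((w 1).1.1 : F2 E4 M) y (bv s t) (lv 0 1) *
        pb2 Φ ((w 2).1.1 : F2 E4 M) y (bv s t) (lv 1 0) ≠ 0 := by
  set m := pb2 Φ ((w 1).1.1 : F2 E4 M) y with hm
  set n := pb2 Φ ((w 2).1.1 : F2 E4 M) y with hn
  intro h0
  -- a combination killing both
  obtain ⟨c, c', hcc, e2, e3⟩ : ∃ c c' : ℝ, ¬ (c = 0 ∧ c' = 0) ∧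
      c * m (bv s t) (lv 1 0) + c' * n (bv s t) (lv 1 0) = 0 ∧
      c * m (bv s t) (lv 0 1) + c' * n (bv s t) (lv 0 1) = 0 := by
    by_cases hz : m (bv s t) (lv 1 0) = 0 ∧ n (bv s t) (lv 1 0) = 0
    · by_cases hz' : m (bv s t) (lv 0 1) = 0 ∧ n (bv s t) (lv 0 1) = 0
      · exact ⟨1, 0, by simp, by rw [hz.1, hz.2]; ring, by rw [hz'.1, hz'.2]; ring⟩
      · refine ⟨n (bv s t) (lv 0 1), - m (bv s t) (lv 0 1), ?_, by rw [hz.1, hz.2]; ring, by ring⟩
        intro hh
        exact hz' ⟨by linarith [hh.2], hh.1⟩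
    · refine ⟨n (bv s t) (lv 1 0), - m (bv s t) (lv 1 0), ?_, by ring, by linarith⟩
      intro hh
      exact hz ⟨by linarith [hh.2], hh.1⟩
  have hW := W_pb hw hΦ y hcc
  rw [← hm, ← hn] at hW
  apply hW
  set β := c • m + c' • n with hβ
  have hβalt : Alt β := fun v => by
    have h1 : m v v = 0 := alt_pb2 (w 1) y v
    have h2 : n v v = 0 := alt_pb2 (w 2) y v
    simp only [hβ, add_apply, smul_apply, smul_eq_mul, h1, h2]
    ring
  have ebv : bv s t = s • ee 0 + t • ee 1 := by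
    apply ext4 <;> simp
  have elv2 : lv 1 0 = ee 2 := by apply ext4 <;> simp
  have elv3 : lv 0 1 = ee 3 := by apply ext4 <;> simp
  have h23 : ent β 2 3 = 0 := by
    have h := leaf_lag hΦ y 1 0 0 1
    rw [elv2, elv3] at h
    show β (ee 2) (ee 3) = 0
    simp only [hβ, add_apply, smul_apply, smul_eq_mul, hm, hn, h.1, h.2]
    ring
  have hA : s * ent β 0 2 + t * ent β 1 2 = 0 := by
    have : β (bv s t) (lv 1 0) = 0 := by
      simp only [hβ, add_apply, smul_apply, smul_eq_mul]; exact e2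
    rw [ebv, elv2, map_add, map_smul, map_smul] at this
    simpa [ent] using this
  have hB : s * ent β 0 3 + t * ent β 1 3 = 0 := by
    have : β (bv s t) (lv 0 1) = 0 := by
      simp only [hβ, add_apply, smul_apply, smul_eq_mul]; exact e3
    rw [ebv, elv3, map_add, map_smul, map_smul] at this
    simpa [ent] using this
  have hdet : ent β 0 2 * ent β 1 3 - ent β 0 3 * ent β 1 2 = 0 := by
    by_cases hs : s = 0
    · have ht : t ≠ 0 := fun ht => hst ⟨hs, ht⟩
      have h1 : ent β 1 2 = 0 := by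
        rw [hs] at hA; simpa [ht] using hA
      have h2 : ent β 1 3 = 0 := by
        rw [hs] at hB; simpa [ht] using hB
      rw [h1, h2]; ring
    · have : s * (ent β 0 2 * ent β 1 3 - ent β 0 3 * ent β 1 2) = 0 := by
        linear_combination (ent β 1 3) * hA - (ent β 1 2) * hB
      exact (mul_eq_zero.1 this).resolve_left hs
  unfold W
  rw [h23]
  linear_combination (-2) * hdet

/-- the flux data of a tube: the closed forms `L k` (vanishing on the leaves) and the periodic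
functions `u k` with `w1(v, ·) = - ∑ L k (v) (g k + d (u k))` on the leaves. -/
structure Flux (w : Trip M) (g : Fin 2 → F1 E4 M) (Φ : E4 → M) (L : Fin 2 → E4 → E4 →L[ℝ] ℝ)
    (u : Fin 2 → E4 → ℝ) : Prop where
  smL : ∀ k, ContDiff ℝ ∞ (L k)
  leafc : ∀ k (y : E4) (s t : ℝ), L k (y + lv s t) = L k y
  leaf0 : ∀ k (y : E4) (s t : ℝ), L k y (lv s t) = 0
  closed : ∀ k y, d1 (L k) y = 0
  ind : ∀ (y : E4) (s t : ℝ), (∀ k, L k y (bv s t) = 0) → s = 0 ∧ t = 0
  smu : ∀ k, ContDiff ℝ ∞ (u k)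
  peru : ∀ k (y : E4) (m n : ℤ), u k (y + lv m n) = u k y
  eq : ∀ (y v : E4) (s t : ℝ), pb2 Φ ((w 1).1.1 : F2 E4 M) y v (lv s t) =
    - ∑ k, L k y v * (pb1 Φ (g k) y (lv s t) + fderiv ℝ (u k) y (lv s t))

/-- `torI` of a product of one-forms over a leaf. -/
lemma torI_wedG (hΦ : Tube w f Φ) (g0 g1 : F1 E4 M) (y : E4) :
    torI (slice Φ y) (wedG g0 g1) =
      ∫ q : Fin 2 → ℝ in Set.pi univ (fun _ => Set.Icc (0 : ℝ) 1),
        (pb1 Φ g0 (y + lv (q 0) (q 1)) (lv 1 0) * pb1 Φ g1 (y + lv (q 0) (q 1)) (lv 0 1) -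
          pb1 Φ g0 (y + lv (q 0) (q 1)) (lv 0 1) * pb1 Φ g1 (y + lv (q 0) (q 1)) (lv 1 0)) := by
  unfold torI
  congr 1
  funext q
  rw [slice_dL hΦ, slice_dL hΦ]
  have h0 : (EuclideanSpace.single (0 : Fin 2) (1 : ℝ)) 0 = 1 := by simp
  have h1 : (EuclideanSpace.single (0 : Fin 2) (1 : ℝ)) 1 = 0 := by simp
  have h2 : (EuclideanSpace.single (1 : Fin 2) (1 : ℝ)) 0 = 0 := by simp
  have h3 : (EuclideanSpace.single (1 : Fin 2) (1 : ℝ)) 1 = 1 := by simp
  rw [h0, h1, h2, h3]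
  show at1 g0 _ (dL (E := E4) Φ (y + lv (q 0) (q 1)) (lv 1 0)) *
      at1 g1 _ (dL (E := E4) Φ (y + lv (q 0) (q 1)) (lv 0 1)) -
      at1 g1 _ (dL (E := E4) Φ (y + lv (q 0) (q 1)) (lv 1 0)) *
      at1 g0 _ (dL (E := E4) Φ (y + lv (q 0) (q 1)) (lv 0 1)) = _
  rw [mul_comm (at1 g1 _ _) (at1 g0 _ _)]
  rfl

/-- a continuous function without zeros has a non-zero integral over the unit square. -/
lemma int_ne {F : (Fin 2 → ℝ) → ℝ} (hF : Continuous F) (h : ∀ q, F q ≠ 0) :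
    (∫ q in Set.pi univ (fun _ => Set.Icc (0 : ℝ) 1), F q) ≠ 0 := by
  have hK : IsCompact (Set.pi univ (fun _ : Fin 2 => Set.Icc (0 : ℝ) 1)) :=
    isCompact_univ_pi fun _ => isCompact_Icc
  have hvol : (volume (Set.pi univ (fun _ : Fin 2 => Set.Icc (0 : ℝ) 1))) = 1 := by
    rw [volume_pi_pi]; simp
  have main : ∀ G : (Fin 2 → ℝ) → ℝ, Continuous G → (∀ q, 0 < G q) →
      0 < ∫ q in Set.pi univ (fun _ => Set.Icc (0 : ℝ) 1), G q := by
    intro G hG hpos
    rw [setIntegral_pos_iff_support_of_nonneg_ae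
      (Filter.Eventually.of_forall fun q => (hpos q).le) (hG.continuousOn.integrableOn_compact hK)]
    have : Function.support G = univ := by
      ext q; simp [(hpos q).ne']
    rw [this, univ_inter, hvol]
    exact one_pos
  rcases lt_or_gt_of_ne (h 0) with h0 | h0
  · have hneg : ∀ q, 0 < -F q := by
      intro q
      by_contra hq
      have hq' : 0 ≤ F q := by linarith
      obtain ⟨z, hz⟩ := mem_range_of_exists_le_of_exists_ge hF ⟨0, h0.le⟩ ⟨q, hq'⟩
      exact h z hz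
    have := main (fun q => -F q) hF.neg hneg
    rw [integral_neg] at this
    intro h1
    rw [h1] at this
    simp at this
  · have hpos : ∀ q, 0 < F q := by
      intro q
      by_contra hq
      have hq' : F q ≤ 0 := by linarith
      obtain ⟨z, hz⟩ := mem_range_of_exists_le_of_exists_ge hF ⟨q, hq'⟩ ⟨0, h0.le⟩
      exact h z hz
    exact (main F hF hpos).ne'

lemma fderiv_mul_leaf {a b : E4 → ℝ} {y : E4} (ha : DifferentiableAt ℝ a y)
    (hb : DifferentiableAt ℝ b y) (hl : LC a) (s t : ℝ) :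
    fderiv ℝ (fun z => a z * b z) y (lv s t) = a y * fderiv ℝ b y (lv s t) := by
  rw [fderiv_fun_mul ha hb]
  simp only [add_apply, smul_apply, smul_eq_mul, hl.fderiv ha]
  ring

lemma fderiv_add3 {p a0 g0 a1 g1 : E4 → ℝ} {y : E4} (hp : DifferentiableAt ℝ p y)
    (h0 : DifferentiableAt ℝ a0 y) (k0 : DifferentiableAt ℝ g0 y) (h1 : DifferentiableAt ℝ a1 y)
    (k1 : DifferentiableAt ℝ g1 y) (l0 : LC a0) (l1 : LC a1) (s t : ℝ) :
    fderiv ℝ (fun z => p z + (a0 z * g0 z + a1 z * g1 z)) y (lv s t) =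
      fderiv ℝ p y (lv s t) + (a0 y * fderiv ℝ g0 y (lv s t) + a1 y * fderiv ℝ g1 y (lv s t)) := by
  have m0 : DifferentiableAt ℝ (fun z => a0 z * g0 z) y := h0.mul k0
  have m1 : DifferentiableAt ℝ (fun z => a1 z * g1 z) y := h1.mul k1
  have m2 : DifferentiableAt ℝ (fun z => a0 z * g0 z + a1 z * g1 z) y := m0.add m1
  rw [fderiv_fun_add hp m2, fderiv_fun_add m0 m1]
  simp only [add_apply]
  rw [fderiv_mul_leaf h0 k0 l0, fderiv_mul_leaf h1 k1 l1]

lemma fderiv_neg2 {a0 g0 a1 g1 : E4 → ℝ} {y : E4}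
    (h0 : DifferentiableAt ℝ a0 y) (k0 : DifferentiableAt ℝ g0 y) (h1 : DifferentiableAt ℝ a1 y)
    (k1 : DifferentiableAt ℝ g1 y) (l0 : LC a0) (l1 : LC a1) (s t : ℝ) :
    fderiv ℝ (fun z => -(a0 z * g0 z + a1 z * g1 z)) y (lv s t) =
      -(a0 y * fderiv ℝ g0 y (lv s t) + a1 y * fderiv ℝ g1 y (lv s t)) := by
  have m0 : DifferentiableAt ℝ (fun z => a0 z * g0 z) y := h0.mul k0
  have m1 : DifferentiableAt ℝ (fun z => a1 z * g1 z) y := h1.mul k1
  rw [fderiv_fun_neg, fderiv_fun_add m0 m1]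
  simp only [neg_apply, add_apply]
  rw [fderiv_mul_leaf h0 k0 l0, fderiv_mul_leaf h1 k1 l1]

lemma P2_add3 {p a0 g0 a1 g1 : E4 → ℝ} (hp : Continuous p) (h0 : Continuous a0)
    (k0 : Continuous g0) (h1 : Continuous a1) (k1 : Continuous g1) (l0 : LC a0) (l1 : LC a1)
    (y : E4) : P2 (fun z => p z + (a0 z * g0 z + a1 z * g1 z)) y =
      P2 p y + (a0 y * P2 g0 y + a1 y * P2 g1 y) := by
  have m0 : Continuous (fun z => a0 z * g0 z) := h0.mul k0
  have m1 : Continuous (fun z => a1 z * g1 z) := h1.mul k1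
  have m2 : Continuous (fun z => a0 z * g0 z + a1 z * g1 z) := m0.add m1
  rw [P2_add hp m2, P2_add m0 m1, P2_LC_mul l0, P2_LC_mul l1]

lemma P3_add3 {p a0 g0 a1 g1 : E4 → ℝ} (hp : Continuous p) (h0 : Continuous a0)
    (k0 : Continuous g0) (h1 : Continuous a1) (k1 : Continuous g1) (l0 : LC a0) (l1 : LC a1)
    (y : E4) : P3 (fun z => p z + (a0 z * g0 z + a1 z * g1 z)) y =
      P3 p y + (a0 y * P3 g0 y + a1 y * P3 g1 y) := by
  have m0 : Continuous (fun z => a0 z * g0 z) := h0.mul k0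
  have m1 : Continuous (fun z => a1 z * g1 z) := h1.mul k1
  have m2 : Continuous (fun z => a0 z * g0 z + a1 z * g1 z) := m0.add m1
  rw [P3_add hp m2, P3_add m0 m1, P3_LC_mul l0, P3_LC_mul l1]

/-- the coordinate covectors of the base. -/
def pr (i : Fin 4) : E4 →L[ℝ] ℝ := EuclideanSpace.proj i


set_option maxHeartbeats 1000000 in
theorem exists_flux (hw : Pos3 w) (hΦ : Tube w f Φ) {g : Fin 2 → F1 E4 M}
    (hg : ∀ k, Closed1 (g k)) (hne : ∀ y, torI (slice Φ y) (wedG (g 0) (g 1)) ≠ 0) :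
    ∃ L u, Flux w g Φ L u := by
  classical
  set m := pb2 Φ ((w 1).1.1 : F2 E4 M) with hm
  set n := pb2 Φ ((w 2).1.1 : F2 E4 M) with hn
  set γ : Fin 2 → E4 → E4 →L[ℝ] ℝ := fun k => pb1 Φ (g k) with hγ
  have sm_m : ContDiff ℝ ∞ m := pb2_contDiff hΦ (w 1).1.2
  have sm_n : ContDiff ℝ ∞ n := pb2_contDiff hΦ (w 2).1.2
  have sm_γ : ∀ k, ContDiff ℝ ∞ (γ k) := fun k => pb1_contDiff hΦ (hg k).1
  have al_m : ∀ y, Alt (m y) := fun y => alt_pb2 (w 1) y
  have al_n : ∀ y, Alt (n y) := fun y => alt_pb2 (w 2) y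
  have pm : ∀ (y : E4) (k l : ℤ), m (y + lv k l) = m y := pb2_per hΦ _
  have pn : ∀ (y : E4) (k l : ℤ), n (y + lv k l) = n y := pb2_per hΦ _
  have pγ : ∀ j (y : E4) (k l : ℤ), γ j (y + lv k l) = γ j y := fun j => pb1_per hΦ _
  have dm : ∀ y u v z, dd m y u v z = 0 := dd_pb hΦ (w 1)
  have dn : ∀ y u v z, dd n y u v z = 0 := dd_pb hΦ (w 2)
  have dγ : ∀ k y, d1 (γ k) y = 0 := fun k y => closed1_pb hΦ (hg k) y
  have m0 : ∀ y s t s' t', m y (lv s t) (lv s' t') = 0 := fun y s t s' t' =>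
    (leaf_lag hΦ y s t s' t').1
  have n0 : ∀ y s t s' t', n y (lv s t) (lv s' t') = 0 := fun y s t s' t' =>
    (leaf_lag hΦ y s t s' t').2
  -- smoothness of the entries
  have sm_app : ∀ (b e : E4), ContDiff ℝ ∞ (fun y => m y b e) := fun b e =>
    (sm_m.clm_apply contDiff_const).clm_apply contDiff_const
  have sn_app : ∀ (b e : E4), ContDiff ℝ ∞ (fun y => n y b e) := fun b e =>
    (sm_n.clm_apply contDiff_const).clm_apply contDiff_const
  have sγ_app : ∀ k (e : E4), ContDiff ℝ ∞ (fun y => γ k y e) := fun k e =>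
    (sm_γ k).clm_apply contDiff_const
  have pm_app : ∀ (b e : E4), Per (fun y => m y b e) := fun b e y k l => by
    show m (y + lv k l) b e = m y b e
    rw [pm]
  have pn_app : ∀ (b e : E4), Per (fun y => n y b e) := fun b e y k l => by
    show n (y + lv k l) b e = n y b e
    rw [pn]
  have pγ_app : ∀ k (e : E4), Per (fun y => γ k y e) := fun j e y k l => by
    show γ j (y + lv k l) e = γ j y e
    rw [pγ]
  have clm : ∀ b : E4, Cl (fun y => m y b (lv 1 0)) (fun y => m y b (lv 0 1)) := fun b =>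
    base_cl sm_m al_m dm (fun y => m0 y _ _ _ _) b
  have cln : ∀ b : E4, Cl (fun y => n y b (lv 1 0)) (fun y => n y b (lv 0 1)) := fun b =>
    base_cl sm_n al_n dn (fun y => n0 y _ _ _ _) b
  have clγ : ∀ k, Cl (fun y => γ k y (lv 1 0)) (fun y => γ k y (lv 0 1)) := fun k y => by
    have hd : DifferentiableAt ℝ (γ k) y := (sm_γ k).contDiffAt.differentiableAt infty_ne_zero
    have h1 : ∀ e v : E4, fderiv ℝ (fun y => γ k y e) y v = fderiv ℝ (γ k) y v e := fun e v => by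
      rw [fderiv_clm_apply hd (differentiableAt_const e)]
      simp
    show fderiv ℝ (fun y => γ k y (lv 0 1)) y (lv 1 0) = fderiv ℝ (fun y => γ k y (lv 1 0)) y (lv 0 1)
    rw [h1, h1]
    have h2 := dγ k y
    have h3 : d1 (γ k) y (lv 1 0) (lv 0 1) = 0 := by rw [h2]; rfl
    rw [d1_apply] at h3
    linarith
  -- constants
  set c2 : Fin 2 → ℝ := fun k => P2 (fun y => γ k y (lv 1 0)) 0 with hc2
  set c3 : Fin 2 → ℝ := fun k => P3 (fun y => γ k y (lv 0 1)) 0 with hc3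
  have e2 : ∀ k y, P2 (fun y => γ k y (lv 1 0)) y = c2 k := fun k y =>
    P2_const (sm_γ k) (dγ k) (pγ k) y 0
  have e3 : ∀ k y, P3 (fun y => γ k y (lv 0 1)) y = c3 k := fun k y =>
    P3_const (sm_γ k) (dγ k) (pγ k) y 0
  set D : ℝ := c2 0 * c3 1 - c3 0 * c2 1 with hD
  have hD0 : D ≠ 0 := by
    have h1 := hne 0
    rw [torI_wedG hΦ] at h1
    have h2 := riem (sγ_app 0 (lv 1 0)) (sγ_app 0 (lv 0 1)) (pγ_app 0 _) (pγ_app 0 _) (clγ 0)
      (sγ_app 1 (lv 1 0)) (sγ_app 1 (lv 0 1)) (pγ_app 1 _) (pγ_app 1 _) (clγ 1) 0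
    rw [e2, e2, e3, e3] at h2
    rw [hD, ← h2]
    exact h1
  -- the periods of the contractions
  set A2 : E4 → E4 → ℝ := fun b => P2 (fun y => m y b (lv 1 0)) with hA2
  set A3 : E4 → E4 → ℝ := fun b => P3 (fun y => m y b (lv 0 1)) with hA3
  have sA2 : ∀ b, ContDiff ℝ ∞ (A2 b) := fun b => contDiff_P2 (sm_app b _)
  have sA3 : ∀ b, ContDiff ℝ ∞ (A3 b) := fun b => contDiff_P3 (sm_app b _)
  have lA2 : ∀ b, LC (A2 b) := fun b y s t =>
    P2_leaf (sm_app b _) (sm_app b _) (pm_app b _) (pm_app b _) (clm b) y s t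
  have lA3 : ∀ b, LC (A3 b) := fun b y s t =>
    P3_leaf (sm_app b _) (sm_app b _) (pm_app b _) (pm_app b _) (clm b) y s t
  -- the coefficients
  set Lm : Fin 2 → E4 → E4 → ℝ := fun k b y =>
    if k = 0 then -(A2 b y * c3 1 - A3 b y * c2 1) / D
      else -(A3 b y * c2 0 - A2 b y * c3 0) / D with hLm
  have Lm0 : ∀ b y, Lm 0 b y = -(A2 b y * c3 1 - A3 b y * c2 1) / D := fun b y => by
    simp only [hLm, if_true]
  have Lm1 : ∀ b y, Lm 1 b y = -(A3 b y * c2 0 - A2 b y * c3 0) / D := fun b y => by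
    have : (1 : Fin 2) ≠ 0 := by decide
    simp only [hLm, if_neg this]
  have sLm : ∀ k b, ContDiff ℝ ∞ (Lm k b) := by
    intro k b
    fin_cases k
    · have : Lm 0 b = fun y => -(A2 b y * c3 1 - A3 b y * c2 1) / D := funext fun y => Lm0 b y
      show ContDiff ℝ ∞ (Lm 0 b)
      rw [this]
      exact ((((sA2 b).mul contDiff_const).sub ((sA3 b).mul contDiff_const)).neg).div_const D
    · have : Lm 1 b = fun y => -(A3 b y * c2 0 - A2 b y * c3 0) / D := funext fun y => Lm1 b y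
      show ContDiff ℝ ∞ (Lm 1 b)
      rw [this]
      exact ((((sA3 b).mul contDiff_const).sub ((sA2 b).mul contDiff_const)).neg).div_const D
  have lLm : ∀ k b, LC (Lm k b) := by
    intro k b y s t
    simp only [hLm]
    rw [lA2 b y s t, lA3 b y s t]
  have solve2 : ∀ b y, A2 b y = -(Lm 0 b y * c2 0 + Lm 1 b y * c2 1) := by
    intro b y
    rw [Lm0, Lm1]
    field_simp
    rw [hD]; ring
  have solve3 : ∀ b y, A3 b y = -(Lm 0 b y * c3 0 + Lm 1 b y * c3 1) := by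
    intro b y
    rw [Lm0, Lm1]
    field_simp
    rw [hD]; ring
  -- closedness of the coefficients
  have cross : ∀ k (b b' y : E4), fderiv ℝ (Lm k b) y b' = fderiv ℝ (Lm k b') y b := by
    intro k b b' y
    have x2 : fderiv ℝ (A2 b) y b' = fderiv ℝ (A2 b') y b :=
      base2 sm_m al_m pm dm (fun y => m0 y _ _ _ _) b b' y
    have x3 : fderiv ℝ (A3 b) y b' = fderiv ℝ (A3 b') y b :=
      base3 sm_m al_m pm dm (fun y => m0 y _ _ _ _) b b' y
    have d2 : ∀ b, DifferentiableAt ℝ (A2 b) y := fun b =>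
      (sA2 b).contDiffAt.differentiableAt infty_ne_zero
    have d3 : ∀ b, DifferentiableAt ℝ (A3 b) y := fun b =>
      (sA3 b).contDiffAt.differentiableAt infty_ne_zero
    fin_cases k
    · have h1 : ∀ b v : E4, fderiv ℝ (Lm 0 b) y v =
          -(fderiv ℝ (A2 b) y v * c3 1 - fderiv ℝ (A3 b) y v * c2 1) / D := by
        intro b v
        have h2 : HasFDerivAt (Lm 0 b)
            (D⁻¹ • (-(c3 1 • fderiv ℝ (A2 b) y - c2 1 • fderiv ℝ (A3 b) y))) y := by
          have h3 := (((d2 b).hasFDerivAt.mul_const (c3 1)).sub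
            ((d3 b).hasFDerivAt.mul_const (c2 1))).neg.mul_const D⁻¹
          refine h3.congr_of_eventuallyEq (Filter.Eventually.of_forall fun z => ?_)
          rw [Lm0]; rfl
        rw [h2.fderiv]
        simp only [smul_apply, neg_apply, sub_apply, smul_eq_mul]
        ring
      show fderiv ℝ (Lm 0 b) y b' = fderiv ℝ (Lm 0 b') y b
      rw [h1, h1, x2, x3]
    · have h1 : ∀ b v : E4, fderiv ℝ (Lm 1 b) y v =
          -(fderiv ℝ (A3 b) y v * c2 0 - fderiv ℝ (A2 b) y v * c3 0) / D := by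
        intro b v
        have h2 : HasFDerivAt (Lm 1 b)
            (D⁻¹ • (-(c2 0 • fderiv ℝ (A3 b) y - c3 0 • fderiv ℝ (A2 b) y))) y := by
          have h3 := (((d3 b).hasFDerivAt.mul_const (c2 0)).sub
            ((d2 b).hasFDerivAt.mul_const (c3 0))).neg.mul_const D⁻¹
          refine h3.congr_of_eventuallyEq (Filter.Eventually.of_forall fun z => ?_)
          rw [Lm1]; rfl
        rw [h2.fderiv]
        simp only [smul_apply, neg_apply, sub_apply, smul_eq_mul]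
        ring
      show fderiv ℝ (Lm 1 b) y b' = fderiv ℝ (Lm 1 b') y b
      rw [h1, h1, x2, x3]
  -- linearity in `b`
  have lin2 : ∀ (s t : ℝ) y, A2 (bv s t) y = s * A2 (bv 1 0) y + t * A2 (bv 0 1) y := by
    intro s t y
    have h1 : (fun y => m y (bv s t) (lv 1 0)) =
        fun y => s * m y (bv 1 0) (lv 1 0) + t * m y (bv 0 1) (lv 1 0) := by
      funext z
      rw [bv_eq s t, map_add, map_smul, map_smul]; rfl
    show P2 (fun y => m y (bv s t) (lv 1 0)) y = _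
    rw [h1, P2_add ((sm_app _ _).continuous.const_mul s |>.congr fun _ => rfl)
      ((sm_app _ _).continuous.const_mul t |>.congr fun _ => rfl),
      P2_LC_mul (f := fun _ => s) (fun _ _ _ => rfl),
      P2_LC_mul (f := fun _ => t) (fun _ _ _ => rfl)]
  have lin3 : ∀ (s t : ℝ) y, A3 (bv s t) y = s * A3 (bv 1 0) y + t * A3 (bv 0 1) y := by
    intro s t y
    have h1 : (fun y => m y (bv s t) (lv 0 1)) =
        fun y => s * m y (bv 1 0) (lv 0 1) + t * m y (bv 0 1) (lv 0 1) := by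
      funext z
      rw [bv_eq s t, map_add, map_smul, map_smul]; rfl
    show P3 (fun y => m y (bv s t) (lv 0 1)) y = _
    rw [h1, P3_add ((sm_app _ _).continuous.const_mul s |>.congr fun _ => rfl)
      ((sm_app _ _).continuous.const_mul t |>.congr fun _ => rfl),
      P3_LC_mul (f := fun _ => s) (fun _ _ _ => rfl),
      P3_LC_mul (f := fun _ => t) (fun _ _ _ => rfl)]
  set L : Fin 2 → E4 → E4 →L[ℝ] ℝ := fun k y => Lm k (bv 1 0) y • pr 0 + Lm k (bv 0 1) y • pr 1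
    with hL
  have L_apply : ∀ k y v, L k y v = Lm k (bv 1 0) y * v 0 + Lm k (bv 0 1) y * v 1 :=
    fun k y v => rfl
  have linL : ∀ k y s t, L k y (bv s t) = Lm k (bv s t) y := by
    intro k y s t
    rw [L_apply, bv_0, bv_1]
    fin_cases k
    · show Lm 0 (bv 1 0) y * s + Lm 0 (bv 0 1) y * t = Lm 0 (bv s t) y
      rw [Lm0, Lm0, Lm0, lin2 s t, lin3 s t]; ring
    · show Lm 1 (bv 1 0) y * s + Lm 1 (bv 0 1) y * t = Lm 1 (bv s t) y
      rw [Lm1, Lm1, Lm1, lin2 s t, lin3 s t]; ring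
  have sL : ∀ k, ContDiff ℝ ∞ (L k) := fun k =>
    ((sLm k _).smul contDiff_const).add ((sLm k _).smul contDiff_const)
  have lL : ∀ k (y : E4) (s t : ℝ), L k (y + lv s t) = L k y := by
    intro k y s t
    simp only [hL]
    rw [lLm k _ y s t, lLm k _ y s t]
  have L0 : ∀ k (y : E4) (s t : ℝ), L k y (lv s t) = 0 := by
    intro k y s t
    rw [L_apply]; simp
  have dLm : ∀ k b y, DifferentiableAt ℝ (Lm k b) y := fun k b y =>
    (sLm k b).contDiffAt.differentiableAt infty_ne_zero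
  have fL : ∀ k (y u v : E4), fderiv ℝ (L k) y u v =
      fderiv ℝ (Lm k (bv 1 0)) y u * v 0 + fderiv ℝ (Lm k (bv 0 1)) y u * v 1 := by
    intro k y u v
    have h1 : HasFDerivAt (L k) ((fderiv ℝ (Lm k (bv 1 0)) y).smulRight (pr 0) +
        (fderiv ℝ (Lm k (bv 0 1)) y).smulRight (pr 1)) y :=
      ((dLm k _ y).hasFDerivAt.smul_const (pr 0)).add ((dLm k _ y).hasFDerivAt.smul_const (pr 1))
    rw [h1.fderiv]
    rfl
  have fLm : ∀ k b (y u : E4), fderiv ℝ (Lm k b) y u =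
      u 0 * fderiv ℝ (Lm k b) y (bv 1 0) + u 1 * fderiv ℝ (Lm k b) y (bv 0 1) := by
    intro k b y u
    conv_lhs => rw [decomp u, bv_eq (u 0) (u 1)]
    rw [map_add, map_add, map_smul, map_smul, (lLm k b).fderiv (dLm k b y), add_zero]
    rfl
  have cL : ∀ k y, d1 (L k) y = 0 := by
    intro k y
    ext u v
    rw [d1_apply, fL, fL, fLm k (bv 1 0) y u, fLm k (bv 0 1) y u, fLm k (bv 1 0) y v,
      fLm k (bv 0 1) y v, cross k (bv 0 1) (bv 1 0) y]
    show _ = (0 : ℝ)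
    ring
  have indL : ∀ (y : E4) (s t : ℝ), (∀ k, L k y (bv s t) = 0) → s = 0 ∧ t = 0 := by
    intro y s t hk
    by_contra hst
    have h1 : A2 (bv s t) y = 0 := by
      rw [solve2, ← linL, ← linL, hk 0, hk 1]; ring
    have h2 : A3 (bv s t) y = 0 := by
      rw [solve3, ← linL, ← linL, hk 0, hk 1]; ring
    have h3 := riem (sm_app (bv s t) (lv 1 0)) (sm_app (bv s t) (lv 0 1)) (pm_app _ _)
      (pm_app _ _) (clm _) (sn_app (bv s t) (lv 1 0)) (sn_app (bv s t) (lv 0 1)) (pn_app _ _)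
      (pn_app _ _) (cln _) y
    have h1' : P2 (fun y => m y (bv s t) (lv 1 0)) y = 0 := h1
    have h2' : P3 (fun y => m y (bv s t) (lv 0 1)) y = 0 := h2
    rw [h1', h2', zero_mul, zero_mul, sub_zero] at h3
    refine int_ne ?_ (fun q => flux_ne hw hΦ (y + lv (q 0) (q 1)) hst) h3
    have hl : Continuous fun q : Fin 2 → ℝ => y + lv (q 0) (q 1) := by
      have : (fun q : Fin 2 → ℝ => y + lv (q 0) (q 1)) =
          fun q => y + (q 0 • lv 1 0 + q 1 • lv 0 1) := by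
        funext q; rw [← lv_eq]
      rw [this]; fun_prop
    exact (((sm_app _ _).continuous.comp hl).mul ((sn_app _ _).continuous.comp hl)).sub
      (((sm_app _ _).continuous.comp hl).mul ((sn_app _ _).continuous.comp hl))
  -- the determinant
  set Δ : E4 → ℝ := fun y => Lm 0 (bv 1 0) y * Lm 1 (bv 0 1) y - Lm 1 (bv 1 0) y * Lm 0 (bv 0 1) y
    with hΔ
  have Δ0 : ∀ y, Δ y ≠ 0 := by
    intro y h0
    by_cases hz : Lm 0 (bv 1 0) y = 0 ∧ Lm 0 (bv 0 1) y = 0
    · by_cases hz' : Lm 1 (bv 1 0) y = 0 ∧ Lm 1 (bv 0 1) y = 0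
      · have := (indL y 1 0 (by
          intro k
          rw [L_apply]
          fin_cases k
          · show Lm 0 (bv 1 0) y * _ + Lm 0 (bv 0 1) y * _ = 0
            rw [hz.1, hz.2]; ring
          · show Lm 1 (bv 1 0) y * _ + Lm 1 (bv 0 1) y * _ = 0
            rw [hz'.1, hz'.2]; ring)).1
        norm_num at this
      · apply hz'
        have := (indL y (Lm 1 (bv 0 1) y) (-Lm 1 (bv 1 0) y) (by
          intro k
          rw [L_apply, bv_0, bv_1]
          fin_cases k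
          · show Lm 0 (bv 1 0) y * _ + Lm 0 (bv 0 1) y * _ = 0
            rw [hz.1, hz.2]; ring
          · show Lm 1 (bv 1 0) y * _ + Lm 1 (bv 0 1) y * _ = 0
            ring))
        exact ⟨by linarith [this.2], this.1⟩
    · apply hz
      have := (indL y (Lm 0 (bv 0 1) y) (-Lm 0 (bv 1 0) y) (by
        intro k
        rw [L_apply, bv_0, bv_1]
        fin_cases k
        · show Lm 0 (bv 1 0) y * _ + Lm 0 (bv 0 1) y * _ = 0
          ring
        · show Lm 1 (bv 1 0) y * _ + Lm 1 (bv 0 1) y * _ = 0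
          simp only [hΔ] at h0
          linarith))
      exact ⟨by linarith [this.2], this.1⟩
  -- the primitives
  have hprim : ∀ b : E4, ∃ R : E4 → ℝ, ContDiff ℝ ∞ R ∧ Per R ∧ ∀ y,
      fderiv ℝ R y (lv 1 0) = m y b (lv 1 0) + (Lm 0 b y * γ 0 y (lv 1 0)
        + Lm 1 b y * γ 1 y (lv 1 0)) ∧
      fderiv ℝ R y (lv 0 1) = m y b (lv 0 1) + (Lm 0 b y * γ 0 y (lv 0 1)
        + Lm 1 b y * γ 1 y (lv 0 1)) := by
    intro b
    have hs : ∀ e : E4, ContDiff ℝ ∞ (fun y => m y b e + (Lm 0 b y * γ 0 y e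
        + Lm 1 b y * γ 1 y e)) := fun e =>
      (sm_app b e).add (((sLm 0 b).mul (sγ_app 0 e)).add ((sLm 1 b).mul (sγ_app 1 e)))
    have hp : ∀ e : E4, Per (fun y => m y b e + (Lm 0 b y * γ 0 y e
        + Lm 1 b y * γ 1 y e)) := by
      intro e y k l
      show m (y + lv k l) b e + (Lm 0 b (y + lv k l) * γ 0 (y + lv k l) e
        + Lm 1 b (y + lv k l) * γ 1 (y + lv k l) e) = _
      rw [pm, pγ, pγ, lLm 0 b y k l, lLm 1 b y k l]
    have hdif : ∀ (e y : E4) (s t : ℝ),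
        fderiv ℝ (fun y => m y b e + (Lm 0 b y * γ 0 y e + Lm 1 b y * γ 1 y e)) y (lv s t) =
        fderiv ℝ (fun y => m y b e) y (lv s t) + (Lm 0 b y * fderiv ℝ (fun y => γ 0 y e) y (lv s t)
          + Lm 1 b y * fderiv ℝ (fun y => γ 1 y e) y (lv s t)) := fun e y s t =>
      fderiv_add3 ((sm_app b e).contDiffAt.differentiableAt infty_ne_zero) (dLm 0 b y)
        ((sγ_app 0 e).contDiffAt.differentiableAt infty_ne_zero) (dLm 1 b y)
        ((sγ_app 1 e).contDiffAt.differentiableAt infty_ne_zero) (lLm 0 b) (lLm 1 b) s t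
    have hcl : Cl (fun y => m y b (lv 1 0) + (Lm 0 b y * γ 0 y (lv 1 0)
        + Lm 1 b y * γ 1 y (lv 1 0))) (fun y => m y b (lv 0 1) + (Lm 0 b y * γ 0 y (lv 0 1)
        + Lm 1 b y * γ 1 y (lv 0 1))) := by
      intro y
      rw [hdif, hdif, clm b y, clγ 0 y, clγ 1 y]
    have z2 : ∀ y, P2 (fun y => m y b (lv 1 0) + (Lm 0 b y * γ 0 y (lv 1 0)
        + Lm 1 b y * γ 1 y (lv 1 0))) y = 0 := by
      intro y
      rw [P2_add3 (sm_app b _).continuous (sLm 0 b).continuous (sγ_app 0 _).continuous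
        (sLm 1 b).continuous (sγ_app 1 _).continuous (lLm 0 b) (lLm 1 b), e2, e2]
      have := solve2 b y
      simp only [hA2] at this
      rw [this]; ring
    have z3 : ∀ y, P3 (fun y => m y b (lv 0 1) + (Lm 0 b y * γ 0 y (lv 0 1)
        + Lm 1 b y * γ 1 y (lv 0 1))) y = 0 := by
      intro y
      rw [P3_add3 (sm_app b _).continuous (sLm 0 b).continuous (sγ_app 0 _).continuous
        (sLm 1 b).continuous (sγ_app 1 _).continuous (lLm 0 b) (lLm 1 b), e3, e3]
      have := solve3 b y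
      simp only [hA3] at this
      rw [this]; ring
    exact prim (hs _) (hs _) (hp _) (hp _) hcl z2 z3
  choose R sR pR dR using hprim
  set u : Fin 2 → E4 → ℝ := fun k y =>
    if k = 0 then -(R (bv 1 0) y * Lm 1 (bv 0 1) y - R (bv 0 1) y * Lm 1 (bv 1 0) y) / Δ y
      else -(Lm 0 (bv 1 0) y * R (bv 0 1) y - Lm 0 (bv 0 1) y * R (bv 1 0) y) / Δ y with hu
  have u0 : ∀ y, u 0 y =
      -(R (bv 1 0) y * Lm 1 (bv 0 1) y - R (bv 0 1) y * Lm 1 (bv 1 0) y) / Δ y := fun y => by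
    simp only [hu, if_true]
  have u1 : ∀ y, u 1 y =
      -(Lm 0 (bv 1 0) y * R (bv 0 1) y - Lm 0 (bv 0 1) y * R (bv 1 0) y) / Δ y := fun y => by
    have : (1 : Fin 2) ≠ 0 := by decide
    simp only [hu, if_neg this]
  have sΔ : ContDiff ℝ ∞ Δ := ((sLm 0 _).mul (sLm 1 _)).sub ((sLm 1 _).mul (sLm 0 _))
  have su : ∀ k, ContDiff ℝ ∞ (u k) := by
    intro k
    fin_cases k
    · have : u 0 = fun y =>
          -(R (bv 1 0) y * Lm 1 (bv 0 1) y - R (bv 0 1) y * Lm 1 (bv 1 0) y) / Δ y := funext u0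
      show ContDiff ℝ ∞ (u 0)
      rw [this]
      exact ((((sR _).mul (sLm 1 _)).sub ((sR _).mul (sLm 1 _))).neg).div sΔ Δ0
    · have : u 1 = fun y =>
          -(Lm 0 (bv 1 0) y * R (bv 0 1) y - Lm 0 (bv 0 1) y * R (bv 1 0) y) / Δ y := funext u1
      show ContDiff ℝ ∞ (u 1)
      rw [this]
      exact ((((sLm 0 _).mul (sR _)).sub ((sLm 0 _).mul (sR _))).neg).div sΔ Δ0
  have pu : ∀ k (y : E4) (i j : ℤ), u k (y + lv i j) = u k y := by
    intro k y i j
    simp only [hu, hΔ]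
    rw [pR (bv 1 0) y i j, pR (bv 0 1) y i j, lLm 0 _ y i j, lLm 0 _ y i j, lLm 1 _ y i j,
      lLm 1 _ y i j]
  have solR0 : ∀ y, R (bv 1 0) y = -(Lm 0 (bv 1 0) y * u 0 y + Lm 1 (bv 1 0) y * u 1 y) := by
    intro y
    rw [u0, u1]
    have := Δ0 y
    field_simp
    simp only [hΔ]; ring
  have solR1 : ∀ y, R (bv 0 1) y = -(Lm 0 (bv 0 1) y * u 0 y + Lm 1 (bv 0 1) y * u 1 y) := by
    intro y
    rw [u0, u1]
    have := Δ0 y
    field_simp
    simp only [hΔ]; ring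
  have du : ∀ k y, DifferentiableAt ℝ (u k) y := fun k y =>
    (su k).contDiffAt.differentiableAt infty_ne_zero
  have dRu : ∀ b : E4, (∀ y, R b y = -(Lm 0 b y * u 0 y + Lm 1 b y * u 1 y)) →
      ∀ y s t, fderiv ℝ (R b) y (lv s t) =
        -(Lm 0 b y * fderiv ℝ (u 0) y (lv s t) + Lm 1 b y * fderiv ℝ (u 1) y (lv s t)) := by
    intro b hb y s t
    have h1 : R b = fun y => -(Lm 0 b y * u 0 y + Lm 1 b y * u 1 y) := funext hb
    rw [h1]
    exact fderiv_neg2 (dLm 0 b y) (du 0 y) (dLm 1 b y) (du 1 y) (lLm 0 b) (lLm 1 b) s t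
  have eqb : ∀ b : E4, (∀ y, R b y = -(Lm 0 b y * u 0 y + Lm 1 b y * u 1 y)) →
      ∀ y s t, m y b (lv s t) = -(Lm 0 b y * (γ 0 y (lv s t) + fderiv ℝ (u 0) y (lv s t))
        + Lm 1 b y * (γ 1 y (lv s t) + fderiv ℝ (u 1) y (lv s t))) := by
    intro b hb y s t
    have h1 := dRu b hb y s t
    rw [fderiv_lv s t] at h1
    rw [(dR b y).1, (dR b y).2] at h1
    have h2 : m y b (lv s t) = s * m y b (lv 1 0) + t * m y b (lv 0 1) := by
      conv_lhs => rw [lv_eq s t, map_add, map_smul, map_smul]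
      rfl
    have h3 : ∀ k, γ k y (lv s t) = s * γ k y (lv 1 0) + t * γ k y (lv 0 1) := by
      intro k
      conv_lhs => rw [lv_eq s t, map_add, map_smul, map_smul]
      rfl
    rw [h2, h3, h3]
    linarith
  refine ⟨L, u, sL, lL, L0, cL, indL, su, pu, ?_⟩
  intro y v s t
  show m y v (lv s t) = _
  have h1 : m y v (lv s t) = v 0 * m y (bv 1 0) (lv s t) + v 1 * m y (bv 0 1) (lv s t) := by
    conv_lhs => rw [decomp v, bv_eq (v 0) (v 1)]
    rw [map_add, map_add, map_smul, map_smul]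
    simp only [add_apply, smul_apply, smul_eq_mul]
    rw [m0 y (v 2) (v 3) s t]; ring
  rw [h1, eqb _ solR0, eqb _ solR1, Fin.sum_univ_two, L_apply, L_apply]
  show _ = -((Lm 0 (bv 1 0) y * v 0 + Lm 0 (bv 0 1) y * v 1) *
    (γ 0 y (lv s t) + fderiv ℝ (u 0) y (lv s t)) +
    (Lm 1 (bv 1 0) y * v 0 + Lm 1 (bv 0 1) y * v 1) *
    (γ 1 y (lv s t) + fderiv ℝ (u 1) y (lv s t)))
  ring

end Tube

end

end Crest.Agent.R235.FibFlux_129
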