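import Crest.Agent.R235.STFProps_861
import Crest.Agent.R240.Lin3
import Crest.Agent.R235.Br281c_819
import Crest.Agent.R281.Hdg5_850
import Crest.Agent.R281.Al4_830
import Crest.Agent.R273.HolF_578
import Crest.Agent.R235.Br281f_819

-- ▼ part R235/NRM_181
section

/-!
Row 235, package STF, leaf NRM (helper181): in a normalised triple `w 0` is `J`-invariant.
-/

set_option autoImplicit false
set_option maxSynthPendingDepth 3

open Set Function Filter
open scoped Manifold ContDiff Topology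

universe u

namespace Crest.Agent.R235.NRM_181

open Crest.Agent.R240 Crest.Agent.R240.Ch Crest.Agent.R235.STF_861

noncomputable section

theorem invp_spos {J : E4 →L[ℝ] E4} (hJ : ∀ v, J (J v) = -v) {a : Bil} (ha : Alt a)
    (ht : ∀ v, v ≠ 0 → 0 < a v (J v)) : SPos J (invp J a) where
  alt v := by rw [invp_apply, ha v, ha (J v)]; ring
  inv u v := by
    rw [invp_apply, invp_apply, hJ, hJ]
    simp only [map_neg, neg_apply, neg_neg]
    ring
  pos v hv := by
    rw [invp_apply, hJ, map_neg, ha.swap (J v) v, neg_neg]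
    have := ht v hv
    linarith

theorem antip_alt {J : E4 →L[ℝ] E4} {a : Bil} (ha : Alt a) : Alt (antip J a) := by
  intro v
  rw [antip_apply, ha v, ha (J v)]; ring

theorem antip_anti {J : E4 →L[ℝ] E4} (hJ : ∀ v, J (J v) = -v) (a : Bil) (u v : E4) :
    antip J a (J u) (J v) = - antip J a u v := by
  rw [antip_apply, antip_apply, hJ, hJ]
  simp only [map_neg, neg_apply, neg_neg]
  ring

/-- an invariant and an anti-invariant form are orthogonal. -/
theorem W_mixed {J : E4 →L[ℝ] E4} {F b c : Bil} {A : E4 ≃L[ℝ] E4} (h : IsFrame J F A)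
    (hb : Alt b) (hc : Alt c) (hbi : ∀ u v, b (J u) (J v) = b u v)
    (hca : ∀ u v, c (J u) (J v) = - c u v) : W b c = 0 := by
  have h1 := W_mixed0 (hc.pull (A : E4 →L[ℝ] E4)) (h.pull_inv hbi) (h.pull_anti hca)
  rw [W_pull hb hc] at h1
  exact (mul_eq_zero.1 h1).resolve_left (det_ne A)

theorem plane {p q b1 b2 c1 c2 : ℝ} (h1 : p * b1 + q * b2 = 0) (h2 : p * c1 + q * c2 = 0)
    (h3 : b1 * c1 + b2 * c2 = 0) (hb : b1 ^ 2 + b2 ^ 2 ≠ 0) (hc : c1 ^ 2 + c2 ^ 2 ≠ 0) :
    p = 0 ∧ q = 0 := by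
  have hd : (b1 * c2 - b2 * c1) ^ 2 = (b1 ^ 2 + b2 ^ 2) * (c1 ^ 2 + c2 ^ 2) := by
    have : (b1 * c2 - b2 * c1) ^ 2 + (b1 * c1 + b2 * c2) ^ 2 =
      (b1 ^ 2 + b2 ^ 2) * (c1 ^ 2 + c2 ^ 2) := by ring
    rw [h3] at this
    linarith
  have hd0 : b1 * c2 - b2 * c1 ≠ 0 := by
    intro h0
    rw [h0] at hd
    have := mul_ne_zero hb hc
    apply this
    linarith
  have hp : p * (b1 * c2 - b2 * c1) = 0 := by linear_combination c2 * h1 - b2 * h2
  have hq : q * (b1 * c2 - b2 * c1) = 0 := by linear_combination b1 * h2 - c1 * h1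
  exact ⟨(mul_eq_zero.1 hp).resolve_right hd0, (mul_eq_zero.1 hq).resolve_right hd0⟩

/-- the pointwise statement. -/
theorem lin {J : E4 →L[ℝ] E4} (hJ : ∀ v, J (J v) = -v) {a b c : Bil} (ha : Alt a) (hb : Alt b)
    (hc : Alt c) (hba : ∀ u v, b (J u) (J v) = - b u v) (hca : ∀ u v, c (J u) (J v) = - c u v)
    (ht : ∀ v, v ≠ 0 → 0 < a v (J v)) (hab : W a b = 0) (hac : W a c = 0) (hbc : W b c = 0)
    (hbb : W b b ≠ 0) (hcc : W c c ≠ 0) (u v : E4) : a (J u) (J v) = a u v := by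
  have hF := invp_spos hJ ha ht
  obtain ⟨A, hA⟩ := exists_frame hJ hF
  have hβ : Alt (antip J a) := antip_alt ha
  have hβa := antip_anti hJ a
  have hsum : a = invp J a + antip J a := (invp_add_antip J a).symm
  have key : ∀ d : Bil, Alt d → (∀ u v, d (J u) (J v) = - d u v) → W a d = 0 →
      W (pull (A : E4 →L[ℝ] E4) (antip J a)) (pull (A : E4 →L[ℝ] E4) d) = 0 := by
    intro d hd hda had
    have h1 : W (antip J a) d = 0 := by
      have h2 := W_mixed hA hF.alt hd hF.inv hda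
      have h3 : W a d = W (invp J a) d + W (antip J a) d := by
        rw [← W_add_left, invp_add_antip]
      rw [had, h2] at h3
      linarith
    rw [W_pull hβ hd, h1, mul_zero]
  have k1 := key b hb hba hab
  have k2 := key c hc hca hac
  have aB := hA.pull_anti hba
  have aC := hA.pull_anti hca
  have aβ := hA.pull_anti hβa
  have pB := hb.pull (A : E4 →L[ℝ] E4)
  have pC := hc.pull (A : E4 →L[ℝ] E4)
  have pβ := hβ.pull (A : E4 →L[ℝ] E4)
  have k3 : W (pull (A : E4 →L[ℝ] E4) b) (pull (A : E4 →L[ℝ] E4) c) = 0 := by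
    rw [W_pull hb hc, hbc, mul_zero]
  have k4 : W (pull (A : E4 →L[ℝ] E4) b) (pull (A : E4 →L[ℝ] E4) b) ≠ 0 := by
    rw [W_pull hb hb]; exact mul_ne_zero (det_ne A) hbb
  have k5 : W (pull (A : E4 →L[ℝ] E4) c) (pull (A : E4 →L[ℝ] E4) c) ≠ 0 := by
    rw [W_pull hc hc]; exact mul_ne_zero (det_ne A) hcc
  rw [W_anti0 pβ pB aβ aB] at k1
  rw [W_anti0 pβ pC aβ aC] at k2
  rw [W_anti0 pB pC aB aC] at k3
  rw [W_anti0 pB pB aB aB] at k4
  rw [W_anti0 pC pC aC aC] at k5
  obtain ⟨hp, hq⟩ := plane (p := ent (pull (A : E4 →L[ℝ] E4) (antip J a)) 0 2)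
    (q := ent (pull (A : E4 →L[ℝ] E4) (antip J a)) 0 3)
    (b1 := ent (pull (A : E4 →L[ℝ] E4) b) 0 2) (b2 := ent (pull (A : E4 →L[ℝ] E4) b) 0 3)
    (c1 := ent (pull (A : E4 →L[ℝ] E4) c) 0 2) (c2 := ent (pull (A : E4 →L[ℝ] E4) c) 0 3)
    (by linarith) (by linarith) (by linarith)
    (by intro h; apply k4; linarith [h, sq (ent (pull (A : E4 →L[ℝ] E4) b) 0 2),
          sq (ent (pull (A : E4 →L[ℝ] E4) b) 0 3)])
    (by intro h; apply k5; linarith [h, sq (ent (pull (A : E4 →L[ℝ] E4) c) 0 2),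
          sq (ent (pull (A : E4 →L[ℝ] E4) c) 0 3)])
  obtain ⟨e13, e12, e01, e23⟩ := anti0_ent pβ aβ
  have hz : pull (A : E4 →L[ℝ] E4) (antip J a) = 0 := by
    apply alt_ext pβ (fun v => rfl)
    · rw [e01, ent_zero]
    · rw [hp, ent_zero]
    · rw [hq, ent_zero]
    · rw [e12, hq, ent_zero]
    · rw [e13, hp, ent_zero, neg_zero]
    · rw [e23, ent_zero]
  have h0 : antip J a u v = 0 := by
    have h1 : pull (A : E4 →L[ℝ] E4) (antip J a) (A.symm u) (A.symm v) = 0 := by rw [hz]; rfl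
    rw [pull_apply] at h1
    simpa using h1
  rw [antip_apply] at h0
  linarith

theorem nrm : STF_861.NRM.{u} := by
  intro M _ _ _ w J hp hn hJ x u v
  obtain ⟨s, hs⟩ := hn x
  have hs0 : s ≠ 0 := by
    have h := hp x (Pi.single 1 1) (by
      intro h
      have := congrFun h 1
      simp at this)
    have e : (∑ i, (Pi.single 1 1 : Fin 3 → ℝ) i • val (w i) x) = val (w 1) x := by
      rw [Fin.sum_univ_three]
      simp [Pi.single_apply]
    rw [e, hs 1 1, if_pos rfl] at h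
    exact h
  refine lin (hJ.sq x) (fun v => (w 0).1.2.1 x v) (fun v => (w 1).1.2.1 x v)
    (fun v => (w 2).1.2.1 x v) (hJ.anti1 x) (hJ.anti2 x) (hJ.tame x) ?_ ?_ ?_ ?_ ?_ u v
  · exact (hs 0 1).trans (by simp)
  · exact (hs 0 2).trans (by simp)
  · exact (hs 1 2).trans (by simp)
  · intro h; exact hs0 (((hs 1 1).trans (if_pos rfl)).symm.trans h)
  · intro h; exact hs0 (((hs 2 2).trans (if_pos rfl)).symm.trans h)


end

end Crest.Agent.R235.NRM_181
end

-- ▼ part R235/HDGa_819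
section

/-!
# R235, package STF, leaf HDG, part 1 (helper819): Hodge decomposition in real charts, dimension 4

* `uniq2` : on a compact connected complex surface every holomorphic 2-form is a multiple of `σ`
* `hdgF`  : `D : HD J om s1 s2` ==> `x = p s1 + q s2 + y + exact`, `y` of type (1,1) for `J`
-/

set_option autoImplicit false
set_option maxSynthPendingDepth 3
set_option linter.unusedSectionVars false

open Set Filter Topology Complex
open scoped Manifold ContDiff Matrix ComplexConjugate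

namespace Crest.Agent.R235.HDGa_819

open Crest.Agent.R240 Crest.Agent.R275.Geo Crest.Agent.R275.Core144 Crest.Agent.R275.GC293
open Crest.Agent.R273 Crest.Agent.R273.Defs_333 Crest.Agent.R273.Kah_333
open Crest.Agent.R281.Defs_273 (H2 HSymp)
open Crest.Agent.R281.HkR_835 hiding pb pb_apply
open Crest.Agent.R281.HkR_835.Cmp
open Crest.Agent.R281.Ti_846 hiding pb pb_apply
open Crest.Agent.R281.NefO_476 Crest.Agent.R281.Nef_252
open Crest.Agent.R281.Al_830
open Crest.Agent.R281.Cdr_234 (exS)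
open Crest.Agent.R281.Dif_268 (Eqv)
open Crest.Agent.R235.Br281c_819

noncomputable section

section Alg

/-- alternating two-by-two matrices -/
theorem alt2 {m : Matrix (Fin 2) (Fin 2) ℂ} (h : mᵀ = -m) :
    m 0 0 = 0 ∧ m 1 1 = 0 ∧ m 1 0 = - m 0 1 := by
  have h0 := congrFun (congrFun h 0) 0
  have h1 := congrFun (congrFun h 1) 1
  have h2 := congrFun (congrFun h 0) 1
  simp only [Matrix.transpose_apply, Matrix.neg_apply] at h0 h1 h2
  refine ⟨?_, ?_, h2⟩
  · have : (2 : ℂ) * m 0 0 = 0 := by linear_combination h0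
    simpa using this
  · have : (2 : ℂ) * m 1 1 = 0 := by linear_combination h1
    simpa using this

theorem alt2_det {m : Matrix (Fin 2) (Fin 2) ℂ} (h : mᵀ = -m) : m.det = m 0 1 ^ 2 := by
  obtain ⟨h0, h1, h2⟩ := alt2 h
  rw [Matrix.det_fin_two, h0, h1, h2]
  ring

theorem alt2_tr {m : Matrix (Fin 2) (Fin 2) ℂ} (h : mᵀ = -m) (J : Matrix (Fin 2) (Fin 2) ℂ) :
    (Jᵀ * m * J) 0 1 = J.det * m 0 1 := by
  obtain ⟨h0, h1, h2⟩ := alt2 h
  rw [Matrix.det_fin_two]
  simp only [Matrix.mul_apply, Fin.sum_univ_two, Matrix.transpose_apply, h0, h1, h2]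
  ring

theorem alt2_eq {m m' : Matrix (Fin 2) (Fin 2) ℂ} (h : mᵀ = -m) (h' : m'ᵀ = -m') {c : ℂ}
    (e : m 0 1 = c * m' 0 1) : m = c • m' := by
  obtain ⟨h0, h1, h2⟩ := alt2 h
  obtain ⟨k0, k1, k2⟩ := alt2 h'
  ext i j
  rw [Matrix.smul_apply, smul_eq_mul]
  fin_cases i <;> fin_cases j
  · show m 0 0 = c * m' 0 0
    rw [h0, k0, mul_zero]
  · exact e
  · show m 1 0 = c * m' 1 0
    rw [h2, k2, e]; ring
  · show m 1 1 = c * m' 1 1
    rw [h1, k1, mul_zero]

end Alg

/-- on a compact connected complex surface, every holomorphic 2-form is a multiple of `σ` -/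
theorem uniq2 {X : Type} [TopologicalSpace X] [CompactSpace X] [ConnectedSpace X] {A : Atl 2 X}
    (σ : HSymp A) : σ.Uniq := by
  classical
  intro τ
  let ch : X → A.ι := fun x => (A.cover x).choose
  have hch : ∀ x, x ∈ (A.e (ch x)).source := fun x => (A.cover x).choose_spec
  have h0 : ∀ i, ∀ x ∈ (A.e i).source, σ.s i x 0 1 ≠ 0 := by
    intro i x hx h
    have := σ.nd i x hx
    rw [alt2_det (σ.alt i x hx), h] at this
    simp at this
  let t : A.ι → X → ℂ := fun i x => τ.s i x 0 1 * (σ.s i x 0 1)⁻¹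
  have htr : ∀ i j, ∀ x, x ∈ (A.e i).source → x ∈ (A.e j).source → t i x = t j x := by
    intro i j x hi hj
    have e1 := congrFun (congrFun (τ.tr i j x ⟨hi, hj⟩) 0) 1
    have e2 := congrFun (congrFun (σ.tr i j x ⟨hi, hj⟩) 0) 1
    rw [alt2_tr (τ.alt j x hj)] at e1
    rw [alt2_tr (σ.alt j x hj)] at e2
    have hd : (Jm A i j x).det ≠ 0 := by
      intro h
      rw [h, zero_mul] at e2
      exact h0 i x hi e2
    show τ.s i x 0 1 * (σ.s i x 0 1)⁻¹ = τ.s j x 0 1 * (σ.s j x 0 1)⁻¹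
    rw [e1, e2, mul_inv]
    field_simp
  let f : X → ℂ := fun x => t (ch x) x
  have hft : ∀ i, ∀ x ∈ (A.e i).source, f x = t i x := fun i x hx => htr _ _ x (hch x) hx
  have hf : ∀ i, HolAt A i univ f := by
    intro i
    refine HolAt.congr (f := t i) ?_ fun x hx _ => (hft i x hx).symm
    exact (τ.hol i 0 1).mul ((σ.hol i 0 1).inv fun x hx _ => h0 i x hx)
  obtain ⟨x0⟩ := (inferInstance : Nonempty X)
  refine ⟨f x0, fun i x hx => ?_⟩
  refine alt2_eq (τ.alt i x hx) (σ.alt i x hx) ?_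
  have e : f x = f x0 := Crest.Agent.R273.HolF_578.hol_const hf x x0
  rw [← e, hft i x hx]
  show τ.s i x 0 1 = τ.s i x 0 1 * (σ.s i x 0 1)⁻¹ * σ.s i x 0 1
  rw [mul_assoc, inv_mul_cancel₀ (h0 i x hx), mul_one]

variable {X : Type} [TopologicalSpace X] {C : RCh E4 X}

/-- **Hodge decomposition** of a closed form in real charts -/
theorem hdgF [T2Space X] [CompactSpace X] [ConnectedSpace X] {J : AJ C} {om s1 s2 : F2 C}
    (D : HD J om s1 s2) (x : F2 C) :
    ∃ (p q : ℝ) (y : F2 C), T11 J y ∧ Ex (x - (p • s1 + q • s2 + y)) := by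
  obtain ⟨A, hfin, hgood, ⟨PA⟩, h, hI⟩ := exists_atlas (d := 2) finrank_E4 D.cx
  set K : Kah A := D.K hI h with hK
  set S : HSymp A := D.S hI h with hS
  have hu : S.Uniq := uniq2 S
  obtain ⟨p, q, y, hy, e, he, hx⟩ := Crest.Agent.R281.Hdg_850.h1 PA K (D.S_cl hI h) hu (h.F x)
  refine ⟨p, q, h.symm.F y, ?_, ?_⟩
  · intro i z hz a b
    obtain ⟨j, hj⟩ := exists_mov (C' := C) (ofAtl A) (j := i) hz
    rw [h.symm.F_w y hj, h.symm.F_w y hj, hI.back h hj, hI.back h hj]
    exact hy _ _ (mt_mem hj).1 _ _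
  · have h1 : Ex (h.symm.F e) := Crest.Agent.R281.HkR_835.ex_F h.symm he
    refine Eqv.ex (w := h.symm.F e) ?_ h1
    intro i z hz a b
    obtain ⟨j, hj⟩ := exists_mov (C' := C) (ofAtl A) (j := i) hz
    have hzt := (mt_mem hj).1
    set z' := mt (ofAtl A) C j i z with hz'
    set Dm := fderiv ℝ (mt (ofAtl A) C j i) z with hDm
    have e0 : (h.F x).w j z' (Dm a) (Dm b) = p * (h.F s1).w j z' (Dm a) (Dm b) +
        q * (h.F s2).w j z' (Dm a) (Dm b) + y.w j z' (Dm a) (Dm b) + e.w j z' (Dm a) (Dm b) := by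
      rw [← D.S_re hI h hzt, ← D.S_im hI h hzt]
      have := congrArg (fun w : F2 (ofAtl A) => w.w j z' (Dm a) (Dm b)) hx
      exact this
    have g1 : ∀ w : F2 C, (h.F w).w j z' (Dm a) (Dm b) = w.w i z a b := by
      intro w
      have := Crest.Agent.R281.HkR_835.F_F h w i z hz a b
      rw [← this, h.symm.F_w _ hj]
    rw [g1, g1, g1] at e0
    have g2 : ∀ w : F2 (ofAtl A), (h.symm.F w).w i z a b = w.w j z' (Dm a) (Dm b) := fun w =>
      h.symm.F_w w hj a b
    show (h.symm.F e).w i z a b = x.w i z a b - (p * s1.w i z a b + q * s2.w i z a b +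
      (h.symm.F y).w i z a b)
    rw [g2, g2, e0]
    ring

theorem ex_comb {x s1 s2 y y' : F2 C} {p q : ℝ} (e : Eqv y' y)
    (h : Ex (x - (p • s1 + q • s2 + y))) : Ex (x - (p • s1 + q • s2 + y')) := by
  refine Eqv.ex ?_ h
  intro i z hz u v
  have h1 := e i z hz u v
  show x.w i z u v - (p * s1.w i z u v + q * s2.w i z u v + y.w i z u v) =
    x.w i z u v - (p * s1.w i z u v + q * s2.w i z u v + y'.w i z u v)
  rw [h1]

end

end Crest.Agent.R235.HDGa_819
end

-- ▼ part R235/HDG_819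

/-!
# R235, package STF, leaf HDG (helper819)

* `hd_of` : the structure `HD` of R281 from `IsJ w J`, normalised pair
* `hdg` : `STF_861.HDG` : a class orthogonal to the pair has a `J`-invariant representative
-/

set_option autoImplicit false
set_option maxSynthPendingDepth 3

open Set Filter Topology MeasureTheory
open scoped Manifold ContDiff

namespace Crest.Agent.R235.HDG_819

open Crest.Agent.R240 Crest.Agent.R240.Ch Crest.Agent.R240.Int Crest.Agent.R235 Crest.Agent.R235.Br281_819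
open Crest.Agent.R235.Br281d_819 Crest.Agent.R235.Br281e_819

noncomputable section

variable {M : Type} [TopologicalSpace M] [ChartedSpace E4 M] [IsManifold 𝓘(ℝ, E4) ∞ M]

/-- the structure `HD` of R281 -/
theorem hd_of [ConnectedSpace M] {w : Trip M} {J : EndF E4 M} (hJ : IsJ w J)
    (h11 : ∀ x, W (val (w 1) x) (val (w 1) x) = W (val (w 2) x) (val (w 2) x))
    (h12 : ∀ x, W (val (w 1) x) (val (w 2) x) = 0)
    (h0 : ∀ x, W (val (w 1) x) (val (w 1) x) ≠ 0)
    {a : Z2 M} (hi : JInv J a) (hp : JPos J a) :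
    ∃ r : ℝ, (r = 1 ∨ r = -1) ∧ Crest.Agent.R281.Al_830.HD (toA J hJ.smooth) (toF a)
      (toF (w 1)) (toF ((-r) • w 2)) := by
  obtain ⟨r, hr, hg⟩ := glob_sign hJ h11 h12 h0
  have hrr : r * r = 1 := by rcases hr with rfl | rfl <;> norm_num
  have hs2 : ∀ x u v, val ((-r) • w 2) x u v = - val (w 1) x (atJ J x u) v := by
    intro x u v
    rw [val_smul, smul_apply, smul_apply, smul_eq_mul, hg]
    linear_combination (- val (w 1) x (atJ J x u) v) * hrr
  refine ⟨r, hr, (sq_iff hJ.smooth).2 hJ.sq, (t11_iff hJ.smooth).2 hi,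
    (pos_iff hJ.smooth).2 hp, fun p z hz u v => ?_, fun p z hz u hu => ?_⟩
  · have e1 := toF_pair (p := (show M from p)) (z := z) (w 1)
      ((toA J hJ.smooth).J (show M from p) z u) v
    have e2 := toF_pair (p := (show M from p)) (z := z) ((-r) • w 2) u v
    have e3 := toA_apply J hJ.smooth (p := (show M from p)) hz u
    have e4 := hs2 ((chartAt E4 (show M from p)).symm z)
      (tcc (show M from p) ((chartAt E4 (show M from p)).symm z)
        ((chartAt E4 (show M from p)).symm z) u)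
      (tcc (show M from p) ((chartAt E4 (show M from p)).symm z)
        ((chartAt E4 (show M from p)).symm z) v)
    rw [e3] at e1
    exact e1.trans (by rw [e2, e4, neg_neg])
  · set x := (chartAt E4 (show M from p)).symm z with hx
    have hxs : x ∈ (chartAt E4 (show M from p)).source := symm_mem hz
    obtain ⟨A, hA⟩ := exists_frame (hJ.sq x) (inv_spos (hJ.sq x) (alt_val (w 0) x) (hJ.tame x))
    refine tcc_bij hxs ?_
    refine anti_nd hA.cplx (alt_val (w 1) x) (hJ.anti1 x) (h0 x) fun v => ?_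
    have e1 := hu (tcc x (show M from p) x v)
    have e2 := toF_pair (p := (show M from p)) (z := z) (w 1) u (tcc x (show M from p) x v)
    rw [← hx, tcc_cancel' hxs] at e2
    exact e2.symm.trans e1

variable [T2Space M] [CompactSpace M]

/-- pointwise orthogonal forms -/
theorem pI_zero {F a b : Z2 M} (h : ∀ x, W (val a x) (val b x) = 0) : pI F a b = 0 := by
  let _ : MeasurableSpace M := borel M
  have _ : BorelSpace M := ⟨rfl⟩
  show ∫ x, qG (F.1.1 : F2 E4 M) (a.1.1 : F2 E4 M) (b.1.1 : F2 E4 M) x ∂_ = 0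
  have e : ∀ x, qG (F.1.1 : F2 E4 M) (a.1.1 : F2 E4 M) (b.1.1 : F2 E4 M) x = 0 := by
    intro x
    show W (val a x) (val b x) / _ = 0
    rw [h x, zero_div]
  simp only [e, integral_zero]

omit [T2Space M] [CompactSpace M] in
theorem cls_comb (p q r : ℝ) (a b c : Z2 M) :
    cls (p • a + q • (r • b) + c) = p • cls a + (q * r) • cls b + cls c := by
  have h1 : cls (p • a + q • (r • b) + c) = cls (p • a + q • (r • b)) + cls c := map_add _ _ _
  have h2 : cls (p • a + q • (r • b)) = cls (p • a) + cls (q • (r • b)) := map_add _ _ _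
  have h3 : cls (p • a) = p • cls a := map_smul _ _ _
  have h4 : q • (r • b) = (q * r) • b := smul_smul _ _ _
  have h5 : cls ((q * r) • b) = (q * r) • cls b := map_smul _ _ _
  have h6 : cls (q • (r • b)) = (q * r) • cls b := (congrArg (fun z => cls z) h4).trans h5
  exact h1.trans (congrArg (fun z => z + cls c) (h2.trans (congrArg₂ (fun z z' => z + z') h3 h6)))

/-- Hodge decomposition over `Defs_837` -/
theorem hodge [ConnectedSpace M] {w : Trip M} {J : EndF E4 M} (hJ : IsJ w J)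
    (h11 : ∀ x, W (val (w 1) x) (val (w 1) x) = W (val (w 2) x) (val (w 2) x))
    (h12 : ∀ x, W (val (w 1) x) (val (w 2) x) = 0)
    (h0 : ∀ x, W (val (w 1) x) (val (w 1) x) ≠ 0)
    {a : Z2 M} (hi : JInv J a) (hp : JPos J a) (b : Z2 M) :
    ∃ (p q : ℝ) (y : Z2 M), JInv J y ∧ cls b = p • cls (w 1) + q • cls (w 2) + cls y := by
  obtain ⟨r, -, D⟩ := hd_of hJ h11 h12 h0 hi hp
  obtain ⟨p, q, y, hy, hex⟩ := Crest.Agent.R235.HDGa_819.hdgF D (toF b)
  have hy' : JInv J (ofF y) := (t11_iff hJ.smooth).1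
    (fun p z hz u v => by
      have e := toF_ofF y
      rw [e p z hz, e p z hz]
      exact hy p z hz u v)
  refine ⟨p, q * (-r), ofF y, hy', ?_⟩
  have e1 : cls b = cls (p • w 1 + q • ((-r) • w 2) + ofF y) := by
    rw [cls_eq_iff]
    rw [toF_add, toF_add, toF_smul, toF_smul]
    exact Crest.Agent.R235.HDGa_819.ex_comb (toF_ofF y) hex
  exact e1.trans (cls_comb p q (-r) (w 1) (w 2) (ofF y))

theorem zero_comb {V : Type*} [AddCommGroup V] [Module ℝ V] {p q : ℝ} {z a b c : V}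
    (h : z = p • a + q • b + c) (hp : p = 0) (hq : q = 0) : c = z := by
  subst hp hq
  rw [h, zero_smul, zero_smul, zero_add, zero_add]

theorem ip_comb {F : Z2 M} (hF : Vol (F.1.1 : F2 E4 M)) {p q : ℝ} {z a b c d : H2 M}
    (h : z = p • a + q • b + c) : ip F z d = p * ip F a d + q * ip F b d + ip F c d := by
  subst h
  have h1 : ip F (p • a + q • b + c) d = ip F (p • a + q • b) d + ip F c d := ip_add_left hF _ _ _
  have h2 : ip F (p • a + q • b) d = ip F (p • a) d + ip F (q • b) d := ip_add_left hF _ _ _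
  have h3 : ip F (p • a) d = p * ip F a d := ip_smul_left hF _ _ _
  have h4 : ip F (q • b) d = q * ip F b d := ip_smul_left hF _ _ _
  rw [h1, h2, h3, h4]

theorem ar1 {z A B C p q : ℝ} (e : z = p * A + q * B + C) (k : z = 0) (b : B = 0) (c : C = 0)
    (hA : A ≠ 0) : p = 0 := by
  subst k b c
  have h : p * A = 0 := by linarith
  exact (mul_eq_zero.1 h).resolve_right hA

theorem ar2 {z A B C p q : ℝ} (e : z = p * A + q * B + C) (k : z = 0) (a : A = 0) (c : C = 0)
    (hB : B ≠ 0) : q = 0 := by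
  subst k a c
  have h : q * B = 0 := by linarith
  exact (mul_eq_zero.1 h).resolve_right hB

theorem hdg : STF_861.HDG := by
  intro M _ _ _ _ _ _ w J hw hn hJ a h1 h2
  have hW : ∀ x (i j : Fin 3), i ≠ j → W (val (w i) x) (val (w j) x) = 0 := by
    intro x i j hij
    obtain ⟨s, hs⟩ := hn x
    rw [hs, if_neg hij]
  have h11 : ∀ x, W (val (w 1) x) (val (w 1) x) = W (val (w 2) x) (val (w 2) x) := by
    intro x
    obtain ⟨s, hs⟩ := hn x
    rw [hs, hs, if_pos rfl, if_pos rfl]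
  have hi : JInv J (w 0) := NRM_181.nrm M w J hw hn hJ
  have hp : JPos J (w 0) := fun x v hv => hJ.tame x v hv
  have h0 : ∀ x, W (val (w 1) x) (val (w 1) x) ≠ 0 := fun x => Br281f_819.Pos3.ne w hw 1 x
  obtain ⟨p, q, y, hy, hc⟩ := hodge hJ h11 (fun x => hW x 1 2 (by decide)) h0 hi hp a
  refine ⟨y, ?_, hy⟩
  have hV := hw.vol 0
  have hym : ∀ x, ∀ b : Z2 M, (∀ u v, val b x (atJ J x u) (atJ J x v) = - val b x u v) →
      W (val y x) (val b x) = 0 := by
    intro x b hb
    have hS : SPos (atJ J x) (val (w 0) x) := ⟨alt_val _ x, hi x, hp x⟩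
    obtain ⟨A, hA⟩ := exists_frame (hJ.sq x) hS
    exact NRM_181.W_mixed hA (alt_val _ x) (alt_val _ x) (hy x) hb
  have k1 : ip (w 0) (cls a) (cls (w 1)) = 0 := (ip_cls hV _ _).trans h1
  have k2 : ip (w 0) (cls a) (cls (w 2)) = 0 := (ip_cls hV _ _).trans h2
  have g12 : ip (w 0) (cls (w 1)) (cls (w 2)) = 0 :=
    (ip_cls hV _ _).trans (pI_zero fun x => hW x 1 2 (by decide))
  have g21 : ip (w 0) (cls (w 2)) (cls (w 1)) = 0 :=
    (ip_cls hV _ _).trans (pI_zero fun x => hW x 2 1 (by decide))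
  have gy1 : ip (w 0) (cls y) (cls (w 1)) = 0 :=
    (ip_cls hV _ _).trans (pI_zero fun x => hym x _ (hJ.anti1 x))
  have gy2 : ip (w 0) (cls y) (cls (w 2)) = 0 :=
    (ip_cls hV _ _).trans (pI_zero fun x => hym x _ (hJ.anti2 x))
  have hp0 : p = 0 := ar1 (ip_comb hV hc) k1 g21 gy1 (hw.ip_self_pos 0 1).ne'
  have hq0 : q = 0 := ar2 (ip_comb hV hc) k2 g12 gy2 (hw.ip_self_pos 0 2).ne'
  exact zero_comb hc hp0 hq0

end

end Crest.Agent.R235.HDG_819
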