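import Crest.Agent.R235.IndAlg_167
import Crest.Agent.R249.Tz6_805

/-!
Row 235, package IND (helper167), part 3: quaternionic structures `QS` on a Riemannian
four-manifold (instance setting of R249), adapted local frames, the three vector fields `etaV`.

* `QS M` : `I b p : E4 →L E4` (b : Fin 3), skew, `I_b² = -1`, `I_0 I_1 = I_2`, smooth;
* `ap q b X` : the vector field `I_b X`;
* `Adp q z e` : the chart frame `e` is adapted: `e_{b+1} = - I_b e_0` (near the centre);
* `exists_adp` : adapted orthonormal frames (`ONF`) exist at every point;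
* `vg_ap` : the components of `I_b X` in an adapted frame are `K b *ᵥ X`;
* `etaV q s c` : vector field dual to `eta_c`;  `vg_etaV : vg z e (etaV q s c) k = eta F k c`.
-/

set_option autoImplicit false
set_option maxSynthPendingDepth 3
set_option linter.unusedSectionVars false
set_option linter.unusedSimpArgs false

open Filter Topology Set Bundle Manifold
open Matrix hiding J
open scoped ContDiff Kronecker
open Crest.GeometryTopology.CoordMetric Crest.GeometryTopology.ChartCurvature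
  Crest.GeometryTopology.PointedLimit
open Crest.Agent.R202.Tens Crest.Agent.R247.Bo84 Crest.Agent.R249.FrmB_285 Crest.Agent.R249.Vf281
  Crest.Agent.R249.Tz1_805 Crest.Agent.R249.Tz2_805
open Crest.Agent.R249.Fr129
open Crest.Agent.R249.C2_198 hiding cp half_two
open Crest.Agent.R249.Sg129 hiding fg fg_add fg_sub fg_mul fg_const fg_sum ev_fg contMDiff_inner VSm_mCov
open Crest.Agent.R249.Fr129.Frame (half two_half)
open Crest.Agent.R249.Tz805 Crest.Agent.R249.Dic805
open Crest.Agent.R235.IndAlg_167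

noncomputable section

namespace Crest.Agent.R235.Ind167

variable {M : Type*} [TopologicalSpace M] [ChartedSpace (EuclideanSpace ℝ (Fin 4)) M]
  [IsManifold 𝓘(ℝ, EuclideanSpace ℝ (Fin 4)) ∞ M]
  [RiemannianBundle (fun x : M => TangentSpace 𝓘(ℝ, EuclideanSpace ℝ (Fin 4)) x)]
  [IsContMDiffRiemannianBundle 𝓘(ℝ, EuclideanSpace ℝ (Fin 4)) ∞ (EuclideanSpace ℝ (Fin 4))
      (fun x : M => TangentSpace 𝓘(ℝ, EuclideanSpace ℝ (Fin 4)) x)]

local notation "𝔼" => EuclideanSpace ℝ (Fin 4)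
local notation "𝓘E" => 𝓘(ℝ, EuclideanSpace ℝ (Fin 4))

/-- an endomorphism of the model space acting on tangent vectors -/
def opT (A : EuclideanSpace ℝ (Fin 4) →L[ℝ] EuclideanSpace ℝ (Fin 4)) (p : M)
    (u : TangentSpace 𝓘(ℝ, EuclideanSpace ℝ (Fin 4)) p) :
    TangentSpace 𝓘(ℝ, EuclideanSpace ℝ (Fin 4)) p :=
  (A u : EuclideanSpace ℝ (Fin 4))

variable (M) in
/-- a smooth orthogonal quaternionic structure -/
structure QS where
  /-- the three endomorphism fields -/
  I : Fin 3 → M → (EuclideanSpace ℝ (Fin 4) →L[ℝ] EuclideanSpace ℝ (Fin 4))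
  sm : ∀ (b : Fin 3) (X : (p : M) → TangentSpace 𝓘(ℝ, EuclideanSpace ℝ (Fin 4)) p) (z : M),
    VSm 4 ∞ X z → VSm 4 ∞ (fun p => opT (I b p) p (X p)) z
  skew : ∀ (b : Fin 3) (p : M) (u v : TangentSpace 𝓘(ℝ, EuclideanSpace ℝ (Fin 4)) p),
    inner ℝ (opT (I b p) p u) v = - inner ℝ u (opT (I b p) p v)
  sq : ∀ (b : Fin 3) (p : M) (u : TangentSpace 𝓘(ℝ, EuclideanSpace ℝ (Fin 4)) p),
    opT (I b p) p (opT (I b p) p u) = -u
  mul : ∀ (p : M) (u : TangentSpace 𝓘(ℝ, EuclideanSpace ℝ (Fin 4)) p),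
    opT (I 0 p) p (opT (I 1 p) p u) = opT (I 2 p) p u

namespace QS

variable (q : QS M)

/-- `I_b` at `p` -/
def op (b : Fin 3) (p : M) (u : TangentSpace 𝓘(ℝ, EuclideanSpace ℝ (Fin 4)) p) :
    TangentSpace 𝓘(ℝ, EuclideanSpace ℝ (Fin 4)) p := opT (q.I b p) p u

/-- the vector field `I_b X` -/
def ap (b : Fin 3) (X : (p : M) → TangentSpace 𝓘(ℝ, EuclideanSpace ℝ (Fin 4)) p) (p : M) :
    TangentSpace 𝓘(ℝ, EuclideanSpace ℝ (Fin 4)) p := q.op b p (X p)

lemma VSm_ap (b : Fin 3) {X : (p : M) → TangentSpace 𝓘(ℝ, EuclideanSpace ℝ (Fin 4)) p} {z : M}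
    (hX : VSm 4 ∞ X z) : VSm 4 ∞ (q.ap b X) z := q.sm b X z hX

lemma op_add (b : Fin 3) (p : M) (u v : TangentSpace 𝓘E p) :
    q.op b p (u + v) = q.op b p u + q.op b p v := map_add (q.I b p) u v

lemma op_neg (b : Fin 3) (p : M) (u : TangentSpace 𝓘E p) :
    q.op b p (-u) = - q.op b p u := map_neg (q.I b p) u

lemma op_smul (b : Fin 3) (p : M) (c : ℝ) (u : TangentSpace 𝓘E p) :
    q.op b p (c • u) = c • q.op b p u := map_smul (q.I b p) c u

lemma op_sum (b : Fin 3) (p : M) {ι : Type*} (t : Finset ι) (u : ι → TangentSpace 𝓘E p) :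
    q.op b p (∑ i ∈ t, u i) = ∑ i ∈ t, q.op b p (u i) :=
  map_sum (q.I b p) (fun i => (u i : 𝔼)) t

lemma op_op (b : Fin 3) (p : M) (u : TangentSpace 𝓘E p) : q.op b p (q.op b p u) = -u := q.sq b p u

lemma op_skew (b : Fin 3) (p : M) (u v : TangentSpace 𝓘E p) :
    inner ℝ (q.op b p u) v = - inner ℝ u (q.op b p v) := q.skew b p u v

lemma op01 (p : M) (u : TangentSpace 𝓘E p) : q.op 0 p (q.op 1 p u) = q.op 2 p u := q.mul p u

lemma op02 (p : M) (u : TangentSpace 𝓘E p) : q.op 0 p (q.op 2 p u) = - q.op 1 p u := by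
  rw [← q.op01, q.op_op]


lemma op10 (p : M) (u : TangentSpace 𝓘E p) : q.op 1 p (q.op 0 p u) = - q.op 2 p u := by
  refine ext_inner_right ℝ fun x => ?_
  rw [q.op_skew, q.op_skew, q.op01, inner_neg_left, q.op_skew]

lemma op20 (p : M) (u : TangentSpace 𝓘E p) : q.op 2 p (q.op 0 p u) = q.op 1 p u := by
  refine ext_inner_right ℝ fun x => ?_
  rw [q.op_skew, q.op_skew, q.op02, inner_neg_right, q.op_skew, neg_neg]

lemma op21 (p : M) (u : TangentSpace 𝓘E p) : q.op 2 p (q.op 1 p u) = - q.op 0 p u := by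
  rw [← q.op01, q.op_op, q.op_neg]

lemma op12 (p : M) (u : TangentSpace 𝓘E p) : q.op 1 p (q.op 2 p u) = q.op 0 p u := by
  refine ext_inner_right ℝ fun x => ?_
  rw [q.op_skew, q.op_skew, q.op21, inner_neg_right, q.op_skew, neg_neg]

lemma inner_op (b : Fin 3) (p : M) (u v : TangentSpace 𝓘E p) :
    inner ℝ (q.op b p u) (q.op b p v) = (inner ℝ u v : ℝ) := by
  rw [q.op_skew, q.op_op, inner_neg_right, neg_neg]

lemma inner_self_op (b : Fin 3) (p : M) (u : TangentSpace 𝓘E p) :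
    (inner ℝ u (q.op b p u) : ℝ) = 0 := by
  have h := q.op_skew b p u u
  rw [real_inner_comm] at h
  linarith

/-- the adapted frame of a unit vector -/
def fr (p : M) (u : TangentSpace 𝓘(ℝ, EuclideanSpace ℝ (Fin 4)) p) :
    Fin 4 → TangentSpace 𝓘(ℝ, EuclideanSpace ℝ (Fin 4)) p :=
  ![u, - q.op 0 p u, - q.op 1 p u, - q.op 2 p u]

lemma fr_orth (p : M) {u : TangentSpace 𝓘E p} (hu : (inner ℝ u u : ℝ) = 1) (i j : Fin 4) :
    (inner ℝ (q.fr p u i) (q.fr p u j) : ℝ) = if i = j then 1 else 0 := by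
  have h0 : ∀ b, (inner ℝ u (q.op b p u) : ℝ) = 0 := fun b => q.inner_self_op b p u
  have h0' : ∀ b, (inner ℝ (q.op b p u) u : ℝ) = 0 := fun b => by rw [real_inner_comm]; exact h0 b
  have h1 : ∀ b, (inner ℝ (q.op b p u) (q.op b p u) : ℝ) = 1 := fun b => by
    rw [q.inner_op, hu]
  have h01 : (inner ℝ (q.op 0 p u) (q.op 1 p u) : ℝ) = 0 := by
    rw [q.op_skew, q.op01, h0, neg_zero]
  have h02 : (inner ℝ (q.op 0 p u) (q.op 2 p u) : ℝ) = 0 := by
    rw [q.op_skew, q.op02, inner_neg_right, h0, neg_zero, neg_zero]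
  have h12 : (inner ℝ (q.op 1 p u) (q.op 2 p u) : ℝ) = 0 := by
    rw [q.op_skew, q.op12, h0, neg_zero]
  have h10 : (inner ℝ (q.op 1 p u) (q.op 0 p u) : ℝ) = 0 := by rw [real_inner_comm]; exact h01
  have h20 : (inner ℝ (q.op 2 p u) (q.op 0 p u) : ℝ) = 0 := by rw [real_inner_comm]; exact h02
  have h21 : (inner ℝ (q.op 2 p u) (q.op 1 p u) : ℝ) = 0 := by rw [real_inner_comm]; exact h12
  fin_cases i <;> fin_cases j <;>
    simp [-inner_self_eq_norm_sq_to_K, fr, inner_neg_left,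
      inner_neg_right, hu, h0, h0', h1, h01, h02, h12, h10, h20, h21]

lemma op_fr (p : M) (u : TangentSpace 𝓘E p) (b : Fin 3) (k : Fin 4) :
    q.op b p (q.fr p u k) = ∑ l, K ℝ b l k • q.fr p u l := by
  rw [Fin.sum_univ_four]
  fin_cases b <;> fin_cases k <;>
    simp [fr, K, q.op_neg, q.op_op, q.op01, q.op02, q.op10, q.op12, q.op20, q.op21]

end QS

/-! ### adapted frames in charts -/

section adapted

variable (q : QS M)

/-- `e` is adapted to `q` near the centre of the chart at `z` -/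
def Adp (z : M) (e : Fin 4 → EuclideanSpace ℝ (Fin 4) → EuclideanSpace ℝ (Fin 4)) : Prop :=
  ∀ᶠ y in 𝓝 (chartCentre 4 M z), ∀ k, tvy z y (e k y)
    = q.fr ((chartAt (EuclideanSpace ℝ (Fin 4)) z).symm y) (tvy z y (e 0 y)) k

lemma tvy_vCh {z : M} {y : 𝔼} (hy : y ∈ (chartAt 𝔼 z).target)
    (X : (p : M) → TangentSpace 𝓘(ℝ, EuclideanSpace ℝ (Fin 4)) p) :
    tvy z y (vCh 4 z X y) = X ((chartAt 𝔼 z).symm y) := dSy_vCh hy

lemma fld_symm {z : M} {y : 𝔼} (hy : y ∈ (chartAt 𝔼 z).target) (V : 𝔼 → 𝔼) :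
    fld z V ((chartAt 𝔼 z).symm y) = tvy z y (V y) := by
  have h : chartAt 𝔼 z ((chartAt 𝔼 z).symm y) = y := (chartAt 𝔼 z).right_inv hy
  rw [fld, tvy]
  rw [h]

theorem exists_adp (z : M) : ∃ e, ∃ _ : ONF (chartMetric 4 M z)
    (chartAt (EuclideanSpace ℝ (Fin 4)) z).target (chartCentre 4 M z) e, Adp q z e := by
  obtain ⟨e', he', ho'⟩ := exists_frame_on (isRiemannianOn_chartMetric (n := 4) z)
  set v : 𝔼 → 𝔼 := e' 0 with hv
  let E : Fin 4 → 𝔼 → 𝔼 := ![v, fun y => - vCh 4 z (q.ap 0 (fld z v)) y,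
    fun y => - vCh 4 z (q.ap 1 (fld z v)) y, fun y => - vCh 4 z (q.ap 2 (fld z v)) y]
  have hmem := centre_mem (n := 4) z
  have hneg : ∀ (y u : 𝔼), tvy z y (-u) = - tvy z y u := fun y u => map_neg (dSy z y) u
  have hE : ∀ y ∈ (chartAt 𝔼 z).target, ∀ k, tvy z y (E k y)
      = q.fr ((chartAt 𝔼 z).symm y) (tvy z y (v y)) k := by
    intro y hy k
    have h1 : ∀ b, tvy z y (- vCh 4 z (q.ap b (fld z v)) y)
        = - q.op b ((chartAt 𝔼 z).symm y) (tvy z y (v y)) := by
      intro b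
      rw [hneg, tvy_vCh hy, QS.ap, fld_symm hy]
    fin_cases k
    · rfl
    · exact h1 0
    · exact h1 1
    · exact h1 2
  have hunit : ∀ y ∈ (chartAt 𝔼 z).target, (inner ℝ (tvy z y (v y)) (tvy z y (v y)) : ℝ) = 1 := by
    intro y hy
    rw [inner_tvy hy]
    have := (ho' y hy).1 0 0
    simpa using this
  have hsm : ∀ b, ContDiffAt ℝ ∞ (fun y => - vCh 4 z (q.ap b (fld z v)) y) (chartCentre 4 M z) := by
    intro b
    have h1 : VSm 4 ∞ (fld z v) z := VSm_fld z (he' 0) (mem_chart_source 𝔼 z)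
    exact ContDiffAt.neg (q.VSm_ap b h1)
  refine ⟨E, ⟨isRiemannianOn_chartMetric z, hmem, ?_, ?_⟩, ?_⟩
  · intro i
    fin_cases i
    · exact (he' 0).contDiffAt ((chartAt 𝔼 z).open_target.mem_nhds hmem)
    · exact hsm 0
    · exact hsm 1
    · exact hsm 2
  · filter_upwards [(chartAt 𝔼 z).open_target.mem_nhds hmem] with y hy
    intro i j
    rw [← inner_tvy hy, hE y hy, hE y hy]
    exact q.fr_orth _ (hunit y hy) i j
  · filter_upwards [(chartAt 𝔼 z).open_target.mem_nhds hmem] with y hy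
    intro k
    exact hE y hy k

variable {q} {z : M} {e : Fin 4 → EuclideanSpace ℝ (Fin 4) → EuclideanSpace ℝ (Fin 4)}
  (h : ONF (chartMetric 4 M z) (chartAt (EuclideanSpace ℝ (Fin 4)) z).target
      (chartCentre 4 M z) e) (ha : Adp q z e)

lemma K_cast (b : Fin 3) (k l : Fin 4) : K (SG (chartCentre 4 M z)) b k l
    = algebraMap ℝ _ (K ℝ b k l) := by
  fin_cases b <;> fin_cases k <;> fin_cases l <;> simp [K]

include h ha in
/-- components of `I_b X` in an adapted frame -/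
theorem vg_ap (b : Fin 3) {X : (p : M) → TangentSpace 𝓘(ℝ, EuclideanSpace ℝ (Fin 4)) p}
    (hX : ∀ z, VSm 4 ∞ X z) (k : Fin 4) :
    vg z e (q.ap b X) k = ∑ l, K (SG (chartCentre 4 M z)) b k l * vg z e X l := by
  choose hl el using fun l => vg_germ h hX l
  obtain ⟨h2, e2⟩ := vg_germ h (fun z => q.VSm_ap b (hX z)) k
  have e3 : ∀ l, K (SG (chartCentre 4 M z)) b k l * vg z e X l
      = germ _ ((contDiffAt_const (c := K ℝ b k l)).mul (hl l)) := by
    intro l
    rw [K_cast, el l, algebraMap_eq, germ_mul]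
  rw [e2, Finset.sum_congr rfl fun l _ => e3 l, germ_sum]
  refine germ_eq ?_
  filter_upwards [(chartAt 𝔼 z).open_target.mem_nhds (centre_mem z), ha] with y hy hay
  rw [bil_vCh_eq hy, QS.ap, q.op_skew, hay k, q.op_fr, inner_sum, ← Finset.sum_neg_distrib]
  refine Finset.sum_congr rfl fun l _ => ?_
  rw [inner_smul_right, bil_vCh_eq hy, hay l]
  have hK : K ℝ b l k = - K ℝ b k l := by
    fin_cases b <;> fin_cases k <;> fin_cases l <;> simp [K]
  rw [hK]; ring

end adapted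

/-! ### the vector fields `etaV` -/

section etaV

variable (q : QS M) {κ : Type} [Fintype κ] (s : PF 4 M κ)

/-- `∑_B ⟨(∇_{s_C} I_b) s_B, I_{b'} s_B⟩` -/
def etaT (b b' : Fin 3) (C : κ) (z : M) : ℝ :=
  ∑ B, inner ℝ (mCov 4 (q.ap b (s.s B)) z (s.s C z)
    - q.ap b (fun p => mCov 4 (s.s B) p (s.s C p)) z) (q.ap b' (s.s B) z)

/-- the vector field dual to the connection form `eta_c` of `⟨I_0, I_1, I_2⟩` -/
def etaV (c : Fin 3) (z : M) : TangentSpace 𝓘(ℝ, EuclideanSpace ℝ (Fin 4)) z :=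
  (1 / 4 : ℝ) • ∑ C, etaT q s (c + 1) (c + 2) C z • s.s C z

lemma sm_dI (b : Fin 3) (B C : κ) (z : M) :
    VSm 4 ∞ (fun z => mCov 4 (q.ap b (s.s B)) z (s.s C z)
      - q.ap b (fun p => mCov 4 (s.s B) p (s.s C p)) z) z := by
  have h1 := VSm_mCov (fun z => q.VSm_ap b (s.sm B z)) (s.sm C) z
  have h2 := (q.VSm_ap b (VSm_mCov (s.sm B) (s.sm C) z)).neg
  have h3 := h1.add h2
  have e : (fun z => mCov 4 (q.ap b (s.s B)) z (s.s C z)
      - q.ap b (fun p => mCov 4 (s.s B) p (s.s C p)) z)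
      = fun z => mCov 4 (q.ap b (s.s B)) z (s.s C z)
      + -q.ap b (fun p => mCov 4 (s.s B) p (s.s C p)) z := funext fun z => sub_eq_add_neg _ _
  rw [e]
  exact h3

lemma sm_etaT (b b' : Fin 3) (C : κ) : ContMDiff 𝓘E 𝓘(ℝ, ℝ) ∞ (etaT q s b b' C) :=
  contMDiff_finsetSum (t := Finset.univ) fun B _ =>
    contMDiff_inner (sm_dI q s b B C) (fun z => q.VSm_ap b' (s.sm B z))

lemma sm_etaV (c : Fin 3) (z : M) : VSm 4 ∞ (etaV q s c) z :=
  VSm.smul le_rfl contMDiffAt_const (VSm.sum _ fun C _ =>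
    VSm.smul le_rfl (sm_etaT q s _ _ C).contMDiffAt (s.sm C z))

variable {q} {z : M} {e : Fin 4 → EuclideanSpace ℝ (Fin 4) → EuclideanSpace ℝ (Fin 4)}
  (h : ONF (chartMetric 4 M z) (chartAt (EuclideanSpace ℝ (Fin 4)) z).target
      (chartCentre 4 M z) e) (ha : Adp q z e)

include h ha in
/-- components of `(∇_{s_C} I_b) s_B` -/
lemma vg_dI (b : Fin 3) (B C : κ) (i : Fin 4) :
    vg z e (fun z => mCov 4 (q.ap b (s.s B)) z (s.s C z)
      - q.ap b (fun p => mCov 4 (s.s B) p (s.s C p)) z) i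
      = ∑ l, tanJ s z e C l * ∑ m, (h.frameOf.tan l * K (SG (chartCentre 4 M z)) b
        - K (SG (chartCentre 4 M z)) b * h.frameOf.tan l) i m * tanJ s z e B m := by
  have hB := s.sm B
  have hC := s.sm C
  have hcv := VSm_mCov hB hC
  rw [R249.Dic805.vg_sub h (VSm_mCov (fun z => q.VSm_ap b (s.sm B z)) (s.sm C))
    (fun z => q.VSm_ap b (hcv z)), R249.Dic805.vg_mCov h (fun z => q.VSm_ap b (hB z)) hC,
    vg_ap h ha b hcv]
  have e1 : ∀ m, vg z e (fun p => mCov 4 (s.s B) p (s.s C p)) m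
      = ∑ l, vg z e (s.s C) l * h.frameOf.cov h.frameOf.tan l (vg z e (s.s B)) m := fun m =>
    R249.Dic805.vg_mCov h hB hC m
  simp only [e1]
  have e2 : (vg z e (q.ap b (s.s B))) = fun i => ∑ l, K (SG (chartCentre 4 M z)) b i l
      * vg z e (s.s B) l := funext fun i => vg_ap h ha b hB i
  rw [e2]
  have hD : ∀ l i, h.frameOf.D l (∑ m, K (SG (chartCentre 4 M z)) b i m * vg z e (s.s B) m)
      = ∑ m, K (SG (chartCentre 4 M z)) b i m * h.frameOf.D l (vg z e (s.s B) m) := by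
    intro l i
    rw [Frame.D_sum]
    refine Finset.sum_congr rfl fun m _ => ?_
    rw [Frame.D_mul, K_cast, Derivation.map_algebraMap, zero_mul, zero_add]
  simp only [Frame.cov, hD]
  change ∑ l, vg z e (s.s C) l * _ - _ = ∑ l, vg z e (s.s C) l * ∑ m, _ * vg z e (s.s B) m
  generalize vg z e (s.s B) = S
  generalize vg z e (s.s C) = R
  have e3 : ∑ l, K (SG (chartCentre 4 M z)) b i l * ∑ m, R m *
      (h.frameOf.D m (S l) + ∑ j, h.frameOf.tan m l j * S j)
      = ∑ m, R m * ∑ l, K (SG (chartCentre 4 M z)) b i l *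
      (h.frameOf.D m (S l) + ∑ j, h.frameOf.tan m l j * S j) := by
    simp only [Finset.mul_sum]
    rw [Finset.sum_comm]
    exact Finset.sum_congr rfl fun m _ => Finset.sum_congr rfl fun l _ => by ring
  rw [e3, ← Finset.sum_sub_distrib]
  refine Finset.sum_congr rfl fun l _ => ?_
  rw [← mul_sub]
  congr 1
  simp only [Matrix.sub_apply, Matrix.mul_apply, sub_mul, Finset.sum_sub_distrib, mul_add,
    Finset.sum_add_distrib]
  have e4 : ∑ j, h.frameOf.tan l i j * ∑ m, K (SG (chartCentre 4 M z)) b j m * S m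
      = ∑ m, (∑ j, h.frameOf.tan l i j * K (SG (chartCentre 4 M z)) b j m) * S m := by
    simp only [Finset.mul_sum, Finset.sum_mul]
    rw [Finset.sum_comm]
    exact Finset.sum_congr rfl fun m _ => Finset.sum_congr rfl fun l _ => by ring
  have e5 : ∑ m, K (SG (chartCentre 4 M z)) b i m * ∑ j, h.frameOf.tan l m j * S j
      = ∑ m, (∑ j, K (SG (chartCentre 4 M z)) b i j * h.frameOf.tan l j m) * S m := by
    simp only [Finset.mul_sum, Finset.sum_mul]
    rw [Finset.sum_comm]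
    exact Finset.sum_congr rfl fun m _ => Finset.sum_congr rfl fun l _ => by ring
  rw [e4, e5]
  ring

/-- trace identity behind `vg_etaV` -/
lemma tr_tan (F : Frame 4 (SG (chartCentre 4 M z))) (c : Fin 3) (l : Fin 4) :
    ((F.tan l * K (SG (chartCentre 4 M z)) (c + 1) - K (SG (chartCentre 4 M z)) (c + 1) * F.tan l)
      * (K (SG (chartCentre 4 M z)) (c + 2))ᵀ).trace = 4 * eta F l c := by
  rw [Matrix.trace]
  simp only [Fin.sum_univ_four, Matrix.diag_apply, Matrix.sub_apply, Matrix.mul_apply,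
    Matrix.transpose_apply]
  fin_cases c <;>
    simp [K, Frame.tan, eta, Frame.w_self, Frame.w10, Frame.w20, Frame.w30,
      Frame.w21, Frame.w31, Frame.w32] <;> ring

include h ha in
lemma fg_etaT (c : Fin 3) (C : κ) :
    fg (n := 4) z (etaT q s (c + 1) (c + 2) C) = ∑ l, tanJ s z e C l * (4 * eta h.frameOf l c) := by
  have h1 : fg (n := 4) z (etaT q s (c + 1) (c + 2) C) = ∑ B, fg (n := 4) z (fun z =>
      (inner ℝ (mCov 4 (q.ap (c + 1) (s.s B)) z (s.s C z)
        - q.ap (c + 1) (fun p => mCov 4 (s.s B) p (s.s C p)) z) (q.ap (c + 2) (s.s B) z) : ℝ)) :=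
    R249.Dic805.fg_sum Finset.univ fun B => contMDiff_inner (sm_dI q s _ B C)
      (fun z => q.VSm_ap _ (s.sm B z))
  rw [h1]
  have h2 : ∀ B, fg (n := 4) z (fun z =>
      (inner ℝ (mCov 4 (q.ap (c + 1) (s.s B)) z (s.s C z)
        - q.ap (c + 1) (fun p => mCov 4 (s.s B) p (s.s C p)) z) (q.ap (c + 2) (s.s B) z) : ℝ))
      = ∑ l, tanJ s z e C l * ∑ i, ∑ m, ∑ m', (h.frameOf.tan l * K (SG (chartCentre 4 M z)) (c + 1)
        - K (SG (chartCentre 4 M z)) (c + 1) * h.frameOf.tan l) i m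
        * K (SG (chartCentre 4 M z)) (c + 2) i m' * (tanJ s z e B m * tanJ s z e B m') := by
    intro B
    rw [R249.Dic805.fg_inner h (sm_dI q s _ B C) (fun z => q.VSm_ap _ (s.sm B z))]
    simp only [vg_dI s h ha, vg_ap h ha _ (s.sm B)]
    change ∑ i, (∑ l, tanJ s z e C l * ∑ m, _ * tanJ s z e B m) * (∑ m', _ * tanJ s z e B m') = _
    have h3 : ∀ i, (∑ l, tanJ s z e C l * ∑ m, (h.frameOf.tan l
        * K (SG (chartCentre 4 M z)) (c + 1) - K (SG (chartCentre 4 M z)) (c + 1)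
        * h.frameOf.tan l) i m * tanJ s z e B m)
        * (∑ m', K (SG (chartCentre 4 M z)) (c + 2) i m' * tanJ s z e B m')
        = ∑ l, ∑ m, ∑ m', tanJ s z e C l * ((h.frameOf.tan l
        * K (SG (chartCentre 4 M z)) (c + 1) - K (SG (chartCentre 4 M z)) (c + 1)
        * h.frameOf.tan l) i m * K (SG (chartCentre 4 M z)) (c + 2) i m'
          * (tanJ s z e B m * tanJ s z e B m')) := by
      intro i
      rw [Finset.sum_mul]
      refine Finset.sum_congr rfl fun l _ => ?_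
      rw [mul_assoc, Finset.sum_mul_sum, Finset.mul_sum]
      refine Finset.sum_congr rfl fun m _ => ?_
      rw [Finset.mul_sum]
      exact Finset.sum_congr rfl fun m' _ => by ring
    rw [Finset.sum_congr rfl fun i _ => h3 i, Finset.sum_comm]
    simp only [Finset.mul_sum]
  simp only [h2]
  rw [Finset.sum_comm]
  refine Finset.sum_congr rfl fun l _ => ?_
  rw [← Finset.mul_sum]
  congr 1
  rw [← tr_tan, Matrix.trace]
  rw [Finset.sum_comm]
  refine Finset.sum_congr rfl fun i _ => ?_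
  rw [Finset.sum_comm, Matrix.diag_apply, Matrix.mul_apply]
  refine Finset.sum_congr rfl fun m _ => ?_
  rw [Finset.sum_comm, Matrix.transpose_apply]
  have h3 : ∀ m', ∑ B, (h.frameOf.tan l * K (SG (chartCentre 4 M z)) (c + 1)
        - K (SG (chartCentre 4 M z)) (c + 1) * h.frameOf.tan l) i m
        * K (SG (chartCentre 4 M z)) (c + 2) i m' * (tanJ s z e B m * tanJ s z e B m')
      = (h.frameOf.tan l * K (SG (chartCentre 4 M z)) (c + 1)
        - K (SG (chartCentre 4 M z)) (c + 1) * h.frameOf.tan l) i m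
        * K (SG (chartCentre 4 M z)) (c + 2) i m' * (if m = m' then 1 else 0) := by
    intro m'
    rw [← Finset.mul_sum, ← vg_pars h s m m']
    rfl
  simp only [h3, mul_ite, mul_one, mul_zero, Finset.sum_ite_eq, Finset.mem_univ, if_true]

include h ha in
/-- **the components of `etaV` in an adapted frame** -/
theorem vg_etaV (c : Fin 3) (k : Fin 4) : vg z e (etaV q s c) k = eta h.frameOf k c := by
  have hs : ∀ C z, VSm 4 ∞ (fun z => etaT q s (c + 1) (c + 2) C z • s.s C z) z := fun C z =>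
    VSm.smul le_rfl (sm_etaT q s _ _ C).contMDiffAt (s.sm C z)
  have h1 : vg z e (etaV q s c) k = algebraMap ℝ (SG (chartCentre 4 M z)) (1 / 4)
      * ∑ C, fg (n := 4) z (etaT q s (c + 1) (c + 2) C) * tanJ s z e C k := by
    have := R249.Dic805.vg_smul h (f := fun _ => (1 / 4 : ℝ)) contMDiff_const
      (fun z => VSm.sum Finset.univ fun C _ => hs C z) k
    refine this.trans ?_
    rw [R249.Dic805.fg_const]
    congr 1
    refine (R249.Dic805.vg_sum h Finset.univ hs k).trans (Finset.sum_congr rfl fun C _ => ?_)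
    exact R249.Dic805.vg_smul h (sm_etaT q s _ _ C) (s.sm C) k
  rw [h1]
  simp only [fg_etaT s h ha, Finset.sum_mul]
  rw [Finset.sum_comm]
  have h3 : ∀ l, ∑ C, tanJ s z e C l * (4 * eta h.frameOf l c) * tanJ s z e C k
      = (4 * eta h.frameOf l c) * (if l = k then 1 else 0) := by
    intro l
    rw [← vg_pars h s l k, Finset.mul_sum]
    exact Finset.sum_congr rfl fun C _ => by
      change vg z e (s.s C) l * _ * vg z e (s.s C) k = _
      ring
  simp only [h3, mul_ite, mul_one, mul_zero, Finset.sum_ite_eq', Finset.mem_univ, if_true]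
  rw [← mul_assoc]
  have h4 : algebraMap ℝ (SG (chartCentre 4 M z)) (1 / 4) * 4 = 1 := by
    have h5 : (4 : SG (chartCentre 4 M z)) = algebraMap ℝ _ 4 := (map_ofNat _ 4).symm
    rw [h5, ← map_mul]
    norm_num
  rw [h4, one_mul]

end etaV

end Crest.Agent.R235.Ind167
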