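import Crest.Agent.R235.Mdl3_399
import Crest.Agent.R235.QSTri_451
import Crest.Agent.R249.WkD_352
import Crest.Agent.R249.Tv12_57

/-!
Row 235, package SW, MODEL-3 (helper399), part 2: the Hodge pair `H` as an `OpPair`.

* `Hp T q s`     : `ofD (dpair T (pairH q s))`;
* `Hp_full`      : the first bundle is trivial;
* `Hp_one`       : `H.A 1 = 0`;
* `Hp_pT`        : the second projection is `⟨s_A, s_B⟩`;
* `Hp_B_zero`    : `(H.B a)_0 = - div X`;
* `Hp_HB`        : `(H.B a)_{k+1} = 2 σ q(w_0; e_k, d(flat X))`, `σ = -1`;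
* `Hp_cvT`       : the connection is the Levi-Civita connection;
* `ww w e i k`   : the component of `w_i` in `e_k`; `ww_eq`, `smooth_ww`, `ww_ndeg`, `Hp_harm`.
-/

set_option autoImplicit false
set_option maxSynthPendingDepth 3
set_option linter.unusedSectionVars false

open Set Function Filter Bundle Manifold MeasureTheory
open scoped Manifold ContDiff Topology ENNReal
open Crest.Agent.R240 Crest.Agent.R240.Ch
open Crest.Agent.R249.Vf281 Crest.Agent.R249.Tz2_805 Crest.Agent.R249.Tz1_805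
open Crest.Agent.R249.Tz805 Crest.Agent.R249.Idx789
open Crest.Agent.R249.Tv57 (Dat OpPair SmV ofD)
open Crest.Agent.R249.Wk352 (dat0 dpair swapP)
open Crest.Agent.R235.RiemB_399 Crest.Agent.R235.RiemD_399
open Crest.Agent.R235.RiemQ_399 Crest.Agent.R235.Ind167 Crest.Agent.R235.IndTri_451

universe u

noncomputable section

namespace Crest.Agent.R235.Mdl3_399

local notation "E4" => EuclideanSpace ℝ (Fin 4)

/-! ### the components of the forms -/

section ww

variable {M : Type u} [TopologicalSpace M] [ChartedSpace E4 M] [IsManifold 𝓘(ℝ, E4) ∞ M]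

/-- the component of `w_i` in `e_k`. -/
def ww (w e : Fin 3 → F2 E4 M) (i k : Fin 3) (x : M) : ℝ := qG (w 0) (w i) (e k) x

variable {w e : Fin 3 → F2 E4 M} (h : IsTri w e)
include h

theorem q_e (j k : Fin 3) (x : M) :
    q (at2 (w 0) x) (at2 (e j) x) (at2 (e k) x) = if j = k then 1 else 0 := by
  unfold q
  rw [h.W_e]
  split_ifs
  · exact div_self (h.W_ne x)
  · exact zero_div _

theorem ww_coef : ∃ B : Fin 3 → Fin 3 → M → ℝ, (∀ i j, SmoothF E4 (B i j)) ∧
    (∀ i k x, ww w e i k x = B i k x) ∧ ∀ i x, at2 (w i) x = ∑ j, B i j x • at2 (e j) x := by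
  obtain ⟨A, B, hA, hB, hA2, hB2, -, -⟩ := h.coef
  refine ⟨B, hB, fun i k x => ?_, hB2⟩
  have h1 : q (at2 (w 0) x) (at2 (w i) x) (at2 (e k) x) =
      ∑ j, B i j x * q (at2 (w 0) x) (at2 (e j) x) (at2 (e k) x) := by
    rw [hB2 i x]
    simp only [Fin.sum_univ_three, q_add_left, q_smul_left]
  show q (at2 (w 0) x) (at2 (w i) x) (at2 (e k) x) = _
  rw [h1]
  simp only [q_e h, mul_ite, mul_one, mul_zero, Finset.sum_ite_eq', Finset.mem_univ, if_true]

/-- the components are smooth. -/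
theorem smooth_ww (i k : Fin 3) : SmoothF E4 (ww w e i k) := by
  obtain ⟨B, hB, h1, h2⟩ := ww_coef h
  have : ww w e i k = B i k := funext fun x => h1 i k x
  rw [this]; exact hB i k


/-- `w_i = ∑ ww_ik e_k`. -/
theorem ww_eq (i : Fin 3) (x : M) : at2 (w i) x = ∑ k, ww w e i k x • at2 (e k) x := by
  obtain ⟨B, hB, h1, h2⟩ := ww_coef h
  rw [h2]
  exact Finset.sum_congr rfl fun k _ => by rw [h1]


end ww


/-! ### the pair -/

section pair

variable {M : Type u} [MetricSpace M] [CompactSpace M] [ChartedSpace E4 M] [IsManifold (𝓡 4) ∞ M]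
  [RiemannianBundle (fun p : M => TangentSpace (𝓡 4) p)]
  [IsContMDiffRiemannianBundle (𝓡 4) ∞ E4 (fun p : M => TangentSpace (𝓡 4) p)]
  [IsRiemannianManifold (𝓡 4) M] [MeasurableSpace M] [BorelSpace M]
  [SecondCountableTopology M] [Nonempty M]

variable (T : ToF 4 M) (q : QS M) {κ : Type} [Fintype κ] (s : PF 4 M κ)

/-- the Hodge pair `(f0, f) ↦ grad f0 + d^*(∑ f_b e_b)`. -/
def Hp : OpPair (dat0 T (pairH q s)) (dat0 T (swapP (pairH q s))) := ofD (dpair T (pairH q s))



theorem Hp_full (a b : Fin 4) (z : M) : (dat0 T (pairH q s)).p a b z = if a = b then 1 else 0 := rfl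

theorem Hp_pT (A B : κ) (z : M) :
    (dat0 T (swapP (pairH q s))).p A B z = inner ℝ (s.s A z) (s.s B z) := rfl

theorem Hp_one (x : κ) (z : M) :
    (Hp T q s).A (Fin.cons (fun _ => 1) fun _ _ => 0) x z = 0 := opA_one q s x z


/-- `(B a)_0 = - div X`. -/
theorem Hp_B_zero {a : κ → M → ℝ} (ha : SmV (n := 4) a) (hs : (dat0 T (swapP (pairH q s))).Sec a)
    (z : M) : (Hp T q s).B a 0 z = - mDiv 4 (fieldOf s a) z := opB_zero q s ha hs z

/-- **the Levi-Civita connection.** -/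
theorem Hp_inner_cv {a : κ → M → ℝ} (ha : SmV (n := 4) a)
    (hs : (dat0 T (swapP (pairH q s))).Sec a) (A : κ) (z : M) (u : TangentSpace (𝓡 4) z) :
    (inner ℝ ((dat0 T (swapP (pairH q s))).cv a A z) (T.toF z u) : ℝ) =
      inner ℝ (mCov 4 (fieldOf s a) z u) (s.s A z) := by
  have h1 : (dat0 T (swapP (pairH q s))).cv a A z = T.toF z ((pairH q s).D1.cv a A z) :=
    Bun.cv_dat T (pairH q s).D1 _ _ _ _ ha A z
  rw [h1, T.inner_toF]
  exact inner_cv s (bunQ1_W_eta q s (sm_etaV q s)) ha hs A z u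

theorem Hp_cvT {a : κ → M → ℝ} (ha : SmV (n := 4) a) (hs : (dat0 T (swapP (pairH q s))).Sec a)
    (z : M) (u v : TangentSpace (𝓡 4) z) :
    ∑ A, inner ℝ ((dat0 T (swapP (pairH q s))).cv a A z) (T.toF z u) * inner ℝ (s.s A z) v =
      inner ℝ (mCov 4 (fieldOf s a) z u) v := by
  simp only [Hp_inner_cv T q s ha hs]
  rw [← pars_inner s z (mCov 4 (fieldOf s a) z u) v]
  exact Finset.sum_congr rfl fun A _ => by rw [real_inner_comm (s.s A z)]

end pair

/-! ### triples -/

section tri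

variable {M : Type u} [MetricSpace M] [CompactSpace M] [ChartedSpace E4 M] [IsManifold (𝓡 4) ∞ M]
  [RiemannianBundle (fun p : M => TangentSpace (𝓡 4) p)]
  [IsContMDiffRiemannianBundle (𝓡 4) ∞ E4 (fun p : M => TangentSpace (𝓡 4) p)]
  [IsRiemannianManifold (𝓡 4) M] [MeasurableSpace M] [BorelSpace M]
  [SecondCountableTopology M] [Nonempty M]

variable (T : ToF 4 M) {κ : Type} [Fintype κ] (s : PF 4 M κ)
  {w e : Fin 3 → F2 E4 M} (h : IsTri w e)
  (hin : ∀ (x : M) (u v : TangentSpace (𝓡 4) x), inner ℝ u v = at2 (gg e) x u v)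

/-- **`(B a)_{k+1} = - 2 q(w_0; e_k, d(flat X))`.** -/
theorem Hp_HB {a : κ → M → ℝ} (ha : SmV (n := 4) a)
    (hs : (dat0 T (swapP (pairH (qsTri hin h) s))).Sec a) (k : Fin 3) (z : M) :
    (Hp T (qsTri hin h) s).B a k.succ z =
      2 * (-1) * qG (w 0) (e k) (dG (flG (gg e) (fieldOf s a))) z := by
  have h0 : W (at2 (e 0) z) (at2 (e 0) z) ≠ 0 := by rw [h.e_zero]; exact h.W_ne z
  have h1 := opB_q hin (QT.of_tri h) s (QSTri_451.met_gg h) (fun b x => (h.smooth b).1 x)
    (fun b x u v => h.e_eq b x u v) ha hs k z h0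
  rw [h.e_zero] at h1
  refine h1.trans ?_
  ring

/-- **the forms are harmonic.** -/
theorem Hp_harm (hcl : ∀ i, Closed2 (w i)) (i : Fin 3) (x : κ) (z : M) :
    (Hp T (qsTri hin h) s).A (Fin.cons (fun _ => 0) (ww w e i)) x z = 0 :=
  opA_closed hin (QT.of_tri h) s (fun b => h.smooth b) (fun b x u v => h.e_eq b x u v)
    (fun k => smooth_ww h i k) (fun y => ww_eq h i y) (hcl i) x z

end tri

end Crest.Agent.R235.Mdl3_399

end
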