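import Crest.Agent.R249.DicC_129
import Crest.Agent.R249.TzM_805

/-!
Row 235 (S0364), PACKAGE SW, MODEL-2 (helper755): pointwise algebra of a Seiberg-Witten system.

* `fierz`, `fierz_fun`: `∑_k ⟨ρ_k u, u⟩² = |u|⁴` for three anticommuting symmetric involutions `ρ_k` of a
  real vector space of dimension four (`trace p = 4`) with a complex structure `J` commuting with them;
* `ccX`, `clif0`, `clif1`, `p1_cc`, `cc_p0` : the Clifford relations of a `CPair` at a point;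
* `clJ` : `cl A x y = ∑ ⟨cc x y', s_A⟩ J_{y' y}`, `sum_clJ`, `p1_clJ`, `clJ_le` (`clbd`, `clsec` of `SWS.OK`);
* `curv_rho` : the curvature term `-(1/2) ∑ c(s_C)ᵀ c(s_D) J b(s_C, s_D)` in terms of the `ρ_k`.
-/

set_option autoImplicit false
set_option maxSynthPendingDepth 3
set_option linter.unusedSectionVars false

open Filter Topology Set Bundle Manifold Matrix
open scoped ContDiff
open Crest.GeometryTopology.CoordMetric Crest.GeometryTopology.ChartCurvature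
  Crest.GeometryTopology.PointedLimit
open Crest.Agent.R202.Tens Crest.Agent.R249.Vf281
  Crest.Agent.R249.Tz1_805 Crest.Agent.R249.Tz2_805
open Crest.Agent.R249.Sg129 (SG germ ev ONF)
open Crest.Agent.R249.Tz805

noncomputable section

namespace Crest.Agent.R235.Mdl2_755

/-! ### the Fierz identity -/

section fierz

variable {κ : Type*} [Fintype κ] [DecidableEq κ]

lemma eq_zero_of_trace (X : Matrix κ κ ℝ) (N : ℝ) (hs : Xᵀ = X) (hx : X * X = N • X)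
    (ht : X.trace = 0) : X = 0 := by
  have h1 : ∑ i, ∑ j, X i j * X i j = 0 := by
    have h2 : (X * Xᵀ).trace = 0 := by rw [hs, hx, trace_smul, ht, smul_zero]
    simpa [Matrix.trace, Matrix.mul_apply] using h2
  ext i j
  have h3 := (Finset.sum_eq_zero_iff_of_nonneg (fun i _ =>
    Finset.sum_nonneg fun j _ => mul_self_nonneg (X i j))).1 h1 i (Finset.mem_univ i)
  have h4 := (Finset.sum_eq_zero_iff_of_nonneg (fun j _ => mul_self_nonneg (X i j))).1 h3 j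
    (Finset.mem_univ j)
  simpa using h4

/-- **Fierz identity** -/
theorem fierz (p J : Matrix κ κ ℝ) (ρ : Fin 3 → Matrix κ κ ℝ) (hp : pᵀ = p) (hpp : p * p = p)
    (htr : p.trace = 4) (hJ : Jᵀ = -J) (hpJ : p * J = J) (hJJ : J * J = -p)
    (hρ : ∀ k, (ρ k)ᵀ = ρ k) (hpρ : ∀ k, p * ρ k = ρ k) (hJρ : ∀ k, J * ρ k = ρ k * J)
    (hcl : ∀ k l, ρ k * ρ l + ρ l * ρ k = if k = l then (2:ℝ) • p else 0)
    (u : κ → ℝ) (hu : p *ᵥ u = u) :
    ∑ k, (u ⬝ᵥ (ρ k *ᵥ u)) ^ 2 = (u ⬝ᵥ u) ^ 2 := by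
  -- the frame `u, J ρ_k u`
  set N : ℝ := u ⬝ᵥ u with hN
  have hJp : J * p = J := by
    have h := congrArg Matrix.transpose hpJ
    rw [Matrix.transpose_mul, hJ, hp, Matrix.neg_mul] at h
    exact neg_injective h
  have hρp : ∀ k, ρ k * p = ρ k := by
    intro k
    have h := congrArg Matrix.transpose (hpρ k)
    rw [Matrix.transpose_mul, hρ, hp] at h
    exact h
  -- I_k = J ρ_k
  have hI : ∀ k, (J * ρ k)ᵀ = -(J * ρ k) := by
    intro k
    rw [Matrix.transpose_mul, hρ, hJ, Matrix.mul_neg, hJρ]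
  have hII : ∀ k l, (J * ρ k) * (J * ρ l) = -(ρ k * ρ l) := by
    intro k l
    rw [hJρ k, Matrix.mul_assoc, ← Matrix.mul_assoc J J, hJJ, Matrix.neg_mul, hpρ, Matrix.mul_neg]
  let e : Fin 4 → κ → ℝ := Fin.cons u fun k => (J * ρ k) *ᵥ u
  have e0 : e 0 = u := rfl
  have eS : ∀ k : Fin 3, e k.succ = (J * ρ k) *ᵥ u := fun k => rfl
  -- skew matrices
  have hsk : ∀ A : Matrix κ κ ℝ, Aᵀ = -A → ∀ v : κ → ℝ, v ⬝ᵥ (A *ᵥ v) = 0 := by
    intro A hA v
    have h1 : v ⬝ᵥ (A *ᵥ v) = v ⬝ᵥ (Aᵀ *ᵥ v) := by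
      rw [Matrix.dotProduct_mulVec, dotProduct_comm, ← Matrix.mulVec_transpose]
    rw [hA, Matrix.neg_mulVec, dotProduct_neg] at h1
    linarith
  have hdot : ∀ (A B : Matrix κ κ ℝ) (v w : κ → ℝ), (A *ᵥ v) ⬝ᵥ (B *ᵥ w) = v ⬝ᵥ ((Aᵀ * B) *ᵥ w) := by
    intro A B v w
    rw [← Matrix.mulVec_mulVec, Matrix.dotProduct_mulVec v, Matrix.vecMul_transpose]
  have hee : ∀ i j, e i ⬝ᵥ e j = if i = j then N else 0 := by
    intro i j
    refine Fin.cases ?_ (fun k => ?_) i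
    · refine Fin.cases ?_ (fun l => ?_) j
      · simp [e0, hN]
      · rw [e0, eS, hsk _ (hI l)]
        rw [if_neg (Fin.succ_ne_zero l).symm]
    · refine Fin.cases ?_ (fun l => ?_) j
      · rw [e0, eS, dotProduct_comm, hsk _ (hI k), if_neg (Fin.succ_ne_zero k)]
      · rw [eS, eS, hdot, hI, Matrix.neg_mul, hII, neg_neg]
        by_cases hkl : k = l
        · subst hkl
          have h1 := hcl k k
          rw [if_pos rfl, ← two_smul ℝ] at h1
          have h2 : ρ k * ρ k = p := by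
            have := congrArg (fun A => (1/2 : ℝ) • A) h1
            simpa [smul_smul] using this
          rw [h2, hu, if_pos rfl]
        · have h1 := hcl k l
          rw [if_neg hkl] at h1
          have h2 : (ρ k * ρ l)ᵀ = -(ρ k * ρ l) := by
            rw [Matrix.transpose_mul, hρ, hρ]
            exact eq_neg_of_add_eq_zero_right h1
          rw [hsk _ h2, if_neg]
          intro h3
          exact hkl (Fin.succ_injective _ h3)
  have hpe : ∀ i, p *ᵥ e i = e i := by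
    intro i
    refine Fin.cases hu (fun k => ?_) i
    rw [eS, Matrix.mulVec_mulVec, ← Matrix.mul_assoc, hpJ]
  set S : Matrix κ κ ℝ := ∑ i, vecMulVec (e i) (e i) with hS
  have hSt : Sᵀ = S := by
    rw [hS, Matrix.transpose_sum]
    exact Finset.sum_congr rfl fun i _ => by rw [Matrix.transpose_vecMulVec]
  have hpS : p * S = S := by
    rw [hS, Matrix.mul_sum]
    exact Finset.sum_congr rfl fun i _ => by rw [Matrix.mul_vecMulVec, hpe]
  have hSp : S * p = S := by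
    have := congrArg Matrix.transpose hpS
    rwa [Matrix.transpose_mul, hSt, hp] at this
  have hSS : S * S = N • S := by
    have h1 : ∀ i, vecMulVec (e i) (e i) * S = N • vecMulVec (e i) (e i) := by
      intro i
      rw [hS, Matrix.mul_sum]
      have h2 : ∀ j, vecMulVec (e i) (e i) * vecMulVec (e j) (e j)
          = if i = j then N • vecMulVec (e i) (e i) else 0 := by
        intro j
        rw [Matrix.vecMulVec_mul_vecMulVec, hee]
        by_cases hij : i = j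
        · subst hij
          rw [if_pos rfl, if_pos rfl]
          ext a b
          simp [vecMulVec_apply]
          ring
        · rw [if_neg hij, if_neg hij]
          ext a b
          simp [vecMulVec_apply]
      simp only [h2, Finset.sum_ite_eq, Finset.mem_univ, if_true]
    calc S * S = ∑ i, vecMulVec (e i) (e i) * S := by
          conv_lhs => rw [hS]
          rw [Matrix.sum_mul]
      _ = ∑ i, N • vecMulVec (e i) (e i) := Finset.sum_congr rfl fun i _ => h1 i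
      _ = N • S := by rw [← Finset.smul_sum]
  have hX : N • p - S = 0 := by
    refine eq_zero_of_trace _ N ?_ ?_ ?_
    · rw [Matrix.transpose_sub, Matrix.transpose_smul, hp, hSt]
    · rw [Matrix.sub_mul, Matrix.mul_sub, Matrix.mul_sub, Matrix.smul_mul, Matrix.mul_smul,
        Matrix.smul_mul, Matrix.mul_smul, hpp, hpS, hSp, hSS, sub_self, sub_zero, smul_sub]
    · rw [Matrix.trace_sub, Matrix.trace_smul, htr, hS, Matrix.trace_sum]
      have h1 : ∀ i, (vecMulVec (e i) (e i)).trace = N := by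
        intro i
        rw [Matrix.trace_vecMulVec, hee, if_pos rfl]
      simp only [h1, Finset.sum_const, Finset.card_univ, Fintype.card_fin, smul_eq_mul,
        nsmul_eq_mul]
      push_cast
      ring
  have hNp : N • p = S := sub_eq_zero.1 hX
  -- apply to `v = J u`
  have hv1 : (J *ᵥ u) ⬝ᵥ (J *ᵥ u) = N := by
    rw [hdot, hJ, Matrix.neg_mul, hJJ, neg_neg, hu]
  have hv2 : p *ᵥ (J *ᵥ u) = J *ᵥ u := by rw [Matrix.mulVec_mulVec, hpJ]
  have h1 : (J *ᵥ u) ⬝ᵥ ((N • p) *ᵥ (J *ᵥ u)) = (J *ᵥ u) ⬝ᵥ (S *ᵥ (J *ᵥ u)) := by rw [hNp]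
  rw [Matrix.smul_mulVec, hv2, dotProduct_smul, hv1, hS, Matrix.sum_mulVec,
    dotProduct_sum, Fin.sum_univ_succ] at h1
  have h2 : ∀ i, (J *ᵥ u) ⬝ᵥ (vecMulVec (e i) (e i) *ᵥ (J *ᵥ u)) = (e i ⬝ᵥ (J *ᵥ u)) ^ 2 := by
    intro i
    rw [Matrix.vecMulVec_mulVec, op_smul_eq_smul, dotProduct_smul, smul_eq_mul,
      dotProduct_comm (J *ᵥ u) (e i)]
    ring
  rw [h2, e0, hsk J hJ] at h1
  have h3 : ∀ k : Fin 3, (J *ᵥ u) ⬝ᵥ (vecMulVec (e k.succ) (e k.succ) *ᵥ (J *ᵥ u))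
      = (u ⬝ᵥ (ρ k *ᵥ u)) ^ 2 := by
    intro k
    rw [h2, eS, hdot, hI, hJρ, Matrix.neg_mul, Matrix.mul_assoc, hJJ, Matrix.mul_neg, neg_neg, hρp]
  simp only [h3] at h1
  rw [smul_eq_mul] at h1
  nlinarith [h1]

/-- the Fierz identity in the form of `SWS.OK` -/
theorem fierz_fun {κ : Type*} [Fintype κ] (p J : κ → κ → ℝ) (ρ : Fin 3 → κ → κ → ℝ)
    (hp : ∀ a b, p a b = p b a) (hpp : ∀ a b, ∑ c, p a c * p c b = p a b) (htr : ∑ a, p a a = 4)
    (hJ : ∀ a b, J a b = - J b a) (hpJ : ∀ a b, ∑ c, p a c * J c b = J a b)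
    (hJJ : ∀ a b, ∑ c, J a c * J c b = - p a b)
    (hρ : ∀ k a b, ρ k a b = ρ k b a) (hpρ : ∀ k a b, ∑ c, p a c * ρ k c b = ρ k a b)
    (hJρ : ∀ k a b, ∑ c, J a c * ρ k c b = ∑ c, ρ k a c * J c b)
    (hcl : ∀ k l a b, ∑ c, ρ k a c * ρ l c b + ∑ c, ρ l a c * ρ k c b
      = if k = l then 2 * p a b else 0)
    (u : κ → ℝ) (hu : ∀ a, ∑ b, p a b * u b = u a) :
    ∑ k, (∑ a, ∑ b, ρ k a b * u a * u b) ^ 2 = (∑ a, u a ^ 2) ^ 2 := by
  classical
  have h := fierz (Matrix.of p) (Matrix.of J) (fun k => Matrix.of (ρ k))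
    (by ext a b; exact hp b a) (by ext a b; rw [Matrix.mul_apply]; exact hpp a b)
    (by rw [Matrix.trace]; exact htr) (by ext a b; exact hJ b a)
    (by ext a b; rw [Matrix.mul_apply]; exact hpJ a b)
    (by ext a b; rw [Matrix.mul_apply]; exact hJJ a b)
    (fun k => by ext a b; exact hρ k b a)
    (fun k => by ext a b; rw [Matrix.mul_apply]; exact hpρ k a b)
    (fun k => by ext a b; rw [Matrix.mul_apply, Matrix.mul_apply]; exact hJρ k a b)
    (fun k l => by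
      ext a b
      rw [Matrix.add_apply, Matrix.mul_apply, Matrix.mul_apply]
      refine (hcl k l a b).trans ?_
      by_cases hkl : k = l
      · rw [if_pos hkl, if_pos hkl]; rfl
      · rw [if_neg hkl, if_neg hkl]; rfl)
    u (by funext a; exact hu a)
  have e1 : ∀ k, u ⬝ᵥ ((Matrix.of (ρ k)) *ᵥ u) = ∑ a, ∑ b, ρ k a b * u a * u b := by
    intro k
    simp only [dotProduct, Matrix.mulVec, Matrix.of_apply, Finset.mul_sum]
    exact Finset.sum_congr rfl fun a _ => Finset.sum_congr rfl fun b _ => by ring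
  have e2 : u ⬝ᵥ u = ∑ a, u a ^ 2 := by
    simp only [dotProduct]
    exact Finset.sum_congr rfl fun a _ => by ring
  simp only [e1, e2] at h
  exact h

end fierz

/-! ### the Clifford relations at a point -/

section clif

variable {n : ℕ} {M : Type*} [TopologicalSpace M] [ChartedSpace (EuclideanSpace ℝ (Fin n)) M]
  [IsManifold 𝓘(ℝ, EuclideanSpace ℝ (Fin n)) ∞ M]
  [RiemannianBundle (fun x : M => TangentSpace 𝓘(ℝ, EuclideanSpace ℝ (Fin n)) x)]
  [IsContMDiffRiemannianBundle 𝓘(ℝ, EuclideanSpace ℝ (Fin n)) ∞ (EuclideanSpace ℝ (Fin n))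
      (fun x : M => TangentSpace 𝓘(ℝ, EuclideanSpace ℝ (Fin n)) x)]

local notation "𝓘E" => 𝓘(ℝ, EuclideanSpace ℝ (Fin n))

variable {κ κ0 κ1 : Type} [Fintype κ] [Fintype κ0] [Fintype κ1]

/-- the symbol at a point -/
def ccX (cc : κ1 → κ0 → (p : M) → TangentSpace 𝓘(ℝ, EuclideanSpace ℝ (Fin n)) p) (z : M)
    (X : TangentSpace 𝓘(ℝ, EuclideanSpace ℝ (Fin n)) z) : Matrix κ1 κ0 ℝ :=
  Matrix.of fun x y => (inner ℝ (cc x y z) X : ℝ)

/-- a bundle projection at a point -/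
def pz (D : Bun n M κ) (z : M) : Matrix κ κ ℝ := Matrix.of fun a b => D.p a b z

/-- real local frames of a Clifford pair at a point -/
theorem exists_pt (P : CPair n M κ κ0 κ1) (z : M) :
    ∃ (ι0 ι1 : Type) (_ : Fintype ι0) (_ : DecidableEq ι0) (_ : Fintype ι1) (_ : DecidableEq ι1)
      (j0 : Matrix κ0 ι0 ℝ) (j1 : Matrix κ1 ι1 ℝ) (c : Fin n → Matrix ι1 ι0 ℝ)
      (b : Fin n → TangentSpace 𝓘(ℝ, EuclideanSpace ℝ (Fin n)) z),
      j0ᵀ * j0 = 1 ∧ j0 * j0ᵀ = pz P.D0 z ∧ j1ᵀ * j1 = 1 ∧ j1 * j1ᵀ = pz P.D1 z ∧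
      (∀ i j, (c i)ᵀ * c j + (c j)ᵀ * c i = if i = j then (2:ℝ) • (1 : Matrix ι0 ι0 ℝ) else 0) ∧
      (∀ i j, c i * (c j)ᵀ + c j * (c i)ᵀ = if i = j then (2:ℝ) • (1 : Matrix ι1 ι1 ℝ) else 0) ∧
      (∀ i j, (inner ℝ (b i) (b j) : ℝ) = if i = j then 1 else 0) ∧
      (∀ X : TangentSpace 𝓘(ℝ, EuclideanSpace ℝ (Fin n)) z,
        ∑ k, (inner ℝ X (b k) : ℝ) • b k = X) ∧
      ∀ X : TangentSpace 𝓘(ℝ, EuclideanSpace ℝ (Fin n)) z,
        ccX P.cc z X = j1 * (∑ k, (inner ℝ X (b k) : ℝ) • c k) * j0ᵀ := by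
  obtain ⟨e, h, ι0, ι1, i1, i2, i3, i4, a0, a1, c, j0, j1, hC⟩ := P.loc z
  let f : SG (chartCentre n M z) →+* ℝ := (ev : SG (chartCentre n M z) →ₐ[ℝ] ℝ).toRingHom
  have hf : ∀ a, f a = ev a := fun a => rfl
  have evp : ∀ {κ : Type} [Fintype κ] (D : Bun n M κ) {ι : Type} [Fintype ι] [DecidableEq ι]
      (j : Matrix κ ι (SG (chartCentre n M z))),
      j * jᵀ = (Matrix.of fun x y => fg z (D.p x y)) →
      (j.map f) * (j.map f)ᵀ = pz D z := by
    intro κ _ D ι _ _ j hj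
    have h1 : (j.map f) * (j.map f)ᵀ = (j * jᵀ).map f := by
      rw [← Matrix.transpose_map, ← Matrix.map_mul]
    rw [h1, hj]
    ext x y
    exact Crest.Agent.R249.Sg129.ev_fg (D.smp x y)
  have ev1 : ∀ {ι κ : Type} [Fintype ι] [DecidableEq ι] [Fintype κ]
      (j : Matrix κ ι (SG (chartCentre n M z))), jᵀ * j = 1 → (j.map f)ᵀ * (j.map f) = 1 := by
    intro ι κ _ _ _ j hj
    rw [← Matrix.transpose_map, ← Matrix.map_mul, hj, Matrix.map_one _ (map_zero f) (map_one f)]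
  have evc : ∀ {ι : Type} [Fintype ι] [DecidableEq ι] (i j : Fin n),
      ((if i = j then (2 : Matrix ι ι (SG (chartCentre n M z))) else 0).map f)
        = if i = j then (2:ℝ) • (1 : Matrix ι ι ℝ) else 0 := by
    intro ι _ _ i j
    by_cases hij : i = j
    · rw [if_pos hij, if_pos hij]
      have h2 : (2 : Matrix ι ι (SG (chartCentre n M z))) = 1 + 1 := by norm_num
      rw [h2, Matrix.map_add _ (map_add f), Matrix.map_one _ (map_zero f) (map_one f), two_smul]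
    · rw [if_neg hij, if_neg hij, Matrix.map_zero _ (map_zero f)]
  refine ⟨ι0, ι1, i1, i2, i3, i4, j0.map f, j1.map f, fun k => (c k).map f, h.bv,
    ev1 j0 hC.l0.jtj, evp P.D0 j0 hC.l0.jjt, ev1 j1 hC.l1.jtj, evp P.D1 j1 hC.l1.jjt, ?_, ?_,
    h.orth_bv, h.sum_bv, ?_⟩
  · intro i j
    change ((c i).map f)ᵀ * (c j).map f + ((c j).map f)ᵀ * (c i).map f = _
    rw [← Matrix.transpose_map, ← Matrix.transpose_map, ← Matrix.map_mul, ← Matrix.map_mul,
      ← Matrix.map_add _ (map_add f), hC.cl0, evc]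
  · intro i j
    change (c i).map f * ((c j).map f)ᵀ + (c j).map f * ((c i).map f)ᵀ = _
    rw [← Matrix.transpose_map, ← Matrix.transpose_map, ← Matrix.map_mul, ← Matrix.map_mul,
      ← Matrix.map_add _ (map_add f), hC.cl1, evc]
  · intro X
    ext x y
    have h1 : P.cc x y z = ∑ k, f (vg z e (P.cc x y) k) • h.bv k :=
      eq_sum_ev_vg h (P.smc x y)
    have h2 : (inner ℝ (P.cc x y z) X : ℝ)
        = ∑ k, f (vg z e (P.cc x y) k) * (inner ℝ X (h.bv k) : ℝ) := by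
      rw [h1, sum_inner]
      refine Finset.sum_congr rfl fun k _ => ?_
      rw [real_inner_smul_left, real_inner_comm]
    have h3 : ∀ k, f (vg z e (P.cc x y) k)
        = ((j1.map f) * ((c k).map f) * (j0.map f)ᵀ) x y := by
      intro k
      rw [hC.sym x y k, ← Matrix.transpose_map, ← Matrix.map_mul, ← Matrix.map_mul,
        Matrix.map_apply]
    change (inner ℝ (P.cc x y z) X : ℝ) = _
    rw [h2, Matrix.mul_sum, Matrix.sum_mul, Matrix.sum_apply]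
    refine Finset.sum_congr rfl fun k _ => ?_
    rw [h3, Matrix.mul_smul, Matrix.smul_mul, Matrix.smul_apply, smul_eq_mul, mul_comm]

variable (P : CPair n M κ κ0 κ1) (z : M) (X Y : TangentSpace 𝓘(ℝ, EuclideanSpace ℝ (Fin n)) z)


lemma ccX_smul (r : ℝ) : ccX P.cc z (r • X) = r • ccX P.cc z X := by
  ext x y
  exact real_inner_smul_right (P.cc x y z) X r

lemma ccX_sum {ι : Type*} (s : Finset ι)
    (F : ι → TangentSpace 𝓘(ℝ, EuclideanSpace ℝ (Fin n)) z) :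
    ccX P.cc z (∑ i ∈ s, F i) = ∑ i ∈ s, ccX P.cc z (F i) := by
  ext x y
  rw [Matrix.sum_apply]
  exact inner_sum (𝕜 := ℝ) s F (P.cc x y z)

/-- the Clifford relation on `D0` -/
theorem clif0 : (ccX P.cc z X)ᵀ * ccX P.cc z Y + (ccX P.cc z Y)ᵀ * ccX P.cc z X
    = (2 * (inner ℝ X Y : ℝ)) • pz P.D0 z := by
  obtain ⟨ι0, ι1, i1, i2, i3, i4, j0, j1, c, b, h1, h2, h3, h4, h5, h6, h7, h8, h9⟩ := exists_pt P z
  have e1 : ∀ A B : Matrix ι1 ι0 ℝ, (j1 * A * j0ᵀ)ᵀ * (j1 * B * j0ᵀ) = j0 * (Aᵀ * B) * j0ᵀ := by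
    intro A B
    rw [Matrix.transpose_mul, Matrix.transpose_mul, Matrix.transpose_transpose]
    calc j0 * (Aᵀ * j1ᵀ) * (j1 * B * j0ᵀ) = j0 * (Aᵀ * ((j1ᵀ * j1) * B)) * j0ᵀ := by
          simp only [Matrix.mul_assoc]
      _ = j0 * (Aᵀ * B) * j0ᵀ := by rw [h3, Matrix.one_mul]
  have e2 : ∀ U V : TangentSpace 𝓘(ℝ, EuclideanSpace ℝ (Fin n)) z,
      (∑ k, (inner ℝ U (b k) : ℝ) • c k)ᵀ * (∑ k, (inner ℝ V (b k) : ℝ) • c k)
        = ∑ i, ∑ j, ((inner ℝ U (b i) : ℝ) * (inner ℝ V (b j) : ℝ)) • ((c i)ᵀ * c j) := by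
    intro U V
    rw [Matrix.transpose_sum, Matrix.sum_mul]
    refine Finset.sum_congr rfl fun i _ => ?_
    rw [Matrix.mul_sum]
    refine Finset.sum_congr rfl fun j _ => ?_
    rw [Matrix.transpose_smul, Matrix.smul_mul, Matrix.mul_smul, smul_smul]
  have e3 : ∑ i, ∑ j, ((inner ℝ X (b i) : ℝ) * (inner ℝ Y (b j) : ℝ)) • ((c i)ᵀ * c j)
      + ∑ i, ∑ j, ((inner ℝ Y (b i) : ℝ) * (inner ℝ X (b j) : ℝ)) • ((c i)ᵀ * c j)
      = (2 * (inner ℝ X Y : ℝ)) • (1 : Matrix ι0 ι0 ℝ) := by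
    rw [Finset.sum_comm (f := fun i j =>
      ((inner ℝ Y (b i) : ℝ) * (inner ℝ X (b j) : ℝ)) • ((c i)ᵀ * c j)),
      ← Finset.sum_add_distrib]
    have e4 : ∀ i, (∑ j, ((inner ℝ X (b i) : ℝ) * (inner ℝ Y (b j) : ℝ)) • ((c i)ᵀ * c j)
        + ∑ j, ((inner ℝ Y (b j) : ℝ) * (inner ℝ X (b i) : ℝ)) • ((c j)ᵀ * c i))
        = (2 * ((inner ℝ X (b i) : ℝ) * (inner ℝ Y (b i) : ℝ))) • (1 : Matrix ι0 ι0 ℝ) := by
      intro i
      rw [← Finset.sum_add_distrib]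
      have e5 : ∀ j, (((inner ℝ X (b i) : ℝ) * (inner ℝ Y (b j) : ℝ)) • ((c i)ᵀ * c j)
          + ((inner ℝ Y (b j) : ℝ) * (inner ℝ X (b i) : ℝ)) • ((c j)ᵀ * c i))
          = if i = j then (2 * ((inner ℝ X (b i) : ℝ) * (inner ℝ Y (b i) : ℝ))) •
            (1 : Matrix ι0 ι0 ℝ) else 0 := by
        intro j
        rw [mul_comm (inner ℝ Y (b j) : ℝ), ← smul_add, h5]
        by_cases hij : i = j
        · subst hij
          rw [if_pos rfl, if_pos rfl, smul_smul]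
          congr 1
          ring
        · rw [if_neg hij, if_neg hij, smul_zero]
      simp only [e5, Finset.sum_ite_eq, Finset.mem_univ, if_true]
    rw [Finset.sum_congr rfl fun i _ => e4 i, ← Finset.sum_smul, ← Finset.mul_sum]
    congr 2
    conv_rhs => rw [← h8 Y, inner_sum]
    refine Finset.sum_congr rfl fun i _ => ?_
    rw [real_inner_smul_right, mul_comm]
  rw [h9, h9, e1, e1, ← Matrix.add_mul, ← Matrix.mul_add, e2, e2, e3, Matrix.mul_smul,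
    Matrix.mul_one, Matrix.smul_mul, h2]

lemma p1_cc : pz P.D1 z * ccX P.cc z X = ccX P.cc z X := by
  obtain ⟨ι0, ι1, i1, i2, i3, i4, j0, j1, c, b, h1, h2, h3, h4, h5, h6, h7, h8, h9⟩ := exists_pt P z
  rw [h9, ← h4]
  calc j1 * j1ᵀ * (j1 * (∑ k, (inner ℝ X (b k) : ℝ) • c k) * j0ᵀ)
      = j1 * ((j1ᵀ * j1) * (∑ k, (inner ℝ X (b k) : ℝ) • c k)) * j0ᵀ := by
        simp only [Matrix.mul_assoc]
    _ = _ := by rw [h3, Matrix.one_mul]

lemma cc_p0 : ccX P.cc z X * pz P.D0 z = ccX P.cc z X := by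
  obtain ⟨ι0, ι1, i1, i2, i3, i4, j0, j1, c, b, h1, h2, h3, h4, h5, h6, h7, h8, h9⟩ := exists_pt P z
  rw [h9, ← h2]
  calc j1 * (∑ k, (inner ℝ X (b k) : ℝ) • c k) * j0ᵀ * (j0 * j0ᵀ)
      = j1 * (∑ k, (inner ℝ X (b k) : ℝ) • c k) * ((j0ᵀ * j0) * j0ᵀ) := by
        simp only [Matrix.mul_assoc]
    _ = _ := by rw [h1, Matrix.one_mul]

/-- `|c(X) v|² = |X|² ⟨p v, v⟩` -/
theorem norm_ccX (v : κ0 → ℝ) : (ccX P.cc z X *ᵥ v) ⬝ᵥ (ccX P.cc z X *ᵥ v)
    = (inner ℝ X X : ℝ) * (v ⬝ᵥ (pz P.D0 z *ᵥ v)) := by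
  have h1 := clif0 P z X X
  rw [← two_smul ℝ, mul_smul] at h1
  have h2 : (ccX P.cc z X)ᵀ * ccX P.cc z X = (inner ℝ X X : ℝ) • pz P.D0 z :=
    smul_right_injective _ (two_ne_zero (α := ℝ)) h1
  rw [Matrix.dotProduct_mulVec, ← Matrix.mulVec_transpose, Matrix.mulVec_mulVec, h2,
    Matrix.smul_mulVec, smul_dotProduct, smul_eq_mul, dotProduct_comm]

/-- a combination of a Parseval frame is not longer than its coefficients -/
lemma norm_frame_le (s : PF n M κ) (a : κ → ℝ) :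
    (inner ℝ (∑ A, a A • s.s A z) (∑ A, a A • s.s A z) : ℝ) ≤ ∑ A, a A ^ 2 := by
  set V : TangentSpace 𝓘(ℝ, EuclideanSpace ℝ (Fin n)) z := ∑ A, a A • s.s A z with hV
  have h1 : (inner ℝ V V : ℝ) = ∑ A, a A * (inner ℝ (s.s A z) V : ℝ) := by
    conv_lhs => rw [hV]
    rw [sum_inner]
    exact Finset.sum_congr rfl fun A _ => real_inner_smul_left _ _ _
  have h2 : (inner ℝ V V : ℝ) = ∑ A, (inner ℝ (s.s A z) V : ℝ) ^ 2 := by
    conv_lhs => rw [← s.pars z V]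
    rw [sum_inner]
    refine Finset.sum_congr rfl fun A _ => ?_
    rw [real_inner_smul_left, s.pars z V]
    ring
  have h3 : 0 ≤ ∑ A, (a A - (inner ℝ (s.s A z) V : ℝ)) ^ 2 :=
    Finset.sum_nonneg fun A _ => sq_nonneg _
  have h4 : ∑ A, (a A - (inner ℝ (s.s A z) V : ℝ)) ^ 2
      = ∑ A, a A ^ 2 - 2 * ∑ A, a A * (inner ℝ (s.s A z) V : ℝ)
        + ∑ A, (inner ℝ (s.s A z) V : ℝ) ^ 2 := by
    rw [Finset.mul_sum, ← Finset.sum_sub_distrib, ← Finset.sum_add_distrib]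
    exact Finset.sum_congr rfl fun A _ => by ring
  rw [h4, ← h1, ← h2] at h3
  linarith

lemma pz_t (D : Bun n M κ) : (pz D z)ᵀ = pz D z := by
  ext a b
  exact D.symmp b a z

lemma pz_mul (D : Bun n M κ) : pz D z * pz D z = pz D z := by
  ext a b
  rw [Matrix.mul_apply]
  exact D.idem a b z

/-- a bundle projection does not increase the norm -/
lemma pz_le (D : Bun n M κ) (v : κ → ℝ) : v ⬝ᵥ (pz D z *ᵥ v) ≤ v ⬝ᵥ v := by
  have h1 : (pz D z *ᵥ v) ⬝ᵥ (pz D z *ᵥ v) = v ⬝ᵥ (pz D z *ᵥ v) := by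
    rw [Matrix.dotProduct_mulVec, ← Matrix.mulVec_transpose, Matrix.mulVec_mulVec, pz_t, pz_mul,
      dotProduct_comm]
  have h2 : 0 ≤ (v - pz D z *ᵥ v) ⬝ᵥ (v - pz D z *ᵥ v) :=
    Finset.sum_nonneg fun a _ => mul_self_nonneg _
  rw [sub_dotProduct, dotProduct_sub, dotProduct_sub, h1, dotProduct_comm (pz D z *ᵥ v) v] at h2
  linarith

variable (J : κ0 → κ0 → M → ℝ)

/-- the symbol composed with `J`, in the frame `s`: `c(a) J u = ∑ a_A u_y clJ A x y` -/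
def clJ (A : κ) (x : κ1) (y : κ0) (z : M) : ℝ :=
  ∑ y', (inner ℝ (P.cc x y' z) (P.s.s A z) : ℝ) * J y' y z

lemma sum_clJ (a : κ → ℝ) (u : κ0 → ℝ) (x : κ1) :
    ∑ A, ∑ y, a A * u y * clJ P J A x y z
      = (ccX P.cc z (∑ A, a A • P.s.s A z) *ᵥ
        ((Matrix.of fun y' y => J y' y z) *ᵥ u)) x := by
  rw [ccX_sum]
  simp only [ccX_smul, Matrix.sum_mulVec, Matrix.smul_mulVec, Finset.sum_apply, Pi.smul_apply,
    smul_eq_mul]
  refine Finset.sum_congr rfl fun A _ => ?_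
  simp only [Matrix.mulVec, dotProduct, ccX, Matrix.of_apply, clJ, Finset.mul_sum]
  rw [Finset.sum_comm]
  exact Finset.sum_congr rfl fun y' _ => Finset.sum_congr rfl fun y _ => by ring

/-- field `clbd` of `SWS.OK` -/
theorem clJ_le (hsk : ∀ a b, J a b z = - J b a z)
    (hpJ : ∀ a b, ∑ c, P.D0.p a c z * J c b z = J a b z)
    (hJJ : ∀ a b, ∑ c, J a c z * J c b z = - P.D0.p a b z) (a : κ → ℝ) (u : κ0 → ℝ) :
    ∑ x, (∑ A, ∑ y, a A * u y * clJ P J A x y z) ^ 2 ≤ (∑ A, a A ^ 2) * ∑ y, u y ^ 2 := by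
  set Jm : Matrix κ0 κ0 ℝ := Matrix.of fun y' y => J y' y z with hJm
  have h1 : ∑ x, (∑ A, ∑ y, a A * u y * clJ P J A x y z) ^ 2
      = (ccX P.cc z (∑ A, a A • P.s.s A z) *ᵥ (Jm *ᵥ u)) ⬝ᵥ
        (ccX P.cc z (∑ A, a A • P.s.s A z) *ᵥ (Jm *ᵥ u)) := by
    simp only [sum_clJ, dotProduct]
    exact Finset.sum_congr rfl fun x _ => by rw [sq]
  have h2 : pz P.D0 z * Jm = Jm := by
    ext a b
    rw [Matrix.mul_apply]
    exact hpJ a b
  have h3 : Jmᵀ * Jm = pz P.D0 z := by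
    ext a b
    rw [Matrix.mul_apply]
    change ∑ c, J c a z * J c b z = P.D0.p a b z
    have := hJJ a b
    rw [← neg_eq_iff_eq_neg] at this
    rw [← this, ← Finset.sum_neg_distrib]
    refine Finset.sum_congr rfl fun c _ => ?_
    rw [hsk c a]
    ring
  rw [h1, norm_ccX, Matrix.mulVec_mulVec, h2]
  have h4 : (Jm *ᵥ u) ⬝ᵥ (Jm *ᵥ u) = u ⬝ᵥ (pz P.D0 z *ᵥ u) := by
    rw [Matrix.dotProduct_mulVec, ← Matrix.mulVec_transpose, Matrix.mulVec_mulVec, h3,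
      dotProduct_comm]
  rw [h4]
  have h5 := pz_le z P.D0 u
  have h6 : u ⬝ᵥ u = ∑ y, u y ^ 2 := Finset.sum_congr rfl fun y _ => by ring
  have h7 := norm_frame_le (n := n) z P.s a
  have h8 : (0:ℝ) ≤ inner ℝ (∑ A, a A • P.s.s A z) (∑ A, a A • P.s.s A z) :=
    real_inner_self_nonneg
  rw [h6] at h5
  calc (inner ℝ (∑ A, a A • P.s.s A z) (∑ A, a A • P.s.s A z) : ℝ) * (u ⬝ᵥ (pz P.D0 z *ᵥ u))
      ≤ (inner ℝ (∑ A, a A • P.s.s A z) (∑ A, a A • P.s.s A z) : ℝ) * ∑ y, u y ^ 2 :=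
        mul_le_mul_of_nonneg_left h5 h8
    _ ≤ (∑ A, a A ^ 2) * ∑ y, u y ^ 2 :=
        mul_le_mul_of_nonneg_right h7 (Finset.sum_nonneg fun y _ => sq_nonneg _)

/-- field `clsec` of `SWS.OK` -/
theorem p1_clJ (A : κ) (x : κ1) (y : κ0) :
    ∑ x', P.D1.p x x' z * clJ P J A x' y z = clJ P J A x y z := by
  have h := p1_cc P z (P.s.s A z)
  simp only [clJ, Finset.mul_sum]
  rw [Finset.sum_comm]
  refine Finset.sum_congr rfl fun y' _ => ?_
  have h1 := congrFun (congrFun h x) y'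
  rw [Matrix.mul_apply] at h1
  change ∑ x', P.D1.p x x' z * (inner ℝ (P.cc x' y' z) (P.s.s A z) : ℝ)
    = (inner ℝ (P.cc x y' z) (P.s.s A z) : ℝ) at h1
  rw [← h1, Finset.sum_mul]
  exact Finset.sum_congr rfl fun x' _ => by ring

/-- field `smcl` of `SWS.OK` -/
theorem smooth_clJ (hJ : ∀ a b, ContMDiff 𝓘E 𝓘(ℝ, ℝ) ∞ (J a b)) (A : κ) (x : κ1) (y : κ0) :
    ContMDiff 𝓘E 𝓘(ℝ, ℝ) ∞ (clJ P J A x y) := by
  have h1 : clJ P J A x y = fun z => ∑ y', (inner ℝ (P.cc x y' z) (P.s.s A z) : ℝ) * J y' y z := rfl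
  rw [h1]
  refine contMDiff_finsetSum fun y' _ => ?_
  have h2 : ContMDiff 𝓘E 𝓘(ℝ, ℝ) ∞ fun z => (inner ℝ (P.cc x y' z) (P.s.s A z) : ℝ) :=
    Crest.Agent.R249.Sg129.contMDiff_inner (P.smc x y') (P.s.sm A)
  exact h2.mul (hJ y' y)

/-- **the curvature term**: only the self-dual part of `b` acts. -/
theorem curv_rho {ek : Fin 3 → TangentSpace 𝓘(ℝ, EuclideanSpace ℝ (Fin n)) z →
      TangentSpace 𝓘(ℝ, EuclideanSpace ℝ (Fin n)) z → ℝ} {I : Fin 3 → Matrix κ0 κ0 ℝ}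
    (hI : ∀ X Y : TangentSpace 𝓘(ℝ, EuclideanSpace ℝ (Fin n)) z,
      (ccX P.cc z X)ᵀ * ccX P.cc z Y = (inner ℝ X Y : ℝ) • pz P.D0 z + ∑ k, ek k X Y • I k)
    (b : TangentSpace 𝓘(ℝ, EuclideanSpace ℝ (Fin n)) z →
      TangentSpace 𝓘(ℝ, EuclideanSpace ℝ (Fin n)) z → ℝ) (hb : ∀ X Y, b X Y = - b Y X)
    {ι : Type*} [Fintype ι] (s : ι → TangentSpace 𝓘(ℝ, EuclideanSpace ℝ (Fin n)) z) :
    ∑ C, ∑ D, b (s C) (s D) • ((ccX P.cc z (s C))ᵀ * ccX P.cc z (s D))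
      = ∑ k, (∑ C, ∑ D, b (s C) (s D) * ek k (s C) (s D)) • I k := by
  have h1 : ∑ C, ∑ D, (b (s C) (s D) * (inner ℝ (s C) (s D) : ℝ)) = 0 := by
    have h2 : ∑ C, ∑ D, (b (s C) (s D) * (inner ℝ (s C) (s D) : ℝ))
        = - ∑ C, ∑ D, (b (s C) (s D) * (inner ℝ (s C) (s D) : ℝ)) := by
      conv_lhs => rw [Finset.sum_comm]
      rw [← Finset.sum_neg_distrib]
      refine Finset.sum_congr rfl fun C _ => ?_
      rw [← Finset.sum_neg_distrib]
      refine Finset.sum_congr rfl fun D _ => ?_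
      rw [hb, real_inner_comm]
      ring
    linarith
  simp only [hI, smul_add, Finset.sum_add_distrib, smul_smul, Finset.smul_sum]
  have h3 : ∑ C, ∑ D, (b (s C) (s D) * (inner ℝ (s C) (s D) : ℝ)) • pz P.D0 z = 0 := by
    simp only [← Finset.sum_smul]
    rw [h1, zero_smul]
  rw [h3, zero_add]
  simp only [Finset.sum_smul]
  calc ∑ C, ∑ D, ∑ k, (b (s C) (s D) * ek k (s C) (s D)) • I k
      = ∑ C, ∑ k, ∑ D, (b (s C) (s D) * ek k (s C) (s D)) • I k :=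
        Finset.sum_congr rfl fun C _ => Finset.sum_comm
    _ = _ := Finset.sum_comm

end clif

end Crest.Agent.R235.Mdl2_755
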