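import Crest.Agent.R249.Idx5_789
import Crest.Agent.R249.Wk2_198
import Crest.Agent.R249.DenQ_714
import Crest.Agent.R235.Mdl2_755
import Crest.Agent.R235.SymQ_755
import Crest.Agent.R235.SwsQ_755
import Crest.Agent.R235.Mdl3B_399
import Crest.Agent.R235.LTwE_453
import Crest.Agent.R249.WkD_352

-- ▼ part R235/AddJ_344
section

/-!
Row 235, PACKAGE SW, block MODEL (task 337), part 1 (helper344): adding a real one-form to the
connection of a Clifford pair of row 249.

* `PJ D J` : `J` is a parallel skew endomorphism of the bundle `D`;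
* `addJ D h v hv` : the bundle `D` with the connection `∇ + v ⊗ J`;
* `Om_addJ` : its curvature is `Ω + J · dv`;
* `cloc_addJ` : local frames.
-/

set_option autoImplicit false
set_option maxSynthPendingDepth 3
set_option linter.unusedSectionVars false

open Filter Topology Set Bundle Manifold Matrix
open scoped ContDiff
open Crest.GeometryTopology.CoordMetric Crest.GeometryTopology.ChartCurvature
  Crest.GeometryTopology.PointedLimit
open Crest.Agent.R202.Tens Crest.Agent.R247.Bo84 Crest.Agent.R249.FrmB_285 Crest.Agent.R249.Vf281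
  Crest.Agent.R249.Tz1_805 Crest.Agent.R249.Tz2_805
open Crest.Agent.R249.Fr129 Crest.Agent.R249.C2_198
open Crest.Agent.R249.Sg129 hiding fg fg_add fg_sub fg_mul fg_const fg_sum ev_fg contMDiff_inner VSm_mCov
open Crest.Agent.R249.Tz805 Crest.Agent.R249.Dic805

noncomputable section

namespace Crest.Agent.R235.AddJ_344

variable {n : ℕ} {M : Type*} [TopologicalSpace M] [ChartedSpace (EuclideanSpace ℝ (Fin n)) M]
  [IsManifold 𝓘(ℝ, EuclideanSpace ℝ (Fin n)) ∞ M]
  [RiemannianBundle (fun x : M => TangentSpace 𝓘(ℝ, EuclideanSpace ℝ (Fin n)) x)]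
  [IsContMDiffRiemannianBundle 𝓘(ℝ, EuclideanSpace ℝ (Fin n)) ∞ (EuclideanSpace ℝ (Fin n))
      (fun x : M => TangentSpace 𝓘(ℝ, EuclideanSpace ℝ (Fin n)) x)]

local notation "𝔼" => EuclideanSpace ℝ (Fin n)
local notation "𝓘E" => 𝓘(ℝ, EuclideanSpace ℝ (Fin n))

/-! ### calculus of fields -/

section calcf

variable {X Y : (p : M) → TangentSpace 𝓘(ℝ, EuclideanSpace ℝ (Fin n)) p} {f : M → ℝ} {z : M}

lemma mCov_add (hX : VSm n 1 X z) (hY : VSm n 1 Y z) (v : TangentSpace 𝓘E z) :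
    mCov n (fun q => X q + Y q) z v = mCov n X z v + mCov n Y z v := by
  have e : vCh n z (fun q => X q + Y q) = fun y => vCh n z X y + vCh n z Y y :=
    funext fun y => vCh_add X Y z y
  have h1 := ContDiffAt.differentiableAt hX (by norm_num)
  have h2 := ContDiffAt.differentiableAt hY (by norm_num)
  rw [mCov, e, cov_apply, fderiv_fun_add h1 h2]
  refine (congrArg (dSy z (chartCentre n M z)) ?_).trans (map_add _ _ _)
  rw [cov_apply, cov_apply, _root_.add_apply, map_add]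
  abel

lemma mCov_smul (hf : MDifferentiableAt 𝓘E 𝓘(ℝ, ℝ) f z) (hX : VSm n 1 X z)
    (v : TangentSpace 𝓘E z) :
    mCov n (fun q => f q • X q) z v = f z • mCov n X z v + dM n f z v • X z := by
  have e : vCh n z (fun q => f q • X q) = fun y => inCh n z f y • vCh n z X y :=
    funext fun y => vCh_smul f X z y
  have h1 := differentiableAt_centre hf
  have h2 := ContDiffAt.differentiableAt hX (by norm_num)
  have h3 : (X z : 𝔼) = dSy z (chartCentre n M z) (vCh n z X (chartCentre n M z)) := by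
    rw [vCh_centre]
    exact (dSy_dCh z (mem_chart_source 𝔼 z) _).symm
  have h4 : dM n f z v = fderiv ℝ (inCh n z f) (chartCentre n M z) (dCh z z v) := by
    rw [dM_eq, mfderiv_centre]
  rw [mCov, e, cov_apply, fderiv_fun_smul h1 h2, h4]
  refine Eq.trans ?_ (congrArg₂ (fun a b : 𝔼 => a + b) (map_smul (dSy z (chartCentre n M z)) (f z) _)
    ((map_smul (dSy z (chartCentre n M z)) _ _).trans (congrArg _ h3.symm)))
  rw [← map_add]
  congr 1
  rw [cov_apply, inCh_centre, _root_.add_apply, _root_.smul_apply, ContinuousLinearMap.smulRight_apply,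
    map_smul, smul_add]
  abel

end calcf

/-! ### parallel endomorphisms -/

section bun

variable {κ : Type} [Fintype κ]

/-- `J` is a parallel skew endomorphism of `D`. -/
structure PJ (D : Bun n M κ) (J : κ → κ → M → ℝ) : Prop where
  sm : ∀ a b, ContMDiff 𝓘(ℝ, EuclideanSpace ℝ (Fin n)) 𝓘(ℝ, ℝ) ∞ (J a b)
  skew : ∀ a b z, J a b z = - J b a z
  pJ : ∀ a b z, ∑ c, D.p a c z * J c b z = J a b z
  par : ∀ a b z, mgrad n (J a b) z + ∑ c, (J c b z • D.W a c z - J a c z • D.W c b z) = 0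

variable {D : Bun n M κ} {J : κ → κ → M → ℝ}

lemma PJ.Jp (h : PJ D J) (a b : κ) (z : M) : ∑ c, J a c z * D.p c b z = J a b z := by
  rw [h.skew a b z, ← h.pJ b a z, ← Finset.sum_neg_distrib]
  refine Finset.sum_congr rfl fun c _ => ?_
  rw [h.skew a c z, D.symmp c b z]; ring

variable (D) in
/-- the bundle `D` with the connection `∇ + v ⊗ J`. -/
def addJ (h : PJ D J) {v : (p : M) → TangentSpace 𝓘(ℝ, EuclideanSpace ℝ (Fin n)) p}
    (hv : ∀ z, VSm n ∞ v z) : Bun n M κ where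
  W a b z := D.W a b z + J a b z • v z
  p := D.p
  smW a b z := (D.smW a b z).add (VSm.smul le_rfl (h.sm a b).contMDiffAt (hv z))
  skew a b z := by rw [D.skew a b z, h.skew a b z, neg_smul, neg_add]
  smp := D.smp
  symmp := D.symmp
  idem := D.idem
  par a b z := by
    have h1 : ∑ c, (D.p c b z • (D.W a c z + J a c z • v z)
          - D.p a c z • (D.W c b z + J c b z • v z))
        = ∑ c, (D.p c b z • D.W a c z - D.p a c z • D.W c b z) := by
      have e1 : ∀ c, D.p c b z • (D.W a c z + J a c z • v z)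
            - D.p a c z • (D.W c b z + J c b z • v z)
          = (D.p c b z • D.W a c z - D.p a c z • D.W c b z)
            + ((J a c z * D.p c b z) • v z - (D.p a c z * J c b z) • v z) := by
        intro c
        rw [smul_add, smul_add, smul_smul, smul_smul, mul_comm (J a c z)]
        abel
      have e2 : ∑ c, ((J a c z * D.p c b z) • v z - (D.p a c z * J c b z) • v z) = 0 := by
        rw [Finset.sum_sub_distrib, ← Finset.sum_smul, ← Finset.sum_smul, h.Jp, h.pJ, sub_self]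
      rw [Finset.sum_congr rfl fun c _ => e1 c, Finset.sum_add_distrib, e2, add_zero]
    exact (congrArg (fun t => mgrad n (D.p a b) z + t) h1).trans (D.par a b z)

variable {v : (p : M) → TangentSpace 𝓘(ℝ, EuclideanSpace ℝ (Fin n)) p}

lemma cv_addJ (h : PJ D J) (hv : ∀ z, VSm n ∞ v z) (u : κ → M → ℝ) (a : κ) (z : M) :
    (addJ D h hv).cv u a z = D.cv u a z + (∑ b, J a b z * u b z) • v z := by
  have e1 : (addJ D h hv).cv u a z
      = mgrad n (u a) z + ∑ b, u b z • (D.W a b z + J a b z • v z) := rfl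
  rw [e1, Bun.cv, Finset.sum_smul, add_assoc, ← Finset.sum_add_distrib]
  congr 1
  refine Finset.sum_congr rfl fun b _ => ?_
  rw [smul_add, smul_smul, mul_comm (u b z)]

/-- the differential of the one-form `⟨v, ·⟩`. -/
def dd (v : (p : M) → TangentSpace 𝓘(ℝ, EuclideanSpace ℝ (Fin n)) p) (z : M)
    (X Y : TangentSpace 𝓘(ℝ, EuclideanSpace ℝ (Fin n)) z) : ℝ :=
  inner ℝ (mCov n v z X) Y - inner ℝ (mCov n v z Y) X

lemma dd_anti (v : (p : M) → TangentSpace 𝓘(ℝ, EuclideanSpace ℝ (Fin n)) p) (z : M)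
    (X Y : TangentSpace 𝓘(ℝ, EuclideanSpace ℝ (Fin n)) z) : dd v z X Y = - dd v z Y X := by
  rw [dd, dd]; ring

lemma inner_mCov_addJ (h : PJ D J) (hv : ∀ z, VSm n ∞ v z) (a b : κ) (z : M)
    (X Y : TangentSpace 𝓘(ℝ, EuclideanSpace ℝ (Fin n)) z) :
    (inner ℝ (mCov n ((addJ D h hv).W a b) z X) Y : ℝ)
      = inner ℝ (mCov n (D.W a b) z X) Y + J a b z * inner ℝ (mCov n v z X) Y
        + inner ℝ (mgrad n (J a b) z) X * inner ℝ (v z) Y := by
  have hJ : MDifferentiableAt 𝓘E 𝓘(ℝ, ℝ) (J a b) z := (h.sm a b z).mdifferentiableAt (by simp)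
  have hv1 : VSm n 1 v z := (hv z).of_le (by simp)
  have hW1 : VSm n 1 (D.W a b) z := (D.smW a b z).of_le (by simp)
  have hs : VSm n 1 (fun q => J a b q • v q) z :=
    (VSm.smul le_rfl (h.sm a b).contMDiffAt (hv z)).of_le (by simp)
  have e1 : mCov n ((addJ D h hv).W a b) z X
      = mCov n (D.W a b) z X + (J a b z • mCov n v z X + dM n (J a b) z X • v z) :=
    (mCov_add hW1 hs X).trans (congrArg (fun t => mCov n (D.W a b) z X + t) (mCov_smul hJ hv1 X))
  rw [e1, inner_add_left, inner_add_left, real_inner_smul_left, real_inner_smul_left,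
    inner_mgrad']
  ring

/-- curvature of the connection `∇ + v ⊗ J`. -/
theorem Om_addJ (h : PJ D J) (hv : ∀ z, VSm n ∞ v z)
    (X Y : (p : M) → TangentSpace 𝓘(ℝ, EuclideanSpace ℝ (Fin n)) p) (a b : κ) (z : M) :
    (addJ D h hv).Om X Y a b z = D.Om X Y a b z + J a b z * dd v z (X z) (Y z) := by
  have e1 : (addJ D h hv).Om X Y a b z
      = inner ℝ (mCov n ((addJ D h hv).W a b) z (X z)) (Y z)
        - inner ℝ (mCov n ((addJ D h hv).W a b) z (Y z)) (X z)
        + ∑ c, (inner ℝ (D.W a c z + J a c z • v z) (X z)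
            * inner ℝ (D.W c b z + J c b z • v z) (Y z)
          - inner ℝ (D.W a c z + J a c z • v z) (Y z)
            * inner ℝ (D.W c b z + J c b z • v z) (X z)) := rfl
  have hp : ∀ V : TangentSpace 𝓘(ℝ, EuclideanSpace ℝ (Fin n)) z,
      inner ℝ (mgrad n (J a b) z) V = - ∑ c, (J c b z * inner ℝ (D.W a c z) V
        - J a c z * inner ℝ (D.W c b z) V) := by
    intro V
    have h1 := congrArg (fun t => (inner ℝ t V : ℝ)) (h.par a b z)
    simp only [inner_add_left, sum_inner, inner_sub_left, real_inner_smul_left, inner_zero_left]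
      at h1
    linarith
  rw [e1, inner_mCov_addJ, inner_mCov_addJ, Bun.Om, hp, hp, dd]
  simp only [inner_add_left, real_inner_smul_left]
  have e2 : ∑ c, ((inner ℝ (D.W a c z) (X z) + J a c z * inner ℝ (v z) (X z))
            * (inner ℝ (D.W c b z) (Y z) + J c b z * inner ℝ (v z) (Y z))
          - (inner ℝ (D.W a c z) (Y z) + J a c z * inner ℝ (v z) (Y z))
            * (inner ℝ (D.W c b z) (X z) + J c b z * inner ℝ (v z) (X z)))
      = ∑ c, (inner ℝ (D.W a c z) (X z) * inner ℝ (D.W c b z) (Y z)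
          - inner ℝ (D.W a c z) (Y z) * inner ℝ (D.W c b z) (X z))
        + (∑ c, (J c b z * inner ℝ (D.W a c z) (X z) - J a c z * inner ℝ (D.W c b z) (X z)))
            * inner ℝ (v z) (Y z)
        - (∑ c, (J c b z * inner ℝ (D.W a c z) (Y z) - J a c z * inner ℝ (D.W c b z) (Y z)))
            * inner ℝ (v z) (X z) := by
    rw [Finset.sum_mul, Finset.sum_mul, ← Finset.sum_add_distrib, ← Finset.sum_sub_distrib]
    refine Finset.sum_congr rfl fun c _ => ?_
    ring
  rw [e2]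
  ring

end bun

end Crest.Agent.R235.AddJ_344
end
end

-- ▼ part R235/AddJ2_344
section

/-!
Row 235, PACKAGE SW, block MODEL (task 337), part 2 (helper344): the Clifford pair with connection
`∇ + v ⊗ J`.

* `CJ P J0 J1` : parallel endomorphisms of the two bundles of a Clifford pair, intertwined by the
  symbol;
* `CJ.add` : the Clifford pair with connections `∇ + v ⊗ J0`, `∇ + v ⊗ J1`;
* `opA_addJ`, `opB_addJ`, `potQ_addJ`.
-/

set_option autoImplicit false
set_option maxSynthPendingDepth 3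
set_option linter.unusedSectionVars false

open Filter Topology Set Bundle Manifold Matrix
open scoped ContDiff
open Crest.GeometryTopology.CoordMetric Crest.GeometryTopology.ChartCurvature
  Crest.GeometryTopology.PointedLimit
open Crest.Agent.R202.Tens Crest.Agent.R247.Bo84 Crest.Agent.R249.FrmB_285 Crest.Agent.R249.Vf281
  Crest.Agent.R249.Tz1_805 Crest.Agent.R249.Tz2_805
open Crest.Agent.R249.Fr129 Crest.Agent.R249.C2_198
open Crest.Agent.R249.Sg129 hiding fg fg_add fg_sub fg_mul fg_const fg_sum ev_fg contMDiff_inner VSm_mCov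
open Crest.Agent.R249.Tz805 Crest.Agent.R235.Mdl2_755

noncomputable section

namespace Crest.Agent.R235.AddJ_344

variable {n : ℕ} {M : Type*} [TopologicalSpace M] [ChartedSpace (EuclideanSpace ℝ (Fin n)) M]
  [IsManifold 𝓘(ℝ, EuclideanSpace ℝ (Fin n)) ∞ M]
  [RiemannianBundle (fun x : M => TangentSpace 𝓘(ℝ, EuclideanSpace ℝ (Fin n)) x)]
  [IsContMDiffRiemannianBundle 𝓘(ℝ, EuclideanSpace ℝ (Fin n)) ∞ (EuclideanSpace ℝ (Fin n))
      (fun x : M => TangentSpace 𝓘(ℝ, EuclideanSpace ℝ (Fin n)) x)]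

local notation "𝔼" => EuclideanSpace ℝ (Fin n)
local notation "𝓘E" => 𝓘(ℝ, EuclideanSpace ℝ (Fin n))

section ops

variable {κ κ0 κ1 : Type} [Fintype κ] [Fintype κ0] [Fintype κ1]
  {cc : κ1 → κ0 → (p : M) → TangentSpace 𝓘(ℝ, EuclideanSpace ℝ (Fin n)) p}
  {v : (p : M) → TangentSpace 𝓘(ℝ, EuclideanSpace ℝ (Fin n)) p}

lemma opA_addJ {D0 : Bun n M κ0} {J : κ0 → κ0 → M → ℝ} (h : PJ D0 J) (hv : ∀ z, VSm n ∞ v z)
    (u : κ0 → M → ℝ) (x : κ1) (z : M) :
    opA (addJ D0 h hv) cc u x z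
      = opA D0 cc u x z + ∑ y, (∑ b, J y b z * u b z) * inner ℝ (v z) (cc x y z) := by
  rw [opA, opA, ← Finset.sum_add_distrib]
  refine Finset.sum_congr rfl fun y _ => ?_
  rw [cv_addJ, inner_add_left, real_inner_smul_left]


/-- `J` as a matrix at `z`. -/
def Jz {κ : Type} (J : κ → κ → M → ℝ) (z : M) : Matrix κ κ ℝ := Matrix.of fun a b => J a b z

/-- the additional potential `-(1/2) ∑ dv(s_C, s_D) c(s_C)ᵀ c(s_D) J`. -/
def potE (s : PF n M κ)
    (cc : κ1 → κ0 → (p : M) → TangentSpace 𝓘(ℝ, EuclideanSpace ℝ (Fin n)) p)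
    (J : κ0 → κ0 → M → ℝ) (v : (p : M) → TangentSpace 𝓘(ℝ, EuclideanSpace ℝ (Fin n)) p)
    (z : M) : Matrix κ0 κ0 ℝ :=
  -(1 / 2 : ℝ) • ∑ C, ∑ D, dd v z (s.s C z) (s.s D z) •
    ((ccX cc z (s.s C z))ᵀ * ccX cc z (s.s D z) * Jz J z)

theorem potQ_addJ (s : PF n M κ) {D0 : Bun n M κ0} {J : κ0 → κ0 → M → ℝ} (h : PJ D0 J)
    (hv : ∀ z, VSm n ∞ v z) (y y' : κ0) (z : M) :
    potQ s (addJ D0 h hv) cc y y' z = potQ s D0 cc y y' z + potE s cc J v z y y' := by
  have e1 : potE s cc J v z y y' = -(1 / 2) * ∑ y'', ∑ x, ∑ C, ∑ D,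
      inner ℝ (cc x y z) (s.s C z) * inner ℝ (cc x y'' z) (s.s D z)
        * (J y'' y' z * dd v z (s.s C z) (s.s D z)) := by
    rw [potE, Matrix.smul_apply, smul_eq_mul]
    congr 1
    simp only [Matrix.sum_apply, Matrix.smul_apply, Matrix.mul_apply, Matrix.transpose_apply,
      smul_eq_mul, Finset.mul_sum, Finset.sum_mul]
    rw [Finset.sum_congr rfl fun C _ => Finset.sum_comm, Finset.sum_comm]
    refine Finset.sum_congr rfl fun y'' _ => ?_
    rw [Finset.sum_congr rfl fun C _ => Finset.sum_comm, Finset.sum_comm]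
    refine Finset.sum_congr rfl fun x _ => Finset.sum_congr rfl fun C _ =>
      Finset.sum_congr rfl fun D _ => ?_
    simp only [ccX, Jz, Matrix.of_apply]
    ring
  rw [e1, potQ, potQ, ← mul_add]
  congr 1
  simp only [← Finset.sum_add_distrib]
  refine Finset.sum_congr rfl fun y'' _ => Finset.sum_congr rfl fun x _ =>
    Finset.sum_congr rfl fun C _ => Finset.sum_congr rfl fun D _ => ?_
  rw [Om_addJ]
  ring

end ops

/-! ### local frames -/

section lf

variable {z : M} {e : Fin n → EuclideanSpace ℝ (Fin n) → EuclideanSpace ℝ (Fin n)}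
  {h : ONF (chartMetric n M z) (chartAt (EuclideanSpace ℝ (Fin n)) z).target
      (chartCentre n M z) e}
  {κ : Type} [Fintype κ] {ι : Type} [Fintype ι] [DecidableEq ι]
  {v : (p : M) → TangentSpace 𝓘(ℝ, EuclideanSpace ℝ (Fin n)) p}

variable (n) in
/-- germ of the matrix `J` -/
def Jg {κ : Type} (z : M) (J : κ → κ → M → ℝ) : Matrix κ κ (SG (chartCentre n M z)) :=
  Matrix.of fun x y => fg (n := n) z (J x y)

/-- `J` in a local frame -/
def Jl (z : M) (J : κ → κ → M → ℝ) (j : Matrix κ ι (SG (chartCentre n M z))) :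
    Matrix ι ι (SG (chartCentre n M z)) := jᵀ * (Jg n z J * j)

lemma PJ.germ {D : Bun n M κ} {J : κ → κ → M → ℝ} (hJ : PJ D J) :
    (Matrix.of fun x y => fg (n := n) z (D.p x y)) * Jg n z J = Jg n z J := by
  ext x y
  rw [Matrix.mul_apply]
  have e1 : J x y = fun q => ∑ c, D.p x c q * J c y q := funext fun q => (hJ.pJ x y q).symm
  have e2 : Jg n z J x y = fg z (fun q => ∑ c, D.p x c q * J c y q) := by
    rw [← e1]; rfl
  rw [e2, fg_sum (n := n) (z := z) Finset.univ (F := fun c q => D.p x c q * J c y q)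
    (fun c => (D.smp x c).mul (hJ.sm c y))]
  exact Finset.sum_congr rfl fun c _ => (fg_mul (D.smp x c) (hJ.sm c y)).symm

theorem lf_addJ {D : Bun n M κ} {J : κ → κ → M → ℝ} (hJ : PJ D J) (hv : ∀ z, VSm n ∞ v z)
    {a : Fin n → Matrix ι ι (SG (chartCentre n M z))} {j : Matrix κ ι (SG (chartCentre n M z))}
    (L : LF D h a j) :
    LF (addJ D hJ hv) h (fun k => a k + vg z e v k • Jl z J j) j where
  jtj := L.jtj
  jjt := L.jjt
  dj k := by
    have e1 : (Matrix.of fun x y => vg z e ((addJ D hJ hv).W x y) k)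
        = (Matrix.of fun x y => vg z e (D.W x y) k) + vg z e v k • Jg n z J := by
      ext x y
      have h1 : vg z e ((addJ D hJ hv).W x y) k
          = vg z e (D.W x y) k + fg z (J x y) * vg z e v k := by
        have h2 := vg_add h (D.smW x y)
          (fun q => VSm.smul le_rfl (hJ.sm x y).contMDiffAt (hv q)) k
        rw [vg_smul h (hJ.sm x y) hv] at h2
        exact h2
      rw [Matrix.add_apply, Matrix.smul_apply, Matrix.of_apply, Matrix.of_apply, h1, Jg,
        Matrix.of_apply, smul_eq_mul, mul_comm (vg z e v k)]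
    have e2 : j * Jl z J j = Jg n z J * j := by
      rw [Jl, ← Matrix.mul_assoc, L.jjt, ← Matrix.mul_assoc, hJ.germ]
    rw [e1, Matrix.add_mul, ← add_assoc, L.dj k, Matrix.mul_add, Matrix.mul_smul, e2,
      Matrix.smul_mul]

end lf

/-! ### the Clifford pair -/

section pair

variable {κ κ0 κ1 : Type} [Fintype κ] [Fintype κ0] [Fintype κ1]

/-- parallel endomorphisms of the bundles of a Clifford pair, intertwined by the symbol. -/
structure CJ (P : CPair n M κ κ0 κ1) (J0 : κ0 → κ0 → M → ℝ) (J1 : κ1 → κ1 → M → ℝ) : Prop where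
  p0 : PJ P.D0 J0
  p1 : PJ P.D1 J1
  comm : ∀ x y z, ∑ x', J1 x x' z • P.cc x' y z = ∑ y', J0 y' y z • P.cc x y' z

variable {P : CPair n M κ κ0 κ1} {J0 : κ0 → κ0 → M → ℝ} {J1 : κ1 → κ1 → M → ℝ}
  {v : (p : M) → TangentSpace 𝓘(ℝ, EuclideanSpace ℝ (Fin n)) p}

lemma Jz_t {κ : Type} [Fintype κ] {D : Bun n M κ} {J : κ → κ → M → ℝ} (h : PJ D J) (z : M) :
    (Jz J z)ᵀ = - Jz J z := by
  ext a b
  exact h.skew b a z

lemma CJ.mat (h : CJ P J0 J1) (z : M) (X : TangentSpace 𝓘(ℝ, EuclideanSpace ℝ (Fin n)) z) :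
    Jz J1 z * ccX P.cc z X = ccX P.cc z X * Jz J0 z := by
  ext x y
  rw [Matrix.mul_apply, Matrix.mul_apply]
  have h1 := congrArg (fun t => (inner ℝ t X : ℝ)) (h.comm x y z)
  simp only [sum_inner, real_inner_smul_left] at h1
  simp only [Jz, ccX, Matrix.of_apply]
  rw [h1]
  exact Finset.sum_congr rfl fun y' _ => mul_comm _ _

lemma CJ.mat_t (h : CJ P J0 J1) (z : M) (X : TangentSpace 𝓘(ℝ, EuclideanSpace ℝ (Fin n)) z) :
    Jz J0 z * (ccX P.cc z X)ᵀ = (ccX P.cc z X)ᵀ * Jz J1 z := by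
  have h1 := congrArg Matrix.transpose (h.mat z X)
  rw [Matrix.transpose_mul, Matrix.transpose_mul, Jz_t h.p0, Jz_t h.p1, Matrix.mul_neg,
    Matrix.neg_mul] at h1
  exact (neg_injective h1).symm

/-- abstract symmetry of the additional potential -/
lemma symE {A B : Type} [Fintype A] [Fintype B] {ι : Type*} [Fintype ι] (c : ι → Matrix A B ℝ)
    (b : ι → ι → ℝ) (hb : ∀ i j, b i j = - b j i) (J : Matrix B B ℝ) (hJ : Jᵀ = -J)
    (hc : ∀ i j, J * ((c i)ᵀ * c j) = (c i)ᵀ * c j * J) :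
    (∑ i, ∑ j, b i j • ((c i)ᵀ * c j * J))ᵀ = ∑ i, ∑ j, b i j • ((c i)ᵀ * c j * J) := by
  have h1 : ∀ i j, ((c i)ᵀ * c j * J)ᵀ = - ((c j)ᵀ * c i * J) := by
    intro i j
    rw [Matrix.transpose_mul, Matrix.transpose_mul, Matrix.transpose_transpose, hJ, Matrix.neg_mul,
      hc]
  simp only [Matrix.transpose_sum, Matrix.transpose_smul, h1]
  rw [Finset.sum_comm]
  refine Finset.sum_congr rfl fun i _ => Finset.sum_congr rfl fun j _ => ?_
  rw [hb j i, neg_smul, smul_neg, neg_neg]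

lemma CJ.sE0 (h : CJ P J0 J1) (z : M) :
    (potE P.s P.cc J0 v z)ᵀ = potE P.s P.cc J0 v z := by
  rw [potE, Matrix.transpose_smul]
  congr 1
  refine symE (fun C => ccX P.cc z (P.s.s C z)) (fun C D => dd v z (P.s.s C z) (P.s.s D z))
    (fun C D => dd_anti v z _ _) (Jz J0 z) (Jz_t h.p0 z) fun C D => ?_
  rw [← Matrix.mul_assoc, h.mat_t, Matrix.mul_assoc, h.mat, Matrix.mul_assoc]

lemma CJ.sE1 (h : CJ P J0 J1) (z : M) :
    (potE P.s (fun y x => P.cc x y) J1 v z)ᵀ = potE P.s (fun y x => P.cc x y) J1 v z := by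
  have e0 : ∀ X : TangentSpace 𝓘(ℝ, EuclideanSpace ℝ (Fin n)) z,
      ccX (fun y x => P.cc x y) z X = (ccX P.cc z X)ᵀ := fun X => rfl
  rw [potE, Matrix.transpose_smul]
  congr 1
  refine symE (fun C => ccX (fun y x => P.cc x y) z (P.s.s C z))
    (fun C D => dd v z (P.s.s C z) (P.s.s D z))
    (fun C D => dd_anti v z _ _) (Jz J1 z) (Jz_t h.p1 z) fun C D => ?_
  rw [e0, e0, Matrix.transpose_transpose, ← Matrix.mul_assoc, h.mat, Matrix.mul_assoc, h.mat_t,
    Matrix.mul_assoc]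

/-- the symbol in local frames commutes with `J` -/
lemma CJ.loc (h : CJ P J0 J1) {z : M}
    {e : Fin n → EuclideanSpace ℝ (Fin n) → EuclideanSpace ℝ (Fin n)}
    {hf : ONF (chartMetric n M z) (chartAt (EuclideanSpace ℝ (Fin n)) z).target
      (chartCentre n M z) e}
    {ι0 ι1 : Type} [Fintype ι0] [DecidableEq ι0] [Fintype ι1] [DecidableEq ι1]
    {a0 : Fin n → Matrix ι0 ι0 (SG (chartCentre n M z))}
    {a1 : Fin n → Matrix ι1 ι1 (SG (chartCentre n M z))}
    {c : Fin n → Matrix ι1 ι0 (SG (chartCentre n M z))}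
    {j0 : Matrix κ0 ι0 (SG (chartCentre n M z))} {j1 : Matrix κ1 ι1 (SG (chartCentre n M z))}
    (C : CLoc P.D0 P.D1 P.cc hf a0 a1 c j0 j1) (i : Fin n) :
    Jl z J1 j1 * c i = c i * Jl z J0 j0 := by
  have e1 : Jg n z J1 * (j1 * c i * j0ᵀ) = (j1 * c i * j0ᵀ) * Jg n z J0 := by
    ext x y
    rw [Matrix.mul_apply, Matrix.mul_apply]
    have e2 : (fun q => ∑ x', J1 x x' q • P.cc x' y q) = fun q => ∑ y', J0 y' y q • P.cc x y' q :=
      funext fun q => h.comm x y q
    have e3 : vg z e (fun q => ∑ x', J1 x x' q • P.cc x' y q) i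
        = vg z e (fun q => ∑ y', J0 y' y q • P.cc x y' q) i := by rw [e2]
    rw [vg_sum hf Finset.univ (F := fun x' q => J1 x x' q • P.cc x' y q)
        (fun x' q => VSm.smul le_rfl (h.p1.sm x x').contMDiffAt (P.smc x' y q)),
      vg_sum hf Finset.univ (F := fun y' q => J0 y' y q • P.cc x y' q)
        (fun y' q => VSm.smul le_rfl (h.p0.sm y' y).contMDiffAt (P.smc x y' q))] at e3
    have e4 : ∀ x', vg z e (fun q => J1 x x' q • P.cc x' y q) i
        = Jg n z J1 x x' * (j1 * c i * j0ᵀ) x' y := fun x' => by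
      rw [vg_smul hf (h.p1.sm x x') (P.smc x' y), C.sym x' y i]; rfl
    have e5 : ∀ y', vg z e (fun q => J0 y' y q • P.cc x y' q) i
        = (j1 * c i * j0ᵀ) x y' * Jg n z J0 y' y := fun y' => by
      rw [vg_smul hf (h.p0.sm y' y) (P.smc x y'), C.sym x y' i, mul_comm]; rfl
    rw [Finset.sum_congr rfl fun x' _ => e4 x', Finset.sum_congr rfl fun y' _ => e5 y'] at e3
    exact e3
  have e6 : j1ᵀ * (Jg n z J1 * (j1 * c i * j0ᵀ)) * j0 = Jl z J1 j1 * c i := by
    have : j1ᵀ * (Jg n z J1 * (j1 * c i * j0ᵀ)) * j0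
        = j1ᵀ * (Jg n z J1 * j1) * c i * (j0ᵀ * j0) := by simp only [Matrix.mul_assoc]
    rw [this, C.l0.jtj, Matrix.mul_one, Jl]
  have e7 : j1ᵀ * ((j1 * c i * j0ᵀ) * Jg n z J0) * j0 = c i * Jl z J0 j0 := by
    have : j1ᵀ * ((j1 * c i * j0ᵀ) * Jg n z J0) * j0
        = (j1ᵀ * j1) * c i * (j0ᵀ * (Jg n z J0 * j0)) := by simp only [Matrix.mul_assoc]
    rw [this, C.l1.jtj, Matrix.one_mul, Jl]
  rw [← e6, e1, e7]

theorem CJ.cloc (h : CJ P J0 J1) (hv : ∀ z, VSm n ∞ v z) {z : M}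
    {e : Fin n → EuclideanSpace ℝ (Fin n) → EuclideanSpace ℝ (Fin n)}
    {hf : ONF (chartMetric n M z) (chartAt (EuclideanSpace ℝ (Fin n)) z).target
      (chartCentre n M z) e}
    {ι0 ι1 : Type} [Fintype ι0] [DecidableEq ι0] [Fintype ι1] [DecidableEq ι1]
    {a0 : Fin n → Matrix ι0 ι0 (SG (chartCentre n M z))}
    {a1 : Fin n → Matrix ι1 ι1 (SG (chartCentre n M z))}
    {c : Fin n → Matrix ι1 ι0 (SG (chartCentre n M z))}
    {j0 : Matrix κ0 ι0 (SG (chartCentre n M z))} {j1 : Matrix κ1 ι1 (SG (chartCentre n M z))}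
    (C : CLoc P.D0 P.D1 P.cc hf a0 a1 c j0 j1) :
    CLoc (addJ P.D0 h.p0 hv) (addJ P.D1 h.p1 hv) P.cc hf
      (fun k => a0 k + vg z e v k • Jl z J0 j0) (fun k => a1 k + vg z e v k • Jl z J1 j1)
      c j0 j1 where
  l0 := lf_addJ h.p0 hv C.l0
  l1 := lf_addJ h.p1 hv C.l1
  par :=
    { const := C.par.const
      par := fun m i => by
        rw [Matrix.add_mul, Matrix.mul_add, C.par.par m i, Matrix.smul_mul, Matrix.mul_smul,
          h.loc C i]
        abel }
  cl0 := C.cl0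
  cl1 := C.cl1
  sym := C.sym

/-- **the Clifford pair with the connection `∇ + v ⊗ J`.** -/
def CJ.add (h : CJ P J0 J1) (hv : ∀ z, VSm n ∞ v z) : CPair n M κ κ0 κ1 where
  s := P.s
  D0 := addJ P.D0 h.p0 hv
  D1 := addJ P.D1 h.p1 hv
  cc := P.cc
  smc := P.smc
  loc z := by
    obtain ⟨e, hf, ι0, ι1, i1, i2, i3, i4, a0, a1, c, j0, j1, C⟩ := P.loc z
    exact ⟨e, hf, ι0, ι1, i1, i2, i3, i4, _, _, c, j0, j1, h.cloc hv C⟩
  sym0 y y' z := by
    rw [potQ_addJ, potQ_addJ, P.sym0 y y' z]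
    congr 1
    exact congrFun (congrFun (h.sE0 (v := v) z).symm y) y'
  sym1 x x' z := by
    rw [potQ_addJ, potQ_addJ, P.sym1 x x' z]
    congr 1
    exact congrFun (congrFun (h.sE1 (v := v) z).symm x) x'

end pair

end Crest.Agent.R235.AddJ_344
end
end

-- ▼ part R235/MdlA_344
section

/-!
Row 235, PACKAGE SW, block MODEL (task 337), part 3 (helper344): the additional potential of
`∇ + v ⊗ J` in terms of the Hodge operator of 167's `pairH`:

`potE = ∑_k (B v)_{k+1} ρ_k`.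
-/

set_option autoImplicit false
set_option maxSynthPendingDepth 3
set_option linter.unusedSectionVars false

open Filter Topology Set Bundle Manifold
open Matrix hiding J
open scoped ContDiff
open Crest.GeometryTopology.CoordMetric Crest.GeometryTopology.ChartCurvature
  Crest.GeometryTopology.PointedLimit
open Crest.Agent.R202.Tens Crest.Agent.R247.Bo84 Crest.Agent.R249.FrmB_285 Crest.Agent.R249.Vf281
  Crest.Agent.R249.Tz1_805 Crest.Agent.R249.Tz2_805
open Crest.Agent.R249.Fr129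
open Crest.Agent.R249.C2_198 hiding cp half_two
open Crest.Agent.R249.Sg129 (SG germ ev ONF)
open Crest.Agent.R249.Tz805
open Crest.Agent.R235.IndAlg_167 Crest.Agent.R235.Ind167 Crest.Agent.R235.Mdl2_755
open Crest.Agent.R235.SymQ_755 Crest.Agent.R249.Idx789

noncomputable section

namespace Crest.Agent.R235.AddJ_344

variable {M : Type*} [TopologicalSpace M] [ChartedSpace (EuclideanSpace ℝ (Fin 4)) M]
  [IsManifold 𝓘(ℝ, EuclideanSpace ℝ (Fin 4)) ∞ M]
  [RiemannianBundle (fun x : M => TangentSpace 𝓘(ℝ, EuclideanSpace ℝ (Fin 4)) x)]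
  [IsContMDiffRiemannianBundle 𝓘(ℝ, EuclideanSpace ℝ (Fin 4)) ∞ (EuclideanSpace ℝ (Fin 4))
      (fun x : M => TangentSpace 𝓘(ℝ, EuclideanSpace ℝ (Fin 4)) x)]

local notation "𝔼" => EuclideanSpace ℝ (Fin 4)
local notation "𝓘E" => 𝓘(ℝ, EuclideanSpace ℝ (Fin 4))

variable {κ κ0 κ1 : Type} [Fintype κ] [Fintype κ0] [Fintype κ1]

section trace

variable (q : QS M) (s : PF 4 M κ)
  (v : (p : M) → TangentSpace 𝓘(ℝ, EuclideanSpace ℝ (Fin 4)) p)

lemma mCov_pars (z : M) (X : TangentSpace 𝓘(ℝ, EuclideanSpace ℝ (Fin 4)) z) :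
    mCov 4 v z X = ∑ C, (inner ℝ (s.s C z) X : ℝ) • mCov 4 v z (s.s C z) := by
  conv_lhs => rw [← s.pars z X]
  exact mCov_lin v z Finset.univ _ _

lemma sum_mCov_op (k : Fin 3) (z : M) :
    ∑ C, (inner ℝ (mCov 4 v z (s.s C z)) (q.op k z (s.s C z)) : ℝ)
      = - ∑ C, inner ℝ (mCov 4 v z (q.op k z (s.s C z))) (s.s C z) := by
  have h1 : ∀ C, (inner ℝ (mCov 4 v z (s.s C z)) (q.op k z (s.s C z)) : ℝ)
      = ∑ D, (inner ℝ (s.s D z) (q.op k z (s.s C z)) : ℝ)
        * inner ℝ (mCov 4 v z (s.s C z)) (s.s D z) := by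
    intro C
    conv_lhs => rw [← s.pars z (q.op k z (s.s C z)), inner_sum]
    exact Finset.sum_congr rfl fun D _ => real_inner_smul_right _ _ _
  have h2 : ∀ D, (inner ℝ (mCov 4 v z (q.op k z (s.s D z))) (s.s D z) : ℝ)
      = ∑ C, (inner ℝ (s.s C z) (q.op k z (s.s D z)) : ℝ)
        * inner ℝ (mCov 4 v z (s.s C z)) (s.s D z) := by
    intro D
    rw [mCov_pars s v z (q.op k z (s.s D z)), sum_inner]
    exact Finset.sum_congr rfl fun C _ => real_inner_smul_left _ _ _
  simp only [h1, h2]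
  rw [Finset.sum_comm, ← Finset.sum_neg_distrib]
  refine Finset.sum_congr rfl fun D _ => ?_
  rw [← Finset.sum_neg_distrib]
  refine Finset.sum_congr rfl fun C _ => ?_
  have h3 : (inner ℝ (s.s D z) (q.op k z (s.s C z)) : ℝ)
      = - inner ℝ (s.s C z) (q.op k z (s.s D z)) := by
    rw [real_inner_comm, q.op_skew]
  rw [h3, neg_mul]

/-- `∑ dv(s_C, s_D) ⟨I_k s_C, s_D⟩ = - 2 ∑ ⟨∇_{I_k s_C} v, s_C⟩` -/
lemma sum_dd_op (k : Fin 3) (z : M) :
    ∑ C, ∑ D, dd v z (s.s C z) (s.s D z) * inner ℝ (q.op k z (s.s C z)) (s.s D z)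
      = - 2 * ∑ C, inner ℝ (mCov 4 v z (q.op k z (s.s C z))) (s.s C z) := by
  have h1 : ∀ C, ∑ D, dd v z (s.s C z) (s.s D z) * inner ℝ (q.op k z (s.s C z)) (s.s D z)
      = inner ℝ (mCov 4 v z (s.s C z)) (q.op k z (s.s C z))
        - inner ℝ (mCov 4 v z (q.op k z (s.s C z))) (s.s C z) := by
    intro C
    have e1 : (inner ℝ (mCov 4 v z (s.s C z)) (q.op k z (s.s C z)) : ℝ)
        = ∑ D, (inner ℝ (s.s D z) (q.op k z (s.s C z)) : ℝ)
          * inner ℝ (mCov 4 v z (s.s C z)) (s.s D z) := by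
      conv_lhs => rw [← s.pars z (q.op k z (s.s C z)), inner_sum]
      exact Finset.sum_congr rfl fun D _ => real_inner_smul_right _ _ _
    have e2 : (inner ℝ (mCov 4 v z (q.op k z (s.s C z))) (s.s C z) : ℝ)
        = ∑ D, (inner ℝ (s.s D z) (q.op k z (s.s C z)) : ℝ)
          * inner ℝ (mCov 4 v z (s.s D z)) (s.s C z) := by
      rw [mCov_pars s v z (q.op k z (s.s C z)), sum_inner]
      exact Finset.sum_congr rfl fun D _ => real_inner_smul_left _ _ _
    rw [e1, e2, ← Finset.sum_sub_distrib]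
    refine Finset.sum_congr rfl fun D _ => ?_
    rw [dd, real_inner_comm (q.op k z (s.s C z))]
    ring
  rw [Finset.sum_congr rfl fun C _ => h1 C, Finset.sum_sub_distrib, sum_mCov_op]
  ring

/-- the components `k+1` of the adjoint Hodge operator of `pairH`. -/
lemma opB_pairH {a : κ → M → ℝ} (ha : SmU (n := 4) a)
    (hs : ∀ A z, ∑ B, tanP s A B z * a B z = a A z) (k : Fin 3) (z : M) :
    opB (pairH q s).D1 (pairH q s).cc a k.succ z
      = ∑ C, inner ℝ (mCov 4 (fieldOf s a) z (q.op k z (s.s C z))) (s.s C z) := by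
  rw [opB, ← Finset.sum_neg_distrib]
  refine Finset.sum_congr rfl fun C _ => ?_
  have e1 : (pairH q s).cc C k.succ z = - q.op k z (s.s C z) := rfl
  rw [e1, inner_neg_right, neg_neg]
  exact inner_cv s (fun A B z => bunQ1_W_eta q s (sm_etaV q s) A B z) ha hs C z _

end trace

/-- **the additional potential** -/
theorem potE_eq {q : QS M} {P : CPair 4 M κ κ0 κ1} {Jf : κ0 → κ0 → M → ℝ}
    {Kt : Fin 3 → κ0 → κ0 → M → ℝ} (h : Twf q P Jf Kt)
    (v : (p : M) → TangentSpace 𝓘(ℝ, EuclideanSpace ℝ (Fin 4)) p) (z : M) :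
    potE P.s P.cc Jf v z = ∑ k, (∑ C, (inner ℝ (mCov 4 v z (q.op k z (P.s.s C z))) (P.s.s C z) : ℝ)) •
      (Matrix.of fun y y' => rho Jf Kt k y y' z) := by
  obtain ⟨j0, j1, b, hp⟩ := h.pt z
  have e0 : (Matrix.of fun y y' => Jf y y' z) = Jz Jf z := rfl
  have h1 := curv_rho P z (ek := fun k X Y => - inner ℝ (q.op k z X) Y)
    (I := fun k => Matrix.of fun y y' => Kt k y y' z)
    (fun X Y => by
      rw [hp.clfM X Y, sub_eq_add_neg, ← Finset.sum_neg_distrib]
      simp only [neg_smul])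
    (fun X Y => dd v z X Y) (fun X Y => dd_anti v z X Y) (fun C => P.s.s C z)
  have h2 : ∀ k, (Matrix.of fun y y' => Kt k y y' z) * Jz Jf z
      = - Matrix.of fun y y' => rho Jf Kt k y y' z := by
    intro k
    rw [hp.rhoM, ← e0, hp.hJ, hp.hK, hp.mul0, hp.neg0, neg_neg, J0_K]
  have h3 : potE P.s P.cc Jf v z
      = -(1 / 2 : ℝ) • ((∑ C, ∑ D, dd v z (P.s.s C z) (P.s.s D z) •
        ((ccX P.cc z (P.s.s C z))ᵀ * ccX P.cc z (P.s.s D z))) * Jz Jf z) := by
    rw [potE]
    congr 1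
    simp only [Finset.sum_mul, Matrix.smul_mul]
  rw [h3, h1, Finset.sum_mul, Finset.smul_sum]
  refine Finset.sum_congr rfl fun k _ => ?_
  have h4 : ∑ C, ∑ D, dd v z (P.s.s C z) (P.s.s D z) * (- inner ℝ (q.op k z (P.s.s C z)) (P.s.s D z))
      = 2 * ∑ C, (inner ℝ (mCov 4 v z (q.op k z (P.s.s C z))) (P.s.s C z) : ℝ) := by
    have := sum_dd_op q P.s v k z
    simp only [mul_neg, Finset.sum_neg_distrib]
    linarith
  rw [h4, Matrix.smul_mul, h2, smul_smul, smul_neg, ← neg_smul]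
  congr 1
  ring

end Crest.Agent.R235.AddJ_344
end
end

-- ▼ part R235/MdlS_344

/-!
Row 235, PACKAGE SW, block MODEL (task 337), part 4 (helper344): the Weitzenboeck identity of the
Seiberg-Witten system `swsQ` (755) of a quaternionic Clifford pair with complex structure, with the
Hodge pair `Hp` (399); `SWS.OK`.

* `pj_of` : 167's `PJ` gives `AddJ_344.PJ`;
* `weitzQ` : the field `weitz` of `SWS.OK`;
* `okQ`    : `(swsQ T P Jf Kt (Hp T q P.s)).OK`;
* `cjZ`, `okZ` : the twist `twZ` (453) of 167's quaternionic pair by a line bundle.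
-/

set_option autoImplicit false
set_option maxSynthPendingDepth 3
set_option linter.unusedSectionVars false

open Filter Topology Set Bundle Manifold MeasureTheory Metric
open Matrix hiding J
open scoped ContDiff ENNReal NNReal RealInnerProductSpace
open Crest.GeometryTopology.CoordMetric Crest.GeometryTopology.ChartCurvature
  Crest.GeometryTopology.PointedLimit
open Crest.Agent.R202.Tens Crest.Agent.R249.FrmB_285 Crest.Agent.R249.Vf281
  Crest.Agent.R249.Tz1_805 Crest.Agent.R249.Tz2_805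
open Crest.Agent.R249.Tz805
open Crest.Agent.R249.Wk352 (dat0 dpair swapP weak_int)
open Crest.Agent.R249.Tv57 (SmV)
open Crest.Agent.R235.Ind167 (QS)
open Crest.Agent.R235.Mdl2_755 Crest.Agent.R235.SymQ_755
open Crest.Agent.R249.Idx789 Crest.Agent.R235.SWDefs_53 Crest.Agent.R235.AddJ_344
open Crest.Agent.R235.SwsQ_755 Crest.Agent.R235.Mdl3_399

universe v

noncomputable section

namespace Crest.Agent.R235.MdlS_344

section bridge

variable {n : ℕ} {M : Type*} [TopologicalSpace M] [ChartedSpace (EuclideanSpace ℝ (Fin n)) M]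
  [IsManifold 𝓘(ℝ, EuclideanSpace ℝ (Fin n)) ∞ M]
  [RiemannianBundle (fun x : M => TangentSpace 𝓘(ℝ, EuclideanSpace ℝ (Fin n)) x)]
  [IsContMDiffRiemannianBundle 𝓘(ℝ, EuclideanSpace ℝ (Fin n)) ∞ (EuclideanSpace ℝ (Fin n))
      (fun x : M => TangentSpace 𝓘(ℝ, EuclideanSpace ℝ (Fin n)) x)]

lemma pj_of {κ : Type} [Fintype κ] {D : Bun n M κ} {J : κ → κ → M → ℝ}
    (h : Crest.Agent.R235.Ind167.PJ D J) : PJ D J where
  sm := h.sm
  skew := h.skew
  pJ := h.pmul
  par := h.par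

end bridge

variable {M : Type v} [MetricSpace M] [CompactSpace M] [ConnectedSpace M]
  [ChartedSpace (EuclideanSpace ℝ (Fin 4)) M] [IsManifold (𝓡 4) ∞ M]
  [RiemannianBundle (fun p : M => TangentSpace (𝓡 4) p)]
  [IsContMDiffRiemannianBundle (𝓡 4) ∞ (EuclideanSpace ℝ (Fin 4))
    (fun p : M => TangentSpace (𝓡 4) p)]
  [IsRiemannianManifold (𝓡 4) M] [MeasurableSpace M] [BorelSpace M]
  [SecondCountableTopology M] [Nonempty M]

variable {κ κ0 κ1 : Type} [Fintype κ] [Fintype κ0] [Fintype κ1]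

variable (T : ToF 4 M) {q : QS M} {P : CPair 4 M κ κ0 κ1} {Jf : κ0 → κ0 → M → ℝ}
  {Kt : Fin 3 → κ0 → κ0 → M → ℝ} {J1 : κ1 → κ1 → M → ℝ}

/-- the system with the Hodge pair of `q` -/
local notation "SS" => swsQ T P Jf Kt (Hp T q (CPair.s P))

lemma cm_eq (a : κ → M → ℝ) (u : κ0 → M → ℝ) (x : κ1) (z : M) :
    (SS).cm a u x z
      = ∑ y, (∑ b, Jf y b z * u b z) * inner ℝ (fieldOf P.s a z) (P.cc x y z) := by
  have h1 : (SS).cm a u x z = ∑ A, ∑ y, a A z * u y z * clJ P Jf A x y z := rfl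
  rw [h1, sum_clJ P z Jf (fun A => a A z) (fun y => u y z) x]
  simp only [Matrix.mulVec, dotProduct, ccX, Matrix.of_apply]
  refine Finset.sum_congr rfl fun y _ => ?_
  rw [mul_comm, real_inner_comm]
  rfl

lemma nab_eq {u : κ0 → M → ℝ} (hu : SmV (n := 4) u) (hJ : PJ P.D0 Jf) {a : κ → M → ℝ}
    (hv : ∀ z, VSm 4 ∞ (fieldOf P.s a) z) (y : κ0) (z : M) :
    (SS).nab a u y z = T.toF z ((addJ P.D0 hJ hv).cv u y z) := by
  have h1 : (SS).nab a u y z = (dat0 T P).cv u y z
      + (∑ y', Jf y y' z * u y' z) • ∑ A, a A z • T.toF z (P.s.s A z) := rfl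
  rw [h1, cv_addJ, map_add, map_smul, dat0, Bun.cv_dat T P.D0 _ _ _ _ hu, fieldOf, map_sum]
  simp only [map_smul]

/-- **the Weitzenboeck identity of `A + c(a) i`.** -/
theorem weitzQ (hT : Twf q P Jf Kt) (hJ : CJ P Jf J1) (a : κ → M → ℝ) (u w : κ0 → M → ℝ)
    (ha : SmV (n := 4) a) (has : (dat0 T (swapP (Crest.Agent.R235.Ind167.pairH q P.s))).Sec a)
    (hu : SmV (n := 4) u) (hus : P.D0.Sec u) (hw : SmV (n := 4) w) (hws : P.D0.Sec w) :
    Crest.Agent.R249.Tv57.ip 4 ((SS).P.A u + (SS).cm a u) ((SS).P.A w + (SS).cm a w) =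
      ∫ z, ((∑ y, ⟪(SS).nab a u y z, (SS).nab a w y z⟫) +
        (∑ y, ∑ y', (SS).D0.Q y y' z * u y' z * w y z) +
        ∑ k : Fin 3, (Hp T q P.s).B a k.succ z *
          ∑ y, ∑ y', rho Jf Kt k y y' z * u y z * w y' z)
      ∂(μHE[4] : Measure M) := by
  have hv : ∀ z, VSm 4 ∞ (fieldOf P.s a) z := fun z => VSm_fieldOf P.s ha z
  have h1 := weak_int (hJ.add hv) hu hw hus hws
  have hA : ∀ (f : κ0 → M → ℝ) (x : κ1) (z : M), opA (hJ.add hv).D0 (hJ.add hv).cc f x z
      = ((SS).P.A f + (SS).cm a f) x z := by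
    intro f x z
    have e1 : ((SS).P.A f + (SS).cm a f) x z
        = opA P.D0 P.cc f x z + (SS).cm a f x z := rfl
    rw [e1, cm_eq]
    exact opA_addJ hJ.p0 hv f x z
  rw [Crest.Agent.R249.Tv57.ip]
  simp only [← hA]
  rw [h1]
  refine integral_congr_ae (Eventually.of_forall fun z => ?_)
  have h2 : ∑ y, ⟪(SS).nab a u y z, (SS).nab a w y z⟫
      = ∑ y, (inner ℝ ((hJ.add hv).D0.cv u y z) ((hJ.add hv).D0.cv w y z) : ℝ) := by
    refine Finset.sum_congr rfl fun y _ => ?_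
    rw [nab_eq T hu hJ.p0 hv, nab_eq T hw hJ.p0 hv, T.inner_toF]
    rfl
  have hE : ∀ y y', potE P.s P.cc Jf (fieldOf P.s a) z y y'
      = ∑ k : Fin 3, (Hp T q P.s).B a k.succ z * rho Jf Kt k y y' z := by
    intro y y'
    rw [potE_eq hT, Matrix.sum_apply]
    refine Finset.sum_congr rfl fun k _ => ?_
    rw [Matrix.smul_apply, Matrix.of_apply, smul_eq_mul]
    congr 1
    exact (opB_pairH q P.s ha has k z).symm
  have h3 : ∑ y, u y z * ∑ y', potQ (hJ.add hv).s (hJ.add hv).D0 (hJ.add hv).cc y y' z * w y' z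
      = (∑ y, ∑ y', potQ P.s P.D0 P.cc y y' z * u y' z * w y z)
        + ∑ k : Fin 3, (Hp T q P.s).B a k.succ z *
          ∑ y, ∑ y', rho Jf Kt k y y' z * u y z * w y' z := by
    have e1 : ∀ y y', potQ (hJ.add hv).s (hJ.add hv).D0 (hJ.add hv).cc y y' z
        = potQ P.s P.D0 P.cc y y' z
          + ∑ k : Fin 3, (Hp T q P.s).B a k.succ z * rho Jf Kt k y y' z := by
      intro y y'
      rw [← hE]
      exact potQ_addJ P.s hJ.p0 hv y y' z
    simp only [e1, add_mul, mul_add, Finset.mul_sum, Finset.sum_mul, Finset.sum_add_distrib]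
    congr 1
    · rw [Finset.sum_comm]
      refine Finset.sum_congr rfl fun y _ => Finset.sum_congr rfl fun y' _ => ?_
      rw [P.sym0 y' y z]
      ring
    · rw [Finset.sum_congr rfl fun y _ => Finset.sum_comm, Finset.sum_comm]
      refine Finset.sum_congr rfl fun k _ => Finset.sum_congr rfl fun y _ =>
        Finset.sum_congr rfl fun y' _ => ?_
      ring
  change (∑ y, (inner ℝ ((hJ.add hv).D0.cv u y z) ((hJ.add hv).D0.cv w y z) : ℝ))
    + ∑ y, u y z * ∑ y', potQ (hJ.add hv).s (hJ.add hv).D0 (hJ.add hv).cc y y' z * w y' z = _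
  rw [h3, ← h2, ← add_assoc]
  rfl

/-- **the system satisfies `SWS.OK`.** -/
theorem okQ (hT : Twf q P Jf Kt) (hJ : CJ P Jf J1) : (SS).OK :=
  ok_of T (Hp T q P.s) hT (Hp_full T q P.s) (Hp_one T q P.s) (weitzQ T hT hJ)

/-! ### the twist by a line bundle -/

section twist

open Crest.Agent.R235.LTw_453

variable (q) (s : PF 4 M κ) {N : ℕ} (L : LD 4 M N)

theorem cjZ : CJ (twZ q s L) (J0Z q s L) (J1Z q s L) where
  p0 := pj_of (pj0_twZ q s L)
  p1 := pj_of (pj1_twZ q s L)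
  comm := hc_twZ q s L

/-- **the system of the twist by a line bundle satisfies `SWS.OK`.** -/
theorem okZ : (swsQ T (twZ q s L) (J0Z q s L) (KtZ M L) (Hp T q s)).OK :=
  okQ T (twf_twZ q s L) (cjZ q s L)

end twist

end Crest.Agent.R235.MdlS_344
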