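import Crest.Agent.R235.SWJF_451
import Crest.Agent.R235.SWLnkB_451
import Crest.Agent.R235.TauH_483

/-!
Row 235 (S0364), PACKAGE SW (helper451): THE FAMILY OF TAUBES DATA over an abstract Seiberg-Witten
system `S` with geometric facts `TG`, `Sym`, a triple `IsTri w e`, and Chern forms `cE t` of the
eigenlines `PEf (tau0 t) S`, `t ≠ 0`.

* `tau0`, `fEF`, `tauF` : the data (`fE = -2σ q(e_k, 2π c_E - dβ)`);
* `jf_fE`, `j2_Phi`, .. : joint smoothness; `bounds` : uniform bounds on the sphere;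
* `tc`, `te`, `lnk`, `swcdata` : everything in `SwcData` except `harm` and `(τ t).OK S C`.
-/

set_option autoImplicit false
set_option maxSynthPendingDepth 3
set_option linter.unusedSectionVars false

open scoped ContDiff ENNReal NNReal Topology Manifold Bundle RealInnerProductSpace
open MeasureTheory Set Filter Metric Bundle

universe v

namespace Crest.Agent.R235.SWData_451

open Crest.Agent.R240 Crest.Agent.R240.Ch Crest.Agent.R235 Crest.Agent.R235.SWDefs_53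
open Crest.Agent.R235.IndTri_451 Crest.Agent.R235.SWTn_451 Crest.Agent.R235.TauJ
open Crest.Agent.R235.SWTf_451 Crest.Agent.R235.SWTe_451 Crest.Agent.R235.SWTd_451
open Crest.Agent.R235.SWJF_451
open Crest.Agent.R235.Tau483 (TG TE TC bF bV0 P0f P0f_apply fld Jm PEf Ch0 PhiF Phi at2_PhiF)
open Crest.Agent.R249.Tv57 (Dat OpPair SmF)
open Crest.Agent.R249.Tz805 (ToF)
open Crest.Agent.R249.Vf281 (VSm)
open Crest.Agent.R247.Ms322 (Gr)

noncomputable section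

variable {M : Type v} [MetricSpace M] [CompactSpace M] [ConnectedSpace M]
  [ChartedSpace (EuclideanSpace ℝ (Fin 4)) M] [IsManifold (𝓡 4) ∞ M]
  [RiemannianBundle (fun p : M => TangentSpace (𝓡 4) p)]
  [IsContMDiffRiemannianBundle (𝓡 4) ∞ (EuclideanSpace ℝ (Fin 4))
    (fun p : M => TangentSpace (𝓡 4) p)]
  [IsRiemannianManifold (𝓡 4) M] [MeasurableSpace M] [BorelSpace M]
  [SecondCountableTopology M] [Nonempty M]
  {κ0 κ1 κT : Type} [Fintype κ0] [Fintype κ1] [Fintype κT]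

/-- the data with `fE = 0`. -/
def tau0 (S : SWS M κ0 κ1 κT) (T : ToF 4 M) (c : κ1 → κ0 → (z : M) → TangentSpace (𝓡 4) z)
    (ww : Fin 3 → Fin 3 → M → ℝ) (t : E3) : TD M κT :=
  tauT S (fun x y z => T.toF z (c x y z)) ww (fun _ _ _ => 0) t

/-- self-dual curvature of `E_t`. -/
def fEF (S : SWS M κ0 κ1 κT) (T : ToF 4 M) (c : κ1 → κ0 → (z : M) → TangentSpace (𝓡 4) z)
    (W : κ0 → κ0 → (z : M) → TangentSpace (𝓡 4) z)
    (sT : κT → (z : M) → TangentSpace (𝓡 4) z) (w : Trip M) (e : Fin 3 → F2 E4 M) (σ : ℝ)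
    (ww : Fin 3 → Fin 3 → M → ℝ) (cE : E3 → Z2 M) (t : E3) (k : Fin 3) (x : M) : ℝ :=
  -2 * σ * q (at2 ((w 0).1.1 : F2 E4 M) x) (at2 (e k) x)
    (Phi (cE t) (bF (tau0 S T c ww t) S W sT e) x)

/-- **the family of Taubes data.** -/
def tauF (S : SWS M κ0 κ1 κT) (T : ToF 4 M) (c : κ1 → κ0 → (z : M) → TangentSpace (𝓡 4) z)
    (W : κ0 → κ0 → (z : M) → TangentSpace (𝓡 4) z)
    (sT : κT → (z : M) → TangentSpace (𝓡 4) z) (w : Trip M) (e : Fin 3 → F2 E4 M) (σ : ℝ)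
    (ww : Fin 3 → Fin 3 → M → ℝ) (cE : E3 → Z2 M) (t : E3) : TD M κT :=
  tauT S (fun x y z => T.toF z (c x y z)) ww (fEF S T c W sT w e σ ww cE) t

variable {S : SWS M κ0 κ1 κT} {T : ToF 4 M}
    {c : κ1 → κ0 → (z : M) → TangentSpace (𝓡 4) z}
    {W : κ0 → κ0 → (z : M) → TangentSpace (𝓡 4) z}
    {sT : κT → (z : M) → TangentSpace (𝓡 4) z} {w : Trip M} {e : Fin 3 → F2 E4 M}
    {σ ι : ℝ} {ww : Fin 3 → Fin 3 → M → ℝ} {cE : E3 → Z2 M}



/-- the hypotheses. -/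
structure Hyp (S : SWS M κ0 κ1 κT) (T : ToF 4 M) (c : κ1 → κ0 → (z : M) → TangentSpace (𝓡 4) z)
    (W : κ0 → κ0 → (z : M) → TangentSpace (𝓡 4) z)
    (sT : κT → (z : M) → TangentSpace (𝓡 4) z) (w : Trip M) (e : Fin 3 → F2 E4 M) (σ ι : ℝ)
    (ww : Fin 3 → Fin 3 → M → ℝ) (cE : E3 → Z2 M) : Prop where
  tg : TG S T c W sT w e σ ι
  sym : SWSym_451.Sym S fun x y z => T.toF z (c x y z)
  smc : ∀ x y z, VSm 4 ∞ (c x y) z
  lt : LT ww
  smw : ∀ i k, ContMDiff (𝓡 4) 𝓘(ℝ, ℝ) ∞ (ww i k)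
  ch : ∀ t, t ≠ 0 → Ch0 (PEf (tau0 S T c ww t) S) (cE t)

namespace Hyp

variable (h : Hyp S T c W sT w e σ ι ww cE)
include h

theorem jf_n (k : Fin 3) : JF fun t => (tau0 S T c ww t).n k := jf_nt h.lt h.smw k

theorem jf_rr : JF fun t => (tau0 S T c ww t).rr := jf_rrt h.lt h.smw

theorem jf_sh (A : κT) : JF fun t => (tau0 S T c ww t).sh A :=
  jf_shf h.sym h.tg h.smc (jf_rrt h.lt h.smw) (fun _ ht => h.lt.pos ht)
    (fun a b => jf_Pr h.sym (m := fun t k z => - nt ww t k z)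
      (fun k => (jf_nt h.lt h.smw k).neg) a b) A

theorem jf_Z (x : κ1) (y : κ0) : JF fun t =>
    Zt S (fun x y z => T.toF z (c x y z)) (rrt ww t) (Pr S (nt ww t)) x y :=
  jf_Zt h.tg h.smc (jf_rrt h.lt h.smw) (fun _ ht => h.lt.pos ht)
    (fun a b => jf_Pr h.sym (m := fun t => nt ww t) (fun k => jf_nt h.lt h.smw k) a b) x y

theorem j1_b : J1 fun t => bF (tau0 S T c ww t) S W sT e := j1_bF h.sym h.tg h.jf_sh h.jf_n

theorem jf_P0 (y y' : κ0) : JF fun t z => P0f (tau0 S T c ww t) S z y y' := by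
  simp only [P0f_apply]
  exact JF.cmul _ ((jf_of (S.D0.smp y y')).sub
    (JF.sum' fun k => (h.jf_n k).mul (jf_of (h.sym.smrho k y y'))))

theorem jf_PE_re (y y' : κ0) : JF fun t z => (PEf (tau0 S T c ww t) S z y y').re := by
  have h1 : JF fun t z => (1 / 2) * P0f (tau0 S T c ww t) S z y y' := (h.jf_P0 y y').cmul _
  refine h1.congr fun t _ z => ?_
  show ((1 / 2 : ℂ) * ((P0f (tau0 S T c ww t) S z y y' : ℂ) -
    Complex.I * (((Jm S z * P0f (tau0 S T c ww t) S z) y y' : ℝ) : ℂ))).re = _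
  simp

theorem jf_PE_im (y y' : κ0) : JF fun t z => (PEf (tau0 S T c ww t) S z y y').im := by
  have h1 : JF fun t z => (-(1 / 2)) * (Jm S z * P0f (tau0 S T c ww t) S z) y y' := by
    simp only [Matrix.mul_apply]
    exact JF.cmul _ (JF.sum' fun d => (jf_of (h.sym.smJ y d)).mul (h.jf_P0 d y'))
  refine h1.congr fun t _ z => ?_
  show ((1 / 2 : ℂ) * ((P0f (tau0 S T c ww t) S z y y' : ℂ) -
    Complex.I * (((Jm S z * P0f (tau0 S T c ww t) S z) y y' : ℝ) : ℂ))).im = _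
  simp

theorem j2_c : J2 fun t => ((cE t).1.1 : F2 E4 M) := J2.chern h.jf_PE_re h.jf_PE_im h.ch

theorem j2_Phi : J2 fun t => PhiF (cE t) (bF (tau0 S T c ww t) S W sT e) :=
  ((h.j2_c.smul _).add ((J2.dG h.j1_b).smul _))

theorem jf_fE (k : Fin 3) : JF fun t => fEF S T c W sT w e σ ww cE t k := by
  refine ((JF.qG' (w 0).1.2 h.tg.tri.W_ne (J2.of (h.tg.tri.smooth k)) h.j2_Phi).cmul
    (-2 * σ)).congr fun t _ x => ?_
  unfold fEF qG
  rw [at2_PhiF]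

/-- continuity of `fE`. -/
theorem cfE (k : Fin 3) : ContinuousOn
    (fun q : E3 × M => (tauF S T c W sT w e σ ww cE q.1).fE k q.2) {q | ‖q.1‖ = 1} :=
  (h.jf_fE k).contS


omit h in
theorem ne_of {t : E3} (ht : ‖t‖ = 1) : t ≠ 0 := fun h0 => by
  rw [h0, norm_zero] at ht
  exact zero_ne_one ht

theorem te {t : E3} (ht : t ≠ 0) : TE (tauF S T c W sT w e σ ww cE t) S T c
    (Zt S (fun x y z => T.toF z (c x y z)) (rrt ww t) (Pr S (nt ww t))) :=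
  SWTf_451.te T h.sym (smooth_rrt h.lt h.smw ht) (h.lt.pos ht) (smooth_nt h.lt h.smw ht)
    (h.lt.norm_nt ht) _

theorem tc {t : E3} (ht : t ≠ 0) : TC (tauF S T c W sT w e σ ww cE t) S W sT w e σ (cE t) where
  ch := h.ch t ht
  fE _ _ := rfl

/-- uniform bound of `Z_t`. -/
theorem bZ : ∃ B, 0 ≤ B ∧ ∀ t, ‖t‖ = 1 → ∀ x y z,
    |Zt S (fun x y z => T.toF z (c x y z)) (rrt ww t) (Pr S (nt ww t)) x y z| ≤ B := by
  choose B hB0 hB using fun x y => (h.jf_Z x y).bound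
  refine ⟨∑ x, ∑ y, B x y, Finset.sum_nonneg fun x _ => Finset.sum_nonneg fun y _ => hB0 x y,
    fun t ht x y z => (hB x y t ht z).trans ?_⟩
  exact (Finset.single_le_sum (f := fun y => B x y) (fun y _ => hB0 x y) (Finset.mem_univ y)).trans
    (Finset.single_le_sum (f := fun x => ∑ y, B x y)
      (fun x _ => Finset.sum_nonneg fun y _ => hB0 x y) (Finset.mem_univ x))

/-- uniform bounds of `sh`, `n`, `rr` and their gradients. -/
theorem bG : ∃ B, 0 ≤ B ∧ ∀ t, ‖t‖ = 1 → ∀ z,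
    (∀ A, |(tauF S T c W sT w e σ ww cE t).sh A z| ≤ B) ∧
    (∀ k, ‖Gr (n := 4) ((tauF S T c W sT w e σ ww cE t).n k) z‖ ≤ B) ∧
    |(tauF S T c W sT w e σ ww cE t).rr z| ≤ B ∧
    ‖Gr (n := 4) (tauF S T c W sT w e σ ww cE t).rr z‖ ≤ B := by
  choose B1 h10 h1 using fun A => (h.jf_sh A).bound
  choose B2 h20 h2 using fun k => (h.jf_n k).Gr_bound T
  obtain ⟨B3, h30, h3⟩ := h.jf_rr.bound
  obtain ⟨B4, h40, h4⟩ := h.jf_rr.Gr_bound T
  have s1 : 0 ≤ ∑ A, B1 A := Finset.sum_nonneg fun A _ => h10 A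
  have s2 : 0 ≤ ∑ k, B2 k := Finset.sum_nonneg fun A _ => h20 A
  refine ⟨(∑ A, B1 A) + (∑ k, B2 k) + B3 + B4, by positivity, fun t ht z =>
    ⟨fun A => ?_, fun k => ?_, ?_, ?_⟩⟩
  · have := (h1 A t ht z).trans (Finset.single_le_sum (f := B1) (fun A _ => h10 A)
      (Finset.mem_univ A))
    have h' : |(tauF S T c W sT w e σ ww cE t).sh A z| ≤ ∑ A, B1 A := this
    linarith
  · have := (h2 k t ht z).trans (Finset.single_le_sum (f := B2) (fun A _ => h20 A)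
      (Finset.mem_univ k))
    have h' : ‖Gr (n := 4) ((tauF S T c W sT w e σ ww cE t).n k) z‖ ≤ ∑ k, B2 k := this
    linarith
  · have h' : |(tauF S T c W sT w e σ ww cE t).rr z| ≤ B3 := h3 t ht z
    linarith
  · have h' : ‖Gr (n := 4) (tauF S T c W sT w e σ ww cE t).rr z‖ ≤ B4 := h4 t ht z
    linarith

/-- uniform bound of the curvature. -/
theorem bPhi : ∃ B, 0 ≤ B ∧ ∀ t, ‖t‖ = 1 → ∀ (z : M) (u v : TangentSpace (𝓡 4) z),
    |Phi (cE t) (bF (tauF S T c W sT w e σ ww cE t) S W sT e) z u v| ≤ B * ‖u‖ * ‖v‖ := by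
  obtain ⟨B, hB0, hB⟩ := h.j2_Phi.bound
  refine ⟨B, hB0, fun t ht z u v => ?_⟩
  have := hB t ht z u v
  rw [at2_PhiF] at this
  exact this


/-- the bounds of `Lnk` and `SwcData`. -/
theorem bK : ∃ K, 2 ≤ K ∧ ∀ t, ‖t‖ = 1 →
    (∀ k z, |(tauF S T c W sT w e σ ww cE t).fE k z| ≤ K) ∧
    (∀ x v, (at1 (bF (tauF S T c W sT w e σ ww cE t) S W sT e) x v) ^ 2 ≤
      K * at2 (gg e) x v v) ∧
    (∀ x u v, (val (cE t) x u v) ^ 2 ≤ K * (at2 (gg e) x u u * at2 (gg e) x v v)) := by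
  choose B1 h10 h1 using fun k => (h.jf_fE k).bound
  obtain ⟨B2, h20, h2⟩ := h.j1_b.bound
  obtain ⟨B3, h30, h3⟩ := h.j2_c.bound
  have s1 : 0 ≤ ∑ k, B1 k := Finset.sum_nonneg fun k _ => h10 k
  have hn : ∀ (x : M) (v : TangentSpace (𝓡 4) x), ‖v‖ ^ 2 = at2 (gg e) x v v := by
    intro x v
    rw [← real_inner_self_eq_norm_sq]
    exact h.tg.met x v v
  refine ⟨2 + (∑ k, B1 k) + B2 ^ 2 + B3 ^ 2, by nlinarith [sq_nonneg B2, sq_nonneg B3],
    fun t ht => ⟨fun k z => ?_, fun x v => ?_, fun x u v => ?_⟩⟩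
  · have h' : |(tauF S T c W sT w e σ ww cE t).fE k z| ≤ ∑ k, B1 k :=
      (h1 k t ht z).trans (Finset.single_le_sum (f := B1) (fun A _ => h10 A) (Finset.mem_univ k))
    nlinarith [sq_nonneg B2, sq_nonneg B3]
  · obtain ⟨r, hr, h'⟩ : ∃ r : ℝ, r ^ 2 = at2 (gg e) x v v ∧
        |at1 (bF (tauF S T c W sT w e σ ww cE t) S W sT e) x v| ≤ B2 * r :=
      ⟨_, hn x v, h2 t ht x v⟩
    have h5 := pow_le_pow_left₀ (abs_nonneg _) h' 2
    rw [sq_abs, mul_pow, hr] at h5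
    have h6 : 0 ≤ at2 (gg e) x v v := by rw [← hr]; positivity
    nlinarith [mul_nonneg s1 h6, mul_nonneg (sq_nonneg B3) h6]
  · obtain ⟨r, q, hr, hq, h'⟩ : ∃ r q : ℝ, r ^ 2 = at2 (gg e) x u u ∧
        q ^ 2 = at2 (gg e) x v v ∧ |val (cE t) x u v| ≤ B3 * r * q :=
      ⟨_, _, hn x u, hn x v, h3 t ht x u v⟩
    have h5 := pow_le_pow_left₀ (abs_nonneg _) h' 2
    rw [sq_abs, mul_pow, mul_pow, hr, hq] at h5
    have h6 : 0 ≤ at2 (gg e) x v v := by rw [← hq]; positivity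
    have h7 : 0 ≤ at2 (gg e) x u u := by rw [← hr]; positivity
    have h8 := mul_nonneg h7 h6
    nlinarith [mul_nonneg s1 h8, mul_nonneg (sq_nonneg B2) h8]

end Hyp

section final

variable [IsFiniteMeasureOnCompacts (μHE[4] : Measure M)]

open Crest.Agent.R235.SwcProd_215 (Lnk SwcData)

/-- **`Lnk` for the family.** -/
theorem Hyp.lnk (h : Hyp S T c W sT w e (-1) ι ww cE) (hS : S.OK) : ∃ K, 2 ≤ K ∧
    (∀ t, ‖t‖ = 1 → ∀ k z, |(tauF S T c W sT w e (-1) ww cE t).fE k z| ≤ K) ∧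
    ∀ t, ‖t‖ = 1 → Lnk S T c sT w e (tauF S T c W sT w e (-1) ww cE t) (cE t)
      (bF (tauF S T c W sT w e (-1) ww cE t) S W sT e) K := by
  obtain ⟨K, hK, hb⟩ := h.bK
  refine ⟨K, hK, fun t ht => (hb t ht).1, fun t ht => ?_⟩
  obtain ⟨-, h2, h3⟩ := hb t ht
  refine SWLnkB_451.lnk hS h.tg (h.te (Hyp.ne_of ht)) (h.ch t (Hyp.ne_of ht)) ?_ hK h2 h3
  intro k x
  have h4 := (h.tc (Hyp.ne_of ht)).fE k x
  rw [h4]
  unfold qG
  rw [at2_PhiF]
  ring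

/-- **`SwcData`.** -/
theorem Hyp.swcdata (h : Hyp S T c W sT w e (-1) ι (wwf (fun i => (w i).1.1) e) cE) (hS : S.OK)
    (harm : ∀ i x z, S.H.A (Fin.cons (fun _ => 0) (wwf (fun i => (w i).1.1) e i)) x z = 0)
    {C : ℝ} (hOK : ∀ t : E3, ‖t‖ = 1 →
      (tauF S T c W sT w e (-1) (wwf (fun i => (w i).1.1) e) cE t).OK S C)
    {a : H2 M} (ha : ∀ t : E3, ‖t‖ = 1 → cls (cE t) = a) :
    ∃ K, SwcData S T c W sT w e ι (wwf (fun i => (w i).1.1) e)
      (tauF S T c W sT w e (-1) (wwf (fun i => (w i).1.1) e) cE) C K a := by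
  obtain ⟨K, -, hf, hl⟩ := h.lnk hS
  exact ⟨K,
    { tg := h.tg
      ok := hS
      smw := h.smw
      ww_eq := fun i x => wwf_eq h.tg.tri i x
      harm := harm
      rr := fun t z _ => rfl
      nn := fun t k z ht => h.lt.mul_nt (Hyp.ne_of ht) k z
      tau := hOK
      te := fun t ht => ⟨_, h.te (Hyp.ne_of ht)⟩
      bdE := fun t k z ht => hf t ht k z
      lnk := fun t ht => ⟨cE t, _, hl t ht, ha t ht⟩ }⟩

end final

end

end Crest.Agent.R235.SWData_451
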