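import Crest.Agent.R235.SWTe_451
import Crest.Agent.R235.TauG_483

-- ▼ part R235/SWTf_451
section

/-!
Row 235 (S0364), PACKAGE SW, MODEL-4 (helper451): the shift `sh` of the connection of the eigenline
`E`, and the structure `TE` of `TauG_483` (Dirac operator on `E` and on its complement).
-/

set_option autoImplicit false
set_option maxSynthPendingDepth 3
set_option linter.unusedSectionVars false

open scoped ContDiff ENNReal NNReal Topology Manifold Bundle RealInnerProductSpace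
open MeasureTheory Set Filter Metric Bundle

universe v

namespace Crest.Agent.R235.SWTf_451

open Crest.Agent.R249.Tv57 Crest.Agent.R247.Ms322 Crest.Agent.R247.Dir593
open Crest.Agent.R247.Frd657
open Crest.Agent.R235.SWDefs_53 Crest.Agent.R235.SWSym_451 Crest.Agent.R235.SWTd_451
open Crest.Agent.R235.SWPt_451 Crest.Agent.R235.SWTe_451
open Crest.Agent.R249.Tz805 (ToF)

noncomputable section

variable {M : Type v} [MetricSpace M] [CompactSpace M] [ConnectedSpace M]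
  [ChartedSpace (EuclideanSpace ℝ (Fin 4)) M] [IsManifold (𝓡 4) ∞ M]
  [RiemannianBundle (fun p : M => TangentSpace (𝓡 4) p)]
  [IsContMDiffRiemannianBundle (𝓡 4) ∞ (EuclideanSpace ℝ (Fin 4))
    (fun p : M => TangentSpace (𝓡 4) p)]
  [IsRiemannianManifold (𝓡 4) M] [MeasurableSpace M] [BorelSpace M]
  [SecondCountableTopology M] [Nonempty M]
  {κ0 κ1 κT : Type} [Fintype κ0] [Fintype κ1] [Fintype κT]

variable {S : SWS M κ0 κ1 κT} {cc : κ1 → κ0 → M → EuclideanSpace ℝ (Fin 4)}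

/-! ### the shift -/

/-- `T P`, `T = Zt`. -/
def tp (S : SWS M κ0 κ1 κT) (cc : κ1 → κ0 → M → EuclideanSpace ℝ (Fin 4)) (rr : M → ℝ)
    (P : κ0 → κ0 → M → ℝ) (x : κ1) (y : κ0) (z : M) : ℝ :=
  ∑ y', Zt S cc rr P x y' z * P y' y z

/-- the vector field of the shift. -/
def XF (S : SWS M κ0 κ1 κT) (cc : κ1 → κ0 → M → EuclideanSpace ℝ (Fin 4)) (rr : M → ℝ)
    (P : κ0 → κ0 → M → ℝ) (z : M) : EuclideanSpace ℝ (Fin 4) :=
  ∑ x, ∑ y, ∑ y', ((1 / 2) * (S.J y' y z * tp S cc rr P x y z)) • cc x y' z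

/-- the shift. -/
def shf (S : SWS M κ0 κ1 κT) (cc : κ1 → κ0 → M → EuclideanSpace ℝ (Fin 4)) (rr : M → ℝ)
    (P : κ0 → κ0 → M → ℝ) (A : κT) (z : M) : ℝ := ⟪XF S cc rr P z, S.s A z⟫

theorem smF_XF (H : Sym S cc) {rr : M → ℝ} (hr : ContMDiff (𝓡 4) 𝓘(ℝ, ℝ) ∞ rr)
    (hpos : ∀ z, 0 < rr z) {P : κ0 → κ0 → M → ℝ} (hP : Pj S P) : SmF (XF S cc rr P) := by
  have h1 : ∀ x y, ContMDiff (𝓡 4) 𝓘(ℝ, ℝ) ∞ (tp S cc rr P x y) := fun x y =>
    contMDiff_finsetSum fun y' _ => (smooth_Zt H hr hpos hP x y').mul (hP.sm y' y)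
  exact SmF.sum _ fun x _ => SmF.sum _ fun y _ => SmF.sum _ fun y' _ =>
    SmF.smul (contMDiff_const.mul ((H.smJ y' y).mul (h1 x y))) (H.smcc x y')

theorem smooth_shf (H : Sym S cc) {rr : M → ℝ} (hr : ContMDiff (𝓡 4) 𝓘(ℝ, ℝ) ∞ rr)
    (hpos : ∀ z, 0 < rr z) {P : κ0 → κ0 → M → ℝ} (hP : Pj S P) :
    SmV (n := 4) (shf S cc rr P) := fun A => (smF_XF H hr hpos hP).inner (H.sms A)

theorem sum_shf (H : Sym S cc) (rr : M → ℝ) (P : κ0 → κ0 → M → ℝ) (z : M) :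
    ∑ A, shf S cc rr P A z • S.s A z = XF S cc rr P z := H.tight z _

theorem sec_shf (H : Sym S cc) (rr : M → ℝ) (P : κ0 → κ0 → M → ℝ) :
    S.DT.Sec (shf S cc rr P) := by
  intro A z
  have h := congrArg (fun v : EuclideanSpace ℝ (Fin 4) => (⟪v, S.s A z⟫ : ℝ)) (sum_shf H rr P z)
  simp only [sum_inner, real_inner_smul_left] at h
  rw [← show (⟪XF S cc rr P z, S.s A z⟫ : ℝ) = shf S cc rr P A z from rfl, ← h]
  refine Finset.sum_congr rfl fun B _ => ?_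
  rw [H.pT, mul_comm, real_inner_comm]

/-- derivative of a product of matrices. -/
theorem Gr_mm {A B : κ0 → κ0 → M → ℝ} (hA : ∀ a b, ContMDiff (𝓡 4) 𝓘(ℝ, ℝ) ∞ (A a b))
    (hB : ∀ a b, ContMDiff (𝓡 4) 𝓘(ℝ, ℝ) ∞ (B a b)) (a b : κ0) (z : M) :
    Gr (n := 4) (fun y => ∑ c, A a c y * B c b y) z =
      ∑ c, (A a c z • Gr (n := 4) (B c b) z + B c b z • Gr (n := 4) (A a c) z) := by
  rw [Gr_sum' (f := fun c y => A a c y * B c b y) Finset.univ (fun c _ => (hA a c).mul (hB c b))]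
  refine Finset.sum_congr rfl fun c _ => ?_
  exact Gr_mul (md (hA a c) z) (md (hB c b) z)

/-- `J` commutes with `∇ P`. -/
theorem nP_J (H : Sym S cc) {P : κ0 → κ0 → M → ℝ} (hP : Pj S P) (a b : κ0) (z : M) :
    ∑ c, S.J c b z • nP S.D0 P a c z = ∑ c, S.J a c z • nP S.D0 P c b z := by
  refine ext_inner_right ℝ fun w => ?_
  -- scalar matrices
  let Xw : Matrix κ0 κ0 ℝ := fun a b => ⟪S.D0.X a b z, w⟫
  let dP : Matrix κ0 κ0 ℝ := fun a b => ⟪Gr (n := 4) (P a b) z, w⟫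
  let dJ : Matrix κ0 κ0 ℝ := fun a b => ⟪Gr (n := 4) (S.J a b) z, w⟫
  let Pm : Matrix κ0 κ0 ℝ := fun a b => P a b z
  let Jm : Matrix κ0 κ0 ℝ := fun a b => S.J a b z
  have hPJ : Pm * Jm = Jm * Pm := by
    ext a b
    rw [Matrix.mul_apply, Matrix.mul_apply]
    exact hP.PJ a b z
  have hdJ : dJ = Jm * Xw - Xw * Jm := by
    ext a b
    have h := congrArg (fun v : EuclideanSpace ℝ (Fin 4) => (⟪v, w⟫ : ℝ)) (H.Jpar a b z)
    simp only [inner_add_left, sum_inner, inner_sub_left, real_inner_smul_left, inner_zero_left,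
      Finset.sum_sub_distrib] at h
    rw [Matrix.sub_apply, Matrix.mul_apply, Matrix.mul_apply]
    show (⟪Gr (n := 4) (S.J a b) z, w⟫ : ℝ) = ∑ c, S.J a c z * ⟪S.D0.X c b z, w⟫ -
      ∑ c, ⟪S.D0.X a c z, w⟫ * S.J c b z
    have e : ∑ c, (⟪S.D0.X a c z, w⟫ : ℝ) * S.J c b z = ∑ c, S.J c b z * ⟪S.D0.X a c z, w⟫ :=
      Finset.sum_congr rfl fun c _ => mul_comm _ _
    rw [e]
    linarith
  have hd : dP * Jm + Pm * dJ = dJ * Pm + Jm * dP := by
    ext a b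
    have h0 : (fun y => ∑ c, P a c y * S.J c b y) = fun y => ∑ c, S.J a c y * P c b y :=
      funext fun y => hP.PJ a b y
    have h1 := congrArg (fun f : M → ℝ => (⟪Gr (n := 4) f z, w⟫ : ℝ)) h0
    simp only [Gr_mm hP.sm H.smJ, Gr_mm H.smJ hP.sm, sum_inner, inner_add_left,
      real_inner_smul_left, Finset.sum_add_distrib] at h1
    rw [Matrix.add_apply, Matrix.add_apply, Matrix.mul_apply, Matrix.mul_apply, Matrix.mul_apply,
      Matrix.mul_apply]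
    show ∑ c, ⟪Gr (n := 4) (P a c) z, w⟫ * S.J c b z + ∑ c, P a c z * ⟪Gr (n := 4) (S.J c b) z, w⟫ =
      ∑ c, ⟪Gr (n := 4) (S.J a c) z, w⟫ * P c b z + ∑ c, S.J a c z * ⟪Gr (n := 4) (P c b) z, w⟫
    have e1 : ∑ c, (⟪Gr (n := 4) (P a c) z, w⟫ : ℝ) * S.J c b z =
        ∑ c, S.J c b z * ⟪Gr (n := 4) (P a c) z, w⟫ := Finset.sum_congr rfl fun c _ => mul_comm _ _
    have e2 : ∑ c, (⟪Gr (n := 4) (S.J a c) z, w⟫ : ℝ) * P c b z =
        ∑ c, P c b z * ⟪Gr (n := 4) (S.J a c) z, w⟫ := Finset.sum_congr rfl fun c _ => mul_comm _ _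
    rw [e1, e2]
    linarith
  have key : (dP + (Xw * Pm - Pm * Xw)) * Jm = Jm * (dP + (Xw * Pm - Pm * Xw)) := by
    have h1 : dP * Jm - Jm * dP = dJ * Pm - Pm * dJ := by
      have := hd
      rw [sub_eq_sub_iff_add_eq_add, this]
    have h2 : (dP + (Xw * Pm - Pm * Xw)) * Jm - Jm * (dP + (Xw * Pm - Pm * Xw)) =
        (dP * Jm - Jm * dP) + (Xw * (Pm * Jm) - Pm * Xw * Jm - Jm * Xw * Pm + (Jm * Pm) * Xw) := by
      noncomm_ring
    rw [← sub_eq_zero, h2, h1, hdJ, hPJ]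
    have h3 : (Jm * Xw - Xw * Jm) * Pm - Pm * (Jm * Xw - Xw * Jm) +
        (Xw * (Jm * Pm) - Pm * Xw * Jm - Jm * Xw * Pm + Jm * Pm * Xw) =
        (Jm * Pm) * Xw - (Pm * Jm) * Xw := by noncomm_ring
    rw [h3, hPJ, sub_self]
  have h := congrFun (congrFun key a) b
  rw [Matrix.mul_apply, Matrix.mul_apply] at h
  have hn : ∀ a b, (dP + (Xw * Pm - Pm * Xw)) a b = ⟪nP S.D0 P a b z, w⟫ := by
    intro a b
    rw [Matrix.add_apply, Matrix.sub_apply, Matrix.mul_apply, Matrix.mul_apply]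
    unfold nP
    rw [inner_add_left, sum_inner]
    simp only [inner_sub_left, real_inner_smul_left, Finset.sum_sub_distrib]
    show _ + (∑ c, ⟪S.D0.X a c z, w⟫ * P c b z - ∑ c, P a c z * ⟪S.D0.X c b z, w⟫) = _
    have e1 : ∑ c, (⟪S.D0.X a c z, w⟫ : ℝ) * P c b z = ∑ c, P c b z * ⟪S.D0.X a c z, w⟫ :=
      Finset.sum_congr rfl fun c _ => mul_comm _ _
    rw [e1]
  simp only [hn] at h
  rw [sum_inner, sum_inner]
  simp only [real_inner_smul_left]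
  rw [← show ∑ c, (⟪nP S.D0 P a c z, w⟫ : ℝ) * S.J c b z =
    ∑ c, S.J c b z * ⟪nP S.D0 P a c z, w⟫ from Finset.sum_congr rfl fun c _ => mul_comm _ _]
  exact h

/-- `Zt` as a linear function of the symbol. -/
def Zv (S : SWS M κ0 κ1 κT) (rr : M → ℝ) (P : κ0 → κ0 → M → ℝ) (z : M) (y : κ0)
    (L : κ0 → EuclideanSpace ℝ (Fin 4)) : ℝ :=
  ∑ y', ⟪nP S.D0 P y' y z, L y'⟫ + 3 / 4 * (rr z)⁻¹ * ⟪Gr (n := 4) rr z, L y⟫

theorem Zv_sum (rr : M → ℝ) (P : κ0 → κ0 → M → ℝ) (z : M) (y : κ0) (K : κ1 → ℝ)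
    (L : κ1 → κ0 → EuclideanSpace ℝ (Fin 4)) :
    ∑ x', K x' * Zv S rr P z y (L x') = Zv S rr P z y (fun y => ∑ x', K x' • L x' y) := by
  unfold Zv
  simp only [mul_add, Finset.sum_add_distrib, inner_sum, real_inner_smul_right, Finset.mul_sum]
  congr 1
  · exact Finset.sum_comm
  · refine Finset.sum_congr rfl fun x _ => ?_
    ring

/-- the matrix of `Zt`. -/
def Tm (S : SWS M κ0 κ1 κT) (cc : κ1 → κ0 → M → EuclideanSpace ℝ (Fin 4)) (rr : M → ℝ)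
    (P : κ0 → κ0 → M → ℝ) (z : M) : Matrix κ1 κ0 ℝ := fun x y => Zt S cc rr P x y z

theorem p1_Tm (H : Sym S cc) (rr : M → ℝ) (P : κ0 → κ0 → M → ℝ) (z : M) :
    mp1 S z * Tm S cc rr P z = Tm S cc rr P z := by
  ext x y
  rw [Matrix.mul_apply]
  have h := Zv_sum (S := S) rr P z y (fun x' => S.D1.p x x' z) (fun x' y => cc x' y z)
  simp only [H.p_cc] at h
  exact h

theorem J1_Tm (H : Sym S cc) (rr : M → ℝ) {P : κ0 → κ0 → M → ℝ} (hP : Pj S P) (z : M)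
    {J1 : Matrix κ1 κ1 ℝ}
    (hJ : ∀ x y, ∑ x', J1 x x' • cc x' y z = ∑ y', S.J y' y z • cc x y' z) :
    J1 * Tm S cc rr P z = Tm S cc rr P z * mJ S z := by
  ext x y
  rw [Matrix.mul_apply, Matrix.mul_apply]
  have h := Zv_sum (S := S) rr P z y (fun x' => J1 x x') (fun x' y => cc x' y z)
  simp only [hJ] at h
  refine h.trans ?_
  show Zv S rr P z y (fun y => ∑ y', S.J y' y z • cc x y' z) =
    ∑ c, Zv S rr P z c (fun y => cc x y z) * S.J c y z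
  unfold Zv
  simp only [add_mul, Finset.sum_add_distrib, inner_sum, real_inner_smul_right, Finset.mul_sum,
    Finset.sum_mul]
  congr 1
  · rw [Finset.sum_comm]
    have e1 : ∀ c, ∑ b, S.J c b z * (⟪nP S.D0 P b y z, cc x c z⟫ : ℝ) =
        ∑ b, (⟪nP S.D0 P c b z, cc x c z⟫ : ℝ) * S.J b y z := by
      intro c
      have h2 := congrArg (fun v : EuclideanSpace ℝ (Fin 4) => (⟪v, cc x c z⟫ : ℝ))
        (nP_J H hP c y z)
      simp only [sum_inner, real_inner_smul_left] at h2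
      rw [← h2]
      exact Finset.sum_congr rfl fun b _ => mul_comm _ _
    simp only [e1]
    exact Finset.sum_comm
  · refine Finset.sum_congr rfl fun c _ => ?_
    ring

theorem inner_basis (u v : EuclideanSpace ℝ (Fin 4)) :
    ∑ i, (⟪u, EuclideanSpace.single i (1 : ℝ)⟫ : ℝ) * ⟪v, EuclideanSpace.single i (1 : ℝ)⟫ =
      ⟪u, v⟫ := by
  simp only [PiLp.inner_apply]
  refine Finset.sum_congr rfl fun i _ => ?_
  simp [mul_comm]

/-- the zeroth order term on the eigenline is `c(X) J`. -/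
theorem zt_line (H : Sym S cc) (rr : M → ℝ) {m : Fin 3 → M → ℝ}
    (hsm : ∀ k, ContMDiff (𝓡 4) 𝓘(ℝ, ℝ) ∞ (m k)) (hm : ∀ z, ∑ k, m k z ^ 2 = 1)
    {s : κ0 → ℝ} {z : M} (hs : ∀ y, ∑ b, Pr S m y b z * s b = s y) (x : κ1) :
    ∑ y, Zt S cc rr (Pr S m) x y z * s y =
      ∑ y, (∑ y', S.J y y' z * s y') * ⟪XF S cc rr (Pr S m) z, cc x y z⟫ := by
  obtain ⟨J1, hpnt, hJ1⟩ := exists_pnt H (m := m) z (hm z)
  set T := Tm S cc rr (Pr S m) z with hT
  have hJT : J1 * T = T * mJ S z := J1_Tm H rr (pj H hsm hm) z hJ1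
  have h1 := hpnt.main (T := T) (p1_Tm H rr (Pr S m) z) (by rw [← Matrix.mul_assoc, hJT])
  have hPs : (mP S m z).mulVec s = s := by
    funext y
    rw [Matrix.mulVec, dotProduct]
    simp only [mP_apply]
    exact hs y
  have htp : ∀ x y, (T * mP S m z) x y = tp S cc rr (Pr S m) x y z := by
    intro x y
    rw [Matrix.mul_apply]
    simp only [mP_apply]
    rfl
  have hX : ∀ i, (1 / 2 : ℝ) * ((mc cc i z * mJ S z).transpose * (T * mP S m z)).trace =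
      ⟪XF S cc rr (Pr S m) z, EuclideanSpace.single i (1 : ℝ)⟫ := by
    intro i
    unfold XF Matrix.trace
    simp only [Matrix.diag_apply, Matrix.mul_apply (M := (mc cc i z * mJ S z).transpose),
      Matrix.transpose_apply, htp, Matrix.mul_apply (M := mc cc i z), sum_inner,
      real_inner_smul_left, Finset.mul_sum, Finset.sum_mul]
    rw [Finset.sum_comm]
    refine Finset.sum_congr rfl fun x _ => Finset.sum_congr rfl fun y _ =>
      Finset.sum_congr rfl fun y' _ => ?_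
    show (1 / 2 : ℝ) * (⟪cc x y' z, EuclideanSpace.single i (1 : ℝ)⟫ * S.J y' y z *
      tp S cc rr (Pr S m) x y z) = _
    ring
  simp only [hX] at h1
  have h2 : T.mulVec s = (∑ i, (⟪XF S cc rr (Pr S m) z, EuclideanSpace.single i (1 : ℝ)⟫ : ℝ) •
      mc cc i z).mulVec ((mJ S z).mulVec s) := by
    calc T.mulVec s = (T * mP S m z).mulVec s := by rw [← Matrix.mulVec_mulVec, hPs]
      _ = _ := by rw [h1, ← Matrix.mulVec_mulVec, ← Matrix.mulVec_mulVec, hPs]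
  have h3 := congrFun h2 x
  have hl : T.mulVec s x = ∑ y, Zt S cc rr (Pr S m) x y z * s y := rfl
  rw [← hl, h3, Matrix.mulVec, dotProduct]
  refine Finset.sum_congr rfl fun y _ => ?_
  rw [Matrix.sum_apply]
  have h4 : ∑ i, ((⟪XF S cc rr (Pr S m) z, EuclideanSpace.single i (1 : ℝ)⟫ : ℝ) • mc cc i z) x y =
      ⟪XF S cc rr (Pr S m) z, cc x y z⟫ := by
    rw [← inner_basis]
    rfl
  rw [h4, mul_comm]
  rfl

/-! ### Taubes data -/

/-- the data at a parameter: `τ = (ρ, n, sh, fE)`. -/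
def mkT (S : SWS M κ0 κ1 κT) (cc : κ1 → κ0 → M → EuclideanSpace ℝ (Fin 4)) (rr : M → ℝ)
    (n : Fin 3 → M → ℝ) (fE : Fin 3 → M → ℝ) : TD M κT where
  rr := rr
  n := n
  sh := shf S cc rr (Pr S fun k z => - n k z)
  fE := fE

theorem Pr_neg (n : Fin 3 → M → ℝ) (y y' : κ0) (z : M) : Pr S (fun k z => - n k z) y y' z =
    (1 / 2) * (S.D0.p y y' z - ∑ k, n k z * S.rho k y y' z) := by
  unfold Pr
  congr 1
  rw [sub_eq_add_neg, ← Finset.sum_neg_distrib]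
  congr 1
  exact Finset.sum_congr rfl fun k _ => by ring

theorem secE_iff {rr : M → ℝ} {n fE : Fin 3 → M → ℝ} {s : κ0 → M → ℝ}
    (h : (mkT S cc rr n fE).SecE S s) (y : κ0) (z : M) :
    ∑ b, Pr S (fun k z => - n k z) y b z * s b z = s y z := by
  have h1 := h.1 y z
  have h2 := h.2 y z
  have h3 : ∑ k, ∑ y', n k z * S.rho k y y' z * s y' z = - s y z := h2
  simp only [Pr_neg]
  have e : ∀ b, 1 / 2 * (S.D0.p y b z - ∑ k, n k z * S.rho k y b z) * s b z =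
      1 / 2 * (S.D0.p y b z * s b z) - 1 / 2 * ∑ k, n k z * S.rho k y b z * s b z := by
    intro b
    rw [← Finset.sum_mul]
    ring
  simp only [e, Finset.sum_sub_distrib, ← Finset.mul_sum]
  rw [h1, Finset.sum_comm, h3]
  ring

theorem secE'_iff {rr : M → ℝ} {n fE : Fin 3 → M → ℝ} {s : κ0 → M → ℝ}
    (h : (mkT S cc rr n fE).SecE' S s) (y : κ0) (z : M) :
    ∑ b, Pr S n y b z * s b z = s y z := by
  have h1 := h.1 y z
  have h2 := h.2 y z
  have h3 : ∑ k, ∑ y', n k z * S.rho k y y' z * s y' z = s y z := h2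
  have e : ∀ b, Pr S n y b z * s b z =
      1 / 2 * (S.D0.p y b z * s b z) + 1 / 2 * ∑ k, n k z * S.rho k y b z * s b z := by
    intro b
    unfold Pr
    rw [← Finset.sum_mul]
    ring
  simp only [e, Finset.sum_add_distrib, ← Finset.mul_sum]
  rw [h1, Finset.sum_comm, h3]
  ring

/-- **DE** -/
theorem de (H : Sym S cc) {rr : M → ℝ} (hr : ContMDiff (𝓡 4) 𝓘(ℝ, ℝ) ∞ rr)
    (hpos : ∀ z, 0 < rr z) {n : Fin 3 → M → ℝ} (hsm : ∀ k, ContMDiff (𝓡 4) 𝓘(ℝ, ℝ) ∞ (n k))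
    (hn : ∀ z, ∑ k, n k z ^ 2 = 1) (fE : Fin 3 → M → ℝ) (a : κT → M → ℝ)
    {s : κ0 → M → ℝ} (hs : SmV (n := 4) s) (hE : (mkT S cc rr n fE).SecE S s) (x : κ1) (z : M) :
    (S.P.A ((mkT S cc rr n fE).sc (3 / 4) s) + S.cm a ((mkT S cc rr n fE).sc (3 / 4) s)) x z =
      rr z ^ (3 / 4 : ℝ) * ∑ y, ⟪(mkT S cc rr n fE).nE S a s y z, cc x y z⟫ := by
  have hsm' : ∀ k, ContMDiff (𝓡 4) 𝓘(ℝ, ℝ) ∞ fun z => - n k z := fun k => (hsm k).neg
  have hn' : ∀ z, ∑ k, (fun z => - n k z) z ^ 2 = 1 := fun z => by simpa using hn z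
  have hPs : ∀ y z, ∑ b, Pr S (fun k z => - n k z) y b z * s b z = s y z := secE_iff hE
  refine (de_gen H hr hpos (pj H hsm' hn') a hs hPs x z).trans ?_
  rw [zt_line H rr hsm' hn' (fun y => hPs y z) x]
  congr 1
  rw [← Finset.sum_add_distrib]
  refine Finset.sum_congr rfl fun y _ => ?_
  rw [← real_inner_smul_left, ← inner_add_left]
  congr 1
  unfold TD.nE TD.prE prj
  congr 1
  · refine Finset.sum_congr rfl fun y' _ => ?_
    rw [Pr_neg]
    rfl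
  · rw [← sum_shf H rr (Pr S fun k z => - n k z) z]
    rfl

/-- **DE'** -/
theorem de' (H : Sym S cc) {rr : M → ℝ} (hr : ContMDiff (𝓡 4) 𝓘(ℝ, ℝ) ∞ rr)
    (hpos : ∀ z, 0 < rr z) {n : Fin 3 → M → ℝ} (hsm : ∀ k, ContMDiff (𝓡 4) 𝓘(ℝ, ℝ) ∞ (n k))
    (hn : ∀ z, ∑ k, n k z ^ 2 = 1) (fE : Fin 3 → M → ℝ) (a : κT → M → ℝ)
    {s : κ0 → M → ℝ} (hs : SmV (n := 4) s) (hE : (mkT S cc rr n fE).SecE' S s) (x : κ1) (z : M) :
    (S.P.A ((mkT S cc rr n fE).sc (3 / 4) s) + S.cm a ((mkT S cc rr n fE).sc (3 / 4) s)) x z =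
      rr z ^ (3 / 4 : ℝ) * (∑ y, ⟪Tau483.nP (mkT S cc rr n fE) S a s y z, cc x y z⟫ +
        ∑ y, Zt S cc rr (Pr S n) x y z * s y z) := by
  have hPs : ∀ y z, ∑ b, Pr S n y b z * s b z = s y z := secE'_iff hE
  exact de_gen H hr hpos (pj H hsm hn) a hs hPs x z

/-- **the structure `TE`**. -/
theorem te (T : ToF 4 M) {c : κ1 → κ0 → (z : M) → TangentSpace (𝓡 4) z}
    (H : Sym S fun x y z => T.toF z (c x y z)) {rr : M → ℝ}
    (hr : ContMDiff (𝓡 4) 𝓘(ℝ, ℝ) ∞ rr) (hpos : ∀ z, 0 < rr z) {n : Fin 3 → M → ℝ}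
    (hsm : ∀ k, ContMDiff (𝓡 4) 𝓘(ℝ, ℝ) ∞ (n k)) (hn : ∀ z, ∑ k, n k z ^ 2 = 1)
    (fE : Fin 3 → M → ℝ) :
    Tau483.TE (mkT S (fun x y z => T.toF z (c x y z)) rr n fE) S T c
      (Zt S (fun x y z => T.toF z (c x y z)) rr (Pr S n)) where
  smrr := hr
  pos := hpos
  smn := hsm
  norm := hn
  smsh := smooth_shf H hr hpos (pj H (fun k => (hsm k).neg) fun z => by simpa using hn z)
  secsh := sec_shf H rr _
  cZ x y := (smooth_Zt H hr hpos (pj H hsm hn) x y).continuous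
  dir a s _ _ hs hE x z := de H hr hpos hsm hn fE a hs hE x z
  dir' a s _ _ hs hE x z := de' H hr hpos hsm hn fE a hs hE x z

end

end Crest.Agent.R235.SWTf_451
end

-- ▼ part R235/SWTn_451

/-!
Row 235 (S0364), PACKAGE SW, MODEL-4 (helper451): the functions `ρ_t = |w_t|` and `n_t = w_t/|w_t|`
of a positive triple in its orthonormal frame `e` (`IsTri w e`).

* `wwf w e i k`  : component of `w_i` along `e_k` (lower triangular, nonzero on the diagonal);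
* `wtk ww t k = ∑ t_i ww i k`, `rrt ww t = |wtk|`, `nt ww t k = wtk/rrt`.
-/

set_option autoImplicit false
set_option maxSynthPendingDepth 3
set_option linter.unusedSectionVars false

open scoped ContDiff ENNReal NNReal Topology Manifold Bundle RealInnerProductSpace
open MeasureTheory Set Filter Metric Bundle

universe v

namespace Crest.Agent.R235.SWTn_451

open Crest.Agent.R240 Crest.Agent.R240.Ch Crest.Agent.R235 Crest.Agent.R235.SWDefs_53
open Crest.Agent.R235.IndTri_451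
open Crest.Agent.R240.En4 (smoothF_qG)

noncomputable section

section comp

variable {M : Type v} [TopologicalSpace M] [ChartedSpace E4 M] [IsManifold 𝓘(ℝ, E4) ∞ M]
  {w e : Fin 3 → F2 E4 M}

/-- the component of `w_i` along `e_k`. -/
def wwf (w e : Fin 3 → F2 E4 M) (i k : Fin 3) (x : M) : ℝ := qG (w 0) (e k) (w i) x

theorem wwf_coef (h : IsTri w e) {B : Fin 3 → Fin 3 → M → ℝ}
    (hB : ∀ i x, at2 (w i) x = ∑ j, B i j x • at2 (e j) x) (i k : Fin 3) (x : M) :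
    wwf w e i k x = B i k x := by
  have h1 : ∀ k, W (at2 (e k) x) (at2 (w i) x) = W (at2 (w 0) x) (at2 (w 0) x) * B i k x := by
    intro k
    rw [hB i x, Fin.sum_univ_three, W_comm, W_add_left, W_add_left, W_smul_left, W_smul_left,
      W_smul_left, h.W_e, h.W_e, h.W_e]
    fin_cases k <;> simp <;> ring
  unfold wwf qG q
  rw [h1, mul_comm, mul_div_assoc, div_self (h.W_ne x), mul_one]

theorem wwf_eq (h : IsTri w e) (i : Fin 3) (x : M) :
    at2 (w i) x = ∑ k, wwf w e i k x • at2 (e k) x := by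
  obtain ⟨A, B, -, -, -, hB, -, -⟩ := h.coef
  rw [hB i x]
  exact Finset.sum_congr rfl fun k _ => by rw [wwf_coef h hB]

theorem wwf_lt (h : IsTri w e) (i k : Fin 3) (x : M) (hik : i < k) : wwf w e i k x = 0 := by
  obtain ⟨A, B, -, -, -, hB, h0, -⟩ := h.coef
  rw [wwf_coef h hB]
  exact (h0 i k x hik).2

theorem wwf_diag (h : IsTri w e) (i : Fin 3) (x : M) : wwf w e i i x ≠ 0 := by
  obtain ⟨A, B, -, -, -, hB, -, h1⟩ := h.coef
  rw [wwf_coef h hB]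
  exact right_ne_zero_of_mul_eq_one (h1 i x)

theorem smooth_wwf (hs : ∀ i, Smooth2 (w i)) (h : IsTri w e)
    (i k : Fin 3) : SmoothF E4 (wwf w e i k) := smoothF_qG (hs 0) h.W_ne (h.smooth k) (hs i)

end comp

/-! ### length and direction -/

section len

variable {M : Type v}

/-- `w_t` in the frame. -/
def wtk (ww : Fin 3 → Fin 3 → M → ℝ) (t : E3) (k : Fin 3) (z : M) : ℝ := ∑ i, t i * ww i k z

/-- `|w_t|`. -/
def rrt (ww : Fin 3 → Fin 3 → M → ℝ) (t : E3) (z : M) : ℝ := √(∑ k, wtk ww t k z ^ 2)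

/-- `w_t / |w_t|`. -/
def nt (ww : Fin 3 → Fin 3 → M → ℝ) (t : E3) (k : Fin 3) (z : M) : ℝ :=
  wtk ww t k z * (rrt ww t z)⁻¹

variable {ww : Fin 3 → Fin 3 → M → ℝ}

/-- a lower triangular matrix of functions without zeros on the diagonal. -/
structure LT (ww : Fin 3 → Fin 3 → M → ℝ) : Prop where
  lt : ∀ i k z, i < k → ww i k z = 0
  diag : ∀ i z, ww i i z ≠ 0

theorem LT.ndeg (h : LT ww) (t : E3) (z : M) (ht : t ≠ 0) : ∃ k, wtk ww t k z ≠ 0 := by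
  by_contra hc
  push Not at hc
  have e01 := h.lt 0 1 z (by decide)
  have e02 := h.lt 0 2 z (by decide)
  have e12 := h.lt 1 2 z (by decide)
  have h2 := hc 2
  have h1 := hc 1
  have h0 := hc 0
  simp only [wtk, Fin.sum_univ_three, e01, e02, e12, mul_zero, zero_add] at h0 h1 h2
  have t2 : t 2 = 0 := (mul_eq_zero.1 h2).resolve_right (h.diag 2 z)
  rw [t2, zero_mul, add_zero] at h1
  have t1 : t 1 = 0 := (mul_eq_zero.1 h1).resolve_right (h.diag 1 z)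
  rw [t2, t1, zero_mul, zero_mul, add_zero, add_zero] at h0
  have t0 : t 0 = 0 := (mul_eq_zero.1 h0).resolve_right (h.diag 0 z)
  apply ht
  ext i
  fin_cases i
  · exact t0
  · exact t1
  · exact t2

theorem LT.pos (h : LT ww) {t : E3} (ht : t ≠ 0) (z : M) : 0 < rrt ww t z := by
  obtain ⟨k, hk⟩ := h.ndeg t z ht
  refine Real.sqrt_pos.2 (lt_of_lt_of_le (pow_pos (abs_pos.2 hk) 2) ?_)
  rw [sq_abs]
  exact Finset.single_le_sum (f := fun k => wtk ww t k z ^ 2) (fun _ _ => sq_nonneg _)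
    (Finset.mem_univ k)

theorem LT.mul_nt (h : LT ww) {t : E3} (ht : t ≠ 0) (k : Fin 3) (z : M) :
    rrt ww t z * nt ww t k z = wtk ww t k z := by
  unfold nt
  rw [mul_comm, mul_assoc, inv_mul_cancel₀ (h.pos ht z).ne', mul_one]

theorem LT.norm_nt (h : LT ww) {t : E3} (ht : t ≠ 0) (z : M) : ∑ k, nt ww t k z ^ 2 = 1 := by
  have h0 := (h.pos ht z).ne'
  have h1 : rrt ww t z ^ 2 = ∑ k, wtk ww t k z ^ 2 :=
    Real.sq_sqrt (Finset.sum_nonneg fun _ _ => sq_nonneg _)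
  unfold nt
  simp only [mul_pow]
  rw [← Finset.sum_mul, ← h1, inv_pow, mul_inv_cancel₀ (pow_ne_zero 2 h0)]

end len

section smooth

variable {M : Type v} [TopologicalSpace M] [ChartedSpace (EuclideanSpace ℝ (Fin 4)) M]
  {ww : Fin 3 → Fin 3 → M → ℝ}

theorem smooth_wtk (hs : ∀ i k, ContMDiff (𝓡 4) 𝓘(ℝ, ℝ) ∞ (ww i k)) (t : E3) (k : Fin 3) :
    ContMDiff (𝓡 4) 𝓘(ℝ, ℝ) ∞ (wtk ww t k) :=
  contMDiff_finsetSum fun i _ => contMDiff_const.mul (hs i k)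

theorem smooth_rrt (h : LT ww) (hs : ∀ i k, ContMDiff (𝓡 4) 𝓘(ℝ, ℝ) ∞ (ww i k)) {t : E3}
    (ht : t ≠ 0) : ContMDiff (𝓡 4) 𝓘(ℝ, ℝ) ∞ (rrt ww t) := by
  have h1 : ContMDiff (𝓡 4) 𝓘(ℝ, ℝ) ∞ fun z => ∑ k, wtk ww t k z ^ 2 :=
    contMDiff_finsetSum fun k _ => by
      simp only [sq]
      exact (smooth_wtk hs t k).mul (smooth_wtk hs t k)
  intro z
  have h2 : (∑ k, wtk ww t k z ^ 2) ≠ 0 := fun h0 => by
    have := h.pos ht z
    unfold rrt at this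
    rw [h0, Real.sqrt_zero] at this
    exact lt_irrefl _ this
  have h3 : ContDiffAt ℝ ∞ (fun s : ℝ => √s) (∑ k, wtk ww t k z ^ 2) :=
    Real.contDiffAt_sqrt h2
  exact h3.contMDiffAt.comp z (h1 z)

theorem smooth_rrt_inv (h : LT ww) (hs : ∀ i k, ContMDiff (𝓡 4) 𝓘(ℝ, ℝ) ∞ (ww i k)) {t : E3}
    (ht : t ≠ 0) : ContMDiff (𝓡 4) 𝓘(ℝ, ℝ) ∞ fun z => (rrt ww t z)⁻¹ := by
  intro z
  have h3 : ContDiffAt ℝ ∞ (fun s : ℝ => s⁻¹) (rrt ww t z) := contDiffAt_inv ℝ (h.pos ht z).ne'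
  exact h3.contMDiffAt.comp z (smooth_rrt h hs ht z)

theorem smooth_nt (h : LT ww) (hs : ∀ i k, ContMDiff (𝓡 4) 𝓘(ℝ, ℝ) ∞ (ww i k)) {t : E3}
    (ht : t ≠ 0) (k : Fin 3) : ContMDiff (𝓡 4) 𝓘(ℝ, ℝ) ∞ (nt ww t k) :=
  (smooth_wtk hs t k).mul (smooth_rrt_inv h hs ht)

end smooth

section tri

variable {M : Type v} [TopologicalSpace M] [ChartedSpace E4 M] [IsManifold 𝓘(ℝ, E4) ∞ M]
  {w e : Fin 3 → F2 E4 M}

theorem lt_wwf (h : IsTri w e) : LT (wwf w e) := ⟨fun i k z => wwf_lt h i k z, wwf_diag h⟩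

theorem cm_wwf (hs : ∀ i, Smooth2 (w i)) (h : IsTri w e) (i k : Fin 3) :
    ContMDiff (𝓡 4) 𝓘(ℝ, ℝ) ∞ (wwf w e i k) :=
  (Crest.Agent.R240.Ch.smoothF_iff _).2 (smooth_wwf hs h i k)

end tri

section data

variable {M : Type v} [MetricSpace M] [CompactSpace M] [ConnectedSpace M]
  [ChartedSpace (EuclideanSpace ℝ (Fin 4)) M] [IsManifold (𝓡 4) ∞ M]
  [RiemannianBundle (fun p : M => TangentSpace (𝓡 4) p)]
  [IsContMDiffRiemannianBundle (𝓡 4) ∞ (EuclideanSpace ℝ (Fin 4))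
    (fun p : M => TangentSpace (𝓡 4) p)]
  [IsRiemannianManifold (𝓡 4) M] [MeasurableSpace M] [BorelSpace M]
  [SecondCountableTopology M] [Nonempty M]
  {κ0 κ1 κT : Type} [Fintype κ0] [Fintype κ1] [Fintype κT]

/-- the family of Taubes data. -/
def tauT (S : SWS M κ0 κ1 κT) (cc : κ1 → κ0 → M → EuclideanSpace ℝ (Fin 4))
    (ww : Fin 3 → Fin 3 → M → ℝ) (fE : E3 → Fin 3 → M → ℝ) (t : E3) : TD M κT :=
  SWTf_451.mkT S cc (rrt ww t) (nt ww t) (fE t)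


end data

end

end Crest.Agent.R235.SWTn_451
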