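import Crest.Agent.R235.LTwB_453

-- ▼ part R235/LTwC_453
section

/-!
Row 235, helper453, L-twist part C: local frames of the twisted bundle.

For a local frame `LF D h a j` of `D` and germs `vr + i vi` of a unit section of `L`
(`Unit L z vr vi`): `LF (twB D J hJ L) h (a + α U) (Psi J j vr vi)`, `U = jᵀ J j`,
`α_k = ∑ vr D_k vi - vi D_k vr`.
-/

set_option autoImplicit false
set_option maxSynthPendingDepth 3
set_option linter.unusedSectionVars false

open Filter Topology Set Bundle Manifold Matrix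
open scoped ContDiff Kronecker
open Crest.GeometryTopology.CoordMetric Crest.GeometryTopology.ChartCurvature
  Crest.GeometryTopology.PointedLimit
open Crest.Agent.R202.Tens Crest.Agent.R247.Bo84 Crest.Agent.R249.FrmB_285 Crest.Agent.R249.Vf281
  Crest.Agent.R249.Tz1_805 Crest.Agent.R249.Tz2_805
open Crest.Agent.R249.Fr129 Crest.Agent.R249.C2_198
open Crest.Agent.R249.Sg129 hiding fg fg_add fg_sub fg_mul fg_const fg_sum ev_fg contMDiff_inner VSm_mCov
open Crest.Agent.R249.Tz805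
open Crest.Agent.R235.Ind167 (PJ PJ.pmul)

noncomputable section

namespace Crest.Agent.R235.LTw_453

variable {n : ℕ} {M : Type*} [TopologicalSpace M] [ChartedSpace (EuclideanSpace ℝ (Fin n)) M]
  [IsManifold 𝓘(ℝ, EuclideanSpace ℝ (Fin n)) ∞ M]
  [RiemannianBundle (fun x : M => TangentSpace 𝓘(ℝ, EuclideanSpace ℝ (Fin n)) x)]
  [IsContMDiffRiemannianBundle 𝓘(ℝ, EuclideanSpace ℝ (Fin n)) ∞ (EuclideanSpace ℝ (Fin n))
      (fun x : M => TangentSpace 𝓘(ℝ, EuclideanSpace ℝ (Fin n)) x)]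

local notation "𝔼" => EuclideanSpace ℝ (Fin n)
local notation "𝓘E" => 𝓘(ℝ, EuclideanSpace ℝ (Fin n))

/-- matrix of germs. -/
def gmat {κ κ' : Type} (z : M) (f : κ → κ' → M → ℝ) : Matrix κ κ' (SG (chartCentre n M z)) :=
  Matrix.of fun x y => fg (n := n) z (f x y)

/-- matrix of germs of vector fields. -/
def gvec {κ κ' : Type} (z : M) (e : Fin n → EuclideanSpace ℝ (Fin n) → EuclideanSpace ℝ (Fin n))
    (W : κ → κ' → (p : M) → TangentSpace 𝓘(ℝ, EuclideanSpace ℝ (Fin n)) p) (k : Fin n) :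
    Matrix κ κ' (SG (chartCentre n M z)) :=
  Matrix.of fun x y => vg z e (W x y) k

/-- germs of a unit section of the line bundle. -/
structure USec {N : ℕ} (L : LD n M N) (z : M) (vr vi : Fin N → SG (chartCentre n M z)) : Prop where
  re : ∀ k l, vr k * vr l + vi k * vi l = fg (n := n) z (L.r k l)
  im : ∀ k l, vi k * vr l - vr k * vi l = fg (n := n) z (L.s k l)

theorem exists_isqrt {c : EuclideanSpace ℝ (Fin n)} (x : SG c) (hx : 0 < ev x) :
    ∃ t : SG c, t * t * x = 1 := by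
  obtain ⟨f, hf, rfl⟩ := exists_germ x
  have hfc : 0 < f c := by
    have := ev_germ hf
    rwa [this] at hx
  have h1 : ContDiffAt ℝ ∞ (fun y => (√(f y))⁻¹) c :=
    (hf.sqrt hfc.ne').inv (Real.sqrt_ne_zero'.2 hfc)
  refine ⟨germ _ h1, ?_⟩
  rw [germ_mul, germ_mul, ← germ_one]
  refine germ_eq ?_
  have h2 : ∀ᶠ y in 𝓝 c, 0 < f y := hf.continuousAt.eventually (lt_mem_nhds hfc)
  filter_upwards [h2] with y hy
  have h3 : √(f y) * √(f y) = f y := Real.mul_self_sqrt hy.le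
  have h4 : √(f y) ≠ 0 := (Real.sqrt_pos.2 hy).ne'
  rw [← mul_inv, h3, inv_mul_cancel₀ hy.ne']

theorem exists_usec {N : ℕ} (L : LD n M N) (z : M) : ∃ vr vi, USec L z vr vi := by
  obtain ⟨m, hm⟩ : ∃ m, 0 < L.r m m z := by
    by_contra hcon
    push Not at hcon
    have h1 := L.tr z
    have h2 : ∑ a, L.r a a z ≤ 0 := Finset.sum_nonpos fun a _ => hcon a
    linarith
  have hev : ev (fg (n := n) z (L.r m m)) = L.r m m z := ev_fg (L.smr m m)
  obtain ⟨t, ht⟩ := exists_isqrt (fg (n := n) z (L.r m m)) (by rw [hev]; exact hm)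
  have k1 : ∀ k l, fg (n := n) z (L.r k m) * fg (n := n) z (L.r l m) +
      fg (n := n) z (L.s k m) * fg (n := n) z (L.s l m) =
      fg (n := n) z (L.r m m) * fg (n := n) z (L.r k l) := by
    intro k l
    have e1 : fg (n := n) z (fun q => L.r k m q * L.r l m q + L.s k m q * L.s l m q) =
        fg (n := n) z (fun q => L.r k m q * L.r l m q) +
          fg (n := n) z (fun q => L.s k m q * L.s l m q) :=
      fg_add ((L.smr k m).mul (L.smr l m)) ((L.sms k m).mul (L.sms l m))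
    rw [fg_mul (L.smr k m) (L.smr l m), fg_mul (L.sms k m) (L.sms l m)] at e1
    rw [← e1, ← fg_mul (L.smr m m) (L.smr k l)]
    congr 1
    funext q
    exact L.rk1 k l m q
  have k2 : ∀ k l, fg (n := n) z (L.s k m) * fg (n := n) z (L.r l m) -
      fg (n := n) z (L.r k m) * fg (n := n) z (L.s l m) =
      fg (n := n) z (L.r m m) * fg (n := n) z (L.s k l) := by
    intro k l
    have e1 : fg (n := n) z (fun q => L.s k m q * L.r l m q - L.r k m q * L.s l m q) =
        fg (n := n) z (fun q => L.s k m q * L.r l m q) -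
          fg (n := n) z (fun q => L.r k m q * L.s l m q) :=
      fg_sub ((L.sms k m).mul (L.smr l m)) ((L.smr k m).mul (L.sms l m))
    rw [fg_mul (L.sms k m) (L.smr l m), fg_mul (L.smr k m) (L.sms l m)] at e1
    rw [← e1, ← fg_mul (L.smr m m) (L.sms k l)]
    congr 1
    funext q
    exact L.rk2 k l m q
  refine ⟨fun k => t * fg (n := n) z (L.r k m), fun k => t * fg (n := n) z (L.s k m),
    ⟨fun k l => ?_, fun k l => ?_⟩⟩
  · linear_combination (t * t) * k1 k l + fg (n := n) z (L.r k l) * ht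
  · linear_combination (t * t) * k2 k l + fg (n := n) z (L.s k l) * ht

namespace USec

variable {N : ℕ} {L : LD n M N} {z : M} {vr vi : Fin N → SG (chartCentre n M z)}

theorem one (U : USec L z vr vi) : ∑ k, (vr k * vr k + vi k * vi k) = 1 := by
  have h1 : ∀ k, vr k * vr k + vi k * vi k = fg (n := n) z (L.r k k) := fun k => U.re k k
  simp only [h1]
  rw [← fg_sum Finset.univ (F := fun k => L.r k k) (fun k => L.smr k k), ← fg_one (n := n) z]
  congr 1
  funext q
  exact L.tr q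

end USec

/-- the connection form of `L` in the frame `v`. -/
def alf {N : ℕ} {z : M} {e : Fin n → EuclideanSpace ℝ (Fin n) → EuclideanSpace ℝ (Fin n)}
    (h : ONF (chartMetric n M z) (chartAt (EuclideanSpace ℝ (Fin n)) z).target
      (chartCentre n M z) e)
    (vr vi : Fin N → SG (chartCentre n M z)) (k : Fin n) : SG (chartCentre n M z) :=
  ∑ m, (vr m * h.frameOf.D k (vi m) - vi m * h.frameOf.D k (vr m))

section local_

variable {κ : Type} [Fintype κ] {N : ℕ} {D : Bun n M κ} {J : κ → κ → M → ℝ}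
variable {z : M} {e : Fin n → EuclideanSpace ℝ (Fin n) → EuclideanSpace ℝ (Fin n)}
  (h : ONF (chartMetric n M z) (chartAt (EuclideanSpace ℝ (Fin n)) z).target
      (chartCentre n M z) e)

theorem g_pJ (hJ : PJ D J) (z : M) : gmat (n := n) z D.p * gmat (n := n) z J = gmat (n := n) z J := by
  ext a b
  show ∑ c, fg (n := n) z (D.p a c) * fg (n := n) z (J c b) = fg (n := n) z (J a b)
  have h1 : ∀ c, fg (n := n) z (D.p a c) * fg (n := n) z (J c b) =
      fg (n := n) z (fun q => D.p a c q * J c b q) := fun c => (fg_mul (D.smp a c) (hJ.sm c b)).symm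
  simp only [h1]
  rw [← fg_sum Finset.univ (F := fun c q => D.p a c q * J c b q)
    (fun c => (D.smp a c).mul (hJ.sm c b))]
  congr 1
  funext q
  exact hJ.pmul a b q

theorem g_Jp (hJ : PJ D J) (z : M) : gmat (n := n) z J * gmat (n := n) z D.p = gmat (n := n) z J := by
  ext a b
  show ∑ c, fg (n := n) z (J a c) * fg (n := n) z (D.p c b) = fg (n := n) z (J a b)
  have h1 : ∀ c, fg (n := n) z (J a c) * fg (n := n) z (D.p c b) =
      fg (n := n) z (fun q => J a c q * D.p c b q) := fun c => (fg_mul (hJ.sm a c) (D.smp c b)).symm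
  simp only [h1]
  rw [← fg_sum Finset.univ (F := fun c q => J a c q * D.p c b q)
    (fun c => (hJ.sm a c).mul (D.smp c b))]
  congr 1
  funext q
  exact hJ.mulp a b q

theorem g_JJ (hJ : PJ D J) (z : M) : gmat (n := n) z J * gmat (n := n) z J = - gmat (n := n) z D.p := by
  ext a b
  show ∑ c, fg (n := n) z (J a c) * fg (n := n) z (J c b) = - fg (n := n) z (D.p a b)
  have h1 : ∀ c, fg (n := n) z (J a c) * fg (n := n) z (J c b) =
      fg (n := n) z (fun q => J a c q * J c b q) := fun c => (fg_mul (hJ.sm a c) (hJ.sm c b)).symm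
  simp only [h1]
  rw [← fg_sum Finset.univ (F := fun c q => J a c q * J c b q)
    (fun c => (hJ.sm a c).mul (hJ.sm c b)), ← fg_neg (D.smp a b)]
  congr 1
  funext q
  exact hJ.sq a b q

theorem g_Jt (hJ : PJ D J) (z : M) : (gmat (n := n) z J)ᵀ = - gmat (n := n) z J := by
  ext a b
  show fg (n := n) z (J b a) = - fg (n := n) z (J a b)
  rw [← fg_neg (hJ.sm a b)]
  congr 1
  funext q
  exact hJ.skew b a q

/-- derivative of `J` in a frame. -/
theorem g_dJ (hJ : PJ D J) (k : Fin n) :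
    dM (h.frameOf.D k) (gmat (n := n) z J) =
      - (gvec z e D.W k * gmat (n := n) z J - gmat (n := n) z J * gvec z e D.W k) := by
  ext a b
  show h.frameOf.D k (fg (n := n) z (J a b)) = -(∑ c, vg z e (D.W a c) k * fg (n := n) z (J c b) -
    ∑ c, fg (n := n) z (J a c) * vg z e (D.W c b) k)
  rw [← vg_mgrad h (hJ.sm a b) k, ← Finset.sum_sub_distrib]
  have e1 : mgrad n (J a b) = fun q => - ∑ c, (J c b q • D.W a c q - J a c q • D.W c b q) := by
    funext q
    exact eq_neg_of_add_eq_zero_left (hJ.par a b q)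
  have s1 : ∀ c q, VSm n ∞ (fun q => J c b q • D.W a c q) q := fun c q =>
    VSm.smul le_rfl (hJ.sm c b q) (D.smW a c q)
  have s2 : ∀ c q, VSm n ∞ (fun q => J a c q • D.W c b q) q := fun c q =>
    VSm.smul le_rfl (hJ.sm a c q) (D.smW c b q)
  have s3 : ∀ c q, VSm n ∞ (fun q => J c b q • D.W a c q - J a c q • D.W c b q) q := fun c q =>
    (s1 c q).sub' (s2 c q)
  rw [e1, vg_neg h (fun q => VSm.sum Finset.univ fun c _ => s3 c q),
    vg_sum h Finset.univ (F := fun c q => J c b q • D.W a c q - J a c q • D.W c b q) s3]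
  congr 1
  refine Finset.sum_congr rfl fun c _ => ?_
  rw [vg_sub h (s1 c) (s2 c), vg_smul h (hJ.sm c b) (D.smW a c), vg_smul h (hJ.sm a c) (D.smW c b)]
  ring

/-- germ of `[q, dq]`, real part. -/
theorem g_AR (L : LD n M N) (k : Fin n) :
    gvec z e L.AR k =
      (gmat (n := n) z L.r * dM (h.frameOf.D k) (gmat (n := n) z L.r) -
        gmat (n := n) z L.s * dM (h.frameOf.D k) (gmat (n := n) z L.s)) -
      (dM (h.frameOf.D k) (gmat (n := n) z L.r) * gmat (n := n) z L.r -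
        dM (h.frameOf.D k) (gmat (n := n) z L.s) * gmat (n := n) z L.s) := by
  ext a b
  have e0 : vg z e (L.AR a b) k = ∑ c, vg z e (fun q =>
      ((L.r a c q • mgrad n (L.r c b) q - L.s a c q • mgrad n (L.s c b) q) -
      (L.r c b q • mgrad n (L.r a c) q - L.s c b q • mgrad n (L.s a c) q))) k :=
    vg_sum h Finset.univ (F := fun c q =>
      ((L.r a c q • mgrad n (L.r c b) q - L.s a c q • mgrad n (L.s c b) q) -
      (L.r c b q • mgrad n (L.r a c) q - L.s c b q • mgrad n (L.s a c) q)))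
      (fun c q => L.smARt a b c q) k
  show vg z e (L.AR a b) k = _
  rw [e0]
  simp only [Matrix.sub_apply, Matrix.mul_apply]
  rw [← Finset.sum_sub_distrib, ← Finset.sum_sub_distrib, ← Finset.sum_sub_distrib]
  refine Finset.sum_congr rfl fun c _ => ?_
  rw [vg_sub h (X := fun q => L.r a c q • mgrad n (L.r c b) q - L.s a c q • mgrad n (L.s c b) q)
    (Y := fun q => L.r c b q • mgrad n (L.r a c) q - L.s c b q • mgrad n (L.s a c) q)
    (fun q => (L.sm1 a c c b q).sub' (L.sm4 a c c b q))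
    (fun q => (L.sm1 c b a c q).sub' (L.sm4 c b a c q)),
    vg_sub h (L.sm1 a c c b) (L.sm4 a c c b), vg_sub h (L.sm1 c b a c) (L.sm4 c b a c),
    vg_smul h (L.smr a c) (L.smg_r c b), vg_smul h (L.sms a c) (L.smg_s c b),
    vg_smul h (L.smr c b) (L.smg_r a c), vg_smul h (L.sms c b) (L.smg_s a c),
    vg_mgrad h (L.smr c b), vg_mgrad h (L.sms c b), vg_mgrad h (L.smr a c), vg_mgrad h (L.sms a c)]
  simp only [Crest.Agent.R249.Sg129.dM, gmat, Matrix.of_apply]
  ring

/-- germ of `[q, dq]`, imaginary part. -/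
theorem g_AI (L : LD n M N) (k : Fin n) :
    gvec z e L.AI k =
      (gmat (n := n) z L.r * dM (h.frameOf.D k) (gmat (n := n) z L.s) +
        gmat (n := n) z L.s * dM (h.frameOf.D k) (gmat (n := n) z L.r)) -
      (dM (h.frameOf.D k) (gmat (n := n) z L.r) * gmat (n := n) z L.s +
        dM (h.frameOf.D k) (gmat (n := n) z L.s) * gmat (n := n) z L.r) := by
  ext a b
  have e0 : vg z e (L.AI a b) k = ∑ c, vg z e (fun q =>
      ((L.r a c q • mgrad n (L.s c b) q + L.s a c q • mgrad n (L.r c b) q) -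
      (L.s c b q • mgrad n (L.r a c) q + L.r c b q • mgrad n (L.s a c) q))) k :=
    vg_sum h Finset.univ (F := fun c q =>
      ((L.r a c q • mgrad n (L.s c b) q + L.s a c q • mgrad n (L.r c b) q) -
      (L.s c b q • mgrad n (L.r a c) q + L.r c b q • mgrad n (L.s a c) q)))
      (fun c q => L.smAIt a b c q) k
  show vg z e (L.AI a b) k = _
  rw [e0]
  simp only [Matrix.sub_apply, Matrix.add_apply, Matrix.mul_apply]
  rw [← Finset.sum_add_distrib, ← Finset.sum_add_distrib, ← Finset.sum_sub_distrib]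
  refine Finset.sum_congr rfl fun c _ => ?_
  rw [vg_sub h (X := fun q => L.r a c q • mgrad n (L.s c b) q + L.s a c q • mgrad n (L.r c b) q)
    (Y := fun q => L.s c b q • mgrad n (L.r a c) q + L.r c b q • mgrad n (L.s a c) q)
    (fun q => (L.sm2 a c c b q).add (L.sm3 a c c b q))
    (fun q => (L.sm3 c b a c q).add (L.sm2 c b a c q)),
    vg_add h (L.sm2 a c c b) (L.sm3 a c c b), vg_add h (L.sm3 c b a c) (L.sm2 c b a c),
    vg_smul h (L.smr a c) (L.smg_s c b), vg_smul h (L.sms a c) (L.smg_r c b),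
    vg_smul h (L.sms c b) (L.smg_r a c), vg_smul h (L.smr c b) (L.smg_s a c),
    vg_mgrad h (L.smr c b), vg_mgrad h (L.sms c b), vg_mgrad h (L.smr a c), vg_mgrad h (L.sms a c)]
  simp only [Crest.Agent.R249.Sg129.dM, gmat, Matrix.of_apply]
  ring

/-- germ of the projection of the tensor product. -/
theorem g_pT (hJ : PJ D J) (L : LD n M N) (z : M) :
    gmat (n := n) z (pT D J L) = Phi (gmat (n := n) z D.p) (gmat (n := n) z J) (gmat (n := n) z L.r) (gmat (n := n) z L.s) := by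
  ext x y
  show fg (n := n) z (pT D J L x y) = fg (n := n) z (D.p x.1 y.1) * fg (n := n) z (L.r x.2 y.2) +
    fg (n := n) z (J x.1 y.1) * fg (n := n) z (L.s x.2 y.2)
  rw [← fg_mul (D.smp _ _) (L.smr _ _), ← fg_mul (hJ.sm _ _) (L.sms _ _)]
  exact fg_add ((D.smp x.1 y.1).mul (L.smr x.2 y.2)) ((hJ.sm x.1 y.1).mul (L.sms x.2 y.2))

include h in
/-- germ of the connection form of the tensor product. -/
theorem g_WT (hJ : PJ D J) (L : LD n M N) (k : Fin n) :
    gvec z e (WT D J L) k = gvec z e D.W k ⊗ₖ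
      (1 : Matrix (Fin N) (Fin N) (SG (chartCentre n M z))) +
      Phi (gmat (n := n) z D.p) (gmat (n := n) z J) (gvec z e L.AR k) (gvec z e L.AI k) := by
  ext x y
  have s1 : ∀ q, VSm n ∞ (fun q => if x.2 = y.2 then D.W x.1 y.1 q else 0) q := fun q => by
    by_cases h : x.2 = y.2
    · simp only [h, if_true]; exact D.smW _ _ q
    · simp only [h, if_false]; exact VSm_zero q
  have s2 : ∀ q, VSm n ∞ (fun q => D.p x.1 y.1 q • L.AR x.2 y.2 q) q := fun q =>
    VSm.smul le_rfl (D.smp _ _ q) (L.smAR _ _ q)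
  have s3 : ∀ q, VSm n ∞ (fun q => J x.1 y.1 q • L.AI x.2 y.2 q) q := fun q =>
    VSm.smul le_rfl (hJ.sm _ _ q) (L.smAI _ _ q)
  have e1 : vg z e (WT D J L x y) k =
      vg z e (fun q => if x.2 = y.2 then D.W x.1 y.1 q else 0) k +
        vg z e (fun q => D.p x.1 y.1 q • L.AR x.2 y.2 q + J x.1 y.1 q • L.AI x.2 y.2 q) k :=
    vg_add h s1 (fun q => (s2 q).add (s3 q)) k
  show vg z e (WT D J L x y) k = vg z e (D.W x.1 y.1) k *
    (1 : Matrix (Fin N) (Fin N) (SG (chartCentre n M z))) x.2 y.2 +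
    (fg (n := n) z (D.p x.1 y.1) * vg z e (L.AR x.2 y.2) k +
      fg (n := n) z (J x.1 y.1) * vg z e (L.AI x.2 y.2) k)
  rw [e1, vg_add h s2 s3, vg_smul h (D.smp _ _) (L.smAR _ _), vg_smul h (hJ.sm _ _) (L.smAI _ _),
    Matrix.one_apply]
  congr 1
  by_cases hxy : x.2 = y.2
  · simp only [hxy, if_true, mul_one]
  · simp only [hxy, if_false, mul_zero]
    exact vg_zero h k

theorem LF.pj {ι : Type} [Fintype ι] [DecidableEq ι]
    {a : Fin n → Matrix ι ι (SG (chartCentre n M z))} {j : Matrix κ ι (SG (chartCentre n M z))}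
    (hL : LF D h a j) : gmat (n := n) z D.p * j = j := by
  have h1 : gmat (n := n) z D.p = j * jᵀ := hL.jjt.symm
  rw [h1, Matrix.mul_assoc, hL.jtj, Matrix.mul_one]

variable {L : LD n M N} {vr vi : Fin N → SG (chartCentre n M z)}

theorem USec.rg (U : USec L z vr vi) : gmat (n := n) z L.r = oo vr vr + oo vi vi := by
  ext k l
  exact (U.re k l).symm

theorem USec.sg (U : USec L z vr vi) : gmat (n := n) z L.s = oo vi vr - oo vr vi := by
  ext k l
  exact (U.im k l).symm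

theorem dM_oo {S : Type*} [CommRing S] [Algebra ℝ S] {ν : Type*} [Fintype ν]
    (δ : Derivation ℝ S S) (u v : ν → S) :
    dM δ (oo u v) = oo (fun k => δ (u k)) v + oo u (fun k => δ (v k)) := by
  ext k l
  show δ (u k * v l) = δ (u k) * v l + u k * δ (v l)
  rw [Derivation.leibniz, smul_eq_mul, smul_eq_mul]
  ring

theorem USec.hP (U : USec L z vr vi) : vr ⬝ᵥ vr + vi ⬝ᵥ vi = 1 := by
  rw [← U.one, Finset.sum_add_distrib]
  rfl

theorem USec.hB (U : USec L z vr vi) (δ : Derivation ℝ (SG (chartCentre n M z))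
    (SG (chartCentre n M z))) :
    vr ⬝ᵥ (fun k => δ (vr k)) + vi ⬝ᵥ (fun k => δ (vi k)) = 0 := by
  have h1 := congrArg δ U.one
  rw [Derivation.map_one_eq_zero, map_sum] at h1
  have h2 : ∀ k, δ (vr k * vr k + vi k * vi k) = 2 * (vr k * δ (vr k) + vi k * δ (vi k)) := by
    intro k
    rw [map_add, Derivation.leibniz, Derivation.leibniz]
    simp only [smul_eq_mul]
    ring
  simp only [h2, ← Finset.mul_sum, Finset.sum_add_distrib] at h1
  have h3 : (Frame.half : SG (chartCentre n M z)) * 2 = 1 := by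
    rw [mul_comm]
    exact Frame.two_half
  show ∑ k, vr k * δ (vr k) + ∑ k, vi k * δ (vi k) = 0
  calc ∑ k, vr k * δ (vr k) + ∑ k, vi k * δ (vi k) = (Frame.half * 2) *
      (∑ k, vr k * δ (vr k) + ∑ k, vi k * δ (vi k)) := by rw [h3, one_mul]
    _ = Frame.half * (2 * (∑ k, vr k * δ (vr k) + ∑ k, vi k * δ (vi k))) := by ring
    _ = 0 := by rw [h1, mul_zero]

theorem alf_eq (k : Fin n) : alf h vr vi k =
    vr ⬝ᵥ (fun m => h.frameOf.D k (vi m)) - vi ⬝ᵥ (fun m => h.frameOf.D k (vr m)) := by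
  rw [alf, Finset.sum_sub_distrib]
  rfl

/-- covariant derivative of the unit section. -/
theorem USec.cov (U : USec L z vr vi) (k : Fin n) :
    ((fun m => h.frameOf.D k (vr m)) + (gvec z e L.AR k *ᵥ vr - gvec z e L.AI k *ᵥ vi) =
      -(alf h vr vi k • vi)) ∧
    ((fun m => h.frameOf.D k (vi m)) + (gvec z e L.AR k *ᵥ vi + gvec z e L.AI k *ᵥ vr) =
      alf h vr vi k • vr) := by
  rw [g_AR h L k, g_AI h L k, alf_eq h k]
  refine unit_alg vr vi _ _ U.hP (U.hB (h.frameOf.D k)) U.rg U.sg ?_ ?_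
  · rw [U.rg, Crest.Agent.R249.Sg129.dM_add, dM_oo, dM_oo]
  · rw [U.sg, Crest.Agent.R249.Sg129.dM_sub, dM_oo, dM_oo]

/-- **local frames of the twisted bundle**. -/
theorem lf_tw {ι : Type} [Fintype ι] [DecidableEq ι]
    {a : Fin n → Matrix ι ι (SG (chartCentre n M z))} {j : Matrix κ ι (SG (chartCentre n M z))}
    (hL : LF D h a j) (hJ : PJ D J) (U : USec L z vr vi) :
    LF (twB D J hJ L) h (fun k => a k + alf h vr vi k • (jᵀ * gmat (n := n) z J * j))
      (Psi (gmat (n := n) z J) j vr vi) where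
  jtj := by
    have h1 := Psi_tr_mul (p := gmat (n := n) z D.p) (J := gmat (n := n) z J) hL.jtj (LF.pj h hL) (g_Jt hJ z)
      (g_JJ hJ z) vr vi vr vi
    rw [h1, U.one, one_smul]
    have h2 : ∑ k, (vr k * vi k - vi k * vr k) = 0 :=
      Finset.sum_eq_zero fun k _ => by ring
    rw [h2, zero_smul, add_zero]
  jjt := by
    have hjj : j * jᵀ = gmat (n := n) z D.p := hL.jjt
    rw [Psi_mul_tr hjj (g_pJ hJ z) (g_Jp hJ z) (g_Jt hJ z) (g_JJ hJ z) vr vi]
    have h1 := g_pT hJ L z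
    rw [U.rg, U.sg] at h1
    exact h1.symm
  dj k := by
    have hjj : j * jᵀ = gmat (n := n) z D.p := hL.jjt
    have hd : dM (h.frameOf.D k) j = j * a k - gvec z e D.W k * j := eq_sub_of_add_eq (hL.dj k)
    have hdJj : dM (h.frameOf.D k) (gmat (n := n) z J * j) =
        gmat (n := n) z J * (j * a k) - gvec z e D.W k * (gmat (n := n) z J * j) := by
      rw [Crest.Agent.R249.Sg129.dM_mul, g_dJ h hJ k, hd, Matrix.mul_sub, Matrix.neg_mul, Matrix.sub_mul,
        Matrix.mul_assoc, Matrix.mul_assoc]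
      abel
    have e1 : dM (h.frameOf.D k) (Psi (gmat (n := n) z J) j vr vi) =
        Psi (gmat (n := n) z J) j (fun m => h.frameOf.D k (vr m)) (fun m => h.frameOf.D k (vi m)) +
          Psi (gmat (n := n) z J) j vr vi * a k -
          gvec z e D.W k ⊗ₖ (1 : Matrix (Fin N) (Fin N) (SG (chartCentre n M z))) *
            Psi (gmat (n := n) z J) j vr vi := by
      rw [kron_one_Psi, Psi_mul]
      ext x i
      have f1 : h.frameOf.D k (j x.1 i) = (j * a k - gvec z e D.W k * j) x.1 i :=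
        congrFun (congrFun hd x.1) i
      have f2 : h.frameOf.D k ((gmat (n := n) z J * j) x.1 i) =
          (gmat (n := n) z J * (j * a k) - gvec z e D.W k * (gmat (n := n) z J * j)) x.1 i :=
        congrFun (congrFun hdJj x.1) i
      show h.frameOf.D k (vr x.2 * j x.1 i + vi x.2 * (gmat (n := n) z J * j) x.1 i) =
        (h.frameOf.D k (vr x.2) * j x.1 i + h.frameOf.D k (vi x.2) * (gmat (n := n) z J * j) x.1 i) +
        (vr x.2 * (j * a k) x.1 i + vi x.2 * (gmat (n := n) z J * (j * a k)) x.1 i) -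
        (vr x.2 * (gvec z e D.W k * j) x.1 i + vi x.2 * (gvec z e D.W k * (gmat (n := n) z J * j)) x.1 i)
      rw [map_add, Derivation.leibniz, Derivation.leibniz, f1, f2]
      simp only [Matrix.sub_apply, smul_eq_mul]
      ring
    have e2 : (Matrix.of fun x y => vg z e ((twB D J hJ L).W x y) k) = gvec z e (WT D J L) k := rfl
    obtain ⟨c1, c2⟩ := U.cov h k
    rw [e2, g_WT h hJ L k, Matrix.add_mul, e1, Phi_Psi (LF.pj h hL) (g_pJ hJ z) (g_JJ hJ z),
      Matrix.mul_add, Matrix.mul_smul, Psi_mul_U hjj (g_pJ hJ z) (LF.pj h hL) (g_JJ hJ z)]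
    have e3 : Psi (gmat (n := n) z J) j (fun m => h.frameOf.D k (vr m)) (fun m => h.frameOf.D k (vi m)) +
        Psi (gmat (n := n) z J) j (gvec z e L.AR k *ᵥ vr - gvec z e L.AI k *ᵥ vi)
          (gvec z e L.AR k *ᵥ vi + gvec z e L.AI k *ᵥ vr) =
        alf h vr vi k • Psi (gmat (n := n) z J) j (-vi) vr := by
      rw [Psi_add, c1, c2]
      ext x i
      simp only [Psi_apply, Matrix.smul_apply, Pi.neg_apply, Pi.smul_apply, smul_eq_mul]
      ring
    rw [← e3]
    abel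

end local_

end Crest.Agent.R235.LTw_453
end
end

-- ▼ part R235/LTwD_453

/-!
Row 235, helper453, L-twist part D: the twisted Clifford pair.

* `ccTw J1 cc L` : the twisted symbol;
* `cloc_tw` : local form of the twisted pair at a point (same constant symbol `c`);
* `twP P hJ0 hJ1 hc L : CPair n M κ (κ0 × Fin N) (κ1 × Fin N)`;
* `ccTw_J` : the twisted symbol intertwines the complex structures `JT`.
-/

set_option autoImplicit false
set_option maxSynthPendingDepth 3
set_option linter.unusedSectionVars false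

open Filter Topology Set Bundle Manifold Matrix
open scoped ContDiff Kronecker
open Crest.GeometryTopology.CoordMetric Crest.GeometryTopology.ChartCurvature
  Crest.GeometryTopology.PointedLimit
open Crest.Agent.R202.Tens Crest.Agent.R247.Bo84 Crest.Agent.R249.FrmB_285 Crest.Agent.R249.Vf281
  Crest.Agent.R249.Tz1_805 Crest.Agent.R249.Tz2_805
open Crest.Agent.R249.Fr129 Crest.Agent.R249.C2_198
open Crest.Agent.R249.Sg129 hiding fg fg_add fg_sub fg_mul fg_const fg_sum ev_fg contMDiff_inner VSm_mCov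
open Crest.Agent.R249.Tz805
open Crest.Agent.R235.Ind167 (PJ PJ.pmul)

noncomputable section

namespace Crest.Agent.R235.LTw_453

variable {n : ℕ} {M : Type*} [TopologicalSpace M] [ChartedSpace (EuclideanSpace ℝ (Fin n)) M]
  [IsManifold 𝓘(ℝ, EuclideanSpace ℝ (Fin n)) ∞ M]
  [RiemannianBundle (fun x : M => TangentSpace 𝓘(ℝ, EuclideanSpace ℝ (Fin n)) x)]
  [IsContMDiffRiemannianBundle 𝓘(ℝ, EuclideanSpace ℝ (Fin n)) ∞ (EuclideanSpace ℝ (Fin n))
      (fun x : M => TangentSpace 𝓘(ℝ, EuclideanSpace ℝ (Fin n)) x)]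

local notation "𝔼" => EuclideanSpace ℝ (Fin n)
local notation "𝓘E" => 𝓘(ℝ, EuclideanSpace ℝ (Fin n))

variable {κ0 κ1 : Type} [Fintype κ0] [Fintype κ1] {N : ℕ}

/-- the twisted symbol. -/
def ccTw (J1 : κ1 → κ1 → M → ℝ)
    (cc : κ1 → κ0 → (p : M) → TangentSpace 𝓘(ℝ, EuclideanSpace ℝ (Fin n)) p) (L : LD n M N)
    (x : κ1 × Fin N) (y : κ0 × Fin N) (z : M) : TangentSpace 𝓘(ℝ, EuclideanSpace ℝ (Fin n)) z :=
  L.r x.2 y.2 z • cc x.1 y.1 z + L.s x.2 y.2 z • ∑ x', J1 x.1 x' z • cc x' y.1 z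

section cl

variable {D0 : Bun n M κ0} {D1 : Bun n M κ1} {J0 : κ0 → κ0 → M → ℝ} {J1 : κ1 → κ1 → M → ℝ}
  {cc : κ1 → κ0 → (p : M) → TangentSpace 𝓘(ℝ, EuclideanSpace ℝ (Fin n)) p} {L : LD n M N}

theorem smJcc (hJ1 : PJ D1 J1) (hcc : ∀ x y q, VSm n ∞ (cc x y) q) (x : κ1) (y : κ0) (q : M) :
    VSm n ∞ (fun q => ∑ x', J1 x x' q • cc x' y q) q :=
  VSm.sum Finset.univ fun c _ => VSm.smul le_rfl (hJ1.sm x c q) (hcc c y q)

theorem sm_ccTw (hJ1 : PJ D1 J1) (hcc : ∀ x y q, VSm n ∞ (cc x y) q) (L : LD n M N)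
    (x : κ1 × Fin N) (y : κ0 × Fin N) (q : M) : VSm n ∞ (ccTw J1 cc L x y) q :=
  (VSm.smul le_rfl (L.smr _ _ q) (hcc _ _ q)).add
    (VSm.smul le_rfl (L.sms _ _ q) (smJcc hJ1 hcc _ _ q))

variable {z : M} {e : Fin n → EuclideanSpace ℝ (Fin n) → EuclideanSpace ℝ (Fin n)}
  (h : ONF (chartMetric n M z) (chartAt (EuclideanSpace ℝ (Fin n)) z).target
      (chartCentre n M z) e)

include h in
theorem g_Jcc (hJ1 : PJ D1 J1) (hcc : ∀ x y q, VSm n ∞ (cc x y) q) (k : Fin n) (x : κ1) (y : κ0) :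
    vg z e (fun q => ∑ x', J1 x x' q • cc x' y q) k =
      (gmat (n := n) z J1 * Matrix.of fun x y => vg z e (cc x y) k) x y := by
  have h1 : vg z e (fun q => ∑ x', J1 x x' q • cc x' y q) k =
      ∑ x', vg z e (fun q => J1 x x' q • cc x' y q) k :=
    vg_sum h Finset.univ (F := fun x' q => J1 x x' q • cc x' y q)
      (fun c q => VSm.smul le_rfl (hJ1.sm x c q) (hcc c y q)) k
  rw [h1, Matrix.mul_apply]
  exact Finset.sum_congr rfl fun c _ => vg_smul h (hJ1.sm x c) (hcc c y) k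

include h in
theorem g_com (hJ0 : PJ D0 J0) (hJ1 : PJ D1 J1) (hcc : ∀ x y q, VSm n ∞ (cc x y) q)
    (hc : ∀ A y z, ∑ B, J1 A B z • cc B y z = ∑ x, J0 x y z • cc A x z) (k : Fin n) :
    gmat (n := n) z J1 * (Matrix.of fun x y => vg z e (cc x y) k) =
      (Matrix.of fun x y => vg z e (cc x y) k) * gmat (n := n) z J0 := by
  ext x y
  rw [← g_Jcc h hJ1 hcc k x y, Matrix.mul_apply]
  have e0 : (fun q => ∑ x', J1 x x' q • cc x' y q) = fun q => ∑ y', J0 y' y q • cc x y' q :=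
    funext fun q => hc x y q
  have h1 : vg z e (fun q => ∑ y', J0 y' y q • cc x y' q) k =
      ∑ y', vg z e (fun q => J0 y' y q • cc x y' q) k :=
    vg_sum h Finset.univ (F := fun y' q => J0 y' y q • cc x y' q)
      (fun c q => VSm.smul le_rfl (hJ0.sm c y q) (hcc x c q)) k
  rw [e0, h1]
  refine Finset.sum_congr rfl fun c _ => ?_
  rw [vg_smul h (hJ0.sm c y) (hcc x c) k, mul_comm]
  rfl

variable {vr vi : Fin N → SG (chartCentre n M z)}
  {ι0 ι1 : Type} [Fintype ι0] [DecidableEq ι0] [Fintype ι1] [DecidableEq ι1]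
  {a0 : Fin n → Matrix ι0 ι0 (SG (chartCentre n M z))}
  {a1 : Fin n → Matrix ι1 ι1 (SG (chartCentre n M z))}
  {c : Fin n → Matrix ι1 ι0 (SG (chartCentre n M z))}
  {j0 : Matrix κ0 ι0 (SG (chartCentre n M z))} {j1 : Matrix κ1 ι1 (SG (chartCentre n M z))}

/-- `c_i` commutes with the complex structures in the frames. -/
theorem c_com (hJ0 : PJ D0 J0) (hJ1 : PJ D1 J1) (hcc : ∀ x y q, VSm n ∞ (cc x y) q)
    (hc : ∀ A y z, ∑ B, J1 A B z • cc B y z = ∑ x, J0 x y z • cc A x z)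
    (C : CLoc D0 D1 cc h a0 a1 c j0 j1) (k : Fin n) :
    (j1ᵀ * gmat (n := n) z J1 * j1) * c k = c k * (j0ᵀ * gmat (n := n) z J0 * j0) := by
  have hs : j1 * c k * j0ᵀ = Matrix.of fun x y => vg z e (cc x y) k := by
    ext x y
    exact (C.sym x y k).symm
  have h1 := g_com h hJ0 hJ1 hcc hc k
  rw [← hs] at h1
  have h2 : j1ᵀ * (gmat (n := n) z J1 * (j1 * c k * j0ᵀ)) * j0 =
      j1ᵀ * (j1 * c k * j0ᵀ * gmat (n := n) z J0) * j0 := by rw [h1]
  have e1 : j1ᵀ * (gmat (n := n) z J1 * (j1 * c k * j0ᵀ)) * j0 =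
      (j1ᵀ * gmat (n := n) z J1 * j1) * c k * (j0ᵀ * j0) := by simp only [Matrix.mul_assoc]
  have e2 : j1ᵀ * (j1 * c k * j0ᵀ * gmat (n := n) z J0) * j0 =
      (j1ᵀ * j1) * c k * (j0ᵀ * gmat (n := n) z J0 * j0) := by simp only [Matrix.mul_assoc]
  rw [e1, e2, C.l0.jtj, C.l1.jtj, Matrix.mul_one, Matrix.one_mul] at h2
  exact h2

/-- **local form of the twisted pair**. -/
theorem cloc_tw (hJ0 : PJ D0 J0) (hJ1 : PJ D1 J1) (hcc : ∀ x y q, VSm n ∞ (cc x y) q)
    (hc : ∀ A y z, ∑ B, J1 A B z • cc B y z = ∑ x, J0 x y z • cc A x z)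
    (C : CLoc D0 D1 cc h a0 a1 c j0 j1) (U : USec L z vr vi) :
    CLoc (twB D0 J0 hJ0 L) (twB D1 J1 hJ1 L) (ccTw J1 cc L) h
      (fun k => a0 k + alf h vr vi k • (j0ᵀ * gmat (n := n) z J0 * j0))
      (fun k => a1 k + alf h vr vi k • (j1ᵀ * gmat (n := n) z J1 * j1)) c
      (Psi (gmat (n := n) z J0) j0 vr vi) (Psi (gmat (n := n) z J1) j1 vr vi) where
  l0 := lf_tw h C.l0 hJ0 U
  l1 := lf_tw h C.l1 hJ1 U
  cl0 := C.cl0
  cl1 := C.cl1
  par := by
    refine ⟨C.par.const, fun m i => ?_⟩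
    rw [Matrix.add_mul, Matrix.mul_add, C.par.par m i, Matrix.smul_mul, Matrix.mul_smul,
      c_com h hJ0 hJ1 hcc hc C i]
    abel
  sym x y k := by
    have hs : j1 * c k * j0ᵀ = Matrix.of fun x y => vg z e (cc x y) k := by
      ext x y
      exact (C.sym x y k).symm
    have hpc : gmat (n := n) z D1.p * (Matrix.of fun x y => vg z e (cc x y) k) =
        Matrix.of fun x y => vg z e (cc x y) k := by
      rw [← hs, ← Matrix.mul_assoc, ← Matrix.mul_assoc, LF.pj h C.l1]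
    have h0 := congrFun (congrFun (Psi_c_Psi (p1 := gmat (n := n) z D1.p) hs (g_Jt hJ0 z)
      (g_com h hJ0 hJ1 hcc hc k) (g_JJ hJ1 z) hpc vr vi) x) y
    have h0' : (Psi (gmat (n := n) z J1) j1 vr vi * c k *
        (Psi (gmat (n := n) z J0) j0 vr vi)ᵀ) x y =
        (vr x.2 * vr y.2 + vi x.2 * vi y.2) * vg z e (cc x.1 y.1) k +
        (vi x.2 * vr y.2 - vr x.2 * vi y.2) *
          (gmat (n := n) z J1 * Matrix.of fun x y => vg z e (cc x y) k) x.1 y.1 := h0
    rw [h0', U.re, U.im, ← g_Jcc h hJ1 hcc k x.1 y.1]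
    have s1 : ∀ q, VSm n ∞ (fun q => L.r x.2 y.2 q • cc x.1 y.1 q) q := fun q =>
      VSm.smul le_rfl (L.smr _ _ q) (hcc _ _ q)
    have s2 : ∀ q, VSm n ∞ (fun q => L.s x.2 y.2 q • ∑ x', J1 x.1 x' q • cc x' y.1 q) q := fun q =>
      VSm.smul le_rfl (L.sms _ _ q) (smJcc hJ1 hcc _ _ q)
    have h1 : vg z e (ccTw J1 cc L x y) k = vg z e (fun q => L.r x.2 y.2 q • cc x.1 y.1 q) k +
        vg z e (fun q => L.s x.2 y.2 q • ∑ x', J1 x.1 x' q • cc x' y.1 q) k := vg_add h s1 s2 k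
    rw [h1, vg_smul h (L.smr _ _) (hcc _ _), vg_smul h (L.sms _ _) (smJcc hJ1 hcc _ _)]

end cl

/-- **the twisted Clifford pair**. -/
def twP {κ : Type} [Fintype κ] (P : CPair n M κ κ0 κ1) {J0 : κ0 → κ0 → M → ℝ}
    {J1 : κ1 → κ1 → M → ℝ} (hJ0 : PJ P.D0 J0) (hJ1 : PJ P.D1 J1)
    (hc : ∀ A y z, ∑ B, J1 A B z • P.cc B y z = ∑ x, J0 x y z • P.cc A x z) (L : LD n M N) :
    CPair n M κ (κ0 × Fin N) (κ1 × Fin N) where
  s := P.s
  D0 := twB P.D0 J0 hJ0 L
  D1 := twB P.D1 J1 hJ1 L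
  cc := ccTw J1 P.cc L
  smc := sm_ccTw hJ1 P.smc L
  loc z := by
    obtain ⟨e, h, ι0, ι1, i1, i2, i3, i4, a0, a1, c, j0, j1, C⟩ := P.loc z
    obtain ⟨vr, vi, U⟩ := exists_usec L z
    exact ⟨e, h, ι0, ι1, i1, i2, i3, i4, _, _, c, _, _, cloc_tw h hJ0 hJ1 P.smc hc C U⟩
  sym0 y y' z := by
    obtain ⟨e, h, ι0, ι1, i1, i2, i3, i4, a0, a1, c, j0, j1, C⟩ := P.loc z
    obtain ⟨vr, vi, U⟩ := exists_usec L z
    exact R249.HK9_714.potQ_symm0 P.s (sm_ccTw hJ1 P.smc L)
      (cloc_tw h hJ0 hJ1 P.smc hc C U) y y'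
  sym1 x x' z := by
    obtain ⟨e, h, ι0, ι1, i1, i2, i3, i4, a0, a1, c, j0, j1, C⟩ := P.loc z
    obtain ⟨vr, vi, U⟩ := exists_usec L z
    exact R249.HK9_714.potQ_symm1 P.s (sm_ccTw hJ1 P.smc L)
      (cloc_tw h hJ0 hJ1 P.smc hc C U) x x'

section com

variable {D0 : Bun n M κ0} {D1 : Bun n M κ1} {J0 : κ0 → κ0 → M → ℝ} {J1 : κ1 → κ1 → M → ℝ}
  {cc : κ1 → κ0 → (p : M) → TangentSpace 𝓘(ℝ, EuclideanSpace ℝ (Fin n)) p}

theorem zero_of_vg {z : M} {e : Fin n → EuclideanSpace ℝ (Fin n) → EuclideanSpace ℝ (Fin n)}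
    (h : ONF (chartMetric n M z) (chartAt (EuclideanSpace ℝ (Fin n)) z).target
      (chartCentre n M z) e) {X : (p : M) → TangentSpace 𝓘(ℝ, EuclideanSpace ℝ (Fin n)) p}
    (hX : ∀ q, VSm n ∞ X q) (h0 : ∀ k, vg z e X k = 0) : X z = 0 := by
  have h1 := fg_inner h hX hX
  have h2 : ∑ k, vg z e X k * vg z e X k = 0 := Finset.sum_eq_zero fun k _ => by
    rw [h0 k, mul_zero]
  rw [h2] at h1
  have h3 := ev_fg (n := n) (z := z) (Crest.Agent.R249.Sg129.contMDiff_inner hX hX)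
  rw [h1, map_zero] at h3
  exact inner_self_eq_zero.1 h3.symm

/-- the symbol takes values in the second bundle. -/
theorem p1_cc {z : M} {e : Fin n → EuclideanSpace ℝ (Fin n) → EuclideanSpace ℝ (Fin n)}
    {h : ONF (chartMetric n M z) (chartAt (EuclideanSpace ℝ (Fin n)) z).target
      (chartCentre n M z) e}
    {ι0 ι1 : Type} [Fintype ι0] [DecidableEq ι0] [Fintype ι1] [DecidableEq ι1]
    {a0 : Fin n → Matrix ι0 ι0 (SG (chartCentre n M z))}
    {a1 : Fin n → Matrix ι1 ι1 (SG (chartCentre n M z))}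
    {c : Fin n → Matrix ι1 ι0 (SG (chartCentre n M z))}
    {j0 : Matrix κ0 ι0 (SG (chartCentre n M z))} {j1 : Matrix κ1 ι1 (SG (chartCentre n M z))}
    (C : CLoc D0 D1 cc h a0 a1 c j0 j1) (hcc : ∀ x y q, VSm n ∞ (cc x y) q) (x : κ1) (y : κ0) :
    ∑ x', D1.p x x' z • cc x' y z = cc x y z := by
  have s1 : ∀ q, VSm n ∞ (fun q => ∑ x', D1.p x x' q • cc x' y q) q := fun q =>
    VSm.sum Finset.univ fun c _ => VSm.smul le_rfl (D1.smp x c q) (hcc c y q)
  have h1 := zero_of_vg h (X := fun q => ∑ x', D1.p x x' q • cc x' y q - cc x y q)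
    (fun q => (s1 q).sub' (hcc x y q)) (fun k => by
      rw [vg_sub h s1 (hcc x y), vg_sum h Finset.univ (F := fun x' q => D1.p x x' q • cc x' y q)
        (fun c q => VSm.smul le_rfl (D1.smp x c q) (hcc c y q))]
      have hs : j1 * c k * j0ᵀ = Matrix.of fun x y => vg z e (cc x y) k := by
        ext x y
        exact (C.sym x y k).symm
      have hpc : gmat (n := n) z D1.p * (Matrix.of fun x y => vg z e (cc x y) k) =
          Matrix.of fun x y => vg z e (cc x y) k := by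
        rw [← hs, ← Matrix.mul_assoc, ← Matrix.mul_assoc, LF.pj h C.l1]
      have h2 := congrFun (congrFun hpc x) y
      rw [Matrix.mul_apply] at h2
      have h3 : ∑ x', vg z e (fun q => D1.p x x' q • cc x' y q) k = vg z e (cc x y) k := by
        refine Eq.trans (Finset.sum_congr rfl fun c _ => ?_) h2
        exact vg_smul h (D1.smp x c) (hcc c y) k
      rw [h3, sub_self])
  exact sub_eq_zero.1 h1

/-- **the twisted symbol intertwines the complex structures**. -/
theorem ccTw_J (hJ0 : PJ D0 J0) (hJ1 : PJ D1 J1)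
    (hp : ∀ x y z, ∑ x', D1.p x x' z • cc x' y z = cc x y z)
    (hc : ∀ A y z, ∑ B, J1 A B z • cc B y z = ∑ x, J0 x y z • cc A x z) (L : LD n M N)
    (A : κ1 × Fin N) (y : κ0 × Fin N) (z : M) :
    ∑ B, JT D1 J1 L A B z • ccTw J1 cc L B y z = ∑ x, JT D0 J0 L x y z • ccTw J1 cc L A x z := by
  refine ext_inner_right ℝ fun v => ?_
  rw [sum_inner, sum_inner]
  simp only [real_inner_smul_left]
  set Am : Matrix κ1 κ0 ℝ := fun x y => inner ℝ (cc x y z) v with hAm
  set j0 := LD.vm J0 z with hj0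
  set j1 := LD.vm J1 z with hj1
  set p0 := LD.vm D0.p z with hp0
  set p1 := LD.vm D1.p z with hp1
  set r := LD.vm L.r z with hr
  set s := LD.vm L.s z with hs
  have q1 : j1 * j1 = - p1 := mat_JJ hJ1 z
  have q0 : j0 * j0 = - p0 := mat_JJ hJ0 z
  have q2 : p1 * j1 = j1 := mat_pJ hJ1 z
  have f1 : p1 * Am = Am := by
    ext x y
    have h1 := congrArg (fun u => inner ℝ u v) (hp x y z)
    simp only [sum_inner, real_inner_smul_left] at h1
    exact h1
  have f2 : j1 * Am = Am * j0 := by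
    ext x y
    have h1 := congrArg (fun u => inner ℝ u v) (hc x y z)
    simp only [sum_inner, real_inner_smul_left] at h1
    rw [Matrix.mul_apply, Matrix.mul_apply]
    refine h1.trans (Finset.sum_congr rfl fun c _ => mul_comm _ _)
  have f3 : Am * p0 = Am := by
    have h1 : Am * (j0 * j0) = - Am := by
      rw [← Matrix.mul_assoc, ← f2, Matrix.mul_assoc, ← f2, ← Matrix.mul_assoc, q1,
        Matrix.neg_mul, f1]
    rw [q0, Matrix.mul_neg] at h1
    exact neg_injective h1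
  have e1 : ∀ x y, inner ℝ (ccTw J1 cc L x y z) v = (Am ⊗ₖ r + (j1 * Am) ⊗ₖ s) x y := by
    intro x y
    have e0 : (j1 * Am) x.1 y.1 = ∑ x', J1 x.1 x' z * inner ℝ (cc x' y.1 z) v := rfl
    rw [Matrix.add_apply, kroneckerMap_apply, kroneckerMap_apply, e0, ccTw, inner_add_left,
      real_inner_smul_left, real_inner_smul_left, sum_inner]
    simp only [real_inner_smul_left]
    show r x.2 y.2 * Am x.1 y.1 + s x.2 y.2 * _ = _
    ring
  simp only [e1]
  have g1 : Phi p1 j1 (-s) r * (Am ⊗ₖ r + (j1 * Am) ⊗ₖ s) =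
      (j1 * Am) ⊗ₖ (r * r - s * s) - Am ⊗ₖ (r * s + s * r) := by
    rw [Phi, Matrix.add_mul, Matrix.mul_add, Matrix.mul_add, ← mul_kronecker_mul,
      ← mul_kronecker_mul, ← mul_kronecker_mul, ← mul_kronecker_mul, f1, ← Matrix.mul_assoc p1,
      q2, ← Matrix.mul_assoc j1, q1, Matrix.neg_mul p1, f1]
    ext a b
    simp only [Matrix.add_apply, Matrix.sub_apply, Matrix.neg_apply, kroneckerMap_apply,
      Matrix.neg_mul]
    ring
  have g2 : (Am ⊗ₖ r + (j1 * Am) ⊗ₖ s) * Phi p0 j0 (-s) r =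
      (j1 * Am) ⊗ₖ (r * r - s * s) - Am ⊗ₖ (r * s + s * r) := by
    have f4 : j1 * Am * p0 = j1 * Am := by rw [Matrix.mul_assoc, f3]
    have f5 : j1 * Am * j0 = - Am := by
      rw [Matrix.mul_assoc, ← f2, ← Matrix.mul_assoc, q1, Matrix.neg_mul, f1]
    rw [Phi, Matrix.mul_add, Matrix.add_mul, Matrix.add_mul, ← mul_kronecker_mul,
      ← mul_kronecker_mul, ← mul_kronecker_mul, ← mul_kronecker_mul, f3, f4, f5, ← f2]
    ext a b
    simp only [Matrix.add_apply, Matrix.sub_apply, Matrix.neg_apply, kroneckerMap_apply,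
      Matrix.mul_neg]
    ring
  have h1 := congrFun (congrFun (g1.trans g2.symm) A) y
  rw [Matrix.mul_apply, Matrix.mul_apply] at h1
  refine Eq.trans (Finset.sum_congr rfl fun B _ => ?_) (h1.trans
    (Finset.sum_congr rfl fun B _ => ?_))
  · rfl
  · exact mul_comm _ _

end com

end Crest.Agent.R235.LTw_453
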