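import Crest.Agent.R235.MdlL_453
import Crest.Agent.R235.SwsL_755
import Crest.Agent.R235.SwcProd_215
import Crest.Agent.R235.SWLnkB_451
import Crest.Agent.R235.SWTn_451
import Crest.Agent.R235.TauH_483
import Crest.Agent.R235.TauIso_470
import Crest.Agent.R235.Mdl3B_399
import Crest.Agent.R235.SWJF_451
import Crest.Agent.R235.SWData_451
import Crest.Agent.R235.MdlS_344
import Crest.Agent.R235.MdlJ2_399
import Crest.Agent.R235.SWGeo_659
import Crest.Agent.R235.Uu_291
import Crest.Agent.R235.TauT2_483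

-- ▼ part R235/MdlL2_453
section

/-!
Row 235, helper453: `Tws` for 755's system `SL T q s L` (any `L` with `r = Re p`, `s = Im p`,
e.g. `LTwLd_774.ldOf p hp`).
-/

set_option autoImplicit false
set_option maxSynthPendingDepth 3
set_option linter.unusedSectionVars false

open scoped ContDiff ENNReal NNReal Topology Manifold Bundle RealInnerProductSpace
open MeasureTheory Set Filter Metric Bundle Matrix

universe v

namespace Crest.Agent.R235.MdlL_453

open Crest.Agent.R240 Crest.Agent.R240.Ch Crest.Agent.R235.SWDefs_53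
open Crest.Agent.R235.Ind167 (QS)
open Crest.Agent.R249.Tz805 (ToF CPair)
open Crest.Agent.R249.Tz2_805 (PF)
open Crest.Agent.R235.LTw_453 (LD)

noncomputable section

variable {M : Type v} [MetricSpace M] [CompactSpace M] [ConnectedSpace M]
  [ChartedSpace (EuclideanSpace ℝ (Fin 4)) M] [IsManifold (𝓡 4) ∞ M]
  [RiemannianBundle (fun p : M => TangentSpace (𝓡 4) p)]
  [IsContMDiffRiemannianBundle (𝓡 4) ∞ (EuclideanSpace ℝ (Fin 4))
    (fun p : M => TangentSpace (𝓡 4) p)]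
  [IsRiemannianManifold (𝓡 4) M] [MeasurableSpace M] [BorelSpace M]
  [SecondCountableTopology M] [Nonempty M]
  {κ : Type} [Fintype κ] {N : ℕ}

/-- **755's system of the twist has the twisted format** -/
theorem tws_SL (T : ToF 4 M) (q : QS M) (s : PF 4 M κ) {p : M → Matrix (Fin N) (Fin N) ℂ}
    (hp : IsLine p) (L : LD 4 M N) (hr : ∀ k l z, L.r k l z = (p z k l).re)
    (hs : ∀ k l z, L.s k l z = (p z k l).im) :
    Tws (SwsL_755.SL T q s L) p :=
  tws_swsQ T q s hp L hr hs (Mdl3_399.Hp T q s)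

/-- the same for `ldOf p hp`. -/
theorem tws_ldOf (T : ToF 4 M) (q : QS M) (s : PF 4 M κ) {p : M → Matrix (Fin N) (Fin N) ℂ}
    (hp : IsLine p) : Tws (SwsL_755.SL T q s (LTwLd_774.ldOf p hp)) p :=
  tws_SL T q s hp _ (fun _ _ _ => rfl) (fun _ _ _ => rfl)

end

end Crest.Agent.R235.MdlL_453
end

-- ▼ part R235/MdlX_399
section

/-!
Row 235 (S0364), MODX (helper399): the geometry half `SwcData` of `MODX`, from the properties of the
generic model.
-/
namespace Crest.Agent.R235.MdlX_399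
end Crest.Agent.R235.MdlX_399
end

-- ▼ part R235/MdlXu_399
section

/-!
Row 235 (S0364), MODX (helper399), part U: the uniform bounds (`|t| = 1`) of the family
`tauT S cc ww fE`, with `fE` = the curvature of the eigenline.
-/

set_option autoImplicit false
set_option maxSynthPendingDepth 3
set_option linter.unusedSectionVars false

open scoped ContDiff ENNReal NNReal Topology Manifold Bundle RealInnerProductSpace
open MeasureTheory Set Filter Metric Bundle Matrix

universe v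

namespace Crest.Agent.R235.MdlXu_399

open Crest.Agent.R240 Crest.Agent.R240.Ch Crest.Agent.R235 Crest.Agent.R235.SWDefs_53
open Crest.Agent.R235.IndTri_451 Crest.Agent.R235.Tau483 Crest.Agent.R235.TauJ
open Crest.Agent.R235.SWJF_451 Crest.Agent.R235.MdlX_399
open Crest.Agent.R249.Tv57 (Dat OpPair SmF SmV KerD)
open Crest.Agent.R249.Tz805 (ToF)
open Crest.Agent.R249.Vf281 (VSm)
open Crest.Agent.R235.SWTn_451 Crest.Agent.R235.SWTf_451 Crest.Agent.R235.SWTe_451

noncomputable section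

variable {M : Type v} [MetricSpace M] [CompactSpace M] [ConnectedSpace M]
  [ChartedSpace (EuclideanSpace ℝ (Fin 4)) M] [IsManifold (𝓡 4) ∞ M]
  [RiemannianBundle (fun p : M => TangentSpace (𝓡 4) p)]
  [IsContMDiffRiemannianBundle (𝓡 4) ∞ (EuclideanSpace ℝ (Fin 4))
    (fun p : M => TangentSpace (𝓡 4) p)]
  [IsRiemannianManifold (𝓡 4) M] [MeasurableSpace M] [BorelSpace M]
  [SecondCountableTopology M] [Nonempty M]
  {κ0 κ1 κT : Type} [Fintype κ0] [Fintype κ1] [Fintype κT]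

variable {S : SWS M κ0 κ1 κT} {T : ToF 4 M}
    {c : κ1 → κ0 → (z : M) → TangentSpace (𝓡 4) z}
    {W : κ0 → κ0 → (z : M) → TangentSpace (𝓡 4) z}
    {sT : κT → (z : M) → TangentSpace (𝓡 4) z} {w : Trip M} {e : Fin 3 → F2 E4 M}
    {ι : ℝ} {ww : Fin 3 → Fin 3 → M → ℝ} {cE : E3 → Z2 M}

variable (S T c ww) in
/-- the family without curvature. -/
def tau0 (t : E3) : TD M κT := tauT S (fun x y z => T.toF z (c x y z)) ww (fun _ _ _ => 0) t





theorem jf_sh (H : SWSym_451.Sym S fun x y z => T.toF z (c x y z))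
    (h : TG S T c W sT w e (-1) ι) (hc : ∀ x y z, VSm 4 ∞ (c x y) z) (hL : LT ww)
    (hs : ∀ i k, ContMDiff (𝓡 4) 𝓘(ℝ, ℝ) ∞ (ww i k)) (A : κT) :
    JF fun t => (tau0 S T c ww t).sh A :=
  jf_shf H h hc (jf_rrt hL hs) (fun _ ht z => hL.pos ht z)
    (fun a b => jf_Pr H (m := fun t k z => - nt ww t k z) (fun k => (jf_nt hL hs k).neg) a b) A








/-! ### the bounds -/





/-! ### `TC`, `WT`, continuity of the curvature, `TD.OK` -/




variable [IsFiniteMeasureOnCompacts (μHE[4] : Measure M)]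


end

end Crest.Agent.R235.MdlXu_399
end

-- ▼ part R235/MdlXs_399
section

/-!
Row 235 (S0364), MODX / generic model (helper399): THE CONCRETE INSTANCE of 451's `Hyp` : the system
of the triple twisted by a line bundle `p`, with the Chern forms `cE t` of the eigenlines, `t ≠ 0`.
-/

set_option autoImplicit false
set_option maxSynthPendingDepth 3
set_option linter.unusedSectionVars false

open scoped ContDiff ENNReal NNReal Topology Manifold Bundle RealInnerProductSpace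
open MeasureTheory Set Filter Metric Bundle Matrix

universe v

namespace Crest.Agent.R235.MdlXs_399

open Crest.Agent.R240 Crest.Agent.R240.Ch Crest.Agent.R235 Crest.Agent.R235.SWDefs_53
open Crest.Agent.R235.IndTri_451 Crest.Agent.R235.Tau483 Crest.Agent.R235.TauJ
open Crest.Agent.R249.Tv57 (Dat OpPair SmF SmV KerD)
open Crest.Agent.R249.Tz805 (ToF CPair)
open Crest.Agent.R249.Tz2_805 (PF)
open Crest.Agent.R249.Vf281 (VSm)
open Crest.Agent.R249.Wk352 (dat0 dpair swapP)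
open Crest.Agent.R235.SWTn_451 Crest.Agent.R235.SWTf_451 Crest.Agent.R235.SWTe_451
open Crest.Agent.R235.Ind167 (QS)
open Crest.Agent.R235.LTw_453 Crest.Agent.R235.Mdl3_399 Crest.Agent.R235.SWData_451
open Crest.Agent.R235.SwsQ_755

noncomputable section

variable {M : Type v} [MetricSpace M] [CompactSpace M] [ConnectedSpace M]
  [ChartedSpace (EuclideanSpace ℝ (Fin 4)) M] [IsManifold (𝓡 4) ∞ M]
  [RiemannianBundle (fun p : M => TangentSpace (𝓡 4) p)]
  [IsContMDiffRiemannianBundle (𝓡 4) ∞ (EuclideanSpace ℝ (Fin 4))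
    (fun p : M => TangentSpace (𝓡 4) p)]
  [IsRiemannianManifold (𝓡 4) M] [MeasurableSpace M] [BorelSpace M]
  [SecondCountableTopology M] [Nonempty M]
  {κ : Type} [Fintype κ] {N : ℕ}

variable (T : ToF 4 M) (s : PF 4 M κ) {w : Trip M} {e : Fin 3 → F2 E4 M}
  (tri : IsTri (fun i => (w i).1.1) e)
  (hin : ∀ (x : M) (u v : TangentSpace (𝓡 4) x), inner ℝ u v = at2 (gg e) x u v)
  {p : M → Matrix (Fin N) (Fin N) ℂ} (hp : IsLine p)

/-- the quaternionic structure. -/
abbrev qX : QS M := QSTri_451.qs tri hin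

/-- the Clifford pair of `W⁺ ⊗ L → W⁻ ⊗ L`. -/
abbrev pX : CPair 4 M κ (Fin 4 × Fin N) (κ × Fin N) := twZ (qX tri hin) s (LTwLd_774.ldOf p hp)

/-- **THE SYSTEM** of the triple and the line bundle. -/
def SX : SWS M (Fin 4 × Fin N) (κ × Fin N) κ :=
  swsQ T (pX s tri hin hp) (J0Z (qX tri hin) s (LTwLd_774.ldOf p hp)) (KtZ M (LTwLd_774.ldOf p hp))
    (Hp T (qX tri hin) s)

theorem ok : (SX T s tri hin hp).OK := MdlS_344.okZ T (qX tri hin) s (LTwLd_774.ldOf p hp)

theorem tws : MdlL_453.Tws (SX T s tri hin hp) p := MdlL_453.tws_ldOf T (qX tri hin) s hp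

theorem sym : SWSym_451.Sym (SX T s tri hin hp) (fun x y z => T.toF z ((pX s tri hin hp).cc x y z)) :=
  SwsL_755.sym_L T (qX tri hin) s (LTwLd_774.ldOf p hp)

theorem tg : TG (SX T s tri hin hp) T (pX s tri hin hp).cc (pX s tri hin hp).D0.W s.s w e (-1) (-1) :=
  SwsL_755.tg_L T s (LTwLd_774.ldOf p hp) tri hin

theorem harm (i : Fin 3) (x : κ) (z : M) :
    (SX T s tri hin hp).H.A (Fin.cons (fun _ => 0) (wwf (fun i => (w i).1.1) e i)) x z = 0 := by
  have h1 : wwf (fun i => ((w i).1.1 : F2 E4 M)) e i = ww (fun i => ((w i).1.1 : F2 E4 M)) e i := by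
    funext k z
    unfold wwf ww qG q
    rw [W_comm]
  rw [h1]
  exact Hp_harm T s tri hin (fun i => (w i).2) i x z

/-- `n_t`, `ρ_t` without the curvature. -/
abbrev t0 (t : E3) : TD M κ :=
  tau0 (SX T s tri hin hp) T (pX s tri hin hp).cc (wwf (fun i => (w i).1.1) e) t


/-- **the isometry `V_t : L → E_t`, `t ≠ 0`**. -/
theorem exists_VI {t : E3} (ht : t ≠ 0) :
    ∃ V : M → Matrix (Fin 4 × Fin N) (Fin N) ℂ,
      MdlB_489.VI p (PEf (t0 T s tri hin hp t) (SX T s tri hin hp)) V := by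
  have hL : LT (wwf (fun i => ((w i).1.1 : F2 E4 M)) e) := lt_wwf tri
  have hsm : ∀ i k, ContMDiff (𝓡 4) 𝓘(ℝ, ℝ) ∞ (wwf (fun i => ((w i).1.1 : F2 E4 M)) e i k) :=
    fun i k => cm_wwf (fun i => ⟨(w i).1.2.1, (w i).1.2.2⟩) tri i k
  have ht' : (fun i => t i) ≠ 0 := fun h0 => ht (by ext i; exact congrFun h0 i)
  obtain ⟨k0, r, hr, hpos⟩ := VIso_470.exists_sign (ww := wwf (fun i => ((w i).1.1 : F2 E4 M)) e)
    (fun i => (hsm i i).continuous) (fun i z => hL.diag i z) (fun i j z hij => hL.lt i j z hij)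
    ht' (rr := (t0 T s tri hin hp t).rr) (fun z => hL.pos ht z)
    (n := (t0 T s tri hin hp t).n) (fun k z => hL.mul_nt ht k z)
  exact (tws T s tri hin hp).exists_VI hp (τ := t0 T s tri hin hp t)
    (fun k => smooth_nt hL hsm ht k) (fun z => hL.norm_nt ht z) k0 (s := -r)
    (by rw [neg_sq, hr]) fun z => by
      have := hpos z
      rw [neg_mul]
      linarith

variable [IsFiniteMeasureOnCompacts (μHE[4] : Measure M)]

theorem exists_cE {a : Z2 M} (ha : IsChern p a) {t : E3} (ht : t ≠ 0) :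
    ∃ c : Z2 M, Ch0 (PEf (t0 T s tri hin hp t) (SX T s tri hin hp)) c ∧ cls c = cls a := by
  obtain ⟨V, hV⟩ := exists_VI T s tri hin hp ht
  have hL : LT (wwf (fun i => ((w i).1.1 : F2 E4 M)) e) := lt_wwf tri
  have hsm : ∀ i k, ContMDiff (𝓡 4) 𝓘(ℝ, ℝ) ∞ (wwf (fun i => ((w i).1.1 : F2 E4 M)) e i k) :=
    fun i k => cm_wwf (fun i => ⟨(w i).1.2.1, (w i).1.2.2⟩) tri i k
  have hln := ln_PEf (T := T) (cc := (pX s tri hin hp).cc) (ok T s tri hin hp)
    (tg T s tri hin hp) (τ := t0 T s tri hin hp t) (fun k => smooth_nt hL hsm ht k)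
    (fun z => hL.norm_nt ht z)
  exact TauIso.iso_chern ⟨hp.smooth, hp.idem, hp.herm, hp.rank⟩ hln ha hV.sm hV.vv hV.vv'

/-- the Chern forms. -/
def cX {a : Z2 M} (ha : IsChern p a) (t : E3) : Z2 M :=
  if ht : t ≠ 0 then (exists_cE T s tri hin hp ha ht).choose else 0

theorem cX_ch {a : Z2 M} (ha : IsChern p a) {t : E3} (ht : t ≠ 0) :
    Ch0 (PEf (t0 T s tri hin hp t) (SX T s tri hin hp)) (cX T s tri hin hp ha t) := by
  unfold cX
  rw [dif_pos ht]
  exact (exists_cE T s tri hin hp ha ht).choose_spec.1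

theorem cX_cls {a : Z2 M} (ha : IsChern p a) {t : E3} (ht : t ≠ 0) :
    cls (cX T s tri hin hp ha t) = cls a := by
  unfold cX
  rw [dif_pos ht]
  exact (exists_cE T s tri hin hp ha ht).choose_spec.2

/-- **451's `Hyp`** for the system of the triple and the line bundle. -/
theorem hyp {a : Z2 M} (ha : IsChern p a) :
    Hyp (SX T s tri hin hp) T (pX s tri hin hp).cc (pX s tri hin hp).D0.W s.s w e (-1) (-1)
      (wwf (fun i => (w i).1.1) e) (cX T s tri hin hp ha) where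
  tg := tg T s tri hin hp
  sym := sym T s tri hin hp
  smc := (pX s tri hin hp).smc
  lt := lt_wwf tri
  smw i k := cm_wwf (fun i => ⟨(w i).1.2.1, (w i).1.2.2⟩) tri i k
  ch _ ht := cX_ch T s tri hin hp ha ht

/-- **THE FAMILY OF TAUBES DATA.** -/
abbrev tX {a : Z2 M} (ha : IsChern p a) (t : E3) : TD M κ :=
  tauF (SX T s tri hin hp) T (pX s tri hin hp).cc (pX s tri hin hp).D0.W s.s w e (-1)
    (wwf (fun i => (w i).1.1) e) (cX T s tri hin hp ha) t



end

end Crest.Agent.R235.MdlXs_399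
end

-- ▼ part R235/SWOk_451
section

/-!
Row 235 (S0364), PACKAGE SW (helper451): the properties `TD.OK` of the family `tauF` of `SWData_451`,
from the second identity `T2` (helper483).
-/

set_option autoImplicit false
set_option maxSynthPendingDepth 3
set_option linter.unusedSectionVars false

open scoped ContDiff ENNReal NNReal Topology Manifold Bundle RealInnerProductSpace
open MeasureTheory Set Filter Metric Bundle

universe v

namespace Crest.Agent.R235.SWOk_451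

open Crest.Agent.R240 Crest.Agent.R240.Ch Crest.Agent.R235 Crest.Agent.R235.SWDefs_53
open Crest.Agent.R235.IndTri_451 Crest.Agent.R235.SWTn_451 Crest.Agent.R235.TauJ
open Crest.Agent.R235.SWTf_451 Crest.Agent.R235.SWTe_451 Crest.Agent.R235.SWTd_451
open Crest.Agent.R235.SWJF_451 Crest.Agent.R235.SWData_451
open Crest.Agent.R235.Tau483 (TG TE TC WT bF fld Jm PEf Ch0 PhiF Phi)
open Crest.Agent.R249.Tv57 (Dat OpPair SmF SmV)
open Crest.Agent.R249.Tz805 (ToF)
open Crest.Agent.R249.Vf281 (VSm)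
open Crest.Agent.R247.Ms322 (Gr)

noncomputable section

variable {M : Type v} [MetricSpace M] [CompactSpace M] [ConnectedSpace M]
  [ChartedSpace (EuclideanSpace ℝ (Fin 4)) M] [IsManifold (𝓡 4) ∞ M]
  [RiemannianBundle (fun p : M => TangentSpace (𝓡 4) p)]
  [IsContMDiffRiemannianBundle (𝓡 4) ∞ (EuclideanSpace ℝ (Fin 4))
    (fun p : M => TangentSpace (𝓡 4) p)]
  [IsRiemannianManifold (𝓡 4) M] [MeasurableSpace M] [BorelSpace M]
  [SecondCountableTopology M] [Nonempty M] [IsFiniteMeasureOnCompacts (μHE[4] : Measure M)]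
  {κ0 κ1 κT : Type} [Fintype κ0] [Fintype κ1] [Fintype κT]
  {S : SWS M κ0 κ1 κT} {T : ToF 4 M}
    {c : κ1 → κ0 → (z : M) → TangentSpace (𝓡 4) z}
    {W : κ0 → κ0 → (z : M) → TangentSpace (𝓡 4) z}
    {sT : κT → (z : M) → TangentSpace (𝓡 4) z} {w : Trip M} {e : Fin 3 → F2 E4 M}
    {σ ι : ℝ} {ww : Fin 3 → Fin 3 → M → ℝ} {cE : E3 → Z2 M}

/-- `w_t` is harmonic. -/
theorem harm_wtk (hS : S.OK) (hs : ∀ i k, ContMDiff (𝓡 4) 𝓘(ℝ, ℝ) ∞ (ww i k))
    (harm : ∀ i x z, S.H.A (Fin.cons (fun _ => 0) (ww i)) x z = 0) (t : E3) (x : κT) (z : M) :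
    S.H.A (Fin.cons (fun _ => 0) (wtk ww t)) x z = 0 := by
  have hu : ∀ i, SmV (n := 4) (Fin.cons (fun _ => 0) (ww i) : Fin 4 → M → ℝ) := by
    intro i a
    refine Fin.cases ?_ (fun k => ?_) a
    · exact contMDiff_const
    · exact hs i k
  have hsec : ∀ u : Fin 4 → M → ℝ, S.DL.Sec u := by
    intro u a z
    simp only [hS.fullL]
    simp
  obtain ⟨-, -, h3, -⟩ := SWGeo_659.sum_all S.H Finset.univ (fun i : Fin 3 => t i)
    (fun i => (Fin.cons (fun _ => 0) (ww i) : Fin 4 → M → ℝ)) hu fun i => hsec _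
  have h4 : (Fin.cons (fun _ => 0) (wtk ww t) : Fin 4 → M → ℝ) =
      ∑ i, t i • (Fin.cons (fun _ => 0) (ww i) : Fin 4 → M → ℝ) := by
    funext a z
    rw [Finset.sum_apply, Finset.sum_apply]
    refine Fin.cases ?_ (fun k => ?_) a
    · simp
    · simp [wtk]
  rw [h4, h3]
  simp only [harm, mul_zero, Finset.sum_const_zero]

/-- the closed form `w_t`. -/
theorem wt_tauF (h : Hyp S T c W sT w e σ ι (wwf (fun i => (w i).1.1) e) cE) {t : E3}
    (ht : t ≠ 0) : WT (tauF S T c W sT w e σ (wwf (fun i => (w i).1.1) e) cE t) e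
      (Uu_291.wt w (fun i => t i)) := by
  intro x
  rw [Uu_291.val_wt]
  have h1 : ∀ k, (tauF S T c W sT w e σ (wwf (fun i => (w i).1.1) e) cE t).rr x *
      (tauF S T c W sT w e σ (wwf (fun i => (w i).1.1) e) cE t).n k x =
      ∑ i, t i * wwf (fun i => (w i).1.1) e i k x := fun k => h.lt.mul_nt ht k x
  simp only [h1, Finset.sum_smul]
  rw [Finset.sum_comm]
  refine Finset.sum_congr rfl fun i _ => ?_
  have h2 : val (w i) x = ∑ k, wwf (fun i => (w i).1.1) e i k x • at2 (e k) x :=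
    wwf_eq h.tg.tri i x
  rw [h2, Finset.smul_sum]
  exact Finset.sum_congr rfl fun k _ => by rw [smul_smul]

theorem sm_fE (h : Hyp S T c W sT w e σ ι ww cE) {t : E3} (ht : t ≠ 0) (k : Fin 3) :
    ContMDiff (𝓡 4) 𝓘(ℝ, ℝ) ∞ ((tauF S T c W sT w e σ ww cE t).fE k) :=
  (Crest.Agent.R240.Ch.smoothF_iff _).2 ((h.jf_fE k).sl ht)

/-- **`TD.OK` of the family**, from `T2`. -/
theorem ok_tauF (h : Hyp S T c W sT w e σ ι (wwf (fun i => (w i).1.1) e) cE) (hS : S.OK)
    (harm : ∀ i x z, S.H.A (Fin.cons (fun _ => 0) (wwf (fun i => (w i).1.1) e i)) x z = 0)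
    {t : E3} (ht : t ≠ 0) {C : ℝ}
    (T2 : ∀ (a : κT → M → ℝ) (s s' : κ0 → M → ℝ), SmV (n := 4) a → S.DT.Sec a →
      SmV (n := 4) s → SmV (n := 4) s' →
      (tauF S T c W sT w e σ (wwf (fun i => (w i).1.1) e) cE t).SecE S s →
      (tauF S T c W sT w e σ (wwf (fun i => (w i).1.1) e) cE t).SecE' S s' →
      |∫ z, ((tauF S T c W sT w e σ (wwf (fun i => (w i).1.1) e) cE t).rr z ^ (-(1 / 2) : ℝ) *
        (∑ x, (S.P.A ((tauF S T c W sT w e σ (wwf (fun i => (w i).1.1) e) cE t).sc (3 / 4) s) +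
          S.cm a ((tauF S T c W sT w e σ (wwf (fun i => (w i).1.1) e) cE t).sc (3 / 4) s)) x z *
          (S.P.A ((tauF S T c W sT w e σ (wwf (fun i => (w i).1.1) e) cE t).sc (3 / 4) s') +
          S.cm a ((tauF S T c W sT w e σ (wwf (fun i => (w i).1.1) e) cE t).sc (3 / 4) s')) x z) -
        (tauF S T c W sT w e σ (wwf (fun i => (w i).1.1) e) cE t).rr z *
          ∑ k, (S.H.B a k.succ z +
            (tauF S T c W sT w e σ (wwf (fun i => (w i).1.1) e) cE t).fE k z) *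
            ∑ y, ∑ y', S.rho k y y' z * s y z * s' y' z)
      ∂(μHE[4] : Measure M)| ≤
      C * ∫ z, √(∑ y, ‖(tauF S T c W sT w e σ (wwf (fun i => (w i).1.1) e) cE t).nE S a s y z‖ ^ 2) *
        √(∑ y, s' y z ^ 2) ∂(μHE[4] : Measure M)) :
    (tauF S T c W sT w e σ (wwf (fun i => (w i).1.1) e) cE t).OK S C where
  smrr := (h.te ht).smrr
  pos := (h.te ht).pos
  smn := (h.te ht).smn
  smsh := (h.te ht).smsh
  secsh := (h.te ht).secsh
  smfE := sm_fE h ht
  norm := (h.te ht).norm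
  rsec := h.sym.prho
  invol y y'' z := by
    have h1 := congrFun (congrFun (mR_sq h.sym (m := nt (wwf (fun i => (w i).1.1) e) t) z
      (h.lt.norm_nt ht z)) y) y''
    rw [Matrix.mul_apply] at h1
    simp only [mR_apply] at h1
    exact h1
  harm x z := by
    have h1 : (fun k z => (tauF S T c W sT w e σ (wwf (fun i => (w i).1.1) e) cE t).rr z *
        (tauF S T c W sT w e σ (wwf (fun i => (w i).1.1) e) cE t).n k z) =
        wtk (wwf (fun i => (w i).1.1) e) t := by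
      funext k z
      exact h.lt.mul_nt ht k z
    rw [h1]
    exact harm_wtk hS h.smw harm t x z
  T1 a s ha hsa hs hE :=
    Tau483.t1 hS h.tg (h.te ht) (wt_tauF h ht) (h.tc ht) ha hsa hs hE
  T2 := T2

end

end Crest.Agent.R235.SWOk_451
end

-- ▼ part R235/MdlXt_399

/-!
Row 235 (S0364), MODX (helper399): the uniform `TD.OK` of the family and **`SwcData`** of the system
of a triple and a line bundle.
-/

set_option autoImplicit false
set_option maxSynthPendingDepth 3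
set_option linter.unusedSectionVars false

open scoped ContDiff ENNReal NNReal Topology Manifold Bundle RealInnerProductSpace
open MeasureTheory Set Filter Metric Bundle Matrix

universe v

namespace Crest.Agent.R235.MdlXt_399

open Crest.Agent.R240 Crest.Agent.R240.Ch Crest.Agent.R235 Crest.Agent.R235.SWDefs_53
open Crest.Agent.R235.IndTri_451 Crest.Agent.R235.Tau483 Crest.Agent.R235.TauJ
open Crest.Agent.R249.Tv57 (Dat OpPair SmF SmV KerD)
open Crest.Agent.R249.Tz805 (ToF CPair)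
open Crest.Agent.R249.Tz2_805 (PF)
open Crest.Agent.R247.Ms322 (Gr)
open Crest.Agent.R249.Vf281 (VSm)
open Crest.Agent.R235.SWTn_451 Crest.Agent.R235.SWTf_451 Crest.Agent.R235.SWTe_451
open Crest.Agent.R235.SWTd_451
open Crest.Agent.R235.SWData_451 Crest.Agent.R235.MdlXs_399

noncomputable section

variable {M : Type v} [MetricSpace M] [CompactSpace M] [ConnectedSpace M]
  [ChartedSpace (EuclideanSpace ℝ (Fin 4)) M] [IsManifold (𝓡 4) ∞ M]
  [RiemannianBundle (fun p : M => TangentSpace (𝓡 4) p)]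
  [IsContMDiffRiemannianBundle (𝓡 4) ∞ (EuclideanSpace ℝ (Fin 4))
    (fun p : M => TangentSpace (𝓡 4) p)]
  [IsRiemannianManifold (𝓡 4) M] [MeasurableSpace M] [BorelSpace M]
  [SecondCountableTopology M] [Nonempty M] [IsFiniteMeasureOnCompacts (μHE[4] : Measure M)]

section gen

variable {κ0 κ1 κT : Type} [Fintype κ0] [Fintype κ1] [Fintype κT]
  {S : SWS M κ0 κ1 κT} {T : ToF 4 M}
    {c : κ1 → κ0 → (z : M) → TangentSpace (𝓡 4) z}
    {W : κ0 → κ0 → (z : M) → TangentSpace (𝓡 4) z}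
    {sT : κT → (z : M) → TangentSpace (𝓡 4) z} {w : Trip M} {e : Fin 3 → F2 E4 M}
    {σ ι : ℝ} {cE : E3 → Z2 M}

/-- **uniform `TD.OK`.** -/
theorem ok_unif (h : Hyp S T c W sT w e σ ι (wwf (fun i => (w i).1.1) e) cE) (hS : S.OK)
    (harm : ∀ i x z, S.H.A (Fin.cons (fun _ => 0) (wwf (fun i => (w i).1.1) e i)) x z = 0) :
    ∃ C, 0 ≤ C ∧ ∀ t : E3, ‖t‖ = 1 →
      (tauF S T c W sT w e σ (wwf (fun i => (w i).1.1) e) cE t).OK S C := by
  obtain ⟨B, hB0, hB⟩ := h.bG
  obtain ⟨BZ, hZ0, hZ⟩ := h.bZ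
  have hn1 : ∀ t : E3, ‖t‖ = 1 → ∀ k z,
      |(tauF S T c W sT w e σ (wwf (fun i => (w i).1.1) e) cE t).n k z| ≤ 1 := by
    intro t ht k z
    have h1 := h.lt.norm_nt (Hyp.ne_of ht) z
    have h2 : nt (wwf (fun i => ((w i).1.1 : F2 E4 M)) e) t k z ^ 2 ≤ 1 := by
      rw [← h1]
      exact Finset.single_le_sum (f := fun k => nt (wwf (fun i => ((w i).1.1 : F2 E4 M)) e) t k z ^ 2)
        (fun _ _ => sq_nonneg _) (Finset.mem_univ k)
    exact (sq_le_one_iff_abs_le_one _).1 h2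
  obtain ⟨C, hC0, hC⟩ := t2_fam (Θ := {t : E3 // ‖t‖ = 1})
    (τ := fun θ => tauF S T c W sT w e σ (wwf (fun i => (w i).1.1) e) cE θ.1)
    (Z := fun θ => Zt S (fun x y z => T.toF z (c x y z))
      (rrt (wwf (fun i => (w i).1.1) e) θ.1) (Pr S (nt (wwf (fun i => (w i).1.1) e) θ.1)))
    (cE := fun θ => cE θ.1) hS h.tg (fun θ => h.te (Hyp.ne_of θ.2)) (fun θ => h.tc (Hyp.ne_of θ.2))
    ⟨fun θ => (h.te (Hyp.ne_of θ.2)).smrr,
      ⟨B, hB0, fun θ z => by rw [mul_one]; exact (hB θ.1 θ.2 z).2.2.1⟩,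
      ⟨B, hB0, fun θ z => by
        rw [mul_one, abs_of_nonneg (norm_nonneg _)]; exact (hB θ.1 θ.2 z).2.2.2⟩⟩
    (fun k => ⟨fun θ => (h.te (Hyp.ne_of θ.2)).smn k,
      ⟨1, zero_le_one, fun θ z => by rw [mul_one]; exact hn1 θ.1 θ.2 k z⟩,
      ⟨B, hB0, fun θ z => by
        rw [mul_one, abs_of_nonneg (norm_nonneg _)]; exact (hB θ.1 θ.2 z).2.1 k⟩⟩)
    (fun A => ⟨B, hB0, fun θ z => by rw [mul_one]; exact (hB θ.1 θ.2 z).1 A⟩)
    (fun x y => ⟨BZ, hZ0, fun θ z => by rw [mul_one]; exact hZ θ.1 θ.2 x y z⟩)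
  exact ⟨C, hC0, fun t ht => SWOk_451.ok_tauF h hS harm (Hyp.ne_of ht)
    (fun a s s' h1 h2 h3 h4 h5 h6 => hC ⟨t, ht⟩ a s s' h1 h2 h3 h4 h5 h6)⟩

end gen

variable {κ : Type} [Fintype κ] {N : ℕ}

variable (T : ToF 4 M) (s : PF 4 M κ) {w : Trip M} {e : Fin 3 → F2 E4 M}
  (tri : IsTri (fun i => (w i).1.1) e)
  (hin : ∀ (x : M) (u v : TangentSpace (𝓡 4) x), inner ℝ u v = at2 (gg e) x u v)
  {p : M → Matrix (Fin N) (Fin N) ℂ} (hp : IsLine p) {a : Z2 M} (ha : IsChern p a)

/-- **`TD.OK` uniformly.** -/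
theorem ok_tX : ∃ C, 0 ≤ C ∧ ∀ t : E3, ‖t‖ = 1 →
    (tX T s tri hin hp ha t).OK (SX T s tri hin hp) C :=
  ok_unif (hyp T s tri hin hp ha) (ok T s tri hin hp) (harm T s tri hin hp)

/-- **THE GEOMETRY OF `MODX`.** -/
theorem swcdata : ∃ C K, SwcProd_215.SwcData (SX T s tri hin hp) T (pX s tri hin hp).cc
    (pX s tri hin hp).D0.W s.s w e (-1) (wwf (fun i => (w i).1.1) e) (tX T s tri hin hp ha)
    C K (cls a) := by
  obtain ⟨C, -, hC⟩ := ok_tX T s tri hin hp ha
  obtain ⟨K, hK⟩ := (hyp T s tri hin hp ha).swcdata (ok T s tri hin hp) (harm T s tri hin hp) hC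
    (a := cls a) fun t ht => cX_cls T s tri hin hp ha (Hyp.ne_of ht)
  exact ⟨C, K, hK⟩

end

end Crest.Agent.R235.MdlXt_399
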