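import Crest.Agent.R249.Idx11_789
import Crest.Agent.R235.IndPar_167
import Crest.Agent.R235.IndDen_167
import Crest.Agent.R249.TofM_352
import Crest.Agent.R249.HKEnd_286
import Mathlib

-- ▼ part R235/IndQ_167
section

/-!
Row 235, package IND (helper167), part 6 (leaf L3 INDQ): densities and the INDEX THEOREM for the
quaternionic Clifford pairs.

* `index_of` : the index theorem of R249 for any Clifford pair whose local frames have equal rank
  and equal trace of the potentials;
* `densQ` : `dn D0 z - dn D1 z` for `pairQ` in an adapted frame;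
* `indexQ` : the index theorem for `pairQ q s hth`;
* `dens_poly`, `index_const` : `th = s0 • etaV`: the density is a polynomial in `s0`, the index does
  not depend on `s0`.
-/

set_option autoImplicit false
set_option maxSynthPendingDepth 3
set_option linter.unusedSectionVars false
set_option linter.unusedSimpArgs false
set_option maxHeartbeats 1000000

open Filter Topology Set Bundle Manifold MeasureTheory
open Matrix hiding J
open scoped ContDiff ENNReal NNReal
open Crest.GeometryTopology.CoordMetric Crest.GeometryTopology.ChartCurvature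
  Crest.GeometryTopology.PointedLimit
open Crest.Agent.R202.Tens Crest.Agent.R247.Bo84 Crest.Agent.R249.FrmB_285 Crest.Agent.R249.Vf281
  Crest.Agent.R249.Tz1_805 Crest.Agent.R249.Tz2_805
open Crest.Agent.R249.Fr129
open Crest.Agent.R249.C2_198 hiding cp half_two
open Crest.Agent.R249.Sg129 hiding fg fg_add fg_sub fg_mul fg_const fg_sum ev_fg contMDiff_inner VSm_mCov
open Crest.Agent.R249.Tz805 Crest.Agent.R249.Dic805
open Crest.Agent.R249.Tv57 Crest.Agent.R249.HK9_714
open Crest.Agent.R235.IndAlg_167 Crest.Agent.R235.IndDen_167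

noncomputable section

namespace Crest.Agent.R235.Ind167

section gen

universe v

variable {M : Type v} [MetricSpace M] [ChartedSpace (EuclideanSpace ℝ (Fin 4)) M]
  [IsManifold (𝓡 4) ∞ M]
  [RiemannianBundle (fun p : M => TangentSpace (𝓡 4) p)]
  [IsContMDiffRiemannianBundle (𝓡 4) ∞ (EuclideanSpace ℝ (Fin 4)) (fun p : M => TangentSpace (𝓡 4) p)]
  [IsRiemannianManifold (𝓡 4) M] [MeasurableSpace M] [BorelSpace M]
  [SecondCountableTopology M] [Nonempty M]

variable {κ κ0 κ1 : Type} [Fintype κ] [Fintype κ0] [Fintype κ1]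

/-- the `Dat`s of 352's `dpair` -/
theorem wdd (T : ToF 4 M) (P : CPair 4 M κ κ0 κ1) :
    WD T P (R249.Wk352.dat0 T P) (R249.Wk352.dat0 T (R249.Wk352.swapP P)) where
  X0 _ _ _ := rfl
  p0 := rfl
  Q0 := rfl
  X1 _ _ _ := rfl
  p1 := rfl
  Q1 := rfl

/-- local data with equal ranks and equal traces of the potentials -/
def Bal (P : CPair 4 M κ κ0 κ1) : Prop :=
  ∀ z : M, ∃ e, ∃ h : ONF (chartMetric 4 M z) (chartAt (EuclideanSpace ℝ (Fin 4)) z).target
      (chartCentre 4 M z) e, ∃ (ι0 ι1 : Type) (_ : Fintype ι0) (_ : DecidableEq ι0)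
      (_ : Fintype ι1) (_ : DecidableEq ι1) (a0 : Fin 4 → Matrix ι0 ι0 (SG (chartCentre 4 M z)))
      (a1 : Fin 4 → Matrix ι1 ι1 (SG (chartCentre 4 M z)))
      (c : Fin 4 → Matrix ι1 ι0 (SG (chartCentre 4 M z)))
      (j0 : Matrix κ0 ι0 (SG (chartCentre 4 M z))) (j1 : Matrix κ1 ι1 (SG (chartCentre 4 M z))),
      CLoc P.D0 P.D1 P.cc h a0 a1 c j0 j1 ∧ Fintype.card ι0 = Fintype.card ι1 ∧
      Fintype.card ι0 ≠ 0 ∧
      (R249.C2_198.Q h.frameOf a0 c).trace = (R249.C2_198.Q h.frameOf a1 (fun i => (c i)ᵀ)).trace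

/-- **the index theorem** for balanced Clifford pairs -/
theorem index_of [CompactSpace M] [ConnectedSpace M] (T : ToF 4 M) (P : CPair 4 M κ κ0 κ1)
    (hP : Bal P) :
    ∃ (d0 d1 : ℕ) (_ : KerD (R249.Wk352.dat0 T P) (R249.Wk352.dpair T P).A d0)
      (_ : KerD (R249.Wk352.dat0 T (R249.Wk352.swapP P)) (R249.Wk352.dpair T P).B d1),
      Integrable (fun z => dn (R249.Wk352.dat0 T P) z - dn (R249.Wk352.dat0 T (R249.Wk352.swapP P)) z)
        (μHE[4] : Measure M) ∧
      (d0 : ℝ) - d1 = ∫ z, (dn (R249.Wk352.dat0 T P) z - dn (R249.Wk352.dat0 T (R249.Wk352.swapP P)) z)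
        ∂(μHE[4] : Measure M) := by
  have hr : ∀ z, ∑ a, (R249.Wk352.dat0 T P).p a a z
      = ∑ a, (R249.Wk352.dat0 T (R249.Wk352.swapP P)).p a a z := by
    intro z
    obtain ⟨e, h, ι0, ι1, i1, i2, i3, i4, a0, a1, c, j0, j1, C, hc, h0, ht⟩ := hP z
    rw [(wdd T P).rank0 C, (wdd T P).rank1 C, hc]
  have hq : ∀ z, ∑ a, ∑ b, (R249.Wk352.dat0 T P).Q a b z * (R249.Wk352.dat0 T P).p a b z
      = ∑ a, ∑ b, (R249.Wk352.dat0 T (R249.Wk352.swapP P)).Q a b z
        * (R249.Wk352.dat0 T (R249.Wk352.swapP P)).p a b z := by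
    intro z
    obtain ⟨e, h, ι0, ι1, i1, i2, i3, i4, a0, a1, c, j0, j1, C, hc, h0, ht⟩ := hP z
    rw [(wdd T P).tr0 C, (wdd T P).tr1 C, ht]
  have hne : ∀ z, ∑ a, (R249.Wk352.dat0 T P).p a a z ≠ 0 := by
    intro z
    obtain ⟨e, h, ι0, ι1, i1, i2, i3, i4, a0, a1, c, j0, j1, C, hc, h0, ht⟩ := hP z
    rw [(wdd T P).rank0 C]
    exact_mod_cast h0
  obtain ⟨z⟩ := ‹Nonempty M›
  have h0 : ∃ z a, (R249.Wk352.dat0 T P).p a a z ≠ 0 := by
    obtain ⟨a, -, ha⟩ := Finset.exists_ne_zero_of_sum_ne_zero (hne z)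
    exact ⟨z, a, ha⟩
  have h1 : ∃ z a, (R249.Wk352.dat0 T (R249.Wk352.swapP P)).p a a z ≠ 0 := by
    have := hne z
    rw [hr z] at this
    obtain ⟨a, -, ha⟩ := Finset.exists_ne_zero_of_sum_ne_zero this
    exact ⟨z, a, ha⟩
  haveI : Nonempty M := ⟨z⟩
  exact index_D Crest.Agent.R249.HK286.chartStmt (R249.Wk352.dpair T P) h0 h1 hr hq

variable (q : QS M) (s : PF 4 M κ)
  {th : Fin 3 → (z : M) → TangentSpace 𝓘(ℝ, EuclideanSpace ℝ (Fin 4)) z}
  (hth : ∀ b z, VSm 4 ∞ (th b) z)

/-- `pairQ` is balanced -/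
theorem balQ : Bal (pairQ q s hth) := by
  intro z
  obtain ⟨e, h, ha⟩ := exists_adp q z
  exact ⟨e, h, _, _, _, _, _, _, _, _, _, _, _, clocQ s hth h ha, rfl, by simp,
    trQ h.frameOf (thF th z e)⟩

/-- **density of `pairQ`** in an adapted frame -/
theorem densQ {T : ToF 4 M} {D0 : Dat 4 M (Fin 4)} {D1 : Dat 4 M κ}
    (W : WD T (pairQ q s hth) D0 D1) {z : M}
    {e : Fin 4 → EuclideanSpace ℝ (Fin 4) → EuclideanSpace ℝ (Fin 4)}
    (h : ONF (chartMetric 4 M z) (chartAt (EuclideanSpace ℝ (Fin 4)) z).target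
      (chartCentre 4 M z) e) (ha : Adp q z e) :
    dn D0 z - dn D1 z
      = 1 / (32 * Real.pi ^ 2) * ev (-4 * ∑ c, pf (fun i j => GG h.frameOf (thF th z e) i j c))
        + 1 / (192 * Real.pi ^ 2) * ev (TT h.frameOf) := by
  have C := clocQ s hth h ha
  rw [W.dn0 C, W.dn1 C, ← trQQ, ← tO_b h.frameOf (thF th z e), map_sub, map_sub]
  ring

/-- **the index theorem for `pairQ`** -/
theorem indexQ [CompactSpace M] [ConnectedSpace M] (T : ToF 4 M) :
    ∃ (d0 d1 : ℕ) (_ : KerD (R249.Wk352.dat0 T (pairQ q s hth)) (R249.Wk352.dpair T (pairQ q s hth)).A d0)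
      (_ : KerD (R249.Wk352.dat0 T (R249.Wk352.swapP (pairQ q s hth)))
        (R249.Wk352.dpair T (pairQ q s hth)).B d1),
      Integrable (fun z => dn (R249.Wk352.dat0 T (pairQ q s hth)) z
        - dn (R249.Wk352.dat0 T (R249.Wk352.swapP (pairQ q s hth))) z) (μHE[4] : Measure M) ∧
      (d0 : ℝ) - d1 = ∫ z, (dn (R249.Wk352.dat0 T (pairQ q s hth)) z
        - dn (R249.Wk352.dat0 T (R249.Wk352.swapP (pairQ q s hth))) z) ∂(μHE[4] : Measure M) :=
  index_of T _ (balQ q s hth)

end gen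

end Crest.Agent.R235.Ind167
end
end

-- ▼ part R235/IndInt_277
section

/-!
Row 235, package IND, leaf L1 (INTERP): an integer valued family of integrals which is polynomial in
`s` is constant.  (helper277)
-/

set_option autoImplicit false

open MeasureTheory

namespace Crest.Agent.R235.IndInt_277

/-- a continuous integer valued function on the line is constant. -/
theorem const_of_int {F : ℝ → ℝ} (hF : Continuous F) (hi : ∀ s, ∃ n : ℤ, F s = n) (s t : ℝ) :
    F s = F t := by
  choose n hn using hi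
  have h1 : F = (fun k : ℤ => (k : ℝ)) ∘ n := funext hn
  have h2 : Continuous n := by
    rw [Int.isClosedEmbedding_coe_real.isEmbedding.isInducing.continuous_iff]
    have h3 : ((↑) : ℤ → ℝ) ∘ n = F := h1.symm
    rw [h3]
    exact hF
  rw [hn s, hn t, PreconnectedSpace.constant (by infer_instance) h2 (x := s) (y := t)]

section main

variable {M : Type*} [MeasurableSpace M] {μ : Measure M} {r0 c2 c3 c4 : M → ℝ}

/-- the coefficients are integrable. -/
theorem integrable_coef
    (h : ∀ s : ℝ, Integrable (fun z => r0 z + s ^ 2 * c2 z + s ^ 3 * c3 z + s ^ 4 * c4 z) μ) :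
    Integrable r0 μ ∧ Integrable c2 μ ∧ Integrable c3 μ ∧ Integrable c4 μ := by
  have h0 : Integrable r0 μ := by
    refine (h 0).congr (Filter.Eventually.of_forall fun z => ?_)
    simp
  have h1 := h 1
  have h2 := h (-1)
  have h3 := h 2
  have i3 : Integrable c3 μ := by
    refine ((h1.sub h2).const_mul (1 / 2)).congr (Filter.Eventually.of_forall fun z => ?_)
    simp only [Pi.sub_apply]
    ring
  have i24 : Integrable (fun z => c2 z + c4 z) μ := by
    refine (((h1.add h2).const_mul (1 / 2)).sub h0).congr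
      (Filter.Eventually.of_forall fun z => ?_)
    simp only [Pi.sub_apply, Pi.add_apply]
    ring
  have i4 : Integrable c4 μ := by
    refine ((((h3.sub h0).sub (i3.const_mul 8)).sub (i24.const_mul 4)).const_mul (1 / 12)).congr
      (Filter.Eventually.of_forall fun z => ?_)
    simp only [Pi.sub_apply]
    ring
  have i2 : Integrable c2 μ := by
    refine (i24.sub i4).congr (Filter.Eventually.of_forall fun z => ?_)
    simp only [Pi.sub_apply]
    ring
  exact ⟨h0, i2, i3, i4⟩

/-- the integral is a polynomial in `s`. -/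
theorem integral_poly
    (h : ∀ s : ℝ, Integrable (fun z => r0 z + s ^ 2 * c2 z + s ^ 3 * c3 z + s ^ 4 * c4 z) μ)
    (s : ℝ) : ∫ z, (r0 z + s ^ 2 * c2 z + s ^ 3 * c3 z + s ^ 4 * c4 z) ∂μ =
      ∫ z, r0 z ∂μ + s ^ 2 * ∫ z, c2 z ∂μ + s ^ 3 * ∫ z, c3 z ∂μ + s ^ 4 * ∫ z, c4 z ∂μ := by
  obtain ⟨i0, i2, i3, i4⟩ := integrable_coef h
  have j2 := i2.const_mul (s ^ 2)
  have j3 := i3.const_mul (s ^ 3)
  have j4 := i4.const_mul (s ^ 4)
  have e1 := integral_add (μ := μ) (f := fun z => r0 z + s ^ 2 * c2 z + s ^ 3 * c3 z)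
    (g := fun z => s ^ 4 * c4 z) ((i0.add j2).add j3) j4
  have e2 := integral_add (μ := μ) (f := fun z => r0 z + s ^ 2 * c2 z)
    (g := fun z => s ^ 3 * c3 z) (i0.add j2) j3
  have e3 := integral_add (μ := μ) (f := r0) (g := fun z => s ^ 2 * c2 z) i0 j2
  rw [e1, e2, e3, integral_const_mul, integral_const_mul, integral_const_mul]

/-- **L1 (INTERP)**. -/
theorem interp
    (h : ∀ s : ℝ, Integrable (fun z => r0 z + s ^ 2 * c2 z + s ^ 3 * c3 z + s ^ 4 * c4 z) μ)
    (hi : ∀ s : ℝ, ∃ n : ℤ,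
      ∫ z, (r0 z + s ^ 2 * c2 z + s ^ 3 * c3 z + s ^ 4 * c4 z) ∂μ = n) :
    (Integrable r0 μ ∧ Integrable c2 μ ∧ Integrable c3 μ ∧ Integrable c4 μ) ∧
    ∀ s : ℝ, ∫ z, (r0 z + s ^ 2 * c2 z + s ^ 3 * c3 z + s ^ 4 * c4 z) ∂μ = ∫ z, r0 z ∂μ := by
  refine ⟨integrable_coef h, fun s => ?_⟩
  have hc : Continuous fun s : ℝ =>
      ∫ z, (r0 z + s ^ 2 * c2 z + s ^ 3 * c3 z + s ^ 4 * c4 z) ∂μ := by
    simp only [integral_poly h]
    fun_prop
  have h1 := const_of_int hc hi s 0
  simp only [ne_eq, OfNat.ofNat_ne_zero, not_false_eq_true, zero_pow, zero_mul, add_zero] at h1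
  exact h1


end main

end Crest.Agent.R235.IndInt_277
end

-- ▼ part R235/IndQ2_167

/-!
Row 235, package IND (helper167), part 7 (leaf L3 (c), (d)): the index of `pairQ` with
`th = s0 • etaV` does not depend on `s0`; in particular `ind (pairH) = ind (pairZ)`.

* `rZ T q s` : the density `dn D0 z - dn D1 z` of the quaternionic pair `pairZ`;
  `rZ_eq` : `rZ z = 1/(192π²) ev (TT F)` in every adapted frame;
* `dens_poly` : density of `pairQ` with `th = s0 • etaV` = `rZ + s0² c2 + s0³ c3 + s0⁴ c4`;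
* `index_H` : index theorem for `pairH`: `d0 - d1 = ∫ rZ`;
* `index_Z` : index theorem for `pairZ`: `d0 - d1 = ∫ rZ`;  `dens_H` : density of `pairH`.
-/

set_option autoImplicit false
set_option maxSynthPendingDepth 3
set_option linter.unusedSectionVars false
set_option linter.unusedSimpArgs false
set_option maxHeartbeats 1000000

open Filter Topology Set Bundle Manifold MeasureTheory
open Matrix hiding J
open scoped ContDiff ENNReal NNReal
open Crest.GeometryTopology.CoordMetric Crest.GeometryTopology.ChartCurvature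
  Crest.GeometryTopology.PointedLimit
open Crest.Agent.R202.Tens Crest.Agent.R247.Bo84 Crest.Agent.R249.FrmB_285 Crest.Agent.R249.Vf281
  Crest.Agent.R249.Tz1_805 Crest.Agent.R249.Tz2_805
open Crest.Agent.R249.Fr129
open Crest.Agent.R249.C2_198 hiding cp half_two
open Crest.Agent.R249.Sg129 hiding fg fg_add fg_sub fg_mul fg_const fg_sum ev_fg contMDiff_inner VSm_mCov
open Crest.Agent.R249.Tz805 Crest.Agent.R249.Dic805
open Crest.Agent.R249.Tv57 hiding GG
open Crest.Agent.R249.HK9_714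
open Crest.Agent.R235.IndAlg_167 Crest.Agent.R235.IndDen_167

noncomputable section

namespace Crest.Agent.R235.Ind167

section ring

variable {S : Type*} [CommRing S] [Algebra ℝ S] (F : Frame 4 S)

/-- the linear part of the curvature of `s0 • eta` -/
def GX (k l : Fin 4) (c : Fin 3) : S :=
  F.D k (eta F l c) - F.D l (eta F k c) - ∑ m, F.T k l m * eta F m c

/-- the quadratic part -/
def GY (k l : Fin 4) (c : Fin 3) : S := cp (eta F k) (eta F l) c

lemma GG_smul (r : ℝ) (k l : Fin 4) (c : Fin 3) :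
    GG F (fun k b => algebraMap ℝ S r * eta F k b) k l c
      = algebraMap ℝ S r * GX F k l c + algebraMap ℝ S r ^ 2 * GY F k l c := by
  have hD : ∀ k (x : S), F.D k (algebraMap ℝ S r * x) = algebraMap ℝ S r * F.D k x := by
    intro k x; rw [F.D_mul, Derivation.map_algebraMap]; ring
  have hs : ∑ m, F.T k l m * (algebraMap ℝ S r * eta F m c)
      = algebraMap ℝ S r * ∑ m, F.T k l m * eta F m c := by
    rw [Finset.mul_sum]
    exact Finset.sum_congr rfl fun m _ => by ring
  have hc : cp (fun b => algebraMap ℝ S r * eta F k b) (fun b => algebraMap ℝ S r * eta F l b) c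
      = algebraMap ℝ S r ^ 2 * cp (eta F k) (eta F l) c := by
    fin_cases c <;> simp [cp] <;> ring
  rw [GG, GX, GY, hD, hD, hs, hc]
  ring

lemma GG_zeroθ (k l : Fin 4) (c : Fin 3) : GG F (fun _ _ => 0) k l c = 0 := by
  have := GG_smul F 0 k l c
  simpa using this

/-- mixed Pfaffian -/
def pfm (X Y : Fin 4 → Fin 4 → S) : S :=
  X 0 1 * Y 2 3 + Y 0 1 * X 2 3 - (X 0 2 * Y 1 3 + Y 0 2 * X 1 3)
    + (X 0 3 * Y 1 2 + Y 0 3 * X 1 2)

lemma pf_lin (r : S) (X Y : Fin 4 → Fin 4 → S) :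
    pf (fun i j => r * X i j + r ^ 2 * Y i j)
      = r ^ 2 * pf X + r ^ 3 * pfm X Y + r ^ 4 * pf Y := by
  simp only [pf, pfm]; ring

lemma sum_pf_smul (r : ℝ) :
    ∑ c, pf (fun i j => GG F (fun k b => algebraMap ℝ S r * eta F k b) i j c)
      = algebraMap ℝ S r ^ 2 * ∑ c, pf (fun i j => GX F i j c)
        + algebraMap ℝ S r ^ 3 * ∑ c, pfm (fun i j => GX F i j c) (fun i j => GY F i j c)
        + algebraMap ℝ S r ^ 4 * ∑ c, pf (fun i j => GY F i j c) := by
  simp only [GG_smul, pf_lin, Finset.sum_add_distrib, Finset.mul_sum]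

end ring

section gen

universe v

variable {M : Type v} [MetricSpace M] [ChartedSpace (EuclideanSpace ℝ (Fin 4)) M]
  [IsManifold (𝓡 4) ∞ M]
  [RiemannianBundle (fun p : M => TangentSpace (𝓡 4) p)]
  [IsContMDiffRiemannianBundle (𝓡 4) ∞ (EuclideanSpace ℝ (Fin 4)) (fun p : M => TangentSpace (𝓡 4) p)]
  [IsRiemannianManifold (𝓡 4) M] [MeasurableSpace M] [BorelSpace M]
  [SecondCountableTopology M] [Nonempty M]

variable {κ : Type} [Fintype κ]

/-- the density of a Clifford pair -/
def dens {κ0 κ1 : Type} [Fintype κ0] [Fintype κ1] (T : ToF 4 M) (P : CPair 4 M κ κ0 κ1)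
    (z : M) : ℝ :=
  dn (R249.Wk352.dat0 T P) z - dn (R249.Wk352.dat0 T (R249.Wk352.swapP P)) z

variable (T : ToF 4 M) (q : QS M) (s : PF 4 M κ)

/-- the scaled connection form -/
def thS (r : ℝ) (b : Fin 3) (z : M) : TangentSpace 𝓘(ℝ, EuclideanSpace ℝ (Fin 4)) z :=
  r • etaV q s b z

lemma sm_thS (r : ℝ) (b : Fin 3) (z : M) : VSm 4 ∞ (thS q s r b) z :=
  VSm.smul le_rfl contMDiffAt_const (sm_etaV q s b z)

variable {q} {z : M} {e : Fin 4 → EuclideanSpace ℝ (Fin 4) → EuclideanSpace ℝ (Fin 4)}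
  (h : ONF (chartMetric 4 M z) (chartAt (EuclideanSpace ℝ (Fin 4)) z).target
      (chartCentre 4 M z) e) (ha : Adp q z e)

include h ha in
lemma thF_thS (r : ℝ) : thF (thS q s r) z e
    = fun k b => algebraMap ℝ (SG (chartCentre 4 M z)) r * eta h.frameOf k b := by
  funext k b
  have h1 := R249.Dic805.vg_smul h (f := fun _ => r) contMDiff_const (sm_etaV q s b) k
  rw [R249.Dic805.fg_const, vg_etaV s h ha] at h1
  exact h1

include h ha in
lemma thF_etaV : thF (etaV q s) z e = eta h.frameOf := by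
  funext k b
  exact vg_etaV s h ha b k

include h ha in
/-- density of the quaternionic pair -/
theorem rZ_eq : dens T (pairZ q s) z = 1 / (192 * Real.pi ^ 2) * ev (TT h.frameOf) := by
  have h1 := densQ q s sm_thZ (wdd T (pairZ q s)) h ha
  rw [vg_thZ h] at h1
  simp only [GG_zeroθ] at h1
  have h0 : pf (fun _ _ => (0 : SG (chartCentre 4 M z))) = 0 := by simp [pf]
  rw [h0, Finset.sum_const_zero, mul_zero, map_zero, mul_zero, zero_add] at h1
  exact h1


variable (q)

/-- the coefficient functions -/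
def cf (j : Fin 3) (z : M) : ℝ :=
  1 / (32 * Real.pi ^ 2) * ev (-4 * (![∑ c, pf (fun i j => GX (exists_adp q z).choose_spec.choose.frameOf i j c),
    ∑ c, pfm (fun i j => GX (exists_adp q z).choose_spec.choose.frameOf i j c)
      (fun i j => GY (exists_adp q z).choose_spec.choose.frameOf i j c),
    ∑ c, pf (fun i j => GY (exists_adp q z).choose_spec.choose.frameOf i j c)] j))

/-- **the density is a polynomial in `r`** -/
theorem dens_poly (r : ℝ) (z : M) : dens T (pairQ q s (sm_thS q s r)) z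
    = dens T (pairZ q s) z + r ^ 2 * cf q 0 z + r ^ 3 * cf q 1 z + r ^ 4 * cf q 2 z := by
  have ha := (exists_adp q z).choose_spec.choose_spec
  set h := (exists_adp q z).choose_spec.choose with hh
  have h1 := densQ q s (sm_thS q s r) (wdd T (pairQ q s (sm_thS q s r))) h ha
  rw [thF_thS s h ha, sum_pf_smul, ← rZ_eq T s h ha] at h1
  change dens T (pairQ q s (sm_thS q s r)) z = _ at h1
  rw [h1]
  simp only [cf, Matrix.cons_val_zero, Matrix.cons_val_one, Matrix.cons_val]
  have h3 : ev (algebraMap ℝ (SG (chartCentre 4 M z)) r) = r := by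
    rw [algebraMap_eq, ev_germ]
  simp only [map_mul, map_add, map_pow, h3]
  ring

variable [CompactSpace M] [ConnectedSpace M]

/-- **index theorem for the quaternionic pair** -/
theorem index_Z : ∃ (d0 d1 : ℕ)
    (_ : KerD (R249.Wk352.dat0 T (pairZ q s)) (R249.Wk352.dpair T (pairZ q s)).A d0)
    (_ : KerD (R249.Wk352.dat0 T (R249.Wk352.swapP (pairZ q s)))
      (R249.Wk352.dpair T (pairZ q s)).B d1),
    Integrable (dens T (pairZ q s)) (μHE[4] : Measure M) ∧
    (d0 : ℝ) - d1 = ∫ z, dens T (pairZ q s) z ∂(μHE[4] : Measure M) :=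
  indexQ q s sm_thZ T

/-- the integral of the density of `pairQ q s (r etaV)` does not depend on `r` -/
theorem integral_dens (r : ℝ) : ∫ z, dens T (pairQ q s (sm_thS q s r)) z ∂(μHE[4] : Measure M)
    = ∫ z, dens T (pairZ q s) z ∂(μHE[4] : Measure M) := by
  have h1 : ∀ r : ℝ, Integrable (fun z => dens T (pairZ q s) z + r ^ 2 * cf q 0 z
      + r ^ 3 * cf q 1 z + r ^ 4 * cf q 2 z) (μHE[4] : Measure M) := by
    intro r
    obtain ⟨d0, d1, k0, k1, hi, he⟩ := indexQ q s (sm_thS q s r) T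
    refine hi.congr (Filter.Eventually.of_forall fun z => ?_)
    exact dens_poly T q s r z
  have h2 : ∀ r : ℝ, ∃ n : ℤ, ∫ z, (dens T (pairZ q s) z + r ^ 2 * cf q 0 z
      + r ^ 3 * cf q 1 z + r ^ 4 * cf q 2 z) ∂(μHE[4] : Measure M) = n := by
    intro r
    obtain ⟨d0, d1, k0, k1, hi, he⟩ := indexQ q s (sm_thS q s r) T
    refine ⟨(d0 : ℤ) - d1, ?_⟩
    push_cast
    rw [he]
    exact integral_congr_ae (Filter.Eventually.of_forall fun z => (dens_poly T q s r z).symm)
  have h3 := (IndInt_277.interp h1 h2).2 r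
  rw [← h3]
  exact integral_congr_ae (Filter.Eventually.of_forall fun z => dens_poly T q s r z)

lemma dens_H_poly (z : M) : dens T (pairH q s) z = dens T (pairQ q s (sm_thS q s 1)) z := by
  obtain ⟨e, h, ha⟩ := exists_adp q z
  have h1 := densQ q s (sm_etaV q s) (wdd T (pairH q s)) h ha
  have h2 := densQ q s (sm_thS q s 1) (wdd T (pairQ q s (sm_thS q s 1))) h ha
  have h3 : thF (thS q s 1) z e = thF (etaV q s) z e := by
    rw [thF_thS s h ha, thF_etaV s h ha, map_one]
    funext k b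
    rw [one_mul]
  rw [h3] at h2
  exact h1.trans h2.symm

/-- **index theorem for the HODGE pair**: the index is the integral of the density of `pairZ` -/
theorem index_H : ∃ (d0 d1 : ℕ)
    (_ : KerD (R249.Wk352.dat0 T (pairH q s)) (R249.Wk352.dpair T (pairH q s)).A d0)
    (_ : KerD (R249.Wk352.dat0 T (R249.Wk352.swapP (pairH q s)))
      (R249.Wk352.dpair T (pairH q s)).B d1),
    Integrable (dens T (pairH q s)) (μHE[4] : Measure M) ∧
    (d0 : ℝ) - d1 = ∫ z, dens T (pairZ q s) z ∂(μHE[4] : Measure M) := by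
  obtain ⟨d0, d1, k0, k1, hi, he⟩ := indexQ q s (sm_etaV q s) T
  refine ⟨d0, d1, k0, k1, hi, ?_⟩
  rw [he, ← integral_dens T q s 1]
  exact integral_congr_ae (Filter.Eventually.of_forall fun z => dens_H_poly T q s z)

end gen

end Crest.Agent.R235.Ind167
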