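import Crest.Agent.R235.DichProps_723
import Crest.Agent.R235.QSTri_451
import Crest.Agent.R235.HodgePr_194
import Crest.Agent.R235.IndPair_167
import Crest.Agent.R249.Tz6_805
import Crest.Agent.R235.IndDen_167
import Crest.Agent.R235.RiemC_399
import Crest.Agent.R249.Tv12_57
import Crest.Agent.R249.WkD_352
import Crest.Agent.R249.TofM_352
import Crest.Agent.R249.HKEnd_286
import Crest.Agent.R235.IndQ2_167

-- ▼ part R235/IndSig_723
section

/-!
Row 235 (S0364), package IND, leaf L5 (helper723): `SIG235`, part 1: arithmetic and descent.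

* `sig_num`   : the arithmetic of the index numbers;
* `SigOut`    : the conclusion of `SIG235` for one triple;
* `HodgeOut`  : the output of HODGE (helper194) in terms of the four kernel dimensions;
* `sigOut_of` : HODGE + index identities => `SigOut`;
* `Inst`      : the statement over the Riemannian instances;
* `sig235_of` : the descent.
-/

set_option autoImplicit false
set_option maxSynthPendingDepth 3
set_option linter.unusedSectionVars false
set_option linter.unusedVariables false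
set_option linter.style.haveILetI false

open Set Function Filter MeasureTheory Bundle
open scoped Manifold ContDiff Topology

namespace Crest.Agent.R235.IndSig_723

open Crest.Agent.R240 Crest.Agent.R240.Ch Crest.Agent.R240.Int
open Crest.Agent.R235.DichProps_723

noncomputable section

/-- the arithmetic. -/
theorem sig_num {b1 bp bm d0H d1H d0R d1R d00 d01 : ℕ} {IH IR I0 : ℝ}
    (eH : (d0H : ℝ) - d1H = IH) (eR : (d0R : ℝ) - d1R = IR) (e0 : (d00 : ℝ) - d01 = I0)
    (hH0 : IH = I0) (hR : IH - IR = -4 * I0) (h40 : 4 ∣ d00) (h41 : 4 ∣ d01)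
    (hp : bp + 1 = d0H) (hm : bm + 1 = d0R) (b1H : b1 = d1H) (b1R : b1 = d1R) :
    5 * bp + 4 = 4 * b1 + bm ∧ (4 : ℤ) ∣ 1 - b1 + bp := by
  subst hp hm b1H
  subst b1R
  have h1 : ((bp + 1 : ℕ) : ℝ) - b1 = (d00 : ℝ) - d01 := by rw [eH, hH0, e0]
  have h2 : (((bp + 1 : ℕ) : ℝ) - b1) - (((bm + 1 : ℕ) : ℝ) - b1) = -4 * ((d00 : ℝ) - d01) := by
    rw [eH, eR, hR, e0]
  have h1' : ((bp + 1 : ℕ) : ℤ) - b1 = (d00 : ℤ) - d01 := by exact_mod_cast h1
  have h2' : (((bp + 1 : ℕ) : ℤ) - b1) - (((bm + 1 : ℕ) : ℤ) - b1) = -4 * ((d00 : ℤ) - d01) := by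
    exact_mod_cast h2
  obtain ⟨x, hx⟩ := h40
  obtain ⟨y, hy⟩ := h41
  subst hx hy
  push_cast at h1' h2'
  refine ⟨by omega, ⟨(x : ℤ) - y, by linarith⟩⟩

section out

variable {M : Type} [TopologicalSpace M] [T2Space M] [CompactSpace M]
  [ChartedSpace E4 M] [IsManifold 𝓘(ℝ, E4) ∞ M]

/-- the conclusion of `SIG235`. -/
def SigOut (w : Trip M) : Prop :=
  ∃ (b1 bp bm : ℕ) (P N : Submodule ℝ (H2 M)), HasB1 M b1 ∧
    FiniteDimensional ℝ (H2 M) ∧ P ⊔ N = ⊤ ∧
    Module.finrank ℝ P = bp ∧ Module.finrank ℝ N = bm ∧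
    (∀ x ∈ P, x ≠ 0 → 0 < ip (w 0) x x) ∧ (∀ x ∈ N, x ≠ 0 → ip (w 0) x x < 0) ∧
    (∀ x ∈ P, ∀ y ∈ N, ip (w 0) x y = 0) ∧
    5 * bp + 4 = 4 * b1 + bm ∧ (4 : ℤ) ∣ 1 - b1 + bp

/-- the output of HODGE, in terms of the kernel dimensions. -/
def HodgeOut (w : Trip M) (d0H d1H d0R d1R : ℕ) : Prop :=
  ∃ (P N : Submodule ℝ (H2 M)), HasB1 M d1H ∧ d1H = d1R ∧
    FiniteDimensional ℝ (H2 M) ∧ P ⊔ N = ⊤ ∧
    Module.finrank ℝ P + 1 = d0H ∧ Module.finrank ℝ N + 1 = d0R ∧
    (∀ x ∈ P, x ≠ 0 → 0 < ip (w 0) x x) ∧ (∀ x ∈ N, x ≠ 0 → ip (w 0) x x < 0) ∧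
    (∀ x ∈ P, ∀ y ∈ N, ip (w 0) x y = 0)

theorem sigOut_of {w : Trip M} {d0H d1H d0R d1R d00 d01 : ℕ} {IH IR I0 : ℝ}
    (h : HodgeOut w d0H d1H d0R d1R)
    (eH : (d0H : ℝ) - d1H = IH) (eR : (d0R : ℝ) - d1R = IR) (e0 : (d00 : ℝ) - d01 = I0)
    (hH0 : IH = I0) (hR : IH - IR = -4 * I0) (h40 : 4 ∣ d00) (h41 : 4 ∣ d01) : SigOut w := by
  obtain ⟨P, N, hb, he, hf, hs, hp, hm, h1, h2, h3⟩ := h
  obtain ⟨e1, e2⟩ := sig_num eH eR e0 hH0 hR h40 h41 hp hm rfl he
  exact ⟨d1H, _, _, P, N, hb, hf, hs, rfl, rfl, h1, h2, h3, e1, e2⟩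

end out

/-- the statement over the Riemannian instances. -/
def Inst : Prop :=
  ∀ (M : Type) [MetricSpace M] [CompactSpace M] [ConnectedSpace M]
    [ChartedSpace (EuclideanSpace ℝ (Fin 4)) M] [IsManifold (𝓡 4) ∞ M]
    [RiemannianBundle (fun p : M => TangentSpace (𝓡 4) p)]
    [IsContMDiffRiemannianBundle (𝓡 4) ∞ (EuclideanSpace ℝ (Fin 4))
      (fun p : M => TangentSpace (𝓡 4) p)]
    [IsRiemannianManifold (𝓡 4) M] [MeasurableSpace M] [BorelSpace M]
    [SecondCountableTopology M] [Nonempty M] (w : Trip M), Pos3 w →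
    ∀ (e : Fin 3 → F2 E4 M), IndTri_451.IsTri (IndTri_451.und w) e →
    (∀ (x : M) (u v : TangentSpace 𝓘(ℝ, E4) x), inner ℝ u v = at2 (IndTri_451.gg e) x u v) →
    SigOut w

/-- the descent. -/
theorem sig235_of (H : Inst) : SIG235.{0} := by
  intro M tM _ _ _ _ _ w hw
  obtain ⟨e, he⟩ := IndTri_451.exists_tri hw
  obtain ⟨rb, crb, mM, rfl, hd, hin⟩ := Riem_399.exists_riem (QSTri_451.met_gg he)
  haveI : IsRiemannianManifold (𝓡 4) M := ⟨hd⟩
  letI : MeasurableSpace M := borel M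
  haveI : BorelSpace M := ⟨rfl⟩
  haveI := Riem_399.secondCountable (M := M)
  exact H M w hw e he hin

end

end Crest.Agent.R235.IndSig_723
end

-- ▼ part R235/IndR_819
section

/-!
Row 235, package IND, leaf L4 DENR (helper819).

The Clifford pair of the TRUE `Λ⁻` (`pairR s hv` of R249/Tz6_805, `ℝ ⊕ Λ⁻ → T`) over the volume form
`volF F` (`RiemC_399`), and its index density in the flipped adapted frame.

* `flipE e = (e_0, e_1, e_2, -e_3)`; `onf_flip`; `Rm_flipE`;
* ring level: `pf_EE_flip : pf EE'_c = - pf PP_c`, `TT_flip : TT F' = - TT F`;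
* `volAt_flip` : an adapted frame is negative for `F = ⟨I_b ·, ·⟩`, so `VolAt (volF F) z (flipE e)`;
* `dnR` : `dn D0 z - dn D1 z = 1/(32π²) ev (4 ∑ pf PP_c) - 1/(192π²) ev (TT F)` (adapted frame);
* `dnH` : the same for `pairH` : `1/(32π²) ev (-4 ∑ pf EE_c) + 1/(192π²) ev (TT F)`;
* `dn_HR` : `(dn D0H - dn D1H) - (dn D0R - dn D1R) = -4 (1/(192π²) ev (TT F))`;
* `int_HR` : the integrated form;
* `index_R` : `d0 - d1 = ∫ (dn D0 - dn D1)` for `pairR`.
-/

set_option autoImplicit false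
set_option maxSynthPendingDepth 3
set_option linter.unusedSectionVars false
set_option linter.unusedSimpArgs false
set_option linter.unusedVariables false

open Filter Topology Set Bundle Manifold MeasureTheory
open Matrix hiding J
open scoped ContDiff ENNReal NNReal
open Crest.GeometryTopology.CoordMetric Crest.GeometryTopology.ChartCurvature
open Crest.Agent.R202.Tens
open Crest.Agent.R249.Fr129
open Crest.Agent.R249.C2_198 (EE eta e0 cK tO K)
open Crest.Agent.R249.Sg129 (ONF SG ev)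
open Crest.Agent.R235.IndAlg_167 Crest.Agent.R235.IndDen_167

noncomputable section

namespace Crest.Agent.R235.IndR_819

/-! ### ring level -/

section ring

open Crest.Agent.R249.Fr129.Frame (e3 e3_sq half)

variable {S : Type*} [CommRing S] [Algebra ℝ S] {F F' : R249.Fr129.Frame 4 S}
  (hR : ∀ i j k l, F'.Rm i j k l
    = (e3 i : S) * e3 j * e3 k * e3 l * F.Rm i j k l)

include hR in
lemma EE_flip (i j : Fin 4) (c : Fin 3) :
    EE F' i j c = - ((e3 c.succ : S) * e3 i * e3 j * F.PP i j c) := by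
  fin_cases c <;> simp [EE, R249.Fr129.Frame.PP, hR, e3] <;> ring

include hR in
lemma PP_flip (i j : Fin 4) (c : Fin 3) :
    F'.PP i j c = - ((e3 c.succ : S) * e3 i * e3 j * EE F i j c) := by
  fin_cases c <;> simp [EE, R249.Fr129.Frame.PP, hR, e3] <;> ring

lemma e3_sq' (i : Fin 4) : (e3 i : S) * e3 i = 1 := R249.Fr129.Frame.cast_sq e3_sq i

include hR in
/-- `pf EE'_c = - pf PP_c` -/
theorem pf_EE_flip (c : Fin 3) :
    pf (fun i j => EE F' i j c) = - pf (fun i j => F.PP i j c) := by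
  simp only [pf, EE_flip hR]
  have h := e3_sq' (S := S) c.succ
  have h0 : (e3 0 : S) = 1 := by simp [e3]
  have h1 : (e3 1 : S) = 1 := by simp [e3]
  have h2 : (e3 2 : S) = 1 := by simp [e3]
  have h3 : (e3 3 : S) = -1 := by simp [e3]
  rw [h0, h1, h2, h3]
  linear_combination (-(F.PP 0 1 c * F.PP 2 3 c - F.PP 0 2 c * F.PP 1 3 c
    + F.PP 0 3 c * F.PP 1 2 c)) * h

include hR in
/-- `TT F' = - TT F` -/
theorem TT_flip : TT F' = - TT F := by
  rw [TT, TT, ← Finset.sum_neg_distrib]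
  refine Finset.sum_congr rfl fun i _ => ?_
  rw [← Finset.sum_neg_distrib]
  refine Finset.sum_congr rfl fun j _ => ?_
  have hi := e3_sq' (S := S) i
  have hj := e3_sq' (S := S) j
  have e1 : ∀ c, F'.PP i j c ^ 2 = EE F i j c ^ 2 := by
    intro c
    have h := e3_sq' (S := S) c.succ
    rw [PP_flip hR]
    calc (-((e3 c.succ : S) * e3 i * e3 j * EE F i j c)) ^ 2
        = ((e3 c.succ : S) * e3 c.succ) * ((e3 i : S) * e3 i) * ((e3 j : S) * e3 j)
          * EE F i j c ^ 2 := by ring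
      _ = EE F i j c ^ 2 := by rw [h, hi, hj]; ring
  have e2 : ∀ c, EE F' i j c ^ 2 = F.PP i j c ^ 2 := by
    intro c
    have h := e3_sq' (S := S) c.succ
    rw [EE_flip hR]
    calc (-((e3 c.succ : S) * e3 i * e3 j * F.PP i j c)) ^ 2
        = ((e3 c.succ : S) * e3 c.succ) * ((e3 i : S) * e3 i) * ((e3 j : S) * e3 j)
          * F.PP i j c ^ 2 := by ring
      _ = F.PP i j c ^ 2 := by rw [h, hi, hj]; ring
  simp only [e1, e2]
  ring

end ring

/-! ### the flipped frame -/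

section flip

open Crest.Agent.R249.Fr129.Frame (e3 e3_sq)

/-- `(e_0, e_1, e_2, -e_3)` -/
def flipE (e : Fin 4 → EuclideanSpace ℝ (Fin 4) → EuclideanSpace ℝ (Fin 4)) :
    Fin 4 → EuclideanSpace ℝ (Fin 4) → EuclideanSpace ℝ (Fin 4) :=
  fun i y => ((e3 i : ℤ) : ℝ) • e i y

variable {g : MetricField 4} {U : Set (EuclideanSpace ℝ (Fin 4))} {x : EuclideanSpace ℝ (Fin 4)}
  {e : Fin 4 → EuclideanSpace ℝ (Fin 4) → EuclideanSpace ℝ (Fin 4)}

lemma e3r (i : Fin 4) : ((e3 i : ℤ) : ℝ) * ((e3 i : ℤ) : ℝ) = 1 := by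
  exact_mod_cast congrArg (Int.cast (R := ℝ)) (e3_sq i)

theorem onf_flip (h : ONF g U x e) : ONF g U x (flipE e) where
  riem := h.riem
  mem := h.mem
  smooth i := (contDiffAt_const (c := ((e3 i : ℤ) : ℝ))).smul (h.smooth i)
  orth := by
    filter_upwards [h.orth] with y hy
    intro i j
    have h1 := hy i j
    simp only [flipE, map_smul, _root_.smul_apply, smul_eq_mul]
    rw [h1]
    split_ifs with hij
    · subst hij
      linarith [e3r i]
    · simp

theorem curv_smul_all {E : Type*} [NormedAddCommGroup E] [NormedSpace ℝ E]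
    (Γ : E → E →L[ℝ] E →L[ℝ] E) (x W X Y : E) (a b c : ℝ) :
    curv Γ x (a • W) (b • X) (c • Y) = (a * b * c) • curv Γ x W X Y := by
  unfold curv
  simp only [map_smul, _root_.smul_apply, smul_sub, smul_add, smul_smul]
  congr 1
  · congr 1
    · congr 1
      · congr 1; ring
      · congr 1; ring
    · congr 1; ring
  · congr 1; ring

theorem Rm_flipE (h : ONF g U x e) (h' : ONF g U x (flipE e)) (i j k l : Fin 4) :
    h'.frameOf.Rm i j k l = (e3 i : SG x) * e3 j * e3 k * e3 l * h.frameOf.Rm i j k l := by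
  have h1 := h'.Rm_germ i j k l
  have h2 := h.Rm_germ i j k l
  have h3 : (e3 i : SG x) * e3 j * e3 k * e3 l
      = algebraMap ℝ (SG x) (((e3 i : ℤ) : ℝ) * ((e3 j : ℤ) : ℝ) * ((e3 k : ℤ) : ℝ)
        * ((e3 l : ℤ) : ℝ)) := by
    simp only [map_mul, map_intCast]
  rw [h1, h2, h3, R249.Sg129.algebraMap_eq, R249.Sg129.germ_mul]
  refine R249.Sg129.germ_eq (Eventually.of_forall fun y => ?_)
  simp only [flipE, curv_smul_all, map_smul, _root_.smul_apply, smul_eq_mul]
  ring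

end flip

/-! ### orientation -/

section orient

open Crest.Agent.R249.Fr129.Frame (e3)
open Crest.Agent.R240 Crest.Agent.R240.Ch
open Crest.Agent.R235.RiemB_399 Crest.Agent.R235.RiemC_399 Crest.Agent.R235.IndVol_57
open Crest.Agent.R249.Tz2_805 Crest.Agent.R249.Vf281 Crest.Agent.R247.Bo84
open Crest.Agent.R249.Dic805 (tvy inner_tvy)
open Crest.Agent.R235.Ind167

variable {M : Type*} [TopologicalSpace M] [ChartedSpace E4 M] [IsManifold 𝓘(ℝ, E4) ∞ M]
  [RiemannianBundle (fun x : M => TangentSpace 𝓘(ℝ, E4) x)]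
  [IsContMDiffRiemannianBundle 𝓘(ℝ, E4) ∞ E4 (fun x : M => TangentSpace 𝓘(ℝ, E4) x)]

variable {q : QS M} {b : Fin 3} {F : F2 E4 M} {J : EndF E4 M}
  (hq : ∀ (x : M) (u v : TangentSpace 𝓘(ℝ, E4) x), at2 F x u v = inner ℝ (q.op b x u) v)
  {z : M} {e : Fin 4 → E4 → E4}
  (h : ONF (chartMetric 4 M z) (chartAt E4 z).target (chartCentre 4 M z) e) (ha : Adp q z e)

include hq h ha in
/-- the values of the form on an adapted frame -/
theorem rep_adp (i j : Fin 4) : rep z F (chartCentre 4 M z) (e i (chartCentre 4 M z))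
    (e j (chartCentre 4 M z)) = K ℝ b j i := by
  have hc := centre_mem (n := 4) z
  have ha0 := ha.self_of_nhds
  have ho := h.orth.self_of_nhds
  have hu : (inner ℝ (tvy z (chartCentre 4 M z) (e 0 (chartCentre 4 M z)))
      (tvy z (chartCentre 4 M z) (e 0 (chartCentre 4 M z))) : ℝ) = 1 := by
    rw [inner_tvy hc, ho 0 0, if_pos rfl]
  have h1 := dSy_tcc z hc (e i (chartCentre 4 M z))
  have h2 := dSy_tcc z hc (e j (chartCentre 4 M z))
  rw [rep_apply, ← h1, ← h2]
  refine (hq _ _ _).trans ?_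
  change (inner ℝ (q.op b _ (tvy z (chartCentre 4 M z) (e i (chartCentre 4 M z))))
    (tvy z (chartCentre 4 M z) (e j (chartCentre 4 M z))) : ℝ) = _
  rw [ha0 i, ha0 j, q.op_fr, sum_inner]
  simp only [real_inner_smul_left, q.fr_orth _ hu]
  simp

include hq h ha in
/-- **an adapted frame is negative** -/
theorem WF_adp : WF (rep z F (chartCentre 4 M z)) (rep z F (chartCentre 4 M z))
    (fun i => e i (chartCentre 4 M z)) = -2 := by
  unfold WF
  simp only [rep_adp hq h ha]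
  fin_cases b <;> simp [K] <;> norm_num

include hq h ha in
theorem WF_flip : WF (rep z F (chartCentre 4 M z)) (rep z F (chartCentre 4 M z))
    (fun i => flipE e i (chartCentre 4 M z)) = 2 := by
  have h1 := WF_adp hq h ha
  unfold WF at h1 ⊢
  simp only [flipE, map_smul, _root_.smul_apply, smul_eq_mul]
  have h0 : ((e3 0 : ℤ) : ℝ) = 1 := by simp [e3]
  have h1' : ((e3 1 : ℤ) : ℝ) = 1 := by simp [e3]
  have h2 : ((e3 2 : ℤ) : ℝ) = 1 := by simp [e3]
  have h3 : ((e3 3 : ℤ) : ℝ) = -1 := by simp [e3]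
  rw [h0, h1', h2, h3]
  linarith

include hq h ha in
/-- **the flipped adapted frame is positive** -/
theorem volAt_flip (hC : Comp F J) : R249.Tz805.VolAt (volF F) z (flipE e) :=
  volAt_volF hC z (onf_flip h) (by rw [WF_flip hq h ha]; norm_num)

end orient

/-! ### densities -/

section dens

open Crest.Agent.R249.Tz1_805 Crest.Agent.R249.Tz2_805 Crest.Agent.R249.Tz805
open Crest.Agent.R249.Tv57 Crest.Agent.R249.HK9_714
open Crest.Agent.R235.Ind167
open Crest.Agent.R240 Crest.Agent.R240.Ch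
open Crest.Agent.R235.RiemC_399

variable {M : Type*} [MetricSpace M] [ChartedSpace (EuclideanSpace ℝ (Fin 4)) M]
  [IsManifold (𝓡 4) ∞ M]
  [RiemannianBundle (fun p : M => TangentSpace (𝓡 4) p)]
  [IsContMDiffRiemannianBundle (𝓡 4) ∞ (EuclideanSpace ℝ (Fin 4)) (fun p : M => TangentSpace (𝓡 4) p)]
  [IsRiemannianManifold (𝓡 4) M] [MeasurableSpace M] [BorelSpace M]
  [SecondCountableTopology M] [Nonempty M]

variable {κ : Type} [Fintype κ] {s : PF 4 M κ}
  {z : M} {e : Fin 4 → EuclideanSpace ℝ (Fin 4) → EuclideanSpace ℝ (Fin 4)}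
  (h : ONF (chartMetric 4 M z) (chartAt (EuclideanSpace ℝ (Fin 4)) z).target
      (chartCentre 4 M z) e)

section R

variable {vol : (z : M) → (Fin 4 → TangentSpace 𝓘(ℝ, EuclideanSpace ℝ (Fin 4)) z) → ℝ}
  {hv : IsVol vol} {T : ToF 4 M} {D0 : Dat 4 M (Option (κ × κ))} {D1 : Dat 4 M κ}
  (W : WD T (pairR s hv) D0 D1)

include h W in
/-- the index density of `ℝ ⊕ Λ⁻ → T` in a positive frame -/
theorem dnR_vol (hz : VolAt vol z e) : dn D0 z - dn D1 z
    = 1 / (32 * Real.pi ^ 2) * ev (-4 * ∑ c, pf (fun i j => EE h.frameOf i j c))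
      + 1 / (192 * Real.pi ^ 2) * ev (TT h.frameOf) := by
  rw [W.dn0 (cloc_R s hv h hz), W.dn1 (cloc_R s hv h hz)]
  have t1 := congrArg ev (trQQ h.frameOf (eta h.frameOf))
  have t2 := congrArg ev (tO_b h.frameOf (eta h.frameOf))
  rw [bA0_eta, bA1_eta, map_sub] at t1 t2
  simp only [GG_eta] at t1
  linear_combination (1 / (32 * Real.pi ^ 2)) * t1 + (1 / (192 * Real.pi ^ 2)) * t2

include h W in
/-- **the index density of `ℝ ⊕ Λ⁻ → T` in a frame whose flip is positive** -/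
theorem dnR (hz : VolAt vol z (flipE e)) : dn D0 z - dn D1 z
    = 1 / (32 * Real.pi ^ 2) * ev (4 * ∑ c, pf (fun i j => h.frameOf.PP i j c))
      - 1 / (192 * Real.pi ^ 2) * ev (TT h.frameOf) := by
  have hR := Rm_flipE h (onf_flip h)
  rw [dnR_vol (onf_flip h) W hz, TT_flip hR]
  simp only [pf_EE_flip hR, Finset.sum_neg_distrib, map_neg, map_mul, map_ofNat]
  ring

end R

section H

variable {q : QS M} (ha : Adp q z e) {T : ToF 4 M} {D0 : Dat 4 M (Fin 4)} {D1 : Dat 4 M κ}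
  (W : WD T (pairH q s) D0 D1)


include h W ha in
/-- **the index density of the HODGE pair in an adapted frame** -/
theorem dnH : dn D0 z - dn D1 z
    = 1 / (32 * Real.pi ^ 2) * ev (-4 * ∑ c, pf (fun i j => EE h.frameOf i j c))
      + 1 / (192 * Real.pi ^ 2) * ev (TT h.frameOf) := by
  have hC := clocQ s (sm_etaV q s) h ha
  have hth : thF (etaV q s) z e = eta h.frameOf := by
    funext k c
    exact vg_etaV s h ha c k
  rw [hth] at hC
  rw [W.dn0 hC, W.dn1 hC]
  have t1 := congrArg ev (trQQ h.frameOf (eta h.frameOf))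
  have t2 := congrArg ev (tO_b h.frameOf (eta h.frameOf))
  rw [map_sub] at t1 t2
  simp only [GG_eta] at t1
  linear_combination (1 / (32 * Real.pi ^ 2)) * t1 + (1 / (192 * Real.pi ^ 2)) * t2

end H

section HR

variable {q : QS M} {vol : (z : M) → (Fin 4 → TangentSpace 𝓘(ℝ, EuclideanSpace ℝ (Fin 4)) z) → ℝ}
  {hv : IsVol vol} {T : ToF 4 M}
  {D0 : Dat 4 M (Fin 4)} {D1 : Dat 4 M κ} (WH : WD T (pairH q s) D0 D1)
  {E0 : Dat 4 M (Option (κ × κ))} {E1 : Dat 4 M κ} (WR : WD T (pairR s hv) E0 E1)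

include h WH WR in
/-- **`H - R = -4 ρ`** -/
theorem dn_HR (ha : Adp q z e) (hz : VolAt vol z (flipE e)) :
    (dn D0 z - dn D1 z) - (dn E0 z - dn E1 z)
      = -4 * (1 / (192 * Real.pi ^ 2) * ev (TT h.frameOf)) := by
  rw [dnH h ha WH, dnR h WR hz]
  have t := congrArg ev (TT_eq h.frameOf)
  rw [Finset.sum_add_distrib, mul_add, map_add] at t
  generalize (∑ c, pf (fun i j => EE h.frameOf i j c)) = A at t ⊢
  generalize (∑ c, pf (fun i j => h.frameOf.PP i j c)) = B at t ⊢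
  have e1 : ev (-4 * A) = - ev (4 * A) := by rw [neg_mul, map_neg]
  have hpi : Real.pi ^ 2 ≠ 0 := by positivity
  have t2 : ev (4 * A) = ev (TT h.frameOf) - ev (4 * B) := by linarith
  rw [e1, t2]
  field_simp
  ring

/-- **integrated form**: for the true `Λ⁻` of `F = ⟨I_b ·, ·⟩` and `r0 = 1/(192π²) ev (TT F)` -/
theorem int_HR {b : Fin 3} {F : F2 E4 M} {J : EndF E4 M} (hC : Comp F J)
    (hq : ∀ (x : M) (u v : TangentSpace 𝓘(ℝ, E4) x), at2 F x u v = inner ℝ (q.op b x u) v)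
    {D0 : Dat 4 M (Fin 4)} {D1 : Dat 4 M κ} (WH : WD T (pairH q s) D0 D1)
    {E0 : Dat 4 M (Option (κ × κ))} {E1 : Dat 4 M κ} (WR : WD T (pairR s (isVol_volF hC)) E0 E1)
    {r0 : M → ℝ} (hr0 : ∀ (z : M) (e : Fin 4 → EuclideanSpace ℝ (Fin 4) → EuclideanSpace ℝ (Fin 4))
      (h : ONF (chartMetric 4 M z) (chartAt (EuclideanSpace ℝ (Fin 4)) z).target
        (chartCentre 4 M z) e), Adp q z e → r0 z = 1 / (192 * Real.pi ^ 2) * ev (TT h.frameOf))
    (iH : Integrable (fun z => dn D0 z - dn D1 z) (μHE[4] : Measure M))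
    (iR : Integrable (fun z => dn E0 z - dn E1 z) (μHE[4] : Measure M)) :
    (∫ z, (dn D0 z - dn D1 z) ∂(μHE[4] : Measure M)) - ∫ z, (dn E0 z - dn E1 z) ∂(μHE[4] : Measure M)
      = -4 * ∫ z, r0 z ∂(μHE[4] : Measure M) := by
  rw [← integral_sub iH iR, ← integral_const_mul]
  congr 1
  funext z
  obtain ⟨e, h, ha⟩ := exists_adp q z
  rw [hr0 z e h ha]
  exact dn_HR h WH WR ha (volAt_flip hq h ha hC)

end HR

/-- **the index formula for `pairR`** -/
theorem index_R {M : Type*} [MetricSpace M] [CompactSpace M] [ConnectedSpace M]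
    [ChartedSpace (EuclideanSpace ℝ (Fin 4)) M] [IsManifold (𝓡 4) ∞ M]
    [RiemannianBundle (fun p : M => TangentSpace (𝓡 4) p)]
    [IsContMDiffRiemannianBundle (𝓡 4) ∞ (EuclideanSpace ℝ (Fin 4))
      (fun p : M => TangentSpace (𝓡 4) p)]
    [IsRiemannianManifold (𝓡 4) M] [MeasurableSpace M] [BorelSpace M]
    [SecondCountableTopology M] [Nonempty M] {κ : Type} [Fintype κ] {s : PF 4 M κ}
    {vol : (z : M) → (Fin 4 → TangentSpace 𝓘(ℝ, EuclideanSpace ℝ (Fin 4)) z) → ℝ}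
    {hv : IsVol vol} {T : ToF 4 M} {D0 : Dat 4 M (Option (κ × κ))} {D1 : Dat 4 M κ}
    (W : WD T (pairR s hv) D0 D1) (R : DPair D0 D1) :
    ∃ (d0 d1 : ℕ) (_ : KerD D0 R.A d0) (_ : KerD D1 R.B d1),
      Integrable (fun z => dn D0 z - dn D1 z) (μHE[4] : Measure M) ∧
      (d0 : ℝ) - d1 = ∫ z, (dn D0 z - dn D1 z) ∂(μHE[4] : Measure M) := by
  have z0 : M := Classical.arbitrary M
  have hr : ∀ z : M, ∑ a, D0.p a a z = 4 ∧ ∑ a, D1.p a a z = 4 := by
    intro z
    obtain ⟨e, h, hz⟩ := hv z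
    have h0 := W.rank0 (cloc_R s hv h hz)
    have h1 := W.rank1 (cloc_R s hv h hz)
    simp only [Fintype.card_fin] at h0 h1
    exact ⟨by exact_mod_cast h0, by exact_mod_cast h1⟩
  refine index_D R249.HK286.chartStmt R
    (W.exists_ne0 z0 (by rw [(hr z0).1]; norm_num))
    (by
      obtain ⟨a, -, ha⟩ := Finset.exists_ne_zero_of_sum_ne_zero
        (show ∑ a, D1.p a a z0 ≠ 0 by rw [(hr z0).2]; norm_num)
      exact ⟨z0, a, ha⟩)
    (fun z => by rw [(hr z).1, (hr z).2]) (fun z => ?_)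
  obtain ⟨e, h, hz⟩ := hv z
  rw [W.tr0 (cloc_R s hv h hz), W.tr1 (cloc_R s hv h hz)]
  have t1 := congrArg ev (IndDen_167.trQ h.frameOf (eta h.frameOf))
  rw [bA0_eta, bA1_eta] at t1
  exact t1

end dens

end Crest.Agent.R235.IndR_819
end
end

-- ▼ part R235/IndSig2_723

/-!
Row 235 (S0364), package IND, leaf L5 (helper723), part 2: `SIG235` from `KER4` (quaternionic kernels)
and `HODGE` (helper194).

* `KER4`  : the kernels of the quaternionic pair have dimensions divisible by four;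
* `HODGE` : the kernels of `pairH` and `pairR` in terms of `H¹`, `H²`;
* `sig235_of_hodge : KER4 → HODGE → SIG235.{0}`.
-/

set_option autoImplicit false
set_option maxSynthPendingDepth 3
set_option linter.unusedSectionVars false
set_option linter.unusedVariables false
set_option maxHeartbeats 1000000

open Filter Topology Set Bundle Manifold MeasureTheory
open scoped ContDiff ENNReal NNReal
open Crest.GeometryTopology.CoordMetric Crest.GeometryTopology.ChartCurvature
  Crest.GeometryTopology.PointedLimit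
open Crest.Agent.R240 Crest.Agent.R240.Ch
open Crest.Agent.R249.Tz2_805 Crest.Agent.R249.Tz805 Crest.Agent.R249.Vf281
open Crest.Agent.R249.HK9_714 Crest.Agent.R249.FrmB_285
open Crest.Agent.R249.Tv57 hiding GG
open Crest.Agent.R235.DichProps_723 Crest.Agent.R235.Ind167 Crest.Agent.R235.IndSig_723
open Crest.Agent.R235.IndR_819 Crest.Agent.R235.RiemC_399 Crest.Agent.R235.QSTri_451

noncomputable section

namespace Crest.Agent.R235.IndSig2_723

/-- **KER4** : the kernels of the quaternionic pair. -/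
def KER4 : Prop :=
  ∀ (M : Type) [MetricSpace M] [CompactSpace M] [ConnectedSpace M]
    [ChartedSpace (EuclideanSpace ℝ (Fin 4)) M] [IsManifold (𝓡 4) ∞ M]
    [RiemannianBundle (fun p : M => TangentSpace (𝓡 4) p)]
    [IsContMDiffRiemannianBundle (𝓡 4) ∞ (EuclideanSpace ℝ (Fin 4))
      (fun p : M => TangentSpace (𝓡 4) p)]
    [IsRiemannianManifold (𝓡 4) M] [MeasurableSpace M] [BorelSpace M]
    [SecondCountableTopology M] [Nonempty M] (κ : Type) [Fintype κ] (T : ToF 4 M) (q : QS M)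
    (s : PF 4 M κ) (d0 d1 : ℕ),
    Nonempty (KerD (R249.Wk352.dat0 T (pairZ q s)) (R249.Wk352.dpair T (pairZ q s)).A d0) →
    Nonempty (KerD (R249.Wk352.dat0 T (R249.Wk352.swapP (pairZ q s)))
      (R249.Wk352.dpair T (pairZ q s)).B d1) → 4 ∣ d0 ∧ 4 ∣ d1

/-- **HODGE** : the kernels of `pairH` and `pairR`. -/
def HODGE : Prop :=
  ∀ (M : Type) [MetricSpace M] [CompactSpace M] [ConnectedSpace M]
    [ChartedSpace (EuclideanSpace ℝ (Fin 4)) M] [IsManifold (𝓡 4) ∞ M]
    [RiemannianBundle (fun p : M => TangentSpace (𝓡 4) p)]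
    [IsContMDiffRiemannianBundle (𝓡 4) ∞ (EuclideanSpace ℝ (Fin 4))
      (fun p : M => TangentSpace (𝓡 4) p)]
    [IsRiemannianManifold (𝓡 4) M] [MeasurableSpace M] [BorelSpace M]
    [SecondCountableTopology M] [Nonempty M] (w : Trip M) (hw : Pos3 w)
    (e : Fin 3 → F2 E4 M) (he : IndTri_451.IsTri (IndTri_451.und w) e)
    (hin : ∀ (x : M) (u v : TangentSpace 𝓘(ℝ, E4) x), inner ℝ u v = at2 (IndTri_451.gg e) x u v)
    (κ : Type) [Fintype κ] (T : ToF 4 M) (s : PF 4 M κ) (d0H d1H d0R d1R : ℕ),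
    Nonempty (KerD (R249.Wk352.dat0 T (pairH (qs he hin) s))
      (R249.Wk352.dpair T (pairH (qs he hin) s)).A d0H) →
    Nonempty (KerD (R249.Wk352.dat0 T (R249.Wk352.swapP (pairH (qs he hin) s)))
      (R249.Wk352.dpair T (pairH (qs he hin) s)).B d1H) →
    Nonempty (KerD (R249.Wk352.dat0 T (pairR s (isVol_volF (comp_w he hin))))
      (R249.Wk352.dpair T (pairR s (isVol_volF (comp_w he hin)))).A d0R) →
    Nonempty (KerD (R249.Wk352.dat0 T (R249.Wk352.swapP (pairR s (isVol_volF (comp_w he hin)))))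
      (R249.Wk352.dpair T (pairR s (isVol_volF (comp_w he hin)))).B d1R) →
    HodgeOut w d0H d1H d0R d1R

theorem inst_of (h4 : KER4) (hH : HODGE) : Inst := by
  intro M _ _ _ _ _ _ _ _ _ _ _ _ w hw e he hin
  obtain ⟨m, ⟨s⟩⟩ := R249.Tz2_805.exists_PF (n := 4) (M := M)
  let T : ToF 4 M := R249.Tof352.tof 4 M
  set q : QS M := qs he hin with hq
  obtain ⟨d0H, d1H, k0H, k1H, iH, eH⟩ := index_H T q s
  obtain ⟨d00, d01, k00, k01, i0, e0⟩ := index_Z T q s
  have hC := comp_w he hin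
  obtain ⟨d0R, d1R, k0R, k1R, iR, eR⟩ := index_R (wdd T (pairR s (isVol_volF hC)))
    (R249.Wk352.dpair T (pairR s (isVol_volF hC)))
  obtain ⟨h40, h41⟩ := h4 M _ T q s d00 d01 ⟨k00⟩ ⟨k01⟩
  have hout := hH M w hw e he hin _ T s d0H d1H d0R d1R ⟨k0H⟩ ⟨k1H⟩ ⟨k0R⟩ ⟨k1R⟩
  have hqq : ∀ (x : M) (u v : TangentSpace 𝓘(ℝ, E4) x),
      at2 (IndTri_451.und w 0) x u v = inner ℝ (q.op 0 x u) v := by
    intro x u v
    rw [← he.e_zero]
    exact e_eq_inner he hin 0 x u v
  have hHR := int_HR (b := 0) hC hqq (wdd T (pairH q s)) (wdd T (pairR s (isVol_volF hC)))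
    (r0 := dens T (pairZ q s)) (fun z e h ha => rZ_eq T s h ha) iH iR
  -- the integral of the density of `pairH`
  have hHi : ∫ z, dens T (pairH q s) z ∂(μHE[4] : Measure M) =
      ∫ z, dens T (pairZ q s) z ∂(μHE[4] : Measure M) := by
    rw [← integral_dens T q s 1]
    exact integral_congr_ae (Filter.Eventually.of_forall fun z => dens_H_poly T q s z)
  exact sigOut_of hout (eH.trans hHi.symm) eR e0 hHi hHR h40 h41

/-- **`SIG235`** from `KER4` and `HODGE`. -/
theorem sig235_of_hodge (h4 : KER4) (hH : HODGE) : SIG235.{0} := sig235_of (inst_of h4 hH)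

end Crest.Agent.R235.IndSig2_723
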