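import Mathlib
import Crest.Agent.R235.IndTriA_451
import Crest.Agent.R235.Defs_837

/-!
Row 235 (S0364), helper451, task 196 (IND-1 TRI).
Part 2: Gram-Schmidt of a positive triple on a manifold, the quaternions `I_i`, the metric.
`exists_tri`: `Pos3 w → ∃ e, IsTri (w as F2) e`; `II e i` are the almost complex structures, `gg e`
the metric.
-/

set_option autoImplicit false
set_option maxSynthPendingDepth 3

open Set Function Filter
open scoped Manifold ContDiff Topology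

namespace Crest.Agent.R235.IndTri_451

open Crest.Agent.R240 Crest.Agent.R240.Ch
open Crest.Agent.R240.En4 (contDiffOn_ent contDiffOn_W smoothF_qG smooth2_fmul rep_fmul' sF_mul
  sF_neg sF_sub sF_add sF_const sF_sqrt sF_continuous)

noncomputable section

section Glob

variable {M : Type*} [TopologicalSpace M] [ChartedSpace E4 M] [IsManifold 𝓘(ℝ, E4) ∞ M]

/-- `I_a` on the manifold. -/
def jG (b c : F2 E4 M) : EndF E4 M := fun x => jj (at2 b x) (at2 c x)

/-- the metric on the manifold. -/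
def gG (a b c : F2 E4 M) : F2 E4 M := fun x => gf (at2 a x) (at2 b x) (at2 c x)

omit [TopologicalSpace M] [ChartedSpace E4 M] [IsManifold 𝓘(ℝ, E4) ∞ M] in
theorem atJ_jG (b c : F2 E4 M) (x : M) : atJ (jG b c) x = jj (at2 b x) (at2 c x) := rfl

omit [TopologicalSpace M] [ChartedSpace E4 M] [IsManifold 𝓘(ℝ, E4) ∞ M] in
theorem at2_gG (a b c : F2 E4 M) (x : M) :
    at2 (gG a b c) x = gf (at2 a x) (at2 b x) (at2 c x) := rfl

theorem rep_W_ne {b : F2 E4 M} (hb : ∀ x, Alt (at2 b x)) (hne : ∀ x, W (at2 b x) (at2 b x) ≠ 0)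
    {p : M} {y : E4} (hy : y ∈ (chartAt E4 p).target) : W (rep p b y) (rep p b y) ≠ 0 := by
  rw [Int.W_rep hb hb]
  exact mul_ne_zero (Int.det_tcc_ne (symm_mem hy)) (hne _)

theorem repJ_jG {b : F2 E4 M} (hb : ∀ x, Alt (at2 b x)) (hne : ∀ x, W (at2 b x) (at2 b x) ≠ 0)
    (c : F2 E4 M) {p : M} {y : E4} (hy : y ∈ (chartAt E4 p).target) :
    repJ p (jG b c) y = jj (rep p b y) (rep p c y) := by
  ext1 u
  have h1 : - repJ p (jG b c) y u = quo (rep p b y) (rep p c y) u := by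
    apply eq_quo (Int.rep_alt hb p y) (rep_W_ne hb hne hy)
    intro v
    rw [map_neg, neg_apply, rep_apply, repJ_apply, tcc_cancel' (symm_mem hy), atJ_jG, jj_apply,
      map_neg, neg_apply, neg_neg, b_quo (hb _) (hne _), rep_apply]
  rw [jj_apply, ← h1, neg_neg]

theorem smoothJ_jG {b c : F2 E4 M} (hb : Smooth2 b) (hne : ∀ x, W (at2 b x) (at2 b x) ≠ 0)
    (hc : Smooth2 c) : SmoothJ (jG b c) := by
  intro p
  have h1 : ContDiffOn ℝ ∞ (fun y => jj (rep p b y) (rep p c y)) (chartAt E4 p).target :=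
    (contDiffOn_quo (hb.2 p) (hc.2 p) fun y hy => rep_W_ne hb.1 hne hy).neg
  exact h1.congr fun y hy => repJ_jG hb.1 hne c hy

theorem rep_gG (a : F2 E4 M) {b : F2 E4 M} (hb : ∀ x, Alt (at2 b x))
    (hne : ∀ x, W (at2 b x) (at2 b x) ≠ 0)
    (c : F2 E4 M) {p : M} {y : E4} (hy : y ∈ (chartAt E4 p).target) :
    rep p (gG a b c) y = gf (rep p a y) (rep p b y) (rep p c y) := by
  ext u v
  rw [gf_apply, ← repJ_jG hb hne c hy, rep_apply, rep_apply, repJ_apply,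
    tcc_cancel' (symm_mem hy)]
  rfl

theorem smooth_gG {a b c : F2 E4 M} (ha : Smooth2 a) (hb : Smooth2 b)
    (hne : ∀ x, W (at2 b x) (at2 b x) ≠ 0) (hc : Smooth2 c) (p : M) :
    ContDiffOn ℝ ∞ (rep p (gG a b c)) (chartAt E4 p).target := by
  have h1 := contDiffOn_gf (ha.2 p) (hb.2 p) (hc.2 p) fun y hy => rep_W_ne hb.1 hne hy
  exact h1.congr fun y hy => rep_gG a hb.1 hne c hy

/-- the almost complex structures of an orthogonal triple: `e (i+1) (I_i u, v) = - e (i+2) (u, v)`. -/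
def II (e : Fin 3 → F2 E4 M) : Fin 3 → EndF E4 M := fun i => jG (e (i + 1)) (e (i + 2))

/-- the metric of an orthogonal triple: `g (u, v) = e_i (u, I_i v)`. -/
def gg (e : Fin 3 → F2 E4 M) : F2 E4 M := gG (e 0) (e 1) (e 2)

/-- `e` is the Gram-Schmidt orthogonalisation of `w`, with the sign of the last form such that the
metric is positive. -/
structure IsTri (w e : Fin 3 → F2 E4 M) : Prop where
  e_zero : e 0 = w 0
  smooth : ∀ i, Smooth2 (e i)
  on3 : ∀ x, ON3 (W (at2 (w 0) x) (at2 (w 0) x)) (at2 (e 0) x) (at2 (e 1) x) (at2 (e 2) x)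
  pos : ∀ x v, v ≠ 0 → 0 < at2 (gg e) x v v
  coef : ∃ A B : Fin 3 → Fin 3 → M → ℝ, (∀ i j, SmoothF E4 (A i j)) ∧ (∀ i j, SmoothF E4 (B i j)) ∧
    (∀ i x, at2 (e i) x = ∑ j, A i j x • at2 (w j) x) ∧
    (∀ i x, at2 (w i) x = ∑ j, B i j x • at2 (e j) x) ∧
    (∀ i j x, i < j → A i j x = 0 ∧ B i j x = 0) ∧ (∀ i x, A i i x * B i i x = 1)

namespace IsTri

variable {w e : Fin 3 → F2 E4 M}

theorem W_ne (h : IsTri w e) (x : M) : W (at2 (w 0) x) (at2 (w 0) x) ≠ 0 := (h.on3 x).k_ne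

theorem W_e (h : IsTri w e) (i j : Fin 3) (x : M) : W (at2 (e i) x) (at2 (e j) x) =
    if i = j then W (at2 (w 0) x) (at2 (w 0) x) else 0 := by
  have H := h.on3 x
  fin_cases i <;> fin_cases j
  · exact H.aa
  · exact H.ab
  · exact (W_comm _ _).trans H.ca
  · exact (W_comm _ _).trans H.ab
  · exact H.bb
  · exact H.bc
  · exact H.ca
  · exact (W_comm _ _).trans H.bc
  · exact H.cc

theorem W_e_ne (h : IsTri w e) (i : Fin 3) (x : M) : W (at2 (e i) x) (at2 (e i) x) ≠ 0 := by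
  rw [h.W_e, if_pos rfl]; exact h.W_ne x

theorem on' (h : IsTri w e) (i : Fin 3) (x : M) : ON3 (W (at2 (w 0) x) (at2 (w 0) x))
    (at2 (e i) x) (at2 (e (i + 1)) x) (at2 (e (i + 2)) x) := by
  fin_cases i
  · exact h.on3 x
  · exact (h.on3 x).rot
  · exact (h.on3 x).rot.rot

theorem gg_eq (h : IsTri w e) (i : Fin 3) (x : M) (u v : E4) : at2 (gg e) x u v =
    gf (at2 (e i) x) (at2 (e (i + 1)) x) (at2 (e (i + 2)) x) u v := by
  fin_cases i
  · rfl
  · exact ((h.on3 x).gf_rot u v).symm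
  · exact ((h.on3 x).gf_rot2 u v).symm

theorem I_smooth (h : IsTri w e) (i : Fin 3) : SmoothJ (II e i) :=
  smoothJ_jG (h.smooth _) (h.W_e_ne _) (h.smooth _)

theorem I_sq (h : IsTri w e) (i : Fin 3) (x : M) (v : E4) :
    atJ (II e i) x (atJ (II e i) x v) = -v := (h.on' i x).sq v

theorem I_mul (h : IsTri w e) (i : Fin 3) (x : M) (v : E4) :
    atJ (II e i) x (atJ (II e (i + 1)) x v) = atJ (II e (i + 2)) x v := by
  fin_cases i
  · exact (h.on' 0 x).mul v
  · exact (h.on' 1 x).mul v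
  · exact (h.on' 2 x).mul v

theorem I_mul' (h : IsTri w e) (i : Fin 3) (x : M) (v : E4) :
    atJ (II e (i + 1)) x (atJ (II e i) x v) = - atJ (II e (i + 2)) x v := by
  fin_cases i
  · exact (h.on' 0 x).mul' v
  · exact (h.on' 1 x).mul' v
  · exact (h.on' 2 x).mul' v

theorem g_smooth (h : IsTri w e) (p : M) :
    ContDiffOn ℝ ∞ (rep p (gg e)) (chartAt E4 p).target :=
  smooth_gG (h.smooth _) (h.smooth _) (h.W_e_ne _) (h.smooth _) p

theorem g_symm (h : IsTri w e) (x : M) (u v : E4) : at2 (gg e) x u v = at2 (gg e) x v u :=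
  (h.on3 x).gf_symm u v

/-- `e_i (u, v) = g (I_i u, v)`. -/
theorem e_eq (h : IsTri w e) (i : Fin 3) (x : M) (u v : E4) :
    at2 (e i) x u v = at2 (gg e) x (atJ (II e i) x u) v := by
  rw [h.gg_eq i]; exact (h.on' i x).a_eq u v

/-- `g (u, v) = e_i (u, I_i v)`. -/
theorem g_eq (h : IsTri w e) (i : Fin 3) (x : M) (u v : E4) :
    at2 (gg e) x u v = at2 (e i) x u (atJ (II e i) x v) := by
  rw [h.gg_eq i]; rfl



/-- `g (I_i u, v) = - g (u, I_i v)`. -/
theorem g_skew (h : IsTri w e) (i : Fin 3) (x : M) (u v : E4) :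
    at2 (gg e) x (atJ (II e i) x u) v = - at2 (gg e) x u (atJ (II e i) x v) := by
  rw [← h.e_eq, h.g_symm x u, ← h.e_eq]
  exact Alt.swap ((h.smooth i).1 x) u v

/-- the other entries of the table: `e_{i+1} (I_i u, v) = - e_{i+2} (u, v)`. -/
theorem e_next (h : IsTri w e) (i : Fin 3) (x : M) (u v : E4) :
    at2 (e (i + 1)) x (atJ (II e i) x u) v = - at2 (e (i + 2)) x u v := (h.on' i x).b_jj u v

/-- the other entries of the table: `e_{i+2} (I_i u, v) = e_{i+1} (u, v)`. -/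
theorem e_next' (h : IsTri w e) (i : Fin 3) (x : M) (u v : E4) :
    at2 (e (i + 2)) x (atJ (II e i) x u) v = at2 (e (i + 1)) x u v := (h.on' i x).c_jj u v

end IsTri

/-! ### Gram-Schmidt on the manifold -/

/-- positivity of a triple of (not necessarily closed) forms. -/
def PosF (w : Fin 3 → F2 E4 M) : Prop := ∀ (x : M) (c : Fin 3 → ℝ), c ≠ 0 →
  W (∑ i, c i • at2 (w i) x) (∑ i, c i • at2 (w i) x) ≠ 0

omit [IsManifold 𝓘(ℝ, E4) ∞ M] in
theorem sF_inv {f : M → ℝ} (hf : SmoothF E4 f) (h : ∀ x, f x ≠ 0) :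
    SmoothF E4 (fun x => (f x)⁻¹) := fun p => (hf p).inv (fun _ _ => h _)

theorem smooth2_sub {a b : F2 E4 M} (ha : Smooth2 a) (hb : Smooth2 b) : Smooth2 (a - b) := by
  have h1 := ha.add (hb.smul (-1))
  have h2 : a + (-1 : ℝ) • b = a - b := by
    rw [neg_one_smul]; exact (sub_eq_add_neg a b).symm
  rwa [h2] at h1

section GS

variable (w : Fin 3 → F2 E4 M)

/-- `w 1` minus its projection. -/
def f1 : F2 E4 M := w 1 - fmul (qG (w 0) (w 0) (w 1)) (w 0)

/-- its norm squared. -/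
def n1 : M → ℝ := qG (w 0) (f1 w) (f1 w)

/-- the second form. -/
def e1 : F2 E4 M := fmul (fun x => (√(n1 w x))⁻¹) (f1 w)

/-- `w 2` minus its projections. -/
def f2 : F2 E4 M :=
  w 2 - fmul (qG (w 0) (w 0) (w 2)) (w 0) - fmul (qG (w 0) (e1 w) (w 2)) (e1 w)

/-- its norm squared. -/
def n2 : M → ℝ := qG (w 0) (f2 w) (f2 w)

/-- the third form, up to the sign. -/
def e2 : F2 E4 M := fmul (fun x => (√(n2 w x))⁻¹) (f2 w)

/-- the sign. -/
def sg (x : M) : ℝ := if 0 < at2 (gG (w 0) (e1 w) (e2 w)) x (ee 0) (ee 0) then 1 else -1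

/-- the third form. -/
def e3 : F2 E4 M := fmul (sg w) (e2 w)

variable {w}

omit [TopologicalSpace M] [ChartedSpace E4 M] [IsManifold 𝓘(ℝ, E4) ∞ M] in
theorem at2_fmul (f : M → ℝ) (a : F2 E4 M) (x : M) : at2 (fmul f a) x = f x • at2 a x := rfl

omit [TopologicalSpace M] [ChartedSpace E4 M] [IsManifold 𝓘(ℝ, E4) ∞ M] in
theorem at2_f1 (x : M) : at2 (f1 w) x = at2 (w 1) x - qG (w 0) (w 0) (w 1) x • at2 (w 0) x := rfl

omit [TopologicalSpace M] [ChartedSpace E4 M] [IsManifold 𝓘(ℝ, E4) ∞ M] in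
theorem at2_f2 (x : M) : at2 (f2 w) x = at2 (w 2) x - qG (w 0) (w 0) (w 2) x • at2 (w 0) x -
    qG (w 0) (e1 w) (w 2) x • at2 (e1 w) x := rfl

omit [TopologicalSpace M] [ChartedSpace E4 M] [IsManifold 𝓘(ℝ, E4) ∞ M] in
theorem PosF.ne (hw : PosF w) (x : M) : W (at2 (w 0) x) (at2 (w 0) x) ≠ 0 := by
  have h1 := hw x (Pi.single 0 1) (by
    intro h
    have := congrFun h 0
    simp at this)
  simpa [Fin.sum_univ_three] using h1

omit [TopologicalSpace M] [ChartedSpace E4 M] [IsManifold 𝓘(ℝ, E4) ∞ M] in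
theorem PosF.q00 (hw : PosF w) (x : M) : qG (w 0) (w 0) (w 0) x = 1 := div_self (hw.ne x)

omit [TopologicalSpace M] [ChartedSpace E4 M] [IsManifold 𝓘(ℝ, E4) ∞ M] in
theorem PosF.n1_pos (hw : PosF w) (x : M) : 0 < n1 w x := by
  have h1 := q_pos (v := fun i => at2 (w i) x) (hw x)
    (c := ![- qG (w 0) (w 0) (w 1) x, 1, 0]) (by
      intro h
      have := congrFun h 1
      simp at this)
  have h2 : ∑ i, (![- qG (w 0) (w 0) (w 1) x, 1, 0] : Fin 3 → ℝ) i • at2 (w i) x =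
      at2 (f1 w) x := by
    rw [at2_f1, Fin.sum_univ_three]
    simp only [Matrix.cons_val_zero, Matrix.cons_val_one, Matrix.cons_val]
    module
  rw [h2] at h1
  exact h1

omit [TopologicalSpace M] [ChartedSpace E4 M] [IsManifold 𝓘(ℝ, E4) ∞ M] in
theorem PosF.n2_pos (hw : PosF w) (x : M) : 0 < n2 w x := by
  have h1 := q_pos (v := fun i => at2 (w i) x) (hw x)
    (c := ![- qG (w 0) (w 0) (w 2) x + qG (w 0) (e1 w) (w 2) x * (√(n1 w x))⁻¹ *
        qG (w 0) (w 0) (w 1) x, - qG (w 0) (e1 w) (w 2) x * (√(n1 w x))⁻¹, 1]) (by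
      intro h
      have := congrFun h 2
      simp at this)
  have h2 : ∑ i, (![- qG (w 0) (w 0) (w 2) x + qG (w 0) (e1 w) (w 2) x * (√(n1 w x))⁻¹ *
        qG (w 0) (w 0) (w 1) x, - qG (w 0) (e1 w) (w 2) x * (√(n1 w x))⁻¹, 1] :
          Fin 3 → ℝ) i • at2 (w i) x = at2 (f2 w) x := by
    rw [at2_f2, e1, at2_fmul, at2_f1, Fin.sum_univ_three]
    simp only [Matrix.cons_val_zero, Matrix.cons_val_one, Matrix.cons_val]
    module
  rw [h2] at h1
  exact h1

variable (hs : ∀ i, Smooth2 (w i)) (hw : PosF w)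

include hs hw

theorem smooth_q (a b : F2 E4 M) (ha : Smooth2 a) (hb : Smooth2 b) : SmoothF E4 (qG (w 0) a b) :=
  smoothF_qG (hs 0) hw.ne ha hb

theorem smooth_f1 : Smooth2 (f1 w) :=
  smooth2_sub (hs 1) (smooth2_fmul (smooth_q hs hw _ _ (hs 0) (hs 1)) (hs 0))

theorem smooth_n1 : SmoothF E4 (n1 w) :=
  smooth_q hs hw _ _ (smooth_f1 hs hw) (smooth_f1 hs hw)

theorem smooth_r1 : SmoothF E4 (fun x => √(n1 w x)) :=
  sF_sqrt (smooth_n1 hs hw) fun x => (hw.n1_pos x).ne'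

theorem smooth_r1' : SmoothF E4 (fun x => (√(n1 w x))⁻¹) :=
  sF_inv (smooth_r1 hs hw) fun x => (Real.sqrt_pos.2 (hw.n1_pos x)).ne'

theorem smooth_e1 : Smooth2 (e1 w) := smooth2_fmul (smooth_r1' hs hw) (smooth_f1 hs hw)

theorem smooth_f2 : Smooth2 (f2 w) :=
  smooth2_sub (smooth2_sub (hs 2) (smooth2_fmul (smooth_q hs hw _ _ (hs 0) (hs 2)) (hs 0)))
    (smooth2_fmul (smooth_q hs hw _ _ (smooth_e1 hs hw) (hs 2)) (smooth_e1 hs hw))

theorem smooth_n2 : SmoothF E4 (n2 w) :=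
  smooth_q hs hw _ _ (smooth_f2 hs hw) (smooth_f2 hs hw)

theorem smooth_r2 : SmoothF E4 (fun x => √(n2 w x)) :=
  sF_sqrt (smooth_n2 hs hw) fun x => (hw.n2_pos x).ne'

theorem smooth_r2' : SmoothF E4 (fun x => (√(n2 w x))⁻¹) :=
  sF_inv (smooth_r2 hs hw) fun x => (Real.sqrt_pos.2 (hw.n2_pos x)).ne'

theorem smooth_e2 : Smooth2 (e2 w) := smooth2_fmul (smooth_r2' hs hw) (smooth_f2 hs hw)

/-! ### orthogonality -/

omit hs in
omit [TopologicalSpace M] [ChartedSpace E4 M] [IsManifold 𝓘(ℝ, E4) ∞ M] in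
theorem q_0f1 (x : M) : q (at2 (w 0) x) (at2 (w 0) x) (at2 (f1 w) x) = 0 := by
  have h00 : q (at2 (w 0) x) (at2 (w 0) x) (at2 (w 0) x) = 1 := hw.q00 x
  rw [at2_f1, q_sub_right, q_smul_right, h00, mul_one]
  exact sub_self _

omit hs in
omit [TopologicalSpace M] [ChartedSpace E4 M] [IsManifold 𝓘(ℝ, E4) ∞ M] in
theorem q_01 (x : M) : q (at2 (w 0) x) (at2 (w 0) x) (at2 (e1 w) x) = 0 := by
  rw [e1, at2_fmul, q_smul_right, q_0f1 hw, mul_zero]

omit hs in
omit [TopologicalSpace M] [ChartedSpace E4 M] [IsManifold 𝓘(ℝ, E4) ∞ M] in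
theorem q_11 (x : M) : q (at2 (w 0) x) (at2 (e1 w) x) (at2 (e1 w) x) = 1 := by
  rw [e1, at2_fmul, q_smul_right, q_smul_left]
  have h1 : q (at2 (w 0) x) (at2 (f1 w) x) (at2 (f1 w) x) = n1 w x := rfl
  have h2 := hw.n1_pos x
  have h3 := Real.mul_self_sqrt h2.le
  have h4 := (Real.sqrt_pos.2 h2).ne'
  rw [h1]
  field_simp
  nlinarith

omit hs in
omit [TopologicalSpace M] [ChartedSpace E4 M] [IsManifold 𝓘(ℝ, E4) ∞ M] in
theorem q_0f2 (x : M) : q (at2 (w 0) x) (at2 (w 0) x) (at2 (f2 w) x) = 0 := by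
  have h00 : q (at2 (w 0) x) (at2 (w 0) x) (at2 (w 0) x) = 1 := hw.q00 x
  rw [at2_f2, q_sub_right, q_sub_right, q_smul_right, q_smul_right, h00, q_01 hw, mul_one,
    mul_zero, sub_zero]
  exact sub_self _

omit hs in
omit [TopologicalSpace M] [ChartedSpace E4 M] [IsManifold 𝓘(ℝ, E4) ∞ M] in
theorem q_1f2 (x : M) : q (at2 (w 0) x) (at2 (e1 w) x) (at2 (f2 w) x) = 0 := by
  rw [at2_f2, q_sub_right, q_sub_right, q_smul_right, q_smul_right, q_11 hw,
    q_comm _ (at2 (e1 w) x) (at2 (w 0) x), q_01 hw, mul_one, mul_zero, sub_zero]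
  exact sub_self _

omit hs in
omit [TopologicalSpace M] [ChartedSpace E4 M] [IsManifold 𝓘(ℝ, E4) ∞ M] in
theorem q_02 (x : M) : q (at2 (w 0) x) (at2 (w 0) x) (at2 (e2 w) x) = 0 := by
  rw [e2, at2_fmul, q_smul_right, q_0f2 hw, mul_zero]

omit hs in
omit [TopologicalSpace M] [ChartedSpace E4 M] [IsManifold 𝓘(ℝ, E4) ∞ M] in
theorem q_12 (x : M) : q (at2 (w 0) x) (at2 (e1 w) x) (at2 (e2 w) x) = 0 := by
  rw [e2, at2_fmul, q_smul_right, q_1f2 hw, mul_zero]

omit hs in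
omit [TopologicalSpace M] [ChartedSpace E4 M] [IsManifold 𝓘(ℝ, E4) ∞ M] in
theorem q_22 (x : M) : q (at2 (w 0) x) (at2 (e2 w) x) (at2 (e2 w) x) = 1 := by
  rw [e2, at2_fmul, q_smul_right, q_smul_left]
  have h1 : q (at2 (w 0) x) (at2 (f2 w) x) (at2 (f2 w) x) = n2 w x := rfl
  have h2 := hw.n2_pos x
  have h3 := Real.mul_self_sqrt h2.le
  have h4 := (Real.sqrt_pos.2 h2).ne'
  rw [h1]
  field_simp
  nlinarith

omit hs in
omit [TopologicalSpace M] [ChartedSpace E4 M] [IsManifold 𝓘(ℝ, E4) ∞ M] in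
theorem W_of_q0 {x : M} {a b : Bil} (h : q (at2 (w 0) x) a b = 0) : W a b = 0 :=
  (div_eq_zero_iff.1 h).resolve_right (hw.ne x)

omit hs in
omit [TopologicalSpace M] [ChartedSpace E4 M] [IsManifold 𝓘(ℝ, E4) ∞ M] in
theorem W_of_q1 {x : M} {a b : Bil} (h : q (at2 (w 0) x) a b = 1) :
    W a b = W (at2 (w 0) x) (at2 (w 0) x) := by
  have h1 := (div_eq_iff (hw.ne x)).1 h
  rwa [one_mul] at h1

theorem on_e2 (x : M) : ON3 (W (at2 (w 0) x) (at2 (w 0) x)) (at2 (w 0) x) (at2 (e1 w) x)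
    (at2 (e2 w) x) where
  k_ne := hw.ne x
  alt_a := (hs 0).1 x
  alt_b := (smooth_e1 hs hw).1 x
  alt_c := (smooth_e2 hs hw).1 x
  aa := rfl
  bb := W_of_q1 hw (q_11 hw x)
  cc := W_of_q1 hw (q_22 hw x)
  ab := W_of_q0 hw (q_01 hw x)
  bc := W_of_q0 hw (q_12 hw x)
  ca := by rw [W_comm]; exact W_of_q0 hw (q_02 hw x)

omit hs hw in
omit [TopologicalSpace M] [ChartedSpace E4 M] [IsManifold 𝓘(ℝ, E4) ∞ M] in
theorem sg_sq (x : M) : sg w x * sg w x = 1 := by
  unfold sg; split_ifs <;> norm_num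

theorem on_e3 (x : M) : ON3 (W (at2 (w 0) x) (at2 (w 0) x)) (at2 (w 0) x) (at2 (e1 w) x)
    (at2 (e3 w) x) := by
  have h := on_e2 hs hw x
  have hsg := sg_sq (w := w) x
  refine ⟨h.k_ne, h.alt_a, h.alt_b, ?_, h.aa, h.bb, ?_, h.ab, ?_, ?_⟩
  · rw [e3, at2_fmul]; exact h.alt_c.smul _
  · rw [e3, at2_fmul, W_smul_left, W_smul_right, ← mul_assoc, hsg, one_mul, h.cc]
  · rw [e3, at2_fmul, W_smul_right, h.bc, mul_zero]
  · rw [e3, at2_fmul, W_smul_left, h.ca, mul_zero]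

theorem pos_e3 (x : M) {v : E4} (hv : v ≠ 0) : 0 < at2 (gG (w 0) (e1 w) (e3 w)) x v v := by
  have h := on_e2 hs hw x
  have h3 := on_e3 hs hw x
  have he : (ee 0 : E4) ≠ 0 := by
    intro h0
    have := congrArg (fun z : E4 => z 0) h0
    simp at this
  have h1 : 0 < gf (at2 (w 0) x) (at2 (e1 w) x) (at2 (e3 w) x) (ee 0) (ee 0) := by
    rw [e3, at2_fmul, gf_smul]
    have h4 := h.gf_ne he
    unfold sg
    split_ifs with h5
    · rw [one_mul]; exact h5
    · have h6 : gf (at2 (w 0) x) (at2 (e1 w) x) (at2 (e2 w) x) (ee 0) (ee 0) < 0 :=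
        lt_of_le_of_ne (not_lt.1 h5) h4
      linarith
  exact h3.gf_sign hv h1

omit hs hw in
theorem tcc_ee_ne {p : M} {y : E4} (hy : y ∈ (chartAt E4 p).target) {u : E4} (hu : u ≠ 0) :
    tcc p ((chartAt E4 p).symm y) ((chartAt E4 p).symm y) u ≠ 0 := by
  intro h
  apply hu
  have h1 := congrArg (tcc ((chartAt E4 p).symm y) p ((chartAt E4 p).symm y)) h
  rw [tcc_cancel (symm_mem hy), map_zero] at h1
  exact h1

theorem smooth_sg : SmoothF E4 (sg w) := by
  have he : (ee 0 : E4) ≠ 0 := by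
    intro h0
    have := congrArg (fun z : E4 => z 0) h0
    simp at this
  intro p
  have h1 : ContDiffOn ℝ ∞ (fun y => rep p (gG (w 0) (e1 w) (e2 w)) y (ee 0) (ee 0))
      (chartAt E4 p).target :=
    ((smooth_gG (hs 0) (smooth_e1 hs hw) (fun x => (on_e2 hs hw x).ne_b) (smooth_e2 hs hw)
      p).clm_apply contDiffOn_const).clm_apply contDiffOn_const
  have hval : ∀ y, rep p (gG (w 0) (e1 w) (e2 w)) y (ee 0) (ee 0) =
      gf (at2 (w 0) ((chartAt E4 p).symm y)) (at2 (e1 w) ((chartAt E4 p).symm y))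
        (at2 (e2 w) ((chartAt E4 p).symm y))
        (tcc p ((chartAt E4 p).symm y) ((chartAt E4 p).symm y) (ee 0))
        (tcc p ((chartAt E4 p).symm y) ((chartAt E4 p).symm y) (ee 0)) := by
    intro y
    rw [rep_apply, at2_gG]
  generalize hρ : (fun y => rep p (gG (w 0) (e1 w) (e2 w)) y (ee 0) (ee 0)) = ρ at h1
  have hval' : ∀ y, ρ y = gf (at2 (w 0) ((chartAt E4 p).symm y)) (at2 (e1 w) ((chartAt E4 p).symm y))
        (at2 (e2 w) ((chartAt E4 p).symm y))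
        (tcc p ((chartAt E4 p).symm y) ((chartAt E4 p).symm y) (ee 0))
        (tcc p ((chartAt E4 p).symm y) ((chartAt E4 p).symm y) (ee 0)) := by
    intro y
    rw [← hρ]; exact hval y
  have hne : ∀ y ∈ (chartAt E4 p).target, ρ y ≠ 0 := by
    intro y hy
    rw [hval']
    exact (on_e2 hs hw _).gf_ne (tcc_ee_ne hy he)
  have h2 : ContDiffOn ℝ ∞ (fun y => ρ y / √(ρ y ^ 2)) (chartAt E4 p).target := by
    refine h1.div ((h1.pow 2).sqrt fun y hy => pow_ne_zero 2 (hne y hy)) fun y hy => ?_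
    rw [Real.sqrt_sq_eq_abs]
    exact abs_ne_zero.2 (hne y hy)
  refine h2.congr fun y hy => ?_
  have h3 := on_e2 hs hw ((chartAt E4 p).symm y)
  have hu := tcc_ee_ne hy he
  have hney := hne y hy
  have hvaly := hval' y
  have hgoal : repF p (sg w) y = sg w ((chartAt E4 p).symm y) := rfl
  rw [hgoal, Real.sqrt_sq_eq_abs]
  generalize ρ y = r at hney hvaly ⊢
  by_cases h4 : 0 < r
  · have h5 : 0 < gf (at2 (w 0) ((chartAt E4 p).symm y)) (at2 (e1 w) ((chartAt E4 p).symm y))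
        (at2 (e2 w) ((chartAt E4 p).symm y)) (ee 0) (ee 0) := by
      rw [hvaly] at h4
      exact h3.gf_sign he h4
    have h6 : sg w ((chartAt E4 p).symm y) = 1 := if_pos h5
    rw [h6, abs_of_pos h4, div_self h4.ne']
  · have h5 : ¬ 0 < gf (at2 (w 0) ((chartAt E4 p).symm y)) (at2 (e1 w) ((chartAt E4 p).symm y))
        (at2 (e2 w) ((chartAt E4 p).symm y)) (ee 0) (ee 0) := by
      intro h6
      apply h4
      rw [hvaly]
      exact h3.gf_sign hu h6
    have h6 : sg w ((chartAt E4 p).symm y) = -1 := if_neg h5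
    have h7 : r < 0 := lt_of_le_of_ne (not_lt.1 h4) hney
    rw [h6, abs_of_neg h7, div_neg, div_self h7.ne]

theorem smooth_e3 : Smooth2 (e3 w) := smooth2_fmul (smooth_sg hs hw) (smooth_e2 hs hw)

/-! ### coefficients -/

omit hs in
omit [TopologicalSpace M] [ChartedSpace E4 M] [IsManifold 𝓘(ℝ, E4) ∞ M] in
theorem r1_mul (x : M) : (√(n1 w x))⁻¹ * √(n1 w x) = 1 :=
  inv_mul_cancel₀ (Real.sqrt_pos.2 (hw.n1_pos x)).ne'

omit hs in
omit [TopologicalSpace M] [ChartedSpace E4 M] [IsManifold 𝓘(ℝ, E4) ∞ M] in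
theorem r2_mul (x : M) : (√(n2 w x))⁻¹ * √(n2 w x) = 1 :=
  inv_mul_cancel₀ (Real.sqrt_pos.2 (hw.n2_pos x)).ne'

omit hs in
omit [TopologicalSpace M] [ChartedSpace E4 M] [IsManifold 𝓘(ℝ, E4) ∞ M] in
theorem f1_eq (x : M) : at2 (f1 w) x = √(n1 w x) • at2 (e1 w) x := by
  rw [e1, at2_fmul, smul_smul, mul_comm, r1_mul hw, one_smul]

omit hs in
omit [TopologicalSpace M] [ChartedSpace E4 M] [IsManifold 𝓘(ℝ, E4) ∞ M] in
theorem f2_eq (x : M) : at2 (f2 w) x = (√(n2 w x) * sg w x) • at2 (e3 w) x := by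
  rw [e3, e2, at2_fmul, at2_fmul, smul_smul, smul_smul]
  have h1 := r2_mul hw x
  have h2 := sg_sq (w := w) x
  have h3 : √(n2 w x) * sg w x * sg w x * (√(n2 w x))⁻¹ = 1 := by
    linear_combination (sg w x * sg w x) * h1 + h2
  rw [h3, one_smul]

omit hs hw in
omit [TopologicalSpace M] [ChartedSpace E4 M] [IsManifold 𝓘(ℝ, E4) ∞ M] in
theorem e1_coef (x : M) : at2 (e1 w) x =
    (- ((√(n1 w x))⁻¹ * qG (w 0) (w 0) (w 1) x)) • at2 (w 0) x + (√(n1 w x))⁻¹ • at2 (w 1) x +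
      (0 : ℝ) • at2 (w 2) x := by
  rw [e1, at2_fmul, at2_f1]; module

omit hs hw in
omit [TopologicalSpace M] [ChartedSpace E4 M] [IsManifold 𝓘(ℝ, E4) ∞ M] in
theorem e3_coef (x : M) : at2 (e3 w) x =
    (sg w x * (√(n2 w x))⁻¹ * (qG (w 0) (e1 w) (w 2) x *
            ((√(n1 w x))⁻¹ * qG (w 0) (w 0) (w 1) x) - qG (w 0) (w 0) (w 2) x)) • at2 (w 0) x +
      (- (sg w x * (√(n2 w x))⁻¹ * (qG (w 0) (e1 w) (w 2) x * (√(n1 w x))⁻¹))) • at2 (w 1) x +
      (sg w x * (√(n2 w x))⁻¹) • at2 (w 2) x := by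
  rw [e3, e2, at2_fmul, at2_fmul, at2_f2, e1_coef]; module

omit hs in
omit [TopologicalSpace M] [ChartedSpace E4 M] [IsManifold 𝓘(ℝ, E4) ∞ M] in
theorem w1_coef (x : M) : at2 (w 1) x =
    qG (w 0) (w 0) (w 1) x • at2 (w 0) x + √(n1 w x) • at2 (e1 w) x +
      (0 : ℝ) • at2 (e3 w) x := by
  rw [← f1_eq hw, at2_f1]; module

omit hs in
omit [TopologicalSpace M] [ChartedSpace E4 M] [IsManifold 𝓘(ℝ, E4) ∞ M] in
theorem w2_coef (x : M) : at2 (w 2) x =
    qG (w 0) (w 0) (w 2) x • at2 (w 0) x + qG (w 0) (e1 w) (w 2) x • at2 (e1 w) x +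
      (√(n2 w x) * sg w x) • at2 (e3 w) x := by
  rw [← f2_eq hw, at2_f2]; module

end GS

/-- **Gram-Schmidt of a positive triple of two-forms.** -/
theorem exists_triF {w : Fin 3 → F2 E4 M} (hs : ∀ i, Smooth2 (w i)) (hw : PosF w) :
    ∃ e : Fin 3 → F2 E4 M, IsTri w e := by
  refine ⟨![w 0, e1 w, e3 w], rfl, ?_, fun x => on_e3 hs hw x, fun x v hv => pos_e3 hs hw x hv, ?_⟩
  · intro i
    fin_cases i
    · exact hs 0
    · exact smooth_e1 hs hw
    · exact smooth_e3 hs hw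
  · have h0 : SmoothF E4 (fun _ : M => (0 : ℝ)) := sF_const 0
    have h1 : SmoothF E4 (fun _ : M => (1 : ℝ)) := sF_const 1
    have q01 := smooth_q hs hw _ _ (hs 0) (hs 1)
    have q02 := smooth_q hs hw _ _ (hs 0) (hs 2)
    have q12 := smooth_q hs hw _ _ (smooth_e1 hs hw) (hs 2)
    have r1 := smooth_r1 hs hw
    have r1' := smooth_r1' hs hw
    have r2 := smooth_r2 hs hw
    have r2' := smooth_r2' hs hw
    have sgs := smooth_sg hs hw
    refine ⟨![![fun _ => 1, fun _ => 0, fun _ => 0],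
        ![fun x => - ((√(n1 w x))⁻¹ * qG (w 0) (w 0) (w 1) x), fun x => (√(n1 w x))⁻¹, fun _ => 0],
        ![fun x => sg w x * (√(n2 w x))⁻¹ * (qG (w 0) (e1 w) (w 2) x *
            ((√(n1 w x))⁻¹ * qG (w 0) (w 0) (w 1) x) - qG (w 0) (w 0) (w 2) x),
          fun x => - (sg w x * (√(n2 w x))⁻¹ * (qG (w 0) (e1 w) (w 2) x * (√(n1 w x))⁻¹)),
          fun x => sg w x * (√(n2 w x))⁻¹]],
      ![![fun _ => 1, fun _ => 0, fun _ => 0],
        ![qG (w 0) (w 0) (w 1), fun x => √(n1 w x), fun _ => 0],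
        ![qG (w 0) (w 0) (w 2), qG (w 0) (e1 w) (w 2), fun x => √(n2 w x) * sg w x]],
      ?_, ?_, ?_, ?_, ?_, ?_⟩
    · intro i j
      fin_cases i <;> fin_cases j
      · exact h1
      · exact h0
      · exact h0
      · exact sF_neg (sF_mul r1' q01)
      · exact r1'
      · exact h0
      · exact sF_mul (sF_mul sgs r2') (sF_sub (sF_mul q12 (sF_mul r1' q01)) q02)
      · exact sF_neg (sF_mul (sF_mul sgs r2') (sF_mul q12 r1'))
      · exact sF_mul sgs r2'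
    · intro i j
      fin_cases i <;> fin_cases j
      · exact h1
      · exact h0
      · exact h0
      · exact q01
      · exact r1
      · exact h0
      · exact q02
      · exact q12
      · exact sF_mul r2 sgs
    · intro i x
      fin_cases i
      · simp [Fin.sum_univ_three]
      · rw [Fin.sum_univ_three]; exact e1_coef x
      · rw [Fin.sum_univ_three]; exact e3_coef x
    · intro i x
      fin_cases i
      · simp [Fin.sum_univ_three]
      · rw [Fin.sum_univ_three]; exact w1_coef hw x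
      · rw [Fin.sum_univ_three]; exact w2_coef hw x
    · intro i j x hij
      fin_cases i <;> fin_cases j <;> first | exact ⟨rfl, rfl⟩ | exact absurd hij (by decide)
    · intro i x
      fin_cases i
      · exact one_mul 1
      · exact r1_mul hw x
      · show sg w x * (√(n2 w x))⁻¹ * (√(n2 w x) * sg w x) = 1
        have h3 := r2_mul hw x
        have h4 := sg_sq (w := w) x
        linear_combination (sg w x * sg w x) * h3 + h4

/-- the underlying forms of a triple. -/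
def und (w : Trip M) : Fin 3 → F2 E4 M := fun i => ((w i).1.1 : F2 E4 M)


/-- **Gram-Schmidt of a positive triple** (IND-1 TRI). -/
theorem exists_tri {w : Trip M} (hw : Pos3 w) : ∃ e : Fin 3 → F2 E4 M, IsTri (und w) e :=
  exists_triF (fun i => (w i).1.2) hw

end Glob

end

end Crest.Agent.R235.IndTri_451
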