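import Mathlib
import Crest.Agent.R235.IndTri_451

/-!
Row 235 (S0364), helper451, task 196 (IND-1 TRI).
Part 3: determinants and adapted frames.
-/

set_option autoImplicit false
set_option maxSynthPendingDepth 3

open Set Function Filter
open scoped Manifold ContDiff Topology

namespace Crest.Agent.R235.IndTri_451

open Crest.Agent.R240 Crest.Agent.R240.Ch
open Crest.Agent.R240.En4 (contDiffOn_ent contDiffOn_W)

noncomputable section

/-! ### determinants -/

/-- matrix of a bilinear form. -/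
def mat (b : Bil) : Matrix (Fin 4) (Fin 4) ℝ := Matrix.of fun i j => ent b i j











namespace ON3

variable {k : ℝ} {a b c : Bil}



/-! ### frames -/

theorem act_a (h : ON3 k a b c) (r : Fin 4 → ℝ) (u : E4) :
    jj b c (act b c a r u) = act b c a ![- r 1, r 0, - r 3, r 2] u := by
  unfold act
  simp only [map_add, map_smul, h.sq, h.mul, h.rot.rot.mul', Matrix.cons_val_zero,
    Matrix.cons_val_one, Matrix.cons_val]
  module

theorem act_b (h : ON3 k a b c) (r : Fin 4 → ℝ) (u : E4) :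
    jj c a (act b c a r u) = act b c a ![- r 2, r 3, r 0, - r 1] u := by
  unfold act
  simp only [map_add, map_smul, h.rot.sq, h.rot.mul, h.mul', Matrix.cons_val_zero,
    Matrix.cons_val_one, Matrix.cons_val]
  module

theorem act_c (h : ON3 k a b c) (r : Fin 4 → ℝ) (u : E4) :
    jj a b (act b c a r u) = act b c a ![- r 3, - r 2, r 1, r 0] u := by
  unfold act
  simp only [map_add, map_smul, h.rot.rot.sq, h.rot.rot.mul, h.rot.mul', Matrix.cons_val_zero,
    Matrix.cons_val_one, Matrix.cons_val]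
  module

theorem gf_act2 (h : ON3 k a b c) (r s : Fin 4 → ℝ) (u : E4) :
    gf a b c (act b c a r u) (act b c a s u) =
      (r 0 * s 0 + r 1 * s 1 + r 2 * s 2 + r 3 * s 3) * gf a b c u u := by
  unfold act
  simp only [map_add, map_smul, add_apply, smul_apply, smul_eq_mul, h.gf_orth, h.gf_orth_b,
    h.gf_orth_c, h.gf_self_a, h.gf_self_b, h.gf_self_c, h.gf_ab, h.gf_bc, h.gf_ca,
    h.gf_symm u (jj b c u), h.gf_symm u (jj c a u), h.gf_symm u (jj a b u),
    h.gf_symm (jj c a u) (jj b c u), h.gf_symm (jj a b u) (jj c a u),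
    h.gf_symm (jj b c u) (jj a b u)]
  ring

theorem a_act (h : ON3 k a b c) (r s : Fin 4 → ℝ) (u : E4) :
    a (act b c a r u) (act b c a s u) =
      ((r 0 * s 1 - r 1 * s 0) + (r 2 * s 3 - r 3 * s 2)) * gf a b c u u := by
  rw [h.a_eq, h.act_a, h.gf_act2]
  simp only [Matrix.cons_val_zero, Matrix.cons_val_one, Matrix.cons_val]
  ring

theorem b_act (h : ON3 k a b c) (r s : Fin 4 → ℝ) (u : E4) :
    b (act b c a r u) (act b c a s u) =
      ((r 0 * s 2 - r 2 * s 0) - (r 1 * s 3 - r 3 * s 1)) * gf a b c u u := by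
  rw [h.rot.a_eq, h.gf_rot, h.act_b, h.gf_act2]
  simp only [Matrix.cons_val_zero, Matrix.cons_val_one, Matrix.cons_val]
  ring

theorem c_act (h : ON3 k a b c) (r s : Fin 4 → ℝ) (u : E4) :
    c (act b c a r u) (act b c a s u) =
      ((r 0 * s 3 - r 3 * s 0) + (r 1 * s 2 - r 2 * s 1)) * gf a b c u u := by
  rw [h.rot.rot.a_eq, h.gf_rot2, h.act_c, h.gf_act2]
  simp only [Matrix.cons_val_zero, Matrix.cons_val_one, Matrix.cons_val]
  ring

end ON3

/-- the frame `(u, I_a u, I_b u, I_c u)`. -/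
def frm (b c a : Bil) (u : E4) : E4 →L[ℝ] E4 :=
  LinearMap.toContinuousLinearMap (ON3.actL b c a u)

theorem frm_apply (b c a : Bil) (u r : E4) : frm b c a u r = ON3.act b c a (fun i => r i) u := rfl

/-- `T` is an adapted frame: `g`, the three forms and the three almost complex structures are
standard in it (left multiplication of the quaternions). -/
structure Fr (g : Bil) (e : Fin 3 → Bil) (I : Fin 3 → E4 →L[ℝ] E4) (T : E4 →L[ℝ] E4) : Prop where
  g : ∀ r s : E4, g (T r) (T s) = r 0 * s 0 + r 1 * s 1 + r 2 * s 2 + r 3 * s 3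
  e0 : ∀ r s : E4, e 0 (T r) (T s) = (r 0 * s 1 - r 1 * s 0) + (r 2 * s 3 - r 3 * s 2)
  e1 : ∀ r s : E4, e 1 (T r) (T s) = (r 0 * s 2 - r 2 * s 0) - (r 1 * s 3 - r 3 * s 1)
  e2 : ∀ r s : E4, e 2 (T r) (T s) = (r 0 * s 3 - r 3 * s 0) + (r 1 * s 2 - r 2 * s 1)
  I0 : ∀ r : E4, I 0 (T r) = T (WithLp.toLp 2 ![- r 1, r 0, - r 3, r 2])
  I1 : ∀ r : E4, I 1 (T r) = T (WithLp.toLp 2 ![- r 2, r 3, r 0, - r 1])
  I2 : ∀ r : E4, I 2 (T r) = T (WithLp.toLp 2 ![- r 3, - r 2, r 1, r 0])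
  det : W (e 0) (e 0) * LinearMap.det (T : E4 →ₗ[ℝ] E4) = 2


theorem Fr.inj {g : Bil} {e : Fin 3 → Bil} {I : Fin 3 → E4 →L[ℝ] E4} {T : E4 →L[ℝ] E4}
    (h : Fr g e I T) : Injective T := by
  intro r s hrs
  have h1 : ∀ t : E4, r 0 * t 0 + r 1 * t 1 + r 2 * t 2 + r 3 * t 3 =
      s 0 * t 0 + s 1 * t 1 + s 2 * t 2 + s 3 * t 3 := by
    intro t
    rw [← h.g, ← h.g, hrs]
  ext i
  have h2 := h1 (ee i)
  simp only [ee_apply] at h2
  fin_cases i <;> simpa using h2


theorem ON3.fr {k : ℝ} {a b c : Bil} (h : ON3 k a b c) {u : E4} (hu : gf a b c u u = 1) :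
    Fr (gf a b c) ![a, b, c] ![jj b c, jj c a, jj a b] (frm b c a u) := by
  have h0 : ∀ r s : E4, a (frm b c a u r) (frm b c a u s) =
      (r 0 * s 1 - r 1 * s 0) + (r 2 * s 3 - r 3 * s 2) := by
    intro r s
    rw [frm_apply, frm_apply, h.a_act, hu, mul_one]
  refine ⟨?_, h0, ?_, ?_, ?_, ?_, ?_, ?_⟩
  · intro r s
    rw [frm_apply, frm_apply, h.gf_act2, hu, mul_one]
  · intro r s
    show b _ _ = _
    rw [frm_apply, frm_apply, h.b_act, hu, mul_one]
  · intro r s
    show c _ _ = _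
    rw [frm_apply, frm_apply, h.c_act, hu, mul_one]
  · intro r
    show jj b c _ = _
    rw [frm_apply, frm_apply, h.act_a]
  · intro r
    show jj c a _ = _
    rw [frm_apply, frm_apply, h.act_b]
  · intro r
    show jj a b _ = _
    rw [frm_apply, frm_apply, h.act_c]
  · show W a a * _ = _
    rw [mul_comm, ← W_pull h.alt_a h.alt_a]
    have h1 : ∀ i j, ent (pull (frm b c a u) a) i j =
        ((ee i 0 * ee j 1 - ee i 1 * ee j 0) + (ee i 2 * ee j 3 - ee i 3 * ee j 2)) := by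
      intro i j
      unfold ent
      rw [pull_apply, h0]
    unfold W
    simp only [h1, ee_apply]
    simp
    norm_num

/-! ### on the manifold -/

section Glob

variable {M : Type*} [TopologicalSpace M] [ChartedSpace E4 M] [IsManifold 𝓘(ℝ, E4) ∞ M]

namespace IsTri

variable {w e : Fin 3 → F2 E4 M}


/-- the orthogonal triple in a chart. -/
theorem on_rep (h : IsTri w e) (p : M) {y : E4} (hy : y ∈ (chartAt E4 p).target) :
    ON3 (W (rep p (w 0) y) (rep p (w 0) y)) (rep p (e 0) y) (rep p (e 1) y) (rep p (e 2) y) := by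
  have hal : ∀ i, ∀ x, Alt (at2 (e i) x) := fun i => (h.smooth i).1
  have hd := Int.det_tcc_ne (symm_mem hy)
  have H := h.on3 ((chartAt E4 p).symm y)
  have hw : W (rep p (w 0) y) (rep p (w 0) y) =
      LinearMap.det ((tcc p ((chartAt E4 p).symm y) ((chartAt E4 p).symm y) : E4 →L[ℝ] E4) :
        E4 →ₗ[ℝ] E4) *
        W (at2 (w 0) ((chartAt E4 p).symm y)) (at2 (w 0) ((chartAt E4 p).symm y)) := by
    rw [← h.e_zero]; exact Int.W_rep (hal 0) (hal 0) p y
  refine ⟨?_, Int.rep_alt (hal 0) p y, Int.rep_alt (hal 1) p y, Int.rep_alt (hal 2) p y,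
    ?_, ?_, ?_, ?_, ?_, ?_⟩
  · rw [hw]; exact mul_ne_zero hd (h.W_ne _)
  · rw [h.e_zero]
  · rw [hw, Int.W_rep (hal 1) (hal 1), H.bb]
  · rw [hw, Int.W_rep (hal 2) (hal 2), H.cc]
  · rw [Int.W_rep (hal 0) (hal 1), H.ab, mul_zero]
  · rw [Int.W_rep (hal 1) (hal 2), H.bc, mul_zero]
  · rw [Int.W_rep (hal 2) (hal 0), H.ca, mul_zero]

theorem rep_g (h : IsTri w e) (p : M) {y : E4} (hy : y ∈ (chartAt E4 p).target) :
    rep p (gg e) y = gf (rep p (e 0) y) (rep p (e 1) y) (rep p (e 2) y) :=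
  rep_gG _ (h.smooth 1).1 (h.W_e_ne 1) _ hy

theorem rep_I (h : IsTri w e) (i : Fin 3) (p : M) {y : E4} (hy : y ∈ (chartAt E4 p).target) :
    repJ p (II e i) y = jj (rep p (e (i + 1)) y) (rep p (e (i + 2)) y) :=
  repJ_jG (h.smooth _).1 (h.W_e_ne _) _ hy




theorem rep_g_pos (h : IsTri w e) (p : M) {y : E4} (hy : y ∈ (chartAt E4 p).target) {v : E4}
    (hv : v ≠ 0) : 0 < rep p (gg e) y v v := by
  rw [rep_apply]
  exact h.pos _ _ (tcc_ee_ne hy hv)


/-- adapted frames at a point; the first vector is any unit vector. -/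
theorem fr (h : IsTri w e) (x : M) {u : E4} (hu : at2 (gg e) x u u = 1) :
    Fr (at2 (gg e) x) (fun i => at2 (e i) x) (fun i => atJ (II e i) x)
      (frm (at2 (e 1) x) (at2 (e 2) x) (at2 (e 0) x) u) := by
  have H := (h.on3 x).fr hu
  exact ⟨H.g, H.e0, H.e1, H.e2, H.I0, H.I1, H.I2, H.det⟩

/-- adapted frames in a chart. -/
theorem fr_rep (h : IsTri w e) (p : M) {y : E4} (hy : y ∈ (chartAt E4 p).target) {u : E4}
    (hu : rep p (gg e) y u u = 1) :
    Fr (rep p (gg e) y) (fun i => rep p (e i) y) (fun i => repJ p (II e i) y)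
      (frm (rep p (e 1) y) (rep p (e 2) y) (rep p (e 0) y) u) := by
  rw [h.rep_g p hy] at hu ⊢
  have H := (h.on_rep p hy).fr hu
  have hI0 := h.rep_I 0 p hy
  have hI1 := h.rep_I 1 p hy
  have hI2 := h.rep_I 2 p hy
  refine ⟨H.g, H.e0, H.e1, H.e2, ?_, ?_, ?_, H.det⟩
  · intro r; show repJ p (II e 0) y _ = _; rw [hI0]; exact H.I0 r
  · intro r; show repJ p (II e 1) y _ = _; rw [hI1]; exact H.I1 r
  · intro r; show repJ p (II e 2) y _ = _; rw [hI2]; exact H.I2 r

/-- the unit vector in the chart at `p`. -/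
def un (e : Fin 3 → F2 E4 M) (p : M) (y : E4) : E4 :=
  (√(rep p (gg e) y (ee 0) (ee 0)))⁻¹ • ee 0

theorem un_unit (h : IsTri w e) (p : M) {y : E4} (hy : y ∈ (chartAt E4 p).target) :
    rep p (gg e) y (un e p y) (un e p y) = 1 := by
  have he : (ee 0 : E4) ≠ 0 := by
    intro h0
    have := congrArg (fun z : E4 => z 0) h0
    simp at this
  have h1 := h.rep_g_pos p hy he
  unfold un
  rw [map_smul, map_smul, smul_apply, smul_eq_mul, smul_eq_mul]
  have h2 := Real.mul_self_sqrt h1.le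
  have h3 := (Real.sqrt_pos.2 h1).ne'
  field_simp
  nlinarith

theorem un_smooth (h : IsTri w e) (p : M) :
    ContDiffOn ℝ ∞ (un e p) (chartAt E4 p).target := by
  have he : (ee 0 : E4) ≠ 0 := by
    intro h0
    have := congrArg (fun z : E4 => z 0) h0
    simp at this
  have h1 : ContDiffOn ℝ ∞ (fun y => rep p (gg e) y (ee 0) (ee 0)) (chartAt E4 p).target :=
    ((h.g_smooth p).clm_apply contDiffOn_const).clm_apply contDiffOn_const
  have h2 : ContDiffOn ℝ ∞ (fun y => (√(rep p (gg e) y (ee 0) (ee 0)))⁻¹) (chartAt E4 p).target :=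
    (h1.sqrt fun y hy => (h.rep_g_pos p hy he).ne').inv fun y hy =>
      (Real.sqrt_pos.2 (h.rep_g_pos p hy he)).ne'
  exact h2.smul contDiffOn_const

/-- **smooth adapted frames over a chart.** -/
theorem exists_frame (h : IsTri w e) (p : M) : ∃ T : E4 → E4 →L[ℝ] E4,
    ContDiffOn ℝ ∞ T (chartAt E4 p).target ∧ ∀ y ∈ (chartAt E4 p).target,
      Fr (rep p (gg e) y) (fun i => rep p (e i) y) (fun i => repJ p (II e i) y) (T y) := by
  refine ⟨fun y => frm (rep p (e 1) y) (rep p (e 2) y) (rep p (e 0) y) (un e p y), ?_,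
    fun y hy => h.fr_rep p hy (h.un_unit p hy)⟩
  rw [contDiffOn_clm_apply]
  intro r
  have h1 : ∀ i, ContDiffOn ℝ ∞ (fun y => repJ p (II e i) y (un e p y)) (chartAt E4 p).target :=
    fun i => (h.I_smooth i p).clm_apply (h.un_smooth p)
  have h2 : ContDiffOn ℝ ∞ (fun y => r 0 • un e p y + r 1 • repJ p (II e 0) y (un e p y) +
      r 2 • repJ p (II e 1) y (un e p y) + r 3 • repJ p (II e 2) y (un e p y))
      (chartAt E4 p).target :=
    ((((h.un_smooth p).const_smul _).add ((h1 0).const_smul _)).add ((h1 1).const_smul _)).add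
      ((h1 2).const_smul _)
  refine h2.congr fun y hy => ?_
  rw [h.rep_I 0 p hy, h.rep_I 1 p hy, h.rep_I 2 p hy]
  rfl

end IsTri

end Glob

end

end Crest.Agent.R235.IndTri_451
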