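import Crest.Agent.R235.HodgeDic_194
import Crest.Agent.R235.IndVol_57
import Crest.Agent.R235.HodgePr_194
import Crest.Agent.R249.Tz6_805
import Crest.Agent.R235.IndPair_167
import Crest.Agent.R235.Ip_288
import Crest.Agent.R235.QSTri_451
import Crest.Agent.R235.IndTriB_451
import Crest.Agent.R235.IndSig2_723

-- ▼ part R235/HodgeAda_194
section

/-!
Row 235 (S0364), package IND, leaf IND-7 HODGE (helper194), part 6: pointwise algebra.

`AdF e z E` : `E` is an orthonormal frame at `z` in which `e 0, e 1, e 2` are the standard self-dual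
forms.  `s` a Parseval frame.

* `tr2`       : `∑ β(s_A,s_B) γ(s_A,s_B) = ∑ β(E_a,E_b) γ(E_a,E_b)`;
* `qG_E`      : `2 q(a,b) = (a ∧ b)(E)`;
* `sum_asd`   : `∑ β(s_A,s_B) γ(s_A,s_B) = - 4 q(β,γ)`, `β` anti-self-dual;
* `sum_sd`    : `∑ e_i(s_A,s_B) γ(s_A,s_B) = 4 q(e_i,γ)`;
* `vol_asd`, `vol_sd` : `∑ vol(u,v,s_C,s_D) β(s_C,s_D) = ∓ 2 β(u,v)`.
-/

set_option autoImplicit false
set_option maxSynthPendingDepth 3
set_option linter.unusedSectionVars false

open Set Function Filter MeasureTheory Bundle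
open scoped Manifold ContDiff Topology ENNReal
open Crest.GeometryTopology.CoordMetric Crest.GeometryTopology.ChartCurvature
  Crest.GeometryTopology.PointedLimit
open Crest.Agent.R202.Tens Crest.Agent.R247.Bo84 Crest.Agent.R249.Vf281
open Crest.Agent.R249.Tz2_805 Crest.Agent.R249.Tz805 Crest.Agent.R249.Idx789

namespace Crest.Agent.R235.Hodge_194

open Crest.Agent.R240 Crest.Agent.R240.Ch Crest.Agent.R240.Int
open Crest.Agent.R235.IndVol_57 (WF WF_vol)

noncomputable section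

/-! ### matrices -/

/-- the standard self-dual forms -/
def sdm : Fin 3 → Fin 4 → Fin 4 → ℝ :=
  ![![![0,1,0,0], ![-1,0,0,0], ![0,0,0,1], ![0,0,-1,0]],
    ![![0,0,1,0], ![0,0,0,-1], ![-1,0,0,0], ![0,1,0,0]],
    ![![0,0,0,1], ![0,0,1,0], ![0,-1,0,0], ![-1,0,0,0]]]

/-- the wedge product -/
def wf (b c : Fin 4 → Fin 4 → ℝ) : ℝ :=
  b 0 1 * c 2 3 - b 0 2 * c 1 3 + b 0 3 * c 1 2 + b 1 2 * c 0 3 - b 1 3 * c 0 2 + b 2 3 * c 0 1

/-- alternating matrices -/
def AltM (b : Fin 4 → Fin 4 → ℝ) : Prop := ∀ i j, b i j = - b j i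

theorem AltM.diag {b : Fin 4 → Fin 4 → ℝ} (h : AltM b) (i : Fin 4) : b i i = 0 := by
  have := h i i; linarith

theorem wf_sdm (b : Fin 4 → Fin 4 → ℝ) : wf b (sdm 0) = b 0 1 + b 2 3 ∧
    wf b (sdm 1) = b 0 2 - b 1 3 ∧ wf b (sdm 2) = b 0 3 + b 1 2 := by
  refine ⟨?_, ?_, ?_⟩ <;> simp [wf, sdm]

theorem pair_asd {b c : Fin 4 → Fin 4 → ℝ} (hb : AltM b) (hc : AltM c)
    (h : ∀ i, wf b (sdm i) = 0) : ∑ i, ∑ j, b i j * c i j = - 2 * wf b c := by
  obtain ⟨h0, h1, h2⟩ := wf_sdm b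
  rw [h 0] at h0
  rw [h 1] at h1
  rw [h 2] at h2
  have e1 : b 2 3 = - b 0 1 := by linarith
  have e2 : b 1 3 = b 0 2 := by linarith
  have e3 : b 1 2 = - b 0 3 := by linarith
  simp only [Fin.sum_univ_four, wf]
  rw [hb 1 0, hb 2 0, hb 2 1, hb 3 0, hb 3 1, hb 3 2, hc 1 0, hc 2 0, hc 2 1, hc 3 0, hc 3 1,
    hc 3 2, hb.diag 0, hb.diag 1, hb.diag 2, hb.diag 3, e1, e2, e3]
  ring

theorem pair_sd {c : Fin 4 → Fin 4 → ℝ} (hc : AltM c) (i : Fin 3) :
    ∑ a, ∑ b, sdm i a b * c a b = 2 * wf (sdm i) c := by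
  simp only [Fin.sum_univ_four, wf]
  rw [hc 1 0, hc 2 0, hc 2 1, hc 3 0, hc 3 1, hc 3 2, hc.diag 0, hc.diag 1, hc.diag 2, hc.diag 3]
  fin_cases i <;> simp [sdm] <;> ring

/-- `F(u, v)` -/
def Fu (u v : Fin 4 → ℝ) : ℝ := u 0 * v 1 - u 1 * v 0 + (u 2 * v 3 - u 3 * v 2)

/-- `F(u, E_c)` -/
def Fe (u : Fin 4 → ℝ) : Fin 4 → ℝ := ![- u 1, u 0, - u 3, u 2]

theorem V_asd {b : Fin 4 → Fin 4 → ℝ} (hb : AltM b) (h : ∀ i, wf b (sdm i) = 0)
    (u v : Fin 4 → ℝ) :
    ∑ c, ∑ d, (Fu u v * sdm 0 c d - Fe u c * Fe v d + Fe v c * Fe u d) * b c d =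
      - 2 * ∑ c, ∑ d, u c * v d * b c d := by
  obtain ⟨h0, h1, h2⟩ := wf_sdm b
  rw [h 0] at h0
  rw [h 1] at h1
  rw [h 2] at h2
  have e1 : b 2 3 = - b 0 1 := by linarith
  have e2 : b 1 3 = b 0 2 := by linarith
  have e3 : b 1 2 = - b 0 3 := by linarith
  simp only [Fin.sum_univ_four, Fu, Fe, sdm]
  rw [hb 1 0, hb 2 0, hb 2 1, hb 3 0, hb 3 1, hb 3 2, hb.diag 0, hb.diag 1, hb.diag 2, hb.diag 3,
    e1, e2, e3]
  simp
  ring

theorem V_sd (i : Fin 3) (u v : Fin 4 → ℝ) :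
    ∑ c, ∑ d, (Fu u v * sdm 0 c d - Fe u c * Fe v d + Fe v c * Fe u d) * sdm i c d =
      2 * ∑ c, ∑ d, u c * v d * sdm i c d := by
  simp only [Fin.sum_univ_four, Fu, Fe]
  fin_cases i <;> simp [sdm] <;> ring


theorem Fu_eq (u v : Fin 4 → ℝ) : Fu u v = ∑ a, ∑ b, u a * v b * sdm 0 a b := by
  simp only [Fin.sum_univ_four, Fu]
  simp [sdm]
  ring

theorem Fe_eq (u : Fin 4 → ℝ) (c : Fin 4) : Fe u c = ∑ a, u a * sdm 0 a c := by
  simp only [Fin.sum_univ_four, Fe]
  fin_cases c <;> simp [sdm]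

/-! ### a point of the manifold -/

section pt

variable {M : Type} [TopologicalSpace M] [ChartedSpace (EuclideanSpace ℝ (Fin 4)) M]
  [IsManifold 𝓘(ℝ, EuclideanSpace ℝ (Fin 4)) ∞ M]
  [RiemannianBundle (fun x : M => TangentSpace 𝓘(ℝ, EuclideanSpace ℝ (Fin 4)) x)]
  [IsContMDiffRiemannianBundle 𝓘(ℝ, EuclideanSpace ℝ (Fin 4)) ∞ (EuclideanSpace ℝ (Fin 4))
      (fun x : M => TangentSpace 𝓘(ℝ, EuclideanSpace ℝ (Fin 4)) x)]

local notation "𝔼" => EuclideanSpace ℝ (Fin 4)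
local notation "𝓘E" => 𝓘(ℝ, EuclideanSpace ℝ (Fin 4))

/-- adapted frame -/
structure AdF (e : Fin 3 → F2 E4 M) (z : M)
    (E : Fin 4 → TangentSpace 𝓘(ℝ, EuclideanSpace ℝ (Fin 4)) z) : Prop where
  orth : ∀ a b, inner ℝ (E a) (E b) = if a = b then (1:ℝ) else 0
  e : ∀ i a b, at2 (e i) z (E a) (E b) = sdm i a b

variable {e : Fin 3 → F2 E4 M} {z : M} {E : Fin 4 → TangentSpace 𝓘E z} (h : AdF e z E)

/-- components in the frame -/
def co (E : Fin 4 → TangentSpace 𝓘E z) (u : TangentSpace 𝓘E z) (a : Fin 4) : ℝ := inner ℝ u (E a)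

/-- the matrix of a form -/
def mt (E : Fin 4 → TangentSpace 𝓘E z) (β : Bil) (a b : Fin 4) : ℝ := β (E a) (E b)

theorem mt_alt {β : Bil} (hβ : Alt β) (E : Fin 4 → TangentSpace 𝓘E z) : AltM (mt E β) :=
  fun a b => Alt.swap hβ (E a) (E b)

include h

theorem exp1 (φ : E4 →L[ℝ] ℝ) (x : TangentSpace 𝓘E z) : φ x = ∑ a, co E x a * φ (E a) := by
  have h1 := congrArg (fun y : TangentSpace 𝓘E z => φ y) (mgrad_frame h.orth x)
  refine h1.trans ?_
  have h2 := map_sum φ (fun a => ((inner ℝ x (E a) : ℝ) • E a : E4)) Finset.univ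
  refine h2.trans (Finset.sum_congr rfl fun a _ => ?_)
  exact map_smul φ (inner ℝ x (E a) : ℝ) (E a : E4)

theorem exp2 (β : Bil) (x y : TangentSpace 𝓘E z) :
    β x y = ∑ a, ∑ b, co E x a * co E y b * mt E β a b := by
  rw [exp1 h (β x) y, Finset.sum_comm]
  refine Finset.sum_congr rfl fun b _ => ?_
  have h1 := exp1 h (β.flip (E b)) x
  have h2 : β x (E b) = ∑ a, co E x a * β (E a) (E b) := h1
  rw [h2, Finset.mul_sum]
  exact Finset.sum_congr rfl fun a _ => by unfold mt; ring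

variable {κ : Type} [Fintype κ] (s : PF 4 M κ)

theorem tr1 (φ ψ : E4 →L[ℝ] ℝ) :
    ∑ A, φ (s.s A z) * ψ (s.s A z) = ∑ a, φ (E a) * ψ (E a) := by
  have h1 : ∀ A, φ (s.s A z) * ψ (s.s A z) =
      ∑ a, ∑ b, (co E (s.s A z) a * co E (s.s A z) b) * (φ (E a) * ψ (E b)) := by
    intro A
    rw [exp1 h φ, exp1 h ψ, Finset.sum_mul_sum]
    exact Finset.sum_congr rfl fun a _ => Finset.sum_congr rfl fun b _ => by ring
  simp only [h1]
  rw [Finset.sum_comm]
  refine Finset.sum_congr rfl fun a _ => ?_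
  rw [Finset.sum_comm]
  have h2 : ∀ b, ∑ A, (co E (s.s A z) a * co E (s.s A z) b) * (φ (E a) * ψ (E b)) =
      if a = b then φ (E a) * ψ (E b) else 0 := by
    intro b
    rw [← Finset.sum_mul]
    have h3 := pars_inner s z (E a) (E b)
    rw [h.orth] at h3
    have h4 : ∑ A, co E (s.s A z) a * co E (s.s A z) b = if a = b then 1 else 0 := h3
    rw [h4]
    split_ifs <;> simp
  simp only [h2, Finset.sum_ite_eq, Finset.mem_univ, if_true]

theorem tr2 (β γ : Bil) : ∑ A, ∑ B, β (s.s A z) (s.s B z) * γ (s.s A z) (s.s B z) =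
    ∑ a, ∑ b, mt E β a b * mt E γ a b := by
  have h1 : ∀ A, ∑ B, β (s.s A z) (s.s B z) * γ (s.s A z) (s.s B z) =
      ∑ b, β (s.s A z) (E b) * γ (s.s A z) (E b) := fun A => tr1 h s (β (s.s A z)) (γ (s.s A z))
  simp only [h1]
  rw [Finset.sum_comm]
  have h2 : ∀ b, ∑ A, β (s.s A z) (E b) * γ (s.s A z) (E b) =
      ∑ a, mt E β a b * mt E γ a b := fun b => tr1 h s (β.flip (E b)) (γ.flip (E b))
  simp only [h2]
  rw [Finset.sum_comm]

theorem WF_E (β γ : Bil) : WF β γ E = wf (mt E β) (mt E γ) := rfl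

theorem mt_e (i : Fin 3) : mt E (at2 (e i) z) = sdm i := by
  funext a b
  exact h.e i a b

/-- `2 q(a,b) = (a ∧ b)(E)` -/
theorem qG_E (he : ∀ i, Alt (at2 (e i) z)) (h0 : W (at2 (e 0) z) (at2 (e 0) z) ≠ 0)
    {β γ : Bil} (hβ : Alt β) (hγ : Alt γ) :
    wf (mt E β) (mt E γ) = 2 * q (at2 (e 0) z) β γ := by
  have h1 := WF_vol (he 0) hβ hγ h0 E
  have h2 := WF_vol (he 0) (he 0) (he 0) h0 E
  rw [WF_E h] at h1 h2
  rw [h1, WF_E h, mt_e h]
  have h3 : wf (sdm 0) (sdm 0) = 2 := by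
    rw [(wf_sdm _).1]; simp [sdm]; norm_num
  rw [h3]
  ring

variable (he : ∀ i, Alt (at2 (e i) z)) (h0 : W (at2 (e 0) z) (at2 (e 0) z) ≠ 0)
include he h0

theorem wf_of_q {β : Bil} (hβ : Alt β) (hq : ∀ i, q (at2 (e 0) z) β (at2 (e i) z) = 0) (i : Fin 3) :
    wf (mt E β) (sdm i) = 0 := by
  rw [← mt_e h i, qG_E h he h0 hβ (he i), hq i, mul_zero]

theorem sum_asd {β γ : Bil} (hβ : Alt β) (hγ : Alt γ)
    (hq : ∀ i, q (at2 (e 0) z) β (at2 (e i) z) = 0) :
    ∑ A, ∑ B, β (s.s A z) (s.s B z) * γ (s.s A z) (s.s B z) = - 4 * q (at2 (e 0) z) β γ := by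
  rw [tr2 h s, pair_asd (mt_alt hβ E) (mt_alt hγ E) (wf_of_q h he h0 hβ hq), qG_E h he h0 hβ hγ]
  ring

theorem sum_sd {γ : Bil} (hγ : Alt γ) (i : Fin 3) :
    ∑ A, ∑ B, at2 (e i) z (s.s A z) (s.s B z) * γ (s.s A z) (s.s B z) =
      4 * q (at2 (e 0) z) (at2 (e i) z) γ := by
  rw [tr2 h s, mt_e h, pair_sd (mt_alt hγ E), ← mt_e h i, qG_E h he h0 (he i) hγ]
  ring

end pt

section vol

variable {M : Type} [TopologicalSpace M] [ChartedSpace (EuclideanSpace ℝ (Fin 4)) M]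
  [IsManifold 𝓘(ℝ, EuclideanSpace ℝ (Fin 4)) ∞ M]
  [RiemannianBundle (fun x : M => TangentSpace 𝓘(ℝ, EuclideanSpace ℝ (Fin 4)) x)]
  [IsContMDiffRiemannianBundle 𝓘(ℝ, EuclideanSpace ℝ (Fin 4)) ∞ (EuclideanSpace ℝ (Fin 4))
      (fun x : M => TangentSpace 𝓘(ℝ, EuclideanSpace ℝ (Fin 4)) x)]

local notation "𝔼" => EuclideanSpace ℝ (Fin 4)
local notation "𝓘E" => 𝓘(ℝ, EuclideanSpace ℝ (Fin 4))

/-- the volume form with two arguments fixed -/
def volB (F : Bil) (u v : E4) : Bil :=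
  (F u v) • F - (F u).smulRight (F v) + (F v).smulRight (F u)

theorem volB_apply (F : Bil) (u v x y : E4) :
    volB F u v x y = F u v * F x y - F u x * F v y + F v x * F u y := rfl

theorem WF_volB {F : Bil} (v : Fin 4 → E4) : WF F F v / 2 = volB F (v 0) (v 1) (v 2) (v 3) := by
  rw [volB_apply]; unfold WF; ring

theorem volB_comm {F : Bil} (hF : Alt F) (u v x y : E4) : volB F u v x y = volB F x y u v := by
  rw [volB_apply, volB_apply, Alt.swap hF x u, Alt.swap hF y v, Alt.swap hF y u, Alt.swap hF x v]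
  ring

variable {e : Fin 3 → F2 E4 M} {z : M} {E : Fin 4 → TangentSpace 𝓘E z} (h : AdF e z E)
include h

theorem F_co (u : TangentSpace 𝓘E z) (c : Fin 4) :
    at2 (e 0) z u (E c) = Fe (co E u) c := by
  rw [Fe_eq]
  have h1 := exp1 h ((at2 (e 0) z).flip (E c)) u
  refine h1.trans (Finset.sum_congr rfl fun a _ => ?_)
  show co E u a * at2 (e 0) z (E a) (E c) = _
  rw [h.e]

theorem F_uv (u v : TangentSpace 𝓘E z) : at2 (e 0) z u v = Fu (co E u) (co E v) := by
  rw [Fu_eq, exp2 h (at2 (e 0) z) u v]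
  exact Finset.sum_congr rfl fun a _ => Finset.sum_congr rfl fun b _ => by
    rw [show mt E (at2 (e 0) z) a b = sdm 0 a b from h.e 0 a b]

variable {κ : Type} [Fintype κ] (s : PF 4 M κ)

theorem sum_volB (β : Bil) (u v : TangentSpace 𝓘E z) :
    ∑ C, ∑ D, volB (at2 (e 0) z) u v (s.s C z) (s.s D z) * β (s.s C z) (s.s D z) =
      ∑ c, ∑ d, (Fu (co E u) (co E v) * sdm 0 c d - Fe (co E u) c * Fe (co E v) d +
        Fe (co E v) c * Fe (co E u) d) * mt E β c d := by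
  rw [tr2 h s]
  refine Finset.sum_congr rfl fun c _ => Finset.sum_congr rfl fun d _ => ?_
  congr 1
  have h1 := F_uv h u v
  have h2 := F_co h u c
  have h3 := F_co h v d
  have h4 := F_co h v c
  have h5 := F_co h u d
  have h6 := h.e 0 c d
  rw [← h1, ← h2, ← h3, ← h4, ← h5, ← h6]
  rfl

variable (he : ∀ i, Alt (at2 (e i) z)) (h0 : W (at2 (e 0) z) (at2 (e 0) z) ≠ 0)
include he h0

theorem vol_asd {β : Bil} (hβ : Alt β)
    (hq : ∀ i, q (at2 (e 0) z) β (at2 (e i) z) = 0) (u v : TangentSpace 𝓘E z) :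
    ∑ C, ∑ D, volB (at2 (e 0) z) u v (s.s C z) (s.s D z) * β (s.s C z) (s.s D z) =
      - 2 * β u v := by
  rw [sum_volB h s, V_asd (mt_alt hβ E) (wf_of_q h he h0 hβ hq), exp2 h β]

theorem vol_sd (i : Fin 3) (u v : TangentSpace 𝓘E z) :
    ∑ C, ∑ D, volB (at2 (e 0) z) u v (s.s C z) (s.s D z) * at2 (e i) z (s.s C z) (s.s D z) =
      2 * at2 (e i) z u v := by
  rw [sum_volB h s, mt_e h, V_sd, exp2 h (at2 (e i) z), mt_e h]

end vol

end

end Crest.Agent.R235.Hodge_194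
end

-- ▼ part R235/HodgeR_194
section

/-!
Row 235 (S0364), package IND, leaf IND-7 HODGE (helper194), part 7: the pair `pairR` (`ℝ ⊕ Λ⁻ → T`).

* `HR vol e`       : the geometric hypotheses;
* `frmS s a`       : the two-form of a section of `T ⊗ T`;
* `frmS_sec`       : for a section of `Λ⁻`: `frmS a (s_A, s_B) = a_AB`, anti-self-dual;
* `inpR`           : `Inp (pairR s hv) s h.fr.vol (SDm (e 0) e)`.
-/

set_option autoImplicit false
set_option maxSynthPendingDepth 3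
set_option linter.unusedSectionVars false

open Set Function Filter MeasureTheory Bundle
open scoped Manifold ContDiff Topology ENNReal
open Crest.GeometryTopology.CoordMetric Crest.GeometryTopology.ChartCurvature
  Crest.GeometryTopology.PointedLimit
open Crest.Agent.R202.Tens Crest.Agent.R247.Bo84 Crest.Agent.R249.Vf281
open Crest.Agent.R249.Tz2_805 Crest.Agent.R249.Tz805 Crest.Agent.R249.Idx789

namespace Crest.Agent.R235.Hodge_194

open Crest.Agent.R240 Crest.Agent.R240.Ch Crest.Agent.R240.Int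
open Crest.Agent.R235.HodgeAbs_194
open Crest.Agent.R235.IndVol_57 (WF WF_vol)
open Crest.Agent.R249.Tv57 (SmV memLp_smooth integrable_ip eq_zero_of_ip)

noncomputable section

section dic

variable {M : Type} [TopologicalSpace M] [ChartedSpace (EuclideanSpace ℝ (Fin 4)) M]
  [IsManifold 𝓘(ℝ, EuclideanSpace ℝ (Fin 4)) ∞ M]
  [RiemannianBundle (fun x : M => TangentSpace 𝓘(ℝ, EuclideanSpace ℝ (Fin 4)) x)]
  [IsContMDiffRiemannianBundle 𝓘(ℝ, EuclideanSpace ℝ (Fin 4)) ∞ (EuclideanSpace ℝ (Fin 4))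
      (fun x : M => TangentSpace 𝓘(ℝ, EuclideanSpace ℝ (Fin 4)) x)]

local notation "𝔼" => EuclideanSpace ℝ (Fin 4)
local notation "𝓘E" => 𝓘(ℝ, EuclideanSpace ℝ (Fin 4))

/-- the value of a smooth two-form on smooth fields is smooth. -/
theorem smooth_at2 {a : F2 E4 M} (ha : Smooth2 a) {X Y : (p : M) → TangentSpace 𝓘E p}
    (hX : ∀ z, VSm 4 ∞ X z) (hY : ∀ z, VSm 4 ∞ Y z) :
    SmoothF E4 (fun z => at2 a z (X z) (Y z)) := by
  intro p
  have h1 : ContDiffOn ℝ ∞ (fun y => rep p a y (vCh 4 p X y) (vCh 4 p Y y))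
      (chartAt E4 p).target := by
    refine ((ha.2 p).clm_apply fun y hy => ?_).clm_apply fun y hy => ?_
    · exact (VSm.chart (n := 4) le_rfl hy (hX _)).contDiffWithinAt
    · exact (VSm.chart (n := 4) le_rfl hy (hY _)).contDiffWithinAt
  refine h1.congr fun y hy => ?_
  show at2 a ((chartAt E4 p).symm y) (X ((chartAt E4 p).symm y)) (Y ((chartAt E4 p).symm y)) = _
  rw [rep_apply, ← dSy_tcc p hy, dSy_vCh hy, ← dSy_tcc p hy, dSy_vCh hy]

variable {κ : Type} [Fintype κ] (s : PF 4 M κ)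

/-- `∑ ⟨s_A, v⟩ φ(s_A) = φ(v)` -/
theorem pexp1 (z : M) (φ : E4 →L[ℝ] ℝ) (v : TangentSpace 𝓘E z) :
    ∑ A, (inner ℝ (s.s A z) v : ℝ) * φ (s.s A z) = φ v := by
  have h0 := congrArg (fun y : TangentSpace 𝓘E z => φ y) (s.pars z v)
  refine Eq.trans ?_ h0
  have h2 := map_sum φ (fun A => ((inner ℝ (s.s A z) v : ℝ) • s.s A z : E4)) Finset.univ
  refine Eq.trans ?_ h2.symm
  exact Finset.sum_congr rfl fun A _ => (map_smul φ (inner ℝ (s.s A z) v : ℝ) (s.s A z : E4)).symm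

theorem pexp2 (z : M) (β : Bil) (u v : TangentSpace 𝓘E z) :
    ∑ C, ∑ D, (inner ℝ (s.s C z) u : ℝ) * inner ℝ (s.s D z) v * β (s.s C z) (s.s D z) =
      β u v := by
  have h1 : ∀ C, ∑ D, (inner ℝ (s.s C z) u : ℝ) * inner ℝ (s.s D z) v * β (s.s C z) (s.s D z) =
      (inner ℝ (s.s C z) u : ℝ) * β.flip v (s.s C z) := by
    intro C
    have h2 : β.flip v (s.s C z) = ∑ D, (inner ℝ (s.s D z) v : ℝ) * β (s.s C z) (s.s D z) :=
      (pexp1 s z (β (s.s C z)) v).symm
    rw [h2, Finset.mul_sum]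
    exact Finset.sum_congr rfl fun D _ => by ring
  simp only [h1]
  exact pexp1 s z (β.flip v) u

/-- the two-form of a section of `T ⊗ T`. -/
def frmS (a : κ × κ → CFn M) : X2 M :=
  (1 / 2 : ℝ) • ∑ y, (⟨fmul (a y).1 (wedG (flat (s.s y.1)) (flat (s.s y.2))),
    Smooth2.fmul (a y).2 (Smooth2.wed (smooth1_flat (s.sm y.1)) (smooth1_flat (s.sm y.2)))⟩ : X2 M)

theorem frmS_apply (a : κ × κ → CFn M) (z : M) (u v : TangentSpace 𝓘E z) :
    at2 (frmS s a).1 z u v = (1 / 2) * ∑ y, (a y).1 z *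
      ((inner ℝ (s.s y.1 z) u : ℝ) * inner ℝ (s.s y.2 z) v -
        inner ℝ (s.s y.2 z) u * inner ℝ (s.s y.1 z) v) := by
  have h1 : (frmS s a).1 = (1 / 2 : ℝ) •
      ∑ y, fmul (a y).1 (wedG (flat (s.s y.1)) (flat (s.s y.2))) := by
    unfold frmS
    rw [Submodule.coe_smul, Submodule.coe_sum]
  have h2 : at2 (∑ y, fmul (a y).1 (wedG (flat (s.s y.1)) (flat (s.s y.2)))) z =
      ∑ y, at2 (fmul (a y).1 (wedG (flat (s.s y.1)) (flat (s.s y.2)))) z := by
    show (∑ y, fmul (a y).1 (wedG (flat (s.s y.1)) (flat (s.s y.2)))) z = _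
    rw [Finset.sum_apply]
    rfl
  rw [h1]
  show (1 / 2 : ℝ) * at2 (∑ y, fmul (a y).1 (wedG (flat (s.s y.1)) (flat (s.s y.2)))) z u v = _
  rw [h2]
  congr 1
  have h3 := map_sum (ContinuousLinearMap.apply ℝ (E4 →L[ℝ] ℝ) (u : E4))
    (fun y : κ × κ => at2 (fmul (a y).1 (wedG (flat (s.s y.1)) (flat (s.s y.2)))) z) Finset.univ
  have h4 := map_sum (ContinuousLinearMap.apply ℝ ℝ (v : E4))
    (fun y : κ × κ => at2 (fmul (a y).1 (wedG (flat (s.s y.1)) (flat (s.s y.2)))) z u) Finset.univ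
  refine (congrArg (ContinuousLinearMap.apply ℝ ℝ (v : E4)) h3).trans (h4.trans ?_)
  exact Finset.sum_congr rfl fun y _ => rfl

theorem frmS_alt (a : κ × κ → CFn M) (z : M) : Alt (at2 (frmS s a).1 z) := (frmS s a).2.1 z

/-- the form with components `β(s_C, s_D)` is `β`. -/
theorem frmS_of {a : κ × κ → CFn M} {z : M} {β : Bil} (hβ : Alt β)
    (ha : ∀ y, (a y).1 z = β (s.s y.1 z) (s.s y.2 z)) : at2 (frmS s a).1 z = β := by
  apply ContinuousLinearMap.ext
  intro u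
  apply ContinuousLinearMap.ext
  intro v
  refine (frmS_apply s a z u v).trans ?_
  have e1 := pexp2 s z β u v
  have e2 := pexp2 s z β v u
  rw [Alt.swap hβ v u] at e2
  have e3 : ∑ y, (a y).1 z * ((inner ℝ (s.s y.1 z) (u : TangentSpace 𝓘E z) : ℝ) *
      inner ℝ (s.s y.2 z) (v : TangentSpace 𝓘E z) -
        inner ℝ (s.s y.2 z) (u : TangentSpace 𝓘E z) * inner ℝ (s.s y.1 z) (v : TangentSpace 𝓘E z)) =
      (∑ C, ∑ D, (inner ℝ (s.s C z) (u : TangentSpace 𝓘E z) : ℝ) *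
        inner ℝ (s.s D z) (v : TangentSpace 𝓘E z) * β (s.s C z) (s.s D z)) -
      ∑ C, ∑ D, (inner ℝ (s.s C z) (v : TangentSpace 𝓘E z) : ℝ) *
        inner ℝ (s.s D z) (u : TangentSpace 𝓘E z) * β (s.s C z) (s.s D z) := by
    rw [Fintype.sum_prod_type, ← Finset.sum_sub_distrib]
    refine Finset.sum_congr rfl fun C _ => ?_
    rw [← Finset.sum_sub_distrib]
    exact Finset.sum_congr rfl fun D _ => by
      rw [ha]
      ring
  refine (congrArg (fun r : ℝ => 1 / 2 * r) (e3.trans (congrArg₂ (· - ·) e1 e2))).trans ?_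
  show 1 / 2 * (β u v - -β u v) = β u v
  ring

/-- the projection to `Λ⁻` as a bilinear form. -/
def lamBil (F : Bil) (z : M) (y : κ × κ) : Bil :=
  (1 / 4 : ℝ) • ((flatL z (s.s y.1 z)).smulRight (flatL z (s.s y.2 z)) -
    (flatL z (s.s y.2 z)).smulRight (flatL z (s.s y.1 z)) - volB F (s.s y.1 z) (s.s y.2 z))

theorem lamBil_apply (F : Bil) (z : M) (y : κ × κ) (u v : TangentSpace 𝓘E z) :
    lamBil s F z y u v = (1 / 4) * ((inner ℝ (s.s y.1 z) u : ℝ) * inner ℝ (s.s y.2 z) v -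
      inner ℝ (s.s y.2 z) u * inner ℝ (s.s y.1 z) v - volB F (s.s y.1 z) (s.s y.2 z) u v) := rfl

theorem lamBil_alt {F : Bil} (hF : Alt F) (z : M) (y : κ × κ) : Alt (lamBil s F z y) := by
  intro v
  refine (lamBil_apply s F z y v v).trans ?_
  have h1 : volB F (s.s y.1 z) (s.s y.2 z) v v = 0 := by
    refine (volB_apply F (s.s y.1 z) (s.s y.2 z) v v).trans ?_
    have h2 := hF v
    linear_combination F (s.s y.1 z) (s.s y.2 z) * h2
  linear_combination (-(1 / 4)) * h1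

variable {vol : (z : M) → (Fin 4 → TangentSpace 𝓘(ℝ, EuclideanSpace ℝ (Fin 4)) z) → ℝ}
  {e : Fin 3 → F2 E4 M}

/-- the geometric hypotheses -/
structure HR (vol : (z : M) → (Fin 4 → TangentSpace 𝓘(ℝ, EuclideanSpace ℝ (Fin 4)) z) → ℝ)
    (e : Fin 3 → F2 E4 M) : Prop where
  fr : Fr (e 0) e
  ad : ∀ z, ∃ E, AdF e z E
  vol : ∀ z v, vol z v = WF (at2 (e 0) z) (at2 (e 0) z) v / 2

variable (hR : HR vol e)
include hR

theorem lamP_eq (A B : κ) (y : κ × κ) (z : M) :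
    lamP s vol (A, B) y z = lamBil s (at2 (e 0) z) z y (s.s A z) (s.s B z) := by
  have h1 := volB_comm (hR.fr.alt 0 z) (s.s A z) (s.s B z) (s.s y.1 z) (s.s y.2 z)
  have h2 : vol z ![s.s A z, s.s B z, s.s y.1 z, s.s y.2 z] =
      volB (at2 (e 0) z) (s.s A z) (s.s B z) (s.s y.1 z) (s.s y.2 z) :=
    (hR.vol z _).trans (WF_volB _)
  have t : ∀ A C, tanP s A C z = inner ℝ (s.s C z) (s.s A z) := fun A C => real_inner_comm _ _
  refine Eq.trans ?_ (lamBil_apply s (at2 (e 0) z) z y (s.s A z) (s.s B z)).symm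
  show (1 / 4) * (tanP s A y.1 z * tanP s B y.2 z - tanP s A y.2 z * tanP s B y.1 z -
    vol z ![s.s A z, s.s B z, s.s y.1 z, s.s y.2 z]) = _
  rw [t, t, t, t]
  linear_combination (-(1 / 4)) * h2 - (1 / 4) * h1

/-- the projection of a form with a star eigenvalue -/
theorem lamP_form (z : M) {β : Bil} (hβ : Alt β) {c : ℝ}
    (hc : ∀ u v : TangentSpace 𝓘E z, ∑ C, ∑ D, volB (at2 (e 0) z) u v (s.s C z) (s.s D z) *
      β (s.s C z) (s.s D z) = c * β u v) (A B : κ) :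
    ∑ y, lamP s vol (A, B) y z * β (s.s y.1 z) (s.s y.2 z) =
      (1 / 4) * (2 - c) * β (s.s A z) (s.s B z) := by
  have e1 := pexp2 s z β (s.s A z) (s.s B z)
  have e2 := pexp2 s z β (s.s B z) (s.s A z)
  rw [Alt.swap hβ (s.s B z) (s.s A z)] at e2
  have e3 := hc (s.s A z) (s.s B z)
  have e4 : ∀ C D, lamP s vol (A, B) (C, D) z * β (s.s C z) (s.s D z) =
      (1 / 4) * ((inner ℝ (s.s C z) (s.s A z) : ℝ) * inner ℝ (s.s D z) (s.s B z) *
        β (s.s C z) (s.s D z)) + (1 / 4) * ((inner ℝ (s.s C z) (s.s B z) : ℝ) *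
          inner ℝ (s.s D z) (s.s A z) * - β (s.s C z) (s.s D z)) - (1 / 4) *
        (volB (at2 (e 0) z) (s.s A z) (s.s B z) (s.s C z) (s.s D z) *
      β (s.s C z) (s.s D z)) := by
    intro C D
    have h1 := volB_comm (hR.fr.alt 0 z) (s.s C z) (s.s D z) (s.s A z) (s.s B z)
    have h2 := (lamP_eq s hR A B (C, D) z).trans
      (lamBil_apply s (at2 (e 0) z) z (C, D) (s.s A z) (s.s B z))
    simp only at h2
    rw [h2]
    linear_combination (-(1 / 4) * β (s.s C z) (s.s D z)) * h1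
  rw [Fintype.sum_prod_type]
  simp only [e4, Finset.sum_sub_distrib, Finset.sum_add_distrib, ← Finset.mul_sum, mul_neg,
    Finset.sum_neg_distrib]
  rw [e1, e2, e3]
  ring

/-- sections of `Λ⁻` and forms -/
theorem frmS_sec (hv : IsVol vol) {a : κ × κ → CFn M} (z : M)
    (ha : ∀ x, ∑ y, lamP s vol x y z * (a y).1 z = (a x).1 z) :
    (∀ A B, at2 (frmS s a).1 z (s.s A z) (s.s B z) = (a (A, B)).1 z) ∧
      ∀ i, qG (e 0) (frmS s a).1 (e i) z = 0 := by
  obtain ⟨E, hE⟩ := hR.ad z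
  let η : Bil := ∑ y, (a y).1 z • lamBil s (at2 (e 0) z) z y
  have hη : ∀ u v : TangentSpace 𝓘E z, η u v =
      ∑ y, (a y).1 z * lamBil s (at2 (e 0) z) z y u v := by
    intro u v
    have h3 := map_sum (ContinuousLinearMap.apply ℝ (E4 →L[ℝ] ℝ) (u : E4))
      (fun y : κ × κ => (a y).1 z • lamBil s (at2 (e 0) z) z y) Finset.univ
    have h4 := map_sum (ContinuousLinearMap.apply ℝ ℝ (v : E4))
      (fun y : κ × κ => ((a y).1 z • lamBil s (at2 (e 0) z) z y) u) Finset.univ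
    exact (congrArg (ContinuousLinearMap.apply ℝ ℝ (v : E4)) h3).trans h4
  have hηa : Alt η := by
    intro v
    refine (hη v v).trans (Finset.sum_eq_zero fun y _ => ?_)
    rw [lamBil_alt s (hR.fr.alt 0 z) z y v, mul_zero]
  have hηs : ∀ A B, η (s.s A z) (s.s B z) = (a (A, B)).1 z := by
    intro A B
    refine (hη _ _).trans ?_
    rw [← ha (A, B)]
    exact Finset.sum_congr rfl fun y _ => by rw [lamP_eq s hR, mul_comm]
  have h1 : at2 (frmS s a).1 z = η := frmS_of s hηa fun y => (hηs y.1 y.2).symm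
  have h2 : ∀ A B, at2 (frmS s a).1 z (s.s A z) (s.s B z) = (a (A, B)).1 z := by
    intro A B
    rw [h1]
    exact hηs A B
  refine ⟨h2, fun i => ?_⟩
  have h3 := sum_sd hE s (fun i => hR.fr.alt i z) (hR.fr.ne z) (frmS_alt s a z) i
  have h4 : ∑ A, ∑ B, at2 (e i) z (s.s A z) (s.s B z) * at2 (frmS s a).1 z (s.s A z) (s.s B z) =
      ∑ y, ∑ x, (at2 (e i) z (s.s x.1 z) (s.s x.2 z) * (lamP s vol x y z * (a y).1 z)) := by
    rw [Finset.sum_comm (s := (Finset.univ : Finset (κ × κ))), ← Fintype.sum_prod_type']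
    refine Finset.sum_congr rfl fun x _ => ?_
    rw [← Finset.mul_sum, ha x, h2]
  have h5 : ∀ y : κ × κ, ∑ x : κ × κ, (at2 (e i) z (s.s x.1 z) (s.s x.2 z) *
      (lamP s vol x y z * (a y).1 z)) = 0 := by
    intro y
    have h6 := lamP_form s hR z (hR.fr.alt i z) (c := 2)
      (vol_sd hE s (fun i => hR.fr.alt i z) (hR.fr.ne z) i) y.1 y.2
    have h7 : ∑ x : κ × κ, (at2 (e i) z (s.s x.1 z) (s.s x.2 z) *
      (lamP s vol x y z * (a y).1 z)) = (a y).1 z *
        ∑ x : κ × κ, lamP s vol (y.1, y.2) x z * at2 (e i) z (s.s x.1 z) (s.s x.2 z) := by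
      rw [Finset.mul_sum]
      refine Finset.sum_congr rfl fun x _ => ?_
      have h8 : lamP s vol x y z = lamP s vol y x z := (lamB s hv).symmp x y z
      rw [h8]
      ring
    rw [h7, h6]
    ring
  rw [h4, Finset.sum_congr rfl fun y _ => h5 y, Finset.sum_const_zero] at h3
  have h9 : q (at2 (e 0) z) (at2 (e i) z) (at2 (frmS s a).1 z) = 0 := by linarith
  show q (at2 (e 0) z) (at2 (frmS s a).1 z) (at2 (e i) z) = 0
  unfold q at h9 ⊢
  rw [W_comm]
  exact h9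

end dic

end

end Crest.Agent.R235.Hodge_194
end

-- ▼ part R235/HodgeR2_194
section

/-!
Row 235 (S0364), package IND, leaf IND-7 HODGE (helper194), part 8: `Inp` of the pair `pairR`.

* `PhiR`  : sections of `ℝ ⊕ Λ⁻` = functions and anti-self-dual forms;
* `inpR`  : `Inp (pairR s hv) s h.fr.vol (SDm (e 0) e)`, `c = c' = -2`.
-/

set_option autoImplicit false
set_option maxSynthPendingDepth 3
set_option linter.unusedSectionVars false

open Set Function Filter MeasureTheory Bundle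
open scoped Manifold ContDiff Topology ENNReal
open Crest.GeometryTopology.CoordMetric Crest.GeometryTopology.ChartCurvature
  Crest.GeometryTopology.PointedLimit
open Crest.Agent.R202.Tens Crest.Agent.R247.Bo84 Crest.Agent.R249.Vf281
open Crest.Agent.R249.Tz2_805 Crest.Agent.R249.Tz805 Crest.Agent.R249.Idx789

namespace Crest.Agent.R235.Hodge_194

open Crest.Agent.R240 Crest.Agent.R240.Ch Crest.Agent.R240.Int
open Crest.Agent.R235.HodgeAbs_194
open Crest.Agent.R249.Tv57 (SmV memLp_smooth integrable_ip eq_zero_of_ip)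

noncomputable section

variable {M : Type} [MetricSpace M] [ChartedSpace (EuclideanSpace ℝ (Fin 4)) M]
  [IsManifold (𝓡 4) ∞ M]
  [RiemannianBundle (fun p : M => TangentSpace (𝓡 4) p)]
  [IsContMDiffRiemannianBundle (𝓡 4) ∞ (EuclideanSpace ℝ (Fin 4)) (fun p : M => TangentSpace (𝓡 4) p)]
  [IsRiemannianManifold (𝓡 4) M] [MeasurableSpace M] [BorelSpace M]
  [SecondCountableTopology M] [Nonempty M] [CompactSpace M]

local notation "𝔼" => EuclideanSpace ℝ (Fin 4)
local notation "𝓘E" => 𝓘(ℝ, EuclideanSpace ℝ (Fin 4))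
local notation "μ4" => (μHE[4] : Measure M)
local notation "ip" => Crest.Agent.R249.Tv57.ip

variable {κ : Type} [Fintype κ] (s : PF 4 M κ)
  {vol : (z : M) → (Fin 4 → TangentSpace 𝓘(ℝ, EuclideanSpace ℝ (Fin 4)) z) → ℝ}
  (hv : IsVol vol) {e : Fin 3 → F2 E4 M} (hR : HR vol e)

/-- the components of a section -/
def cmp (u : SS (pairR s hv).D0) (y : κ × κ) : CFn M := ⟨u.1 (some y), (smoothF_iff' _).2 (u.2.1 _)⟩

theorem cmp_sec (u : SS (pairR s hv).D0) (z : M) (x : κ × κ) :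
    ∑ y, lamP s vol x y z * (cmp s hv u y).1 z = (cmp s hv u x).1 z := by
  have h := u.2.2 (some x) z
  rw [Fintype.sum_option] at h
  have h1 : (pairR s hv).D0.p (some x) none z = 0 := rfl
  rw [h1, zero_mul, zero_add] at h
  exact h

/-- the section of a function and a form -/
def secR (f : CFn M) (η : F2 E4 M) (o : Option (κ × κ)) (z : M) : ℝ :=
  match o with
  | none => f.1 z
  | some y => at2 η z (s.s y.1 z) (s.s y.2 z)

theorem hpR (a b : κ) (z : M) : (pairR s hv).D1.p a b z = tanP s a b z := rfl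

theorem hWR (a b : κ) (z : M) : (pairR s hv).D1.W a b z = tanW s a b z := rfl

include hR

theorem q_asd {η : X2 M} (hη : η ∈ SDm (e 0) e) (z : M) (i : Fin 3) :
    q (at2 (e 0) z) (at2 η.1 z) (at2 (e i) z) = 0 := hη i z

theorem secR_mem (f : CFn M) {η : X2 M} (hη : η ∈ SDm (e 0) e) :
    secR s f η.1 ∈ SS (pairR s hv).D0 := by
  refine ⟨fun o => ?_, fun o z => ?_⟩
  · cases o with
    | none => exact smf f
    | some y => exact (smoothF_iff' _).1 (smooth_at2 η.2 (s.sm y.1) (s.sm y.2))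
  · rw [Fintype.sum_option]
    cases o with
    | none =>
      have h1 : (pairR s hv).D0.p none none z = 1 := rfl
      have h2 : ∀ y, (pairR s hv).D0.p none (some y) z = 0 := fun y => rfl
      simp only [h1, h2, one_mul, zero_mul, Finset.sum_const_zero, add_zero]
    | some x =>
      have h1 : (pairR s hv).D0.p (some x) none z = 0 := rfl
      rw [h1, zero_mul, zero_add]
      obtain ⟨E, hE⟩ := hR.ad z
      have h2 := lamP_form s hR z (η.2.1 z) (c := -2)
        (vol_asd hE s (fun i => hR.fr.alt i z) (hR.fr.ne z) (η.2.1 z) fun i => q_asd hR hη z i)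
        x.1 x.2
      refine h2.trans ?_
      show 1 / 4 * (2 - -2) * _ = at2 η.1 z (s.s x.1 z) (s.s x.2 z)
      ring

/-- **sections of `ℝ ⊕ Λ⁻`** -/
def PhiR : SS (pairR s hv).D0 ≃ₗ[ℝ] CFn M × SDm (e 0) e where
  toFun u := (⟨u.1 none, (smoothF_iff' _).2 (u.2.1 _)⟩,
    ⟨frmS s (cmp s hv u), fun i z => (frmS_sec s hR hv z (cmp_sec s hv u z)).2 i⟩)
  map_add' u v := by
    refine Prod.ext rfl (Subtype.ext (Subtype.ext (funext fun z => ?_)))
    apply ContinuousLinearMap.ext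
    intro x
    apply ContinuousLinearMap.ext
    intro y
    refine (frmS_apply s (cmp s hv (u + v)) z x y).trans ?_
    refine Eq.trans ?_ (congrArg₂ (· + ·) (frmS_apply s (cmp s hv u) z x y)
      (frmS_apply s (cmp s hv v) z x y)).symm
    rw [← mul_add, ← Finset.sum_add_distrib]
    congr 1
    refine Finset.sum_congr rfl fun y _ => ?_
    exact add_mul ((cmp s hv u y).1 z) ((cmp s hv v y).1 z) _
  map_smul' r u := by
    refine Prod.ext rfl (Subtype.ext (Subtype.ext (funext fun z => ?_)))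
    apply ContinuousLinearMap.ext
    intro x
    apply ContinuousLinearMap.ext
    intro y
    refine (frmS_apply s (cmp s hv (r • u)) z x y).trans ?_
    refine Eq.trans ?_ (congrArg (fun t => r * t) (frmS_apply s (cmp s hv u) z x y)).symm
    beta_reduce
    rw [mul_left_comm r, Finset.mul_sum _ _ r]
    congr 1
    refine Finset.sum_congr rfl fun y _ => ?_
    exact mul_assoc r ((cmp s hv u y).1 z) _
  invFun p := ⟨secR s p.1 p.2.1.1, secR_mem s hv hR p.1 p.2.2⟩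
  left_inv u := by
    apply Subtype.ext
    funext o z
    cases o with
    | none => rfl
    | some y => exact (frmS_sec s hR hv z (cmp_sec s hv u z)).1 y.1 y.2
  right_inv p := by
    refine Prod.ext rfl (Subtype.ext (Subtype.ext (funext fun z => ?_)))
    exact frmS_of s (p.2.1.2.1 z) fun y => rfl

theorem PhiR_val (u : SS (pairR s hv).D0) (z : M) (A B : κ) :
    at2 (PhiR s hv hR u).2.1.1 z (s.s A z) (s.s B z) = u.1 (some (A, B)) z :=
  (frmS_sec s hR hv z (cmp_sec s hv u z)).1 A B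

theorem sum_PhiR (u : SS (pairR s hv).D0) (γ : X2 M) (z : M) :
    ∑ A, ∑ B, u.1 (some (A, B)) z * at2 γ.1 z (s.s A z) (s.s B z) =
      - 4 * qG (e 0) (PhiR s hv hR u).2.1.1 γ.1 z := by
  obtain ⟨E, hE⟩ := hR.ad z
  have h1 := sum_asd hE s (fun i => hR.fr.alt i z) (hR.fr.ne z) ((PhiR s hv hR u).2.1.2.1 z)
    (γ.2.1 z) fun i => q_asd hR (PhiR s hv hR u).2.2 z i
  refine Eq.trans ?_ h1
  exact Finset.sum_congr rfl fun A _ => Finset.sum_congr rfl fun B _ =>
    congrArg (fun t : ℝ => t * _) (PhiR_val s hv hR u z A B).symm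

variable (hI : ∀ a b : F2 E4 M, Int.I (e 0) a b = ∫ x, 2 * qG (e 0) a b x ∂(μHE[4] : Measure M))
include hI

theorem int_PhiR (u : SS (pairR s hv).D0) (γ : X2 M) :
    ∫ z, ∑ A, ∑ B, u.1 (some (A, B)) z * at2 γ.1 z (s.s A z) (s.s B z) ∂μ4 =
      - 2 * IL (e 0) hR.fr.vol (PhiR s hv hR u).2.1 γ := by
  rw [IL_apply, hI, ← integral_const_mul]
  refine integral_congr_ae (Eventually.of_forall fun z => ?_)
  refine (sum_PhiR s hv hR u γ z).trans ?_
  beta_reduce
  ring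

theorem form0R (u v : SS (pairR s hv).D0) : ip 4 u.1 v.1 =
    JL (PhiR s hv hR u).1 (PhiR s hv hR v).1 +
      (-2) * IL (e 0) hR.fr.vol (PhiR s hv hR u).2.1 (PhiR s hv hR v).2.1 := by
  have := fin4 (M := M)
  unfold Crest.Agent.R249.Tv57.ip
  rw [← int_PhiR s hv hR hI, JL_apply, ← integral_add]
  · refine integral_congr_ae (Eventually.of_forall fun z => ?_)
    beta_reduce
    rw [Fintype.sum_option, Fintype.sum_prod_type]
    congr 1
    exact Finset.sum_congr rfl fun A _ => Finset.sum_congr rfl fun B _ =>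
      congrArg (fun t : ℝ => _ * t) (PhiR_val s hv hR v z A B).symm
  · exact int_ff _ _
  · have h1 := integrable_ip (n := 4) (u := fun y : κ × κ => u.1 (some y))
      (v := fun y : κ × κ => v.1 (some y)) (fun y => u.2.1 _) (fun y => v.2.1 _)
    refine h1.congr (Eventually.of_forall fun z => ?_)
    beta_reduce
    rw [Fintype.sum_prod_type]
    exact Finset.sum_congr rfl fun A _ => Finset.sum_congr rfl fun B _ =>
      congrArg (fun t : ℝ => _ * t) (PhiR_val s hv hR v z A B).symm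

omit hI in
/-- the second components of `B w` -/
theorem sum_B (u : SS (pairR s hv).D0) (w : SS (pairR s hv).D1) (z : M) :
    ∑ y, u.1 (some y) z * opB (pairR s hv).D1 (pairR s hv).cc w.1 (some y) z =
      ∑ A, ∑ B, u.1 (some (A, B)) z *
        at2 (dL (PsiL s (pairR s hv).D1 (hpR s hv) w)).1 z (s.s A z) (s.s B z) := by
  set Y := fieldOf s w.1 with hY
  have hYs : ∀ q, VSm 4 ∞ Y q := fun q => VSm_fieldOf s w.2.1 q
  set m : κ → κ → ℝ := fun A B => inner ℝ (mCov 4 Y z (s.s B z)) (s.s A z) with hm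
  have hsec : ∀ a z, ∑ b, tanP s a b z * w.1 b z = w.1 a z := w.2.2
  have h1 : ∀ y, opB (pairR s hv).D1 (pairR s hv).cc w.1 (some y) z =
      - (2 * ∑ A, ∑ B, lamP s vol (A, B) y z * m A B) := fun y =>
    opB_some s vol (D := (pairR s hv).D1) (hWR s hv) w.2.1 hsec y z
  have h2 : ∀ A B, ∑ y, lamP s vol (A, B) y z * u.1 (some y) z = u.1 (some (A, B)) z := fun A B =>
    cmp_sec s hv u z (A, B)
  have h3 : ∑ y, u.1 (some y) z * opB (pairR s hv).D1 (pairR s hv).cc w.1 (some y) z =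
      - 2 * ∑ A, ∑ B, u.1 (some (A, B)) z * m A B := by
    have h8 : ∑ y, u.1 (some y) z * (- (2 * ∑ A, ∑ B, lamP s vol (A, B) y z * m A B)) =
        - 2 * ∑ A, ∑ B, (∑ y, lamP s vol (A, B) y z * u.1 (some y) z) * m A B := by
      simp only [Finset.mul_sum, Finset.sum_mul, mul_neg, neg_mul, Finset.sum_neg_distrib]
      congr 1
      rw [Finset.sum_comm]
      refine Finset.sum_congr rfl fun A _ => ?_
      rw [Finset.sum_comm]
      refine Finset.sum_congr rfl fun B _ => Finset.sum_congr rfl fun y _ => ?_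
      ring
    simp only [h1]
    rw [h8]
    simp only [h2]
  have h4 : ∀ A B, at2 (dL (PsiL s (pairR s hv).D1 (hpR s hv) w)).1 z (s.s A z) (s.s B z) =
      m B A - m A B := by
    intro A B
    exact at2_dG_flat hYs z (s.s A z) (s.s B z)
  have h5 : ∀ A B, u.1 (some (A, B)) z = - u.1 (some (B, A)) z := by
    intro A B
    have e1 := PhiR_val s hv hR u z A B
    have e2 := PhiR_val s hv hR u z B A
    have e3 := Alt.swap ((PhiR s hv hR u).2.1.2.1 z) (s.s A z) (s.s B z)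
    linarith
  have h6 : ∑ A, ∑ B, u.1 (some (A, B)) z * m B A = - ∑ A, ∑ B, u.1 (some (A, B)) z * m A B := by
    rw [Finset.sum_comm, ← Finset.sum_neg_distrib]
    refine Finset.sum_congr rfl fun A _ => ?_
    rw [← Finset.sum_neg_distrib]
    exact Finset.sum_congr rfl fun B _ => by rw [h5 B A, neg_mul]
  rw [h3]
  simp only [h4, mul_sub, Finset.sum_sub_distrib]
  rw [h6]
  ring

theorem formR (u : SS (pairR s hv).D0) (w : SS (pairR s hv).D1) :
    ip 4 u.1 (opB (pairR s hv).D1 (pairR s hv).cc w.1) =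
      - JL (PhiR s hv hR u).1 (δL s (PsiL s (pairR s hv).D1 (hpR s hv) w)) +
        (-2) * IL (e 0) hR.fr.vol (PhiR s hv hR u).2.1
          (dL (PsiL s (pairR s hv).D1 (hpR s hv) w)) := by
  have := fin4 (M := M)
  have hsec : ∀ a z, ∑ b, tanP s a b z * w.1 b z = w.1 a z := w.2.2
  have hB := Crest.Agent.R249.Wk352.sm_opB (D1 := (pairR s hv).D1) (pairR s hv).smc w.2.1
  unfold Crest.Agent.R249.Tv57.ip
  rw [← int_PhiR s hv hR hI, JL_apply, ← integral_neg, ← integral_add]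
  · refine integral_congr_ae (Eventually.of_forall fun z => ?_)
    beta_reduce
    rw [Fintype.sum_option, sum_B s hv hR]
    congr 1
    have h1 := opB_none s vol (D := (pairR s hv).D1) (hWR s hv) w.2.1 hsec z
    have h9 := δL_PsiL s (pairR s hv).D1 (hpR s hv) w z
    rw [h9]
    have h2 : opB (pairR s hv).D1 (pairR s hv).cc w.1 none z = - mDiv 4 (fieldOf s w.1) z := h1
    rw [h2, mul_neg]
    rfl
  · exact (int_ff _ _).neg
  · have h1 := integrable_ip (n := 4) (u := fun y : κ × κ => u.1 (some y))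
      (v := fun y : κ × κ => opB (pairR s hv).D1 (pairR s hv).cc w.1 (some y))
      (fun y => u.2.1 _) (fun y => hB _)
    refine h1.congr (Eventually.of_forall fun z => ?_)
    beta_reduce
    exact sum_B s hv hR u w z

/-- **the input of the pair `pairR`** -/
def inpR : Inp (pairR s hv) s hR.fr.vol (SDm (e 0) e) where
  hp := hpR s hv
  Φ := PhiR s hv hR
  c := -2
  c0 := by norm_num
  c' := -2
  c'0 := by norm_num
  form := formR s hv hR hI
  form0 := form0R s hv hR hI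

end

end Crest.Agent.R235.Hodge_194
end

-- ▼ part R235/HodgeP1_194
section

/-!
Row 235 (S0364), package IND, leaf IND-7 HODGE (helper194), part 9: the pair `pairH` (`ℝ⁴ → T`).

* `opB_H0`, `opB_H1` : `(B w)_0 = - div X`, `(B w)_{b+1} = - 2 q(e_b, d X♭)`;
* `PhiH`             : `u ↦ (u 0, ∑ u_{b+1} e_b)`;
* `inpH`             : `Inp (pairH q s) s fr.vol (SDp (e 0) e)`, `c = -1`, `c' = 1/2`.
-/

set_option autoImplicit false
set_option maxSynthPendingDepth 3
set_option linter.unusedSectionVars false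

open Set Function Filter MeasureTheory Bundle
open scoped Manifold ContDiff Topology ENNReal
open Crest.GeometryTopology.CoordMetric Crest.GeometryTopology.ChartCurvature
  Crest.GeometryTopology.PointedLimit
open Crest.Agent.R202.Tens Crest.Agent.R247.Bo84 Crest.Agent.R249.Vf281
open Crest.Agent.R249.Tz2_805 Crest.Agent.R249.Tz805 Crest.Agent.R249.Idx789

namespace Crest.Agent.R235.Hodge_194

open Crest.Agent.R240 Crest.Agent.R240.Ch Crest.Agent.R240.Int
open Crest.Agent.R235.HodgeAbs_194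
open Crest.Agent.R235.Ind167 (QS pairH)
open Crest.Agent.R249.Tv57 (SmV memLp_smooth integrable_ip eq_zero_of_ip)

noncomputable section

variable {M : Type} [MetricSpace M] [ChartedSpace (EuclideanSpace ℝ (Fin 4)) M]
  [IsManifold (𝓡 4) ∞ M]
  [RiemannianBundle (fun p : M => TangentSpace (𝓡 4) p)]
  [IsContMDiffRiemannianBundle (𝓡 4) ∞ (EuclideanSpace ℝ (Fin 4)) (fun p : M => TangentSpace (𝓡 4) p)]
  [IsRiemannianManifold (𝓡 4) M] [MeasurableSpace M] [BorelSpace M]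
  [SecondCountableTopology M] [Nonempty M] [CompactSpace M]

local notation "𝔼" => EuclideanSpace ℝ (Fin 4)
local notation "𝓘E" => 𝓘(ℝ, EuclideanSpace ℝ (Fin 4))
local notation "μ4" => (μHE[4] : Measure M)
local notation "ip" => Crest.Agent.R249.Tv57.ip

variable {κ : Type} [Fintype κ] (Q : QS M) (s : PF 4 M κ)

theorem hWH (a b : κ) (z : M) : (pairH Q s).D1.W a b z = tanW s a b z :=
  Crest.Agent.R235.Ind167.bunQ1_W_eta Q s (Crest.Agent.R235.Ind167.sm_etaV Q s) a b z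

theorem hpH (a b : κ) (z : M) : (pairH Q s).D1.p a b z = tanP s a b z := rfl

theorem opB_H0 (w : SS (pairH Q s).D1) (z : M) :
    opB (pairH Q s).D1 (pairH Q s).cc w.1 0 z = - mDiv 4 (fieldOf s w.1) z := by
  have hsec : ∀ a z, ∑ b, tanP s a b z * w.1 b z = w.1 a z := w.2.2
  obtain ⟨e, he⟩ := exists_onb (M := M) z
  have hY := VSm_fieldOf s w.2.1
  rw [mDiv_frame ((hY z).of_le (by simp)) he, opB]
  congr 1
  have h1 := sum_pars s z he (Crest.Agent.R249.Idx789.mCovL (fieldOf s w.1) z)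
  simp only [Crest.Agent.R249.Idx789.mCovL_apply] at h1
  rw [← h1]
  exact Finset.sum_congr rfl fun A _ => inner_cv s (hWH Q s) w.2.1 hsec A z _

theorem opB_H1 (w : SS (pairH Q s).D1) (b : Fin 3) (z : M) :
    opB (pairH Q s).D1 (pairH Q s).cc w.1 b.succ z =
      ∑ A, inner ℝ (mCov 4 (fieldOf s w.1) z (Q.op b z (s.s A z))) (s.s A z) := by
  have hsec : ∀ a z, ∑ b, tanP s a b z * w.1 b z = w.1 a z := w.2.2
  rw [opB, ← Finset.sum_neg_distrib]
  refine Finset.sum_congr rfl fun A _ => ?_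
  have h1 := inner_cv s (hWH Q s) w.2.1 hsec A z (- Q.op b z (s.s A z))
  have h2 : mCov 4 (fieldOf s w.1) z (- Q.op b z (s.s A z)) =
      - mCov 4 (fieldOf s w.1) z (Q.op b z (s.s A z)) := map_neg (Crest.Agent.R249.Idx789.mCovL (fieldOf s w.1) z) _
  rw [h2, inner_neg_left] at h1
  rw [← neg_eq_iff_eq_neg] at h1
  rw [← h1]
  rfl

/-- the geometric hypotheses -/
structure HH (Q : QS M) (e : Fin 3 → F2 E4 M) : Prop where
  fr : Fr (e 0) e
  ad : ∀ z, ∃ E, AdF e z E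
  op : ∀ b z (u v : TangentSpace 𝓘(ℝ, EuclideanSpace ℝ (Fin 4)) z),
    at2 (e b) z u v = inner ℝ (Q.op b z u) v

variable {Q} {e : Fin 3 → F2 E4 M} (hH : HH Q e)
include hH

theorem opB_H (w : SS (pairH Q s).D1) (b : Fin 3) (z : M) :
    opB (pairH Q s).D1 (pairH Q s).cc w.1 b.succ z =
      - 2 * qG (e 0) (e b) (dL (PsiL s (pairH Q s).D1 (hpH Q s) w)).1 z := by
  rw [opB_H1]
  set Y := fieldOf s w.1 with hY
  have hYs : ∀ q, VSm 4 ∞ Y q := fun q => VSm_fieldOf s w.2.1 q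
  obtain ⟨E, hE⟩ := hH.ad z
  have h1 := sum_sd hE s (fun i => hH.fr.alt i z) (hH.fr.ne z)
    ((dL (PsiL s (pairH Q s).D1 (hpH Q s) w)).2.1 z) b
  set m : κ → κ → ℝ := fun A B => inner ℝ (mCov 4 Y z (s.s A z)) (s.s B z) with hm
  have h2 : ∀ A B, at2 (dL (PsiL s (pairH Q s).D1 (hpH Q s) w)).1 z (s.s A z) (s.s B z) =
      m A B - m B A := fun A B => at2_dG_flat hYs z (s.s A z) (s.s B z)
  set i : κ → κ → ℝ := fun A B => inner ℝ (Q.op b z (s.s A z)) (s.s B z) with hi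
  have h3 : ∀ A B, at2 (e b) z (s.s A z) (s.s B z) = i A B := fun A B => hH.op b z _ _
  have h4 : ∀ A B, i A B = - i B A := by
    intro A B
    simp only [hi]
    rw [Q.op_skew, real_inner_comm]
  have h5 : ∑ A, ∑ B, i A B * m A B = - ∑ A, ∑ B, i A B * m B A := by
    rw [Finset.sum_comm, ← Finset.sum_neg_distrib]
    refine Finset.sum_congr rfl fun A _ => ?_
    rw [← Finset.sum_neg_distrib]
    exact Finset.sum_congr rfl fun B _ => by rw [h4 B A, neg_mul]
  have h6 : ∀ A, ∑ B, i A B * m B A =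
      (inner ℝ (mCov 4 Y z (Q.op b z (s.s A z))) (s.s A z) : ℝ) := by
    intro A
    have e1 : mCov 4 Y z (Q.op b z (s.s A z)) =
        ∑ B, (inner ℝ (s.s B z) (Q.op b z (s.s A z)) : ℝ) • mCov 4 Y z (s.s B z) := by
      conv_lhs => rw [← Crest.Agent.R249.Idx789.mCovL_apply, ← s.pars z (Q.op b z (s.s A z)),
        map_sum]
      exact Finset.sum_congr rfl fun B _ => by
        rw [map_smul, Crest.Agent.R249.Idx789.mCovL_apply]
    rw [e1, sum_inner]
    refine Finset.sum_congr rfl fun B _ => ?_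
    rw [real_inner_smul_left, real_inner_comm (Q.op b z (s.s A z))]
  have h7 : ∑ A, ∑ B, at2 (e b) z (s.s A z) (s.s B z) *
      at2 (dL (PsiL s (pairH Q s).D1 (hpH Q s) w)).1 z (s.s A z) (s.s B z) =
      ∑ A, ∑ B, i A B * (m A B - m B A) :=
    Finset.sum_congr rfl fun A _ => Finset.sum_congr rfl fun B _ =>
      congrArg₂ (· * ·) (h3 A B) (h2 A B)
  rw [h7] at h1
  simp only [mul_sub, Finset.sum_sub_distrib] at h1
  rw [h5] at h1
  simp only [h6] at h1
  have h8 : qG (e 0) (e b) (dL (PsiL s (pairH Q s).D1 (hpH Q s) w)).1 z =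
    q (at2 (e 0) z) (at2 (e b) z) (at2 (dL (PsiL s (pairH Q s).D1 (hpH Q s) w)).1 z) := rfl
  rw [h8]
  linarith

/-- the components of a section -/
def cmpH (u : SS (pairH Q s).D0) (i : Fin 4) : CFn M := ⟨u.1 i, (smoothF_iff' _).2 (u.2.1 _)⟩

/-- **sections of `ℝ⁴`** -/
def PhiH : SS (pairH Q s).D0 ≃ₗ[ℝ] CFn M × SDp (e 0) e where
  toFun u := (cmpH s u 0, ⟨hH.fr.sdf fun b => cmpH s u b.succ, hH.fr.sdf_mem _⟩)
  map_add' u v := by
    refine Prod.ext rfl (Subtype.ext (Subtype.ext (funext fun z => ?_)))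
    show (∑ i : Fin 3, (u.1 i.succ z + v.1 i.succ z) • at2 (e i) z : Bil) =
      (∑ i : Fin 3, u.1 i.succ z • at2 (e i) z) + ∑ i : Fin 3, v.1 i.succ z • at2 (e i) z
    rw [← Finset.sum_add_distrib]
    exact Finset.sum_congr rfl fun i _ => add_smul _ _ _
  map_smul' r u := by
    refine Prod.ext rfl (Subtype.ext (Subtype.ext (funext fun z => ?_)))
    show (∑ i : Fin 3, (r * u.1 i.succ z) • at2 (e i) z : Bil) =
      r • ∑ i : Fin 3, u.1 i.succ z • at2 (e i) z
    rw [Finset.smul_sum]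
    exact Finset.sum_congr rfl fun i _ => mul_smul _ _ _
  invFun p := ⟨fun i z => Fin.cases (p.1.1 z) (fun b => (hH.fr.cf p.2.1 b).1 z) i, by
    refine ⟨fun i => ?_, fun a z => ?_⟩
    · refine Fin.cases ?_ (fun b => ?_) i
      · exact smf p.1
      · exact smf (hH.fr.cf p.2.1 b)
    · show ∑ b, (if a = b then (1:ℝ) else 0) * _ = _
      simp only [ite_mul, one_mul, zero_mul, Finset.sum_ite_eq, Finset.mem_univ, if_true]⟩
  left_inv u := by
    apply Subtype.ext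
    funext i z
    refine Fin.cases ?_ (fun b => ?_) i
    · rfl
    · exact hH.fr.q_sdf _ b z
  right_inv p := by
    refine Prod.ext rfl (Subtype.ext ?_)
    exact hH.fr.sdf_cf p.2.2

theorem PhiH_val (u : SS (pairH Q s).D0) (b : Fin 3) (z : M) :
    qG (e 0) (PhiH s hH u).2.1.1 (e b) z = u.1 b.succ z := hH.fr.q_sdf _ b z

theorem q_PhiH (u : SS (pairH Q s).D0) (γ : X2 M) (z : M) :
    qG (e 0) (PhiH s hH u).2.1.1 γ.1 z = ∑ b : Fin 3, u.1 b.succ z * qG (e 0) (e b) γ.1 z := by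
  rw [hH.fr.q_left (PhiH s hH u).2.2]
  exact Finset.sum_congr rfl fun b _ => by rw [PhiH_val, qG_comm (e 0) γ.1]

variable (hI : ∀ a b : F2 E4 M, Int.I (e 0) a b = ∫ x, 2 * qG (e 0) a b x ∂(μHE[4] : Measure M))
include hI

theorem form0H (u v : SS (pairH Q s).D0) : ip 4 u.1 v.1 =
    JL (PhiH s hH u).1 (PhiH s hH v).1 +
      (1 / 2) * IL (e 0) hH.fr.vol (PhiH s hH u).2.1 (PhiH s hH v).2.1 := by
  have := fin4 (M := M)
  have key : ∀ z, 1 / 2 * (2 * qG (e 0) (PhiH s hH u).2.1.1 (PhiH s hH v).2.1.1 z) =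
      ∑ b : Fin 3, u.1 b.succ z * v.1 b.succ z := by
    intro z
    rw [q_PhiH s hH u, ← mul_assoc, one_div, inv_mul_cancel₀ two_ne_zero, one_mul]
    exact Finset.sum_congr rfl fun b _ => by rw [qG_comm, PhiH_val]
  unfold Crest.Agent.R249.Tv57.ip
  rw [IL_apply, hI, ← integral_const_mul, JL_apply, ← integral_add]
  · refine integral_congr_ae (Eventually.of_forall fun z => ?_)
    beta_reduce
    refine (Fin.sum_univ_succ (fun a : Fin 4 => u.1 a z * v.1 a z)).trans ?_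
    exact congrArg (fun t : ℝ => u.1 0 z * v.1 0 z + t) (key z).symm
  · exact int_ff _ _
  · have h1 := integrable_ip (n := 4) (u := fun y : Fin 3 => u.1 y.succ)
      (v := fun y : Fin 3 => v.1 y.succ) (fun y => u.2.1 _) (fun y => v.2.1 _)
    exact h1.congr (Eventually.of_forall fun z => (key z).symm)

theorem formH (u : SS (pairH Q s).D0) (w : SS (pairH Q s).D1) :
    ip 4 u.1 (opB (pairH Q s).D1 (pairH Q s).cc w.1) =
      - JL (PhiH s hH u).1 (δL s (PsiL s (pairH Q s).D1 (hpH Q s) w)) +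
        (-1) * IL (e 0) hH.fr.vol (PhiH s hH u).2.1
          (dL (PsiL s (pairH Q s).D1 (hpH Q s) w)) := by
  have := fin4 (M := M)
  have hB := Crest.Agent.R249.Wk352.sm_opB (D1 := (pairH Q s).D1) (pairH Q s).smc w.2.1
  have key : ∀ z, -1 * (2 * qG (e 0) (PhiH s hH u).2.1.1
      (dL (PsiL s (pairH Q s).D1 (hpH Q s) w)).1 z) =
      ∑ b : Fin 3, u.1 b.succ z * opB (pairH Q s).D1 (pairH Q s).cc w.1 b.succ z := by
    intro z
    rw [q_PhiH s hH u, Finset.mul_sum, Finset.mul_sum]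
    exact Finset.sum_congr rfl fun b _ => by rw [opB_H s hH w b z]; ring
  unfold Crest.Agent.R249.Tv57.ip
  rw [IL_apply, hI, ← integral_const_mul, JL_apply, ← integral_neg, ← integral_add]
  · refine integral_congr_ae (Eventually.of_forall fun z => ?_)
    beta_reduce
    refine (Fin.sum_univ_succ (fun a : Fin 4 =>
      u.1 a z * opB (pairH Q s).D1 (pairH Q s).cc w.1 a z)).trans ?_
    have h9 := δL_PsiL s (pairH Q s).D1 (hpH Q s) w z
    have h10 := opB_H0 Q s w z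
    refine congrArg₂ (· + ·) ?_ (key z).symm
    rw [h10, mul_neg, h9]
    rfl
  · exact (int_ff _ _).neg
  · have h1 := integrable_ip (n := 4) (u := fun y : Fin 3 => u.1 y.succ)
      (v := fun y : Fin 3 => opB (pairH Q s).D1 (pairH Q s).cc w.1 y.succ)
      (fun y => u.2.1 _) (fun y => hB _)
    exact h1.congr (Eventually.of_forall fun z => (key z).symm)

/-- **the input of the pair `pairH`** -/
def inpH : Inp (pairH Q s) s hH.fr.vol (SDp (e 0) e) where
  hp := hpH Q s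
  Φ := PhiH s hH
  c := -1
  c0 := by norm_num
  c' := 1 / 2
  c'0 := by norm_num
  form := formH s hH hI
  form0 := form0H s hH hI

end

end Crest.Agent.R235.Hodge_194
end

-- ▼ part R235/HodgeMain_194
section

/-!
Row 235 (S0364), package IND, leaf IND-7 HODGE (helper194), part 10: the main theorem.

* `kerA_of`, `kerB_of` : `KerD` bases of the kernels of a Clifford pair;
* `hodge_main`         : two Hodge pairs (`SDp`, `SDm`) ⇒ Betti numbers, `H² = P ⊕ N`, dimensions.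
-/

set_option autoImplicit false
set_option maxSynthPendingDepth 3
set_option linter.unusedSectionVars false

open Set Function Filter MeasureTheory Bundle
open scoped Manifold ContDiff Topology ENNReal
open Crest.GeometryTopology.CoordMetric Crest.GeometryTopology.ChartCurvature
  Crest.GeometryTopology.PointedLimit
open Crest.Agent.R202.Tens Crest.Agent.R247.Bo84 Crest.Agent.R249.Vf281
open Crest.Agent.R249.Tz2_805 Crest.Agent.R249.Tz805 Crest.Agent.R249.Idx789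

namespace Crest.Agent.R235.Hodge_194

open Crest.Agent.R240 Crest.Agent.R240.Ch Crest.Agent.R240.Int
open Crest.Agent.R235.HodgeAbs_194
open Crest.Agent.R249.Tv57 (KerD)

noncomputable section

section sign

variable {M : Type} [TopologicalSpace M] [T2Space M] [CompactSpace M]
  [ChartedSpace E4 M] [IsManifold 𝓘(ℝ, E4) ∞ M] [MeasurableSpace M] [BorelSpace M]

theorem Fr.I_pp {F : F2 E4 M} {e : Fin 3 → F2 E4 M} (h : Fr F e) {p : X2 M}
    (hp : p ∈ SDp F e) (h0 : p ≠ 0) : 0 < IL F h.vol p p := by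
  have h1 : 0 ≤ IL F h.vol p p := by
    refine integral_nonneg fun x => ?_
    show 0 ≤ qG F p.1 p.1 x
    rw [h.qG_pp hp]
    exact Finset.sum_nonneg fun i _ => sq_nonneg _
  exact lt_of_le_of_ne h1 fun h2 => h0 (h.spl.def1 p hp h2.symm)

theorem Fr.I_mm {F : F2 E4 M} {e : Fin 3 → F2 E4 M} (h : Fr F e) {m : X2 M}
    (hm : m ∈ SDm F e) (h0 : m ≠ 0) : IL F h.vol m m < 0 := by
  have h1 : IL F h.vol m m ≤ 0 := by
    refine integral_nonpos fun x => ?_
    show qG F m.1 m.1 x ≤ 0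
    by_cases hx : at2 m.1 x = 0
    · have : qG F m.1 m.1 x = 0 := by
        show q _ _ _ = 0
        rw [hx]
        unfold q
        rw [Fund.W_zero_right, zero_div]
      exact this.le
    · exact (h.qG_mm hm hx).le
  exact lt_of_le_of_ne h1 fun h2 => h0 (h.spl.def2 m hm h2)

end sign

variable {M : Type} [MetricSpace M] [ChartedSpace (EuclideanSpace ℝ (Fin 4)) M]
  [IsManifold (𝓡 4) ∞ M]
  [RiemannianBundle (fun p : M => TangentSpace (𝓡 4) p)]
  [IsContMDiffRiemannianBundle (𝓡 4) ∞ (EuclideanSpace ℝ (Fin 4)) (fun p : M => TangentSpace (𝓡 4) p)]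
  [IsRiemannianManifold (𝓡 4) M] [MeasurableSpace M] [BorelSpace M]
  [SecondCountableTopology M] [Nonempty M] [CompactSpace M]

local notation "𝔼" => EuclideanSpace ℝ (Fin 4)
local notation "𝓘E" => 𝓘(ℝ, EuclideanSpace ℝ (Fin 4))
local notation "μ4" => (μHE[4] : Measure M)

variable {κ κ0 κ0' κ1 : Type} [Fintype κ] [Fintype κ0] [Fintype κ0'] [Fintype κ1]

/-- dimension of a kernel -/
def KDim {S S' : Type*} [AddCommGroup S] [Module ℝ S] [AddCommGroup S'] [Module ℝ S']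
    (A : S →ₗ[ℝ] S') (N : ℕ) : Prop :=
  FiniteDimensional ℝ (LinearMap.ker A) ∧ Module.finrank ℝ (LinearMap.ker A) = N

theorem kerA_of (P : CPair 4 M κ κ0 κ1) {T : ToF 4 M} {N : ℕ}
    (K : KerD (Crest.Agent.R249.Wk352.dat0 T P) (opA P.D0 P.cc) N) : KDim (AL P) N := by
  refine finrank_ker (AL P) K.u (fun i => ⟨K.smooth i, K.sec i⟩)
    (fun i => Subtype.ext (funext fun b => funext fun z => K.ker i b z)) K.li fun v hv => ?_
  refine ⟨fun i => Crest.Agent.R249.Tv57.ip 4 v.1 (K.u i), funext fun a => funext fun z => ?_⟩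
  have h1 : ∀ b z, opA P.D0 P.cc v.1 b z = 0 := fun b z =>
    congrFun (congrFun (congrArg Subtype.val hv) b) z
  rw [K.span v.1 v.2.1 v.2.2 h1 a z, Finset.sum_apply, Finset.sum_apply]
  rfl

theorem kerB_of (P : CPair 4 M κ κ0 κ1) {T : ToF 4 M} {N : ℕ}
    (K : KerD (Crest.Agent.R249.Wk352.dat0 T (Crest.Agent.R249.Wk352.swapP P))
      (opB P.D1 P.cc) N) : KDim (BL P) N := by
  refine finrank_ker (BL P) K.u (fun i => ⟨K.smooth i, K.sec i⟩)
    (fun i => Subtype.ext (funext fun b => funext fun z => K.ker i b z)) K.li fun v hv => ?_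
  refine ⟨fun i => Crest.Agent.R249.Tv57.ip 4 v.1 (K.u i), funext fun a => funext fun z => ?_⟩
  have h1 : ∀ b z, opB P.D1 P.cc v.1 b z = 0 := fun b z =>
    congrFun (congrFun (congrArg Subtype.val hv) b) z
  rw [K.span v.1 v.2.1 v.2.2 h1 a z, Finset.sum_apply, Finset.sum_apply]
  rfl

set_option maxHeartbeats 2000000 in
/-- **the Hodge theorem** -/
theorem hodge_main [ConnectedSpace M] {F : Z2 M} {e : Fin 3 → F2 E4 M}
    (h0 : e 0 = (F.1.1 : F2 E4 M)) (fr : Fr (e 0) e) {P : CPair 4 M κ κ0 κ}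
    {P' : CPair 4 M κ κ0' κ} {s : PF 4 M κ} (R : Inp P s fr.vol (SDp (e 0) e))
    (R' : Inp P' s fr.vol (SDm (e 0) e)) {d0 d1 d0' d1' : ℕ} (K0 : KDim (AL P) d0)
    (K1 : KDim (BL P) d1) (K0' : KDim (AL P') d0') (K1' : KDim (BL P') d1') :
    ∃ (b1 bp bm : ℕ) (Pp Nn : Submodule ℝ (H2 M)),
      (∃ t : Fin b1 → F1 E4 M, (∀ i, Closed1 (t i)) ∧
        (∀ r : F1 E4 M, Closed1 r → ∃ (c : Fin b1 → ℝ) (f : M → ℝ), SmoothF E4 f ∧
          r = (∑ i, c i • t i) + dF f) ∧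
        ∀ (c : Fin b1 → ℝ) (f : M → ℝ), SmoothF E4 f → (∑ i, c i • t i) = dF f → c = 0) ∧
      FiniteDimensional ℝ (H2 M) ∧ Pp ⊔ Nn = ⊤ ∧
      Module.finrank ℝ Pp = bp ∧ Module.finrank ℝ Nn = bm ∧
      (∀ x ∈ Pp, x ≠ 0 → 0 < Crest.Agent.R235.ip F x x) ∧
      (∀ x ∈ Nn, x ≠ 0 → Crest.Agent.R235.ip F x x < 0) ∧
      (∀ x ∈ Pp, ∀ y ∈ Nn, Crest.Agent.R235.ip F x y = 0) ∧
      d0 = 1 + bp ∧ d1 = b1 ∧ d0' = 1 + bm ∧ d1' = b1 := by
  have S := fr.spl
  have S' := S.swap (IL_symm fr.vol)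
  have f0 : FiniteDimensional ℝ (LinearMap.ker R.hpr.A) := K0.1
  have f1 : FiniteDimensional ℝ (LinearMap.ker R.hpr.B) := K1.1
  have f0' : FiniteDimensional ℝ (LinearMap.ker R'.hpr.A) := K0'.1
  have a1 := R.hpr.finrank_kerA
  have a2 := R.hpr.finrank_kerB S
  have a3 := R'.hpr.finrank_kerA
  have a4 := R'.hpr.finrank_kerB S'
  have c0 : Module.finrank ℝ (LinearMap.ker R.hpr.A) = d0 := K0.2
  have c1 : Module.finrank ℝ (LinearMap.ker R.hpr.B) = d1 := K1.2
  have c0' : Module.finrank ℝ (LinearMap.ker R'.hpr.A) = d0' := K0'.2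
  have c1' : Module.finrank ℝ (LinearMap.ker R'.hpr.B) = d1' := K1'.2
  have hk : Module.finrank ℝ (LinearMap.ker (Hs s fr.vol).D) = 1 := finrank_kerDL
  have g1 := a1.2
  have g2 := a3.2
  have hZ : ∀ a, a ∈ Z2 M ↔ a ∈ (Hs s fr.vol).Z := fun a => mem_Z2_iff fr.vol a
  have hB : ∀ z : Z2 M, z ∈ B2 M ↔ ∃ α, (z : X2 M) = (Hs s fr.vol).d α := by
    intro z
    rw [mem_B2, isEx_iff]
    constructor
    · rintro ⟨α, hα, he⟩
      exact ⟨⟨α, hα⟩, Subtype.ext he⟩
    · rintro ⟨α, he⟩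
      exact ⟨α.1, α.2, congrArg Subtype.val he⟩
  obtain ⟨Pp, Nn, hc, ⟨e1⟩, ⟨e2⟩, r1, r2⟩ := HSys.quot (H := Hs s fr.vol) hZ hB S
    (fun φ hφ h => R.hpr.solve S R.hs φ hφ h)
  have hF : Vol (F.1.1 : F2 E4 M) := h0 ▸ fr.vol
  have hip : ∀ a b : Z2 M, Crest.Agent.R235.ip F (cls a) (cls b) = IL (e 0) fr.vol a.1 b.1 := by
    intro a b
    rw [ip_cls hF, Crest.Agent.R235.IndVol_57.pI_eq_I, IL_apply, h0]
  have fP : FiniteDimensional ℝ Pp := e1.finiteDimensional
  have fN : FiniteDimensional ℝ Nn := e2.finiteDimensional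
  -- one-forms
  have fH : FiniteDimensional ℝ (Hs s fr.vol).Harm := by
    have h1 : LinearMap.ker R.hpr.B = (Hs s fr.vol).Harm.comap
        (R.hpr.Ψ : SS P.D1 →ₗ[ℝ] X1 M) := by
      ext w
      rw [LinearMap.mem_ker, R.hpr.kerB S]
      rfl
    rw [h1] at f1
    exact (R.hpr.Ψ.ofSubmodule' (Hs s fr.vol).Harm).finiteDimensional
  let B := Module.finBasis ℝ (Hs s fr.vol).Harm
  obtain ⟨b1s, b1i⟩ := basis_H1 (H := Hs s fr.vol) (poissonL s) B
  refine ⟨Module.finrank ℝ (Hs s fr.vol).Harm, Module.finrank ℝ Pp, Module.finrank ℝ Nn, Pp, Nn,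
    ⟨fun i => (B i : X1 M).1, fun i => (closed1_iff _).2 (B i).2.2, fun r hr => ?_,
      fun c f hf hcf => ?_⟩, ?_, hc.sup_eq_top, rfl, rfl, ?_, ?_, ?_, ?_, ?_, ?_, ?_⟩
  · obtain ⟨c, f, hcf⟩ := b1s ⟨r, hr.1⟩ ((closed1_iff ⟨r, hr.1⟩).1 hr)
    refine ⟨c, f.1, f.2, ?_⟩
    have h1 := congrArg Subtype.val hcf
    refine h1.trans ?_
    rw [Submodule.coe_add, Submodule.coe_sum]
    rfl
  · refine b1i c ⟨f, hf⟩ (Subtype.ext ?_)
    rw [Submodule.coe_sum]
    exact hcf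
  · have h1 : FiniteDimensional ℝ (Pp ⊔ Nn : Submodule ℝ (H2 M)) := inferInstance
    rw [hc.sup_eq_top] at h1
    exact Module.finite_def.2 (Module.Finite.iff_fg.1 h1)
  · intro x hx hx0
    obtain ⟨z, hz, rfl⟩ := r1 x hx
    have h1 := hip z z
    refine lt_of_lt_of_eq (fr.I_pp hz fun h2 => hx0 ?_) h1.symm
    have : z = 0 := Subtype.ext h2
    rw [this, map_zero]
  · intro x hx hx0
    obtain ⟨z, hz, rfl⟩ := r2 x hx
    have h1 := hip z z
    refine lt_of_eq_of_lt h1 (fr.I_mm hz fun h2 => hx0 ?_)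
    have : z = 0 := Subtype.ext h2
    rw [this, map_zero]
  · intro x hx y hy
    obtain ⟨z, hz, rfl⟩ := r1 x hx
    obtain ⟨t, ht, rfl⟩ := r2 y hy
    exact (hip z t).trans (S.orth _ hz _ ht)
  · rw [← c0, a1.1, hk, e1.finrank_eq]
  · rw [← c1, a2]
  · rw [← c0', a3.1, hk, e2.finrank_eq]
  · rw [← c1', a4]

end

end Crest.Agent.R235.Hodge_194
end

-- ▼ part R235/HodgeEnd_194

/-!
Row 235 (S0364), package IND, leaf IND-7 HODGE (helper194), part 11: `hodge : IndSig2_723.HODGE`.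
-/

set_option autoImplicit false
set_option maxSynthPendingDepth 3
set_option linter.unusedSectionVars false

open Set Function Filter MeasureTheory Bundle
open scoped Manifold ContDiff Topology ENNReal
open Crest.GeometryTopology.CoordMetric Crest.GeometryTopology.ChartCurvature
  Crest.GeometryTopology.PointedLimit
open Crest.Agent.R202.Tens Crest.Agent.R247.Bo84 Crest.Agent.R249.Vf281
open Crest.Agent.R249.Tz2_805 Crest.Agent.R249.Tz805 Crest.Agent.R249.Idx789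

namespace Crest.Agent.R235.Hodge_194

open Crest.Agent.R240 Crest.Agent.R240.Ch Crest.Agent.R240.Int
open Crest.Agent.R235.IndTri_451 (IsTri und gg II)
open Crest.Agent.R235.QSTri_451 (qs e_eq_inner comp comp_w)
open Crest.Agent.R235.RiemC_399 (volF isVol_volF)
open Crest.Agent.R235.Ind167 (QS pairH)

noncomputable section

section tri

variable {M : Type} [TopologicalSpace M] [ChartedSpace E4 M] [IsManifold 𝓘(ℝ, E4) ∞ M]
  [RiemannianBundle (fun x : M => TangentSpace 𝓘(ℝ, E4) x)]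
  [IsContMDiffRiemannianBundle 𝓘(ℝ, E4) ∞ E4 (fun x : M => TangentSpace 𝓘(ℝ, E4) x)]
  {w e : Fin 3 → F2 E4 M} (h : IsTri w e)
  (hin : ∀ (x : M) (u v : TangentSpace 𝓘(ℝ, E4) x), inner ℝ u v = at2 (gg e) x u v)

include h in
theorem fr_tri : Fr (e 0) e where
  smF := h.smooth 0
  ne x := by rw [h.e_zero]; exact h.W_ne x
  sm := h.smooth
  orth i j x := by rw [h.W_e i j x, h.e_zero]

include h hin in
theorem adf_tri (z : M) : ∃ E, AdF e z E := by
  obtain ⟨b, hb⟩ := exists_onb (M := M) z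
  have hu : at2 (gg e) z (b 0) (b 0) = 1 := by
    have h1 := hin z (b 0) (b 0)
    have h2 := hb 0 0
    rw [if_pos rfl] at h2
    exact h1.symm.trans h2
  have H := h.fr z hu
  set T := IndTri_451.frm (at2 (e 1) z) (at2 (e 2) z) (at2 (e 0) z) (b 0) with hT
  refine ⟨fun a => T (ee a), fun a c => ?_, fun i a c => ?_⟩
  · refine (hin z (T (ee a)) (T (ee c))).trans ((H.g (ee a) (ee c)).trans ?_)
    fin_cases a <;> fin_cases c <;> simp
  · show at2 (e i) z (T (ee a)) (T (ee c)) = sdm i a c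
    fin_cases i
    · refine (H.e0 (ee a) (ee c)).trans ?_
      fin_cases a <;> fin_cases c <;> simp [sdm]
    · refine (H.e1 (ee a) (ee c)).trans ?_
      fin_cases a <;> fin_cases c <;> simp [sdm]
    · refine (H.e2 (ee a) (ee c)).trans ?_
      fin_cases a <;> fin_cases c <;> simp [sdm]

include h hin in
theorem hr_tri : HR (volF (w 0)) e where
  fr := fr_tri h
  ad := adf_tri h hin
  vol z v := by rw [h.e_zero]; rfl

end tri

section blk

variable {M : Type} [MetricSpace M] [ChartedSpace (EuclideanSpace ℝ (Fin 4)) M]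
  [IsManifold (𝓡 4) ∞ M]
  [RiemannianBundle (fun p : M => TangentSpace (𝓡 4) p)]
  [IsContMDiffRiemannianBundle (𝓡 4) ∞ (EuclideanSpace ℝ (Fin 4)) (fun p : M => TangentSpace (𝓡 4) p)]
  [IsRiemannianManifold (𝓡 4) M] [MeasurableSpace M] [BorelSpace M]
  [SecondCountableTopology M] [Nonempty M] [CompactSpace M]
  {w e : Fin 3 → F2 E4 M} (h : IsTri w e)
  (hin : ∀ (x : M) (u v : TangentSpace 𝓘(ℝ, E4) x), inner ℝ u v = at2 (gg e) x u v)

theorem hh_tri : HH (qs h hin) e where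
  fr := fr_tri h
  ad := adf_tri h hin
  op b z u v := e_eq_inner h hin b z u v

include h hin in
theorem hI_tri (a b : F2 E4 M) :
    Int.I (e 0) a b = ∫ x, 2 * qG (e 0) a b x ∂(μHE[4] : Measure M) :=
  Crest.Agent.R235.IndVol_57.I_eq (comp h hin 0).cpt a b

end blk

/-- **HODGE** -/
theorem hodge : IndSig2_723.HODGE := by
  intro M _ _ _ _ _ _ _ _ _ _ _ _ w hw e he hin κ _ T s d0H d1H d0R d1R K0 K1 K0' K1'
  obtain ⟨K0⟩ := K0
  obtain ⟨K1⟩ := K1
  obtain ⟨K0'⟩ := K0'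
  obtain ⟨K1'⟩ := K1'
  have hI := hI_tri he hin
  obtain ⟨b1, bp, bm, P, N, h1, h2, h3, h4, h5, h6, h7, h8, h9, h10, h11, h12⟩ :=
    hodge_main (F := w 0) he.e_zero (fr_tri he) (inpH s (hh_tri he hin) hI)
      (inpR s (isVol_volF (comp_w he hin)) (hr_tri he hin) hI) (kerA_of _ K0) (kerB_of _ K1)
      (kerA_of _ K0') (kerB_of _ K1')
  subst h10
  refine ⟨P, N, h1, h12.symm, h2, h3, ?_, ?_, h6, h7, h8⟩
  · rw [h4, h9, add_comm]
  · rw [h5, h11, add_comm]

end

end Crest.Agent.R235.Hodge_194
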