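import Mathlib
import Crest.Agent.R249.Tz6_805
import Crest.Agent.R249.DenS_714_Mg
import Crest.Agent.R249.Tz3_805
import Crest.Agent.R235.IndPar_167

-- ▼ part R235/LTwA_453
section

/-!
Row 235, helper453, L-twist part A: algebra.

`p`, `J` real matrices with `p² = p`, `pJ = Jp = J`, `J² = -p` over a commutative ring `S`.
* `Phi p J R I = p ⊗ R + J ⊗ I` is multiplicative in the complex matrix `R + i I`;
* `Psi J j v w = v ⊗ j + w ⊗ J j`, the frame of the tensor product with the section `v + i w`.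
-/

set_option autoImplicit false
set_option linter.unusedSectionVars false

open Matrix
open scoped Kronecker

namespace Crest.Agent.R235.LTw_453

noncomputable section

section alg

variable {S : Type*} [CommRing S] {κ ν ι : Type*} [Fintype κ] [Fintype ν]

/-- the real form of a complex matrix acting on `κ × ν`. -/
def Phi (p J : Matrix κ κ S) (R I : Matrix ν ν S) : Matrix (κ × ν) (κ × ν) S :=
  p ⊗ₖ R + J ⊗ₖ I

theorem Phi_apply (p J : Matrix κ κ S) (R I : Matrix ν ν S) (x y : κ × ν) :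
    Phi p J R I x y = p x.1 y.1 * R x.2 y.2 + J x.1 y.1 * I x.2 y.2 := rfl

theorem Phi_add (p J : Matrix κ κ S) (R I R' I' : Matrix ν ν S) :
    Phi p J R I + Phi p J R' I' = Phi p J (R + R') (I + I') := by
  rw [Phi, Phi, Phi, kronecker_add, kronecker_add]
  abel

theorem Phi_neg (p J : Matrix κ κ S) (R I : Matrix ν ν S) :
    - Phi p J R I = Phi p J (-R) (-I) := by
  ext x y
  simp only [Matrix.neg_apply, Phi_apply]
  ring

theorem Phi_sub (p J : Matrix κ κ S) (R I R' I' : Matrix ν ν S) :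
    Phi p J R I - Phi p J R' I' = Phi p J (R - R') (I - I') := by
  ext x y
  simp only [Matrix.sub_apply, Phi_apply]
  ring

theorem Phi_mul {p J : Matrix κ κ S} (hpp : p * p = p) (hpJ : p * J = J) (hJp : J * p = J)
    (hJJ : J * J = -p) (R I R' I' : Matrix ν ν S) :
    Phi p J R I * Phi p J R' I' = Phi p J (R * R' - I * I') (R * I' + I * R') := by
  rw [Phi, Phi, Phi, add_mul, mul_add, mul_add, ← mul_kronecker_mul, ← mul_kronecker_mul,
    ← mul_kronecker_mul, ← mul_kronecker_mul, hpp, hpJ, hJp, hJJ]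
  ext x y
  simp only [Matrix.add_apply, Matrix.sub_apply, Matrix.neg_apply, kroneckerMap_apply]
  ring

/-- the twisted frame. -/
def Psi (J : Matrix κ κ S) (j : Matrix κ ι S) (v w : ν → S) : Matrix (κ × ν) ι S :=
  fun x i => v x.2 * j x.1 i + w x.2 * (J * j) x.1 i

theorem Psi_apply (J : Matrix κ κ S) (j : Matrix κ ι S) (v w : ν → S) (x : κ × ν) (i : ι) :
    Psi J j v w x i = v x.2 * j x.1 i + w x.2 * (J * j) x.1 i := rfl

theorem Phi_Psi {p J : Matrix κ κ S} {j : Matrix κ ι S} (hpj : p * j = j) (hpJ : p * J = J)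
    (hJJ : J * J = -p) (R I : Matrix ν ν S) (v w : ν → S) :
    Phi p J R I * Psi J j v w = Psi J j (R *ᵥ v - I *ᵥ w) (R *ᵥ w + I *ᵥ v) := by
  have e1 : ∀ a i, ∑ b, p a b * j b i = j a i := fun a i => congrFun (congrFun hpj a) i
  have e2 : ∀ a i, ∑ b, p a b * (J * j) b i = (J * j) a i := fun a i => by
    have h := congrFun (congrFun (Matrix.mul_assoc p J j) a) i
    rw [hpJ] at h
    exact h.symm
  have e3 : ∀ a i, ∑ b, J a b * j b i = (J * j) a i := fun a i => rfl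
  have e4 : ∀ a i, ∑ b, J a b * (J * j) b i = - j a i := fun a i => by
    have h := congrFun (congrFun (Matrix.mul_assoc J J j) a) i
    rw [hJJ, Matrix.neg_mul, hpj] at h
    exact h.symm
  ext x i
  rw [Matrix.mul_apply, Fintype.sum_prod_type]
  simp only [Phi_apply, Psi_apply, Pi.sub_apply, Pi.add_apply, Matrix.mulVec, dotProduct]
  have h1 : ∀ b k, (p x.1 b * R x.2 k + J x.1 b * I x.2 k) * (v k * j b i + w k * (J * j) b i) =
      (R x.2 k * v k) * (p x.1 b * j b i) + (R x.2 k * w k) * (p x.1 b * (J * j) b i) +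
      ((I x.2 k * v k) * (J x.1 b * j b i) + (I x.2 k * w k) * (J x.1 b * (J * j) b i)) := by
    intro b k
    ring
  simp only [h1, Finset.sum_add_distrib]
  have h2 : ∀ (f : ν → S) (g : κ → S), ∑ b, ∑ k, f k * g b = (∑ k, f k) * ∑ b, g b := by
    intro f g
    rw [Finset.sum_mul_sum, Finset.sum_comm]
  rw [h2 (fun k => R x.2 k * v k), h2 (fun k => R x.2 k * w k), h2 (fun k => I x.2 k * v k),
    h2 (fun k => I x.2 k * w k), e1, e2, e3, e4]
  ring

theorem Psi_add (J : Matrix κ κ S) (j : Matrix κ ι S) (v w v' w' : ν → S) :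
    Psi J j v w + Psi J j v' w' = Psi J j (v + v') (w + w') := by
  ext x i
  simp only [Matrix.add_apply, Psi_apply, Pi.add_apply]
  ring

/-- the product `Psiᵀ Psi` in terms of `U = jᵀ J j`. -/
theorem Psi_tr_mul [DecidableEq ι] {p J : Matrix κ κ S} {j : Matrix κ ι S} (hj : jᵀ * j = 1)
    (hpj : p * j = j) (hJt : Jᵀ = -J) (hJJ : J * J = -p) (v w v' w' : ν → S) :
    (Psi J j v w)ᵀ * Psi J j v' w' =
      (∑ k, (v k * v' k + w k * w' k)) • (1 : Matrix ι ι S) +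
      (∑ k, (v k * w' k - w k * v' k)) • (jᵀ * J * j) := by
  have e2 : jᵀ * (J * j) = jᵀ * J * j := (Matrix.mul_assoc _ _ _).symm
  have e3 : (J * j)ᵀ * j = - (jᵀ * J * j) := by
    rw [Matrix.transpose_mul, hJt, Matrix.mul_neg, Matrix.neg_mul]
  have e4 : (J * j)ᵀ * (J * j) = 1 := by
    rw [Matrix.transpose_mul, hJt, Matrix.mul_neg, Matrix.neg_mul, Matrix.mul_assoc,
      ← Matrix.mul_assoc J J j, hJJ, Matrix.neg_mul, hpj, Matrix.mul_neg, neg_neg, hj]
  ext i i'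
  have f1 : ∑ a, j a i * j a i' = (1 : Matrix ι ι S) i i' := congrFun (congrFun hj i) i'
  have f2 : ∑ a, j a i * (J * j) a i' = (jᵀ * J * j) i i' := congrFun (congrFun e2 i) i'
  have f3 : ∑ a, (J * j) a i * j a i' = - (jᵀ * J * j) i i' := congrFun (congrFun e3 i) i'
  have f4 : ∑ a, (J * j) a i * (J * j) a i' = (1 : Matrix ι ι S) i i' := congrFun (congrFun e4 i) i'
  rw [Matrix.mul_apply, Fintype.sum_prod_type]
  simp only [Matrix.transpose_apply, Psi_apply]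
  have h1 : ∀ a k, (v k * j a i + w k * (J * j) a i) * (v' k * j a i' + w' k * (J * j) a i') =
      (v k * v' k) * (j a i * j a i') + (v k * w' k) * (j a i * (J * j) a i') +
      ((w k * v' k) * ((J * j) a i * j a i') + (w k * w' k) * ((J * j) a i * (J * j) a i')) := by
    intro a k
    ring
  simp only [h1, Finset.sum_add_distrib]
  have h2 : ∀ (f : ν → S) (g : κ → S), ∑ b, ∑ k, f k * g b = (∑ k, f k) * ∑ b, g b := by
    intro f g
    rw [Finset.sum_mul_sum, Finset.sum_comm]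
  rw [h2 (fun k => v k * v' k), h2 (fun k => v k * w' k), h2 (fun k => w k * v' k),
    h2 (fun k => w k * w' k), f1, f2, f3, f4]
  simp only [Matrix.add_apply, Matrix.smul_apply, smul_eq_mul, Finset.sum_sub_distrib]
  ring

/-- `Psi Psiᵀ = Phi`. -/
theorem Psi_mul_tr [Fintype ι] {p J : Matrix κ κ S} {j : Matrix κ ι S} (hjj : j * jᵀ = p)
    (hpJ : p * J = J) (hJp : J * p = J) (hJt : Jᵀ = -J) (hJJ : J * J = -p) (v w : ν → S) :
    Psi J j v w * (Psi J j v w)ᵀ =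
      Phi p J (fun k l => v k * v l + w k * w l) (fun k l => w k * v l - v k * w l) := by
  have e2 : j * (J * j)ᵀ = - J := by
    rw [Matrix.transpose_mul, hJt, Matrix.mul_neg, Matrix.mul_neg, ← Matrix.mul_assoc, hjj, hpJ]
  have e3 : (J * j) * jᵀ = J := by rw [Matrix.mul_assoc, hjj, hJp]
  have e4 : (J * j) * (J * j)ᵀ = p := by
    rw [Matrix.mul_assoc, e2, Matrix.mul_neg, hJJ, neg_neg]
  ext x y
  have f1 : ∑ i, j x.1 i * j y.1 i = p x.1 y.1 := congrFun (congrFun hjj x.1) y.1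
  have f2 : ∑ i, j x.1 i * (J * j) y.1 i = - J x.1 y.1 := congrFun (congrFun e2 x.1) y.1
  have f3 : ∑ i, (J * j) x.1 i * j y.1 i = J x.1 y.1 := congrFun (congrFun e3 x.1) y.1
  have f4 : ∑ i, (J * j) x.1 i * (J * j) y.1 i = p x.1 y.1 := congrFun (congrFun e4 x.1) y.1
  show _ = p x.1 y.1 * (v x.2 * v y.2 + w x.2 * w y.2) +
    J x.1 y.1 * (w x.2 * v y.2 - v x.2 * w y.2)
  rw [Matrix.mul_apply]
  simp only [Matrix.transpose_apply, Psi_apply]
  have h1 : ∀ i, (v x.2 * j x.1 i + w x.2 * (J * j) x.1 i) *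
      (v y.2 * j y.1 i + w y.2 * (J * j) y.1 i) =
      (v x.2 * v y.2) * (j x.1 i * j y.1 i) + (v x.2 * w y.2) * (j x.1 i * (J * j) y.1 i) +
      ((w x.2 * v y.2) * ((J * j) x.1 i * j y.1 i) +
        (w x.2 * w y.2) * ((J * j) x.1 i * (J * j) y.1 i)) := by
    intro i
    ring
  simp only [h1, Finset.sum_add_distrib, ← Finset.mul_sum, f1, f2, f3, f4]
  ring

/-- `Psi Psi'ᵀ = Phi`, four vectors. -/
theorem Psi_mul_tr' [Fintype ι] {p J : Matrix κ κ S} {j : Matrix κ ι S} (hjj : j * jᵀ = p)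
    (hpJ : p * J = J) (hJp : J * p = J) (hJt : Jᵀ = -J) (hJJ : J * J = -p) (v w v' w' : ν → S) :
    Psi J j v w * (Psi J j v' w')ᵀ =
      Phi p J (fun k l => v k * v' l + w k * w' l) (fun k l => w k * v' l - v k * w' l) := by
  have e2 : j * (J * j)ᵀ = - J := by
    rw [Matrix.transpose_mul, hJt, Matrix.mul_neg, Matrix.mul_neg, ← Matrix.mul_assoc, hjj, hpJ]
  have e3 : (J * j) * jᵀ = J := by rw [Matrix.mul_assoc, hjj, hJp]
  have e4 : (J * j) * (J * j)ᵀ = p := by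
    rw [Matrix.mul_assoc, e2, Matrix.mul_neg, hJJ, neg_neg]
  ext x y
  have f1 : ∑ i, j x.1 i * j y.1 i = p x.1 y.1 := congrFun (congrFun hjj x.1) y.1
  have f2 : ∑ i, j x.1 i * (J * j) y.1 i = - J x.1 y.1 := congrFun (congrFun e2 x.1) y.1
  have f3 : ∑ i, (J * j) x.1 i * j y.1 i = J x.1 y.1 := congrFun (congrFun e3 x.1) y.1
  have f4 : ∑ i, (J * j) x.1 i * (J * j) y.1 i = p x.1 y.1 := congrFun (congrFun e4 x.1) y.1
  show _ = p x.1 y.1 * (v x.2 * v' y.2 + w x.2 * w' y.2) +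
    J x.1 y.1 * (w x.2 * v' y.2 - v x.2 * w' y.2)
  rw [Matrix.mul_apply]
  simp only [Matrix.transpose_apply, Psi_apply]
  have h1 : ∀ i, (v x.2 * j x.1 i + w x.2 * (J * j) x.1 i) *
      (v' y.2 * j y.1 i + w' y.2 * (J * j) y.1 i) =
      (v x.2 * v' y.2) * (j x.1 i * j y.1 i) + (v x.2 * w' y.2) * (j x.1 i * (J * j) y.1 i) +
      ((w x.2 * v' y.2) * ((J * j) x.1 i * j y.1 i) +
        (w x.2 * w' y.2) * ((J * j) x.1 i * (J * j) y.1 i)) := by
    intro i
    ring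
  simp only [h1, Finset.sum_add_distrib, ← Finset.mul_sum, f1, f2, f3, f4]
  ring

theorem kron_one_Psi [DecidableEq ν] (J W : Matrix κ κ S) (j : Matrix κ ι S) (v w : ν → S) :
    W ⊗ₖ (1 : Matrix ν ν S) * Psi J j v w =
      fun x i => v x.2 * (W * j) x.1 i + w x.2 * (W * (J * j)) x.1 i := by
  ext x i
  rw [Matrix.mul_apply, Fintype.sum_prod_type]
  simp only [kroneckerMap_apply, Psi_apply, Matrix.one_apply]
  have h1 : ∀ a, ∑ k, W x.1 a * (if x.2 = k then 1 else 0) * (v k * j a i + w k * (J * j) a i) =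
      W x.1 a * (v x.2 * j a i + w x.2 * (J * j) a i) := by
    intro a
    simp
  simp only [h1]
  show _ = v x.2 * (W * j) x.1 i + w x.2 * (W * (J * j)) x.1 i
  rw [Matrix.mul_apply, Matrix.mul_apply, Finset.mul_sum, Finset.mul_sum,
    ← Finset.sum_add_distrib]
  exact Finset.sum_congr rfl fun a _ => by ring

theorem Psi_mul [Fintype ι] {ι' : Type*} (J : Matrix κ κ S) (j : Matrix κ ι S) (v w : ν → S)
    (a : Matrix ι ι' S) : Psi J j v w * a = Psi J (j * a) v w := by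
  ext x i
  rw [Matrix.mul_apply, Psi_apply, ← Matrix.mul_assoc J j a, Matrix.mul_apply, Matrix.mul_apply,
    Finset.mul_sum, Finset.mul_sum, ← Finset.sum_add_distrib]
  exact Finset.sum_congr rfl fun a _ => by rw [Psi_apply]; ring

/-- `Psi` is linear for the right action of `U`. -/
theorem Psi_mul_U [Fintype ι] {p J : Matrix κ κ S} {j : Matrix κ ι S} (hjj : j * jᵀ = p)
    (hpJ : p * J = J) (hpj : p * j = j) (hJJ : J * J = -p) (v w : ν → S) :
    Psi J j v w * (jᵀ * J * j) = Psi J j (-w) v := by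
  have e1 : j * (jᵀ * J * j) = J * j := by
    rw [← Matrix.mul_assoc, ← Matrix.mul_assoc, hjj, hpJ]
  have e2 : (J * j) * (jᵀ * J * j) = - j := by
    rw [Matrix.mul_assoc, e1, ← Matrix.mul_assoc, hJJ, Matrix.neg_mul, hpj]
  ext x i
  have f1 : ∑ i', j x.1 i' * (jᵀ * J * j) i' i = (J * j) x.1 i := congrFun (congrFun e1 x.1) i
  have f2 : ∑ i', (J * j) x.1 i' * (jᵀ * J * j) i' i = - j x.1 i :=
    congrFun (congrFun e2 x.1) i
  rw [Matrix.mul_apply]
  simp only [Psi_apply, Pi.neg_apply]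
  have h1 : ∀ i', (v x.2 * j x.1 i' + w x.2 * (J * j) x.1 i') * (jᵀ * J * j) i' i =
      v x.2 * (j x.1 i' * (jᵀ * J * j) i' i) + w x.2 * ((J * j) x.1 i' * (jᵀ * J * j) i' i) := by
    intro i'
    ring
  simp only [h1, Finset.sum_add_distrib, ← Finset.mul_sum, f1, f2]
  ring

/-- the frame `Psi` with the symbol `c` in between. -/
theorem Psi_c_Psi {κ' ι' : Type*} [Fintype κ'] [Fintype ι] [Fintype ι'] {J0 : Matrix κ κ S}
    {J1 p1 : Matrix κ' κ' S}
    {j0 : Matrix κ ι S} {j1 : Matrix κ' ι' S} {c : Matrix ι' ι S} {cc : Matrix κ' κ S}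
    (hcc : j1 * c * j0ᵀ = cc) (hJt : J0ᵀ = -J0) (hcJ : J1 * cc = cc * J0)
    (hJJ : J1 * J1 = -p1) (hpc : p1 * cc = cc) (v w : ν → S) :
    Psi J1 j1 v w * c * (Psi J0 j0 v w)ᵀ = fun x y =>
      (v x.2 * v y.2 + w x.2 * w y.2) * cc x.1 y.1 +
        (w x.2 * v y.2 - v x.2 * w y.2) * (J1 * cc) x.1 y.1 := by
  have e2 : j1 * c * (J0 * j0)ᵀ = - (J1 * cc) := by
    rw [Matrix.transpose_mul, hJt, Matrix.mul_neg, Matrix.mul_neg, ← Matrix.mul_assoc, hcc, hcJ]
  have e3 : J1 * j1 * c * j0ᵀ = J1 * cc := by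
    rw [← hcc]
    simp only [Matrix.mul_assoc]
  have e4 : J1 * j1 * c * (J0 * j0)ᵀ = cc := by
    have : J1 * j1 * c * (J0 * j0)ᵀ = J1 * (j1 * c * (J0 * j0)ᵀ) := by
      simp only [Matrix.mul_assoc]
    rw [this, e2, Matrix.mul_neg, ← Matrix.mul_assoc, hJJ, Matrix.neg_mul, hpc, neg_neg]
  ext x y
  have f1 : ∑ i, (j1 * c) x.1 i * j0 y.1 i = cc x.1 y.1 := congrFun (congrFun hcc x.1) y.1
  have f2 : ∑ i, (j1 * c) x.1 i * (J0 * j0) y.1 i = - (J1 * cc) x.1 y.1 :=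
    congrFun (congrFun e2 x.1) y.1
  have f3 : ∑ i, (J1 * j1 * c) x.1 i * j0 y.1 i = (J1 * cc) x.1 y.1 :=
    congrFun (congrFun e3 x.1) y.1
  have f4 : ∑ i, (J1 * j1 * c) x.1 i * (J0 * j0) y.1 i = cc x.1 y.1 :=
    congrFun (congrFun e4 x.1) y.1
  have g : ∀ i, (Psi J1 j1 v w * c) x i = v x.2 * (j1 * c) x.1 i + w x.2 * (J1 * j1 * c) x.1 i := by
    intro i
    rw [Matrix.mul_apply, Matrix.mul_apply, Matrix.mul_apply, Finset.mul_sum, Finset.mul_sum,
      ← Finset.sum_add_distrib]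
    refine Finset.sum_congr rfl fun i' _ => ?_
    rw [Psi_apply]
    ring
  rw [Matrix.mul_apply]
  simp only [Matrix.transpose_apply, g, Psi_apply]
  have h1 : ∀ i, (v x.2 * (j1 * c) x.1 i + w x.2 * (J1 * j1 * c) x.1 i) *
      (v y.2 * j0 y.1 i + w y.2 * (J0 * j0) y.1 i) =
      (v x.2 * v y.2) * ((j1 * c) x.1 i * j0 y.1 i) +
      (v x.2 * w y.2) * ((j1 * c) x.1 i * (J0 * j0) y.1 i) +
      ((w x.2 * v y.2) * ((J1 * j1 * c) x.1 i * j0 y.1 i) +
        (w x.2 * w y.2) * ((J1 * j1 * c) x.1 i * (J0 * j0) y.1 i)) := by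
    intro i
    ring
  simp only [h1, Finset.sum_add_distrib, ← Finset.mul_sum, f1, f2, f3, f4]
  ring

/-- outer product. -/
def oo (u v : ν → S) : Matrix ν ν S := fun k l => u k * v l

theorem oo_mulVec (u v w : ν → S) : oo u v *ᵥ w = (v ⬝ᵥ w) • u := by
  ext k
  simp only [Matrix.mulVec, dotProduct, oo, Pi.smul_apply, smul_eq_mul, Finset.sum_mul]
  exact Finset.sum_congr rfl fun l _ => by ring

/-- the connection of a line bundle in a unit frame `v + i w`. -/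
theorem unit_alg (v w dv dw : ν → S) (hP : v ⬝ᵥ v + w ⬝ᵥ w = 1)
    (hB : v ⬝ᵥ dv + w ⬝ᵥ dw = 0) {r s dr ds : Matrix ν ν S}
    (hr : r = oo v v + oo w w) (hs : s = oo w v - oo v w)
    (hdr : dr = oo dv v + oo v dv + (oo dw w + oo w dw))
    (hds : ds = oo dw v + oo w dv - (oo dv w + oo v dw)) :
    (dv + (((r * dr - s * ds) - (dr * r - ds * s)) *ᵥ v -
        ((r * ds + s * dr) - (dr * s + ds * r)) *ᵥ w) = -((v ⬝ᵥ dw - w ⬝ᵥ dv) • w)) ∧
      (dw + (((r * dr - s * ds) - (dr * r - ds * s)) *ᵥ w +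
        ((r * ds + s * dr) - (dr * s + ds * r)) *ᵥ v) = (v ⬝ᵥ dw - w ⬝ᵥ dv) • v) := by
  have c1 : w ⬝ᵥ v = v ⬝ᵥ w := dotProduct_comm _ _
  have c2 : dv ⬝ᵥ v = v ⬝ᵥ dv := dotProduct_comm _ _
  have c3 : dw ⬝ᵥ w = w ⬝ᵥ dw := dotProduct_comm _ _
  have c4 : dv ⬝ᵥ w = w ⬝ᵥ dv := dotProduct_comm _ _
  have c5 : dw ⬝ᵥ v = v ⬝ᵥ dw := dotProduct_comm _ _
  have h1 : r *ᵥ v - s *ᵥ w = v := by
    rw [hr, hs, add_mulVec, sub_mulVec, oo_mulVec, oo_mulVec, oo_mulVec, oo_mulVec, c1]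
    ext k
    simp only [Pi.add_apply, Pi.sub_apply, Pi.smul_apply, smul_eq_mul]
    linear_combination (v k) * hP
  have h2 : s *ᵥ v + r *ᵥ w = w := by
    rw [hr, hs, add_mulVec, sub_mulVec, oo_mulVec, oo_mulVec, oo_mulVec, oo_mulVec, c1]
    ext k
    simp only [Pi.add_apply, Pi.sub_apply, Pi.smul_apply, smul_eq_mul]
    linear_combination (w k) * hP
  have h3 : dr *ᵥ v - ds *ᵥ w = dv + (v ⬝ᵥ dw - w ⬝ᵥ dv) • w := by
    rw [hdr, hds, add_mulVec, add_mulVec, add_mulVec, sub_mulVec, add_mulVec, add_mulVec]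
    simp only [oo_mulVec, c1, c2, c3, c4, c5]
    ext k
    simp only [Pi.add_apply, Pi.sub_apply, Pi.smul_apply, smul_eq_mul]
    linear_combination (dv k) * hP + (v k) * hB
  have h4 : ds *ᵥ v + dr *ᵥ w = dw - (v ⬝ᵥ dw - w ⬝ᵥ dv) • v := by
    rw [hdr, hds, add_mulVec, add_mulVec, add_mulVec, sub_mulVec, add_mulVec, add_mulVec]
    simp only [oo_mulVec, c1, c2, c3, c4, c5]
    ext k
    simp only [Pi.add_apply, Pi.sub_apply, Pi.smul_apply, smul_eq_mul]
    linear_combination (dw k) * hP + (w k) * hB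
  have h5 : r *ᵥ dv - s *ᵥ dw = - ((v ⬝ᵥ dw - w ⬝ᵥ dv) • w) := by
    rw [hr, hs, add_mulVec, sub_mulVec, oo_mulVec, oo_mulVec, oo_mulVec, oo_mulVec]
    ext k
    simp only [Pi.add_apply, Pi.sub_apply, Pi.smul_apply, Pi.neg_apply, smul_eq_mul]
    linear_combination (v k) * hB
  have h6 : s *ᵥ dv + r *ᵥ dw = (v ⬝ᵥ dw - w ⬝ᵥ dv) • v := by
    rw [hr, hs, add_mulVec, sub_mulVec, oo_mulVec, oo_mulVec, oo_mulVec, oo_mulVec]
    ext k
    simp only [Pi.add_apply, Pi.sub_apply, Pi.smul_apply, smul_eq_mul]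
    linear_combination (w k) * hB
  set al := v ⬝ᵥ dw - w ⬝ᵥ dv with hal
  constructor
  · have e1 : ((r * dr - s * ds) - (dr * r - ds * s)) *ᵥ v -
        ((r * ds + s * dr) - (dr * s + ds * r)) *ᵥ w =
        (r *ᵥ (dr *ᵥ v - ds *ᵥ w) - s *ᵥ (ds *ᵥ v + dr *ᵥ w)) -
          (dr *ᵥ (r *ᵥ v - s *ᵥ w) - ds *ᵥ (s *ᵥ v + r *ᵥ w)) := by
      simp only [sub_mulVec, add_mulVec, mulVec_sub, mulVec_add, mulVec_mulVec]
      abel
    rw [e1, h1, h2, h3, h4]
    have e2 : r *ᵥ (dv + al • w) - s *ᵥ (dw - al • v) =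
        (r *ᵥ dv - s *ᵥ dw) + al • (s *ᵥ v + r *ᵥ w) := by
      simp only [mulVec_sub, mulVec_add, mulVec_smul, smul_add]
      abel
    rw [e2, h5, h2]
    abel
  · have e1 : ((r * dr - s * ds) - (dr * r - ds * s)) *ᵥ w +
        ((r * ds + s * dr) - (dr * s + ds * r)) *ᵥ v =
        (r *ᵥ (ds *ᵥ v + dr *ᵥ w) + s *ᵥ (dr *ᵥ v - ds *ᵥ w)) -
          (dr *ᵥ (s *ᵥ v + r *ᵥ w) + ds *ᵥ (r *ᵥ v - s *ᵥ w)) := by
      simp only [sub_mulVec, add_mulVec, mulVec_sub, mulVec_add, mulVec_mulVec]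
      abel
    rw [e1, h1, h2, h3, h4]
    have e2 : r *ᵥ (dw - al • v) + s *ᵥ (dv + al • w) =
        (s *ᵥ dv + r *ᵥ dw) - al • (r *ᵥ v - s *ᵥ w) := by
      simp only [mulVec_sub, mulVec_add, mulVec_smul, smul_sub]
      abel
    have e3 : dr *ᵥ w + ds *ᵥ v = dw - al • v := by rw [← h4]; abel
    rw [e2, h6, h1, e3]
    abel

end alg

/-- `[q dq - dq q, q] = - dq` in any ring. -/
theorem comm_proj {R : Type*} [Ring R] {q d : R} (hq : q * q = q) (hd : d = d * q + q * d) :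
    (q * d - d * q) * q - q * (q * d - d * q) = - d := by
  have h1 : q * d * q = 0 := by
    have h := congrArg (fun t => q * t) hd
    simp only [mul_add, ← mul_assoc, hq] at h
    have h2 : q * d * q + q * d = q * d := h.symm
    exact add_eq_right.1 h2
  have e1 : (q * d - d * q) * q = q * d * q - d * q := by
    rw [sub_mul, mul_assoc d q q, hq]
  have e2 : q * (q * d - d * q) = q * d - q * d * q := by
    rw [mul_sub, ← mul_assoc, hq, ← mul_assoc]
  rw [e1, e2, h1]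
  conv_rhs => rw [hd]
  abel

end

end Crest.Agent.R235.LTw_453
end

-- ▼ part R235/LTwB_453

/-!
Row 235, helper453, L-twist part B: bundles.

* `Ind167.PJ D J` : `J` is a parallel complex structure of the bundle `D`;
* `LD n M N` : a complex line bundle in `ℂ^N` (real and imaginary part of the projection);
* `twB D J L : Bun n M (κ × Fin N)` : the complex tensor product `D ⊗_ℂ L`.
-/

set_option autoImplicit false
set_option maxSynthPendingDepth 3
set_option linter.unusedSectionVars false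

open Filter Topology Set Bundle Manifold Matrix
open scoped ContDiff Kronecker
open Crest.GeometryTopology.CoordMetric Crest.GeometryTopology.ChartCurvature
  Crest.GeometryTopology.PointedLimit
open Crest.Agent.R202.Tens Crest.Agent.R247.Bo84 Crest.Agent.R249.FrmB_285 Crest.Agent.R249.Vf281
  Crest.Agent.R249.Tz1_805 Crest.Agent.R249.Tz2_805
open Crest.Agent.R249.Fr129 Crest.Agent.R249.Sg129 Crest.Agent.R249.C2_198 Crest.Agent.R249.Tz805
open Crest.Agent.R235.Ind167 (PJ PJ.pmul)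

noncomputable section

namespace Crest.Agent.R235.LTw_453

variable {n : ℕ} {M : Type*} [TopologicalSpace M] [ChartedSpace (EuclideanSpace ℝ (Fin n)) M]
  [IsManifold 𝓘(ℝ, EuclideanSpace ℝ (Fin n)) ∞ M]
  [RiemannianBundle (fun x : M => TangentSpace 𝓘(ℝ, EuclideanSpace ℝ (Fin n)) x)]
  [IsContMDiffRiemannianBundle 𝓘(ℝ, EuclideanSpace ℝ (Fin n)) ∞ (EuclideanSpace ℝ (Fin n))
      (fun x : M => TangentSpace 𝓘(ℝ, EuclideanSpace ℝ (Fin n)) x)]

local notation "𝔼" => EuclideanSpace ℝ (Fin n)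
local notation "𝓘E" => 𝓘(ℝ, EuclideanSpace ℝ (Fin n))

variable (n M) in
/-- a complex line bundle in `ℂ^N`: the projection is `r + i s`. -/
structure LD (N : ℕ) where
  r : Fin N → Fin N → M → ℝ
  s : Fin N → Fin N → M → ℝ
  smr : ∀ a b, ContMDiff 𝓘(ℝ, EuclideanSpace ℝ (Fin n)) 𝓘(ℝ, ℝ) ∞ (r a b)
  sms : ∀ a b, ContMDiff 𝓘(ℝ, EuclideanSpace ℝ (Fin n)) 𝓘(ℝ, ℝ) ∞ (s a b)
  symr : ∀ a b z, r a b z = r b a z
  skews : ∀ a b z, s a b z = - s b a z
  tr : ∀ z, ∑ a, r a a z = 1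
  rk1 : ∀ k l m z, r k m z * r l m z + s k m z * s l m z = r m m z * r k l z
  rk2 : ∀ k l m z, s k m z * r l m z - r k m z * s l m z = r m m z * s k l z

namespace LD

variable {N : ℕ} (L : LD n M N)

theorem id1 (a b : Fin N) (z : M) :
    ∑ c, (L.r a c z * L.r c b z - L.s a c z * L.s c b z) = L.r a b z := by
  have h : ∀ c, L.r a c z * L.r c b z - L.s a c z * L.s c b z = L.r c c z * L.r a b z := by
    intro c
    rw [← L.rk1 a b c z, L.symr c b z, L.skews c b z]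
    ring
  simp only [h, ← Finset.sum_mul, L.tr, one_mul]

theorem id2 (a b : Fin N) (z : M) :
    ∑ c, (L.r a c z * L.s c b z + L.s a c z * L.r c b z) = L.s a b z := by
  have h : ∀ c, L.r a c z * L.s c b z + L.s a c z * L.r c b z = L.r c c z * L.s a b z := by
    intro c
    rw [← L.rk2 a b c z, L.symr c b z, L.skews c b z]
    ring
  simp only [h, ← Finset.sum_mul, L.tr, one_mul]

/-- real part of `[q, dq]` as vector fields. -/
def AR (a b : Fin N) (z : M) : TangentSpace 𝓘(ℝ, EuclideanSpace ℝ (Fin n)) z :=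
  ∑ c, ((L.r a c z • mgrad n (L.r c b) z - L.s a c z • mgrad n (L.s c b) z) -
    (L.r c b z • mgrad n (L.r a c) z - L.s c b z • mgrad n (L.s a c) z))

/-- imaginary part of `[q, dq]` as vector fields. -/
def AI (a b : Fin N) (z : M) : TangentSpace 𝓘(ℝ, EuclideanSpace ℝ (Fin n)) z :=
  ∑ c, ((L.r a c z • mgrad n (L.s c b) z + L.s a c z • mgrad n (L.r c b) z) -
    (L.s c b z • mgrad n (L.r a c) z + L.r c b z • mgrad n (L.s a c) z))

theorem smg_r (a b : Fin N) (z : M) : VSm n ∞ (mgrad n (L.r a b)) z := VSm_mgrad_top (L.smr a b) z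
theorem smg_s (a b : Fin N) (z : M) : VSm n ∞ (mgrad n (L.s a b)) z := VSm_mgrad_top (L.sms a b) z

theorem sm1 (a b c d : Fin N) (z : M) :
    VSm n ∞ (fun q => L.r a b q • mgrad n (L.r c d) q) z :=
  VSm.smul le_rfl (L.smr a b z) (L.smg_r c d z)
theorem sm2 (a b c d : Fin N) (z : M) :
    VSm n ∞ (fun q => L.r a b q • mgrad n (L.s c d) q) z :=
  VSm.smul le_rfl (L.smr a b z) (L.smg_s c d z)
theorem sm3 (a b c d : Fin N) (z : M) :
    VSm n ∞ (fun q => L.s a b q • mgrad n (L.r c d) q) z :=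
  VSm.smul le_rfl (L.sms a b z) (L.smg_r c d z)
theorem sm4 (a b c d : Fin N) (z : M) :
    VSm n ∞ (fun q => L.s a b q • mgrad n (L.s c d) q) z :=
  VSm.smul le_rfl (L.sms a b z) (L.smg_s c d z)

theorem _root_.Crest.Agent.R249.Vf281.VSm.sub' {X Y : (p : M) → TangentSpace 𝓘E p} {z : M}
    (hX : VSm n ∞ X z) (hY : VSm n ∞ Y z) : VSm n ∞ (fun q => X q - Y q) z := by
  have := hX.add hY.neg
  refine VSm_congr (Eventually.of_forall fun q => ?_) this
  exact sub_eq_add_neg _ _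

theorem smARt (a b c : Fin N) (z : M) : VSm n ∞ (fun z =>
    ((L.r a c z • mgrad n (L.r c b) z - L.s a c z • mgrad n (L.s c b) z) -
    (L.r c b z • mgrad n (L.r a c) z - L.s c b z • mgrad n (L.s a c) z))) z :=
  ((L.sm1 a c c b z).sub' (L.sm4 a c c b z)).sub' ((L.sm1 c b a c z).sub' (L.sm4 c b a c z))

theorem smAIt (a b c : Fin N) (z : M) : VSm n ∞ (fun z =>
    ((L.r a c z • mgrad n (L.s c b) z + L.s a c z • mgrad n (L.r c b) z) -
    (L.s c b z • mgrad n (L.r a c) z + L.r c b z • mgrad n (L.s a c) z))) z :=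
  ((L.sm2 a c c b z).add (L.sm3 a c c b z)).sub' ((L.sm3 c b a c z).add (L.sm2 c b a c z))

theorem smAR (a b : Fin N) (z : M) : VSm n ∞ (L.AR a b) z :=
  VSm.sum Finset.univ fun c _ => L.smARt a b c z

theorem smAI (a b : Fin N) (z : M) : VSm n ∞ (L.AI a b) z :=
  VSm.sum Finset.univ fun c _ => L.smAIt a b c z

theorem mgr_r (a b : Fin N) (z : M) : mgrad n (L.r a b) z = mgrad n (L.r b a) z := by
  have : L.r a b = L.r b a := funext fun z => L.symr a b z
  rw [this]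

theorem mgr_s (a b : Fin N) (z : M) : mgrad n (L.s a b) z = - mgrad n (L.s b a) z := by
  have : L.s a b = fun z => (-1) * L.s b a z := funext fun z => by rw [L.skews a b z]; ring
  rw [this, mgrad_const_mul _ (((L.sms b a).mdifferentiable (by simp)) z), neg_one_smul]

theorem AR_skew (a b : Fin N) (z : M) : L.AR a b z = - L.AR b a z := by
  rw [AR, AR, ← Finset.sum_neg_distrib]
  refine Finset.sum_congr rfl fun c _ => ?_
  rw [L.symr a c z, L.symr c b z, L.skews a c z, L.skews c b z, L.mgr_r c b z, L.mgr_r a c z,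
    L.mgr_s c b z, L.mgr_s a c z]
  simp only [smul_neg, neg_smul, neg_neg]
  abel

theorem AI_symm (a b : Fin N) (z : M) : L.AI a b z = L.AI b a z := by
  rw [AI, AI]
  refine Finset.sum_congr rfl fun c _ => ?_
  rw [L.symr a c z, L.symr c b z, L.skews a c z, L.skews c b z, L.mgr_r c b z, L.mgr_r a c z,
    L.mgr_s c b z, L.mgr_s a c z]
  simp only [smul_neg, neg_smul]
  abel

/-! ### matrices at a point -/

/-- matrix of the derivatives. -/
def dm {ν : Type} (f : ν → ν → M → ℝ) (z : M) (v : TangentSpace 𝓘(ℝ, EuclideanSpace ℝ (Fin n)) z) :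
    Matrix ν ν ℝ := fun a b => inner ℝ (mgrad n (f a b) z) v

/-- matrix of a family of vector fields. -/
def wm {ν : Type} (W : ν → ν → (z : M) → TangentSpace 𝓘(ℝ, EuclideanSpace ℝ (Fin n)) z) (z : M)
    (v : TangentSpace 𝓘(ℝ, EuclideanSpace ℝ (Fin n)) z) :
    Matrix ν ν ℝ := fun a b => inner ℝ (W a b z) v

theorem mga {f1 f2 f3 f4 : M → ℝ} {z : M} (h1 : MDifferentiableAt 𝓘E 𝓘(ℝ, ℝ) f1 z)
    (h2 : MDifferentiableAt 𝓘E 𝓘(ℝ, ℝ) f2 z) (h3 : MDifferentiableAt 𝓘E 𝓘(ℝ, ℝ) f3 z)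
    (h4 : MDifferentiableAt 𝓘E 𝓘(ℝ, ℝ) f4 z) :
    mgrad n (fun q => f1 q * f2 q + f3 q * f4 q) z =
      (f1 z • mgrad n f2 z + f2 z • mgrad n f1 z) + (f3 z • mgrad n f4 z + f4 z • mgrad n f3 z) := by
  have a := mgrad_add (n := n) (f := fun q => f1 q * f2 q) (h := fun q => f3 q * f4 q)
    (h1.mul h2) (h3.mul h4)
  rw [mgrad_mul h1 h2, mgrad_mul h3 h4] at a
  exact a

theorem mgs {f1 f2 f3 f4 : M → ℝ} {z : M} (h1 : MDifferentiableAt 𝓘E 𝓘(ℝ, ℝ) f1 z)
    (h2 : MDifferentiableAt 𝓘E 𝓘(ℝ, ℝ) f2 z) (h3 : MDifferentiableAt 𝓘E 𝓘(ℝ, ℝ) f3 z)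
    (h4 : MDifferentiableAt 𝓘E 𝓘(ℝ, ℝ) f4 z) :
    mgrad n (fun q => f1 q * f2 q - f3 q * f4 q) z =
      (f1 z • mgrad n f2 z + f2 z • mgrad n f1 z) - (f3 z • mgrad n f4 z + f4 z • mgrad n f3 z) := by
  have a := mgrad_sub (n := n) (f := fun q => f1 q * f2 q) (h := fun q => f3 q * f4 q)
    (h1.mul h2) (h3.mul h4)
  rw [mgrad_mul h1 h2, mgrad_mul h3 h4] at a
  exact a

/-- matrix of values -/
def vm {ν : Type} (f : ν → ν → M → ℝ) (z : M) : Matrix ν ν ℝ := fun a b => f a b z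

theorem dr_id (z : M) (v : TangentSpace 𝓘(ℝ, EuclideanSpace ℝ (Fin n)) z) :
    dm L.r z v = (dm L.r z v * vm L.r z - dm L.s z v * vm L.s z) +
      (vm L.r z * dm L.r z v - vm L.s z * dm L.s z v) := by
  ext a b
  have h0 : (fun q => ∑ c, (L.r a c q * L.r c b q - L.s a c q * L.s c b q)) = L.r a b :=
    funext fun q => L.id1 a b q
  have hr : ∀ a b, MDifferentiableAt 𝓘E 𝓘(ℝ, ℝ) (L.r a b) z := fun a b =>
    ((L.smr a b).mdifferentiable (by simp)) z
  have hs : ∀ a b, MDifferentiableAt 𝓘E 𝓘(ℝ, ℝ) (L.s a b) z := fun a b =>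
    ((L.sms a b).mdifferentiable (by simp)) z
  show inner ℝ (mgrad n (L.r a b) z) v = _
  have h2 : mgrad n (fun q => ∑ c, (L.r a c q * L.r c b q - L.s a c q * L.s c b q)) z =
      ∑ c, mgrad n (fun q => L.r a c q * L.r c b q - L.s a c q * L.s c b q) z :=
    mgrad_sum Finset.univ (fun c => ((hr a c).mul (hr c b)).sub ((hs a c).mul (hs c b)))
  rw [← h0, h2, sum_inner]
  simp only [Matrix.add_apply, Matrix.sub_apply, Matrix.mul_apply]
  rw [← Finset.sum_sub_distrib, ← Finset.sum_sub_distrib, ← Finset.sum_add_distrib]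
  refine Finset.sum_congr rfl fun c _ => ?_
  have h1 : mgrad n (fun q => L.r a c q * L.r c b q - L.s a c q * L.s c b q) z =
      (L.r a c z • mgrad n (L.r c b) z + L.r c b z • mgrad n (L.r a c) z) -
      (L.s a c z • mgrad n (L.s c b) z + L.s c b z • mgrad n (L.s a c) z) :=
    mgs (hr a c) (hr c b) (hs a c) (hs c b)
  rw [h1, inner_sub_left, inner_add_left, inner_add_left, real_inner_smul_left,
    real_inner_smul_left, real_inner_smul_left, real_inner_smul_left]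
  simp only [dm, vm]
  ring

theorem ds_id (z : M) (v : TangentSpace 𝓘(ℝ, EuclideanSpace ℝ (Fin n)) z) :
    dm L.s z v = (dm L.r z v * vm L.s z + dm L.s z v * vm L.r z) +
      (vm L.r z * dm L.s z v + vm L.s z * dm L.r z v) := by
  ext a b
  have h0 : (fun q => ∑ c, (L.r a c q * L.s c b q + L.s a c q * L.r c b q)) = L.s a b :=
    funext fun q => L.id2 a b q
  have hr : ∀ a b, MDifferentiableAt 𝓘E 𝓘(ℝ, ℝ) (L.r a b) z := fun a b =>
    ((L.smr a b).mdifferentiable (by simp)) z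
  have hs : ∀ a b, MDifferentiableAt 𝓘E 𝓘(ℝ, ℝ) (L.s a b) z := fun a b =>
    ((L.sms a b).mdifferentiable (by simp)) z
  show inner ℝ (mgrad n (L.s a b) z) v = _
  have h2 : mgrad n (fun q => ∑ c, (L.r a c q * L.s c b q + L.s a c q * L.r c b q)) z =
      ∑ c, mgrad n (fun q => L.r a c q * L.s c b q + L.s a c q * L.r c b q) z :=
    mgrad_sum Finset.univ (fun c => ((hr a c).mul (hs c b)).add ((hs a c).mul (hr c b)))
  rw [← h0, h2, sum_inner]
  simp only [Matrix.add_apply, Matrix.mul_apply]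
  rw [← Finset.sum_add_distrib, ← Finset.sum_add_distrib, ← Finset.sum_add_distrib]
  refine Finset.sum_congr rfl fun c _ => ?_
  have h1 : mgrad n (fun q => L.r a c q * L.s c b q + L.s a c q * L.r c b q) z =
      (L.r a c z • mgrad n (L.s c b) z + L.s c b z • mgrad n (L.r a c) z) +
      (L.s a c z • mgrad n (L.r c b) z + L.r c b z • mgrad n (L.s a c) z) :=
    mga (hr a c) (hs c b) (hs a c) (hr c b)
  rw [h1, inner_add_left, inner_add_left, inner_add_left, real_inner_smul_left,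
    real_inner_smul_left, real_inner_smul_left, real_inner_smul_left]
  simp only [dm, vm]
  ring

theorem AR_mat (z : M) (v : TangentSpace 𝓘(ℝ, EuclideanSpace ℝ (Fin n)) z) :
    wm L.AR z v =
      (vm L.r z * dm L.r z v - vm L.s z * dm L.s z v) -
        (dm L.r z v * vm L.r z - dm L.s z v * vm L.s z) := by
  ext a b
  show inner ℝ (L.AR a b z) v = _
  rw [AR, sum_inner]
  simp only [Matrix.sub_apply, Matrix.mul_apply]
  rw [← Finset.sum_sub_distrib, ← Finset.sum_sub_distrib, ← Finset.sum_sub_distrib]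
  refine Finset.sum_congr rfl fun c _ => ?_
  rw [inner_sub_left, inner_sub_left, inner_sub_left, real_inner_smul_left,
    real_inner_smul_left, real_inner_smul_left, real_inner_smul_left]
  simp only [dm, vm]
  ring

theorem AI_mat (z : M) (v : TangentSpace 𝓘(ℝ, EuclideanSpace ℝ (Fin n)) z) :
    wm L.AI z v =
      (vm L.r z * dm L.s z v + vm L.s z * dm L.r z v) -
        (dm L.r z v * vm L.s z + dm L.s z v * vm L.r z) := by
  ext a b
  show inner ℝ (L.AI a b z) v = _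
  rw [AI, sum_inner]
  simp only [Matrix.sub_apply, Matrix.add_apply, Matrix.mul_apply]
  rw [← Finset.sum_add_distrib, ← Finset.sum_add_distrib, ← Finset.sum_sub_distrib]
  refine Finset.sum_congr rfl fun c _ => ?_
  rw [inner_sub_left, inner_add_left, inner_add_left, real_inner_smul_left,
    real_inner_smul_left, real_inner_smul_left, real_inner_smul_left]
  simp only [dm, vm]
  ring

end LD

/-! ### the bundle -/

section bun

variable {κ : Type} [Fintype κ] {N : ℕ} (D : Bun n M κ) {J : κ → κ → M → ℝ}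

theorem par_mat (f : κ → κ → M → ℝ) (z : M) (v : TangentSpace 𝓘(ℝ, EuclideanSpace ℝ (Fin n)) z)
    (h : ∀ a b, mgrad n (f a b) z + ∑ c, (f c b z • D.W a c z - f a c z • D.W c b z) = 0) :
    LD.dm f z v = - (LD.wm D.W z v * LD.vm f z -
      LD.vm f z * LD.wm D.W z v) := by
  ext a b
  have h1 := congrArg (fun u => inner ℝ u v) (h a b)
  simp only [inner_add_left, inner_zero_left, sum_inner, inner_sub_left, real_inner_smul_left] at h1
  rw [Matrix.neg_apply, Matrix.sub_apply, Matrix.mul_apply, Matrix.mul_apply]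
  rw [Finset.sum_sub_distrib] at h1
  have h2 : LD.dm f z v a b = inner ℝ (mgrad n (f a b) z) v := rfl
  rw [h2]
  have e1 : ∑ c, inner ℝ (D.W a c z) v * f c b z =
      ∑ c, f c b z * inner ℝ (D.W a c z) v := Finset.sum_congr rfl fun c _ => mul_comm _ _
  show _ = -(∑ c, inner ℝ (D.W a c z) v * f c b z - ∑ c, f a c z * inner ℝ (D.W c b z) v)
  rw [e1]
  linarith

variable (J) in
/-- connection form of the tensor product. -/
def WT (L : LD n M N) (x y : κ × Fin N) (z : M) :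
    TangentSpace 𝓘(ℝ, EuclideanSpace ℝ (Fin n)) z :=
  (if x.2 = y.2 then D.W x.1 y.1 z else 0) +
    (D.p x.1 y.1 z • L.AR x.2 y.2 z + J x.1 y.1 z • L.AI x.2 y.2 z)

variable (J) in
/-- projection of the tensor product. -/
def pT (L : LD n M N) (x y : κ × Fin N) (z : M) : ℝ :=
  D.p x.1 y.1 z * L.r x.2 y.2 z + J x.1 y.1 z * L.s x.2 y.2 z

variable {D}

theorem mat_pp (z : M) : LD.vm D.p z * LD.vm D.p z = LD.vm D.p z := by
  ext a b
  exact D.idem a b z

theorem mat_pJ (hJ : PJ D J) (z : M) : LD.vm D.p z * LD.vm J z = LD.vm J z := by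
  ext a b
  exact hJ.pmul a b z

theorem mat_Jp (hJ : PJ D J) (z : M) : LD.vm J z * LD.vm D.p z = LD.vm J z := by
  ext a b
  have h := hJ.pmul b a z
  show ∑ c, J a c z * D.p c b z = J a b z
  rw [hJ.skew a b z, ← h, ← Finset.sum_neg_distrib]
  refine Finset.sum_congr rfl fun c _ => ?_
  rw [hJ.skew a c z, D.symmp c b z]
  ring

theorem mat_JJ (hJ : PJ D J) (z : M) : LD.vm J z * LD.vm J z = - LD.vm D.p z := by
  ext a b
  exact hJ.sq a b z


theorem smWT (hJ : PJ D J) (L : LD n M N) (x y : κ × Fin N) (z : M) :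
    VSm n ∞ (WT D J L x y) z := by
  refine VSm.add ?_ (VSm.add ?_ ?_)
  · by_cases h : x.2 = y.2
    · simp only [h, if_true]; exact D.smW _ _ z
    · simp only [h, if_false]; exact VSm_zero z
  · exact VSm.smul le_rfl (D.smp _ _ z) (L.smAR _ _ z)
  · exact VSm.smul le_rfl (hJ.sm _ _ z) (L.smAI _ _ z)

theorem smpT (hJ : PJ D J) (L : LD n M N) (x y : κ × Fin N) :
    ContMDiff 𝓘E 𝓘(ℝ, ℝ) ∞ (pT D J L x y) :=
  ((D.smp _ _).mul (L.smr _ _)).add ((hJ.sm _ _).mul (L.sms _ _))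

theorem W_mat [DecidableEq κ] (L : LD n M N) (z : M)
    (v : TangentSpace 𝓘(ℝ, EuclideanSpace ℝ (Fin n)) z) :
    LD.wm (WT D J L) z v =
      LD.wm D.W z v ⊗ₖ (1 : Matrix (Fin N) (Fin N) ℝ) +
        Phi (LD.vm D.p z) (LD.vm J z) (LD.wm L.AR z v)
          (LD.wm L.AI z v) := by
  ext x y
  show inner ℝ (WT D J L x y z) v = inner ℝ (D.W x.1 y.1 z) v *
    (1 : Matrix (Fin N) (Fin N) ℝ) x.2 y.2 + (D.p x.1 y.1 z * inner ℝ (L.AR x.2 y.2 z) v +
      J x.1 y.1 z * inner ℝ (L.AI x.2 y.2 z) v)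
  rw [WT, inner_add_left, inner_add_left, real_inner_smul_left, real_inner_smul_left,
    Matrix.one_apply]
  congr 1
  by_cases h : x.2 = y.2
  · simp [h]
  · simp [h]

theorem vm_Phi_sq (hJ : PJ D J) (L : LD n M N) (z : M) :
    Phi (LD.vm D.p z) (LD.vm J z) (LD.vm L.r z) (LD.vm L.s z) *
        Phi (LD.vm D.p z) (LD.vm J z) (LD.vm L.r z) (LD.vm L.s z) =
        Phi (LD.vm D.p z) (LD.vm J z) (LD.vm L.r z) (LD.vm L.s z) := by
  rw [Phi_mul (mat_pp z) (mat_pJ hJ z) (mat_Jp hJ z) (mat_JJ hJ z)]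
  congr 1
  · ext a b
    rw [Matrix.sub_apply, Matrix.mul_apply, Matrix.mul_apply, ← Finset.sum_sub_distrib]
    exact L.id1 a b z
  · ext a b
    rw [Matrix.add_apply, Matrix.mul_apply, Matrix.mul_apply, ← Finset.sum_add_distrib]
    exact L.id2 a b z

/-- `[Φ(A), Φ(q)] = - Φ(dq)`. -/
theorem A_comm (hJ : PJ D J) (L : LD n M N) (z : M)
    (v : TangentSpace 𝓘(ℝ, EuclideanSpace ℝ (Fin n)) z) :
    Phi (LD.vm D.p z) (LD.vm J z) (LD.wm L.AR z v) (LD.wm L.AI z v) *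
        Phi (LD.vm D.p z) (LD.vm J z) (LD.vm L.r z) (LD.vm L.s z) -
      Phi (LD.vm D.p z) (LD.vm J z) (LD.vm L.r z) (LD.vm L.s z) *
        Phi (LD.vm D.p z) (LD.vm J z) (LD.wm L.AR z v) (LD.wm L.AI z v) =
      - Phi (LD.vm D.p z) (LD.vm J z) (LD.dm L.r z v) (LD.dm L.s z v) := by
  classical
  have pp := mat_pp (D := D) z
  have pJ := mat_pJ hJ z
  have Jp := mat_Jp hJ z
  have JJ := mat_JJ hJ z
  have hA : Phi (LD.vm D.p z) (LD.vm J z) (LD.wm L.AR z v) (LD.wm L.AI z v) =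
      Phi (LD.vm D.p z) (LD.vm J z) (LD.vm L.r z) (LD.vm L.s z) *
        Phi (LD.vm D.p z) (LD.vm J z) (LD.dm L.r z v) (LD.dm L.s z v) -
      Phi (LD.vm D.p z) (LD.vm J z) (LD.dm L.r z v) (LD.dm L.s z v) *
        Phi (LD.vm D.p z) (LD.vm J z) (LD.vm L.r z) (LD.vm L.s z) := by
    rw [L.AR_mat z v, L.AI_mat z v, Phi_mul pp pJ Jp JJ, Phi_mul pp pJ Jp JJ, Phi_sub]
  rw [hA]
  refine comm_proj (vm_Phi_sq hJ L z) ?_
  rw [Phi_mul pp pJ Jp JJ, Phi_mul pp pJ Jp JJ, Phi_add]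
  congr 1
  · exact L.dr_id z v
  · exact L.ds_id z v

/-- a section `p ⊗ f + J ⊗ g` of `End (D ⊗ ℂ^N)` is parallel if the complex matrix `f + i g`
satisfies `d(f + ig) + [A, f + ig] = 0`. -/
theorem par_gen (hJ : PJ D J) (L : LD n M N) {f g : Fin N → Fin N → M → ℝ}
    (smf : ∀ a b, ContMDiff 𝓘(ℝ, EuclideanSpace ℝ (Fin n)) 𝓘(ℝ, ℝ) ∞ (f a b))
    (smg : ∀ a b, ContMDiff 𝓘(ℝ, EuclideanSpace ℝ (Fin n)) 𝓘(ℝ, ℝ) ∞ (g a b)) (z : M)
    (key : ∀ v : TangentSpace 𝓘(ℝ, EuclideanSpace ℝ (Fin n)) z,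
      Phi (LD.vm D.p z) (LD.vm J z) (LD.dm f z v) (LD.dm g z v) =
      - (Phi (LD.vm D.p z) (LD.vm J z) (LD.wm L.AR z v) (LD.wm L.AI z v) *
          Phi (LD.vm D.p z) (LD.vm J z) (LD.vm f z) (LD.vm g z) -
        Phi (LD.vm D.p z) (LD.vm J z) (LD.vm f z) (LD.vm g z) *
          Phi (LD.vm D.p z) (LD.vm J z) (LD.wm L.AR z v) (LD.wm L.AI z v)))
    (x y : κ × Fin N) :
    mgrad n (fun z => D.p x.1 y.1 z * f x.2 y.2 z + J x.1 y.1 z * g x.2 y.2 z) z +
      ∑ c, ((D.p c.1 y.1 z * f c.2 y.2 z + J c.1 y.1 z * g c.2 y.2 z) • WT D J L x c z -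
        (D.p x.1 c.1 z * f x.2 c.2 z + J x.1 c.1 z * g x.2 c.2 z) • WT D J L c y z) = 0 := by
  classical
  refine ext_inner_right ℝ fun v => ?_
  rw [inner_zero_left, inner_add_left, sum_inner]
  have key' := key v
  set p := LD.vm D.p z with hp
  set j := LD.vm J z with hj
  set r := LD.vm f z with hr
  set s := LD.vm g z with hs
  set dp := LD.dm D.p z v with hdp
  set dj := LD.dm J z v with hdj
  set dr := LD.dm f z v with hdr
  set ds := LD.dm g z v with hds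
  set W := LD.wm D.W z v with hW
  set F : κ × Fin N → κ × Fin N → M → ℝ := fun x y z =>
    D.p x.1 y.1 z * f x.2 y.2 z + J x.1 y.1 z * g x.2 y.2 z with hF
  have e1 : dp = - (W * p - p * W) := par_mat D D.p z v fun a b => D.par a b z
  have e2 : dj = - (W * j - j * W) := par_mat D J z v fun a b => hJ.par a b z
  -- the derivative
  have hdP : LD.dm F z v = dp ⊗ₖ r + p ⊗ₖ dr + (dj ⊗ₖ s + j ⊗ₖ ds) := by
    ext x y
    have f1 : MDifferentiableAt 𝓘E 𝓘(ℝ, ℝ) (D.p x.1 y.1) z :=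
      ((D.smp x.1 y.1).mdifferentiable (by simp)) z
    have f2 : MDifferentiableAt 𝓘E 𝓘(ℝ, ℝ) (f x.2 y.2) z :=
      ((smf x.2 y.2).mdifferentiable (by simp)) z
    have f3 : MDifferentiableAt 𝓘E 𝓘(ℝ, ℝ) (J x.1 y.1) z :=
      ((hJ.sm x.1 y.1).mdifferentiable (by simp)) z
    have f4 : MDifferentiableAt 𝓘E 𝓘(ℝ, ℝ) (g x.2 y.2) z :=
      ((smg x.2 y.2).mdifferentiable (by simp)) z
    have g' : mgrad n (F x y) z =
        (D.p x.1 y.1 z • mgrad n (f x.2 y.2) z + f x.2 y.2 z • mgrad n (D.p x.1 y.1) z) +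
        (J x.1 y.1 z • mgrad n (g x.2 y.2) z + g x.2 y.2 z • mgrad n (J x.1 y.1) z) :=
      LD.mga f1 f2 f3 f4
    show inner ℝ (mgrad n (F x y) z) v = inner ℝ (mgrad n (D.p x.1 y.1) z) v *
      f x.2 y.2 z + D.p x.1 y.1 z * inner ℝ (mgrad n (f x.2 y.2) z) v +
      (inner ℝ (mgrad n (J x.1 y.1) z) v * g x.2 y.2 z +
        J x.1 y.1 z * inner ℝ (mgrad n (g x.2 y.2) z) v)
    rw [g', inner_add_left, inner_add_left, inner_add_left, real_inner_smul_left,
      real_inner_smul_left, real_inner_smul_left, real_inner_smul_left]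
    ring
  have hWm := W_mat (D := D) (J := J) L z v
  have hvF : LD.vm F z = Phi p j r s := rfl
  have tot : LD.dm F z v +
      (LD.wm (WT D J L) z v * LD.vm F z - LD.vm F z * LD.wm (WT D J L) z v) = 0 := by
    rw [hWm, hdP, hvF, Matrix.add_mul, Matrix.mul_add]
    have g1 : W ⊗ₖ (1 : Matrix (Fin N) (Fin N) ℝ) * Phi p j r s -
        Phi p j r s * W ⊗ₖ (1 : Matrix (Fin N) (Fin N) ℝ) =
        (W * p - p * W) ⊗ₖ r + (W * j - j * W) ⊗ₖ s := by
      rw [Phi, Matrix.mul_add, Matrix.add_mul, ← mul_kronecker_mul, ← mul_kronecker_mul,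
        ← mul_kronecker_mul, ← mul_kronecker_mul, Matrix.one_mul, Matrix.one_mul, Matrix.mul_one,
        Matrix.mul_one]
      ext x y
      simp only [Matrix.add_apply, Matrix.sub_apply, kroneckerMap_apply]
      ring
    have g2 : p ⊗ₖ dr + j ⊗ₖ ds = Phi p j dr ds := rfl
    have g3 : dp ⊗ₖ r + dj ⊗ₖ s = - ((W * p - p * W) ⊗ₖ r + (W * j - j * W) ⊗ₖ s) := by
      rw [e1, e2]
      ext x y
      simp only [Matrix.add_apply, kroneckerMap_apply, Matrix.neg_apply]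
      ring
    have g4 : dp ⊗ₖ r + p ⊗ₖ dr + (dj ⊗ₖ s + j ⊗ₖ ds) =
        (dp ⊗ₖ r + dj ⊗ₖ s) + (p ⊗ₖ dr + j ⊗ₖ ds) := by abel
    rw [g4, g3, g2, key', ← g1]
    abel
  have h1 := congrFun (congrFun tot x) y
  rw [Matrix.add_apply, Matrix.sub_apply, Matrix.mul_apply, Matrix.mul_apply,
    ← Finset.sum_sub_distrib] at h1
  refine Eq.trans ?_ h1
  congr 1
  refine Finset.sum_congr rfl fun c _ => ?_
  rw [inner_sub_left, real_inner_smul_left, real_inner_smul_left]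
  show F c y z * _ - _ = _ * F c y z - _
  rw [mul_comm]
  rfl

theorem parT (hJ : PJ D J) (L : LD n M N) (x y : κ × Fin N) (z : M) :
    mgrad n (pT D J L x y) z +
      ∑ c, (pT D J L c y z • WT D J L x c z - pT D J L x c z • WT D J L c y z) = 0 :=
  par_gen hJ L L.smr L.sms z (fun v => by rw [A_comm hJ L z v, neg_neg]) x y

/-- **the complex tensor product `D ⊗_ℂ L`.** -/
def twB (D : Bun n M κ) (J : κ → κ → M → ℝ) (hJ : PJ D J) (L : LD n M N) :
    Bun n M (κ × Fin N) where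
  W := WT D J L
  p := pT D J L
  smW x y z := smWT hJ L x y z
  skew x y z := by
    rw [WT, WT, neg_add, neg_add]
    congr 1
    · by_cases h : x.2 = y.2
      · rw [if_pos h, if_pos h.symm]; exact D.skew _ _ z
      · rw [if_neg h, if_neg (fun h' => h h'.symm), neg_zero]
    · congr 1
      · rw [D.symmp, L.AR_skew, smul_neg]
      · rw [hJ.skew, L.AI_symm, neg_smul]
  smp x y := smpT hJ L x y
  symmp x y z := by
    rw [pT, pT, D.symmp, L.symr, hJ.skew, L.skews]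
    ring
  idem x y z := congrFun (congrFun (vm_Phi_sq hJ L z) x) y
  par x y z := parT hJ L x y z

/-- the complex structure of the tensor product. -/
def JT (D : Bun n M κ) (J : κ → κ → M → ℝ) (L : LD n M N) (x y : κ × Fin N) (z : M) : ℝ :=
  D.p x.1 y.1 z * (- L.s x.2 y.2 z) + J x.1 y.1 z * L.r x.2 y.2 z

theorem dm_neg (f : Fin N → Fin N → M → ℝ)
    (smf : ∀ a b, ContMDiff 𝓘(ℝ, EuclideanSpace ℝ (Fin n)) 𝓘(ℝ, ℝ) ∞ (f a b)) (z : M)
    (v : TangentSpace 𝓘(ℝ, EuclideanSpace ℝ (Fin n)) z) :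
    LD.dm (fun a b z => - f a b z) z v = - LD.dm f z v := by
  ext a b
  show inner ℝ (mgrad n (fun q => - f a b q) z) v = - inner ℝ (mgrad n (f a b) z) v
  have : (fun q => - f a b q) = fun q => (-1) * f a b q := funext fun q => by ring
  rw [this, mgrad_const_mul _ (((smf a b).mdifferentiable (by simp)) z), neg_one_smul,
    inner_neg_left]

theorem Phi_i_mul {p j : Matrix κ κ ℝ} (pp : p * p = p) (pJ : p * j = j) (Jp : j * p = j)
    (JJ : j * j = -p) (R I : Matrix (Fin N) (Fin N) ℝ) :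
    Phi p j 0 1 * Phi p j R I = Phi p j (-I) R := by
  rw [Phi_mul pp pJ Jp JJ]
  simp

theorem Phi_mul_i {p j : Matrix κ κ ℝ} (pp : p * p = p) (pJ : p * j = j) (Jp : j * p = j)
    (JJ : j * j = -p) (R I : Matrix (Fin N) (Fin N) ℝ) :
    Phi p j R I * Phi p j 0 1 = Phi p j (-I) R := by
  rw [Phi_mul pp pJ Jp JJ]
  simp

/-- **`JT` is a parallel complex structure of the tensor product.** -/
theorem pjT (hJ : PJ D J) (L : LD n M N) : PJ (twB D J hJ L) (JT D J L) where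
  sm x y := ((D.smp _ _).mul (L.sms _ _).neg).add ((hJ.sm _ _).mul (L.smr _ _))
  skew x y z := by
    rw [JT, JT, D.symmp, L.symr, hJ.skew, L.skews x.2 y.2]
    ring
  mulp x y z := by
    have pp := mat_pp (D := D) z
    have pJ := mat_pJ hJ z
    have Jp := mat_Jp hJ z
    have JJ := mat_JJ hJ z
    have h : Phi (LD.vm D.p z) (LD.vm J z) (-LD.vm L.s z) (LD.vm L.r z) *
        Phi (LD.vm D.p z) (LD.vm J z) (LD.vm L.r z) (LD.vm L.s z) =
        Phi (LD.vm D.p z) (LD.vm J z) (-LD.vm L.s z) (LD.vm L.r z) := by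
      rw [← Phi_i_mul pp pJ Jp JJ, Matrix.mul_assoc, vm_Phi_sq hJ L z]
    exact congrFun (congrFun h x) y
  sq x y z := by
    have pp := mat_pp (D := D) z
    have pJ := mat_pJ hJ z
    have Jp := mat_Jp hJ z
    have JJ := mat_JJ hJ z
    have h : Phi (LD.vm D.p z) (LD.vm J z) (-LD.vm L.s z) (LD.vm L.r z) *
        Phi (LD.vm D.p z) (LD.vm J z) (-LD.vm L.s z) (LD.vm L.r z) =
        - Phi (LD.vm D.p z) (LD.vm J z) (LD.vm L.r z) (LD.vm L.s z) := by
      conv_lhs => rw [← Phi_i_mul pp pJ Jp JJ]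
      rw [Matrix.mul_assoc, ← Matrix.mul_assoc _ (Phi _ _ 0 1), Phi_mul_i pp pJ Jp JJ,
        ← Phi_i_mul pp pJ Jp JJ, Matrix.mul_assoc, vm_Phi_sq hJ L z, Phi_i_mul pp pJ Jp JJ,
        Phi_i_mul pp pJ Jp JJ, Phi_neg]
    exact congrFun (congrFun h x) y
  par x y z := by
    have pp := mat_pp (D := D) z
    have pJ := mat_pJ hJ z
    have Jp := mat_Jp hJ z
    have JJ := mat_JJ hJ z
    refine par_gen hJ L (f := fun a b z => - L.s a b z) (g := L.r) (fun a b => (L.sms a b).neg)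
      L.smr z (fun v => ?_) x y
    rw [dm_neg L.s L.sms z v]
    have h1 : Phi (LD.vm D.p z) (LD.vm J z) (LD.vm (fun a b z => - L.s a b z) z) (LD.vm L.r z) =
        Phi (LD.vm D.p z) (LD.vm J z) 0 1 *
          Phi (LD.vm D.p z) (LD.vm J z) (LD.vm L.r z) (LD.vm L.s z) := by
      rw [Phi_i_mul pp pJ Jp JJ]
      rfl
    have h2 : Phi (LD.vm D.p z) (LD.vm J z) (-LD.dm L.s z v) (LD.dm L.r z v) =
        Phi (LD.vm D.p z) (LD.vm J z) 0 1 *
          Phi (LD.vm D.p z) (LD.vm J z) (LD.dm L.r z v) (LD.dm L.s z v) := by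
      rw [Phi_i_mul pp pJ Jp JJ]
    have h3 := A_comm hJ L z v
    rw [h1, h2, ← Matrix.mul_assoc, Phi_mul_i pp pJ Jp JJ, ← Phi_i_mul pp pJ Jp JJ,
      Matrix.mul_assoc, Matrix.mul_assoc, ← Matrix.mul_sub, h3, Matrix.mul_neg, neg_neg]

end bun

end Crest.Agent.R235.LTw_453
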