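import Mathlib
import Crest.Agent.R235.LTwB_453
import Crest.Agent.R235.Defs_837

-- ▼ part R235/Integ0_984
section

/-!
Row 235 (S0364), PACKAGE ADJ, leaf X3 INTEG (helper984), part 0: linear algebra of rank one
projections and the Sard argument.
-/

set_option autoImplicit false

open Matrix Complex MeasureTheory Set Filter Topology
open scoped ComplexOrder

namespace Crest.Agent.R235.Integ_984

noncomputable section

section Alg

variable {N : ℕ}

/-- rank one projections. -/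
structure IsP (P : Matrix (Fin N) (Fin N) ℂ) : Prop where
  idem : P * P = P
  herm : P.conjTranspose = P
  tr : P.trace = 1

/-- tangent vectors to the space of projections. -/
structure IsT (P X : Matrix (Fin N) (Fin N) ℂ) : Prop where
  herm : X.conjTranspose = X
  off : X = P * X + X * P

theorem IsP.exists_vec {P : Matrix (Fin N) (Fin N) ℂ} (h : IsP P) :
    ∃ l : Fin N → ℂ, P = vecMulVec l (star l) ∧ star l ⬝ᵥ l = 1 := by
  have h0 : ∃ v, P *ᵥ v ≠ 0 := by
    by_contra hc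
    push Not at hc
    have h1 : P = 0 := by
      ext i j
      have := congrFun (hc (Pi.single j 1)) i
      simpa using this
    have h2 := h.tr
    rw [h1] at h2
    simp at h2
  obtain ⟨v, hv⟩ := h0
  set s := P *ᵥ v with hs
  set q := star s ⬝ᵥ s with hq
  have hPs : P *ᵥ s = s := by rw [hs, mulVec_mulVec, h.idem]
  have hq0 : q ≠ 0 := by
    intro h1
    exact hv (dotProduct_star_self_eq_zero.1 h1)
  have hqr : q = ((Real.sqrt q.re : ℝ) : ℂ) ^ 2 := by
    have h1 : q = (∑ i, normSq (s i) : ℝ) := by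
      rw [hq]
      simp only [dotProduct, Pi.star_apply, RCLike.star_def]
      push_cast
      exact Finset.sum_congr rfl fun i _ => by rw [mul_comm, mul_conj]
    have h2 : 0 ≤ q.re := by
      rw [h1, ofReal_re]
      exact Finset.sum_nonneg fun i _ => normSq_nonneg _
    rw [← ofReal_pow, Real.sq_sqrt h2]
    rw [h1]; simp
  set r : ℂ := ((Real.sqrt q.re : ℝ) : ℂ) with hr
  have hr0 : r ≠ 0 := by
    intro h1; rw [h1] at hqr; exact hq0 (by rw [hqr]; simp)
  have hrs : star r = r := by rw [hr]; simp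
  set l : Fin N → ℂ := r⁻¹ • s with hl
  have hls : star l = r⁻¹ • star s := by
    rw [hl, star_smul, star_inv₀, hrs]
  have hll : star l ⬝ᵥ l = 1 := by
    rw [hls, hl, smul_dotProduct, dotProduct_smul, ← hq, hqr]
    simp only [smul_eq_mul]
    field_simp
  have hPl : P *ᵥ l = l := by rw [hl, mulVec_smul, hPs]
  have hlP : star l ᵥ* P = star l := by
    have := congrArg star hPl
    rw [star_mulVec, h.herm] at this
    exact this
  set Q := P - vecMulVec l (star l) with hQ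
  have hQQ : Q * Q = Q := by
    rw [hQ, sub_mul, mul_sub, mul_sub, h.idem, mul_vecMulVec, vecMulVec_mul, hPl, hlP,
      vecMulVec_mul_vecMulVec, hll]
    simp
  have hQH : Q.conjTranspose = Q := by
    rw [hQ, conjTranspose_sub, h.herm, conjTranspose_vecMulVec, star_star]
  have hQt : Q.trace = 0 := by
    rw [hQ, trace_sub, h.tr, trace_vecMulVec, dotProduct_comm, hll, sub_self]
  have hQ0 : Q = 0 := by
    have h1 : (Q.conjTranspose * Q).trace = 0 := by rw [hQH, hQQ, hQt]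
    exact trace_conjTranspose_mul_self_eq_zero_iff.1 h1
  exact ⟨l, sub_eq_zero.1 hQ0, hll⟩

/-- the scalars. -/
theorem key {P X Y : Matrix (Fin N) (Fin N) ℂ} (h : IsP P) (hX : IsT P X) (hY : IsT P Y)
    (v w : Fin N → ℂ) : ∃ (c d a b a' b' t t' : ℂ),
    star (P *ᵥ v) ⬝ᵥ (P *ᵥ v) = c * star c ∧
    star (P *ᵥ w) ⬝ᵥ (P *ᵥ w) = star d * d ∧
    star v ⬝ᵥ (P *ᵥ w) = c * d ∧
    star (P *ᵥ v) ⬝ᵥ (X *ᵥ v) = c * a ∧
    star (P *ᵥ v) ⬝ᵥ (Y *ᵥ v) = c * b ∧
    star (P *ᵥ w) ⬝ᵥ (X *ᵥ w) = star d * a' ∧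
    star v ⬝ᵥ (X *ᵥ w) = c * a' + star a * d ∧
    star (X *ᵥ v) ⬝ᵥ (Y *ᵥ v) = c * t * star c + star a * b ∧
    star (Y *ᵥ v) ⬝ᵥ (X *ᵥ v) = c * t' * star c + star b * a ∧
    (P * (X * Y - Y * X)).trace = t - t' := by
  obtain ⟨l, hl, hll⟩ := h.exists_vec
  have eP : ∀ x, P *ᵥ x = (star l ⬝ᵥ x) • l := by
    intro x
    rw [hl, vecMulVec_mulVec]
    ext i
    simp [mul_comm]
  have eL : ∀ A : Matrix (Fin N) (Fin N) ℂ, ∀ x y, star x ⬝ᵥ (A *ᵥ y) =
      star (A.conjTranspose *ᵥ x) ⬝ᵥ y := by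
    intro A x y
    rw [star_mulVec, conjTranspose_conjTranspose, ← dotProduct_mulVec]
  have eS : ∀ x y : Fin N → ℂ, star x ⬝ᵥ y = star (star y ⬝ᵥ x) := by
    intro x y
    exact star_dotProduct x y
  have lX : star l ⬝ᵥ (X *ᵥ l) = 0 := by
    have h1 := congrArg (fun Z => star l ⬝ᵥ (Z *ᵥ l)) hX.off
    simp only [add_mulVec, ← mulVec_mulVec, eP, dotProduct_add, dotProduct_smul, mulVec_smul,
      smul_eq_mul, hll] at h1
    linear_combination -h1
  have lY : star l ⬝ᵥ (Y *ᵥ l) = 0 := by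
    have h1 := congrArg (fun Z => star l ⬝ᵥ (Z *ᵥ l)) hY.off
    simp only [add_mulVec, ← mulVec_mulVec, eP, dotProduct_add, dotProduct_smul, mulVec_smul,
      smul_eq_mul, hll] at h1
    linear_combination -h1
  have tX : ∀ x, X *ᵥ x = (star l ⬝ᵥ (X *ᵥ x)) • l + (star l ⬝ᵥ x) • (X *ᵥ l) := by
    intro x
    have h1 := congrArg (fun Z => Z *ᵥ x) hX.off
    simp only [add_mulVec, ← mulVec_mulVec, eP, mulVec_smul] at h1
    exact h1
  have tY : ∀ x, Y *ᵥ x = (star l ⬝ᵥ (Y *ᵥ x)) • l + (star l ⬝ᵥ x) • (Y *ᵥ l) := by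
    intro x
    have h1 := congrArg (fun Z => Z *ᵥ x) hY.off
    simp only [add_mulVec, ← mulVec_mulVec, eP, mulVec_smul] at h1
    exact h1
  have eX : ∀ x, star x ⬝ᵥ (X *ᵥ l) = star (star l ⬝ᵥ (X *ᵥ x)) := by
    intro x
    rw [eL, hX.herm, eS]
  have eY : ∀ x, star x ⬝ᵥ (Y *ᵥ l) = star (star l ⬝ᵥ (Y *ᵥ x)) := by
    intro x
    rw [eL, hY.herm, eS]
  have trl : ∀ A : Matrix (Fin N) (Fin N) ℂ, (P * A).trace = star l ⬝ᵥ (A *ᵥ l) := by
    intro A
    rw [hl, trace_mul_comm, mul_vecMulVec, trace_vecMulVec, dotProduct_comm]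
  refine ⟨star v ⬝ᵥ l, star l ⬝ᵥ w, star l ⬝ᵥ (X *ᵥ v), star l ⬝ᵥ (Y *ᵥ v), star l ⬝ᵥ (X *ᵥ w),
    star l ⬝ᵥ (Y *ᵥ w), star (X *ᵥ l) ⬝ᵥ (Y *ᵥ l), star (Y *ᵥ l) ⬝ᵥ (X *ᵥ l), ?_, ?_, ?_, ?_, ?_,
    ?_, ?_, ?_, ?_, ?_⟩
  · rw [eP, star_smul, smul_dotProduct, dotProduct_smul, hll, ← eS v l, ← eS l v]
    simp [mul_comm]
  · rw [eP, star_smul, smul_dotProduct, dotProduct_smul, hll]
    simp
  · rw [eP, dotProduct_smul, smul_eq_mul, mul_comm]
  · rw [eP, star_smul, smul_dotProduct, ← eS v l, smul_eq_mul]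
  · rw [eP, star_smul, smul_dotProduct, ← eS v l, smul_eq_mul]
  · rw [eP, star_smul, smul_dotProduct, smul_eq_mul]
  · rw [tX w, dotProduct_add, dotProduct_smul, dotProduct_smul, eX, smul_eq_mul, smul_eq_mul]
    simp only [dotProduct_add, dotProduct_smul, hll, lX, smul_eq_mul]
    ring
  · rw [tX v, tY v]
    simp only [star_add, star_smul, add_dotProduct, dotProduct_add, smul_dotProduct,
      dotProduct_smul, smul_eq_mul, hll, lX, lY, ← eS v l]
    have h2 : star (X *ᵥ l) ⬝ᵥ l = 0 := by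
      rw [eS, lX, star_zero]
    rw [h2, ← eS l v]
    simp only [mul_one, mul_zero, star_zero, add_zero, zero_add]
    ring
  · rw [tX v, tY v]
    simp only [star_add, star_smul, add_dotProduct, dotProduct_add, smul_dotProduct,
      dotProduct_smul, smul_eq_mul, hll, lX, lY, ← eS v l]
    have h2 : star (Y *ᵥ l) ⬝ᵥ l = 0 := by
      rw [eS, lY, star_zero]
    rw [h2, ← eS l v]
    simp only [mul_one, mul_zero, star_zero, add_zero, zero_add]
    ring
  · rw [trl, sub_mulVec, dotProduct_sub, ← mulVec_mulVec, ← mulVec_mulVec, eL X l (Y *ᵥ l),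
      eL Y l (X *ᵥ l), hX.herm, hY.herm]


/-- change of the frame. -/
theorem change {P Y : Matrix (Fin N) (Fin N) ℂ} (h : IsP P) (hY : IsT P Y)
    (v w : Fin N → ℂ) {μ ν : ℝ} (hμ : μ = (star (P *ᵥ v) ⬝ᵥ (P *ᵥ v)).re)
    (hν : ν = (star (P *ᵥ w) ⬝ᵥ (P *ᵥ w)).re) :
    μ * (star (P *ᵥ w) ⬝ᵥ (Y *ᵥ w)).im - ν * (star (P *ᵥ v) ⬝ᵥ (Y *ᵥ v)).im =
      ((star v ⬝ᵥ (Y *ᵥ w)) * star (star v ⬝ᵥ (P *ᵥ w))).im ∧
      normSq (star v ⬝ᵥ (P *ᵥ w)) = μ * ν := by
  obtain ⟨c, d, a, b, a', b', t, t', h1, h2, h3, h4, h5, h6, h7, -⟩ := key h hY hY v w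
  rw [h3, h4, h6, h7, hμ, hν, h1, h2]
  constructor
  · simp only [RCLike.star_def, mul_re, mul_im, map_mul, add_re, add_im, conj_re, conj_im]
    ring
  · rw [normSq_mul]
    simp only [RCLike.star_def, mul_re, conj_re, conj_im, normSq_apply]
    ring

end Alg

end

end Crest.Agent.R235.Integ_984
end

-- ▼ part R235/LTwLd_774

/-!
Row 235, helper774, L-twist: a complex line bundle `p` of `ℂ^N` (`IsLine p`) as the real data
`LD 4 M N` of `LTwB_453`.
-/

set_option autoImplicit false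
set_option maxSynthPendingDepth 3

open Matrix Complex
open scoped Manifold ContDiff Topology

universe u

namespace Crest.Agent.R235.LTwLd_774

open Crest.Agent.R235.LTw_453 Crest.Agent.R235.Integ_984 Crest.Agent.R240

noncomputable section

variable {N : ℕ}

/-- rank one. -/
theorem rk {P : Matrix (Fin N) (Fin N) ℂ} (h : IsP P) (k l m : Fin N) :
    P k m * P m l = P m m * P k l := by
  obtain ⟨v, hv, -⟩ := h.exists_vec
  rw [hv]
  simp only [vecMulVec_apply]
  ring

theorem hm {P : Matrix (Fin N) (Fin N) ℂ} (h : IsP P) (k l : Fin N) :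
    P k l = star (P l k) := by
  have := congrFun (congrFun h.herm k) l
  rw [← this]
  rfl

theorem re_hm {P : Matrix (Fin N) (Fin N) ℂ} (h : IsP P) (k l : Fin N) :
    (P k l).re = (P l k).re := by
  rw [hm h k l]; simp

theorem im_hm {P : Matrix (Fin N) (Fin N) ℂ} (h : IsP P) (k l : Fin N) :
    (P k l).im = - (P l k).im := by
  rw [hm h k l]; simp

theorem im_diag {P : Matrix (Fin N) (Fin N) ℂ} (h : IsP P) (k : Fin N) : (P k k).im = 0 := by
  have := im_hm h k k
  linarith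

variable {M : Type u} [TopologicalSpace M] [T2Space M] [CompactSpace M]
  [ChartedSpace E4 M] [IsManifold 𝓘(ℝ, E4) ∞ M]

theorem isP {p : M → Matrix (Fin N) (Fin N) ℂ} (hp : IsLine p) (x : M) : IsP (p x) :=
  ⟨hp.idem x, hp.herm x, hp.rank x⟩

/-- **the line bundle `p` as real data.** -/
def ldOf (p : M → Matrix (Fin N) (Fin N) ℂ) (hp : IsLine p) : LD 4 M N where
  r a b z := (p z a b).re
  s a b z := (p z a b).im
  smr a b := Complex.reCLM.contDiff.contMDiff.comp (hp.smooth a b)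
  sms a b := Complex.imCLM.contDiff.contMDiff.comp (hp.smooth a b)
  symr a b z := re_hm (isP hp z) a b
  skews a b z := im_hm (isP hp z) a b
  tr z := by
    have h := congrArg Complex.re (hp.rank z)
    rw [Matrix.trace, Complex.re_sum] at h
    simpa using h
  rk1 k l m z := by
    have h := congrArg Complex.re (rk (isP hp z) k l m)
    have h1 := im_diag (isP hp z) m
    rw [Complex.mul_re, Complex.mul_re, h1, re_hm (isP hp z) m l, im_hm (isP hp z) m l] at h
    linarith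
  rk2 k l m z := by
    have h := congrArg Complex.im (rk (isP hp z) k l m)
    have h1 := im_diag (isP hp z) m
    rw [Complex.mul_im, Complex.mul_im, h1, re_hm (isP hp z) m l, im_hm (isP hp z) m l] at h
    linarith

@[simp] theorem ldOf_r (p : M → Matrix (Fin N) (Fin N) ℂ) (hp : IsLine p) (a b : Fin N) (z : M) :
    (ldOf p hp).r a b z = (p z a b).re := rfl

@[simp] theorem ldOf_s (p : M → Matrix (Fin N) (Fin N) ℂ) (hp : IsLine p) (a b : Fin N) (z : M) :
    (ldOf p hp).s a b z = (p z a b).im := rfl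

end

end Crest.Agent.R235.LTwLd_774
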