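import Mathlib

/-!
Row 235 (S0364), SW-TAU (helper483), part A: pointwise algebra of a rank one hermitian projection
and of the curvature identity
`d⟨∇_A α, b⟩ = F_A ⟨α, b⟩ - ⟨∇_A α ∧ ∇_A b⟩`, `F_A = tr (p [dp, dp]) + i da`.
-/

set_option autoImplicit false

open Matrix Complex
open scoped ComplexOrder

namespace Crest.Agent.R235.Tau483

noncomputable section

variable {ι : Type*} [Fintype ι]

/-- the hermitian product, linear in the first entry. -/
def hp (a b : ι → ℂ) : ℂ := a ⬝ᵥ star b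

theorem hp_add_left (a a' b : ι → ℂ) : hp (a + a') b = hp a b + hp a' b :=
  add_dotProduct _ _ _

theorem hp_add_right (a b b' : ι → ℂ) : hp a (b + b') = hp a b + hp a b' := by
  unfold hp; rw [star_add, dotProduct_add]

theorem hp_smul_left (c : ℂ) (a b : ι → ℂ) : hp (c • a) b = c * hp a b := by
  unfold hp; rw [smul_dotProduct, smul_eq_mul]

theorem hp_smul_right (c : ℂ) (a b : ι → ℂ) : hp a (c • b) = star c * hp a b := by
  unfold hp; rw [star_smul, dotProduct_smul, smul_eq_mul]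

theorem hp_sub_left (a a' b : ι → ℂ) : hp (a - a') b = hp a b - hp a' b :=
  sub_dotProduct _ _ _

theorem hp_sub_right (a b b' : ι → ℂ) : hp a (b - b') = hp a b - hp a b' := by
  unfold hp; rw [star_sub, dotProduct_sub]



@[simp] theorem hp_zero_left (b : ι → ℂ) : hp 0 b = 0 := zero_dotProduct _

@[simp] theorem hp_zero_right (b : ι → ℂ) : hp b 0 = 0 := by
  unfold hp; rw [star_zero, dotProduct_zero]

theorem hp_conj (a b : ι → ℂ) : star (hp a b) = hp b a := by
  unfold hp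
  rw [← star_dotProduct_star, star_star]

theorem hp_mulVec (A : Matrix ι ι ℂ) (a b : ι → ℂ) :
    hp (A *ᵥ a) b = hp a (Aᴴ *ᵥ b) := by
  unfold hp
  rw [star_mulVec, conjTranspose_conjTranspose, dotProduct_comm (A *ᵥ a), dotProduct_mulVec,
    dotProduct_comm]

theorem hp_self (a : ι → ℂ) : hp a a = ((∑ j, normSq (a j) : ℝ) : ℂ) := by
  unfold hp dotProduct
  push_cast
  refine Finset.sum_congr rfl fun j _ => ?_
  rw [Pi.star_apply, normSq_eq_conj_mul_self, mul_comm]
  rfl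

theorem hp_self_ne {a : ι → ℂ} (h : a ≠ 0) : hp a a ≠ 0 := by
  rw [hp_self]
  intro h0
  apply h
  have h1 : ∑ j, normSq (a j) = 0 := by exact_mod_cast h0
  have h2 := (Finset.sum_eq_zero_iff_of_nonneg (fun j _ => normSq_nonneg (a j))).1 h1
  funext j
  exact normSq_eq_zero.1 (h2 j (Finset.mem_univ j))

theorem star_hp_self (a : ι → ℂ) : star (hp a a) = hp a a := hp_conj a a

/-! ### rank one projections -/

/-- `p` is a rank one hermitian projection. -/
structure R1 (p : Matrix ι ι ℂ) : Prop where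
  idem : p * p = p
  herm : pᴴ = p
  rank : p.trace = 1

theorem R1.eq_of_mulVec {p : Matrix ι ι ℂ} (hp' : R1 p) {α : ι → ℂ}
    (hα : p *ᵥ α = α) (h0 : α ≠ 0) : p = (hp α α)⁻¹ • vecMulVec α (star α) := by
  set n := hp α α with hn
  have hn0 : n ≠ 0 := hp_self_ne h0
  set q := n⁻¹ • vecMulVec α (star α) with hq
  have hdot : star α ⬝ᵥ α = n := by rw [dotProduct_comm]; rfl
  have hpq : p * q = q := by
    rw [hq, Matrix.mul_smul, mul_vecMulVec, hα]
  have hqh : qᴴ = q := by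
    rw [hq, conjTranspose_smul, conjTranspose_vecMulVec]
    congr 1
    · rw [star_inv₀, hn, star_hp_self]
    · rw [star_star]
  have hqp : q * p = q := by
    have := congrArg conjTranspose hpq
    rwa [conjTranspose_mul, hqh, hp'.herm] at this
  have hqq : q * q = q := by
    rw [hq, Matrix.smul_mul, Matrix.mul_smul, vecMulVec_mul_vecMulVec, hdot]
    rw [smul_smul, vecMulVec_smul, smul_smul]
    congr 1
    field_simp
  have htr : (p - q).trace = 0 := by
    rw [trace_sub, hp'.rank, hq, trace_smul, trace_vecMulVec]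
    have : α ⬝ᵥ star α = n := rfl
    rw [this, smul_eq_mul, inv_mul_cancel₀ hn0, sub_self]
  have h1 : (p - q)ᴴ * (p - q) = p - q := by
    rw [conjTranspose_sub, hp'.herm, hqh, Matrix.sub_mul, Matrix.mul_sub, Matrix.mul_sub,
      hp'.idem, hpq, hqp, hqq]
    abel
  have h2 : p - q = 0 := by
    rw [← trace_conjTranspose_mul_self_eq_zero_iff, h1, htr]
  exact sub_eq_zero.1 h2

/-- `⟨X α, b⟩ = tr (p X) ⟨α, b⟩` for `α, b` in the line `p`. -/
theorem R1.hp_trace {p : Matrix ι ι ℂ} (h : R1 p) {α b : ι → ℂ}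
    (hα : p *ᵥ α = α) (hb : p *ᵥ b = b) (X : Matrix ι ι ℂ) :
    hp (X *ᵥ α) b = (p * X).trace * hp α b := by
  by_cases h0 : α = 0
  · subst h0
    simp
  set n := hp α α with hn
  have hn0 : n ≠ 0 := hp_self_ne h0
  have hpe := h.eq_of_mulVec hα h0
  rw [← hn] at hpe
  have hb' : b = (n⁻¹ * (star α ⬝ᵥ b)) • α := by
    conv_lhs => rw [← hb, hpe]
    rw [smul_mulVec, vecMulVec_mulVec, op_smul_eq_smul, smul_smul]
  have htr : (p * X).trace = n⁻¹ * hp (X *ᵥ α) α := by
    rw [hpe, Matrix.smul_mul, trace_smul, smul_eq_mul, vecMulVec_mul, trace_vecMulVec]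
    congr 1
    unfold hp
    rw [dotProduct_comm, ← dotProduct_mulVec, dotProduct_comm]
  rw [htr]
  conv_lhs => rw [hb']
  conv_rhs => rw [hb']
  rw [hp_smul_right, hp_smul_right, ← hn]
  field_simp

/-! ### the pointwise curvature identity -/

/-- the pointwise identity. -/
theorem curv_alg {p P Q : Matrix ι ι ℂ} (h : R1 p) (hP : P = P * p + p * P)
    (hQ : Q = Q * p + p * Q) (hPh : Pᴴ = P) (hQh : Qᴴ = Q) {α b αu αv bu bv : ι → ℂ}
    (hα : p *ᵥ α = α) (hb : p *ᵥ b = b) (hαu : αu = P *ᵥ α + p *ᵥ αu)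
    (hαv : αv = Q *ᵥ α + p *ᵥ αv) (hbu : bu = P *ᵥ b + p *ᵥ bu) (hbv : bv = Q *ᵥ b + p *ᵥ bv)
    (au av da : ℝ) :
    hp αv bu - hp αu bv + I * (av * (hp αu b + hp α bu) - au * (hp αv b + hp α bv))
        + I * da * hp α b
      = ((p * (P * Q - Q * P)).trace + I * da) * hp α b
        - (hp (p *ᵥ αu + (I * au) • α) (p *ᵥ bv + (I * av) • b)
          - hp (p *ᵥ αv + (I * av) • α) (p *ᵥ bu + (I * au) • b)) := by
  have pp : ∀ z : ι → ℂ, p *ᵥ (p *ᵥ z) = p *ᵥ z := fun z => by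
    rw [mulVec_mulVec, h.idem]
  -- `p P α = 0`
  have pP : p * P * p = 0 := by
    have h1 := congrArg (fun X => p * X * p) hP
    simp only [Matrix.mul_add, Matrix.add_mul] at h1
    have h2 : p * (P * p) * p = p * P * p := by
      rw [Matrix.mul_assoc, Matrix.mul_assoc P, h.idem, ← Matrix.mul_assoc]
    have h3 : p * (p * P) * p = p * P * p := by
      rw [← Matrix.mul_assoc p p, h.idem]
    rw [h2, h3] at h1
    have h4 : p * P * p + p * P * p - p * P * p = 0 := by
      rw [← h1]; exact sub_self _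
    simpa using h4
  have pQ : p * Q * p = 0 := by
    have h1 := congrArg (fun X => p * X * p) hQ
    simp only [Matrix.mul_add, Matrix.add_mul] at h1
    have h2 : p * (Q * p) * p = p * Q * p := by
      rw [Matrix.mul_assoc, Matrix.mul_assoc Q, h.idem, ← Matrix.mul_assoc]
    have h3 : p * (p * Q) * p = p * Q * p := by
      rw [← Matrix.mul_assoc p p, h.idem]
    rw [h2, h3] at h1
    have h4 : p * Q * p + p * Q * p - p * Q * p = 0 := by
      rw [← h1]; exact sub_self _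
    simpa using h4
  have pPa : ∀ z : ι → ℂ, p *ᵥ z = z → p *ᵥ (P *ᵥ z) = 0 := fun z hz => by
    conv_lhs => rw [← hz]
    rw [mulVec_mulVec, mulVec_mulVec, pP, zero_mulVec]
  have pQa : ∀ z : ι → ℂ, p *ᵥ z = z → p *ᵥ (Q *ᵥ z) = 0 := fun z hz => by
    conv_lhs => rw [← hz]
    rw [mulVec_mulVec, mulVec_mulVec, pQ, zero_mulVec]
  -- `⟨p x, y⟩ = ⟨p x, p y⟩ = ⟨x, p y⟩`
  have sy : ∀ x y : ι → ℂ, hp (p *ᵥ x) y = hp x (p *ᵥ y) := fun x y => by
    rw [hp_mulVec, h.herm]
  have e1 : ∀ x : ι → ℂ, hp (p *ᵥ x) b = hp x b := fun x => by rw [sy, hb]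
  have e2 : ∀ y : ι → ℂ, hp α (p *ᵥ y) = hp α y := fun y => by rw [← sy, hα]
  have e3 : ∀ x y : ι → ℂ, hp (p *ᵥ x) (p *ᵥ y) = hp (p *ᵥ x) y := fun x y => by
    rw [← sy, pp]
  -- splitting of `⟨αu, bv⟩`
  have s1 : hp αu bv = hp (P *ᵥ α) (Q *ᵥ b) + hp (p *ᵥ αu) bv := by
    conv_lhs => rw [hαu]
    rw [hp_add_left]
    congr 1
    conv_lhs => rw [hbv]
    rw [hp_add_right, ← sy, pPa α hα, hp_zero_left, add_zero]
  have s2 : hp αv bu = hp (Q *ᵥ α) (P *ᵥ b) + hp (p *ᵥ αv) bu := by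
    conv_lhs => rw [hαv]
    rw [hp_add_left]
    congr 1
    conv_lhs => rw [hbu]
    rw [hp_add_right, ← sy, pQa α hα, hp_zero_left, add_zero]
  have t1 : hp (P *ᵥ α) (Q *ᵥ b) = hp ((Q * P) *ᵥ α) b := by
    rw [← mulVec_mulVec, hp_mulVec Q, hQh]
  have t2 : hp (Q *ᵥ α) (P *ᵥ b) = hp ((P * Q) *ᵥ α) b := by
    rw [← mulVec_mulVec, hp_mulVec P, hPh]
  have t3 : hp ((P * Q) *ᵥ α) b - hp ((Q * P) *ᵥ α) b
      = (p * (P * Q - Q * P)).trace * hp α b := by
    rw [← hp_sub_left, ← sub_mulVec, h.hp_trace hα hb]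
  have si : star (I * (av : ℂ)) = - (I * av) := by
    rw [star_mul']; simp
  have si' : star (I * (au : ℂ)) = - (I * au) := by
    rw [star_mul']; simp
  rw [s1, s2, t1, t2]
  simp only [hp_add_left, hp_add_right, hp_smul_left, hp_smul_right, e1, e2, e3, si, si']
  linear_combination t3

end

end Crest.Agent.R235.Tau483
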