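import Crest.Agent.R235.Defs_837
import Crest.Agent.R235.TauB_483
import Crest.Agent.R235.RiemB_399

/-!
Row 235 (S0364), SW-TAU, leaf (JCAL) (helper129): calculus of families of functions and forms on `M`,
smooth jointly in the parameter `t ∈ E3 \ 0` and the point.

* `JF f`, `J1 θ`, `J2 Φ` : joint smoothness of families of functions, one-forms, two-forms;
* closure properties, `dF`, `dG`, `wedG`, `flG`, `qG`;
* `sl` : the slices are smooth; `chern` : the Chern forms of a jointly smooth family of line bundles;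
* joint continuity, bounds for `‖t‖ = 1`.
-/

set_option autoImplicit false
set_option maxSynthPendingDepth 3
set_option linter.unusedSectionVars false

open Set Function Filter Bundle
open scoped Manifold ContDiff Topology

universe u

namespace Crest.Agent.R235.TauJ

open Crest.Agent.R240 Crest.Agent.R240.Ch Crest.Agent.R235 Crest.Agent.R235.Tau483

noncomputable section

variable {M : Type u} [TopologicalSpace M] [ChartedSpace E4 M] [IsManifold 𝓘(ℝ, E4) ∞ M]

/-! ### smoothness on `E3 × E4` -/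

section Flat

variable {G : Type*} [NormedAddCommGroup G] [NormedSpace ℝ G]

theorem contDiffOn_ent {f : G → Bil} {s : Set G} (hf : ContDiffOn ℝ ∞ f s)
    (i j : Fin 4) : ContDiffOn ℝ ∞ (fun y => ent (f y) i j) s :=
  (hf.clm_apply contDiffOn_const).clm_apply contDiffOn_const

theorem contDiffOn_W {f g : G → Bil} {s : Set G} (hf : ContDiffOn ℝ ∞ f s)
    (hg : ContDiffOn ℝ ∞ g s) : ContDiffOn ℝ ∞ (fun y => W (f y) (g y)) s := by
  have hf' := contDiffOn_ent hf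
  have hg' := contDiffOn_ent hg
  unfold W
  exact (((((((hf' _ _).mul (hg' _ _)).sub ((hf' _ _).mul (hg' _ _))).add
    ((hf' _ _).mul (hg' _ _))).add ((hf' _ _).mul (hg' _ _))).sub
    ((hf' _ _).mul (hg' _ _))).add ((hf' _ _).mul (hg' _ _)))

theorem contDiffOn_wed {f g : G → E4 →L[ℝ] ℝ} {s : Set G} (hf : ContDiffOn ℝ ∞ f s)
    (hg : ContDiffOn ℝ ∞ g s) : ContDiffOn ℝ ∞ (fun y => wed (f y) (g y)) s := by
  unfold wed
  exact (hf.smulRight hg).sub (hg.smulRight hf)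

/-- partial derivative of a jointly smooth map. -/
theorem contDiffOn_partial {F : Type*} [NormedAddCommGroup F] [NormedSpace ℝ F]
    {f : E3 × E4 → F} {s : Set (E3 × E4)} (hs : IsOpen s) (hf : ContDiffOn ℝ ∞ f s) :
    ContDiffOn ℝ ∞ (fun q : E3 × E4 => fderiv ℝ (fun y => f (q.1, y)) q.2) s := by
  have h1 : ContDiffOn ℝ ∞ (fderiv ℝ f) s := hf.fderiv_of_isOpen hs (by simp)
  have h2 : ContDiffOn ℝ ∞ (fun q : E3 × E4 =>
      (fderiv ℝ f q).comp (ContinuousLinearMap.inr ℝ E3 E4)) s :=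
    h1.clm_comp contDiffOn_const
  refine h2.congr fun q hq => ?_
  have hd : DifferentiableAt ℝ f (q.1, q.2) :=
    (hf.contDiffAt (hs.mem_nhds hq)).differentiableAt (by simp)
  have h3 : HasFDerivAt (fun y : E4 => ((q.1, y) : E3 × E4)) (ContinuousLinearMap.inr ℝ E3 E4) q.2 := by
    have := (hasFDerivAt_const q.1 q.2).prodMk (hasFDerivAt_id (𝕜 := ℝ) q.2)
    exact this
  exact (hd.hasFDerivAt.comp q.2 h3).fderiv

end Flat

/-- the domain of the chart at `p` with parameters. -/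
abbrev dm (p : M) : Set (E3 × E4) := {t : E3 | t ≠ 0} ×ˢ (chartAt E4 p).target

omit [IsManifold 𝓘(ℝ, E4) ∞ M] in
theorem isOpen_dm (p : M) : IsOpen (dm p) := isOpen_ne.prod (chartAt E4 p).open_target

/-! ### functions -/

/-- jointly smooth families of functions. -/
def JF (f : E3 → M → ℝ) : Prop :=
  ∀ p : M, ContDiffOn ℝ ∞ (fun q : E3 × E4 => f q.1 ((chartAt E4 p).symm q.2))
    ({t : E3 | t ≠ 0} ×ˢ (chartAt E4 p).target)

/-- jointly smooth families of one-forms. -/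
def J1 (θ : E3 → F1 E4 M) : Prop :=
  ∀ p : M, ContDiffOn ℝ ∞ (fun q : E3 × E4 => rep1 p (θ q.1) q.2)
    ({t : E3 | t ≠ 0} ×ˢ (chartAt E4 p).target)

/-- jointly smooth families of two-forms. -/
def J2 (Φ : E3 → F2 E4 M) : Prop :=
  (∀ t, t ≠ 0 → ∀ x v, at2 (Φ t) x v v = 0) ∧
    ∀ p : M, ContDiffOn ℝ ∞ (fun q : E3 × E4 => rep p (Φ q.1) q.2)
      ({t : E3 | t ≠ 0} ×ˢ (chartAt E4 p).target)

namespace JF

variable {f g : E3 → M → ℝ}

theorem of {f : M → ℝ} (hf : SmoothF E4 f) : JF fun _ => f := fun p =>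
  (hf p).comp contDiffOn_snd fun _ hq => hq.2

theorem param {g : E3 → ℝ} (hg : ContDiffOn ℝ ∞ g {t : E3 | t ≠ 0}) :
    JF fun t (_ : M) => g t := fun _ => hg.comp contDiffOn_fst fun _ hq => hq.1

theorem param' {g : E3 → ℝ} (hg : ContDiff ℝ ∞ g) : JF fun t (_ : M) => g t :=
  param hg.contDiffOn

theorem coord (i : Fin 3) : JF fun t (_ : M) => t i :=
  param' (EuclideanSpace.proj i : EuclideanSpace ℝ (Fin 3) →L[ℝ] ℝ).contDiff

theorem norm : JF fun t (_ : M) => ‖t‖ :=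
  param fun _ ht => (contDiffAt_norm ℝ ht).contDiffWithinAt

theorem const (c : ℝ) : JF fun _ (_ : M) => c := param' contDiff_const

theorem congr (hf : JF f) (h : ∀ t, t ≠ 0 → ∀ x, g t x = f t x) : JF g := fun p =>
  (hf p).congr fun q hq => h q.1 hq.1 _

theorem add (hf : JF f) (hg : JF g) : JF fun t x => f t x + g t x := fun p => (hf p).add (hg p)

theorem sub (hf : JF f) (hg : JF g) : JF fun t x => f t x - g t x := fun p => (hf p).sub (hg p)

theorem neg (hf : JF f) : JF fun t x => - f t x := fun p => (hf p).neg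

theorem mul (hf : JF f) (hg : JF g) : JF fun t x => f t x * g t x := fun p => (hf p).mul (hg p)

theorem cmul (c : ℝ) (hf : JF f) : JF fun t x => c * f t x := (const c).mul hf

theorem pow (hf : JF f) (n : ℕ) : JF fun t x => f t x ^ n := fun p => (hf p).pow n

theorem div (hf : JF f) (hg : JF g) (h0 : ∀ t, t ≠ 0 → ∀ x, g t x ≠ 0) :
    JF fun t x => f t x / g t x := fun p => (hf p).div (hg p) fun q hq => h0 q.1 hq.1 _

theorem inv (hf : JF f) (h0 : ∀ t, t ≠ 0 → ∀ x, f t x ≠ 0) : JF fun t x => (f t x)⁻¹ :=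
  fun p => (hf p).inv fun q hq => h0 q.1 hq.1 _

theorem sqrt (hf : JF f) (h0 : ∀ t, t ≠ 0 → ∀ x, f t x ≠ 0) : JF fun t x => √(f t x) :=
  fun p => (hf p).sqrt fun q hq => h0 q.1 hq.1 _

theorem rpow (hf : JF f) (r : ℝ) (h0 : ∀ t, t ≠ 0 → ∀ x, f t x ≠ 0) :
    JF fun t x => (f t x) ^ r :=
  fun p => (hf p).rpow_const_of_ne fun q hq => h0 q.1 hq.1 _

theorem sum {κ : Type*} (s : Finset κ) {f : κ → E3 → M → ℝ} (hf : ∀ a ∈ s, JF (f a)) :
    JF fun t x => ∑ a ∈ s, f a t x := fun p => ContDiffOn.sum fun a ha => hf a ha p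

theorem sum' {κ : Type*} [Fintype κ] {f : κ → E3 → M → ℝ} (hf : ∀ a, JF (f a)) :
    JF fun t x => ∑ a, f a t x := sum _ fun a _ => hf a


/-- the slices. -/
theorem sl (hf : JF f) {t : E3} (ht : t ≠ 0) : SmoothF E4 (f t) := fun p =>
  (hf p).comp (f := fun y : E4 => ((t, y) : E3 × E4))
    (contDiff_const.prodMk contDiff_id).contDiffOn fun _ hy => ⟨ht, hy⟩

end JF

/-! ### one-forms -/

namespace J1

variable {θ η : E3 → F1 E4 M}

theorem of {s : F1 E4 M} (hs : Smooth1 s) : J1 fun _ => s := fun p =>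
  (hs p).comp contDiffOn_snd fun _ hq => hq.2

theorem zero : J1 fun _ => (0 : F1 E4 M) := of smooth1_zero

theorem congr (hf : J1 θ) (h : ∀ t, t ≠ 0 → η t = θ t) : J1 η := fun p =>
  (hf p).congr fun q hq => by rw [h q.1 hq.1]

theorem add (hf : J1 θ) (hg : J1 η) : J1 fun t => θ t + η t := fun p => (hf p).add (hg p)

theorem sub (hf : J1 θ) (hg : J1 η) : J1 fun t => θ t - η t := fun p => (hf p).sub (hg p)

theorem neg (hf : J1 θ) : J1 fun t => - θ t := fun p => (hf p).neg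

theorem smul (c : ℝ) (hf : J1 θ) : J1 fun t => c • θ t := fun p => (hf p).const_smul c

theorem fmul1 {f : E3 → M → ℝ} (hf : JF f) (hθ : J1 θ) : J1 fun t => fmul1 (f t) (θ t) :=
  fun p => (hf p).smul (hθ p)

theorem sum {κ : Type*} (s : Finset κ) {θ : κ → E3 → F1 E4 M} (hf : ∀ a ∈ s, J1 (θ a)) :
    J1 fun t => ∑ a ∈ s, θ a t := by
  classical
  induction s using Finset.induction_on with
  | empty => exact zero.congr fun t _ => by simp
  | insert a s ha ih =>
    exact ((hf a (Finset.mem_insert_self _ _)).add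
      (ih fun b hb => hf b (Finset.mem_insert_of_mem hb))).congr fun t _ => by
        rw [Finset.sum_insert ha]

theorem sum' {κ : Type*} [Fintype κ] {θ : κ → E3 → F1 E4 M} (hf : ∀ a, J1 (θ a)) :
    J1 fun t => ∑ a, θ a t := sum _ fun a _ => hf a

/-- the slices. -/
theorem sl (hf : J1 θ) {t : E3} (ht : t ≠ 0) : Smooth1 (θ t) := fun p =>
  (hf p).comp (f := fun y : E4 => ((t, y) : E3 × E4))
    (contDiff_const.prodMk contDiff_id).contDiffOn fun _ hy => ⟨ht, hy⟩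

/-- the differential. -/
theorem dF {f : E3 → M → ℝ} (hf : JF f) : J1 fun t => dF (f t) := by
  intro p
  refine (contDiffOn_partial (isOpen_dm p) (hf p)).congr fun q hq => ?_
  exact rep1_dF (hf.sl hq.1) hq.2


end J1

/-! ### two-forms -/

namespace J2

variable {Φ Ψ : E3 → F2 E4 M}

theorem of {s : F2 E4 M} (hs : Smooth2 s) : J2 fun _ => s :=
  ⟨fun _ _ => hs.1, fun p => (hs.2 p).comp contDiffOn_snd fun _ hq => hq.2⟩

theorem zero : J2 fun _ => (0 : F2 E4 M) := of smooth2_zero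

theorem congr (hf : J2 Φ) (h : ∀ t, t ≠ 0 → Ψ t = Φ t) : J2 Ψ :=
  ⟨fun t ht => by rw [h t ht]; exact hf.1 _ ht, fun p =>
    (hf.2 p).congr fun q hq => by rw [h q.1 hq.1]⟩

theorem add (hf : J2 Φ) (hg : J2 Ψ) : J2 fun t => Φ t + Ψ t :=
  ⟨fun t ht x v => by
    have h : at2 (Φ t + Ψ t) x v v = at2 (Φ t) x v v + at2 (Ψ t) x v v := rfl
    rw [h, hf.1 t ht, hg.1 t ht, add_zero], fun p => (hf.2 p).add (hg.2 p)⟩

theorem smul (c : ℝ) (hf : J2 Φ) : J2 fun t => c • Φ t :=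
  ⟨fun t ht x v => by
    have h : at2 (c • Φ t) x v v = c * at2 (Φ t) x v v := rfl
    rw [h, hf.1 t ht, mul_zero], fun p => (hf.2 p).const_smul c⟩

theorem neg (hf : J2 Φ) : J2 fun t => - Φ t :=
  (hf.smul (-1)).congr fun t _ => by rw [neg_one_smul]

theorem sub (hf : J2 Φ) (hg : J2 Ψ) : J2 fun t => Φ t - Ψ t :=
  (hf.add hg.neg).congr fun _ _ => sub_eq_add_neg _ _

theorem fmul {f : E3 → M → ℝ} (hf : JF f) (hΦ : J2 Φ) : J2 fun t => fmul (f t) (Φ t) :=
  ⟨fun t ht x v => by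
    have h : at2 (Ch.fmul (f t) (Φ t)) x v v = f t x * at2 (Φ t) x v v := rfl
    rw [h, hΦ.1 t ht, mul_zero], fun p => (hf p).smul (hΦ.2 p)⟩

theorem sum {κ : Type*} (s : Finset κ) {Φ : κ → E3 → F2 E4 M} (hf : ∀ a ∈ s, J2 (Φ a)) :
    J2 fun t => ∑ a ∈ s, Φ a t := by
  classical
  induction s using Finset.induction_on with
  | empty => exact zero.congr fun t _ => by simp
  | insert a s ha ih =>
    exact ((hf a (Finset.mem_insert_self _ _)).add
      (ih fun b hb => hf b (Finset.mem_insert_of_mem hb))).congr fun t _ => by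
        rw [Finset.sum_insert ha]

theorem sum' {κ : Type*} [Fintype κ] {Φ : κ → E3 → F2 E4 M} (hf : ∀ a, J2 (Φ a)) :
    J2 fun t => ∑ a, Φ a t := sum _ fun a _ => hf a

/-- the slices. -/
theorem sl (hf : J2 Φ) {t : E3} (ht : t ≠ 0) : Smooth2 (Φ t) :=
  ⟨hf.1 t ht, fun p => (hf.2 p).comp (f := fun y : E4 => ((t, y) : E3 × E4))
    (contDiff_const.prodMk contDiff_id).contDiffOn fun _ hy => ⟨ht, hy⟩⟩

/-- wedge products. -/
theorem wedG {θ η : E3 → F1 E4 M} (hθ : J1 θ) (hη : J1 η) : J2 fun t => wedG (θ t) (η t) := by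
  refine ⟨fun t _ x v => ?_, fun p => ?_⟩
  · have h : at2 (Ch.wedG (θ t) (η t)) x v v =
        at1 (θ t) x v * at1 (η t) x v - at1 (η t) x v * at1 (θ t) x v := rfl
    rw [h]; ring
  · exact contDiffOn_wed (hθ p) (hη p)

/-- the exterior derivative. -/
theorem dG {θ : E3 → F1 E4 M} (hθ : J1 θ) : J2 fun t => dG (θ t) := by
  refine ⟨fun t ht => (Smooth2.dG (hθ.sl ht)).1, fun p => ?_⟩
  have h1 := contDiffOn_partial (isOpen_dm p) (hθ p)
  have h2 : ContDiffOn ℝ ∞ (fun q : E3 × E4 => fderiv ℝ (fun y => rep1 p (θ q.1) y) q.2 -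
      (fderiv ℝ (fun y => rep1 p (θ q.1) y) q.2).flip) (dm p) :=
    h1.sub ((ContinuousLinearMap.flipₗᵢ ℝ E4 E4 ℝ).contDiff.comp_contDiffOn h1)
  refine h2.congr fun q hq => ?_
  exact rep_dG (hθ.sl hq.1) hq.2

end J2

/-- the pairing (the form `F` may depend on the parameter). -/
theorem JF.qG {F Φ Ψ : E3 → F2 E4 M} (hF : J2 F)
    (hne : ∀ t, t ≠ 0 → ∀ x, W (at2 (F t) x) (at2 (F t) x) ≠ 0) (hb : J2 Φ) (hc : J2 Ψ) :
    JF fun t => qG (F t) (Φ t) (Ψ t) := by
  intro p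
  have h1 : ContDiffOn ℝ ∞ (fun q : E3 × E4 => W (rep p (Φ q.1) q.2) (rep p (Ψ q.1) q.2) /
      W (rep p (F q.1) q.2) (rep p (F q.1) q.2)) (dm p) := by
    apply (contDiffOn_W (hb.2 p) (hc.2 p)).div (contDiffOn_W (hF.2 p) (hF.2 p))
    intro z hz
    rw [Int.W_rep (hF.1 z.1 hz.1) (hF.1 z.1 hz.1)]
    exact mul_ne_zero (Int.det_tcc_ne (symm_mem hz.2)) (hne _ hz.1 _)
  refine h1.congr fun z hz => ?_
  have hd := Int.det_tcc_ne (symm_mem hz.2)
  show Ch.qG (F z.1) (Φ z.1) (Ψ z.1) ((chartAt E4 p).symm z.2) = _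
  unfold Ch.qG q
  rw [Int.W_rep (hb.1 z.1 hz.1) (hc.1 z.1 hz.1), Int.W_rep (hF.1 z.1 hz.1) (hF.1 z.1 hz.1),
    mul_div_mul_left _ _ hd]

/-- the pairing with a fixed nondegenerate form. -/
theorem JF.qG' {F : F2 E4 M} {Φ Ψ : E3 → F2 E4 M} (hF : Smooth2 F)
    (hne : ∀ x, W (at2 F x) (at2 F x) ≠ 0) (hb : J2 Φ) (hc : J2 Ψ) :
    JF fun t => Ch.qG F (Φ t) (Ψ t) := JF.qG (J2.of hF) (fun _ _ => hne) hb hc

/-! ### Chern forms -/

section Chern

variable {κ : Type*} [Fintype κ]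

/-- the Chern form, explicitly. -/
def chF (p : M → Matrix κ κ ℂ) : F2 E4 M :=
  ∑ i, ∑ j, ∑ k,
    (fmul (fun x => -(1 / (2 * Real.pi)) * (p x i j).re)
      (wedG (dF fun x => (p x j k).re) (dF fun x => (p x k i).im) +
        wedG (dF fun x => (p x j k).im) (dF fun x => (p x k i).re)) +
    fmul (fun x => -(1 / (2 * Real.pi)) * (p x i j).im)
      (wedG (dF fun x => (p x j k).re) (dF fun x => (p x k i).re) -
        wedG (dF fun x => (p x j k).im) (dF fun x => (p x k i).im)))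

theorem at2_sum {ι : Type*} (s : Finset ι) (f : ι → F2 E4 M) (x : M) (u v : E4) :
    at2 (∑ i ∈ s, f i) x u v = ∑ i ∈ s, at2 (f i) x u v := by
  classical
  induction s using Finset.induction_on with
  | empty => rfl
  | insert a s ha ih =>
    rw [Finset.sum_insert ha, Finset.sum_insert ha, ← ih]
    rfl

theorem chern_eq {p : M → Matrix κ κ ℂ} (hp : ∀ i j, SmC fun x => p x i j) {c : Z2 M}
    (hc : Ch0 p c) : (c.1.1 : F2 E4 M) = chF p := by
  funext x
  refine ContinuousLinearMap.ext fun u => ContinuousLinearMap.ext fun v => ?_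
  have h1 : (c.1.1 : F2 E4 M) x u v = val c x u v := rfl
  have h2 : chF p x u v = at2 (chF p) x u v := rfl
  rw [h1, h2, hc x u v]
  have e1 : (Complex.I / (2 * Real.pi)) *
      (p x * (dmt p x u * dmt p x v - dmt p x v * dmt p x u)).trace =
      ∑ i, ∑ j, ∑ k, (Complex.I / (2 * Real.pi)) *
        (p x i j * (dC (fun y => p y j k) x u * dC (fun y => p y k i) x v -
          dC (fun y => p y j k) x v * dC (fun y => p y k i) x u)) := by
    rw [Matrix.trace, Finset.mul_sum]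
    refine Finset.sum_congr rfl fun i _ => ?_
    rw [Matrix.diag_apply, Matrix.mul_apply, Finset.mul_sum]
    refine Finset.sum_congr rfl fun j _ => ?_
    rw [Matrix.sub_apply, Matrix.mul_apply, Matrix.mul_apply, ← Finset.sum_sub_distrib,
      Finset.mul_sum, Finset.mul_sum]
    rfl
  rw [e1]
  unfold chF
  simp only [at2_sum, Complex.re_sum]
  refine Finset.sum_congr rfl fun i _ => Finset.sum_congr rfl fun j _ =>
    Finset.sum_congr rfl fun k _ => ?_
  have r1 := dC_re (hp j k) x u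
  have r2 := dC_re (hp j k) x v
  have r3 := dC_re (hp k i) x u
  have r4 := dC_re (hp k i) x v
  have s1 := dC_im (hp j k) x u
  have s2 := dC_im (hp j k) x v
  have s3 := dC_im (hp k i) x u
  have s4 := dC_im (hp k i) x v
  have e2 : ∀ z : ℂ, ((Complex.I / (2 * Real.pi)) * z).re = -(1 / (2 * Real.pi)) * z.im := by
    intro z
    have h3 : Complex.I / (2 * Real.pi) = ((1 / (2 * Real.pi) : ℝ) : ℂ) * Complex.I := by
      push_cast; ring
    rw [h3, mul_assoc, Complex.re_ofReal_mul, Complex.I_mul_re]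
    ring
  rw [e2, Complex.mul_im, Complex.sub_re, Complex.sub_im, Complex.mul_re, Complex.mul_re,
    Complex.mul_im, Complex.mul_im, r1, r2, r3, r4, s1, s2, s3, s4]
  show _ = (-(1 / (2 * Real.pi)) * (p x i j).re) *
      ((at1 (dF (E := E4) fun x => (p x j k).re) x u * at1 (dF (E := E4) fun x => (p x k i).im) x v -
        at1 (dF (E := E4) fun x => (p x k i).im) x u * at1 (dF (E := E4) fun x => (p x j k).re) x v) +
      (at1 (dF (E := E4) fun x => (p x j k).im) x u * at1 (dF (E := E4) fun x => (p x k i).re) x v -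
        at1 (dF (E := E4) fun x => (p x k i).re) x u * at1 (dF (E := E4) fun x => (p x j k).im) x v)) +
    (-(1 / (2 * Real.pi)) * (p x i j).im) *
      ((at1 (dF (E := E4) fun x => (p x j k).re) x u * at1 (dF (E := E4) fun x => (p x k i).re) x v -
        at1 (dF (E := E4) fun x => (p x k i).re) x u * at1 (dF (E := E4) fun x => (p x j k).re) x v) -
      (at1 (dF (E := E4) fun x => (p x j k).im) x u * at1 (dF (E := E4) fun x => (p x k i).im) x v -
        at1 (dF (E := E4) fun x => (p x k i).im) x u * at1 (dF (E := E4) fun x => (p x j k).im) x v))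
  ring

theorem smC_iff {f : M → ℂ} : SmC f ↔ (SmoothF E4 fun x => (f x).re) ∧
    SmoothF E4 fun x => (f x).im := by
  refine ⟨fun h => ⟨h.re, h.im⟩, fun h => ?_⟩
  have h1 := (Ch.smoothF_iff _).2 h.1
  have h2 := (Ch.smoothF_iff _).2 h.2
  have h3 : ContMDiff 𝓘(ℝ, E4) 𝓘(ℝ, ℝ × ℝ) ∞ fun x => ((f x).re, (f x).im) :=
    h1.prodMk_space h2
  exact (Complex.equivRealProdCLM.symm.contDiff (n := ∞)).contMDiff.comp h3

/-- **Chern forms of a jointly smooth family.** -/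
theorem J2.chern {p : E3 → M → Matrix κ κ ℂ} (hre : ∀ i j, JF fun t x => (p t x i j).re)
    (him : ∀ i j, JF fun t x => (p t x i j).im) {c : E3 → Z2 M}
    (hc : ∀ t, t ≠ 0 → Ch0 (p t) (c t)) : J2 fun t => ((c t).1.1 : F2 E4 M) := by
  have h1 : J2 fun t => chF (p t) := by
    refine J2.sum' fun i => J2.sum' fun j => J2.sum' fun k => ?_
    exact (J2.fmul ((hre i j).cmul _) ((J2.wedG (J1.dF (hre j k)) (J1.dF (him k i))).add
      (J2.wedG (J1.dF (him j k)) (J1.dF (hre k i))))).add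
      (J2.fmul ((him i j).cmul _) ((J2.wedG (J1.dF (hre j k)) (J1.dF (hre k i))).sub
      (J2.wedG (J1.dF (him j k)) (J1.dF (him k i)))))
  refine h1.congr fun t ht => ?_
  exact chern_eq (fun i j => smC_iff.2 ⟨(hre i j).sl ht, (him i j).sl ht⟩) (hc t ht)

end Chern

/-! ### continuity and bounds -/

section Bound

variable {f : E3 → M → ℝ}

/-- joint continuity off `t = 0`. -/
theorem JF.cont (hf : JF f) : ContinuousOn (fun q : E3 × M => f q.1 q.2) {q | q.1 ≠ 0} := by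
  intro q hq
  have hs := mem_chart_source E4 q.2
  have h1 : ContinuousAt (fun z : E3 × E4 => f z.1 ((chartAt E4 q.2).symm z.2))
      (q.1, chartAt E4 q.2 q.2) :=
    ((hf q.2).continuousOn.continuousAt
      ((isOpen_dm q.2).mem_nhds ⟨hq, mem_chart_target E4 q.2⟩))
  have h2 : ContinuousAt (fun z : E3 × M => ((z.1, chartAt E4 q.2 z.2) : E3 × E4)) q :=
    continuousAt_fst.prodMk (((chartAt E4 q.2).continuousAt hs).comp continuousAt_snd)
  have h3 : ContinuousAt (fun z : E3 × M => f z.1 ((chartAt E4 q.2).symm (chartAt E4 q.2 z.2))) q :=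
    ContinuousAt.comp (f := fun z : E3 × M => ((z.1, chartAt E4 q.2 z.2) : E3 × E4)) h1 h2
  refine (h3.congr ?_).continuousWithinAt
  have h4 : ∀ᶠ z : E3 × M in 𝓝 q, z.2 ∈ (chartAt E4 q.2).source :=
    continuousAt_snd.eventually_mem ((chartAt E4 q.2).open_source.mem_nhds hs)
  filter_upwards [h4] with z hz
  rw [(chartAt E4 q.2).left_inv hz]

/-- joint continuity on the sphere. -/
theorem JF.contS (hf : JF f) : ContinuousOn (fun q : E3 × M => f q.1 q.2) {q | ‖q.1‖ = 1} :=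
  hf.cont.mono fun q hq => by
    intro h0
    have : ‖q.1‖ = 1 := hq
    rw [h0, norm_zero] at this
    exact zero_ne_one this

theorem isCompact_S [CompactSpace M] : IsCompact {q : E3 × M | ‖q.1‖ = 1} := by
  have h : {q : E3 × M | ‖q.1‖ = 1} = Metric.sphere (0 : E3) 1 ×ˢ (univ : Set M) := by
    ext q; simp
  rw [h]
  exact (isCompact_sphere _ _).prod isCompact_univ

/-- uniform bound on the sphere. -/
theorem JF.bound [CompactSpace M] (hf : JF f) :
    ∃ C, 0 ≤ C ∧ ∀ t, ‖t‖ = 1 → ∀ z, |f t z| ≤ C := by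
  obtain ⟨C, hC⟩ := isCompact_S.exists_bound_of_continuousOn hf.contS
  refine ⟨max C 0, le_max_right _ _, fun t ht z => ?_⟩
  exact (hC (t, z) ht).trans (le_max_left _ _)

/-- uniform positive lower bound on the sphere. -/
theorem JF.lower [CompactSpace M] (hf : JF f) (hpos : ∀ t, t ≠ 0 → ∀ x, 0 < f t x) :
    ∃ c, 0 < c ∧ ∀ t, ‖t‖ = 1 → ∀ z, c ≤ f t z := by
  have hne : ∀ t : E3, ‖t‖ = 1 → t ≠ 0 := fun t ht h0 => by simp [h0] at ht
  obtain ⟨C, hC0, hC⟩ := (hf.inv fun t ht x => (hpos t ht x).ne').bound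
  refine ⟨(C + 1)⁻¹, by positivity, fun t ht z => ?_⟩
  have h1 := hC t ht z
  have h2 := hpos t (hne t ht) z
  rw [abs_of_pos (inv_pos.2 h2)] at h1
  rw [inv_le_comm₀ (by positivity) h2]
  linarith


end Bound

/-! ### vector fields on a Riemannian manifold -/

section Riem

open Crest.Agent.R249.Vf281 Crest.Agent.R249.Tz2_805

variable [RiemannianBundle (fun x : M => TangentSpace 𝓘(ℝ, E4) x)]
  [IsContMDiffRiemannianBundle 𝓘(ℝ, E4) ∞ E4 (fun x : M => TangentSpace 𝓘(ℝ, E4) x)]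
  {θ : E3 → F1 E4 M} {Φ : E3 → F2 E4 M}

/-- evaluation on a vector field. -/
theorem JF.fld1 (hθ : J1 θ) {X : (x : M) → TangentSpace 𝓘(ℝ, E4) x} (hX : ∀ z, VSm 4 ∞ X z) :
    JF fun t x => at1 (θ t) x (X x) := by
  intro p
  have h1 : ContDiffOn ℝ ∞ (fun q : E3 × E4 => repV p (X : VF E4 M) q.2) (dm p) :=
    ((RiemB_399.smoothV_iff X).2 hX p).comp contDiffOn_snd fun _ hq => hq.2
  refine ((hθ p).clm_apply h1).congr fun q hq => ?_
  exact (rep1_repV hq.2 (θ q.1) (X : VF E4 M)).symm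


/-- contraction with a vector field. -/
theorem J1.ins (hΦ : J2 Φ) {X : (x : M) → TangentSpace 𝓘(ℝ, E4) x} (hX : ∀ z, VSm 4 ∞ X z) :
    J1 fun t => RiemB_399.flG (Φ t) X := by
  intro p
  have h1 : ContDiffOn ℝ ∞ (fun q : E3 × E4 => repV p (X : VF E4 M) q.2) (dm p) :=
    ((RiemB_399.smoothV_iff X).2 hX p).comp contDiffOn_snd fun _ hq => hq.2
  refine ((hΦ.2 p).clm_apply h1).congr fun q hq => ?_
  exact RiemB_399.rep1_flG (Φ q.1) X p hq.2

theorem flG_sum {κ : Type*} [Fintype κ] (g : F2 E4 M) (f : κ → M → ℝ)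
    (X : κ → (x : M) → TangentSpace 𝓘(ℝ, E4) x) :
    RiemB_399.flG g (fun x => ∑ A, f A x • X A x) =
      ∑ A, fmul1 (f A) (RiemB_399.flG g (X A)) := by
  funext x
  rw [Finset.sum_apply]
  have h2 : at2 g x (∑ A, f A x • X A x : TangentSpace 𝓘(ℝ, E4) x) =
      ∑ A, f A x • at2 g x (X A x) := by
    refine (map_sum (at2 g x) _ _).trans (Finset.sum_congr rfl fun A _ => ?_)
    exact map_smul (at2 g x) _ _
  exact h2

/-- **the flat of a jointly smooth family of vector fields.** -/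
theorem J1.flG {κ : Type*} [Fintype κ] {g : F2 E4 M} (hg : Riem_399.Met g)
    {f : κ → E3 → M → ℝ} (hf : ∀ A, JF (f A)) {X : κ → (x : M) → TangentSpace 𝓘(ℝ, E4) x}
    (hX : ∀ A z, VSm 4 ∞ (X A) z) :
    J1 fun t => RiemB_399.flG g (fun x => ∑ A, f A t x • X A x) := by
  refine (J1.sum' fun A => J1.fmul1 (hf A) (J1.of (RiemB_399.smooth1_flG hg (hX A)))).congr
    fun t _ => ?_
  exact flG_sum g (fun A => f A t) X

theorem PF_inner_le {κ : Type} [Fintype κ] (P : PF 4 M κ) (x : M) (v : TangentSpace 𝓘(ℝ, E4) x)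
    (A : κ) : |(inner ℝ (P.s A x) v : ℝ)| ≤ ‖v‖ := by
  have h1 : (inner ℝ v v : ℝ) = ∑ B, (inner ℝ (P.s B x) v : ℝ) ^ 2 := by
    have h2 : (inner ℝ (∑ B, (inner ℝ (P.s B x) v : ℝ) • P.s B x) v : ℝ) =
        ∑ B, (inner ℝ (P.s B x) v : ℝ) ^ 2 := by
      rw [sum_inner]
      exact Finset.sum_congr rfl fun B _ => by rw [real_inner_smul_left]; ring
    rw [← h2, P.pars x v]
  rw [real_inner_self_eq_norm_sq] at h1
  have h3 : (inner ℝ (P.s A x) v : ℝ) ^ 2 ≤ ‖v‖ ^ 2 := by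
    rw [h1]
    exact Finset.single_le_sum (f := fun B => (inner ℝ (P.s B x) v : ℝ) ^ 2)
      (fun B _ => sq_nonneg _) (Finset.mem_univ A)
  exact abs_le_of_sq_le_sq h3 (norm_nonneg _)

/-- **uniform bound of a jointly smooth family of one-forms.** -/
theorem J1.bound [CompactSpace M] [T2Space M] (hθ : J1 θ) : ∃ C, 0 ≤ C ∧ ∀ t, ‖t‖ = 1 →
    ∀ (z : M) (v : TangentSpace 𝓘(ℝ, E4) z), |at1 (θ t) z v| ≤ C * ‖v‖ := by
  obtain ⟨m, ⟨P⟩⟩ := exists_PF (n := 4) (M := M)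
  choose C hC0 hC using fun A => (JF.fld1 hθ (P.sm A)).bound
  refine ⟨∑ A, C A, Finset.sum_nonneg fun A _ => hC0 A, fun t ht z v => ?_⟩
  have h1 : at1 (θ t) z v = ∑ A, (inner ℝ (P.s A z) v : ℝ) * at1 (θ t) z (P.s A z) := by
    conv_lhs => rw [← P.pars z v]
    refine (map_sum (at1 (θ t) z) _ _).trans (Finset.sum_congr rfl fun A _ => ?_)
    exact map_smul (at1 (θ t) z) _ _
  rw [h1, Finset.sum_mul]
  refine (Finset.abs_sum_le_sum_abs _ _).trans (Finset.sum_le_sum fun A _ => ?_)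
  rw [abs_mul, mul_comm]
  exact mul_le_mul (hC A t ht z) (PF_inner_le P z v A) (abs_nonneg _) (hC0 A)

omit [RiemannianBundle (fun x : M => TangentSpace 𝓘(ℝ, E4) x)]
  [IsContMDiffRiemannianBundle 𝓘(ℝ, E4) ∞ E4 (fun x : M => TangentSpace 𝓘(ℝ, E4) x)] in
theorem clm_sum_smul {κ : Type*} [Fintype κ] (c : κ → ℝ) (L : κ → E4 →L[ℝ] ℝ) (v : E4) :
    (∑ A, c A • L A) v = ∑ A, c A * L A v := by simp

/-- **uniform bound of a jointly smooth family of two-forms.** -/
theorem J2.bound [CompactSpace M] [T2Space M] (hΦ : J2 Φ) : ∃ C, 0 ≤ C ∧ ∀ t, ‖t‖ = 1 →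
    ∀ (z : M) (u v : TangentSpace 𝓘(ℝ, E4) z), |at2 (Φ t) z u v| ≤ C * ‖u‖ * ‖v‖ := by
  obtain ⟨m, ⟨P⟩⟩ := exists_PF (n := 4) (M := M)
  choose C hC0 hC using fun A => (J1.ins hΦ (P.sm A)).bound
  refine ⟨∑ A, C A, Finset.sum_nonneg fun A _ => hC0 A, fun t ht z u v => ?_⟩
  have h1 : at2 (Φ t) z u v = ∑ A, (inner ℝ (P.s A z) u : ℝ) * at2 (Φ t) z (P.s A z) v := by
    conv_lhs => rw [← P.pars z u]
    have h2 : at2 (Φ t) z (∑ A, (inner ℝ (P.s A z) u : ℝ) • P.s A z :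
        TangentSpace 𝓘(ℝ, E4) z) = ∑ A, (inner ℝ (P.s A z) u : ℝ) • at2 (Φ t) z (P.s A z) := by
      refine (map_sum (at2 (Φ t) z) _ _).trans (Finset.sum_congr rfl fun A _ => ?_)
      exact map_smul (at2 (Φ t) z) _ _
    exact (congrArg (fun L : E4 →L[ℝ] ℝ => L v) h2).trans
      (clm_sum_smul (fun A => (inner ℝ (P.s A z) u : ℝ)) (fun A => at2 (Φ t) z (P.s A z)) v)
  rw [h1, Finset.sum_mul, Finset.sum_mul]
  refine (Finset.abs_sum_le_sum_abs _ _).trans (Finset.sum_le_sum fun A _ => ?_)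
  rw [abs_mul]
  have h3 := hC A t ht z v
  have h4 := PF_inner_le P z u A
  have h5 : |at2 (Φ t) z (P.s A z) v| ≤ C A * ‖v‖ := h3
  calc |(inner ℝ (P.s A z) u : ℝ)| * |at2 (Φ t) z (P.s A z) v|
      ≤ ‖u‖ * (C A * ‖v‖) := mul_le_mul h4 h5 (abs_nonneg _) (norm_nonneg _)
    _ = C A * ‖u‖ * ‖v‖ := by ring

/-- the dual vector fields are uniformly bounded. -/
theorem J1.shp_bound [CompactSpace M] [T2Space M] (hθ : J1 θ) : ∃ C, 0 ≤ C ∧ ∀ t, ‖t‖ = 1 →
    ∀ z : M, ‖RiemB_399.shp (θ t) z‖ ≤ C := by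
  obtain ⟨C, hC0, hC⟩ := hθ.bound
  refine ⟨C, hC0, fun t ht z => ?_⟩
  have h1 := hC t ht z (RiemB_399.shp (θ t) z)
  rw [← RiemB_399.inner_shp, real_inner_self_eq_norm_sq, abs_of_nonneg (sq_nonneg _)] at h1
  rcases eq_or_lt_of_le (norm_nonneg (RiemB_399.shp (θ t) z)) with h2 | h2
  · rw [← h2]; exact hC0
  · rw [sq] at h1
    exact le_of_mul_le_mul_right h1 h2

/-- the gradients are uniformly bounded. -/
theorem JF.mgrad_bound [CompactSpace M] [T2Space M] {f : E3 → M → ℝ} (hf : JF f) :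
    ∃ C, 0 ≤ C ∧ ∀ t, ‖t‖ = 1 →
    ∀ z : M, ‖Crest.Agent.R247.Bo84.mgrad 4 (f t) z‖ ≤ C := by
  obtain ⟨C, hC0, hC⟩ := (J1.dF hf).shp_bound
  refine ⟨C, hC0, fun t ht z => ?_⟩
  rw [RiemB_399.mgrad_eq]
  exact hC t ht z

end Riem

section Met

open Crest.Agent.R249.Tz805 Crest.Agent.R247.Ms322

variable {M : Type u} [MetricSpace M] [CompactSpace M]
  [ChartedSpace (EuclideanSpace ℝ (Fin 4)) M] [IsManifold (𝓡 4) ∞ M]
  [RiemannianBundle (fun p : M => TangentSpace (𝓡 4) p)]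
  [IsContMDiffRiemannianBundle (𝓡 4) ∞ (EuclideanSpace ℝ (Fin 4))
    (fun p : M => TangentSpace (𝓡 4) p)]
  [IsRiemannianManifold (𝓡 4) M] [MeasurableSpace M] [BorelSpace M]
  [SecondCountableTopology M] [Nonempty M]

theorem norm_toF (T : ToF 4 M) (z : M) (v : TangentSpace (𝓡 4) z) : ‖T.toF z v‖ = ‖v‖ := by
  have h := T.inner_toF z v v
  rw [real_inner_self_eq_norm_sq, real_inner_self_eq_norm_sq] at h
  exact (pow_left_inj₀ (norm_nonneg _) (norm_nonneg _) two_ne_zero).1 h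

/-- the gradients in the measurable frame are uniformly bounded. -/
theorem JF.Gr_bound (T : ToF 4 M) {f : E3 → M → ℝ} (hf : JF f) :
    ∃ C, 0 ≤ C ∧ ∀ t, ‖t‖ = 1 → ∀ z : M, ‖Gr (n := 4) (f t) z‖ ≤ C := by
  obtain ⟨C, hC0, hC⟩ := hf.mgrad_bound
  refine ⟨C, hC0, fun t ht z => ?_⟩
  have hne : t ≠ 0 := fun h0 => by simp [h0] at ht
  rw [← T.grad (f t) z ((RiemB_399.smoothF_iff _).1 (hf.sl hne)), norm_toF]
  exact hC t ht z

end Met

end

end Crest.Agent.R235.TauJ
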