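import Crest.Agent.R235.TauH_483
import Crest.Agent.R235.SWModel_53
import Crest.Agent.R235.SWJDefs_53
import Crest.Agent.R235.TauF_483
import Crest.Agent.R235.QSTri_451
import Crest.Agent.R235.SWGeo_659
import Crest.Agent.R235.SWTn_451
import Crest.Agent.R235.Ip_288
import Crest.Agent.R235.TauL_483
import Crest.Agent.R235.TauJ_129
import Crest.Agent.R235.SWData_451
import Crest.Agent.R235.HodgeEnd_194
import Crest.Agent.R235.IndTW_692
import Crest.Agent.R235.IndNum_692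
import Crest.Agent.R235.BPlus_723
import Crest.Agent.R235.MdlS_344
import Crest.Agent.R235.SwsL_755
import Crest.Agent.R235.SWTop_53
import Crest.Agent.R235.LTwLd_774

-- ▼ part R235/TauOK_692
section

/-!
Row 235 (S0364), package SW, model (helper692): `TD.OK` from the geometric facts and the second identity.

* `T2P τ S C`  : the second identity with the constant `C`;
* `ok_of`      : `S.OK`, `TG`, `TE`, `TC`, `WT`, harmonicity of `w_t`, `T2P` give `τ.OK S C`.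
-/

set_option autoImplicit false
set_option maxSynthPendingDepth 3
set_option linter.unusedSectionVars false

open scoped ContDiff ENNReal NNReal Topology Manifold Bundle RealInnerProductSpace
open MeasureTheory Set Filter Metric Bundle Matrix

universe v

namespace Crest.Agent.R235.TauOK_692

open Crest.Agent.R240 Crest.Agent.R240.Ch Crest.Agent.R240.Int Crest.Agent.R235.SWDefs_53
open Crest.Agent.R235.IndTri_451 Crest.Agent.R235.Tau483
open Crest.Agent.R249.Tv57 (Dat OpPair SmF Spec)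
open Crest.Agent.R247.Ms322 (Gr)
open Crest.Agent.R249.Tz805 (ToF)

noncomputable section

variable {M : Type v} [MetricSpace M] [CompactSpace M] [ConnectedSpace M]
  [ChartedSpace (EuclideanSpace ℝ (Fin 4)) M] [IsManifold (𝓡 4) ∞ M]
  [RiemannianBundle (fun p : M => TangentSpace (𝓡 4) p)]
  [IsContMDiffRiemannianBundle (𝓡 4) ∞ (EuclideanSpace ℝ (Fin 4))
    (fun p : M => TangentSpace (𝓡 4) p)]
  [IsRiemannianManifold (𝓡 4) M] [MeasurableSpace M] [BorelSpace M]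
  [SecondCountableTopology M] [Nonempty M]
  {κ0 κ1 κT : Type} [Fintype κ0] [Fintype κ1] [Fintype κT]

/-- the second identity of `TD.OK`. -/
def T2P (τ : TD M κT) (S : SWS M κ0 κ1 κT) (C : ℝ) : Prop :=
  ∀ (a : κT → M → ℝ) (s s' : κ0 → M → ℝ), Crest.Agent.R249.Tv57.SmV (n := 4) a → S.DT.Sec a →
    Crest.Agent.R249.Tv57.SmV (n := 4) s →
    Crest.Agent.R249.Tv57.SmV (n := 4) s' → τ.SecE S s → τ.SecE' S s' →
    |∫ z, (τ.rr z ^ (-(1 / 2) : ℝ) *
        (∑ x, (S.P.A (τ.sc (3 / 4) s) + S.cm a (τ.sc (3 / 4) s)) x z *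
          (S.P.A (τ.sc (3 / 4) s') + S.cm a (τ.sc (3 / 4) s')) x z) -
        τ.rr z * ∑ k, (S.H.B a k.succ z + τ.fE k z) * ∑ y, ∑ y', S.rho k y y' z * s y z * s' y' z)
      ∂(μHE[4] : Measure M)| ≤
    C * ∫ z, √(∑ y, ‖τ.nE S a s y z‖ ^ 2) * √(∑ y, s' y z ^ 2) ∂(μHE[4] : Measure M)

theorem T2P.mono {τ : TD M κT} {S : SWS M κ0 κ1 κT} {C C' : ℝ} (h : T2P τ S C) (hC : C ≤ C') :
    T2P τ S C' := by
  intro a s s' ha hsa hs hs' hE hE'
  refine (h a s s' ha hsa hs hs' hE hE').trans ?_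
  exact mul_le_mul_of_nonneg_right hC (integral_nonneg fun z =>
    mul_nonneg (Real.sqrt_nonneg _) (Real.sqrt_nonneg _))

section gl

variable [IsFiniteMeasureOnCompacts (μHE[4] : Measure M)]
  {τ : TD M κT} {S : SWS M κ0 κ1 κT} {T : ToF 4 M}
    {cc : κ1 → κ0 → (z : M) → TangentSpace (𝓡 4) z}
    {W : κ0 → κ0 → (z : M) → TangentSpace (𝓡 4) z}
    {sT : κT → (z : M) → TangentSpace (𝓡 4) z} {w : Trip M} {e : Fin 3 → F2 E4 M}
    {σ ι : ℝ} {Z : κ1 → κ0 → M → ℝ}

theorem smfE (hS : S.OK) (h : TG S T cc W sT w e σ ι) (ht : TE τ S T cc Z) {cE : Z2 M}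
    (hc : TC τ S W sT w e σ cE) (k : Fin 3) : ContMDiff (𝓡 4) 𝓘(ℝ, ℝ) ∞ (τ.fE k) := by
  have h1 : SmoothF E4 (fun z => q (at2 ((w 0).1.1 : F2 E4 M) z) (at2 (e k) z)
      (Phi cE (bF τ S W sT e) z)) := by
    have h2 : (fun z => q (at2 ((w 0).1.1 : F2 E4 M) z) (at2 (e k) z)
      (Phi cE (bF τ S W sT e) z)) = qG ((w 0).1.1 : F2 E4 M) (e k) (PhiF cE (bF τ S W sT e)) := by
      funext z
      unfold qG
      rw [at2_PhiF]
    rw [h2]
    exact Crest.Agent.R240.En4.smoothF_qG (w 0).1.2 h.tri.W_ne (h.tri.smooth k)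
      (smooth_PhiF cE (smooth_bF hS h ht))
  have h3 : τ.fE k = fun z => -2 * σ * q (at2 ((w 0).1.1 : F2 E4 M) z) (at2 (e k) z)
      (Phi cE (bF τ S W sT e) z) := funext fun z => hc.fE k z
  rw [h3]
  exact sm_mul (sm_const _) ((Crest.Agent.R240.Ch.smoothF_iff _).2 h1)

/-- **`TD.OK`**. -/
theorem ok_of (hS : S.OK) (h : TG S T cc W sT w e σ ι) (ht : TE τ S T cc Z) {wt : Z2 M}
    (hwt : WT τ e wt) {cE : Z2 M} (hc : TC τ S W sT w e σ cE)
    (harm : ∀ x z, S.H.A (Fin.cons (fun _ => 0) fun k z => τ.rr z * τ.n k z) x z = 0)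
    {C : ℝ} (h2 : T2P τ S C) : τ.OK S C where
  smrr := ht.smrr
  pos := ht.pos
  smn := ht.smn
  smsh := ht.smsh
  secsh := ht.secsh
  smfE := smfE hS h ht hc
  norm := ht.norm
  rsec k y y'' z := h.prho k y y'' z
  invol y y'' z := by
    have h1 := congrFun (congrFun (al_of hS h (n := nv τ z) z (ht.norm z)).R_sq y) y''
    rw [Matrix.mul_apply] at h1
    simp only [RR_apply] at h1
    exact h1
  harm := harm
  T1 a s ha hsa hs hE := t1 hS h ht hwt hc ha hsa hs hE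
  T2 := h2

end gl

end

end Crest.Agent.R235.TauOK_692
end

-- ▼ part R235/TauStar_734
section

/-!
Row 235 (S0364), SW-TAU, leaf STAR of #2443 (helper734): the pairing of `d (∑ a_A s_A)♭` with a
two-form is a pairing with the covariant derivative of `a`.
-/

set_option autoImplicit false
set_option maxSynthPendingDepth 3
set_option linter.unusedSectionVars false

open scoped ContDiff ENNReal NNReal Topology Manifold Bundle RealInnerProductSpace
open MeasureTheory Set Filter Metric Bundle Matrix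

universe v

namespace Crest.Agent.R235.TauStar_734

open Crest.Agent.R240 Crest.Agent.R240.Ch Crest.Agent.R235.SWDefs_53 Crest.Agent.R235.IndTri_451
open Crest.Agent.R235.Tau483
open Crest.Agent.R249.Tv57 (Dat OpPair SmF Spec)
open Crest.Agent.R247.Ms322 (Gr)
open Crest.Agent.R249.Vf281 (VSm mCov)
open Crest.Agent.R249.Tz805 (ToF)

noncomputable section

/-! ### linear algebra -/

theorem bil_sum (b : Bil) (c : Fin 4 → ℝ) (x : Fin 4 → E4) (v : E4) :
    b (∑ j, c j • x j) v = ∑ j, c j * b (x j) v := by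
  simp [Fin.sum_univ_four]

/-- the pairing `q` in a frame: `2 q(ψ,Φ) = ½ ∑ ψ(v_i,v_j) (⋆Φ)(v_i,v_j)`. -/
theorem q_star {g : Bil} {e : Fin 3 → Bil} {I : Fin 3 → E4 →L[ℝ] E4} {T : E4 →L[ℝ] E4}
    (H : Fr g e I T) (he : ∀ k, Alt (e k)) {ψ Φ : Bil} (hψ : Alt ψ) (hΦ : Alt Φ) :
    2 * q (e 0) ψ Φ = (1 / 2) * ∑ i, ∑ j, ψ (T (ee i)) (T (ee j)) *
      (2 * ∑ k, q (e 0) (e k) Φ * e k (T (ee i)) (T (ee j)) - Φ (T (ee i)) (T (ee j))) := by
  have h3 : W (e 0) (e 0) ≠ 0 := by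
    intro h0
    have h2 := H.det
    rw [h0, zero_mul] at h2
    exact two_ne_zero h2.symm
  have key : ∀ {b : Bil}, Alt b → W (pull T b) (pull T Φ) = 2 * q (e 0) b Φ := by
    intro b hb
    rw [W_pull hb hΦ]
    unfold q
    have h2 := H.det
    field_simp
    linear_combination (W b Φ) * h2
  have hψ' : Alt (pull T ψ) := fun v => by rw [pull_apply]; exact hψ _
  have hΦ' : Alt (pull T Φ) := fun v => by rw [pull_apply]; exact hΦ _
  have b1 : ∀ i j, ψ (T (ee i)) (T (ee j)) = ent (pull T ψ) i j := fun i j => (pull_apply _ _ _ _).symm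
  have b2 : ∀ i j, Φ (T (ee i)) (T (ee j)) = ent (pull T Φ) i j := fun i j => (pull_apply _ _ _ _).symm
  have k0 := key (he 0)
  have k1 := key (he 1)
  have k2 := key (he 2)
  have hk : ∀ k i j, ent (pull T (e k)) i j = e k (T (ee i)) (T (ee j)) :=
    fun k i j => pull_apply _ _ _ _
  rw [← key hψ]
  unfold W at k0 k1 k2 ⊢
  simp only [hk, H.e0, H.e1, H.e2, ee_apply] at k0 k1 k2
  simp at k0 k1 k2
  simp only [b1, b2, H.e0, H.e1, H.e2, ee_apply, Fin.sum_univ_four, Fin.sum_univ_three]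
  simp [hψ'.ent_swap 1 0, hψ'.ent_swap 2 0, hψ'.ent_swap 3 0, hψ'.ent_swap 2 1, hψ'.ent_swap 3 1,
    hψ'.ent_swap 3 2, hΦ'.ent_swap 1 0, hΦ'.ent_swap 2 0, hΦ'.ent_swap 3 0, hΦ'.ent_swap 2 1,
    hΦ'.ent_swap 3 1, hΦ'.ent_swap 3 2, hψ'.ent_self, hΦ'.ent_self]
  have c0 : q (e 0) (e 0) Φ = (ent (pull T Φ) 2 3 + ent (pull T Φ) 0 1) / 2 := by linarith
  have c1 : q (e 0) (e 1) Φ = (- ent (pull T Φ) 1 3 + ent (pull T Φ) 0 2) / 2 := by linarith
  have c2 : q (e 0) (e 2) Φ = (ent (pull T Φ) 1 2 + ent (pull T Φ) 0 3) / 2 := by linarith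
  rw [c0, c1, c2]
  ring

/-! ### the star of a two-form -/

section star

variable {M : Type v} [MetricSpace M] [CompactSpace M] [ConnectedSpace M]
  [ChartedSpace (EuclideanSpace ℝ (Fin 4)) M] [IsManifold (𝓡 4) ∞ M]
  [RiemannianBundle (fun p : M => TangentSpace (𝓡 4) p)]
  [IsContMDiffRiemannianBundle (𝓡 4) ∞ (EuclideanSpace ℝ (Fin 4))
    (fun p : M => TangentSpace (𝓡 4) p)]
  [IsRiemannianManifold (𝓡 4) M] [MeasurableSpace M] [BorelSpace M]
  [SecondCountableTopology M] [Nonempty M]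

/-- `∑ q(e_k, Φ) e_k`. -/
def pF (w0 : F2 E4 M) (e : Fin 3 → F2 E4 M) (Φ : F2 E4 M) : F2 E4 M :=
  fmul (qG w0 (e 0) Φ) (e 0) + fmul (qG w0 (e 1) Φ) (e 1) + fmul (qG w0 (e 2) Φ) (e 2)

/-- minus the star of `Φ`. -/
def nst (w0 : F2 E4 M) (e : Fin 3 → F2 E4 M) (Φ : F2 E4 M) : F2 E4 M :=
  Φ - pF w0 e Φ - pF w0 e Φ

theorem nst_apply (w0 : F2 E4 M) (e : Fin 3 → F2 E4 M) (Φ : F2 E4 M) (z : M) (u v : E4) :
    at2 (nst w0 e Φ) z u v =
      at2 Φ z u v - 2 * ∑ k, q (at2 w0 z) (at2 (e k) z) (at2 Φ z) * at2 (e k) z u v := by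
  have h1 : at2 (nst w0 e Φ) z u v = at2 Φ z u v -
      (qG w0 (e 0) Φ z * at2 (e 0) z u v + qG w0 (e 1) Φ z * at2 (e 1) z u v +
        qG w0 (e 2) Φ z * at2 (e 2) z u v) -
      (qG w0 (e 0) Φ z * at2 (e 0) z u v + qG w0 (e 1) Φ z * at2 (e 1) z u v +
        qG w0 (e 2) Φ z * at2 (e 2) z u v) := rfl
  rw [h1, Fin.sum_univ_three]
  unfold qG
  ring

theorem smooth_nst {w e : Fin 3 → F2 E4 M} (h : IsTri w e) {Φ : F2 E4 M} (hΦ : Smooth2 Φ) :
    Smooth2 (nst (w 0) e Φ) := by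
  have hw : Smooth2 (w 0) := h.e_zero ▸ h.smooth 0
  have hq : ∀ k, SmoothF E4 (qG (w 0) (e k) Φ) := fun k =>
    En4.smoothF_qG hw (fun x => h.W_ne x) (h.smooth k) hΦ
  have hp : Smooth2 (pF (w 0) e Φ) :=
    ((En4.smooth2_fmul (hq 0) (h.smooth 0)).add (En4.smooth2_fmul (hq 1) (h.smooth 1))).add
      (En4.smooth2_fmul (hq 2) (h.smooth 2))
  exact smooth2_sub (smooth2_sub hΦ hp) hp

theorem smooth1_flG' {b : F2 E4 M} (hb : Smooth2 b) {X : (x : M) → TangentSpace 𝓘(ℝ, E4) x}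
    (hX : ∀ z, VSm 4 ∞ X z) : Smooth1 (RiemB_399.flG b X) := by
  intro p
  have h1 : ContDiffOn ℝ ∞ (fun y => rep p b y (repV p (X : VF E4 M) y)) (chartAt E4 p).target :=
    (hb.2 p).clm_apply ((RiemB_399.smoothV_iff X).2 hX p)
  exact h1.congr fun y hy => RiemB_399.rep1_flG b X p hy

variable {κ0 κ1 κT : Type} [Fintype κ0] [Fintype κ1] [Fintype κT]
  [IsFiniteMeasureOnCompacts (μHE[4] : Measure M)]
  {S : SWS M κ0 κ1 κT} {T : ToF 4 M}
    {cc : κ1 → κ0 → (z : M) → TangentSpace (𝓡 4) z}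
    {W : κ0 → κ0 → (z : M) → TangentSpace (𝓡 4) z}
    {sT : κT → (z : M) → TangentSpace (𝓡 4) z} {w : Trip M} {e : Fin 3 → F2 E4 M}
    {σ ι : ℝ}

theorem VSm_fld (hsT : ∀ A z, VSm 4 ∞ (sT A) z) {a : κT → M → ℝ}
    (ha : Crest.Agent.R249.Tv57.SmV (n := 4) a) (z : M) : VSm 4 ∞ (fld sT a) z :=
  RiemB_399.VSm_sum fun A => VSm.smul le_rfl (ha A z) (hsT A z)

/-- **(STAR)** -/
theorem star_g (h : TG S T cc W sT w e σ ι) {Φ : F2 E4 M} (hΦ : Smooth2 Φ) :
    ∃ g : κT → M → EuclideanSpace ℝ (Fin 4), (∀ A, SmF (g A)) ∧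
      ∀ a : κT → M → ℝ, Crest.Agent.R249.Tv57.SmV (n := 4) a → S.DT.Sec a → ∀ z,
        ∑ A, ⟪S.DT.cv a A z, g A z⟫ =
          2 * q (at2 ((w 0).1.1 : F2 E4 M) z) (at2 (dG (RiemB_399.flG (gg e) (fld sT a))) z)
            (at2 Φ z) := by
  set N : F2 E4 M := nst ((w 0).1.1 : F2 E4 M) e Φ with hN
  have hNs : Smooth2 N := smooth_nst h.tri hΦ
  set Y : κT → (z : M) → TangentSpace (𝓡 4) z := fun A => RiemB_399.shp (RiemB_399.flG N (sT A))
    with hY
  refine ⟨fun A z => T.toF z (Y A z), fun A => T.smooth _ fun z =>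
    RiemB_399.VSm_shp (smooth1_flG' hNs (h.smsT A)) z, ?_⟩
  intro a ha hsec z
  have hYi : ∀ (A : κT) (v : TangentSpace (𝓡 4) z), inner ℝ (Y A z) v = at2 N z (sT A z) v := by
    intro A v
    exact RiemB_399.inner_shp _ _ _
  -- the matrix of the covariant derivative
  set m : Fin 4 → Fin 4 → ℝ := fun i j =>
    inner ℝ (mCov 4 (fld sT a) z (vf e z i)) (vf e z j) with hm
  set P : Fin 4 → Fin 4 → ℝ := fun i j => - at2 N z (vf e z i) (vf e z j) with hP
  have hPs : ∀ i j, P i j = - P j i := by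
    intro i j
    have := Alt.swap (hNs.1 z) (vf e z i : E4) (vf e z j)
    simp only [hP]
    linarith
  have hX : VSm 4 ∞ (fld sT a) z := VSm_fld h.smsT ha z
  have hψ : ∀ i j, at2 (dG (RiemB_399.flG (gg e) (fld sT a))) z (vf e z i) (vf e z j) =
      m i j - m j i := fun i j => RiemB_399.dG_mCov h.met (QSTri_451.met_gg h.tri) hX _ _
  -- right hand side
  have hr : 2 * q (at2 ((w 0).1.1 : F2 E4 M) z) (at2 (dG (RiemB_399.flG (gg e) (fld sT a))) z)
      (at2 Φ z) = ∑ i, ∑ j, P i j * m i j := by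
    have hal : Alt (at2 (dG (RiemB_399.flG (gg e) (fld sT a))) z) := by
      intro v
      have h1 := RiemB_399.dG_mCov h.met (QSTri_451.met_gg h.tri) hX
        (v : TangentSpace (𝓡 4) z) v
      exact h1.trans (sub_self _)
    have h1 := q_star (fr_of h.tri z) (fun k => (h.tri.smooth k).1 z) hal (hΦ.1 z)
    have e0 : at2 (e 0) z = at2 ((w 0).1.1 : F2 E4 M) z := by rw [h.tri.e_zero]
    rw [e0] at h1
    rw [h1, antisym hPs]
    congr 1
    refine Finset.sum_congr rfl fun i _ => Finset.sum_congr rfl fun j _ => ?_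
    rw [mul_comm (P i j)]
    refine congrArg₂ (· * ·) (hψ i j) ?_
    have h2 := nst_apply ((w 0).1.1 : F2 E4 M) e Φ z (vf e z i : E4) (vf e z j)
    simp only [hP, hN]
    show _ = - at2 (nst ((w 0).1.1 : F2 E4 M) e Φ) z (vf e z i) (vf e z j)
    rw [h2]
    simp only [vf]
    ring
  rw [hr]
  -- left hand side
  have hsA : ∀ (A : κT) (i : Fin 4), at2 N z (sT A z) (vf e z i) =
      ∑ j, (inner ℝ (sT A z) (vf e z j) : ℝ) * P i j := by
    intro A i
    have h1 := sum_vf h.tri h.met z (sT A z)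
    have h2 : at2 N z (sT A z) (vf e z i) =
        at2 N z (∑ j, (inner ℝ (vf e z j) (sT A z) : ℝ) • vf e z j : TangentSpace (𝓡 4) z)
          (vf e z i) := by rw [h1]
    rw [h2]
    have h3 : ∀ c : Fin 4 → ℝ, at2 N z ((∑ j, c j • vf e z j : TangentSpace (𝓡 4) z) : E4)
        (vf e z i) = ∑ j, c j * at2 N z (vf e z j) (vf e z i) := by
      intro c
      exact bil_sum (at2 N z) c (fun j => (vf e z j : E4)) (vf e z i)
    rw [h3]
    refine Finset.sum_congr rfl fun j _ => ?_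
    rw [real_inner_comm]
    congr 1
    have := Alt.swap (hNs.1 z) (vf e z i : E4) (vf e z j)
    simp only [hP]
    linarith
  have hl : ∀ A, ⟪S.DT.cv a A z, T.toF z (Y A z)⟫ =
      ∑ i, ∑ j, ⟪S.DT.cv a A z, T.toF z (vf e z i)⟫ *
        ((inner ℝ (sT A z) (vf e z j) : ℝ) * P i j) := by
    intro A
    rw [inner_toF_sum h.tri h.met T z]
    refine Finset.sum_congr rfl fun i _ => ?_
    rw [hYi, hsA, Finset.mul_sum]
  simp only [hl]
  rw [Finset.sum_comm]
  refine Finset.sum_congr rfl fun i _ => ?_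
  rw [Finset.sum_comm]
  refine Finset.sum_congr rfl fun j _ => ?_
  have h1 := h.cvT a ha hsec z (vf e z i) (vf e z j)
  simp only [hm]
  rw [← h1, Finset.mul_sum]
  exact Finset.sum_congr rfl fun A _ => by ring

end star

end

end Crest.Agent.R235.TauStar_734
end

-- ▼ part R235/TauT3_734
section

/-!
Row 235 (S0364), SW-TAU (helper734): the third identity `T3` and the topological term `top`.
-/

set_option autoImplicit false
set_option maxSynthPendingDepth 3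
set_option linter.unusedSectionVars false

open scoped ContDiff ENNReal NNReal Topology Manifold Bundle RealInnerProductSpace
open MeasureTheory Set Filter Metric Bundle Matrix

universe v

namespace Crest.Agent.R235.Tau483

open Crest.Agent.R240 Crest.Agent.R240.Ch Crest.Agent.R240.Int Crest.Agent.R235.SWDefs_53
open Crest.Agent.R235.IndTri_451
open Crest.Agent.R249.Tv57 (Dat OpPair SmF Spec)
open Crest.Agent.R247.Ms322 (Gr)
open Crest.Agent.R249.Vf281 (VSm mCov)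
open Crest.Agent.R247.Bo84 (mgrad inner_mgrad)
open Crest.Agent.R249.Tz805 (ToF)

noncomputable section

theorem dot_le_734 {κ : Type*} [Fintype κ] (x y : κ → ℝ) : |x ⬝ᵥ y| ≤ (x ⬝ᵥ x + y ⬝ᵥ y) / 2 := by
  have h1 : 0 ≤ ∑ i, (x i - y i) ^ 2 := Finset.sum_nonneg fun i _ => sq_nonneg _
  have h2 : 0 ≤ ∑ i, (x i + y i) ^ 2 := Finset.sum_nonneg fun i _ => sq_nonneg _
  have e1 : ∑ i, (x i - y i) ^ 2 = x ⬝ᵥ x + y ⬝ᵥ y - 2 * (x ⬝ᵥ y) := by
    simp only [dotProduct, Finset.mul_sum, ← Finset.sum_add_distrib, ← Finset.sum_sub_distrib]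
    exact Finset.sum_congr rfl fun i _ => by ring
  have e2 : ∑ i, (x i + y i) ^ 2 = x ⬝ᵥ x + y ⬝ᵥ y + 2 * (x ⬝ᵥ y) := by
    simp only [dotProduct, Finset.mul_sum, ← Finset.sum_add_distrib]
    exact Finset.sum_congr rfl fun i _ => by ring
  rw [abs_le]
  constructor <;> linarith

theorem ent_bound_734 {g : Bil} {e : Fin 3 → Bil} {I : Fin 3 → E4 →L[ℝ] E4} {T : E4 →L[ℝ] E4}
    (H : Fr g e I T) (k : Fin 3) (i j : Fin 4) : |e k (T (ee i)) (T (ee j))| ≤ 1 := by
  fin_cases k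
  · have h1 := H.e0 (ee i) (ee j)
    show |e 0 (T (ee i)) (T (ee j))| ≤ 1
    rw [h1]
    fin_cases i <;> fin_cases j <;> simp [ee_apply]
  · have h1 := H.e1 (ee i) (ee j)
    show |e 1 (T (ee i)) (T (ee j))| ≤ 1
    rw [h1]
    fin_cases i <;> fin_cases j <;> simp [ee_apply]
  · have h1 := H.e2 (ee i) (ee j)
    show |e 2 (T (ee i)) (T (ee j))| ≤ 1
    rw [h1]
    fin_cases i <;> fin_cases j <;> simp [ee_apply]

/-- the pairing in a frame: bound. -/
theorem q_bound_734 {g : Bil} {e : Fin 3 → Bil} {I : Fin 3 → E4 →L[ℝ] E4} {T : E4 →L[ℝ] E4}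
    (H : Fr g e I T) (he : ∀ k, Alt (e k)) {ψ Φ : Bil} (hψ : Alt ψ) (hΦ : Alt Φ) {B : ℝ}
    (hB : ∀ i j, |Φ (T (ee i)) (T (ee j))| ≤ B) {x : Fin 4 → ℝ}
    (hx : ∀ i j, |ψ (T (ee i)) (T (ee j))| ≤ x i + x j) :
    |2 * q (e 0) ψ Φ| ≤ 100 * B * ∑ i, x i := by
  have hq : ∀ k, |q (e 0) (e k) Φ| ≤ 4 * B := by
    intro k
    have h1 := q_frame H he k hΦ
    have h2 : |∑ i, ∑ j, e k (T (ee i)) (T (ee j)) * Φ (T (ee i)) (T (ee j))| ≤ 16 * B := by
      calc _ ≤ ∑ i : Fin 4, |∑ j, e k (T (ee i)) (T (ee j)) * Φ (T (ee i)) (T (ee j))| :=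
            Finset.abs_sum_le_sum_abs _ _
        _ ≤ ∑ i : Fin 4, ∑ j : Fin 4, |e k (T (ee i)) (T (ee j)) * Φ (T (ee i)) (T (ee j))| :=
            Finset.sum_le_sum fun i _ => Finset.abs_sum_le_sum_abs _ _
        _ ≤ ∑ i : Fin 4, ∑ j : Fin 4, B := by
            refine Finset.sum_le_sum fun i _ => Finset.sum_le_sum fun j _ => ?_
            rw [abs_mul]
            have a1 := ent_bound_734 H k i j
            have a2 := hB i j
            have a3 := abs_nonneg (Φ (T (ee i)) (T (ee j)))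
            nlinarith [abs_nonneg (e k (T (ee i)) (T (ee j)))]
        _ = 16 * B := by simp; ring
    rw [h1, abs_mul] at h2
    norm_num at h2
    linarith
  have hst : ∀ i j, |2 * ∑ k, q (e 0) (e k) Φ * e k (T (ee i)) (T (ee j)) -
      Φ (T (ee i)) (T (ee j))| ≤ 25 * B := by
    intro i j
    have h1 : |∑ k, q (e 0) (e k) Φ * e k (T (ee i)) (T (ee j))| ≤ 12 * B := by
      calc _ ≤ ∑ k : Fin 3, |q (e 0) (e k) Φ * e k (T (ee i)) (T (ee j))| :=
            Finset.abs_sum_le_sum_abs _ _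
        _ ≤ ∑ k : Fin 3, 4 * B := by
            refine Finset.sum_le_sum fun k _ => ?_
            rw [abs_mul]
            have a1 := ent_bound_734 H k i j
            have a2 := hq k
            nlinarith [abs_nonneg (q (e 0) (e k) Φ), abs_nonneg (e k (T (ee i)) (T (ee j)))]
        _ = 12 * B := by simp; ring
    have h2 := hB i j
    rw [abs_le] at h1 h2 ⊢
    constructor <;> linarith
  have h0 := TauStar_734.q_star H he hψ hΦ
  rw [h0, abs_mul]
  have h1 : |∑ i, ∑ j, ψ (T (ee i)) (T (ee j)) *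
      (2 * ∑ k, q (e 0) (e k) Φ * e k (T (ee i)) (T (ee j)) - Φ (T (ee i)) (T (ee j)))| ≤
      ∑ i, ∑ j, (x i + x j) * (25 * B) := by
    calc _ ≤ ∑ i : Fin 4, |∑ j, ψ (T (ee i)) (T (ee j)) *
      (2 * ∑ k, q (e 0) (e k) Φ * e k (T (ee i)) (T (ee j)) - Φ (T (ee i)) (T (ee j)))| :=
            Finset.abs_sum_le_sum_abs _ _
      _ ≤ ∑ i : Fin 4, ∑ j : Fin 4, |ψ (T (ee i)) (T (ee j)) *
      (2 * ∑ k, q (e 0) (e k) Φ * e k (T (ee i)) (T (ee j)) - Φ (T (ee i)) (T (ee j)))| :=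
            Finset.sum_le_sum fun i _ => Finset.abs_sum_le_sum_abs _ _
      _ ≤ _ := by
            refine Finset.sum_le_sum fun i _ => Finset.sum_le_sum fun j _ => ?_
            rw [abs_mul]
            exact mul_le_mul (hx i j) (hst i j) (abs_nonneg _) ((abs_nonneg _).trans (hx i j))
  have h2 : ∑ i, ∑ j, (x i + x j) * (25 * B) = 200 * B * ∑ i, x i := by
    simp only [Fin.sum_univ_four]
    ring
  rw [h2] at h1
  norm_num
  linarith

variable {M : Type v} [MetricSpace M] [CompactSpace M] [ConnectedSpace M]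
  [ChartedSpace (EuclideanSpace ℝ (Fin 4)) M] [IsManifold (𝓡 4) ∞ M]
  [RiemannianBundle (fun p : M => TangentSpace (𝓡 4) p)]
  [IsContMDiffRiemannianBundle (𝓡 4) ∞ (EuclideanSpace ℝ (Fin 4))
    (fun p : M => TangentSpace (𝓡 4) p)]
  [IsRiemannianManifold (𝓡 4) M] [MeasurableSpace M] [BorelSpace M]
  [SecondCountableTopology M] [Nonempty M]
  {κ0 κ1 κT : Type} [Fintype κ0] [Fintype κ1] [Fintype κT]
  [IsFiniteMeasureOnCompacts (μHE[4] : Measure M)]
  {τ : TD M κT} {S : SWS M κ0 κ1 κT} {T : ToF 4 M}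
    {cc : κ1 → κ0 → (z : M) → TangentSpace (𝓡 4) z}
    {W : κ0 → κ0 → (z : M) → TangentSpace (𝓡 4) z}
    {sT : κT → (z : M) → TangentSpace (𝓡 4) z} {w : Trip M} {e : Fin 3 → F2 E4 M}
    {σ ι : ℝ} {Z : κ1 → κ0 → M → ℝ}

/-- `Φ_0 = 2π c_E - dβ` is closed. -/
theorem closed_PhiF_734 (c : Z2 M) {a : F1 E4 M} (ha : Smooth1 a) : Closed2 (PhiF c a) :=
  ((2 * Real.pi) • c + (-1 : ℝ) • (⟨⟨dG a, Smooth2.dG ha⟩, Closed2.dG ha⟩ : Z2 M)).2

theorem norm_vf_734 (h : TG S T cc W sT w e σ ι) (z : M) (i : Fin 4) : ‖vf e z i‖ = 1 := by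
  have h1 := inner_vf h.tri h.met z i i
  rw [if_pos rfl, real_inner_self_eq_norm_sq] at h1
  have h2 := norm_nonneg (vf e z i)
  nlinarith

theorem smF_nE_734 (hS : S.OK) (ht : TE τ S T cc Z)
    {a : κT → M → ℝ} (ha : Crest.Agent.R249.Tv57.SmV (n := 4) a) {s : κ0 → M → ℝ}
    (hs : Crest.Agent.R249.Tv57.SmV (n := 4) s) (y : κ0) :
    SmF (fun z => τ.nE S a s y z) := by
  have hJ : ∀ y, ContMDiff (𝓡 4) 𝓘(ℝ, ℝ) ∞ fun z => ∑ y', S.J y y' z * s y' z := fun y =>
    contMDiff_finsetSum fun y' _ => (hS.smJ y y').mul (hs y')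
  have h1 : ∀ {b : κT → M → ℝ}, Crest.Agent.R249.Tv57.SmV (n := 4) b →
      SmF (fun z => ∑ A, b A z • S.s A z) :=
    fun hb => SmF.sum _ fun A _ => SmF.smul (hb A) (hS.sms A)
  have h2 : ∀ y, SmF (fun z => S.nab a s y z) := fun y =>
    (Crest.Agent.R249.Tv57.smF_cv S.D0 hs y).add (SmF.smul (hJ y) (h1 ha))
  have h3 : SmF (fun z => ∑ y', ((1 / 2) * (S.D0.p y y' z - ∑ k, τ.n k z * S.rho k y y' z)) •
      S.nab a s y' z) := by
    refine SmF.sum _ fun y' _ => SmF.smul ?_ (h2 y')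
    exact contMDiff_const.mul ((S.D0.smp y y').sub
      (contMDiff_finsetSum fun k _ => (ht.smn k).mul (hS.smrho k y y')))
  exact h3.add (SmF.smul (hJ y) (h1 ht.smsh))

theorem cont_nE_734 (hS : S.OK) (ht : TE τ S T cc Z)
    {a : κT → M → ℝ} (ha : Crest.Agent.R249.Tv57.SmV (n := 4) a) {s : κ0 → M → ℝ}
    (hs : Crest.Agent.R249.Tv57.SmV (n := 4) s) :
    Continuous fun z => ∑ y, ‖τ.nE S a s y z‖ ^ 2 :=
  continuous_finsetSum _ fun y _ => by
    have h1 := (smF_nE_734 hS ht ha hs y).inner (smF_nE_734 hS ht ha hs y)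
    have h2 := h1.continuous
    simpa only [real_inner_self_eq_norm_sq] using h2

/-- the pointwise bound. -/
theorem t3_pt_734 (hS : S.OK) (h : TG S T cc W sT w e σ ι) (nn : ∀ z, ∑ k, τ.n k z ^ 2 = 1)
    (a : κT → M → ℝ) {s : κ0 → M → ℝ} (hsm : Crest.Agent.R249.Tv57.SmV (n := 4) s)
    (hs : τ.SecE S s) (z : M) {Φ : Bil} (hΦ : Alt Φ) {B : ℝ}
    (hB : ∀ u v : TangentSpace (𝓡 4) z, |Φ u v| ≤ B * ‖u‖ * ‖v‖) :
    |2 * q (at2 ((w 0).1.1 : F2 E4 M) z) ((2 : ℝ) • ∑ j,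
          wed (nX (PEf τ S) (tF τ S W sT e a) (hatf S s) z j)
            (nY (PEf τ S) (tF τ S W sT e a) (hatf S s) z j)) Φ| ≤
      100 * B * ∑ y, ‖τ.nE S a s y z‖ ^ 2 := by
  have hA := al_of hS h (n := nv τ z) z (nn z)
  have e0 : (2 : ℝ) • ∑ j, wed (nX (PEf τ S) (tF τ S W sT e a) (hatf S s) z j)
      (nY (PEf τ S) (tF τ S W sT e a) (hatf S s) z j) = (-1 : ℝ) • HI τ S W sT e a s s z := by
    unfold HI
    rw [hwI_self, smul_smul]
    norm_num
  rw [e0, q_smul_left]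
  have e1 : |2 * (-1 * q (at2 ((w 0).1.1 : F2 E4 M) z) (HI τ S W sT e a s s z) Φ)| =
      |2 * q (at2 (e 0) z) (HI τ S W sT e a s s z) Φ| := by
    rw [h.tri.e_zero, ← abs_neg]
    congr 1
    ring
  rw [e1, sum_norm_sq h z]
  have hal : Alt (HI τ S W sT e a s s z) := fun v => by
    have := HI_apply hS h nn a hsm hs hsm hs z (v : TangentSpace (𝓡 4) z) v
    rw [sub_self] at this
    exact this
  have hJn : ∀ i, (Jm S z *ᵥ gE τ S T a s z (vf e z i)) ⬝ᵥ
      (Jm S z *ᵥ gE τ S T a s z (vf e z i)) =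
      gE τ S T a s z (vf e z i) ⬝ᵥ gE τ S T a s z (vf e z i) := by
    intro i
    have hE := inE_gE hS h nn a hs z (vf e z i)
    rw [hA.J_dot, hA.JJG hE.1, dotProduct_neg, neg_neg]
  refine q_bound_734 (fr_of h.tri z) (fun k => (h.tri.smooth k).1 z) hal hΦ (B := B) ?_ ?_
  · intro i j
    have h1 := hB (vf e z i) (vf e z j)
    rw [norm_vf_734 h, norm_vf_734 h, mul_one, mul_one] at h1
    exact h1
  · intro i j
    have h1 := HI_apply hS h nn a hsm hs hsm hs z (vf e z i) (vf e z j)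
    have h2 : |HI τ S W sT e a s s z (vf e z i) (vf e z j)| ≤
        gE τ S T a s z (vf e z i) ⬝ᵥ gE τ S T a s z (vf e z i) +
        gE τ S T a s z (vf e z j) ⬝ᵥ gE τ S T a s z (vf e z j) := by
      rw [h1]
      have h3 := dot_le_734 (gE τ S T a s z (vf e z i)) (Jm S z *ᵥ gE τ S T a s z (vf e z j))
      have h4 := dot_le_734 (gE τ S T a s z (vf e z j)) (Jm S z *ᵥ gE τ S T a s z (vf e z i))
      rw [hJn] at h3 h4
      rw [abs_le] at h3 h4 ⊢
      constructor <;> linarith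
    exact h2

/-- **(T3)**. -/
theorem t3 (hS : S.OK) (h : TG S T cc W sT w e σ ι) (ht : TE τ S T cc Z) {cE : Z2 M}
    (hc : TC τ S W sT w e σ cE) {B : ℝ}
    (hB : ∀ (z : M) (u v : TangentSpace (𝓡 4) z),
      |Phi cE (bF τ S W sT e) z u v| ≤ B * ‖u‖ * ‖v‖) :
    ∃ (fF : M → ℝ) (g : κT → M → EuclideanSpace ℝ (Fin 4)),
      (∀ C, 100 * B ≤ C → τ.T3 S C fF g) ∧
      ∫ z, fF z ∂(μHE[4] : Measure M) = 4 * Real.pi ^ 2 * pI (w 0) cE cE := by
  set F : F2 E4 M := ((w 0).1.1 : F2 E4 M) with hF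
  have hbs : Smooth1 (bF τ S W sT e) := smooth_bF hS h ht
  set Φ0 : F2 E4 M := PhiF cE (bF τ S W sT e) with hΦ0
  have hΦs : Smooth2 Φ0 := smooth_PhiF cE hbs
  have hΦc : Closed2 Φ0 := closed_PhiF_734 cE hbs
  have hΦn : Smooth2 ((-1 : ℝ) • Φ0) := Smooth2.smul _ hΦs
  have hw : Smooth2 F := (w 0).1.2
  have hne := fun x => h.tri.W_ne x
  obtain ⟨g, hg1, hg2⟩ := TauStar_734.star_g h hΦn
  have hg3 : ∀ a : κT → M → ℝ, Crest.Agent.R249.Tv57.SmV (n := 4) a → S.DT.Sec a → ∀ z,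
      ∑ A, ⟪S.DT.cv a A z, g A z⟫ =
        - (2 * qG F (dG (RiemB_399.flG (gg e) (fld sT a))) Φ0 z) := by
    intro a ha hsa z
    rw [hg2 a ha hsa z]
    have h1 : at2 ((-1 : ℝ) • Φ0) z = (-1 : ℝ) • at2 Φ0 z := rfl
    rw [h1, q_smul_right]
    unfold qG
    ring
  refine ⟨fun z => 2 * qG F Φ0 Φ0 z, g, ?_, ?_⟩
  · intro C hC
    refine ⟨?_, hg1, ?_, ?_⟩
    · exact contMDiff_const.mul ((RiemB_399.smoothF_iff _).1 (En4.smoothF_qG hw hne hΦs hΦs))
    · intro a ha hsa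
      have h1 : ∫ z, ∑ A, ⟪S.DT.cv a A z, g A z⟫ ∂(μHE[4] : Measure M) =
          - ∫ z, 2 * qG F (dG (RiemB_399.flG (gg e) (fld sT a))) Φ0 z ∂(μHE[4] : Measure M) := by
        rw [← integral_neg]
        exact integral_congr_ae (Filter.Eventually.of_forall fun z => hg3 a ha hsa z)
      rw [h1, ← IndVol_57.I_eq (cpt_w h), stokes_zero (vol_w h) (smooth_flG_fld h ha) hΦs hΦc,
        neg_zero]
    · intro a s ha hsa hsm hs
      have hln := ln_PEf (T := T) (cc := cc) hS h ht.smn ht.norm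
      have hα := smV_hatf hS hsm
      have hpα := PEf_hatf hS h ht.norm hs
      have hθs : Smooth1 (tF τ S W sT e a) := smooth_tF hS h ht ha
      have hT := T1 (vol_w h) hln hc.ch hθs hα hpα hΦs hΦc
      rw [int_mu h, int_mu h] at hT
      have hT' := mul_left_cancel₀ two_ne_zero hT
      have h1 : ∫ z, (∑ y, s y z ^ 2) * (2 * qG F Φ0 Φ0 z + ∑ A, ⟪S.DT.cv a A z, g A z⟫)
          ∂(μHE[4] : Measure M) =
          ∫ z, 2 * q (at2 F z) ((2 : ℝ) • ∑ j,
          wed (nX (PEf τ S) (tF τ S W sT e a) (hatf S s) z j)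
            (nY (PEf τ S) (tF τ S W sT e a) (hatf S s) z j)) (at2 Φ0 z)
            ∂(μHE[4] : Measure M) := by
        rw [integral_const_mul, hT', ← integral_const_mul]
        refine integral_congr_ae (Filter.Eventually.of_forall fun z => ?_)
        show (∑ y, s y z ^ 2) * (2 * qG F Φ0 Φ0 z + ∑ A, ⟪S.DT.cv a A z, g A z⟫) =
          2 * ((hp (hatf S s z) (hatf S s z)).re *
            q (at2 F z) (Phi cE (tF τ S W sT e a) z) (at2 Φ0 z))
        rw [hp_hatf_self hS h ht.norm hs, hg3 a ha hsa z, Phi_tF hS h ht ha, q_sub_left,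
          ← at2_PhiF]
        unfold qG
        ring
      rw [h1, ← Real.norm_eq_abs, ← integral_const_mul]
      refine norm_integral_le_of_norm_le ?_ (Filter.Eventually.of_forall fun z => ?_)
      · exact int_cont (continuous_const.mul (cont_nE_734 hS ht ha hsm))
      · rw [Real.norm_eq_abs]
        have h2 := t3_pt_734 hS h ht.norm a hsm hs z (hΦs.1 z) (B := B) (fun u v => by
          have := hB z u v
          rw [← at2_PhiF] at this
          exact this)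
        refine h2.trans ?_
        exact mul_le_mul_of_nonneg_right hC (Finset.sum_nonneg fun y _ => sq_nonneg _)
  · rw [← IndVol_57.I_eq (cpt_w h), T3 (vol_w h) cE hbs hΦs hΦc, Int.I_comm,
      T3 (vol_w h) cE hbs cE.1.2 cE.2, IndVol_57.pI_eq_I]
    ring

/-- **(top)**. -/
theorem top (hS : S.OK) (h : TG S T cc W sT w e σ ι) (ht : TE τ S T cc Z) {cE : Z2 M}
    (hc : TC τ S W sT w e σ cE) {wt : Z2 M} (hwt : WT τ e wt) :
    ∫ z, ∑ k, τ.rr z * τ.n k z * τ.fE k z ∂(μHE[4] : Measure M) =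
      -2 * Real.pi * σ * pI (w 0) wt cE := by
  have hbs : Smooth1 (bF τ S W sT e) := smooth_bF hS h ht
  have h1 : ∀ z, ∑ k, τ.rr z * τ.n k z * τ.fE k z =
      -σ * (2 * qG ((w 0).1.1 : F2 E4 M) (PhiF cE (bF τ S W sT e)) (wt.1.1 : F2 E4 M) z) := by
    intro z
    have h2 : qG ((w 0).1.1 : F2 E4 M) (PhiF cE (bF τ S W sT e)) (wt.1.1 : F2 E4 M) z =
        q (at2 ((w 0).1.1 : F2 E4 M) z) (Phi cE (bF τ S W sT e) z) (val wt z) := by
      unfold qG
      rw [at2_PhiF]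
      rfl
    rw [h2, hwt z, q_sum_right, Finset.mul_sum, Finset.mul_sum]
    refine Finset.sum_congr rfl fun k _ => ?_
    rw [hc.fE, q_smul_right, q_comm _ (Phi cE (bF τ S W sT e) z)]
    ring
  simp only [h1]
  rw [integral_const_mul, ← IndVol_57.I_eq (cpt_w h), T3 (vol_w h) cE hbs wt.1.2 wt.2, Int.I_comm,
    IndVol_57.pI_eq_I]
  ring

end

end Crest.Agent.R235.Tau483
end

-- ▼ part R235/FamR_692
section

/-!
Row 235 (S0364), package SW, model (helper692): THE FAMILY over a fixed system, abstractly.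

* `GFm`      : the data of the family over `|t| = 1` (fixed `S`, `TG`; `TE`, `TC`, classes, bounds);
* `GFm.tau`  : `∃ C, ∀ |t| = 1, (τ t).OK S C`;
* `GFm.fam`  : `∃ C, Fam S ww τ C (4π² (a·a))` if `a·w_i = 0`;
* `harm_t`   : `w_t` is harmonic.
-/

set_option autoImplicit false
set_option maxSynthPendingDepth 3
set_option linter.unusedSectionVars false

open scoped ContDiff ENNReal NNReal Topology Manifold Bundle RealInnerProductSpace
open MeasureTheory Set Filter Metric Bundle Matrix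

universe v

namespace Crest.Agent.R235.FamR_692

open Crest.Agent.R240 Crest.Agent.R240.Ch Crest.Agent.R240.Int Crest.Agent.R235.SWDefs_53
open Crest.Agent.R235.IndTri_451 Crest.Agent.R235.Tau483 Crest.Agent.R235.TauOK_692
open Crest.Agent.R249.Tv57 (Dat OpPair SmF Spec)
open Crest.Agent.R247.Ms322 (Gr)
open Crest.Agent.R249.Tz805 (ToF)

noncomputable section

variable {M : Type v} [MetricSpace M] [CompactSpace M] [ConnectedSpace M]
  [ChartedSpace (EuclideanSpace ℝ (Fin 4)) M] [IsManifold (𝓡 4) ∞ M]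
  [RiemannianBundle (fun p : M => TangentSpace (𝓡 4) p)]
  [IsContMDiffRiemannianBundle (𝓡 4) ∞ (EuclideanSpace ℝ (Fin 4))
    (fun p : M => TangentSpace (𝓡 4) p)]
  [IsRiemannianManifold (𝓡 4) M] [MeasurableSpace M] [BorelSpace M]
  [SecondCountableTopology M] [Nonempty M] [IsFiniteMeasureOnCompacts (μHE[4] : Measure M)]
  {κ0 κ1 κT : Type} [Fintype κ0] [Fintype κ1] [Fintype κT]

/-- `w_t = ∑ t_i w_i` is harmonic. -/
theorem harm_t {S : SWS M κ0 κ1 κT} (hS : S.OK) {ww : Fin 3 → Fin 3 → M → ℝ}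
    (smw : ∀ i k, ContMDiff (𝓡 4) 𝓘(ℝ, ℝ) ∞ (ww i k))
    (harm : ∀ i x z, S.H.A (Fin.cons (fun _ => 0) (ww i)) x z = 0) (t : E3) (x : κT) (z : M) :
    S.H.A (Fin.cons (fun _ => 0) fun k z => ∑ i, t i * ww i k z) x z = 0 := by
  have h1 := (SWGeo_659.sum_all S.H Finset.univ (fun i : Fin 3 => t i)
    (fun i => (Fin.cons (fun _ => 0) (ww i) : Fin 4 → M → ℝ)) (fun i => by
      intro k
      refine Fin.cases ?_ (fun j => ?_) k
      · exact contMDiff_const
      · exact smw i j) (fun i a z => by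
      simp only [hS.fullL, ite_mul, one_mul, zero_mul, Finset.sum_ite_eq, Finset.mem_univ,
        if_true])).2.2.1 x z
  have h2 : (∑ i : Fin 3, t i • (Fin.cons (fun _ => 0) (ww i) : Fin 4 → M → ℝ)) =
      Fin.cons (fun _ => 0) fun k z => ∑ i, t i * ww i k z := by
    funext k y
    rw [Finset.sum_apply, Finset.sum_apply]
    refine Fin.cases ?_ (fun j => ?_) k
    · simp
    · simp
  rw [h2] at h1
  rw [h1]
  simp only [harm, mul_zero, Finset.sum_const_zero]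

/-- the data of the family. -/
structure GFm (S : SWS M κ0 κ1 κT) (T : ToF 4 M)
    (cc : κ1 → κ0 → (z : M) → TangentSpace (𝓡 4) z)
    (W : κ0 → κ0 → (z : M) → TangentSpace (𝓡 4) z)
    (sT : κT → (z : M) → TangentSpace (𝓡 4) z) (w : Trip M) (e : Fin 3 → F2 E4 M)
    (σ ι : ℝ) (ww : Fin 3 → Fin 3 → M → ℝ) (τ : E3 → TD M κT) (a : Z2 M) (cE : E3 → Z2 M)
    (B C2 : ℝ) : Prop where
  ok : S.OK
  tg : TG S T cc W sT w e σ ι
  smw : ∀ i k, ContMDiff (𝓡 4) 𝓘(ℝ, ℝ) ∞ (ww i k)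
  harm : ∀ i x z, S.H.A (Fin.cons (fun _ => 0) (ww i)) x z = 0
  ndeg : ∀ (t : E3) z, t ≠ 0 → ∃ k, ∑ i, t i * ww i k z ≠ 0
  rr : ∀ (t : E3) z, ‖t‖ = 1 → (τ t).rr z = √(∑ k, (∑ i, t i * ww i k z) ^ 2)
  nn : ∀ (t : E3) k z, ‖t‖ = 1 → (τ t).rr z * (τ t).n k z = ∑ i, t i * ww i k z
  /-- `w_i` in the frame -/
  wwe : ∀ i x, val (w i) x = ∑ k, ww i k x • at2 (e k) x
  te : ∀ t : E3, ‖t‖ = 1 → ∃ Z, TE (τ t) S T cc Z
  tc : ∀ t : E3, ‖t‖ = 1 → TC (τ t) S W sT w e σ (cE t)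
  cl : ∀ t : E3, ‖t‖ = 1 → cls (cE t) = cls a
  cfE : ∀ k, ContinuousOn (fun q : E3 × M => (τ q.1).fE k q.2) {q | ‖q.1‖ = 1}
  bd : ∀ t : E3, ‖t‖ = 1 → ∀ (z : M) (u v : TangentSpace (𝓡 4) z),
    |Phi (cE t) (bF (τ t) S W sT e) z u v| ≤ B * ‖u‖ * ‖v‖
  t2 : ∀ t : E3, ‖t‖ = 1 → T2P (τ t) S C2

/-- the closed form `w_t`. -/
def wtF (w : Trip M) (t : E3) : Z2 M := ∑ i, t i • w i

theorem val_wtF (w : Trip M) (t : E3) (x : M) : val (wtF w t) x = ∑ i, t i • val (w i) x := by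
  simp only [wtF, Fin.sum_univ_three]
  rfl

variable {S : SWS M κ0 κ1 κT} {T : ToF 4 M}
    {cc : κ1 → κ0 → (z : M) → TangentSpace (𝓡 4) z}
    {W : κ0 → κ0 → (z : M) → TangentSpace (𝓡 4) z}
    {sT : κT → (z : M) → TangentSpace (𝓡 4) z} {w : Trip M} {e : Fin 3 → F2 E4 M}
    {σ ι : ℝ} {ww : Fin 3 → Fin 3 → M → ℝ} {τ : E3 → TD M κT} {a : Z2 M} {cE : E3 → Z2 M}
    {B C2 : ℝ} (G : GFm S T cc W sT w e σ ι ww τ a cE B C2)

include G

theorem GFm.wt {t : E3} (ht : ‖t‖ = 1) : WT (τ t) e (wtF w t) := by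
  intro x
  rw [val_wtF]
  have h1 : ∀ k, ((τ t).rr x * (τ t).n k x) • at2 (e k) x =
      ∑ i, (t i * ww i k x) • at2 (e k) x := fun k => by
    rw [G.nn t k x ht, Finset.sum_smul]
  simp only [h1, G.wwe, Finset.smul_sum, smul_smul]
  rw [Finset.sum_comm]

theorem GFm.harmt {t : E3} (ht : ‖t‖ = 1) (x : κT) (z : M) :
    S.H.A (Fin.cons (fun _ => 0) fun k z => (τ t).rr z * (τ t).n k z) x z = 0 := by
  have h1 : (fun (k : Fin 3) (z : M) => (τ t).rr z * (τ t).n k z) =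
      fun k z => ∑ i, t i * ww i k z := by
    funext k z
    exact G.nn t k z ht
  rw [h1]
  exact harm_t G.ok G.smw G.harm t x z

theorem GFm.tauOK {C : ℝ} (hC : C2 ≤ C) (t : E3) (ht : ‖t‖ = 1) : (τ t).OK S C := by
  obtain ⟨Z, hE⟩ := G.te t ht
  exact TauOK_692.ok_of G.ok G.tg hE (G.wt ht) (G.tc t ht) (fun x z => G.harmt ht x z)
    ((G.t2 t ht).mono hC)

/-- **the family `Fam`** for a class orthogonal to the triple. -/
theorem GFm.fam (hort : ∀ i, ip (w 0) (cls a) (cls (w i)) = 0) :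
    Fam S ww τ (max C2 (100 * B)) (4 * Real.pi ^ 2 * pI (w 0) a a) where
  ok := G.ok
  smw := G.smw
  harm := G.harm
  ndeg := G.ndeg
  rr := G.rr
  nn := G.nn
  cfE := G.cfE
  tau := fun t ht => G.tauOK (le_max_left _ _) t ht
  top := fun t ht => by
    obtain ⟨Z, hE⟩ := G.te t ht
    have hV := vol_w G.tg
    rw [top G.ok G.tg hE (G.tc t ht) (G.wt ht)]
    have h1 : pI (w 0) (wtF w t) (cE t) = 0 := by
      rw [← ip_cls hV, G.cl t ht]
      have h2 : cls (wtF w t) = ∑ i, t i • cls (w i) := by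
        rw [wtF, map_sum]
        exact Finset.sum_congr rfl fun i _ => map_smul _ _ _
      rw [h2, ip_sum_left hV]
      refine Finset.sum_eq_zero fun i _ => ?_
      rw [ip_smul_left hV, ip_comm, hort i, mul_zero]
    rw [h1, mul_zero]
  t3 := fun t ht => by
    obtain ⟨Z, hE⟩ := G.te t ht
    have hV := vol_w G.tg
    obtain ⟨fF, g, h1, h2⟩ := Tau483.t3 G.ok G.tg hE (G.tc t ht) (G.bd t ht)
    refine ⟨fF, g, h1 _ (le_max_right _ _), ?_⟩
    rw [h2, ← ip_cls hV, ← ip_cls hV, G.cl t ht]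

end

end Crest.Agent.R235.FamR_692
end

-- ▼ part R235/FamB_692
section

/-!
Row 235 (S0364), package SW, model (helper692): from `JF` (129) to the uniform bounds `O1`, `OO` (483) over
the sphere `|t| = 1`.
-/

set_option autoImplicit false
set_option maxSynthPendingDepth 3
set_option linter.unusedSectionVars false

open scoped ContDiff ENNReal NNReal Topology Manifold Bundle RealInnerProductSpace
open MeasureTheory Set Filter Metric Bundle Matrix

universe v

namespace Crest.Agent.R235.FamR_692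

open Crest.Agent.R240 Crest.Agent.R240.Ch Crest.Agent.R240.Int Crest.Agent.R235.SWDefs_53
open Crest.Agent.R235.Tau483 Crest.Agent.R235.TauJ
open Crest.Agent.R249.Tz805 (ToF)

noncomputable section

/-- the parameters -/
abbrev Sph : Type := {t : E3 // ‖t‖ = 1}

theorem Sph.ne (t : Sph) : t.1 ≠ 0 := fun h => by
  have := t.2
  rw [h, norm_zero] at this
  exact zero_ne_one this

variable {M : Type v} [MetricSpace M] [CompactSpace M] [ConnectedSpace M]
  [ChartedSpace (EuclideanSpace ℝ (Fin 4)) M] [IsManifold (𝓡 4) ∞ M]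
  [RiemannianBundle (fun p : M => TangentSpace (𝓡 4) p)]
  [IsContMDiffRiemannianBundle (𝓡 4) ∞ (EuclideanSpace ℝ (Fin 4))
    (fun p : M => TangentSpace (𝓡 4) p)]
  [IsRiemannianManifold (𝓡 4) M] [MeasurableSpace M] [BorelSpace M]
  [SecondCountableTopology M] [Nonempty M]

theorem oo_of {f : E3 → M → ℝ} (hf : JF f) : OO (fun _ _ => 1) fun (θ : Sph) => f θ.1 := by
  obtain ⟨C, c, h⟩ := hf.bound
  exact ⟨C, c, fun θ z => by rw [mul_one]; exact h θ.1 θ.2 z⟩

theorem sm_of {f : E3 → M → ℝ} (hf : JF f) {t : E3} (ht : t ≠ 0) :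
    ContMDiff (𝓡 4) 𝓘(ℝ, ℝ) ∞ (f t) :=
  (Crest.Agent.R240.Ch.smoothF_iff _).2 (hf.sl ht)

theorem o1_of (T : ToF 4 M) {f : E3 → M → ℝ} (hf : JF f) : O1 fun (θ : Sph) => f θ.1 where
  sm θ := sm_of hf θ.ne
  b0 := oo_of hf
  b1 := by
    obtain ⟨C, c, h⟩ := hf.Gr_bound T
    exact ⟨C, c, fun θ z => by rw [mul_one, abs_norm]; exact h θ.1 θ.2 z⟩

end

end Crest.Agent.R235.FamR_692
end

-- ▼ part R235/FamH_692
section

/-!
Row 235 (S0364), package SW, model (helper692): the family from 451's `Hyp`.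

* `gfm_of` : `Hyp`, `S.OK`, harmonicity, classes, `T2P` give `GFm`;
* `fam_of` : `Fam` for a class orthogonal to the triple.
-/

set_option autoImplicit false
set_option maxSynthPendingDepth 3
set_option linter.unusedSectionVars false

open scoped ContDiff ENNReal NNReal Topology Manifold Bundle RealInnerProductSpace
open MeasureTheory Set Filter Metric Bundle Matrix

universe v

namespace Crest.Agent.R235.FamR_692

open Crest.Agent.R240 Crest.Agent.R240.Ch Crest.Agent.R240.Int Crest.Agent.R235.SWDefs_53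
open Crest.Agent.R235.IndTri_451 Crest.Agent.R235.Tau483 Crest.Agent.R235.TauOK_692
open Crest.Agent.R235.SWData_451 Crest.Agent.R235.SWTn_451
open Crest.Agent.R249.Tz805 (ToF)

noncomputable section

variable {M : Type v} [MetricSpace M] [CompactSpace M] [ConnectedSpace M]
  [ChartedSpace (EuclideanSpace ℝ (Fin 4)) M] [IsManifold (𝓡 4) ∞ M]
  [RiemannianBundle (fun p : M => TangentSpace (𝓡 4) p)]
  [IsContMDiffRiemannianBundle (𝓡 4) ∞ (EuclideanSpace ℝ (Fin 4))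
    (fun p : M => TangentSpace (𝓡 4) p)]
  [IsRiemannianManifold (𝓡 4) M] [MeasurableSpace M] [BorelSpace M]
  [SecondCountableTopology M] [Nonempty M] [IsFiniteMeasureOnCompacts (μHE[4] : Measure M)]
  {κ0 κ1 κT : Type} [Fintype κ0] [Fintype κ1] [Fintype κT]
  {S : SWS M κ0 κ1 κT} {T : ToF 4 M}
    {c : κ1 → κ0 → (z : M) → TangentSpace (𝓡 4) z}
    {W : κ0 → κ0 → (z : M) → TangentSpace (𝓡 4) z}
    {sT : κT → (z : M) → TangentSpace (𝓡 4) z} {w : Trip M} {e : Fin 3 → F2 E4 M}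
    {σ ι : ℝ} {cE : E3 → Z2 M} {a : Z2 M}

/-- **the family.** -/
theorem gfm_of (h : Hyp S T c W sT w e σ ι (wwf (fun i => (w i).1.1) e) cE) (hS : S.OK)
    (harm : ∀ i x z, S.H.A (Fin.cons (fun _ => 0) (wwf (fun i => (w i).1.1) e i)) x z = 0)
    (cl : ∀ t : E3, ‖t‖ = 1 → cls (cE t) = cls a)
    (hT2 : ∃ C, ∀ t : E3, ‖t‖ = 1 →
      T2P (tauF S T c W sT w e σ (wwf (fun i => (w i).1.1) e) cE t) S C) :
    ∃ B C2, GFm S T c W sT w e σ ι (wwf (fun i => (w i).1.1) e)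
      (tauF S T c W sT w e σ (wwf (fun i => (w i).1.1) e) cE) a cE B C2 := by
  obtain ⟨B, -, hB⟩ := h.bPhi
  obtain ⟨C2, h2⟩ := hT2
  exact ⟨B, C2,
    { ok := hS
      tg := h.tg
      smw := h.smw
      harm := harm
      ndeg := fun t z ht => h.lt.ndeg t z ht
      rr := fun t z _ => rfl
      nn := fun t k z ht => h.lt.mul_nt (Hyp.ne_of ht) k z
      wwe := fun i x => wwf_eq h.tg.tri i x
      te := fun t ht => ⟨_, h.te (Hyp.ne_of ht)⟩
      tc := fun t ht => h.tc (Hyp.ne_of ht)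
      cl := cl
      cfE := h.cfE
      bd := fun t ht z u v => hB t ht z u v
      t2 := h2 }⟩

/-- **`Fam`** for a class orthogonal to the triple. -/
theorem fam_of (h : Hyp S T c W sT w e σ ι (wwf (fun i => (w i).1.1) e) cE) (hS : S.OK)
    (harm : ∀ i x z, S.H.A (Fin.cons (fun _ => 0) (wwf (fun i => (w i).1.1) e i)) x z = 0)
    (cl : ∀ t : E3, ‖t‖ = 1 → cls (cE t) = cls a)
    (hT2 : ∃ C, ∀ t : E3, ‖t‖ = 1 →
      T2P (tauF S T c W sT w e σ (wwf (fun i => (w i).1.1) e) cE t) S C)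
    (hort : ∀ i, ip (w 0) (cls a) (cls (w i)) = 0) :
    ∃ C, Fam S (wwf (fun i => (w i).1.1) e)
      (tauF S T c W sT w e σ (wwf (fun i => (w i).1.1) e) cE) C
      (4 * Real.pi ^ 2 * pI (w 0) a a) := by
  obtain ⟨B, C2, G⟩ := gfm_of h hS harm cl hT2
  exact ⟨_, G.fam hort⟩


end

end Crest.Agent.R235.FamR_692
end

-- ▼ part R235/K3Num_692
section

/-!
Row 235 (helper692): the numbers of a K3 type manifold for package SW:
`KerD` of the Hodge pair is `4`, of its adjoint `0`; the kernels of a twist.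

* `b1_zero`    : `B1Zero` and `HasB1 b` give `b = 0`;
* `finrank_P`  : `b⁺ = 3`;
* `k3_H`       : the Hodge pair has kernels of dimension `4` and `0`;
* `k3_root`    : `d0 = d1 + 2` for a twist with `pI a a = -2`;
* `k3_flat`    : `d0 = d1 + 4` for a twist with `pI a a = 0`.
-/

set_option autoImplicit false
set_option maxSynthPendingDepth 3
set_option linter.unusedSectionVars false
set_option linter.unusedVariables false
set_option maxHeartbeats 1000000

open Filter Topology Set Bundle Manifold MeasureTheory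
open scoped ContDiff ENNReal NNReal
open Crest.Agent.R240 Crest.Agent.R240.Ch
open Crest.Agent.R249.Tz2_805 Crest.Agent.R249.Tz805 Crest.Agent.R249.Vf281
open Crest.Agent.R249.Tv57 hiding GG
open Crest.Agent.R235.DichProps_723 Crest.Agent.R235.Ind167 Crest.Agent.R235.IndSig_723
open Crest.Agent.R235.IndR_819 Crest.Agent.R235.RiemC_399 Crest.Agent.R235.QSTri_451
open Crest.Agent.R235.IndEven_692

universe u

noncomputable section

namespace Crest.Agent.R235.K3Num_692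

section coh

variable {M : Type u} [TopologicalSpace M] [T2Space M] [CompactSpace M]
  [ChartedSpace E4 M] [IsManifold 𝓘(ℝ, E4) ∞ M]

omit [T2Space M] [CompactSpace M] in
theorem b1_zero (hB : B1Zero M) {b : ℕ} (h : HasB1 M b) : b = 0 := by
  rcases Nat.eq_zero_or_pos b with h0 | h0
  · exact h0
  exfalso
  obtain ⟨s, hs, -, hi⟩ := h
  let i0 : Fin b := ⟨0, h0⟩
  obtain ⟨f, hf, he⟩ := hB (s i0) (hs i0)
  have h1 := hi (Pi.single i0 1) f hf (by
    rw [Finset.sum_eq_single i0]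
    · rw [Pi.single_eq_same, one_smul, he]
    · intro j _ hj
      rw [Pi.single_eq_of_ne hj, zero_smul]
    · intro h
      exact absurd (Finset.mem_univ _) h)
  have h2 := congrFun h1 i0
  rw [Pi.single_eq_same] at h2
  exact one_ne_zero h2

/-- three positive classes whose orthogonal complement is negative: the dimension of the positive
part is three. -/
theorem finrank_of_neg {V : Type*} [AddCommGroup V] [Module ℝ V] [FiniteDimensional ℝ V]
    (B : V →ₗ[ℝ] V →ₗ[ℝ] ℝ) (hB : ∀ x y, B x y = B y x) (P N : Submodule ℝ V) (hs : P ⊔ N = ⊤)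
    (hP : ∀ x ∈ P, x ≠ 0 → 0 < B x x) (hN : ∀ x ∈ N, x ≠ 0 → B x x < 0) (b : Fin 3 → V)
    (hb : ∀ a : Fin 3 → ℝ, a ≠ 0 → 0 < B (∑ i, a i • b i) (∑ i, a i • b i))
    (hneg : ∀ c, (∀ i, B c (b i) = 0) → c ≠ 0 → B c c < 0) : Module.finrank ℝ P = 3 := by
  -- upper bound
  have hle : Module.finrank ℝ P ≤ 3 := by
    by_contra hcon
    push Not at hcon
    let φ : P →ₗ[ℝ] (Fin 3 → ℝ) :=
      { toFun := fun x i => B x (b i)
        map_add' := fun x y => by funext i; simp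
        map_smul' := fun r x => by funext i; simp }
    have h1 : ¬ Function.Injective φ := by
      intro hinj
      have := LinearMap.finrank_le_finrank_of_injective hinj
      simp at this
      omega
    rw [injective_iff_map_eq_zero] at h1
    push Not at h1
    obtain ⟨x, hx, hx0⟩ := h1
    have h2 : (x : V) ≠ 0 := fun h => hx0 (Subtype.ext h)
    have h3 := hneg x (fun i => congrFun hx i) h2
    have h4 := hP x x.2 h2
    linarith
  -- lower bound
  let ψ : (Fin 3 → ℝ) →ₗ[ℝ] V :=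
    { toFun := fun a => ∑ i, a i • b i
      map_add' := fun x y => by simp only [Pi.add_apply, add_smul, Finset.sum_add_distrib]
      map_smul' := fun r x => by
        simp only [Pi.smul_apply, smul_eq_mul, mul_smul, Finset.smul_sum, RingHom.id_apply] }
  have hψ : ∀ a, ψ a = ∑ i, a i • b i := fun _ => rfl
  have hinj : Function.Injective ψ := by
    refine (injective_iff_map_eq_zero ψ).2 fun a ha => ?_
    by_contra h0
    have h1 := hb a h0
    rw [← hψ, ha] at h1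
    simp at h1
  have hdis : Disjoint (LinearMap.range ψ) N := by
    rw [Submodule.disjoint_def]
    rintro x ⟨a, rfl⟩ hx
    by_contra h
    have h1 := hN _ hx h
    have h2 : a ≠ 0 := by
      rintro rfl
      exact h (map_zero ψ)
    have h3 := hb a h2
    rw [hψ] at h1
    linarith
  have h1 := Submodule.finrank_add_finrank_le_of_disjoint hdis
  have h2 : Module.finrank ℝ (LinearMap.range ψ) = 3 := by
    rw [LinearMap.finrank_range_of_inj hinj]
    simp
  have h3 : Module.finrank ℝ V ≤ Module.finrank ℝ P + Module.finrank ℝ N := by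
    have h4 := Submodule.finrank_add_le_finrank_add_finrank P N
    rw [hs, finrank_top] at h4
    exact h4
  omega

variable [Nonempty M]

/-- `b⁺ = 3` for the K3 type. -/
theorem finrank_P {w : Trip M} (hw : Pos3 w) (hK : K3Type (w 0)) {P N : Submodule ℝ (H2 M)}
    (hs : P ⊔ N = ⊤) (hP : ∀ x ∈ P, x ≠ 0 → 0 < ip (w 0) x x)
    (hN : ∀ x ∈ N, x ≠ 0 → ip (w 0) x x < 0) : Module.finrank ℝ P = 3 := by
  obtain ⟨_, e, -, -⟩ := id hK
  have : FiniteDimensional ℝ (H2 M) := e.finiteDimensional_of_finite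
  have hF := hw.vol 0
  have hc := BPlus_723.posCls_of_pos3 hw
  exact finrank_of_neg (ipB (w 0) hF) (fun x y => ip_comm (w 0) x y) P N hs hP hN (clw w)
    (fun a ha => hc a ha) (fun c hi h0 => BPlus_723.neg_K3 hF hK (clw w) hc c hi h0)

end coh

/-- the numbers of HODGE for the K3 type. -/
theorem k3_out {M : Type} [TopologicalSpace M] [T2Space M] [CompactSpace M]
    [ChartedSpace E4 M] [IsManifold 𝓘(ℝ, E4) ∞ M] [Nonempty M]
    {w : Trip M} (hw : Pos3 w) (hK : K3Type (w 0)) {d0H d1H d0R d1R : ℕ}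
    (h : HodgeOut w d0H d1H d0R d1R) : d0H = 4 ∧ d1H = 0 := by
  obtain ⟨P, N, hb, -, -, hs, hp, -, h1, h2, -⟩ := h
  have h3 := finrank_P hw hK hs h1 h2
  exact ⟨by omega, b1_zero hK.1 hb⟩

section num

variable {M : Type} [MetricSpace M] [CompactSpace M] [ConnectedSpace M]
    [ChartedSpace (EuclideanSpace ℝ (Fin 4)) M] [IsManifold (𝓡 4) ∞ M]
    [RiemannianBundle (fun p : M => TangentSpace (𝓡 4) p)]
    [IsContMDiffRiemannianBundle (𝓡 4) ∞ (EuclideanSpace ℝ (Fin 4))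
      (fun p : M => TangentSpace (𝓡 4) p)]
    [IsRiemannianManifold (𝓡 4) M] [MeasurableSpace M] [BorelSpace M]
    [SecondCountableTopology M] [Nonempty M] {w : Trip M} {e : Fin 3 → F2 E4 M} (hw : Pos3 w)
    (he : IndTri_451.IsTri (IndTri_451.und w) e)
    (hin : ∀ (x : M) (u v : TangentSpace 𝓘(ℝ, E4) x), inner ℝ u v = at2 (IndTri_451.gg e) x u v)

include hw in
/-- the output of HODGE with all kernels. -/
theorem hodge_out {κ : Type} [Fintype κ] (T : ToF 4 M) (s : PF 4 M κ) :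
    ∃ d0H d1H d0R d1R : ℕ,
      Nonempty (KerD (R249.Wk352.dat0 T (pairH (qs he hin) s))
        (R249.Wk352.dpair T (pairH (qs he hin) s)).A d0H) ∧
      Nonempty (KerD (R249.Wk352.dat0 T (R249.Wk352.swapP (pairH (qs he hin) s)))
        (R249.Wk352.dpair T (pairH (qs he hin) s)).B d1H) ∧ HodgeOut w d0H d1H d0R d1R := by
  obtain ⟨d0H, d1H, k0H, k1H⟩ := exists_H (qs he hin) s T
  have hC := comp_w he hin
  obtain ⟨d0R, d1R, k0R, k1R, -⟩ := index_R (wdd T (pairR s (isVol_volF hC)))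
    (R249.Wk352.dpair T (pairR s (isVol_volF hC)))
  exact ⟨d0H, d1H, d0R, d1R, k0H, k1H,
    Hodge_194.hodge M w hw e he hin _ T s d0H d1H d0R d1R k0H k1H ⟨k0R⟩ ⟨k1R⟩⟩

include hw in
/-- **K3**: the kernels of the Hodge pair. -/
theorem k3_H (hK : K3Type (w 0)) {κ : Type} [Fintype κ] (T : ToF 4 M) (s : PF 4 M κ) :
    Nonempty (KerD (R249.Wk352.dat0 T (pairH (qs he hin) s))
        (R249.Wk352.dpair T (pairH (qs he hin) s)).A 4) ∧
      Nonempty (KerD (R249.Wk352.dat0 T (R249.Wk352.swapP (pairH (qs he hin) s)))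
        (R249.Wk352.dpair T (pairH (qs he hin) s)).B 0) := by
  obtain ⟨d0H, d1H, d0R, d1R, h0, h1, hh⟩ := hodge_out hw he hin T s
  obtain ⟨e0, e1⟩ := k3_out hw hK hh
  subst e0 e1
  exact ⟨h0, h1⟩

theorem hF_qs (x : M) (u v : TangentSpace (𝓡 4) x) :
    at2 ((w 0).1.1 : F2 E4 M) x u v = inner ℝ ((qs he hin).op 0 x u) v := by
  have h1 : ((w 0).1.1 : F2 E4 M) = e 0 := he.e_zero.symm
  rw [h1]
  exact e_eq_inner he hin 0 x u v

variable {κ κ' κ0 κ1 : Type} [Fintype κ] [Fintype κ'] [Fintype κ0] [Fintype κ1]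
  {P : CPair 4 M κ' κ0 κ1} {a : Z2 M} {d0 d1 e0 e1 : ℕ}

include hw in
/-- **K3**: the kernels of a twist. -/
theorem k3_tw (hK : K3Type (w 0)) (T : ToF 4 M) (s : PF 4 M κ)
    (L : LocTw (qs he hin) P ((-(2 * Real.pi)) • (a.1.1 : F2 E4 M))) :
    ∃ d0 d1 : ℕ, Nonempty (KerD (R249.Wk352.dat0 T P) (R249.Wk352.dpair T P).A d0) ∧
      Nonempty (KerD (R249.Wk352.dat0 T (R249.Wk352.swapP P)) (R249.Wk352.dpair T P).B d1) ∧
      (d0 : ℝ) - d1 = 4 + pI (w 0) a a := by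
  obtain ⟨d0, d1, K0, K1⟩ := exists_tw T L
  obtain ⟨H0, H1⟩ := k3_H hw he hin hK T s
  refine ⟨d0, d1, K0, K1, ?_⟩
  have h := num_chern s T K0 K1 H0 H1 (F := w 0) (a := a) (comp_w he hin).cpt
    (hF_qs he hin) L
  rw [h]
  push_cast
  ring

include hw in
/-- **K3, root**: `d0 = d1 + 2`. -/
theorem k3_root (hK : K3Type (w 0)) (T : ToF 4 M) (s : PF 4 M κ)
    (L : LocTw (qs he hin) P ((-(2 * Real.pi)) • (a.1.1 : F2 E4 M)))
    (ha : pI (w 0) a a = -2) :
    ∃ d0 d1 : ℕ, Nonempty (KerD (R249.Wk352.dat0 T P) (R249.Wk352.dpair T P).A d0) ∧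
      Nonempty (KerD (R249.Wk352.dat0 T (R249.Wk352.swapP P)) (R249.Wk352.dpair T P).B d1) ∧
      d0 = d1 + 2 := by
  obtain ⟨d0, d1, K0, K1, h⟩ := k3_tw hw he hin hK T s L
  refine ⟨d0, d1, K0, K1, ?_⟩
  rw [ha] at h
  have h1 : (d0 : ℝ) = ((d1 + 2 : ℕ) : ℝ) := by push_cast; linarith
  exact_mod_cast h1

include hw in
/-- **K3, flat**: `d0 = d1 + 4`. -/
theorem k3_flat (hK : K3Type (w 0)) (T : ToF 4 M) (s : PF 4 M κ)
    (L : LocTw (qs he hin) P ((-(2 * Real.pi)) • (a.1.1 : F2 E4 M)))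
    (ha : pI (w 0) a a = 0) :
    ∃ d0 d1 : ℕ, Nonempty (KerD (R249.Wk352.dat0 T P) (R249.Wk352.dpair T P).A d0) ∧
      Nonempty (KerD (R249.Wk352.dat0 T (R249.Wk352.swapP P)) (R249.Wk352.dpair T P).B d1) ∧
      d0 = d1 + 4 := by
  obtain ⟨d0, d1, K0, K1, h⟩ := k3_tw hw he hin hK T s L
  refine ⟨d0, d1, K0, K1, ?_⟩
  rw [ha] at h
  have h1 : (d0 : ℝ) = ((d1 + 4 : ℕ) : ℝ) := by push_cast; linarith
  exact_mod_cast h1

end num

end Crest.Agent.R235.K3Num_692
end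
end

-- ▼ part R235/ModR_692

/-!
Row 235 (S0364), package SW (helper692): **MODR** from the concrete family (`CEX`) and the second identity
(`T2X`).
-/

set_option autoImplicit false
set_option maxSynthPendingDepth 3
set_option linter.unusedSectionVars false
set_option maxHeartbeats 1000000

open scoped ContDiff ENNReal NNReal Topology Manifold Bundle RealInnerProductSpace
open MeasureTheory Set Filter Metric Bundle Matrix

universe v

namespace Crest.Agent.R235.ModR_692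

open Crest.Agent.R240 Crest.Agent.R240.Ch Crest.Agent.R240.Int Crest.Agent.R235.SWDefs_53
open Crest.Agent.R235.IndTri_451 Crest.Agent.R235.Tau483 Crest.Agent.R235.TauOK_692
open Crest.Agent.R235.SWData_451 Crest.Agent.R235.SWTn_451
open Crest.Agent.R249.Tz805 (ToF)
open Crest.Agent.R249.Tz2_805 (PF)
open Crest.Agent.R249.Tv57 (KerD)
open Crest.Agent.R235.Ind167
open Crest.Agent.R235.SwsL_755 Crest.Agent.R235.TwfL_755 Crest.Agent.R235.LTw_453
open Crest.Agent.R235.LTwLd_774 (ldOf)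
open Crest.Agent.R235.QSTri_451 (qs)
open Crest.Agent.R235.FamR_692

noncomputable section

section sys

variable {M : Type v} [MetricSpace M] [CompactSpace M] [ConnectedSpace M]
  [ChartedSpace (EuclideanSpace ℝ (Fin 4)) M] [IsManifold (𝓡 4) ∞ M]
  [RiemannianBundle (fun p : M => TangentSpace (𝓡 4) p)]
  [IsContMDiffRiemannianBundle (𝓡 4) ∞ (EuclideanSpace ℝ (Fin 4))
    (fun p : M => TangentSpace (𝓡 4) p)]
  [IsRiemannianManifold (𝓡 4) M] [MeasurableSpace M] [BorelSpace M]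
  [SecondCountableTopology M] [Nonempty M] [IsFiniteMeasureOnCompacts (μHE[4] : Measure M)]
  {κ : Type} [Fintype κ] {N : ℕ}

/-- **`SWS.OK`** of 755's system. -/
theorem okL (T : ToF 4 M) (q : QS M) (s : PF 4 M κ) (L : LD 4 M N) : (SL T q s L).OK :=
  MdlS_344.okQ T (twf_L q s L) (MdlS_344.cjZ q s L)

/-- the components of the triple are harmonic. -/
theorem harmL {w : Trip M} {e : Fin 3 → F2 E4 M} (T : ToF 4 M) (s : PF 4 M κ) (L : LD 4 M N)
    (he : IsTri (und w) e)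
    (hin : ∀ (x : M) (u v : TangentSpace (𝓡 4) x), inner ℝ u v = at2 (gg e) x u v)
    (i : Fin 3) (x : κ) (z : M) :
    (SL T (qs he hin) s L).H.A (Fin.cons (fun _ => 0) (wwf (und w) e i)) x z = 0 := by
  have h1 := Mdl3_399.Hp_harm T s he hin (fun i => (w i).2) i x z
  have h2 : Mdl3_399.ww (und w) e i = wwf (und w) e i := by
    funext k z
    unfold Mdl3_399.ww wwf qG
    exact q_comm _ _ _
  rw [h2] at h1
  exact h1

end sys

/-- **CEX** : the closed forms `cE t` of the eigenlines, of class `cls a`. -/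
def CEX : Prop :=
  ∀ (M : Type) [MetricSpace M] [CompactSpace M] [ConnectedSpace M]
    [ChartedSpace (EuclideanSpace ℝ (Fin 4)) M] [IsManifold (𝓡 4) ∞ M]
    [RiemannianBundle (fun p : M => TangentSpace (𝓡 4) p)]
    [IsContMDiffRiemannianBundle (𝓡 4) ∞ (EuclideanSpace ℝ (Fin 4))
      (fun p : M => TangentSpace (𝓡 4) p)]
    [IsRiemannianManifold (𝓡 4) M] [MeasurableSpace M] [BorelSpace M]
    [SecondCountableTopology M] [Nonempty M] [IsFiniteMeasureOnCompacts (μHE[4] : Measure M)]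
    (w : Trip M) (e : Fin 3 → F2 E4 M) (he : IsTri (und w) e)
    (hin : ∀ (x : M) (u v : TangentSpace 𝓘(ℝ, E4) x), inner ℝ u v = at2 (gg e) x u v)
    (N : ℕ) (p : M → Matrix (Fin N) (Fin N) ℂ) (a : Z2 M) (hp : IsLine p) (_ : IsChern p a)
    (κ : Type) [Fintype κ] (T : ToF 4 M) (s : PF 4 M κ),
    ∃ cE : E3 → Z2 M,
      Hyp (SL T (qs he hin) s (ldOf p hp)) T (twL (qs he hin) s (ldOf p hp)).cc
        (twL (qs he hin) s (ldOf p hp)).D0.W s.s w e (-1) (-1) (wwf (und w) e) cE ∧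
      ∀ t : E3, ‖t‖ = 1 → cls (cE t) = cls a

/-- **T2X** : the second identity with a uniform constant. -/
def T2X : Prop :=
  ∀ (M : Type) [MetricSpace M] [CompactSpace M] [ConnectedSpace M]
    [ChartedSpace (EuclideanSpace ℝ (Fin 4)) M] [IsManifold (𝓡 4) ∞ M]
    [RiemannianBundle (fun p : M => TangentSpace (𝓡 4) p)]
    [IsContMDiffRiemannianBundle (𝓡 4) ∞ (EuclideanSpace ℝ (Fin 4))
      (fun p : M => TangentSpace (𝓡 4) p)]
    [IsRiemannianManifold (𝓡 4) M] [MeasurableSpace M] [BorelSpace M]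
    [SecondCountableTopology M] [Nonempty M] [IsFiniteMeasureOnCompacts (μHE[4] : Measure M)]
    (κ0 κ1 κT : Type) [Fintype κ0] [Fintype κ1] [Fintype κT] (S : SWS M κ0 κ1 κT) (T : ToF 4 M)
    (c : κ1 → κ0 → (z : M) → TangentSpace (𝓡 4) z)
    (W : κ0 → κ0 → (z : M) → TangentSpace (𝓡 4) z)
    (sT : κT → (z : M) → TangentSpace (𝓡 4) z) (w : Trip M) (e : Fin 3 → F2 E4 M) (σ ι : ℝ)
    (ww : Fin 3 → Fin 3 → M → ℝ) (cE : E3 → Z2 M), S.OK → Hyp S T c W sT w e σ ι ww cE →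
    ∃ C, ∀ t : E3, ‖t‖ = 1 → T2P (tauF S T c W sT w e σ ww cE t) S C

section num

variable {M : Type} [MetricSpace M] [CompactSpace M] [ConnectedSpace M]
  [ChartedSpace (EuclideanSpace ℝ (Fin 4)) M] [IsManifold (𝓡 4) ∞ M]
  [RiemannianBundle (fun p : M => TangentSpace (𝓡 4) p)]
  [IsContMDiffRiemannianBundle (𝓡 4) ∞ (EuclideanSpace ℝ (Fin 4))
    (fun p : M => TangentSpace (𝓡 4) p)]
  [IsRiemannianManifold (𝓡 4) M] [MeasurableSpace M] [BorelSpace M]
  [SecondCountableTopology M] [Nonempty M] {w : Trip M} {e : Fin 3 → F2 E4 M} (hw : Pos3 w)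
  (he : IsTri (und w) e)
  (hin : ∀ (x : M) (u v : TangentSpace 𝓘(ℝ, E4) x), inner ℝ u v = at2 (gg e) x u v)
  {κ : Type} [Fintype κ] (T : ToF 4 M) (s : PF 4 M κ)

include hw in
/-- the numbers for a root. -/
theorem nums_root {N : ℕ} {p : M → Matrix (Fin N) (Fin N) ℂ} {a : Z2 M} (hp : IsLine p)
    (hc : IsChern p a) (hK : K3Type (w 0)) (ha : pI (w 0) a a = -2) :
    ∃ d0 d1 : ℕ, Nonempty (KerD (SL T (qs he hin) s (ldOf p hp)).D0
        (SL T (qs he hin) s (ldOf p hp)).P.A d0) ∧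
      Nonempty (KerD (SL T (qs he hin) s (ldOf p hp)).D1
        (SL T (qs he hin) s (ldOf p hp)).P.B d1) ∧ d1 < d0 ∧
      Nonempty (KerD (SL T (qs he hin) s (ldOf p hp)).DL
        (SL T (qs he hin) s (ldOf p hp)).H.A 4) := by
  obtain ⟨d0, d1, K0, K1, h⟩ := K3Num_692.k3_root hw he hin hK T s
    (IndEven_692.locTw_twQ (qs he hin) s hp hc (L := ldOf p hp)
      (fun _ _ => rfl) (fun _ _ => rfl)) ha
  exact ⟨d0, d1, K0, K1, by omega, (K3Num_692.k3_H hw he hin hK T s).1⟩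

include hw in
/-- the numbers for a class of square zero (MODF). -/
theorem nums_flat {N : ℕ} {p : M → Matrix (Fin N) (Fin N) ℂ} {a : Z2 M} (hp : IsLine p)
    (hc : IsChern p a) (hK : K3Type (w 0)) (ha : pI (w 0) a a = 0) :
    ∃ d0 d1 : ℕ, Nonempty (KerD (SL T (qs he hin) s (ldOf p hp)).D0
        (SL T (qs he hin) s (ldOf p hp)).P.A d0) ∧
      Nonempty (KerD (SL T (qs he hin) s (ldOf p hp)).D1
        (SL T (qs he hin) s (ldOf p hp)).P.B d1) ∧ d1 < d0 ∧
      Nonempty (KerD (SL T (qs he hin) s (ldOf p hp)).DL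
        (SL T (qs he hin) s (ldOf p hp)).H.A 4) := by
  obtain ⟨d0, d1, K0, K1, h⟩ := K3Num_692.k3_flat hw he hin hK T s
    (IndEven_692.locTw_twQ (qs he hin) s hp hc (L := ldOf p hp)
      (fun _ _ => rfl) (fun _ _ => rfl)) ha
  exact ⟨d0, d1, K0, K1, by omega, (K3Num_692.k3_H hw he hin hK T s).1⟩

end num

/-- **MODR**. -/
theorem modr_of (hC : CEX) (hT : T2X) : SWTop_53.MODR := by
  intro M _ _ _ _ _ _ _ _ _ _ _ _ _ w e hw he hin hK d hd hort
  obtain ⟨⟨N, p, a, hp, hc, rfl⟩, hdd⟩ := hd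
  obtain ⟨m, ⟨s⟩⟩ := R249.Tz2_805.exists_PF (n := 4) (M := M)
  let T : ToF 4 M := R249.Tof352.tof 4 M
  have hV := hw.vol 0
  have haa : pI (w 0) a a = -2 := by rw [← ip_cls hV]; exact hdd
  obtain ⟨cE, H, hcl⟩ := hC M w e he hin N p a hp hc _ T s
  have hS := okL T (qs he hin) s (ldOf p hp)
  obtain ⟨C, hF⟩ := fam_of H hS (fun i x z => harmL T s (ldOf p hp) he hin i x z) hcl
    (hT M _ _ _ _ T _ _ _ w e _ _ _ cE hS H) hort
  obtain ⟨d0, d1, K0, K1, hlt, K4⟩ := nums_root hw he hin T s hp hc hK haa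
  refine ⟨_, _, _, inferInstance, inferInstance, inferInstance, _, _, _, C, _, d0, d1, hF, ?_,
    K0, K1, hlt, K4⟩
  rw [haa]
  have := Real.pi_pos
  nlinarith [mul_pos this this]

end

end Crest.Agent.R235.ModR_692
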