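import Mathlib
import Crest.Agent.R275.FredC_685
import Crest.Agent.R235.IndPar_167
import Crest.Agent.R249.Tv12_57

-- ▼ part R235/QInd_435
section

/-!
# R235, TOP/IND: quaternionic parity of the index (helper435)

* `four_dvd_finrank`: a real vector space with `I² = J² = -1`, `IJ = -JI` has real dimension
  divisible by `4`;
* `four_dvd_ind`: a Fredholm operator which commutes with two such pairs modulo compact operators
  has index divisible by `4` (symmetrise over the quaternion group);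
* `b1_cases`: the numerical consequence for a closed four-manifold with a positive triple
  (`b⁺ = 3`, `4 - 4 b₁ + 5 b⁺ - b⁻ = 0`).
-/

set_option autoImplicit false

namespace Crest.Agent.R235.QInd_435

open Crest.Agent.R275.Fred685 LinearMap
open scoped Quaternion

/-- a real vector space with a quaternionic structure has dimension divisible by four. -/
theorem four_dvd_finrank {V : Type*} [AddCommGroup V] [Module ℝ V] (I J : V →ₗ[ℝ] V)
    (hI : ∀ v, I (I v) = -v) (hJ : ∀ v, J (J v) = -v) (hIJ : ∀ v, I (J v) = -J (I v)) :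
    4 ∣ Module.finrank ℝ V := by
  classical
  let q : QuaternionAlgebra.Basis (Module.End ℝ V) (-1 : ℝ) 0 (-1) :=
    { i := I
      j := J
      k := I * J
      i_mul_i := by
        ext v
        simp [hI]
      j_mul_j := by
        ext v
        simp [hJ]
      i_mul_j := rfl
      j_mul_i := by
        ext v
        simp only [Module.End.mul_apply, zero_smul, zero_sub]
        show J (I v) = -(I (J v))
        rw [hIJ, neg_neg] }
  let f : ℍ[ℝ] →ₐ[ℝ] Module.End ℝ V := q.liftHom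
  let _ : Module ℍ[ℝ] V := Module.compHom V f.toRingHom
  have hs : ∀ (a : ℍ[ℝ]) (v : V), a • v = f a v := fun _ _ => rfl
  have : IsScalarTower ℝ ℍ[ℝ] V := by
    refine ⟨fun r a v => ?_⟩
    rw [hs, hs, map_smul]
    rfl
  have h := Module.finrank_mul_finrank ℝ ℍ[ℝ] V
  rw [Quaternion.finrank_eq_four] at h
  exact ⟨_, h.symm⟩

section main

variable {E F : Type*} [NormedAddCommGroup E] [NormedSpace ℝ E] [NormedAddCommGroup F]
  [NormedSpace ℝ F] [CompleteSpace E] [CompleteSpace F]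



end main


end Crest.Agent.R235.QInd_435
end

-- ▼ part R235/IndKer4_936

/-!
Row 235 (S0364), package IND (helper167), leaf L2 (KER4), helper936: the kernels of Clifford
pairs with parallel complex or quaternionic structures.

* `mulL Φ u a z = ∑ b, Φ a b z * u b z` (linear in `u`);
* `cv_mulL` : a parallel matrix field commutes with `∇`;
* `opA_mulL`, `opB_mulL` : if `J1 cc = cc J0`, then `A (J0 u) = J1 (A u)`, `B (J1 w) = J0 (B w)`;
* `two_dvd_kerD`, `four_dvd_kerD` : divisibility of the dimension of a kernel (`KerD`);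
* `two_dvd_A`, `two_dvd_B`, `four_dvd_A`, `four_dvd_B` : for any bundles `D0 D1 : Bun n M _`, symbol
  `cc` and parallel complex structures `PJ D0 J0`, `PJ D1 J1` with `J1 cc = cc J0`;
* `ker4_A`, `ker4_B` : for the quaternionic pair `pairZ q s`.
-/

set_option autoImplicit false
set_option maxSynthPendingDepth 3
set_option linter.unusedSectionVars false
set_option linter.unusedSimpArgs false
set_option maxHeartbeats 1000000

open Filter Topology Set Bundle Manifold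
open Matrix hiding J
open scoped ContDiff Kronecker
open Crest.GeometryTopology.CoordMetric Crest.GeometryTopology.ChartCurvature
  Crest.GeometryTopology.PointedLimit
open Crest.Agent.R202.Tens Crest.Agent.R247.Bo84 Crest.Agent.R249.FrmB_285 Crest.Agent.R249.Vf281
  Crest.Agent.R249.Tz1_805 Crest.Agent.R249.Tz2_805
open Crest.Agent.R249.Fr129
open Crest.Agent.R249.C2_198 hiding cp half_two
open Crest.Agent.R249.Sg129 hiding fg fg_add fg_sub fg_mul fg_const fg_sum ev_fg contMDiff_inner VSm_mCov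
open Crest.Agent.R249.Fr129.Frame (half two_half)
open Crest.Agent.R249.Tz805 Crest.Agent.R249.Dic805
open Crest.Agent.R235.IndAlg_167 Crest.Agent.R235.Ind167

noncomputable section

namespace Crest.Agent.R235.IndKer4_936

section gen

variable {n : ℕ} {M : Type*} [TopologicalSpace M] [ChartedSpace (EuclideanSpace ℝ (Fin n)) M]
  [IsManifold 𝓘(ℝ, EuclideanSpace ℝ (Fin n)) ∞ M]
  [RiemannianBundle (fun x : M => TangentSpace 𝓘(ℝ, EuclideanSpace ℝ (Fin n)) x)]
  [IsContMDiffRiemannianBundle 𝓘(ℝ, EuclideanSpace ℝ (Fin n)) ∞ (EuclideanSpace ℝ (Fin n))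
      (fun x : M => TangentSpace 𝓘(ℝ, EuclideanSpace ℝ (Fin n)) x)]

local notation "𝔼" => EuclideanSpace ℝ (Fin n)
local notation "𝓘E" => 𝓘(ℝ, EuclideanSpace ℝ (Fin n))

variable {κ κ0 κ1 : Type} [Fintype κ] [Fintype κ0] [Fintype κ1]

/-- multiplication by a matrix field. -/
def mulL (Φ : κ → κ → M → ℝ) : (κ → M → ℝ) →ₗ[ℝ] (κ → M → ℝ) where
  toFun u a z := ∑ b, Φ a b z * u b z
  map_add' u v := by
    funext a z
    simp only [Pi.add_apply, mul_add, Finset.sum_add_distrib]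
  map_smul' c u := by
    funext a z
    simp only [Pi.smul_apply, smul_eq_mul, RingHom.id_apply, Finset.mul_sum]
    exact Finset.sum_congr rfl fun b _ => by ring

theorem mulL_apply (Φ : κ → κ → M → ℝ) (u : κ → M → ℝ) (a : κ) (z : M) :
    mulL Φ u a z = ∑ b, Φ a b z * u b z := rfl

theorem smU_mulL {Φ : κ → κ → M → ℝ} (hΦ : ∀ a b, ContMDiff 𝓘E 𝓘(ℝ, ℝ) ∞ (Φ a b))
    {u : κ → M → ℝ} (hu : SmU (n := n) u) : SmU (n := n) (mulL Φ u) := fun a =>
  contMDiff_finsetSum (t := Finset.univ) fun b _ => (hΦ a b).mul (hu b)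

theorem mulL_mulL {Φ Ψ Θ : κ → κ → M → ℝ}
    (h : ∀ a b z, ∑ c, Φ a c z * Ψ c b z = Θ a b z) (u : κ → M → ℝ) :
    mulL Φ (mulL Ψ u) = mulL Θ u := by
  funext a z
  simp only [mulL_apply, Finset.mul_sum]
  rw [Finset.sum_comm]
  refine Finset.sum_congr rfl fun b _ => ?_
  rw [← h a b z, Finset.sum_mul]
  exact Finset.sum_congr rfl fun c _ => by ring

/-- a parallel endomorphism commutes with the connection. -/
theorem cv_mulL {D : Bun n M κ} {Φ : κ → κ → M → ℝ}
    (hΦ : ∀ a b, ContMDiff 𝓘E 𝓘(ℝ, ℝ) ∞ (Φ a b))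
    (hp : ∀ a b z, mgrad n (Φ a b) z
      + ∑ c, (Φ c b z • D.W a c z - Φ a c z • D.W c b z) = 0) {u : κ → M → ℝ}
    (hu : SmU (n := n) u) (a : κ) (z : M) :
    D.cv (mulL Φ u) a z = ∑ b, Φ a b z • D.cv u b z := by
  have hd : ∀ a b, MDifferentiableAt 𝓘E 𝓘(ℝ, ℝ) (Φ a b) z := fun a b =>
    (hΦ a b).mdifferentiable (by simp) z
  have hdu : ∀ b, MDifferentiableAt 𝓘E 𝓘(ℝ, ℝ) (u b) z := fun b =>
    (hu b).mdifferentiable (by simp) z
  have h1 : mgrad n (mulL Φ u a) z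
      = ∑ b, (Φ a b z • mgrad n (u b) z + u b z • mgrad n (Φ a b) z) := by
    have e : mulL Φ u a = fun q => ∑ b, Φ a b q * u b q := rfl
    have hm : ∀ b, MDifferentiableAt 𝓘E 𝓘(ℝ, ℝ) (fun q => Φ a b q * u b q) z := fun b =>
      (hd a b).mul (hdu b)
    rw [e, mgrad_sum Finset.univ hm]
    exact Finset.sum_congr rfl fun b _ => mgrad_mul (hd a b) (hdu b)
  have h2 : ∀ b, mgrad n (Φ a b) z = ∑ c, (Φ a c z • D.W c b z - Φ c b z • D.W a c z) := by
    intro b
    have h := hp a b z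
    rw [eq_neg_of_add_eq_zero_left h, ← Finset.sum_neg_distrib]
    exact Finset.sum_congr rfl fun c _ => neg_sub _ _
  have h3 : ∑ b, u b z • mgrad n (Φ a b) z
      = ∑ b, Φ a b z • ∑ c, u c z • D.W b c z - ∑ b, (mulL Φ u b z) • D.W a b z := by
    have e1 : ∑ b, u b z • mgrad n (Φ a b) z
        = ∑ b, ∑ c, (u b z * Φ a c z) • D.W c b z - ∑ b, ∑ c, (u b z * Φ c b z) • D.W a c z := by
      rw [← Finset.sum_sub_distrib]
      refine Finset.sum_congr rfl fun b _ => ?_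
      rw [h2 b, Finset.smul_sum, ← Finset.sum_sub_distrib]
      refine Finset.sum_congr rfl fun c _ => ?_
      rw [smul_sub, smul_smul, smul_smul]
    rw [e1, Finset.sum_comm, Finset.sum_comm (f := fun b c => (u b z * Φ c b z) • D.W a c z)]
    congr 1
    · refine Finset.sum_congr rfl fun b _ => ?_
      rw [Finset.smul_sum]
      refine Finset.sum_congr rfl fun c _ => ?_
      rw [smul_smul, mul_comm]
    · refine Finset.sum_congr rfl fun b _ => ?_
      rw [mulL_apply, Finset.sum_smul]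
      refine Finset.sum_congr rfl fun c _ => ?_
      rw [mul_comm]
  rw [Bun.cv, h1, Finset.sum_add_distrib, h3]
  have h4 : ∑ b, Φ a b z • D.cv u b z
      = ∑ b, Φ a b z • mgrad n (u b) z + ∑ b, Φ a b z • ∑ c, u c z • D.W b c z := by
    rw [← Finset.sum_add_distrib]
    refine Finset.sum_congr rfl fun b _ => ?_
    rw [Bun.cv, smul_add]
  rw [h4]
  abel

variable {D0 : Bun n M κ0} {D1 : Bun n M κ1}
  {cc : κ1 → κ0 → (p : M) → TangentSpace 𝓘(ℝ, EuclideanSpace ℝ (Fin n)) p}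
  {J0 : κ0 → κ0 → M → ℝ} {J1 : κ1 → κ1 → M → ℝ}

/-- **`A (J0 u) = J1 (A u)`** -/
theorem opA_mulL (h0 : PJ D0 J0)
    (hc : ∀ A y z, ∑ B, J1 A B z • cc B y z = ∑ x, J0 x y z • cc A x z)
    {u : κ0 → M → ℝ} (hu : SmU (n := n) u) :
    opA D0 cc (mulL J0 u) = mulL J1 (opA D0 cc u) := by
  funext A z
  rw [mulL_apply]
  simp only [opA]
  have e1 : ∀ y, (inner ℝ (D0.cv (mulL J0 u) y z) (cc A y z) : ℝ)
      = ∑ b, J0 y b z * inner ℝ (D0.cv u b z) (cc A y z) := by
    intro y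
    rw [cv_mulL h0.sm h0.par hu, sum_inner]
    exact Finset.sum_congr rfl fun b _ => real_inner_smul_left _ _ _
  rw [Finset.sum_congr rfl fun y _ => e1 y, Finset.sum_comm]
  have e2 : ∀ b, ∑ y, J0 y b z * (inner ℝ (D0.cv u b z) (cc A y z) : ℝ)
      = ∑ B, J1 A B z * inner ℝ (D0.cv u b z) (cc B b z) := by
    intro b
    have h := congrArg (fun v => (inner ℝ (D0.cv u b z) v : ℝ)) (hc A b z)
    simp only [inner_sum, real_inner_smul_right] at h
    exact h.symm
  rw [Finset.sum_congr rfl fun b _ => e2 b, Finset.sum_comm]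
  exact Finset.sum_congr rfl fun B _ => (Finset.mul_sum _ _ _).symm

/-- **`B (J1 w) = J0 (B w)`** -/
theorem opB_mulL (h0 : PJ D0 J0) (h1 : PJ D1 J1)
    (hc : ∀ A y z, ∑ B, J1 A B z • cc B y z = ∑ x, J0 x y z • cc A x z)
    {w : κ1 → M → ℝ} (hw : SmU (n := n) w) :
    opB D1 cc (mulL J1 w) = mulL J0 (opB D1 cc w) := by
  funext y z
  rw [mulL_apply]
  simp only [opB]
  have e1 : ∀ x, (inner ℝ (D1.cv (mulL J1 w) x z) (cc x y z) : ℝ)
      = ∑ b, J1 x b z * inner ℝ (D1.cv w b z) (cc x y z) := by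
    intro x
    rw [cv_mulL h1.sm h1.par hw, sum_inner]
    exact Finset.sum_congr rfl fun b _ => real_inner_smul_left _ _ _
  rw [Finset.sum_congr rfl fun x _ => e1 x, Finset.sum_comm, ← Finset.sum_neg_distrib]
  have e2 : ∀ b, - ∑ x, J1 x b z * (inner ℝ (D1.cv w b z) (cc x y z) : ℝ)
      = ∑ x, J0 x y z * inner ℝ (D1.cv w b z) (cc b x z) := by
    intro b
    have h := congrArg (fun v => (inner ℝ (D1.cv w b z) v : ℝ)) (hc b y z)
    simp only [inner_sum, real_inner_smul_right] at h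
    rw [← h, ← Finset.sum_neg_distrib]
    exact Finset.sum_congr rfl fun x _ => by rw [h1.skew x b z]; ring
  rw [Finset.sum_congr rfl fun b _ => e2 b, Finset.sum_comm]
  refine Finset.sum_congr rfl fun x _ => ?_
  rw [h0.skew x y z, ← Finset.mul_sum]
  ring

theorem sec_mulL {D : Bun n M κ} {J : κ → κ → M → ℝ} (h : PJ D J) (u : κ → M → ℝ) :
    D.Sec (mulL J u) := by
  intro a z
  have e := congrFun (congrFun (mulL_mulL (fun a b z => h.pmul a b z) u) a) z
  exact e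

theorem sq_mulL {D : Bun n M κ} {J : κ → κ → M → ℝ} (h : PJ D J) {u : κ → M → ℝ}
    (hu : D.Sec u) : mulL J (mulL J u) = -u := by
  rw [mulL_mulL (Θ := fun a b z => - D.p a b z) (fun a b z => h.sq a b z) u]
  funext a z
  rw [mulL_apply, Pi.neg_apply, Pi.neg_apply, ← hu a z, ← Finset.sum_neg_distrib]
  exact Finset.sum_congr rfl fun b _ => by ring

/-- `I J = K` implies `J I = -K` for skew fields. -/
theorem anti_of_skew {I J K : κ → κ → M → ℝ} (hI : ∀ a b z, I a b z = - I b a z)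
    (hJ : ∀ a b z, J a b z = - J b a z) (hK : ∀ a b z, K a b z = - K b a z)
    (h : ∀ a b z, ∑ c, I a c z * J c b z = K a b z) (a b : κ) (z : M) :
    ∑ c, J a c z * I c b z = - K a b z := by
  rw [← hK b a z, ← h b a z]
  refine Finset.sum_congr rfl fun c _ => ?_
  rw [hJ a c z, hI c b z]
  ring

theorem anti_mulL {I J K : κ → κ → M → ℝ} (hI : ∀ a b z, I a b z = - I b a z)
    (hJ : ∀ a b z, J a b z = - J b a z) (hK : ∀ a b z, K a b z = - K b a z)
    (h : ∀ a b z, ∑ c, I a c z * J c b z = K a b z) (u : κ → M → ℝ) :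
    mulL I (mulL J u) = - mulL J (mulL I u) := by
  rw [mulL_mulL h u, mulL_mulL (Θ := fun a b z => - K a b z) (anti_of_skew hI hJ hK h) u]
  funext a z
  rw [Pi.neg_apply, Pi.neg_apply, mulL_apply, mulL_apply, ← Finset.sum_neg_distrib]
  exact Finset.sum_congr rfl fun b _ => by ring

end gen

/-! ### divisibility -/

/-- a real vector space with a complex structure has even dimension. -/
theorem two_dvd_finrank {V : Type*} [AddCommGroup V] [Module ℝ V] (I : V →ₗ[ℝ] V)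
    (hI : ∀ v, I (I v) = -v) : 2 ∣ Module.finrank ℝ V := by
  let f : ℂ →ₐ[ℝ] Module.End ℝ V := Complex.lift ⟨I, by
    ext v
    simp [hI]⟩
  let _ : Module ℂ V := Module.compHom V f.toRingHom
  have hs : ∀ (a : ℂ) (v : V), a • v = f a v := fun _ _ => rfl
  have : IsScalarTower ℝ ℂ V := by
    refine ⟨fun r a v => ?_⟩
    rw [hs, hs, map_smul]
    rfl
  have h := Module.finrank_mul_finrank ℝ ℂ V
  rw [Complex.finrank_real_complex] at h
  exact ⟨_, h.symm⟩

section ker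

open Crest.Agent.R249.Tv57
open MeasureTheory

variable {n : ℕ} {M : Type*} [MetricSpace M] [ChartedSpace (EuclideanSpace ℝ (Fin n)) M]
  [IsManifold (𝓡 n) ∞ M]
  [RiemannianBundle (fun p : M => TangentSpace (𝓡 n) p)]
  [IsContMDiffRiemannianBundle (𝓡 n) ∞ (EuclideanSpace ℝ (Fin n)) (fun p : M => TangentSpace (𝓡 n) p)]
  [IsRiemannianManifold (𝓡 n) M] [MeasurableSpace M] [BorelSpace M]
  [SecondCountableTopology M] [Nonempty M]
variable {κ κ' κ0 κ1 : Type} [Fintype κ] [Fintype κ'] [Fintype κ0] [Fintype κ1]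

/-- the span of the basis of the kernel. -/
def V {D : Dat n M κ} {A : (κ → M → ℝ) → κ' → M → ℝ} {N : ℕ} (K : KerD D A N) :
    Submodule ℝ (κ → M → ℝ) := Submodule.span ℝ (Set.range K.u)

theorem finrank_V {D : Dat n M κ} {A : (κ → M → ℝ) → κ' → M → ℝ} {N : ℕ} (K : KerD D A N) :
    Module.finrank ℝ (V K) = N := by
  have h := finrank_span_eq_card (R := ℝ) K.li
  rw [Fintype.card_fin] at h
  exact h

theorem mem_V {D : Dat n M κ} {A : (κ → M → ℝ) → κ' → M → ℝ} {N : ℕ} (K : KerD D A N)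
    {v : κ → M → ℝ} (h1 : SmV (n := n) v) (h2 : D.Sec v) (h3 : ∀ b z, A v b z = 0) : v ∈ V K := by
  have e : v = ∑ i, ip n v (K.u i) • K.u i := by
    funext a z
    rw [K.span v h1 h2 h3 a z, Finset.sum_apply, Finset.sum_apply]
    rfl
  rw [e]
  exact Submodule.sum_mem _ fun i _ => Submodule.smul_mem _ _ (Submodule.subset_span ⟨i, rfl⟩)

theorem maps_V {D : Dat n M κ} {A : (κ → M → ℝ) → κ' → M → ℝ} {N : ℕ} (K : KerD D A N)
    (I : (κ → M → ℝ) →ₗ[ℝ] (κ → M → ℝ)) (hI : ∀ i, I (K.u i) ∈ V K) :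
    ∀ v ∈ V K, I v ∈ V K := by
  intro v hv
  have h : V K ≤ (V K).comap I := by
    refine Submodule.span_le.2 ?_
    rintro _ ⟨i, rfl⟩
    exact hI i
  exact h hv

theorem ext_V {D : Dat n M κ} {A : (κ → M → ℝ) → κ' → M → ℝ} {N : ℕ} (K : KerD D A N)
    (S T : (κ → M → ℝ) →ₗ[ℝ] (κ → M → ℝ)) (h : ∀ i, S (K.u i) = T (K.u i)) :
    ∀ v ∈ V K, S v = T v := by
  intro v hv
  have h : V K ≤ LinearMap.eqLocus S T := by
    refine Submodule.span_le.2 ?_
    rintro _ ⟨i, rfl⟩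
    exact h i
  exact h hv

/-- a kernel with a complex structure has even dimension. -/
theorem two_dvd_kerD {D : Dat n M κ} {A : (κ → M → ℝ) → κ' → M → ℝ} {N : ℕ} (K : KerD D A N)
    (I : (κ → M → ℝ) →ₗ[ℝ] (κ → M → ℝ)) (hI : ∀ i, I (K.u i) ∈ V K)
    (I2 : ∀ i, I (I (K.u i)) = - K.u i) : 2 ∣ N := by
  have e := ext_V K (I ∘ₗ I) (-LinearMap.id) I2
  have h := two_dvd_finrank (V := V K) (I.restrict (p := V K) (q := V K) (maps_V K I hI))
    (fun v => Subtype.ext (e v v.2))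
  rwa [finrank_V] at h

/-- a kernel with a quaternionic structure has dimension divisible by four. -/
theorem four_dvd_kerD {D : Dat n M κ} {A : (κ → M → ℝ) → κ' → M → ℝ} {N : ℕ} (K : KerD D A N)
    (I J : (κ → M → ℝ) →ₗ[ℝ] (κ → M → ℝ)) (hI : ∀ i, I (K.u i) ∈ V K) (hJ : ∀ i, J (K.u i) ∈ V K)
    (I2 : ∀ i, I (I (K.u i)) = - K.u i) (J2 : ∀ i, J (J (K.u i)) = - K.u i)
    (IJ : ∀ i, I (J (K.u i)) = - J (I (K.u i))) : 4 ∣ N := by
  have e1 := ext_V K (I ∘ₗ I) (-LinearMap.id) I2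
  have e2 := ext_V K (J ∘ₗ J) (-LinearMap.id) J2
  have e3 := ext_V K (I ∘ₗ J) (-(J ∘ₗ I)) IJ
  have h := QInd_435.four_dvd_finrank (V := V K)
    (I.restrict (p := V K) (q := V K) (maps_V K I hI))
    (J.restrict (p := V K) (q := V K) (maps_V K J hJ))
    (fun v => Subtype.ext (e1 v v.2)) (fun v => Subtype.ext (e2 v v.2))
    (fun v => Subtype.ext (e3 v v.2))
  rwa [finrank_V] at h

variable {D0 : Bun n M κ0} {D1 : Bun n M κ1}
  {cc : κ1 → κ0 → (p : M) → TangentSpace 𝓘(ℝ, EuclideanSpace ℝ (Fin n)) p}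
  {J0 I0 K0 : κ0 → κ0 → M → ℝ} {J1 I1 K1 : κ1 → κ1 → M → ℝ}

theorem mulL_A_mem (h0 : PJ D0 J0)
    (hc : ∀ A y z, ∑ B, J1 A B z • cc B y z = ∑ x, J0 x y z • cc A x z)
    {E : Dat n M κ0} (hE : ∀ a b z, E.p a b z = D0.p a b z) {N : ℕ}
    (K : KerD E (opA D0 cc) N) (i : Fin N) : mulL J0 (K.u i) ∈ V K := by
  refine mem_V K (smU_mulL h0.sm (K.smooth i)) (fun a z => ?_) (fun b z => ?_)
  · rw [Finset.sum_congr rfl fun b _ => by rw [hE a b z]]
    exact sec_mulL h0 _ a z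
  · rw [opA_mulL h0 hc (K.smooth i), mulL_apply]
    refine Finset.sum_eq_zero fun c _ => ?_
    rw [K.ker i c z, mul_zero]

theorem mulL_B_mem (h0 : PJ D0 J0) (h1 : PJ D1 J1)
    (hc : ∀ A y z, ∑ B, J1 A B z • cc B y z = ∑ x, J0 x y z • cc A x z)
    {E : Dat n M κ1} (hE : ∀ a b z, E.p a b z = D1.p a b z) {N : ℕ}
    (K : KerD E (opB D1 cc) N) (i : Fin N) : mulL J1 (K.u i) ∈ V K := by
  refine mem_V K (smU_mulL h1.sm (K.smooth i)) (fun a z => ?_) (fun b z => ?_)
  · rw [Finset.sum_congr rfl fun b _ => by rw [hE a b z]]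
    exact sec_mulL h1 _ a z
  · rw [opB_mulL h0 h1 hc (K.smooth i), mulL_apply]
    refine Finset.sum_eq_zero fun c _ => ?_
    rw [K.ker i c z, mul_zero]

theorem secOf {D : Bun n M κ} {E : Dat n M κ} (hE : ∀ a b z, E.p a b z = D.p a b z)
    {u : κ → M → ℝ} (hu : E.Sec u) : D.Sec u := by
  intro a z
  rw [Finset.sum_congr rfl fun b _ => by rw [← hE a b z]]
  exact hu a z

/-- **the kernel of `A` is complex** -/
theorem two_dvd_A (h0 : PJ D0 J0)
    (hc : ∀ A y z, ∑ B, J1 A B z • cc B y z = ∑ x, J0 x y z • cc A x z)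
    {E : Dat n M κ0} (hE : ∀ a b z, E.p a b z = D0.p a b z) {N : ℕ}
    (K : KerD E (opA D0 cc) N) : 2 ∣ N :=
  two_dvd_kerD K (mulL J0) (mulL_A_mem h0 hc hE K) fun i => sq_mulL h0 (secOf hE (K.sec i))

/-- **the kernel of `B` is complex** -/
theorem two_dvd_B (h0 : PJ D0 J0) (h1 : PJ D1 J1)
    (hc : ∀ A y z, ∑ B, J1 A B z • cc B y z = ∑ x, J0 x y z • cc A x z)
    {E : Dat n M κ1} (hE : ∀ a b z, E.p a b z = D1.p a b z) {N : ℕ}
    (K : KerD E (opB D1 cc) N) : 2 ∣ N :=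
  two_dvd_kerD K (mulL J1) (mulL_B_mem h0 h1 hc hE K) fun i => sq_mulL h1 (secOf hE (K.sec i))

/-- **the kernel of `A` is quaternionic** -/
theorem four_dvd_A (h0 : PJ D0 I0) (h0' : PJ D0 J0)
    (hK0 : ∀ a b z, K0 a b z = - K0 b a z) (hq : ∀ a b z, ∑ c, I0 a c z * J0 c b z = K0 a b z)
    (hc : ∀ A y z, ∑ B, I1 A B z • cc B y z = ∑ x, I0 x y z • cc A x z)
    (hc' : ∀ A y z, ∑ B, J1 A B z • cc B y z = ∑ x, J0 x y z • cc A x z)
    {E : Dat n M κ0} (hE : ∀ a b z, E.p a b z = D0.p a b z) {N : ℕ}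
    (K : KerD E (opA D0 cc) N) : 4 ∣ N :=
  four_dvd_kerD K (mulL I0) (mulL J0) (mulL_A_mem h0 hc hE K) (mulL_A_mem h0' hc' hE K)
    (fun i => sq_mulL h0 (secOf hE (K.sec i))) (fun i => sq_mulL h0' (secOf hE (K.sec i)))
    fun _ => anti_mulL h0.skew h0'.skew hK0 hq _

/-- **the kernel of `B` is quaternionic** -/
theorem four_dvd_B (h0 : PJ D0 I0) (h0' : PJ D0 J0) (h1 : PJ D1 I1) (h1' : PJ D1 J1)
    (hK1 : ∀ a b z, K1 a b z = - K1 b a z) (hq : ∀ a b z, ∑ c, I1 a c z * J1 c b z = K1 a b z)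
    (hc : ∀ A y z, ∑ B, I1 A B z • cc B y z = ∑ x, I0 x y z • cc A x z)
    (hc' : ∀ A y z, ∑ B, J1 A B z • cc B y z = ∑ x, J0 x y z • cc A x z)
    {E : Dat n M κ1} (hE : ∀ a b z, E.p a b z = D1.p a b z) {N : ℕ}
    (K : KerD E (opB D1 cc) N) : 4 ∣ N :=
  four_dvd_kerD K (mulL I1) (mulL J1) (mulL_B_mem h0 h1 hc hE K) (mulL_B_mem h0' h1' hc' hE K)
    (fun i => sq_mulL h1 (secOf hE (K.sec i))) (fun i => sq_mulL h1' (secOf hE (K.sec i)))
    fun _ => anti_mulL h1.skew h1'.skew hK1 hq _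

end ker

section four

open Crest.Agent.R249.Tv57

variable {M : Type*} [MetricSpace M] [ChartedSpace (EuclideanSpace ℝ (Fin 4)) M]
  [IsManifold (𝓡 4) ∞ M]
  [RiemannianBundle (fun p : M => TangentSpace (𝓡 4) p)]
  [IsContMDiffRiemannianBundle (𝓡 4) ∞ (EuclideanSpace ℝ (Fin 4)) (fun p : M => TangentSpace (𝓡 4) p)]
  [IsRiemannianManifold (𝓡 4) M] [MeasurableSpace M] [BorelSpace M]
  [SecondCountableTopology M] [Nonempty M]

variable (q : QS M) {κ : Type} [Fintype κ] (s : PF 4 M κ)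

/-- **KER4 (A)**: the kernel of `A` of the quaternionic pair has dimension divisible by four. -/
theorem ker4_A {E : Dat 4 M (Fin 4)} (hE : ∀ a b z, E.p a b z = (pairZ q s).D0.p a b z) {N : ℕ}
    (K : KerD E (opA (pairZ q s).D0 (pairZ q s).cc) N) : 4 ∣ N :=
  four_dvd_A (D0 := bunQ0 q s sm_thZ) (cc := ccQ q s)
    (I0 := JZ 0) (J0 := JZ 1) (K0 := JZ 2) (I1 := IP q s 0) (J1 := IP q s 1)
    (pj_Z0 q s 0) (pj_Z0 q s 1) (fun a b _ => J_skewR 2 a b) (fun a b _ => quat0 a b)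
    (fun A y z => cc_J q s 0 A y z) (fun A y z => cc_J q s 1 A y z) hE K

/-- **KER4 (B)**: the kernel of `B` of the quaternionic pair has dimension divisible by four. -/
theorem ker4_B {E : Dat 4 M κ} (hE : ∀ a b z, E.p a b z = (pairZ q s).D1.p a b z) {N : ℕ}
    (K : KerD E (opB (pairZ q s).D1 (pairZ q s).cc) N) : 4 ∣ N :=
  four_dvd_B (D0 := bunQ0 q s sm_thZ) (D1 := bunQ1 q s sm_thZ) (cc := ccQ q s)
    (I0 := JZ 0) (J0 := JZ 1) (I1 := IP q s 0) (J1 := IP q s 1) (K1 := IP q s 2)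
    (pj_Z0 q s 0) (pj_Z0 q s 1) (pj_Z1 q s 0) (pj_Z1 q s 1)
    (fun A B z => IP_skew q s 2 A B z) (fun A B z => quat1 q s A B z)
    (fun A y z => cc_J q s 0 A y z) (fun A y z => cc_J q s 1 A y z) hE K

end four

end Crest.Agent.R235.IndKer4_936
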