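import Crest.Agent.R235.IndEvenE_692
import Crest.Agent.R235.Mdl3B_399

/-!
Row 235 (helper692): THE NUMBERS of package SW (M10): dimensions of the kernels of the twisted quaternionic
pairs and of the Hodge pair.

* `kerD_unique` : the number `N` of `KerD D A N` is unique;
* `locTw_Z`     : the untwisted pair is `LocTw` with `b = 0`;
* `exists_tw`   : `KerD`s of every twist exist;  `exists_H` : those of the Hodge pair;
* `num`         : `d0 - d1 = dH0 - dH1 + 1/(4π²) I F b b`;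
* `num_chern`   : `d0 - d1 = dH0 - dH1 + pI (w 0) a a` for `b = -2π a`;
* `num_Z`       : `d0 - d1 = dH0 - dH1` for `b = 0`.
-/

set_option autoImplicit false
set_option maxSynthPendingDepth 3
set_option linter.unusedSectionVars false
set_option linter.unusedSimpArgs false
set_option maxHeartbeats 1000000

open Filter Topology Set Bundle Manifold MeasureTheory
open Matrix hiding J
open scoped ContDiff ENNReal NNReal
open Crest.GeometryTopology.CoordMetric Crest.GeometryTopology.ChartCurvature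
open Crest.Agent.R240 Crest.Agent.R240.Ch
open Crest.Agent.R249.Tz2_805 Crest.Agent.R249.Tz1_805
open Crest.Agent.R249.Fr129
open Crest.Agent.R249.C2_198 hiding cp half_two
open Crest.Agent.R249.Sg129 (SG ev ONF)
open Crest.Agent.R249.Tv57 hiding GG
open Crest.Agent.R249.Tz805 Crest.Agent.R249.HK9_714
open Crest.Agent.R235.IndAlg_167 hiding half_two
open Crest.Agent.R235.Ind167 Crest.Agent.R235.IndVol_57

universe u

noncomputable section

namespace Crest.Agent.R235.IndEven_692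

section uniq

variable {n : ℕ} {M : Type*} [MetricSpace M] [ChartedSpace (EuclideanSpace ℝ (Fin n)) M]
  [IsManifold (𝓡 n) ∞ M]
  [RiemannianBundle (fun p : M => TangentSpace (𝓡 n) p)]
  [IsContMDiffRiemannianBundle (𝓡 n) ∞ (EuclideanSpace ℝ (Fin n)) (fun p : M => TangentSpace (𝓡 n) p)]
  [IsRiemannianManifold (𝓡 n) M] [MeasurableSpace M] [BorelSpace M]
  [SecondCountableTopology M] [Nonempty M]
variable {κ κ' : Type} [Fintype κ] [Fintype κ']

theorem kerD_le {D : Dat n M κ} {A : (κ → M → ℝ) → κ' → M → ℝ} {N N' : ℕ} (K : KerD D A N)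
    (K' : KerD D A N') : N ≤ N' := by
  have h1 : IndKer4_936.V K ≤ IndKer4_936.V K' := by
    refine Submodule.span_le.2 ?_
    rintro _ ⟨i, rfl⟩
    exact IndKer4_936.mem_V K' (K.smooth i) (K.sec i) (K.ker i)
  haveI : FiniteDimensional ℝ (IndKer4_936.V K') :=
    FiniteDimensional.span_of_finite ℝ (Set.finite_range _)
  have h2 := Submodule.finrank_mono h1
  rwa [IndKer4_936.finrank_V, IndKer4_936.finrank_V] at h2

/-- the dimension of the kernel is unique -/
theorem kerD_unique {D : Dat n M κ} {A : (κ → M → ℝ) → κ' → M → ℝ} {N N' : ℕ} (K : KerD D A N)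
    (K' : KerD D A N') : N = N' := le_antisymm (kerD_le K K') (kerD_le K' K)

end uniq

section topo

variable {M : Type u} [TopologicalSpace M] [ChartedSpace E4 M] [IsManifold 𝓘(ℝ, E4) ∞ M]
  [RiemannianBundle (fun x : M => TangentSpace 𝓘(ℝ, E4) x)]
  [IsContMDiffRiemannianBundle 𝓘(ℝ, E4) ∞ E4 (fun x : M => TangentSpace 𝓘(ℝ, E4) x)]


end topo

variable {M : Type u} [MetricSpace M] [CompactSpace M] [ConnectedSpace M]
  [ChartedSpace E4 M] [IsManifold (𝓡 4) ∞ M]
  [RiemannianBundle (fun x : M => TangentSpace (𝓡 4) x)]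
  [IsContMDiffRiemannianBundle (𝓡 4) ∞ E4 (fun x : M => TangentSpace (𝓡 4) x)]
  [IsRiemannianManifold (𝓡 4) M] [MeasurableSpace M] [BorelSpace M]
  [SecondCountableTopology M] [Nonempty M]

variable {κ κ' κ0 κ1 : Type} [Fintype κ] [Fintype κ'] [Fintype κ0] [Fintype κ1]
  {q : QS M} (s : PF 4 M κ) (T : ToF 4 M)

/-- kernels of a twist exist. -/
theorem exists_tw {P : CPair 4 M κ' κ0 κ1} {b : F2 E4 M} (L : LocTw q P b) :
    ∃ d0 d1 : ℕ, Nonempty (KerD (R249.Wk352.dat0 T P) (R249.Wk352.dpair T P).A d0) ∧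
      Nonempty (KerD (R249.Wk352.dat0 T (R249.Wk352.swapP P)) (R249.Wk352.dpair T P).B d1) := by
  obtain ⟨d0, d1, K0, K1, -⟩ := exists_index T L
  exact ⟨d0, d1, ⟨K0⟩, ⟨K1⟩⟩

variable (q) in
/-- kernels of the Hodge pair exist. -/
theorem exists_H : ∃ d0 d1 : ℕ,
    Nonempty (KerD (R249.Wk352.dat0 T (pairH q s)) (R249.Wk352.dpair T (pairH q s)).A d0) ∧
    Nonempty (KerD (R249.Wk352.dat0 T (R249.Wk352.swapP (pairH q s)))
      (R249.Wk352.dpair T (pairH q s)).B d1) := by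
  obtain ⟨d0, d1, K0, K1, -⟩ := index_H T q s
  exact ⟨d0, d1, ⟨K0⟩, ⟨K1⟩⟩

variable {F : F2 E4 M} {J : EndF E4 M} (hC : Cpt F J)
  (hF : ∀ (x : M) (u v : TangentSpace (𝓡 4) x), at2 F x u v = inner ℝ (q.op 0 x u) v)
  {P : CPair 4 M κ' κ0 κ1} {b : F2 E4 M} {d0 d1 e0 e1 : ℕ}
  (K0 : Nonempty (KerD (R249.Wk352.dat0 T P) (R249.Wk352.dpair T P).A d0))
  (K1 : Nonempty (KerD (R249.Wk352.dat0 T (R249.Wk352.swapP P)) (R249.Wk352.dpair T P).B d1))
  (H0 : Nonempty (KerD (R249.Wk352.dat0 T (pairH q s)) (R249.Wk352.dpair T (pairH q s)).A e0))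
  (H1 : Nonempty (KerD (R249.Wk352.dat0 T (R249.Wk352.swapP (pairH q s)))
    (R249.Wk352.dpair T (pairH q s)).B e1))

include hC hF K0 K1 H0 H1

/-- **the index of a twist against the index of the Hodge pair** -/
theorem num (hb : ∀ x, Alt (at2 b x)) (L : LocTw q P b) :
    (d0 : ℝ) - d1 = (e0 : ℝ) - e1 + 1 / (4 * Real.pi ^ 2) * Int.I F b b := by
  obtain ⟨c0, c1, k0, k1, -, hf⟩ := index_tw s T hC hF hb L
  obtain ⟨g0, g1, l0, l1, -, hg⟩ := index_H T q s
  obtain ⟨K0⟩ := K0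
  obtain ⟨K1⟩ := K1
  obtain ⟨H0⟩ := H0
  obtain ⟨H1⟩ := H1
  have a0 : d0 = c0 := kerD_unique K0 k0
  have a1 : d1 = c1 := kerD_unique K1 k1
  have a2 : e0 = g0 := kerD_unique H0 l0
  have a3 : e1 = g1 := kerD_unique H1 l1
  subst a0 a1 a2 a3
  rw [hf, hg]

/-- the untwisted case -/
theorem num_Z (L : LocTw q P 0) : (d0 : ℝ) - d1 = (e0 : ℝ) - e1 := by
  have h := num s T hC hF K0 K1 H0 H1 (b := 0) (fun x v => rfl) L
  have h1 : Int.I F (0 : F2 E4 M) 0 = 0 := by
    rw [I_eq hC]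
    have : ∀ x, 2 * qG F (0 : F2 E4 M) 0 x = 0 := by
      intro x
      have h2 : at2 (0 : F2 E4 M) x = 0 := rfl
      have h3 : R240.W (0 : Bil) 0 = 0 := by simp [R240.W, R240.ent]
      unfold qG R240.q
      rw [h2, h3]
      simp
    simp [this]
  rw [h1, mul_zero, add_zero] at h
  exact h

omit hC hF in
/-- **the twist by a line bundle with Chern form `a`** -/
theorem num_chern {F a : Z2 M} (hC : Cpt (F.1.1 : F2 E4 M) J)
    (hF : ∀ (x : M) (u v : TangentSpace (𝓡 4) x), at2 (F.1.1 : F2 E4 M) x u v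
      = inner ℝ (q.op 0 x u) v)
    (L : LocTw q P ((-(2 * Real.pi)) • (a.1.1 : F2 E4 M))) :
    (d0 : ℝ) - d1 = (e0 : ℝ) - e1 + pI F a a := by
  have h1 := num s T hC hF K0 K1 H0 H1 (b := (-(2 * Real.pi)) • (a.1.1 : F2 E4 M))
    (fun x => val_alt ((-(2 * Real.pi)) • a) x) L
  rw [h1, I_smul_chern hC]

end Crest.Agent.R235.IndEven_692
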