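import Crest.Agent.R235.IndSig2_723
import Crest.Agent.R235.IndKer4_936
import Crest.Agent.R235.HodgeEnd_194
import Crest.Agent.R235.IndNum_692
import Crest.Agent.R235.DichH1_723
import Crest.Agent.R235.IndTW_692
import Crest.Agent.R235.SwsL_755
import Crest.Agent.R235.LTwLd_774

-- ▼ part R235/IndSig3_723
section

/-!
Row 235 (S0364), package IND, leaf L5 (helper723), part 3: `KER4` is a theorem (helper936), hence
`sig235_of_HODGE : HODGE → SIG235.{0}`.
-/

set_option autoImplicit false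
set_option maxSynthPendingDepth 3

open scoped Manifold ContDiff

namespace Crest.Agent.R235.IndSig2_723

theorem ker4 : KER4 := by
  intro M _ _ _ _ _ _ _ _ _ _ _ _ κ _ T q s d0 d1 h0 h1
  obtain ⟨k0⟩ := h0
  obtain ⟨k1⟩ := h1
  exact ⟨IndKer4_936.ker4_A q s (fun _ _ _ => rfl) k0, IndKer4_936.ker4_B q s (fun _ _ _ => rfl) k1⟩

/-- **`SIG235`** from `HODGE`. -/
theorem sig235_of_HODGE (hH : HODGE) : DichProps_723.SIG235.{0} := sig235_of_hodge ker4 hH

end Crest.Agent.R235.IndSig2_723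
end

-- ▼ part R235/Sig235_723
section

/-!
Row 235 (S0364), package IND (helper723): **`SIG235` is a theorem** (from `HODGE` of helper194, `KER4` of
helper936, the index theorem of R249 and the density identities of helper167, helper819).
-/

set_option autoImplicit false

namespace Crest.Agent.R235.Sig235_723

/-- **`SIG235`**. -/
theorem sig235 : DichProps_723.SIG235.{0} := IndSig2_723.sig235_of_HODGE Hodge_194.hodge

end Crest.Agent.R235.Sig235_723
end

-- ▼ part R235/K3Num_723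
section

/-!
Row 235 (S0364), package SW / MODEL (helper723): THE NUMBERS OF THE MODELS.

`w` positive triple, `e` its orthonormalisation, metric of `e`, `q = qs he hin`, `s` any Parseval frame.

* `numbers`   : `KerD pairH.A (bp + 1)`, `KerD pairH.B b1`, `P`, `N`, `HasB1 M b1`, index relations;
* `numK3`     : `K3Type (w 0)` : `d0 = 4`, `d1 = 0` for the Hodge pair;
* `kerK3`     : `K3Type (w 0)` : `KerD (dat0 T (pairH q s)) (dpair T (pairH q s)).A 4` (and `B`, `0`);
* `lt_of_pI`  : `K3Type (w 0)`, twist with curvature `-2π a`, `-4 < ∫ a ∧ a` : `d1 < d0`;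
* `lt_root`   : `cls a ∈ Root (w 0)` : `d1 < d0`;      `lt_flat` : `cls a = 0` : `d1 < d0`;
* `numB`      : untwisted pair: `d0 + b = d1 + 1 + bp`, with `P`, `N`.
-/

set_option autoImplicit false
set_option maxSynthPendingDepth 3
set_option linter.unusedSectionVars false
set_option linter.unusedVariables false
set_option maxHeartbeats 1000000

open Filter Topology Set Bundle Manifold MeasureTheory
open scoped ContDiff ENNReal NNReal
open Crest.GeometryTopology.CoordMetric Crest.GeometryTopology.ChartCurvature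
  Crest.GeometryTopology.PointedLimit
open Crest.Agent.R240 Crest.Agent.R240.Ch
open Crest.Agent.R249.Tz2_805 Crest.Agent.R249.Tz805 Crest.Agent.R249.Vf281
open Crest.Agent.R249.HK9_714 Crest.Agent.R249.FrmB_285
open Crest.Agent.R249.Tv57 hiding GG
open Crest.Agent.R235.DichProps_723 Crest.Agent.R235.Ind167 Crest.Agent.R235.IndSig_723
open Crest.Agent.R235.IndR_819 Crest.Agent.R235.RiemC_399 Crest.Agent.R235.QSTri_451
open Crest.Agent.R235.IndEven_692 (LocTw exists_H exists_tw num_chern num_Z kerD_unique)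

noncomputable section

namespace Crest.Agent.R235.K3Num_723

section lin

variable {V : Type*} [AddCommGroup V] [Module ℝ V] [FiniteDimensional ℝ V]


end lin

section top

variable {M : Type} [TopologicalSpace M] [T2Space M] [CompactSpace M]
  [ChartedSpace E4 M] [IsManifold 𝓘(ℝ, E4) ∞ M]



end top

variable {M : Type} [MetricSpace M] [CompactSpace M] [ConnectedSpace M]
    [ChartedSpace (EuclideanSpace ℝ (Fin 4)) M] [IsManifold (𝓡 4) ∞ M]
    [RiemannianBundle (fun p : M => TangentSpace (𝓡 4) p)]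
    [IsContMDiffRiemannianBundle (𝓡 4) ∞ (EuclideanSpace ℝ (Fin 4))
      (fun p : M => TangentSpace (𝓡 4) p)]
    [IsRiemannianManifold (𝓡 4) M] [MeasurableSpace M] [BorelSpace M]
    [SecondCountableTopology M] [Nonempty M]
  {w : Trip M} {e : Fin 3 → F2 E4 M} (hw : Pos3 w) (he : IndTri_451.IsTri (IndTri_451.und w) e)
  (hin : ∀ (x : M) (u v : TangentSpace 𝓘(ℝ, E4) x), inner ℝ u v = at2 (IndTri_451.gg e) x u v)
  {κ : Type} [Fintype κ] (T : ToF 4 M) (s : PF 4 M κ)

include hw in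
/-- the numbers of the Hodge pair. -/
theorem numbers {d0 d1 : ℕ}
    (k0 : Nonempty (KerD (R249.Wk352.dat0 T (pairH (qs he hin) s))
      (R249.Wk352.dpair T (pairH (qs he hin) s)).A d0))
    (k1 : Nonempty (KerD (R249.Wk352.dat0 T (R249.Wk352.swapP (pairH (qs he hin) s)))
      (R249.Wk352.dpair T (pairH (qs he hin) s)).B d1)) :
    ∃ P N : Submodule ℝ (H2 M), HasB1 M d1 ∧ FiniteDimensional ℝ (H2 M) ∧ P ⊔ N = ⊤ ∧
      Module.finrank ℝ P + 1 = d0 ∧
      (∀ x ∈ P, x ≠ 0 → 0 < ip (w 0) x x) ∧ (∀ x ∈ N, x ≠ 0 → ip (w 0) x x < 0) ∧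
      (∀ x ∈ P, ∀ y ∈ N, ip (w 0) x y = 0) ∧
      5 * Module.finrank ℝ P + 4 = 4 * d1 + Module.finrank ℝ N ∧
      (4 : ℤ) ∣ 1 - d1 + Module.finrank ℝ P := by
  set q : QS M := qs he hin with hq
  obtain ⟨c0, c1, k0H, k1H, iH, eH⟩ := index_H T q s
  obtain ⟨d00, d01, k00, k01, i0, e0⟩ := index_Z T q s
  have hC := comp_w he hin
  obtain ⟨d0R, d1R, k0R, k1R, iR, eR⟩ := index_R (wdd T (pairR s (isVol_volF hC)))
    (R249.Wk352.dpair T (pairR s (isVol_volF hC)))
  obtain ⟨h40, h41⟩ := IndSig2_723.ker4 M _ T q s d00 d01 ⟨k00⟩ ⟨k01⟩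
  have hout := Hodge_194.hodge M w hw e he hin _ T s c0 c1 d0R d1R ⟨k0H⟩ ⟨k1H⟩ ⟨k0R⟩ ⟨k1R⟩
  have hqq : ∀ (x : M) (u v : TangentSpace 𝓘(ℝ, E4) x),
      at2 (IndTri_451.und w 0) x u v = inner ℝ (q.op 0 x u) v := by
    intro x u v
    rw [← he.e_zero]
    exact e_eq_inner he hin 0 x u v
  have hHR := int_HR (b := 0) hC hqq (wdd T (pairH q s)) (wdd T (pairR s (isVol_volF hC)))
    (r0 := dens T (pairZ q s)) (fun z e h ha => rZ_eq T s h ha) iH iR
  have hHi : ∫ z, dens T (pairH q s) z ∂(μHE[4] : Measure M) =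
      ∫ z, dens T (pairZ q s) z ∂(μHE[4] : Measure M) := by
    rw [← integral_dens T q s 1]
    exact integral_congr_ae (Filter.Eventually.of_forall fun z => dens_H_poly T q s z)
  obtain ⟨K0⟩ := k0
  obtain ⟨K1⟩ := k1
  have a0 : d0 = c0 := kerD_unique K0 k0H
  have a1 : d1 = c1 := kerD_unique K1 k1H
  subst a0 a1
  obtain ⟨P, N, hb, hbe, hf, hs, hp, hm, h1, h2, h3⟩ := hout
  obtain ⟨e1, e2⟩ := sig_num (eH.trans hHi.symm) eR e0 hHi hHR h40 h41 hp hm rfl hbe
  exact ⟨P, N, hb, hf, hs, hp, h1, h2, h3, e1, e2⟩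



/-- the form of `w 0`. -/
theorem hq0 (x : M) (u v : TangentSpace (𝓡 4) x) :
    at2 ((w 0).1.1 : F2 E4 M) x u v = inner ℝ ((qs he hin).op 0 x u) v := by
  have h := e_eq_inner he hin 0 x u v
  rw [he.e_zero] at h
  exact h

variable {κ' κ0 κ1 : Type} [Fintype κ'] [Fintype κ0] [Fintype κ1]
  {P : CPair 4 M κ' κ0 κ1} {d0 d1 : ℕ}
  (K0 : Nonempty (KerD (R249.Wk352.dat0 T P) (R249.Wk352.dpair T P).A d0))
  (K1 : Nonempty (KerD (R249.Wk352.dat0 T (R249.Wk352.swapP P)) (R249.Wk352.dpair T P).B d1))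






end Crest.Agent.R235.K3Num_723
end
end

-- ▼ part R235/NumC_692

/-!
Row 235 (S0364), packages SW / FAM (helper692): THE NUMBERS of 755's system `SL` of a line bundle whose Chern
form has square zero (MODXG, MODT, MODB; no condition on the type of the manifold).

* `numC`  : twist with curvature `-2π a`, `∫ a ∧ a = 0`: `d0 + b = d1 + 1 + bp`, with `P`, `N`;
* `numsL` : the same for `S = SL T (qs he hin) s (ldOf p hp)`;
* `numsLq` : general: `d0 + b = d1 + 1 + bp + a·a` (in `ℝ`).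
-/

set_option autoImplicit false
set_option maxSynthPendingDepth 3
set_option linter.unusedSectionVars false
set_option linter.unusedVariables false
set_option maxHeartbeats 1000000

open Filter Topology Set Bundle Manifold MeasureTheory
open scoped ContDiff ENNReal NNReal
open Crest.Agent.R240 Crest.Agent.R240.Ch
open Crest.Agent.R249.Tz2_805 Crest.Agent.R249.Tz805 Crest.Agent.R249.Vf281
open Crest.Agent.R249.Tv57 hiding GG
open Crest.Agent.R235.DichProps_723 Crest.Agent.R235.Ind167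
open Crest.Agent.R235.QSTri_451
open Crest.Agent.R235.IndEven_692
open Crest.Agent.R235.SwsL_755 Crest.Agent.R235.LTwLd_774

noncomputable section

namespace Crest.Agent.R235.NumC_692

variable {M : Type} [MetricSpace M] [CompactSpace M] [ConnectedSpace M]
    [ChartedSpace (EuclideanSpace ℝ (Fin 4)) M] [IsManifold (𝓡 4) ∞ M]
    [RiemannianBundle (fun p : M => TangentSpace (𝓡 4) p)]
    [IsContMDiffRiemannianBundle (𝓡 4) ∞ (EuclideanSpace ℝ (Fin 4))
      (fun p : M => TangentSpace (𝓡 4) p)]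
    [IsRiemannianManifold (𝓡 4) M] [MeasurableSpace M] [BorelSpace M]
    [SecondCountableTopology M] [Nonempty M]
  {w : Trip M} {e : Fin 3 → F2 E4 M} (hw : Pos3 w) (he : IndTri_451.IsTri (IndTri_451.und w) e)
  (hin : ∀ (x : M) (u v : TangentSpace 𝓘(ℝ, E4) x), inner ℝ u v = at2 (IndTri_451.gg e) x u v)
  {κ : Type} [Fintype κ] (T : ToF 4 M) (s : PF 4 M κ)

/-- the numbers `bp = b⁺`, `b = b₁` of the Hodge pair and the splitting. -/
def HNum (w : Trip M) (bp : ℕ) : Prop :=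
  ∃ P N : Submodule ℝ (H2 M), FiniteDimensional ℝ (H2 M) ∧ P ⊔ N = ⊤ ∧
    Module.finrank ℝ P = bp ∧
    (∀ x ∈ P, x ≠ 0 → 0 < ip (w 0) x x) ∧ (∀ x ∈ N, x ≠ 0 → ip (w 0) x x < 0) ∧
    (∀ x ∈ P, ∀ y ∈ N, ip (w 0) x y = 0)

variable {κ' κ0 κ1 : Type} [Fintype κ'] [Fintype κ0] [Fintype κ1]
  {P : CPair 4 M κ' κ0 κ1} {d0 d1 : ℕ}
  (K0 : Nonempty (KerD (R249.Wk352.dat0 T P) (R249.Wk352.dpair T P).A d0))
  (K1 : Nonempty (KerD (R249.Wk352.dat0 T (R249.Wk352.swapP P)) (R249.Wk352.dpair T P).B d1))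

include hw K0 K1 in
/-- **the numbers of a twist**: `d0 + b = d1 + 1 + bp + a·a`. -/
theorem numQ {a : Z2 M} (L : LocTw (qs he hin) P ((-(2 * Real.pi)) • (a.1.1 : F2 E4 M))) :
    ∃ (b bp : ℕ),
    Nonempty (KerD (R249.Wk352.dat0 T (pairH (qs he hin) s))
      (R249.Wk352.dpair T (pairH (qs he hin) s)).A (1 + bp)) ∧
    Nonempty (KerD (R249.Wk352.dat0 T (R249.Wk352.swapP (pairH (qs he hin) s)))
      (R249.Wk352.dpair T (pairH (qs he hin) s)).B b) ∧
    HasB1 M b ∧ (d0 : ℝ) + b = d1 + 1 + bp + pI (w 0) a a ∧ HNum w bp := by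
  obtain ⟨c0, c1, k0, k1⟩ := exists_H (q := qs he hin) s T
  obtain ⟨P', N', hb, hf, hs, hp, h1, h2, h3, e1, e2⟩ := K3Num_723.numbers hw he hin T s k0 k1
  have h := num_chern s T K0 K1 k0 k1 (comp_w he hin).cpt (K3Num_723.hq0 he hin) L
  have h6 : c0 = 1 + Module.finrank ℝ P' := by omega
  subst h6
  refine ⟨c1, _, k0, k1, hb, ?_, P', N', hf, hs, rfl, h1, h2, h3⟩
  push_cast at h
  linarith

include hw K0 K1 in
/-- **square zero**: `d0 + b = d1 + 1 + bp`. -/
theorem numC {a : Z2 M} (L : LocTw (qs he hin) P ((-(2 * Real.pi)) • (a.1.1 : F2 E4 M)))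
    (ha : pI (w 0) a a = 0) :
    ∃ (b bp : ℕ),
    Nonempty (KerD (R249.Wk352.dat0 T (pairH (qs he hin) s))
      (R249.Wk352.dpair T (pairH (qs he hin) s)).A (1 + bp)) ∧
    Nonempty (KerD (R249.Wk352.dat0 T (R249.Wk352.swapP (pairH (qs he hin) s)))
      (R249.Wk352.dpair T (pairH (qs he hin) s)).B b) ∧
    HasB1 M b ∧ d0 + b = d1 + 1 + bp ∧ HNum w bp := by
  obtain ⟨b, bp, k0, k1, hb, h, hn⟩ := numQ hw he hin T s K0 K1 L
  refine ⟨b, bp, k0, k1, hb, ?_, hn⟩
  rw [ha, add_zero] at h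
  exact_mod_cast h

include hw in
/-- **the numbers of 755's system**, class of square zero. -/
theorem numsL {N : ℕ} {p : M → Matrix (Fin N) (Fin N) ℂ} {a : Z2 M} (hp : IsLine p)
    (hc : IsChern p a) (ha : pI (w 0) a a = 0) :
    ∃ d0 d1 b bp : ℕ, Nonempty (KerD (SL T (qs he hin) s (ldOf p hp)).D0
        (SL T (qs he hin) s (ldOf p hp)).P.A d0) ∧
      Nonempty (KerD (SL T (qs he hin) s (ldOf p hp)).D1
        (SL T (qs he hin) s (ldOf p hp)).P.B d1) ∧
      Nonempty (KerD (SL T (qs he hin) s (ldOf p hp)).DL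
        (SL T (qs he hin) s (ldOf p hp)).H.A (1 + bp)) ∧
      Nonempty (KerD (SL T (qs he hin) s (ldOf p hp)).DT
        (SL T (qs he hin) s (ldOf p hp)).H.B b) ∧
      HasB1 M b ∧ d0 + b = d1 + 1 + bp ∧ HNum w bp := by
  have L := locTw_twQ (qs he hin) s hp hc (L := ldOf p hp) (fun _ _ => rfl) (fun _ _ => rfl)
  obtain ⟨d0, d1, K0, K1⟩ := exists_tw T L
  obtain ⟨b, bp, k0, k1, hb, h, hn⟩ := numC hw he hin T s K0 K1 L ha
  exact ⟨d0, d1, b, bp, K0, K1, k0, k1, hb, h, hn⟩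

end Crest.Agent.R235.NumC_692
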