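import Mathlib
import Crest.Agent.R235.SWSym_451

-- ▼ part R235/SWPt_451
section

/-!
Row 235 (S0364), PACKAGE SW, MODEL-4 (helper451): pointwise linear algebra of the eigenline.

`c i` : Clifford matrices, `J`, `J1` complex structures, `P` a projection of real rank two commuting
with `J`.  Every complex linear map `T : im P → im p1` is `v ↦ c(X) J v` for a unique real `X`,
`⟪X, e_i⟫ = (1/2) tr ((c_i J)ᵀ T P)`.
-/

set_option autoImplicit false

open Matrix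

namespace Crest.Agent.R235.SWPt_451

noncomputable section

variable {κ0 κ1 : Type*} [Fintype κ0] [Fintype κ1]

/-- a symmetric idempotent matrix of trace zero vanishes. -/
theorem eq_zero_of_proj {Q : Matrix κ0 κ0 ℝ} (hs : Qᵀ = Q) (hi : Q * Q = Q) (ht : Q.trace = 0) :
    Q = 0 := by
  have h1 : (Qᴴ * Q).trace = 0 := by
    have : Qᴴ = Q := by rw [conjTranspose_eq_transpose_of_trivial, hs]
    rw [this, hi, ht]
  exact trace_conjTranspose_mul_self_eq_zero_iff.1 h1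

/-- the data at a point. -/
structure Pnt (p0 J P : Matrix κ0 κ0 ℝ) (p1 J1 : Matrix κ1 κ1 ℝ) (c : Fin 4 → Matrix κ1 κ0 ℝ) :
    Prop where
  clif : ∀ i j, (c i)ᵀ * c j + (c j)ᵀ * c i = if i = j then 2 • p0 else 0
  cp : ∀ i, c i * p0 = c i
  pc : ∀ i, p1 * c i = c i
  p1s : p1ᵀ = p1
  p1i : p1 * p1 = p1
  p1t : p1.trace = 4
  Js : Jᵀ = - J
  J1s : J1ᵀ = - J1
  Jsq : J * J = - p0
  Jc : ∀ i, J1 * c i = c i * J
  Ps : Pᵀ = P
  PP : P * P = P
  trP : P.trace = 2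
  pP : p0 * P = P
  PJ : P * J = J * P

namespace Pnt

variable {p0 J P : Matrix κ0 κ0 ℝ} {p1 J1 : Matrix κ1 κ1 ℝ} {c : Fin 4 → Matrix κ1 κ0 ℝ}


/-- a unit vector of the line. -/
theorem exists_unit (h : Pnt p0 J P p1 J1 c) : ∃ u : κ0 → ℝ, P *ᵥ u = u ∧ u ⬝ᵥ u = 1 := by
  classical
  have hne : P ≠ 0 := by
    intro h0
    have := h.trP
    rw [h0, trace_zero] at this
    norm_num at this
  obtain ⟨v, hv⟩ : ∃ v : κ0 → ℝ, P *ᵥ v ≠ 0 := by
    by_contra hcon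
    push Not at hcon
    apply hne
    ext i j
    have h1 := congrFun (hcon (Pi.single j 1)) i
    rw [mulVec_single_one] at h1
    exact h1
  set w := P *ᵥ v with hw
  have hPw : P *ᵥ w = w := by rw [hw, mulVec_mulVec, h.PP]
  have hpos : 0 < w ⬝ᵥ w := by
    have h1 : 0 ≤ w ⬝ᵥ w := by
      unfold dotProduct
      exact Finset.sum_nonneg fun i _ => mul_self_nonneg _
    refine lt_of_le_of_ne h1 fun h0 => hv ?_
    exact dotProduct_self_eq_zero.1 h0.symm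
  refine ⟨(√(w ⬝ᵥ w))⁻¹ • w, ?_, ?_⟩
  · rw [mulVec_smul, hPw]
  · rw [smul_dotProduct, dotProduct_smul, smul_eq_mul, smul_eq_mul]
    have h2 := Real.mul_self_sqrt hpos.le
    have h3 := (Real.sqrt_pos.2 hpos).ne'
    field_simp
    nlinarith

theorem p0_fix (h : Pnt p0 J P p1 J1 c) {u : κ0 → ℝ} (hu : P *ᵥ u = u) : p0 *ᵥ u = u := by
  conv_lhs => rw [← hu]
  rw [mulVec_mulVec, h.pP, hu]

theorem J_mem (h : Pnt p0 J P p1 J1 c) {u : κ0 → ℝ} (hu : P *ᵥ u = u) : P *ᵥ (J *ᵥ u) = J *ᵥ u := by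
  rw [mulVec_mulVec, h.PJ, ← mulVec_mulVec, hu]

theorem J_dot (h : Pnt p0 J P p1 J1 c) (u v : κ0 → ℝ) : (J *ᵥ u) ⬝ᵥ v = - (u ⬝ᵥ (J *ᵥ v)) := by
  have h1 : (J *ᵥ u) ⬝ᵥ v = u ⬝ᵥ (Jᵀ *ᵥ v) := by
    rw [dotProduct_mulVec, vecMul_transpose]
  rw [h1, h.Js, neg_mulVec, dotProduct_neg]

theorem JJ (h : Pnt p0 J P p1 J1 c) {u : κ0 → ℝ} (hu : P *ᵥ u = u) : J *ᵥ (J *ᵥ u) = - u := by
  rw [mulVec_mulVec, h.Jsq, neg_mulVec, h.p0_fix hu]

theorem J_norm (h : Pnt p0 J P p1 J1 c) {u : κ0 → ℝ} (hu : P *ᵥ u = u) :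
    (J *ᵥ u) ⬝ᵥ (J *ᵥ u) = u ⬝ᵥ u := by
  rw [h.J_dot, h.JJ hu, dotProduct_neg, neg_neg]

theorem J_perp (h : Pnt p0 J P p1 J1 c) (u : κ0 → ℝ) : u ⬝ᵥ (J *ᵥ u) = 0 := by
  have h1 := h.J_dot u u
  rw [dotProduct_comm] at h1
  linarith

/-- the projection in terms of a unit vector. -/
theorem P_eq (h : Pnt p0 J P p1 J1 c) {u : κ0 → ℝ} (hu : P *ᵥ u = u) (h1 : u ⬝ᵥ u = 1) :
    P = vecMulVec u u + vecMulVec (J *ᵥ u) (J *ᵥ u) := by
  set v := J *ᵥ u with hv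
  have hPv : P *ᵥ v = v := h.J_mem hu
  have hvv : v ⬝ᵥ v = 1 := by rw [hv, h.J_norm hu, h1]
  have huv : u ⬝ᵥ v = 0 := h.J_perp u
  have hvu : v ⬝ᵥ u = 0 := by rw [dotProduct_comm]; exact huv
  have huP : u ᵥ* P = u := by
    rw [← mulVec_transpose, h.Ps, hu]
  have hvP : v ᵥ* P = v := by
    rw [← mulVec_transpose, h.Ps, hPv]
  have key : P - (vecMulVec u u + vecMulVec v v) = 0 := by
    apply eq_zero_of_proj
    · rw [transpose_sub, transpose_add, h.Ps, transpose_vecMulVec, transpose_vecMulVec]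
    · rw [Matrix.sub_mul, Matrix.mul_sub, Matrix.mul_sub, h.PP, Matrix.mul_add, Matrix.add_mul,
        Matrix.add_mul, Matrix.mul_add, Matrix.mul_add, mul_vecMulVec, mul_vecMulVec, hu, hPv,
        vecMulVec_mul, vecMulVec_mul, huP, hvP, vecMulVec_mul_vecMulVec, vecMulVec_mul_vecMulVec,
        vecMulVec_mul_vecMulVec, vecMulVec_mul_vecMulVec, h1, hvv, huv, hvu]
      simp only [one_smul, zero_smul, vecMulVec_zero, add_zero, zero_add]
      abel
    · rw [trace_sub, h.trP, trace_add, trace_vecMulVec, trace_vecMulVec, h1, hvv]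
      norm_num
  exact sub_eq_zero.1 key

theorem c_dot (h : Pnt p0 J P p1 J1 c) {u : κ0 → ℝ} (hu : p0 *ᵥ u = u) (h1 : u ⬝ᵥ u = 1)
    (i j : Fin 4) : (c i *ᵥ u) ⬝ᵥ (c j *ᵥ u) = if i = j then 1 else 0 := by
  have e : ∀ i j, (c i *ᵥ u) ⬝ᵥ (c j *ᵥ u) = u ⬝ᵥ (((c i)ᵀ * c j) *ᵥ u) := by
    intro i j
    rw [← mulVec_mulVec, dotProduct_mulVec u, vecMul_transpose]
  have h2 := congrArg (fun A => u ⬝ᵥ (A *ᵥ u)) (h.clif i j)
  simp only [add_mulVec, dotProduct_add] at h2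
  rw [← e, ← e, dotProduct_comm (c j *ᵥ u) (c i *ᵥ u)] at h2
  split_ifs with hij
  · rw [if_pos hij, smul_mulVec, hu, dotProduct_smul, h1] at h2
    simp only [nsmul_eq_mul] at h2
    norm_num at h2
    linarith
  · rw [if_neg hij, zero_mulVec, dotProduct_zero] at h2
    linarith

/-- completeness of `c_i u`. -/
theorem complete (h : Pnt p0 J P p1 J1 c) {u : κ0 → ℝ} (hu : p0 *ᵥ u = u) (h1 : u ⬝ᵥ u = 1) :
    p1 = ∑ i, vecMulVec (c i *ᵥ u) (c i *ᵥ u) := by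
  have hp : ∀ i, p1 *ᵥ (c i *ᵥ u) = c i *ᵥ u := by
    intro i; rw [mulVec_mulVec, h.pc]
  have hp' : ∀ i, (c i *ᵥ u) ᵥ* p1 = c i *ᵥ u := by
    intro i; rw [← mulVec_transpose, h.p1s, hp]
  have key : p1 - ∑ i, vecMulVec (c i *ᵥ u) (c i *ᵥ u) = 0 := by
    apply eq_zero_of_proj
    · rw [transpose_sub, h.p1s, transpose_sum]
      simp only [transpose_vecMulVec]
    · rw [Matrix.sub_mul, Matrix.mul_sub, Matrix.mul_sub, h.p1i, Finset.mul_sum, Finset.sum_mul,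
        Finset.sum_mul]
      have e1 : ∀ i, p1 * vecMulVec (c i *ᵥ u) (c i *ᵥ u) = vecMulVec (c i *ᵥ u) (c i *ᵥ u) := by
        intro i; rw [mul_vecMulVec, hp]
      have e2 : ∀ i, vecMulVec (c i *ᵥ u) (c i *ᵥ u) * p1 = vecMulVec (c i *ᵥ u) (c i *ᵥ u) := by
        intro i; rw [vecMulVec_mul, hp']
      have e3 : ∀ i, vecMulVec (c i *ᵥ u) (c i *ᵥ u) * (∑ j, vecMulVec (c j *ᵥ u) (c j *ᵥ u)) =
          vecMulVec (c i *ᵥ u) (c i *ᵥ u) := by
        intro i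
        rw [Finset.mul_sum, Finset.sum_eq_single i]
        · rw [vecMulVec_mul_vecMulVec, h.c_dot hu h1, if_pos rfl, one_smul]
        · intro j _ hj
          rw [vecMulVec_mul_vecMulVec, h.c_dot hu h1, if_neg (Ne.symm hj), zero_smul,
            vecMulVec_zero]
        · intro hi; exact absurd (Finset.mem_univ i) hi
      simp only [e1, e2, e3]
      abel
    · rw [trace_sub, h.p1t, trace_sum]
      simp only [trace_vecMulVec, h.c_dot hu h1, if_true, Finset.sum_const, Finset.card_univ,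
        Fintype.card_fin]
      norm_num
  exact sub_eq_zero.1 key

theorem J1_dot (h : Pnt p0 J P p1 J1 c) (a b : κ1 → ℝ) : (J1 *ᵥ a) ⬝ᵥ b = - (a ⬝ᵥ (J1 *ᵥ b)) := by
  have h1 : (J1 *ᵥ a) ⬝ᵥ b = a ⬝ᵥ (J1ᵀ *ᵥ b) := by
    rw [dotProduct_mulVec, vecMul_transpose]
  rw [h1, h.J1s, neg_mulVec, dotProduct_neg]

/-- **every complex linear map `im P → im p1` is `v ↦ c(X) J v`.** -/
theorem main (h : Pnt p0 J P p1 J1 c) {T : Matrix κ1 κ0 ℝ} (hT : p1 * T = T)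
    (hTJ : J1 * (T * P) = T * J * P) :
    T * P = (∑ i, ((1 / 2) * ((c i * J)ᵀ * (T * P)).trace) • c i) * J * P := by
  obtain ⟨u, hu, h1⟩ := h.exists_unit
  set v := J *ᵥ u with hv
  have hPv : P *ᵥ v = v := h.J_mem hu
  have hvv : v ⬝ᵥ v = 1 := by rw [hv, h.J_norm hu, h1]
  have hJv : J *ᵥ v = - u := h.JJ hu
  have hP : P = vecMulVec u u + vecMulVec v v := h.P_eq hu h1
  set X : Fin 4 → ℝ := fun i => (T *ᵥ u) ⬝ᵥ (c i *ᵥ v) with hX
  set C : Matrix κ1 κ0 ℝ := ∑ i, X i • c i with hC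
  have hJC : J1 * C = C * J := by
    rw [hC, Matrix.mul_sum, Matrix.sum_mul]
    refine Finset.sum_congr rfl fun i _ => ?_
    rw [Matrix.mul_smul, Matrix.smul_mul, h.Jc]
  have hJC' : ∀ a : κ0 → ℝ, J1 *ᵥ (C *ᵥ a) = C *ᵥ (J *ᵥ a) := fun a => by
    rw [mulVec_mulVec, hJC, ← mulVec_mulVec]
  have hJc' : ∀ i, ∀ a : κ0 → ℝ, J1 *ᵥ (c i *ᵥ a) = c i *ᵥ (J *ᵥ a) := fun i a => by
    rw [mulVec_mulVec, h.Jc, ← mulVec_mulVec]
  have hTu : T *ᵥ u = C *ᵥ v := by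
    have h2 := h.complete (h.p0_fix hPv) hvv
    have h3 : p1 *ᵥ (T *ᵥ u) = T *ᵥ u := by rw [mulVec_mulVec, hT]
    rw [← h3, h2, hC, sum_mulVec, sum_mulVec]
    refine Finset.sum_congr rfl fun i _ => ?_
    rw [vecMulVec_mulVec, smul_mulVec, op_smul_eq_smul, hX, dotProduct_comm]
  have hTv : T *ᵥ v = C *ᵥ (J *ᵥ v) := by
    have h2 := congrArg (fun A => A *ᵥ u) hTJ
    simp only [← mulVec_mulVec, hu] at h2
    rw [← hv, hTu, hJC'] at h2
    exact h2.symm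
  have hTP : T * P = C * J * P := by
    rw [hP, Matrix.mul_add, Matrix.mul_add, mul_vecMulVec, mul_vecMulVec, mul_vecMulVec,
      mul_vecMulVec, ← mulVec_mulVec, ← mulVec_mulVec, ← hv, hTu, hTv]
  have htr : ∀ i, (1 / 2) * ((c i * J)ᵀ * (T * P)).trace = X i := by
    intro i
    have e : ∀ a b : κ0 → ℝ, ((c i * J)ᵀ * vecMulVec (T *ᵥ a) b).trace =
        (T *ᵥ a) ⬝ᵥ (c i *ᵥ (J *ᵥ b)) := by
      intro a b
      rw [mul_vecMulVec, trace_vecMulVec, dotProduct_comm, dotProduct_mulVec, vecMul_transpose,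
        ← mulVec_mulVec, dotProduct_comm]
    have e2 : (T *ᵥ v) ⬝ᵥ (c i *ᵥ (J *ᵥ v)) = X i := by
      have e3 : T *ᵥ v = J1 *ᵥ (T *ᵥ u) := by
        rw [hTv, hTu, hJC']
      have e5 : J1 *ᵥ (c i *ᵥ (J *ᵥ v)) = - (c i *ᵥ v) := by
        rw [hJc', hJv, mulVec_neg, ← hv, mulVec_neg]
      rw [e3, h.J1_dot, e5, dotProduct_neg, neg_neg]
    rw [hP, Matrix.mul_add, mul_vecMulVec, mul_vecMulVec, Matrix.mul_add, trace_add, e, e, e2,
      ← hv]
    show (1 / 2) * (X i + X i) = X i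
    ring
  rw [hTP]
  congr 2
  rw [hC]
  refine Finset.sum_congr rfl fun i _ => ?_
  rw [← hTP, htr]

end Pnt

end

end Crest.Agent.R235.SWPt_451
end

-- ▼ part R235/SWTd_451

/-!
Row 235 (S0364), PACKAGE SW, MODEL-4 (helper451): the shift `sh` of the connection of the eigenline
and the identity DE: `A_a (ρ^{3/4} s) = ρ^{3/4} c(∇^E s)` for sections `s` of `E`.
-/

set_option autoImplicit false
set_option maxSynthPendingDepth 3
set_option linter.unusedSectionVars false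

open scoped ContDiff ENNReal NNReal Topology Manifold Bundle RealInnerProductSpace
open MeasureTheory Set Filter Metric Bundle

universe v

namespace Crest.Agent.R235.SWTd_451

open Crest.Agent.R249.Tv57 Crest.Agent.R247.Ms322 Crest.Agent.R247.Dir593
open Crest.Agent.R247.Frd657
open Crest.Agent.R235.SWDefs_53 Crest.Agent.R235.SWSym_451

noncomputable section

local notation "𝔼4" => EuclideanSpace ℝ (Fin 4)

section basic

variable {M : Type v} [MetricSpace M] [ChartedSpace (EuclideanSpace ℝ (Fin 4)) M]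
  [IsManifold (𝓡 4) ∞ M]
  [RiemannianBundle (fun p : M => TangentSpace (𝓡 4) p)]
  [IsContMDiffRiemannianBundle (𝓡 4) ∞ (EuclideanSpace ℝ (Fin 4))
    (fun p : M => TangentSpace (𝓡 4) p)]
  [IsRiemannianManifold (𝓡 4) M] [MeasurableSpace M] [BorelSpace M]
  [SecondCountableTopology M] [Nonempty M]

theorem md {f : M → ℝ} (hf : ContMDiff (𝓡 4) 𝓘(ℝ, ℝ) ∞ f) (z : M) :
    MDifferentiableAt (𝓡 4) 𝓘(ℝ) f z := hf.mdifferentiableAt (by simp)

theorem Gr_sum' {ι : Type*} (s : Finset ι) {f : ι → M → ℝ}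
    (hf : ∀ i ∈ s, ContMDiff (𝓡 4) 𝓘(ℝ, ℝ) ∞ (f i)) (z : M) :
    Gr (n := 4) (fun y => ∑ i ∈ s, f i y) z = ∑ i ∈ s, Gr (n := 4) (f i) z := by
  classical
  induction s using Finset.induction_on with
  | empty => simpa using Gr_const (n := 4) (0 : ℝ) z
  | insert i s hi ih =>
    have h1 : (fun y => ∑ j ∈ insert i s, f j y) = fun y => f i y + ∑ j ∈ s, f j y := by
      funext y; rw [Finset.sum_insert hi]
    have h2 : ContMDiff (𝓡 4) 𝓘(ℝ, ℝ) ∞ fun y => ∑ j ∈ s, f j y :=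
      contMDiff_finsetSum fun j hj => hf j (Finset.mem_insert_of_mem hj)
    rw [h1, Gr_add (md (hf i (Finset.mem_insert_self i s)) z) (md h2 z),
      ih fun j hj => hf j (Finset.mem_insert_of_mem hj), Finset.sum_insert hi]

variable {κ : Type} [Fintype κ] (D : Dat 4 M κ)

/-- `∇ P = dP + [X, P]`. -/
def nP (P : κ → κ → M → ℝ) (y y' : κ) (z : M) : EuclideanSpace ℝ (Fin 4) :=
  Gr (n := 4) (P y y') z + ∑ c, (P c y' z • D.X y c z - P y c z • D.X c y' z)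

theorem smF_nP {P : κ → κ → M → ℝ} (hP : ∀ a b, ContMDiff (𝓡 4) 𝓘(ℝ, ℝ) ∞ (P a b)) (y y' : κ) :
    SmF (nP D P y y') :=
  (smF_Gr (hP y y')).add (SmF.sum _ fun c _ =>
    ((SmF.smul (hP c y') (D.smX y c)).sub (SmF.smul (hP y c) (D.smX c y'))))

/-- `∇ s = P ∇ s + (∇ P) s` for `P s = s`. -/
theorem cv_P {P : κ → κ → M → ℝ} (hP : ∀ a b, ContMDiff (𝓡 4) 𝓘(ℝ, ℝ) ∞ (P a b))
    {s : κ → M → ℝ} (hs : SmV (n := 4) s) (hPs : ∀ a z, ∑ b, P a b z * s b z = s a z)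
    (a : κ) (z : M) :
    D.cv s a z = ∑ b, P a b z • D.cv s b z + ∑ b, s b z • nP D P a b z := by
  have h1 : Gr (n := 4) (s a) z =
      ∑ b, (P a b z • Gr (n := 4) (s b) z + s b z • Gr (n := 4) (P a b) z) := by
    have h2 : s a = fun y => ∑ b, P a b y * s b y := funext fun y => (hPs a y).symm
    conv_lhs => rw [h2]
    rw [Gr_sum' (f := fun b y => P a b y * s b y) Finset.univ (fun b _ => (hP a b).mul (hs b))]
    refine Finset.sum_congr rfl fun b _ => ?_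
    exact Gr_mul (md (hP a b) z) (md (hs b) z)
  have h3 : ∀ c, ∑ b, P c b z * s b z = s c z := fun c => hPs c z
  unfold Dat.cv nP
  rw [h1]
  simp only [smul_add, Finset.sum_add_distrib, Finset.smul_sum, smul_sub, Finset.sum_sub_distrib,
    smul_smul]
  have e1 : ∑ b, ∑ c, (s b z * P c b z) • D.X a c z = ∑ c, s c z • D.X a c z := by
    rw [Finset.sum_comm]
    refine Finset.sum_congr rfl fun c _ => ?_
    rw [← Finset.sum_smul]
    congr 1
    rw [← h3 c]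
    exact Finset.sum_congr rfl fun b _ => mul_comm _ _
  have e2 : ∑ b, ∑ c, (s b z * P a c z) • D.X c b z = ∑ b, ∑ c, (P a b z * s c z) • D.X b c z := by
    rw [Finset.sum_comm]
    refine Finset.sum_congr rfl fun c _ => Finset.sum_congr rfl fun b _ => ?_
    rw [mul_comm]
  rw [e1, e2]
  abel

theorem Gr_rpow {rr : M → ℝ} (hr : ContMDiff (𝓡 4) 𝓘(ℝ, ℝ) ∞ rr) (hpos : ∀ z, 0 < rr z) (q : ℝ)
    (z : M) : Gr (n := 4) (fun y => rr y ^ q) z = (q * rr z ^ q * (rr z)⁻¹) • Gr (n := 4) rr z := by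
  have h1 : DifferentiableAt ℝ (fun t : ℝ => t ^ q) (rr z) :=
    Real.differentiableAt_rpow_const_of_ne q (hpos z).ne'
  rw [Gr_comp (χ := fun t => t ^ q) (md hr z) h1, Real.deriv_rpow_const]
  congr 1
  rw [Real.rpow_sub_one (hpos z).ne', mul_div_assoc', div_eq_mul_inv]

theorem smooth_rpow {rr : M → ℝ} (hr : ContMDiff (𝓡 4) 𝓘(ℝ, ℝ) ∞ rr) (hpos : ∀ z, 0 < rr z)
    (q : ℝ) : ContMDiff (𝓡 4) 𝓘(ℝ, ℝ) ∞ (fun y => rr y ^ q) := by
  intro z
  have h1 : ContDiffAt ℝ ∞ (fun t : ℝ => t ^ q) (rr z) :=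
    Real.contDiffAt_rpow_const_of_ne (hpos z).ne'
  exact h1.contMDiffAt.comp z (hr z)

end basic

section main

variable {M : Type v} [MetricSpace M] [CompactSpace M] [ConnectedSpace M]
  [ChartedSpace (EuclideanSpace ℝ (Fin 4)) M] [IsManifold (𝓡 4) ∞ M]
  [RiemannianBundle (fun p : M => TangentSpace (𝓡 4) p)]
  [IsContMDiffRiemannianBundle (𝓡 4) ∞ (EuclideanSpace ℝ (Fin 4))
    (fun p : M => TangentSpace (𝓡 4) p)]
  [IsRiemannianManifold (𝓡 4) M] [MeasurableSpace M] [BorelSpace M]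
  [SecondCountableTopology M] [Nonempty M]
  {κ0 κ1 κT : Type} [Fintype κ0] [Fintype κ1] [Fintype κT]

/-- a smooth field of projections of `W⁺ ⊗ L`, commuting with `J`. -/
structure Pj (S : SWS M κ0 κ1 κT) (P : κ0 → κ0 → M → ℝ) : Prop where
  sm : ∀ a b, ContMDiff (𝓡 4) 𝓘(ℝ, ℝ) ∞ (P a b)
  symm : ∀ a b z, P a b z = P b a z
  idem : ∀ a b z, ∑ c, P a c z * P c b z = P a b z
  pP : ∀ a b z, ∑ c, S.D0.p a c z * P c b z = P a b z
  PJ : ∀ a b z, ∑ c, P a c z * S.J c b z = ∑ c, S.J a c z * P c b z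

/-- the zeroth order term `Z` of `A_a (ρ^{3/4} s)`. -/
def Zt (S : SWS M κ0 κ1 κT) (cc : κ1 → κ0 → M → EuclideanSpace ℝ (Fin 4)) (rr : M → ℝ)
    (P : κ0 → κ0 → M → ℝ) (x : κ1) (y : κ0) (z : M) : ℝ :=
  ∑ y', ⟪nP S.D0 P y' y z, cc x y' z⟫ + 3 / 4 * (rr z)⁻¹ * ⟪Gr (n := 4) rr z, cc x y z⟫

/-- `P ∇_a s`. -/
def prj (_S : SWS M κ0 κ1 κT) (P : κ0 → κ0 → M → ℝ) (G : κ0 → M → EuclideanSpace ℝ (Fin 4))
    (y : κ0) (z : M) : EuclideanSpace ℝ (Fin 4) := ∑ y', P y y' z • G y' z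

variable {S : SWS M κ0 κ1 κT} {cc : κ1 → κ0 → M → EuclideanSpace ℝ (Fin 4)}

theorem smooth_Zt (H : Sym S cc) {rr : M → ℝ} (hr : ContMDiff (𝓡 4) 𝓘(ℝ, ℝ) ∞ rr)
    (hpos : ∀ z, 0 < rr z) {P : κ0 → κ0 → M → ℝ} (hP : Pj S P) (x : κ1) (y : κ0) :
    ContMDiff (𝓡 4) 𝓘(ℝ, ℝ) ∞ (Zt S cc rr P x y) := by
  have h1 : ContMDiff (𝓡 4) 𝓘(ℝ, ℝ) ∞ fun z => ∑ y', (⟪nP S.D0 P y' y z, cc x y' z⟫ : ℝ) :=
    contMDiff_finsetSum fun y' _ => (smF_nP S.D0 hP.sm y' y).inner (H.smcc x y')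
  have h2 : ContMDiff (𝓡 4) 𝓘(ℝ, ℝ) ∞ fun z => (rr z)⁻¹ := by
    intro z
    have h3 : ContDiffAt ℝ ∞ (fun t : ℝ => t⁻¹) (rr z) := contDiffAt_inv ℝ (hpos z).ne'
    exact h3.contMDiffAt.comp z (hr z)
  exact h1.add ((contMDiff_const.mul h2).mul ((smF_Gr hr).inner (H.smcc x y)))

/-- **general form of DE.** -/
theorem de_gen (H : Sym S cc) {rr : M → ℝ} (hr : ContMDiff (𝓡 4) 𝓘(ℝ, ℝ) ∞ rr)
    (hpos : ∀ z, 0 < rr z) {P : κ0 → κ0 → M → ℝ} (hP : Pj S P) (a : κT → M → ℝ)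
    {s : κ0 → M → ℝ} (hs : SmV (n := 4) s) (hPs : ∀ y z, ∑ b, P y b z * s b z = s y z)
    (x : κ1) (z : M) :
    S.P.A (fun y z => rr z ^ (3 / 4 : ℝ) * s y z) x z +
      S.cm a (fun y z => rr z ^ (3 / 4 : ℝ) * s y z) x z =
    rr z ^ (3 / 4 : ℝ) * (∑ y, ⟪prj S P (S.nab a s) y z, cc x y z⟫ +
      ∑ y, Zt S cc rr P x y z * s y z) := by
  have hps : ∀ y z, ∑ b, S.D0.p y b z * s b z = s y z := by
    intro y z
    calc ∑ b, S.D0.p y b z * s b z = ∑ b, S.D0.p y b z * ∑ c, P b c z * s c z := by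
          refine Finset.sum_congr rfl fun b _ => ?_
          rw [hPs]
      _ = ∑ c, (∑ b, S.D0.p y b z * P b c z) * s c z := by
          simp only [Finset.mul_sum, Finset.sum_mul]
          rw [Finset.sum_comm]
          refine Finset.sum_congr rfl fun c _ => Finset.sum_congr rfl fun b _ => ?_
          ring
      _ = s y z := by
          simp only [hP.pP]
          exact hPs y z
  have hrq := smooth_rpow hr hpos (3 / 4 : ℝ)
  have hu : SmV (n := 4) (fun y z => rr z ^ (3 / 4 : ℝ) * s y z) := fun y => hrq.mul (hs y)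
  have hus : S.D0.Sec (fun y z => rr z ^ (3 / 4 : ℝ) * s y z) := by
    intro y z
    have : ∀ b, S.D0.p y b z * (rr z ^ (3 / 4 : ℝ) * s b z) =
        rr z ^ (3 / 4 : ℝ) * (S.D0.p y b z * s b z) := fun b => by ring
    simp only [this, ← Finset.mul_sum, hps]
  rw [H.A_eq _ hu hus]
  have hcv : ∀ y, S.D0.cv (fun y z => rr z ^ (3 / 4 : ℝ) * s y z) y z =
      rr z ^ (3 / 4 : ℝ) • (S.D0.cv s y z + (3 / 4 * (rr z)⁻¹ * s y z) • Gr (n := 4) rr z) := by
    intro y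
    unfold Dat.cv
    rw [Gr_mul (md hrq z) (md (hs y) z), Gr_rpow hr hpos]
    simp only [smul_add, Finset.smul_sum, smul_smul]
    have e : s y z * (3 / 4 * rr z ^ (3 / 4 : ℝ) * (rr z)⁻¹) =
        rr z ^ (3 / 4 : ℝ) * (3 / 4 * (rr z)⁻¹ * s y z) := by ring
    rw [e]
    abel
  have hcm : S.cm a (fun y z => rr z ^ (3 / 4 : ℝ) * s y z) x z =
      rr z ^ (3 / 4 : ℝ) * S.cm a s x z := by
    unfold SWS.cm
    rw [Finset.mul_sum]
    refine Finset.sum_congr rfl fun A _ => ?_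
    rw [Finset.mul_sum]
    refine Finset.sum_congr rfl fun y _ => ?_
    ring
  rw [hcm]
  simp only [hcv, real_inner_smul_left]
  rw [← Finset.mul_sum, ← mul_add]
  congr 1
  -- the pointwise identity
  have hcm2 : S.cm a s x z = ∑ y', (∑ y, S.J y' y z * s y z) *
      ⟪∑ A, a A z • S.s A z, cc x y' z⟫ := by
    unfold SWS.cm
    simp only [H.cl_eq, sum_inner, real_inner_smul_left, Finset.mul_sum, Finset.sum_mul]
    have e1 : ∀ A, ∑ y, ∑ y', a A z * s y z * (⟪cc x y' z, S.s A z⟫ * S.J y' y z) =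
        ∑ y', ∑ y, a A z * s y z * (⟪cc x y' z, S.s A z⟫ * S.J y' y z) :=
      fun A => Finset.sum_comm
    simp only [e1]
    rw [Finset.sum_comm]
    refine Finset.sum_congr rfl fun y' _ => ?_
    refine Finset.sum_congr rfl fun A _ => ?_
    refine Finset.sum_congr rfl fun y _ => ?_
    rw [real_inner_comm (S.s A z) (cc x y' z)]
    ring
  have hJP : ∀ y, ∑ y', P y y' z * ∑ b, S.J y' b z * s b z = ∑ b, S.J y b z * s b z := by
    intro y
    calc ∑ y', P y y' z * ∑ b, S.J y' b z * s b z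
        = ∑ b, (∑ y', P y y' z * S.J y' b z) * s b z := by
          simp only [Finset.mul_sum, Finset.sum_mul]
          rw [Finset.sum_comm]
          refine Finset.sum_congr rfl fun b _ => Finset.sum_congr rfl fun y' _ => ?_
          ring
      _ = ∑ b, (∑ y', S.J y y' z * P y' b z) * s b z := by simp only [hP.PJ]
      _ = ∑ y', S.J y y' z * ∑ b, P y' b z * s b z := by
          simp only [Finset.mul_sum, Finset.sum_mul]
          rw [Finset.sum_comm]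
          refine Finset.sum_congr rfl fun b _ => Finset.sum_congr rfl fun y' _ => ?_
          ring
      _ = ∑ b, S.J y b z * s b z := by simp only [hPs]
  have hprj : ∀ y, prj S P (S.nab a s) y z = ∑ b, P y b z • S.D0.cv s b z +
      (∑ b, S.J y b z * s b z) • ∑ A, a A z • S.s A z := by
    intro y
    unfold prj SWS.nab
    simp only [smul_add, Finset.sum_add_distrib]
    congr 1
    simp only [smul_smul]
    rw [← Finset.sum_smul, hJP]
  have hcvP : ∀ y, S.D0.cv s y z =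
      ∑ b, P y b z • S.D0.cv s b z + ∑ b, s b z • nP S.D0 P y b z := fun y =>
    cv_P S.D0 hP.sm hs hPs y z
  have hZ : ∑ y, Zt S cc rr P x y z * s y z = ∑ y, (⟪∑ b, s b z • nP S.D0 P y b z, cc x y z⟫ +
      3 / 4 * (rr z)⁻¹ * s y z * ⟪Gr (n := 4) rr z, cc x y z⟫) := by
    unfold Zt
    simp only [add_mul, Finset.sum_add_distrib, sum_inner, real_inner_smul_left, Finset.sum_mul]
    rw [Finset.sum_comm]
    congr 1
    · refine Finset.sum_congr rfl fun b _ => Finset.sum_congr rfl fun y' _ => ?_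
      ring
    · refine Finset.sum_congr rfl fun b _ => ?_
      ring
  rw [hcm2, hZ]
  simp only [hprj]
  rw [← Finset.sum_add_distrib, ← Finset.sum_add_distrib]
  refine Finset.sum_congr rfl fun y _ => ?_
  conv_lhs => rw [hcvP y]
  simp only [inner_add_left, real_inner_smul_left]
  ring

end main

end

end Crest.Agent.R235.SWTd_451
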