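import Mathlib
import Crest.Agent.R235.Cup1_524
import Crest.Agent.R235.SpanZ_311

-- ▼ part R235/H1A_692
section

/-!
Row 235 (S0364), block HZ, part H1 (helper692; statements helper524 #1825): closed one-forms.

* `CD1 B s f c` : local primitives `f i` of `s` on `B i`, `f i - f j = c i j` on overlaps;
* `exists_cd1`, `CD1.unique`, `CD1.exact`, `cd1_sig` : Čech-de Rham in degree one;
* `IsInt1 s` : `s = du / (2 π i u)` with `u : M → U(1)` smooth; `isInt1_iff`.
-/

set_option autoImplicit false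
set_option maxSynthPendingDepth 3
set_option linter.unusedSectionVars false

open Set Function Filter
open scoped Manifold ContDiff Topology

universe u

namespace Crest.Agent.R235.H1A_692

open Crest.Agent.R240 Crest.Agent.R240.Ch Tau_692 Loc_524

noncomputable section

/-! ### algebra -/

section Alg

variable {ι : Type*} [Fintype ι]

theorem alg_h1 {T : ι → Prop} {ψ p : ι → ℝ} {c : ι → ι → ℝ} (m : ι)
    (h0 : ∀ i, ¬ T i → ψ i = 0) (hp0 : ∀ i, ¬ T i → p i = 0)
    (hψ : ∑ i, ψ i = 1) (hp : ∑ i, p i = 0)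
    (hc : ∀ i j, T i → T j → c i j = c m j - c m i) :
    ∑ i, ∑ j, c i j * (ψ i * p j) = ∑ j, c m j * p j := by
  have h1 : ∀ i j, c i j * (ψ i * p j) = ψ i * (c m j * p j) - c m i * ψ i * p j := by
    intro i j
    by_cases hi : T i
    · by_cases hj : T j
      · rw [hc i j hi hj]; ring
      · rw [hp0 j hj]; ring
    · rw [h0 i hi]; ring
  simp only [h1, Finset.sum_sub_distrib]
  simp only [← Finset.mul_sum, ← Finset.sum_mul]
  rw [hψ, hp]
  simp

end Alg

/-! ### local data -/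

section General

variable {E : Type} [NormedAddCommGroup E] [NormedSpace ℝ E]
variable {M : Type*} [TopologicalSpace M] [ChartedSpace E M] [IsManifold 𝓘(ℝ, E) ∞ M]
variable {ι : Type*}

/-- local primitives of the one-form `s`, with constant differences. -/
structure CD1 (B : ι → Set M) (s : F1 E M) (f : ι → M → ℝ) (c : ι → ι → ℝ) : Prop where
  sm : ∀ i x, x ∈ B i → SmAtF E (f i) x
  d : ∀ i x, x ∈ B i → at1 (dF (E := E) (f i)) x = at1 s x
  c : ∀ i j x, x ∈ B i → x ∈ B j → f i x - f j x = c i j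

/-- one-cocycles of the cover. -/
def Coc1 (B : ι → Set M) (c : ι → ι → ℝ) : Prop :=
  ∀ i j k x, x ∈ B i → x ∈ B j → x ∈ B k → c j k - c i k + c i j = 0

/-- coboundaries. -/
def Cob1 (B : ι → Set M) (c : ι → ι → ℝ) : Prop :=
  ∃ b : ι → ℝ, ∀ i j x, x ∈ B i → x ∈ B j → c i j = b i - b j

omit [IsManifold 𝓘(ℝ, E) ∞ M] in
theorem smAtF_const (r : ℝ) (x : M) : SmAtF E (fun _ => r) x := contDiffAt_const

omit [IsManifold 𝓘(ℝ, E) ∞ M] in
theorem dF_const_at (r : ℝ) (x : M) : at1 (dF (E := E) (fun _ : M => r)) x = 0 := by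
  show fderiv ℝ (fun _ => r) _ = 0
  simp

omit [IsManifold 𝓘(ℝ, E) ∞ M] in
theorem dF_mul_at {f g : M → ℝ} {x : M} (hf : SmAtF E f x) (hg : SmAtF E g x) :
    at1 (dF (E := E) (fun y => f y * g y)) x =
      f x • at1 (dF (E := E) g) x + g x • at1 (dF (E := E) f) x := by
  have e1 : f x = repF (E := E) x f (chartAt E x x) := by
    rw [repF_chart (mem_chart_source E x)]
  have e2 : g x = repF (E := E) x g (chartAt E x x) := by
    rw [repF_chart (mem_chart_source E x)]
  show fderiv ℝ (fun y => repF x f y * repF x g y) _ = _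
  rw [fderiv_fun_mul (ContDiffAt.differentiableAt hf infty_ne_zero)
    (ContDiffAt.differentiableAt hg infty_ne_zero), ← e1, ← e2]
  rfl

omit [IsManifold 𝓘(ℝ, E) ∞ M] in
theorem dF_comp_at {f : M → ℝ} {x : M} (hf : SmAtF E f x) {h : ℝ → ℝ} (hh : ContDiff ℝ ∞ h) :
    at1 (dF (E := E) (fun y => h (f y))) x = deriv h (f x) • at1 (dF (E := E) f) x := by
  have e1 : f x = repF (E := E) x f (chartAt E x x) := by
    rw [repF_chart (mem_chart_source E x)]
  show fderiv ℝ (fun y => h (repF x f y)) _ = _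
  have hd : HasDerivAt h (deriv h (repF (E := E) x f (chartAt E x x)))
      (repF (E := E) x f (chartAt E x x)) :=
    ((hh.contDiffAt).differentiableAt infty_ne_zero).hasDerivAt
  have := hd.comp_hasFDerivAt (chartAt E x x)
    (ContDiffAt.differentiableAt hf infty_ne_zero).hasFDerivAt
  rw [e1]
  exact this.fderiv

omit [IsManifold 𝓘(ℝ, E) ∞ M] in
theorem SmAtF.comp' {f : M → ℝ} {x : M} (hf : SmAtF E f x) {h : ℝ → ℝ} (hh : ContDiff ℝ ∞ h) :
    SmAtF E (fun y => h (f y)) x :=
  ContDiffAt.comp (g := h) (chartAt E x x) hh.contDiffAt hf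

omit [IsManifold 𝓘(ℝ, E) ∞ M] in
theorem dF_const_mul_at' {f : M → ℝ} {x : M} (r : ℝ) (hf : SmAtF E f x) :
    at1 (dF (E := E) (fun y => r * f y)) x = r • at1 (dF (E := E) f) x := by
  show fderiv ℝ (fun y => r * repF x f y) _ = _
  rw [fderiv_const_mul (ContDiffAt.differentiableAt hf infty_ne_zero)]
  rfl

variable {B : ι → Set M}

theorem CD1.isCoc {s : F1 E M} {f : ι → M → ℝ} {c : ι → ι → ℝ} (h : CD1 B s f c) : Coc1 B c := by
  intro i j k x hi hj hk
  rw [← h.c j k x hj hk, ← h.c i k x hi hk, ← h.c i j x hi hj]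
  ring

theorem CD1.add {s t : F1 E M} {f g : ι → M → ℝ} {c d : ι → ι → ℝ} (h : CD1 B s f c)
    (h' : CD1 B t g d) : CD1 B (s + t) (fun i x => f i x + g i x) (fun i j => c i j + d i j) where
  sm i x hx := (h.sm i x hx).add (h'.sm i x hx)
  d i x hx := by
    rw [dF_add_at (h.sm i x hx) (h'.sm i x hx), h.d i x hx, h'.d i x hx]
    rfl
  c i j x hi hj := by
    rw [← h.c i j x hi hj, ← h'.c i j x hi hj]
    ring

theorem CD1.smul {s : F1 E M} {f : ι → M → ℝ} {c : ι → ι → ℝ} (r : ℝ) (h : CD1 B s f c) :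
    CD1 B (r • s) (fun i x => r * f i x) (fun i j => r * c i j) where
  sm i x hx := (smAtF_const r x).mul (h.sm i x hx)
  d i x hx := by
    rw [dF_const_mul_at' r (h.sm i x hx), h.d i x hx]
    rfl
  c i j x hi hj := by
    rw [← h.c i j x hi hj]
    ring

theorem CD1.sub {s t : F1 E M} {f g : ι → M → ℝ} {c d : ι → ι → ℝ} (h : CD1 B s f c)
    (h' : CD1 B t g d) : CD1 B (s - t) (fun i x => f i x - g i x) (fun i j => c i j - d i j) where
  sm i x hx := (h.sm i x hx).sub (h'.sm i x hx)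
  d i x hx := by
    rw [dF_sub_at (h.sm i x hx) (h'.sm i x hx), h.d i x hx, h'.d i x hx]
    rfl
  c i j x hi hj := by
    rw [← h.c i j x hi hj, ← h'.c i j x hi hj]
    ring

theorem cd1_zero : CD1 (E := E) B (0 : F1 E M) (fun _ _ => 0) (fun _ _ => 0) where
  sm _ x _ := smAtF_const 0 x
  d _ x _ := dF_const_at 0 x
  c _ _ _ _ _ := sub_self _

theorem CD1.sum {κ : Type*} (S : Finset κ) {s : κ → F1 E M} {f : κ → ι → M → ℝ}
    {c : κ → ι → ι → ℝ} (h : ∀ k ∈ S, CD1 B (s k) (f k) (c k)) :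
    CD1 B (∑ k ∈ S, s k) (fun i x => ∑ k ∈ S, f k i x) (fun i j => ∑ k ∈ S, c k i j) := by
  classical
  induction S using Finset.induction_on with
  | empty => simpa using cd1_zero (E := E) (B := B)
  | insert a S ha ih =>
    have h1 := (h a (Finset.mem_insert_self _ _)).add
      (ih fun j hj => h j (Finset.mem_insert_of_mem hj))
    simp only [Finset.sum_insert ha]
    exact h1

theorem cd1_dF {F : M → ℝ} (hF : SmoothF E F) :
    CD1 B (dF (E := E) F) (fun _ => F) (fun _ _ => 0) where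
  sm _ x _ := smAtF_of_smooth hF x
  d _ _ _ := rfl
  c _ _ _ _ _ := sub_self _

/-- **gluing**: a form with coboundary data is exact. -/
theorem CD1.exact (hB : ∀ i, IsOpen (B i)) (hcov : ∀ x, ∃ i, x ∈ B i) {s : F1 E M}
    {f : ι → M → ℝ} {c : ι → ι → ℝ} (h : CD1 B s f c) (hc : Cob1 B c) :
    ∃ F : M → ℝ, SmoothF E F ∧ s = dF F := by
  obtain ⟨b, hb⟩ := hc
  choose r hr using hcov
  have key : ∀ i x, x ∈ B i → f (r x) x - b (r x) = f i x - b i := by
    intro i x hx
    have e1 := h.c (r x) i x (hr x) hx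
    rw [hb (r x) i x (hr x) hx] at e1
    linarith
  have hev : ∀ x, (fun y => f (r y) y - b (r y)) =ᶠ[𝓝 x] fun y => f (r x) y - b (r x) := by
    intro x
    filter_upwards [(hB (r x)).mem_nhds (hr x)] with y hy
    exact key _ y hy
  have hsm : ∀ x, SmAtF E (fun y => f (r y) y - b (r y)) x := fun x =>
    ((h.sm _ x (hr x)).sub (smAtF_const _ x)).congr (hev x)
  refine ⟨fun y => f (r y) y - b (r y), smoothF_iff_smAt.2 hsm, ?_⟩
  funext x
  show at1 s x = at1 (dF (E := E) (fun y => f (r y) y - b (r y))) x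
  rw [Loc_524.dF_congr (hev x), dF_sub_at (h.sm _ x (hr x)) (smAtF_const _ x), dF_const_at,
    sub_zero, h.d _ x (hr x)]

/-- a form with local data is smooth and closed. -/
theorem CD1.ev (hB : ∀ i, IsOpen (B i)) {s : F1 E M} {f : ι → M → ℝ} {c : ι → ι → ℝ}
    (h : CD1 B s f c) {i : ι} {x : M} (hx : x ∈ B i) : s =ᶠ[𝓝 x] dF (E := E) (f i) := by
  filter_upwards [(hB i).mem_nhds hx] with y hy
  exact (h.d i y hy).symm

section Fin

variable [FiniteDimensional ℝ E] [T2Space M] [CompactSpace M]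

theorem CD1.smooth (hB : ∀ i, IsOpen (B i)) (hcov : ∀ x, ∃ i, x ∈ B i) {s : F1 E M}
    {f : ι → M → ℝ} {c : ι → ι → ℝ} (h : CD1 B s f c) : Smooth1 s ∧ dG s = 0 := by
  have key : ∀ x, SmAt1 s x ∧ at2 (dG s) x = 0 := by
    intro x
    obtain ⟨i, hi⟩ := hcov x
    obtain ⟨g, hg, hgf⟩ := exists_extF (E := E) (K := {x}) isClosed_singleton (hB i)
      (singleton_subset_iff.2 hi) (h.sm i)
    have h1 : g =ᶠ[𝓝 x] f i := hgf x rfl
    have h2 : s =ᶠ[𝓝 x] dF (E := E) g := by
      filter_upwards [h.ev hB hi, h1.eventually_nhds] with y hy hy'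
      rw [hy]
      exact (Loc_524.dF_congr (E := E) hy').symm
    refine ⟨(smAt1_of_smooth (Smooth1.dF hg) x).congr h2, ?_⟩
    rw [dG_congr h2, dG_dF hg]
    rfl
  refine ⟨smooth1_iff_smAt.2 fun x => (key x).1, ?_⟩
  funext x
  exact (key x).2

end Fin

/-! ### good covers -/

section Good

variable [FiniteDimensional ℝ E]
variable {p : ι → M} (hB : ∀ i, IsOpen (B i)) (hs : ∀ i, B i ⊆ (chartAt E (p i)).source)
  (hconv : ∀ i j, Convex ℝ (chartAt E (p i) '' (B i ∩ B j)))

include hB hs hconv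

/-- **existence** of local data. -/
theorem exists_cd1 {s : F1 E M} (hsm : Smooth1 s) (hcl : dG s = 0) :
    ∃ (f : ι → M → ℝ) (c : ι → ι → ℝ), CD1 B s f c := by
  have hconv1 : ∀ i, Convex ℝ (chartAt E (p i) '' (B i)) := fun i => by
    have := hconv i i
    rwa [inter_self] at this
  choose f hf1 hf2 using fun i => poincare1_loc (s := s) (hB i) (hs i) (hconv1 i)
    (fun x _ => smAt1_of_smooth hsm x) (fun x _ => by rw [hcl]; rfl)
  have hc : ∀ i j, ∃ r : ℝ, ∀ x ∈ B i ∩ B j, f i x - f j x = r := fun i j =>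
    const_loc ((hB i).inter (hB j)) (inter_subset_left.trans (hs i)) (hconv i j)
      (fun x hx => (hf1 i x hx.1).sub (hf1 j x hx.2)) (fun x hx => by
        rw [dF_sub_at (hf1 i x hx.1) (hf1 j x hx.2), hf2 i x hx.1, hf2 j x hx.2, sub_self])
  choose c hc using hc
  exact ⟨f, c, hf1, hf2, fun i j x hi hj => hc i j x ⟨hi, hj⟩⟩

/-- **uniqueness** of local data. -/
theorem CD1.unique {s : F1 E M} {f g : ι → M → ℝ} {c d : ι → ι → ℝ} (h : CD1 B s f c)
    (h' : CD1 B s g d) : Cob1 B (fun i j => c i j - d i j) := by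
  have hconv1 : ∀ i, Convex ℝ (chartAt E (p i) '' (B i)) := fun i => by
    have := hconv i i
    rwa [inter_self] at this
  have hc : ∀ i, ∃ r : ℝ, ∀ x ∈ B i, f i x - g i x = r := fun i =>
    const_loc (hB i) (hs i) (hconv1 i) (fun x hx => (h.sm i x hx).sub (h'.sm i x hx))
      (fun x hx => by
        rw [dF_sub_at (h.sm i x hx) (h'.sm i x hx), h.d i x hx, h'.d i x hx, sub_self])
  choose b hb using hc
  refine ⟨b, fun i j x hi hj => ?_⟩
  beta_reduce
  rw [← hb i x hi, ← hb j x hj, ← h.c i j x hi hj, ← h'.c i j x hi hj]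
  ring

end Good

/-! ### realisation of cocycles -/

section Sig

variable [Fintype ι] {ψ : ι → M → ℝ}

theorem sig_apply (b : ι → ι → ℝ) (x : M) (u : E) :
    at1 (sig (E := E) ψ b) x u = ∑ j, ∑ k, b j k * (ψ j x * dv (ψ k) x u) := by
  unfold sig
  rw [at1_sum]
  refine Finset.sum_congr rfl fun j _ => ?_
  rw [at1_sum]
  rfl

omit [IsManifold 𝓘(ℝ, E) ∞ M] in
theorem smoothF_sum {κ : Type*} (S : Finset κ) {f : κ → M → ℝ} (h : ∀ k ∈ S, SmoothF E (f k)) :
    SmoothF E (fun x => ∑ k ∈ S, f k x) := fun p => ContDiffOn.sum fun k hk => h k hk p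

omit [IsManifold 𝓘(ℝ, E) ∞ M] in
theorem dF_sum_mul (hψ : ∀ i, SmoothF E (ψ i)) (a : ι → ℝ) (x : M) (u : E) :
    at1 (dF (E := E) (fun y => ∑ j, a j * ψ j y)) x u = ∑ j, a j * dv (ψ j) x u := by
  have hd : ∀ i, DifferentiableAt ℝ (fun y => a i * repF (E := E) x (ψ i) y) (chartAt E x x) :=
    fun i => (((hψ i).at (mem_chart_target E x)).differentiableAt infty_ne_zero).const_mul _
  show fderiv ℝ (fun y => ∑ j, a j * repF x (ψ j) y) _ u = _
  rw [fderiv_fun_sum fun i _ => hd i, sum_apply]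
  refine Finset.sum_congr rfl fun j _ => ?_
  rw [fderiv_const_mul (((hψ j).at (mem_chart_target E x)).differentiableAt infty_ne_zero)]
  rfl

/-- every cocycle is realised by a closed form. -/
theorem cd1_sig (hP : PUn E B ψ) {c : ι → ι → ℝ} (hc : Coc1 B c) :
    CD1 B (sig (E := E) ψ c) (fun m x => ∑ j, c m j * ψ j x) c where
  sm m x _ := smAtF_of_smooth
    (smoothF_sum _ fun j _ => (smoothF_const (c m j)).mul (hP.sm j)) x
  d m x hx := by
    ext u
    rw [dF_sum_mul hP.sm, sig_apply]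
    have hz : ∀ i, ¬ x ∈ B i → x ∉ tsupport (ψ i) := fun i hi hx => hi (hP.supp i hx)
    symm
    exact alg_h1 (T := fun i => x ∈ B i) (ψ := fun i => ψ i x) (p := fun i => dv (ψ i) x u) m
      (fun i hi => image_eq_zero_of_notMem_tsupport (hz i hi)) (fun i hi => dv_zero (hz i hi) u)
      (hP.sum x) (sum_dv hP.sm hP.sum x u) (fun i j hi hj => by
        have := hc m i j x hx hi hj
        linarith)
  c i j x hi hj := by
    rw [← Finset.sum_sub_distrib]
    have h1 : ∀ k, c i k * ψ k x - c j k * ψ k x = c i j * ψ k x := by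
      intro k
      by_cases hk : x ∈ B k
      · have := hc i j k x hi hj hk
        have e : c i k = c j k + c i j := by linarith
        rw [e]; ring
      · rw [image_eq_zero_of_notMem_tsupport fun hx => hk (hP.supp k hx)]
        ring
    rw [Finset.sum_congr rfl fun k _ => h1 k, ← Finset.mul_sum, hP.sum x, mul_one]

end Sig

end General

end

end Crest.Agent.R235.H1A_692
end

-- ▼ part R235/H1B_692
section

/-!
Row 235 (S0364), block HZ, part H1 (helper692; statements helper524 #1825): closed one-forms.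

* `IsInt1 s` : `s = du / (2 π i u)` with `u : M → U(1)` smooth; `isInt1_iff`, `isInt1_closed`;
* `exists_h1_basis` : a basis of the closed one-forms mod exact which is a `ℤ`-basis of the
  integral ones.
-/

set_option autoImplicit false
set_option maxSynthPendingDepth 3
set_option linter.unusedSectionVars false

open Set Function Filter
open scoped Manifold ContDiff Topology

universe u

namespace Crest.Agent.R235.H1A_692

open Crest.Agent.R240 Crest.Agent.R240.Ch Tau_692 Loc_524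

noncomputable section

/-! ### integral forms, real version -/

section General

variable {E : Type} [NormedAddCommGroup E] [NormedSpace ℝ E]
variable {M : Type*} [TopologicalSpace M] [ChartedSpace E M] [IsManifold 𝓘(ℝ, E) ∞ M]
variable {ι : Type*} {B : ι → Set M}

/-- `a + i b : M → U(1)` with logarithmic differential `2 π i s`. -/
structure UData (s : F1 E M) (a b : M → ℝ) : Prop where
  sa : SmoothF E a
  sb : SmoothF E b
  n : ∀ x, a x ^ 2 + b x ^ 2 = 1
  da : ∀ x v, at1 (dF (E := E) a) x v = -(2 * Real.pi * at1 s x v * b x)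
  db : ∀ x v, at1 (dF (E := E) b) x v = 2 * Real.pi * at1 s x v * a x

/-- an integral form is smooth and closed. -/
theorem UData.smooth {s : F1 E M} {a b : M → ℝ} (h : UData s a b) : Smooth1 s ∧ dG s = 0 := by
  have hpi : (2 * Real.pi) ≠ 0 := by positivity
  have e1 : s = (2 * Real.pi)⁻¹ • (fmul1 a (dF b) + (-1 : ℝ) • fmul1 b (dF a)) := by
    funext x
    refine ContinuousLinearMap.ext fun v => ?_
    show at1 s x v = (2 * Real.pi)⁻¹ * (a x * at1 (dF (E := E) b) x v +
      (-1) * (b x * at1 (dF (E := E) a) x v))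
    rw [h.da, h.db]
    have e2 : (2 * Real.pi)⁻¹ * (a x * (2 * Real.pi * at1 s x v * a x) +
      (-1) * (b x * (-(2 * Real.pi * at1 s x v * b x)))) =
      ((2 * Real.pi)⁻¹ * (2 * Real.pi)) * (a x ^ 2 + b x ^ 2) * at1 s x v := by ring
    rw [e2, h.n x, inv_mul_cancel₀ hpi]
    ring
  have h1 : Smooth1 (fmul1 a (dF (E := E) b)) := Smooth1.fmul h.sa (Smooth1.dF h.sb)
  have h2 : Smooth1 (fmul1 b (dF (E := E) a)) := Smooth1.fmul h.sb (Smooth1.dF h.sa)
  have hsm : Smooth1 s := by
    rw [e1]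
    exact (h1.add (h2.smul _)).smul _
  refine ⟨hsm, ?_⟩
  have e3 : dG s = (2 * Real.pi)⁻¹ • ((wedG (dF a) (dF b) + fmul a (dG (dF b))) +
      (-1 : ℝ) • (wedG (dF b) (dF a) + fmul b (dG (dF a)))) := by
    conv_lhs => rw [e1]
    rw [dG_smul _ (h1.add (h2.smul _)), dG_add h1 (h2.smul _), dG_smul _ h2,
      dG_fmul1 h.sa (Smooth1.dF h.sb), dG_fmul1 h.sb (Smooth1.dF h.sa)]
  rw [e3, dG_dF h.sa, dG_dF h.sb]
  funext x
  refine ContinuousLinearMap.ext fun v => ContinuousLinearMap.ext fun w => ?_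
  show (2 * Real.pi)⁻¹ * (((at1 (dF (E := E) a) x v * at1 (dF (E := E) b) x w -
      at1 (dF (E := E) b) x v * at1 (dF (E := E) a) x w) + a x * 0) +
      (-1) * ((at1 (dF (E := E) b) x v * at1 (dF (E := E) a) x w -
      at1 (dF (E := E) a) x v * at1 (dF (E := E) b) x w) + b x * 0)) = 0
  rw [h.da, h.db, h.da, h.db]
  ring

/-- the unit function of integral data. -/
theorem udata_of_int (hB : ∀ i, IsOpen (B i)) (hcov : ∀ x, ∃ i, x ∈ B i) {s : F1 E M}
    {f : ι → M → ℝ} {m : ι → ι → ℤ} (h : CD1 B s f (fun i j => (m i j : ℝ))) :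
    ∃ a b : M → ℝ, UData s a b ∧ ∀ i x, x ∈ B i →
      a x = Real.cos (2 * Real.pi * f i x) ∧ b x = Real.sin (2 * Real.pi * f i x) := by
  choose r hr using hcov
  have key : ∀ i x, x ∈ B i → Real.cos (2 * Real.pi * f (r x) x) = Real.cos (2 * Real.pi * f i x) ∧
      Real.sin (2 * Real.pi * f (r x) x) = Real.sin (2 * Real.pi * f i x) := by
    intro i x hx
    have e1 := h.c (r x) i x (hr x) hx
    have e2 : 2 * Real.pi * f (r x) x = 2 * Real.pi * f i x + (m (r x) i : ℝ) * (2 * Real.pi) := by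
      rw [← e1]; ring
    rw [e2, Real.cos_add_int_mul_two_pi, Real.sin_add_int_mul_two_pi]
    exact ⟨rfl, rfl⟩
  have hc : ContDiff ℝ ∞ (fun t : ℝ => Real.cos (2 * Real.pi * t)) :=
    Real.contDiff_cos.comp (contDiff_const.mul contDiff_id)
  have hs : ContDiff ℝ ∞ (fun t : ℝ => Real.sin (2 * Real.pi * t)) :=
    Real.contDiff_sin.comp (contDiff_const.mul contDiff_id)
  have hdc : ∀ t : ℝ, deriv (fun t : ℝ => Real.cos (2 * Real.pi * t)) t =
      -(2 * Real.pi * Real.sin (2 * Real.pi * t)) := by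
    intro t
    have h1 : HasDerivAt (fun t : ℝ => 2 * Real.pi * t) (2 * Real.pi) t := by
      simpa using (hasDerivAt_id t).const_mul (2 * Real.pi)
    rw [h1.cos.deriv]; ring
  have hds : ∀ t : ℝ, deriv (fun t : ℝ => Real.sin (2 * Real.pi * t)) t =
      2 * Real.pi * Real.cos (2 * Real.pi * t) := by
    intro t
    have h1 : HasDerivAt (fun t : ℝ => 2 * Real.pi * t) (2 * Real.pi) t := by
      simpa using (hasDerivAt_id t).const_mul (2 * Real.pi)
    rw [h1.sin.deriv]; ring
  have hev1 : ∀ x, (fun y => Real.cos (2 * Real.pi * f (r y) y)) =ᶠ[𝓝 x]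
      fun y => Real.cos (2 * Real.pi * f (r x) y) := by
    intro x
    filter_upwards [(hB (r x)).mem_nhds (hr x)] with y hy
    exact (key _ y hy).1
  have hev2 : ∀ x, (fun y => Real.sin (2 * Real.pi * f (r y) y)) =ᶠ[𝓝 x]
      fun y => Real.sin (2 * Real.pi * f (r x) y) := by
    intro x
    filter_upwards [(hB (r x)).mem_nhds (hr x)] with y hy
    exact (key _ y hy).2
  refine ⟨fun y => Real.cos (2 * Real.pi * f (r y) y), fun y => Real.sin (2 * Real.pi * f (r y) y),
    ⟨?_, ?_, fun x => ?_, fun x v => ?_, fun x v => ?_⟩, fun i x hx => key i x hx⟩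
  · exact smoothF_iff_smAt.2 fun x => (SmAtF.comp' (h.sm _ x (hr x)) hc).congr (hev1 x)
  · exact smoothF_iff_smAt.2 fun x => (SmAtF.comp' (h.sm _ x (hr x)) hs).congr (hev2 x)
  · rw [add_comm]; exact Real.sin_sq_add_cos_sq _
  · rw [Loc_524.dF_congr (hev1 x), dF_comp_at (h.sm _ x (hr x)) hc, hdc, h.d _ x (hr x)]
    show -(2 * Real.pi * Real.sin (2 * Real.pi * f (r x) x)) * at1 s x v = _
    ring
  · rw [Loc_524.dF_congr (hev2 x), dF_comp_at (h.sm _ x (hr x)) hs, hds, h.d _ x (hr x)]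
    show (2 * Real.pi * Real.cos (2 * Real.pi * f (r x) x)) * at1 s x v = _
    ring

section Good

variable [FiniteDimensional ℝ E]
variable {p : ι → M} (hB : ∀ i, IsOpen (B i)) (hs : ∀ i, B i ⊆ (chartAt E (p i)).source)
  (hconv : ∀ i j, Convex ℝ (chartAt E (p i) '' (B i ∩ B j)))

include hB hs hconv

/-- integral data from a unit function. -/
theorem int_of_udata {s : F1 E M} {a b : M → ℝ} (h : UData s a b) :
    ∃ (f : ι → M → ℝ) (m : ι → ι → ℤ), CD1 B s f (fun i j => (m i j : ℝ)) ∧ ∀ i x, x ∈ B i →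
      a x = Real.cos (2 * Real.pi * f i x) ∧ b x = Real.sin (2 * Real.pi * f i x) := by
  have hconv1 : ∀ i, Convex ℝ (chartAt E (p i) '' (B i)) := fun i => by
    have := hconv i i
    rwa [inter_self] at this
  obtain ⟨f, c, hf⟩ := exists_cd1 hB hs hconv h.smooth.1 h.smooth.2
  have hc : ContDiff ℝ ∞ (fun t : ℝ => Real.cos (2 * Real.pi * t)) :=
    Real.contDiff_cos.comp (contDiff_const.mul contDiff_id)
  have hsn : ContDiff ℝ ∞ (fun t : ℝ => Real.sin (2 * Real.pi * t)) :=
    Real.contDiff_sin.comp (contDiff_const.mul contDiff_id)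
  have hdc : ∀ t : ℝ, deriv (fun t : ℝ => Real.cos (2 * Real.pi * t)) t =
      -(2 * Real.pi * Real.sin (2 * Real.pi * t)) := by
    intro t
    have h1 : HasDerivAt (fun t : ℝ => 2 * Real.pi * t) (2 * Real.pi) t := by
      simpa using (hasDerivAt_id t).const_mul (2 * Real.pi)
    rw [h1.cos.deriv]; ring
  have hds : ∀ t : ℝ, deriv (fun t : ℝ => Real.sin (2 * Real.pi * t)) t =
      2 * Real.pi * Real.cos (2 * Real.pi * t) := by
    intro t
    have h1 : HasDerivAt (fun t : ℝ => 2 * Real.pi * t) (2 * Real.pi) t := by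
      simpa using (hasDerivAt_id t).const_mul (2 * Real.pi)
    rw [h1.sin.deriv]; ring
  have hθ : ∀ i, ∃ θ : ℝ, ∀ x ∈ B i, a x = Real.cos (2 * Real.pi * (f i x + θ)) ∧
      b x = Real.sin (2 * Real.pi * (f i x + θ)) := by
    intro i
    have sC : ∀ x ∈ B i, SmAtF E (fun y => Real.cos (2 * Real.pi * f i y)) x := fun x hx =>
      SmAtF.comp' (hf.sm i x hx) hc
    have sS : ∀ x ∈ B i, SmAtF E (fun y => Real.sin (2 * Real.pi * f i y)) x := fun x hx =>
      SmAtF.comp' (hf.sm i x hx) hsn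
    have dC : ∀ x ∈ B i, ∀ v, at1 (dF (E := E) (fun y => Real.cos (2 * Real.pi * f i y))) x v =
        -(2 * Real.pi * Real.sin (2 * Real.pi * f i x)) * at1 s x v := fun x hx v => by
      rw [dF_comp_at (hf.sm i x hx) hc, hdc, hf.d i x hx]; rfl
    have dS : ∀ x ∈ B i, ∀ v, at1 (dF (E := E) (fun y => Real.sin (2 * Real.pi * f i y))) x v =
        (2 * Real.pi * Real.cos (2 * Real.pi * f i x)) * at1 s x v := fun x hx v => by
      rw [dF_comp_at (hf.sm i x hx) hsn, hds, hf.d i x hx]; rfl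
    have sa : ∀ x, SmAtF E a x := smAtF_of_smooth h.sa
    have sb : ∀ x, SmAtF E b x := smAtF_of_smooth h.sb
    obtain ⟨α, hα⟩ := const_loc (f := fun y => a y * Real.cos (2 * Real.pi * f i y) +
        b y * Real.sin (2 * Real.pi * f i y)) (hB i) (hs i) (hconv1 i)
      (fun x hx => ((sa x).mul (sC x hx)).add ((sb x).mul (sS x hx))) (fun x hx => by
        refine ContinuousLinearMap.ext fun v => ?_
        rw [dF_add_at ((sa x).mul (sC x hx)) ((sb x).mul (sS x hx)), dF_mul_at (sa x) (sC x hx),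
          dF_mul_at (sb x) (sS x hx)]
        show (a x * at1 (dF (E := E) _) x v + Real.cos (2 * Real.pi * f i x) * at1 (dF (E := E) a) x v) +
          (b x * at1 (dF (E := E) _) x v + Real.sin (2 * Real.pi * f i x) * at1 (dF (E := E) b) x v) = 0
        rw [dC x hx v, dS x hx v, h.da, h.db]
        ring)
    obtain ⟨β, hβ⟩ := const_loc (f := fun y => b y * Real.cos (2 * Real.pi * f i y) -
        a y * Real.sin (2 * Real.pi * f i y)) (hB i) (hs i) (hconv1 i)
      (fun x hx => ((sb x).mul (sC x hx)).sub ((sa x).mul (sS x hx))) (fun x hx => by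
        refine ContinuousLinearMap.ext fun v => ?_
        rw [dF_sub_at ((sb x).mul (sC x hx)) ((sa x).mul (sS x hx)), dF_mul_at (sb x) (sC x hx),
          dF_mul_at (sa x) (sS x hx)]
        show (b x * at1 (dF (E := E) _) x v + Real.cos (2 * Real.pi * f i x) * at1 (dF (E := E) b) x v) -
          (a x * at1 (dF (E := E) _) x v + Real.sin (2 * Real.pi * f i x) * at1 (dF (E := E) a) x v) = 0
        rw [dC x hx v, dS x hx v, h.da, h.db]
        ring)
    rcases (B i).eq_empty_or_nonempty with he | ⟨x0, hx0⟩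
    · exact ⟨0, fun x hx => by rw [he] at hx; exact hx.elim⟩
    have hn : α ^ 2 + β ^ 2 = 1 := by
      have e1 := hα x0 hx0
      have e2 := hβ x0 hx0
      have e3 := h.n x0
      have e4 := Real.sin_sq_add_cos_sq (2 * Real.pi * f i x0)
      beta_reduce at e1 e2
      rw [← e1, ← e2]
      have : (a x0 * Real.cos (2 * Real.pi * f i x0) + b x0 * Real.sin (2 * Real.pi * f i x0)) ^ 2 +
          (b x0 * Real.cos (2 * Real.pi * f i x0) - a x0 * Real.sin (2 * Real.pi * f i x0)) ^ 2 =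
          (a x0 ^ 2 + b x0 ^ 2) * (Real.sin (2 * Real.pi * f i x0) ^ 2 +
            Real.cos (2 * Real.pi * f i x0) ^ 2) := by ring
      rw [this, e3, e4, one_mul]
    obtain ⟨θ, hθ1, hθ2⟩ : ∃ θ : ℝ, α = Real.cos θ ∧ β = Real.sin θ := by
      have hz : ‖(⟨α, β⟩ : ℂ)‖ = 1 := by
        rw [Complex.norm_def, Complex.normSq_mk]
        rw [show α * α + β * β = 1 by nlinarith [hn]]
        exact Real.sqrt_one
      refine ⟨Complex.arg ⟨α, β⟩, ?_, ?_⟩
      · have := Complex.norm_mul_cos_arg (⟨α, β⟩ : ℂ)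
        rw [hz, one_mul] at this
        exact this.symm
      · have := Complex.norm_mul_sin_arg (⟨α, β⟩ : ℂ)
        rw [hz, one_mul] at this
        exact this.symm
    refine ⟨θ / (2 * Real.pi), fun x hx => ?_⟩
    have e0 : 2 * Real.pi * (f i x + θ / (2 * Real.pi)) = 2 * Real.pi * f i x + θ := by
      have : (2 * Real.pi) ≠ 0 := by positivity
      field_simp
    have e1 := hα x hx
    have e2 := hβ x hx
    have e4 := Real.sin_sq_add_cos_sq (2 * Real.pi * f i x)
    beta_reduce at e1 e2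
    rw [e0, Real.cos_add, Real.sin_add, ← hθ1, ← hθ2, ← e1, ← e2]
    constructor
    · have : Real.cos (2 * Real.pi * f i x) *
          (a x * Real.cos (2 * Real.pi * f i x) + b x * Real.sin (2 * Real.pi * f i x)) -
          Real.sin (2 * Real.pi * f i x) *
          (b x * Real.cos (2 * Real.pi * f i x) - a x * Real.sin (2 * Real.pi * f i x)) =
          a x * (Real.sin (2 * Real.pi * f i x) ^ 2 + Real.cos (2 * Real.pi * f i x) ^ 2) := by ring
      rw [this, e4, mul_one]
    · have : Real.sin (2 * Real.pi * f i x) *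
          (a x * Real.cos (2 * Real.pi * f i x) + b x * Real.sin (2 * Real.pi * f i x)) +
          Real.cos (2 * Real.pi * f i x) *
          (b x * Real.cos (2 * Real.pi * f i x) - a x * Real.sin (2 * Real.pi * f i x)) =
          b x * (Real.sin (2 * Real.pi * f i x) ^ 2 + Real.cos (2 * Real.pi * f i x) ^ 2) := by ring
      rw [this, e4, mul_one]
  choose θ hθ using hθ
  have hm : ∀ i j, ∃ m : ℤ, ∀ x ∈ B i ∩ B j, (f i x + θ i) - (f j x + θ j) = m := by
    intro i j
    rcases (B i ∩ B j).eq_empty_or_nonempty with he | ⟨x0, hx0⟩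
    · exact ⟨0, fun x hx => by rw [he] at hx; exact hx.elim⟩
    have e1 := hθ i x0 hx0.1
    have e2 := hθ j x0 hx0.2
    have e3 : Real.cos (2 * Real.pi * (f i x0 + θ i) - 2 * Real.pi * (f j x0 + θ j)) = 1 := by
      rw [Real.cos_sub, ← e1.1, ← e1.2, ← e2.1, ← e2.2]
      have := h.n x0
      nlinarith
    obtain ⟨m, hm⟩ := (Real.cos_eq_one_iff _).1 e3
    refine ⟨m, fun x hx => ?_⟩
    have e4 := hf.c i j x hx.1 hx.2
    have e5 := hf.c i j x0 hx0.1 hx0.2
    have hpi : Real.pi ≠ 0 := Real.pi_ne_zero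
    have e6 : (f i x0 + θ i) - (f j x0 + θ j) = m := by
      have e7 : 2 * Real.pi * ((f i x0 + θ i) - (f j x0 + θ j)) = 2 * Real.pi * m := by
        linarith
      exact mul_left_cancel₀ (by positivity) e7
    linarith
  choose m hm using hm
  refine ⟨fun i x => f i x + θ i, m, ⟨fun i x hx => (hf.sm i x hx).add (smAtF_const _ x),
    fun i x hx => ?_, fun i j x hi hj => hm i j x ⟨hi, hj⟩⟩, hθ⟩
  rw [dF_add_at (hf.sm i x hx) (smAtF_const _ x), dF_const_at, add_zero, hf.d i x hx]

end Good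

end General

end

end Crest.Agent.R235.H1A_692
end

-- ▼ part R235/H1C_692

/-!
Row 235 (S0364), block HZ, part H1 (helper692; statements helper524 #1825): closed one-forms.

* `rel_basis` : abstract lattice lemma;
* `IsInt1 s` : `s = du / (2 π i u)` with `u : M → U(1)` smooth; `isInt1_iff`;
* `exists_h1_basis` : a basis of the closed one-forms mod exact which is a `ℤ`-basis of the
  integral ones.
-/

set_option autoImplicit false
set_option maxSynthPendingDepth 3
set_option linter.unusedSectionVars false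

open Set Function Filter
open scoped Manifold ContDiff Topology

universe u

namespace Crest.Agent.R235.H1A_692

open Crest.Agent.R240 Crest.Agent.R240.Ch Tau_692 Loc_524

noncomputable section

/-! ### lattices relative to a subspace -/

section Lat

open Module

theorem fg_map {W V : Type*} [AddCommGroup W] [AddCommGroup V] {K : AddSubgroup W} (h : K.FG)
    (g : W →+ V) : (K.map g).FG := by
  have h1 : AddGroup.FG K := (AddGroup.fg_iff_addSubgroup_fg K).2 h
  have h2 : AddGroup.FG (g.comp K.subtype).range := AddGroup.fg_range _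
  have e : K.map g = (g.comp K.subtype).range := by
    rw [← AddMonoidHom.map_range, AddSubgroup.range_subtype]
  rw [e]
  exact (AddGroup.fg_iff_addSubgroup_fg _).1 h2

theorem rel_basis {W : Type*} [AddCommGroup W] [Module ℝ W] (N : Submodule ℝ W)
    (K : AddSubgroup W) (hfg : K.FG)
    (hrat : ∀ (m : ℕ) (v : Fin m → W), (∀ i, v i ∈ K) → ∀ x : Fin m → ℝ, ∑ i, x i • v i ∈ N →
      x ∈ Submodule.span ℝ {w : Fin m → ℝ | ∃ u : Fin m → ℤ, ∑ i, (u i : ℝ) • v i ∈ N ∧
        w = fun i => (u i : ℝ)}) :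
    ∃ (m : ℕ) (e : Fin m → W), (∀ i, e i ∈ K) ∧
      (∀ w ∈ Submodule.span ℝ (K : Set W), ∃ x : Fin m → ℝ, w - ∑ i, x i • e i ∈ N) ∧
      (∀ x : Fin m → ℝ, ∑ i, x i • e i ∈ N → x = 0) ∧
      (∀ x : Fin m → ℝ, ∀ c ∈ K, (∑ i, x i • e i) - c ∈ N → ∀ i, ∃ k : ℤ, x i = k) := by
  classical
  let π : W →ₗ[ℝ] W ⧸ N := N.mkQ
  let K' : AddSubgroup (W ⧸ N) := K.map π.toAddMonoidHom
  have hfg' : K'.FG := fg_map hfg _
  have hfin : Module.Finite ℤ K' := by
    rw [Module.Finite.iff_addGroup_fg]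
    exact (AddGroup.fg_iff_addSubgroup_fg K').2 hfg'
  have : NoZeroSMulDivisors ℤ K' := by
    constructor
    intro n x hx
    by_cases hn : n = 0
    · exact Or.inl hn
    · right
      have h1 : (n : ℝ) • (x : W ⧸ N) = 0 := by
        have := congrArg (Subtype.val) hx
        simpa [← Int.cast_smul_eq_zsmul ℝ] using this
      rcases smul_eq_zero.1 h1 with h | h
      · exact absurd (by exact_mod_cast h) hn
      · exact Subtype.ext h
  have : Module.Free ℤ K' := inferInstance
  let b : Module.Basis (Fin (finrank ℤ K')) ℤ K' := Module.finBasis ℤ K'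
  set m := finrank ℤ K' with hm
  have hlift : ∀ i : Fin m, ∃ e ∈ K, π e = (b i : W ⧸ N) := fun i => (b i).2
  choose e heK he using hlift
  have hrepr : ∀ x : K', (x : W ⧸ N) = ∑ i, ((b.repr x i : ℤ) : ℝ) • (b i : W ⧸ N) := by
    intro x
    have h0 : (K'.subtype (∑ i, b.repr x i • b i) : W ⧸ N) = K'.subtype x := by rw [b.sum_repr x]
    rw [map_sum] at h0
    rw [AddSubgroup.subtype_apply] at h0
    rw [← h0]
    refine Finset.sum_congr rfl fun i _ => ?_
    rw [map_zsmul, AddSubgroup.subtype_apply, Int.cast_smul_eq_zsmul]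
  have hsum : ∀ x : Fin m → ℝ, π (∑ i, x i • e i) = ∑ i, x i • (b i : W ⧸ N) := by
    intro x
    rw [map_sum]
    refine Finset.sum_congr rfl fun i _ => ?_
    rw [map_smul, he]
  have hN : ∀ w : W, w ∈ N ↔ π w = 0 := fun w => (Submodule.Quotient.mk_eq_zero N).symm
  have hind : ∀ x : Fin m → ℝ, ∑ i, x i • e i ∈ N → x = 0 := by
    intro x hx
    have h1 := hrat m e heK x hx
    have h2 : {w : Fin m → ℝ | ∃ u : Fin m → ℤ, ∑ i, (u i : ℝ) • e i ∈ N ∧
        w = fun i => (u i : ℝ)} ⊆ {0} := by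
      rintro w ⟨u, hu, rfl⟩
      rw [hN, hsum] at hu
      have h3 : ∑ i, u i • b i = 0 := by
        apply Subtype.ext
        rw [AddSubgroup.coe_zero]
        have h4 : ((∑ i, u i • b i : K') : W ⧸ N) = ∑ i, (u i : ℝ) • (b i : W ⧸ N) := by
          have := map_sum K'.subtype (fun i => u i • b i) Finset.univ
          rw [AddSubgroup.subtype_apply] at this
          rw [this]
          refine Finset.sum_congr rfl fun i _ => ?_
          rw [map_zsmul, AddSubgroup.subtype_apply, Int.cast_smul_eq_zsmul]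
        rw [h4, hu]
      have h5 := Fintype.linearIndependent_iff.1 b.linearIndependent u h3
      rw [mem_singleton_iff]
      funext i
      simp [h5 i]
    have h3 := Submodule.span_mono (R := ℝ) h2 h1
    rwa [Submodule.span_zero_singleton, Submodule.mem_bot] at h3
  refine ⟨m, e, heK, fun w hw => ?_, hind, fun x c hc hx => ?_⟩
  · have h1 : π w ∈ Submodule.span ℝ (Set.range fun i : Fin m => (b i : W ⧸ N)) := by
      have h2 : Submodule.span ℝ (K : Set W) ≤
          (Submodule.span ℝ (Set.range fun i : Fin m => (b i : W ⧸ N))).comap π := by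
        rw [Submodule.span_le]
        intro c hc
        have h3 := hrepr ⟨π c, ⟨c, hc, rfl⟩⟩
        simp only at h3
        rw [SetLike.mem_coe, Submodule.mem_comap, h3]
        exact Submodule.sum_mem _ fun i _ => Submodule.smul_mem _ _ (Submodule.subset_span ⟨i, rfl⟩)
      exact h2 hw
    obtain ⟨x, hx⟩ := (Submodule.mem_span_range_iff_exists_fun ℝ).1 h1
    refine ⟨x, ?_⟩
    rw [hN, map_sub, hsum, hx, sub_self]
  · have h3 := hrepr ⟨π c, ⟨c, hc, rfl⟩⟩
    simp only at h3
    set k : Fin m → ℤ := fun i => b.repr ⟨π c, ⟨c, hc, rfl⟩⟩ i with hk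
    have h4 : ∑ i, (x i - k i) • e i ∈ N := by
      rw [hN, hsum]
      simp only [sub_smul, Finset.sum_sub_distrib]
      rw [← h3, ← hsum, ← map_sub]
      exact (hN _).1 hx
    have h5 := hind _ h4
    intro i
    refine ⟨k i, ?_⟩
    have := congrFun h5 i
    simp only [Pi.zero_apply] at this
    linarith

end Lat

/-! ### integral forms -/

section Four

variable {M : Type u} [TopologicalSpace M] [ChartedSpace E4 M] [IsManifold 𝓘(ℝ, E4) ∞ M]

/-- `s = du / (2 π i u)` with `u : M → U(1)` smooth. -/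
def IsInt1 (s : F1 E4 M) : Prop :=
  ∃ u : M → ℂ, ContMDiff 𝓘(ℝ, E4) 𝓘(ℝ, ℂ) ∞ u ∧ (∀ x, ‖u x‖ = 1) ∧
    ∀ (x : M) (v : E4), fderiv ℝ (fun y : E4 => u ((chartAt E4 x).symm y)) (chartAt E4 x x) v =
      2 * Real.pi * Complex.I * ((at1 s x v : ℝ) : ℂ) * u x

theorem isInt1_iff_udata {s : F1 E4 M} : IsInt1 s ↔ ∃ a b : M → ℝ, UData s a b := by
  constructor
  · rintro ⟨u, hu, h1, h2⟩
    have sa : SmoothF E4 (fun x => (u x).re) := (smoothF_iff _).1
      (Complex.reCLM.contDiff.contMDiff.comp hu)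
    have sb : SmoothF E4 (fun x => (u x).im) := (smoothF_iff _).1
      (Complex.imCLM.contDiff.contMDiff.comp hu)
    have hd : ∀ x, DifferentiableAt ℝ (fun y : E4 => u ((chartAt E4 x).symm y))
        (chartAt E4 x x) := by
      intro x
      have e1 := (sa.at (mem_chart_target E4 x)).differentiableAt infty_ne_zero
      have e2 := (sb.at (mem_chart_target E4 x)).differentiableAt infty_ne_zero
      have e3 : (fun y : E4 => u ((chartAt E4 x).symm y)) = fun y : E4 =>
          Complex.equivRealProdCLM.symm (repF x (fun x => (u x).re) y,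
            repF x (fun x => (u x).im) y) := by
        funext y
        apply Complex.ext <;> simp [repF]
      rw [e3]
      exact Complex.equivRealProdCLM.symm.differentiable.differentiableAt.comp _ (e1.prodMk e2)
    refine ⟨fun x => (u x).re, fun x => (u x).im, sa, sb, fun x => ?_, fun x v => ?_, fun x v => ?_⟩
    · have := h1 x
      rw [Complex.norm_def, Real.sqrt_eq_one, Complex.normSq_apply] at this
      nlinarith
    · have e1 := congrArg Complex.re (h2 x v)
      have e2 : (Complex.reCLM.comp (fderiv ℝ (fun y : E4 => u ((chartAt E4 x).symm y))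
          (chartAt E4 x x))) = fderiv ℝ (repF x fun x => (u x).re) (chartAt E4 x x) := by
        symm
        exact (Complex.reCLM.hasFDerivAt.comp _ (hd x).hasFDerivAt).fderiv
      have e3 := congrArg (fun L : E4 →L[ℝ] ℝ => L v) e2
      show fderiv ℝ (repF x fun x => (u x).re) (chartAt E4 x x) v = _
      rw [← e3]
      show (fderiv ℝ (fun y : E4 => u ((chartAt E4 x).symm y)) (chartAt E4 x x) v).re = _
      rw [e1]
      simp
    · have e1 := congrArg Complex.im (h2 x v)
      have e2 : (Complex.imCLM.comp (fderiv ℝ (fun y : E4 => u ((chartAt E4 x).symm y))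
          (chartAt E4 x x))) = fderiv ℝ (repF x fun x => (u x).im) (chartAt E4 x x) := by
        symm
        exact (Complex.imCLM.hasFDerivAt.comp _ (hd x).hasFDerivAt).fderiv
      have e3 := congrArg (fun L : E4 →L[ℝ] ℝ => L v) e2
      show fderiv ℝ (repF x fun x => (u x).im) (chartAt E4 x x) v = _
      rw [← e3]
      show (fderiv ℝ (fun y : E4 => u ((chartAt E4 x).symm y)) (chartAt E4 x x) v).im = _
      rw [e1]
      simp
  · rintro ⟨a, b, h⟩
    have e1 := fun x => (h.sa.at (mem_chart_target E4 x)).differentiableAt infty_ne_zero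
    have e2 := fun x => (h.sb.at (mem_chart_target E4 x)).differentiableAt infty_ne_zero
    refine ⟨fun x => Complex.equivRealProdCLM.symm (a x, b x), ?_, fun x => ?_, fun x v => ?_⟩
    · exact Complex.equivRealProdCLM.symm.contDiff.contMDiff.comp
        (((smoothF_iff _).2 h.sa).prodMk_space ((smoothF_iff _).2 h.sb))
    · rw [Complex.norm_def, Real.sqrt_eq_one, Complex.normSq_apply]
      have := h.n x
      simp only [Complex.equivRealProdCLM_symm_apply]
      simp
      nlinarith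
    · have e3 : fderiv ℝ (fun y : E4 => Complex.equivRealProdCLM.symm
          (a ((chartAt E4 x).symm y), b ((chartAt E4 x).symm y))) (chartAt E4 x x) =
          (Complex.equivRealProdCLM.symm : ℝ × ℝ →L[ℝ] ℂ).comp
            ((fderiv ℝ (repF x a) (chartAt E4 x x)).prod (fderiv ℝ (repF x b) (chartAt E4 x x))) :=
        (Complex.equivRealProdCLM.symm.hasFDerivAt.comp _
          ((e1 x).hasFDerivAt.prodMk (e2 x).hasFDerivAt)).fderiv
      rw [e3]
      show Complex.equivRealProdCLM.symm (at1 (dF (E := E4) a) x v, at1 (dF (E := E4) b) x v) = _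
      rw [h.da, h.db]
      apply Complex.ext
      · simp
      · simp

theorem closed1_iff {s : F1 E4 M} : Closed1 s ↔ Smooth1 s ∧ dG s = 0 := by
  constructor
  · rintro ⟨h1, h2⟩
    refine ⟨h1, ?_⟩
    funext x
    exact h2 x _ (mem_chart_target E4 x)
  · rintro ⟨h1, h2⟩
    refine ⟨h1, fun p y hy => ?_⟩
    rw [← rep_dG h1 hy, h2]
    rfl

theorem IsInt1.closed {s : F1 E4 M} (h : IsInt1 s) : Closed1 s := by
  obtain ⟨a, b, h⟩ := isInt1_iff_udata.1 h
  exact closed1_iff.2 h.smooth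

theorem closed1_dF {f : M → ℝ} (hf : SmoothF E4 f) : Closed1 (dF (E := E4) f) :=
  closed1_iff.2 ⟨Smooth1.dF hf, dG_dF hf⟩

variable [T2Space M] [CompactSpace M]

theorem int1_iff_cd1 {G : RGC M} {s : F1 E4 M} {f : Fin G.n → M → ℝ} {m : Fin G.n → Fin G.n → ℤ} :
    Cup1_524.Int1 G s f m ↔ CD1 G.B s f (fun i j => (m i j : ℝ)) :=
  ⟨fun h => ⟨h.sm, h.d, h.c⟩, fun h => ⟨h.sm, h.d, h.c⟩⟩

/-- **(H1-1)** the integral closed forms. -/
theorem isInt1_iff (G : RGC M) {s : F1 E4 M} :
    IsInt1 s ↔ ∃ f m, Cup1_524.Int1 G s f m := by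
  rw [isInt1_iff_udata]
  constructor
  · rintro ⟨a, b, h⟩
    obtain ⟨f, m, hf, -⟩ := int_of_udata G.isOpen G.sub G.conv h
    exact ⟨f, m, int1_iff_cd1.2 hf⟩
  · rintro ⟨f, m, h⟩
    obtain ⟨a, b, h, -⟩ := udata_of_int G.isOpen G.cover (int1_iff_cd1.1 h)
    exact ⟨a, b, h⟩

/-- **(H1-2)** Čech data of a closed form. -/
theorem exists_cd1_G (G : RGC M) {s : F1 E4 M} (hs : Closed1 s) :
    ∃ (f : Fin G.n → M → ℝ) (c : Fin G.n → Fin G.n → ℝ), CD1 G.B s f c :=
  exists_cd1 G.isOpen G.sub G.conv (closed1_iff.1 hs).1 (closed1_iff.1 hs).2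

theorem cd1_sig_G (G : RGC M) {c : Fin G.n → Fin G.n → ℝ} (hc : Coc1 G.B c) :
    CD1 G.B (sig (E := E4) G.ψ c) (fun m x => ∑ j, c m j * G.ψ j x) c :=
  cd1_sig (HZLat_524.pun G) hc

theorem exact_G (G : RGC M) {s : F1 E4 M} {f : Fin G.n → M → ℝ} {c : Fin G.n → Fin G.n → ℝ}
    (h : CD1 G.B s f c) (hc : Cob1 G.B c) : ∃ F : M → ℝ, SmoothF E4 F ∧ s = dF F :=
  h.exact G.isOpen G.cover hc

/-- the coboundaries, as a subspace. -/
def cobS (G : RGC M) : Submodule ℝ (Fin G.n → Fin G.n → ℝ) where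
  carrier := {c | Cob1 G.B c}
  add_mem' := by
    rintro a b ⟨α, hα⟩ ⟨β, hβ⟩
    refine ⟨fun i => α i + β i, fun i j x hi hj => ?_⟩
    show a i j + b i j = _
    rw [hα i j x hi hj, hβ i j x hi hj]
    ring
  zero_mem' := ⟨fun _ => 0, fun i j x _ _ => by simp⟩
  smul_mem' := by
    rintro r a ⟨α, hα⟩
    refine ⟨fun i => r * α i, fun i j x hi hj => ?_⟩
    show r * a i j = _
    rw [hα i j x hi hj]
    ring

/-- integral cocycles. -/
def zz (G : RGC M) : AddSubgroup (Fin G.n → Fin G.n → ℤ) where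
  carrier := {c | ∀ i j k, (G.B i ∩ G.B j ∩ G.B k).Nonempty → c j k - c i k + c i j = 0}
  add_mem' := by
    intro a b ha hb i j k h
    have h1 := ha i j k h
    have h2 := hb i j k h
    show a j k + b j k - (a i k + b i k) + (a i j + b i j) = 0
    linarith
  zero_mem' := fun i j k _ => by simp
  neg_mem' := by
    intro a ha i j k h
    have h1 := ha i j k h
    show -a j k - -a i k + -a i j = 0
    linarith

/-- the inclusion of integral cochains in real cochains. -/
def castH (n : ℕ) : (Fin n → Fin n → ℤ) →+ (Fin n → Fin n → ℝ) where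
  toFun c := fun i j => (c i j : ℝ)
  map_zero' := by funext i j; simp
  map_add' a b := by funext i j; simp

theorem fg_zz (G : RGC M) : ((zz G).map (castH G.n)).FG := by
  have h1 : Module.Finite ℤ (Fin G.n → Fin G.n → ℤ) := inferInstance
  have h2 : Module.Finite ℤ (zz G) :=
    inferInstanceAs (Module.Finite ℤ (AddSubgroup.toIntSubmodule (zz G)))
  have h3 : AddGroup.FG (zz G) := Module.Finite.iff_addGroup_fg.1 h2
  exact fg_map ((AddGroup.fg_iff_addSubgroup_fg _).1 h3) _

theorem coc_of_zz {G : RGC M} {c : Fin G.n → Fin G.n → ℤ} (hc : c ∈ zz G) :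
    Coc1 G.B (fun i j => (c i j : ℝ)) := by
  intro i j k x hi hj hk
  have := hc i j k ⟨x, ⟨hi, hj⟩, hk⟩
  beta_reduce
  exact_mod_cast this

theorem hrat_G (G : RGC M) (m : ℕ) (v : Fin m → Fin G.n → Fin G.n → ℝ)
    (hv : ∀ i, v i ∈ (zz G).map (castH G.n)) (x : Fin m → ℝ) (hx : ∑ i, x i • v i ∈ cobS G) :
    x ∈ Submodule.span ℝ {w : Fin m → ℝ | ∃ u : Fin m → ℤ, ∑ i, (u i : ℝ) • v i ∈ cobS G ∧
      w = fun i => (u i : ℝ)} := by
  classical
  choose z hz hzv using hv
  obtain ⟨b, hb⟩ := hx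
  let κ := {q : Fin G.n × Fin G.n // (G.B q.1 ∩ G.B q.2).Nonempty}
  let A : κ → (Fin m ⊕ Fin G.n) → ℤ := fun q => Sum.elim (fun k => z k q.1.1 q.1.2)
    (fun l => - (if l = q.1.1 then 1 else 0) + (if l = q.1.2 then 1 else 0))
  have hsum : ∀ (y : Fin m → ℝ) (i j : Fin G.n), (∑ k, y k • v k) i j =
      ∑ k, (z k i j : ℝ) * y k := by
    intro y i j
    rw [Finset.sum_apply, Finset.sum_apply]
    refine Finset.sum_congr rfl fun k _ => ?_
    rw [← hzv k]
    show y k * (z k i j : ℝ) = _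
    ring
  have hA : ∀ (q : κ) (y : Fin m → ℝ) (β : Fin G.n → ℝ),
      ∑ i, (A q i : ℝ) * (Sum.elim y β : Fin m ⊕ Fin G.n → ℝ) i =
        (∑ k, y k • v k) q.1.1 q.1.2 - (β q.1.1 - β q.1.2) := by
    intro q y β
    rw [Fintype.sum_sum_type, hsum]
    simp only [A, Sum.elim_inl, Sum.elim_inr]
    have : ∑ l, ((-(if l = q.1.1 then 1 else 0) + (if l = q.1.2 then 1 else 0) : ℤ) : ℝ) * β l =
        - (β q.1.1 - β q.1.2) := by
      push_cast
      simp only [add_mul, neg_mul, ite_mul, one_mul, zero_mul, Finset.sum_add_distrib,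
        Finset.sum_neg_distrib, Finset.sum_ite_eq', Finset.mem_univ, if_true]
      ring
    rw [this]
    ring
  have h := SpanZ_311.span_int_system A (Sum.elim x b) (fun q => by
    obtain ⟨p, hp⟩ := q.2
    rw [hA, hb q.1.1 q.1.2 p hp.1 hp.2, sub_self])
  let F : (Fin m ⊕ Fin G.n → ℝ) →ₗ[ℝ] (Fin m → ℝ) := LinearMap.funLeft ℝ ℝ Sum.inl
  have h2 : x = F (Sum.elim x b) := by
    funext k; rfl
  rw [h2]
  have h3 := Submodule.mem_map_of_mem (f := F) h
  rw [Submodule.map_span] at h3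
  refine Submodule.span_mono ?_ h3
  rintro w ⟨w', ⟨u, hu, rfl⟩, rfl⟩
  refine ⟨fun k => u (Sum.inl k), ⟨fun l => (u (Sum.inr l) : ℝ), fun i j p hi hj => ?_⟩, rfl⟩
  have h4 := hu ⟨(i, j), ⟨p, hi, hj⟩⟩
  have h5 := hA ⟨(i, j), ⟨p, hi, hj⟩⟩ (fun k => (u (Sum.inl k) : ℝ)) (fun l => (u (Sum.inr l) : ℝ))
  have h6 : ∑ q, (A ⟨(i, j), ⟨p, hi, hj⟩⟩ q : ℝ) *
      (Sum.elim (fun k => (u (Sum.inl k) : ℝ)) (fun l => (u (Sum.inr l) : ℝ)) :
        Fin m ⊕ Fin G.n → ℝ) q = 0 := by
    have h7 : ∀ q, (Sum.elim (fun k => (u (Sum.inl k) : ℝ)) (fun l => (u (Sum.inr l) : ℝ)) :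
        Fin m ⊕ Fin G.n → ℝ) q = (u q : ℝ) := by
      intro q
      cases q <;> rfl
    simp only [h7]
    exact_mod_cast h4
  rw [h6] at h5
  linarith

theorem coc_mem_span {G : RGC M} {c : Fin G.n → Fin G.n → ℝ} (hc : Coc1 G.B c) :
    c ∈ Submodule.span ℝ (((zz G).map (castH G.n) : AddSubgroup _) :
      Set (Fin G.n → Fin G.n → ℝ)) := by
  have h := SpanZ_311.span_int_cocycle1 G.B c (fun i j k ⟨x, hx⟩ => hc i j k x hx.1.1 hx.1.2 hx.2)
  refine Submodule.span_mono ?_ h
  rintro w ⟨u, hu, rfl⟩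
  exact ⟨u, hu, rfl⟩

/-- **(H1-3)** for one good cover. -/
theorem exists_h1_basis_G (G : RGC M) : ∃ (b : ℕ) (s : Fin b → F1 E4 M),
    (∀ k, Closed1 (s k) ∧ IsInt1 (s k)) ∧
    (∀ r, Closed1 r → ∃ x : Fin b → ℝ,
      (∃ f : M → ℝ, SmoothF E4 f ∧ r = (∑ k, x k • s k) + dF f) ∧
      (IsInt1 r ↔ ∀ k, ∃ m : ℤ, x k = m)) ∧
    (∀ x : Fin b → ℝ, (∃ f : M → ℝ, SmoothF E4 f ∧ (∑ k, x k • s k) = dF f) → x = 0) := by
  obtain ⟨b, e, h1, h2, h3, h4⟩ := rel_basis (cobS G) ((zz G).map (castH G.n)) (fg_zz G) (hrat_G G)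
  choose z hz hze using h1
  have hcoc : ∀ k, Coc1 G.B (e k) := fun k => by
    rw [← hze k]; exact coc_of_zz (hz k)
  have hcd : ∀ k, CD1 G.B (sig (E := E4) G.ψ (e k)) (fun m x => ∑ j, e k m j * G.ψ j x) (e k) :=
    fun k => cd1_sig_G G (hcoc k)
  have hint : ∀ k, IsInt1 (sig (E := E4) G.ψ (e k)) := by
    intro k
    refine (isInt1_iff G).2 ⟨fun m x => ∑ j, e k m j * G.ψ j x, z k, int1_iff_cd1.2 ?_⟩
    have e0 : (fun i j => (z k i j : ℝ)) = e k := hze k
    rw [e0]
    exact hcd k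
  have hsum : ∀ x : Fin b → ℝ, CD1 G.B (∑ k, x k • sig (E := E4) G.ψ (e k))
      (fun i y => ∑ k, x k * ∑ j, e k i j * G.ψ j y) (fun i j => ∑ k, x k * e k i j) := fun x =>
    CD1.sum Finset.univ fun k _ => (hcd k).smul (x k)
  have heq : ∀ x : Fin b → ℝ, (fun i j => ∑ k, x k * e k i j) = ∑ k, x k • e k := by
    intro x
    funext i j
    rw [Finset.sum_apply, Finset.sum_apply]
    rfl
  refine ⟨b, fun k => sig (E := E4) G.ψ (e k), fun k => ⟨(hint k).closed, hint k⟩, fun r hr => ?_,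
    fun x hx => ?_⟩
  · obtain ⟨g, c, hg⟩ := exists_cd1_G G hr
    obtain ⟨x, hx⟩ := h2 c (coc_mem_span hg.isCoc)
    have hd := hg.sub (hsum x)
    obtain ⟨f, hf, hrf⟩ := exact_G G hd (by
      have e1 : (fun i j => c i j - ∑ k, x k * e k i j) = c - ∑ k, x k • e k := by
        rw [← heq x]; rfl
      rw [e1]
      exact hx)
    refine ⟨x, ⟨f, hf, ?_⟩, ?_⟩
    · rw [← hrf]; abel
    · constructor
      · intro hri
        obtain ⟨g', m', hg'⟩ := (isInt1_iff G).1 hri
        have hg'' := int1_iff_cd1.1 hg'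
        have hu := CD1.unique G.isOpen G.sub G.conv hg hg''
        refine h4 x (fun i j => (m' i j : ℝ)) ⟨m', ?_, rfl⟩ ?_
        · rintro i j k ⟨y, ⟨hi, hj⟩, hk⟩
          have := hg''.isCoc i j k y hi hj hk
          beta_reduce at this
          exact_mod_cast this
        · have e2 : (∑ k, x k • e k) - (fun i j => (m' i j : ℝ)) =
              (fun i j => c i j - (m' i j : ℝ)) - (c - ∑ k, x k • e k) := by
            funext i j
            show (∑ k, x k • e k) i j - (m' i j : ℝ) =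
              (c i j - (m' i j : ℝ)) - (c i j - (∑ k, x k • e k) i j)
            ring
          rw [e2]
          exact (cobS G).sub_mem hu hx
      · intro hxm
        choose m hm using hxm
        refine (isInt1_iff G).2 ⟨fun i y => (∑ k, x k * ∑ j, e k i j * G.ψ j y) + f y,
          fun i j => ∑ k, m k * z k i j, int1_iff_cd1.2 ?_⟩
        have h5 := (hsum x).add (cd1_dF (B := G.B) hf)
        have e3 : r = (∑ k, x k • sig (E := E4) G.ψ (e k)) + dF f := by
          rw [← hrf]; abel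
        rw [e3]
        convert h5 using 3 with i j
        rw [add_zero]
        push_cast
        refine Finset.sum_congr rfl fun k _ => ?_
        rw [hm k, ← hze k]
        rfl
  · obtain ⟨f, hf, hxf⟩ := hx
    have h5 := hsum x
    rw [hxf] at h5
    have h6 := CD1.unique G.isOpen G.sub G.conv h5 (cd1_dF (B := G.B) hf)
    refine h3 x ?_
    rw [← heq x]
    have e4 : (fun i j => ∑ k, x k * e k i j) = fun i j => (∑ k, x k * e k i j) - 0 := by
      funext i j; rw [sub_zero]
    rw [e4]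
    exact h6

end Four

end

end Crest.Agent.R235.H1A_692
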