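import Mathlib
import Crest.Agent.R235.DichProps_723
import Crest.Agent.R235.H1C_692
import Crest.Agent.R235.LbH_453

/-!
Row 235 (S0364), block HZ, part H1 (helper692): the Props `H1BAS` and `CUPHZ` of
`DichProps_723` (inputs of DICH), every universe.
-/

set_option autoImplicit false
set_option maxSynthPendingDepth 3

open Set Function Filter
open scoped Manifold ContDiff Topology

universe u

namespace Crest.Agent.R235.H1Fin_692

open Crest.Agent.R240 Crest.Agent.R240.Ch H1A_692 HZLat_524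

noncomputable section

section

variable {M : Type u} [TopologicalSpace M] [ChartedSpace E4 M] [IsManifold 𝓘(ℝ, E4) ∞ M]
  [T2Space M] [CompactSpace M]

/-- **(H1-3)** BASIS. -/
theorem exists_h1_basis (M : Type u) [TopologicalSpace M] [ChartedSpace E4 M]
    [IsManifold 𝓘(ℝ, E4) ∞ M] [T2Space M] [CompactSpace M] :
    ∃ (b : ℕ) (s : Fin b → F1 E4 M), (∀ k, Closed1 (s k) ∧ IsInt1 (s k)) ∧
    (∀ r, Closed1 r → ∃ x : Fin b → ℝ,
      (∃ f : M → ℝ, SmoothF E4 f ∧ r = (∑ k, x k • s k) + dF f) ∧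
      (IsInt1 r ↔ ∀ k, ∃ m : ℤ, x k = m)) ∧
    (∀ x : Fin b → ℝ, (∃ f : M → ℝ, SmoothF E4 f ∧ (∑ k, x k • s k) = dF f) → x = 0) := by
  obtain ⟨G⟩ := nonempty_rgc (M := M)
  exact exists_h1_basis_G G


end

theorem h1bas : DichProps_723.H1BAS.{u} := by
  intro M _ _ _ _ _ _
  obtain ⟨b, s, h1, h2, h3⟩ := exists_h1_basis M
  exact ⟨b, s, fun k => (h1 k).1, fun k => (h1 k).2, h2, fun x f hf hx => h3 x ⟨f, hf, hx⟩⟩


end

end Crest.Agent.R235.H1Fin_692
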