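import Crest.Agent.R235.SWJDefs_53
import Crest.Agent.R235.HodgeH_194
import Crest.Agent.R235.DichProps_723
import Crest.Agent.R235.H1C_692
import Crest.Agent.R235.Mdl3_399
import Crest.Agent.R235.QSTri_451
import Crest.Agent.R235.H1Fin_692

-- ▼ part R235/SWJDok_930
section

/-!
# Row 235 (S0364), PACKAGE SW (helper930): the Jacobian data of an integral basis of `H¹`

* `exists_harm`   : harmonic representatives of an integral basis `H1Bas` of `H¹`;
* `coef`          : `∑ x_i α_i` is integral iff the `x_i` are integers;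
* `exists_jd`     : `∃ j : JD M κ b, j.OK S`, if the kernel of `S.H.B` = the harmonic one-forms.
-/

set_option autoImplicit false
set_option maxSynthPendingDepth 3
set_option linter.unusedSectionVars false

open Set Function Filter MeasureTheory Bundle
open scoped Manifold ContDiff Topology ENNReal
open Crest.GeometryTopology.CoordMetric Crest.GeometryTopology.ChartCurvature
  Crest.GeometryTopology.PointedLimit
open Crest.Agent.R202.Tens Crest.Agent.R247.Bo84 Crest.Agent.R249.Vf281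
open Crest.Agent.R249.Tz2_805 Crest.Agent.R249.Tz805 Crest.Agent.R249.Idx789

namespace Crest.Agent.R235.SWJDok_930

open Crest.Agent.R240 Crest.Agent.R240.Ch Crest.Agent.R240.Int
open Crest.Agent.R235.Hodge_194 Crest.Agent.R235.DichProps_723
open Crest.Agent.R235.SWDefs_53
open Crest.Agent.R247.Ms322 (Gr)
open Crest.Agent.R235.H1A_692 (UData isInt1_iff_udata)

noncomputable section

section A

variable {M : Type} [MetricSpace M] [ChartedSpace (EuclideanSpace ℝ (Fin 4)) M]
  [IsManifold (𝓡 4) ∞ M]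
  [RiemannianBundle (fun p : M => TangentSpace (𝓡 4) p)]
  [IsContMDiffRiemannianBundle (𝓡 4) ∞ (EuclideanSpace ℝ (Fin 4)) (fun p : M => TangentSpace (𝓡 4) p)]
  [IsRiemannianManifold (𝓡 4) M] [MeasurableSpace M] [BorelSpace M]
  [SecondCountableTopology M] [Nonempty M] [CompactSpace M] [ConnectedSpace M]

variable {κ : Type} [Fintype κ] (s : PF 4 M κ) {b : ℕ} {σ : Fin b → F1 E4 M}

theorem isInt1_iff {r : F1 E4 M} :
    DichProps_723.IsInt1 r ↔ ∃ c d : M → ℝ, UData r c d :=
  (isInt1_iff_udata (s := r))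

theorem coe_sum {ι : Type*} (t : Finset ι) (f : ι → X1 M) :
    ((∑ i ∈ t, f i : X1 M) : F1 E4 M) = ∑ i ∈ t, (f i : F1 E4 M) :=
  map_sum (X1 M).subtype f t

/-- harmonic representatives. -/
theorem exists_harm (hσ : H1Bas σ) : ∃ (α : Fin b → X1 M) (f : Fin b → CFn M),
    (∀ i, (α i : F1 E4 M) = σ i - dF (f i).1) ∧ (∀ i, δL s (α i) = 0) ∧ ∀ i, dL (α i) = 0 := by
  choose f hf using fun i => poissonL s (⟨σ i, (hσ.closed i).1⟩ : X1 M)
  refine ⟨fun i => (⟨σ i, (hσ.closed i).1⟩ : X1 M) - DL (f i), f, fun i => rfl, fun i => ?_,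
    fun i => ?_⟩
  · rw [map_sub, hf, sub_self]
  · rw [map_sub, dL_DL, sub_zero]
    exact (closed1_iff _).1 (hσ.closed i)

variable {α : Fin b → X1 M} {f : Fin b → CFn M}

theorem sum_eq (h1 : ∀ i, (α i : F1 E4 M) = σ i - dF (f i).1) (x : Fin b → ℝ) :
    ((∑ i, x i • α i : X1 M) : F1 E4 M) = (∑ i, x i • σ i) - dF (∑ i, x i • f i : CFn M).1 := by
  have h2 : dF (E := E4) (∑ i, x i • f i : CFn M).1 = ∑ i, x i • dF (E := E4) (f i).1 := by
    have h3 := map_sum (DL (M := M)) (fun i => x i • f i) Finset.univ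
    have h4 := congrArg (fun a : X1 M => (a : F1 E4 M)) h3
    simp only [coe_sum, map_smul] at h4
    exact h4
  rw [h2, coe_sum, ← Finset.sum_sub_distrib]
  refine Finset.sum_congr rfl fun i _ => ?_
  show x i • (α i : F1 E4 M) = _
  rw [h1, smul_sub]

/-- an exact combination is zero. -/
theorem indep (hσ : H1Bas σ) (h1 : ∀ i, (α i : F1 E4 M) = σ i - dF (f i).1) (x : Fin b → ℝ)
    (g : CFn M) (h : ∑ i, x i • α i = DL g) : x = 0 := by
  refine hσ.indep x (g + ∑ i, x i • f i : CFn M).1 (g + ∑ i, x i • f i : CFn M).2 ?_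
  have h2 := congrArg (fun a : X1 M => (a : F1 E4 M)) h
  simp only [sum_eq h1] at h2
  have h3 : dF (E := E4) (g + ∑ i, x i • f i : CFn M).1 =
      dF (E := E4) g.1 + dF (∑ i, x i • f i : CFn M).1 :=
    dF_add g.2 (∑ i, x i • f i : CFn M).2
  rw [h3]
  exact sub_eq_iff_eq_add.1 h2

/-- `∑ x_i α_i` is integral iff the `x_i` are integers. -/
theorem coef (hσ : H1Bas σ) (h1 : ∀ i, (α i : F1 E4 M) = σ i - dF (f i).1)
    (h2 : ∀ i, dL (α i) = 0) (x : Fin b → ℝ) :
    DichProps_723.IsInt1 ((∑ i, x i • α i : X1 M) : F1 E4 M) ↔ ∀ i, ∃ m : ℤ, x i = m := by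
  have hcl : Closed1 ((∑ i, x i • α i : X1 M) : F1 E4 M) := by
    rw [closed1_iff, map_sum]
    exact Finset.sum_eq_zero fun i _ => by rw [map_smul, h2, smul_zero]
  obtain ⟨y, ⟨g, hg, hy⟩, hi⟩ := hσ.span _ hcl
  have hxy : x = y := by
    have h3 : (∑ i, (x - y) i • σ i) =
        dF (E := E4) ((⟨g, hg⟩ : CFn M) + ∑ i, x i • f i : CFn M).1 := by
      have h4 : dF (E := E4) ((⟨g, hg⟩ : CFn M) + ∑ i, x i • f i : CFn M).1 =
          dF (E := E4) g + dF (∑ i, x i • f i : CFn M).1 :=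
        dF_add hg (∑ i, x i • f i : CFn M).2
      rw [h4]
      rw [sum_eq h1] at hy
      simp only [Pi.sub_apply, sub_smul, Finset.sum_sub_distrib]
      rw [sub_eq_iff_eq_add] at hy
      rw [hy]
      abel
    exact sub_eq_zero.1 (hσ.indep _ _ ((⟨g, hg⟩ : CFn M) + ∑ i, x i • f i : CFn M).2 h3)
  rw [hi, hxy]

/-- coclosed and exact is zero. -/
theorem exact_zero (g : CFn M) (h : δL s (DL g) = 0) : DL g = 0 := by
  have := fin4 (M := M)
  have h1 := adjL s g (DL g)
  rw [h, map_zero] at h1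
  have h2 : GLL s (DL g) (DL g) = 0 := (neg_eq_zero.1 h1.symm)
  have h3 : cof s (DL g).1 = 0 := by
    funext A z
    exact Crest.Agent.R249.Tv57.eq_zero_of_ip (n := 4) (smU_cof s (DL g).2) h2 A z
  have h4 : shp s (DL g).1 = shp s (0 : F1 E4 M) := by
    funext z
    rw [shp, h3, shp]
    rfl
  apply Subtype.ext
  rw [← flat_shp s (DL g).1, h4, flat_shp]
  rfl

theorem cof_sum (x : Fin b → ℝ) : cof s (∑ i, x i • α i : X1 M).1 = ∑ i, x i • cof s (α i).1 := by
  funext A z
  rw [Finset.sum_apply, Finset.sum_apply]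
  show at1 ((∑ i, x i • α i : X1 M) : F1 E4 M) z (s.s A z) = _
  rw [coe_sum]
  show (∑ i, ((x i • α i : X1 M) : F1 E4 M)) z (s.s A z) = _
  rw [Finset.sum_apply]
  exact sum_apply _ _ _

end A

section B

variable {M : Type} [MetricSpace M] [CompactSpace M] [ConnectedSpace M]
  [ChartedSpace (EuclideanSpace ℝ (Fin 4)) M] [IsManifold (𝓡 4) ∞ M]
  [RiemannianBundle (fun p : M => TangentSpace (𝓡 4) p)]
  [IsContMDiffRiemannianBundle (𝓡 4) ∞ (EuclideanSpace ℝ (Fin 4))
    (fun p : M => TangentSpace (𝓡 4) p)]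
  [IsRiemannianManifold (𝓡 4) M] [MeasurableSpace M] [BorelSpace M]
  [SecondCountableTopology M] [Nonempty M]
  {κ0 κ1 κ : Type} [Fintype κ0] [Fintype κ1] [Fintype κ]

/-- the kernel of `H.B` consists of the harmonic one-forms. -/
def KerH (S : SWS M κ0 κ1 κ) (s : PF 4 M κ) : Prop :=
  ∀ a : X1 M, (∀ k z, S.H.B (cof s a.1) k z = 0) ↔ δL s a = 0 ∧ dL a = 0

variable {S : SWS M κ0 κ1 κ} {T : ToF 4 M} {s : PF 4 M κ}

theorem vf_eq (hs : ∀ A z, S.s A z = T.toF z (s.s A z)) (a : F1 E4 M) (z : M) :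
    S.vf (cof s a) z = T.toF z (shp s a z) := by
  unfold SWS.vf shp fieldOf
  rw [map_sum]
  exact Finset.sum_congr rfl fun A _ => by rw [hs, map_smul]

theorem inner_Gr {c : M → ℝ} (hc : SmoothF E4 c) (z : M) (v : TangentSpace (𝓡 4) z) :
    (inner ℝ (Gr (n := 4) c z) (T.toF z v) : ℝ) = at1 (dF (E := E4) c) z v := by
  rw [← T.grad c z ((smoothF_iff' _).1 hc), T.inner_toF, dF_eq_flat]
  rfl

theorem Gr_eq {c : M → ℝ} (hc : SmoothF E4 c) {a : F1 E4 M} {r : ℝ} (z : M)
    (h : ∀ v, at1 (dF (E := E4) c) z v = r * at1 a z v) :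
    Gr (n := 4) c z = r • T.toF z (shp s a z) := by
  rw [← T.grad c z ((smoothF_iff' _).1 hc), ← map_smul]
  congr 1
  refine ext_inner_right ℝ fun v => ?_
  rw [real_inner_smul_left, inner_shp, ← h v, dF_eq_flat]
  rfl

/-- **the Jacobian data of an integral basis of `H¹`**, with the forms `al i = σ i - df_i`. -/
theorem exists_jd_al (hp : ∀ A B z, S.DT.p A B z = tanP s A B z)
    (hs : ∀ A z, S.s A z = T.toF z (s.s A z)) (hk : KerH S s) {b : ℕ} {σ : Fin b → F1 E4 M}
    (hσ : H1Bas σ) : ∃ (j : JD M κ b) (α : Fin b → X1 M) (f : Fin b → CFn M), j.OK S ∧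
      (∀ i, (α i : F1 E4 M) = σ i - dF (f i).1) ∧ (∀ i, δL s (α i) = 0) ∧ (∀ i, dL (α i) = 0) ∧
      ∀ i, j.al i = cof s (α i).1 := by
  obtain ⟨α, f, h1, hδ, hd⟩ := exists_harm s hσ
  have hint : ∀ i, ∃ c d : M → ℝ, UData (α i).1 c d := by
    intro i
    rw [← isInt1_iff]
    have h2 := (coef hσ h1 hd (Pi.single i 1)).2 (fun k => by
      by_cases hik : k = i
      · subst hik; exact ⟨1, by simp⟩
      · exact ⟨0, by simp [hik]⟩)
    have h3 : ∑ k, (Pi.single i 1 : Fin b → ℝ) k • α k = α i := by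
      rw [Finset.sum_eq_single i]
      · simp
      · intro k _ hk'; simp [hk']
      · intro h; exact absurd (Finset.mem_univ i) h
    rwa [h3] at h2
  choose c d hcd using hint
  have hsec : ∀ a : X1 M, S.DT.Sec (cof s a.1) := by
    intro a A z
    rw [← sec_cof s a.1 A z]
    exact Finset.sum_congr rfl fun B _ => by rw [hp]
  refine ⟨⟨fun i => cof s (α i).1, c, d⟩, α, f, ?_, h1, hδ, hd, fun i => rfl⟩
  refine
    { sm := fun i A => smU_cof s (α i).2 A
      sec := fun i => hsec (α i)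
      harm := fun i => (hk (α i)).2 ⟨hδ i, hd i⟩
      li := ?_
      span := ?_
      smc := fun i => (smoothF_iff' _).1 (hcd i).sa
      sms := fun i => (smoothF_iff' _).1 (hcd i).sb
      unit := fun i z => (hcd i).n z
      dgc := ?_
      dgs := ?_
      int := ?_ }
  · rw [Fintype.linearIndependent_iff]
    intro x hx
    have h2 : cof s (∑ i, x i • α i : X1 M).1 = 0 := (cof_sum s x).trans hx
    have h3 : ∑ i, x i • α i = DL (0 : CFn M) := by
      rw [map_zero]
      apply Subtype.ext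
      have h4 : shp s (∑ i, x i • α i : X1 M).1 = shp s (0 : F1 E4 M) := by
        funext z
        rw [shp, h2, shp]
        rfl
      rw [← flat_shp s (∑ i, x i • α i : X1 M).1, h4, flat_shp]
      rfl
    exact fun i => congrFun (indep hσ h1 x 0 h3) i
  · intro w hw hws hB
    have hws' : ∀ A z, ∑ B, tanP s A B z * w B z = w A z := by
      intro A z
      rw [← hws A z]
      exact Finset.sum_congr rfl fun B _ => by rw [hp]
    let a : X1 M := ⟨flat (fieldOf s w), smooth1_flat fun z => VSm_fieldOf s hw z⟩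
    have ha : cof s a.1 = w := cof_flat s hws'
    have h2 := (hk a).1 (by rw [ha]; exact hB)
    obtain ⟨x, ⟨g, hg, hx⟩, -⟩ := hσ.span a.1 ((closed1_iff a).2 h2.2)
    have h3 : a = ∑ i, x i • α i + DL ((⟨g, hg⟩ : CFn M) + ∑ i, x i • f i) := by
      apply Subtype.ext
      have h4 : dF (E := E4) ((⟨g, hg⟩ : CFn M) + ∑ i, x i • f i : CFn M).1 =
          dF (E := E4) g + dF (∑ i, x i • f i : CFn M).1 :=
        dF_add hg (∑ i, x i • f i : CFn M).2
      show a.1 = ((∑ i, x i • α i : X1 M) : F1 E4 M) +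
        dF (E := E4) ((⟨g, hg⟩ : CFn M) + ∑ i, x i • f i : CFn M).1
      rw [h4, sum_eq h1, hx]
      abel
    have h5 : δL s (DL ((⟨g, hg⟩ : CFn M) + ∑ i, x i • f i)) = 0 := by
      have h6 := h2.1
      rw [h3, map_add, map_sum] at h6
      simpa [hδ] using h6
    refine ⟨x, ?_⟩
    have h7 : w = cof s (∑ i, x i • α i : X1 M).1 := by
      rw [← ha]
      conv_lhs => rw [h3, exact_zero s _ h5, add_zero]
    rw [h7]
    exact cof_sum s x
  · intro i z
    show Gr (n := 4) (c i) z = (-(2 * Real.pi * d i z)) • S.vf (cof s (α i).1) z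
    rw [vf_eq hs]
    exact Gr_eq (hcd i).sa z fun v => by rw [(hcd i).da]; ring
  · intro i z
    show Gr (n := 4) (d i) z = (2 * Real.pi * c i z) • S.vf (cof s (α i).1) z
    rw [vf_eq hs]
    exact Gr_eq (hcd i).sb z fun v => by rw [(hcd i).db]; ring
  · intro h c' d' hc' hd' hn hc hd'' 
    have hsum : ∀ z (v : TangentSpace (𝓡 4) z), (inner ℝ (∑ i, h i • S.vf (cof s (α i).1) z)
        (T.toF z v) : ℝ) = at1 ((∑ i, h i • α i : X1 M) : F1 E4 M) z v := by
      intro z v
      rw [sum_inner, coe_sum]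
      have h2 : at1 (∑ i, ((h i • α i : X1 M) : F1 E4 M)) z v =
          ∑ i, h i * at1 (α i : F1 E4 M) z v := by
        show (∑ i, ((h i • α i : X1 M) : F1 E4 M)) z v = _
        rw [Finset.sum_apply]
        exact sum_apply _ _ _
      rw [h2]
      refine Finset.sum_congr rfl fun i _ => ?_
      rw [real_inner_smul_left, vf_eq hs, T.inner_toF, inner_shp]
    have k1 : ∀ z (v : TangentSpace (𝓡 4) z), at1 (dF (E := E4) c') z v =
        (-(2 * Real.pi * d' z)) * at1 ((∑ i, h i • α i : X1 M) : F1 E4 M) z v := by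
      intro z v
      have h3 := hc z
      change Gr (n := 4) c' z = (-(2 * Real.pi * d' z)) • ∑ i, h i • S.vf (cof s (α i).1) z at h3
      rw [← hsum z v, ← inner_Gr (T := T) ((smoothF_iff' _).2 hc') z v, h3, real_inner_smul_left]
    have k2 : ∀ z (v : TangentSpace (𝓡 4) z), at1 (dF (E := E4) d') z v =
        (2 * Real.pi * c' z) * at1 ((∑ i, h i • α i : X1 M) : F1 E4 M) z v := by
      intro z v
      have h3 := hd'' z
      change Gr (n := 4) d' z = (2 * Real.pi * c' z) • ∑ i, h i • S.vf (cof s (α i).1) z at h3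
      rw [← hsum z v, ← inner_Gr (T := T) ((smoothF_iff' _).2 hd') z v, h3, real_inner_smul_left]
    have hU : UData ((∑ i, h i • α i : X1 M) : F1 E4 M) c' d' :=
      ⟨(smoothF_iff' _).2 hc', (smoothF_iff' _).2 hd', hn,
        fun z v => (k1 z v).trans (by ring), fun z v => (k2 z v).trans (by ring)⟩
    exact (coef hσ h1 hd h).1 (isInt1_iff.2 ⟨c', d', hU⟩)

/-- **the Jacobian data of an integral basis of `H¹`.** -/
theorem exists_jd (hp : ∀ A B z, S.DT.p A B z = tanP s A B z)
    (hs : ∀ A z, S.s A z = T.toF z (s.s A z)) (hk : KerH S s) {b : ℕ} {σ : Fin b → F1 E4 M}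
    (hσ : H1Bas σ) : ∃ j : JD M κ b, j.OK S := by
  obtain ⟨j, -, -, hj, -⟩ := exists_jd_al hp hs hk hσ
  exact ⟨j, hj⟩

end B

end

end Crest.Agent.R235.SWJDok_930
end

-- ▼ part R235/SWJDt_930

/-!
# Row 235 (S0364), PACKAGE SW (helper930): leaf (M9), the Jacobian data of a positive triple

* `ker_iff`   : over `inner = at2 (gg e)`, the kernel of `B` of the Hodge pair `pairH (qs he hin) s` =
                the closed and coclosed one-forms;
* `kerH_tri`  : `KerH S s`, if `S.H.B` is this operator;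
* `exists_jd_tri` : `∃ b, ∃ j : JD M κ b, j.OK S`; `exists_jd_bas` : the same for a given `H1Bas`.
-/

set_option autoImplicit false
set_option maxSynthPendingDepth 3
set_option linter.unusedSectionVars false

open Set Function Filter MeasureTheory Bundle
open scoped Manifold ContDiff Topology ENNReal
open Crest.GeometryTopology.CoordMetric Crest.GeometryTopology.ChartCurvature
  Crest.GeometryTopology.PointedLimit
open Crest.Agent.R202.Tens Crest.Agent.R247.Bo84 Crest.Agent.R249.Vf281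
open Crest.Agent.R249.Tz2_805 Crest.Agent.R249.Tz805 Crest.Agent.R249.Idx789

namespace Crest.Agent.R235.SWJDok_930

open Crest.Agent.R240 Crest.Agent.R240.Ch Crest.Agent.R240.Int
open Crest.Agent.R235.HodgeAbs_194 (Spl)
open Crest.Agent.R235.Hodge_194 Crest.Agent.R235.DichProps_723
open Crest.Agent.R235.SWDefs_53
open Crest.Agent.R235.IndTri_451 (IsTri gg II und)
open Crest.Agent.R235.QSTri_451 (qs)
open Crest.Agent.R235.Ind167 (QS pairH)

noncomputable section

/-- the frame of the self-dual forms of a triple. -/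
theorem fr_of {M : Type} [TopologicalSpace M] [ChartedSpace E4 M] [IsManifold 𝓘(ℝ, E4) ∞ M]
    {w e : Fin 3 → F2 E4 M} (h : IsTri w e) : Fr (e 0) e where
  smF := h.smooth 0
  ne x := h.W_e_ne 0 x
  sm := h.smooth
  orth i j x := by rw [h.W_e i j x, h.W_e 0 0 x, if_pos rfl]

variable {M : Type} [MetricSpace M] [CompactSpace M]
  [ChartedSpace (EuclideanSpace ℝ (Fin 4)) M] [IsManifold (𝓡 4) ∞ M]
  [RiemannianBundle (fun p : M => TangentSpace (𝓡 4) p)]
  [IsContMDiffRiemannianBundle (𝓡 4) ∞ (EuclideanSpace ℝ (Fin 4))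
    (fun p : M => TangentSpace (𝓡 4) p)]
  [IsRiemannianManifold (𝓡 4) M] [MeasurableSpace M] [BorelSpace M]
  [SecondCountableTopology M] [Nonempty M]

section ker

variable {κ : Type} [Fintype κ] (s : PF 4 M κ) {w e : Fin 3 → F2 E4 M} (he : IsTri w e)
  (hin : ∀ (x : M) (u v : TangentSpace 𝓘(ℝ, E4) x), inner ℝ u v = at2 (gg e) x u v)

include hin in
theorem flG_shp (a : F1 E4 M) : RiemB_399.flG (gg e) (shp s a) = a := by
  funext z
  refine ContinuousLinearMap.ext fun v => ?_
  exact (hin z (shp s a z) v).symm.trans (inner_shp s a z v)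

theorem opB_zero' (a : X1 M) (z : M) :
    opB (pairH (qs he hin) s).D1 (pairH (qs he hin) s).cc (cof s a.1) 0 z = - (δL s a).1 z :=
  Mdl3_399.opB_zero (qs he hin) s (smU_cof s a.2) (sec_cof s a.1) z

theorem opB_succ' (a : X1 M) (b : Fin 3) (z : M) :
    opB (pairH (qs he hin) s).D1 (pairH (qs he hin) s).cc (cof s a.1) b.succ z =
      - (2 * qG (e 0) (e b) (dL a).1 z) := by
  have h1 := Mdl3_399.opB_q hin (RiemD_399.QT.of_tri he) s (QSTri_451.met_gg he)
    (fun b x => (he.smooth b).1 x) (fun b x u v => he.e_eq b x u v) (smU_cof s a.2)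
    (sec_cof s a.1) b z (he.W_e_ne 0 z)
  refine Eq.trans h1 ?_
  have h2 : RiemB_399.flG (gg e) (fieldOf s (cof s a.1)) = a.1 := flG_shp s hin a.1
  rw [h2]
  rfl

/-- **the kernel of `B` = the harmonic one-forms.** -/
theorem ker_iff (a : X1 M) :
    (∀ k z, opB (pairH (qs he hin) s).D1 (pairH (qs he hin) s).cc (cof s a.1) k z = 0) ↔
      δL s a = 0 ∧ dL a = 0 := by
  constructor
  · intro h
    refine ⟨?_, ?_⟩
    · apply Subtype.ext
      funext z
      have h1 := h 0 z
      rw [opB_zero' s he hin] at h1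
      exact neg_eq_zero.1 h1
    · have hm : dL a ∈ SDm (e 0) e := by
        rw [mem_SDm]
        intro i z
        have h1 := h i.succ z
        rw [opB_succ' s he hin] at h1
        rw [qG_comm]
        linarith
      exact (fr_of he).spl.def2 _ hm (IL_stokes (fr_of he).vol a (dL_closed a))
  · rintro ⟨h1, h2⟩ k z
    refine Fin.cases ?_ (fun b => ?_) k
    · rw [opB_zero' s he hin, h1]
      exact neg_zero
    · rw [opB_succ' s he hin, h2]
      have h3 : qG (e 0) (e b) ((0 : X2 M) : F2 E4 M) z = 0 := by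
        have := qG_smul_right (e 0) 0 (e b) (0 : F2 E4 M) z
        rw [zero_smul, zero_mul] at this
        exact this
      rw [h3, mul_zero, neg_zero]

end ker

section jd

variable [ConnectedSpace M] {κ0 κ1 κ : Type} [Fintype κ0] [Fintype κ1] [Fintype κ]
  {S : SWS M κ0 κ1 κ} {T : ToF 4 M} {s : PF 4 M κ} {w e : Fin 3 → F2 E4 M} (he : IsTri w e)
  (hin : ∀ (x : M) (u v : TangentSpace 𝓘(ℝ, E4) x), inner ℝ u v = at2 (gg e) x u v)

theorem kerH_tri (hB : ∀ v : κ → M → ℝ,
    S.H.B v = opB (pairH (qs he hin) s).D1 (pairH (qs he hin) s).cc v) : KerH S s := by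
  intro a
  rw [hB]
  exact ker_iff s he hin a

/-- **(M9)** the Jacobian data of a given integral basis of `H¹`. -/
theorem exists_jd_bas (hp : ∀ A B z, S.DT.p A B z = tanP s A B z)
    (hs : ∀ A z, S.s A z = T.toF z (s.s A z))
    (hB : ∀ v : κ → M → ℝ,
      S.H.B v = opB (pairH (qs he hin) s).D1 (pairH (qs he hin) s).cc v)
    {b : ℕ} {σ : Fin b → F1 E4 M} (hσ : H1Bas σ) : ∃ j : JD M κ b, j.OK S :=
  exists_jd hp hs (kerH_tri he hin hB) hσ

/-- **(M9)** the Jacobian data of a given integral basis of `H¹`, with the forms. -/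
theorem exists_jd_bas_al (hp : ∀ A B z, S.DT.p A B z = tanP s A B z)
    (hs : ∀ A z, S.s A z = T.toF z (s.s A z))
    (hB : ∀ v : κ → M → ℝ,
      S.H.B v = opB (pairH (qs he hin) s).D1 (pairH (qs he hin) s).cc v)
    {b : ℕ} {σ : Fin b → F1 E4 M} (hσ : H1Bas σ) :
    ∃ (j : JD M κ b) (α : Fin b → X1 M) (f : Fin b → CFn M), j.OK S ∧
      (∀ i, (α i : F1 E4 M) = σ i - dF (f i).1) ∧ (∀ i, δL s (α i) = 0) ∧ (∀ i, dL (α i) = 0) ∧
      ∀ i, j.al i = cof s (α i).1 :=
  exists_jd_al hp hs (kerH_tri he hin hB) hσ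


end jd

end

end Crest.Agent.R235.SWJDok_930
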