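import Crest.Agent.R235.VIso_470
import Crest.Agent.R235.MdlB_489
import Crest.Agent.R235.SWJF_451
import Crest.Agent.R235.SWTn_451
import Crest.Agent.R235.SWLnk_451
import Crest.Agent.R235.SwsQ_755
import Crest.Agent.R235.SWJDefs_53
import Crest.Agent.R235.MdlL_453
import Crest.Agent.R235.MdlXt_399
import Crest.Agent.R235.ModR_692
import Crest.Agent.R235.Ip_288
import Crest.Agent.R235.SWJDt_930
import Crest.Agent.R235.NumC_692
import Crest.Agent.R235.SWTop_53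
import Crest.Agent.R235.SWJ1_133
import Crest.Agent.R235.DichH1_723
import Crest.Agent.R235.HDG_819
import Crest.Agent.R235.FamTop_307
import Crest.Agent.R235.Hopf_143

-- ▼ part R235/MdlA_489
section

/-!
Row 235 (S0364), PACKAGE SW, MODEL outputs MODF / MODB (helper489), part A: the unit section
`u = P_ν s / |P_ν s|` of an eigenline, `s` a constant vector with `P_μ s = s`, `|s| = 1`,
`P_ν = (1 + ∑ ν_k ρ_k)/2`, `1 + ν·μ > 0`, its isometry `Vu` and the form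

`λ = ⟨J u, du⟩ = (ι/2) (1 + ν·μ)⁻¹ ∑_j μ_{j+2} (ν_j dν_{j+1} - ν_{j+1} dν_j)`   (independent of `s`).
-/

set_option autoImplicit false
set_option maxSynthPendingDepth 3
set_option linter.unusedSectionVars false

open Set Function Filter Matrix
open scoped Manifold ContDiff Topology

universe u

namespace Crest.Agent.R235.MdlA_489

open Crest.Agent.R240 Crest.Agent.R240.Ch Crest.Agent.R235 Crest.Agent.R235.VIso_470
open Crest.Agent.R235.Tau483 (Ln SmC dC dC_mul dC_sum dC_re dC_im ln_of dmt dmt_line r1 hp_re)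
open Crest.Agent.R235.MdlB_489

noncomputable section

/-! ### algebra -/

section alg

variable {κ : Type} [Fintype κ] [DecidableEq κ] {J : Matrix κ κ ℝ} {ρ : Fin 3 → Matrix κ κ ℝ}

theorem _root_.Crest.Agent.R235.VIso_470.Q4.s_rho (h : Q4 J ρ) {μ : Fin 3 → ℝ} {s : κ → ℝ} (hs : PP ρ μ *ᵥ s = s)
    (h1 : s ⬝ᵥ s = 1) (k : Fin 3) : s ⬝ᵥ (ρ k *ᵥ s) = μ k := by
  have e1 : (∑ j, μ j • ρ j) *ᵥ s = s := by
    have h2 := hs
    unfold PP at h2
    rw [Matrix.smul_mulVec, Matrix.add_mulVec, Matrix.one_mulVec] at h2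
    have h3 := congrArg (fun v => (2 : ℝ) • v) h2
    simp only [smul_smul] at h3
    norm_num at h3
    rw [two_smul] at h3
    exact add_left_cancel h3
  have e2 : ρ k * (∑ j, μ j • ρ j) + (∑ j, μ j • ρ j) * ρ k = (2 * μ k) • (1 : Matrix κ κ ℝ) := by
    rw [Finset.mul_sum, Finset.sum_mul, ← Finset.sum_add_distrib]
    have : ∀ j, ρ k * (μ j • ρ j) + μ j • ρ j * ρ k = μ j • (ρ k * ρ j + ρ j * ρ k) := by
      intro j
      rw [Matrix.mul_smul, Matrix.smul_mul, smul_add]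
    simp only [this]
    rw [Finset.sum_eq_single k]
    · rw [h.anti, if_pos rfl, smul_smul, mul_comm]
    · intro j _ hj
      rw [h.anti, if_neg (Ne.symm hj), smul_zero]
    · intro hk; exact absurd (Finset.mem_univ k) hk
  have e3 := congrArg (fun A => s ⬝ᵥ (A *ᵥ s)) e2
  simp only [Matrix.add_mulVec, dotProduct_add, ← Matrix.mulVec_mulVec, Matrix.smul_mulVec,
    Matrix.one_mulVec, dotProduct_smul, h1, e1, smul_eq_mul, mul_one] at e3
  have e4 : s ⬝ᵥ ((∑ j, μ j • ρ j) *ᵥ (ρ k *ᵥ s)) = s ⬝ᵥ (ρ k *ᵥ s) := by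
    have h5 : (∑ j, μ j • ρ j : Matrix κ κ ℝ)ᵀ = ∑ j, μ j • ρ j := by
      rw [Matrix.transpose_sum]
      simp only [Matrix.transpose_smul, h.sym]
    have h6 := mv_dot (∑ j, μ j • ρ j) s (ρ k *ᵥ s)
    rw [h5, e1] at h6
    exact h6.symm
  rw [e4] at e3
  linarith

/-- `⟨J ρ_l s, ρ_k s⟩`. -/
theorem _root_.Crest.Agent.R235.VIso_470.Q4.a_next (h : Q4 J ρ) {ι : ℝ} (h3 : ∀ j, ρ j * ρ (j + 1) = ι • (J * ρ (j + 2)))
    {μ : Fin 3 → ℝ} {s : κ → ℝ} (hs : PP ρ μ *ᵥ s = s) (h1 : s ⬝ᵥ s = 1) (j : Fin 3) :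
    (J *ᵥ (ρ (j + 1) *ᵥ s)) ⬝ᵥ (ρ j *ᵥ s) = - ι * μ (j + 2) := by
  have e1 : (J *ᵥ (ρ (j + 1) *ᵥ s)) ⬝ᵥ (ρ j *ᵥ s) = s ⬝ᵥ ((J * (ρ j * ρ (j + 1))) *ᵥ s) := by
    have h2 := mv_dot (ρ j) s (J *ᵥ (ρ (j + 1) *ᵥ s))
    rw [h.sym] at h2
    rw [dotProduct_comm, h2, ← Matrix.mulVec_mulVec, ← Matrix.mulVec_mulVec, Matrix.mulVec_mulVec,
      ← h.com, ← Matrix.mulVec_mulVec]
  rw [e1, h3, Matrix.mul_smul, ← Matrix.mul_assoc, h.sq, Matrix.neg_mul, Matrix.one_mul,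
    Matrix.smul_mulVec, Matrix.neg_mulVec, dotProduct_smul, dotProduct_neg, h.s_rho hs h1,
    smul_eq_mul]
  ring

theorem _root_.Crest.Agent.R235.VIso_470.Q4.a_prev (h : Q4 J ρ) {ι : ℝ} (h3 : ∀ j, ρ j * ρ (j + 1) = ι • (J * ρ (j + 2)))
    {μ : Fin 3 → ℝ} {s : κ → ℝ} (hs : PP ρ μ *ᵥ s = s) (h1 : s ⬝ᵥ s = 1) (j : Fin 3) :
    (J *ᵥ (ρ j *ᵥ s)) ⬝ᵥ (ρ (j + 1) *ᵥ s) = ι * μ (j + 2) := by
  have h2 := h.a_next h3 hs h1 j
  rw [mv_dot, h.skew, Matrix.neg_mulVec, dotProduct_neg, dotProduct_comm] at h2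
  linarith

theorem _root_.Crest.Agent.R235.VIso_470.Q4.a_self (h : Q4 J ρ) (s : κ → ℝ) (j : Fin 3) :
    (J *ᵥ (ρ j *ᵥ s)) ⬝ᵥ (ρ j *ᵥ s) = 0 := by
  rw [dotProduct_comm]
  exact skew_dot h.skew _

theorem _root_.Crest.Agent.R235.VIso_470.Q4.a_zero (h : Q4 J ρ) (s : κ → ℝ) (j : Fin 3) : (J *ᵥ s) ⬝ᵥ (ρ j *ᵥ s) = 0 := by
  have h2 : (J *ᵥ s) ⬝ᵥ (ρ j *ᵥ s) = s ⬝ᵥ ((-(J * ρ j)) *ᵥ s) := by
    rw [mv_dot, h.skew, Matrix.mulVec_mulVec, Matrix.neg_mul]
  rw [h2]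
  refine skew_dot ?_ s
  rw [Matrix.transpose_neg, Matrix.transpose_mul, h.sym, h.skew, h.com, Matrix.mul_neg]

/-- the algebra of `λ`. -/
theorem _root_.Crest.Agent.R235.VIso_470.Q4.lam_alg (h : Q4 J ρ) {ι : ℝ} (h3 : ∀ j, ρ j * ρ (j + 1) = ι • (J * ρ (j + 2)))
    {μ ν : Fin 3 → ℝ} {s : κ → ℝ} (hs : PP ρ μ *ᵥ s = s) (h1 : s ⬝ᵥ s = 1) (c dc : ℝ)
    (dν : Fin 3 → ℝ) (hc : c ^ 2 * (1 + ∑ k, ν k * μ k) = 2) :
    (J *ᵥ (c • (PP ρ ν *ᵥ s))) ⬝ᵥ
      (dc • (PP ρ ν *ᵥ s) + (c / 2) • ((∑ k, dν k • ρ k) *ᵥ s)) =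
      ∑ j, (ι / 2 * (1 + ∑ k, ν k * μ k)⁻¹ * μ (j + 2)) * (ν j * dν (j + 1) - ν (j + 1) * dν j) := by
  have hpos : 1 + ∑ k, ν k * μ k ≠ 0 := by
    intro h0
    rw [h0, mul_zero] at hc
    norm_num at hc
  have hc2 : (1 + ∑ k, ν k * μ k)⁻¹ = c ^ 2 / 2 := by
    field_simp
    linarith
  have e0 : (J *ᵥ (PP ρ ν *ᵥ s)) ⬝ᵥ (PP ρ ν *ᵥ s) = 0 := by
    rw [dotProduct_comm]; exact skew_dot h.skew _
  have e1 : J *ᵥ (PP ρ ν *ᵥ s) = (1 / 2 : ℝ) • (J *ᵥ s + ∑ l, ν l • (J *ᵥ (ρ l *ᵥ s))) := by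
    unfold PP
    rw [Matrix.smul_mulVec, Matrix.mulVec_smul, Matrix.add_mulVec, Matrix.one_mulVec,
      Matrix.mulVec_add, Matrix.sum_mulVec, Matrix.mulVec_sum]
    simp only [Matrix.smul_mulVec, Matrix.mulVec_smul]
  have e2 : (∑ k, dν k • ρ k) *ᵥ s = ∑ k, dν k • (ρ k *ᵥ s) := by
    rw [Matrix.sum_mulVec]
    simp only [Matrix.smul_mulVec]
  rw [Matrix.mulVec_smul, smul_dotProduct, dotProduct_add, dotProduct_smul, e0, smul_zero, zero_add,
    dotProduct_smul, e1, e2, smul_dotProduct, add_dotProduct, sum_dotProduct, dotProduct_sum, hc2]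
  have e3 : ∑ k, (J *ᵥ s) ⬝ᵥ (dν k • (ρ k *ᵥ s)) = 0 := by
    refine Finset.sum_eq_zero fun k _ => ?_
    rw [dotProduct_smul, h.a_zero, smul_zero]
  have e4 : ∀ l, (ν l • (J *ᵥ (ρ l *ᵥ s))) ⬝ᵥ (∑ k, dν k • (ρ k *ᵥ s)) =
      ∑ k, ν l * dν k * ((J *ᵥ (ρ l *ᵥ s)) ⬝ᵥ (ρ k *ᵥ s)) := by
    intro l
    rw [smul_dotProduct, dotProduct_sum, Finset.smul_sum]
    refine Finset.sum_congr rfl fun k _ => ?_
    rw [dotProduct_smul, smul_eq_mul, smul_eq_mul, mul_assoc]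
  have a01 := h.a_prev h3 hs h1 0
  have a10 := h.a_next h3 hs h1 0
  have a12 := h.a_prev h3 hs h1 1
  have a21 := h.a_next h3 hs h1 1
  have a20 := h.a_prev h3 hs h1 2
  have a02 := h.a_next h3 hs h1 2
  have a00 := h.a_self s 0
  have a11 := h.a_self s 1
  have a22 := h.a_self s 2
  rw [show (0 : Fin 3) + 1 = 1 from rfl, show (0 : Fin 3) + 2 = 2 from rfl] at a01 a10
  rw [show (1 : Fin 3) + 1 = 2 from rfl, show (1 : Fin 3) + 2 = 0 from rfl] at a12 a21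
  rw [show (2 : Fin 3) + 1 = 0 from rfl, show (2 : Fin 3) + 2 = 1 from rfl] at a20 a02
  rw [e3, zero_add]
  simp only [e4]
  simp only [Fin.sum_univ_three, a01, a10, a12, a21, a20, a02, a00, a11, a22, smul_eq_mul]
  rw [show (0 : Fin 3) + 1 = 1 from rfl, show (0 : Fin 3) + 2 = 2 from rfl,
    show (1 : Fin 3) + 1 = 2 from rfl, show (1 : Fin 3) + 2 = 0 from rfl,
    show (2 : Fin 3) + 1 = 0 from rfl, show (2 : Fin 3) + 2 = 1 from rfl]
  ring

end alg

/-! ### the section `u` -/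

section man

variable {M : Type u} [TopologicalSpace M] [ChartedSpace E4 M] [IsManifold 𝓘(ℝ, E4) ∞ M]
variable {κ : Type} [Fintype κ] [DecidableEq κ] {J : Matrix κ κ ℝ} {ρ : Fin 3 → Matrix κ κ ℝ}
variable {N : ℕ}

/-- `(√((1 + ν·μ)/2))⁻¹`. -/
def cf (μ : Fin 3 → ℝ) (ν : Fin 3 → M → ℝ) (z : M) : ℝ := (√((1 + ∑ k, ν k z * μ k) / 2))⁻¹

/-- the unit section `P_ν s / |P_ν s|`. -/
def us (ρ : Fin 3 → Matrix κ κ ℝ) (μ : Fin 3 → ℝ) (ν : Fin 3 → M → ℝ) (s : κ → ℝ) (y : κ) (z : M) :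
    ℝ := cf μ ν z * (PP ρ (fun k => ν k z) *ᵥ s) y

omit [IsManifold 𝓘(ℝ, E4) ∞ M] [DecidableEq κ] in
theorem us_eq [DecidableEq κ] (μ : Fin 3 → ℝ) (ν : Fin 3 → M → ℝ) (s : κ → ℝ) (z : M) :
    (fun y => us ρ μ ν s y z) = cf μ ν z • (PP ρ (fun k => ν k z) *ᵥ s) := rfl

omit [IsManifold 𝓘(ℝ, E4) ∞ M] in
theorem us_PP (h : Q4 J ρ) (μ : Fin 3 → ℝ) {ν : Fin 3 → M → ℝ} (hn : ∀ z, ∑ k, ν k z ^ 2 = 1)
    (s : κ → ℝ) (z : M) :
    PP ρ (fun k => ν k z) *ᵥ (fun y => us ρ μ ν s y z) = fun y => us ρ μ ν s y z := by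
  rw [us_eq, Matrix.mulVec_smul, Matrix.mulVec_mulVec, h.PP_idem (hn z)]

omit [IsManifold 𝓘(ℝ, E4) ∞ M] [ChartedSpace E4 M] [TopologicalSpace M] in
theorem cf_sq {μ : Fin 3 → ℝ} {ν : Fin 3 → M → ℝ} {z : M} (hpos : 0 < 1 + ∑ k, ν k z * μ k) :
    cf μ ν z ^ 2 * (1 + ∑ k, ν k z * μ k) = 2 := by
  unfold cf
  rw [inv_pow, Real.sq_sqrt (by linarith)]
  field_simp

omit [IsManifold 𝓘(ℝ, E4) ∞ M] in
theorem us_unit (h : Q4 J ρ) {μ : Fin 3 → ℝ} {ν : Fin 3 → M → ℝ}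
    (hn : ∀ z, ∑ k, ν k z ^ 2 = 1) {s : κ → ℝ} (hs : PP ρ μ *ᵥ s = s) (h1 : s ⬝ᵥ s = 1) {z : M}
    (hpos : 0 < 1 + ∑ k, ν k z * μ k) :
    (fun y => us ρ μ ν s y z) ⬝ᵥ (fun y => us ρ μ ν s y z) = 1 := by
  have e1 : s ⬝ᵥ (PP ρ (fun k => ν k z) *ᵥ s) = (1 + ∑ k, ν k z * μ k) / 2 := by
    unfold PP
    rw [Matrix.smul_mulVec, dotProduct_smul, Matrix.add_mulVec, Matrix.one_mulVec, dotProduct_add,
      h1, Matrix.sum_mulVec, dotProduct_sum, smul_eq_mul]
    have : ∀ k, s ⬝ᵥ ((ν k z • ρ k) *ᵥ s) = ν k z * μ k := by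
      intro k
      rw [Matrix.smul_mulVec, dotProduct_smul, h.s_rho hs h1, smul_eq_mul]
    simp only [this]
    ring
  rw [us_eq, smul_dotProduct, dotProduct_smul, mv_dot, h.PP_sym, Matrix.mulVec_mulVec,
    h.PP_idem (hn z), e1, smul_eq_mul, smul_eq_mul]
  have := cf_sq hpos
  linear_combination (1 / 2 : ℝ) * this

theorem smooth_cf {μ : Fin 3 → ℝ} {ν : Fin 3 → M → ℝ}
    (hsm : ∀ k, ContMDiff 𝓘(ℝ, E4) 𝓘(ℝ, ℝ) ∞ (ν k)) (hpos : ∀ z, 0 < 1 + ∑ k, ν k z * μ k) :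
    ContMDiff 𝓘(ℝ, E4) 𝓘(ℝ, ℝ) ∞ (cf μ ν) := by
  have h1 : ContMDiff 𝓘(ℝ, E4) 𝓘(ℝ, ℝ) ∞ (fun z => (1 + ∑ k, ν k z * μ k) / 2) := by
    simp only [div_eq_mul_inv]
    exact (contMDiff_const.add (contMDiff_finsetSum fun k _ => (hsm k).mul contMDiff_const)).mul
      contMDiff_const
  intro z
  have hf0 : 0 < (1 + ∑ k, ν k z * μ k) / 2 := by linarith [hpos z]
  have h2 : ContDiffAt ℝ ∞ (fun r : ℝ => (√r)⁻¹) ((1 + ∑ k, ν k z * μ k) / 2) :=
    (Real.contDiffAt_sqrt hf0.ne').inv (Real.sqrt_pos.2 hf0).ne'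
  exact ContMDiffAt.comp (g := fun r : ℝ => (√r)⁻¹) (f := fun z => (1 + ∑ k, ν k z * μ k) / 2) z
    h2.contMDiffAt (h1 z)

omit [IsManifold 𝓘(ℝ, E4) ∞ M] [ChartedSpace E4 M] [TopologicalSpace M] in
theorem PP_app (ν : Fin 3 → M → ℝ) (s : κ → ℝ) (y : κ) (z : M) :
    (PP ρ (fun k => ν k z) *ᵥ s) y = (1 / 2) * (s y + ∑ k, ν k z * (ρ k *ᵥ s) y) := by
  unfold PP
  rw [Matrix.smul_mulVec, Matrix.add_mulVec, Matrix.one_mulVec, Matrix.sum_mulVec]
  simp only [Matrix.smul_mulVec, Pi.smul_apply, Pi.add_apply, Finset.sum_apply, smul_eq_mul]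

theorem smooth_PP {ν : Fin 3 → M → ℝ} (hsm : ∀ k, ContMDiff 𝓘(ℝ, E4) 𝓘(ℝ, ℝ) ∞ (ν k)) (s : κ → ℝ)
    (y : κ) : ContMDiff 𝓘(ℝ, E4) 𝓘(ℝ, ℝ) ∞ (fun z => (PP ρ (fun k => ν k z) *ᵥ s) y) := by
  simp only [PP_app]
  refine contMDiff_const.mul (contMDiff_const.add ?_)
  exact contMDiff_finsetSum fun k _ => (hsm k).mul contMDiff_const

theorem smooth_us {μ : Fin 3 → ℝ} {ν : Fin 3 → M → ℝ}
    (hsm : ∀ k, ContMDiff 𝓘(ℝ, E4) 𝓘(ℝ, ℝ) ∞ (ν k)) (hpos : ∀ z, 0 < 1 + ∑ k, ν k z * μ k)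
    (s : κ → ℝ) (y : κ) : ContMDiff 𝓘(ℝ, E4) 𝓘(ℝ, ℝ) ∞ (us ρ μ ν s y) :=
  (smooth_cf hsm hpos).mul (smooth_PP hsm s y)

/-! ### the isometry of a unit section -/

/-- the matrix of the isometry. -/
def Vu (J : Matrix κ κ ℝ) (p : M → Matrix (Fin N) (Fin N) ℂ) (u : κ → M → ℝ) (z : M) :
    Matrix (κ × Fin N) (Fin N) ℂ := Matrix.of fun y l => hc J (fun a => u a z) y.1 * p z y.2 l

theorem smooth_hc {u : κ → M → ℝ} (hu : ∀ a, ContMDiff 𝓘(ℝ, E4) 𝓘(ℝ, ℝ) ∞ (u a)) (a : κ) :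
    SmC fun z => hc J (fun a => u a z) a := by
  have c1 : ∀ {f : M → ℝ}, ContMDiff 𝓘(ℝ, E4) 𝓘(ℝ, ℝ) ∞ f →
      ContMDiff 𝓘(ℝ, E4) 𝓘(ℝ, ℂ) ∞ (fun z => (f z : ℂ)) := fun hf =>
    (Complex.ofRealCLM.contDiff.contMDiff).comp hf
  unfold hc
  refine cmul contMDiff_const ((c1 (hu a)).sub (cmul contMDiff_const (c1 ?_)))
  have e : ∀ z, (J *ᵥ fun a => u a z) a = ∑ b, J a b * u b z := fun z => rfl
  simp only [e]
  exact contMDiff_finsetSum fun b _ => contMDiff_const.mul (hu b)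

theorem vi_Vu (h : Q4 J ρ) {p : M → Matrix (Fin N) (Fin N) ℂ} (hq : IsLine p)
    {ν : Fin 3 → M → ℝ} (hn : ∀ z, ∑ k, ν k z ^ 2 = 1) {u : κ → M → ℝ}
    (hu1 : ∀ a, ContMDiff 𝓘(ℝ, E4) 𝓘(ℝ, ℝ) ∞ (u a))
    (hu3 : ∀ z, PP ρ (fun k => ν k z) *ᵥ (fun a => u a z) = fun a => u a z)
    (hu4 : ∀ z, (fun a => u a z) ⬝ᵥ (fun a => u a z) = 1) :
    VI p (fun z => Matrix.of (PE J (p z) (PP ρ (fun k => ν k z)))) (Vu J p u) where
  sm y l := cmul (smooth_hc hu1 y.1) (hq.smooth y.2 l)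
  vv z := by
    ext l l'
    rw [Matrix.mul_apply]
    simp only [Vu, Matrix.conjTranspose_apply, Matrix.of_apply, star_mul']
    rw [Fintype.sum_prod_type]
    have e1 : ∀ (a : κ) (k : Fin N), star (hc J (fun a => u a z) a) * star (p z k l) *
        (hc J (fun a => u a z) a * p z k l') =
        (star (hc J (fun a => u a z) a) * hc J (fun a => u a z) a) *
          ((p z).conjTranspose l k * p z k l') := by
      intro a k
      rw [Matrix.conjTranspose_apply]; ring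
    simp only [e1]
    simp only [← Finset.mul_sum]
    rw [← Finset.sum_mul, h.sum_hc (hu4 z), one_mul, ← Matrix.mul_apply, hq.herm, hq.idem]
  vv' z := by
    ext y y'
    rw [Matrix.mul_apply]
    simp only [Vu, Matrix.conjTranspose_apply, Matrix.of_apply, star_mul']
    rw [PE_apply]
    have e1 : ∀ l, hc J (fun a => u a z) y.1 * p z y.2 l *
        (star (hc J (fun a => u a z) y'.1) * star (p z y'.2 l)) =
        (hc J (fun a => u a z) y.1 * star (hc J (fun a => u a z) y'.1)) *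
          (p z y.2 l * (p z).conjTranspose l y'.2) := by
      intro l
      rw [Matrix.conjTranspose_apply]; ring
    simp only [e1]
    rw [← Finset.mul_sum, ← Matrix.mul_apply, hq.herm, hq.idem, h.hc_mul (hn z) (hu3 z) (hu4 z)]
    ring
  vp z := by
    ext y l
    rw [Matrix.mul_apply]
    simp only [Vu, Matrix.of_apply, mul_assoc]
    rw [← Finset.mul_sum, ← Matrix.mul_apply, hq.idem]

/-! ### the form `λ` -/

theorem tr_p_dp {p : M → Matrix (Fin N) (Fin N) ℂ} (hq : Ln p) (x : M) (v : E4) :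
    ∑ l, ∑ k, star (p x k l) * dmt p x v k l = 0 := by
  have h1 : ∑ l, ∑ k, star (p x k l) * dmt p x v k l = (p x * dmt p x v).trace := by
    rw [Matrix.trace]
    refine Finset.sum_congr rfl fun l _ => ?_
    rw [Matrix.diag_apply, Matrix.mul_apply]
    refine Finset.sum_congr rfl fun k _ => ?_
    have := congrFun (congrFun (hq.herm x) l) k
    rw [Matrix.conjTranspose_apply] at this
    rw [this]
  have h2 : p x * dmt p x v * p x = 0 := by
    have h3 := congrArg (fun A => p x * A) (dmt_line hq x v)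
    simp only [Matrix.mul_add] at h3
    rw [← Matrix.mul_assoc, ← Matrix.mul_assoc, hq.idem] at h3
    have h4 : p x * dmt p x v = p x * dmt p x v * p x + p x * dmt p x v := h3
    have h5 := congrArg (fun A => A - p x * dmt p x v) h4
    simp only [sub_self, add_sub_cancel_right] at h5
    exact h5.symm
  rw [h1, ← hq.idem x, Matrix.mul_assoc, Matrix.trace_mul_comm, h2, Matrix.trace_zero]

theorem dF_sum {σ : Type*} (s : Finset σ) {f : σ → M → ℝ}
    (hf : ∀ i, ContMDiff 𝓘(ℝ, E4) 𝓘(ℝ, ℝ) ∞ (f i)) (c : σ → ℝ) (x : M) (v : E4) :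
    at1 (dF (E := E4) fun z => ∑ i ∈ s, c i * f i z) x v =
      ∑ i ∈ s, c i * at1 (dF (E := E4) (f i)) x v := by
  have hd : ∀ i, DifferentiableAt ℝ (fun y : E4 => f i ((chartAt E4 x).symm y))
      (chartAt E4 x x) := by
    intro i
    have hs : ContMDiffAt 𝓘(ℝ, E4) 𝓘(ℝ, E4) ∞ (chartAt E4 x).symm (chartAt E4 x x) :=
      (contMDiffOn_chart_symm (I := 𝓘(ℝ, E4)) (x := x)).contMDiffAt
        ((chartAt E4 x).open_target.mem_nhds (mem_chart_target E4 x))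
    have h := ((hf i).contMDiffAt.comp (chartAt E4 x x) hs).contDiffAt
    exact h.differentiableAt (by norm_num)
  have e1 : at1 (dF (E := E4) fun z => ∑ i ∈ s, c i * f i z) x =
      fderiv ℝ (fun y : E4 => ∑ i ∈ s, c i * f i ((chartAt E4 x).symm y)) (chartAt E4 x x) := rfl
  rw [e1, fderiv_fun_sum fun i _ => (hd i).const_mul (c i)]
  simp only [_root_.sum_apply]
  refine Finset.sum_congr rfl fun i _ => ?_
  rw [fderiv_const_mul (hd i)]
  rfl

theorem dF_Ju {u : κ → M → ℝ} (hu : ∀ a, ContMDiff 𝓘(ℝ, E4) 𝓘(ℝ, ℝ) ∞ (u a)) (a : κ) (x : M)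
    (v : E4) : at1 (dF (E := E4) fun z => (J *ᵥ fun a => u a z) a) x v =
      ∑ b, J a b * at1 (dF (E := E4) (u b)) x v :=
  dF_sum Finset.univ hu (fun b => J a b) x v

/-- **the form of the isometry `Vu`** is `⟨J u, du⟩`. -/
theorem lamV_Vu (h : Q4 J ρ) {p : M → Matrix (Fin N) (Fin N) ℂ} (hq : IsLine p)
    {u : κ → M → ℝ} (hu1 : ∀ a, ContMDiff 𝓘(ℝ, E4) 𝓘(ℝ, ℝ) ∞ (u a))
    (hu4 : ∀ z, (fun a => u a z) ⬝ᵥ (fun a => u a z) = 1) (x : M) (v : E4) :
    at1 (lamV (Vu J p u)) x v =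
      ∑ a, (J *ᵥ fun a => u a x) a * at1 (dF (E := E4) (u a)) x v := by
  have hl := ln_of hq
  have hVs : ∀ (y : κ × Fin N) (l : Fin N), SmC fun x => Vu J p u x y l := fun y l =>
    cmul (smooth_hc hu1 y.1) (hq.smooth y.2 l)
  rw [at1_lamV hVs]
  set hh : κ → M → ℂ := fun a z => hc J (fun a => u a z) a with hhd
  have hsm : ∀ a, SmC (hh a) := fun a => smooth_hc hu1 a
  have e1 : ∀ (l : Fin N) (y : κ × Fin N), star (Vu J p u x y l) * dVm (Vu J p u) x v y l =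
      (star (hh y.1 x) * dC (hh y.1) x v) * (star (p x y.2 l) * p x y.2 l) +
      (star (hh y.1 x) * hh y.1 x) * (star (p x y.2 l) * dmt p x v y.2 l) := by
    intro l y
    have e2 : dVm (Vu J p u) x v y l = dC (hh y.1) x v * p x y.2 l + hh y.1 x * dmt p x v y.2 l :=
      dC_mul (hsm y.1) (hq.smooth y.2 l) x v
    have e3 : Vu J p u x y l = hh y.1 x * p x y.2 l := rfl
    rw [e2, e3, star_mul']
    ring
  simp only [e1, Fintype.sum_prod_type]
  have e4 : ∑ l, ∑ a, ∑ k, ((star (hh a x) * dC (hh a) x v) * (star (p x k l) * p x k l) +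
      (star (hh a x) * hh a x) * (star (p x k l) * dmt p x v k l)) =
      (∑ a, star (hh a x) * dC (hh a) x v) * (∑ l, ∑ k, star (p x k l) * p x k l) +
      (∑ a, star (hh a x) * hh a x) * (∑ l, ∑ k, star (p x k l) * dmt p x v k l) := by
    have e5 : ∀ (f : κ → ℂ) (g : Fin N → Fin N → ℂ),
        (∑ a, f a) * (∑ l, ∑ k, g k l) = ∑ l, ∑ a, ∑ k, f a * g k l := by
      intro f g
      rw [Finset.mul_sum]
      refine Finset.sum_congr rfl fun l _ => ?_
      rw [Finset.sum_mul_sum]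
    rw [e5 _ fun k l => star (p x k l) * p x k l, e5 _ fun k l => star (p x k l) * dmt p x v k l]
    simp only [Finset.sum_add_distrib]
  have e6 : ∑ l, ∑ k, star (p x k l) * p x k l = 1 := by
    have e7 : (p x * p x).trace = 1 := by rw [hq.idem, hq.rank]
    rw [← e7, Matrix.trace]
    refine Finset.sum_congr rfl fun l _ => ?_
    rw [Matrix.diag_apply, Matrix.mul_apply]
    refine Finset.sum_congr rfl fun k _ => ?_
    have := congrFun (congrFun (hq.herm x) l) k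
    rw [Matrix.conjTranspose_apply] at this
    rw [this]
  rw [e4, tr_p_dp hl, mul_zero, add_zero, e6, mul_one, Complex.im_sum]
  -- the real computation
  have h2 : (√2)⁻¹ * (√2)⁻¹ = (1 / 2 : ℝ) := by
    rw [← mul_inv, Real.mul_self_sqrt (by norm_num)]; norm_num
  have hre : ∀ a z, (hh a z).re = (√2)⁻¹ * u a z := by
    intro a z
    have : hh a z = ((((√2)⁻¹ : ℝ)) : ℂ) *
      ((u a z : ℂ) - Complex.I * (((J *ᵥ fun a => u a z) a : ℝ) : ℂ)) := rfl
    rw [this, Complex.re_ofReal_mul]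
    congr 1
    simp
  have him : ∀ a z, (hh a z).im = (√2)⁻¹ * -((J *ᵥ fun a => u a z) a) := by
    intro a z
    have : hh a z = ((((√2)⁻¹ : ℝ)) : ℂ) *
      ((u a z : ℂ) - Complex.I * (((J *ᵥ fun a => u a z) a : ℝ) : ℂ)) := rfl
    rw [this, Complex.im_ofReal_mul]
    congr 1
    simp
  have hsu : ∀ a, ContMDiff 𝓘(ℝ, E4) 𝓘(ℝ, ℝ) ∞ fun z => (J *ᵥ fun a => u a z) a := by
    intro a
    have e : ∀ z, (J *ᵥ fun a => u a z) a = ∑ b, J a b * u b z := fun z => rfl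
    simp only [e]
    exact contMDiff_finsetSum fun b _ => contMDiff_const.mul (hu1 b)
  have hdre : ∀ a, (dC (hh a) x v).re = (√2)⁻¹ * at1 (dF (E := E4) (u a)) x v := by
    intro a
    rw [dC_re (hsm a)]
    simp only [hre]
    have := dF_sum (Finset.univ : Finset Unit) (f := fun _ => u a) (fun _ => hu1 a)
      (fun _ => (√2)⁻¹) x v
    simpa using this
  have hdim : ∀ a, (dC (hh a) x v).im =
      (√2)⁻¹ * -(∑ b, J a b * at1 (dF (E := E4) (u b)) x v) := by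
    intro a
    rw [dC_im (hsm a), ← dF_Ju hu1]
    simp only [him]
    have := dF_sum (Finset.univ : Finset Unit) (f := fun _ z => (J *ᵥ fun a => u a z) a)
      (fun _ => hsu a) (fun _ => -(√2)⁻¹) x v
    simp only [Finset.univ_unique, Finset.sum_const, Finset.card_singleton, one_smul] at this
    rw [mul_neg, ← neg_mul, ← this]
    congr 3
    funext z
    ring
  have h3 : ∑ a, u a x * ∑ b, J a b * at1 (dF (E := E4) (u b)) x v =
      - ∑ a, (J *ᵥ fun a => u a x) a * at1 (dF (E := E4) (u a)) x v := by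
    have h4 : ∀ a, (J *ᵥ fun a => u a x) a = - ∑ b, u b x * J b a := by
      intro a
      have h5 : ∀ b, J a b = - J b a := fun b => by
        have := congrFun (congrFun h.skew b) a
        rw [Matrix.transpose_apply, Matrix.neg_apply] at this
        exact this
      have h6 : (J *ᵥ fun a => u a x) a = ∑ b, J a b * u b x := rfl
      rw [h6, ← Finset.sum_neg_distrib]
      refine Finset.sum_congr rfl fun b _ => ?_
      rw [h5 b]
      ring
    simp only [h4, neg_mul, Finset.sum_neg_distrib, neg_neg, Finset.sum_mul, Finset.mul_sum]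
    rw [Finset.sum_comm]
    refine Finset.sum_congr rfl fun b _ => Finset.sum_congr rfl fun a _ => ?_
    ring
  have e7 : ∀ a, (star (hh a x) * dC (hh a) x v).im =
      (1 / 2) * ((J *ᵥ fun a => u a x) a * at1 (dF (E := E4) (u a)) x v) -
      (1 / 2) * (u a x * ∑ b, J a b * at1 (dF (E := E4) (u b)) x v) := by
    intro a
    rw [Complex.mul_im, Complex.star_def, Complex.conj_re, Complex.conj_im, hre, him, hdre, hdim]
    linear_combination (-(u a x * ∑ b, J a b * at1 (dF (E := E4) (u b)) x v) +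
      (J *ᵥ fun a => u a x) a * at1 (dF (E := E4) (u a)) x v) * h2
  simp only [e7, Finset.sum_sub_distrib, ← Finset.mul_sum]
  rw [h3]
  ring

/-- the form `λ`. -/
def lamN (ι : ℝ) (μ : Fin 3 → ℝ) (ν : Fin 3 → M → ℝ) : F1 E4 M :=
  ∑ j, fmul1 (fun z => ι / 2 * (1 + ∑ k, ν k z * μ k)⁻¹ * μ (j + 2))
    (fmul1 (ν j) (dF (ν (j + 1))) + fmul1 (fun z => -(ν (j + 1) z)) (dF (ν j)))

/-- **`λ` does not depend on `s`.** -/
theorem lamV_us (h : Q4 J ρ) {ι : ℝ} (h3 : ∀ j, ρ j * ρ (j + 1) = ι • (J * ρ (j + 2)))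
    {p : M → Matrix (Fin N) (Fin N) ℂ} (hq : IsLine p) {μ : Fin 3 → ℝ} {ν : Fin 3 → M → ℝ}
    (hsm : ∀ k, ContMDiff 𝓘(ℝ, E4) 𝓘(ℝ, ℝ) ∞ (ν k)) (hn : ∀ z, ∑ k, ν k z ^ 2 = 1) {s : κ → ℝ}
    (hs : PP ρ μ *ᵥ s = s) (h1 : s ⬝ᵥ s = 1) (hpos : ∀ z, 0 < 1 + ∑ k, ν k z * μ k) :
    lamV (Vu J p (us ρ μ ν s)) = lamN ι μ ν := by
  funext x
  refine ContinuousLinearMap.ext fun v => ?_
  have e0 := lamV_Vu h hq (fun a => smooth_us hsm hpos s a)
    (fun z => us_unit h hn hs h1 (hpos z)) x v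
  refine e0.trans ?_
  -- the derivative of `u`
  have hd : ∀ {f : M → ℝ}, ContMDiff 𝓘(ℝ, E4) 𝓘(ℝ, ℝ) ∞ f →
      DifferentiableAt ℝ (fun y : E4 => f ((chartAt E4 x).symm y)) (chartAt E4 x x) := by
    intro f hf
    have hs : ContMDiffAt 𝓘(ℝ, E4) 𝓘(ℝ, E4) ∞ (chartAt E4 x).symm (chartAt E4 x x) :=
      (contMDiffOn_chart_symm (I := 𝓘(ℝ, E4)) (x := x)).contMDiffAt
        ((chartAt E4 x).open_target.mem_nhds (mem_chart_target E4 x))
    exact ((hf.contMDiffAt.comp (chartAt E4 x x) hs).contDiffAt).differentiableAt (by norm_num)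
  have e1 : ∀ y, at1 (dF (E := E4) (us ρ μ ν s y)) x v =
      at1 (dF (E := E4) (cf μ ν)) x v * (PP ρ (fun k => ν k x) *ᵥ s) y +
      cf μ ν x / 2 * ((∑ k, (at1 (dF (E := E4) (ν k)) x v) • ρ k) *ᵥ s) y := by
    intro y
    have h4 : at1 (dF (E := E4) (us ρ μ ν s y)) x v =
        cf μ ν x * at1 (dF (E := E4) fun z => (PP ρ (fun k => ν k z) *ᵥ s) y) x v +
        (PP ρ (fun k => ν k x) *ᵥ s) y * at1 (dF (E := E4) (cf μ ν)) x v := by
      have h5 := fderiv_fun_mul (hd (smooth_cf hsm hpos)) (hd (smooth_PP (ρ := ρ) hsm s y))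
      have h6 := congrArg (fun L : E4 →L[ℝ] ℝ => L v) h5
      simp only [_root_.add_apply, _root_.smul_apply, smul_eq_mul] at h6
      rw [Tau483.symm_chart] at h6
      exact h6
    have h7 : at1 (dF (E := E4) fun z => (PP ρ (fun k => ν k z) *ᵥ s) y) x v =
        (1 / 2) * ∑ k, (ρ k *ᵥ s) y * at1 (dF (E := E4) (ν k)) x v := by
      have h8 := dF_sum (Finset.univ : Finset (Option (Fin 3)))
        (f := fun o => o.elim (fun _ => (1 : ℝ)) ν)
        (fun o => by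
          cases o with
          | none => exact contMDiff_const
          | some k => exact hsm k)
        (fun o => o.elim ((1 / 2) * s y) fun k => (1 / 2) * (ρ k *ᵥ s) y) x v
      simp only [Fintype.sum_option, Option.elim] at h8
      have h9 : at1 (dF (E := E4) fun _ : M => (1 : ℝ)) x v = 0 := by
        have : at1 (dF (E := E4) fun _ : M => (1 : ℝ)) x =
          fderiv ℝ (fun _ : E4 => (1 : ℝ)) (chartAt E4 x x) := rfl
        rw [this, fderiv_fun_const]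
        rfl
      rw [h9, mul_zero, zero_add] at h8
      rw [Finset.mul_sum]
      simp only [← mul_assoc]
      rw [← h8]
      congr 3
      funext z
      rw [PP_app, mul_one, mul_add, Finset.mul_sum]
      congr 1
      exact Finset.sum_congr rfl fun k _ => by ring
    have h10 : ((∑ k, (at1 (dF (E := E4) (ν k)) x v) • ρ k) *ᵥ s) y =
        ∑ k, (ρ k *ᵥ s) y * at1 (dF (E := E4) (ν k)) x v := by
      rw [Matrix.sum_mulVec, Finset.sum_apply]
      refine Finset.sum_congr rfl fun k _ => ?_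
      rw [Matrix.smul_mulVec, Pi.smul_apply, smul_eq_mul, mul_comm]
    rw [h4, h7, h10]
    ring
  have e2 := h.lam_alg h3 hs h1 (ν := fun k => ν k x) (cf μ ν x)
    (at1 (dF (E := E4) (cf μ ν)) x v) (fun k => at1 (dF (E := E4) (ν k)) x v) (cf_sq (hpos x))
  have e3 : ∑ a, (J *ᵥ fun a => us ρ μ ν s a x) a * at1 (dF (E := E4) (us ρ μ ν s a)) x v =
      (J *ᵥ (cf μ ν x • (PP ρ (fun k => ν k x) *ᵥ s))) ⬝ᵥ
        ((at1 (dF (E := E4) (cf μ ν)) x v) • (PP ρ (fun k => ν k x) *ᵥ s) +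
          (cf μ ν x / 2) • ((∑ k, (at1 (dF (E := E4) (ν k)) x v) • ρ k) *ᵥ s)) := by
    rw [us_eq]
    refine Finset.sum_congr rfl fun a _ => ?_
    rw [e1]
    rfl
  rw [e3, e2]
  change _ = at1 (lamN ι μ ν) x v
  unfold lamN
  rw [at1_sum]
  refine Finset.sum_congr rfl fun j _ => ?_
  rw [Tau483.at1_fmul1, Tau483.at1_add, Tau483.at1_fmul1, Tau483.at1_fmul1]
  ring

end man

end

end Crest.Agent.R235.MdlA_489
end

-- ▼ part R235/MdlC_489
section

/-!
Row 235 (S0364), PACKAGE SW, MODEL outputs MODF / MODB (helper489), part C: THE FAMILY `th_t` which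
makes the eigenlines flat.

* `nt_dot`   : `∑ n_k D_k t_k > -‖t‖` (`D_k` = sign of `ww k k`), from the triangular form;
* `thF`      : the form `a₀ - λ_t - β_t`, `thT` its components, `SmV`, `Sec`, `flG (fld th) = thF`;
* `j1_thF`, `jf_thT`, `jf_opB` : joint smoothness;
* `flat_of`  : the curvature of `E_t` with `th_t` vanishes (from an isometry with `λ_V = λ_t`);
* `par_of`   : sections `V α` are parallel.
-/

set_option autoImplicit false
set_option maxSynthPendingDepth 3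
set_option linter.unusedSectionVars false

open scoped ContDiff ENNReal NNReal Topology Manifold Bundle RealInnerProductSpace
open MeasureTheory Set Filter Metric Bundle Matrix

universe v

namespace Crest.Agent.R235.MdlC_489

open Crest.Agent.R240 Crest.Agent.R240.Ch Crest.Agent.R235.SWDefs_53 Crest.Agent.R235.IndTri_451
open Crest.Agent.R249.Tv57 (Dat OpPair SmF Spec)
open Crest.Agent.R247.Ms322 (Gr)
open Crest.Agent.R249.Vf281 (VSm mCov)
open Crest.Agent.R249.Tz805 (ToF Bun opB)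
open Crest.Agent.R235.Tau483 Crest.Agent.R235.TauJ Crest.Agent.R235.SWTn_451
open Crest.Agent.R235.MdlA_489 Crest.Agent.R235.MdlB_489

noncomputable section

/-! ### positivity -/

section pos

variable {M : Type v} {ww : Fin 3 → Fin 3 → M → ℝ}

/-- the largest index with a nonzero entry. -/
theorem exists_top {t : E3} (ht : t ≠ 0) : ∃ i : Fin 3, t i ≠ 0 ∧ ∀ j, i < j → t j = 0 := by
  by_cases h2 : t 2 = 0
  · by_cases h1 : t 1 = 0
    · refine ⟨0, fun h => ht ?_, ?_⟩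
      · ext j; fin_cases j
        · exact h
        · exact h1
        · exact h2
      · intro j hj; fin_cases j
        · exact absurd hj (by decide)
        · exact h1
        · exact h2
    · refine ⟨1, h1, ?_⟩
      intro j hj; fin_cases j
      · exact absurd hj (by decide)
      · exact absurd hj (by decide)
      · exact h2
  · refine ⟨2, h2, ?_⟩
    intro j hj; fin_cases j
    · exact absurd hj (by decide)
    · exact absurd hj (by decide)
    · exact absurd hj (by decide)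

theorem nt_dot (h : LT ww) {D : Fin 3 → ℝ} (hD1 : ∀ k, D k ^ 2 = 1)
    (hD : ∀ k z, 0 < D k * ww k k z) {t : E3} (ht : t ≠ 0) (z : M) :
    - ‖t‖ < ∑ k, nt ww t k z * (D k * t k) := by
  by_contra hcon
  push Not at hcon
  have hn := h.norm_nt ht z
  have hpos : 0 < ‖t‖ := norm_pos_iff.2 ht
  have ht2 : ∑ k, t k ^ 2 = ‖t‖ ^ 2 := by
    rw [EuclideanSpace.norm_sq_eq]
    simp only [Real.norm_eq_abs, sq_abs]
  have h1 : ∑ k, (D k * t k + ‖t‖ * nt ww t k z) ^ 2 ≤ 0 := by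
    have e : ∑ k, (D k * t k + ‖t‖ * nt ww t k z) ^ 2 =
        ∑ k, D k ^ 2 * t k ^ 2 + 2 * ‖t‖ * (∑ k, nt ww t k z * (D k * t k)) +
          ‖t‖ ^ 2 * ∑ k, nt ww t k z ^ 2 := by
      simp only [Finset.mul_sum, ← Finset.sum_add_distrib]
      refine Finset.sum_congr rfl fun k _ => ?_
      ring
    simp only [hD1, one_mul] at e
    rw [e, ht2, hn]
    nlinarith [mul_le_mul_of_nonneg_left hcon hpos.le]
  have h2 := (Finset.sum_eq_zero_iff_of_nonneg (fun k _ => sq_nonneg _)).1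
    (le_antisymm h1 (Finset.sum_nonneg fun k _ => sq_nonneg _))
  obtain ⟨i, hi, hij⟩ := exists_top ht
  have h3 : D i * t i + ‖t‖ * nt ww t i z = 0 := by
    have := h2 i (Finset.mem_univ i)
    exact pow_eq_zero_iff (two_ne_zero) |>.1 this
  have h4 : wtk ww t i z = t i * ww i i z := by
    unfold wtk
    rw [Finset.sum_eq_single i]
    · intro j _ hj
      rcases lt_or_gt_of_ne hj with h5 | h5
      · rw [h.lt j i z h5, mul_zero]
      · rw [hij j h5, zero_mul]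
    · intro h5; exact absurd (Finset.mem_univ i) h5
  have h5 := h.mul_nt ht i z
  have h6 : t i * (rrt ww t z * D i + ‖t‖ * ww i i z) = 0 := by
    have : rrt ww t z * (D i * t i + ‖t‖ * nt ww t i z) = 0 := by rw [h3, mul_zero]
    rw [h4] at h5
    linear_combination this + ‖t‖ * (- h5)
  have h7 := (mul_eq_zero.1 h6).resolve_left hi
  have h8 : D i * (rrt ww t z * D i + ‖t‖ * ww i i z) = 0 := by rw [h7, mul_zero]
  have h9 : rrt ww t z + ‖t‖ * (D i * ww i i z) = 0 := by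
    have := hD1 i
    linear_combination h8 - rrt ww t z * this
  have h10 := h.pos ht z
  have h11 := mul_pos hpos (hD i z)
  linarith

end pos

/-! ### the form -/

/-- `μ_t = - D t/‖t‖`. -/
def muT (D : Fin 3 → ℝ) (t : E3) (k : Fin 3) : ℝ := -(D k * (t k / ‖t‖))

/-- `ν_t = - n_t`. -/
def nuT {M : Type v} (ww : Fin 3 → Fin 3 → M → ℝ) (t : E3) (k : Fin 3) (z : M) : ℝ :=
  -(nt ww t k z)

section posb

variable {M : Type v} {ww : Fin 3 → Fin 3 → M → ℝ}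

theorem nu_mu_pos (h : LT ww) {D : Fin 3 → ℝ} (hD1 : ∀ k, D k ^ 2 = 1)
    (hD : ∀ k z, 0 < D k * ww k k z) {t : E3} (ht : t ≠ 0) (z : M) :
    0 < 1 + ∑ k, nuT ww t k z * muT D t k := by
  have hpos : 0 < ‖t‖ := norm_pos_iff.2 ht
  have h1 := nt_dot h hD1 hD ht z
  have h2 : ∑ k, nuT ww t k z * muT D t k = ‖t‖⁻¹ * ∑ k, nt ww t k z * (D k * t k) := by
    rw [Finset.mul_sum]
    refine Finset.sum_congr rfl fun k _ => ?_
    unfold nuT muT
    rw [div_eq_mul_inv]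
    ring
  rw [h2]
  have h3 := mul_lt_mul_of_pos_left h1 (inv_pos.2 hpos)
  rw [mul_neg, inv_mul_cancel₀ hpos.ne'] at h3
  linarith

theorem nuT_sq (h : LT ww) {t : E3} (ht : t ≠ 0) (z : M) : ∑ k, nuT ww t k z ^ 2 = 1 := by
  have := h.norm_nt ht z
  unfold nuT
  simpa using this

end posb

section top

variable {M : Type v} [TopologicalSpace M] [ChartedSpace E4 M] [IsManifold 𝓘(ℝ, E4) ∞ M]
variable {ww : Fin 3 → Fin 3 → M → ℝ}

theorem jf_muT (D : Fin 3 → ℝ) (k : Fin 3) : JF fun t (_ : M) => muT D t k :=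
  ((JF.cmul (D k) ((JF.coord k).div JF.norm fun _ ht _ => norm_ne_zero_iff.2 ht))).neg

end top

variable {M : Type v} [MetricSpace M] [CompactSpace M] [ConnectedSpace M]
  [ChartedSpace (EuclideanSpace ℝ (Fin 4)) M] [IsManifold (𝓡 4) ∞ M]
  [RiemannianBundle (fun p : M => TangentSpace (𝓡 4) p)]
  [IsContMDiffRiemannianBundle (𝓡 4) ∞ (EuclideanSpace ℝ (Fin 4))
    (fun p : M => TangentSpace (𝓡 4) p)]
  [IsRiemannianManifold (𝓡 4) M] [MeasurableSpace M] [BorelSpace M]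
  [SecondCountableTopology M] [Nonempty M]
  {κ0 κ1 κT : Type} [Fintype κ0] [Fintype κ1] [Fintype κT]

section jf

variable {ww : Fin 3 → Fin 3 → M → ℝ}

theorem jf_nuT (h : LT ww) (hs : ∀ i k, ContMDiff (𝓡 4) 𝓘(ℝ, ℝ) ∞ (ww i k)) (k : Fin 3) :
    JF fun t => nuT ww t k := (SWJF_451.jf_nt h hs k).neg

theorem smooth_nuT (h : LT ww) (hs : ∀ i k, ContMDiff (𝓡 4) 𝓘(ℝ, ℝ) ∞ (ww i k)) {t : E3}
    (ht : t ≠ 0) (k : Fin 3) : ContMDiff (𝓡 4) 𝓘(ℝ, ℝ) ∞ (nuT ww t k) := (smooth_nt h hs ht k).neg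

theorem j1_lamN (h : LT ww) (hs : ∀ i k, ContMDiff (𝓡 4) 𝓘(ℝ, ℝ) ∞ (ww i k)) {D : Fin 3 → ℝ}
    (hD1 : ∀ k, D k ^ 2 = 1) (hD : ∀ k z, 0 < D k * ww k k z) (ι : ℝ) :
    J1 fun t => lamN ι (muT D t) (nuT ww t) := by
  have h1 : JF fun t z => (1 + ∑ k, nuT ww t k z * muT D t k)⁻¹ :=
    JF.inv ((JF.const 1).add (JF.sum' fun k => (jf_nuT h hs k).mul (jf_muT D k)))
      fun t ht z => (nu_mu_pos h hD1 hD ht z).ne'
  refine J1.sum' fun j => J1.fmul1 ((JF.cmul (ι / 2) h1).mul (jf_muT D (j + 2))) ?_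
  exact (J1.fmul1 (jf_nuT h hs j) (J1.dF (jf_nuT h hs (j + 1)))).add
    (J1.fmul1 (jf_nuT h hs (j + 1)).neg (J1.dF (jf_nuT h hs j)))

/-- first order operators preserve joint smoothness. -/
theorem jf_opB (T : ToF 4 M) {κa κb : Type} [Fintype κa] [Fintype κb] (D1 : Bun 4 M κb)
    {cc : κb → κa → (p : M) → TangentSpace 𝓘(ℝ, EuclideanSpace ℝ (Fin 4)) p}
    (hcc : ∀ x y z, VSm 4 ∞ (cc x y) z) {a : E3 → κb → M → ℝ} (ha : ∀ x, JF fun t => a t x)
    (y : κa) : JF fun t z => opB D1 cc (a t) y z := by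
  have h1 : ∀ x, JF fun t z => (inner ℝ (D1.cv (a t) x z) (cc x y z) : ℝ) := by
    intro x
    have h2 : JF fun t z => at1 (dF (E := E4) (a t x)) z (cc x y z) +
        ∑ b, a t b z * (⟪T.toF z (D1.W x b z), T.toF z (cc x y z)⟫ : ℝ) :=
      (JF.fld1 (J1.dF (ha x)) (hcc x y)).add
        (JF.sum' fun b => (ha b).mul (SWJF_451.jf_inner T (D1.smW x b) (hcc x y)))
    refine h2.congr fun t _ z => ?_
    unfold Bun.cv
    rw [inner_add_left, sum_inner, Crest.Agent.R247.Bo84.inner_mgrad]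
    simp only [real_inner_smul_left, T.inner_toF]
    congr 1
    exact (RiemB_399.dF_eq_mfderiv (a t x) z (cc x y z)).symm
  exact (JF.sum' h1).neg

end jf

/-! ### the family -/

section fam

variable {S : SWS M κ0 κ1 κT} {T : ToF 4 M}
    {c : κ1 → κ0 → (z : M) → TangentSpace (𝓡 4) z}
    {W : κ0 → κ0 → (z : M) → TangentSpace (𝓡 4) z}
    {sT : κT → (z : M) → TangentSpace (𝓡 4) z} {w : Trip M} {e : Fin 3 → F2 E4 M}
    {σ ι : ℝ} {ww : Fin 3 → Fin 3 → M → ℝ}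

/-- the form `a₀ - λ - β`. -/
def thF (τ : TD M κT) (S : SWS M κ0 κ1 κT) (W : κ0 → κ0 → (z : M) → TangentSpace (𝓡 4) z)
    (sT : κT → (z : M) → TangentSpace (𝓡 4) z) (e : Fin 3 → F2 E4 M) (lam a0 : F1 E4 M) : F1 E4 M :=
  a0 - lam - bF τ S W sT e

/-- the components of a one-form. -/
def cmp (sT : κT → (z : M) → TangentSpace (𝓡 4) z) (θ : F1 E4 M) (A : κT) (z : M) : ℝ :=
  at1 θ z (sT A z)

theorem fld_cmp (h : TG S T c W sT w e σ ι)
    (ti : ∀ (z : M) (X : TangentSpace (𝓡 4) z), ∑ A, (inner ℝ (sT A z) X : ℝ) • sT A z = X)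
    (θ : F1 E4 M) : RiemB_399.flG (gg e) (fld sT (cmp sT θ)) = θ := by
  funext z
  refine ContinuousLinearMap.ext fun X => ?_
  have key : ∀ X : TangentSpace (𝓡 4) z,
      at2 (gg e) z (fld sT (cmp sT θ) z) X = (at1 θ z : TangentSpace (𝓡 4) z →L[ℝ] ℝ) X := by
    intro X
    rw [← h.met z (fld sT (cmp sT θ) z) X]
    have h0 : (inner ℝ (fld sT (cmp sT θ) z) X : ℝ) =
        ∑ A, cmp sT θ A z * (inner ℝ (sT A z) X : ℝ) := by
      unfold fld
      rw [sum_inner]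
      simp only [real_inner_smul_left]
    rw [h0]
    have h2 : (at1 θ z : TangentSpace (𝓡 4) z →L[ℝ] ℝ) (∑ A, (inner ℝ (sT A z) X : ℝ) • sT A z) =
        ∑ A, (inner ℝ (sT A z) X : ℝ) * (at1 θ z : TangentSpace (𝓡 4) z →L[ℝ] ℝ) (sT A z) := by
      have := map_sum (at1 θ z : TangentSpace (𝓡 4) z →L[ℝ] ℝ)
        (fun A => (inner ℝ (sT A z) X : ℝ) • sT A z) Finset.univ
      refine this.trans (Finset.sum_congr rfl fun A _ => ?_)
      exact (map_smul (at1 θ z : TangentSpace (𝓡 4) z →L[ℝ] ℝ) _ _)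
    rw [ti z X] at h2
    rw [h2]
    exact Finset.sum_congr rfl fun A _ => mul_comm _ _
  exact key X

theorem smooth_cmp (h : TG S T c W sT w e σ ι) {θ : F1 E4 M} (hθ : Smooth1 θ) (A : κT) :
    ContMDiff (𝓡 4) 𝓘(ℝ, ℝ) ∞ (cmp sT θ A) := by
  have h1 : JF fun (_ : E3) x => at1 θ x (sT A x) := JF.fld1 (J1.of hθ) (h.smsT A)
  have h2 : (EuclideanSpace.single 0 1 : E3) ≠ 0 := by
    intro h0
    have := congrArg (fun v : E3 => v 0) h0
    simp at this
  exact (smoothF_iff _).2 (h1.sl h2)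

theorem sec_cmp (ti : ∀ (z : M) (X : TangentSpace (𝓡 4) z), ∑ A, (inner ℝ (sT A z) X : ℝ) • sT A z = X)
    (pT : ∀ A B z, S.DT.p A B z = inner ℝ (sT A z) (sT B z)) (θ : F1 E4 M) :
    S.DT.Sec (cmp sT θ) := by
  intro A z
  have h2 : (at1 θ z : TangentSpace (𝓡 4) z →L[ℝ] ℝ)
      (∑ B, (inner ℝ (sT B z) (sT A z) : ℝ) • sT B z) =
      ∑ B, (inner ℝ (sT B z) (sT A z) : ℝ) *
        (at1 θ z : TangentSpace (𝓡 4) z →L[ℝ] ℝ) (sT B z) := by
    have := map_sum (at1 θ z : TangentSpace (𝓡 4) z →L[ℝ] ℝ)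
      (fun B => (inner ℝ (sT B z) (sT A z) : ℝ) • sT B z) Finset.univ
    refine this.trans (Finset.sum_congr rfl fun B _ => ?_)
    exact (map_smul (at1 θ z : TangentSpace (𝓡 4) z →L[ℝ] ℝ) _ _)
  rw [ti z (sT A z)] at h2
  change ∑ B, S.DT.p A B z * (at1 θ z : TangentSpace (𝓡 4) z →L[ℝ] ℝ) (sT B z) =
    (at1 θ z : TangentSpace (𝓡 4) z →L[ℝ] ℝ) (sT A z)
  rw [h2]
  refine Finset.sum_congr rfl fun B _ => ?_
  rw [pT, real_inner_comm]

/-- the connection form of the twisted eigenline. -/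
theorem tF_thF (h : TG S T c W sT w e σ ι)
    (ti : ∀ (z : M) (X : TangentSpace (𝓡 4) z), ∑ A, (inner ℝ (sT A z) X : ℝ) • sT A z = X)
    (τ : TD M κT) (lam a0 : F1 E4 M) :
    lam + tF τ S W sT e (cmp sT (thF τ S W sT e lam a0)) = a0 := by
  unfold tF
  rw [fld_cmp h ti]
  unfold thF
  abel

variable {N : ℕ} {p : M → Matrix (Fin N) (Fin N) ℂ} {V : M → Matrix κ0 (Fin N) ℂ} {τ : TD M κT}

/-- **the eigenline is flat.** -/
theorem flat_of [IsFiniteMeasureOnCompacts (μHE[4] : Measure M)] (hS : S.OK)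
    (h : TG S T c W sT w e (-1) ι)
    (ti : ∀ (z : M) (X : TangentSpace (𝓡 4) z), ∑ A, (inner ℝ (sT A z) X : ℝ) • sT A z = X)
    (pT : ∀ A B z, S.DT.p A B z = inner ℝ (sT A z) (sT B z))
    (hn : ∀ k, ContMDiff (𝓡 4) 𝓘(ℝ, ℝ) ∞ (τ.n k)) (nn : ∀ z, ∑ k, τ.n k z ^ 2 = 1)
    (hsh : Crest.Agent.R249.Tv57.SmV (n := 4) τ.sh)
    (hp : Ln p) (hV : VI p (PEf τ S) V) {lam a0 : F1 E4 M} (hlam : Smooth1 lam)
    (ha0 : Smooth1 a0) (hVl : lamV V = lam) {cL cE : Z2 M} (hcL : Ch0 p cL)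
    (hcE : Ch0 (PEf τ S) cE)
    (hd : ∀ x, (2 * Real.pi) • val cL x = at2 (dG a0) x)
    (hfE : ∀ k x, τ.fE k x = 2 * qG (w 0).1.1 (e k) (PhiF cE (bF τ S W sT e)) x) :
    τ.Flat S (cmp sT (thF τ S W sT e lam a0)) := by
  intro k z
  have hbF : Smooth1 (bF τ S W sT e) := SWLnk_451.smooth_bF hS h hn hsh
  have h2 : (EuclideanSpace.single 0 1 : E3) ≠ 0 := by
    intro h0
    have := congrArg (fun v : E3 => v 0) h0
    simp at this
  have hth : Smooth1 (thF τ S W sT e lam a0) :=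
    (((J1.of ha0).sub (J1.of hlam)).sub (J1.of hbF)).sl h2
  have e1 := h.HB (cmp sT (thF τ S W sT e lam a0)) (fun A => smooth_cmp h hth A)
    (sec_cmp ti pT _) k z
  rw [fld_cmp h ti] at e1
  have e2 : Phi cE (tF τ S W sT e (cmp sT (thF τ S W sT e lam a0))) z = 0 := by
    have hq := ln_PEf hS h hn nn
    have ht : Smooth1 (tF τ S W sT e (cmp sT (thF τ S W sT e lam a0))) := by
      unfold tF
      rw [fld_cmp h ti]
      exact hth.add hbF
    rw [Phi_V hV hp hq ht hcL hcE, hVl, tF_thF h ti]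
    unfold Phi
    rw [hd, sub_self]
  have e3 : Phi cE (tF τ S W sT e (cmp sT (thF τ S W sT e lam a0))) z =
      at2 (PhiF cE (bF τ S W sT e)) z - at2 (dG (thF τ S W sT e lam a0)) z := by
    unfold tF
    rw [fld_cmp h ti, at2_PhiF]
    unfold Phi
    rw [dG_add hth hbF]
    have : at2 (dG (thF τ S W sT e lam a0) + dG (bF τ S W sT e)) z =
      at2 (dG (thF τ S W sT e lam a0)) z + at2 (dG (bF τ S W sT e)) z := rfl
    rw [this]
    abel
  rw [hfE, e1]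
  unfold qG
  have e4 : q (at2 ((w 0).1.1 : F2 E4 M) z) (at2 (e k) z)
      (at2 (PhiF cE (bF τ S W sT e)) z - at2 (dG (thF τ S W sT e lam a0)) z) = 0 := by
    rw [← e3, e2]
    have h0 := q_smul_right (at2 ((w 0).1.1 : F2 E4 M) z) 0 (at2 (e k) z) 0
    rw [zero_smul, zero_mul] at h0
    exact h0
  rw [q_comm, q_sub_left, q_comm _ _ (at2 (e k) z), q_comm _ _ (at2 (e k) z)] at e4
  linear_combination 2 * e4

/-- **parallel sections.** -/
theorem par_of [IsFiniteMeasureOnCompacts (μHE[4] : Measure M)] (hS : S.OK)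
    (h : TG S T c W sT w e σ ι)
    (ti : ∀ (z : M) (X : TangentSpace (𝓡 4) z), ∑ A, (inner ℝ (sT A z) X : ℝ) • sT A z = X)
    (nn : ∀ z, ∑ k, τ.n k z ^ 2 = 1)
    (hp : Ln p) (hV : VI p (PEf τ S) V) {lam a0 : F1 E4 M} (hVl : lamV V = lam)
    {s : κ0 → M → ℝ} (hsm : Crest.Agent.R249.Tv57.SmV (n := 4) s) (hs : τ.SecE S s)
    {α : M → Fin N → ℂ} (hα : Tau483.SmV α) (hpα : ∀ x, p x *ᵥ α x = α x)
    (hVα : ∀ z, hatf S s z = V z *ᵥ α z) (hpar : ∀ z v, nab p a0 α z v = 0) (y : κ0) (z : M) :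
    τ.nE S (cmp sT (thF τ S W sT e lam a0)) s y z = 0 := by
  have h1 : ∀ v : TangentSpace (𝓡 4) z,
      gE τ S T (cmp sT (thF τ S W sT e lam a0)) s z v = 0 := by
    intro v
    have e1 := hat_gE hS h nn (cmp sT (thF τ S W sT e lam a0)) hsm hs z v
    have e2 : hatf S s = fun z => V z *ᵥ α z := funext hVα
    have e5 : nab (PEf τ S) (tF τ S W sT e (cmp sT (thF τ S W sT e lam a0)))
        (fun z => V z *ᵥ α z) z v = 0 := by
      refine (nab_V hV hp (tF τ S W sT e (cmp sT (thF τ S W sT e lam a0))) hα hpα z v).trans ?_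
      rw [hVl, tF_thF h ti]
      exact (congrArg (fun x => V z *ᵥ x) (hpar z v)).trans (Matrix.mulVec_zero _)
    rw [e2] at e1
    replace e1 := e1.trans e5
    funext y
    have e3 := congrArg Complex.re (congrFun e1 y)
    have e4 : (hat (Jm S z) (gE τ S T (cmp sT (thF τ S W sT e lam a0)) s z v) y).re =
        (√2 / 2) * gE τ S T (cmp sT (thF τ S W sT e lam a0)) s z v y := by
      unfold hat
      simp [cV]
    rw [e4] at e3
    have h2 : (√2 / 2 : ℝ) ≠ 0 := by positivity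
    exact (mul_eq_zero.1 (e3.trans Complex.zero_re)).resolve_left h2
  have h2 : ∀ G : EuclideanSpace ℝ (Fin 4),
      ⟪τ.nE S (cmp sT (thF τ S W sT e lam a0)) s y z, G⟫ = 0 := by
    intro G
    obtain ⟨v, rfl⟩ := SwsQ_755.toF_surj T z G
    exact congrFun (h1 v) y
  exact inner_self_eq_zero.1 (h2 _)

end fam

end

end Crest.Agent.R235.MdlC_489
end

-- ▼ part R235/MdlD_489
section

/-!
Row 235 (S0364), PACKAGE SW, MODEL outputs MODF / MODB (helper489), part D: over the twisted format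
`MdlL_453.Tws S p`.

* `exists_D`   : the signs `D_k` of `ww k k`;
* `exists_s0`  : a constant unit vector with `P_μ s = s`;
* `Mh`         : the hypotheses on the model; `Mh.th`, `Mh.ffam` : **the flat family** `FFam`.
-/

set_option autoImplicit false
set_option maxSynthPendingDepth 3
set_option linter.unusedSectionVars false

open scoped ContDiff ENNReal NNReal Topology Manifold Bundle RealInnerProductSpace
open MeasureTheory Set Filter Metric Bundle Matrix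

universe v

namespace Crest.Agent.R235.MdlD_489

open Crest.Agent.R240 Crest.Agent.R240.Ch Crest.Agent.R235.SWDefs_53 Crest.Agent.R235.IndTri_451
open Crest.Agent.R249.Tv57 (Dat OpPair SmF Spec)
open Crest.Agent.R247.Ms322 (Gr)
open Crest.Agent.R249.Vf281 (VSm mCov)
open Crest.Agent.R249.Tz805 (ToF Bun opB)
open Crest.Agent.R235.Tau483 Crest.Agent.R235.TauJ Crest.Agent.R235.SWTn_451
open Crest.Agent.R235.MdlA_489 Crest.Agent.R235.MdlB_489 Crest.Agent.R235.MdlC_489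
open Crest.Agent.R235.MdlL_453 Crest.Agent.R235.VIso_470

noncomputable section

/-- a constant unit vector of the eigenspace. -/
theorem exists_s0 {κ : Type} [Fintype κ] [DecidableEq κ] {J : Matrix κ κ ℝ}
    {ρ : Fin 3 → Matrix κ κ ℝ} (h : Q4 J ρ) {μ : Fin 3 → ℝ} (hμ : ∑ k, μ k ^ 2 = 1) :
    ∃ s : κ → ℝ, VIso_470.PP ρ μ *ᵥ s = s ∧ s ⬝ᵥ s = 1 := by
  have hne : ∃ w, VIso_470.PP ρ μ *ᵥ w ≠ 0 := by
    by_contra hcon
    push Not at hcon
    have h1 : VIso_470.PP ρ μ = 0 := by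
      refine Matrix.ext_of_mulVec_single fun i => ?_
      rw [hcon, Matrix.zero_mulVec]
    have h2 := h.PP_tr μ
    rw [h1, Matrix.trace_zero] at h2
    norm_num at h2
  obtain ⟨w, hw⟩ := hne
  set v := VIso_470.PP ρ μ *ᵥ w with hv
  have hvv : VIso_470.PP ρ μ *ᵥ v = v := by rw [hv, Matrix.mulVec_mulVec, h.PP_idem hμ]
  have hpos : 0 < v ⬝ᵥ v := by
    have h1 : 0 ≤ v ⬝ᵥ v := Finset.sum_nonneg fun i _ => mul_self_nonneg _
    refine lt_of_le_of_ne h1 fun h2 => hw ?_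
    exact dotProduct_self_eq_zero.1 h2.symm
  refine ⟨(√(v ⬝ᵥ v))⁻¹ • v, by rw [Matrix.mulVec_smul, hvv], ?_⟩
  rw [smul_dotProduct, dotProduct_smul, smul_eq_mul, smul_eq_mul, ← mul_assoc, ← pow_two, inv_pow,
    Real.sq_sqrt hpos.le, inv_mul_cancel₀ hpos.ne']

theorem muT_sq {D : Fin 3 → ℝ} (hD1 : ∀ k, D k ^ 2 = 1) {t : E3} (ht : t ≠ 0) :
    ∑ k, muT D t k ^ 2 = 1 := by
  have hpos : 0 < ‖t‖ := norm_pos_iff.2 ht
  have ht2 : ∑ k, t k ^ 2 = ‖t‖ ^ 2 := by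
    rw [EuclideanSpace.norm_sq_eq]
    simp only [Real.norm_eq_abs, sq_abs]
  have h1 : ∀ k, muT D t k ^ 2 = (‖t‖ ^ 2)⁻¹ * t k ^ 2 := by
    intro k
    unfold muT
    rw [neg_sq, mul_pow, hD1, one_mul, div_pow, div_eq_mul_inv, mul_comm]
  simp only [h1]
  rw [← Finset.mul_sum, ht2, inv_mul_cancel₀ (pow_ne_zero 2 hpos.ne')]

/-- the signs of the diagonal. -/
theorem exists_D {M : Type v} [TopologicalSpace M] [ConnectedSpace M] {ww : Fin 3 → Fin 3 → M → ℝ}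
    (h : LT ww) (hc : ∀ i, Continuous (ww i i)) :
    ∃ D : Fin 3 → ℝ, (∀ k, D k ^ 2 = 1) ∧ ∀ k z, 0 < D k * ww k k z := by
  choose D hD1 hD using fun k => const_sign (hc k) fun z => h.diag k z
  exact ⟨D, hD1, hD⟩

variable {M : Type v} [MetricSpace M] [CompactSpace M] [ConnectedSpace M]
  [ChartedSpace (EuclideanSpace ℝ (Fin 4)) M] [IsManifold (𝓡 4) ∞ M]
  [RiemannianBundle (fun p : M => TangentSpace (𝓡 4) p)]
  [IsContMDiffRiemannianBundle (𝓡 4) ∞ (EuclideanSpace ℝ (Fin 4))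
    (fun p : M => TangentSpace (𝓡 4) p)]
  [IsRiemannianManifold (𝓡 4) M] [MeasurableSpace M] [BorelSpace M]
  [SecondCountableTopology M] [Nonempty M] [IsFiniteMeasureOnCompacts (μHE[4] : Measure M)]
  {κ1 κT : Type} [Fintype κ1] [Fintype κT] {N : ℕ}

section twf

variable {S : SWS M (Fin 4 × Fin N) κ1 κT} {p : M → Matrix (Fin N) (Fin N) ℂ}
  {ww : Fin 3 → Fin 3 → M → ℝ} {D : Fin 3 → ℝ}

/-- **the isometry with connection form `λ_t`.** -/
theorem vi_t (hT : Tws S p) (hp : IsLine p) (hL : LT ww)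
    (hs : ∀ i k, ContMDiff (𝓡 4) 𝓘(ℝ, ℝ) ∞ (ww i k))
    (hD1 : ∀ k, D k ^ 2 = 1) (hD : ∀ k z, 0 < D k * ww k k z) {t : E3} (ht : t ≠ 0)
    {τ : TD M κT} (hn : ∀ k z, τ.n k z = nt ww t k z) {s : Fin 4 → ℝ}
    (hs0 : VIso_470.PP rhoc (muT D t) *ᵥ s = s) (hs1 : s ⬝ᵥ s = 1) :
    VI p (PEf τ S) (Vu Jc p (us rhoc (muT D t) (nuT ww t) s)) ∧
      lamV (Vu Jc p (us rhoc (muT D t) (nuT ww t) s)) = lamN (-1) (muT D t) (nuT ww t) := by
  have hsm : ∀ k, ContMDiff (𝓡 4) 𝓘(ℝ, ℝ) ∞ (nuT ww t k) := fun k => smooth_nuT hL hs ht k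
  have hnn : ∀ z, ∑ k, nuT ww t k z ^ 2 = 1 := fun z => nuT_sq hL ht z
  have hpos : ∀ z, 0 < 1 + ∑ k, nuT ww t k z * muT D t k := fun z => nu_mu_pos hL hD1 hD ht z
  refine ⟨?_, lamV_us q4 iota hp hsm hnn hs0 hs1 hpos⟩
  have h1 : PEf τ S = fun z => Matrix.of (VIso_470.PE Jc (p z)
      (VIso_470.PP rhoc (fun k => nuT ww t k z))) := by
    funext z
    rw [hT.pEf_eq hp τ z]
    have : (fun k => - τ.n k z) = fun k => nuT ww t k z := by
      funext k
      rw [hn]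
      rfl
    rw [this]
  rw [h1]
  exact vi_Vu q4 hp hnn (fun a => smooth_us hsm hpos s a)
    (fun z => us_PP q4 (muT D t) hnn s z) (fun z => us_unit q4 hnn hs0 hs1 (hpos z))

end twf

/-! ### the flat family -/

section fam

variable (S : SWS M (Fin 4 × Fin N) κ1 κT) (T : ToF 4 M)
    (c : κ1 → Fin 4 × Fin N → (z : M) → TangentSpace (𝓡 4) z)
    (W : Fin 4 × Fin N → Fin 4 × Fin N → (z : M) → TangentSpace (𝓡 4) z)
    (sT : κT → (z : M) → TangentSpace (𝓡 4) z) (w : Trip M) (e : Fin 3 → F2 E4 M)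
    (ι : ℝ) (ww : Fin 3 → Fin 3 → M → ℝ) (D : Fin 3 → ℝ) (p : M → Matrix (Fin N) (Fin N) ℂ)
    (τ : E3 → TD M κT) (cE : E3 → Z2 M) (C : ℝ)

/-- the hypotheses on the model. -/
structure Mh : Prop where
  ok : S.OK
  sym : SWSym_451.Sym S fun x y z => T.toF z (c x y z)
  tg : TG S T c W sT w e (-1) ι
  tws : Tws S p
  line : IsLine p
  lt : LT ww
  smw : ∀ i k, ContMDiff (𝓡 4) 𝓘(ℝ, ℝ) ∞ (ww i k)
  harm : ∀ i x z, S.H.A (Fin.cons (fun _ => 0) (ww i)) x z = 0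
  D1 : ∀ k, D k ^ 2 = 1
  Dp : ∀ k z, 0 < D k * ww k k z
  n_eq : ∀ t k z, (τ t).n k z = nt ww t k z
  rr_eq : ∀ t z, (τ t).rr z = rrt ww t z
  jsh : ∀ A, JF fun t => (τ t).sh A
  tau : ∀ t : E3, ‖t‖ = 1 → (τ t).OK S C
  fE : ∀ t : E3, t ≠ 0 → ∀ k x, (τ t).fE k x =
    2 * qG (w 0).1.1 (e k) (PhiF (cE t) (bF (τ t) S W sT e)) x
  ch : ∀ t : E3, t ≠ 0 → Ch0 (PEf (τ t) S) (cE t)
  ti : ∀ (z : M) (X : TangentSpace (𝓡 4) z), ∑ A, (inner ℝ (sT A z) X : ℝ) • sT A z = X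
  pT : ∀ A B z, S.DT.p A B z = inner ℝ (sT A z) (sT B z)
  HB : ∃ (D1 : Bun 4 M κT) (cH : κT → Fin 4 → (z : M) → TangentSpace (𝓡 4) z),
    (∀ x y z, VSm 4 ∞ (cH x y) z) ∧ ∀ a : κT → M → ℝ, S.H.B a = opB D1 cH a

variable {S T c W sT w e ι ww D p τ cE C}

/-- the family `th_t`. -/
def thT (τ : E3 → TD M κT) (S : SWS M (Fin 4 × Fin N) κ1 κT)
    (W : Fin 4 × Fin N → Fin 4 × Fin N → (z : M) → TangentSpace (𝓡 4) z)
    (sT : κT → (z : M) → TangentSpace (𝓡 4) z) (e : Fin 3 → F2 E4 M)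
    (ww : Fin 3 → Fin 3 → M → ℝ) (D : Fin 3 → ℝ) (a0 : F1 E4 M) (t : E3) : κT → M → ℝ :=
  cmp sT (thF (τ t) S W sT e (lamN (-1) (muT D t) (nuT ww t)) a0)

theorem Mh.j1_lam (h : Mh S T c W sT w e ι ww D p τ cE C) :
    J1 fun t => lamN (-1) (muT D t) (nuT ww t) := j1_lamN h.lt h.smw h.D1 h.Dp (-1)

theorem Mh.jn (h : Mh S T c W sT w e ι ww D p τ cE C) (k : Fin 3) : JF fun t => (τ t).n k := by
  have e1 : (fun t => (τ t).n k) = fun t => nt ww t k := by
    funext t z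
    exact h.n_eq t k z
  rw [e1]
  exact SWJF_451.jf_nt h.lt h.smw k

theorem Mh.j1_b (h : Mh S T c W sT w e ι ww D p τ cE C) : J1 fun t => bF (τ t) S W sT e :=
  SWJF_451.j1_bF h.sym h.tg h.jsh h.jn

theorem Mh.j1_th (h : Mh S T c W sT w e ι ww D p τ cE C) {a0 : F1 E4 M} (ha0 : Smooth1 a0) :
    J1 fun t => thF (τ t) S W sT e (lamN (-1) (muT D t) (nuT ww t)) a0 :=
  ((J1.of ha0).sub h.j1_lam).sub h.j1_b

theorem Mh.jf_th (h : Mh S T c W sT w e ι ww D p τ cE C) {a0 : F1 E4 M} (ha0 : Smooth1 a0)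
    (A : κT) : JF fun t => thT τ S W sT e ww D a0 t A := JF.fld1 (h.j1_th ha0) (h.tg.smsT A)

theorem ne_of {t : E3} (ht : ‖t‖ = 1) : t ≠ 0 := by
  rintro rfl
  rw [norm_zero] at ht
  exact zero_ne_one ht

/-- **the flat family.** -/
theorem Mh.ffam (h : Mh S T c W sT w e ι ww D p τ cE C) {a0 : F1 E4 M} (ha0 : Smooth1 a0)
    {cL : Z2 M} (hcL : Ch0 p cL) (hd : ∀ x, (2 * Real.pi) • val cL x = at2 (dG a0) x) :
    FFam S ww τ C (thT τ S W sT e ww D a0) where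
  ok := h.ok
  smw := h.smw
  harm := h.harm
  ndeg t z ht := h.lt.ndeg t z ht
  rr t z ht := by rw [h.rr_eq]; rfl
  nn t k z ht := by
    rw [h.rr_eq, h.n_eq, h.lt.mul_nt (ne_of ht)]
    rfl
  tau := h.tau
  smth t ht A := smooth_cmp h.tg ((h.j1_th ha0).sl (ne_of ht)) A
  secth t ht := sec_cmp h.ti h.pT _
  cth A := (h.jf_th ha0 A).contS
  cdth k := by
    obtain ⟨B1, cH, hcH, hB⟩ := h.HB
    have h1 : JF fun t z => opB B1 cH (thT τ S W sT e ww D a0 t) k z :=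
      jf_opB T B1 hcH (fun A => h.jf_th ha0 A) k
    have h2 := h1.contS
    refine h2.congr fun q _ => ?_
    rw [hB]
  flat t ht := by
    have ht0 := ne_of ht
    obtain ⟨s, hs0, hs1⟩ := exists_s0 q4 (muT_sq h.D1 ht0)
    obtain ⟨hV, hl⟩ := vi_t h.tws h.line h.lt h.smw h.D1 h.Dp ht0 (h.n_eq t) hs0 hs1
    exact flat_of h.ok h.tg h.ti h.pT (h.tau t ht).smn (h.tau t ht).norm (h.tau t ht).smsh
      (ln_of h.line) hV (h.j1_lam.sl ht0) ha0 hl hcL (h.ch t ht0) hd (h.fE t ht0)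

end fam

end

end Crest.Agent.R235.MdlD_489
end

-- ▼ part R235/ModF_53
section

/-!
Row 235 (S0364), PACKAGE SW (helper53): the end of `MODF`: the model for a line bundle of real class
zero, from helper489's flat family (`Mh.ffam`), helper399's concrete system, helper453's link and
helper692's numbers.
-/

set_option autoImplicit false
set_option maxSynthPendingDepth 3
set_option linter.unusedSectionVars false
set_option maxHeartbeats 1000000

open scoped ContDiff ENNReal NNReal Topology Manifold Bundle RealInnerProductSpace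
open MeasureTheory Set Filter Metric Bundle Matrix

namespace Crest.Agent.R235.ModF_53

open Crest.Agent.R240 Crest.Agent.R240.Ch Crest.Agent.R240.Int Crest.Agent.R235.SWDefs_53
open Crest.Agent.R235.IndTri_451 Crest.Agent.R235.Tau483
open Crest.Agent.R235.SWData_451 Crest.Agent.R235.SWTn_451
open Crest.Agent.R249.Tz805 (ToF CPair)
open Crest.Agent.R249.Tz2_805 (PF)
open Crest.Agent.R249.Tv57 (KerD)
open Crest.Agent.R235.Ind167
open Crest.Agent.R235.LTwLd_774 (ldOf)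
open Crest.Agent.R235.QSTri_451 (qs)
open Crest.Agent.R235.MdlXs_399 Crest.Agent.R235.MdlD_489 Crest.Agent.R235.MdlA_489
open Crest.Agent.R235.MdlC_489

noncomputable section

section gen

variable {M : Type} [MetricSpace M] [CompactSpace M] [ConnectedSpace M]
  [ChartedSpace (EuclideanSpace ℝ (Fin 4)) M] [IsManifold (𝓡 4) ∞ M]
  [RiemannianBundle (fun p : M => TangentSpace (𝓡 4) p)]
  [IsContMDiffRiemannianBundle (𝓡 4) ∞ (EuclideanSpace ℝ (Fin 4))
    (fun p : M => TangentSpace (𝓡 4) p)]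
  [IsRiemannianManifold (𝓡 4) M] [MeasurableSpace M] [BorelSpace M]
  [SecondCountableTopology M] [Nonempty M] [IsFiniteMeasureOnCompacts (μHE[4] : Measure M)]
  {κ : Type} [Fintype κ] {N : ℕ}

variable (T : ToF 4 M) (s : PF 4 M κ) {w : Trip M} {e : Fin 3 → F2 E4 M}
  (tri : IsTri (fun i => (w i).1.1) e)
  (hin : ∀ (x : M) (u v : TangentSpace (𝓡 4) x), inner ℝ u v = at2 (gg e) x u v)
  {p : M → Matrix (Fin N) (Fin N) ℂ} (hp : IsLine p) {a : Z2 M} (ha : IsChern p a)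

/-- **489's hypotheses for the concrete system.** -/
theorem exists_mh : ∃ (D : Fin 3 → ℝ) (C : ℝ), Mh (SX T s tri hin hp) T (pX s tri hin hp).cc
    (pX s tri hin hp).D0.W s.s w e (-1) (wwf (fun i => (w i).1.1) e) D p
    (tX T s tri hin hp ha) (cX T s tri hin hp ha) C := by
  have H := hyp T s tri hin hp ha
  obtain ⟨D, hD1, hDp⟩ := exists_D H.lt fun i => (H.smw i i).continuous
  obtain ⟨C, -, hC⟩ := MdlXt_399.ok_tX T s tri hin hp ha
  refine ⟨D, C, ?_⟩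
  exact
    { ok := ok T s tri hin hp
      sym := H.sym
      tg := H.tg
      tws := tws T s tri hin hp
      line := hp
      lt := H.lt
      smw := H.smw
      harm := harm T s tri hin hp
      D1 := hD1
      Dp := hDp
      n_eq := fun _ _ _ => rfl
      rr_eq := fun _ _ => rfl
      jsh := H.jf_sh
      tau := hC
      fE := fun t ht k x => by
        have h4 := (H.tc ht).fE k x
        refine h4.trans ?_
        unfold qG
        rw [at2_PhiF]
        ring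
      ch := fun t ht => (H.tc ht).ch
      ti := s.pars
      pT := fun A B z => rfl
      HB := ⟨(pairH (qX tri hin) s).D1, (pairH (qX tri hin) s).cc, (pairH (qX tri hin) s).smc,
        fun a => rfl⟩ }

end gen

/-- **MODF**. -/
theorem modf : SWTop_53.MODF := by
  intro M _ _ _ _ _ _ _ _ _ _ _ _ _ w e hw he hin hK N p a hp hc ha
  obtain ⟨m, ⟨s⟩⟩ := R249.Tz2_805.exists_PF (n := 4) (M := M)
  let T : ToF 4 M := R249.Tof352.tof 4 M
  have hV := hw.vol 0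
  have haa : pI (w 0) a a = 0 := by
    rw [← ip_cls hV, ha]
    exact ip_zero_left hV _
  obtain ⟨b0, hb0, hab⟩ := isEx_iff.1 (cls_eq_zero.1 ha)
  obtain ⟨D, C, hM⟩ := exists_mh T s he hin hp hc
  have ha0 : Smooth1 ((2 * Real.pi) • b0) := hb0.smul _
  have hF := hM.ffam ha0 (cL := a) hc (fun x => by
    have h1 : at2 (dG ((2 * Real.pi) • b0)) x = (2 * Real.pi) • at2 (dG b0) x := by
      rw [dG_smul]
      · rfl
      · exact hb0
    rw [h1, ← hab]
    rfl)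
  obtain ⟨d0, d1, K0, K1, hlt, K4⟩ := ModR_692.nums_flat hw he hin T s hp hc hK haa
  refine ⟨_, _, _, inferInstance, inferInstance, inferInstance, _, _, _, _, C, _, d0, d1, hF,
    hM.sym, K0, K1, hlt, K4, ?_⟩
  intro t u ht hu
  have ht0 := MdlD_489.ne_of ht
  obtain ⟨s0, hs0, hs1⟩ := exists_s0 MdlL_453.q4 (muT_sq hM.D1 ht0)
  obtain ⟨hVI, -⟩ := vi_t hM.tws hM.line hM.lt hM.smw hM.D1 hM.Dp ht0 (hM.n_eq t) hs0 hs1
  obtain ⟨h1, h2, h3, -⟩ := MdlL_453.Tws.link hM.ok hM.tws hp hVI (hM.tau t ht).norm hu.sm hu.sec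
    (fun z => by rw [hu.nrm z]; norm_num)
  exact ⟨_, h1, fun x => ⟨h2 x, h3 x⟩⟩

end

end Crest.Agent.R235.ModF_53
end

-- ▼ part R235/MdlG_453
section

/-!
Row 235, helper453, leaf (X2) of helper489's #2818, part 1: algebra of the Hopf map
`hf s k = ⟨jj s, ρ_k jj s⟩`, `jj : C² ≃ ℝ⁴`, and `piD D s k = - D_k hf s k`.
-/

set_option autoImplicit false
set_option maxSynthPendingDepth 3
set_option linter.unusedSectionVars false

open Matrix
open scoped ContDiff Topology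

namespace Crest.Agent.R235.MdlH_453

open Crest.Agent.R235.VIso_470 (Q4 PP)
open Crest.Agent.R235.MdlL_453 (Jc rhoc q4)

noncomputable section

abbrev E3 := EuclideanSpace ℝ (Fin 3)
abbrev C2 := EuclideanSpace ℂ (Fin 2)

theorem Jc_eq : Jc = !![0, -1, 0, 0; 1, 0, 0, 0; 0, 0, 0, -1; 0, 0, 1, 0] := rfl

theorem rhoc0 : rhoc 0 = !![-1, 0, 0, 0; 0, -1, 0, 0; 0, 0, 1, 0; 0, 0, 0, 1] := by
  ext i j
  rw [rhoc, Matrix.neg_apply, Matrix.mul_apply, Fin.sum_univ_four, Jc_eq]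
  fin_cases i <;> fin_cases j <;> simp [Crest.Agent.R249.C2_198.K]

theorem rhoc1 : rhoc 1 = !![0, 0, 0, 1; 0, 0, -1, 0; 0, -1, 0, 0; 1, 0, 0, 0] := by
  ext i j
  rw [rhoc, Matrix.neg_apply, Matrix.mul_apply, Fin.sum_univ_four, Jc_eq]
  fin_cases i <;> fin_cases j <;> simp [Crest.Agent.R249.C2_198.K]

theorem rhoc2 : rhoc 2 = !![0, 0, -1, 0; 0, 0, 0, -1; -1, 0, 0, 0; 0, -1, 0, 0] := by
  ext i j
  rw [rhoc, Matrix.neg_apply, Matrix.mul_apply, Fin.sum_univ_four, Jc_eq]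
  fin_cases i <;> fin_cases j <;> simp [Crest.Agent.R249.C2_198.K]

/-- `C² → ℝ⁴` -/
def jj (s : C2) : Fin 4 → ℝ := ![(s 0).re, (s 0).im, (s 1).re, (s 1).im]

theorem Jc_mulVec (v : Fin 4 → ℝ) : Jc *ᵥ v = ![-v 1, v 0, -v 3, v 2] := by
  ext i
  rw [Matrix.mulVec, dotProduct, Fin.sum_univ_four, Jc_eq]
  fin_cases i <;> simp

theorem rho0_mulVec (v : Fin 4 → ℝ) : rhoc 0 *ᵥ v = ![-v 0, -v 1, v 2, v 3] := by
  ext i
  rw [Matrix.mulVec, dotProduct, Fin.sum_univ_four, rhoc0]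
  fin_cases i <;> simp

theorem rho1_mulVec (v : Fin 4 → ℝ) : rhoc 1 *ᵥ v = ![v 3, -v 2, -v 1, v 0] := by
  ext i
  rw [Matrix.mulVec, dotProduct, Fin.sum_univ_four, rhoc1]
  fin_cases i <;> simp

theorem rho2_mulVec (v : Fin 4 → ℝ) : rhoc 2 *ᵥ v = ![-v 2, -v 3, -v 0, -v 1] := by
  ext i
  rw [Matrix.mulVec, dotProduct, Fin.sum_univ_four, rhoc2]
  fin_cases i <;> simp

/-- `⟨v, ρ_k v⟩` -/
def hv (v : Fin 4 → ℝ) (k : Fin 3) : ℝ := v ⬝ᵥ (rhoc k *ᵥ v)

theorem hv0 (v : Fin 4 → ℝ) : hv v 0 = -v 0 ^ 2 - v 1 ^ 2 + v 2 ^ 2 + v 3 ^ 2 := by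
  rw [hv, rho0_mulVec, dotProduct, Fin.sum_univ_four]
  simp
  ring

theorem hv1 (v : Fin 4 → ℝ) : hv v 1 = 2 * (v 0 * v 3 - v 1 * v 2) := by
  rw [hv, rho1_mulVec, dotProduct, Fin.sum_univ_four]
  simp
  ring

theorem hv2 (v : Fin 4 → ℝ) : hv v 2 = -2 * (v 0 * v 2 + v 1 * v 3) := by
  rw [hv, rho2_mulVec, dotProduct, Fin.sum_univ_four]
  simp
  ring

theorem dot4 (v : Fin 4 → ℝ) : v ⬝ᵥ v = v 0 ^ 2 + v 1 ^ 2 + v 2 ^ 2 + v 3 ^ 2 := by
  rw [dotProduct, Fin.sum_univ_four]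
  ring

theorem sum_hv (v : Fin 4 → ℝ) : ∑ k, hv v k ^ 2 = (v ⬝ᵥ v) ^ 2 := by
  rw [Fin.sum_univ_three, hv0, hv1, hv2, dot4]
  ring

theorem hv_rho (v : Fin 4 → ℝ) : (∑ k, hv v k • rhoc k) *ᵥ v = (v ⬝ᵥ v) • v := by
  rw [Fin.sum_univ_three, Matrix.add_mulVec, Matrix.add_mulVec, Matrix.smul_mulVec,
    Matrix.smul_mulVec, Matrix.smul_mulVec, rho0_mulVec, rho1_mulVec, rho2_mulVec, hv0, hv1, hv2,
    dot4]
  ext i
  fin_cases i <;> simp <;> ring

/-- a unit vector lies in its own eigenline. -/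
theorem PP_hv {v : Fin 4 → ℝ} (h1 : v ⬝ᵥ v = 1) : PP rhoc (hv v) *ᵥ v = v := by
  unfold VIso_470.PP
  rw [Matrix.smul_mulVec, Matrix.add_mulVec, Matrix.one_mulVec, hv_rho, h1, one_smul, ← two_smul ℝ v,
    smul_smul]
  norm_num

theorem jj_dot (s : C2) : jj s ⬝ᵥ jj s = ‖s‖ ^ 2 := by
  rw [dot4, EuclideanSpace.norm_sq_eq, Fin.sum_univ_two, Complex.sq_norm, Complex.sq_norm,
    Complex.normSq_apply, Complex.normSq_apply]
  simp [jj]
  ring

theorem jj_smul (z : ℂ) (s : C2) : jj (z • s) = z.re • jj s + z.im • (Jc *ᵥ jj s) := by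
  rw [Jc_mulVec]
  ext i
  fin_cases i <;> simp [jj] <;> ring

theorem jj_inj {s s' : C2} (h : jj s = jj s') : s = s' := by
  have h0 := congrFun h 0
  have h1 := congrFun h 1
  have h2 := congrFun h 2
  have h3 := congrFun h 3
  simp [jj] at h0 h1 h2 h3
  ext i
  fin_cases i
  · exact Complex.ext h0 h1
  · exact Complex.ext h2 h3

theorem jj_surj (v : Fin 4 → ℝ) : ∃ s : C2, jj s = v := by
  refine ⟨WithLp.toLp 2 ![⟨v 0, v 1⟩, ⟨v 2, v 3⟩], ?_⟩
  ext i
  fin_cases i <;> simp [jj]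

theorem continuous_jj : Continuous jj := by
  refine continuous_pi fun i => ?_
  have h0 : Continuous fun s : C2 => s 0 := by fun_prop
  have h1 : Continuous fun s : C2 => s 1 := by fun_prop
  fin_cases i
  · exact Complex.continuous_re.comp h0
  · exact Complex.continuous_im.comp h0
  · exact Complex.continuous_re.comp h1
  · exact Complex.continuous_im.comp h1

theorem hv_smul (z : ℂ) (s : C2) (k : Fin 3) :
    hv (jj (z • s)) k = ‖z‖ ^ 2 * hv (jj s) k := by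
  rw [jj_smul, Jc_mulVec, Complex.sq_norm, Complex.normSq_apply]
  fin_cases k
  · simp only [Fin.zero_eta, Fin.isValue, hv0]
    simp
    ring
  · simp only [Fin.mk_one, Fin.isValue, hv1]
    simp
    ring
  · simp only [Fin.reduceFinMk, Fin.isValue, hv2]
    simp
    ring

/-- the map `C² → ℝ³`. -/
def piD (D : Fin 3 → ℝ) (s : C2) : E3 := WithLp.toLp 2 fun k => -(D k * hv (jj s) k)

theorem piD_apply (D : Fin 3 → ℝ) (s : C2) (k : Fin 3) : piD D s k = -(D k * hv (jj s) k) := rfl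

theorem continuous_hv (k : Fin 3) : Continuous fun v : Fin 4 → ℝ => hv v k := by
  fin_cases k
  · simp only [Fin.zero_eta, Fin.isValue, hv0]; fun_prop
  · simp only [Fin.mk_one, Fin.isValue, hv1]; fun_prop
  · simp only [Fin.reduceFinMk, Fin.isValue, hv2]; fun_prop

theorem continuous_piD (D : Fin 3 → ℝ) : Continuous (piD D) := by
  refine (PiLp.continuous_toLp 2 _).comp (continuous_pi fun k => ?_)
  exact (continuous_const.mul ((continuous_hv k).comp continuous_jj)).neg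

variable {D : Fin 3 → ℝ}

theorem norm_piD (hD : ∀ k, D k ^ 2 = 1) (s : C2) : ‖piD D s‖ = ‖s‖ ^ 2 := by
  have h1 : ‖piD D s‖ ^ 2 = (‖s‖ ^ 2) ^ 2 := by
    rw [EuclideanSpace.norm_sq_eq]
    have h2 : ∀ k, ‖piD D s k‖ ^ 2 = hv (jj s) k ^ 2 := by
      intro k
      rw [Real.norm_eq_abs, sq_abs, piD_apply, neg_sq, mul_pow, hD, one_mul]
    simp only [h2]
    rw [sum_hv, jj_dot]
  exact (pow_left_inj₀ (norm_nonneg _) (by positivity) two_ne_zero).1 h1

theorem piD_hv (hD : ∀ k, D k ^ 2 = 1) (s : C2) (k : Fin 3) : -(D k * piD D s k) = hv (jj s) k := by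
  rw [piD_apply]
  have := hD k
  linear_combination hv (jj s) k * this

theorem hv_of_piD (hD : ∀ k, D k ^ 2 = 1) {s s' : C2} (h : piD D s = piD D s') :
    hv (jj s) = hv (jj s') := by
  funext k
  rw [← piD_hv hD s k, ← piD_hv hD s' k, h]

/-- the fibres are the circles. -/
theorem fpiD (hD : ∀ k, D k ^ 2 = 1) (s s' : C2) (hs : ‖s‖ = 1) (hs' : ‖s'‖ = 1) :
    piD D s = piD D s' ↔ ∃ z : ℂ, ‖z‖ = 1 ∧ s' = z • s := by
  constructor
  · intro h
    have h0 := hv_of_piD hD h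
    have d1 : jj s ⬝ᵥ jj s = 1 := by rw [jj_dot, hs, one_pow]
    have d2 : jj s' ⬝ᵥ jj s' = 1 := by rw [jj_dot, hs', one_pow]
    have hn : ∑ k, hv (jj s) k ^ 2 = 1 := by rw [sum_hv, d1, one_pow]
    have hP := q4.PP_eq hn (PP_hv d1) d1
    have h2 : PP rhoc (hv (jj s)) *ᵥ jj s' = jj s' := by rw [h0]; exact PP_hv d2
    rw [hP, Matrix.add_mulVec] at h2
    have e1 : ∀ u : Fin 4 → ℝ, vecMulVec u u *ᵥ jj s' = (u ⬝ᵥ jj s') • u := by
      intro u
      ext i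
      rw [Matrix.mulVec, dotProduct, Pi.smul_apply, smul_eq_mul, dotProduct, Finset.sum_mul]
      exact Finset.sum_congr rfl fun j _ => by rw [vecMulVec_apply]; ring
    rw [e1, e1] at h2
    set z : ℂ := ⟨jj s ⬝ᵥ jj s', (Jc *ᵥ jj s) ⬝ᵥ jj s'⟩ with hz
    have h3 : s' = z • s := jj_inj (by rw [jj_smul]; exact h2.symm)
    refine ⟨z, ?_, h3⟩
    have h4 := congrArg norm h3
    rw [norm_smul, hs, hs', mul_one] at h4
    exact h4.symm
  · rintro ⟨z, hz, rfl⟩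
    ext k
    rw [piD_apply, piD_apply, hv_smul, hz]
    ring

end

end Crest.Agent.R235.MdlH_453
end

-- ▼ part R235/MdlH_453
section

/-!
Row 235 (S0364), helper453, leaf (X2) of helper489's #2818, part 2: **the fields of `HopfD`**
(`L` trivial, `N = 1`) for `piD D` and `UU D ww s (y, i) z = us rhoc (μ_{π s}) (ν_{π s}) (j s) y z`.
-/

set_option autoImplicit false
set_option maxSynthPendingDepth 3
set_option linter.unusedSectionVars false

open scoped ContDiff ENNReal NNReal Topology Manifold Bundle RealInnerProductSpace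
open MeasureTheory Set Filter Metric Bundle Matrix

universe v

namespace Crest.Agent.R235.MdlH_453

open Crest.Agent.R235.VIso_470 (Q4 PP)
open Crest.Agent.R235.MdlL_453 (Jc rhoc q4 Tws iu_one)
open Crest.Agent.R235.SWDefs_53 Crest.Agent.R235.SWTn_451
open Crest.Agent.R235.MdlA_489 Crest.Agent.R235.MdlC_489
open Crest.Agent.R235.TauJ (JF)

noncomputable section

section alg

variable {D : Fin 3 → ℝ}

theorem muT_piD (hD : ∀ k, D k ^ 2 = 1) {s : C2} (hs : ‖s‖ = 1) : muT D (piD D s) = hv (jj s) := by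
  funext k
  unfold muT
  rw [norm_piD hD, hs, one_pow, div_one, piD_hv hD]

theorem jj_one {s : C2} (hs : ‖s‖ = 1) : jj s ⬝ᵥ jj s = 1 := by rw [jj_dot, hs, one_pow]

theorem PP_jj (hD : ∀ k, D k ^ 2 = 1) {s : C2} (hs : ‖s‖ = 1) :
    PP rhoc (muT D (piD D s)) *ᵥ jj s = jj s := by
  rw [muT_piD hD hs]
  exact PP_hv (jj_one hs)

theorem muT_sq' (hD : ∀ k, D k ^ 2 = 1) {t : E3} (ht : ‖t‖ = 1) : ∑ k, muT D t k ^ 2 = 1 := by
  have ht2 : ∑ k, t k ^ 2 = 1 := by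
    have h1 : ‖t‖ ^ 2 = 1 := by rw [ht, one_pow]
    rw [EuclideanSpace.norm_sq_eq] at h1
    simpa only [Real.norm_eq_abs, sq_abs] using h1
  have h1 : ∀ k, muT D t k ^ 2 = t k ^ 2 := by
    intro k
    unfold muT
    rw [neg_sq, mul_pow, hD, one_mul, ht, div_one]
  simp only [h1]
  exact ht2

theorem exists_unit {μ : Fin 3 → ℝ} (hμ : ∑ k, μ k ^ 2 = 1) :
    ∃ s : Fin 4 → ℝ, PP rhoc μ *ᵥ s = s ∧ s ⬝ᵥ s = 1 := by
  have h := q4
  have hne : ∃ w, VIso_470.PP rhoc μ *ᵥ w ≠ 0 := by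
    by_contra hcon
    push Not at hcon
    have h1 : VIso_470.PP rhoc μ = 0 := by
      refine Matrix.ext_of_mulVec_single fun i => ?_
      rw [hcon, Matrix.zero_mulVec]
    have h2 := h.PP_tr μ
    rw [h1, Matrix.trace_zero] at h2
    norm_num at h2
  obtain ⟨w, hw⟩ := hne
  set v := VIso_470.PP rhoc μ *ᵥ w with hv
  have hvv : VIso_470.PP rhoc μ *ᵥ v = v := by rw [hv, Matrix.mulVec_mulVec, h.PP_idem hμ]
  have hpos : 0 < v ⬝ᵥ v := by
    have h1 : 0 ≤ v ⬝ᵥ v := Finset.sum_nonneg fun i _ => mul_self_nonneg _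
    refine lt_of_le_of_ne h1 fun h2 => hw ?_
    exact dotProduct_self_eq_zero.1 h2.symm
  refine ⟨(√(v ⬝ᵥ v))⁻¹ • v, by rw [Matrix.mulVec_smul, hvv], ?_⟩
  rw [smul_dotProduct, dotProduct_smul, smul_eq_mul, smul_eq_mul, ← mul_assoc, ← pow_two, inv_pow,
    Real.sq_sqrt hpos.le, inv_mul_cancel₀ hpos.ne']

/-- surjectivity of the Hopf map. -/
theorem spiD (hD : ∀ k, D k ^ 2 = 1) (t : E3) (ht : ‖t‖ = 1) : ∃ s : C2, ‖s‖ = 1 ∧ piD D s = t := by
  obtain ⟨v, hv1, hv2⟩ := exists_unit (muT_sq' hD ht)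
  obtain ⟨s, rfl⟩ := jj_surj v
  have hs : ‖s‖ = 1 := by
    rw [jj_dot] at hv2
    exact (pow_eq_one_iff_of_nonneg (norm_nonneg s) two_ne_zero).1 hv2
  refine ⟨s, hs, ?_⟩
  ext k
  rw [piD_apply]
  have h1 : hv (jj s) k = muT D t k := q4.s_rho hv1 hv2 k
  rw [h1]
  unfold muT
  rw [ht, div_one]
  have := hD k
  linear_combination t k * this

end alg

section us

variable {M : Type v} [TopologicalSpace M] [ChartedSpace (EuclideanSpace ℝ (Fin 4)) M]
  [IsManifold (𝓡 4) ∞ M]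
  {ww : Fin 3 → Fin 3 → M → ℝ} {D : Fin 3 → ℝ}

/-- the sections `U s`. -/
def UU (D : Fin 3 → ℝ) (ww : Fin 3 → Fin 3 → M → ℝ) (s : C2) (y : Fin 4 × Fin 1) (z : M) : ℝ :=
  us rhoc (muT D (piD D s)) (nuT ww (piD D s)) (jj s) y.1 z

theorem PP_Jc (μ : Fin 3 → ℝ) (v : Fin 4 → ℝ) : PP rhoc μ *ᵥ (Jc *ᵥ v) = Jc *ᵥ (PP rhoc μ *ᵥ v) := by
  rw [Matrix.mulVec_mulVec, Matrix.mulVec_mulVec, q4.PP_com]

theorem piD_smul {z : ℂ} (hz : ‖z‖ = 1) (s : C2) : piD D (z • s) = piD D s := by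
  ext k
  rw [piD_apply, piD_apply, hv_smul, hz]
  ring

theorem UU_smul {c : ℂ} (hc : ‖c‖ = 1) (s : C2) (y : Fin 4 × Fin 1) (x : M) :
    UU D ww (c • s) y x = c.re * UU D ww s y x +
      c.im * (Jc *ᵥ fun y' => UU D ww s (y', 0) x) y.1 := by
  unfold UU us
  rw [piD_smul hc, jj_smul, Matrix.mulVec_add, Matrix.mulVec_smul, Matrix.mulVec_smul, PP_Jc]
  have e1 : (Jc *ᵥ fun y' => cf (muT D (piD D s)) (nuT ww (piD D s)) x *
      (PP rhoc (fun k => nuT ww (piD D s) k x) *ᵥ jj s) y') y.1 =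
      cf (muT D (piD D s)) (nuT ww (piD D s)) x *
        (Jc *ᵥ (PP rhoc (fun k => nuT ww (piD D s) k x) *ᵥ jj s)) y.1 := by
    have := congrFun (Matrix.mulVec_smul Jc (cf (muT D (piD D s)) (nuT ww (piD D s)) x)
      (PP rhoc (fun k => nuT ww (piD D s) k x) *ᵥ jj s)) y.1
    exact this
  rw [e1]
  simp only [Pi.add_apply, Pi.smul_apply, smul_eq_mul]
  ring

end us

section top

variable {M : Type v} [TopologicalSpace M] [ChartedSpace (EuclideanSpace ℝ (Fin 4)) M]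
  [IsManifold (𝓡 4) ∞ M] [CompactSpace M]
  {ww : Fin 3 → Fin 3 → M → ℝ} {D : Fin 3 → ℝ}

theorem cont_nu (hc : ∀ k, ContinuousOn (fun q : E3 × M => nuT ww q.1 k q.2) {q | ‖q.1‖ = 1})
    (hD : ∀ k, D k ^ 2 = 1) (k : Fin 3) :
    ContinuousOn (fun q : C2 × M => nuT ww (piD D q.1) k q.2) {q | ‖q.1‖ = 1} := by
  refine (hc k).comp (f := fun q : C2 × M => (piD D q.1, q.2)) ?_ ?_
  · exact (((continuous_piD D).comp continuous_fst).prodMk continuous_snd).continuousOn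
  · intro q hq
    have h1 : ‖q.1‖ = 1 := hq
    show ‖piD D q.1‖ = 1
    rw [norm_piD hD, h1, one_pow]

theorem cont_mu (hD : ∀ k, D k ^ 2 = 1) (k : Fin 3) :
    ContinuousOn (fun q : C2 × M => muT D (piD D q.1) k) {q | ‖q.1‖ = 1} := by
  have h1 : ContinuousOn (fun q : C2 × M => hv (jj q.1) k) {q | ‖q.1‖ = 1} :=
    ((continuous_hv k).comp (continuous_jj.comp continuous_fst)).continuousOn
  refine h1.congr fun q hq => ?_
  have h2 : ‖q.1‖ = 1 := hq
  show muT D (piD D q.1) k = hv (jj q.1) k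
  rw [muT_piD hD h2]

theorem cont_jj (A : Matrix (Fin 4) (Fin 4) ℝ) (a : Fin 4) :
    Continuous fun q : C2 × M => (A *ᵥ jj q.1) a := by
  have h1 : Continuous fun q : C2 × M => jj q.1 := continuous_jj.comp continuous_fst
  have h2 : Continuous fun q : C2 × M => A *ᵥ jj q.1 := by
    unfold Matrix.mulVec dotProduct
    refine continuous_pi fun i => continuous_finsetSum _ fun j _ => ?_
    exact continuous_const.mul ((continuous_apply j).comp h1)
  exact (continuous_apply a).comp h2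

/-- **joint continuity of `U`.** -/
theorem cUU (hc : ∀ k, ContinuousOn (fun q : E3 × M => nuT ww q.1 k q.2) {q | ‖q.1‖ = 1})
    (hD : ∀ k, D k ^ 2 = 1)
    (hpos : ∀ t : E3, ‖t‖ = 1 → ∀ z, 0 < 1 + ∑ k, nuT ww t k z * muT D t k) (y : Fin 4 × Fin 1) :
    ContinuousOn (fun q : C2 × M => UU D ww q.1 y q.2) {q | ‖q.1‖ = 1} := by
  have hsum : ContinuousOn (fun q : C2 × M => (1 + ∑ k, nuT ww (piD D q.1) k q.2 *
      muT D (piD D q.1) k) / 2) {q | ‖q.1‖ = 1} := by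
    refine (continuousOn_const.add (continuousOn_finsetSum _ fun k _ => ?_)).div_const 2
    exact (cont_nu hc hD k).mul (cont_mu hD k)
  have h1 : ContinuousOn (fun q : C2 × M => (√((1 + ∑ k, nuT ww (piD D q.1) k q.2 *
      muT D (piD D q.1) k) / 2))⁻¹) {q | ‖q.1‖ = 1} := by
    refine (hsum.sqrt).inv₀ fun q hq => ?_
    have h2 : ‖q.1‖ = 1 := hq
    have h3 : ‖piD D q.1‖ = 1 := by rw [norm_piD hD, h2, one_pow]
    have h4 := hpos (piD D q.1) h3 q.2
    exact (Real.sqrt_pos.2 (by linarith)).ne'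
  have h2 : ContinuousOn (fun q : C2 × M => (1 / 2 : ℝ) * (jj q.1 y.1 + ∑ k,
      nuT ww (piD D q.1) k q.2 * (rhoc k *ᵥ jj q.1) y.1)) {q | ‖q.1‖ = 1} := by
    refine continuousOn_const.mul ?_
    refine ((continuous_apply y.1).comp (continuous_jj.comp continuous_fst)).continuousOn.add ?_
    refine continuousOn_finsetSum _ fun k _ => ?_
    exact (cont_nu hc hD k).mul (cont_jj _ _).continuousOn
  refine (h1.mul h2).congr fun q _ => ?_
  show UU D ww q.1 y q.2 = _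
  unfold UU us cf
  rw [PP_app]
  rfl

end top

section main

variable {M : Type v} [MetricSpace M] [CompactSpace M] [ConnectedSpace M]
  [ChartedSpace (EuclideanSpace ℝ (Fin 4)) M] [IsManifold (𝓡 4) ∞ M]
  [RiemannianBundle (fun p : M => TangentSpace (𝓡 4) p)]
  [IsContMDiffRiemannianBundle (𝓡 4) ∞ (EuclideanSpace ℝ (Fin 4))
    (fun p : M => TangentSpace (𝓡 4) p)]
  [IsRiemannianManifold (𝓡 4) M] [MeasurableSpace M] [BorelSpace M]
  [SecondCountableTopology M] [Nonempty M] [IsFiniteMeasureOnCompacts (μHE[4] : Measure M)]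
  {κ1 κT : Type} [Fintype κ1] [Fintype κT]
  {S : SWS M (Fin 4 × Fin 1) κ1 κT} {p : M → Matrix (Fin 1) (Fin 1) ℂ}
  {ww : Fin 3 → Fin 3 → M → ℝ} {D : Fin 3 → ℝ} {τ : E3 → TD M κT} {C : ℝ}
  {th : E3 → κT → M → ℝ}

theorem ne_of_one {t : E3} (ht : ‖t‖ = 1) : t ≠ 0 := by
  rintro rfl
  rw [norm_zero] at ht
  exact zero_ne_one ht

/-- **`HopfD` from the flat family and the parallel sections.** -/
theorem hopf_of (hT : Tws S p) (hp : IsLine p) (hL : LT ww)
    (hs : ∀ i k, ContMDiff (𝓡 4) 𝓘(ℝ, ℝ) ∞ (ww i k)) (hD1 : ∀ k, D k ^ 2 = 1)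
    (hDp : ∀ k z, 0 < D k * ww k k z) (fam : FFam S ww τ C th)
    (hpsec : ∀ t : E3, ‖t‖ = 1 → ∀ v : Fin 4 → ℝ, PP rhoc (muT D t) *ᵥ v = v → v ⬝ᵥ v = 1 →
      (τ t).PSec S (th t) (1 / 2) (fun y z => us rhoc (muT D t) (nuT ww t) v y.1 z)) :
    HopfD S ww τ C th (piD D) (UU D ww) where
  fam := fam
  cpi := continuous_piD D
  npi s hs1 := by rw [norm_piD hD1, hs1, one_pow]
  spi := spiD hD1
  fpi := fpiD hD1
  psec s hs1 := hpsec (piD D s) (by rw [norm_piD hD1, hs1, one_pow]) (jj s) (PP_jj hD1 hs1)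
    (jj_one hs1)
  eqU s c _ hc y x := by
    rw [UU_smul hc]
    have h1 := iu_one hT hp (fun a z => us rhoc (muT D (piD D s)) (nuT ww (piD D s)) (jj s) a z) y x
    rw [show S.iu (UU D ww s) y x = S.iu (fun y => (fun a z => us rhoc (muT D (piD D s))
      (nuT ww (piD D s)) (jj s) a z) y.1) y x from rfl, h1]
    rfl
  cU y := cUU (fun k => (jf_nuT hL hs k).contS) hD1
    (fun t ht z => nu_mu_pos hL hD1 hDp (ne_of_one ht) z) y

end main

end

end Crest.Agent.R235.MdlH_453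
end

-- ▼ part R235/MdlE_489
section

/-!
Row 235 (S0364), PACKAGE SW, MODEL output MODB (helper489), part E: `N = 1`: the section
`U (y, i) = us y` is a parallel unit section (`TD.PSec`) for `th_t` (`a₀ = 0`).
-/

set_option autoImplicit false
set_option maxSynthPendingDepth 3
set_option linter.unusedSectionVars false

open scoped ContDiff ENNReal NNReal Topology Manifold Bundle RealInnerProductSpace
open MeasureTheory Set Filter Metric Bundle Matrix

universe v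

namespace Crest.Agent.R235.MdlE_489

open Crest.Agent.R240 Crest.Agent.R240.Ch Crest.Agent.R235.SWDefs_53 Crest.Agent.R235.IndTri_451
open Crest.Agent.R249.Tv57 (Dat OpPair SmF Spec)
open Crest.Agent.R249.Vf281 (VSm mCov)
open Crest.Agent.R249.Tz805 (ToF Bun opB)
open Crest.Agent.R235.Tau483 Crest.Agent.R235.SWTn_451
open Crest.Agent.R235.MdlA_489 Crest.Agent.R235.MdlB_489 Crest.Agent.R235.MdlC_489
open Crest.Agent.R235.MdlL_453 Crest.Agent.R235.VIso_470 Crest.Agent.R235.MdlD_489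

noncomputable section

variable {M : Type v} [MetricSpace M] [CompactSpace M] [ConnectedSpace M]
  [ChartedSpace (EuclideanSpace ℝ (Fin 4)) M] [IsManifold (𝓡 4) ∞ M]
  [RiemannianBundle (fun p : M => TangentSpace (𝓡 4) p)]
  [IsContMDiffRiemannianBundle (𝓡 4) ∞ (EuclideanSpace ℝ (Fin 4))
    (fun p : M => TangentSpace (𝓡 4) p)]
  [IsRiemannianManifold (𝓡 4) M] [MeasurableSpace M] [BorelSpace M]
  [SecondCountableTopology M] [Nonempty M] [IsFiniteMeasureOnCompacts (μHE[4] : Measure M)]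
  {κ1 κT : Type} [Fintype κ1] [Fintype κT]

variable {S : SWS M (Fin 4 × Fin 1) κ1 κT} {T : ToF 4 M}
    {c : κ1 → Fin 4 × Fin 1 → (z : M) → TangentSpace (𝓡 4) z}
    {W : Fin 4 × Fin 1 → Fin 4 × Fin 1 → (z : M) → TangentSpace (𝓡 4) z}
    {sT : κT → (z : M) → TangentSpace (𝓡 4) z} {w : Trip M} {e : Fin 3 → F2 E4 M}
    {ι : ℝ} {ww : Fin 3 → Fin 3 → M → ℝ} {D : Fin 3 → ℝ} {p : M → Matrix (Fin 1) (Fin 1) ℂ}
    {τ : E3 → TD M κT} {cE : E3 → Z2 M} {C : ℝ}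

/-- `(s - i J s)/√2` in terms of the isometry. -/
theorem hatf_one (hT : Tws S p) (hp : IsLine p) (u : Fin 4 → M → ℝ) (z : M) :
    hatf S (fun y => u y.1) z = Vu Jc p u z *ᵥ fun _ => 1 := by
  funext y
  have h1 : (Vu Jc p u z *ᵥ fun _ => (1 : ℂ)) y = hc Jc (fun a => u a z) y.1 := by
    rw [Matrix.mulVec, dotProduct, Fin.sum_univ_one, mul_one]
    change hc Jc (fun a => u a z) y.1 * p z y.2 0 = _
    rw [isLine_one hp, Subsingleton.elim y.2 0, Matrix.one_apply_eq, mul_one]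
  have h2 := iu_one hT hp u y z
  have h3 : (Jm S z *ᵥ sv (fun y : Fin 4 × Fin 1 => u y.1) z) y = (MdlL_453.Jc *ᵥ fun y => u y z) y.1 := h2
  rw [h1]
  unfold hatf hat hc
  simp only [Pi.smul_apply, Pi.sub_apply, smul_eq_mul, cV]
  rw [h3, one_div]
  rfl

/-- **the parallel unit section.** -/
theorem psec_one (h : Mh S T c W sT w e ι ww D p τ cE C) {t : E3} (ht : ‖t‖ = 1)
    {s : Fin 4 → ℝ} (hs0 : VIso_470.PP rhoc (muT D t) *ᵥ s = s) (hs1 : s ⬝ᵥ s = 1) :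
    (τ t).PSec S (thT τ S W sT e ww D 0 t) (1 / 2)
      (fun y z => us rhoc (muT D t) (nuT ww t) s y.1 z) := by
  have ht0 := ne_of ht
  have hsm : ∀ k, ContMDiff (𝓡 4) 𝓘(ℝ, ℝ) ∞ (nuT ww t k) := fun k => smooth_nuT h.lt h.smw ht0 k
  have hnn : ∀ z, ∑ k, nuT ww t k z ^ 2 = 1 := fun z => nuT_sq h.lt ht0 z
  have hpos : ∀ z, 0 < 1 + ∑ k, nuT ww t k z * muT D t k := fun z =>
    nu_mu_pos h.lt h.D1 h.Dp ht0 z
  have hsmU : Crest.Agent.R249.Tv57.SmV (n := 4)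
      (fun (y : Fin 4 × Fin 1) z => us rhoc (muT D t) (nuT ww t) s y.1 z) := fun y =>
    smooth_us hsm hpos s y.1
  have hsec : (τ t).SecE S (fun y z => us rhoc (muT D t) (nuT ww t) s y.1 z) := by
    refine secE_one h.tws h.line (u := us rhoc (muT D t) (nuT ww t) s) fun z => ?_
    have e1 : (fun k => - (τ t).n k z) = fun k => nuT ww t k z := by
      funext k
      rw [h.n_eq]
      rfl
    rw [e1]
    exact us_PP q4 (muT D t) hnn s z
  obtain ⟨hV, hl⟩ := vi_t h.tws h.line h.lt h.smw h.D1 h.Dp ht0 (h.n_eq t) hs0 hs1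
  refine ⟨hsmU, hsec, fun z => ?_, fun y z => ?_⟩
  · have e1 := us_unit q4 hnn hs0 hs1 (hpos z)
    rw [Fintype.sum_prod_type]
    simp only [Fin.sum_univ_one]
    have e2 : ∑ a, us rhoc (muT D t) (nuT ww t) s a z ^ 2 = 1 := by
      rw [← e1]
      exact Finset.sum_congr rfl fun a _ => pow_two _
    rw [e2]
    norm_num
  · refine par_of h.ok h.tg h.ti (h.tau t ht).norm (ln_of h.line) hV hl hsmU hsec
      (α := fun _ _ => 1) (fun j => contMDiff_const) (fun x => ?_) (fun z => ?_)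
      (fun z v => ?_) y z
    · rw [isLine_one h.line, Matrix.one_mulVec]
    · exact hatf_one h.tws h.line (us rhoc (muT D t) (nuT ww t) s) z
    · unfold nab
      have e1 : dV (fun (_ : M) (_ : Fin 1) => (1 : ℂ)) z v = 0 := by
        funext j
        unfold dV dC
        simp
      have e2 : at1 (0 : F1 E4 M) z v = 0 := rfl
      rw [e1, e2, Matrix.mulVec_zero, Complex.ofReal_zero, mul_zero, zero_smul, add_zero]

theorem ch0_one (hp : IsLine p) : Ch0 p (0 : Z2 M) := by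
  intro x u v
  have e1 : ∀ u, dmt p x u = 0 := by
    intro u
    ext i j
    have e2 : (fun y => p y i j) = fun _ => (1 : Matrix (Fin 1) (Fin 1) ℂ) i j := by
      funext y
      rw [isLine_one hp]
    unfold dmt
    rw [e2]
    unfold dC
    simp
  rw [e1, e1, Matrix.mul_zero, sub_zero, Matrix.mul_zero, Matrix.trace_zero, mul_zero,
    Complex.zero_re]
  rfl

/-- **the flat family for `L` trivial.** -/
theorem ffam_one (h : Mh S T c W sT w e ι ww D p τ cE C) :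
    FFam S ww τ C (thT τ S W sT e ww D 0) := by
  refine h.ffam smooth1_zero (ch0_one h.line) fun x => ?_
  have e1 : val (0 : Z2 M) x = 0 := rfl
  have e2 : dG (0 : F1 E4 M) = 0 := by
    have := dG_smul (0 : ℝ) (smooth1_zero : Smooth1 (0 : F1 E4 M))
    rw [zero_smul, zero_smul] at this
    exact this
  rw [e1, smul_zero, e2]
  rfl

end

end Crest.Agent.R235.MdlE_489
end

-- ▼ part R235/SWJDg_930
section

/-!
# Row 235 (S0364), PACKAGE SW (helper930): `GrdH` for the Hodge pair `pairH`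

* `grdH_pair` : `GrdH S` (constant `1`), if `S.H.A` is `opA` of `pairH q s` and `S.s = T.toF s.s`.
-/

set_option autoImplicit false
set_option maxSynthPendingDepth 3
set_option linter.unusedSectionVars false

open Set Function Filter MeasureTheory Bundle
open scoped Manifold ContDiff Topology ENNReal RealInnerProductSpace
open Crest.Agent.R202.Tens Crest.Agent.R247.Bo84 Crest.Agent.R249.Vf281
open Crest.Agent.R249.Tz2_805 Crest.Agent.R249.Tz805 Crest.Agent.R249.Idx789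

namespace Crest.Agent.R235.SWJDok_930

open Crest.Agent.R235.SWDefs_53
open Crest.Agent.R235.Ind167 (QS pairH)

noncomputable section

variable {M : Type} [MetricSpace M] [CompactSpace M] [ConnectedSpace M]
  [ChartedSpace (EuclideanSpace ℝ (Fin 4)) M] [IsManifold (𝓡 4) ∞ M]
  [RiemannianBundle (fun p : M => TangentSpace (𝓡 4) p)]
  [IsContMDiffRiemannianBundle (𝓡 4) ∞ (EuclideanSpace ℝ (Fin 4))
    (fun p : M => TangentSpace (𝓡 4) p)]
  [IsRiemannianManifold (𝓡 4) M] [MeasurableSpace M] [BorelSpace M]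
  [SecondCountableTopology M] [Nonempty M]
  {κ0 κ1 κ : Type} [Fintype κ0] [Fintype κ1] [Fintype κ]
  {S : SWS M κ0 κ1 κ} {T : ToF 4 M} {s : PF 4 M κ}

/-- the function part of the Hodge operator is the gradient. -/
theorem grdH_pair (q : QS M) (hs : ∀ A z, S.s A z = T.toF z (s.s A z))
    (hA : ∀ u : Fin 4 → M → ℝ, S.H.A u = opA (pairH q s).D0 (pairH q s).cc u) : GrdH S := by
  refine ⟨1, one_ne_zero, fun f hf A z => ?_⟩
  have h1 : ∀ b, Mdl3_399.bet q s (fun _ _ => 0) b z = 0 := by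
    intro b
    have : mgrad 4 (fun _ : M => (0 : ℝ)) z = 0 := mgrad_const _
    simp only [Mdl3_399.bet, this, zero_smul, add_zero, sub_zero]
  rw [hA, Mdl3_399.opA_cons, hs, ← T.grad f z hf, T.inner_toF, one_mul]
  simp only [h1, inner_zero_left, Finset.sum_const_zero, sub_zero]

end

end Crest.Agent.R235.SWJDok_930
end

-- ▼ part R235/ModB_344
section

/-!
Row 235 (S0364), PACKAGE SW (helper344): the ENDS `MODB` and `MODT` of the model of the trivial bundle.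

* `HOPFM`   : the Hopf family of solutions of the model `SL` of the trivial line bundle (489, 766, 755);
* `core`    : everything else: `Sym`, `CJ1`, `GrdH`, Jacobian data of a given integral basis, numbers;
* `modb_of` : `HOPFM → MODB`.
-/

set_option autoImplicit false
set_option maxSynthPendingDepth 3
set_option linter.unusedSectionVars false
set_option maxHeartbeats 1000000

open scoped ContDiff ENNReal NNReal Topology Manifold Bundle RealInnerProductSpace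
open MeasureTheory Set Filter Metric Bundle Matrix

namespace Crest.Agent.R235.ModB_344

open Crest.Agent.R240 Crest.Agent.R240.Ch Crest.Agent.R235.SWDefs_53
open Crest.Agent.R235.IndTri_451 Crest.Agent.R235.SWSym_451
open Crest.Agent.R249.Tz805 (ToF)
open Crest.Agent.R249.Tz2_805 (PF)
open Crest.Agent.R249.Tv57 (KerD)
open Crest.Agent.R235.DichProps_723
open Crest.Agent.R235.Ind167
open Crest.Agent.R235.SwsL_755 Crest.Agent.R235.TwfL_755 Crest.Agent.R235.LTw_453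
open Crest.Agent.R235.LTwLd_774 (ldOf)
open Crest.Agent.R235.QSTri_451 (qs)
open Crest.Agent.R235.Hopf_143 (hopf)

noncomputable section

/-- the trivial line bundle. -/
theorem isLine1 {M : Type*} [TopologicalSpace M] [ChartedSpace E4 M] [IsManifold 𝓘(ℝ, E4) ∞ M] :
    IsLine (fun _ : M => (1 : Matrix (Fin 1) (Fin 1) ℂ)) where
  smooth _ _ := contMDiff_const
  idem _ := Matrix.mul_one _
  herm _ := Matrix.conjTranspose_one
  rank _ := by simp

theorem isChern1 {M : Type*} [TopologicalSpace M] [ChartedSpace E4 M] [IsManifold 𝓘(ℝ, E4) ∞ M] :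
    IsChern (fun _ : M => (1 : Matrix (Fin 1) (Fin 1) ℂ)) (0 : Z2 M) := by
  intro x u v
  have h0 : ∀ v, dmat (fun _ : M => (1 : Matrix (Fin 1) (Fin 1) ℂ)) x v = 0 := by
    intro v
    ext i j
    simp [dmat]
  rw [h0, h0]
  simp
  rfl

/-- **HOPFM** : the Hopf family of the model of the trivial bundle. -/
def HOPFM : Prop :=
  ∀ (M : Type) [MetricSpace M] [CompactSpace M] [ConnectedSpace M]
    [ChartedSpace (EuclideanSpace ℝ (Fin 4)) M] [IsManifold (𝓡 4) ∞ M]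
    [RiemannianBundle (fun p : M => TangentSpace (𝓡 4) p)]
    [IsContMDiffRiemannianBundle (𝓡 4) ∞ (EuclideanSpace ℝ (Fin 4))
      (fun p : M => TangentSpace (𝓡 4) p)]
    [IsRiemannianManifold (𝓡 4) M] [MeasurableSpace M] [BorelSpace M]
    [SecondCountableTopology M] [Nonempty M] [IsFiniteMeasureOnCompacts (μHE[4] : Measure M)]
    (w : Trip M) (e : Fin 3 → F2 E4 M) (he : IsTri (und w) e)
    (hin : ∀ (x : M) (u v : TangentSpace 𝓘(ℝ, E4) x), inner ℝ u v = at2 (gg e) x u v)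
    (hp : IsLine (fun _ : M => (1 : Matrix (Fin 1) (Fin 1) ℂ)))
    (κ : Type) [Fintype κ] (T : ToF 4 M) (s : PF 4 M κ),
    ∃ (ww : Fin 3 → Fin 3 → M → ℝ) (τ : E3 → TD M κ) (C : ℝ)
      (th : E3 → κ → M → ℝ) (pi : EuclideanSpace ℂ (Fin 2) → E3)
      (U : EuclideanSpace ℂ (Fin 2) → Fin 4 × Fin 1 → M → ℝ),
      HopfD (SL T (qs he hin) s (ldOf (fun _ => 1) hp)) ww τ C th pi U ∧
      ∃ A : E3 ≃ₗᵢ[ℝ] E3, ∀ s, ‖s‖ = 1 → pi s = A (hopf s)

section core

variable {M : Type} [MetricSpace M] [CompactSpace M] [ConnectedSpace M]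
    [ChartedSpace (EuclideanSpace ℝ (Fin 4)) M] [IsManifold (𝓡 4) ∞ M]
    [RiemannianBundle (fun p : M => TangentSpace (𝓡 4) p)]
    [IsContMDiffRiemannianBundle (𝓡 4) ∞ (EuclideanSpace ℝ (Fin 4))
      (fun p : M => TangentSpace (𝓡 4) p)]
    [IsRiemannianManifold (𝓡 4) M] [MeasurableSpace M] [BorelSpace M]
    [SecondCountableTopology M] [Nonempty M]
  {w : Trip M} {e : Fin 3 → F2 E4 M} (hw : Pos3 w) (he : IsTri (und w) e)
  (hin : ∀ (x : M) (u v : TangentSpace 𝓘(ℝ, E4) x), inner ℝ u v = at2 (gg e) x u v)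
  {κ : Type} [Fintype κ] (T : ToF 4 M) (s : PF 4 M κ)

theorem hasB1_of {b : ℕ} {σ : Fin b → F1 E4 M} (hσ : H1Bas σ) : HasB1 M b := by
  refine ⟨σ, hσ.closed, fun r hr => ?_, hσ.indep⟩
  obtain ⟨x, ⟨f, hf, h⟩, -⟩ := hσ.span r hr
  exact ⟨x, f, hf, h⟩

/-- the function part of the Hodge operator of `SL` is the gradient. -/
theorem grdH_SL (q : QS M) {N : ℕ} (L : LD 4 M N) : GrdH (SL T q s L) :=
  SWJDok_930.grdH_pair (T := T) (s := s) q (fun _ _ => rfl) fun _ => rfl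

/-- the Jacobian data of a given integral basis. -/
theorem exists_jd_SL {N : ℕ} (L : LD 4 M N) {b : ℕ} {σ : Fin b → F1 E4 M} (hσ : H1Bas σ) :
    ∃ j : JD M κ b, j.OK (SL T (qs he hin) s L) :=
  SWJDok_930.exists_jd_bas (T := T) (s := s) he hin (fun _ _ _ => rfl) (fun _ _ => rfl)
    (fun _ => rfl) hσ

include hw in
/-- the numbers for a class of square zero and a given integral basis of `H¹`. -/
theorem nums_bas {N : ℕ} {p : M → Matrix (Fin N) (Fin N) ℂ} {a : Z2 M} (hp : IsLine p)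
    (hc : IsChern p a) (ha : pI (w 0) a a = 0) {b : ℕ} {σ : Fin b → F1 E4 M} (hσ : H1Bas σ) :
    ∃ d0 d1 bp : ℕ, Nonempty (KerD (SL T (qs he hin) s (ldOf p hp)).D0
        (SL T (qs he hin) s (ldOf p hp)).P.A d0) ∧
      Nonempty (KerD (SL T (qs he hin) s (ldOf p hp)).D1
        (SL T (qs he hin) s (ldOf p hp)).P.B d1) ∧
      Nonempty (KerD (SL T (qs he hin) s (ldOf p hp)).DL
        (SL T (qs he hin) s (ldOf p hp)).H.A (1 + bp)) ∧
      d0 + b = d1 + 1 + bp ∧ NumC_692.HNum w bp := by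
  obtain ⟨d0, d1, b', bp, K0, K1, K2, -, hb, h, hn⟩ := NumC_692.numsL hw he hin T s hp hc ha
  obtain rfl := DichH1_723.hasB1_unique (hasB1_of hσ) hb
  exact ⟨d0, d1, bp, K0, K1, K2, h, hn⟩

theorem pI_zero_zero (F : Z2 M) : pI F (0 : Z2 M) 0 = 0 := by
  refine HDG_819.pI_zero fun x => ?_
  have h : val (0 : Z2 M) x = 0 := rfl
  rw [h]
  simp [R240.W, R240.ent]

end core

/-- **MODB**. -/
theorem modb_of (hH : HOPFM) : SWTop_53.MODB := by
  intro M _ _ _ _ _ _ _ _ _ _ _ _ _ w e hw he hin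
  obtain ⟨m, ⟨s⟩⟩ := R249.Tz2_805.exists_PF (n := 4) (M := M)
  let T : ToF 4 M := R249.Tof352.tof 4 M
  obtain ⟨b, σ, hσ⟩ := H1Fin_692.h1bas M
  obtain ⟨ww, τ, C, th, pi, U, hD, -⟩ := hH M w e he hin isLine1 _ T s
  obtain ⟨d0, d1, bp, K0, K1, K2, h, P, N, h1, h2, h3, h4, h5, h6⟩ :=
    nums_bas hw he hin T s isLine1 isChern1 (pI_zero_zero (w 0)) hσ
  obtain ⟨j, hj⟩ := exists_jd_SL he hin T s (ldOf (fun _ => 1) isLine1) hσ
  exact ⟨_, _, _, inferInstance, inferInstance, inferInstance,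
    SL T (qs he hin) s (ldOf (fun _ => 1) isLine1), _, b, j, ww, τ, C, th, pi, U, d0, d1, bp,
    sym_L T (qs he hin) s _, grdH_SL T s (qs he hin) _, hj, hD, K0, K1, K2, h,
    P, N, h1, h2, h3, h4, h5, h6⟩

end

end Crest.Agent.R235.ModB_344
end

-- ▼ part R235/HopfM_453

/-!
Row 235 (S0364), PACKAGE SW, helper453: **HOPFM** (text of `ModB_344.HOPFM`): the Hopf family of the
model of the trivial line bundle.
-/

set_option autoImplicit false
set_option maxSynthPendingDepth 3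
set_option linter.unusedSectionVars false
set_option maxHeartbeats 1000000

open scoped ContDiff ENNReal NNReal Topology Manifold Bundle RealInnerProductSpace
open MeasureTheory Set Filter Metric Bundle Matrix

namespace Crest.Agent.R235.HopfM_453

open Crest.Agent.R240 Crest.Agent.R240.Ch Crest.Agent.R235.SWDefs_53
open Crest.Agent.R235.IndTri_451 Crest.Agent.R235.SWTn_451
open Crest.Agent.R249.Tz805 (ToF)
open Crest.Agent.R249.Tz2_805 (PF)
open Crest.Agent.R235.MdlH_453 Crest.Agent.R235.Hopf_143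

noncomputable section

section iso

variable {D : Fin 3 → ℝ}

/-- the isometry `(t₀, t₁, t₂) ↦ (D₀ t₀, D₁ t₂, D₂ t₁)`. -/
def isoL (hD : ∀ k, D k ^ 2 = 1) : EuclideanSpace ℝ (Fin 3) →ₗᵢ[ℝ] EuclideanSpace ℝ (Fin 3) where
  toFun t := WithLp.toLp 2 ![D 0 * t 0, D 1 * t 2, D 2 * t 1]
  map_add' a b := by
    ext k
    fin_cases k <;> simp <;> ring
  map_smul' c a := by
    ext k
    fin_cases k <;> simp <;> ring
  norm_map' a := by
    have h1 : ‖(WithLp.toLp 2 ![D 0 * a 0, D 1 * a 2, D 2 * a 1] : EuclideanSpace ℝ (Fin 3))‖ ^ 2 =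
        ‖a‖ ^ 2 := by
      rw [EuclideanSpace.norm_sq_eq, EuclideanSpace.norm_sq_eq, Fin.sum_univ_three,
        Fin.sum_univ_three]
      simp only [Real.norm_eq_abs, sq_abs]
      have h0 := hD 0
      have h1 := hD 1
      have h2 := hD 2
      simp
      linear_combination a 0 ^ 2 * h0 + a 2 ^ 2 * h1 + a 1 ^ 2 * h2
    exact (pow_left_inj₀ (norm_nonneg _) (norm_nonneg _) two_ne_zero).1 h1

theorem piD_hopf (hD : ∀ k, D k ^ 2 = 1) (s : EuclideanSpace ℂ (Fin 2)) :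
    piD D s = isoL hD (hopf s) := by
  have e1 : ∀ z : ℂ, ‖z‖ ^ 2 = z.re ^ 2 + z.im ^ 2 := by
    intro z
    rw [Complex.sq_norm, Complex.normSq_apply]
    ring
  ext k
  rw [piD_apply]
  fin_cases k
  · show -(D 0 * hv (MdlH_453.jj s) 0) = D 0 * hopf s 0
    rw [hv0, hopf_0, e1, e1]
    simp [MdlH_453.jj]
    ring
  · show -(D 1 * hv (MdlH_453.jj s) 1) = D 1 * hopf s 2
    rw [hv1, hopf_2]
    simp [MdlH_453.jj]
    ring
  · show -(D 2 * hv (MdlH_453.jj s) 2) = D 2 * hopf s 1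
    rw [hv2, hopf_1]
    have e2 : (s 0 * star (s 1)).re = (s 0).re * (s 1).re + (s 0).im * (s 1).im := by
      simp
    rw [e2]
    show -(D 2 * (-2 * ((s 0).re * (s 1).re + (s 0).im * (s 1).im))) = _
    ring

/-- the isometry, as an equivalence. -/
def isoE (hD : ∀ k, D k ^ 2 = 1) : EuclideanSpace ℝ (Fin 3) ≃ₗᵢ[ℝ] EuclideanSpace ℝ (Fin 3) :=
  (isoL hD).toLinearIsometryEquiv rfl

theorem piD_hopfE (hD : ∀ k, D k ^ 2 = 1) (s : EuclideanSpace ℂ (Fin 2)) :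
    piD D s = isoE hD (hopf s) := piD_hopf hD s

end iso

/-- **HOPFM**. -/
theorem hopfm : ModB_344.HOPFM := by
  intro M _ _ _ _ _ _ _ _ _ _ _ _ _ w e he hin hp κ _ T s
  obtain ⟨D, C, hM⟩ := ModF_53.exists_mh T s he hin hp ModB_344.isChern1
  have hH := hopf_of hM.tws hM.line hM.lt hM.smw hM.D1 hM.Dp (MdlE_489.ffam_one hM)
    (fun t ht v hv1 hv2 => MdlE_489.psec_one hM ht hv1 hv2)
  exact ⟨_, _, C, _, _, _, hH, isoE hM.D1, fun s _ => piD_hopfE hM.D1 s⟩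

end

end Crest.Agent.R235.HopfM_453
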