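import Crest.Agent.R235.TauT2_483
import Crest.Agent.R235.ModR_692
import Crest.Agent.R235.SwsL_755
import Crest.Agent.R235.LTwLd_774
import Crest.Agent.R235.SWTn_451
import Crest.Agent.R235.TauH_483
import Crest.Agent.R235.TauIso_470
import Crest.Agent.R235.VIso_470
import Crest.Agent.R235.MdlJ2_399
import Crest.Agent.R235.SWTop_53

-- ▼ part R235/T2X_692
section

/-!
Row 235 (S0364), package SW (helper692): `T2X` from 483's `t2_fam`.
-/

set_option autoImplicit false
set_option maxSynthPendingDepth 3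
set_option linter.unusedSectionVars false

open scoped ContDiff ENNReal NNReal Topology Manifold Bundle RealInnerProductSpace
open MeasureTheory Set Filter Metric Bundle Matrix

universe v

namespace Crest.Agent.R235.ModR_692

open Crest.Agent.R240 Crest.Agent.R240.Ch Crest.Agent.R240.Int Crest.Agent.R235.SWDefs_53
open Crest.Agent.R235.IndTri_451 Crest.Agent.R235.Tau483 Crest.Agent.R235.TauOK_692
open Crest.Agent.R235.SWData_451 Crest.Agent.R235.SWTn_451
open Crest.Agent.R249.Tz805 (ToF)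
open Crest.Agent.R235.FamR_692

noncomputable section

variable {M : Type v} [MetricSpace M] [CompactSpace M] [ConnectedSpace M]
  [ChartedSpace (EuclideanSpace ℝ (Fin 4)) M] [IsManifold (𝓡 4) ∞ M]
  [RiemannianBundle (fun p : M => TangentSpace (𝓡 4) p)]
  [IsContMDiffRiemannianBundle (𝓡 4) ∞ (EuclideanSpace ℝ (Fin 4))
    (fun p : M => TangentSpace (𝓡 4) p)]
  [IsRiemannianManifold (𝓡 4) M] [MeasurableSpace M] [BorelSpace M]
  [SecondCountableTopology M] [Nonempty M] [IsFiniteMeasureOnCompacts (μHE[4] : Measure M)]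
  {κ0 κ1 κT : Type} [Fintype κ0] [Fintype κ1] [Fintype κT]
  {S : SWS M κ0 κ1 κT} {T : ToF 4 M}
    {c : κ1 → κ0 → (z : M) → TangentSpace (𝓡 4) z}
    {W : κ0 → κ0 → (z : M) → TangentSpace (𝓡 4) z}
    {sT : κT → (z : M) → TangentSpace (𝓡 4) z} {w : Trip M} {e : Fin 3 → F2 E4 M}
    {σ ι : ℝ} {ww : Fin 3 → Fin 3 → M → ℝ} {cE : E3 → Z2 M}

/-- the second identity, uniformly over the sphere. -/
theorem t2_hyp (hS : S.OK) (h : Hyp S T c W sT w e σ ι ww cE) :
    ∃ C, ∀ t : E3, ‖t‖ = 1 → T2P (tauF S T c W sT w e σ ww cE t) S C := by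
  obtain ⟨C, -, hC⟩ := t2_fam (Θ := Sph) (τ := fun θ => tauF S T c W sT w e σ ww cE θ.1)
    (cE := fun θ => cE θ.1) hS h.tg (fun θ => h.te θ.ne) (fun θ => h.tc θ.ne)
    (o1_of T h.jf_rr) (fun k => o1_of T (h.jf_n k)) (fun A => oo_of (h.jf_sh A))
    (fun x y => oo_of (h.jf_Z x y))
  exact ⟨C, fun t ht => fun a s s' ha hsa hs hs' hE hE' => hC ⟨t, ht⟩ a s s' ha hsa hs hs' hE hE'⟩

/-- **T2X**. -/
theorem t2x : T2X := by
  intro M _ _ _ _ _ _ _ _ _ _ _ _ _ κ0 κ1 κT _ _ _ S T c W sT w e σ ι ww cE hS h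
  exact t2_hyp hS h

/-- **MODR** from `CEX`. -/
theorem modr_of_cex (hC : CEX) : SWTop_53.MODR := modr_of hC t2x

end

end Crest.Agent.R235.ModR_692
end

-- ▼ part R235/SWGen_53

/-!
Row 235 (S0364), PACKAGE SW (helper53): THE CONCRETE GENERIC MODEL.

Input: a positive triple `w`, its orthonormalisation `e`, the metric `gg e`, `T : ToF`, a Parseval
frame `s`, a line bundle `L : LD 4 M N` (`LTwLd_774.ldOf p hp`).

* `Sg`   : the Seiberg-Witten system (755's `SL` over 451's `qs`);  `sym_g`, `tg_g`, `grd_g`, `jd_g`;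
* `wwg`  : components of the triple, `harm_g`, `ndeg_g`;
* `t0g`  : the Taubes data without the curvature; `te_g`;
* `cEg`  : the Chern form of the eigenline `P_E(t)` (`TauB_483.Ch0`), `bg` : its connection form;
* `taug` : the Taubes data, `fE_k = 2 q(w_0; e_k, 2π c_E - dβ)`; `tc_g`.
-/

set_option autoImplicit false
set_option maxSynthPendingDepth 3
set_option linter.unusedSectionVars false

open scoped ContDiff ENNReal NNReal Topology Manifold Bundle RealInnerProductSpace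
open MeasureTheory Set Filter Metric Bundle

namespace Crest.Agent.R235.SWGen_53

open Crest.Agent.R240 Crest.Agent.R240.Ch Crest.Agent.R235.SWDefs_53 Crest.Agent.R235.IndTri_451
open Crest.Agent.R249.Tv57 (Dat OpPair SmF Spec SmV)
open Crest.Agent.R249.Vf281 (VSm mCov)
open Crest.Agent.R249.Tz805 (ToF CPair Bun opA)
open Crest.Agent.R249.Tz2_805 (PF)
open Crest.Agent.R249.Wk352 (dat0 dpair swapP)
open Crest.Agent.R235.Ind167
open Crest.Agent.R235.LTw_453 (LD)
open Crest.Agent.R235.SwsL_755 Crest.Agent.R235.SWTn_451 Crest.Agent.R235.Tau483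
open Crest.Agent.R235.QSTri_451 (qs)

noncomputable section

variable {M : Type} [MetricSpace M] [CompactSpace M] [ConnectedSpace M]
  [ChartedSpace (EuclideanSpace ℝ (Fin 4)) M] [IsManifold (𝓡 4) ∞ M]
  [RiemannianBundle (fun p : M => TangentSpace (𝓡 4) p)]
  [IsContMDiffRiemannianBundle (𝓡 4) ∞ (EuclideanSpace ℝ (Fin 4))
    (fun p : M => TangentSpace (𝓡 4) p)]
  [IsRiemannianManifold (𝓡 4) M] [MeasurableSpace M] [BorelSpace M]
  [SecondCountableTopology M] [Nonempty M]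
  {κ : Type} [Fintype κ] {N : ℕ}

variable (T : ToF 4 M) (s : PF 4 M κ) {w : Trip M} {e : Fin 3 → F2 E4 M}
  (tri : IsTri (fun i => (w i).1.1) e)
  (hin : ∀ (x : M) (u v : TangentSpace (𝓡 4) x), inner ℝ u v = at2 (gg e) x u v) (L : LD 4 M N)

/-- **the Seiberg-Witten system**. -/
abbrev Sg : SWS M (Fin 4 × Fin N) (κ × Fin N) κ := SL T (qs tri hin) s L

/-- the symbol (vector fields of `ℝ⁴`). -/
abbrev cg : κ × Fin N → Fin 4 × Fin N → M → EuclideanSpace ℝ (Fin 4) := ccF T (qs tri hin) s L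

/-- the symbol (tangent vectors). -/
abbrev ccg : κ × Fin N → Fin 4 × Fin N → (z : M) → TangentSpace (𝓡 4) z :=
  (TwfL_755.twL (qs tri hin) s L).cc

/-- the connection form of the spinor bundle. -/
abbrev Wg : Fin 4 × Fin N → Fin 4 × Fin N → (z : M) → TangentSpace (𝓡 4) z :=
  (TwfL_755.twL (qs tri hin) s L).D0.W

variable (w e) in
/-- the components of the triple. -/
abbrev wwg : Fin 3 → Fin 3 → M → ℝ := wwf (fun i => ((w i).1.1 : F2 E4 M)) e

theorem sym_g : SWSym_451.Sym (Sg T s tri hin L) (cg T s tri hin L) := sym_L T (qs tri hin) s L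

theorem tg_g : TG (Sg T s tri hin L) T (ccg s tri hin L) (Wg s tri hin L) s.s w e (-1) (-1) :=
  tg_L T s L tri hin



/-! ### the triple -/

include tri in
theorem lt_g : LT (wwg w e) := lt_wwf tri

include tri in
theorem sm_g (i k : Fin 3) : ContMDiff (𝓡 4) 𝓘(ℝ, ℝ) ∞ (wwg w e i k) :=
  cm_wwf (w := fun i => ((w i).1.1 : F2 E4 M)) (fun i => (w i).1.2) tri i k



/-! ### Taubes data -/

/-- the Taubes data without the curvature. -/
def t0g (t : E3) : TD M κ :=
  tauT (Sg T s tri hin L) (cg T s tri hin L) (wwg w e) (fun _ _ _ => 0) t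

open Classical in
/-- the Chern form of the line `E = P_E(t)`. -/
def cEg (t : E3) : Z2 M :=
  if h : ∃ c : Z2 M, Ch0 (PEf (t0g T s tri hin L t) (Sg T s tri hin L)) c then h.choose else 0

/-- the connection form of `E` for `a = 0`. -/
def bg (t : E3) : F1 E4 M :=
  bF (t0g T s tri hin L t) (Sg T s tri hin L) (Wg s tri hin L) s.s e

/-- the self-dual curvature of `E`: `fE_k = 2 q(w_0; e_k, 2π c_E - dβ)`. -/
def fEg (t : E3) (k : Fin 3) (z : M) : ℝ :=
  -2 * (-1) * q (at2 ((w 0).1.1 : F2 E4 M) z) (at2 (e k) z)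
    (Phi (cEg T s tri hin L t) (bg T s tri hin L t) z)

/-- **the Taubes data**. -/
def taug (t : E3) : TD M κ :=
  tauT (Sg T s tri hin L) (cg T s tri hin L) (wwg w e) (fEg T s tri hin L) t






/-! ### the form `w_t` -/



/-! ### the line `E` is isomorphic to `L` -/

/-- `ρ_k` of the untwisted bundle. -/
def rho0 (k : Fin 3) : Matrix (Fin 4) (Fin 4) ℝ :=
  - (Crest.Agent.R249.C2_198.J ℝ 0 * Crest.Agent.R249.C2_198.K ℝ k)

theorem q4 : VIso_470.Q4 (Crest.Agent.R249.C2_198.J ℝ 0) rho0 where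
  skew := TwfL_755.J0_tS
  sq := TwfL_755.J0_sqS
  sym k := by
    ext i j
    rw [Matrix.transpose_apply, rho0, Matrix.neg_apply, Matrix.neg_apply, Matrix.mul_apply,
      Matrix.mul_apply, Fin.sum_univ_four, Fin.sum_univ_four]
    fin_cases k <;> fin_cases i <;> fin_cases j <;>
      simp [Crest.Agent.R249.C2_198.J, Crest.Agent.R249.C2_198.K]
  com k := by
    unfold rho0
    rw [Matrix.mul_neg, Matrix.neg_mul, TwfL_755.J0_KS, ← Matrix.mul_assoc, TwfL_755.J0_KS]
  anti j k := by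
    have h1 : ∀ a b : Fin 3, rho0 a * rho0 b =
        - (Crest.Agent.R249.C2_198.K ℝ a * Crest.Agent.R249.C2_198.K ℝ b) := by
      intro a b
      unfold rho0
      rw [Matrix.neg_mul, Matrix.mul_neg, neg_neg]
      calc Crest.Agent.R249.C2_198.J ℝ 0 * Crest.Agent.R249.C2_198.K ℝ a *
            (Crest.Agent.R249.C2_198.J ℝ 0 * Crest.Agent.R249.C2_198.K ℝ b)
          = Crest.Agent.R249.C2_198.J ℝ 0 * (Crest.Agent.R249.C2_198.K ℝ a *
            Crest.Agent.R249.C2_198.J ℝ 0) * Crest.Agent.R249.C2_198.K ℝ b := by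
            simp only [Matrix.mul_assoc]
        _ = _ := by
            rw [← TwfL_755.J0_KS, ← Matrix.mul_assoc, TwfL_755.J0_sqS, Matrix.neg_mul,
              Matrix.one_mul, Matrix.neg_mul]
    rw [h1, h1]
    ext i l
    rw [Matrix.add_apply, Matrix.neg_apply, Matrix.neg_apply, Matrix.mul_apply, Matrix.mul_apply,
      Fin.sum_univ_four, Fin.sum_univ_four]
    fin_cases j <;> fin_cases k <;> fin_cases i <;> fin_cases l <;>
      simp [Crest.Agent.R249.C2_198.K] <;> norm_num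
  card := rfl

theorem J_rho0 (k : Fin 3) : Crest.Agent.R249.C2_198.J ℝ 0 * rho0 k =
    Crest.Agent.R249.C2_198.K ℝ k := by
  unfold rho0
  rw [Matrix.mul_neg, ← Matrix.mul_assoc, TwfL_755.J0_sqS, Matrix.neg_mul, Matrix.one_mul, neg_neg]

theorem PP_app (n : Fin 3 → ℝ) (a b : Fin 4) : VIso_470.PP rho0 n a b =
    (1 / 2) * ((if a = b then 1 else 0) + ∑ k, n k * rho0 k a b) := by
  unfold VIso_470.PP
  rw [Matrix.smul_apply, Matrix.add_apply, Matrix.sum_apply, Matrix.one_apply]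
  rfl

theorem JPP_app (n : Fin 3 → ℝ) (a b : Fin 4) :
    (Crest.Agent.R249.C2_198.J ℝ 0 * VIso_470.PP rho0 n) a b =
    (1 / 2) * (Crest.Agent.R249.C2_198.J ℝ 0 a b +
      ∑ k, n k * Crest.Agent.R249.C2_198.K ℝ k a b) := by
  unfold VIso_470.PP
  rw [Matrix.mul_smul, Matrix.mul_add, Matrix.mul_one, Matrix.mul_sum, Matrix.smul_apply,
    Matrix.add_apply, Matrix.sum_apply]
  simp only [Matrix.mul_smul, J_rho0]
  rfl

section iso

variable {p : M → Matrix (Fin N) (Fin N) ℂ} (hp : IsLine p)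

theorem P0f_g (t : E3) (z : M) :
    P0f (t0g T s tri hin (LTwLd_774.ldOf p hp) t) (Sg T s tri hin (LTwLd_774.ldOf p hp)) z =
      VIso_470.tw (Crest.Agent.R249.C2_198.J ℝ 0) (p z)
        (VIso_470.PP rho0 (fun k => - nt (wwg w e) t k z)) := by
  ext y y'
  rw [P0f_apply]
  unfold VIso_470.tw
  rw [PP_app, JPP_app]
  have h1 : (Sg T s tri hin (LTwLd_774.ldOf p hp)).D0.p y y' z =
      (if y.1 = y'.1 then 1 else 0) * (p z y.2 y'.2).re +
        Crest.Agent.R249.C2_198.J ℝ 0 y.1 y'.1 * (p z y.2 y'.2).im := rfl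
  have h2 : ∀ k, (Sg T s tri hin (LTwLd_774.ldOf p hp)).rho k y y' z =
      (p z y.2 y'.2).re * rho0 k y.1 y'.1 +
        (p z y.2 y'.2).im * Crest.Agent.R249.C2_198.K ℝ k y.1 y'.1 :=
    fun k => TwfL_755.rho_L (qs tri hin) s (LTwLd_774.ldOf p hp) k y y' z
  have h3 : ∀ k, (t0g T s tri hin (LTwLd_774.ldOf p hp) t).n k z = nt (wwg w e) t k z :=
    fun _ => rfl
  rw [h1]
  simp only [h2, h3, Fin.sum_univ_three]
  ring

theorem JP0f_g (t : E3) (z : M) :
    Jm (Sg T s tri hin (LTwLd_774.ldOf p hp)) z *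
      P0f (t0g T s tri hin (LTwLd_774.ldOf p hp) t) (Sg T s tri hin (LTwLd_774.ldOf p hp)) z =
      VIso_470.tw (Crest.Agent.R249.C2_198.J ℝ 0) (Complex.I • p z)
        (VIso_470.PP rho0 (fun k => - nt (wwg w e) t k z)) := by
  ext y y'
  have hT := TwfL_755.twf_L (qs tri hin) s (LTwLd_774.ldOf p hp)
  have h0 : (Jm (Sg T s tri hin (LTwLd_774.ldOf p hp)) z *
      P0f (t0g T s tri hin (LTwLd_774.ldOf p hp) t) (Sg T s tri hin (LTwLd_774.ldOf p hp)) z) y y' =
      (1 / 2) * (∑ c, (Sg T s tri hin (LTwLd_774.ldOf p hp)).J y c z *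
        (Sg T s tri hin (LTwLd_774.ldOf p hp)).D0.p c y' z - ∑ k, nt (wwg w e) t k z *
        ∑ c, (Sg T s tri hin (LTwLd_774.ldOf p hp)).J y c z *
          (Sg T s tri hin (LTwLd_774.ldOf p hp)).rho k c y' z) := by
    rw [Matrix.mul_apply]
    simp only [P0f_apply]
    have h3 : ∀ k, (t0g T s tri hin (LTwLd_774.ldOf p hp) t).n k z = nt (wwg w e) t k z :=
      fun _ => rfl
    simp only [h3, Fin.sum_univ_three, Finset.mul_sum, ← Finset.sum_add_distrib,
      ← Finset.sum_sub_distrib]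
    refine Finset.sum_congr rfl fun c _ => ?_
    show (Sg T s tri hin (LTwLd_774.ldOf p hp)).J y c z * _ = _
    ring
  have h1 : ∑ c, (Sg T s tri hin (LTwLd_774.ldOf p hp)).J y c z *
      (Sg T s tri hin (LTwLd_774.ldOf p hp)).D0.p c y' z =
      (if y.1 = y'.1 then 1 else 0) * (- (p z y.2 y'.2).im) +
        Crest.Agent.R249.C2_198.J ℝ 0 y.1 y'.1 * (p z y.2 y'.2).re := hT.J_p z y y'
  have h2 : ∀ k, ∑ c, (Sg T s tri hin (LTwLd_774.ldOf p hp)).J y c z *
      (Sg T s tri hin (LTwLd_774.ldOf p hp)).rho k c y' z =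
      (p z y.2 y'.2).re * Crest.Agent.R249.C2_198.K ℝ k y.1 y'.1 + (p z y.2 y'.2).im *
        (Crest.Agent.R249.C2_198.J ℝ 0 * Crest.Agent.R249.C2_198.K ℝ k) y.1 y'.1 :=
    fun k => hT.J_rho z k y y'
  rw [h0, h1]
  simp only [h2]
  unfold VIso_470.tw
  rw [PP_app, JPP_app]
  simp only [Fin.sum_univ_three, rho0, Matrix.neg_apply, Matrix.smul_apply, smul_eq_mul,
    Complex.mul_re, Complex.mul_im, Complex.I_re, Complex.I_im]
  ring

/-- the line `E` in the form of `VIso_470`. -/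
theorem PEf_g (t : E3) (z : M) :
    PEf (t0g T s tri hin (LTwLd_774.ldOf p hp) t) (Sg T s tri hin (LTwLd_774.ldOf p hp)) z =
      Matrix.of (VIso_470.PE (Crest.Agent.R249.C2_198.J ℝ 0) (p z)
        (VIso_470.PP rho0 (fun k => - nt (wwg w e) t k z))) := by
  have h1 := P0f_g T s tri hin hp t z
  have h2 := JP0f_g T s tri hin hp t z
  ext y y'
  show (1 / 2 : ℂ) * (((P0f (t0g T s tri hin (LTwLd_774.ldOf p hp) t)
    (Sg T s tri hin (LTwLd_774.ldOf p hp)) z y y' : ℝ) : ℂ) -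
      Complex.I * (((Jm (Sg T s tri hin (LTwLd_774.ldOf p hp)) z *
        P0f (t0g T s tri hin (LTwLd_774.ldOf p hp) t)
          (Sg T s tri hin (LTwLd_774.ldOf p hp)) z) y y' : ℝ) : ℂ)) = _
  rw [h2, h1]
  rfl

/-- **the isometry `V : L → E`**. -/
theorem exists_Vg {t : E3} (ht : t ≠ 0) :
    ∃ V : M → Matrix (Fin 4 × Fin N) (Fin N) ℂ,
      (∀ y l, ContMDiff 𝓘(ℝ, E4) 𝓘(ℝ, ℂ) ∞ (fun z => V z y l)) ∧
      (∀ z, (V z).conjTranspose * V z = p z) ∧
      (∀ z, V z * (V z).conjTranspose =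
        PEf (t0g T s tri hin (LTwLd_774.ldOf p hp) t) (Sg T s tri hin (LTwLd_774.ldOf p hp)) z) ∧
      ∀ z, V z * p z = V z := by
  have hlt := lt_g (w := w) (e := e) tri
  obtain ⟨k0, σ, hσ, hs⟩ := VIso_470.exists_sign (M := M) (ww := wwg w e)
    (fun i => (sm_g tri i i).continuous) (fun i z => hlt.diag i z) (fun i j z h => hlt.lt i j z h)
    (t := fun i => t i) (fun h => ht (by ext i; exact congrFun h i)) (rr := rrt (wwg w e) t)
    (fun z => hlt.pos ht z) (n := nt (wwg w e) t) (fun k z => hlt.mul_nt ht k z)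
  obtain ⟨V, h1, h2, h3, h4⟩ := VIso_470.exists_V q4 hp (n := fun k z => - nt (wwg w e) t k z)
    (fun k => (smooth_nt hlt (sm_g tri) ht k).neg)
    (fun z => by simpa using hlt.norm_nt ht z) k0 (s := -σ) (by rw [neg_sq, hσ])
    (fun z => by have := hs z; nlinarith)
  exact ⟨V, h1, h2, fun z => (h3 z).trans (PEf_g T s tri hin hp t z).symm, h4⟩

/-- the Chern form is unique. -/
theorem ch0_unique {ι : Type*} [Fintype ι] {P : M → Matrix ι ι ℂ} {c c' : Z2 M} (h : Ch0 P c)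
    (h' : Ch0 P c') : c = c' := by
  have h1 : ∀ x, val c x = val c' x := by
    intro x
    apply ContinuousLinearMap.ext
    intro u
    apply ContinuousLinearMap.ext
    intro v
    exact (h x u v).trans (h' x u v).symm
  apply Subtype.ext
  apply Subtype.ext
  funext x
  exact h1 x

variable [IsFiniteMeasureOnCompacts (μHE[4] : Measure M)]
  (hS : (Sg T s tri hin (LTwLd_774.ldOf p hp)).OK) {a : Z2 M} (hc : IsChern p a)

include hS in
theorem ln_g {t : E3} (ht : t ≠ 0) :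
    Ln (PEf (taug T s tri hin (LTwLd_774.ldOf p hp) t) (Sg T s tri hin (LTwLd_774.ldOf p hp))) :=
  ln_PEf hS (tg_g T s tri hin (LTwLd_774.ldOf p hp)) (fun k => smooth_nt (lt_g tri) (sm_g tri) ht k)
    ((lt_g tri).norm_nt ht)

include hS hc in
/-- **the Chern form of `E` and its class.** -/
theorem ch_g {t : E3} (ht : t ≠ 0) :
    Ch0 (PEf (taug T s tri hin (LTwLd_774.ldOf p hp) t) (Sg T s tri hin (LTwLd_774.ldOf p hp)))
      (cEg T s tri hin (LTwLd_774.ldOf p hp) t) ∧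
    cls (cEg T s tri hin (LTwLd_774.ldOf p hp) t) = cls a := by
  obtain ⟨V, h1, h2, h3, -⟩ := exists_Vg T s tri hin hp ht
  obtain ⟨c', hc', hcl⟩ := TauIso.iso_chern (ln_of hp) (ln_g T s tri hin hp hS ht) (ch0_of hc)
    (V := V) (fun i j => h1 i j) h2 h3
  have hex : ∃ c : Z2 M, Ch0 (PEf (t0g T s tri hin (LTwLd_774.ldOf p hp) t)
    (Sg T s tri hin (LTwLd_774.ldOf p hp))) c := ⟨c', hc'⟩
  have h4 : cEg T s tri hin (LTwLd_774.ldOf p hp) t = hex.choose := by
    unfold cEg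
    rw [dif_pos hex]
  have h5 : cEg T s tri hin (LTwLd_774.ldOf p hp) t = c' := by
    rw [h4]
    exact ch0_unique hex.choose_spec hc'
  rw [h5]
  exact ⟨hc', hcl⟩


end iso

end

end Crest.Agent.R235.SWGen_53
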