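import Mathlib
import Crest.Agent.R235.FB8_365
import Crest.Agent.R235.FDADef_365
import Crest.Agent.R235.FB4_365
import Crest.Agent.R235.GalA_755
import Crest.Agent.R224.T.Class_Mg
import Crest.Agent.R224.T.Fill_Mg
import Crest.Agent.R224.T.Prism_Mg
import Crest.Agent.R224.T.Sub
import Crest.Agent.R224.T.T2
import Crest.Agent.R235.FB6_365
import Crest.Agent.R235.Defs_837

-- ▼ part R235/FB9_365
section

/-!
Row 235 (S0364), package FD-A (helper365), block B4, part 9: the end of the homotopy is an open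
embedding with a zero.
-/

set_option autoImplicit false
set_option linter.unusedSectionVars false

open Topology Set Module

namespace Crest.Agent.R235.FB9_365

open FDADef_365 Bet_785 FdB1_435 FB1_365 FB2_365 FB3_365 FB4_365 FB7_365 FB8_365

variable {b : ℕ} {A P Ya Yp : Type} [NormedAddCommGroup A] [NormedSpace ℝ A]
    [CompleteSpace A] [NormedAddCommGroup P] [NormedSpace ℝ P] [CompleteSpace P]
    [NormedAddCommGroup Ya] [InnerProductSpace ℝ Ya] [CompleteSpace Ya]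
    [NormedAddCommGroup Yp] [InnerProductSpace ℝ Yp] [CompleteSpace Yp]

variable {S : SWData b A P Ya Yp} {N : ℕ} {y : Fin N → Yp} {Fa : Submodule ℝ Ya}

/-- the linear model -/
abbrev M0 (S : SWData b A P Ya Yp) (y : Fin N → Yp) (Fa : Submodule ℝ Ya) : Type :=
  (Fin b → ℝ) × LinearMap.ker (LL S y (VA S Fa) S.h₀ : EF S Fa N →ₗ[ℝ] Yp)

theorem LL_eq {h : Fin b → ℝ} (hh : ‖h - S.h₀‖ ≤ 1 / 8) (v : EF S Fa N) :
    LL S y (VA S Fa) h v = LL S y (VA S Fa) S.h₀ v := by
  have h0 : ‖S.h₀ - S.h₀‖ ≤ 1 / 8 := by rw [sub_self, norm_zero]; norm_num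
  rw [LL_apply, LL_apply, Lh_eq S cut_th (th_plateau hh), Lh_eq S cut_th (th_plateau h0),
    sum_sec S y hh, sum_sec S y h0]

/-- the data of a point of the model -/
def vb (q : M0 S y Fa) : (Fin b → ℝ) × A × P :=
  (q.1, (((q.2 : EF S Fa N).1 : VA S Fa) : A), (q.2 : EF S Fa N).2.1)

/-- the auxiliary variables of a point of the model -/
def vz (q : M0 S y Fa) : J N b → ℝ := (q.2 : EF S Fa N).2.2

theorem vb_add (q q' : M0 S y Fa) : vb (q + q') = vb q + vb q' := rfl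
theorem vb_smul (c : ℝ) (q : M0 S y Fa) : vb (c • q) = c • vb q := rfl
theorem vz_add (q q' : M0 S y Fa) : vz (q + q') = vz q + vz q' := rfl
theorem vz_smul (c : ℝ) (q : M0 S y Fa) : vz (c • q) = c • vz q := rfl

theorem vb_cont : Continuous (vb : M0 S y Fa → _) := by
  unfold vb
  fun_prop

theorem constr0 (q : M0 S y Fa) : S.Lp (vb q).2.2 = ∑ i, vz q (i, z0) • y i := by
  have h0 : ‖S.h₀ - S.h₀‖ ≤ 1 / 8 := by rw [sub_self, norm_zero]; norm_num
  have h1 : LL S y (VA S Fa) S.h₀ (q.2 : EF S Fa N) = 0 := q.2.2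
  rw [LL_apply, sub_eq_zero, Lh_eq S cut_th (th_plateau h0), sum_sec S y h0] at h1
  exact h1

variable [FiniteDimensional ℝ Fa]

/-- the linear map -/
noncomputable def VL (Ca : (Fin b → ℝ) × A × P →L[ℝ] Ya)
    (Cp : (Fin b → ℝ) × A × P →L[ℝ] Yp) (Dρ : (Fin b → ℝ) × A × P →L[ℝ] ℝ) :
    M0 S y Fa →ₗ[ℝ] TT Fa N b where
  toFun q := ((⟨S.La (vb q).2.1, (q.2 : EF S Fa N).1.2⟩ : Fa) +
    Fa.orthogonalProjectionOnto (Ca (vb q)), vz q + cf y (Cp (vb q)), Dρ (vb q))
  map_add' q q' := by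
    refine Prod.ext ?_ (Prod.ext ?_ ?_)
    · apply Subtype.ext
      show S.La (vb (q + q')).2.1 + (Fa.orthogonalProjectionOnto (Ca (vb (q + q'))) : Ya) =
        (S.La (vb q).2.1 + (Fa.orthogonalProjectionOnto (Ca (vb q)) : Ya)) +
        (S.La (vb q').2.1 + (Fa.orthogonalProjectionOnto (Ca (vb q')) : Ya))
      rw [vb_add, map_add Ca, map_add, Submodule.coe_add]
      show S.La ((vb q).2.1 + (vb q').2.1) + _ = _
      rw [map_add]
      abel
    · show vz (q + q') + cf y (Cp (vb (q + q'))) =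
        (vz q + cf y (Cp (vb q))) + (vz q' + cf y (Cp (vb q')))
      rw [vb_add, vz_add, map_add, cf_add]
      abel
    · show Dρ (vb (q + q')) = Dρ (vb q) + Dρ (vb q')
      rw [vb_add, map_add]
  map_smul' c q := by
    refine Prod.ext ?_ (Prod.ext ?_ ?_)
    · apply Subtype.ext
      show S.La (vb (c • q)).2.1 + (Fa.orthogonalProjectionOnto (Ca (vb (c • q))) : Ya) =
        c • (S.La (vb q).2.1 + (Fa.orthogonalProjectionOnto (Ca (vb q)) : Ya))
      rw [vb_smul, map_smul Ca, map_smul, Submodule.coe_smul]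
      show S.La (c • (vb q).2.1) + _ = _
      rw [map_smul, smul_add]
    · show vz (c • q) + cf y (Cp (vb (c • q))) = c • (vz q + cf y (Cp (vb q)))
      rw [vb_smul, vz_smul, map_smul, cf_smul, smul_add]
    · show Dρ (vb (c • q)) = c • Dρ (vb q)
      rw [vb_smul, map_smul]

variable {R' C δ : ℝ} {Ca : (Fin b → ℝ) × A × P →L[ℝ] Ya}
    {Cp : (Fin b → ℝ) × A × P →L[ℝ] Yp} {Dρ : (Fin b → ℝ) × A × P →L[ℝ] ℝ}

theorem VL_inj (G : Good S y Fa R' C δ Ca Cp Dρ) :
    Function.Injective (VL Ca Cp Dρ : M0 S y Fa →ₗ[ℝ] TT Fa N b) := by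
  rw [injective_iff_map_eq_zero]
  intro q hq
  have h1 : (⟨S.La (vb q).2.1, (q.2 : EF S Fa N).1.2⟩ : Fa) +
    Fa.orthogonalProjectionOnto (Ca (vb q)) = 0 := congrArg Prod.fst hq
  have h2 : vz q + cf y (Cp (vb q)) = 0 := congrArg (fun v : TT Fa N b => v.2.1) hq
  have h3 : Dρ (vb q) = 0 := congrArg (fun v : TT Fa N b => v.2.2) hq
  have h4 : vz q = - cf y (Cp (vb q)) := eq_neg_of_add_eq_zero_left h2
  have h5 : vb q = 0 := by
    refine G.lin (vb q) (congrArg Subtype.val h1) ?_ h3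
    rw [constr0, h4, ← sum_cf (b := b) y]
    simp
  rw [h5, map_zero] at h4
  have h6 : vz q = 0 := by
    rw [h4]
    funext j
    simp [cf]
  refine Prod.ext (congrArg (fun p : (Fin b → ℝ) × A × P => p.1) h5) (Subtype.ext
    (Prod.ext (Subtype.ext ?_) (Prod.ext ?_ h6)))
  · exact congrArg (fun p : (Fin b → ℝ) × A × P => p.2.1) h5
  · exact congrArg (fun p : (Fin b → ℝ) × A × P => p.2.2) h5

/-- the constant part -/
noncomputable def kap (S : SWData b A P Ya Yp) (y : Fin N → Yp) (Fa : Submodule ℝ Ya)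
    [FiniteDimensional ℝ Fa] (Ca : (Fin b → ℝ) × A × P →L[ℝ] Ya)
    (Cp : (Fin b → ℝ) × A × P →L[ℝ] Yp) (Dρ : (Fin b → ℝ) × A × P →L[ℝ] ℝ) : TT Fa N b :=
  (Fa.orthogonalProjectionOnto (S.Ka (p0 S) - Ca (p0 S)), cf y (S.Kp (p0 S) - Cp (p0 S)),
    -Dρ (p0 S))

/-- the region of the linear model -/
def U0 (S : SWData b A P Ya Yp) (y : Fin N → Yp) (Fa : Submodule ℝ Ya) (δ : ℝ) :
    Set (M0 S y Fa) := {q | ‖vb q - p0 S‖ < δ}

theorem isOpen_U0 : IsOpen (U0 S y Fa δ) :=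
  isOpen_lt (vb_cont.sub continuous_const).norm continuous_const

theorem fst_le {q : M0 S y Fa} (hδ : δ ≤ 1 / 8) (hq : q ∈ U0 S y Fa δ) :
    ‖q.1 - S.h₀‖ ≤ 1 / 8 := by
  have h1 : ‖(vb q - p0 S).1‖ ≤ ‖vb q - p0 S‖ := norm_fst_le _
  have h2 : (vb q - p0 S).1 = q.1 - S.h₀ := rfl
  have h3 : ‖vb q - p0 S‖ < δ := hq
  rw [h2] at h1
  linarith

/-- the point of the total space -/
def ofM (hδ : δ ≤ 1 / 8) (q : U0 S y Fa δ) : Tot S y Fa :=
  ⟨(q.1.1, (q.1.2 : EF S Fa N)), by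
    have h1 : LL S y (VA S Fa) S.h₀ (q.1.2 : EF S Fa N) = 0 := q.1.2.2
    show LL S y (VA S Fa) q.1.1 (q.1.2 : EF S Fa N) = 0
    rw [LL_eq (fst_le hδ q.2)]
    exact h1⟩

/-- the point of the model -/
def toM (hδ : δ ≤ 1 / 8) (x : Tot S y Fa) (hx : ‖bas x - p0 S‖ < δ) : M0 S y Fa :=
  (x.1.1, ⟨x.1.2, by
    have h1 := x.2
    have h2 : ‖x.1.1 - S.h₀‖ ≤ 1 / 8 := norm_bas hδ hx
    rw [LL_eq h2] at h1
    exact h1⟩)

/-- the end of the homotopy is affine -/
theorem HT_one (hδ : δ ≤ 1 / 8) (x : Tot S y Fa) (hx : ‖bas x - p0 S‖ < δ) :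
    HT Ca Cp Dρ x 1 = VL Ca Cp Dρ (toM hδ x hx) + kap S y Fa Ca Cp Dρ := by
  unfold HT KaS KpS rS
  simp only [sub_self, zero_smul, one_smul, zero_add, zero_mul, one_mul]
  refine Prod.ext ?_ (Prod.ext ?_ ?_)
  · apply Subtype.ext
    show S.La (bas x).2.1 + (Fa.orthogonalProjectionOnto (S.Ka (p0 S) + Ca (bas x - p0 S)) : Ya) =
      (S.La (bas x).2.1 + (Fa.orthogonalProjectionOnto (Ca (bas x)) : Ya)) +
        (Fa.orthogonalProjectionOnto (S.Ka (p0 S) - Ca (p0 S)) : Ya)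
    rw [add_assoc, ← Submodule.coe_add, ← map_add, map_sub]
    congr 3
    abel
  · show zz x + cf y (S.Kp (p0 S) + Cp (bas x - p0 S)) =
      (zz x + cf y (Cp (bas x))) + cf y (S.Kp (p0 S) - Cp (p0 S))
    rw [add_assoc, ← cf_add, map_sub]
    congr 2
    abel
  · show Dρ (bas x - p0 S) = Dρ (bas x) + -Dρ (p0 S)
    rw [map_sub]
    abel

/-- the homeomorphism of the neighbourhood with the region of the linear model -/
def homeo (G : Good S y Fa R' C δ Ca Cp Dρ) :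
    {x : Xo S y Fa R' | ‖bas x.1 - p0 S‖ < δ} ≃ₜ U0 S y Fa δ where
  toFun x := ⟨toM G.δ8 x.1.1 x.2, x.2⟩
  invFun q := ⟨⟨ofM G.δ8 q, W_mem_Xo G (x := ofM G.δ8 q) q.2⟩, q.2⟩
  left_inv x := rfl
  right_inv q := rfl
  continuous_toFun := by
    refine Continuous.subtype_mk ?_ _
    unfold toM
    refine Continuous.prodMk (by fun_prop) (Continuous.subtype_mk (by fun_prop) _)
  continuous_invFun := by
    refine Continuous.subtype_mk (Continuous.subtype_mk ?_ _) _
    unfold ofM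
    exact Continuous.subtype_mk (by fun_prop) _

/-- the end of the homotopy is an open embedding with a zero -/
theorem HT_emb (G : Good S y Fa R' C δ Ca Cp Dρ)
    (hf : FiniteDimensional ℝ (LinearMap.ker (LL S y (VA S Fa) S.h₀ : EF S Fa N →ₗ[ℝ] Yp)))
    (hdim : finrank ℝ (M0 S y Fa) = finrank ℝ (TT Fa N b)) :
    IsOpenEmbedding ({x : Xo S y Fa R' | ‖bas x.1 - p0 S‖ < δ}.domRestrict
      fun x => HT Ca Cp Dρ x.1 1) ∧
    ∃ x : Xo S y Fa R', ‖bas x.1 - p0 S‖ < δ ∧ HT Ca Cp Dρ x.1 1 = 0 := by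
  let e : M0 S y Fa ≃ₗ[ℝ] TT Fa N b := (VL Ca Cp Dρ).linearEquivOfInjective (VL_inj G) hdim
  let e' : M0 S y Fa ≃L[ℝ] TT Fa N b := e.toContinuousLinearEquiv
  have he : ∀ q, e' q = VL Ca Cp Dρ q := fun q => rfl
  constructor
  · have h1 : IsOpenEmbedding fun v : TT Fa N b => v + kap S y Fa Ca Cp Dρ :=
      (Homeomorph.addRight (kap S y Fa Ca Cp Dρ)).isOpenEmbedding
    have h2 := h1.comp (e'.toHomeomorph.isOpenEmbedding.comp
      ((isOpen_U0 (S := S) (y := y) (Fa := Fa) (δ := δ)).isOpenEmbedding_subtypeVal.comp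
        (homeo G).isOpenEmbedding))
    convert h2 using 1
    funext x
    exact HT_one G.δ8 x.1.1 x.2
  · set q : M0 S y Fa := e'.symm (-kap S y Fa Ca Cp Dρ) with hq
    have hq1 : VL Ca Cp Dρ q + kap S y Fa Ca Cp Dρ = 0 := by
      rw [← he, hq, e'.apply_symm_apply, neg_add_cancel]
    have k1 : (⟨S.La (vb q).2.1, (q.2 : EF S Fa N).1.2⟩ : Fa) +
      Fa.orthogonalProjectionOnto (Ca (vb q)) +
        Fa.orthogonalProjectionOnto (S.Ka (p0 S) - Ca (p0 S)) = 0 := congrArg Prod.fst hq1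
    have k2 : vz q + cf y (Cp (vb q)) + cf y (S.Kp (p0 S) - Cp (p0 S)) = 0 :=
      congrArg (fun v : TT Fa N b => v.2.1) hq1
    have k3 : Dρ (vb q) + -Dρ (p0 S) = 0 := congrArg (fun v : TT Fa N b => v.2.2) hq1
    have hδq : q ∈ U0 S y Fa δ := by
      refine G.aff (vb q) ?_ ?_ ?_
      · have h1 := congrArg Subtype.val k1
        have h2 : S.La (vb q).2.1 + (Fa.orthogonalProjectionOnto (Ca (vb q)) : Ya) +
          (Fa.orthogonalProjectionOnto (S.Ka (p0 S) - Ca (p0 S)) : Ya) = 0 := h1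
        rw [add_assoc, ← Submodule.coe_add, ← map_add] at h2
        have h3 : S.Ka (p0 S) + Ca (vb q - p0 S) = Ca (vb q) + (S.Ka (p0 S) - Ca (p0 S)) := by
          rw [map_sub]
          abel
        rw [h3]
        exact h2
      · have h3 : S.Kp (p0 S) + Cp (vb q - p0 S) = Cp (vb q) + (S.Kp (p0 S) - Cp (p0 S)) := by
          rw [map_sub]
          abel
        rw [add_assoc, ← cf_add] at k2
        have h4 := eq_neg_of_add_eq_zero_left k2
        rw [h3, constr0, h4, ← sum_cf (b := b) y]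
        simp
      · rw [map_sub]
        linarith
    have hx0 := ((homeo G).symm ⟨q, hδq⟩).2
    refine ⟨((homeo G).symm ⟨q, hδq⟩).1, hx0, ?_⟩
    have h6 := HT_one (Ca := Ca) (Cp := Cp) (Dρ := Dρ) G.δ8
      (((homeo G).symm ⟨q, hδq⟩).1.1) hx0
    rw [h6]
    exact hq1

end Crest.Agent.R235.FB9_365
end

-- ▼ part R235/FB10_365
section

/-!
Row 235 (S0364), package FD-A (helper365), block B4, part 10: `Good` data are contradictory.
-/

set_option autoImplicit false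
set_option linter.unusedSectionVars false

open Topology Set Module

namespace Crest.Agent.R235.FB10_365

open FDADef_365 Bet_785 FdB1_435 FB1_365 FB2_365 FB3_365 FB4_365 FB6_365 FB7_365 FB8_365 FB9_365

variable {b : ℕ} {A P Ya Yp : Type} [NormedAddCommGroup A] [NormedSpace ℝ A]
    [CompleteSpace A] [NormedAddCommGroup P] [NormedSpace ℝ P] [CompleteSpace P]
    [NormedAddCommGroup Ya] [InnerProductSpace ℝ Ya] [CompleteSpace Ya]
    [NormedAddCommGroup Yp] [InnerProductSpace ℝ Yp] [CompleteSpace Yp]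

variable {S : SWData b A P Ya Yp} {N : ℕ} {y : Fin N → Yp} {Fa : Submodule ℝ Ya}

/-- dimensions of the fibres -/
theorem dims [FiniteDimensional ℝ Fa] (hFa : (LinearMap.range (S.La : A →ₗ[ℝ] Ya))ᗮ ≤ Fa)
    (hs : ∀ h, Function.Surjective (LL S y (VA S Fa) h)) (h : Fin b → ℝ) :
    FiniteDimensional ℝ (LinearMap.ker (LL S y (VA S Fa) h : EF S Fa N →ₗ[ℝ] Yp)) ∧
    b + finrank ℝ (LinearMap.ker (LL S y (VA S Fa) h : EF S Fa N →ₗ[ℝ] Yp)) =
      finrank ℝ Fa + N * 2 ^ b + 1 := by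
  obtain ⟨h1, h2⟩ := dimA S.La S.fredA Fa hFa
  let e : EF S Fa N ≃ₗ[ℝ] P × (VA S Fa × (J N b → ℝ)) :=
    { toFun := fun v => (v.2.1, (v.1, v.2.2))
      map_add' := fun v w => rfl
      map_smul' := fun c v => rfl
      invFun := fun v => (v.2.1, (v.1, v.2.2))
      left_inv := fun v => rfl
      right_inv := fun v => rfl }
  let s : (VA S Fa × (J N b → ℝ)) →ₗ[ℝ] Yp :=
    (∑ j, (LinearMap.proj (R := ℝ) (φ := fun _ : J N b => ℝ) j).smulRight (sec S y j h)) ∘ₗ
      LinearMap.snd ℝ (VA S Fa) (J N b → ℝ)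
  have hsv : ∀ v, s v = ∑ j, v.2 j • sec S y j h := by
    intro v
    simp [s]
  obtain ⟨h3, h4⟩ := dimP (Lh S (th b) h) (Lh_fred S cut_th h) e s
    (LL S y (VA S Fa) h : EF S Fa N →ₗ[ℝ] Yp) (fun x => by
      rw [hsv]
      exact LL_apply S y (VA S Fa) h x) (hs h)
  refine ⟨h3, ?_⟩
  have h5 : finrank ℝ (VA S Fa × (J N b → ℝ)) = finrank ℝ (VA S Fa) + N * 2 ^ b := by
    rw [finrank_prod, finrank_pi]
    simp
  rw [h5, Lh_ind S cut_th h] at h4
  have h6 := S.index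
  push_cast at h4
  have h7 : (finrank ℝ (VA S Fa) : ℤ) = ind S.La + finrank ℝ Fa := h2
  have h8 : ((b + finrank ℝ (LinearMap.ker (LL S y (VA S Fa) h : EF S Fa N →ₗ[ℝ] Yp)) : ℕ) : ℤ) =
      ((finrank ℝ Fa + N * 2 ^ b + 1 : ℕ) : ℤ) := by
    push_cast
    rw [h4, h7]
    linarith
  exact_mod_cast h8

/-- the direction of `ρ` -/
def ee (Fa : Submodule ℝ Ya) (N b : ℕ) : TT Fa N b := (0, 0, 1)

theorem ray {Fa : Submodule ℝ Ya} {v : TT Fa N b} {s : ℝ} (hs : 0 ≤ s) (h : v = -(s • ee Fa N b)) :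
    v.1 = 0 ∧ v.2.1 = 0 ∧ v.2.2 ≤ 0 := by
  subst h
  unfold ee
  simp [hs]

variable [FiniteDimensional ℝ Fa] {R' C δ : ℝ} {Ca : (Fin b → ℝ) × A × P →L[ℝ] Ya}
    {Cp : (Fin b → ℝ) × A × P →L[ℝ] Yp} {Dρ : (Fin b → ℝ) × A × P →L[ℝ] ℝ}

theorem bot (G : Good S y Fa R' C δ Ca Cp Dρ) (hQL : QL) (hT : FDTOP) : False := by
  have hs : ∀ h, Function.Surjective (LL S y (VA S Fa) h) := LL_surj S y (VA S Fa) G.compl
  have hf := fun h => (dims (S := S) (y := y) G.Fa_ge hs h).1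
  have hk := fun h => (dims (S := S) (y := y) G.Fa_ge hs h).2
  have : CompleteSpace (VA S Fa) := (isClosed_VA S Fa).completeSpace_coe
  set k := finrank ℝ (LinearMap.ker (LL S y (VA S Fa) S.h₀ : EF S Fa N →ₗ[ℝ] Yp)) with hkd
  have hk' : ∀ h, finrank ℝ (LinearMap.ker (LL S y (VA S Fa) h : EF S Fa N →ₗ[ℝ] Yp)) = k := by
    intro h
    have h1 := hk h
    have h2 := hk S.h₀
    omega
  obtain ⟨cs⟩ := Tot_435.chartedSpace (LL_cont S y (VA S Fa)) hs hf hk'
  set d : ℕ := finrank ℝ Fa + N * 2 ^ b with hd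
  have hbk : b + k = d + 1 := hk S.h₀
  rw [hbk] at cs
  have hd1 : 1 ≤ d := by
    have h1 : 0 < N * 2 ^ b := Nat.mul_pos G.hN (by positivity)
    omega
  have hTT : finrank ℝ (TT Fa N b) = d + 1 := by
    rw [finrank_prod, finrank_prod, finrank_pi, finrank_self]
    simp [hd]
    ring
  have hM0 : finrank ℝ (M0 S y Fa) = finrank ℝ (TT Fa N b) := by
    rw [hTT, finrank_prod, finrank_pi, ← hbk]
    simp [hkd]
  obtain ⟨M, hM⟩ := exists_M (S := S) (y := y) G
  obtain ⟨hemb, hzero⟩ := HT_emb G (hf S.h₀) hM0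
  let act : (Fin b → ℤ) → Xo S y Fa R' → Xo S y Fa R' := fun m x => ⟨actT m x.1, act_mem x.2 m⟩
  let ιX : Xo S y Fa R' → Xo S y Fa R' := fun x => ⟨iT x.1, iT_mem x.2⟩
  have hU : ∀ {x : Tot S y Fa} {m : Fin b → ℤ}, ‖(bas x).1 - S.h₀‖ < δ →
      ‖(bas x).1 + lat m - S.h₀‖ < δ → m = 0 := by
    intro x m h1 h2
    have h3 : ‖lat m‖ < 1 := by
      have e1 : lat m = ((bas x).1 + lat m - S.h₀) - ((bas x).1 - S.h₀) := by abel
      rw [e1]
      refine lt_of_le_of_lt (norm_sub_le _ _) ?_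
      have := G.δ8
      linarith
    funext i
    have h4 : |(m i : ℝ)| < 1 := lt_of_le_of_lt (norm_le_pi_norm (lat m) i) h3
    have h5 : |m i| < 1 := by exact_mod_cast h4
    exact Int.abs_lt_one_iff.1 h5
  have hn1 : ∀ {x : Tot S y Fa}, ‖bas x - p0 S‖ < δ → ‖(bas x).1 - S.h₀‖ < δ := fun {x} hx =>
    lt_of_le_of_lt (norm_fst_le (bas x - p0 S)) hx
  have hn3 : ∀ {x : Tot S y Fa}, ‖bas x - p0 S‖ < δ → ‖(bas x).2.2 - S.ψ₀‖ < δ := fun {x} hx =>
    lt_of_le_of_lt ((norm_snd_le (bas x - p0 S).2).trans (norm_snd_le (bas x - p0 S))) hx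
  refine fdtop_lat (X := Xo S y Fa R') (T := TT Fa N b) hQL hT hd1 hTT act
    (fun x => (bas x.1).1) ?_ ?_ ?_ ?_ ?_ ιX ?_ ?_ ?_ ?_ ?_ (tau Fa N b) (ee Fa N b)
    (fun x => FT x.1) ?_ ?_ ?_ ?_ ?_ ?_ {x | x.1 ∈ T0 S y Fa (C * R')} ?_ ?_
    {x | ‖bas x.1 - p0 S‖ < δ} {x | x.1 ∈ K1 S y Fa δ M} ?_ ?_ ?_ ?_ ?_ ?_
    (fun x s => HT Ca Cp Dρ x.1 s) ?_ ?_ ?_ hemb ?_
  · exact fun m => ((actT_cont m).comp continuous_subtype_val).subtype_mk _
  · exact fun x => Subtype.ext (actT_zero x.1)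
  · exact fun m m' x => Subtype.ext (actT_add m m' x.1)
  · exact continuous_fst.comp (bas_cont.comp continuous_subtype_val)
  · exact fun m x => rfl
  · exact (iT_cont.comp continuous_subtype_val).subtype_mk _
  · exact fun x => Subtype.ext (iT_iT x.1)
  · exact fun x h => iT_ne x.2 (congrArg Subtype.val h)
  · exact fun m x => Subtype.ext (iT_act m x.1)
  · exact fun x => rfl
  · intro v
    rw [tau_apply, tau_apply]
    simp
  · unfold ee
    rw [tau_apply]
    simp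
  · unfold ee
    simp
  · exact FT_cont.comp continuous_subtype_val
  · exact fun x => FT_iT x.1
  · exact fun m x => FT_act m x.1
  · rw [Subtype.isCompact_iff]
    convert isCompact_T0 (S := S) (y := y) (Fa := Fa) hs hf (C * R') using 1
    ext x
    constructor
    · rintro ⟨x, hx, rfl⟩
      exact hx
    · intro hx
      exact ⟨⟨x, T0_sub G hx⟩, hx, rfl⟩
  · rintro x ⟨s, hs0, hx⟩
    obtain ⟨r1, r2, r3⟩ := ray hs0 hx
    exact exists_T0 G x.2 r1 r2 r3
  · exact isOpen_lt ((bas_cont.comp continuous_subtype_val).sub continuous_const).norm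
      continuous_const
  · intro x hx m hm
    exact hU (hn1 hx) (hn1 hm)
  · intro x hx m hm
    have h1 : m = 0 := hU (x := x.1) (hn1 hx) (hn1 (x := actT m (iT x.1)) hm)
    subst h1
    have h2 : ‖bas (actT 0 (iT x.1)) - p0 S‖ < δ := hm
    rw [actT_zero] at h2
    have h3 := hn3 hx
    have h4 := hn3 h2
    rw [bas_iT] at h4
    have h5 : ‖(bas x.1).2.2 - S.ψ₀‖ < δ := h3
    have h6 : ‖-(bas x.1).2.2 - S.ψ₀‖ < δ := h4
    have h7 : ‖(2 : ℝ) • S.ψ₀‖ < 2 * δ := by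
      have e1 : (2 : ℝ) • S.ψ₀ = -(((bas x.1).2.2 - S.ψ₀) + (-(bas x.1).2.2 - S.ψ₀)) := by
        rw [two_smul]
        abel
      rw [e1, norm_neg]
      refine lt_of_le_of_lt (norm_add_le _ _) ?_
      linarith
    rw [norm_smul, Real.norm_of_nonneg (by norm_num : (0 : ℝ) ≤ 2)] at h7
    have h8 := G.δψ
    have h9 := norm_nonneg S.ψ₀
    linarith
  · intro x hx
    have r1 : (FT x.1).1 = 0 := by rw [hx]; rfl
    have r2 : (FT x.1).2.1 = 0 := by rw [hx]; rfl
    have r3 : (FT x.1).2.2 = 0 := by rw [hx]; rfl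
    obtain ⟨n, hn⟩ := exists_T0 G x.2 r1 r2 r3.le
    obtain ⟨-, -, -, h4⟩ := T0_near G hn
    obtain ⟨m, e1, e2, e3⟩ := h4 (by rw [FT_act]; exact r3)
    refine ⟨m + n, ?_⟩
    rcases e3 with e3 | e3
    · left
      show ‖bas (actT (m + n) x.1) - p0 S‖ < δ
      rw [actT_add, bas_act]
      rw [Prod.norm_def, Prod.norm_def]
      exact max_lt e1 (max_lt e2 e3)
    · right
      show ‖bas (actT (m + n) (iT x.1)) - p0 S‖ < δ
      rw [← iT_act, actT_add, bas_iT, bas_act]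
      rw [Prod.norm_def, Prod.norm_def]
      exact max_lt e1 (max_lt e2 e3)
  · rw [Subtype.isCompact_iff]
    convert isCompact_K1 (S := S) (y := y) (Fa := Fa) hs hf δ M using 1
    ext x
    constructor
    · rintro ⟨x, hx, rfl⟩
      exact hx
    · intro hx
      refine ⟨⟨x, W_mem_Xo G ?_⟩, hx, rfl⟩
      have := G.δ0
      linarith [hx.1]
  · intro x hx
    have h1 : ‖bas x.1 - p0 S‖ ≤ δ / 2 := hx.1
    have := G.δ0
    show ‖bas x.1 - p0 S‖ < δ
    linarith
  · exact ((HT_cont Ca Cp Dρ).comp ((continuous_subtype_val.comp continuous_fst).prodMk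
      continuous_snd)).continuousOn
  · intro x hx
    exact HT_zero Ca Cp Dρ (norm_bas G.δ8 hx)
  · intro x hx s hs0 h
    exact hM x.1 hx s hs0 h
  · exact hzero

end Crest.Agent.R235.FB10_365
end

-- ▼ part R235/Est_143
section

/-!
# R235, package FD-A, block B2 (helper143): properness and the estimates over the cell

`S : SWData b A P Ya Yp`, `Ga p = La a + Ka p`, `Gp p = Lp ψ + Kp p`, `p = (h, a, ψ)`.

* `isCompact_pre` : `{x | ‖x‖ ≤ R ∧ L x ∈ Q}` is compact (Banach space, `Fred L`, `Q` compact)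
* `isCompact_G`   : `{p | ‖p‖ ≤ R ∧ (Ga p, Gp p) ∈ Q}` is compact
* `exists_lower`  : lower bound on closed bounded sets without zeros
* `est_bdd`       : small values over the cell, `ρ ≤ 0` ⇒ `‖a‖, ‖ψ‖ ≤ R₁`, `ψ ≠ 0`
* `est_near`      : small values over the cell, `|ρ|` small ⇒ near the orbit of the canonical solution
* `exists_C`      : the derivative of `K` is compact; `D_lower` : `c ‖y‖ ≤ ‖D y‖`
-/

set_option autoImplicit false
set_option linter.unusedSectionVars false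

open Set Filter Topology Metric
open Crest.Agent.R235.FDADef_365

noncomputable section

namespace Crest.Agent.R235.Est_143

section General

variable {A P Ya Yp : Type} [NormedAddCommGroup A] [NormedSpace ℝ A]
    [CompleteSpace A] [NormedAddCommGroup P] [NormedSpace ℝ P] [CompleteSpace P]
    [NormedAddCommGroup Ya] [InnerProductSpace ℝ Ya] [CompleteSpace Ya]
    [NormedAddCommGroup Yp] [InnerProductSpace ℝ Yp] [CompleteSpace Yp]

theorem isCompact_pre {L : A →L[ℝ] Ya} (hL : Fred L) {R : ℝ} {Q : Set Ya} (hQ : IsCompact Q) :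
    IsCompact {x : A | ‖x‖ ≤ R ∧ L x ∈ Q} := by
  have := hL.ker
  set N : Submodule ℝ A := LinearMap.ker (L : A →ₗ[ℝ] Ya) with hN
  obtain ⟨π, hπ⟩ := Submodule.ClosedComplemented.of_finiteDimensional N
  let Φ : A →L[ℝ] N × Ya := π.prod L
  have hinj : Function.Injective Φ := by
    rw [injective_iff_map_eq_zero]
    intro x hx
    have h1 : π x = 0 := congrArg Prod.fst hx
    have h2 : L x = 0 := congrArg Prod.snd hx
    have h3 : x ∈ N := h2
    have h4 := hπ ⟨x, h3⟩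
    have h5 : (⟨x, h3⟩ : N) = 0 := by rw [← h4]; exact h1
    exact congrArg Subtype.val h5
  have hran : range Φ = univ ×ˢ range L := by
    apply Subset.antisymm
    · rintro _ ⟨x, rfl⟩
      exact ⟨mem_univ _, x, rfl⟩
    · rintro ⟨k, y⟩ ⟨-, x, rfl⟩
      refine ⟨x - (π x : A) + k, ?_⟩
      have e1 : L (π x : A) = 0 := (π x).2
      have e2 : L (k : A) = 0 := k.2
      have e3 : π (π x : A) = π x := hπ _
      have e4 : π (k : A) = k := hπ _
      refine Prod.ext ?_ ?_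
      · show π (x - (π x : A) + k) = k
        rw [map_add, map_sub, e3, e4, sub_self, zero_add]
      · show L (x - (π x : A) + k) = L x
        rw [map_add, map_sub, e1, e2, sub_zero, add_zero]
  have hcl : IsClosed (range Φ) := by
    rw [hran]
    exact isClosed_univ.prod hL.closed
  have : CompleteSpace N := FiniteDimensional.complete ℝ N
  obtain ⟨K, hK⟩ := Φ.antilipschitz_of_injective_of_isClosed_range hinj hcl
  have hce : IsClosedEmbedding Φ := hK.isClosedEmbedding Φ.uniformContinuous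
  have : ProperSpace N := FiniteDimensional.proper_real N
  have hcp : IsCompact (closedBall (0 : N) (‖π‖ * R) ×ˢ Q) := (isCompact_closedBall _ _).prod hQ
  refine (hce.isCompact_preimage hcp).of_isClosed_subset ?_ ?_
  · exact (isClosed_le continuous_norm continuous_const).inter (hQ.isClosed.preimage L.continuous)
  · rintro x ⟨hx, hxQ⟩
    refine ⟨?_, hxQ⟩
    rw [mem_closedBall_zero_iff]
    exact (π.le_opNorm x).trans (by gcongr)

/-- the map `(Ga, Gp)` -/
def Gm {b : ℕ} (La : A →L[ℝ] Ya) (Lp : P →L[ℝ] Yp) (Ka : (Fin b → ℝ) × A × P → Ya)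
    (Kp : (Fin b → ℝ) × A × P → Yp) (p : (Fin b → ℝ) × A × P) : Ya × Yp :=
  (La p.2.1 + Ka p, Lp p.2.2 + Kp p)

variable {b : ℕ} {La : A →L[ℝ] Ya} {Lp : P →L[ℝ] Yp} {Ka : (Fin b → ℝ) × A × P → Ya}
    {Kp : (Fin b → ℝ) × A × P → Yp}

theorem continuous_Gm (hKa : Continuous Ka) (hKp : Continuous Kp) :
    Continuous (Gm La Lp Ka Kp) := by
  unfold Gm
  fun_prop

theorem isCompact_G (hLa : Fred La) (hLp : Fred Lp) (hKa : Continuous Ka) (hKp : Continuous Kp)
    {R : ℝ} (hca : IsCompact (closure (Ka '' {p | ‖p‖ ≤ R})))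
    (hcp : IsCompact (closure (Kp '' {p | ‖p‖ ≤ R}))) {Q : Set (Ya × Yp)} (hQ : IsCompact Q) :
    IsCompact {p : (Fin b → ℝ) × A × P | ‖p‖ ≤ R ∧ Gm La Lp Ka Kp p ∈ Q} := by
  have h1 : IsCompact ((fun q : Ya × Ya => q.1 - q.2) ''
      ((Prod.fst '' Q) ×ˢ closure (Ka '' {p | ‖p‖ ≤ R}))) :=
    ((hQ.image continuous_fst).prod hca).image (by fun_prop)
  have h2 : IsCompact ((fun q : Yp × Yp => q.1 - q.2) ''
      ((Prod.snd '' Q) ×ˢ closure (Kp '' {p | ‖p‖ ≤ R}))) :=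
    ((hQ.image continuous_snd).prod hcp).image (by fun_prop)
  have h3 := isCompact_pre hLa (R := R) h1
  have h4 := isCompact_pre hLp (R := R) h2
  refine ((isCompact_closedBall (0 : Fin b → ℝ) R).prod (h3.prod h4)).of_isClosed_subset ?_ ?_
  · exact (isClosed_le continuous_norm continuous_const).inter
      (hQ.isClosed.preimage (continuous_Gm hKa hKp))
  · rintro ⟨h, a, ψ⟩ ⟨hp, hpQ⟩
    have e1 : ‖h‖ ≤ R := (norm_fst_le (h, a, ψ)).trans hp
    have e2 : ‖(a, ψ)‖ ≤ R := (norm_snd_le (h, a, ψ)).trans hp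
    have e3 : ‖a‖ ≤ R := (norm_fst_le (a, ψ)).trans e2
    have e4 : ‖ψ‖ ≤ R := (norm_snd_le (a, ψ)).trans e2
    refine ⟨mem_closedBall_zero_iff.2 e1, ⟨e3, ?_⟩, ⟨e4, ?_⟩⟩
    · refine ⟨(La a + Ka (h, a, ψ), Ka (h, a, ψ)), ⟨⟨_, hpQ, rfl⟩,
        subset_closure ⟨_, hp, rfl⟩⟩, ?_⟩
      simp
    · refine ⟨(Lp ψ + Kp (h, a, ψ), Kp (h, a, ψ)), ⟨⟨_, hpQ, rfl⟩,
        subset_closure ⟨_, hp, rfl⟩⟩, ?_⟩
      simp

/-- lower bound of a proper map without zeros on a closed set -/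
theorem exists_lower {X Z : Type*} [TopologicalSpace X] [NormedAddCommGroup Z] {F : X → Z}
    {S : Set X} (hS : IsClosed S) (hF : Continuous F)
    (hprop : ∀ Q : Set Z, IsCompact Q → ∃ D : Set X, IsCompact D ∧ ∀ p ∈ S, F p ∈ Q → p ∈ D)
    (h0 : ∀ p ∈ S, F p ≠ 0) : ∃ ε > 0, ∀ p ∈ S, ε < ‖F p‖ := by
  by_contra hcon
  push Not at hcon
  have h1 : ∀ n : ℕ, ∃ p ∈ S, ‖F p‖ ≤ 1 / ((n : ℝ) + 1) := fun n => hcon _ (by positivity)
  choose p hpS hp using h1
  have hlim : Tendsto (fun n => F (p n)) atTop (𝓝 0) := by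
    rw [tendsto_zero_iff_norm_tendsto_zero]
    exact squeeze_zero (fun n => norm_nonneg _) hp tendsto_one_div_add_atTop_nhds_zero_nat
  obtain ⟨D, hD, hDp⟩ := hprop _ hlim.isCompact_insert_range
  have hK : IsCompact (S ∩ D) := hD.inter_left hS
  have hK' : IsCompact (F '' (S ∩ D)) := hK.image hF
  have hmem : (0 : Z) ∈ F '' (S ∩ D) :=
    hK'.isClosed.mem_of_tendsto hlim (Eventually.of_forall fun n =>
      ⟨p n, ⟨hpS n, hDp _ (hpS n) (Or.inr ⟨n, rfl⟩)⟩, rfl⟩)
  obtain ⟨q, hq, hq0⟩ := hmem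
  exact h0 q hq.1 hq0

/-- lower bound of `(Ga, Gp, ρ)` on closed bounded sets without zeros -/
theorem lower_G (hLa : Fred La) (hLp : Fred Lp) (hKa : Continuous Ka) (hKp : Continuous Kp)
    {ρ : (Fin b → ℝ) × A × P → ℝ} (hρ : Continuous ρ)
    {R : ℝ} (hca : IsCompact (closure (Ka '' {p | ‖p‖ ≤ R})))
    (hcp : IsCompact (closure (Kp '' {p | ‖p‖ ≤ R}))) {S : Set ((Fin b → ℝ) × A × P)}
    (hS : IsClosed S) (hSR : ∀ p ∈ S, ‖p‖ ≤ R)
    (h0 : ∀ p ∈ S, La p.2.1 + Ka p = 0 → Lp p.2.2 + Kp p = 0 → ρ p ≠ 0) :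
    ∃ ε > 0, ∀ p ∈ S, ‖La p.2.1 + Ka p‖ ≤ ε → ‖Lp p.2.2 + Kp p‖ ≤ ε → ε < |ρ p| := by
  have hF : Continuous fun p : (Fin b → ℝ) × A × P => (Gm La Lp Ka Kp p, ρ p) :=
    (continuous_Gm hKa hKp).prodMk hρ
  have hprop : ∀ Q : Set ((Ya × Yp) × ℝ), IsCompact Q → ∃ D : Set ((Fin b → ℝ) × A × P),
      IsCompact D ∧ ∀ p ∈ S, (Gm La Lp Ka Kp p, ρ p) ∈ Q → p ∈ D := by
    intro Q hQ
    refine ⟨_, isCompact_G hLa hLp hKa hKp hca hcp (hQ.image continuous_fst), fun p hp hpQ => ?_⟩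
    exact ⟨hSR p hp, _, hpQ, rfl⟩
  have h0' : ∀ p ∈ S, (Gm La Lp Ka Kp p, ρ p) ≠ 0 := by
    intro p hp hp0
    have e1 : Gm La Lp Ka Kp p = 0 := congrArg Prod.fst hp0
    exact h0 p hp (congrArg Prod.fst e1) (congrArg Prod.snd e1) (congrArg Prod.snd hp0)
  obtain ⟨ε, hε, h1⟩ := exists_lower hS hF hprop h0'
  refine ⟨ε, hε, fun p hp hA hP => ?_⟩
  have h2 := h1 p hp
  rw [Prod.norm_def, lt_sup_iff] at h2
  rcases h2 with h2 | h2
  · exfalso
    have h3 : ‖Gm La Lp Ka Kp p‖ ≤ ε := by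
      rw [Prod.norm_def]
      exact max_le hA hP
    exact absurd h2 (not_lt.2 h3)
  · simpa using h2

/-- the same without `ρ` -/
theorem lower_G' (hLa : Fred La) (hLp : Fred Lp) (hKa : Continuous Ka) (hKp : Continuous Kp)
    {R : ℝ} (hca : IsCompact (closure (Ka '' {p | ‖p‖ ≤ R})))
    (hcp : IsCompact (closure (Kp '' {p | ‖p‖ ≤ R}))) {S : Set ((Fin b → ℝ) × A × P)}
    (hS : IsClosed S) (hSR : ∀ p ∈ S, ‖p‖ ≤ R)
    (h0 : ∀ p ∈ S, La p.2.1 + Ka p = 0 → Lp p.2.2 + Kp p ≠ 0) :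
    ∃ ε > 0, ∀ p ∈ S, ‖La p.2.1 + Ka p‖ ≤ ε → ε < ‖Lp p.2.2 + Kp p‖ := by
  have hprop : ∀ Q : Set (Ya × Yp), IsCompact Q → ∃ D : Set ((Fin b → ℝ) × A × P),
      IsCompact D ∧ ∀ p ∈ S, Gm La Lp Ka Kp p ∈ Q → p ∈ D := by
    intro Q hQ
    exact ⟨_, isCompact_G hLa hLp hKa hKp hca hcp hQ, fun p hp hpQ => ⟨hSR p hp, hpQ⟩⟩
  have h0' : ∀ p ∈ S, Gm La Lp Ka Kp p ≠ 0 := by
    intro p hp hp0
    exact h0 p hp (congrArg Prod.fst hp0) (congrArg Prod.snd hp0)
  obtain ⟨ε, hε, h1⟩ := exists_lower hS (continuous_Gm hKa hKp) hprop h0'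
  refine ⟨ε, hε, fun p hp hA => ?_⟩
  have h2 := h1 p hp
  rw [Prod.norm_def, lt_sup_iff] at h2
  rcases h2 with h2 | h2
  · exact absurd h2 (not_lt.2 hA)
  · exact h2

/-- the derivative of a compact map is compact -/
theorem isCompact_deriv {E Y : Type*} [NormedAddCommGroup E] [NormedSpace ℝ E]
    [NormedAddCommGroup Y] [NormedSpace ℝ Y] [CompleteSpace Y] {K : E → Y}
    (hK : ∀ R : ℝ, IsCompact (closure (K '' {p | ‖p‖ ≤ R}))) {C : E →L[ℝ] Y} {p₀ : E}
    (hC : HasFDerivAt K C p₀) (R : ℝ) : IsCompact (closure (C '' {p | ‖p‖ ≤ R})) := by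
  refine TotallyBounded.isCompact_of_isClosed (TotallyBounded.closure ?_) isClosed_closure
  rw [Metric.totallyBounded_iff]
  intro ε hε
  set R' : ℝ := max R 1 with hR'
  have hR1 : 0 < R' := lt_of_lt_of_le one_pos (le_max_right _ _)
  -- small scale
  have h1 := hC.isLittleO.def (c := ε / (2 * R')) (by positivity)
  obtain ⟨δ, hδ, h2⟩ := Metric.eventually_nhds_iff.1 h1
  set r : ℝ := δ / (2 * R') with hr
  have hr0 : 0 < r := by positivity
  have hTB : TotallyBounded (K '' {p | ‖p‖ ≤ ‖p₀‖ + δ}) :=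
    ((hK (‖p₀‖ + δ)).totallyBounded).subset subset_closure
  rw [Metric.totallyBounded_iff] at hTB
  obtain ⟨t, ht, hts⟩ := hTB (r * ε / 2) (by positivity)
  refine ⟨(fun y => r⁻¹ • (y - K p₀)) '' t, ht.image _, ?_⟩
  rintro _ ⟨x, hx, rfl⟩
  have hxR : ‖x‖ ≤ R' := le_trans hx (le_max_left _ _)
  have hrx : ‖r • x‖ ≤ δ / 2 := by
    rw [norm_smul, Real.norm_of_nonneg hr0.le, hr]
    calc δ / (2 * R') * ‖x‖ ≤ δ / (2 * R') * R' := by gcongr
      _ = δ / 2 := by field_simp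
  have h3 : dist (p₀ + r • x) p₀ < δ := by
    rw [dist_eq_norm, add_sub_cancel_left]
    linarith
  have h4 := h2 h3
  rw [add_sub_cancel_left] at h4
  have h5 : K (p₀ + r • x) ∈ K '' {p | ‖p‖ ≤ ‖p₀‖ + δ} := by
    refine ⟨_, ?_, rfl⟩
    have := norm_add_le p₀ (r • x)
    show ‖p₀ + r • x‖ ≤ ‖p₀‖ + δ
    linarith
  obtain ⟨y, hy, hy2⟩ := mem_iUnion₂.1 (hts h5)
  refine mem_iUnion₂.2 ⟨_, ⟨y, hy, rfl⟩, ?_⟩
  rw [mem_ball, dist_eq_norm] at hy2 ⊢
  have h6 : C x - r⁻¹ • (y - K p₀) =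
      r⁻¹ • ((K (p₀ + r • x) - y) - (K (p₀ + r • x) - K p₀ - C (r • x))) := by
    rw [map_smul]
    have : r⁻¹ • r • C x = C x := by rw [smul_smul, inv_mul_cancel₀ hr0.ne', one_smul]
    rw [sub_sub_sub_comm, smul_sub, smul_sub, smul_sub, smul_sub, smul_sub, this]
    abel
  rw [h6, norm_smul, norm_inv, Real.norm_of_nonneg hr0.le]
  have h7 : ‖(K (p₀ + r • x) - y) - (K (p₀ + r • x) - K p₀ - C (r • x))‖ < r * ε := by
    refine lt_of_le_of_lt (norm_sub_le _ _) ?_
    have h8 : ε / (2 * R') * ‖r • x‖ ≤ r * ε / 2 := by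
      rw [norm_smul, Real.norm_of_nonneg hr0.le]
      calc ε / (2 * R') * (r * ‖x‖) ≤ ε / (2 * R') * (r * R') := by gcongr
        _ = r * ε / 2 := by field_simp
    linarith
  rw [inv_mul_lt_iff₀ hr0]
  exact h7

end General

section Data

variable {b : ℕ} {A P Ya Yp : Type} [NormedAddCommGroup A] [NormedSpace ℝ A]
    [CompleteSpace A] [NormedAddCommGroup P] [NormedSpace ℝ P] [CompleteSpace P]
    [NormedAddCommGroup Ya] [InnerProductSpace ℝ Ya] [CompleteSpace Ya]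
    [NormedAddCommGroup Yp] [InnerProductSpace ℝ Yp] [CompleteSpace Yp]
    (S : SWData b A P Ya Yp)

/-- the cell -/
def Cell (R : ℝ) : Set ((Fin b → ℝ) × A × P) :=
  {p | (∀ i, p.1 i ∈ Icc (0 : ℝ) 1) ∧ ‖p.2.1‖ ≤ R ∧ ‖p.2.2‖ ≤ R}

theorem isClosed_Cell (R : ℝ) : IsClosed (Cell R : Set ((Fin b → ℝ) × A × P)) := by
  have h1 : IsClosed {p : (Fin b → ℝ) × A × P | ∀ i, p.1 i ∈ Icc (0 : ℝ) 1} := by
    rw [ofPred_forall]
    exact isClosed_iInter fun i => isClosed_Icc.preimage (by fun_prop)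
  have h2 : IsClosed {p : (Fin b → ℝ) × A × P | ‖p.2.1‖ ≤ R} :=
    isClosed_le (by fun_prop) continuous_const
  have h3 : IsClosed {p : (Fin b → ℝ) × A × P | ‖p.2.2‖ ≤ R} :=
    isClosed_le (by fun_prop) continuous_const
  exact h1.inter (h2.inter h3)

theorem Cell_norm {R : ℝ} {p : (Fin b → ℝ) × A × P} (hp : p ∈ Cell R) : ‖p‖ ≤ max 1 R := by
  obtain ⟨h1, h2, h3⟩ := hp
  rw [Prod.norm_def, Prod.norm_def]
  refine max_le ?_ (max_le (h2.trans (le_max_right _ _)) (h3.trans (le_max_right _ _)))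
  refine le_trans ?_ (le_max_left _ _)
  refine (pi_norm_le_iff_of_nonneg zero_le_one).2 fun i => ?_
  rw [Real.norm_of_nonneg (h1 i).1]
  exact (h1 i).2

/-- small values over the cell in the region `ρ ≤ 0`: a priori bound and no reducibles -/
theorem est_bdd : ∃ R₁ : ℝ, ∀ R' : ℝ, ∃ ε > 0, ∀ p : (Fin b → ℝ) × A × P, p ∈ Cell R' →
    S.ρ p ≤ 0 → ‖S.La p.2.1 + S.Ka p‖ ≤ ε → ‖S.Lp p.2.2 + S.Kp p‖ ≤ ε →
    ‖p.2.1‖ ≤ R₁ ∧ ‖p.2.2‖ ≤ R₁ ∧ p.2.2 ≠ 0 := by
  obtain ⟨R, hR⟩ := S.bdd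
  refine ⟨R + 1, fun R' => ?_⟩
  set T : Set ((Fin b → ℝ) × A × P) := Cell R' ∩ ({p | S.ρ p ≤ 0} ∩
    ({p | R + 1 ≤ ‖p.2.1‖} ∪ ({p | R + 1 ≤ ‖p.2.2‖} ∪ {p | p.2.2 = 0}))) with hT
  have hTc : IsClosed T := by
    have h2 : IsClosed {p : (Fin b → ℝ) × A × P | R + 1 ≤ ‖p.2.1‖} :=
      isClosed_le continuous_const (by fun_prop)
    have h3 : IsClosed {p : (Fin b → ℝ) × A × P | R + 1 ≤ ‖p.2.2‖} :=
      isClosed_le continuous_const (by fun_prop)
    have h4 : IsClosed {p : (Fin b → ℝ) × A × P | p.2.2 = 0} :=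
      isClosed_eq (by fun_prop) continuous_const
    exact (isClosed_Cell R').inter ((isClosed_le S.contρ continuous_const).inter
      (h2.union (h3.union h4)))
  obtain ⟨ε, hε, h1⟩ := lower_G' S.fredA S.fredP S.contA S.contP (S.cptA (max 1 R'))
    (S.cptP (max 1 R')) hTc (fun p hp => Cell_norm hp.1) (fun p hp hA hP => by
      obtain ⟨hc, hρ, h2⟩ := hp
      obtain ⟨h, a, ψ⟩ := p
      have h3 := hR h a ψ hc.1 hρ hA hP
      rcases h2 with h2 | h2 | h2
      · have : R + 1 ≤ ‖a‖ := h2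
        linarith [h3.1]
      · have : R + 1 ≤ ‖ψ‖ := h2
        linarith [h3.2]
      · have h4 : ψ = 0 := h2
        subst h4
        exact S.irred h a hρ hA)
  refine ⟨ε, hε, fun p hp hρ hA hP => ?_⟩
  have h2 : p ∉ T := fun hpT => absurd (h1 p hpT hA) (not_lt.2 hP)
  refine ⟨?_, ?_, ?_⟩
  · by_contra hcon
    exact h2 ⟨hp, hρ, Or.inl (not_le.1 hcon).le⟩
  · by_contra hcon
    exact h2 ⟨hp, hρ, Or.inr (Or.inl (not_le.1 hcon).le)⟩
  · intro hcon
    exact h2 ⟨hp, hρ, Or.inr (Or.inr hcon)⟩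

/-- the open `δ`-neighbourhood of the orbit of the canonical solution -/
def Nbh (δ : ℝ) : Set ((Fin b → ℝ) × A × P) :=
  {p | ∃ m : Fin b → ℤ, ‖p.1 - (S.h₀ + lat m)‖ < δ ∧ ‖p.2.1 - S.a₀‖ < δ ∧
    (‖p.2.2 - S.U m S.ψ₀‖ < δ ∨ ‖p.2.2 + S.U m S.ψ₀‖ < δ)}

theorem isOpen_Nbh (δ : ℝ) : IsOpen (Nbh S δ) := by
  have h1 : Nbh S δ = ⋃ m : Fin b → ℤ, {p | ‖p.1 - (S.h₀ + lat m)‖ < δ ∧ ‖p.2.1 - S.a₀‖ < δ ∧
    (‖p.2.2 - S.U m S.ψ₀‖ < δ ∨ ‖p.2.2 + S.U m S.ψ₀‖ < δ)} := by
    ext p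
    simp [Nbh]
  rw [h1]
  refine isOpen_iUnion fun m => ?_
  have h2 : IsOpen {p : (Fin b → ℝ) × A × P | ‖p.1 - (S.h₀ + lat m)‖ < δ} :=
    isOpen_lt (by fun_prop) continuous_const
  have h3 : IsOpen {p : (Fin b → ℝ) × A × P | ‖p.2.1 - S.a₀‖ < δ} :=
    isOpen_lt (by fun_prop) continuous_const
  have h4 : IsOpen {p : (Fin b → ℝ) × A × P | ‖p.2.2 - S.U m S.ψ₀‖ < δ} :=
    isOpen_lt (by fun_prop) continuous_const
  have h5 : IsOpen {p : (Fin b → ℝ) × A × P | ‖p.2.2 + S.U m S.ψ₀‖ < δ} :=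
    isOpen_lt (by fun_prop) continuous_const
  exact h2.inter (h3.inter (h4.union h5))

/-- small values over the cell near `ρ = 0`: near the orbit of the canonical solution -/
theorem est_near (R' : ℝ) {δ : ℝ} (hδ : 0 < δ) : ∃ ε > 0, ∀ p : (Fin b → ℝ) × A × P,
    p ∈ Cell R' → |S.ρ p| ≤ ε → ‖S.La p.2.1 + S.Ka p‖ ≤ ε → ‖S.Lp p.2.2 + S.Kp p‖ ≤ ε →
    p ∈ Nbh S δ := by
  obtain ⟨ε, hε, h1⟩ := lower_G S.fredA S.fredP S.contA S.contP S.contρ (S.cptA (max 1 R'))
    (S.cptP (max 1 R')) (S := Cell R' ∩ (Nbh S δ)ᶜ)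
    ((isClosed_Cell R').inter (isOpen_Nbh S δ).isClosed_compl) (fun p hp => Cell_norm hp.1)
    (fun p hp hA hP hρ => by
      obtain ⟨h, a, ψ⟩ := p
      obtain ⟨m, e1, e2, e3⟩ := S.uniq h a ψ hρ hA hP
      refine hp.2 ⟨m, ?_, ?_, ?_⟩
      · show ‖h - (S.h₀ + lat m)‖ < δ
        rw [e1, sub_self, norm_zero]
        exact hδ
      · show ‖a - S.a₀‖ < δ
        rw [e2, sub_self, norm_zero]
        exact hδ
      · rcases e3 with e3 | e3
        · left
          show ‖ψ - S.U m S.ψ₀‖ < δ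
          rw [e3, sub_self, norm_zero]
          exact hδ
        · right
          show ‖ψ + S.U m S.ψ₀‖ < δ
          rw [e3, neg_add_cancel, norm_zero]
          exact hδ)
  refine ⟨ε, hε, fun p hp hρ hA hP => ?_⟩
  by_contra hcon
  exact absurd (h1 p ⟨hp, hcon⟩ hA hP) (not_lt.2 hρ)

/-- the derivatives of `Ka`, `Kp`, `ρ` at the canonical solution; they are compact -/
theorem exists_C : ∃ (Ca : (Fin b → ℝ) × A × P →L[ℝ] Ya) (Cp : (Fin b → ℝ) × A × P →L[ℝ] Yp)
    (Dρ : (Fin b → ℝ) × A × P →L[ℝ] ℝ),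
    HasFDerivAt S.Ka Ca (S.h₀, S.a₀, S.ψ₀) ∧ HasFDerivAt S.Kp Cp (S.h₀, S.a₀, S.ψ₀) ∧
    HasFDerivAt S.ρ Dρ (S.h₀, S.a₀, S.ψ₀) ∧
    (∀ y, S.D y = (S.La y.2.1 + Ca y, S.Lp y.2.2 + Cp y, Dρ y)) ∧
    (∀ R : ℝ, IsCompact (closure (Ca '' {p | ‖p‖ ≤ R}))) ∧
    (∀ R : ℝ, IsCompact (closure (Cp '' {p | ‖p‖ ≤ R}))) := by
  set p₀ : (Fin b → ℝ) × A × P := (S.h₀, S.a₀, S.ψ₀) with hp₀
  let fA : (Fin b → ℝ) × A × P →L[ℝ] A :=
    (ContinuousLinearMap.fst ℝ A P).comp (ContinuousLinearMap.snd ℝ (Fin b → ℝ) (A × P))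
  let fP : (Fin b → ℝ) × A × P →L[ℝ] P :=
    (ContinuousLinearMap.snd ℝ A P).comp (ContinuousLinearMap.snd ℝ (Fin b → ℝ) (A × P))
  have h1 : HasFDerivAt (fun p : (Fin b → ℝ) × A × P => S.La p.2.1 + S.Ka p)
      ((ContinuousLinearMap.fst ℝ Ya (Yp × ℝ)).comp S.D) p₀ :=
    (ContinuousLinearMap.fst ℝ Ya (Yp × ℝ)).hasFDerivAt.comp p₀ S.deriv
  have h2 : HasFDerivAt (fun p : (Fin b → ℝ) × A × P => S.Lp p.2.2 + S.Kp p)
      ((ContinuousLinearMap.fst ℝ Yp ℝ).comp
        ((ContinuousLinearMap.snd ℝ Ya (Yp × ℝ)).comp S.D)) p₀ :=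
    (ContinuousLinearMap.fst ℝ Yp ℝ).hasFDerivAt.comp p₀
      ((ContinuousLinearMap.snd ℝ Ya (Yp × ℝ)).hasFDerivAt.comp p₀ S.deriv)
  have h3 : HasFDerivAt S.ρ ((ContinuousLinearMap.snd ℝ Yp ℝ).comp
        ((ContinuousLinearMap.snd ℝ Ya (Yp × ℝ)).comp S.D)) p₀ :=
    (ContinuousLinearMap.snd ℝ Yp ℝ).hasFDerivAt.comp p₀
      ((ContinuousLinearMap.snd ℝ Ya (Yp × ℝ)).hasFDerivAt.comp p₀ S.deriv)
  have h4 : HasFDerivAt (fun p : (Fin b → ℝ) × A × P => S.La p.2.1) (S.La.comp fA) p₀ :=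
    (S.La.comp fA).hasFDerivAt
  have h5 : HasFDerivAt (fun p : (Fin b → ℝ) × A × P => S.Lp p.2.2) (S.Lp.comp fP) p₀ :=
    (S.Lp.comp fP).hasFDerivAt
  have h6 : HasFDerivAt S.Ka ((ContinuousLinearMap.fst ℝ Ya (Yp × ℝ)).comp S.D - S.La.comp fA)
      p₀ := by
    have := h1.sub h4
    refine this.congr_of_eventuallyEq (Eventually.of_forall fun p => ?_)
    simp
  have h7 : HasFDerivAt S.Kp ((ContinuousLinearMap.fst ℝ Yp ℝ).comp
        ((ContinuousLinearMap.snd ℝ Ya (Yp × ℝ)).comp S.D) - S.Lp.comp fP) p₀ := by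
    have := h2.sub h5
    refine this.congr_of_eventuallyEq (Eventually.of_forall fun p => ?_)
    simp
  refine ⟨_, _, _, h6, h7, h3, fun y => ?_, fun R => isCompact_deriv S.cptA h6 R,
    fun R => isCompact_deriv S.cptP h7 R⟩
  refine Prod.ext ?_ (Prod.ext ?_ rfl)
  · show (S.D y).1 = S.La y.2.1 + ((S.D y).1 - S.La y.2.1)
    abel
  · show (S.D y).2.1 = S.Lp y.2.2 + ((S.D y).2.1 - S.Lp y.2.2)
    abel

/-- the linearisation is bounded below -/
theorem D_lower : ∃ c > 0, ∀ y, c * ‖y‖ ≤ ‖S.D y‖ := by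
  obtain ⟨Ca, Cp, Dρ, -, -, -, hD, hCa, hCp⟩ := exists_C S
  obtain ⟨ε, hε, h1⟩ := lower_G S.fredA S.fredP Ca.continuous Cp.continuous Dρ.continuous
    (hCa 1) (hCp 1) (S := {y | ‖y‖ = 1}) (isClosed_eq continuous_norm continuous_const)
    (fun p hp => le_of_eq hp) (fun p hp hA hP hρ => by
      have h2 : S.D p = 0 := by
        rw [hD p, hA, hP, hρ]
        rfl
      have h3 := S.inj p h2
      have h4 : ‖p‖ = 1 := hp
      rw [h3, norm_zero] at h4
      exact zero_ne_one h4)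
  refine ⟨ε, hε, fun y => ?_⟩
  by_cases hy : y = 0
  · subst hy
    simp
  have hy0 : 0 < ‖y‖ := norm_pos_iff.2 hy
  have h2 : ∀ p : (Fin b → ℝ) × A × P, ‖p‖ = 1 → ε ≤ ‖S.D p‖ := by
    intro p hp
    by_contra hcon
    rw [not_le, hD p, Prod.norm_def, Prod.norm_def] at hcon
    obtain ⟨h3, h4⟩ := max_lt_iff.1 hcon
    obtain ⟨h5, h6⟩ := max_lt_iff.1 h4
    have h7 := h1 p hp h3.le h5.le
    rw [Real.norm_eq_abs] at h6
    exact absurd h7 (not_lt.2 h6.le)
  have h3 := h2 (‖y‖⁻¹ • y) (by rw [norm_smul, norm_inv, norm_norm, inv_mul_cancel₀ hy0.ne'])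
  rw [map_smul, norm_smul, norm_inv, norm_norm] at h3
  rw [inv_mul_eq_div, le_div_iff₀ hy0] at h3
  exact h3

end Data

end Crest.Agent.R235.Est_143
end
end

-- ▼ part R235/FB5_785
section

/-!
Row 235 (S0364), package FD-A (leader helper365), block FB5 (helper785): existence of the finite
dimensional data, `exists_good`.
-/

set_option autoImplicit false

open Topology Set Module Filter

namespace Crest.Agent.R235.FB5_785

open FDADef_365 Bet_785 FdB1_435 FB1_365 FB2_365 FB3_365 FB4_365 Est_143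

/-- a spanning family such that `Pl` is the orthogonal projection. -/
theorem exists_y {Yp : Type} [NormedAddCommGroup Yp] [InnerProductSpace ℝ Yp]
    (W : Submodule ℝ Yp) [FiniteDimensional ℝ W] :
    ∃ (N : ℕ) (y : Fin N → Yp), 0 < N ∧ Submodule.span ℝ (range y) = W ∧
      ∀ w, Pl y w = W.starProjection w := by
  let B := stdOrthonormalBasis ℝ W
  refine ⟨finrank ℝ W + 1, Fin.cons 0 (fun i => (B i : Yp)), Nat.succ_pos _, ?_, fun w => ?_⟩
  · rw [Fin.range_cons, Submodule.span_insert_zero]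
    have h1 : range (fun i => (B i : Yp)) = W.subtype '' (range B) := by
      rw [← range_comp]; rfl
    rw [h1, Submodule.span_image, ← OrthonormalBasis.coe_toBasis, Basis.span_eq,
      Submodule.map_top, Submodule.range_subtype]
  · unfold Pl
    rw [Fin.sum_univ_succ]
    simp only [Fin.cons_zero, Fin.cons_succ, smul_zero, zero_add]
    rw [B.starProjection_eq_sum_rankOne]
    simp

section main

variable {b : ℕ} {A P Ya Yp : Type} [NormedAddCommGroup A] [NormedSpace ℝ A]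
    [CompleteSpace A] [NormedAddCommGroup P] [NormedSpace ℝ P] [CompleteSpace P]
    [NormedAddCommGroup Ya] [InnerProductSpace ℝ Ya] [CompleteSpace Ya]
    [NormedAddCommGroup Yp] [InnerProductSpace ℝ Yp] [CompleteSpace Yp]

/-- homogeneity of the error of a linear map. -/
theorem err_lin {E Y : Type} [NormedAddCommGroup E] [NormedSpace ℝ E] [NormedAddCommGroup Y]
    [NormedSpace ℝ Y] (L : E →L[ℝ] Y) (Q : Y →L[ℝ] Y) {ε : ℝ}
    (h : ∀ q : E, ‖q‖ ≤ 1 → ‖L q - Q (L q)‖ ≤ ε) (v : E) : ‖L v - Q (L v)‖ ≤ ε * ‖v‖ := by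
  by_cases hv : v = 0
  · subst hv; simp
  have hv0 : 0 < ‖v‖ := norm_pos_iff.2 hv
  have h1 := h (‖v‖⁻¹ • v) (by rw [norm_smul, norm_inv, norm_norm, inv_mul_cancel₀ hv0.ne'])
  rw [map_smul, map_smul, ← smul_sub, norm_smul, norm_inv, norm_norm] at h1
  rw [inv_mul_le_iff₀ hv0] at h1
  linarith

/-- the norm of `D v`. -/
theorem norm_D_le (S : SWData b A P Ya Yp) {Ca : (Fin b → ℝ) × A × P →L[ℝ] Ya}
    {Cp : (Fin b → ℝ) × A × P →L[ℝ] Yp} {Dρ : (Fin b → ℝ) × A × P →L[ℝ] ℝ}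
    (hD : ∀ y, S.D y = (S.La y.2.1 + Ca y, S.Lp y.2.2 + Cp y, Dρ y))
    {v : (Fin b → ℝ) × A × P} {B : ℝ} (h1 : ‖S.La v.2.1 + Ca v‖ ≤ B)
    (h2 : ‖S.Lp v.2.2 + Cp v‖ ≤ B) (h3 : |Dρ v| ≤ B) : ‖S.D v‖ ≤ B := by
  rw [hD v, Prod.norm_def, Prod.norm_def]
  exact max_le h1 (max_le h2 h3)

set_option maxHeartbeats 2000000 in
theorem exists_good (S : SWData b A P Ya Yp) :
    ∃ (N : ℕ) (y : Fin N → Yp) (Fa : Submodule ℝ Ya) (_ : FiniteDimensional ℝ Fa) (R' C δ : ℝ)
      (Ca : (Fin b → ℝ) × A × P →L[ℝ] Ya) (Cp : (Fin b → ℝ) × A × P →L[ℝ] Yp)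
      (Dρ : (Fin b → ℝ) × A × P →L[ℝ] ℝ), Good S y Fa R' C δ Ca Cp Dρ := by
  obtain ⟨R₁, hR₁⟩ := est_bdd S
  obtain ⟨C, hC1, hC⟩ := exists_UV S (3 + ‖S.h₀‖)
  obtain ⟨c, hc, hDl⟩ := D_lower S
  obtain ⟨Ca, Cp, Dρ, dA, dP, dR, hD, cA, cP⟩ := exists_C S
  have hC0 : 0 < C := by linarith
  have hψ0 : S.ψ₀ ≠ 0 := by
    intro h0
    have h1 := S.solρ
    have h2 := S.solA
    rw [h0] at h1 h2
    exact S.irred _ _ h1.le h2
  have hψ0' : 0 < ‖S.ψ₀‖ := norm_pos_iff.2 hψ0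
  -- the radius of linearisation
  obtain ⟨δ₁, hδ₁, hlin⟩ : ∃ δ₁ > 0, ∀ p : (Fin b → ℝ) × A × P, ‖p - p0 S‖ < δ₁ →
      ‖S.Ka p - S.Ka (p0 S) - Ca (p - p0 S)‖ ≤ c / 4 * ‖p - p0 S‖ ∧
      ‖S.Kp p - S.Kp (p0 S) - Cp (p - p0 S)‖ ≤ c / 4 * ‖p - p0 S‖ ∧
      ‖S.ρ p - S.ρ (p0 S) - Dρ (p - p0 S)‖ ≤ c / 4 * ‖p - p0 S‖ := by
    have e1 := dA.isLittleO.def (c := c / 4) (by positivity)
    have e2 := dP.isLittleO.def (c := c / 4) (by positivity)
    have e3 := dR.isLittleO.def (c := c / 4) (by positivity)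
    obtain ⟨δ₁, hδ₁, h⟩ := Metric.eventually_nhds_iff.1 (e1.and (e2.and e3))
    refine ⟨δ₁, hδ₁, fun p hp => ?_⟩
    exact h (by rw [dist_eq_norm]; exact hp)
  set δ : ℝ := min (min δ₁ (1 / 8)) (‖S.ψ₀‖ / 4) with hδdef
  have hδ0 : 0 < δ := lt_min (lt_min hδ₁ (by norm_num)) (by positivity)
  have hδ1 : δ ≤ δ₁ := (min_le_left _ _).trans (min_le_left _ _)
  have hδ8 : δ ≤ 1 / 8 := (min_le_left _ _).trans (min_le_right _ _)
  have hδψ : 2 * δ < ‖S.ψ₀‖ := by
    have := min_le_right (min δ₁ (1 / 8)) (‖S.ψ₀‖ / 4)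
    rw [← hδdef] at this
    linarith
  set R' : ℝ := |R₁| + ‖S.a₀‖ + ‖S.ψ₀‖ + 2 with hR'
  have hR1 : R₁ < R' := by
    have := le_abs_self R₁
    have := norm_nonneg S.a₀
    linarith
  have hR0 : 0 < R' := by
    have := abs_nonneg R₁
    have := norm_nonneg S.a₀
    linarith
  obtain ⟨ε₁, hε₁, h1⟩ := hR₁ (C * R')
  obtain ⟨ε₂, hε₂, h2⟩ := est_near S (C * R') (δ := δ / C) (by positivity)
  set ε : ℝ := min (min ε₁ ε₂) (min (c * δ / 16) (c / 8)) with hεdef
  have hε0 : 0 < ε := lt_min (lt_min hε₁ hε₂) (lt_min (by positivity) (by positivity))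
  have le1 : ε ≤ ε₁ := (min_le_left _ _).trans (min_le_left _ _)
  have le2 : ε ≤ ε₂ := (min_le_left _ _).trans (min_le_right _ _)
  have le3 : ε ≤ c * δ / 16 := (min_le_right _ _).trans (min_le_left _ _)
  have le4 : ε ≤ c / 8 := (min_le_right _ _).trans (min_le_right _ _)
  set ε₀ : ℝ := ε / C with hε₀def
  have hε₀ : 0 < ε₀ := by positivity
  have hε₀C : C * ε₀ = ε := by rw [hε₀def]; field_simp
  have hε₀le : ε₀ ≤ ε := by
    rw [hε₀def]
    exact div_le_self hε0.le hC1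
  set R₃ : ℝ := max (1 + ‖S.h₀‖) (C * (C * R')) + ‖p0 S‖ + 1 with hR₃
  have r1 : 1 + ‖S.h₀‖ ≤ R₃ := by
    have := le_max_left (1 + ‖S.h₀‖) (C * (C * R'))
    have := norm_nonneg (p0 S)
    linarith
  have r2 : C * (C * R') ≤ R₃ := by
    have := le_max_right (1 + ‖S.h₀‖) (C * (C * R'))
    have := norm_nonneg (p0 S)
    linarith
  have r3 : ‖p0 S‖ + 1 ≤ R₃ := by
    have h3 := le_max_left (1 + ‖S.h₀‖) (C * (C * R'))
    have := norm_nonneg S.h₀
    linarith
  have r4 : C * R' ≤ R₃ := by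
    refine le_trans ?_ r2
    have : 0 ≤ C * R' := by positivity
    nlinarith
  have r5 : 1 ≤ R₃ := by
    have := norm_nonneg (p0 S)
    linarith
  -- the subspaces
  obtain ⟨W, hWf, hW⟩ := exists_compl_unif (isCompact_closedBall S.h₀ 1) (Lh S (th b))
    (Lh_cont S cut_th) (fun h => Lh_fred S cut_th h)
  have hKP : IsCompact (closure (Kh S (th b) '' {p | ‖p‖ ≤ R₃}) ∪
      (closure (S.Kp '' {p | ‖p‖ ≤ R₃}) ∪ closure (Cp '' {p | ‖p‖ ≤ R₃}))) :=
    (Kh_cptP S cut_th R₃).union ((S.cptP R₃).union (cP R₃))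
  obtain ⟨W', hWW, hW'f, hW'⟩ := GalA_755.exists_approx hKP W hε₀
  obtain ⟨N, y, hN, hspan, hPl⟩ := exists_y W'
  have hcok := S.fredA.coker
  have hKA : IsCompact (closure (S.Ka '' {p | ‖p‖ ≤ R₃}) ∪ closure (Ca '' {p | ‖p‖ ≤ R₃})) :=
    (S.cptA R₃).union (cA R₃)
  obtain ⟨Fa, hFa, hFaf, hFa'⟩ := GalA_755.exists_approx hKA
    ((LinearMap.range (S.La : A →ₗ[ℝ] Ya))ᗮ) hε₀
  -- the errors
  have eA : ∀ q : (Fin b → ℝ) × A × P, ‖q‖ ≤ R₃ →
      ‖S.Ka q - Fa.starProjection (S.Ka q)‖ ≤ ε₀ := fun q hq =>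
    (hFa' _ (Or.inl (subset_closure ⟨q, hq, rfl⟩))).le
  have eA' : ∀ v : (Fin b → ℝ) × A × P, ‖Ca v - Fa.starProjection (Ca v)‖ ≤ ε₀ * ‖v‖ :=
    err_lin Ca Fa.starProjection fun q hq =>
      (hFa' _ (Or.inr (subset_closure ⟨q, hq.trans r5, rfl⟩))).le
  have eH : ∀ q : (Fin b → ℝ) × A × P, ‖q‖ ≤ R₃ →
      ‖Kh S (th b) q - Pl y (Kh S (th b) q)‖ ≤ ε₀ := fun q hq => by
    rw [hPl]
    exact (hW' _ (Or.inl (subset_closure ⟨q, hq, rfl⟩))).le
  have eP : ∀ q : (Fin b → ℝ) × A × P, ‖q‖ ≤ R₃ →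
      ‖S.Kp q - W'.starProjection (S.Kp q)‖ ≤ ε₀ := fun q hq =>
    (hW' _ (Or.inr (Or.inl (subset_closure ⟨q, hq, rfl⟩)))).le
  have eP' : ∀ v : (Fin b → ℝ) × A × P, ‖Cp v - W'.starProjection (Cp v)‖ ≤ ε₀ * ‖v‖ :=
    err_lin Cp W'.starProjection fun q hq =>
      (hW' _ (Or.inr (Or.inr (subset_closure ⟨q, hq.trans r5, rfl⟩)))).le
  have hp0 : ‖p0 S‖ ≤ R₃ := by linarith
  have sA : S.La (p0 S).2.1 + S.Ka (p0 S) = 0 := S.solA
  have sP : S.Lp (p0 S).2.2 + S.Kp (p0 S) = 0 := S.solP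
  have sR : S.ρ (p0 S) = 0 := S.solρ
  refine ⟨N, y, Fa, hFaf, R', C, δ, Ca, Cp, Dρ, ?_⟩
  constructor
  · exact hN
  · intro h hh
    rw [hspan, eq_top_iff, ← hW h (by rw [mem_closedBall_iff_norm]; exact hh)]
    exact sup_le_sup_right hWW _
  · exact hFa
  · exact hC1
  · intro m hm ψ
    exact (hC m hm).1 ψ
  · exact hδ0
  · exact hδ8
  · exact hδψ
  · have := abs_nonneg R₁
    linarith
  · have := abs_nonneg R₁
    have := norm_nonneg S.a₀
    linarith
  · -- near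
    intro h a ψ z hh ha hψ hL hz hA hρ
    have hcell : ((h, a, ψ) : (Fin b → ℝ) × A × P) ∈ Cell (C * R') := ⟨hh, ha, hψ⟩
    have hh1 : ‖h‖ ≤ 1 := by
      refine (pi_norm_le_iff_of_nonneg zero_le_one).2 fun i => ?_
      rw [Real.norm_of_nonneg (hh i).1]
      exact (hh i).2
    have hpR : ‖((h, a, ψ) : (Fin b → ℝ) × A × P)‖ ≤ R₃ := by
      refine (Cell_norm hcell).trans (max_le r5 r4)
    have gA : ‖S.La a + S.Ka (h, a, ψ)‖ ≤ ε := by
      have e : S.La a + S.Ka (h, a, ψ) = S.Ka (h, a, ψ) - Fa.starProjection (S.Ka (h, a, ψ)) := by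
        rw [eq_sub_iff_add_eq]
        rw [add_right_comm, hA, zero_add]
      rw [e]
      exact (eA _ hpR).trans hε₀le
    have gP : ‖S.Lp ψ + S.Kp (h, a, ψ)‖ ≤ ε := by
      rw [← Lh_add_Kh (θ := th b) S h a ψ, hL]
      have e : ∑ j, z j • sec S y j h + Kh S (th b) (h, a, ψ) =
          Kh S (th b) (h, a, ψ) - ∑ j, Zc S y j (h, a, ψ) • sec S y j h := by
        have : ∑ j, z j • sec S y j h = - ∑ j, Zc S y j (h, a, ψ) • sec S y j h := by
          rw [← Finset.sum_neg_distrib]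
          refine Finset.sum_congr rfl fun j _ => ?_
          rw [← neg_smul, eq_neg_of_add_eq_zero_left (hz j)]
        rw [this]; abel
      rw [e, ← hε₀C]
      exact err_le S y hC1 hC (by positivity) r1 r2 eH (by linarith) ha hψ
    have hb := h1 _ hcell hρ (gA.trans le1) (gP.trans le1)
    refine ⟨lt_of_le_of_lt hb.1 hR1, lt_of_le_of_lt hb.2.1 hR1, hb.2.2, fun hρ0 => ?_⟩
    obtain ⟨m, m1, m2, m3⟩ := h2 _ hcell (by rw [hρ0, abs_zero]; exact hε₂.le) (gA.trans le2)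
      (gP.trans le2)
    have hδC : δ / C ≤ δ := div_le_self hδ0.le hC1
    have m1' : ‖h - (S.h₀ + lat m)‖ < δ / C := m1
    have hm : ‖lat m‖ ≤ 3 + ‖S.h₀‖ := by
      have e1 : lat m = h - S.h₀ - (h - (S.h₀ + lat m)) := by abel
      rw [e1]
      have e2 := norm_sub_le (h - S.h₀) (h - (S.h₀ + lat m))
      have e3 := norm_sub_le h S.h₀
      linarith
    have hCm := (hC m hm).2.1
    refine ⟨-m, ?_, lt_of_lt_of_le m2 hδC, ?_⟩
    · have e : h + lat (-m) - S.h₀ = h - (S.h₀ + lat m) := by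
        rw [Bet_785.lat_neg]; abel
      rw [e]
      exact lt_of_lt_of_le m1' hδC
    · rcases m3 with m3 | m3
      · left
        have m3' : ‖ψ - S.U m S.ψ₀‖ < δ / C := m3
        have e : S.U (-m) ψ - S.ψ₀ = S.U (-m) (ψ - S.U m S.ψ₀) := by
          rw [map_sub, U_neg]
        rw [e]
        refine lt_of_le_of_lt (hCm _) ?_
        rw [lt_div_iff₀ hC0] at m3'
        linarith
      · right
        have m3' : ‖ψ + S.U m S.ψ₀‖ < δ / C := m3
        have e : -S.U (-m) ψ - S.ψ₀ = -S.U (-m) (ψ + S.U m S.ψ₀) := by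
          rw [map_add, U_neg]; abel
        rw [e, norm_neg]
        refine lt_of_le_of_lt (hCm _) ?_
        rw [lt_div_iff₀ hC0] at m3'
        linarith
  · -- loc
    intro p hp s hs hA hP hρ
    obtain ⟨l1, l2, l3⟩ := hlin p (lt_of_lt_of_le hp hδ1)
    set v := p - p0 S with hv
    have hpv : p = p0 S + v := by rw [hv]; abel
    have hpR : ‖p‖ ≤ R₃ := by
      rw [hpv]
      refine (norm_add_le _ _).trans ?_
      linarith
    have hs0 := hs.1
    have hs1 : 0 ≤ 1 - s := by linarith [hs.2]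
    have hvδ : ‖v‖ ≤ 1 := by linarith
    have hc1 : ε₀ * ‖v‖ ≤ ε₀ := by nlinarith
    have gA : ‖S.La v.2.1 + Ca v‖ ≤ c / 4 * ‖v‖ + 2 * ε₀ := by
      set X := (1 - s) • S.Ka p + s • (S.Ka (p0 S) + Ca v) with hX
      have e1 : S.La p.2.1 = S.La (p0 S).2.1 + S.La v.2.1 := by
        rw [← map_add]
        congr 1
        rw [hpv]; rfl
      have e2 : S.La v.2.1 + Ca v = (X - Fa.starProjection X) -
          (1 - s) • (S.Ka p - S.Ka (p0 S) - Ca v) := by
        have h3 : X = S.Ka (p0 S) + Ca v + (1 - s) • (S.Ka p - S.Ka (p0 S) - Ca v) := by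
          rw [hX]; module
        have h4 : S.La v.2.1 = - S.La (p0 S).2.1 - Fa.starProjection X := by
          have := hA
          rw [e1] at this
          have h5 : S.La v.2.1 = (S.La (p0 S).2.1 + S.La v.2.1 + Fa.starProjection X) -
            S.La (p0 S).2.1 - Fa.starProjection X := by abel
          rw [h5, this]; abel
        have h6 : S.La (p0 S).2.1 = - S.Ka (p0 S) := eq_neg_of_add_eq_zero_left sA
        rw [h4, h6]
        nth_rewrite 2 [h3]
        abel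
      have e3 : ‖X - Fa.starProjection X‖ ≤ 2 * ε₀ := by
        have h3 : X - Fa.starProjection X = (1 - s) • (S.Ka p - Fa.starProjection (S.Ka p)) +
            s • ((S.Ka (p0 S) - Fa.starProjection (S.Ka (p0 S))) +
              (Ca v - Fa.starProjection (Ca v))) := by
          rw [hX, map_add, map_smul, map_smul, map_add]; module
        rw [h3]
        refine (norm_add_le _ _).trans ?_
        rw [norm_smul, norm_smul, Real.norm_of_nonneg hs1, Real.norm_of_nonneg hs0]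
        have h5 := (norm_add_le (S.Ka (p0 S) - Fa.starProjection (S.Ka (p0 S)))
          (Ca v - Fa.starProjection (Ca v))).trans
          (add_le_add (eA _ hp0) ((eA' v).trans hc1))
        have h6 := mul_le_mul_of_nonneg_left (eA _ hpR) hs1
        have h7 := mul_le_mul_of_nonneg_left h5 hs0
        nlinarith
      rw [e2]
      refine (norm_sub_le _ _).trans ?_
      rw [norm_smul, Real.norm_of_nonneg hs1]
      have h8 : (1 - s) * ‖S.Ka p - S.Ka (p0 S) - Ca v‖ ≤ 1 * (c / 4 * ‖v‖) :=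
        mul_le_mul (by linarith) l1 (norm_nonneg _) zero_le_one
      linarith
    have gP : ‖S.Lp v.2.2 + Cp v‖ ≤ c / 4 * ‖v‖ + 2 * ε₀ := by
      rw [hPl] at hP
      set X := (1 - s) • S.Kp p + s • (S.Kp (p0 S) + Cp v) with hX
      have e1 : S.Lp p.2.2 = S.Lp (p0 S).2.2 + S.Lp v.2.2 := by
        rw [← map_add]
        congr 1
        rw [hpv]; rfl
      have e2 : S.Lp v.2.2 + Cp v = (X - W'.starProjection X) -
          (1 - s) • (S.Kp p - S.Kp (p0 S) - Cp v) := by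
        have h3 : X = S.Kp (p0 S) + Cp v + (1 - s) • (S.Kp p - S.Kp (p0 S) - Cp v) := by
          rw [hX]; module
        have h4 : S.Lp v.2.2 = - S.Lp (p0 S).2.2 - W'.starProjection X := by
          have := hP
          rw [e1] at this
          have h5 : S.Lp v.2.2 = (S.Lp (p0 S).2.2 + S.Lp v.2.2 + W'.starProjection X) -
            S.Lp (p0 S).2.2 - W'.starProjection X := by abel
          rw [h5, this]; abel
        have h6 : S.Lp (p0 S).2.2 = - S.Kp (p0 S) := eq_neg_of_add_eq_zero_left sP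
        rw [h4, h6]
        nth_rewrite 2 [h3]
        abel
      have e3 : ‖X - W'.starProjection X‖ ≤ 2 * ε₀ := by
        have h3 : X - W'.starProjection X = (1 - s) • (S.Kp p - W'.starProjection (S.Kp p)) +
            s • ((S.Kp (p0 S) - W'.starProjection (S.Kp (p0 S))) +
              (Cp v - W'.starProjection (Cp v))) := by
          rw [hX, map_add, map_smul, map_smul, map_add]; module
        rw [h3]
        refine (norm_add_le _ _).trans ?_
        rw [norm_smul, norm_smul, Real.norm_of_nonneg hs1, Real.norm_of_nonneg hs0]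
        have h5 := (norm_add_le (S.Kp (p0 S) - W'.starProjection (S.Kp (p0 S)))
          (Cp v - W'.starProjection (Cp v))).trans
          (add_le_add (eP _ hp0) ((eP' v).trans hc1))
        have h6 := mul_le_mul_of_nonneg_left (eP _ hpR) hs1
        have h7 := mul_le_mul_of_nonneg_left h5 hs0
        nlinarith
      rw [e2]
      refine (norm_sub_le _ _).trans ?_
      rw [norm_smul, Real.norm_of_nonneg hs1]
      have h8 : (1 - s) * ‖S.Kp p - S.Kp (p0 S) - Cp v‖ ≤ 1 * (c / 4 * ‖v‖) :=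
        mul_le_mul (by linarith) l2 (norm_nonneg _) zero_le_one
      linarith
    have gR : |Dρ v| ≤ c / 4 * ‖v‖ + 2 * ε₀ := by
      rw [sR, sub_zero, Real.norm_eq_abs] at l3
      have e : Dρ v = -((1 - s) * (S.ρ p - Dρ v)) := by
        linear_combination hρ
      rw [e, abs_neg, abs_mul, abs_of_nonneg hs1]
      have h8 : (1 - s) * |S.ρ p - Dρ v| ≤ 1 * (c / 4 * ‖v‖) :=
        mul_le_mul (by linarith) l3 (abs_nonneg _) zero_le_one
      linarith
    have h9 := (hDl v).trans (norm_D_le S hD gA gP gR)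
    have h10 : 3 * (c * ‖v‖) ≤ 8 * ε₀ := by linarith
    have h11 : c * ‖v‖ ≤ c * (δ / 2) := by nlinarith
    exact le_of_mul_le_mul_left h11 hc
  · -- lin
    intro v hA hP hρ
    rw [hPl] at hP
    have gA : ‖S.La v.2.1 + Ca v‖ ≤ ε₀ * ‖v‖ := by
      have e : S.La v.2.1 + Ca v = Ca v - Fa.starProjection (Ca v) := by
        rw [eq_sub_iff_add_eq, add_right_comm, hA, zero_add]
      rw [e]; exact eA' v
    have gP : ‖S.Lp v.2.2 + Cp v‖ ≤ ε₀ * ‖v‖ := by
      have e : S.Lp v.2.2 + Cp v = Cp v - W'.starProjection (Cp v) := by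
        rw [eq_sub_iff_add_eq, add_right_comm, hP, zero_add]
      rw [e]; exact eP' v
    have gR : |Dρ v| ≤ ε₀ * ‖v‖ := by rw [hρ, abs_zero]; positivity
    have h9 := (hDl v).trans (norm_D_le S hD gA gP gR)
    by_contra hv
    have hv0 : 0 < ‖v‖ := norm_pos_iff.2 hv
    nlinarith
  · -- aff
    intro p hA hP hρ
    rw [hPl] at hP
    set v := p - p0 S with hv
    have hpv : p = p0 S + v := by rw [hv]; abel
    have gA : ‖S.La v.2.1 + Ca v‖ ≤ ε₀ + ε₀ * ‖v‖ := by
      have e1 : S.La p.2.1 = S.La (p0 S).2.1 + S.La v.2.1 := by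
        rw [← map_add]
        congr 1
        rw [hpv]; rfl
      have e : S.La v.2.1 + Ca v = (S.Ka (p0 S) - Fa.starProjection (S.Ka (p0 S))) +
          (Ca v - Fa.starProjection (Ca v)) := by
        rw [e1, map_add] at hA
        have h6 : S.La (p0 S).2.1 = - S.Ka (p0 S) := eq_neg_of_add_eq_zero_left sA
        rw [h6] at hA
        have h7 : S.La v.2.1 + Ca v = (-S.Ka (p0 S) + S.La v.2.1 +
          (Fa.starProjection (S.Ka (p0 S)) + Fa.starProjection (Ca v))) +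
          (S.Ka (p0 S) - Fa.starProjection (S.Ka (p0 S))) +
          (Ca v - Fa.starProjection (Ca v)) := by abel
        rw [h7, hA, zero_add]
      rw [e]
      exact (norm_add_le _ _).trans (add_le_add (eA _ hp0) (eA' v))
    have gP : ‖S.Lp v.2.2 + Cp v‖ ≤ ε₀ + ε₀ * ‖v‖ := by
      have e1 : S.Lp p.2.2 = S.Lp (p0 S).2.2 + S.Lp v.2.2 := by
        rw [← map_add]
        congr 1
        rw [hpv]; rfl
      have e : S.Lp v.2.2 + Cp v = (S.Kp (p0 S) - W'.starProjection (S.Kp (p0 S))) +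
          (Cp v - W'.starProjection (Cp v)) := by
        rw [e1, map_add] at hP
        have h6 : S.Lp (p0 S).2.2 = - S.Kp (p0 S) := eq_neg_of_add_eq_zero_left sP
        rw [h6] at hP
        have h7 : S.Lp v.2.2 + Cp v = (-S.Kp (p0 S) + S.Lp v.2.2 +
          (W'.starProjection (S.Kp (p0 S)) + W'.starProjection (Cp v))) +
          (S.Kp (p0 S) - W'.starProjection (S.Kp (p0 S))) +
          (Cp v - W'.starProjection (Cp v)) := by abel
        rw [h7, hP, zero_add]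
      rw [e]
      exact (norm_add_le _ _).trans (add_le_add (eP _ hp0) (eP' v))
    have gR : |Dρ v| ≤ ε₀ + ε₀ * ‖v‖ := by rw [hρ, abs_zero]; positivity
    have h9 := (hDl v).trans (norm_D_le S hD gA gP gR)
    have hvn := norm_nonneg v
    have h10 : ε₀ * ‖v‖ ≤ c / 8 * ‖v‖ := mul_le_mul_of_nonneg_right (by linarith) hvn
    have h11 : c * ‖v‖ < c * δ := by nlinarith
    exact lt_of_mul_lt_mul_left h11 hc.le

end main

end Crest.Agent.R235.FB5_785
end

-- ▼ part R224/T/TopA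
section

set_option autoImplicit false

noncomputable section

namespace Crest.Agent.R224.T

theorem nDD : NDD := fun _ _ n c => bd_bd n c



theorem nMan_of (hS : NSub) : NMan :=
  man_holds (exc_holds hS) (nStar nDD hS nPrism) (nLocAll nPrism hS (nFill nPrism))


end Crest.Agent.R224.T
end
end

-- ▼ part R235/FA1_365
section

/-!
Row 235, package FD-A, topological half, part 1 (helper365): fundamental chains (mod 2) around a
compact subset of a topological manifold which need not be compact.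
-/

set_option autoImplicit false

noncomputable section

open Topology Set Filter

namespace Crest.Agent.R235.FA1_365

open Crest.Agent.R224.T Crest.Agent.R224.TM

theorem hS : NSub := nSub (nFill nPrism)
theorem hF : NFill := nFill nPrism
theorem hL : NLocAll := nLocAll nPrism hS hF
theorem hSt : NStar := Crest.Agent.R224.T.nStar nDD hS nPrism
theorem hE : NExc := exc_holds hS
theorem hM : NMan := nMan_of hS
theorem hC : NClass := nClass hE hL hSt
theorem hUM : NUniqM := nUniqM hE (nUniq nDD hS nPrism hL)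

variable {d : ℕ} {Y : Type} [TopologicalSpace Y] [T2Space Y] [ChartedSpace (EE (d + 1)) Y]

/-- fundamental chain over a compact set -/
theorem fund0 {K : Set Y} (hK : IsCompact K) :
    ∃ c : Ch (d + 1) Y, RC Kᶜ c ∧ ∀ p ∈ K, ¬ Nul {p}ᶜ c := by
  classical
  let S := chTh nDD hS Y
  have L1 : ∀ (x : Y) (w w' : S.C (d + 1)), S.d d w ∈ S.In {x}ᶜ d → S.d d w' ∈ S.In {x}ᶜ d →
      ¬ S.Null {x} (d + 1) w → ¬ S.Null {x} (d + 1) w' → S.Null {x} (d + 1) (w + w') := by
    intro x w w' hw hw' h1 h2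
    refine (null_iff_nul nDD hS {x} _).2 ?_
    refine (hM d Y).2.1 x w w' hw hw' ?_ ?_
    · exact fun h => h1 ((null_iff_nul nDD hS {x} _).2 h)
    · exact fun h => h2 ((null_iff_nul nDD hS {x} _).2 h)
  have L2 : ∀ x : Y, ∃ B : Set Y, IsCompact B ∧ B ∈ nhds x ∧ (∃ w, Fund S B d w) ∧
      ∀ K : Set Y, IsCompact K → K ⊆ B → ∀ w : S.C (d + 1), S.d d w ∈ S.In Kᶜ d →
        (∀ y ∈ K, S.Null {y} (d + 1) w) → S.Null K (d + 1) w := by
    intro x
    obtain ⟨K, hKn, hKc, ⟨y, hy⟩, c, hc, hcn⟩ := hC d Y x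
    refine ⟨K, hKc, hKn, ⟨c, hc, ?_⟩, ?_⟩
    · intro q hq hn
      exact hcn q hq ((null_iff_nul nDD hS {q} c).1 hn)
    · intro L hL hLK w hw hn
      refine (null_iff_nul nDD hS L w).2 ?_
      refine hUM d Y y L hL (hLK.trans hy) w hw ?_
      intro p hp
      exact (null_iff_nul nDD hS {p} w).1 (hn p hp)
  choose B hBc hBn hBw hBK using L2
  obtain ⟨t, -, ht⟩ := hK.elim_nhds_subcover B (fun x _ => hBn x)
  have key : ∀ s : Finset Y, ∃ w, Fund S (⋃ x ∈ s, B x) d w := by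
    intro s
    induction s using Finset.induction_on with
    | empty =>
      refine ⟨0, ?_, by simp⟩
      rw [map_zero]; exact AddSubgroup.zero_mem _
    | insert a s ha ih =>
      obtain ⟨w, hw⟩ := ih
      obtain ⟨w', hw'⟩ := hBw a
      rw [Finset.set_biUnion_insert, union_comm]
      have hAc : IsCompact (⋃ x ∈ s, B x) := s.isCompact_biUnion fun x _ => hBc x
      refine Fund.union hAc.isClosed (hBc a).isClosed hw hw' ?_
      refine hBK a _ (hAc.inter (hBc a)) inter_subset_right _ ?_ ?_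
      · rw [map_add, compl_inter]
        exact AddSubgroup.add_mem _ (S.In_mono d subset_union_left hw.1)
          (S.In_mono d subset_union_right hw'.1)
      · intro y hy
        refine L1 y w w' ?_ ?_ (hw.2 y hy.1) (hw'.2 y hy.2)
        · exact S.In_mono d (compl_subset_compl.2 (singleton_subset_iff.2 hy.1)) hw.1
        · exact S.In_mono d (compl_subset_compl.2 (singleton_subset_iff.2 hy.2)) hw'.1
  obtain ⟨w, hw⟩ := key t
  refine ⟨w, ?_, ?_⟩
  · have h1 : S.d d w ∈ S.In Kᶜ d := S.In_mono d (compl_subset_compl.2 ht) hw.1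
    exact h1
  · intro p hp hn
    exact hw.2 p (ht hp) ((null_iff_nul nDD hS {p} w).2 hn)

/-- fundamental chain over a compact set, subordinate to an open cover -/
theorem fund {K : Set Y} (hK : IsCompact K) (𝒰 : Set (Set Y)) (h𝒰 : ∀ U ∈ 𝒰, IsOpen U)
    (hcov : ⋃₀ 𝒰 = univ) :
    ∃ c : Ch (d + 1) Y, RC Kᶜ c ∧ Small 𝒰 c ∧ ∀ p ∈ K, ¬ Nul {p}ᶜ c := by
  obtain ⟨c, hc, hn⟩ := fund0 (d := d) hK
  obtain ⟨O, hO⟩ := hS Y
  obtain ⟨k, hk⟩ := (hO 𝒰 h𝒰 (d + 1) c (by rw [hcov]; exact fun σ _ => subset_univ _)).exists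
  have hin : In Kᶜ (bd d ((O k).s (d + 1) c)) := by
    rw [(O k).bd_s]
    exact SubOp.in_s _ hc
  refine ⟨(O k).s (d + 1) c, hin, hk, ?_⟩
  intro p hp hnul
  apply hn p hp
  have h1 := (O k).bd_h d c
  -- c = s c + bd h c + h bd c
  have h2 : c = (O k).s (d + 1) c + (bd (d + 1) ((O k).h (d + 1) c) + (O k).h d (bd d c)) := by
    have e1 := ch_two ((O k).s (d + 1) c)
    have e2 := ch_two ((O k).h d (bd d c))
    rw [h1]
    calc c = c + ((O k).s (d + 1) c + (O k).s (d + 1) c)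
          + ((O k).h d (bd d c) + (O k).h d (bd d c)) := by rw [e1, e2, add_zero, add_zero]
      _ = _ := by abel
  rw [h2]
  refine nul_add hnul ⟨(O k).h (d + 1) c, (O k).h d (bd d c), ?_, rfl⟩
  exact in_mono (compl_subset_compl.2 (singleton_subset_iff.2 hp)) (SubOp.in_h _ hc)

end Crest.Agent.R235.FA1_365
end
end

-- ▼ part R235/FA2_365
section

/-!
Row 235, package FD-A, topological half, part 2 (helper365): chains on a space with a free
involution: norms, transfer for the quotient map.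
-/

set_option autoImplicit false

noncomputable section

open Topology Set Filter

namespace Crest.Agent.R235.FA2_365

open Crest.Agent.R224.T

/-- a set of representatives of a free involution -/
theorem exists_half {α : Type*} (j : α → α) (h1 : ∀ a, j (j a) = a) (h2 : ∀ a, j a ≠ a) :
    ∃ R : Set α, ∀ a, j a ∈ R ↔ a ∉ R := by
  let s : Setoid α :=
    { r := fun a b => b = a ∨ b = j a
      iseqv := ⟨fun a => Or.inl rfl, by
        rintro a b (rfl | rfl)
        · exact Or.inl rfl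
        · exact Or.inr (h1 a).symm, by
        rintro a b c (rfl | rfl) (rfl | rfl)
        · exact Or.inl rfl
        · exact Or.inr rfl
        · exact Or.inr rfl
        · exact Or.inl (h1 a)⟩ }
  refine ⟨{a | (Quotient.mk s a).out = a}, fun a => ?_⟩
  have e : Quotient.mk s (j a) = Quotient.mk s a := Quotient.sound (s := s) (Or.inr (h1 a).symm)
  have h3 : a = (Quotient.mk s a).out ∨ a = j (Quotient.mk s a).out := Quotient.mk_out (s := s) a
  show (Quotient.mk s (j a)).out = j a ↔ ¬ ((Quotient.mk s a).out = a)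
  rw [e]
  constructor
  · intro h h'
    exact h2 a (h.symm.trans h')
  · intro h
    rcases h3 with h3 | h3
    · exact absurd h3.symm h
    · rw [h3, h1]
      exact congrArg _ (by rw [← h3])

variable {X : Type} [TopologicalSpace X]

/-- an invariant chain is the norm of half of its support -/
theorem norm_of_inv {ι : C(X, X)} (h1 : ∀ x, ι (ι x) = x) (h2 : ∀ x, ι x ≠ x) {n : ℕ}
    (c : Ch n X) (hc : push ι n c = c) :
    ∃ c' : Ch n X, c = c' + push ι n c' ∧ c'.support ⊆ c.support := by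
  classical
  have k1 : ∀ σ : C(Dl n, X), ι.comp (ι.comp σ) = σ := by
    intro σ; ext x; exact h1 _
  have k2 : ∀ σ : C(Dl n, X), ι.comp σ ≠ σ := by
    intro σ h
    have : Nonempty (Dl n) := inferInstance
    obtain ⟨y⟩ := this
    exact h2 (σ y) (DFunLike.congr_fun h y)
  obtain ⟨R, hR⟩ := exists_half (fun σ : C(Dl n, X) => ι.comp σ) k1 k2
  have hinj : Function.Injective fun σ : C(Dl n, X) => ι.comp σ := by
    intro σ τ h
    have := congrArg (fun σ : C(Dl n, X) => ι.comp σ) h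
    simp only [k1] at this
    exact this
  have hap : ∀ (u : Ch n X) (σ : C(Dl n, X)), push ι n u σ = u (ι.comp σ) := by
    intro u σ
    have h3 : push ι n u (ι.comp (ι.comp σ)) = u (ι.comp σ) := by
      unfold push
      rw [Finsupp.lmapDomain_apply]
      exact Finsupp.mapDomain_apply hinj u (ι.comp σ)
    rwa [k1] at h3
  refine ⟨c.filter (· ∈ R), ?_, ?_⟩
  · ext σ
    have h4 : c (ι.comp σ) = c σ := by
      rw [← hap, hc]
    rw [Finsupp.add_apply, hap, Finsupp.filter_apply, Finsupp.filter_apply, h4]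
    by_cases h : σ ∈ R
    · have h5 : ι.comp σ ∉ R := fun h6 => ((hR σ).1 h6) h
      rw [if_pos h, if_neg h5, add_zero]
    · have h5 : ι.comp σ ∈ R := (hR σ).2 h
      rw [if_neg h, if_pos h5, zero_add]
  · rw [Finsupp.support_filter]
    exact Finset.filter_subset _ _

/-- if two simplices have the same image in the quotient, they differ by `ι` -/
theorem lift_unique {Q : Type} [TopologicalSpace Q] [T2Space X] {ι : C(X, X)}
    (h2 : ∀ x, ι x ≠ x) {π : C(X, Q)} (hπ : ∀ x y, π x = π y → y = x ∨ y = ι x) {n : ℕ}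
    {σ τ : C(Dl n, X)} (h : π.comp σ = π.comp τ) : τ = σ ∨ τ = ι.comp σ := by
  have hcl1 : IsClosed {y | τ y = σ y} := isClosed_eq τ.continuous σ.continuous
  have hcl2 : IsClosed {y | τ y = ι (σ y)} :=
    isClosed_eq τ.continuous (ι.continuous.comp σ.continuous)
  have hun : {y | τ y = σ y} ∪ {y | τ y = ι (σ y)} = univ := by
    refine eq_univ_of_forall fun y => ?_
    exact hπ _ _ (DFunLike.congr_fun h y)
  have hdis : {y | τ y = σ y} ∩ {y | τ y = ι (σ y)} = ∅ := by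
    refine eq_empty_of_forall_notMem fun y hy => ?_
    have e1 : τ y = σ y := hy.1
    have e2 : τ y = ι (σ y) := hy.2
    exact h2 _ (e2.symm.trans e1)
  have hclopen : IsClopen {y | τ y = σ y} := by
    refine ⟨hcl1, ?_⟩
    have : {y | τ y = σ y} = {y | τ y = ι (σ y)}ᶜ := by
      ext y
      constructor
      · intro h3 h4
        exact (eq_empty_iff_forall_notMem.1 hdis y) ⟨h3, h4⟩
      · intro h3
        rcases (eq_univ_iff_forall.1 hun y) with h4 | h4
        · exact h4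
        · exact absurd h4 h3
    rw [this]
    exact hcl2.isOpen_compl
  rcases isClopen_iff.1 hclopen with h5 | h5
  · right
    ext y
    rcases (eq_univ_iff_forall.1 hun y) with h4 | h4
    · rw [h5] at h4; exact absurd h4 (notMem_empty _)
    · exact h4
  · left
    ext y
    have : y ∈ {y | τ y = σ y} := by rw [h5]; trivial
    exact this

section transfer

variable {Q : Type} [TopologicalSpace Q] [T2Space X] (ι : C(X, X)) (π : C(X, Q))

open Classical in
/-- sum of the two lifts of a simplex -/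
def trs (n : ℕ) (τ : C(Dl n, Q)) : Ch n X :=
  if h : ∃ σ : C(Dl n, X), π.comp σ = τ then
    Finsupp.single h.choose 1 + Finsupp.single (ι.comp h.choose) 1 else 0

/-- the transfer -/
def tr (n : ℕ) : Ch n Q →ₗ[ZMod 2] Ch n X :=
  Finsupp.linearCombination (ZMod 2) (trs ι π n)

variable {ι π}

theorem tr_single (h1 : ∀ x, ι (ι x) = x) (h2 : ∀ x, ι x ≠ x)
    (hπ : ∀ x y, π x = π y → y = x ∨ y = ι x) {n : ℕ} (σ : C(Dl n, X)) :
    tr ι π n (Finsupp.single (π.comp σ) 1) =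
      Finsupp.single σ 1 + Finsupp.single (ι.comp σ) 1 := by
  have hex : ∃ σ' : C(Dl n, X), π.comp σ' = π.comp σ := ⟨σ, rfl⟩
  unfold tr
  rw [Finsupp.linearCombination_single, one_smul]
  unfold trs
  rw [dif_pos hex]
  have hu := lift_unique h2 hπ hex.choose_spec
  generalize hex.choose = ρ at hu
  rcases hu with h | h
  · rw [← h]
  · have h3 : ι.comp σ = ρ := by
      rw [h]; ext y; exact h1 _
    rw [h3, add_comm, ← h]

/-- transfer of a push forward = norm -/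
theorem tr_push (h1 : ∀ x, ι (ι x) = x) (h2 : ∀ x, ι x ≠ x)
    (hπ : ∀ x y, π x = π y → y = x ∨ y = ι x) {n : ℕ} (c : Ch n X) :
    tr ι π n (push π n c) = c + push ι n c := by
  have : (tr ι π n).comp (push π n) = LinearMap.id + push ι n := by
    refine Loc.lin_ext fun σ => ?_
    simp only [LinearMap.comp_apply, LinearMap.add_apply, LinearMap.id_apply, Loc.push_single]
    exact tr_single h1 h2 hπ σ
  exact congrArg (fun L : Ch n X →ₗ[ZMod 2] Ch n X => L c) this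

theorem in_tr (hιπ : ∀ x, π (ι x) = π x) {n : ℕ} {A : Set Q} {c : Ch n Q} (hc : In A c) :
    In (π ⁻¹' A) (tr ι π n c) := by
  refine in_map (tr ι π n) (fun τ hτ => ?_) hc
  unfold tr
  rw [Finsupp.linearCombination_single, one_smul]
  unfold trs
  split_ifs with h
  · have h3 := h.choose_spec
    generalize h.choose = ρ at h3
    refine in_add (in_single ?_ 1) (in_single ?_ 1)
    · rintro _ ⟨y, rfl⟩
      refine hτ ⟨y, ?_⟩
      rw [← h3]; rfl
    · rintro _ ⟨y, rfl⟩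
      refine hτ ⟨y, ?_⟩
      have : π (ι (ρ y)) = π (ρ y) := hιπ _
      rw [← h3]
      exact this.symm
  · exact in_zero _ _

end transfer

end Crest.Agent.R235.FA2_365
end
end

-- ▼ part R235/FA3_365
section

/-!
Row 235, package FD-A, topological half, part 3 (helper365): Smith towers of mod 2 chains.
-/

set_option autoImplicit false

noncomputable section

open Topology Set Filter

namespace Crest.Agent.R235.FA3_365

open Crest.Agent.R224.T Crest.Agent.R235.FA2_365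

section tow
variable {X : Type} [TopologicalSpace X] {Y : Type} [TopologicalSpace Y]

/-- Smith tower: `x` has boundary `u + (1+ι) x'`, `∂u = (1+ι) u'`, and so on -/
def Tow (ι : C(X, X)) (A B : Set X) : ∀ k : ℕ, Ch (k + 1) X → Ch k X → Prop
  | 0, x, u => In A u ∧ ∃ x' : Ch 0 X, In B x' ∧ bd 0 x = u + (x' + push ι 0 x')
  | k + 1, x, u => In A u ∧ ∃ (x' : Ch (k + 1) X) (u' : Ch k X), In B x' ∧
      bd (k + 1) x = u + (x' + push ι (k + 1) x') ∧ bd k u = u' + push ι k u' ∧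
      Tow ι A B k x' u'

theorem Tow.push' {ι : C(X, X)} {τ : C(Y, Y)} {F : C(X, Y)} (hF : F.comp ι = τ.comp F)
    {A B : Set X} {A' B' : Set Y} (hA : MapsTo F A A') (hB : MapsTo F B B') :
    ∀ (k : ℕ) (x : Ch (k + 1) X) (u : Ch k X), Tow ι A B k x u →
      Tow τ A' B' k (push F (k + 1) x) (push F k u)
  | 0, x, u, h => by
    obtain ⟨hu, x', hx', e⟩ := h
    refine ⟨Loc.in_push hu F hA, push F 0 x', Loc.in_push hx' F hB, ?_⟩
    rw [Loc.bd_push, e, map_add, map_add, Loc.push_push, hF, ← Loc.push_push]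
  | k + 1, x, u, h => by
    obtain ⟨hu, x', u', hx', e, e', ht⟩ := h
    refine ⟨Loc.in_push hu F hA, push F (k + 1) x', push F k u',
      Loc.in_push hx' F hB, ?_, ?_, Tow.push' hF hA hB k x' u' ht⟩
    · rw [Loc.bd_push, e, map_add, map_add, Loc.push_push, hF, ← Loc.push_push]
    · rw [Loc.bd_push, e', map_add, Loc.push_push, hF, ← Loc.push_push]

theorem in_of_supp {n : ℕ} {A : Set X} {c c' : Ch n X} (h : c'.support ⊆ c.support)
    (hc : In A c) : In A c' := fun σ hσ => hc σ (h hσ)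

/-- construction of the tower on a space with a free involution -/
theorem exists_tow {ι : C(X, X)} (h1 : ∀ x, ι (ι x) = x) (h2 : ∀ x, ι x ≠ x) {A B : Set X}
    (hAB : A ⊆ B) : ∀ (k : ℕ) (h : Ch (k + 1) X) (z : Ch k X), In B (bd k h) → In A z →
      push ι k (bd k h + z) = bd k h + z → Tow ι A B k h z
  | 0, h, z, hh, hz, e => by
    obtain ⟨x', ex, hx⟩ := norm_of_inv h1 h2 _ e
    refine ⟨hz, x', in_of_supp hx (in_add hh (in_mono hAB hz)), ?_⟩
    rw [← ex]
    have := ch_two z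
    calc bd 0 h = bd 0 h + (z + z) := by rw [this, add_zero]
      _ = _ := by abel
  | k + 1, h, z, hh, hz, e => by
    obtain ⟨x', ex, hx⟩ := norm_of_inv h1 h2 _ e
    have hx' : In B x' := in_of_supp hx (in_add hh (in_mono hAB hz))
    have ez : push ι k (bd k z) = bd k z := by
      have e1 : push ι (k + 1) (bd (k + 1) h) + push ι (k + 1) z = bd (k + 1) h + z := by
        rw [← map_add]; exact e
      have e2 := congrArg (bd k) e1
      rw [map_add, map_add, Loc.bd_push, Loc.bd_push, Loc.bd_bd, map_zero, zero_add, zero_add] at e2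
      exact e2
    obtain ⟨u', eu, hu⟩ := norm_of_inv h1 h2 _ ez
    have hu' : In A u' := in_of_supp hu (in_bd hz)
    have e3 : bd (k + 1) h = z + (x' + push ι (k + 1) x') := by
      rw [← ex]
      have := ch_two z
      calc bd (k + 1) h = bd (k + 1) h + (z + z) := by rw [this, add_zero]
        _ = _ := by abel
    refine ⟨hz, x', u', hx', e3, eu, ?_⟩
    refine exists_tow h1 h2 hAB k x' u' (in_bd hx') hu' ?_
    -- `∂x' + ι ∂x' = ∂z = u' + ι u'`
    have e4 : bd k x' + push ι k (bd k x') = bd k z := by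
      have := congrArg (bd k) e3
      rw [Loc.bd_bd, map_add, map_add, Loc.bd_push] at this
      have t := ch_two (bd k z)
      calc bd k x' + push ι k (bd k x') = (bd k z + bd k z) + (bd k x' + push ι k (bd k x')) := by
            rw [t, zero_add]
        _ = bd k z + (bd k z + (bd k x' + push ι k (bd k x'))) := by abel
        _ = _ := by rw [← this, add_zero]
    rw [eu] at e4
    -- so `(1+ι)(∂x' + u') = 0`
    rw [map_add]
    have t1 := ch_two (bd k x')
    have t2 := ch_two (push ι k u')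
    calc push ι k (bd k x') + push ι k u'
        = (bd k x' + bd k x') + (push ι k (bd k x') + push ι k u') := by rw [t1, zero_add]
      _ = bd k x' + (bd k x' + push ι k (bd k x')) + push ι k u' := by abel
      _ = bd k x' + u' + (push ι k u' + push ι k u') := by rw [e4]; abel
      _ = _ := by rw [t2, add_zero]

end tow

end Crest.Agent.R235.FA3_365
end
end

-- ▼ part R235/FA4_365
section

/-!
Row 235, package FD-A, topological half, part 4 (helper365): the top of a Smith tower in `ℝⁿ` (whose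
`u`-part avoids the half line `-ℝ₊ e`, `τ e = e`) is null in the local homology at `0`.
-/

set_option autoImplicit false

noncomputable section

open Topology Set Filter

namespace Crest.Agent.R235.FA4_365

open Crest.Agent.R224.T Crest.Agent.R235.FA1_365 Crest.Agent.R235.FA2_365
open Crest.Agent.R235.FA3_365

/-- complement of the half line `-ℝ₊ e` -/
def V1 {n : ℕ} (e : EE n) : Set (EE n) := {y | ¬ ∃ s : ℝ, 0 ≤ s ∧ y = -(s • e)}

theorem mem_V1_self {n : ℕ} {e : EE n} (he : e ≠ 0) : e ∈ V1 e := by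
  rintro ⟨s, hs, h⟩
  have h1 : (1 + s) • e = 0 := by
    rw [add_smul, one_smul]
    nth_rewrite 1 [h]
    simp
  rcases smul_eq_zero.1 h1 with h2 | h2
  · linarith
  · exact he h2

theorem star_V1 {n : ℕ} {e : EE n} (he : e ≠ 0) : StarConvex ℝ e (V1 e) := by
  intro y hy a b ha hb hab
  rintro ⟨s, hs, h⟩
  rcases hb.eq_or_lt with hb | hb
  · subst hb
    have ha1 : a = 1 := by linarith
    subst ha1
    refine mem_V1_self he ⟨s, hs, ?_⟩
    simpa using h
  · apply hy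
    refine ⟨(s + a) / b, by positivity, ?_⟩
    have h1 : b • y = -((s + a) • e) := by
      have : b • y = (a • e + b • y) - a • e := by abel
      rw [this, h, add_smul]
      abel
    have h2 : y = b⁻¹ • (b • y) := by rw [smul_smul, inv_mul_cancel₀ hb.ne', one_smul]
    rw [h2, h1, smul_neg, smul_smul]
    congr 2
    field_simp

theorem V1_sub {n : ℕ} {e : EE n} : V1 e ⊆ ({0}ᶜ : Set (EE n)) := by
  intro y hy h0
  rw [mem_singleton_iff] at h0
  exact hy ⟨0, le_refl _, by rw [h0]; simp⟩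

/-- cycles, with augmentation zero in degree zero -/
def Cyc {X : Type} [TopologicalSpace X] : ∀ k : ℕ, Ch k X → Prop
  | 0, c => LB.aug c = 0
  | k + 1, c => bd k c = 0


theorem Cyc.add' {X : Type} [TopologicalSpace X] : ∀ {k : ℕ} {c c' : Ch k X}, Cyc k c → Cyc k c' →
    Cyc k (c + c')
  | 0, c, c', h, h' => by
    show LB.aug _ = 0
    rw [map_add]
    have h1 : LB.aug c = 0 := h
    have h2 : LB.aug c' = 0 := h'
    rw [h1, h2, add_zero]
  | k + 1, c, c', h, h' => by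
    show bd k _ = 0
    rw [map_add]
    have h1 : bd k c = 0 := h
    have h2 : bd k c' = 0 := h'
    rw [h1, h2, add_zero]

/-- filling in the complement of the half line -/
theorem fillV1 {n : ℕ} {e : EE n} (he : e ≠ 0) : ∀ (k : ℕ) (c : Ch k (EE n)), In (V1 e) c →
    Cyc k c → ∃ w : Ch (k + 1) (EE n), In (V1 e) w ∧ bd k w = c := by
  have hc : ContractibleSpace (V1 e) := (star_V1 he).contractibleSpace ⟨e, mem_V1_self he⟩
  intro k c h1 h2
  match k, c, h1, h2 with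
  | 0, c, h1, h2 =>
    have hpc : IsPathConnected (V1 e) := by
      rw [isPathConnected_iff_pathConnectedSpace]
      infer_instance
    exact LB.fill0 hpc h1 h2
  | k + 1, c, h1, h2 => exact LB.fill_in hF (V1 e) h1 h2

/-- filling in the punctured space below the top degree -/
theorem fillV0 {d : ℕ} : ∀ (k : ℕ), k < d → ∀ (c : Ch k (EE (d + 1))), In {0}ᶜ c →
    Cyc k c → ∃ w : Ch (k + 1) (EE (d + 1)), In {0}ᶜ w ∧ bd k w = c := by
  intro k hk c h1 h2
  match k, c, hk, h1, h2 with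
  | 0, c, hk, h1, h2 =>
    have hpc : IsPathConnected ({0}ᶜ : Set (EE (d + 1))) := by
      refine isPathConnected_compl_singleton_of_one_lt_rank ?_ 0
      rw [← Module.finrank_eq_rank, finrank_euclideanSpace_fin]
      exact_mod_cast Nat.lt_of_lt_of_le (by norm_num) (Nat.succ_le_succ hk)
    exact LB.fill0 hpc h1 h2
  | k + 1, c, hk, h1, h2 =>
    have hcs : ContractibleSpace (EE (d + 1)) := inferInstance
    obtain ⟨b, hb⟩ := hF (EE (d + 1)) k c h2
    have hrc : RC {0}ᶜ b := by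
      show In _ _
      rw [hb]; exact h1
    obtain ⟨b', e', he', hbe⟩ := (hL d).1 (k + 1) b (by omega) hrc
    refine ⟨e', he', ?_⟩
    rw [← hb, hbe, map_add, Loc.bd_bd, zero_add]

variable {d : ℕ}

/-- `(1 + τ) c` -/
abbrev nm (τ : C(EE (d + 1), EE (d + 1))) {k : ℕ} (c : Ch k (EE (d + 1))) : Ch k (EE (d + 1)) :=
  c + push τ k c

theorem nm_add (τ : C(EE (d + 1), EE (d + 1))) {k : ℕ} (c c' : Ch k (EE (d + 1))) :
    nm τ (c + c') = nm τ c + nm τ c' := by
  simp only [nm, map_add]; abel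

theorem nm_bd (τ : C(EE (d + 1), EE (d + 1))) {k : ℕ} (c : Ch (k + 1) (EE (d + 1))) :
    nm τ (bd k c) = bd k (nm τ c) := by
  simp only [nm, map_add, Loc.bd_push]

theorem nm_nm {τ : C(EE (d + 1), EE (d + 1))} (hτ : ∀ x, τ (τ x) = x) {k : ℕ}
    (c : Ch k (EE (d + 1))) : nm τ (nm τ c) = 0 := by
  have h1 : push τ k (push τ k c) = c := by
    rw [Loc.push_push]
    have : τ.comp τ = ContinuousMap.id _ := by ext1 x; exact hτ x
    rw [this, Loc.push_id]
  simp only [nm, map_add, h1]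
  have e1 := ch_two c
  have e2 := ch_two (push τ k c)
  calc c + push τ k c + (push τ k c + c) = (c + c) + (push τ k c + push τ k c) := by abel
    _ = 0 := by rw [e1, e2, add_zero]

theorem aug_nm (τ : C(EE (d + 1), EE (d + 1))) (c : Ch 0 (EE (d + 1))) :
    LB.aug (nm τ c) = 0 := by
  have h1 : LB.aug (push τ 0 c) = LB.aug c := by
    refine chain_ind (P := fun c => LB.aug (push τ 0 c) = LB.aug c) c (by simp) ?_ ?_
    · intro a b ha hb
      rw [map_add, map_add, map_add, ha, hb]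
    · intro σ
      rw [Loc.push_single]
      unfold LB.aug
      rw [LB.cnt_single, LB.cnt_single]
  rw [map_add, h1]
  exact (by decide : ∀ a : ZMod 2, a + a = 0) _

/-- the claim proved by going up the tower -/
theorem tow_claim {τ : C(EE (d + 1), EE (d + 1))} (hτ : ∀ x, τ (τ x) = x) (hτ0 : τ 0 = 0)
    {e : EE (d + 1)} (he : e ≠ 0) (hτe : τ e = e) (hτV : MapsTo τ (V1 e) (V1 e)) :
    ∀ (k : ℕ), k ≤ d → ∀ (x : Ch (k + 1) (EE (d + 1))) (u : Ch k (EE (d + 1))),
      Tow τ (V1 e) {0}ᶜ k x u →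
      ∃ (y : Ch (k + 1) (EE (d + 1))) (ζ : Ch k (EE (d + 1))), In (V1 e) y ∧ In {0}ᶜ ζ ∧
        Cyc k ζ ∧ bd k (x + y) = nm τ ζ ∧ nm τ (bd k y) = nm τ u := by
  have hτ' : MapsTo τ ({0}ᶜ : Set (EE (d + 1))) {0}ᶜ := by
    intro x hx h0
    apply hx
    have h1 : τ (τ x) = τ 0 := by rw [mem_singleton_iff.1 h0]
    rw [hτ, hτ0] at h1
    exact h1
  intro k
  induction k with
  | zero =>
    intro _ x u h
    obtain ⟨hu, x', hx', e1⟩ := h
    let p : Ch 0 (EE (d + 1)) := Finsupp.single (LB.cst 0 e) 1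
    have hp1 : In (V1 e) p := in_single (by
      rintro _ ⟨z, rfl⟩; exact mem_V1_self he) 1
    have hpa : LB.aug p = 1 := by
      show LB.aug (Finsupp.single _ 1) = 1
      unfold LB.aug; rw [LB.cnt_single]
    have hpn : nm τ p = 0 := by
      have : push τ 0 p = p := by
        show push τ 0 (Finsupp.single _ 1) = Finsupp.single _ 1
        rw [Loc.push_single]
        congr 1
        ext1 z
        exact hτe
      show p + push τ 0 p = 0
      rw [this, ch_two]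
    have hps : ∀ a : ZMod 2, nm τ (a • p) = 0 := by
      intro a
      show a • p + push τ 0 (a • p) = 0
      rw [map_smul, ← smul_add]
      have : p + push τ 0 p = 0 := hpn
      rw [this, smul_zero]
    obtain ⟨y, hy, ey⟩ := fillV1 he 0 (u + (LB.aug u) • p) (in_add hu (in_smul _ hp1)) (by
      show LB.aug _ = 0
      rw [map_add, map_smul, hpa, smul_eq_mul, mul_one]
      exact (by decide : ∀ a : ZMod 2, a + a = 0) _)
    have e2 : bd 0 (x + y) = nm τ x' + (LB.aug u) • p := by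
      rw [map_add, e1, ey]
      have t := ch_two u
      calc u + (x' + push τ 0 x') + (u + (LB.aug u) • p)
          = (u + u) + ((x' + push τ 0 x') + (LB.aug u) • p) := by abel
        _ = _ := by rw [t, zero_add]
    have ha : LB.aug u = 0 := by
      have h3 := LB.aug_bd (x + y)
      rw [e2, map_add, aug_nm, map_smul, hpa, zero_add, smul_eq_mul, mul_one] at h3
      exact h3
    refine ⟨y, x' + (LB.aug x') • p, hy, in_add hx' (in_smul _ (in_mono V1_sub hp1)), ?_, ?_, ?_⟩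
    · show LB.aug _ = 0
      rw [map_add, map_smul, hpa, smul_eq_mul, mul_one]
      exact (by decide : ∀ a : ZMod 2, a + a = 0) _
    · rw [nm_add, hps, add_zero, e2, ha, zero_smul, add_zero]
    · rw [ey, nm_add, hps, add_zero]
  | succ k ih =>
    intro hk x u h
    obtain ⟨hu, x', u', hx', e1, e2, ht⟩ := h
    obtain ⟨y', ζ', hy', hζ', hc', f1, f2⟩ := ih (by omega) x' u' ht
    -- fill `u + (1+τ) y'`
    have hcyc : Cyc (k + 1) (u + nm τ y') := by
      show bd k _ = 0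
      rw [map_add, ← nm_bd, f2, e2]
      exact ch_two _
    have hin : In (V1 e) (u + nm τ y') :=
      in_add hu (in_add hy' (Loc.in_push hy' τ hτV))
    obtain ⟨y, hy, ey⟩ := fillV1 he (k + 1) _ hin hcyc
    obtain ⟨w, hw, ew⟩ := fillV0 (d := d) k (by omega) ζ' hζ' hc'
    refine ⟨y, x' + y' + nm τ w, hy, ?_, ?_, ?_, ?_⟩
    · exact in_add (in_add hx' (in_mono V1_sub hy')) (in_add hw (Loc.in_push hw τ hτ'))
    · show bd k _ = 0
      rw [map_add, f1, ← nm_bd, ew]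
      exact ch_two _
    · rw [nm_add, nm_nm hτ, add_zero, map_add, e1, ey, nm_add]
      have t := ch_two u
      calc u + (x' + push τ (k + 1) x') + (u + nm τ y')
          = (u + u) + ((x' + push τ (k + 1) x') + nm τ y') := by abel
        _ = _ := by rw [t, zero_add]
    · rw [ey, nm_add, nm_nm hτ, add_zero]

/-- **the top of a Smith tower is null** -/
theorem nul_of_tow (hd : 1 ≤ d) {τ : C(EE (d + 1), EE (d + 1))} (hτ : ∀ x, τ (τ x) = x)
    (hτ0 : τ 0 = 0) {e : EE (d + 1)} (he : e ≠ 0) (hτe : τ e = e)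
    (hτV : MapsTo τ (V1 e) (V1 e)) (x : Ch (d + 1) (EE (d + 1))) (u : Ch d (EE (d + 1)))
    (h : Tow τ (V1 e) {0}ᶜ d x u) : Nul {0}ᶜ x := by
  obtain ⟨y, ζ, hy, hζ, hc, f1, f2⟩ := tow_claim hτ hτ0 he hτe hτV d le_rfl x u h
  obtain ⟨j, rfl⟩ : ∃ j, d = j + 1 := ⟨d - 1, by omega⟩
  have hcs : ContractibleSpace (EE (j + 1 + 1)) := inferInstance
  obtain ⟨g, hg⟩ := hF (EE (j + 1 + 1)) j ζ hc
  have hτ' : MapsTo τ ({0}ᶜ : Set (EE (j + 1 + 1))) {0}ᶜ := by
    intro x hx h0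
    apply hx
    have h1 : τ (τ x) = τ 0 := by rw [mem_singleton_iff.1 h0]
    rw [hτ, hτ0] at h1
    exact h1
  -- `g + τ g` is null
  have hrg : RC {0}ᶜ g := by
    show In _ _
    rw [hg]; exact hζ
  have hrτ : RC {0}ᶜ (push τ (j + 2) g) := by
    show In _ _
    rw [Loc.bd_push, hg]
    exact Loc.in_push hζ τ hτ'
  have hτnul : Nul {0}ᶜ g → Nul {0}ᶜ (push τ (j + 2) g) := by
    rintro ⟨b, v, hv, rfl⟩
    refine ⟨push τ (j + 3) b, push τ (j + 2) v, Loc.in_push hv τ hτ', ?_⟩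
    rw [map_add, Loc.bd_push]
  have hτnul' : Nul {0}ᶜ (push τ (j + 2) g) → Nul {0}ᶜ g := by
    rintro ⟨b, v, hv, h⟩
    have h1 : push τ (j + 2) (push τ (j + 2) g) = g := by
      rw [Loc.push_push]
      have : τ.comp τ = ContinuousMap.id _ := by ext1 x; exact hτ x
      rw [this, Loc.push_id]
    rw [← h1]
    refine ⟨push τ (j + 3) b, push τ (j + 2) v, Loc.in_push hv τ hτ', ?_⟩
    rw [h, map_add, Loc.bd_push]
  have hnn : Nul {0}ᶜ (nm τ g) := by
    by_cases hgn : Nul {0}ᶜ g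
    · exact nul_add hgn (hτnul hgn)
    · exact (hL (j + 1)).2.2 g _ hrg hrτ hgn (fun h => hgn (hτnul' h))
  -- `x + y + (1+τ) g` is a cycle
  have hcy : bd (j + 1) (x + y + nm τ g) = 0 := by
    rw [map_add, f1, ← nm_bd, hg]
    exact ch_two _
  obtain ⟨b, hb⟩ := hF (EE (j + 1 + 1)) (j + 1) _ hcy
  have hx : x = bd (j + 2) b + (nm τ g + y) := by
    rw [hb]
    have t1 := ch_two y
    have t2 := ch_two (nm τ g)
    calc x = x + (y + y) + (nm τ g + nm τ g) := by rw [t1, t2, add_zero, add_zero]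
      _ = _ := by abel
  rw [hx]
  refine nul_add ⟨b, 0, in_zero _ _, by rw [add_zero]⟩ (nul_add hnn ?_)
  exact ⟨0, y, in_mono V1_sub hy, by rw [map_zero, zero_add]⟩

end Crest.Agent.R235.FA4_365
end
end

-- ▼ part R235/FA5_365
section

/-!
Row 235, package FD-A, topological half, part 5 (helper365): the main argument, for a given quotient
`π : X → Q` by the free involution.
-/

set_option autoImplicit false

noncomputable section

open Topology Set Filter

namespace Crest.Agent.R235.FA5_365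

open Crest.Agent.R224.T Crest.Agent.R235.FA1_365 Crest.Agent.R235.FA2_365
open Crest.Agent.R235.FA3_365 Crest.Agent.R235.FA4_365

section lifts
variable {X Q : Type} [TopologicalSpace X] [TopologicalSpace Q]

/-- lift of a chain all whose simplices lift -/
theorem exists_lift_chain {π : C(X, Q)} {n : ℕ} (c : Ch n Q) {A : Set Q} (hA : In A c)
    (h : ∀ σ ∈ c.support, ∃ τ : C(Dl n, X), π.comp τ = σ) :
    ∃ c' : Ch n X, push π n c' = c ∧ In (π ⁻¹' A) c' := by
  classical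
  choose τ hτ using h
  refine ⟨∑ σ ∈ c.support.attach, Finsupp.single (τ σ.1 σ.2) (c σ.1), ?_, ?_⟩
  · rw [map_sum]
    conv_rhs => rw [← Finsupp.sum_single c, Finsupp.sum, ← Finset.sum_attach]
    refine Finset.sum_congr rfl fun σ _ => ?_
    rw [Exc.push_single, hτ σ.1 σ.2]
  · refine in_sum _ _ fun σ _ => in_single ?_ _
    rintro _ ⟨y, rfl⟩
    have h1 : π (τ σ.1 σ.2 y) = σ.1 y := DFunLike.congr_fun (hτ σ.1 σ.2) y
    show π _ ∈ A
    rw [h1]
    exact hA σ.1 σ.2 ⟨y, rfl⟩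

/-- `π` restricted to an open set on which it is injective -/
def res (π : C(X, Q)) (V : Set X) : C(V, Q) := π.comp (Loc.inc V)

theorem isOpenEmbedding_res {π : C(X, Q)} (hπo : IsOpenMap π) {V : Set X} (hV : IsOpen V)
    (hinj : InjOn π V) : IsOpenEmbedding (res π V) := by
  refine IsOpenEmbedding.of_continuous_injective_isOpenMap (res π V).continuous ?_ ?_
  · intro x y h
    exact Subtype.ext (hinj x.2 y.2 h)
  · exact hπo.comp hV.isOpenMap_subtype_val

theorem range_res (π : C(X, Q)) (V : Set X) : range (res π V) = π '' V := by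
  ext q
  constructor
  · rintro ⟨x, rfl⟩; exact ⟨x.1, x.2, rfl⟩
  · rintro ⟨x, hx, rfl⟩; exact ⟨⟨x, hx⟩, rfl⟩

theorem exists_lift {f : C(X, Q)} (hf : IsEmbedding f) {n : ℕ} (σ : C(Dl n, Q))
    (h : range σ ⊆ range f) : ∃ τ : C(Dl n, X), f.comp τ = σ := by
  choose g hg using fun x => h (mem_range_self x)
  refine ⟨⟨g, ?_⟩, ?_⟩
  · rw [hf.continuous_iff]
    have : f ∘ g = σ := funext hg
    rw [this]; exact σ.continuous
  · ext x; exact hg x

end lifts

/-- homotopy invariance of local nullity -/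
theorem nul_homotopy {W : Type} [TopologicalSpace W] {d n : ℕ} (G : C(W × unitInterval, EE n))
    {L : Set W} (hL : ∀ x t, G (x, t) = 0 → x ∈ L) (c : Ch (d + 1) W) (hc : RC Lᶜ c) :
    Nul {0}ᶜ (push (G.comp ⟨fun x => (x, 0), by fun_prop⟩) (d + 1) c) →
    Nul {0}ᶜ (push (G.comp ⟨fun x => (x, 1), by fun_prop⟩) (d + 1) c) := by
  obtain ⟨P, -, h1, h2⟩ := nPrism W (EE n) G
  intro h
  have e := h1 d c
  have e2 : push (G.comp ⟨fun x => (x, 1), by fun_prop⟩) (d + 1) c =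
      bd (d + 1) (P (d + 1) c) + (push (G.comp ⟨fun x => (x, 0), by fun_prop⟩) (d + 1) c
        + P d (bd d c)) := by
    rw [e]
    have t1 := ch_two (push (G.comp ⟨fun x => (x, 0), by fun_prop⟩) (d + 1) c)
    have t2 := ch_two (P d (bd d c))
    calc push (G.comp ⟨fun x => (x, 1), by fun_prop⟩) (d + 1) c
        = push (G.comp ⟨fun x => (x, 1), by fun_prop⟩) (d + 1) c
          + (push (G.comp ⟨fun x => (x, 0), by fun_prop⟩) (d + 1) c
            + push (G.comp ⟨fun x => (x, 0), by fun_prop⟩) (d + 1) c)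
          + (P d (bd d c) + P d (bd d c)) := by rw [t1, t2, add_zero, add_zero]
      _ = _ := by abel
  rw [e2]
  refine Crest.Agent.R224.T.nul_add ⟨P (d + 1) c, 0, in_zero _ _, by rw [add_zero]⟩
    (Crest.Agent.R224.T.nul_add h ?_)
  refine ⟨0, P d (bd d c), ?_, by rw [map_zero, zero_add]⟩
  refine in_map (P d) (fun σ hσ => ?_) hc
  intro τ hτ
  refine (h2 d σ τ hτ).trans ?_
  rintro _ ⟨⟨x, t⟩, ⟨hx, -⟩, rfl⟩ h0
  exact hσ hx (hL x t h0)

end Crest.Agent.R235.FA5_365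
end
end

-- ▼ part R235/FA6_365
section

/-!
Row 235, package FD-A, topological half, part 6 (helper365): the main argument, for a given quotient
`π : X → Q` by the free involution.
-/

set_option autoImplicit false

noncomputable section

open Topology Set Filter

namespace Crest.Agent.R235.FA6_365

open Crest.Agent.R224.T Crest.Agent.R235.FA1_365 Crest.Agent.R235.FA2_365
open Crest.Agent.R235.FA3_365 Crest.Agent.R235.FA4_365 Crest.Agent.R235.FA5_365

theorem core {d : ℕ} (hd : 1 ≤ d) {X Q : Type} [TopologicalSpace X] [T2Space X]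
    [TopologicalSpace Q] [T2Space Q] [ChartedSpace (EE (d + 1)) Q]
    {ι : C(X, X)} (h1 : ∀ x, ι (ι x) = x) (h2 : ∀ x, ι x ≠ x)
    {π : C(X, Q)} (hπo : IsOpenMap π) (hπs : Function.Surjective π)
    (hπ : ∀ x y, π x = π y ↔ y = x ∨ y = ι x)
    {τ : C(EE (d + 1), EE (d + 1))} (hτ : ∀ x, τ (τ x) = x) (hτ0 : τ 0 = 0)
    {e : EE (d + 1)} (he : e ≠ 0) (hτe : τ e = e) (hτV : MapsTo τ (V1 e) (V1 e))
    (F : C(X, EE (d + 1))) (hF : ∀ x, F (ι x) = τ (F x)) (hK : IsCompact {x | F x ∉ V1 e})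
    {W K₁ : Set X} (hW : IsOpen W) (hWι : ∀ x ∈ W, ι x ∉ W) (hz : ∀ x, F x = 0 → x ∈ W ∨ ι x ∈ W)
    (hK₁ : IsCompact K₁) (hKW : K₁ ⊆ W)
    (G : C(W × unitInterval, EE (d + 1))) (G0 : ∀ x : W, G (x, 0) = F x.1)
    (Gz : ∀ (x : W) t, G (x, t) = 0 → x.1 ∈ K₁)
    (G1 : IsOpenEmbedding (fun x : W => G (x, 1))) (x₁ : W) (hx₁ : G (x₁, 1) = 0) : False := by
  classical
  have hιπ : ∀ x, π (ι x) = π x := fun x => ((hπ x (ι x)).2 (Or.inr rfl)).symm
  have hπ' : ∀ x y, π x = π y → y = x ∨ y = ι x := fun x y => (hπ x y).1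
  have hinj : InjOn π W := by
    intro x hx y hy h
    rcases hπ' x y h with h' | h'
    · exact h'.symm
    · exact absurd (h' ▸ hy) (hWι x hx)
  set Z : Set Q := π '' K₁ with hZ
  set Z1 : Set Q := π '' {x | F x ∉ V1 e} with hZ1
  have hZc : IsCompact Z := hK₁.image π.continuous
  have hZ1c : IsCompact Z1 := hK.image π.continuous
  -- the cover
  set 𝒰 : Set (Set Q) := {U | IsOpen U ∧ (∃ V : Set X, IsOpen V ∧ (∀ x ∈ V, ι x ∉ V) ∧ U ⊆ π '' V) ∧
    (U ⊆ π '' W ∨ U ∩ Z = ∅)} with h𝒰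
  have hcov : ⋃₀ 𝒰 = univ := by
    refine eq_univ_of_forall fun q => ?_
    obtain ⟨x, rfl⟩ := hπs q
    obtain ⟨V1', V2', hV1, hV2, hx1, hx2, hdis⟩ := t2_separation (h2 x).symm
    have hVo : IsOpen (V1' ∩ ι ⁻¹' V2') := hV1.inter (hV2.preimage ι.continuous)
    have hVι : ∀ y ∈ V1' ∩ ι ⁻¹' V2', ι y ∉ V1' ∩ ι ⁻¹' V2' := by
      intro y hy hy'
      exact Set.disjoint_left.1 hdis hy'.1 hy.2
    have hxV : x ∈ V1' ∩ ι ⁻¹' V2' := ⟨hx1, hx2⟩
    by_cases hq : π x ∈ π '' W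
    · refine ⟨π '' (V1' ∩ ι ⁻¹' V2') ∩ π '' W, ⟨(hπo _ hVo).inter (hπo _ hW),
        ⟨_, hVo, hVι, inter_subset_left⟩, Or.inl inter_subset_right⟩, ⟨x, hxV, rfl⟩, hq⟩
    · refine ⟨π '' (V1' ∩ ι ⁻¹' V2') ∩ Zᶜ, ⟨(hπo _ hVo).inter hZc.isClosed.isOpen_compl,
        ⟨_, hVo, hVι, inter_subset_left⟩, Or.inr ?_⟩, ⟨x, hxV, rfl⟩, ?_⟩
      · rw [inter_assoc, compl_inter_self, inter_empty]
      · exact fun h => hq (image_mono hKW h)
  obtain ⟨c, hc, hcs, hcn⟩ := fund (d := d) (hZc.union hZ1c) 𝒰 (fun U hU => hU.1) hcov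
  -- splitting
  set cW : Ch (d + 1) Q := c.filter fun σ => range σ ⊆ π '' W with hcW
  set cr : Ch (d + 1) Q := c.filter fun σ => ¬ range σ ⊆ π '' W with hcr
  have hsum : cW + cr = c := Finsupp.filter_add_filter_not c _
  have iW : In (π '' W) cW := by
    intro σ hσ
    rw [hcW, Finsupp.support_filter, Finset.mem_filter] at hσ
    exact hσ.2
  have ir : In Zᶜ cr := by
    intro σ hσ
    rw [hcr, Finsupp.support_filter, Finset.mem_filter] at hσ
    obtain ⟨U, hU, hσU⟩ := hcs σ hσ.1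
    rcases hU.2.2 with h | h
    · exact absurd (hσU.trans h) hσ.2
    · intro q hq hqZ
      have : q ∈ U ∩ Z := ⟨hσU hq, hqZ⟩
      rw [h] at this
      exact this
  set f : C(W, Q) := res π W with hf0
  have hf : IsOpenEmbedding f := isOpenEmbedding_res hπo hW hinj
  obtain ⟨hw, ehw⟩ := Exc.exists_push hf.isEmbedding (c := cW) (by
    rw [hf0, range_res]; exact iW)
  have hlr : ∀ σ ∈ cr.support, ∃ τ : C(Dl (d + 1), X), π.comp τ = σ := by
    intro σ hσ
    rw [hcr, Finsupp.support_filter, Finset.mem_filter] at hσ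
    obtain ⟨U, ⟨-, ⟨V, hVo, hVι, hUV⟩, -⟩, hσU⟩ := hcs σ hσ.1
    have hinjV : InjOn π V := by
      intro x hx y hy h
      rcases hπ' x y h with h' | h'
      · exact h'.symm
      · exact absurd (h' ▸ hy) (hVι x hx)
    obtain ⟨τ', hτ'⟩ := exists_lift (isOpenEmbedding_res hπo hVo hinjV).isEmbedding σ (by
      rw [range_res]; exact hσU.trans hUV)
    exact ⟨(Loc.inc V).comp τ', hτ'⟩
  obtain ⟨h'', eh'', ih''⟩ := exists_lift_chain cr ir hlr
  set h' : Ch (d + 1) X := push (Loc.inc W) (d + 1) hw with hh'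
  have eh' : push π (d + 1) h' = cW := by
    rw [hh', Loc.push_push]; exact ehw
  set h : Ch (d + 1) X := h' + h'' with hh
  have eh : push π (d + 1) h = c := by rw [hh, map_add, eh', eh'', hsum]
  -- regions
  set A : Set X := F ⁻¹' V1 e with hA
  set B : Set X := F ⁻¹' {0}ᶜ with hB
  have hAB : A ⊆ B := fun x hx => V1_sub hx
  have subA : π ⁻¹' (Z ∪ Z1)ᶜ ⊆ A := by
    intro x hx
    by_contra hn
    exact hx (Or.inr ⟨x, hn, rfl⟩)
  have subB : π ⁻¹' Zᶜ ⊆ B := by
    intro x hx h0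
    rw [mem_singleton_iff] at h0
    rcases hz x h0 with h3 | h3
    · exact hx ⟨x, Gz ⟨x, h3⟩ 0 ((G0 ⟨x, h3⟩).trans h0), rfl⟩
    · have h4 : F (ι x) = 0 := by rw [hF, h0, hτ0]
      exact hx ⟨ι x, Gz ⟨ι x, h3⟩ 0 ((G0 ⟨ι x, h3⟩).trans h4), hιπ x⟩
  -- boundaries
  have ibw : In (f ⁻¹' Zᶜ) (bd d hw) := by
    refine Exc.In.of_push hf.injective ?_
    rw [← Loc.bd_push, ehw]
    have : bd d cW = bd d c + bd d cr := by
      rw [← hsum, map_add]
      exact (Loc.add_cancel _ _).symm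
    rw [this]
    exact in_add (in_mono (compl_subset_compl.2 subset_union_left) hc) (in_bd ir)
  have ibh : In B (bd d h) := by
    rw [hh, map_add]
    refine in_add ?_ (in_bd (in_mono subB ih''))
    rw [hh', Loc.bd_push]
    refine Loc.in_push ibw (Loc.inc W) ?_
    intro x hx
    exact subB hx
  have itr : In A (bd d h + push ι d (bd d h)) := by
    rw [← tr_push h1 h2 hπ', ← Loc.bd_push, eh]
    exact in_mono subA (in_tr hιπ hc)
  obtain ⟨z, ez, hzs⟩ := norm_of_inv h1 h2 (bd d h + push ι d (bd d h)) (by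
    rw [map_add, Loc.push_push]
    have : ι.comp ι = ContinuousMap.id X := by ext1 x; exact h1 x
    rw [this, Loc.push_id, add_comm])
  have iz : In A z := in_of_supp hzs itr
  have htow : Tow ι A B d h z := by
    refine exists_tow h1 h2 hAB d h z ibh iz ?_
    rw [map_add]
    have t1 := ch_two (bd d h)
    have t2 := ch_two (push ι d z)
    calc push ι d (bd d h) + push ι d z
        = (bd d h + push ι d (bd d h)) + bd d h + push ι d z
          + (bd d h + bd d h) := by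
          rw [t1, add_zero]
          calc push ι d (bd d h) + push ι d z
              = (bd d h + bd d h) + (push ι d (bd d h) + push ι d z) := by rw [t1, zero_add]
            _ = _ := by abel
      _ = (z + push ι d z) + bd d h + push ι d z := by rw [t1, add_zero, ez]
      _ = bd d h + z + (push ι d z + push ι d z) := by abel
      _ = _ := by rw [t2, add_zero]
  have hcomp : F.comp ι = τ.comp F := by ext1 x; exact hF x
  have htow' := Tow.push' hcomp (A' := V1 e) (B' := {0}ᶜ) (fun x hx => hx) (fun x hx => hx)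
    d h z htow
  have N := nul_of_tow hd hτ hτ0 he hτe hτV _ _ htow'
  -- contradiction
  have N1 : Nul {0}ᶜ (push F (d + 1) h') := by
    have e1 : push F (d + 1) h' = push F (d + 1) h + push F (d + 1) h'' := by
      rw [hh, map_add]
      exact (Loc.add_cancel _ _).symm
    rw [e1]
    refine Crest.Agent.R224.T.nul_add N
      ⟨0, push F (d + 1) h'', ?_, by rw [map_zero, zero_add]⟩
    exact Loc.in_push ih'' F fun x hx => subB hx
  have N2 : Nul {0}ᶜ (push (G.comp ⟨fun x => (x, 0), by fun_prop⟩) (d + 1) hw) := by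
    have : (G.comp ⟨fun x => (x, 0), by fun_prop⟩ : C(W, EE (d + 1))) =
        F.comp (Loc.inc W) := by
      ext1 x
      exact G0 x
    rw [this, ← Loc.push_push]; exact N1
  have hrc : RC {x : W | x.1 ∈ K₁}ᶜ hw := by
    refine in_mono ?_ ibw
    intro x hx hx'
    exact hx ⟨x.1, hx', rfl⟩
  have N3 := nul_homotopy G (L := {x : W | x.1 ∈ K₁}) Gz hw hrc N2
  set g1 : C(W, EE (d + 1)) := G.comp ⟨fun x => (x, 1), by fun_prop⟩ with hg1
  have hg1e : IsOpenEmbedding g1 := G1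
  have hx1K : x₁.1 ∈ K₁ := Gz x₁ 1 hx₁
  have hrc1 : RC {x₁}ᶜ hw := by
    refine in_mono ?_ hrc
    intro x hx hx'
    rw [mem_singleton_iff] at hx'
    subst hx'
    exact hx hx1K
  have e3 := ((hE W (EE (d + 1)) g1 hg1e {x₁} (by
    rw [image_singleton]; exact isClosed_singleton) d).2 hw hrc1).1 (by
      rw [image_singleton]
      have : g1 x₁ = 0 := hx₁
      rw [this]
      exact N3)
  have e4 := ((hE W Q f hf {x₁} (by
    rw [image_singleton]; exact isClosed_singleton) d).2 hw hrc1).2 e3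
  rw [image_singleton, ehw] at e4
  have hfZ : f x₁ ∈ Z := ⟨x₁.1, hx1K, rfl⟩
  refine hcn (f x₁) (Or.inl hfZ) ?_
  rw [← hsum]
  refine Crest.Agent.R224.T.nul_add e4 ⟨0, cr, ?_, by rw [map_zero, zero_add]⟩
  exact in_mono (compl_subset_compl.2 (singleton_subset_iff.2 hfZ)) ir

end Crest.Agent.R235.FA6_365
end
end

-- ▼ part R235/QMan_143
section

/-!
# R235, package FD-A, blocks QM and QL (helper143 for helper365): quotients of topological manifolds

* `quot_of` : quotient of a charted space by an equivalence relation with open, locally injective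
  projection and separated classes
* `exists_QL` : quotient by an action of `ℤᵇ` with an equivariant map to `ℝᵇ`
* `exists_QM` : quotient by a free continuous involution
-/

set_option autoImplicit false

open Set Filter Topology
open Crest.Agent.R235.FDADef_365

noncomputable section

namespace Crest.Agent.R235.QMan_143

theorem quot_of {n : ℕ} (X : Type) [TopologicalSpace X] [T2Space X] [ChartedSpace (EE n) X]
    (r : Setoid X) (hopen : IsOpenMap (Quotient.mk r))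
    (hloc : ∀ x, ∃ U : Set X, IsOpen U ∧ x ∈ U ∧ InjOn (Quotient.mk r) U)
    (hsep : ∀ x y, ¬ r x y → ∃ U V : Set X, IsOpen U ∧ IsOpen V ∧ x ∈ U ∧ y ∈ V ∧
      ∀ u ∈ U, ∀ v ∈ V, ¬ r u v) :
    ∃ (Q : Type) (_ : TopologicalSpace Q) (_ : T2Space Q) (_ : ChartedSpace (EE n) Q)
      (π : X → Q), Continuous π ∧ IsOpenMap π ∧ Function.Surjective π ∧
        ∀ x y, π x = π y ↔ r x y := by
  have hcont : Continuous (Quotient.mk r) := continuous_quotient_mk'
  have heq : ∀ x y, Quotient.mk r x = Quotient.mk r y ↔ r x y := fun x y => Quotient.eq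
  have hsurj : Function.Surjective (Quotient.mk r) := Quotient.mk_surjective
  have hT2 : T2Space (Quotient r) := by
    refine ⟨fun p q hpq => ?_⟩
    obtain ⟨x, rfl⟩ := hsurj p
    obtain ⟨y, rfl⟩ := hsurj q
    obtain ⟨U, V, hU, hV, hx, hy, hUV⟩ := hsep x y (fun h => hpq ((heq x y).2 h))
    refine ⟨_, _, hopen U hU, hopen V hV, ⟨x, hx, rfl⟩, ⟨y, hy, rfl⟩, ?_⟩
    rw [Set.disjoint_left]
    rintro _ ⟨u, hu, rfl⟩ ⟨v, hv, hvu⟩
    exact hUV u hu v hv ((heq u v).1 hvu.symm)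
  -- local sections
  choose U hU hxU hinj using hloc
  let e : X → OpenPartialHomeomorph X (Quotient r) := fun x =>
    letI : Nonempty X := ⟨x⟩
    OpenPartialHomeomorph.ofContinuousOpen (InjOn.toPartialEquiv (Quotient.mk r) (U x) (hinj x))
      hcont.continuousOn hopen (hU x)
  have hes : ∀ x, (e x).source = U x := fun x => rfl
  have hec : ∀ x y, e x y = Quotient.mk r y := fun x y => rfl
  let s : Quotient r → X := fun q => Classical.choose (hsurj q)
  have hs : ∀ q, Quotient.mk r (s q) = q := fun q => Classical.choose_spec (hsurj q)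
  let ch : Quotient r → OpenPartialHomeomorph (Quotient r) (EE n) := fun q =>
    (e (s q)).symm.trans (chartAt (EE n) (s q))
  have hch : ∀ q, q ∈ (ch q).source := by
    intro q
    have h1 : s q ∈ (e (s q)).source := hxU (s q)
    have h2 : e (s q) (s q) = q := hs q
    have h3 : (e (s q)).symm q = s q := by
      have h4 := (e (s q)).left_inv h1
      rwa [h2] at h4
    rw [OpenPartialHomeomorph.trans_source]
    refine ⟨?_, ?_⟩
    · show q ∈ (e (s q)).target
      have h4 := (e (s q)).map_source h1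
      rwa [h2] at h4
    · show (e (s q)).symm q ∈ (chartAt (EE n) (s q)).source
      rw [h3]
      exact mem_chart_source _ _
  refine ⟨Quotient r, inferInstance, hT2,
    { atlas := range ch
      chartAt := ch
      mem_chart_source := hch
      chart_mem_atlas := fun q => ⟨q, rfl⟩ }, Quotient.mk r, hcont, hopen, hsurj, heq⟩

/-! ### involutions -/

theorem exists_QM {n : ℕ} (X : Type) [TopologicalSpace X] [T2Space X] [ChartedSpace (EE n) X]
    (ι : X → X) (hc : Continuous ι) (hi : ∀ x, ι (ι x) = x) (hf : ∀ x, ι x ≠ x) :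
    ∃ (Q : Type) (_ : TopologicalSpace Q) (_ : T2Space Q) (_ : ChartedSpace (EE n) Q)
      (π : X → Q), Continuous π ∧ IsOpenMap π ∧ Function.Surjective π ∧
        ∀ x y, π x = π y ↔ y = x ∨ y = ι x := by
  let r : Setoid X :=
    { r := fun x y => y = x ∨ y = ι x
      iseqv := by
        refine ⟨fun x => Or.inl rfl, ?_, ?_⟩
        · rintro x y (h | h)
          · exact Or.inl h.symm
          · right
            rw [h, hi]
        · rintro x y z (h | h) (h' | h')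
          · exact Or.inl (h'.trans h)
          · right
            rw [h', h]
          · right
            rw [h', h]
          · left
            rw [h', h, hi] }
  have hr : ∀ x y, r x y ↔ (y = x ∨ y = ι x) := fun x y => Iff.rfl
  have hopen : IsOpenMap (Quotient.mk r) := by
    intro U hU
    rw [← isQuotientMap_quotient_mk'.isOpen_preimage]
    have h1 : (Quotient.mk r) ⁻¹' ((Quotient.mk r) '' U) = U ∪ ι ⁻¹' U := by
      ext y
      constructor
      · rintro ⟨x, hx, hxy⟩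
        have h2 : r x y := Quotient.eq.1 hxy
        rcases (hr x y).1 h2 with h3 | h3
        · left; rw [h3]; exact hx
        · right
          show ι y ∈ U
          rw [h3, hi]; exact hx
      · rintro (h | h)
        · exact ⟨y, h, rfl⟩
        · exact ⟨ι y, h, Quotient.eq.2 ((hr _ _).2 (Or.inr (hi y).symm))⟩
    show IsOpen ((Quotient.mk r) ⁻¹' ((Quotient.mk r) '' U))
    rw [h1]
    exact hU.union (hU.preimage hc)
  have hsep2 : ∀ x y : X, y ≠ ι x → ∃ U V : Set X, IsOpen U ∧ IsOpen V ∧ x ∈ U ∧ y ∈ V ∧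
      ∀ u ∈ U, ∀ v ∈ V, v ≠ ι u := by
    intro x y h
    obtain ⟨A, B, hA, hB, hxA, hyB, hAB⟩ := t2_separation (Ne.symm h)
    refine ⟨ι ⁻¹' A, B, hA.preimage hc, hB, hxA, hyB, fun u hu v hv huv => ?_⟩
    exact Set.disjoint_left.1 hAB hu (huv ▸ hv)
  refine quot_of X r hopen ?_ ?_
  · intro x
    obtain ⟨U, V, hU, hV, hx, hy, hUV⟩ := hsep2 x x (Ne.symm (hf x))
    refine ⟨U ∩ V, hU.inter hV, ⟨hx, hy⟩, fun u hu v hv huv => ?_⟩
    have h2 : r u v := Quotient.eq.1 huv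
    rcases (hr u v).1 h2 with h3 | h3
    · exact h3.symm
    · exact (hUV u hu.1 v hv.2 h3).elim
  · intro x y hxy
    have h2 : y ≠ x := fun h => hxy ((hr x y).2 (Or.inl h))
    have h3 : y ≠ ι x := fun h => hxy ((hr x y).2 (Or.inr h))
    obtain ⟨U, V, hU, hV, hx, hy, hUV⟩ := hsep2 x y h3
    obtain ⟨A, B, hA, hB, hxA, hyB, hAB⟩ := t2_separation h2.symm
    refine ⟨U ∩ A, V ∩ B, hU.inter hA, hV.inter hB, ⟨hx, hxA⟩, ⟨hy, hyB⟩, fun u hu v hv h => ?_⟩
    rcases (hr u v).1 h with h | h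
    · exact Set.disjoint_left.1 hAB hu.2 (h ▸ hv.2)
    · exact hUV u hu.1 v hv.1 h

/-! ### lattices -/



theorem eq_of_lat_close {b : ℕ} {m k : Fin b → ℤ} (h : ‖lat m - lat k‖ < 1) : m = k := by
  funext i
  have h1 : ‖(lat m - lat k) i‖ < 1 := lt_of_le_of_lt (norm_le_pi_norm _ i) h
  have h2 : |((m i - k i : ℤ) : ℝ)| < 1 := by
    simpa [lat] using h1
  have h3 : |m i - k i| < 1 := by exact_mod_cast h2
  have h4 : m i - k i = 0 := Int.abs_lt_one_iff.1 h3
  linarith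

theorem exists_QL {n b : ℕ} (X : Type) [TopologicalSpace X] [T2Space X] [ChartedSpace (EE n) X]
    (act : (Fin b → ℤ) → X → X) (hc : ∀ m, Continuous (act m)) (h0 : ∀ x, act 0 x = x)
    (ha : ∀ m m' x, act (m + m') x = act m (act m' x)) (hh : X → (Fin b → ℝ))
    (hhc : Continuous hh) (hhl : ∀ m x, hh (act m x) = hh x + lat m) :
    ∃ (Q : Type) (_ : TopologicalSpace Q) (_ : T2Space Q) (_ : ChartedSpace (EE n) Q)
      (π : X → Q), Continuous π ∧ IsOpenMap π ∧ Function.Surjective π ∧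
        ∀ x y, π x = π y ↔ ∃ m, y = act m x := by
  have hneg : ∀ m x, act (-m) (act m x) = x := by
    intro m x
    rw [← ha, neg_add_cancel, h0]
  have hneg' : ∀ m x, act m (act (-m) x) = x := by
    intro m x
    rw [← ha, add_neg_cancel, h0]
  let r : Setoid X :=
    { r := fun x y => ∃ m, y = act m x
      iseqv := by
        refine ⟨fun x => ⟨0, (h0 x).symm⟩, ?_, ?_⟩
        · rintro x y ⟨m, h⟩
          exact ⟨-m, by rw [h, hneg]⟩
        · rintro x y z ⟨m, h⟩ ⟨m', h'⟩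
          exact ⟨m' + m, by rw [h', h, ha]⟩ }
  have hr : ∀ x y, r x y ↔ ∃ m, y = act m x := fun x y => Iff.rfl
  have hopen : IsOpenMap (Quotient.mk r) := by
    intro U hU
    rw [← isQuotientMap_quotient_mk'.isOpen_preimage]
    have h1 : (Quotient.mk r) ⁻¹' ((Quotient.mk r) '' U) = ⋃ m, act m ⁻¹' U := by
      ext y
      rw [mem_iUnion]
      constructor
      · rintro ⟨x, hx, hxy⟩
        have h2 : r x y := Quotient.eq.1 hxy
        obtain ⟨m, h3⟩ := (hr x y).1 h2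
        refine ⟨-m, ?_⟩
        show act (-m) y ∈ U
        rw [h3, hneg]
        exact hx
      · rintro ⟨m, h⟩
        exact ⟨act m y, h, Quotient.eq.2 ((hr _ _).2 ⟨-m, (hneg m y).symm⟩)⟩
    show IsOpen ((Quotient.mk r) ⁻¹' ((Quotient.mk r) '' U))
    rw [h1]
    exact isOpen_iUnion fun m => hU.preimage (hc m)
  -- small neighbourhoods
  have hball : ∀ x : X, IsOpen (hh ⁻¹' Metric.ball (hh x) (1 / 4)) ∧
      x ∈ hh ⁻¹' Metric.ball (hh x) (1 / 4) := fun x =>
    ⟨Metric.isOpen_ball.preimage hhc, Metric.mem_ball_self (by norm_num)⟩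
  refine quot_of X r hopen ?_ ?_
  · intro x
    refine ⟨_, (hball x).1, (hball x).2, fun u hu v hv huv => ?_⟩
    obtain ⟨m, hm⟩ := (hr u v).1 (Quotient.eq.1 huv)
    have e1 : dist (hh u) (hh x) < 1 / 4 := hu
    have e2 : dist (hh v) (hh x) < 1 / 4 := hv
    have e3 : dist (hh v) (hh u) < 1 := by
      have := dist_triangle_right (hh v) (hh u) (hh x)
      linarith
    rw [hm, hhl, dist_eq_norm, add_sub_cancel_left] at e3
    have e4 : m = 0 := by
      apply eq_of_lat_close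
      have : lat (0 : Fin b → ℤ) = 0 := by funext i; simp [lat]
      rw [this, sub_zero]
      exact e3
    rw [hm, e4, h0]
  · intro x y hxy
    have hn : ∀ m, y ≠ act m x := fun m h => hxy ((hr x y).2 ⟨m, h⟩)
    by_cases hex : ∃ m, ‖hh x + lat m - hh y‖ < 1 / 2
    · obtain ⟨m, hm⟩ := hex
      obtain ⟨A, B, hA, hB, hxA, hyB, hAB⟩ := t2_separation (Ne.symm (hn m))
      refine ⟨hh ⁻¹' Metric.ball (hh x) (1 / 4) ∩ act m ⁻¹' A,
        hh ⁻¹' Metric.ball (hh y) (1 / 4) ∩ B, (hball x).1.inter (hA.preimage (hc m)),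
        (hball y).1.inter hB, ⟨(hball x).2, hxA⟩, ⟨(hball y).2, hyB⟩, fun u hu v hv h => ?_⟩
      obtain ⟨k, hk⟩ := (hr u v).1 h
      have e1 : ‖hh u - hh x‖ < 1 / 4 := by
        have : dist (hh u) (hh x) < 1 / 4 := hu.1
        rwa [dist_eq_norm] at this
      have e2 : ‖hh v - hh y‖ < 1 / 4 := by
        have : dist (hh v) (hh y) < 1 / 4 := hv.1
        rwa [dist_eq_norm] at this
      have e3 : hh v = hh u + lat k := by rw [hk, hhl]
      have e4 : lat m - lat k = (hh x + lat m - hh y) + (hh u - hh x) - (hh v - hh y) := by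
        rw [e3]; abel
      have e5 : m = k := by
        apply eq_of_lat_close
        rw [e4]
        have := norm_sub_le ((hh x + lat m - hh y) + (hh u - hh x)) (hh v - hh y)
        have := norm_add_le (hh x + lat m - hh y) (hh u - hh x)
        linarith
      rw [← e5] at hk
      exact Set.disjoint_left.1 hAB hu.2 (by rw [← hk]; exact hv.2)
    · push Not at hex
      refine ⟨_, _, (hball x).1, (hball y).1, (hball x).2, (hball y).2, fun u hu v hv h => ?_⟩
      obtain ⟨k, hk⟩ := (hr u v).1 h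
      have e1 : ‖hh u - hh x‖ < 1 / 4 := by
        have : dist (hh u) (hh x) < 1 / 4 := hu
        rwa [dist_eq_norm] at this
      have e2 : ‖hh v - hh y‖ < 1 / 4 := by
        have : dist (hh v) (hh y) < 1 / 4 := hv
        rwa [dist_eq_norm] at this
      have e3 : hh v = hh u + lat k := by rw [hk, hhl]
      have e4 : hh x + lat k - hh y = (hh v - hh y) - (hh u - hh x) := by
        rw [e3]; abel
      have e5 := hex k
      rw [e4] at e5
      have := norm_sub_le (hh v - hh y) (hh u - hh x)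
      linarith

end Crest.Agent.R235.QMan_143
end
end

-- ▼ part R235/FA7_435
section

/-!
Row 235, package FD-A (leader helper365), topological half, part 7 (helper435): `FDTOP` is a
theorem (`FA6_365.core` for the quotient of helper143).
-/

set_option autoImplicit false

open Topology Set

namespace Crest.Agent.R235.FA7_435

open Crest.Agent.R235.FDADef_365

theorem fdtop : FDTOP := by
  intro d hd X _ _ _ ι τ e F W K₁ H hι hιι hιne hττ hτe he hF hFι hK hW hWι hz hK₁ hKW hHc H0 Hz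
    H1 hx
  obtain ⟨Q, _, _, _, π, πc, πo, πs, hπ⟩ := QMan_143.exists_QM (n := d + 1) X ι hι hιι hιne
  obtain ⟨x₁, hx₁, hHx₁⟩ := hx
  have hτc : Continuous τ := τ.toLinearMap.continuous_of_finiteDimensional
  refine FA6_365.core (d := d) hd (X := X) (Q := Q) (ι := ⟨ι, hι⟩) hιι hιne (π := ⟨π, πc⟩) πo πs hπ
    (τ := ⟨τ, hτc⟩) hττ (map_zero τ) he hτe ?_ ⟨F, hF⟩ hFι ?_ hW hWι hz hK₁ hKW
    ⟨fun p => H p.1.1 p.2.1, ?_⟩ (fun x => H0 x.1 x.2) (fun x t h => Hz x.1 x.2 t.1 t.2 h) H1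
    ⟨x₁, hx₁⟩ hHx₁
  · rintro y hy ⟨s, hs, h⟩
    refine hy ⟨s, hs, ?_⟩
    have h1 : τ y = -(s • e) := h
    have h2 := congrArg τ h1
    rw [hττ, map_neg, map_smul, hτe] at h2
    exact h2
  · have : {x : X | F x ∉ FA4_365.V1 e} = {x | ∃ s : ℝ, 0 ≤ s ∧ F x = -(s • e)} := by
      ext x
      exact not_not
    exact this ▸ hK
  · exact hHc.comp_continuous (f := fun p : W × unitInterval => (p.1.1, (p.2.1 : ℝ)))
      (by fun_prop) fun p => ⟨p.1.2, p.2.2⟩

theorem ql : FB6_365.QL := fun n b X _ _ _ act hh hc h0 ha hhc hhl =>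
  QMan_143.exists_QL (n := n) (b := b) X act hc h0 ha hh hhc hhl

end Crest.Agent.R235.FA7_435
end

-- ▼ part R235/FDHILB_365
section

/-!
Row 235 (S0364), package FD-A: the abstract theorem behind `b⁺ = 3` (Seiberg-Witten family over the
ball, Jacobian torus `ℝᵇ/ℤᵇ` included), `FDADef_365.FDHILB`.
Parts: Smith theory FA1-FA7 (helper365, helper435, helper143), B0 Bet_785, B1 FdB1_435, B2 Est_143,
B3 Tot_435, B4 FB1-FB10 (helper365, helper785).
-/

set_option autoImplicit false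

namespace Crest.Agent.R235.FDHILB_365

open FDADef_365

/-- **the abstract theorem** -/
theorem fdhilb : FDHILB := by
  intro b A P Ya Yp _ _ _ _ _ _ _ _ _ _ _ _ S
  obtain ⟨N, y, Fa, _, R', C, δ, Ca, Cp, Dρ, G⟩ := FB5_785.exists_good S
  exact FB10_365.bot G FA7_435.ql FA7_435.fdtop

end Crest.Agent.R235.FDHILB_365
end

-- ▼ part R235/SwjDef_844

/-!
Row 235 (S0364), helper844: the abstract real data of the Seiberg-Witten family over the closed ball
and over the Jacobian torus (`JData`), from which `SWJA` follows (`SwjAbs_844`: `JData → False`, by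
helper365's `FDHILB`).

The dependence on `t` is only CONTINUOUS; the differentiability is needed only in the spinor, at the
fixed parameter `pi e`, `e = (1, 0)`.
-/

set_option autoImplicit false

open Set Function Topology

namespace Crest.Agent.R235.SwjAbs_844

open Crest.Agent.R235

/-- `ℂ²` -/
abbrev C2 : Type := EuclideanSpace ℂ (Fin 2)

/-- the point `(1, 0)` of `ℂ²`. -/
noncomputable def e0 : C2 := EuclideanSpace.single 0 1

/-- **the abstract data**.  `P` = the spinors, `Y` = the target of the Dirac operator.  The equations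
are `KA t x = 0` (harmonic part of the curvature equation) and
`L x + ∑ hᵢ Mᵢ x + KP t x = 0` (Dirac equation), `‖t‖ ≤ 1`, `h ∈ ℝᵇ`. -/
structure JData (b bp : ℕ) (P Y : Type) [NormedAddCommGroup P] [NormedSpace ℝ P]
    [CompleteSpace P] [NormedAddCommGroup Y] [InnerProductSpace ℝ Y] [CompleteSpace Y] where
  L : P →L[ℝ] Y
  M : Fin b → P →L[ℝ] Y
  KA : E3 → P → EuclideanSpace ℝ (Fin bp)
  KP : E3 → P → Y
  /-- the complex structure of the spinors -/
  I : P →L[ℝ] P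
  /-- the (real) `L²` product -/
  B : P →L[ℝ] P →L[ℝ] ℝ
  /-- gauge transformations of `H¹(M; ℤ)` -/
  U : (Fin b → ℤ) → P ≃L[ℝ] P
  V : (Fin b → ℤ) → Y ≃L[ℝ] Y
  /-- the Hopf map and the solutions over the unit sphere -/
  pi : C2 → E3
  Q : C2 → P
  /-- derivatives at `Q e0` -/
  KA' : P →L[ℝ] EuclideanSpace ℝ (Fin bp)
  KP' : P →L[ℝ] Y
  fred : FDADef_365.Fred L
  index : FDADef_365.ind L + b = 1 + bp
  cptM : ∀ i, IsCompactOperator (M i)
  cKA : ContinuousOn (fun q : E3 × P => KA q.1 q.2) {q | ‖q.1‖ ≤ 1}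
  cKP : ContinuousOn (fun q : E3 × P => KP q.1 q.2) {q | ‖q.1‖ ≤ 1}
  cptA : ∀ R : ℝ, ∃ C, IsCompact C ∧ ∀ t x, ‖t‖ ≤ 1 → ‖x‖ ≤ R → KA t x ∈ C
  cptP : ∀ R : ℝ, ∃ C, IsCompact C ∧ ∀ t x, ‖t‖ ≤ 1 → ‖x‖ ≤ R → KP t x ∈ C
  evenA : ∀ t x, ‖t‖ ≤ 1 → KA t (-x) = KA t x
  oddP : ∀ t x, ‖t‖ ≤ 1 → KP t (-x) = - KP t x
  U_add : ∀ m n x, U (m + n) x = U m (U n x)
  V_add : ∀ m n y, V (m + n) y = V m (V n y)
  latA : ∀ m t x, ‖t‖ ≤ 1 → KA t (U m x) = KA t x
  latP : ∀ m t x, ‖t‖ ≤ 1 → KP t (U m x) = V m (KP t x)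
  latM : ∀ m i x, M i (U m x) = V m (M i x)
  latL : ∀ m x, L (U m x) + ∑ i, (m i : ℝ) • M i (U m x) = V m (L x)
  I_I : ∀ x, I (I x) = -x
  B_symm : ∀ x y, B x y = B y x
  B_I : ∀ x y, B (I x) (I y) = B x y
  /-- a priori bound over the cell -/
  bdd : ∃ R : ℝ, ∀ (t : E3) (h : Fin b → ℝ) (x : P), ‖t‖ ≤ 1 → (∀ i, h i ∈ Icc (0 : ℝ) 1) →
    KA t x = 0 → L x + ∑ i, h i • M i x + KP t x = 0 → ‖x‖ ≤ R
  /-- no reducible solution -/
  irred : ∀ t, ‖t‖ ≤ 1 → KA t 0 ≠ 0
  cpi : Continuous pi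
  npi : ∀ s, ‖s‖ = 1 → ‖pi s‖ = 1
  fpi : ∀ s s', ‖s‖ = 1 → ‖s'‖ = 1 → (pi s = pi s' ↔ ∃ z : ℂ, ‖z‖ = 1 ∧ s' = z • s)
  cQ : ContinuousOn Q {s | ‖s‖ = 1}
  eqQ : ∀ s (z : ℂ), ‖s‖ = 1 → ‖z‖ = 1 → Q (z • s) = z.re • Q s + z.im • I (Q s)
  posQ : ∀ s, ‖s‖ = 1 → 0 < B (Q s) (Q s)
  solA : KA (pi e0) (Q e0) = 0
  solP : L (Q e0) + KP (pi e0) (Q e0) = 0
  /-- the solutions over the unit sphere -/
  uniq : ∀ (t : E3) (h : Fin b → ℝ) (x : P), ‖t‖ = 1 → KA t x = 0 →
    L x + ∑ i, h i • M i x + KP t x = 0 →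
    ∃ (k : Fin b → ℤ) (s : C2), ‖s‖ = 1 ∧ pi s = t ∧ (∀ i, h i = k i) ∧ x = U k (Q s)
  dA : HasFDerivAt (KA (pi e0)) KA' (Q e0)
  dP : HasFDerivAt (KP (pi e0)) KP' (Q e0)
  /-- nondegeneracy at the fixed parameter `pi e0` -/
  ker : ∀ (κ : Fin b → ℝ) (v : P), KA' v = 0 → L v + ∑ i, κ i • M i (Q e0) + KP' v = 0 →
    κ = 0 ∧ ∃ c : ℝ, v = c • I (Q e0)

end Crest.Agent.R235.SwjAbs_844
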