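import Crest.Agent.R235.Swx_333
import Crest.Agent.R235.SWJDefs_53
import Crest.Agent.R235.SwjDef_844

/-!
Row 235 (S0364), node SWJA (owner helper365): the CONCRETE DEFINITIONS of the fields of `JData`
(`SwjDef_844`) for the Seiberg-Witten system over the Jacobian torus.

* `ml S j i`     : matrix of `c(2π al_i) i`;
* `LI hS hj i`   : `WE →L HE`, `coe_LI` : `= S.cm (2π al_i) (rp x)` a.e.; `compact_LI`;
* `HarB S bp`    : `bp` smooth harmonic elements which, with `(1,0)`, span the kernel of `H.A`;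
                   `exists_HarB`;
* `H.har`        : `L² → ℝ^{bp}` the pairings, `har_apply`;
* `KA`, `KP`     : the nonlinear parts of `JData`;
* `twOK`         : `(d.tw j h).Adm S`.
-/

set_option autoImplicit false
set_option maxSynthPendingDepth 3
set_option linter.unusedSectionVars false

open scoped ContDiff ENNReal NNReal Topology Manifold Bundle RealInnerProductSpace
open MeasureTheory Set Filter Metric Bundle

universe v

noncomputable section

namespace Crest.Agent.R235.SWJc_365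

open Crest.Agent.R249.Tv57 Crest.Agent.R247.Ms322 Crest.Agent.R247.Dir593
open Crest.Agent.R235.SWDefs_53 Crest.Agent.R235.CptB_755 Crest.Agent.R235.Fs4_546
open Crest.Agent.R235.CptC_755 Crest.Agent.R235.Cpt_755 Crest.Agent.R235.Fred_649
open Crest.Agent.R235.Swx_333 Crest.Agent.R235.SWSym_451

local notation "ipp" => Crest.Agent.R249.Tv57.ip 4

section main

variable {M : Type v} [MetricSpace M] [CompactSpace M] [ConnectedSpace M]
  [ChartedSpace (EuclideanSpace ℝ (Fin 4)) M] [IsManifold (𝓡 4) ∞ M]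
  [RiemannianBundle (fun p : M => TangentSpace (𝓡 4) p)]
  [IsContMDiffRiemannianBundle (𝓡 4) ∞ (EuclideanSpace ℝ (Fin 4))
    (fun p : M => TangentSpace (𝓡 4) p)]
  [IsRiemannianManifold (𝓡 4) M] [MeasurableSpace M] [BorelSpace M]
  [SecondCountableTopology M] [Nonempty M] [IsFiniteMeasureOnCompacts (μHE[4] : Measure M)]
  {κ0 κ1 κT : Type} [Fintype κ0] [Fintype κ1] [Fintype κT] {b : ℕ}

/-! ### the linear terms `c(2π al_i) i` -/

/-- the form `2π al_i`. -/
def fi (j : JD M κT b) (i : Fin b) : κT → M → ℝ := fun A z => 2 * Real.pi * j.al i A z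

theorem fm_eq (j : JD M κT b) (h : Fin b → ℝ) (A : κT) (z : M) :
    j.fm h A z = ∑ i, h i * fi j i A z := by
  unfold JD.fm fi
  rw [Finset.mul_sum]
  exact Finset.sum_congr rfl fun i _ => by ring

theorem sm_fi {S : SWS M κ0 κ1 κT} {j : JD M κT b} (hj : j.OK S) (i : Fin b) :
    SmV (n := 4) (fi j i) := fun A => contMDiff_const.mul (hj.sm i A)

/-- the matrix of `c(2π al_i) i`. -/
def ml (S : SWS M κ0 κ1 κT) (j : JD M κT b) (i : Fin b) : κ1 → κ0 → M → ℝ :=
  fun x y z => ∑ A, fi j i A z * S.cl A x y z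

theorem bm_ml {S : SWS M κ0 κ1 κT} {j : JD M κT b} (hS : S.OK) (hj : j.OK S) (i : Fin b) (x : κ1)
    (y : κ0) : BM (μHE[4] : Measure M) (ml S j i x y) := by
  refine Swx_333.bm_smooth ?_
  unfold ml
  exact contMDiff_finsetSum fun A _ => (sm_fi hj i A).mul (hS.smcl A x y)

/-- `c(2π al_i) i : W^{1,2} → L²`. -/
def LI {S : SWS M κ0 κ1 κT} {j : JD M κT b} (hS : S.OK) (hj : j.OK S) (i : Fin b) :
    S.D0.toAD.WE →L[ℝ] S.D1.toAD.HE :=
  (Swx_333.PL S.D1).comp ((matR (bm_ml hS hj i)).comp S.D0.toAD.i1)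

theorem P_LI {S : SWS M κ0 κ1 κT} {j : JD M κT b} (hS : S.OK) (hj : j.OK S) (i : Fin b)
    (p : S.D0.toAD.WE) : ((LI hS hj i p : S.D1.toAD.HE) : HH (μHE[4] : Measure M) κ1) =
      matR (bm_ml hS hj i) (S.D0.toAD.i1 p) := by
  have e0 : ((LI hS hj i p : S.D1.toAD.HE) : HH (μHE[4] : Measure M) κ1) =
    S.D1.toAD.P (matR (bm_ml hS hj i) (S.D0.toAD.i1 p)) := rfl
  rw [e0]
  ext x
  filter_upwards [S.D1.toAD.coe_P (matR (bm_ml hS hj i) (S.D0.toAD.i1 p)),
    coe_matR (bm_ml hS hj i) (S.D0.toAD.i1 p)] with z e1 e2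
  have e3 : ∀ x, (matR (bm_ml hS hj i) (S.D0.toAD.i1 p) x : M → ℝ) z =
      S.cm (fi j i) (rp p) x z := by
    intro x
    rw [e2 x]
    unfold SWS.cm ml rp
    rw [Finset.sum_comm]
    refine Finset.sum_congr rfl fun y _ => ?_
    rw [Finset.mul_sum]
    exact Finset.sum_congr rfl fun A _ => by ring
  rw [e1 x, e3 x, ← cm_sec hS]
  exact Finset.sum_congr rfl fun x' _ => by rw [e3 x']; rfl

/-- **the coordinates of `LI`**. -/
theorem coe_LI {S : SWS M κ0 κ1 κT} {j : JD M κT b} (hS : S.OK) (hj : j.OK S) (i : Fin b)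
    (p : S.D0.toAD.WE) : ∀ᵐ z ∂(μHE[4] : Measure M), ∀ x,
      (((LI hS hj i p : S.D1.toAD.HE) : HH (μHE[4] : Measure M) κ1) x : M → ℝ) z =
        S.cm (fi j i) (rp p) x z := by
  rw [P_LI]
  filter_upwards [coe_matR (bm_ml hS hj i) (S.D0.toAD.i1 p)] with z e2 x
  rw [e2 x]
  unfold SWS.cm ml rp
  rw [Finset.sum_comm]
  refine Finset.sum_congr rfl fun y _ => ?_
  rw [Finset.mul_sum]
  exact Finset.sum_congr rfl fun A _ => by ring

/-- **compactness**. -/
theorem compact_LI {S : SWS M κ0 κ1 κT} {j : JD M κT b} (hS : S.OK) (hj : j.OK S) (i : Fin b) :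
    IsCompactOperator (LI hS hj i) :=
  ((S.D0.toAD.compact_i1 fried4).clm_comp (matR (bm_ml hS hj i))).clm_comp (Swx_333.PL S.D1)

/-! ### the harmonic part -/

/-- the element `(1,0)` of the kernel. -/
def cs {S : SWS M κ0 κ1 κT} (hS : S.OK) : KrS S :=
  ⟨⟨cst M, sm_cst, sec_full hS _⟩, (mem_KrS S _).2 hS.one⟩

/-- harmonic elements completing `(1,0)`. -/
structure HarB {S : SWS M κ0 κ1 κT} (hS : S.OK) (bp : ℕ) where
  Φ : Fin bp → KrS S
  span : ∀ v : KrS S, ∃ (c : ℝ) (f : Fin bp → ℝ), v = c • cs hS + ∑ i, f i • Φ i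

theorem cs_ne {S : SWS M κ0 κ1 κT} (hS : S.OK) : cs hS ≠ 0 := by
  intro h
  obtain ⟨z0⟩ := ‹Nonempty M›
  have h1 : ((cs hS : SmS S.DL) : Fin 4 → M → ℝ) 0 z0 = 0 := by rw [h]; rfl
  have h2 : ((cs hS : SmS S.DL) : Fin 4 → M → ℝ) 0 z0 = 1 := rfl
  rw [h2] at h1
  exact one_ne_zero h1

theorem exists_HarB {S : SWS M κ0 κ1 κT} (hS : S.OK) {bp : ℕ}
    (K : Nonempty (KerD S.DL S.H.A (1 + bp))) : Nonempty (HarB hS bp) := by
  obtain ⟨K⟩ := K
  obtain ⟨hfin, hrank⟩ := finrank_KrS K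
  obtain ⟨W, hW⟩ := Submodule.exists_isCompl (Submodule.span ℝ {cs hS})
  have h1 : Module.finrank ℝ (Submodule.span ℝ {cs hS}) = 1 := finrank_span_singleton (cs_ne hS)
  have h2 : Module.finrank ℝ W = bp := by
    have := Submodule.finrank_add_eq_of_isCompl hW
    omega
  let B := Module.finBasisOfFinrankEq ℝ W h2
  refine ⟨⟨fun i => (B i : KrS S), fun v => ?_⟩⟩
  have hv : v ∈ Submodule.span ℝ {cs hS} ⊔ W := by rw [hW.sup_eq_top]; exact Submodule.mem_top
  obtain ⟨y, hy, w, hw, rfl⟩ := Submodule.mem_sup.1 hv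
  obtain ⟨c, rfl⟩ := Submodule.mem_span_singleton.1 hy
  refine ⟨c, fun i => B.repr ⟨w, hw⟩ i, ?_⟩
  congr 1
  have := congrArg (fun w : W => (w : KrS S)) (B.sum_repr ⟨w, hw⟩)
  simp only [Submodule.coe_sum, Submodule.coe_smul] at this
  exact this.symm

variable {bp : ℕ}

/-- the `i`-th harmonic element. -/
def HarB.ph {S : SWS M κ0 κ1 κT} {hS : S.OK} (H : HarB hS bp) (i : Fin bp) : Fin 4 → M → ℝ :=
  (H.Φ i).1.1

theorem HarB.sm {S : SWS M κ0 κ1 κT} {hS : S.OK} (H : HarB hS bp) (i : Fin bp) :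
    SmV (n := 4) (H.ph i) := (H.Φ i).1.2.1

theorem HarB.ker {S : SWS M κ0 κ1 κT} {hS : S.OK} (H : HarB hS bp) (i : Fin bp) :
    ∀ x z, S.H.A (H.ph i) x z = 0 := (mem_KrS S _).1 (H.Φ i).2

/-- the harmonic projection. -/
def HarB.har {S : SWS M κ0 κ1 κT} {hS : S.OK} (H : HarB hS bp) :
    HH (μHE[4] : Measure M) (Fin 4) →L[ℝ] EuclideanSpace ℝ (Fin bp) :=
  ((PiLp.continuousLinearEquiv 2 ℝ (fun _ : Fin bp => ℝ)).symm :
      (∀ _ : Fin bp, ℝ) →L[ℝ] EuclideanSpace ℝ (Fin bp)).comp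
    (ContinuousLinearMap.pi fun i => innerSL ℝ (clH (H.ph i) (H.sm i)))

theorem HarB.har_apply {S : SWS M κ0 κ1 κT} {hS : S.OK} (H : HarB hS bp)
    (f : HH (μHE[4] : Measure M) (Fin 4)) (i : Fin bp) :
    H.har f i = ⟪clH (H.ph i) (H.sm i), f⟫ := by
  simp [HarB.har]

/-- **orthogonality to the kernel**. -/
theorem HarB.perp {S : SWS M κ0 κ1 κT} {hS : S.OK} (H : HarB hS bp)
    (f : HH (μHE[4] : Measure M) (Fin 4)) (h0 : ⟪f, clH (cst M) sm_cst⟫ = (0 : ℝ))
    (h1 : H.har f = 0) (v : Fin 4 → M → ℝ) (hv : SmV (n := 4) v)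
    (hker : ∀ b z, S.H.A v b z = 0) : ⟪f, clH v hv⟫ = (0 : ℝ) := by
  let L : KrS S →ₗ[ℝ] ℝ :=
    { toFun := fun v => ⟪f, clH v.1.1 v.1.2.1⟫
      map_add' := fun v w => by
        have : clH (v + w).1.1 (v + w).1.2.1 = clH v.1.1 v.1.2.1 + clH w.1.1 w.1.2.1 :=
          clH_add _ _ _ _ _
        rw [this, inner_add_right]
      map_smul' := fun c v => by
        have : clH (c • v).1.1 (c • v).1.2.1 = c • clH v.1.1 v.1.2.1 := clH_smul _ _ _ _
        rw [this, inner_smul_right]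
        rfl }
  have hL : ∀ v, L v = 0 := by
    intro v
    obtain ⟨c, g, hv⟩ := H.span v
    rw [hv, map_add, map_smul, map_sum]
    have e1 : L (cs hS) = 0 := h0
    have e2 : ∀ i, L (H.Φ i) = 0 := by
      intro i
      have e3 : H.har f i = 0 := by rw [h1]; rfl
      rw [H.har_apply, real_inner_comm] at e3
      exact e3
    rw [e1, smul_zero, zero_add]
    refine Finset.sum_eq_zero fun i _ => ?_
    rw [map_smul, e2 i, smul_zero]
  exact hL (⟨⟨v, hv, sec_full hS v⟩, (mem_KrS S _).2 hker⟩ : KrS S)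

/-! ### the nonlinear maps of `JData` -/

/-- harmonic part of the curvature equation. -/
def KA {S : SWS M κ0 κ1 κT} {hS : S.OK} (H : HarB hS bp) (d : SWD M κT) (R : ℝ) (t : E3)
    (x : S.D0.toAD.WE) : EuclideanSpace ℝ (Fin bp) := H.har (Fq d R t x)

/-- nonlinear part of the Dirac equation. -/
def KP {S : SWS M κ0 κ1 κT} {d : SWD M κT} (hS : S.OK) (hd : d.Adm S) (s0 : Spec S.DL) (R : ℝ)
    (t : E3) (x : S.D0.toAD.WE) : S.D1.toAD.HE := Swx_333.PL S.D1 (KKt hS hd s0 R t x)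

/-! ### the twisted data -/

theorem sm_fm {S : SWS M κ0 κ1 κT} {j : JD M κT b} (hj : j.OK S) (h : Fin b → ℝ) :
    SmV (n := 4) (j.fm h) := fun A => by
  have : j.fm h A = fun z => ∑ i, h i * fi j i A z := funext fun z => fm_eq j h A z
  rw [this]
  exact contMDiff_finsetSum fun i _ => contMDiff_const.mul (sm_fi hj i A)

theorem sec_fm {S : SWS M κ0 κ1 κT} {j : JD M κT b} (hj : j.OK S) (h : Fin b → ℝ) :
    S.DT.Sec (j.fm h) := by
  intro A z
  have h1 : ∀ i A z, ∑ B, S.DT.p A B z * j.al i B z = j.al i A z := fun i A z => hj.sec i A z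
  unfold JD.fm
  simp only [← h1 _ A z, Finset.mul_sum]
  rw [Finset.sum_comm]
  exact Finset.sum_congr rfl fun i _ => Finset.sum_congr rfl fun B _ => by ring


end main

end Crest.Agent.R235.SWJc_365

end
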