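import Crest.Agent.R235.SWFreD_952
import Crest.Agent.R235.SWJc_365

/-!
Row 235 (S0364), node SWJA, leaf (c) (helper952): the fields `KA'`, `KP'`, `dA`, `dP`, `ker` of `JData`
(`SwjDef_844`) for the concrete maps of `SWJc_365`, at `x0 = cW S.D0 u`, `u = √(2r) rr^{3/4} U s`.
Also `solA : KA H d R (pi s) (cW S.D0 u) = 0`.
-/

set_option autoImplicit false
set_option maxSynthPendingDepth 3
set_option linter.unusedSectionVars false

open scoped ContDiff ENNReal NNReal Topology Manifold Bundle RealInnerProductSpace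
open MeasureTheory Set Filter Metric Bundle

universe v

noncomputable section

namespace Crest.Agent.R235.SWJd_952

open Crest.Agent.R249.Tv57 Crest.Agent.R247.Ms322 Crest.Agent.R247.Dir593
open Crest.Agent.R235.SWDefs_53 Crest.Agent.R235.CptB_755 Crest.Agent.R235.Fs4_546
open Crest.Agent.R235.CptC_755 Crest.Agent.R235.Cpt_755 Crest.Agent.R235.Fred_649
open Crest.Agent.R235.Swx_333 Crest.Agent.R235.SWSym_451 Crest.Agent.R235.SWJc_365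
open Crest.Agent.R235.SWFre_952

section main

variable {M : Type v} [MetricSpace M] [CompactSpace M] [ConnectedSpace M]
  [ChartedSpace (EuclideanSpace ℝ (Fin 4)) M] [IsManifold (𝓡 4) ∞ M]
  [RiemannianBundle (fun p : M => TangentSpace (𝓡 4) p)]
  [IsContMDiffRiemannianBundle (𝓡 4) ∞ (EuclideanSpace ℝ (Fin 4))
    (fun p : M => TangentSpace (𝓡 4) p)]
  [IsRiemannianManifold (𝓡 4) M] [MeasurableSpace M] [BorelSpace M]
  [SecondCountableTopology M] [Nonempty M] [IsFiniteMeasureOnCompacts (μHE[4] : Measure M)]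
  {κ0 κ1 κT : Type} [Fintype κ0] [Fintype κ1] [Fintype κT] {b bp : ℕ}

/-- `KA'` -/
def KA' {S : SWS M κ0 κ1 κT} {hS : S.OK} (H : HarB hS bp) {d : SWD M κT} (hd : d.Adm S) {t : E3}
    (ht : t ∈ BB) (u : SmS S.D0) : S.D0.toAD.WE →L[ℝ] EuclideanSpace ℝ (Fin bp) :=
  H.har.comp (dFq hS hd ht u)

/-- `KP'` -/
def KP' {S : SWS M κ0 κ1 κT} {d : SWD M κT} (hS : S.OK) (hd : d.Adm S) (s0 : Spec S.DL)
    (h4 : Emb4 S.D0.toAD.i1) (hT4 : Emb4 S.DT.toAD.i1) (R : ℝ) {t : E3} (ht : t ∈ BB)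
    (u : SmS S.D0) : S.D0.toAD.WE →L[ℝ] S.D1.toAD.HE := dKK hS hd s0 h4 hT4 R ht u

/-- a strict bound of a smooth section gives `R0 < R`. -/
theorem exists_R0 {S : SWS M κ0 κ1 κT} (u : SmS S.D0) {R : ℝ} (hR : 0 < R)
    (hu : ∀ z, ∑ y, u.1 y z ^ 2 < R ^ 2) :
    ∃ R0 : ℝ, 0 ≤ R0 ∧ R0 < R ∧ ∀ z, ∑ y, u.1 y z ^ 2 ≤ R0 ^ 2 := by
  have hc : Continuous fun z => ∑ y, u.1 y z ^ 2 :=
    continuous_finsetSum _ fun y _ => (u.2.1 y).continuous.pow 2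
  obtain ⟨z0, -, hz0⟩ := isCompact_univ.exists_isMaxOn univ_nonempty hc.continuousOn
  have h0 : 0 ≤ ∑ y, u.1 y z0 ^ 2 := Finset.sum_nonneg fun y _ => sq_nonneg _
  refine ⟨√(∑ y, u.1 y z0 ^ 2), Real.sqrt_nonneg _, ?_, fun z => ?_⟩
  · rw [Real.sqrt_lt' hR]
    exact hu z0
  · rw [Real.sq_sqrt h0]
    exact hz0 (mem_univ z)

/-- **`JData.dA`** -/
theorem dA {S : SWS M κ0 κ1 κT} {hS : S.OK} (H : HarB hS bp) {d : SWD M κT} (hd : d.Adm S)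
    (h4 : Emb4 S.D0.toAD.i1) {R : ℝ} (hR : 0 < R) {t : E3} (ht : t ∈ BB) (u : SmS S.D0)
    (hu : ∀ z, ∑ y, u.1 y z ^ 2 < R ^ 2) :
    HasFDerivAt (KA H d R t) (KA' H hd ht u) (cW S.D0 u) := by
  obtain ⟨R0, h0, h1, h2⟩ := exists_R0 u hR hu
  exact jd_dA hS hd h4 h0 h1 ht u h2 H.har

/-- **`JData.dP`** -/
theorem dP {S : SWS M κ0 κ1 κT} {d : SWD M κT} (hS : S.OK) (hd : d.Adm S) (s0 : Spec S.DL)
    (h4 : Emb4 S.D0.toAD.i1) (hT4 : Emb4 S.DT.toAD.i1) {R : ℝ} (hR : 0 < R) {t : E3} (ht : t ∈ BB)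
    (u : SmS S.D0) (hu : ∀ z, ∑ y, u.1 y z ^ 2 < R ^ 2) :
    HasFDerivAt (KP hS hd s0 R t) (KP' hS hd s0 h4 hT4 R ht u) (cW S.D0 u) := by
  obtain ⟨R0, h0, h1, h2⟩ := exists_R0 u hR hu
  exact hasFDerivAt_KK hS hd s0 h4 hT4 h0 h1 ht u h2

/-- **`JData.ker`** -/
theorem ker (hND : ND.{v}) {S : SWS M κ0 κ1 κT}
    {ec : κ1 → κ0 → M → EuclideanSpace ℝ (Fin 4)} {ww : Fin 3 → Fin 3 → M → ℝ}
    {τ : E3 → TD M κT} {C : ℝ} {th : E3 → κT → M → ℝ} {pi : EuclideanSpace ℂ (Fin 2) → E3}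
    {U : EuclideanSpace ℂ (Fin 2) → κ0 → M → ℝ} (hH : HopfD S ww τ C th pi U) {d : SWD M κT}
    (hF : d.FFit S ww τ C th) (hS : S.OK) (hd : d.Adm S) (hsym : Sym S ec) (hg : GrdH S)
    {s : EuclideanSpace ℂ (Fin 2)} (hs : ‖s‖ = 1) (ht : pi s ∈ BB)
    (s0 : Spec S.DL) (sT : Spec S.DT) (h4 : Emb4 S.D0.toAD.i1) (hT4 : Emb4 S.DT.toAD.i1)
    {R : ℝ} (hR : 0 < R) (u : SmS S.D0)
    (hu : u.1 = (τ (pi s)).sc (3 / 4) (fun y z => √(2 * d.r) * U s y z))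
    (huR : ∀ z, ∑ y, u.1 y z ^ 2 < R ^ 2)
    {j : JD M κT b} (hj : j.OK S) (H : HarB hS bp)
    (II : S.D0.toAD.WE →L[ℝ] S.D0.toAD.WE)
    (coe_II : ∀ x, ∀ᵐ z ∂(μHE[4] : Measure M), ∀ y, rp (II x) y z = S.iu (rp x) y z)
    (κ : Fin b → ℝ) (v : S.D0.toAD.WE) (h1 : KA' H hd ht u v = 0)
    (h2 : Ah S.P v + ∑ i, κ i • LI hS hj i (cW S.D0 u) + KP' hS hd s0 h4 hT4 R ht u v = 0) :
    κ = 0 ∧ ∃ c : ℝ, v = c • II (cW S.D0 u) := by
  have ht1 : ‖pi s‖ = 1 := hH.npi s hs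
  have hfit := fit_of hH.fam hF ht1
  have hflat := flat_of hH.fam hF ht1
  have hps := psec_of hH hF hs
  have hz := fq_taubes hS hd ht (hH.fam.tau _ ht1) hfit hflat hps hR u hu fun z => (huR z).le
  refine ker_jd hND hS hsym hg (hH.fam.tau _ ht1) hfit hF.rpos (hF.rbig _ ht1) hflat hps hd ht
    s0 sT h4 hT4 R u hu (by rw [hz, map_zero]) hj (LI hS hj) (fun i x => coe_LI hS hj i x) II
    coe_II κ v ?_ h2
  intro l hl
  refine H.perp (dFq hS hd ht u v) ?_ h1 (ph s0 l).1 (ph s0 l).2.1 fun x z => ?_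
  · rw [inner_HH (dFq hS hd ht u v) (clH (cst M) sm_cst) (coe_dFq hS hd ht u v)
      (coe_clH (cst M) sm_cst)]
    rw [← integral_zero M ℝ (μ := (μHE[4] : Measure M))]
    refine integral_congr_ae (Eventually.of_forall fun z => ?_)
    simp only [Fin.sum_univ_succ (n := 3)]
    have r0 : linq S d (pi s) u.1 (rp v) 0 z = 0 := rfl
    have r1 : ∀ k : Fin 3, (cst M) k.succ z = 0 := fun k => rfl
    simp only [r0, r1, zero_mul, mul_zero, Finset.sum_const_zero, add_zero]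
  · have h6 := congrArg (fun v : SmS S.DT => v.1 x z) (lA_ker S.H s0 (s0.mem_ker.1 hl))
    exact h6

/-- **`JData.solA`**, over every point of the sphere. -/
theorem solA {S : SWS M κ0 κ1 κT} {ww : Fin 3 → Fin 3 → M → ℝ}
    {τ : E3 → TD M κT} {C : ℝ} {th : E3 → κT → M → ℝ} {pi : EuclideanSpace ℂ (Fin 2) → E3}
    {U : EuclideanSpace ℂ (Fin 2) → κ0 → M → ℝ} (hH : HopfD S ww τ C th pi U) {d : SWD M κT}
    (hF : d.FFit S ww τ C th) (hS : S.OK) (hd : d.Adm S) (H : HarB hS bp)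
    {s : EuclideanSpace ℂ (Fin 2)} (hs : ‖s‖ = 1) {R : ℝ} (hR : 0 < R)
    (u : SmS S.D0) (hu : u.1 = (τ (pi s)).sc (3 / 4) (fun y z => √(2 * d.r) * U s y z))
    (huR : ∀ z, ∑ y, u.1 y z ^ 2 ≤ R ^ 2) : KA H d R (pi s) (cW S.D0 u) = 0 := by
  unfold KA
  rw [jd_solA hH hF hS hd hs (by show ‖pi s‖ ≤ 1; rw [hH.npi s hs]) hR u hu huR, map_zero]


end main

end Crest.Agent.R235.SWJd_952

end
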