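import Crest.Agent.R235.SWJc_365
import Crest.Agent.R235.SWUni_312

/-!
Row 235 (S0364), node SWJA (owner helper365): the solutions over `|t| = 1`: the fields `Q`, `B`, `I` side
of `JData` (`SwjDef_844`).

* `we_ext`   : elements of `W^{1,2}` with the same representatives are equal;
* `us`       : `√(2r) ρ^{3/4} U s`; `sm_us`, `sec_us`, `nrm_us`;
* `QQ`       : the class of `us s` in `W^{1,2}`; `rp_QQ`;
* `eqQ`, `posQ`, `Bl`, `Bl_symm`, `Bl_I`;
* `gau_us`   : gauge transformation of `us`.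
-/

set_option autoImplicit false
set_option maxSynthPendingDepth 3
set_option linter.unusedSectionVars false

open scoped ContDiff ENNReal NNReal Topology Manifold Bundle RealInnerProductSpace
open MeasureTheory Set Filter Metric Bundle

universe v

noncomputable section

namespace Crest.Agent.R235.SWJq_365

open Crest.Agent.R249.Tv57 Crest.Agent.R247.Ms322 Crest.Agent.R247.Dir593
open Crest.Agent.R235.SWDefs_53 Crest.Agent.R235.CptB_755 Crest.Agent.R235.Fs4_546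
open Crest.Agent.R235.CptC_755 Crest.Agent.R235.Cpt_755 Crest.Agent.R235.Fred_649
open Crest.Agent.R235.Swx_333 Crest.Agent.R235.SWSym_451 Crest.Agent.R235.SWJc_365
open Crest.Agent.R235.SwjAbs_844

local notation "ipp" => Crest.Agent.R249.Tv57.ip 4

section main

variable {M : Type v} [MetricSpace M] [CompactSpace M] [ConnectedSpace M]
  [ChartedSpace (EuclideanSpace ℝ (Fin 4)) M] [IsManifold (𝓡 4) ∞ M]
  [RiemannianBundle (fun p : M => TangentSpace (𝓡 4) p)]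
  [IsContMDiffRiemannianBundle (𝓡 4) ∞ (EuclideanSpace ℝ (Fin 4))
    (fun p : M => TangentSpace (𝓡 4) p)]
  [IsRiemannianManifold (𝓡 4) M] [MeasurableSpace M] [BorelSpace M]
  [SecondCountableTopology M] [Nonempty M] [IsFiniteMeasureOnCompacts (μHE[4] : Measure M)]
  {κ0 κ1 κT : Type} [Fintype κ0] [Fintype κ1] [Fintype κT] {b : ℕ}

/-- elements of `W^{1,2}` with the same representatives are equal. -/
theorem we_ext {κ : Type} [Fintype κ] {D : Dat 4 M κ} {u v : D.toAD.WE}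
    (h : ∀ᵐ z ∂(μHE[4] : Measure M), ∀ y, rp u y z = rp v y z) : u = v := by
  refine D.toAD.jj_injective (Subtype.ext ?_)
  ext y
  filter_upwards [h] with z hz
  exact hz y

theorem rp_cW {κ : Type} [Fintype κ] {D : Dat 4 M κ} (u : SmS D) :
    ∀ᵐ z ∂(μHE[4] : Measure M), ∀ y, rp (cW D u) y z = u.1 y z := coe_clH u.1 u.2.1

theorem rp_add {κ : Type} [Fintype κ] {D : Dat 4 M κ} (u v : D.toAD.WE) :
    ∀ᵐ z ∂(μHE[4] : Measure M), ∀ y, rp (u + v) y z = rp u y z + rp v y z := by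
  rw [ae_all_iff]
  intro y
  have : D.toAD.i1 (u + v) = D.toAD.i1 u + D.toAD.i1 v := map_add _ _ _
  unfold rp
  rw [this]
  exact Lp.coeFn_add _ _

theorem rp_smul {κ : Type} [Fintype κ] {D : Dat 4 M κ} (c : ℝ) (u : D.toAD.WE) :
    ∀ᵐ z ∂(μHE[4] : Measure M), ∀ y, rp (c • u) y z = c * rp u y z := by
  rw [ae_all_iff]
  intro y
  have : D.toAD.i1 (c • u) = c • D.toAD.i1 u := map_smul _ _ _
  unfold rp
  rw [this]
  exact Lp.coeFn_smul c _

/-! ### the `L²` product -/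

/-- the `L²` product. -/
def Bl {κ : Type} [Fintype κ] (D : Dat 4 M κ) : D.toAD.WE →L[ℝ] D.toAD.WE →L[ℝ] ℝ :=
  ContinuousLinearMap.bilinearComp (innerSL ℝ) D.toAD.jj D.toAD.jj

theorem Bl_apply {κ : Type} [Fintype κ] (D : Dat 4 M κ) (u v : D.toAD.WE) :
    Bl D u v = (⟪D.toAD.jj u, D.toAD.jj v⟫ : ℝ) := rfl

theorem Bl_symm {κ : Type} [Fintype κ] (D : Dat 4 M κ) (u v : D.toAD.WE) : Bl D u v = Bl D v u := by
  rw [Bl_apply, Bl_apply, real_inner_comm]

theorem Bl_eq {κ : Type} [Fintype κ] (D : Dat 4 M κ) (u v : D.toAD.WE) {f g : κ → M → ℝ}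
    (hu : ∀ᵐ z ∂(μHE[4] : Measure M), ∀ y, rp u y z = f y z)
    (hv : ∀ᵐ z ∂(μHE[4] : Measure M), ∀ y, rp v y z = g y z) :
    Bl D u v = ∫ z, ∑ y, f y z * g y z ∂(μHE[4] : Measure M) := by
  rw [Bl_apply]
  exact inner_HH (D.toAD.i1 u) (D.toAD.i1 v) hu hv

/-- pointwise isometry of `J`. -/
theorem iu_iu {S : SWS M κ0 κ1 κT} {cc : κ1 → κ0 → M → EuclideanSpace ℝ (Fin 4)} (hc : Sym S cc)
    {u v : κ0 → M → ℝ} {z : M} (hv : ∀ y, ∑ y', S.D0.p y y' z * v y' z = v y z) :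
    ∑ y, S.iu u y z * S.iu v y z = ∑ y, u y z * v y z := by
  have h1 : ∀ y', ∑ y, S.J y y' z * S.iu v y z = v y' z := by
    intro y'
    have e1 : ∑ y, S.J y y' z * S.iu v y z = ∑ y, ∑ y'', -(S.J y' y z * S.J y y'' z * v y'' z) := by
      refine Finset.sum_congr rfl fun y _ => ?_
      unfold SWS.iu
      rw [Finset.mul_sum]
      refine Finset.sum_congr rfl fun y'' _ => ?_
      rw [hc.skewJ y y' z]
      ring
    rw [e1, Finset.sum_comm]
    have e2 : ∀ y'', ∑ y, -(S.J y' y z * S.J y y'' z * v y'' z) = S.D0.p y' y'' z * v y'' z := by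
      intro y''
      rw [Finset.sum_neg_distrib, ← Finset.sum_mul, hc.Jsq y' y'' z]
      ring
    simp only [e2]
    exact hv y'
  have h2 : ∑ y, S.iu u y z * S.iu v y z = ∑ y, ∑ y', S.J y y' z * u y' z * S.iu v y z := by
    refine Finset.sum_congr rfl fun y _ => ?_
    conv_lhs => rw [SWS.iu]
    rw [Finset.sum_mul]
  rw [h2, Finset.sum_comm]
  refine Finset.sum_congr rfl fun y' _ => ?_
  rw [← h1 y', Finset.mul_sum]
  exact Finset.sum_congr rfl fun y _ => by ring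

theorem Bl_I {S : SWS M κ0 κ1 κT} {cc : κ1 → κ0 → M → EuclideanSpace ℝ (Fin 4)} (hc : Sym S cc)
    {I : S.D0.toAD.WE → S.D0.toAD.WE}
    (hI : ∀ x, ∀ᵐ z ∂(μHE[4] : Measure M), ∀ y, rp (I x) y z = S.iu (rp x) y z)
    (x x' : S.D0.toAD.WE) : Bl S.D0 (I x) (I x') = Bl S.D0 x x' := by
  rw [Bl_eq S.D0 (I x) (I x') (hI x) (hI x'),
    Bl_eq S.D0 x x' (Eventually.of_forall fun _ _ => rfl) (Eventually.of_forall fun _ _ => rfl)]
  refine integral_congr_ae ?_
  filter_upwards [sec_rp x'] with z hz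
  exact iu_iu hc hz

/-! ### the solutions over the unit sphere -/

variable {S : SWS M κ0 κ1 κT} {cc : κ1 → κ0 → M → EuclideanSpace ℝ (Fin 4)}
  {ww : Fin 3 → Fin 3 → M → ℝ} {τ : E3 → TD M κT} {C : ℝ}
  {th : E3 → κT → M → ℝ} {pi : C2 → E3} {U : C2 → κ0 → M → ℝ}

/-- the solution over `s`. -/
def us (τ : E3 → TD M κT) (pi : C2 → E3) (U : C2 → κ0 → M → ℝ) (r : ℝ) (s : C2) : κ0 → M → ℝ :=
  fun y z => √(2 * r) * (τ (pi s)).rr z ^ (3 / 4 : ℝ) * U s y z

theorem sm_us (hH : HopfD S ww τ C th pi U) (r : ℝ) {s : C2} (hs : ‖s‖ = 1) :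
    SmV (n := 4) (us τ pi U r s) := by
  intro y
  have ht := hH.fam.tau (pi s) (hH.npi s hs)
  exact (contMDiff_const.mul (Crest.Agent.R235.SWUni_312.smooth_rpow ht.smrr ht.pos _)).mul
    ((hH.psec s hs).sm y)

theorem sec_us (hH : HopfD S ww τ C th pi U) (r : ℝ) {s : C2} (hs : ‖s‖ = 1) :
    S.D0.Sec (us τ pi U r s) := by
  intro y z
  have h1 := (hH.psec s hs).sec.1 y z
  unfold us
  rw [← h1, Finset.mul_sum]
  exact Finset.sum_congr rfl fun y' _ => by ring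

theorem nrm_us (hH : HopfD S ww τ C th pi U) {r : ℝ} (hr : 0 < r) {s : C2} (hs : ‖s‖ = 1) (z : M) :
    0 < ∑ y, us τ pi U r s y z * us τ pi U r s y z := by
  have ht := hH.fam.tau (pi s) (hH.npi s hs)
  have h1 := (hH.psec s hs).nrm z
  have h2 : ∑ y, us τ pi U r s y z * us τ pi U r s y z =
      (√(2 * r) * (τ (pi s)).rr z ^ (3 / 4 : ℝ)) ^ 2 * ∑ y, U s y z ^ 2 := by
    rw [Finset.mul_sum]
    exact Finset.sum_congr rfl fun y _ => by unfold us; ring
  rw [h2, h1]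
  have h3 : 0 < √(2 * r) := Real.sqrt_pos.2 (by linarith)
  have h4 : 0 < (τ (pi s)).rr z ^ (3 / 4 : ℝ) := Real.rpow_pos_of_pos (ht.pos z) _
  positivity

open Classical in
/-- the class of `us s` in `W^{1,2}`. -/
def QQ (hH : HopfD S ww τ C th pi U) (r : ℝ) (s : C2) : S.D0.toAD.WE :=
  if hs : ‖s‖ = 1 then cW S.D0 ⟨us τ pi U r s, sm_us hH r hs, sec_us hH r hs⟩ else 0

theorem QQ_eq (hH : HopfD S ww τ C th pi U) (r : ℝ) {s : C2} (hs : ‖s‖ = 1) :
    QQ hH r s = cW S.D0 ⟨us τ pi U r s, sm_us hH r hs, sec_us hH r hs⟩ := by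
  unfold QQ
  rw [dif_pos hs]

theorem rp_QQ (hH : HopfD S ww τ C th pi U) (r : ℝ) {s : C2} (hs : ‖s‖ = 1) :
    ∀ᵐ z ∂(μHE[4] : Measure M), ∀ y, rp (QQ hH r s) y z = us τ pi U r s y z := by
  rw [QQ_eq hH r hs]
  exact rp_cW _

theorem posQ (hH : HopfD S ww τ C th pi U) {r : ℝ} (hr : 0 < r) {s : C2} (hs : ‖s‖ = 1) :
    0 < Bl S.D0 (QQ hH r s) (QQ hH r s) := by
  rw [Bl_apply, real_inner_self_eq_norm_sq]
  have h0 : S.D0.toAD.jj (QQ hH r s) ≠ 0 := by
    intro h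
    have h1 : QQ hH r s = 0 := S.D0.toAD.jj_injective (by rw [h, map_zero])
    rw [QQ_eq hH r hs] at h1
    have h2 := cW_injective S.D0 (h1.trans (map_zero _).symm)
    obtain ⟨z⟩ := ‹Nonempty M›
    have h3 := nrm_us hH hr hs z
    have h4 : ∀ y, us τ pi U r s y z = 0 := fun y => congrFun (congrFun (congrArg Subtype.val h2) y) z
    simp only [h4, mul_zero, Finset.sum_const_zero] at h3
    exact lt_irrefl _ h3
  positivity

theorem us_smul (hH : HopfD S ww τ C th pi U) (r : ℝ) {s : C2} {c : ℂ} (hs : ‖s‖ = 1) (hc : ‖c‖ = 1)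
    (y : κ0) (z : M) : us τ pi U r (c • s) y z =
      c.re * us τ pi U r s y z + c.im * S.iu (us τ pi U r s) y z := by
  have h1 : pi (c • s) = pi s := ((hH.fpi s (c • s) hs (by rw [norm_smul, hc, hs, one_mul])).2
    ⟨c, hc, rfl⟩).symm
  have h2 : S.iu (us τ pi U r s) y z =
      √(2 * r) * (τ (pi s)).rr z ^ (3 / 4 : ℝ) * S.iu (U s) y z := by
    unfold SWS.iu us
    rw [Finset.mul_sum]
    exact Finset.sum_congr rfl fun y' _ => by ring
  rw [h2]
  unfold us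
  rw [h1, hH.eqU s c hs hc]
  ring

theorem eqQ (hH : HopfD S ww τ C th pi U) (r : ℝ) {I : S.D0.toAD.WE → S.D0.toAD.WE}
    (hI : ∀ x, ∀ᵐ z ∂(μHE[4] : Measure M), ∀ y, rp (I x) y z = S.iu (rp x) y z)
    (s : C2) (c : ℂ) (hs : ‖s‖ = 1) (hc : ‖c‖ = 1) :
    QQ hH r (c • s) = c.re • QQ hH r s + c.im • I (QQ hH r s) := by
  have hcs : ‖c • s‖ = 1 := by rw [norm_smul, hc, hs, one_mul]
  refine we_ext ?_
  filter_upwards [rp_QQ hH r hcs, rp_QQ hH r hs, hI (QQ hH r s),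
    rp_add (c.re • QQ hH r s) (c.im • I (QQ hH r s)), rp_smul c.re (QQ hH r s),
    rp_smul c.im (I (QQ hH r s))] with z e1 e2 e3 e4 e5 e6 y
  have e7 : S.iu (rp (QQ hH r s)) y z = S.iu (us τ pi U r s) y z := by
    unfold SWS.iu
    exact Finset.sum_congr rfl fun y' _ => by rw [e2 y']
  rw [e1 y, e4 y, e5 y, e6 y, e3 y, e2 y, e7, us_smul hH r hs hc]

theorem gau_congr {j : JD M κT b} {k : Fin b → ℤ} {u v : κ0 → M → ℝ} {z : M}
    (h : ∀ y, u y z = v y z) (y : κ0) : j.gau S k u y z = j.gau S k v y z := by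
  have e7 : S.iu u y z = S.iu v y z := by
    unfold SWS.iu
    exact Finset.sum_congr rfl fun y' _ => by rw [h y']
  unfold JD.gau
  rw [h y, e7]

/-- gauge transformation of `us`. -/
theorem gau_us {j : JD M κT b} (k : Fin b → ℤ) (r : ℝ) (s : C2) (y : κ0) (z : M) :
    j.gau S k (us τ pi U r s) y z =
      √(2 * r) * (τ (pi s)).rr z ^ (3 / 4 : ℝ) * j.gau S k (U s) y z := by
  have h2 : S.iu (us τ pi U r s) y z =
      √(2 * r) * (τ (pi s)).rr z ^ (3 / 4 : ℝ) * S.iu (U s) y z := by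
    unfold SWS.iu us
    rw [Finset.mul_sum]
    exact Finset.sum_congr rfl fun y' _ => by ring
  unfold JD.gau
  rw [h2]
  unfold us
  ring


theorem gau_neg_zero {j : JD M κT b} (u : κ0 → M → ℝ) (y : κ0) (z : M) :
    j.gau S (fun i => - (0 : Fin b → ℤ) i) u y z = u y z := by
  unfold JD.gau
  simp

end main

end Crest.Agent.R235.SWJq_365

end
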