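import Crest.Agent.R235.SWDefs_53
import Crest.Agent.R235.Cpt_755
import Crest.Agent.R235.Fs4_546
import Crest.Agent.R235.Fred_649

-- ▼ part R235/Swx1_333
section

/-!
Row 235 (S0364), PACKAGE SW, leaf SWX (helper333), part 1: the superposition operator of the
truncated curvature equation and the shift of the connection.

* `tv R v` : truncation of a vector, `trc R u y z = tv R (u · z) y`;
* `Qf S d R` : `rhs S d t (trc R u) l z = Qf S d R t z (u · z) l`;
* `nemOK` : `NemOK` for `Qf`;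
* `mth S d t` : the matrix of `u ↦ c(ϑ_t) i u`, `BM` and uniformly continuous in `t`.
-/

set_option autoImplicit false
set_option maxSynthPendingDepth 3
set_option linter.unusedSectionVars false

open scoped ContDiff ENNReal NNReal Topology Manifold Bundle RealInnerProductSpace
open MeasureTheory Set Filter Metric Bundle

universe v

noncomputable section

namespace Crest.Agent.R235.Swx_333

open Crest.Agent.R249.Tv57 Crest.Agent.R247.Ms322 Crest.Agent.R247.Dir593
open Crest.Agent.R235.SWDefs_53 Crest.Agent.R235.CptB_755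

/-! ### truncation of vectors -/

section trunc

theorem rad_aux {a b R : ℝ} (ha : 0 < a) (hb : 0 < b) (hR : 0 < R) :
    |min 1 (R / a) - min 1 (R / b)| * b ≤ |a - b| := by
  rcases le_total a R with h1 | h1 <;> rcases le_total b R with h2 | h2
  · rw [min_eq_left ((one_le_div ha).2 h1), min_eq_left ((one_le_div hb).2 h2), sub_self, abs_zero,
      zero_mul]
    exact abs_nonneg _
  · rw [min_eq_left ((one_le_div ha).2 h1), min_eq_right ((div_le_one hb).2 h2),
      abs_of_nonneg (by rw [sub_nonneg]; exact (div_le_one hb).2 h2), sub_mul, one_mul,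
      div_mul_cancel₀ _ hb.ne', abs_sub_comm]
    exact le_trans (by linarith) (le_abs_self _)
  · rw [min_eq_right ((div_le_one ha).2 h1), min_eq_left ((one_le_div hb).2 h2), abs_sub_comm,
      abs_of_nonneg (by rw [sub_nonneg]; exact (div_le_one ha).2 h1)]
    refine le_trans ?_ (le_abs_self _)
    have e : (1 - R / a) * b = (a - R) * (b / a) := by field_simp
    rw [e]
    have hba : b / a ≤ 1 := (div_le_one ha).2 (h2.trans h1)
    have : (a - R) * (b / a) ≤ (a - R) * 1 := mul_le_mul_of_nonneg_left hba (by linarith)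
    linarith
  · rw [min_eq_right ((div_le_one ha).2 h1), min_eq_right ((div_le_one hb).2 h2)]
    have e : (R / a - R / b) = (R / (a * b)) * (b - a) := by field_simp
    rw [e, abs_mul, abs_of_nonneg (by positivity), abs_sub_comm b a]
    have e2 : R / (a * b) * |a - b| * b = (R / a) * |a - b| := by field_simp
    rw [e2]
    have : R / a ≤ 1 := (div_le_one ha).2 h1
    nlinarith [abs_nonneg (a - b)]

theorem rad_lip {E : Type*} [NormedAddCommGroup E] [NormedSpace ℝ E] {R : ℝ} (hR : 0 < R)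
    (v w : E) : ‖(min 1 (R / ‖v‖)) • v - (min 1 (R / ‖w‖)) • w‖ ≤ 2 * ‖v - w‖ := by
  have hm : ∀ x : E, 0 ≤ min 1 (R / ‖x‖) ∧ min 1 (R / ‖x‖) ≤ 1 := fun x =>
    ⟨le_min zero_le_one (by positivity), min_le_left _ _⟩
  by_cases hv : v = 0
  · rw [hv, smul_zero, zero_sub, zero_sub, norm_neg, norm_neg, norm_smul, Real.norm_eq_abs,
      abs_of_nonneg (hm w).1]
    nlinarith [norm_nonneg w, (hm w).2]
  by_cases hw : w = 0
  · rw [hw, smul_zero, sub_zero, sub_zero, norm_smul, Real.norm_eq_abs, abs_of_nonneg (hm v).1]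
    nlinarith [norm_nonneg v, (hm v).2]
  have e : (min 1 (R / ‖v‖)) • v - (min 1 (R / ‖w‖)) • w =
      (min 1 (R / ‖v‖)) • (v - w) + (min 1 (R / ‖v‖) - min 1 (R / ‖w‖)) • w := by
    rw [smul_sub, sub_smul]; abel
  rw [e]
  refine (norm_add_le _ _).trans ?_
  rw [norm_smul, norm_smul, Real.norm_eq_abs, Real.norm_eq_abs, abs_of_nonneg (hm v).1]
  have h1 := rad_aux (norm_pos_iff.2 hv) (norm_pos_iff.2 hw) hR
  have h2 := abs_norm_sub_norm_le v w
  have h3 : min 1 (R / ‖v‖) * ‖v - w‖ ≤ 1 * ‖v - w‖ :=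
    mul_le_mul_of_nonneg_right (hm v).2 (norm_nonneg _)
  linarith

theorem rad_norm {E : Type*} [NormedAddCommGroup E] [NormedSpace ℝ E] {R : ℝ} (hR : 0 < R)
    (v : E) : ‖(min 1 (R / ‖v‖)) • v‖ ≤ R := by
  rw [norm_smul, Real.norm_eq_abs, abs_of_nonneg (le_min zero_le_one (by positivity))]
  by_cases hv : ‖v‖ = 0
  · rw [hv, mul_zero]; exact hR.le
  · calc min 1 (R / ‖v‖) * ‖v‖ ≤ (R / ‖v‖) * ‖v‖ :=
        mul_le_mul_of_nonneg_right (min_le_right _ _) (norm_nonneg _)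
      _ = R := div_mul_cancel₀ _ hv

variable {κ : Type} [Fintype κ]

/-- truncation of a vector. -/
def tv (R : ℝ) (v : κ → ℝ) : κ → ℝ := fun y => min 1 (R / √(∑ y', v y' ^ 2)) * v y

theorem norm_toLp (v : κ → ℝ) : ‖(WithLp.toLp 2 v : EuclideanSpace ℝ κ)‖ = √(∑ y', v y' ^ 2) := by
  rw [EuclideanSpace.norm_eq]
  simp only [Real.norm_eq_abs, sq_abs]

theorem toLp_tv (R : ℝ) (v : κ → ℝ) : (WithLp.toLp 2 (tv R v) : EuclideanSpace ℝ κ) =
    (min 1 (R / ‖(WithLp.toLp 2 v : EuclideanSpace ℝ κ)‖)) • (WithLp.toLp 2 v) := by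
  rw [norm_toLp]
  ext y
  rfl

theorem abs_le_toLp (v : κ → ℝ) (y : κ) : |v y| ≤ ‖(WithLp.toLp 2 v : EuclideanSpace ℝ κ)‖ := by
  rw [norm_toLp]
  refine Real.abs_le_sqrt ?_
  exact Finset.single_le_sum (f := fun y => v y ^ 2) (fun i _ => sq_nonneg _) (Finset.mem_univ y)

theorem toLp_le_sum (v : κ → ℝ) : ‖(WithLp.toLp 2 v : EuclideanSpace ℝ κ)‖ ≤ ∑ y, |v y| := by
  rw [norm_toLp]
  refine Real.sqrt_le_iff.2 ⟨Finset.sum_nonneg fun i _ => abs_nonneg _, ?_⟩
  rw [sq (∑ y, |v y|), Finset.sum_mul]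
  refine Finset.sum_le_sum fun y _ => ?_
  rw [← sq_abs, sq]
  exact mul_le_mul_of_nonneg_left (Finset.single_le_sum (f := fun y => |v y|)
    (fun i _ => abs_nonneg _) (Finset.mem_univ y)) (abs_nonneg _)

theorem tv_le {R : ℝ} (hR : 0 < R) (v : κ → ℝ) (y : κ) : |tv R v y| ≤ R := by
  refine (abs_le_toLp (tv R v) y).trans ?_
  rw [toLp_tv]
  exact rad_norm hR _

theorem tv_lip {R : ℝ} (hR : 0 < R) (v w : κ → ℝ) (y : κ) :
    |tv R v y - tv R w y| ≤ 2 * ∑ a, |v a - w a| := by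
  have h1 := abs_le_toLp (tv R v - tv R w) y
  have h2 : (WithLp.toLp 2 (tv R v - tv R w) : EuclideanSpace ℝ κ) =
      WithLp.toLp 2 (tv R v) - WithLp.toLp 2 (tv R w) := rfl
  rw [h2, toLp_tv, toLp_tv] at h1
  refine (h1.trans (rad_lip hR _ _)).trans ?_
  have h3 := toLp_le_sum (v - w)
  have h4 : (WithLp.toLp 2 (v - w) : EuclideanSpace ℝ κ) = WithLp.toLp 2 v - WithLp.toLp 2 w := rfl
  rw [h4] at h3
  exact mul_le_mul_of_nonneg_left h3 (by norm_num)

theorem tv_neg (R : ℝ) (v : κ → ℝ) : tv R (-v) = -tv R v := by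
  funext y
  simp only [tv, Pi.neg_apply, neg_sq, mul_neg]

theorem tv_eq {R : ℝ} (hR : 0 < R) (v : κ → ℝ) (h : ∑ y, v y ^ 2 ≤ R ^ 2) : tv R v = v := by
  funext y
  unfold tv
  by_cases h0 : ∑ y', v y' ^ 2 = 0
  · have : v y = 0 := by
      have := (Finset.sum_eq_zero_iff_of_nonneg fun i _ => sq_nonneg (v i)).1 h0 y
        (Finset.mem_univ y)
      exact pow_eq_zero_iff two_ne_zero |>.1 this
    rw [this, mul_zero]
  · have hp : 0 < ∑ y', v y' ^ 2 :=
      lt_of_le_of_ne (Finset.sum_nonneg fun i _ => sq_nonneg _) (Ne.symm h0)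
    have hs : √(∑ y', v y' ^ 2) ≤ R := Real.sqrt_le_iff.2 ⟨hR.le, h⟩
    rw [min_eq_left ((one_le_div (Real.sqrt_pos.2 hp)).2 hs), one_mul]

theorem tv_zero (R : ℝ) : tv R (0 : κ → ℝ) = 0 := by
  funext y
  simp [tv]

end trunc

/-! ### uniformity over the closed unit ball -/

/-- the parameter ball. -/
def BB : Set E3 := {t | ‖t‖ ≤ 1}

theorem isCompact_BB : IsCompact BB := by
  have : BB = closedBall (0 : E3) 1 := by
    ext t; simp [BB]
  rw [this]
  exact isCompact_closedBall _ _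

section unif

variable {M : Type*} [PseudoMetricSpace M] [CompactSpace M]

theorem unif_cont {F : E3 × M → ℝ} (hF : ContinuousOn F {q | ‖q.1‖ ≤ 1}) {t0 : E3}
    (ht0 : t0 ∈ BB) {ε : ℝ} (hε : 0 < ε) :
    ∀ᶠ t in 𝓝[BB] t0, ∀ x, |F (t, x) - F (t0, x)| ≤ ε := by
  have hc : IsCompact {q : E3 × M | ‖q.1‖ ≤ 1} := by
    have : {q : E3 × M | ‖q.1‖ ≤ 1} = BB ×ˢ univ := by ext q; simp [BB]
    rw [this]
    exact isCompact_BB.prod isCompact_univ
  have hu := hc.uniformContinuousOn_of_continuous hF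
  rw [Metric.uniformContinuousOn_iff] at hu
  obtain ⟨δ, hδ, h⟩ := hu ε hε
  filter_upwards [inter_mem_nhdsWithin BB (ball_mem_nhds t0 hδ)] with t ht x
  have := h (t, x) ht.1 (t0, x) ht0 (by
    rw [Prod.dist_eq, dist_self, max_eq_left dist_nonneg]
    exact ht.2)
  rw [Real.dist_eq] at this
  exact this.le

theorem unif_bdd {F : E3 × M → ℝ} (hF : ContinuousOn F {q | ‖q.1‖ ≤ 1}) :
    ∃ C : ℝ, 0 ≤ C ∧ ∀ t ∈ BB, ∀ x, |F (t, x)| ≤ C := by
  have hc : IsCompact {q : E3 × M | ‖q.1‖ ≤ 1} := by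
    have : {q : E3 × M | ‖q.1‖ ≤ 1} = BB ×ˢ univ := by ext q; simp [BB]
    rw [this]
    exact isCompact_BB.prod isCompact_univ
  obtain ⟨C, hC⟩ := hc.exists_bound_of_continuousOn hF
  exact ⟨max C 0, le_max_right _ _, fun t ht x => (hC (t, x) ht).trans (le_max_left _ _)⟩

theorem slice_cont {F : E3 × M → ℝ} (hF : ContinuousOn F {q | ‖q.1‖ ≤ 1}) {t : E3}
    (ht : t ∈ BB) : Continuous fun x => F (t, x) := by
  rw [← continuousOn_univ]
  exact hF.comp (f := fun x : M => ((t, x) : E3 × M)) (by fun_prop) (fun x _ => ht)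

end unif

/-! ### the superposition operator -/

section main

variable {M : Type v} [MetricSpace M] [CompactSpace M] [ConnectedSpace M]
  [ChartedSpace (EuclideanSpace ℝ (Fin 4)) M] [IsManifold (𝓡 4) ∞ M]
  [RiemannianBundle (fun p : M => TangentSpace (𝓡 4) p)]
  [IsContMDiffRiemannianBundle (𝓡 4) ∞ (EuclideanSpace ℝ (Fin 4))
    (fun p : M => TangentSpace (𝓡 4) p)]
  [IsRiemannianManifold (𝓡 4) M] [MeasurableSpace M] [BorelSpace M]
  [SecondCountableTopology M] [Nonempty M]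
  {κ0 κ1 κT : Type} [Fintype κ0] [Fintype κ1] [Fintype κT]

/-- the right hand side of the truncated curvature equation, as a superposition. -/
def Qf (S : SWS M κ0 κ1 κT) (d : SWD M κT) (R : ℝ) (t : E3) (x : M) (v : κ0 → ℝ) : Fin 4 → ℝ :=
  Fin.cons 0 fun k => d.mu t x * ((1 / 2) * ∑ y, ∑ y', S.rho k y y' x * tv R v y * tv R v y') +
    d.r * d.wt t k x + d.et t k x

theorem rhs_eq (S : SWS M κ0 κ1 κT) (d : SWD M κT) (R : ℝ) (t : E3) (u : κ0 → M → ℝ)
    (l : Fin 4) (x : M) : rhs S d t (trc R u) l x = Qf S d R t x (fun a => u a x) l := by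
  refine Fin.cases ?_ (fun k => ?_) l
  · rfl
  · rfl

theorem Qf_zero (S : SWS M κ0 κ1 κT) (d : SWD M κT) (R : ℝ) (t : E3) (x : M) (v : κ0 → ℝ) :
    Qf S d R t x v 0 = 0 := rfl

theorem Qf_succ (S : SWS M κ0 κ1 κT) (d : SWD M κT) (R : ℝ) (t : E3) (x : M) (v : κ0 → ℝ)
    (k : Fin 3) : Qf S d R t x v k.succ =
      d.mu t x * ((1 / 2) * ∑ y, ∑ y', S.rho k y y' x * tv R v y * tv R v y') +
        d.r * d.wt t k x + d.et t k x := rfl

theorem Qf_even (S : SWS M κ0 κ1 κT) (d : SWD M κT) (R : ℝ) (t : E3) (x : M) (v : κ0 → ℝ) :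
    Qf S d R t x (-v) = Qf S d R t x v := by
  funext l
  refine Fin.cases ?_ (fun k => ?_) l
  · rw [Qf_zero, Qf_zero]
  · rw [Qf_succ, Qf_succ, tv_neg]
    simp only [Pi.neg_apply, mul_neg, neg_mul, neg_neg]

theorem Qf_at_zero (S : SWS M κ0 κ1 κT) (d : SWD M κT) (R : ℝ) (t : E3) (x : M) (k : Fin 3) :
    Qf S d R t x 0 k.succ = d.r * d.wt t k x + d.et t k x := by
  rw [Qf_succ, tv_zero]
  simp

theorem smooth_bdd {f : M → ℝ} (hf : ContMDiff (𝓡 4) 𝓘(ℝ, ℝ) ∞ f) :
    ∃ C : ℝ, 0 ≤ C ∧ ∀ x, |f x| ≤ C := by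
  obtain ⟨C, hC⟩ := isCompact_univ.exists_bound_of_continuousOn hf.continuous.continuousOn
  exact ⟨max C 0, le_max_right _ _, fun x => (hC x (mem_univ x)).trans (le_max_left _ _)⟩

theorem wt_cont {S : SWS M κ0 κ1 κT} {d : SWD M κT} (hd : d.Adm S) (k : Fin 3) :
    ContinuousOn (fun q : E3 × M => d.wt q.1 k q.2) {q | ‖q.1‖ ≤ 1} := by
  refine Continuous.continuousOn ?_
  unfold SWD.wt
  refine continuous_finsetSum _ fun i _ => ?_
  have h1 : Continuous fun q : E3 × M => q.1 i := by fun_prop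
  exact h1.mul ((hd.smw i k).continuous.comp continuous_snd)

theorem rho_bdd {S : SWS M κ0 κ1 κT} (hS : S.OK) :
    ∃ C : ℝ, 0 ≤ C ∧ ∀ k y y' x, |S.rho k y y' x| ≤ C := by
  choose C hC0 hC using fun k y y' => smooth_bdd (hS.smrho k y y')
  refine ⟨∑ k, ∑ y, ∑ y', C k y y', Finset.sum_nonneg fun k _ => Finset.sum_nonneg fun y _ =>
    Finset.sum_nonneg fun y' _ => hC0 k y y', fun k y y' x => (hC k y y' x).trans ?_⟩
  calc C k y y' ≤ ∑ y', C k y y' :=
        Finset.single_le_sum (f := fun y' => C k y y') (fun i _ => hC0 k y i) (Finset.mem_univ y')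
    _ ≤ ∑ y, ∑ y', C k y y' := Finset.single_le_sum (f := fun y => ∑ y', C k y y')
        (fun i _ => Finset.sum_nonneg fun y' _ => hC0 k i y') (Finset.mem_univ y)
    _ ≤ _ := Finset.single_le_sum (f := fun k => ∑ y, ∑ y', C k y y')
        (fun i _ => Finset.sum_nonneg fun y _ => Finset.sum_nonneg fun y' _ => hC0 i y y')
        (Finset.mem_univ k)

theorem quad_bdd {R C : ℝ} (hR : 0 < R) (hC0 : 0 ≤ C) (c : κ0 → κ0 → ℝ)
    (hC : ∀ y y', |c y y'| ≤ C) (v : κ0 → ℝ) :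
    |∑ y, ∑ y', c y y' * tv R v y * tv R v y'| ≤
      Fintype.card κ0 * (Fintype.card κ0 * (C * R * R)) := by
  refine (Finset.abs_sum_le_sum_abs _ _).trans ?_
  refine (Finset.sum_le_card_nsmul _ _ (Fintype.card κ0 * (C * R * R)) fun y _ => ?_).trans
    (by rw [Finset.card_univ, nsmul_eq_mul])
  refine (Finset.abs_sum_le_sum_abs _ _).trans ?_
  refine (Finset.sum_le_card_nsmul _ _ (C * R * R) fun y' _ => ?_).trans
    (by rw [Finset.card_univ, nsmul_eq_mul])
  rw [abs_mul, abs_mul]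
  have h1 := tv_le hR v y
  have h2 := tv_le hR v y'
  have h3 := hC y y'
  gcongr

theorem quad_lip {R C : ℝ} (hR : 0 < R) (hC0 : 0 ≤ C) (c : κ0 → κ0 → ℝ)
    (hC : ∀ y y', |c y y'| ≤ C) (v w : κ0 → ℝ) :
    |∑ y, ∑ y', c y y' * tv R v y * tv R v y' - ∑ y, ∑ y', c y y' * tv R w y * tv R w y'| ≤
      Fintype.card κ0 * (Fintype.card κ0 * (C * (4 * R) * ∑ a, |v a - w a|)) := by
  rw [← Finset.sum_sub_distrib]
  refine (Finset.abs_sum_le_sum_abs _ _).trans ?_
  refine (Finset.sum_le_card_nsmul _ _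
    (Fintype.card κ0 * (C * (4 * R) * ∑ a, |v a - w a|)) fun y _ => ?_).trans
    (by rw [Finset.card_univ, nsmul_eq_mul])
  rw [← Finset.sum_sub_distrib]
  refine (Finset.abs_sum_le_sum_abs _ _).trans ?_
  refine (Finset.sum_le_card_nsmul _ _ (C * (4 * R) * ∑ a, |v a - w a|) fun y' _ => ?_).trans
    (by rw [Finset.card_univ, nsmul_eq_mul])
  have e : c y y' * tv R v y * tv R v y' - c y y' * tv R w y * tv R w y' =
      c y y' * (tv R v y * (tv R v y' - tv R w y') + (tv R v y - tv R w y) * tv R w y') := by ring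
  rw [e, abs_mul]
  have h1 := tv_le hR v y
  have h2 := tv_le hR w y'
  have h3 := hC y y'
  have h4 := tv_lip hR v w y
  have h5 := tv_lip hR v w y'
  set s := ∑ a, |v a - w a| with hs
  have hs0 : 0 ≤ s := Finset.sum_nonneg fun a _ => abs_nonneg _
  have h6 : |tv R v y * (tv R v y' - tv R w y') + (tv R v y - tv R w y) * tv R w y'| ≤
      R * (2 * s) + (2 * s) * R := by
    refine (abs_add_le _ _).trans ?_
    rw [abs_mul, abs_mul]
    gcongr
  calc |c y y'| * |tv R v y * (tv R v y' - tv R w y') + (tv R v y - tv R w y) * tv R w y'| ≤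
        C * (R * (2 * s) + (2 * s) * R) := by gcongr
    _ = C * (4 * R) * s := by ring

theorem nemOK {S : SWS M κ0 κ1 κT} {d : SWD M κT} (hS : S.OK) (hd : d.Adm S) {R : ℝ}
    (hR : 0 < R) (μ : Measure M) : NemOK μ BB (Qf S d R) := by
  obtain ⟨Cm, hCm0, hCm⟩ := unif_bdd hd.cmu
  obtain ⟨Cr, hCr0, hCr⟩ := rho_bdd hS
  choose Cw hCw0 hCw using fun k => unif_bdd (wt_cont hd k)
  choose Ce hCe0 hCe using fun k => unif_bdd (hd.cet k)
  obtain ⟨N, hN⟩ : ∃ N : ℝ, N = (Fintype.card κ0 : ℝ) := ⟨_, rfl⟩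
  have hN0 : 0 ≤ N := by rw [hN]; positivity
  refine ⟨?_, ?_, ?_, ?_⟩
  · -- measurability
    intro t ht u hu l
    refine Fin.cases ?_ (fun k => ?_) l
    · simp only [Qf_zero]
      exact aestronglyMeasurable_const
    · simp only [Qf_succ]
      have hu' : ∀ a, AEMeasurable (u a) μ := fun a => (hu a).aemeasurable
      have h1 : Measurable fun x => d.mu t x := (slice_cont hd.cmu ht).measurable
      have h2 : Measurable fun x => d.wt t k x := (slice_cont (wt_cont hd k) ht).measurable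
      have h3 : Measurable fun x => d.et t k x := (slice_cont (hd.cet k) ht).measurable
      have h4 : ∀ y y', Measurable fun x => S.rho k y y' x :=
        fun y y' => (hS.smrho k y y').continuous.measurable
      have h5 : ∀ y, AEMeasurable (fun x => tv R (fun a => u a x) y) μ := by
        intro y
        unfold tv
        have hsq : AEMeasurable (fun x => √(∑ y', u y' x ^ 2)) μ := by
          refine AEMeasurable.sqrt ?_
          exact Finset.aemeasurable_fun_sum _ fun a _ => (hu' a).pow_const 2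
        exact (aemeasurable_const.min (hsq.const_div R)).mul (hu' y)
      refine AEMeasurable.aestronglyMeasurable ?_
      refine AEMeasurable.add (AEMeasurable.add ?_ ?_) h3.aemeasurable
      · refine h1.aemeasurable.mul (AEMeasurable.const_mul ?_ _)
        refine Finset.aemeasurable_fun_sum _ fun y _ => Finset.aemeasurable_fun_sum _ fun y' _ => ?_
        exact ((h4 y y').aemeasurable.mul (h5 y)).mul (h5 y')
      · exact h2.aemeasurable.const_mul _
  · -- Lipschitz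
    refine ⟨Cm * ((1 / 2) * (N * (N * (Cr * (4 * R))))), by positivity, ?_⟩
    intro t ht x v v' l
    refine Fin.cases ?_ (fun k => ?_) l
    · rw [Qf_zero, Qf_zero, sub_self, abs_zero]
      exact mul_nonneg (by positivity) (Finset.sum_nonneg fun a _ => abs_nonneg _)
    · rw [Qf_succ, Qf_succ]
      have h1 := quad_lip hR hCr0 (fun y y' => S.rho k y y' x) (fun y y' => hCr k y y' x) v v'
      rw [← hN] at h1
      have h2 := hCm t ht x
      set q1 := ∑ y, ∑ y', S.rho k y y' x * tv R v y * tv R v y' with hq1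
      set q2 := ∑ y, ∑ y', S.rho k y y' x * tv R v' y * tv R v' y' with hq2
      have e : d.mu t x * (1 / 2 * q1) + d.r * d.wt t k x + d.et t k x -
          (d.mu t x * (1 / 2 * q2) + d.r * d.wt t k x + d.et t k x) =
          d.mu t x * ((1 / 2) * (q1 - q2)) := by ring
      rw [e, abs_mul, abs_mul, abs_of_nonneg (by norm_num : (0:ℝ) ≤ 1 / 2)]
      calc |d.mu t x| * (1 / 2 * |q1 - q2|) ≤
          Cm * (1 / 2 * (N * (N * (Cr * (4 * R) * ∑ a, |v a - v' a|)))) := by gcongr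
        _ = _ := by ring
  · -- bound
    refine ⟨Cm * ((1 / 2) * (N * (N * (Cr * R * R)))) + |d.r| * (∑ k, Cw k) + ∑ k, Ce k, ?_, ?_⟩
    · have h1 : 0 ≤ ∑ k, Cw k := Finset.sum_nonneg fun k _ => hCw0 k
      have h2 : 0 ≤ ∑ k, Ce k := Finset.sum_nonneg fun k _ => hCe0 k
      positivity
    · intro t ht x v l
      have h1 : 0 ≤ ∑ k, Cw k := Finset.sum_nonneg fun k _ => hCw0 k
      have h2 : 0 ≤ ∑ k, Ce k := Finset.sum_nonneg fun k _ => hCe0 k
      refine Fin.cases ?_ (fun k => ?_) l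
      · rw [Qf_zero, abs_zero]
        positivity
      · rw [Qf_succ]
        have h3 := quad_bdd hR hCr0 (fun y y' => S.rho k y y' x) (fun y y' => hCr k y y' x) v
        rw [← hN] at h3
        have h4 := hCm t ht x
        have h5 : |d.wt t k x| ≤ ∑ k, Cw k := (hCw k t ht x).trans
          (Finset.single_le_sum (f := Cw) (fun i _ => hCw0 i) (Finset.mem_univ k))
        have h6 : |d.et t k x| ≤ ∑ k, Ce k := (hCe k t ht x).trans
          (Finset.single_le_sum (f := Ce) (fun i _ => hCe0 i) (Finset.mem_univ k))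
        refine (abs_add_le _ _).trans (add_le_add ((abs_add_le _ _).trans (add_le_add ?_ ?_)) h6)
        · rw [abs_mul, abs_mul, abs_of_nonneg (by norm_num : (0:ℝ) ≤ 1 / 2)]
          gcongr
        · rw [abs_mul]
          gcongr
  · -- continuity in `t`
    intro t0 ht0 ε hε
    set A : ℝ := (1 / 2) * (N * (N * (Cr * R * R))) with hA
    have hA0 : 0 ≤ A := by positivity
    have hδ : 0 < ε / (3 * (A + |d.r| + 1)) := by positivity
    have e1 := unif_cont hd.cmu ht0 hδ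
    have e2 : ∀ᶠ t in 𝓝[BB] t0, ∀ k x, |d.wt t k x - d.wt t0 k x| ≤
        ε / (3 * (A + |d.r| + 1)) := by
      rw [Filter.eventually_all]
      exact fun k => unif_cont (wt_cont hd k) ht0 hδ
    have e3 : ∀ᶠ t in 𝓝[BB] t0, ∀ k x, |d.et t k x - d.et t0 k x| ≤
        ε / (3 * (A + |d.r| + 1)) := by
      rw [Filter.eventually_all]
      exact fun k => unif_cont (hd.cet k) ht0 hδ
    filter_upwards [e1, e2, e3] with t f1 f2 f3 x v l
    refine Fin.cases ?_ (fun k => ?_) l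
    · rw [Qf_zero, Qf_zero, sub_self, abs_zero]
      exact hε.le
    · rw [Qf_succ, Qf_succ]
      have h3 := quad_bdd hR hCr0 (fun y y' => S.rho k y y' x) (fun y y' => hCr k y y' x) v
      rw [← hN] at h3
      set q := ∑ y, ∑ y', S.rho k y y' x * tv R v y * tv R v y' with hq
      have e : d.mu t x * (1 / 2 * q) + d.r * d.wt t k x + d.et t k x -
          (d.mu t0 x * (1 / 2 * q) + d.r * d.wt t0 k x + d.et t0 k x) =
          (d.mu t x - d.mu t0 x) * (1 / 2 * q) + d.r * (d.wt t k x - d.wt t0 k x) +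
            (d.et t k x - d.et t0 k x) := by ring
      rw [e]
      set δ := ε / (3 * (A + |d.r| + 1)) with hδd
      have hq2 : |1 / 2 * q| ≤ A := by
        rw [abs_mul, abs_of_nonneg (by norm_num : (0:ℝ) ≤ 1 / 2), hA]
        exact mul_le_mul_of_nonneg_left h3 (by norm_num)
      have g1 := f1 x
      have g2 := f2 k x
      have g3 := f3 k x
      calc |(d.mu t x - d.mu t0 x) * (1 / 2 * q) + d.r * (d.wt t k x - d.wt t0 k x) +
            (d.et t k x - d.et t0 k x)| ≤ δ * A + |d.r| * δ + δ := by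
            refine (abs_add_le _ _).trans (add_le_add ((abs_add_le _ _).trans
              (add_le_add ?_ ?_)) g3)
            · rw [abs_mul]; gcongr
            · rw [abs_mul]; gcongr
        _ = (A + |d.r| + 1) * δ := by ring
        _ = ε / 3 := by rw [hδd]; field_simp
        _ ≤ ε := by linarith

/-! ### the shift of the connection -/

/-- the matrix of `u ↦ c(ϑ_t) i u`. -/
def mth (S : SWS M κ0 κ1 κT) (d : SWD M κT) (t : E3) (x : κ1) (y : κ0) (z : M) : ℝ :=
  ∑ A, d.th t A z * S.cl A x y z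

theorem mth_cont {S : SWS M κ0 κ1 κT} {d : SWD M κT} (hS : S.OK) (hd : d.Adm S) (x : κ1)
    (y : κ0) : ContinuousOn (fun q : E3 × M => mth S d q.1 x y q.2) {q | ‖q.1‖ ≤ 1} := by
  unfold mth
  refine continuousOn_finsetSum _ fun A _ => (hd.cth A).mul ?_
  exact ((hS.smcl A x y).continuous.comp continuous_snd).continuousOn

theorem mth_unif {S : SWS M κ0 κ1 κT} {d : SWD M κT} (hS : S.OK) (hd : d.Adm S) {t0 : E3}
    (ht0 : t0 ∈ BB) {ε : ℝ} (hε : 0 < ε) :
    ∀ᶠ t in 𝓝[BB] t0, ∀ x y z, |mth S d t x y z - mth S d t0 x y z| ≤ ε := by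
  rw [Filter.eventually_all]
  intro x
  rw [Filter.eventually_all]
  intro y
  exact unif_cont (mth_cont hS hd x y) ht0 hε

end main

end Crest.Agent.R235.Swx_333

end
end

-- ▼ part R235/Swx2_333
section

/-!
Row 235 (S0364), PACKAGE SW, leaf SWX (helper333), part 2: the harmonic part.

* `wi d i` : the section `(0, w_i)` of `ℝ ⊕ Λ⁺`; `cst` : the section `(1, 0)`;
* `hpr` : `f ↦ (⟪f, (0,w_i)⟫)_i`, `gA` : `t ↦ hpr (r w_t)`;
* `gA_inj`, `hred` : the reducible part has no zero on `|t| = 1`;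
* `ker_perp` : a function orthogonal to `(1,0)` and to the `(0,w_i)` is orthogonal to `ker H.A`.
-/

set_option autoImplicit false
set_option maxSynthPendingDepth 3
set_option linter.unusedSectionVars false

open scoped ContDiff ENNReal NNReal Topology Manifold Bundle RealInnerProductSpace
open MeasureTheory Set Filter Metric Bundle

universe v

noncomputable section

namespace Crest.Agent.R235.Swx_333

open Crest.Agent.R249.Tv57 Crest.Agent.R247.Ms322 Crest.Agent.R247.Dir593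
open Crest.Agent.R235.SWDefs_53 Crest.Agent.R235.CptB_755 Crest.Agent.R235.Fs4_546

local notation "ipp" => Crest.Agent.R249.Tv57.ip 4

section main

variable {M : Type v} [MetricSpace M] [CompactSpace M] [ConnectedSpace M]
  [ChartedSpace (EuclideanSpace ℝ (Fin 4)) M] [IsManifold (𝓡 4) ∞ M]
  [RiemannianBundle (fun p : M => TangentSpace (𝓡 4) p)]
  [IsContMDiffRiemannianBundle (𝓡 4) ∞ (EuclideanSpace ℝ (Fin 4))
    (fun p : M => TangentSpace (𝓡 4) p)]
  [IsRiemannianManifold (𝓡 4) M] [MeasurableSpace M] [BorelSpace M]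
  [SecondCountableTopology M] [Nonempty M] [IsFiniteMeasureOnCompacts (μHE[4] : Measure M)]
  {κ0 κ1 κT : Type} [Fintype κ0] [Fintype κ1] [Fintype κT]

/-- the section `(0, w_i)`. -/
def wi (d : SWD M κT) (i : Fin 3) : Fin 4 → M → ℝ := Fin.cons (fun _ => 0) (d.ww i)

/-- the section `(1, 0)`. -/
def cst (M : Type v) : Fin 4 → M → ℝ := Fin.cons (fun _ => 1) fun _ _ => 0

theorem sm_wi {S : SWS M κ0 κ1 κT} {d : SWD M κT} (hd : d.Adm S) (i : Fin 3) :
    SmV (n := 4) (wi d i) := by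
  intro a
  refine Fin.cases ?_ (fun k => ?_) a
  · exact contMDiff_const
  · exact hd.smw i k

theorem sm_cst : SmV (n := 4) (cst M) := by
  intro a
  refine Fin.cases ?_ (fun k => ?_) a
  · exact contMDiff_const
  · exact contMDiff_const

theorem sec_full {S : SWS M κ0 κ1 κT} (hS : S.OK) (f : Fin 4 → M → ℝ) : S.DL.Sec f := by
  intro a z
  simp only [hS.fullL, ite_mul, one_mul, zero_mul, Finset.sum_ite_eq, Finset.mem_univ, if_true]

/-- the classes in `L²`. -/
def Wi {S : SWS M κ0 κ1 κT} {d : SWD M κT} (hd : d.Adm S) (i : Fin 3) :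
    HH (μHE[4] : Measure M) (Fin 4) := clH (wi d i) (sm_wi hd i)


/-- the harmonic projection. -/
def hpr {S : SWS M κ0 κ1 κT} {d : SWD M κT} (hd : d.Adm S) :
    HH (μHE[4] : Measure M) (Fin 4) →L[ℝ] E3 :=
  ((PiLp.continuousLinearEquiv 2 ℝ (fun _ : Fin 3 => ℝ)).symm :
      (∀ _ : Fin 3, ℝ) →L[ℝ] EuclideanSpace ℝ (Fin 3)).comp
    (ContinuousLinearMap.pi fun i => innerSL ℝ (Wi hd i))

theorem hpr_apply {S : SWS M κ0 κ1 κT} {d : SWD M κT} (hd : d.Adm S)
    (f : HH (μHE[4] : Measure M) (Fin 4)) (i : Fin 3) : hpr hd f i = ⟪Wi hd i, f⟫ := by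
  simp [hpr]

/-- the energy of `w_t`. -/
def wen (d : SWD M κT) (t : E3) : ℝ := ∫ z, ∑ k, d.wt t k z ^ 2 ∂(μHE[4] : Measure M)

theorem ip_cons {f g : Fin 3 → M → ℝ} : ipp (Fin.cons (fun _ => 0) f) (Fin.cons (fun _ => 0) g) =
    ∫ z, ∑ k, f k z * g k z ∂(μHE[4] : Measure M) := by
  unfold Crest.Agent.R249.Tv57.ip
  refine integral_congr_ae (Eventually.of_forall fun z => ?_)
  simp only [Fin.sum_univ_succ (n := 3), Fin.cons_zero, Fin.cons_succ, mul_zero, zero_add]

/-- the linear part. -/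
def gA (d : SWD M κT) : E3 →ₗ[ℝ] E3 where
  toFun t := WithLp.toLp 2 fun i => d.r * ∑ j, t j * ipp (wi d j) (wi d i)
  map_add' s t := by
    ext i
    simp only [PiLp.add_apply, add_mul, Finset.sum_add_distrib, mul_add]
  map_smul' c t := by
    ext i
    simp only [PiLp.smul_apply, smul_eq_mul, RingHom.id_apply, mul_assoc, ← Finset.mul_sum]
    ring

theorem gA_apply (d : SWD M κT) (t : E3) (i : Fin 3) :
    gA d t i = d.r * ∑ j, t j * ipp (wi d j) (wi d i) := rfl


theorem wt_smooth {S : SWS M κ0 κ1 κT} {d : SWD M κT} (hd : d.Adm S) (t : E3) (k : Fin 3) :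
    ContMDiff (𝓡 4) 𝓘(ℝ, ℝ) ∞ (d.wt t k) := by
  unfold SWD.wt
  exact contMDiff_finsetSum fun i _ => contMDiff_const.mul (hd.smw i k)

/-- pairing with `w_t`. -/
theorem sum_ip {S : SWS M κ0 κ1 κT} {d : SWD M κT} (hd : d.Adm S) (t : E3)
    (f : Fin 4 → M → ℝ) (hf : ∀ a, MemLp (f a) 2 (μHE[4] : Measure M)) :
    ∑ i, t i * ipp (wi d i) f = ∫ z, ∑ k : Fin 3, d.wt t k z * f k.succ z ∂(μHE[4] : Measure M) := by
  have h1 : ∀ i, ipp (wi d i) f =
      ∫ z, ∑ k : Fin 3, d.ww i k z * f k.succ z ∂(μHE[4] : Measure M) := by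
    intro i
    unfold Crest.Agent.R249.Tv57.ip
    refine integral_congr_ae (Eventually.of_forall fun z => ?_)
    simp only [wi, Fin.sum_univ_succ (n := 3), Fin.cons_zero, Fin.cons_succ, zero_mul, zero_add]
  simp only [h1, ← integral_const_mul]
  rw [← integral_finsetSum]
  · refine integral_congr_ae (Eventually.of_forall fun z => ?_)
    simp only [SWD.wt, Finset.mul_sum, Finset.sum_mul]
    rw [Finset.sum_comm]
    exact Finset.sum_congr rfl fun k _ => Finset.sum_congr rfl fun i _ => by ring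
  · intro i _
    refine Integrable.const_mul (integrable_finsetSum _ fun k _ => ?_) _
    exact (memLp_smooth (hd.smw i k)).integrable_mul (hf k.succ)

theorem gA_pair {S : SWS M κ0 κ1 κT} {d : SWD M κT} (hd : d.Adm S) (t : E3) :
    ∑ i, t i * gA d t i = d.r * wen d t := by
  have h1 : ∀ i, gA d t i = d.r * ipp (wi d i) (Fin.cons (fun _ => 0) (d.wt t)) := by
    intro i
    rw [gA_apply, sum_ip hd t (wi d i) (fun a => memLp_smooth (sm_wi hd i a))]
    congr 1
    rw [wi, ip_cons]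
    refine integral_congr_ae (Eventually.of_forall fun z => ?_)
    simp only [Fin.cons_succ]
    exact Finset.sum_congr rfl fun k _ => mul_comm _ _
  have h2 := sum_ip hd t (Fin.cons (fun _ => 0) (d.wt t)) (fun a => by
    refine Fin.cases ?_ (fun k => ?_) a
    · exact memLp_smooth contMDiff_const
    · exact memLp_smooth (wt_smooth hd t k))
  simp only [h1]
  have h3 : ∀ i, t i * (d.r * ipp (wi d i) (Fin.cons (fun _ => 0) (d.wt t))) =
      d.r * (t i * ipp (wi d i) (Fin.cons (fun _ => 0) (d.wt t))) := fun i => by ring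
  simp only [h3]
  rw [← Finset.mul_sum, h2, wen]
  congr 1
  refine integral_congr_ae (Eventually.of_forall fun z => ?_)
  simp only [Fin.cons_succ]
  exact Finset.sum_congr rfl fun k _ => (sq _).symm

theorem wt_smul (d : SWD M κT) (c : ℝ) (t : E3) (k : Fin 3) (z : M) :
    d.wt (c • t) k z = c * d.wt t k z := by
  simp only [SWD.wt, PiLp.smul_apply, smul_eq_mul, mul_assoc, ← Finset.mul_sum]

theorem wen_smul (d : SWD M κT) (c : ℝ) (t : E3) : wen d (c • t) = c ^ 2 * wen d t := by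
  unfold wen
  rw [← integral_const_mul]
  refine integral_congr_ae (Eventually.of_forall fun z => ?_)
  simp only [wt_smul, Finset.mul_sum]
  exact Finset.sum_congr rfl fun k _ => by ring

theorem rwen_pos {S : SWS M κ0 κ1 κT} {d : SWD M κT} (hd : d.Adm S) {t : E3} (ht : ‖t‖ = 1) :
    0 < |d.r| * wen d t := (abs_nonneg _).trans_lt (hd.big t ht)

theorem r_ne {S : SWS M κ0 κ1 κT} {d : SWD M κT} (hd : d.Adm S) : d.r ≠ 0 := by
  intro h
  have h1 := rwen_pos hd (t := EuclideanSpace.single 0 1) (by simp)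
  rw [h, abs_zero, zero_mul] at h1
  exact lt_irrefl _ h1

theorem wen_pos {S : SWS M κ0 κ1 κT} {d : SWD M κT} (hd : d.Adm S) {t : E3} (ht : t ≠ 0) :
    0 < wen d t := by
  have hn : 0 < ‖t‖ := norm_pos_iff.2 ht
  have h1 := rwen_pos hd (t := ‖t‖⁻¹ • t) (by
    rw [norm_smul, norm_inv, norm_norm, inv_mul_cancel₀ hn.ne'])
  rw [wen_smul] at h1
  by_contra hcon
  have h2 : |d.r| * (‖t‖⁻¹ ^ 2 * wen d t) ≤ 0 :=
    mul_nonpos_of_nonneg_of_nonpos (abs_nonneg _)
      (mul_nonpos_of_nonneg_of_nonpos (by positivity) (not_lt.1 hcon))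
  linarith

theorem gA_inj {S : SWS M κ0 κ1 κT} {d : SWD M κT} (hd : d.Adm S) : Function.Injective (gA d) := by
  rw [injective_iff_map_eq_zero]
  intro t ht
  by_contra hne
  have h1 := gA_pair hd t
  rw [ht] at h1
  simp only [PiLp.zero_apply, mul_zero, Finset.sum_const_zero] at h1
  rcases mul_eq_zero.1 h1.symm with h | h
  · exact r_ne hd h
  · exact (wen_pos hd hne).ne' h

theorem gA_bij {S : SWS M κ0 κ1 κT} {d : SWD M κT} (hd : d.Adm S) : Function.Bijective (gA d) :=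
  ⟨gA_inj hd, LinearMap.surjective_of_injective (gA_inj hd)⟩

/-- the reducible part `r w_t + η_t` in `L²`. -/
def red (d : SWD M κT) (t : E3) : Fin 4 → M → ℝ :=
  Fin.cons (fun _ => 0) fun k z => d.r * d.wt t k z + d.et t k z

/-- **no zero of the reducible part on `|t| = 1`**. -/
theorem hred {S : SWS M κ0 κ1 κT} {d : SWD M κT} (hd : d.Adm S) {s : ℝ} (hs0 : 0 ≤ s)
    (hs1 : s ≤ 1) {t : E3} (ht : ‖t‖ = 1) {V : E3}
    (hV : ∀ i, V i = ipp (wi d i) (red d t)) : (1 - s) • V + s • gA d t ≠ 0 := by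
  intro h0
  have htB : t ∈ BB := by show ‖t‖ ≤ 1; rw [ht]
  have hetc : ∀ k, Continuous (d.et t k) := fun k => slice_cont (hd.cet k) htB
  have hetL : ∀ k, MemLp (d.et t k) 2 (μHE[4] : Measure M) := fun k => by
    obtain ⟨C, hC0, hC⟩ := unif_bdd (hd.cet k)
    have : IsFiniteMeasure (μHE[4] : Measure M) := ⟨isCompact_univ.measure_lt_top⟩
    exact MemLp.of_bound (hetc k).aestronglyMeasurable C
      (Eventually.of_forall fun x => by rw [Real.norm_eq_abs]; exact hC t htB x)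
  have hwL : ∀ k, MemLp (d.wt t k) 2 (μHE[4] : Measure M) := fun k => memLp_smooth (wt_smooth hd t k)
  have h1 : ∑ i, t i * V i = d.r * wen d t +
      ∫ z, ∑ k, d.et t k z * d.wt t k z ∂(μHE[4] : Measure M) := by
    simp only [hV]
    rw [sum_ip hd t (red d t) (fun a => by
      refine Fin.cases ?_ (fun k => ?_) a
      · exact memLp_smooth contMDiff_const
      · exact ((hwL k).const_mul d.r).add (hetL k))]
    rw [wen, ← integral_const_mul, ← integral_add]
    · refine integral_congr_ae (Eventually.of_forall fun z => ?_)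
      simp only [red, Fin.cons_succ]
      rw [Finset.mul_sum, ← Finset.sum_add_distrib]
      exact Finset.sum_congr rfl fun k _ => by ring
    · refine Integrable.const_mul (integrable_finsetSum _ fun k _ => ?_) _
      have := (hwL k).integrable_mul (hwL k)
      simp only [sq]
      exact this
    · exact integrable_finsetSum _ fun k _ => (hetL k).integrable_mul (hwL k)
  have h2 := gA_pair hd t
  have h3 : ∑ i, t i * ((1 - s) • V + s • gA d t) i = 0 := by
    rw [h0]; simp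
  have h4 : ∑ i, t i * ((1 - s) • V + s • gA d t) i =
      (1 - s) * ∑ i, t i * V i + s * ∑ i, t i * gA d t i := by
    rw [Finset.mul_sum, Finset.mul_sum, ← Finset.sum_add_distrib]
    refine Finset.sum_congr rfl fun i _ => ?_
    simp only [PiLp.add_apply, PiLp.smul_apply, smul_eq_mul]
    ring
  rw [h4, h1, h2] at h3
  have hb := hd.big t ht
  have hw : ∫ z, ∑ k, d.wt t k z ^ 2 ∂(μHE[4] : Measure M) = wen d t := rfl
  rw [hw] at hb
  set E := ∫ z, ∑ k, d.et t k z * d.wt t k z ∂(μHE[4] : Measure M) with hE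
  have h5 : d.r * wen d t = -((1 - s) * E) := by linarith
  have hwp := wen_pos hd (t := t) (by intro h; rw [h, norm_zero] at ht; norm_num at ht)
  have h6 : |d.r| * wen d t = |(1 - s) * E| := by
    rw [← abs_neg ((1 - s) * E), ← h5, abs_mul, abs_of_pos hwp]
  rw [h6, abs_mul, abs_of_nonneg (by linarith : 0 ≤ 1 - s)] at hb
  have : (1 - s) * |E| ≤ 1 * |E| := mul_le_mul_of_nonneg_right (by linarith) (abs_nonneg _)
  linarith

/-! ### the kernel of `H.A` -/

/-- the submodule of smooth harmonic sections. -/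
def KrS (S : SWS M κ0 κ1 κT) : Submodule ℝ (SmS S.DL) := LinearMap.ker (lA S.H)

theorem mem_KrS (S : SWS M κ0 κ1 κT) (v : SmS S.DL) :
    v ∈ KrS S ↔ ∀ b z, S.H.A v.1 b z = 0 := by
  constructor
  · intro h b z
    have h1 : lA S.H v = 0 := h
    have h2 : ((lA S.H v : SmS S.DT) : κT → M → ℝ) = 0 := by rw [h1]; rfl
    rw [lA_coe] at h2
    rw [h2]; rfl
  · intro h
    refine Subtype.ext ?_
    funext b z
    exact h b z

/-- the four harmonic elements. -/
def el {S : SWS M κ0 κ1 κT} (hS : S.OK) {d : SWD M κT} (hd : d.Adm S) (a : Fin 4) : KrS S :=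
  Fin.cases ⟨⟨cst M, sm_cst, sec_full hS _⟩, (mem_KrS S _).2 hS.one⟩
    (fun i => ⟨⟨wi d i, sm_wi hd i, sec_full hS _⟩, (mem_KrS S _).2 (hd.harm i)⟩) a

theorem finrank_KrS {S : SWS M κ0 κ1 κT} {N : ℕ} (K : KerD S.DL S.H.A N) :
    Module.Finite ℝ (KrS S) ∧ Module.finrank ℝ (KrS S) = N := by
  let b : Fin N → KrS S := fun i => ⟨⟨K.u i, K.smooth i, K.sec i⟩, (mem_KrS S _).2 (K.ker i)⟩
  have hli : LinearIndependent ℝ b := by
    have h1 : LinearIndependent ℝ (fun i => (((b i : KrS S) : SmS S.DL) : Fin 4 → M → ℝ)) := K.li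
    exact LinearIndependent.of_comp ((SmS S.DL).subtype ∘ₗ (KrS S).subtype) h1
  have hsp : ⊤ ≤ Submodule.span ℝ (Set.range b) := by
    intro v _
    have h1 := K.span v.1.1 v.1.2.1 v.1.2.2 ((mem_KrS S v.1).1 v.2)
    have h2 : v = ∑ i, ipp v.1.1 (K.u i) • b i := by
      apply Subtype.ext
      apply Subtype.ext
      funext a z
      rw [h1 a z]
      simp only [Submodule.coe_sum, Submodule.coe_smul, Finset.sum_apply, Pi.smul_apply,
        smul_eq_mul]
      rfl
    rw [h2]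
    exact Submodule.sum_mem _ fun i _ => Submodule.smul_mem _ _ (Submodule.subset_span ⟨i, rfl⟩)
  let B := Module.Basis.mk hli hsp
  exact ⟨Module.Finite.of_basis B, by rw [Module.finrank_eq_card_basis B, Fintype.card_fin]⟩

theorem el_zero {S : SWS M κ0 κ1 κT} (hS : S.OK) {d : SWD M κT} (hd : d.Adm S) :
    ((el hS hd 0 : SmS S.DL) : Fin 4 → M → ℝ) = cst M := rfl

theorem el_succ {S : SWS M κ0 κ1 κT} (hS : S.OK) {d : SWD M κT} (hd : d.Adm S) (i : Fin 3) :
    ((el hS hd i.succ : SmS S.DL) : Fin 4 → M → ℝ) = wi d i := rfl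

theorem el_li {S : SWS M κ0 κ1 κT} (hS : S.OK) {d : SWD M κT} (hd : d.Adm S) :
    LinearIndependent ℝ (el hS hd) := by
  rw [Fintype.linearIndependent_iff]
  intro g hg
  have h1 : (∑ a, g a • ((el hS hd a : SmS S.DL) : Fin 4 → M → ℝ)) = 0 := by
    have h2 : (((∑ a, g a • el hS hd a : KrS S) : SmS S.DL) : Fin 4 → M → ℝ) = 0 := by
      rw [hg]; rfl
    rw [← h2]
    simp only [Submodule.coe_sum, Submodule.coe_smul]
  have h3 : ∀ l z, ∑ a, g a * ((el hS hd a : SmS S.DL) : Fin 4 → M → ℝ) l z = 0 := by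
    intro l z
    have := congrFun (congrFun h1 l) z
    simpa only [Finset.sum_apply, Pi.smul_apply, smul_eq_mul, Pi.zero_apply] using this
  obtain ⟨z0⟩ := ‹Nonempty M›
  have h0 : g 0 = 0 := by
    have h4 := h3 0 z0
    rw [Fin.sum_univ_succ] at h4
    simp only [el_zero, el_succ, cst, wi, Fin.cons_zero, mul_one, mul_zero,
      Finset.sum_const_zero, add_zero] at h4
    exact h4
  set t : E3 := WithLp.toLp 2 fun i => g i.succ with ht
  have h5 : ∀ k z, d.wt t k z = 0 := by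
    intro k z
    have h4 := h3 k.succ z
    rw [Fin.sum_univ_succ] at h4
    simp only [el_zero, el_succ, cst, wi, Fin.cons_succ, mul_zero, zero_add] at h4
    exact h4
  have h6 : t = 0 := by
    by_contra hne
    have h7 := wen_pos hd hne
    unfold wen at h7
    simp only [h5] at h7
    simp at h7
  intro a
  refine Fin.cases h0 (fun i => ?_) a
  have : t i = 0 := by rw [h6]; rfl
  exact this

/-- **orthogonality to the kernel**. -/
theorem ker_perp {S : SWS M κ0 κ1 κT} (hS : S.OK) {d : SWD M κT} (hd : d.Adm S)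
    (K : KerD S.DL S.H.A 4) (f : HH (μHE[4] : Measure M) (Fin 4))
    (h0 : ⟪f, clH (cst M) sm_cst⟫ = (0 : ℝ)) (h1 : ∀ i, ⟪f, Wi hd i⟫ = (0 : ℝ))
    (v : Fin 4 → M → ℝ) (hv : SmV (n := 4) v) (hvs : S.DL.Sec v)
    (hker : ∀ b z, S.H.A v b z = 0) : ⟪f, clH v hv⟫ = (0 : ℝ) := by
  obtain ⟨hfin, hrank⟩ := finrank_KrS K
  have hspan : Submodule.span ℝ (Set.range (el hS hd)) = ⊤ :=
    (el_li hS hd).span_eq_top_of_card_eq_finrank' (by rw [hrank, Fintype.card_fin])
  let L : KrS S →ₗ[ℝ] ℝ :=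
    { toFun := fun v => ⟪f, clH v.1.1 v.1.2.1⟫
      map_add' := fun v w => by
        have : clH (v + w).1.1 (v + w).1.2.1 = clH v.1.1 v.1.2.1 + clH w.1.1 w.1.2.1 :=
          clH_add _ _ _ _ _
        rw [this, inner_add_right]
      map_smul' := fun c v => by
        have : clH (c • v).1.1 (c • v).1.2.1 = c • clH v.1.1 v.1.2.1 := clH_smul _ _ _ _
        rw [this, inner_smul_right]
        rfl }
  have hL : L = 0 := by
    refine LinearMap.ext_on hspan ?_
    rintro _ ⟨a, rfl⟩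
    refine Fin.cases ?_ (fun i => ?_) a
    · exact h0
    · exact h1 i
  have := LinearMap.congr_fun hL (⟨⟨v, hv, hvs⟩, (mem_KrS S _).2 hker⟩ : KrS S)
  exact this

end main

end Crest.Agent.R235.Swx_333

end
end

-- ▼ part R235/Swx3_333
section

/-!
Row 235 (S0364), PACKAGE SW, leaf SWX (helper333), part 3: the map, its zeros are solutions of the
truncated system.

* `PL D` : projection onto `L²(D)`;
* `KKt` : the compact part `c(ϑ_t + G q_t(ψ)) i ψ` (`Cpt_755.KK`), `coe_KKt`, `P_KKt`;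
* `tsol_of_zero` : a zero gives a `TSol`;
* `sol_of_tsol` : a bounded `TSol` with `C0 ≤ R²` is a `Sol`.
-/

set_option autoImplicit false
set_option maxSynthPendingDepth 3
set_option linter.unusedSectionVars false

open scoped ContDiff ENNReal NNReal Topology Manifold Bundle RealInnerProductSpace
open MeasureTheory Set Filter Metric Bundle

universe v

noncomputable section

namespace Crest.Agent.R235.Swx_333

open Crest.Agent.R249.Tv57 Crest.Agent.R247.Ms322 Crest.Agent.R247.Dir593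
open Crest.Agent.R235.SWDefs_53 Crest.Agent.R235.CptB_755 Crest.Agent.R235.Fs4_546
open Crest.Agent.R235.CptC_755 Crest.Agent.R235.Cpt_755 Crest.Agent.R235.Fred_649

local notation "ipp" => Crest.Agent.R249.Tv57.ip 4

section main

variable {M : Type v} [MetricSpace M] [CompactSpace M] [ConnectedSpace M]
  [ChartedSpace (EuclideanSpace ℝ (Fin 4)) M] [IsManifold (𝓡 4) ∞ M]
  [RiemannianBundle (fun p : M => TangentSpace (𝓡 4) p)]
  [IsContMDiffRiemannianBundle (𝓡 4) ∞ (EuclideanSpace ℝ (Fin 4))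
    (fun p : M => TangentSpace (𝓡 4) p)]
  [IsRiemannianManifold (𝓡 4) M] [MeasurableSpace M] [BorelSpace M]
  [SecondCountableTopology M] [Nonempty M] [IsFiniteMeasureOnCompacts (μHE[4] : Measure M)]
  {κ0 κ1 κT : Type} [Fintype κ0] [Fintype κ1] [Fintype κT]

omit [ConnectedSpace M] in
theorem finM : IsFiniteMeasure (μHE[4] : Measure M) := ⟨isCompact_univ.measure_lt_top⟩

theorem bm_smooth {f : M → ℝ} (hf : ContMDiff (𝓡 4) 𝓘(ℝ, ℝ) ∞ f) :
    BM (μHE[4] : Measure M) f := by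
  obtain ⟨C, hC0, hC⟩ := smooth_bdd hf
  exact ⟨hf.continuous.aestronglyMeasurable, C, hC0,
    Eventually.of_forall fun x => by rw [Real.norm_eq_abs]; exact hC x⟩

/-- the coefficients of the product term. -/
def cc (S : SWS M κ0 κ1 κT) : κ1 → κT → κ0 → M → ℝ := fun x A y z => S.cl A x y z

theorem bm_cc {S : SWS M κ0 κ1 κT} (hS : S.OK) (x : κ1) (A : κT) (y : κ0) :
    BM (μHE[4] : Measure M) (cc S x A y) := bm_smooth (hS.smcl A x y)

theorem bm_mth {S : SWS M κ0 κ1 κT} {d : SWD M κT} (hS : S.OK) (hd : d.Adm S) (t : E3) (x : κ1)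
    (y : κ0) : BM (μHE[4] : Measure M) (mth S d t x y) := by
  refine bm_smooth ?_
  unfold mth
  exact contMDiff_finsetSum fun A _ => (hd.smth t A).mul (hS.smcl A x y)

/-- the projection onto the sections. -/
def PL {κ : Type} [Fintype κ] (D : Dat 4 M κ) : HH (μHE[4] : Measure M) κ →L[ℝ] D.toAD.HE :=
  D.toAD.P.codRestrict D.toAD.HE fun u => D.toAD.P_P u

theorem coe_PL {κ : Type} [Fintype κ] (D : Dat 4 M κ) (u : HH (μHE[4] : Measure M) κ) :
    ((PL D u : D.toAD.HE) : HH (μHE[4] : Measure M) κ) = D.toAD.P u := rfl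

/-- the one-form `G f`. -/
def GG1 (S : SWS M κ0 κ1 κT) (s0 : Spec S.DL) :
    HH (μHE[4] : Measure M) (Fin 4) →L[ℝ] S.DT.toAD.WE := Green_649.grn S.H s0

/-- the compact part of the Dirac equation. -/
def KKt {S : SWS M κ0 κ1 κT} {d : SWD M κT} (hS : S.OK) (hd : d.Adm S) (s0 : Spec S.DL) (R : ℝ)
    (t : E3) (p : S.D0.toAD.WE) : HH (μHE[4] : Measure M) κ1 :=
  KK S.D0.toAD.i1 S.DT.toAD.i1 (Qf S d R) (GG1 S s0) (cc S) (bm_cc hS)
    (fun t => matR (bm_mth hS hd t)) t p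

/-- the curvature term. -/
def Fq {S : SWS M κ0 κ1 κT} (d : SWD M κT) (R : ℝ) (t : E3) (p : S.D0.toAD.WE) :
    HH (μHE[4] : Measure M) (Fin 4) := nem (Qf S d R) t (S.D0.toAD.i1 p)

/-- the coordinates of a product term. -/
theorem coe_prT {κ κ' α : Type} [Fintype κ] [Fintype κ'] [Fintype α]
    (c : κ' → α → κ → M → ℝ) (hc : ∀ l b y, BM (μHE[4] : Measure M) (c l b y))
    (a : HH (μHE[4] : Measure M) α) (u : HH (μHE[4] : Measure M) κ)
    (ha : ∀ b, MemLp (a b : M → ℝ) 4 (μHE[4] : Measure M))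
    (hu : ∀ y, MemLp (u y : M → ℝ) 4 (μHE[4] : Measure M)) :
    ∀ᵐ z ∂(μHE[4] : Measure M), ∀ l, (prT c hc a u l : M → ℝ) z =
      ∑ b, ∑ y, (a b : M → ℝ) z * (u y : M → ℝ) z * c l b y z := by
  rw [ae_all_iff]
  intro l
  have e0 : prT c hc a u l = ∑ b, ∑ y, mulF (hc l b y) (pr (a b) (u y)) := rfl
  have e1 : ∀ᵐ z ∂(μHE[4] : Measure M), ∀ b y, (pr (a b) (u y) : M → ℝ) z =
      (a b : M → ℝ) z * (u y : M → ℝ) z := by
    rw [ae_all_iff]
    intro b
    rw [ae_all_iff]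
    intro y
    exact coe_pr (ha b) (hu y)
  have e2 : ∀ᵐ z ∂(μHE[4] : Measure M), ∀ b y, (mulF (hc l b y) (pr (a b) (u y)) : M → ℝ) z =
      (pr (a b) (u y) : M → ℝ) z • c l b y z := by
    rw [ae_all_iff]
    intro b
    rw [ae_all_iff]
    intro y
    exact coe_mulF (hc l b y) _
  have e3 : ∀ᵐ z ∂(μHE[4] : Measure M), ∀ b,
      ((∑ y, mulF (hc l b y) (pr (a b) (u y)) : Lp ℝ 2 (μHE[4] : Measure M)) : M → ℝ) z =
      ∑ y, (mulF (hc l b y) (pr (a b) (u y)) : M → ℝ) z := by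
    rw [ae_all_iff]
    intro b
    exact Lp.coeFn_fun_finsetSum Finset.univ (fun y => mulF (hc l b y) (pr (a b) (u y)))
  filter_upwards [e1, e2, e3, Lp.coeFn_fun_finsetSum Finset.univ
    (fun b => ∑ y, mulF (hc l b y) (pr (a b) (u y)))] with z f1 f2 f3 f4
  rw [e0, f4]
  refine Finset.sum_congr rfl fun b _ => ?_
  rw [f3 b]
  refine Finset.sum_congr rfl fun y _ => ?_
  rw [f2 b y, f1 b y, smul_eq_mul]

/-- **the coordinates of the compact part**. -/
theorem coe_KKt {S : SWS M κ0 κ1 κT} {d : SWD M κT} (hS : S.OK) (hd : d.Adm S) (s0 : Spec S.DL)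
    (h4 : Emb4 S.D0.toAD.i1) (hT4 : Emb4 S.DT.toAD.i1) (R : ℝ) (t : E3) (p : S.D0.toAD.WE) :
    ∀ᵐ z ∂(μHE[4] : Measure M), ∀ x, (KKt hS hd s0 R t p x : M → ℝ) z =
      S.cm (rp (GG1 S s0 (Fq d R t p)) + d.th t) (rp p) x z := by
  obtain ⟨C, -, hC⟩ := h4
  obtain ⟨CT, -, hCT⟩ := hT4
  have e1 := coe_prT (cc S) (bm_cc hS) (S.DT.toAD.i1 (GG1 S s0 (Fq d R t p))) (S.D0.toAD.i1 p)
    (fun b => (hCT _ b).1) (fun y => (hC _ y).1)
  have e2 := coe_matR (bm_mth hS hd t) (S.D0.toAD.i1 p)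
  have e3 : ∀ᵐ z ∂(μHE[4] : Measure M), ∀ x, (KKt hS hd s0 R t p x : M → ℝ) z =
      (matR (bm_mth hS hd t) (S.D0.toAD.i1 p) x : M → ℝ) z +
      (prT (cc S) (bm_cc hS) (S.DT.toAD.i1 (GG1 S s0 (Fq d R t p))) (S.D0.toAD.i1 p) x : M → ℝ) z := by
    rw [ae_all_iff]
    intro x
    exact Lp.coeFn_add (matR (bm_mth hS hd t) (S.D0.toAD.i1 p) x)
      (prT (cc S) (bm_cc hS) (S.DT.toAD.i1 (GG1 S s0 (Fq d R t p))) (S.D0.toAD.i1 p) x)
  filter_upwards [e1, e2, e3] with z f1 f2 f3 x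
  rw [f3 x, f1 x, f2 x]
  unfold SWS.cm mth cc rp
  simp only [Pi.add_apply, add_mul, Finset.sum_add_distrib]
  rw [add_comm]
  congr 1
  simp only [Finset.mul_sum]
  rw [Finset.sum_comm]
  exact Finset.sum_congr rfl fun A _ => Finset.sum_congr rfl fun y _ => by ring

/-- `cm` is a section of `D1`. -/
theorem cm_sec {S : SWS M κ0 κ1 κT} (hS : S.OK) (a : κT → M → ℝ) (u : κ0 → M → ℝ) (x : κ1)
    (z : M) : ∑ x', S.D1.p x x' z * S.cm a u x' z = S.cm a u x z := by
  unfold SWS.cm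
  simp only [Finset.mul_sum]
  rw [Finset.sum_comm]
  refine Finset.sum_congr rfl fun A _ => ?_
  rw [Finset.sum_comm]
  refine Finset.sum_congr rfl fun y _ => ?_
  rw [← hS.clsec A x y z, Finset.mul_sum]
  exact Finset.sum_congr rfl fun x' _ => by ring

theorem P_KKt {S : SWS M κ0 κ1 κT} {d : SWD M κT} (hS : S.OK) (hd : d.Adm S) (s0 : Spec S.DL)
    (h4 : Emb4 S.D0.toAD.i1) (hT4 : Emb4 S.DT.toAD.i1) (R : ℝ) (t : E3) (p : S.D0.toAD.WE) :
    S.D1.toAD.P (KKt hS hd s0 R t p) = KKt hS hd s0 R t p := by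
  ext x
  filter_upwards [S.D1.toAD.coe_P (KKt hS hd s0 R t p), coe_KKt hS hd s0 h4 hT4 R t p] with z e1 e2
  rw [e1 x, e2 x, ← cm_sec hS]
  exact Finset.sum_congr rfl fun x' _ => by rw [e2 x']; rfl

/-! ### zeros are solutions -/

theorem dl_P {S : SWS M κ0 κ1 κT} (hS : S.OK) (f : HH (μHE[4] : Measure M) (Fin 4)) :
    S.DL.toAD.P f = f := by
  ext a
  filter_upwards [S.DL.toAD.coe_P f] with z e1
  rw [e1 a]
  have h : ∀ b, S.DL.toAD.p a b z = if a = b then 1 else 0 := fun b => hS.fullL a b z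
  simp only [h, ite_mul, one_mul, zero_mul, Finset.sum_ite_eq, Finset.mem_univ, if_true]

theorem coe_Fq {S : SWS M κ0 κ1 κT} {d : SWD M κT} (hS : S.OK) (hd : d.Adm S) {R : ℝ}
    (hR : 0 < R) {t : E3} (ht : t ∈ BB) (p : S.D0.toAD.WE) :
    ∀ᵐ z ∂(μHE[4] : Measure M), ∀ l, (Fq d R t p l : M → ℝ) z = rhs S d t (trc R (rp p)) l z := by
  have := finM (M := M)
  filter_upwards [coe_nem (nemOK hS hd hR (μHE[4] : Measure M)) ht (S.D0.toAD.i1 p)] with z e1 l
  rw [rhs_eq]
  exact e1 l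

/-- **the zeros of the map are solutions of the truncated system**. -/
theorem tsol_of_zero {S : SWS M κ0 κ1 κT} {d : SWD M κT} (hS : S.OK) (hd : d.Adm S)
    (s0 : Spec S.DL) (sT : Spec S.DT)
    (h4 : Emb4 S.D0.toAD.i1) (hT4 : Emb4 S.DT.toAD.i1) (K : KerD S.DL S.H.A 4) {R : ℝ}
    (hR : 0 < R) {t : E3} (ht : t ∈ BB) (p : S.D0.toAD.WE) (h1 : hpr hd (Fq d R t p) = 0)
    (h2 : Ah S.P p + PL S.D1 (KKt hS hd s0 R t p) = 0) :
    TSol S d R t (rp (GG1 S s0 (Fq d R t p))) (rp p) := by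
  have hF := coe_Fq hS hd hR ht p
  -- the curvature equation
  have hcur := (cur_iff S s0 sT (a := rp (GG1 S s0 (Fq d R t p))) (A := GG1 S s0 (Fq d R t p))
    (fun _ => EventuallyEq.rfl) (f := rhs S d t (trc R (rp p)))
    (F := (⟨Fq d R t p, dl_P hS _⟩ : S.DL.toAD.HE)) (fun b => by
      filter_upwards [hF] with z e
      exact e b)).2 ⟨rfl, fun l hl => by
        have h0 : ⟪Fq d R t p, clH (cst M) sm_cst⟫ = (0 : ℝ) := by
          rw [inner_HH (Fq d R t p) (clH (cst M) sm_cst) hF (coe_clH (cst M) sm_cst)]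
          rw [← integral_zero M ℝ (μ := (μHE[4] : Measure M))]
          refine integral_congr_ae (Eventually.of_forall fun z => ?_)
          simp only [Fin.sum_univ_succ (n := 3)]
          have r0 : rhs S d t (trc R (rp p)) 0 z = 0 := rfl
          have r1 : ∀ k : Fin 3, (cst M) k.succ z = 0 := fun k => rfl
          simp only [r0, r1, zero_mul, mul_zero, Finset.sum_const_zero, add_zero]
        have h3 : ∀ i, ⟪Fq d R t p, Wi hd i⟫ = (0 : ℝ) := by
          intro i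
          rw [real_inner_comm, ← hpr_apply, h1]
          rfl
        have h5 := ker_perp hS hd K (Fq d R t p) h0 h3 (s0.φ l) (s0.smooth l) (s0.sec l) (by
          intro b z
          have h6 := congrArg (fun v : SmS S.DT => v.1 b z) (lA_ker S.H s0 (s0.mem_ker.1 hl))
          exact h6)
        exact h5⟩
  refine ⟨inW_rp _, inW_rp _, ?_, hcur.1, hcur.2⟩
  -- the Dirac equation
  refine (wkA_iff (P := S.P) (u := rp p) (U := p) (fun _ => EventuallyEq.rfl)).2 fun b => ?_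
  have h7 : Ah S.P p = -PL S.D1 (KKt hS hd s0 R t p) := eq_neg_of_add_eq_zero_left h2
  have h8 : ((Ah S.P p : S.D1.toAD.HE) : HH (μHE[4] : Measure M) κ1) = -KKt hS hd s0 R t p := by
    rw [h7]
    have : ((-PL S.D1 (KKt hS hd s0 R t p) : S.D1.toAD.HE) : HH (μHE[4] : Measure M) κ1) =
        -S.D1.toAD.P (KKt hS hd s0 R t p) := rfl
    rw [this, P_KKt hS hd s0 h4 hT4]
  rw [h8]
  have h9 : ((-KKt hS hd s0 R t p) b : Lp ℝ 2 (μHE[4] : Measure M)) = -(KKt hS hd s0 R t p b) := rfl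
  rw [h9]
  filter_upwards [Lp.coeFn_neg (KKt hS hd s0 R t p b), coe_KKt hS hd s0 h4 hT4 R t p] with z e1 e2
  rw [e1, Pi.neg_apply, e2 b]

/-! ### the truncation is inactive -/

theorem sol_of_tsol {S : SWS M κ0 κ1 κT} {d : SWD M κT} {R C0 : ℝ} (hR : 0 < R)
    (hC : C0 < R ^ 2) {t : E3} {a : κT → M → ℝ} {u : κ0 → M → ℝ} (h : TSol S d R t a u)
    (hb : ∀ᵐ z ∂(μHE[4] : Measure M), ∑ y, u y z ^ 2 ≤ C0) : Sol S d t a u := by
  have h1 : ∀ᵐ z ∂(μHE[4] : Measure M), ∀ l, rhs S d t (trc R u) l z = rhs S d t u l z := by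
    filter_upwards [hb] with z hz l
    have h2 : ∀ y, trc R u y z = u y z := fun y =>
      congrFun (tv_eq hR (fun y => u y z) (hz.trans hC.le)) y
    refine Fin.cases ?_ (fun k => ?_) l
    · rfl
    · show d.mu t z * ((1 / 2) * S.rq k (trc R u) z) + d.r * d.wt t k z + d.et t k z =
        d.mu t z * ((1 / 2) * S.rq k u z) + d.r * d.wt t k z + d.et t k z
      have h3 : S.rq k (trc R u) z = S.rq k u z := by
        unfold SWS.rq
        simp only [h2]
      rw [h3]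
  obtain ⟨A, hA⟩ := h.wa
  refine ⟨h.wa, h.wu, ⟨C0, hb⟩, h.dir, ?_, h.har⟩
  have h4 := (wkA_iff (P := S.H.swap) (u := a) (U := A) hA).1 h.cur
  refine (wkA_iff (P := S.H.swap) (u := a) (U := A) hA).2 fun b => (h4 b).trans ?_
  filter_upwards [h1] with z hz
  exact hz b

end main

end Crest.Agent.R235.Swx_333

end
end

-- ▼ part R235/Swx4_333

/-!
Row 235 (S0364), PACKAGE SW, leaf SWX (helper333), part 4: the norm bound of the zeros, and the
existence of the eigenbases.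

* `zero_bound` : zeros with `|ψ|² ≤ C0` are bounded in `W^{1,2}`;
* `exists_p_ne` : if `D0` has a `Spec` and `P : OpPair D0 D1`, then `D1` is not zero;
* `specs` : all four `Spec`s.
-/

set_option autoImplicit false
set_option maxSynthPendingDepth 3
set_option linter.unusedSectionVars false

open scoped ContDiff ENNReal NNReal Topology Manifold Bundle RealInnerProductSpace
open MeasureTheory Set Filter Metric Bundle

universe v

noncomputable section

namespace Crest.Agent.R235.Swx_333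

open Crest.Agent.R249.Tv57 Crest.Agent.R247.Ms322 Crest.Agent.R247.Dir593
open Crest.Agent.R235.SWDefs_53 Crest.Agent.R235.CptB_755 Crest.Agent.R235.Fs4_546
open Crest.Agent.R235.CptC_755 Crest.Agent.R235.Cpt_755 Crest.Agent.R235.Fred_649

local notation "ipp" => Crest.Agent.R249.Tv57.ip 4

section main

variable {M : Type v} [MetricSpace M] [CompactSpace M] [ConnectedSpace M]
  [ChartedSpace (EuclideanSpace ℝ (Fin 4)) M] [IsManifold (𝓡 4) ∞ M]
  [RiemannianBundle (fun p : M => TangentSpace (𝓡 4) p)]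
  [IsContMDiffRiemannianBundle (𝓡 4) ∞ (EuclideanSpace ℝ (Fin 4))
    (fun p : M => TangentSpace (𝓡 4) p)]
  [IsRiemannianManifold (𝓡 4) M] [MeasurableSpace M] [BorelSpace M]
  [SecondCountableTopology M] [Nonempty M] [IsFiniteMeasureOnCompacts (μHE[4] : Measure M)]
  {κ0 κ1 κT : Type} [Fintype κ0] [Fintype κ1] [Fintype κT]

/-- the volume. -/
def vol (M : Type v) [MetricSpace M] [MeasurableSpace M] [BorelSpace M] : ℝ :=
  ((μHE[4] : Measure M) univ).toReal

theorem norm_sq_HH {κ : Type} [Fintype κ] (f : HH (μHE[4] : Measure M) κ) :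
    ‖f‖ ^ 2 = ∫ z, ∑ a, (f a : M → ℝ) z ^ 2 ∂(μHE[4] : Measure M) := by
  rw [← real_inner_self_eq_norm_sq]
  rw [inner_HH f f (f := fun a => (f a : M → ℝ)) (g := fun a => (f a : M → ℝ))
    (Eventually.of_forall fun _ _ => rfl) (Eventually.of_forall fun _ _ => rfl)]
  refine integral_congr_ae (Eventually.of_forall fun z => ?_)
  exact Finset.sum_congr rfl fun a _ => (sq _).symm

theorem int_sq {κ : Type} [Fintype κ] (f : HH (μHE[4] : Measure M) κ) :
    Integrable (fun z => ∑ a, (f a : M → ℝ) z ^ 2) (μHE[4] : Measure M) :=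
  integrable_finsetSum _ fun a _ => (Lp.memLp (f a)).integrable_sq

/-- bound of the norm by a sup bound. -/
theorem norm_sq_le {κ : Type} [Fintype κ] (f : HH (μHE[4] : Measure M) κ) {B : ℝ}
    (h : ∀ᵐ z ∂(μHE[4] : Measure M), ∑ a, (f a : M → ℝ) z ^ 2 ≤ B) :
    ‖f‖ ^ 2 ≤ B * vol M := by
  have := finM (M := M)
  rw [norm_sq_HH]
  calc ∫ z, ∑ a, (f a : M → ℝ) z ^ 2 ∂(μHE[4] : Measure M)
      ≤ ∫ _z : M, B ∂(μHE[4] : Measure M) :=
        integral_mono_ae (int_sq f) (integrable_const _) h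
    _ = B * vol M := by
        rw [integral_const, smul_eq_mul, mul_comm]
        rfl

theorem th_bdd {S : SWS M κ0 κ1 κT} {d : SWD M κT} (hd : d.Adm S) :
    ∃ C : ℝ, 0 ≤ C ∧ ∀ t ∈ BB, ∀ z, ∑ A, d.th t A z ^ 2 ≤ C := by
  choose C hC0 hC using fun A => unif_bdd (hd.cth A)
  refine ⟨∑ A, C A ^ 2, Finset.sum_nonneg fun A _ => sq_nonneg _, fun t ht z => ?_⟩
  refine Finset.sum_le_sum fun A _ => ?_
  rw [← sq_abs]
  exact pow_le_pow_left₀ (abs_nonneg _) (hC A t ht z) 2

set_option maxHeartbeats 1600000 in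
/-- **the norm bound of the zeros**. -/
theorem zero_bound {S : SWS M κ0 κ1 κT} {d : SWD M κT} (hS : S.OK) (hd : d.Adm S)
    (s0 : Spec S.DL) (h4 : Emb4 S.D0.toAD.i1) (hT4 : Emb4 S.DT.toAD.i1) {R : ℝ}
    (hR : 0 < R) (C0 : ℝ) : ∃ r : ℝ, 0 < r ∧ ∀ t ∈ BB, ∀ p : S.D0.toAD.WE,
      Ah S.P p + PL S.D1 (KKt hS hd s0 R t p) = 0 →
      (∀ᵐ z ∂(μHE[4] : Measure M), ∑ y, rp p y z ^ 2 ≤ C0) → ‖p‖ < r := by
  have := finM (M := M)
  obtain ⟨B, hB0, hB⟩ := (nemOK hS hd hR (μHE[4] : Measure M)).bd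
  obtain ⟨Θ, hΘ0, hΘ⟩ := th_bdd hd
  obtain ⟨C, hC, hG⟩ := garding (P := S.P) (dns4 S.D0)
  have hv : 0 ≤ vol M := ENNReal.toReal_nonneg
  set C1 := max C0 0 with hC1
  have hC10 : 0 ≤ C1 := le_max_right _ _
  set N := ‖S.DT.toAD.i1‖ * ‖(GG1 S s0)‖ with hN
  have hN0 : 0 ≤ N := by positivity
  set Q := C * (C1 * (2 * (N ^ 2 * ((4 * B ^ 2) * vol M)) + 2 * (Θ * vol M)) + C1 * vol M) with hQ
  refine ⟨√Q + 1, by positivity, fun t ht p hz hb => ?_⟩
  have hb1 : ∀ᵐ z ∂(μHE[4] : Measure M), ∑ y, rp p y z ^ 2 ≤ C1 := by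
    filter_upwards [hb] with z hz
    exact hz.trans (le_max_left _ _)
  -- the `L²` norm
  have h1 : ‖S.D0.toAD.jj p‖ ^ 2 ≤ C1 * vol M := norm_sq_le (S.D0.toAD.i1 p) hb1
  -- the right hand side
  have h2 : ‖Fq d R t p‖ ^ 2 ≤ (4 * B ^ 2) * vol M := by
    refine norm_sq_le _ ?_
    filter_upwards [coe_nem (nemOK hS hd hR (μHE[4] : Measure M)) ht (S.D0.toAD.i1 p)] with z e1
    have e2 : ∀ l, (Fq d R t p l : M → ℝ) z ^ 2 ≤ B ^ 2 := by
      intro l
      have e3 : (Fq d R t p l : M → ℝ) z =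
        Qf S d R t z (fun a => (S.D0.toAD.i1 p a : M → ℝ) z) l := e1 l
      rw [e3, ← sq_abs]
      exact pow_le_pow_left₀ (abs_nonneg _) (hB t ht z _ l) 2
    refine (Finset.sum_le_sum fun l _ => e2 l).trans (le_of_eq ?_)
    rw [Finset.sum_const, Finset.card_univ, Fintype.card_fin, nsmul_eq_mul]
    norm_num
  set a := GG1 S s0 (Fq d R t p) with ha
  have h3 : ‖S.DT.toAD.i1 a‖ ^ 2 ≤ N ^ 2 * ((4 * B ^ 2) * vol M) := by
    have e1 : ‖S.DT.toAD.i1 a‖ ≤ N * ‖Fq d R t p‖ := by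
      refine (S.DT.toAD.i1.le_opNorm a).trans ?_
      rw [hN, mul_assoc]
      exact mul_le_mul_of_nonneg_left ((GG1 S s0).le_opNorm _) (norm_nonneg _)
    calc ‖S.DT.toAD.i1 a‖ ^ 2 ≤ (N * ‖Fq d R t p‖) ^ 2 :=
          pow_le_pow_left₀ (norm_nonneg _) e1 2
      _ = N ^ 2 * ‖Fq d R t p‖ ^ 2 := mul_pow _ _ _
      _ ≤ _ := mul_le_mul_of_nonneg_left h2 (sq_nonneg _)
  -- the Dirac term
  have h5 : ‖Ah S.P p‖ ^ 2 ≤ C1 * (2 * (N ^ 2 * ((4 * B ^ 2) * vol M)) + 2 * (Θ * vol M)) := by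
    have e0 : Ah S.P p = -PL S.D1 (KKt hS hd s0 R t p) := eq_neg_of_add_eq_zero_left hz
    have e1 : ‖Ah S.P p‖ = ‖KKt hS hd s0 R t p‖ := by
      rw [e0, norm_neg]
      have : ‖PL S.D1 (KKt hS hd s0 R t p)‖ = ‖S.D1.toAD.P (KKt hS hd s0 R t p)‖ := rfl
      rw [this, P_KKt hS hd s0 h4 hT4]
    rw [e1, norm_sq_HH]
    have e2 : ∀ᵐ z ∂(μHE[4] : Measure M), ∑ x, (KKt hS hd s0 R t p x : M → ℝ) z ^ 2 ≤
        C1 * (2 * (∑ A, (S.DT.toAD.i1 a A : M → ℝ) z ^ 2) + 2 * Θ) := by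
      filter_upwards [coe_KKt hS hd s0 h4 hT4 R t p, hb1] with z f1 f2
      simp only [f1]
      have g1 : ∑ x, S.cm (rp (GG1 S s0 (Fq d R t p)) + d.th t) (rp p) x z ^ 2 ≤
          (∑ A, ((rp (GG1 S s0 (Fq d R t p)) + d.th t) A z) ^ 2) * ∑ y, rp p y z ^ 2 :=
        hS.clbd z (fun A => (rp (GG1 S s0 (Fq d R t p)) + d.th t) A z) (fun y => rp p y z)
      have g2 : ∑ A, ((rp (GG1 S s0 (Fq d R t p)) + d.th t) A z) ^ 2 ≤
          2 * (∑ A, (S.DT.toAD.i1 a A : M → ℝ) z ^ 2) + 2 * Θ := by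
        have g3 : ∀ A, ((rp (GG1 S s0 (Fq d R t p)) + d.th t) A z) ^ 2 ≤
            2 * (S.DT.toAD.i1 a A : M → ℝ) z ^ 2 + 2 * d.th t A z ^ 2 := by
          intro A
          have g4 : (rp (GG1 S s0 (Fq d R t p)) + d.th t) A z =
              (S.DT.toAD.i1 a A : M → ℝ) z + d.th t A z := rfl
          rw [g4]
          nlinarith [sq_nonneg ((S.DT.toAD.i1 a A : M → ℝ) z - d.th t A z)]
        refine (Finset.sum_le_sum fun A _ => g3 A).trans ?_
        rw [Finset.sum_add_distrib, ← Finset.mul_sum, ← Finset.mul_sum]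
        have := hΘ t ht z
        linarith
      have g5 : 0 ≤ ∑ A, ((rp (GG1 S s0 (Fq d R t p)) + d.th t) A z) ^ 2 :=
        Finset.sum_nonneg fun A _ => sq_nonneg _
      calc _ ≤ _ := g1
        _ ≤ (∑ A, ((rp (GG1 S s0 (Fq d R t p)) + d.th t) A z) ^ 2) * C1 :=
            mul_le_mul_of_nonneg_left f2 g5
        _ ≤ (2 * (∑ A, (S.DT.toAD.i1 a A : M → ℝ) z ^ 2) + 2 * Θ) * C1 :=
            mul_le_mul_of_nonneg_right g2 hC10
        _ = _ := mul_comm _ _
    have e3 : Integrable (fun z => C1 * (2 * (∑ A, (S.DT.toAD.i1 a A : M → ℝ) z ^ 2) + 2 * Θ))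
        (μHE[4] : Measure M) :=
      (((int_sq (S.DT.toAD.i1 a)).const_mul 2).add (integrable_const _)).const_mul C1
    refine (integral_mono_ae (int_sq (KKt hS hd s0 R t p)) e3 e2).trans ?_
    rw [integral_const_mul, integral_add ((int_sq (S.DT.toAD.i1 a)).const_mul 2)
      (integrable_const _), integral_const_mul, ← norm_sq_HH, integral_const, smul_eq_mul]
    refine mul_le_mul_of_nonneg_left (add_le_add ?_ (le_of_eq ?_)) hC10
    · exact mul_le_mul_of_nonneg_left h3 (by norm_num)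
    · have : (μHE[4] : Measure M).real univ = vol M := rfl
      rw [this]; ring
  have h6 : ‖p‖ ^ 2 ≤ Q := by
    refine (hG p).trans ?_
    rw [hQ]
    exact mul_le_mul_of_nonneg_left (add_le_add h5 h1) hC.le
  have h7 : ‖p‖ ≤ √Q := Real.le_sqrt_of_sq_le h6
  linarith

/-! ### the eigenbases -/

/-- a nonzero projection has a nonzero diagonal entry. -/
theorem sec_zero {κ : Type} [Fintype κ] (D : Dat 4 M κ) (h : ∀ a z, D.p a a z = 0)
    {u : κ → M → ℝ} (hu : D.Sec u) : u = 0 := by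
  have h1 : ∀ a b z, D.p a b z = 0 := by
    intro a b z
    have h2 := D.idem a a z
    rw [h a z] at h2
    have h3 : ∑ c, D.p a c z ^ 2 = 0 := by
      rw [← h2]
      exact Finset.sum_congr rfl fun c _ => by rw [sq, D.symmp c a z]
    have h4 := (Finset.sum_eq_zero_iff_of_nonneg fun c _ => sq_nonneg (D.p a c z)).1 h3 b
      (Finset.mem_univ b)
    exact pow_eq_zero_iff two_ne_zero |>.1 h4
  funext a z
  rw [← hu a z]
  simp only [h1, zero_mul, Finset.sum_const_zero]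
  rfl

theorem exists_p_ne {κ κ' : Type} [Fintype κ] [Fintype κ'] {D0 : Dat 4 M κ} {D1 : Dat 4 M κ'}
    (P : OpPair D0 D1) (S0 : Spec D0) : ∃ a z, D1.p a a z ≠ 0 := by
  by_contra hcon
  push Not at hcon
  have h1 : ∀ k, S0.μ k = 0 := by
    intro k
    have h2 : Green_649.al P (Green_649.ef S0 k) = 0 :=
      Green_649.ext_ss (sec_zero D1 hcon (Green_649.sse (Green_649.al P (Green_649.ef S0 k))))
    have h3 := Green_649.inner_al P S0 k (Green_649.ef S0 k)
    rw [Green_649.inner_ef, if_pos rfl, mul_one, h2, map_zero, inner_zero_left] at h3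
    exact h3.symm
  obtain ⟨k, hk⟩ := (S0.lim.eventually_ge_atTop 1).exists
  rw [h1 k] at hk
  linarith

theorem exists_p_ne_of_ker {κ κ' : Type} [Fintype κ] [Fintype κ'] {D0 : Dat 4 M κ}
    {A : (κ → M → ℝ) → κ' → M → ℝ} {N : ℕ} (K : KerD D0 A N) (hN : 0 < N) :
    ∃ a z, D0.p a a z ≠ 0 := by
  by_contra hcon
  push Not at hcon
  exact K.li.ne_zero ⟨0, hN⟩ (sec_zero D0 hcon (K.sec ⟨0, hN⟩))

/-- the Friedrichs property. -/
theorem fried4 : AD.Fried (gradS 4 M) := by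
  obtain ⟨k, hk, hRic⟩ := Crest.Agent.R249.Grn324.exists_ricciLowerBound 4 M
  exact fried_M (by norm_num) hk hRic

theorem spec4 {κ : Type} [Fintype κ] (D : Dat 4 M κ) (h : ∃ a z, D.p a a z ≠ 0) :
    Nonempty (Spec D) := by
  obtain ⟨k, hk, hRic⟩ := Crest.Agent.R249.Grn324.exists_ricciLowerBound 4 M
  obtain ⟨a, z, hz⟩ := h
  exact exists_spec (by norm_num) hk hRic D hz

theorem spec_DL {S : SWS M κ0 κ1 κT} (hS : S.OK) : Nonempty (Spec S.DL) := by
  obtain ⟨z⟩ := ‹Nonempty M›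
  exact spec4 S.DL ⟨0, z, by rw [hS.fullL, if_pos rfl]; norm_num⟩

end main

end Crest.Agent.R235.Swx_333

end
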