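import Crest.Agent.R235.L4_433
import Crest.Agent.R235.Swx4_333
import Crest.Agent.R235.SWJDefs_53

-- ▼ part R235/SWFreA_952
section

/-!
Row 235 (S0364), PACKAGE SW, leaf SW-FRE (helper952), part A: analysis on `L⁴`.

* `norm_le_quad` : `|g| ≤ K (∑ |v_a|)²` a.e. gives `‖g‖₂ ≤ K (#κ)² C² ‖v‖²` (`Emb4`);
* `B4 : WA →L W →L HH` : the product term `prT` as a continuous bilinear map;
* `quad_est` : pointwise Taylor estimate of `q ∘ trunc` at `|u0| ≤ R0 < R`;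
* `compact_fderiv` : the derivative of a compact map is compact;
* `exists_clh` : the derivative in `HH` from componentwise quadratic estimates.
-/

set_option autoImplicit false
set_option maxSynthPendingDepth 3
set_option linter.unusedSectionVars false

open scoped ContDiff ENNReal NNReal Topology Manifold Bundle RealInnerProductSpace
open MeasureTheory Set Filter Metric Bundle

noncomputable section

namespace Crest.Agent.R235.SWFre_952

open Crest.Agent.R249.Tv57 Crest.Agent.R235.CptB_755 Crest.Agent.R235.CptC_755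
open Crest.Agent.R235.Cpt_755 Crest.Agent.R235.L4_433

section abs

variable {X : Type*} [MeasurableSpace X] {μ : Measure X} {κ κ' α ν : Type} [Fintype κ] [Fintype κ']
  [Fintype α] [Fintype ν] {W WA : Type*} [NormedAddCommGroup W] [NormedSpace ℝ W]
  [NormedAddCommGroup WA] [NormedSpace ℝ WA]

/-- **the `L²` norm of a quadratic remainder**. -/
theorem norm_le_quad {j : W →L[ℝ] HH μ κ} {C : ℝ} (hC0 : 0 ≤ C)
    (hC : ∀ w a, MemLp ((j w) a : X → ℝ) 4 μ ∧ N4 μ ((j w) a) ≤ C * ‖w‖) {K : ℝ} (hK : 0 ≤ K)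
    (w : W) (g : Lp ℝ 2 μ)
    (h : ∀ᵐ x ∂μ, |(g : X → ℝ) x| ≤ K * (∑ a, |(j w a : X → ℝ) x|) ^ 2) :
    ‖g‖ ≤ K * ((Fintype.card κ : ℝ) ^ 2 * (C * ‖w‖) ^ 2) := by
  have h1 : ‖g‖ ≤ ‖K • ∑ a, ∑ b, |pr (j w a) (j w b)|‖ := by
    refine Lp.norm_le_norm_of_ae_le ?_
    have e1 : ∀ᵐ x ∂μ, ∀ a b, (|pr (j w a) (j w b)| : Lp ℝ 2 μ) x =
        |(j w a : X → ℝ) x| * |(j w b : X → ℝ) x| := by
      rw [ae_all_iff]
      intro a
      rw [ae_all_iff]
      intro b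
      filter_upwards [Lp.coeFn_abs (pr (j w a) (j w b)), coe_pr (hC w a).1 (hC w b).1] with x e1 e2
      rw [e1, e2, abs_mul]
    have e2 : ∀ᵐ x ∂μ, ∀ a, ((∑ b, |pr (j w a) (j w b)| : Lp ℝ 2 μ) : X → ℝ) x =
        ∑ b, (|pr (j w a) (j w b)| : Lp ℝ 2 μ) x := by
      rw [ae_all_iff]
      intro a
      exact Lp.coeFn_fun_finsetSum Finset.univ (fun b => |pr (j w a) (j w b)|)
    filter_upwards [h, e1, e2, Lp.coeFn_smul K (∑ a, ∑ b, |pr (j w a) (j w b)|),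
      Lp.coeFn_fun_finsetSum Finset.univ (fun a => ∑ b, |pr (j w a) (j w b)|)] with x f0 f1 f2 f3 f4
    rw [f3, Pi.smul_apply, smul_eq_mul, f4, Real.norm_eq_abs, Real.norm_eq_abs]
    refine f0.trans (le_trans (le_of_eq ?_) (le_abs_self _))
    congr 1
    rw [sq, Finset.sum_mul_sum]
    refine Finset.sum_congr rfl fun a _ => ?_
    rw [f2 a]
    exact Finset.sum_congr rfl fun b _ => (f1 a b).symm
  refine h1.trans ?_
  rw [norm_smul, Real.norm_eq_abs, abs_of_nonneg hK]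
  refine mul_le_mul_of_nonneg_left ?_ hK
  have h2 : ∀ a b, ‖(|pr (j w a) (j w b)| : Lp ℝ 2 μ)‖ ≤ (C * ‖w‖) ^ 2 := by
    intro a b
    rw [norm_abs_eq_norm, sq]
    refine (norm_pr_le (hC w a).1 (hC w b).1).trans ?_
    exact mul_le_mul (hC w a).2 (hC w b).2 (N4_nonneg _) (by positivity)
  calc ‖∑ a, ∑ b, (|pr (j w a) (j w b)| : Lp ℝ 2 μ)‖
      ≤ ∑ a, ∑ b, ‖(|pr (j w a) (j w b)| : Lp ℝ 2 μ)‖ :=
        (norm_sum_le _ _).trans (Finset.sum_le_sum fun a _ => norm_sum_le _ _)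
    _ ≤ ∑ _a : κ, ∑ _b : κ, (C * ‖w‖) ^ 2 :=
        Finset.sum_le_sum fun a _ => Finset.sum_le_sum fun b _ => h2 a b
    _ = (Fintype.card κ : ℝ) ^ 2 * (C * ‖w‖) ^ 2 := by
        simp only [Finset.sum_const, Finset.card_univ, nsmul_eq_mul]
        ring

/-- the norm of `HH` is bounded by the sum of the norms of the components. -/
theorem norm_HH_le (f : HH μ κ) : ‖f‖ ≤ ∑ a, ‖f a‖ := by
  rw [PiLp.norm_eq_of_L2]
  refine Real.sqrt_le_iff.2 ⟨Finset.sum_nonneg fun a _ => norm_nonneg _, ?_⟩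
  rw [sq (∑ a, ‖f a‖), Finset.sum_mul]
  refine Finset.sum_le_sum fun a _ => ?_
  rw [sq]
  exact mul_le_mul_of_nonneg_left (Finset.single_le_sum
    (f := fun a => ‖f a‖) (fun b _ => norm_nonneg _) (Finset.mem_univ a)) (norm_nonneg _)

/-- a component, as a continuous linear map. -/
def sgl [DecidableEq κ'] (l : κ') : Lp ℝ 2 μ →L[ℝ] HH μ κ' :=
  ((PiLp.continuousLinearEquiv 2 ℝ (fun _ : κ' => Lp ℝ 2 μ)).symm :
      (∀ _ : κ', Lp ℝ 2 μ) →L[ℝ] HH μ κ').comp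
    (ContinuousLinearMap.single ℝ (fun _ : κ' => Lp ℝ 2 μ) l)

theorem sgl_apply [DecidableEq κ'] (l l' : κ') (f : Lp ℝ 2 μ) :
    (sgl l f : HH μ κ') l' = if l' = l then f else 0 := by
  show (Pi.single l f : κ' → Lp ℝ 2 μ) l' = _
  rw [Pi.single_apply]

open Classical in
/-- **the product term as a continuous bilinear map**. -/
def B4 (c : κ' → α → κ → X → ℝ) (hc : ∀ l b y, BM μ (c l b y)) {jA : WA →L[ℝ] HH μ α}
    (hA : Emb4 jA) {j : W →L[ℝ] HH μ κ} (hj : Emb4 j) : WA →L[ℝ] W →L[ℝ] HH μ κ' :=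
  ∑ l, ∑ b, ∑ y, (ContinuousLinearMap.compL ℝ W (Lp ℝ 2 μ) (HH μ κ')
    ((sgl l).comp (mulF (hc l b y)))).comp ((p42 μ).bilinearComp (e4 hA b) (e4 hj y))

theorem pr_eq {jA : WA →L[ℝ] HH μ α} (hA : Emb4 jA) {j : W →L[ℝ] HH μ κ} (hj : Emb4 j) (a : WA)
    (u : W) (b : α) (y : κ) : pr (jA a b) (j u y) = p42 μ (e4 hA b a) (e4 hj y u) := by
  ext1
  filter_upwards [coe_pr (mem4 hA a b) (mem4 hj u y), coe_p42 (e4 hA b a) (e4 hj y u),
    coe_e4 hA b a, coe_e4 hj y u] with x e1 e2 e3 e4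
  rw [e1, e2, e3, e4]

theorem B4_apply (c : κ' → α → κ → X → ℝ) (hc : ∀ l b y, BM μ (c l b y)) {jA : WA →L[ℝ] HH μ α}
    (hA : Emb4 jA) {j : W →L[ℝ] HH μ κ} (hj : Emb4 j) (a : WA) (u : W) :
    B4 c hc hA hj a u = prT c hc (jA a) (j u) := by
  classical
  ext1 l
  show (B4 c hc hA hj a u) l = ∑ b, ∑ y, mulF (hc l b y) (pr (jA a b) (j u y))
  have h1 : B4 c hc hA hj a u = ∑ l, ∑ b, ∑ y,
      sgl l (mulF (hc l b y) (p42 μ (e4 hA b a) (e4 hj y u))) := by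
    unfold B4
    simp only [_root_.sum_apply, ContinuousLinearMap.comp_apply,
      ContinuousLinearMap.compL_apply, ContinuousLinearMap.bilinearComp_apply]
  rw [h1]
  simp only [WithLp.ofLp_sum, Finset.sum_apply, sgl_apply, pr_eq hA hj]
  rw [Finset.sum_comm]
  refine Finset.sum_congr rfl fun b _ => ?_
  rw [Finset.sum_comm]
  refine Finset.sum_congr rfl fun y _ => ?_
  rw [Finset.sum_ite_eq]
  simp

end abs

/-! ### the derivative of a compact map -/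

section cpt

variable {E F : Type*} [NormedAddCommGroup E] [NormedSpace ℝ E] [NormedAddCommGroup F]
  [NormedSpace ℝ F] [CompleteSpace F]

theorem compact_fderiv {f : E → F} {f' : E →L[ℝ] F} {x : E} (hf : HasFDerivAt f f' x)
    (hc : ∀ R : ℝ, ∃ C : Set F, IsCompact C ∧ ∀ w, ‖w‖ ≤ R → f w ∈ C) : IsCompactOperator f' := by
  have hb : TotallyBounded (f' '' closedBall 0 1) := by
    rw [Metric.totallyBounded_iff]
    intro ε hε
    have h1 := hf.isLittleO.def (show (0 : ℝ) < ε / 4 by positivity)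
    obtain ⟨δ, hδ, h2⟩ := Metric.eventually_nhds_iff.1 h1
    obtain ⟨C, hC, hCf⟩ := hc (‖x‖ + δ)
    set s : ℝ := δ / 2 with hs
    have hs0 : 0 < s := by positivity
    -- the difference quotients lie in a compact set
    have hcomp : IsCompact ((fun y => s⁻¹ • (y - f x)) '' C) :=
      hC.image ((continuous_id.sub continuous_const).const_smul _)
    obtain ⟨T, hT, hcov⟩ := Metric.totallyBounded_iff.1 hcomp.totallyBounded (ε / 2) (by positivity)
    refine ⟨T, hT, ?_⟩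
    rintro _ ⟨v, hv, rfl⟩
    have hv1 : ‖v‖ ≤ 1 := by simpa using hv
    have h3 : ‖s • v‖ ≤ s := by
      rw [norm_smul, Real.norm_of_nonneg hs0.le]
      exact mul_le_of_le_one_right hs0.le hv1
    have h4 : f (x + s • v) ∈ C := by
      refine hCf _ ((norm_add_le _ _).trans ?_)
      have : s ≤ δ := by linarith
      linarith
    have h5 : dist (x + s • v) x < δ := by
      rw [dist_eq_norm, add_sub_cancel_left]
      linarith
    have h6 := h2 h5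
    rw [add_sub_cancel_left, map_smul] at h6
    have h7 : ‖s⁻¹ • (f (x + s • v) - f x) - f' v‖ ≤ ε / 4 := by
      have e : s⁻¹ • (f (x + s • v) - f x) - f' v =
          s⁻¹ • (f (x + s • v) - f x - s • f' v) := by
        rw [smul_sub s⁻¹ (f (x + s • v) - f x), smul_smul, inv_mul_cancel₀ hs0.ne', one_smul]
      rw [e, norm_smul, Real.norm_of_nonneg (by positivity)]
      calc s⁻¹ * ‖f (x + s • v) - f x - s • f' v‖ ≤ s⁻¹ * (ε / 4 * s) := by
            refine mul_le_mul_of_nonneg_left (h6.trans ?_) (by positivity)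
            exact mul_le_mul_of_nonneg_left h3 (by positivity)
        _ = ε / 4 := by field_simp
    have h8 : s⁻¹ • (f (x + s • v) - f x) ∈ ⋃ y ∈ T, ball y (ε / 2) := hcov ⟨_, h4, rfl⟩
    simp only [mem_iUnion, mem_ball] at h8 ⊢
    obtain ⟨y, hy, hd⟩ := h8
    refine ⟨y, hy, ?_⟩
    calc dist (f' v) y ≤ dist (f' v) (s⁻¹ • (f (x + s • v) - f x)) +
          dist (s⁻¹ • (f (x + s • v) - f x)) y := dist_triangle _ _ _
      _ < ε := by
        rw [dist_comm, dist_eq_norm]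
        linarith
  have hcl : IsCompact (closure (f' '' closedBall 0 1)) :=
    hb.closure.isCompact_of_isClosed isClosed_closure
  refine ⟨closure (f' '' closedBall 0 1), hcl, ?_⟩
  exact mem_of_superset (closedBall_mem_nhds (0 : E) one_pos) fun v hv =>
    subset_closure ⟨v, hv, rfl⟩

end cpt

/-! ### the pointwise estimate -/

section quad

open Crest.Agent.R235.Swx_333

variable {κ : Type} [Fintype κ]

theorem quad_abs {C : ℝ} (c : κ → κ → ℝ) (hC : ∀ y y', |c y y'| ≤ C)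
    (v w : κ → ℝ) : |∑ y, ∑ y', c y y' * v y * w y'| ≤ C * ((∑ a, |v a|) * ∑ a, |w a|) := by
  refine (Finset.abs_sum_le_sum_abs _ _).trans ?_
  rw [Finset.sum_mul_sum, Finset.mul_sum]
  refine Finset.sum_le_sum fun y _ => (Finset.abs_sum_le_sum_abs _ _).trans ?_
  rw [Finset.mul_sum]
  refine Finset.sum_le_sum fun y' _ => ?_
  rw [abs_mul, abs_mul, mul_assoc]
  exact mul_le_mul_of_nonneg_right (hC y y') (by positivity)

/-- **pointwise Taylor estimate**. -/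
theorem quad_est {C R R0 : ℝ} (hC0 : 0 ≤ C) (hR0 : 0 ≤ R0) (hR : R0 < R) (c : κ → κ → ℝ)
    (hC : ∀ y y', |c y y'| ≤ C) (hsym : ∀ y y', c y y' = c y' y) (u0 u : κ → ℝ)
    (hu0 : ∑ y, u0 y ^ 2 ≤ R0 ^ 2) :
    |(1 / 2) * (∑ y, ∑ y', c y y' * tv R u y * tv R u y') -
        (1 / 2) * (∑ y, ∑ y', c y y' * tv R u0 y * tv R u0 y') -
        ∑ y, ∑ y', c y y' * u0 y * (u y' - u0 y')| ≤
      (C + (Fintype.card κ : ℝ) * ((Fintype.card κ : ℝ) * (C * (4 * R)) + C * R0) / (R - R0)) *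
        (∑ a, |u a - u0 a|) ^ 2 := by
  have hRp : 0 < R := lt_of_le_of_lt hR0 hR
  have hδ : 0 < R - R0 := by linarith
  set N : ℝ := (Fintype.card κ : ℝ) with hN
  have hN0 : 0 ≤ N := by positivity
  set s := ∑ a, |u a - u0 a| with hs
  have hs0 : 0 ≤ s := Finset.sum_nonneg fun a _ => abs_nonneg _
  have hu0R : ∑ y, u0 y ^ 2 ≤ R ^ 2 := hu0.trans (by nlinarith)
  have ht0 : tv R u0 = u0 := tv_eq hRp u0 hu0R
  by_cases hu : ∑ y, u y ^ 2 ≤ R ^ 2
  · have ht : tv R u = u := tv_eq hRp u hu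
    rw [ht, ht0]
    have e : (1 / 2) * (∑ y, ∑ y', c y y' * u y * u y') -
        (1 / 2) * (∑ y, ∑ y', c y y' * u0 y * u0 y') -
        ∑ y, ∑ y', c y y' * u0 y * (u y' - u0 y') =
        (1 / 2) * ∑ y, ∑ y', c y y' * (u y - u0 y) * (u y' - u0 y') := by
      have e1 : ∑ y, ∑ y', c y y' * u0 y * u y' = ∑ y, ∑ y', c y y' * u y * u0 y' := by
        rw [Finset.sum_comm]
        refine Finset.sum_congr rfl fun y _ => Finset.sum_congr rfl fun y' _ => ?_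
        rw [hsym y' y]
        ring
      have e2 : ∑ y, ∑ y', c y y' * u0 y * (u y' - u0 y') =
          ∑ y, ∑ y', c y y' * u0 y * u y' - ∑ y, ∑ y', c y y' * u0 y * u0 y' := by
        rw [← Finset.sum_sub_distrib]
        refine Finset.sum_congr rfl fun y _ => ?_
        rw [← Finset.sum_sub_distrib]
        exact Finset.sum_congr rfl fun y' _ => by ring
      have e3 : ∑ y, ∑ y', c y y' * (u y - u0 y) * (u y' - u0 y') =
          ∑ y, ∑ y', c y y' * u y * u y' - ∑ y, ∑ y', c y y' * u y * u0 y' -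
          ∑ y, ∑ y', c y y' * u0 y * u y' + ∑ y, ∑ y', c y y' * u0 y * u0 y' := by
        rw [← Finset.sum_sub_distrib, ← Finset.sum_sub_distrib, ← Finset.sum_add_distrib]
        refine Finset.sum_congr rfl fun y _ => ?_
        rw [← Finset.sum_sub_distrib, ← Finset.sum_sub_distrib, ← Finset.sum_add_distrib]
        exact Finset.sum_congr rfl fun y' _ => by ring
      rw [e2, e3, e1]
      ring
    rw [e, abs_mul, abs_of_nonneg (by norm_num : (0:ℝ) ≤ 1 / 2)]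
    have h1 := quad_abs c hC (fun y => u y - u0 y) (fun y => u y - u0 y)
    have h2 : (0:ℝ) ≤ N * (N * (C * (4 * R)) + C * R0) / (R - R0) := by positivity
    calc (1 / 2) * |∑ y, ∑ y', c y y' * (u y - u0 y) * (u y' - u0 y')| ≤ 1 * (C * (s * s)) := by
          refine mul_le_mul (by norm_num) h1 (abs_nonneg _) (by norm_num)
      _ ≤ (C + N * (N * (C * (4 * R)) + C * R0) / (R - R0)) * s ^ 2 := by
          rw [add_mul, one_mul, ← sq]
          have := mul_nonneg h2 (sq_nonneg s)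
          linarith
  · -- large `u`
    push Not at hu
    have h1 := quad_lip hRp hC0 c hC u u0
    have h2 := quad_abs c hC u0 (fun y => u y - u0 y)
    have h3 : ∑ a, |u0 a| ≤ N * R0 := by
      have h4 : ∀ a ∈ (Finset.univ : Finset κ), |u0 a| ≤ R0 := by
        intro a _
        refine abs_le_of_sq_le_sq ?_ hR0
        exact (Finset.single_le_sum (f := fun y => u0 y ^ 2) (fun i _ => sq_nonneg _)
          (Finset.mem_univ a)).trans hu0
      refine (Finset.sum_le_card_nsmul _ _ _ h4).trans (le_of_eq ?_)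
      rw [Finset.card_univ, nsmul_eq_mul]
    have h5 : R - R0 ≤ s := by
      have e1 : R ≤ ‖(WithLp.toLp 2 u : EuclideanSpace ℝ κ)‖ := by
        rw [norm_toLp]
        exact Real.le_sqrt_of_sq_le hu.le
      have e2 : ‖(WithLp.toLp 2 u0 : EuclideanSpace ℝ κ)‖ ≤ R0 := by
        rw [norm_toLp]
        exact Real.sqrt_le_iff.2 ⟨hR0, hu0⟩
      have e3 := norm_sub_norm_le (WithLp.toLp 2 u : EuclideanSpace ℝ κ) (WithLp.toLp 2 u0)
      have e4 := toLp_le_sum (u - u0)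
      have e5 : (WithLp.toLp 2 (u - u0) : EuclideanSpace ℝ κ) =
        WithLp.toLp 2 u - WithLp.toLp 2 u0 := rfl
      rw [e5] at e4
      have e6 : ∑ y, |(u - u0) y| = s := rfl
      rw [e6] at e4
      linarith
    rw [← hN] at h1
    set q1 := ∑ y, ∑ y', c y y' * tv R u y * tv R u y'
    set q2 := ∑ y, ∑ y', c y y' * tv R u0 y * tv R u0 y'
    set q3 := ∑ y, ∑ y', c y y' * u0 y * (u y' - u0 y')
    have h6 : |(1 / 2) * q1 - (1 / 2) * q2 - q3| ≤
        N * (N * (C * (4 * R)) + C * R0) * s := by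
      have e1 : (1 / 2) * q1 - (1 / 2) * q2 - q3 = (1 / 2) * (q1 - q2) - q3 := by ring
      rw [e1]
      refine (abs_sub _ _).trans ?_
      rw [abs_mul, abs_of_nonneg (by norm_num : (0:ℝ) ≤ 1 / 2)]
      have e2 : |q3| ≤ C * (N * R0 * s) := by
        refine h2.trans (mul_le_mul_of_nonneg_left ?_ hC0)
        exact mul_le_mul_of_nonneg_right h3 hs0
      have e3 : (1 / 2) * |q1 - q2| ≤ 1 * (N * (N * (C * (4 * R) * s))) :=
        mul_le_mul (by norm_num) h1 (abs_nonneg _) (by norm_num)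
      calc _ ≤ 1 * (N * (N * (C * (4 * R) * s))) + C * (N * R0 * s) := add_le_add e3 e2
        _ = _ := by ring
    refine h6.trans ?_
    have h7 : (0:ℝ) ≤ N * (N * (C * (4 * R)) + C * R0) := by positivity
    calc N * (N * (C * (4 * R)) + C * R0) * s
        ≤ N * (N * (C * (4 * R)) + C * R0) / (R - R0) * s ^ 2 := by
          rw [div_mul_eq_mul_div, le_div_iff₀ hδ, mul_assoc]
          refine mul_le_mul_of_nonneg_left ?_ h7
          rw [sq]
          exact mul_le_mul_of_nonneg_left h5 hs0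
      _ ≤ _ := by
          rw [add_mul]
          have := mul_nonneg hC0 (sq_nonneg s)
          linarith

end quad

end Crest.Agent.R235.SWFre_952

end
end

-- ▼ part R235/SWFreB_952
section

/-!
Row 235 (S0364), PACKAGE SW, leaf SW-FRE (helper952), part B: **the Fréchet derivative of the nonlinear
part at a smooth section `u0` with `|u0| ≤ R0 < R`**.

* `linq S d t u0 v` : `(0, μ_t ∑ ρ_k u0 v)`;
* `dFq`, `coe_dFq`, `hasFDerivAt_Fq` : the curvature term;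
* `dKH`, `coe_dKH`, `hasFDerivAt_KKt` : the product term, values in `HH`;
* `dKK`, `coe_dKK`, `hasFDerivAt_KK` : the same, values in `L²(D1)`;
* `compact_dKK`, `compact_dFq`.
-/

set_option autoImplicit false
set_option maxSynthPendingDepth 3
set_option linter.unusedSectionVars false

open scoped ContDiff ENNReal NNReal Topology Manifold Bundle RealInnerProductSpace
open MeasureTheory Set Filter Metric Bundle

universe v

noncomputable section

namespace Crest.Agent.R235.SWFre_952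

open Crest.Agent.R249.Tv57 Crest.Agent.R247.Ms322 Crest.Agent.R247.Dir593
open Crest.Agent.R235.SWDefs_53 Crest.Agent.R235.CptB_755 Crest.Agent.R235.Fs4_546
open Crest.Agent.R235.CptC_755 Crest.Agent.R235.Cpt_755 Crest.Agent.R235.Fred_649
open Crest.Agent.R235.Swx_333 Crest.Agent.R235.L4_433

local notation "ipp" => Crest.Agent.R249.Tv57.ip 4

theorem hasFDerivAt_of_quad {E F : Type*} [NormedAddCommGroup E] [NormedSpace ℝ E]
    [NormedAddCommGroup F] [NormedSpace ℝ F] {f : E → F} {f' : E →L[ℝ] F} {x : E} {K : ℝ}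
    (h : ∀ y, ‖f y - f x - f' (y - x)‖ ≤ K * ‖y - x‖ ^ 2) : HasFDerivAt f f' x := by
  rw [hasFDerivAt_iff_isLittleO]
  rw [Asymptotics.isLittleO_iff]
  intro c hc
  have hpos : 0 < c / (|K| + 1) := by positivity
  filter_upwards [ball_mem_nhds x hpos] with y hy
  rw [mem_ball, dist_eq_norm] at hy
  refine (h y).trans ?_
  have h1 : K * ‖y - x‖ ≤ c := by
    calc K * ‖y - x‖ ≤ |K| * ‖y - x‖ := mul_le_mul_of_nonneg_right (le_abs_self K) (norm_nonneg _)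
      _ ≤ (|K| + 1) * (c / (|K| + 1)) :=
          mul_le_mul (by linarith) hy.le (norm_nonneg _) (by positivity)
      _ = c := by field_simp
  calc K * ‖y - x‖ ^ 2 = (K * ‖y - x‖) * ‖y - x‖ := by ring
    _ ≤ c * ‖y - x‖ := mul_le_mul_of_nonneg_right h1 (norm_nonneg _)

section main

variable {M : Type v} [MetricSpace M] [CompactSpace M] [ConnectedSpace M]
  [ChartedSpace (EuclideanSpace ℝ (Fin 4)) M] [IsManifold (𝓡 4) ∞ M]
  [RiemannianBundle (fun p : M => TangentSpace (𝓡 4) p)]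
  [IsContMDiffRiemannianBundle (𝓡 4) ∞ (EuclideanSpace ℝ (Fin 4))
    (fun p : M => TangentSpace (𝓡 4) p)]
  [IsRiemannianManifold (𝓡 4) M] [MeasurableSpace M] [BorelSpace M]
  [SecondCountableTopology M] [Nonempty M] [IsFiniteMeasureOnCompacts (μHE[4] : Measure M)]
  {κ0 κ1 κT : Type} [Fintype κ0] [Fintype κ1] [Fintype κT]

theorem bm_cont {f : M → ℝ} (hf : Continuous f) : BM (μHE[4] : Measure M) f := by
  obtain ⟨C, hC⟩ := isCompact_univ.exists_bound_of_continuousOn hf.continuousOn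
  exact ⟨hf.aestronglyMeasurable, max C 0, le_max_right _ _,
    Eventually.of_forall fun x => (hC x (mem_univ x)).trans (le_max_left _ _)⟩

/-- `(0, μ_t ∑ ρ_k u v)`. -/
def linq (S : SWS M κ0 κ1 κT) (d : SWD M κT) (t : E3) (u v : κ0 → M → ℝ) : Fin 4 → M → ℝ :=
  Fin.cons (fun _ => 0) fun k z =>
    d.mu t z * ∑ y, ∑ y', S.rho k y y' z * u y z * v y' z

/-- the matrix of `linq`. -/
def mq (S : SWS M κ0 κ1 κT) (d : SWD M κT) (t : E3) (u : κ0 → M → ℝ) : Fin 4 → κ0 → M → ℝ :=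
  Fin.cons (fun _ _ => 0) fun k y' z => d.mu t z * ∑ y, S.rho k y y' z * u y z

theorem mq_cont {S : SWS M κ0 κ1 κT} {d : SWD M κT} (hS : S.OK) (hd : d.Adm S) {t : E3}
    (ht : t ∈ BB) {u : κ0 → M → ℝ} (hu : SmV (n := 4) u) (l : Fin 4) (y : κ0) :
    Continuous (mq S d t u l y) := by
  refine Fin.cases ?_ (fun k => ?_) l
  · exact continuous_const
  · have h1 : Continuous fun z => d.mu t z := slice_cont hd.cmu ht
    have h2 : Continuous fun z => ∑ y', S.rho k y' y z * u y' z :=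
      continuous_finsetSum _ fun y' _ => (hS.smrho k y' y).continuous.mul (hu y').continuous
    exact h1.mul h2

/-- **the derivative of the curvature term**. -/
def dFq {S : SWS M κ0 κ1 κT} {d : SWD M κT} (hS : S.OK) (hd : d.Adm S) {t : E3} (ht : t ∈ BB)
    (u : SmS S.D0) : S.D0.toAD.WE →L[ℝ] HH (μHE[4] : Measure M) (Fin 4) :=
  (matR fun l y => bm_cont (mq_cont hS hd ht u.2.1 l y)).comp S.D0.toAD.i1

theorem mq_sum (S : SWS M κ0 κ1 κT) (d : SWD M κT) (t : E3) (u v : κ0 → M → ℝ) (l : Fin 4)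
    (z : M) : ∑ y', v y' z * mq S d t u l y' z = linq S d t u v l z := by
  refine Fin.cases ?_ (fun k => ?_) l
  · simp [mq, linq]
  · show ∑ y', v y' z * (d.mu t z * ∑ y, S.rho k y y' z * u y z) =
      d.mu t z * ∑ y, ∑ y', S.rho k y y' z * u y z * v y' z
    simp only [Finset.mul_sum]
    rw [Finset.sum_comm]
    exact Finset.sum_congr rfl fun y _ => Finset.sum_congr rfl fun y' _ => by ring

theorem coe_dFq {S : SWS M κ0 κ1 κT} {d : SWD M κT} (hS : S.OK) (hd : d.Adm S) {t : E3}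
    (ht : t ∈ BB) (u : SmS S.D0) (v : S.D0.toAD.WE) :
    ∀ᵐ z ∂(μHE[4] : Measure M), ∀ l, (dFq hS hd ht u v l : M → ℝ) z =
      linq S d t u.1 (rp v) l z := by
  filter_upwards [coe_matR (fun l y => bm_cont (mq_cont hS hd ht u.2.1 l y))
    (S.D0.toAD.i1 v)] with z e1 l
  rw [← mq_sum]
  exact e1 l

theorem rp_cW {κ : Type} [Fintype κ] {D : Dat 4 M κ} (u : SmS D) :
    ∀ᵐ z ∂(μHE[4] : Measure M), ∀ a, rp (cW D u) a z = u.1 a z := coe_clH u.1 u.2.1

theorem rp_sub {κ : Type} [Fintype κ] {D : Dat 4 M κ} (u v : D.toAD.WE) :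
    ∀ᵐ z ∂(μHE[4] : Measure M), ∀ a, rp (u - v) a z = rp u a z - rp v a z := by
  rw [ae_all_iff]
  intro a
  have h : D.toAD.i1 (u - v) a = D.toAD.i1 u a - D.toAD.i1 v a := by
    rw [map_sub]; rfl
  unfold rp
  rw [h]
  exact Lp.coeFn_sub _ _

set_option maxHeartbeats 1600000 in
/-- **the curvature term is Fréchet differentiable**. -/
theorem fq_quad {S : SWS M κ0 κ1 κT} {d : SWD M κT} (hS : S.OK) (hd : d.Adm S)
    (h4 : Emb4 S.D0.toAD.i1) {R R0 : ℝ} (hR0 : 0 ≤ R0) (hR : R0 < R) {t : E3} (ht : t ∈ BB)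
    (u : SmS S.D0) (hu : ∀ z, ∑ y, u.1 y z ^ 2 ≤ R0 ^ 2) :
    ∃ K : ℝ, ∀ p : S.D0.toAD.WE, ‖Fq d R t p - Fq d R t (cW S.D0 u) -
      dFq hS hd ht u (p - cW S.D0 u)‖ ≤ K * ‖p - cW S.D0 u‖ ^ 2 := by
  have hfin := finM (M := M)
  have hRp : 0 < R := lt_of_le_of_lt hR0 hR
  obtain ⟨C, hC0, hC⟩ := h4
  obtain ⟨Cm, hCm0, hCm⟩ := unif_bdd hd.cmu
  obtain ⟨Cr, hCr0, hCr⟩ := rho_bdd hS
  set N : ℝ := (Fintype.card κ0 : ℝ) with hN
  have hδ : 0 < R - R0 := by linarith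
  set Kq : ℝ := Cr + N * (N * (Cr * (4 * R)) + Cr * R0) / (R - R0) with hKq
  have hKq0 : 0 ≤ Kq := by positivity
  set p0 := cW S.D0 u with hp0
  refine ⟨4 * ((Cm * Kq) * (N ^ 2 * C ^ 2)), fun p => ?_⟩
  set g : HH (μHE[4] : Measure M) (Fin 4) :=
    Fq d R t p - Fq d R t p0 - dFq hS hd ht u (p - p0) with hg
  have hpt : ∀ l, ∀ᵐ z ∂(μHE[4] : Measure M), |(g l : M → ℝ) z| ≤
      (Cm * Kq) * (∑ a, |(S.D0.toAD.i1 (p - p0) a : M → ℝ) z|) ^ 2 := by
    intro l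
    have e0 : g l = (Fq d R t p l - Fq d R t p0 l) - dFq hS hd ht u (p - p0) l := rfl
    filter_upwards [coe_nem (nemOK hS hd hRp (μHE[4] : Measure M)) ht (S.D0.toAD.i1 p),
      coe_nem (nemOK hS hd hRp (μHE[4] : Measure M)) ht (S.D0.toAD.i1 p0),
      coe_dFq hS hd ht u (p - p0), rp_cW (D := S.D0) u, rp_sub p p0,
      Lp.coeFn_sub (Fq d R t p l - Fq d R t p0 l) (dFq hS hd ht u (p - p0) l),
      Lp.coeFn_sub (Fq d R t p l) (Fq d R t p0 l)] with z e1 e2 e3 e4 e5 e6 e7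
    rw [e0, e6, Pi.sub_apply, e7, Pi.sub_apply, e3 l]
    have f1 : (Fq d R t p l : M → ℝ) z = Qf S d R t z (fun a => rp p a z) l := e1 l
    have f2 : (Fq d R t p0 l : M → ℝ) z = Qf S d R t z (fun a => u.1 a z) l := by
      have h1 : (Fq d R t p0 l : M → ℝ) z = Qf S d R t z (fun a => rp p0 a z) l := e2 l
      rw [h1]
      have h2 : (fun a => rp p0 a z) = fun a => u.1 a z := funext e4
      rw [h2]
    have f3 : ∀ a, (S.D0.toAD.i1 (p - p0) a : M → ℝ) z = rp p a z - u.1 a z := by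
      intro a
      have h1 : (S.D0.toAD.i1 (p - p0) a : M → ℝ) z = rp p a z - rp p0 a z := e5 a
      rw [h1, e4 a]
    have f4 : ∀ a, rp (p - p0) a z = rp p a z - u.1 a z := f3
    rw [f1, f2]
    simp only [f3]
    refine Fin.cases ?_ (fun k => ?_) l
    · have h1 : linq S d t u.1 (rp (p - p0)) 0 z = 0 := rfl
      rw [Qf_zero, Qf_zero, h1, sub_self, sub_self, abs_zero]
      positivity
    · have h1 : linq S d t u.1 (rp (p - p0)) k.succ z =
          d.mu t z * ∑ y, ∑ y', S.rho k y y' z * u.1 y z * rp (p - p0) y' z := rfl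
      rw [Qf_succ, Qf_succ, h1]
      simp only [f4]
      have h2 := quad_est hCr0 hR0 hR (fun y y' => S.rho k y y' z) (fun y y' => hCr k y y' z)
        (fun y y' => hS.symrho k y y' z) (fun a => u.1 a z) (fun a => rp p a z) (hu z)
      set q1 := ∑ y, ∑ y', S.rho k y y' z * tv R (fun a => rp p a z) y *
        tv R (fun a => rp p a z) y'
      set q2 := ∑ y, ∑ y', S.rho k y y' z * tv R (fun a => u.1 a z) y *
        tv R (fun a => u.1 a z) y'
      set q3 := ∑ y, ∑ y', S.rho k y y' z * u.1 y z * (rp p y' z - u.1 y' z)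
      have e : d.mu t z * (1 / 2 * q1) + d.r * d.wt t k z + d.et t k z -
          (d.mu t z * (1 / 2 * q2) + d.r * d.wt t k z + d.et t k z) - d.mu t z * q3 =
          d.mu t z * (1 / 2 * q1 - 1 / 2 * q2 - q3) := by ring
      rw [e, abs_mul]
      have h3 := hCm t ht z
      calc |d.mu t z| * |1 / 2 * q1 - 1 / 2 * q2 - q3| ≤
          Cm * (Kq * (∑ a, |rp p a z - u.1 a z|) ^ 2) :=
            mul_le_mul h3 h2 (abs_nonneg _) hCm0
        _ = _ := by ring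
  have hK0 : 0 ≤ Cm * Kq := by positivity
  have h5 : ∀ l, ‖g l‖ ≤ (Cm * Kq) * (N ^ 2 * (C * ‖p - p0‖) ^ 2) := fun l =>
    norm_le_quad hC0 hC hK0 (p - p0) (g l) (hpt l)
  refine (norm_HH_le g).trans ((Finset.sum_le_sum fun l _ => h5 l).trans (le_of_eq ?_))
  rw [Finset.sum_const, Finset.card_univ, Fintype.card_fin, nsmul_eq_mul]
  push_cast
  ring

/-- **(1)** -/
theorem hasFDerivAt_Fq {S : SWS M κ0 κ1 κT} {d : SWD M κT} (hS : S.OK) (hd : d.Adm S)
    (h4 : Emb4 S.D0.toAD.i1) {R R0 : ℝ} (hR0 : 0 ≤ R0) (hR : R0 < R) {t : E3} (ht : t ∈ BB)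
    (u : SmS S.D0) (hu : ∀ z, ∑ y, u.1 y z ^ 2 ≤ R0 ^ 2) :
    HasFDerivAt (Fq d R t) (dFq hS hd ht u) (cW S.D0 u) := by
  obtain ⟨K, hK⟩ := fq_quad hS hd h4 hR0 hR ht u hu
  exact hasFDerivAt_of_quad hK

/-! ### the product term -/

/-- **the derivative of the product term**, values in `HH`. -/
def dKH {S : SWS M κ0 κ1 κT} {d : SWD M κT} (hS : S.OK) (hd : d.Adm S) (s0 : Spec S.DL)
    (h4 : Emb4 S.D0.toAD.i1) (hT4 : Emb4 S.DT.toAD.i1) (R : ℝ) {t : E3} (ht : t ∈ BB)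
    (u : SmS S.D0) : S.D0.toAD.WE →L[ℝ] HH (μHE[4] : Measure M) κ1 :=
  (matR (bm_mth hS hd t)).comp S.D0.toAD.i1 +
    (B4 (cc S) (bm_cc hS) hT4 h4 (GG1 S s0 (Fq d R t (cW S.D0 u))) +
      ((B4 (cc S) (bm_cc hS) hT4 h4).flip (cW S.D0 u)).comp
        ((GG1 S s0).comp (dFq hS hd ht u)))

theorem KKt_eq {S : SWS M κ0 κ1 κT} {d : SWD M κT} (hS : S.OK) (hd : d.Adm S) (s0 : Spec S.DL)
    (h4 : Emb4 S.D0.toAD.i1) (hT4 : Emb4 S.DT.toAD.i1) (R : ℝ) (t : E3) (p : S.D0.toAD.WE) :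
    KKt hS hd s0 R t p = (matR (bm_mth hS hd t)).comp S.D0.toAD.i1 p +
      B4 (cc S) (bm_cc hS) hT4 h4 (GG1 S s0 (Fq d R t p)) p := by
  rw [B4_apply]
  rfl

theorem hasFDerivAt_KKt {S : SWS M κ0 κ1 κT} {d : SWD M κT} (hS : S.OK) (hd : d.Adm S)
    (s0 : Spec S.DL) (h4 : Emb4 S.D0.toAD.i1) (hT4 : Emb4 S.DT.toAD.i1) {R R0 : ℝ}
    (hR0 : 0 ≤ R0) (hR : R0 < R) {t : E3} (ht : t ∈ BB)
    (u : SmS S.D0) (hu : ∀ z, ∑ y, u.1 y z ^ 2 ≤ R0 ^ 2) :
    HasFDerivAt (KKt hS hd s0 R t) (dKH hS hd s0 h4 hT4 R ht u) (cW S.D0 u) := by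
  have h1 : HasFDerivAt (fun p => GG1 S s0 (Fq d R t p)) ((GG1 S s0).comp (dFq hS hd ht u))
      (cW S.D0 u) :=
    (GG1 S s0).hasFDerivAt.comp _ (hasFDerivAt_Fq hS hd h4 hR0 hR ht u hu)
  have h2 := ContinuousLinearMap.hasFDerivAt_of_bilinear (B4 (cc S) (bm_cc hS) hT4 h4) h1
    (hasFDerivAt_id (cW S.D0 u))
  have h3 := ((matR (bm_mth hS hd t)).comp S.D0.toAD.i1).hasFDerivAt (x := cW S.D0 u)
  have h5 := h3.add h2
  refine (h5.congr_fderiv ?_).congr_of_eventuallyEq (Eventually.of_forall fun p => ?_)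
  · ext1 v
    rfl
  · exact KKt_eq hS hd s0 h4 hT4 R t p

theorem coe_add3 {κ : Type} [Fintype κ] (A B C : HH (μHE[4] : Measure M) κ) :
    ∀ᵐ z ∂(μHE[4] : Measure M), ∀ x, ((A + (B + C)) x : M → ℝ) z =
      (A x : M → ℝ) z + ((B x : M → ℝ) z + (C x : M → ℝ) z) := by
  rw [ae_all_iff]
  intro x
  have h : (A + (B + C)) x = A x + (B x + C x) := rfl
  rw [h]
  filter_upwards [Lp.coeFn_add (A x) (B x + C x), Lp.coeFn_add (B x) (C x)] with z f1 f2
  rw [f1, Pi.add_apply, f2, Pi.add_apply]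

theorem cm_split (S : SWS M κ0 κ1 κT) (d : SWD M κT) (t : E3) (a a1 : κT → M → ℝ)
    (u v : κ0 → M → ℝ) (x : κ1) (z : M) :
    ∑ y, v y z * mth S d t x y z + (∑ A, ∑ y, a A z * v y z * cc S x A y z +
      ∑ A, ∑ y, a1 A z * u y z * cc S x A y z) = S.cm (a + d.th t) v x z + S.cm a1 u x z := by
  unfold SWS.cm mth cc
  simp only [Pi.add_apply, add_mul, Finset.sum_add_distrib]
  have g1 : ∑ y, v y z * ∑ A, d.th t A z * S.cl A x y z =
      ∑ A, ∑ y, d.th t A z * v y z * S.cl A x y z := by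
    simp only [Finset.mul_sum]
    rw [Finset.sum_comm]
    exact Finset.sum_congr rfl fun A _ => Finset.sum_congr rfl fun y _ => by ring
  rw [g1]
  ring

/-- **the coordinates of the derivative**. -/
theorem coe_dKH {S : SWS M κ0 κ1 κT} {d : SWD M κT} (hS : S.OK) (hd : d.Adm S) (s0 : Spec S.DL)
    (h4 : Emb4 S.D0.toAD.i1) (hT4 : Emb4 S.DT.toAD.i1) (R : ℝ) {t : E3} (ht : t ∈ BB)
    (u : SmS S.D0) (v : S.D0.toAD.WE) :
    ∀ᵐ z ∂(μHE[4] : Measure M), ∀ x, (dKH hS hd s0 h4 hT4 R ht u v x : M → ℝ) z =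
      S.cm (rp (GG1 S s0 (Fq d R t (cW S.D0 u))) + d.th t) (rp v) x z +
        S.cm (rp (GG1 S s0 (dFq hS hd ht u v))) u.1 x z := by
  set a0 := GG1 S s0 (Fq d R t (cW S.D0 u)) with ha0
  set a1 := GG1 S s0 (dFq hS hd ht u v) with ha1
  have e0 : dKH hS hd s0 h4 hT4 R ht u v = matR (bm_mth hS hd t) (S.D0.toAD.i1 v) +
      (prT (cc S) (bm_cc hS) (S.DT.toAD.i1 a0) (S.D0.toAD.i1 v) +
        prT (cc S) (bm_cc hS) (S.DT.toAD.i1 a1) (S.D0.toAD.i1 (cW S.D0 u))) := by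
    rw [← B4_apply (cc S) (bm_cc hS) hT4 h4, ← B4_apply (cc S) (bm_cc hS) hT4 h4]
    rfl
  have e1 := coe_prT (cc S) (bm_cc hS) (S.DT.toAD.i1 a0) (S.D0.toAD.i1 v)
    (fun b => mem4 hT4 a0 b) (fun y => mem4 h4 v y)
  have e2 := coe_prT (cc S) (bm_cc hS) (S.DT.toAD.i1 a1) (S.D0.toAD.i1 (cW S.D0 u))
    (fun b => mem4 hT4 a1 b) (fun y => mem4 h4 (cW S.D0 u) y)
  have e3 := coe_matR (bm_mth hS hd t) (S.D0.toAD.i1 v)
  rw [e0]
  have e4 := coe_add3 (matR (bm_mth hS hd t) (S.D0.toAD.i1 v))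
    (prT (cc S) (bm_cc hS) (S.DT.toAD.i1 a0) (S.D0.toAD.i1 v))
    (prT (cc S) (bm_cc hS) (S.DT.toAD.i1 a1) (S.D0.toAD.i1 (cW S.D0 u)))
  filter_upwards [e1, e2, e3, e4, rp_cW (D := S.D0) u] with z f1 f2 f3 f4 f5 x
  rw [f4 x, f1 x, f2 x, f3 x]
  have f6 : ∀ y, (S.D0.toAD.i1 (cW S.D0 u) y : M → ℝ) z = u.1 y z := f5
  simp only [f6]
  exact cm_split S d t (rp a0) (rp a1) u.1 (rp v) x z

theorem cm_add_left (S : SWS M κ0 κ1 κT) (a a' : κT → M → ℝ) (u : κ0 → M → ℝ) (x : κ1) (z : M) :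
    S.cm (a + a') u x z = S.cm a u x z + S.cm a' u x z := by
  unfold SWS.cm
  simp only [Pi.add_apply, add_mul, Finset.sum_add_distrib]

theorem P_dKH {S : SWS M κ0 κ1 κT} {d : SWD M κT} (hS : S.OK) (hd : d.Adm S) (s0 : Spec S.DL)
    (h4 : Emb4 S.D0.toAD.i1) (hT4 : Emb4 S.DT.toAD.i1) (R : ℝ) {t : E3} (ht : t ∈ BB)
    (u : SmS S.D0) (v : S.D0.toAD.WE) :
    S.D1.toAD.P (dKH hS hd s0 h4 hT4 R ht u v) = dKH hS hd s0 h4 hT4 R ht u v := by
  ext x
  filter_upwards [S.D1.toAD.coe_P (dKH hS hd s0 h4 hT4 R ht u v),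
    coe_dKH hS hd s0 h4 hT4 R ht u v] with z e1 e2
  rw [e1 x, e2 x, ← cm_sec hS (rp (GG1 S s0 (Fq d R t (cW S.D0 u))) + d.th t) (rp v) x z,
    ← cm_sec hS (rp (GG1 S s0 (dFq hS hd ht u v))) u.1 x z, ← Finset.sum_add_distrib]
  refine Finset.sum_congr rfl fun x' _ => ?_
  have h1 : (S.D1.toAD.p x x' z) = S.D1.p x x' z := rfl
  rw [e2 x', ← mul_add, h1]

/-- **the derivative of the product term**, values in `L²(D1)`. -/
def dKK {S : SWS M κ0 κ1 κT} {d : SWD M κT} (hS : S.OK) (hd : d.Adm S) (s0 : Spec S.DL)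
    (h4 : Emb4 S.D0.toAD.i1) (hT4 : Emb4 S.DT.toAD.i1) (R : ℝ) {t : E3} (ht : t ∈ BB)
    (u : SmS S.D0) : S.D0.toAD.WE →L[ℝ] S.D1.toAD.HE :=
  (Swx_333.PL S.D1).comp (dKH hS hd s0 h4 hT4 R ht u)

/-- **(2)** -/
theorem hasFDerivAt_KK {S : SWS M κ0 κ1 κT} {d : SWD M κT} (hS : S.OK) (hd : d.Adm S)
    (s0 : Spec S.DL) (h4 : Emb4 S.D0.toAD.i1) (hT4 : Emb4 S.DT.toAD.i1) {R R0 : ℝ}
    (hR0 : 0 ≤ R0) (hR : R0 < R) {t : E3} (ht : t ∈ BB)
    (u : SmS S.D0) (hu : ∀ z, ∑ y, u.1 y z ^ 2 ≤ R0 ^ 2) :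
    HasFDerivAt (fun p => Swx_333.PL S.D1 (KKt hS hd s0 R t p)) (dKK hS hd s0 h4 hT4 R ht u)
      (cW S.D0 u) :=
  (Swx_333.PL S.D1).hasFDerivAt.comp _ (hasFDerivAt_KKt hS hd s0 h4 hT4 hR0 hR ht u hu)

theorem coe_dKK' {S : SWS M κ0 κ1 κT} {d : SWD M κT} (hS : S.OK) (hd : d.Adm S) (s0 : Spec S.DL)
    (h4 : Emb4 S.D0.toAD.i1) (hT4 : Emb4 S.DT.toAD.i1) (R : ℝ) {t : E3} (ht : t ∈ BB)
    (u : SmS S.D0) (v : S.D0.toAD.WE) :
    ((dKK hS hd s0 h4 hT4 R ht u v : S.D1.toAD.HE) : HH (μHE[4] : Measure M) κ1) =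
      dKH hS hd s0 h4 hT4 R ht u v := P_dKH hS hd s0 h4 hT4 R ht u v

/-- **the coordinates of the derivative**. -/
theorem coe_dKK {S : SWS M κ0 κ1 κT} {d : SWD M κT} (hS : S.OK) (hd : d.Adm S) (s0 : Spec S.DL)
    (h4 : Emb4 S.D0.toAD.i1) (hT4 : Emb4 S.DT.toAD.i1) (R : ℝ) {t : E3} (ht : t ∈ BB)
    (u : SmS S.D0) (v : S.D0.toAD.WE) :
    ∀ᵐ z ∂(μHE[4] : Measure M), ∀ x,
      (((dKK hS hd s0 h4 hT4 R ht u v : S.D1.toAD.HE) : HH (μHE[4] : Measure M) κ1) x :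
        M → ℝ) z = S.cm (rp (GG1 S s0 (Fq d R t (cW S.D0 u))) + d.th t) (rp v) x z +
        S.cm (rp (GG1 S s0 (dFq hS hd ht u v))) u.1 x z := by
  rw [coe_dKK']
  exact coe_dKH hS hd s0 h4 hT4 R ht u v

/-! ### compactness -/


theorem compact_dKK {S : SWS M κ0 κ1 κT} {d : SWD M κT} (hS : S.OK) (hd : d.Adm S)
    (s0 : Spec S.DL) (h4 : Emb4 S.D0.toAD.i1) (hT4 : Emb4 S.DT.toAD.i1) {R R0 : ℝ}
    (hR0 : 0 ≤ R0) (hR : R0 < R) {t : E3} (ht : t ∈ BB)
    (u : SmS S.D0) (hu : ∀ z, ∑ y, u.1 y z ^ 2 ≤ R0 ^ 2) :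
    IsCompactOperator (dKK hS hd s0 h4 hT4 R ht u) := by
  have hfin := finM (M := M)
  have hRp : 0 < R := lt_of_le_of_lt hR0 hR
  refine compact_fderiv (hasFDerivAt_KK hS hd s0 h4 hT4 hR0 hR ht u hu) fun ρ => ?_
  have hL : ContinuousOn (fun t => (matR (bm_mth hS hd t) :
      HH (μHE[4] : Measure M) κ0 →L[ℝ] HH (μHE[4] : Measure M) κ1)) BB :=
    matR_family (bm_mth hS hd) fun t0 ht0 ε hε => mth_unif hS hd ht0 hε
  obtain ⟨C, hC, h1⟩ := KK_compact h4 (S.D0.toAD.compact_i1 fried4) hT4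
    (nemOK hS hd hRp (μHE[4] : Measure M)) (GG1 S s0) (cc S) (bm_cc hS) hL isCompact_BB ρ
  exact ⟨Swx_333.PL S.D1 '' C, hC.image (Swx_333.PL S.D1).continuous, fun p hp => ⟨_, h1 t p ht hp, rfl⟩⟩

end main

end Crest.Agent.R235.SWFre_952

end
end

-- ▼ part R235/SWFreC_952
section

/-!
Row 235 (S0364), PACKAGE SW, leaf SW-FRE (helper952), part C: **the kernel of the linearised equations
at a flat Taubes solution**, from `ND` of `SWJDefs_53`.

* `fq_zero_of_sol` : if `(0, u)` is a solution then `Fq d R t (cW u) = 0`;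
* `ker_of_nd` : the kernel, for a harmonic form `η`;
* `fm_sum`, `fm_zero` : the forms `2π ∑ κ_i al_i`;
* `ker_jd` : the kernel in the format of `JData.ker` (`SwjDef_844`).
-/

set_option autoImplicit false
set_option maxSynthPendingDepth 3
set_option linter.unusedSectionVars false

open scoped ContDiff ENNReal NNReal Topology Manifold Bundle RealInnerProductSpace
open MeasureTheory Set Filter Metric Bundle

universe v

noncomputable section

namespace Crest.Agent.R235.SWFre_952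

open Crest.Agent.R249.Tv57 Crest.Agent.R247.Ms322 Crest.Agent.R247.Dir593
open Crest.Agent.R235.SWDefs_53 Crest.Agent.R235.CptB_755 Crest.Agent.R235.Fs4_546
open Crest.Agent.R235.CptC_755 Crest.Agent.R235.Cpt_755 Crest.Agent.R235.Fred_649
open Crest.Agent.R235.Swx_333 Crest.Agent.R235.L4_433 Crest.Agent.R235.SWSym_451

local notation "ipp" => Crest.Agent.R249.Tv57.ip 4

section main

variable {M : Type v} [MetricSpace M] [CompactSpace M] [ConnectedSpace M]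
  [ChartedSpace (EuclideanSpace ℝ (Fin 4)) M] [IsManifold (𝓡 4) ∞ M]
  [RiemannianBundle (fun p : M => TangentSpace (𝓡 4) p)]
  [IsContMDiffRiemannianBundle (𝓡 4) ∞ (EuclideanSpace ℝ (Fin 4))
    (fun p : M => TangentSpace (𝓡 4) p)]
  [IsRiemannianManifold (𝓡 4) M] [MeasurableSpace M] [BorelSpace M]
  [SecondCountableTopology M] [Nonempty M] [IsFiniteMeasureOnCompacts (μHE[4] : Measure M)]
  {κ0 κ1 κT : Type} [Fintype κ0] [Fintype κ1] [Fintype κT]

theorem eq_of_rp {κ : Type} [Fintype κ] {D : Dat 4 M κ} {u v : D.toAD.WE}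
    (h : ∀ᵐ z ∂(μHE[4] : Measure M), ∀ a, rp u a z = rp v a z) : u = v := by
  refine Green_649.i1_injective D ?_
  ext a
  filter_upwards [h] with z hz
  exact hz a

theorem rp_zero {κ : Type} [Fintype κ] {D : Dat 4 M κ} :
    ∀ᵐ z ∂(μHE[4] : Measure M), ∀ a, rp (0 : D.toAD.WE) a z = 0 := by
  rw [ae_all_iff]
  intro a
  have : D.toAD.i1 0 = 0 := map_zero _
  unfold rp
  rw [this]
  exact Lp.coeFn_zero ℝ 2 (μHE[4] : Measure M)

theorem rp_smul {κ : Type} [Fintype κ] {D : Dat 4 M κ} (c : ℝ) (u : D.toAD.WE) :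
    ∀ᵐ z ∂(μHE[4] : Measure M), ∀ a, rp (c • u) a z = c * rp u a z := by
  rw [ae_all_iff]
  intro a
  have h : D.toAD.i1 (c • u) a = c • D.toAD.i1 u a := by
    rw [map_smul]; rfl
  unfold rp
  rw [h]
  exact Lp.coeFn_smul c (D.toAD.i1 u a)


set_option maxHeartbeats 1600000 in
/-- **(3)** the kernel of the linearised equations, from `ND`. -/
theorem ker_of_nd (hND : ND.{v}) {S : SWS M κ0 κ1 κT}
    {ec : κ1 → κ0 → M → EuclideanSpace ℝ (Fin 4)} {d : SWD M κT} {τ : TD M κT} {C : ℝ} {t : E3}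
    {s : κ0 → M → ℝ} (hS : S.OK) (hsym : Sym S ec) (hg : GrdH S) (hτ : τ.OK S C)
    (hfit : τ.Fit S d t) (hr : 0 < d.r) (hbig : ∀ z, C ^ 2 ≤ d.r * τ.rr z ^ 3)
    (hflat : τ.Flat S (d.th t)) (hps : τ.PSec S (d.th t) d.r s) (hd : d.Adm S) (ht : t ∈ BB)
    (s0 : Spec S.DL) (sT : Spec S.DT) (h4 : Emb4 S.D0.toAD.i1) (hT4 : Emb4 S.DT.toAD.i1) (R : ℝ)
    (u : SmS S.D0) (hu : u.1 = τ.sc (3 / 4) s) (ha0 : GG1 S s0 (Fq d R t (cW S.D0 u)) = 0)
    (η : SmS S.DT) (hη : ∀ k z, S.H.B η.1 k z = 0) (v : S.D0.toAD.WE)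
    (h1 : ∀ l ∈ s0.ker, (⟪dFq hS hd ht u v,
      ((cH S.DL (ph s0 l) : S.DL.toAD.HE) : HH (μHE[4] : Measure M) (Fin 4))⟫ : ℝ) = 0)
    (h2 : ∀ᵐ z ∂(μHE[4] : Measure M), ∀ x,
      (((Ah S.P v + dKK hS hd s0 h4 hT4 R ht u v : S.D1.toAD.HE) :
        HH (μHE[4] : Measure M) κ1) x : M → ℝ) z + S.cm η.1 u.1 x z = 0) :
    GG1 S s0 (dFq hS hd ht u v) = 0 ∧ η.1 = 0 ∧
      ∃ c : ℝ, ∀ᵐ z ∂(μHE[4] : Measure M), ∀ y, rp v y z = c * S.iu u.1 y z := by
  set A1 : S.DT.toAD.WE := GG1 S s0 (dFq hS hd ht u v) with hA1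
  -- the curvature equation
  have hcur := (cur_iff S s0 sT (a := rp A1) (A := A1) (fun _ => EventuallyEq.rfl)
    (f := linq S d t u.1 (rp v)) (F := (⟨dFq hS hd ht u v, dl_P hS _⟩ : S.DL.toAD.HE))
    (fun b => by
      filter_upwards [coe_dFq hS hd ht u v] with z e
      exact e b)).2 ⟨rfl, fun l hl => h1 l hl⟩
  have hlin : linq S d t u.1 (rp v) = Fin.cons (fun _ => 0) fun k z =>
      d.mu t z * ∑ y, ∑ y', S.rho k y y' z * τ.sc (3 / 4) s y z * rp v y' z := by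
    rw [← hu]
    rfl
  rw [hlin] at hcur
  -- the Dirac equation
  have hdir : WkA S.P (rp v) (fun x z => - S.cm (d.th t) (rp v) x z -
      S.cm (rp A1 + η.1) (τ.sc (3 / 4) s) x z) := by
    refine (wkA_iff (P := S.P) (u := rp v) (U := v) (fun _ => EventuallyEq.rfl)).2 fun b => ?_
    have e0 : ((Ah S.P v + dKK hS hd s0 h4 hT4 R ht u v : S.D1.toAD.HE) :
        HH (μHE[4] : Measure M) κ1) b =
        ((Ah S.P v : S.D1.toAD.HE) : HH (μHE[4] : Measure M) κ1) b +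
        ((dKK hS hd s0 h4 hT4 R ht u v : S.D1.toAD.HE) : HH (μHE[4] : Measure M) κ1) b := rfl
    filter_upwards [h2, coe_dKK hS hd s0 h4 hT4 R ht u v, rp_zero (D := S.DT),
      Lp.coeFn_add (((Ah S.P v : S.D1.toAD.HE) : HH (μHE[4] : Measure M) κ1) b)
        (((dKK hS hd s0 h4 hT4 R ht u v : S.D1.toAD.HE) : HH (μHE[4] : Measure M) κ1) b)]
      with z e1 e2 e3 e4
    have e5 := e1 b
    rw [e0, e4, Pi.add_apply, e2 b, ha0] at e5
    have e6 : S.cm (rp (0 : S.DT.toAD.WE) + d.th t) (rp v) b z = S.cm (d.th t) (rp v) b z := by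
      unfold SWS.cm
      simp only [Pi.add_apply, e3, zero_add]
    rw [e6, ← hA1] at e5
    rw [← hu, cm_add_left]
    linarith
  obtain ⟨k1, k2, c, k3⟩ := hND M κ0 κ1 κT S ec d τ C t s hS hsym hg hτ hfit hr hbig hflat hps
    (rp A1) η.1 (rp v) (inW_rp A1) hcur.2 η.2.1 η.2.2 hη (inW_rp v) hcur.1 hdir
  refine ⟨?_, k2, c, ?_⟩
  · refine eq_of_rp ?_
    filter_upwards [k1, rp_zero (D := S.DT)] with z e1 e2 A
    rw [e1, e2]
  · rw [hu]
    exact k3

/-! ### the harmonic forms -/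

/-- `al_i` as a section. -/
def alS {S : SWS M κ0 κ1 κT} {b : ℕ} {j : JD M κT b} (hj : j.OK S) (i : Fin b) : SmS S.DT :=
  ⟨j.al i, hj.sm i, hj.sec i⟩

/-- `2π ∑ κ_i al_i` as a section. -/
def fmS {S : SWS M κ0 κ1 κT} {b : ℕ} {j : JD M κT b} (hj : j.OK S) (h : Fin b → ℝ) : SmS S.DT :=
  ∑ i, (2 * Real.pi * h i) • alS hj i

theorem fmS_coe {S : SWS M κ0 κ1 κT} {b : ℕ} {j : JD M κT b} (hj : j.OK S) (h : Fin b → ℝ) :
    (fmS hj h).1 = j.fm h := by
  unfold fmS JD.fm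
  rw [Submodule.coe_sum]
  funext A z
  simp only [Submodule.coe_smul, Finset.sum_apply, Pi.smul_apply, smul_eq_mul, Finset.mul_sum]
  exact Finset.sum_congr rfl fun i _ => by
    show 2 * Real.pi * h i * j.al i A z = _
    ring

theorem fmS_harm {S : SWS M κ0 κ1 κT} {b : ℕ} {j : JD M κT b} (hj : j.OK S) (h : Fin b → ℝ)
    (k : Fin 4) (z : M) : S.H.B (fmS hj h).1 k z = 0 := by
  have h1 : lA S.H.swap (fmS hj h) = 0 := by
    unfold fmS
    rw [map_sum]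
    refine Finset.sum_eq_zero fun i _ => ?_
    rw [map_smul]
    have h2 : lA S.H.swap (alS hj i) = 0 := by
      apply Subtype.ext
      funext k z
      exact hj.harm i k z
    rw [h2, smul_zero]
  have h3 := congrArg (fun w : SmS S.DL => w.1 k z) h1
  exact h3

theorem fm_zero {S : SWS M κ0 κ1 κT} {b : ℕ} {j : JD M κT b} (hj : j.OK S) {h : Fin b → ℝ}
    (h0 : j.fm h = 0) : h = 0 := by
  have h1 : ∑ i, h i • j.al i = 0 := by
    funext A z
    have h2 := congrFun (congrFun h0 A) z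
    unfold JD.fm at h2
    have h3 : ∑ i, h i * j.al i A z = 0 := by
      rcases mul_eq_zero.1 h2 with h4 | h4
      · exact absurd h4 (by positivity)
      · exact h4
    simpa only [Finset.sum_apply, Pi.smul_apply, smul_eq_mul, Pi.zero_apply] using h3
  have h5 := Fintype.linearIndependent_iff.1 hj.li h h1
  exact funext h5

/-- `cm` is additive in the form. -/
theorem cm_fm {S : SWS M κ0 κ1 κT} {b : ℕ} (j : JD M κT b) (h : Fin b → ℝ) (u : κ0 → M → ℝ)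
    (x : κ1) (z : M) : S.cm (j.fm h) u x z =
      ∑ i, h i * S.cm (fun A z => 2 * Real.pi * j.al i A z) u x z := by
  unfold SWS.cm JD.fm
  simp only [Finset.mul_sum, Finset.sum_mul]
  rw [Finset.sum_comm' (s := (Finset.univ : Finset (Fin b))) (t := fun _ => Finset.univ)
    (t' := Finset.univ) (s' := fun _ => Finset.univ) (fun _ _ => by simp)]
  refine Finset.sum_congr rfl fun A _ => ?_
  rw [Finset.sum_comm' (s := (Finset.univ : Finset (Fin b))) (t := fun _ => Finset.univ)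
    (t' := Finset.univ) (s' := fun _ => Finset.univ) (fun _ _ => by simp)]
  refine Finset.sum_congr rfl fun y _ => Finset.sum_congr rfl fun i _ => by ring

/-- **(3)** in the format of `JData.ker`. -/
theorem ker_jd (hND : ND.{v}) {S : SWS M κ0 κ1 κT}
    {ec : κ1 → κ0 → M → EuclideanSpace ℝ (Fin 4)} {d : SWD M κT} {τ : TD M κT} {C : ℝ} {t : E3}
    {s : κ0 → M → ℝ} (hS : S.OK) (hsym : Sym S ec) (hg : GrdH S) (hτ : τ.OK S C)
    (hfit : τ.Fit S d t) (hr : 0 < d.r) (hbig : ∀ z, C ^ 2 ≤ d.r * τ.rr z ^ 3)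
    (hflat : τ.Flat S (d.th t)) (hps : τ.PSec S (d.th t) d.r s) (hd : d.Adm S) (ht : t ∈ BB)
    (s0 : Spec S.DL) (sT : Spec S.DT) (h4 : Emb4 S.D0.toAD.i1) (hT4 : Emb4 S.DT.toAD.i1) (R : ℝ)
    (u : SmS S.D0) (hu : u.1 = τ.sc (3 / 4) s) (ha0 : GG1 S s0 (Fq d R t (cW S.D0 u)) = 0)
    {b : ℕ} {j : JD M κT b} (hj : j.OK S)
    (Mi : Fin b → S.D0.toAD.WE →L[ℝ] S.D1.toAD.HE)
    (hM : ∀ i x, ∀ᵐ z ∂(μHE[4] : Measure M), ∀ l,
      (((Mi i x : S.D1.toAD.HE) : HH (μHE[4] : Measure M) κ1) l : M → ℝ) z =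
        S.cm (fun A z => 2 * Real.pi * j.al i A z) (rp x) l z)
    (I : S.D0.toAD.WE →L[ℝ] S.D0.toAD.WE)
    (hI : ∀ x, ∀ᵐ z ∂(μHE[4] : Measure M), ∀ y, rp (I x) y z = S.iu (rp x) y z)
    (h : Fin b → ℝ) (v : S.D0.toAD.WE)
    (h1 : ∀ l ∈ s0.ker, (⟪dFq hS hd ht u v,
      ((cH S.DL (ph s0 l) : S.DL.toAD.HE) : HH (μHE[4] : Measure M) (Fin 4))⟫ : ℝ) = 0)
    (h2 : Ah S.P v + ∑ i, h i • Mi i (cW S.D0 u) + dKK hS hd s0 h4 hT4 R ht u v = 0) :
    h = 0 ∧ ∃ c : ℝ, v = c • I (cW S.D0 u) := by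
  have hcm : ∀ᵐ z ∂(μHE[4] : Measure M), ∀ x,
      (((∑ i, h i • Mi i (cW S.D0 u) : S.D1.toAD.HE) : HH (μHE[4] : Measure M) κ1) x :
        M → ℝ) z = S.cm (fmS hj h).1 u.1 x z := by
    have e0 : ∀ᵐ z ∂(μHE[4] : Measure M), ∀ i, ∀ l,
        (((Mi i (cW S.D0 u) : S.D1.toAD.HE) : HH (μHE[4] : Measure M) κ1) l : M → ℝ) z =
        S.cm (fun A z => 2 * Real.pi * j.al i A z) (rp (cW S.D0 u)) l z := by
      rw [ae_all_iff]
      exact fun i => hM i (cW S.D0 u)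
    have e1 : ∀ᵐ z ∂(μHE[4] : Measure M), ∀ l i,
        ((h i • (((Mi i (cW S.D0 u) : S.D1.toAD.HE) : HH (μHE[4] : Measure M) κ1) l) :
          Lp ℝ 2 (μHE[4] : Measure M)) : M → ℝ) z =
        h i * (((Mi i (cW S.D0 u) : S.D1.toAD.HE) : HH (μHE[4] : Measure M) κ1) l : M → ℝ) z := by
      rw [ae_all_iff]
      intro l
      rw [ae_all_iff]
      intro i
      exact Lp.coeFn_smul (h i)
        (((Mi i (cW S.D0 u) : S.D1.toAD.HE) : HH (μHE[4] : Measure M) κ1) l)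
    have e2 : ∀ᵐ z ∂(μHE[4] : Measure M), ∀ l,
        ((∑ i, h i • (((Mi i (cW S.D0 u) : S.D1.toAD.HE) : HH (μHE[4] : Measure M) κ1) l) :
          Lp ℝ 2 (μHE[4] : Measure M)) : M → ℝ) z =
        ∑ i, ((h i • (((Mi i (cW S.D0 u) : S.D1.toAD.HE) : HH (μHE[4] : Measure M) κ1) l) :
          Lp ℝ 2 (μHE[4] : Measure M)) : M → ℝ) z := by
      rw [ae_all_iff]
      intro l
      exact Lp.coeFn_fun_finsetSum Finset.univ _
    filter_upwards [e0, e1, e2, rp_cW (D := S.D0) u] with z f0 f1 f2 f3 x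
    have g0 : ((∑ i, h i • Mi i (cW S.D0 u) : S.D1.toAD.HE) : HH (μHE[4] : Measure M) κ1) x =
        ∑ i, h i • (((Mi i (cW S.D0 u) : S.D1.toAD.HE) : HH (μHE[4] : Measure M) κ1) x) := by
      rw [Submodule.coe_sum, WithLp.ofLp_sum, Finset.sum_apply]
      rfl
    rw [g0, f2 x, fmS_coe, cm_fm]
    refine Finset.sum_congr rfl fun i _ => ?_
    rw [f1 x i, f0 i x]
    congr 1
    unfold SWS.cm
    simp only [f3]
  have hdirac : ∀ᵐ z ∂(μHE[4] : Measure M), ∀ x,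
      (((Ah S.P v + dKK hS hd s0 h4 hT4 R ht u v : S.D1.toAD.HE) :
        HH (μHE[4] : Measure M) κ1) x : M → ℝ) z + S.cm (fmS hj h).1 u.1 x z = 0 := by
    have e0 : Ah S.P v + dKK hS hd s0 h4 hT4 R ht u v = -∑ i, h i • Mi i (cW S.D0 u) := by
      rw [← sub_eq_zero, sub_neg_eq_add, ← h2]
      abel
    rw [e0]
    have e1 : ∀ x, ((-∑ i, h i • Mi i (cW S.D0 u) : S.D1.toAD.HE) :
        HH (μHE[4] : Measure M) κ1) x =
        -(((∑ i, h i • Mi i (cW S.D0 u) : S.D1.toAD.HE) : HH (μHE[4] : Measure M) κ1) x) :=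
      fun x => rfl
    have e2 : ∀ᵐ z ∂(μHE[4] : Measure M), ∀ x,
        ((-(((∑ i, h i • Mi i (cW S.D0 u) : S.D1.toAD.HE) : HH (μHE[4] : Measure M) κ1) x) :
          Lp ℝ 2 (μHE[4] : Measure M)) : M → ℝ) z =
        -(((∑ i, h i • Mi i (cW S.D0 u) : S.D1.toAD.HE) : HH (μHE[4] : Measure M) κ1) x :
          M → ℝ) z := by
      rw [ae_all_iff]
      exact fun x => Lp.coeFn_neg _
    filter_upwards [hcm, e2] with z f1 f2 x
    rw [e1, f2 x, f1 x]
    ring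
  obtain ⟨-, k2, c, k3⟩ := ker_of_nd hND hS hsym hg hτ hfit hr hbig hflat hps hd ht s0 sT h4 hT4
    R u hu ha0 (fmS hj h) (fmS_harm hj h) v h1 hdirac
  rw [fmS_coe] at k2
  refine ⟨fm_zero hj k2, c, eq_of_rp ?_⟩
  filter_upwards [k3, rp_smul c (I (cW S.D0 u)), hI (cW S.D0 u), rp_cW (D := S.D0) u]
    with z f1 f2 f3 f4 y
  rw [f1 y, f2 y, f3 y]
  unfold SWS.iu
  simp only [f4]

end main

end Crest.Agent.R235.SWFre_952

end
end

-- ▼ part R235/SWFreD_952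

/-!
Row 235 (S0364), PACKAGE SW, leaf SW-FRE (helper952), part D: the fields `dA`, `dP`, `ker` of
`JData` (`SwjDef_844`) at a flat Taubes solution, and `solA`.

* `rq_secE`, `rhs_zero` : the curvature term of a flat Taubes solution vanishes;
* `fq_taubes` : `Fq d R t (cW u) = 0`, `u = ρ^{3/4} s`;
* `perp_ker` : from the `bp` pairings to the orthogonality to `ker H.A`;
* `psec_smul`, `fit_of`, `flat_of` : from `HopfD`, `FFit`;
* `jd_dA`, `jd_dP`, `jd_ker`, `jd_solA`.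
-/

set_option autoImplicit false
set_option maxSynthPendingDepth 3
set_option linter.unusedSectionVars false

open scoped ContDiff ENNReal NNReal Topology Manifold Bundle RealInnerProductSpace
open MeasureTheory Set Filter Metric Bundle

universe v

noncomputable section

namespace Crest.Agent.R235.SWFre_952

open Crest.Agent.R249.Tv57 Crest.Agent.R247.Ms322 Crest.Agent.R247.Dir593
open Crest.Agent.R235.SWDefs_53 Crest.Agent.R235.CptB_755 Crest.Agent.R235.Fs4_546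
open Crest.Agent.R235.CptC_755 Crest.Agent.R235.Cpt_755 Crest.Agent.R235.Fred_649
open Crest.Agent.R235.Swx_333 Crest.Agent.R235.L4_433 Crest.Agent.R235.SWSym_451

local notation "ipp" => Crest.Agent.R249.Tv57.ip 4

section main

variable {M : Type v} [MetricSpace M] [CompactSpace M] [ConnectedSpace M]
  [ChartedSpace (EuclideanSpace ℝ (Fin 4)) M] [IsManifold (𝓡 4) ∞ M]
  [RiemannianBundle (fun p : M => TangentSpace (𝓡 4) p)]
  [IsContMDiffRiemannianBundle (𝓡 4) ∞ (EuclideanSpace ℝ (Fin 4))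
    (fun p : M => TangentSpace (𝓡 4) p)]
  [IsRiemannianManifold (𝓡 4) M] [MeasurableSpace M] [BorelSpace M]
  [SecondCountableTopology M] [Nonempty M] [IsFiniteMeasureOnCompacts (μHE[4] : Measure M)]
  {κ0 κ1 κT : Type} [Fintype κ0] [Fintype κ1] [Fintype κT]

/-! ### the curvature term of a flat Taubes solution -/

theorem rq_secE {S : SWS M κ0 κ1 κT} (hS : S.OK) {τ : TD M κT} {C : ℝ} (hτ : τ.OK S C)
    {s : κ0 → M → ℝ} (hs : τ.SecE S s) (k : Fin 3) (z : M) :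
    S.rq k s z = - τ.n k z * ∑ y, s y z ^ 2 := by
  obtain ⟨N, hN⟩ : ∃ N : ℝ, N = ∑ y, s y z ^ 2 := ⟨_, rfl⟩
  rw [← hN]
  have h1 : ∑ k, τ.n k z * S.rq k s z = - N := by
    have h2 : ∑ y, s y z * τ.R S s y z = - N := by
      rw [hN, ← Finset.sum_neg_distrib]
      exact Finset.sum_congr rfl fun y _ => by rw [hs.2 y z]; ring
    rw [← h2]
    unfold TD.R SWS.rq
    simp only [Finset.mul_sum]
    rw [Finset.sum_comm]
    refine Finset.sum_congr rfl fun y _ => Finset.sum_congr rfl fun k _ =>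
      Finset.sum_congr rfl fun y' _ => by ring
  have h2 : ∑ k, S.rq k s z ^ 2 = N ^ 2 := by
    rw [hN]
    exact hS.fierz z (fun y => s y z) (fun y => hs.1 y z)
  have h3 := hτ.norm z
  have h4 : ∑ k, (S.rq k s z + τ.n k z * N) ^ 2 = 0 := by
    have e : ∑ k, (S.rq k s z + τ.n k z * N) ^ 2 =
        ∑ k, S.rq k s z ^ 2 + 2 * N * (∑ k, τ.n k z * S.rq k s z) +
          N ^ 2 * ∑ k, τ.n k z ^ 2 := by
      rw [Finset.mul_sum, Finset.mul_sum, ← Finset.sum_add_distrib, ← Finset.sum_add_distrib]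
      exact Finset.sum_congr rfl fun k _ => by ring
    rw [e, h1, h2, h3]
    ring
  have h5 := (Finset.sum_eq_zero_iff_of_nonneg fun k _ =>
    sq_nonneg (S.rq k s z + τ.n k z * N)).1 h4 k (Finset.mem_univ k)
  have h6 : S.rq k s z + τ.n k z * N = 0 := pow_eq_zero_iff two_ne_zero |>.1 h5
  linarith

theorem rq_sc (S : SWS M κ0 κ1 κT) (τ : TD M κT) (p : ℝ) (s : κ0 → M → ℝ) (k : Fin 3) (z : M) :
    S.rq k (τ.sc p s) z = τ.rr z ^ p * τ.rr z ^ p * S.rq k s z := by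
  unfold SWS.rq TD.sc
  simp only [Finset.mul_sum]
  exact Finset.sum_congr rfl fun y _ => Finset.sum_congr rfl fun y' _ => by ring

/-- **the right hand side of the curvature equation vanishes**. -/
theorem rhs_zero {S : SWS M κ0 κ1 κT} (hS : S.OK) {d : SWD M κT} {τ : TD M κT} {C : ℝ} {t : E3}
    {s : κ0 → M → ℝ} (hτ : τ.OK S C) (hfit : τ.Fit S d t) (hflat : τ.Flat S (d.th t))
    (hps : τ.PSec S (d.th t) d.r s) (l : Fin 4) (z : M) : rhs S d t (τ.sc (3 / 4) s) l z = 0 := by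
  refine Fin.cases ?_ (fun k => ?_) l
  · rfl
  · show d.mu t z * ((1 / 2) * S.rq k (τ.sc (3 / 4) s) z) + d.r * d.wt t k z + d.et t k z = 0
    rw [rq_sc, rq_secE hS hτ hps.sec, hps.nrm z, hfit.mu z, hfit.wt k z, hfit.et k z, hflat k z]
    have hp := hτ.pos z
    have e : τ.rr z ^ (-(1 / 2) : ℝ) * (τ.rr z ^ (3 / 4 : ℝ) * τ.rr z ^ (3 / 4 : ℝ)) = τ.rr z := by
      rw [← Real.rpow_add hp, ← Real.rpow_add hp]
      norm_num
    calc τ.rr z ^ (-(1 / 2) : ℝ) * (1 / 2 * (τ.rr z ^ (3 / 4 : ℝ) * τ.rr z ^ (3 / 4 : ℝ) *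
          (-τ.n k z * (2 * d.r)))) + d.r * (τ.rr z * τ.n k z) + -0 =
        -(τ.rr z ^ (-(1 / 2) : ℝ) * (τ.rr z ^ (3 / 4 : ℝ) * τ.rr z ^ (3 / 4 : ℝ))) *
          (d.r * τ.n k z) + d.r * (τ.rr z * τ.n k z) := by ring
      _ = 0 := by rw [e]; ring

/-- **the curvature term vanishes at a flat Taubes solution**. -/
theorem fq_taubes {S : SWS M κ0 κ1 κT} (hS : S.OK) {d : SWD M κT} (hd : d.Adm S) {τ : TD M κT}
    {C : ℝ} {t : E3} (ht : t ∈ BB) {s : κ0 → M → ℝ} (hτ : τ.OK S C) (hfit : τ.Fit S d t)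
    (hflat : τ.Flat S (d.th t)) (hps : τ.PSec S (d.th t) d.r s) {R : ℝ} (hR : 0 < R)
    (u : SmS S.D0) (hu : u.1 = τ.sc (3 / 4) s) (huR : ∀ z, ∑ y, u.1 y z ^ 2 ≤ R ^ 2) :
    Fq d R t (cW S.D0 u) = 0 := by
  ext l
  have h0 : ((0 : HH (μHE[4] : Measure M) (Fin 4)) l : Lp ℝ 2 (μHE[4] : Measure M)) = 0 := rfl
  rw [h0]
  filter_upwards [coe_Fq hS hd hR ht (cW S.D0 u), rp_cW (D := S.D0) u,
    Lp.coeFn_zero ℝ 2 (μHE[4] : Measure M)] with z e1 e2 e3
  rw [e1 l, e3]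
  have e5 : ∀ y, trc R (rp (cW S.D0 u)) y z = u.1 y z := by
    intro y
    have h1 : trc R (rp (cW S.D0 u)) y z = tv R (fun y => rp (cW S.D0 u) y z) y := rfl
    have h2 : (fun y => rp (cW S.D0 u) y z) = fun y => u.1 y z := funext e2
    rw [h1, h2]
    exact congrFun (tv_eq hR (fun y => u.1 y z) (huR z)) y
  have h3 := rhs_zero hS hτ hfit hflat hps l z
  rw [← hu] at h3
  refine Eq.trans ?_ h3
  refine Fin.cases ?_ (fun k => ?_) l
  · rfl
  · show d.mu t z * ((1 / 2) * S.rq k (trc R (rp (cW S.D0 u))) z) + d.r * d.wt t k z +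
        d.et t k z =
      d.mu t z * ((1 / 2) * S.rq k u.1 z) + d.r * d.wt t k z + d.et t k z
    have h4 : S.rq k (trc R (rp (cW S.D0 u))) z = S.rq k u.1 z := by
      unfold SWS.rq
      simp only [e5]
    rw [h4]

/-! ### the harmonic part -/


/-! ### from `HopfD`, `FFit` -/

theorem secE_smul {S : SWS M κ0 κ1 κT} {τ : TD M κT} {s : κ0 → M → ℝ} (hs : τ.SecE S s) (c : ℝ) :
    τ.SecE S (fun y z => c * s y z) := by
  refine ⟨fun y z => ?_, fun y z => ?_⟩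
  · have h := hs.1 y z
    show ∑ b, S.D0.p y b z * (c * s b z) = c * s y z
    rw [← h, Finset.mul_sum]
    exact Finset.sum_congr rfl fun y' _ => by ring
  · have h := hs.2 y z
    unfold TD.R at h ⊢
    have e : ∑ k, ∑ y', τ.n k z * S.rho k y y' z * (c * s y' z) =
        c * ∑ k, ∑ y', τ.n k z * S.rho k y y' z * s y' z := by
      simp only [Finset.mul_sum]
      exact Finset.sum_congr rfl fun k _ => Finset.sum_congr rfl fun y' _ => by ring
    rw [e, h]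
    ring

theorem cv_smul {κ : Type} [Fintype κ] (D : Dat 4 M κ) {u : κ → M → ℝ} (hu : SmV (n := 4) u)
    (c : ℝ) (y : κ) (z : M) : D.cv (fun y z => c * u y z) y z = c • D.cv u y z := by
  unfold Dat.cv
  have h1 : Gr (n := 4) (fun z => c * u y z) z = c • Gr (n := 4) (u y) z :=
    Gr_const_mul c ((hu y z).mdifferentiableAt (by simp))
  rw [h1, smul_add, Finset.smul_sum]
  congr 1
  exact Finset.sum_congr rfl fun b _ => by rw [mul_smul]

theorem nE_smul {S : SWS M κ0 κ1 κT} {τ : TD M κT} (a : κT → M → ℝ) {s : κ0 → M → ℝ}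
    (hs : SmV (n := 4) s) (c : ℝ) (y : κ0) (z : M) :
    τ.nE S a (fun y z => c * s y z) y z = c • τ.nE S a s y z := by
  unfold TD.nE TD.prE SWS.nab
  have h1 : ∀ y', S.D0.cv (fun y z => c * s y z) y' z = c • S.D0.cv s y' z :=
    fun y' => cv_smul S.D0 hs c y' z
  have h2 : ∀ y', ∑ x, S.J y' x z * (c * s x z) = c * ∑ x, S.J y' x z * s x z := by
    intro y'
    rw [Finset.mul_sum]
    exact Finset.sum_congr rfl fun x _ => by ring
  simp only [h1, h2]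
  rw [smul_add, mul_smul c (∑ x, S.J y x z * s x z)]
  congr 1
  rw [Finset.smul_sum]
  refine Finset.sum_congr rfl fun y' _ => ?_
  rw [mul_smul c (∑ x, S.J y' x z * s x z), ← smul_add, smul_comm]

/-- a section of length one gives a section of length `√(2r)`. -/
theorem psec_smul {S : SWS M κ0 κ1 κT} {τ : TD M κT} {th : κT → M → ℝ} {s : κ0 → M → ℝ} {r : ℝ}
    (hr : 0 ≤ r) (h : τ.PSec S th (1 / 2) s) : τ.PSec S th r (fun y z => √(2 * r) * s y z) where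
  sm := fun y => contMDiff_const.mul (h.sm y)
  sec := secE_smul h.sec _
  nrm := fun z => by
    have h1 := h.nrm z
    simp only [mul_pow]
    rw [← Finset.mul_sum, h1, Real.sq_sqrt (by positivity)]
    ring
  par := fun y z => by rw [nE_smul _ h.sm, h.par y z, smul_zero]

theorem fit_of {S : SWS M κ0 κ1 κT} {ww : Fin 3 → Fin 3 → M → ℝ} {τ : E3 → TD M κT} {C : ℝ}
    {th : E3 → κT → M → ℝ} (hF : FFam S ww τ C th) {d : SWD M κT} (hd : d.FFit S ww τ C th)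
    {t : E3} (ht : ‖t‖ = 1) : (τ t).Fit S d t where
  mu := hd.mu t ht
  wt := fun k z => by
    rw [hF.nn t k z ht]
    unfold SWD.wt
    rw [hd.ww]
  et := fun k z => by
    rw [hd.et t ht k z, hd.th t ht, hF.flat t ht k z, neg_zero]
  smth := by rw [hd.th t ht]; exact hF.smth t ht
  secth := by rw [hd.th t ht]; exact hF.secth t ht

theorem flat_of {S : SWS M κ0 κ1 κT} {ww : Fin 3 → Fin 3 → M → ℝ} {τ : E3 → TD M κT} {C : ℝ}
    {th : E3 → κT → M → ℝ} (hF : FFam S ww τ C th) {d : SWD M κT} (hd : d.FFit S ww τ C th)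
    {t : E3} (ht : ‖t‖ = 1) : (τ t).Flat S (d.th t) := by
  rw [hd.th t ht]
  exact hF.flat t ht

/-- the parallel section of length `√(2r)` over `pi s`. -/
theorem psec_of {S : SWS M κ0 κ1 κT} {ww : Fin 3 → Fin 3 → M → ℝ} {τ : E3 → TD M κT} {C : ℝ}
    {th : E3 → κT → M → ℝ} {pi : EuclideanSpace ℂ (Fin 2) → E3}
    {U : EuclideanSpace ℂ (Fin 2) → κ0 → M → ℝ} (hH : HopfD S ww τ C th pi U) {d : SWD M κT}
    (hd : d.FFit S ww τ C th) {s : EuclideanSpace ℂ (Fin 2)} (hs : ‖s‖ = 1) :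
    (τ (pi s)).PSec S (d.th (pi s)) d.r (fun y z => √(2 * d.r) * U s y z) := by
  rw [hd.th (pi s) (hH.npi s hs)]
  exact psec_smul hd.rpos.le (hH.psec s hs)

/-! ### the fields of `JData` -/

/-- **`JData.dA`** -/
theorem jd_dA {S : SWS M κ0 κ1 κT} {d : SWD M κT} (hS : S.OK) (hd : d.Adm S)
    (h4 : Emb4 S.D0.toAD.i1) {R R0 : ℝ} (hR0 : 0 ≤ R0) (hR : R0 < R) {t : E3} (ht : t ∈ BB)
    (u : SmS S.D0) (hu : ∀ z, ∑ y, u.1 y z ^ 2 ≤ R0 ^ 2) {Y : Type*} [NormedAddCommGroup Y]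
    [NormedSpace ℝ Y] (har : HH (μHE[4] : Measure M) (Fin 4) →L[ℝ] Y) :
    HasFDerivAt (fun x => har (Fq d R t x)) (har.comp (dFq hS hd ht u)) (cW S.D0 u) :=
  har.hasFDerivAt.comp _ (hasFDerivAt_Fq hS hd h4 hR0 hR ht u hu)


/-- **`JData.solA`** -/
theorem jd_solA {S : SWS M κ0 κ1 κT} {ww : Fin 3 → Fin 3 → M → ℝ}
    {τ : E3 → TD M κT} {C : ℝ} {th : E3 → κT → M → ℝ} {pi : EuclideanSpace ℂ (Fin 2) → E3}
    {U : EuclideanSpace ℂ (Fin 2) → κ0 → M → ℝ} (hH : HopfD S ww τ C th pi U) {d : SWD M κT}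
    (hF : d.FFit S ww τ C th) (hS : S.OK) (hd : d.Adm S)
    {s : EuclideanSpace ℂ (Fin 2)} (hs : ‖s‖ = 1) (ht : pi s ∈ BB) {R : ℝ} (hR : 0 < R)
    (u : SmS S.D0) (hu : u.1 = (τ (pi s)).sc (3 / 4) (fun y z => √(2 * d.r) * U s y z))
    (huR : ∀ z, ∑ y, u.1 y z ^ 2 ≤ R ^ 2) : Fq d R (pi s) (cW S.D0 u) = 0 :=
  fq_taubes hS hd ht (hH.fam.tau _ (hH.npi s hs)) (fit_of hH.fam hF (hH.npi s hs))
    (flat_of hH.fam hF (hH.npi s hs)) (psec_of hH hF hs) hR u hu huR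

end main

end Crest.Agent.R235.SWFre_952

end
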