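import Crest.Agent.R235.SWJq_365
import Crest.Agent.R235.SWFreD_952
import Crest.Agent.R235.SWJc_365
import Crest.Agent.R235.SwxT_333

-- ▼ part R235/SWJz_365
section

/-!
Row 235 (S0364), node SWJA (owner helper365): `solA`, `solP`, `uniq` of `JData` from `ZER`.
-/

set_option autoImplicit false
set_option maxSynthPendingDepth 3
set_option linter.unusedSectionVars false

open scoped ContDiff ENNReal NNReal Topology Manifold Bundle RealInnerProductSpace
open MeasureTheory Set Filter Metric Bundle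

universe v

noncomputable section

namespace Crest.Agent.R235.SWJz_365

open Crest.Agent.R249.Tv57 Crest.Agent.R247.Ms322 Crest.Agent.R247.Dir593
open Crest.Agent.R235.SWDefs_53 Crest.Agent.R235.CptB_755 Crest.Agent.R235.Fs4_546
open Crest.Agent.R235.CptC_755 Crest.Agent.R235.Cpt_755 Crest.Agent.R235.Fred_649
open Crest.Agent.R235.Swx_333 Crest.Agent.R235.SWSym_451 Crest.Agent.R235.SWJc_365
open Crest.Agent.R235.SwjAbs_844 Crest.Agent.R235.SWJq_365

local notation "ipp" => Crest.Agent.R249.Tv57.ip 4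

section main

variable {M : Type v} [MetricSpace M] [CompactSpace M] [ConnectedSpace M]
  [ChartedSpace (EuclideanSpace ℝ (Fin 4)) M] [IsManifold (𝓡 4) ∞ M]
  [RiemannianBundle (fun p : M => TangentSpace (𝓡 4) p)]
  [IsContMDiffRiemannianBundle (𝓡 4) ∞ (EuclideanSpace ℝ (Fin 4))
    (fun p : M => TangentSpace (𝓡 4) p)]
  [IsRiemannianManifold (𝓡 4) M] [MeasurableSpace M] [BorelSpace M]
  [SecondCountableTopology M] [Nonempty M] [IsFiniteMeasureOnCompacts (μHE[4] : Measure M)]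
  {κ0 κ1 κT : Type} [Fintype κ0] [Fintype κ1] [Fintype κT] {b bp : ℕ}

variable {S : SWS M κ0 κ1 κT} {cc : κ1 → κ0 → M → EuclideanSpace ℝ (Fin 4)}
  {ww : Fin 3 → Fin 3 → M → ℝ} {τ : E3 → TD M κT} {C : ℝ}
  {th : E3 → κT → M → ℝ} {pi : C2 → E3} {U : C2 → κ0 → M → ℝ} {j : JD M κT b} {d : SWD M κT}

theorem us_sc (r : ℝ) (s : C2) :
    us τ pi U r s = (τ (pi s)).sc (3 / 4) (fun y z => √(2 * r) * U s y z) := by
  funext y z
  unfold us TD.sc
  ring

theorem he_ext {κ : Type} [Fintype κ] {D : Dat 4 M κ} {f g : D.toAD.HE}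
    (h : ∀ᵐ z ∂(μHE[4] : Measure M), ∀ y, ((f : HH (μHE[4] : Measure M) κ) y : M → ℝ) z =
      ((g : HH (μHE[4] : Measure M) κ) y : M → ℝ) z) : f = g := by
  refine Subtype.ext ?_
  ext y
  filter_upwards [h] with z hz
  exact hz y

/-- the solution over `s` is a solution for `h = 0`. -/
theorem sol_us (hZ : ZER.{v}) (hc : Sym S cc) (hj : j.OK S) (hH : HopfD S ww τ C th pi U)
    (hF : d.FFit S ww τ C th) {s : C2} (hs : ‖s‖ = 1) :
    Sol S (d.tw j 0) (pi s) 0 (us τ pi U d.r s) := by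
  refine (hZ M κ0 κ1 κT S cc b j d ww τ C th pi U hc hj hH hF (pi s) 0 0 (us τ pi U d.r s)
    (hH.npi s hs)).2 ⟨Eventually.of_forall fun _ _ => rfl, 0, s, hs, rfl, fun i => by simp, ?_⟩
  refine Eventually.of_forall fun z y => ?_
  rw [gau_neg_zero]
  rfl

/-- the curvature term vanishes. -/
theorem fq_us (hS : S.OK) (hd : d.Adm S) (hH : HopfD S ww τ C th pi U)
    (hF : d.FFit S ww τ C th) {R : ℝ} (hR : 0 < R) {s : C2} (hs : ‖s‖ = 1)
    (huR : ∀ z, ∑ y, us τ pi U d.r s y z ^ 2 ≤ R ^ 2) : Fq d R (pi s) (QQ hH d.r s) = 0 := by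
  rw [QQ_eq hH d.r hs]
  exact Crest.Agent.R235.SWFre_952.jd_solA hH hF hS hd hs (hH.npi s hs).le hR _ (us_sc _ _) huR

theorem rp_zero {κ : Type} [Fintype κ] {D : Dat 4 M κ} :
    ∀ᵐ z ∂(μHE[4] : Measure M), ∀ y, rp (0 : D.toAD.WE) y z = 0 := by
  rw [ae_all_iff]
  intro y
  have : D.toAD.i1 0 = 0 := map_zero _
  unfold rp
  rw [this]
  exact Lp.coeFn_zero ℝ 2 (μHE[4] : Measure M)

/-- **solP**. -/
theorem solP (hZ : ZER.{v}) (hc : Sym S cc) (hj : j.OK S) (hS : S.OK) (hd : d.Adm S)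
    (hH : HopfD S ww τ C th pi U) (hF : d.FFit S ww τ C th) (s0 : Spec S.DL)
    (h4 : Emb4 S.D0.toAD.i1) (hT4 : Emb4 S.DT.toAD.i1) {R : ℝ} (hR : 0 < R) {s : C2}
    (hs : ‖s‖ = 1) (huR : ∀ z, ∑ y, us τ pi U d.r s y z ^ 2 ≤ R ^ 2) :
    Ah S.P (QQ hH d.r s) + KP hS hd s0 R (pi s) (QQ hH d.r s) = 0 := by
  have hz := fq_us hS hd hH hF hR hs huR
  have h1 := (sol_us hZ hc hj hH hF hs).dir
  have hrp : ∀ a, rp (QQ hH d.r s) a =ᵐ[(μHE[4] : Measure M)] us τ pi U d.r s a := by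
    intro a
    filter_upwards [rp_QQ hH d.r hs] with z e
    exact e a
  have h2 := (wkA_iff (P := S.P) (u := us τ pi U d.r s) (U := QQ hH d.r s) hrp).1 h1
  have h3 : Ah S.P (QQ hH d.r s) = - KP hS hd s0 R (pi s) (QQ hH d.r s) := by
    refine Subtype.ext ?_
    have e0 : ((- KP hS hd s0 R (pi s) (QQ hH d.r s) : S.D1.toAD.HE) :
        HH (μHE[4] : Measure M) κ1) = - S.D1.toAD.P (KKt hS hd s0 R (pi s) (QQ hH d.r s)) := rfl
    rw [e0, P_KKt hS hd s0 h4 hT4]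
    ext x
    have e1 : ((- KKt hS hd s0 R (pi s) (QQ hH d.r s) : HH (μHE[4] : Measure M) κ1) x :
      Lp ℝ 2 (μHE[4] : Measure M)) = - (KKt hS hd s0 R (pi s) (QQ hH d.r s) x) := rfl
    rw [e1]
    have hg : GG1 S s0 (Fq d R (pi s) (QQ hH d.r s)) = 0 := by rw [hz, map_zero]
    filter_upwards [h2 x, Lp.coeFn_neg (KKt hS hd s0 R (pi s) (QQ hH d.r s) x),
      coe_KKt hS hd s0 h4 hT4 R (pi s) (QQ hH d.r s), rp_QQ hH d.r hs,
      rp_zero (D := S.DT)] with z f1 f2 f3 f4 f5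
    rw [f1, f2, Pi.neg_apply, f3 x, hg]
    unfold SWS.cm
    congr 1
    refine Finset.sum_congr rfl fun A _ => Finset.sum_congr rfl fun y _ => ?_
    rw [f4 y]
    congr 2
    show (0 : κT → M → ℝ) A z + (d.th (pi s) A z + j.fm 0 A z) =
      rp (0 : S.DT.toAD.WE) A z + d.th (pi s) A z
    rw [f5 A, fm_eq]
    simp
  rw [h3, neg_add_cancel]

/-- **uniq**. -/
theorem uniq (hZ : ZER.{v}) (hc : Sym S cc) (hj : j.OK S) (hS : S.OK) (hd : d.Adm S)
    (hH : HopfD S ww τ C th pi U) (hF : d.FFit S ww τ C th) (s0 : Spec S.DL)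
    (H : HarB hS bp) {R C0 : ℝ} (hR : 0 < R) (hC : C0 < R ^ 2)
    (hzero : ∀ (t : E3) (h : Fin b → ℝ) (x : S.D0.toAD.WE), ‖t‖ ≤ 1 → KA H d R t x = 0 →
      Ah S.P x + ∑ i, h i • LI hS hj i x + KP hS hd s0 R t x = 0 →
      TSol S (d.tw j h) R t (rp (GG1 S s0 (Fq d R t x))) (rp x))
    (hsup : ∀ (h : Fin b → ℝ) (t : E3) (a : κT → M → ℝ) (u : κ0 → M → ℝ), ‖t‖ ≤ 1 →
      TSol S (d.tw j h) R t a u → ∀ᵐ z ∂(μHE[4] : Measure M), ∑ y, u y z ^ 2 ≤ C0)
    (UU : (Fin b → ℤ) → S.D0.toAD.WE ≃L[ℝ] S.D0.toAD.WE)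
    (hUU : ∀ m x, ∀ᵐ z ∂(μHE[4] : Measure M), ∀ y,
      rp (UU m x) y z = j.gau S (fun i => - m i) (rp x) y z)
    (t : E3) (h : Fin b → ℝ) (x : S.D0.toAD.WE) (ht : ‖t‖ = 1) (h1 : KA H d R t x = 0)
    (h2 : Ah S.P x + ∑ i, h i • LI hS hj i x + KP hS hd s0 R t x = 0) :
    ∃ (k : Fin b → ℤ) (s : C2), ‖s‖ = 1 ∧ pi s = t ∧ (∀ i, h i = k i) ∧
      x = UU k (QQ hH d.r s) := by
  have hT := hzero t h x ht.le h1 h2
  have hb := hsup h t _ _ ht.le hT
  have hSol := sol_of_tsol hR hC hT hb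
  obtain ⟨-, k, s, hs, hpi, hk, hu⟩ := (hZ M κ0 κ1 κT S cc b j d ww τ C th pi U hc hj hH hF t h
    _ _ ht).1 hSol
  refine ⟨k, s, hs, hpi, hk, we_ext ?_⟩
  filter_upwards [hu, hUU k (QQ hH d.r s), rp_QQ hH d.r hs] with z e1 e2 e3 y
  rw [e1 y, e2 y, gau_congr e3 y, gau_us, hpi]


/-- `|us|² = 2 r ρ^{3/2}`. -/
theorem us_sq (hH : HopfD S ww τ C th pi U) {r : ℝ} (hr : 0 < r) {s : C2} (hs : ‖s‖ = 1) (z : M) :
    ∑ y, us τ pi U r s y z ^ 2 = 2 * r * ((τ (pi s)).rr z ^ (3 / 4 : ℝ)) ^ 2 := by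
  have h1 := (hH.psec s hs).nrm z
  have h2 : ∑ y, us τ pi U r s y z ^ 2 =
      √(2 * r) ^ 2 * ((τ (pi s)).rr z ^ (3 / 4 : ℝ)) ^ 2 * ∑ y, U s y z ^ 2 := by
    rw [Finset.mul_sum]
    exact Finset.sum_congr rfl fun y _ => by unfold us; ring
  rw [h2, h1, Real.sq_sqrt (by linarith)]
  ring

/-- **a bound for all the solutions over the unit sphere**. -/
theorem us_bdd (hH : HopfD S ww τ C th pi U) {r : ℝ} (hr : 0 < r) : ∃ B : ℝ, 0 ≤ B ∧
    ∀ s : C2, ‖s‖ = 1 → ∀ z, ∑ y, us τ pi U r s y z ^ 2 ≤ B := by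
  let f : E3 × M → ℝ := fun q => √(∑ k, (∑ i, q.1 i * ww i k q.2) ^ 2) ^ (3 / 4 : ℝ)
  have hf : Continuous f := by
    have h0 : Continuous fun q : E3 × M => √(∑ k, (∑ i, q.1 i * ww i k q.2) ^ 2) := by
      refine Real.continuous_sqrt.comp ?_
      refine continuous_finsetSum _ fun k _ => Continuous.pow ?_ 2
      refine continuous_finsetSum _ fun i _ => ?_
      have h1 : Continuous fun q : E3 × M => q.1 i :=
        (EuclideanSpace.proj i).continuous.comp continuous_fst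
      exact h1.mul ((hH.fam.smw i k).continuous.comp continuous_snd)
    exact h0.rpow_const fun q => Or.inr (by norm_num)
  obtain ⟨D, hD⟩ := ((isCompact_sphere (0 : E3) 1).prod (isCompact_univ (X := M))).exists_bound_of_continuousOn
    hf.continuousOn
  refine ⟨2 * r * D ^ 2, by positivity, fun s hs z => ?_⟩
  rw [us_sq hH hr hs]
  have ht := hH.npi s hs
  have h1 := hD (pi s, z) ⟨by simpa using ht, mem_univ _⟩
  have h2 : f (pi s, z) = (τ (pi s)).rr z ^ (3 / 4 : ℝ) := by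
    show √(∑ k, (∑ i, (pi s) i * ww i k z) ^ 2) ^ (3 / 4 : ℝ) = _
    rw [hH.fam.rr (pi s) z ht]
  rw [h2, Real.norm_eq_abs] at h1
  refine mul_le_mul_of_nonneg_left ?_ (by linarith)
  rw [← sq_abs]
  exact pow_le_pow_left₀ (abs_nonneg _) h1 2

end main

end Crest.Agent.R235.SWJz_365

end
end

-- ▼ part R235/SWJn_333
section

/-!
Row 235 (S0364), node SWJA (owner helper365), leaf (b) (helper333): analytic fields of `JData` for the
Seiberg-Witten system over the Jacobian torus.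

* `cKA`, `cKP`     : continuity over the closed ball;
* `cptA`, `cptP`   : compactness;
* `evenA`, `oddP`  : parity;
* `irred`          : no reducible solution;
* `zero_iff`       : zeros = solutions of the truncated twisted system;
* `conv`           : solutions of the true twisted system are zeros.
-/

set_option autoImplicit false
set_option maxSynthPendingDepth 3
set_option linter.unusedSectionVars false

open scoped ContDiff ENNReal NNReal Topology Manifold Bundle RealInnerProductSpace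
open MeasureTheory Set Filter Metric Bundle

universe v

noncomputable section

namespace Crest.Agent.R235.SWJn_333

open Crest.Agent.R249.Tv57 Crest.Agent.R247.Ms322 Crest.Agent.R247.Dir593
open Crest.Agent.R235.SWDefs_53 Crest.Agent.R235.CptB_755 Crest.Agent.R235.Fs4_546
open Crest.Agent.R235.CptC_755 Crest.Agent.R235.Cpt_755 Crest.Agent.R235.Fred_649
open Crest.Agent.R235.Swx_333 Crest.Agent.R235.SWSym_451 Crest.Agent.R235.SWJc_365

local notation "ipp" => Crest.Agent.R249.Tv57.ip 4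

section main

variable {M : Type v} [MetricSpace M] [CompactSpace M] [ConnectedSpace M]
  [ChartedSpace (EuclideanSpace ℝ (Fin 4)) M] [IsManifold (𝓡 4) ∞ M]
  [RiemannianBundle (fun p : M => TangentSpace (𝓡 4) p)]
  [IsContMDiffRiemannianBundle (𝓡 4) ∞ (EuclideanSpace ℝ (Fin 4))
    (fun p : M => TangentSpace (𝓡 4) p)]
  [IsRiemannianManifold (𝓡 4) M] [MeasurableSpace M] [BorelSpace M]
  [SecondCountableTopology M] [Nonempty M] [IsFiniteMeasureOnCompacts (μHE[4] : Measure M)]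
  {κ0 κ1 κT : Type} [Fintype κ0] [Fintype κ1] [Fintype κT] {b bp : ℕ}

/-- the Sobolev embedding. -/
theorem e4 {κ : Type} [Fintype κ] (D : Dat 4 M κ) : Emb4 D.toAD.i1 :=
  emb4_all M κ D

/-! ### continuity, compactness, parity -/

/-- **continuity of the harmonic part**. -/
theorem cKA {S : SWS M κ0 κ1 κT} {hS : S.OK} {d : SWD M κT} (hd : d.Adm S) (H : HarB hS bp)
    {R : ℝ} (hR : 0 < R) :
    ContinuousOn (fun q : E3 × S.D0.toAD.WE => KA H d R q.1 q.2) {q | ‖q.1‖ ≤ 1} := by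
  have := finM (M := M)
  exact HQ_continuousOn (j := S.D0.toAD.i1) (nemOK hS hd hR (μHE[4] : Measure M)) H.har

theorem contL {S : SWS M κ0 κ1 κT} {d : SWD M κT} (hS : S.OK) (hd : d.Adm S) :
    ContinuousOn (fun t => (matR (bm_mth hS hd t) :
      HH (μHE[4] : Measure M) κ0 →L[ℝ] HH (μHE[4] : Measure M) κ1)) BB :=
  matR_family (bm_mth hS hd) fun _ ht0 _ hε => mth_unif hS hd ht0 hε

/-- **continuity of the Dirac part**. -/
theorem cKP {S : SWS M κ0 κ1 κT} {d : SWD M κT} (hS : S.OK) (hd : d.Adm S) (s0 : Spec S.DL)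
    {R : ℝ} (hR : 0 < R) :
    ContinuousOn (fun q : E3 × S.D0.toAD.WE => KP hS hd s0 R q.1 q.2) {q | ‖q.1‖ ≤ 1} := by
  have := finM (M := M)
  have h1 := KK_continuousOn (e4 S.D0) (e4 S.DT) (nemOK hS hd hR (μHE[4] : Measure M))
    (GG1 S s0) (cc S) (bm_cc hS) (contL hS hd)
  exact (Swx_333.PL S.D1).continuous.comp_continuousOn h1

/-- **compactness of the harmonic part**. -/
theorem cptA {S : SWS M κ0 κ1 κT} {hS : S.OK} {d : SWD M κT} (hd : d.Adm S) (H : HarB hS bp)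
    {R : ℝ} (hR : 0 < R) (ρ : ℝ) :
    ∃ C : Set (EuclideanSpace ℝ (Fin bp)), IsCompact C ∧
      ∀ (t : E3) (x : S.D0.toAD.WE), ‖t‖ ≤ 1 → ‖x‖ ≤ ρ → KA H d R t x ∈ C := by
  have := finM (M := M)
  exact HQ_compact (S.D0.toAD.compact_i1 fried4) (nemOK hS hd hR (μHE[4] : Measure M)) H.har
    isCompact_BB ρ

/-- **compactness of the Dirac part**. -/
theorem cptP {S : SWS M κ0 κ1 κT} {d : SWD M κT} (hS : S.OK) (hd : d.Adm S) (s0 : Spec S.DL)
    {R : ℝ} (hR : 0 < R) (ρ : ℝ) :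
    ∃ C : Set S.D1.toAD.HE, IsCompact C ∧
      ∀ (t : E3) (x : S.D0.toAD.WE), ‖t‖ ≤ 1 → ‖x‖ ≤ ρ → KP hS hd s0 R t x ∈ C := by
  have := finM (M := M)
  obtain ⟨C, hC, h1⟩ := KK_compact (e4 S.D0) (S.D0.toAD.compact_i1 fried4) (e4 S.DT)
    (nemOK hS hd hR (μHE[4] : Measure M)) (GG1 S s0) (cc S) (bm_cc hS) (contL hS hd)
    isCompact_BB ρ
  exact ⟨Swx_333.PL S.D1 '' C, hC.image (Swx_333.PL S.D1).continuous,
    fun t x ht hx => ⟨_, h1 t x ht hx, rfl⟩⟩

theorem Fq_even {S : SWS M κ0 κ1 κT} {d : SWD M κT} (hS : S.OK) (hd : d.Adm S)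
    {R : ℝ} (hR : 0 < R) {t : E3} (ht : ‖t‖ ≤ 1) (x : S.D0.toAD.WE) :
    Fq d R t (-x) = Fq d R t x := by
  have := finM (M := M)
  show nem (Qf S d R) t (S.D0.toAD.i1 (-x)) = nem (Qf S d R) t (S.D0.toAD.i1 x)
  rw [map_neg]
  exact nem_even (fun x v => Qf_even S d R t x v) _ (nemOK hS hd hR (μHE[4] : Measure M)) ht

/-- **the harmonic part is even**. -/
theorem evenA {S : SWS M κ0 κ1 κT} {hS : S.OK} {d : SWD M κT} (hd : d.Adm S) (H : HarB hS bp)
    {R : ℝ} (hR : 0 < R) {t : E3} (ht : ‖t‖ ≤ 1) (x : S.D0.toAD.WE) :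
    KA H d R t (-x) = KA H d R t x := by
  unfold KA
  rw [Fq_even hS hd hR ht]

/-- **the Dirac part is odd**. -/
theorem oddP {S : SWS M κ0 κ1 κT} {d : SWD M κT} (hS : S.OK) (hd : d.Adm S) (s0 : Spec S.DL)
    {R : ℝ} (hR : 0 < R) {t : E3} (ht : ‖t‖ ≤ 1) (x : S.D0.toAD.WE) :
    KP hS hd s0 R t (-x) = - KP hS hd s0 R t x := by
  have := finM (M := M)
  unfold KP
  rw [← map_neg]
  congr 1
  exact KK_odd (nemOK hS hd hR (μHE[4] : Measure M)) (GG1 S s0) (cc S) (bm_cc hS) ht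
    (fun x v => Qf_even S d R t x v) x

/-! ### no reducible solution -/

/-- the pairing of the curvature term with `(1,0)` vanishes. -/
theorem Fq_cst {S : SWS M κ0 κ1 κT} {d : SWD M κT} (hS : S.OK) (hd : d.Adm S)
    {R : ℝ} (hR : 0 < R) {t : E3} (ht : ‖t‖ ≤ 1) (x : S.D0.toAD.WE) :
    ⟪Fq d R t x, clH (cst M) sm_cst⟫ = (0 : ℝ) := by
  rw [inner_HH (Fq d R t x) (clH (cst M) sm_cst) (coe_Fq hS hd hR ht x)
    (coe_clH (cst M) sm_cst)]
  rw [← integral_zero M ℝ (μ := (μHE[4] : Measure M))]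
  refine integral_congr_ae (Eventually.of_forall fun z => ?_)
  simp only [Fin.sum_univ_succ (n := 3)]
  have r0 : rhs S d t (trc R (rp x)) 0 z = 0 := rfl
  have r1 : ∀ k : Fin 3, (cst M) k.succ z = 0 := fun k => rfl
  simp only [r0, r1, zero_mul, mul_zero, Finset.sum_const_zero, add_zero]

/-- **irreducibility**. -/
theorem irred {S : SWS M κ0 κ1 κT} {hS : S.OK} {d : SWD M κT} (hd : d.Adm S) (H : HarB hS bp)
    {R : ℝ} (hR : 0 < R) {t : E3} (ht : ‖t‖ ≤ 1)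
    (hfix : ∃ φ : Fin 4 → M → ℝ, SmV (n := 4) φ ∧ (∀ x z, S.H.A φ x z = 0) ∧
      ipp (rhs S d t 0) φ ≠ 0) : KA H d R t (0 : S.D0.toAD.WE) ≠ 0 := by
  intro h
  obtain ⟨φ, hφ, hker, hne⟩ := hfix
  refine hne ?_
  have h1 := H.perp (Fq d R t (0 : S.D0.toAD.WE)) (Fq_cst hS hd hR ht 0) h φ hφ hker
  rw [inner_HH (Fq d R t (0 : S.D0.toAD.WE)) (clH φ hφ) (coe_Fq hS hd hR ht 0)
    (coe_clH φ hφ)] at h1
  rw [← h1]
  unfold Crest.Agent.R249.Tv57.ip
  refine integral_congr_ae ?_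
  have e0 : ∀ᵐ z ∂(μHE[4] : Measure M), ∀ a, (S.D0.toAD.i1 0 a : M → ℝ) z = 0 := by
    rw [ae_all_iff]
    intro a
    have : S.D0.toAD.i1 0 = 0 := map_zero _
    rw [this]
    exact Lp.coeFn_zero ℝ 2 (μHE[4] : Measure M)
  filter_upwards [e0] with z hz
  refine Finset.sum_congr rfl fun l _ => ?_
  congr 1
  have e1 : (fun a => rp (0 : S.D0.toAD.WE) a z) = (0 : κ0 → ℝ) := funext hz
  rw [rhs_eq, e1]
  refine Fin.cases ?_ (fun k => ?_) l
  · rfl
  · rw [Qf_at_zero]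
    show d.mu t z * ((1 / 2) * S.rq k 0 z) + d.r * d.wt t k z + d.et t k z = _
    have e2 : S.rq k (0 : κ0 → M → ℝ) z = 0 := by
      unfold SWS.rq
      simp
    rw [e2]
    ring

end main

end Crest.Agent.R235.SWJn_333

end
end

-- ▼ part R235/SWJz_333

/-!
Row 235 (S0364), node SWJA (owner helper365), leaf (b) (helper333), part 2.

* `zero_iff`       : zeros = solutions of the truncated twisted system;
* `conv`           : bounded solutions of the true twisted system are zeros.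
-/

set_option autoImplicit false
set_option maxSynthPendingDepth 3
set_option linter.unusedSectionVars false

open scoped ContDiff ENNReal NNReal Topology Manifold Bundle RealInnerProductSpace
open MeasureTheory Set Filter Metric Bundle

universe v

noncomputable section

namespace Crest.Agent.R235.SWJn_333

open Crest.Agent.R249.Tv57 Crest.Agent.R247.Ms322 Crest.Agent.R247.Dir593
open Crest.Agent.R235.SWDefs_53 Crest.Agent.R235.CptB_755 Crest.Agent.R235.Fs4_546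
open Crest.Agent.R235.CptC_755 Crest.Agent.R235.Cpt_755 Crest.Agent.R235.Fred_649
open Crest.Agent.R235.Swx_333 Crest.Agent.R235.SWSym_451 Crest.Agent.R235.SWJc_365

local notation "ipp" => Crest.Agent.R249.Tv57.ip 4

section main

variable {M : Type v} [MetricSpace M] [CompactSpace M] [ConnectedSpace M]
  [ChartedSpace (EuclideanSpace ℝ (Fin 4)) M] [IsManifold (𝓡 4) ∞ M]
  [RiemannianBundle (fun p : M => TangentSpace (𝓡 4) p)]
  [IsContMDiffRiemannianBundle (𝓡 4) ∞ (EuclideanSpace ℝ (Fin 4))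
    (fun p : M => TangentSpace (𝓡 4) p)]
  [IsRiemannianManifold (𝓡 4) M] [MeasurableSpace M] [BorelSpace M]
  [SecondCountableTopology M] [Nonempty M] [IsFiniteMeasureOnCompacts (μHE[4] : Measure M)]
  {κ0 κ1 κT : Type} [Fintype κ0] [Fintype κ1] [Fintype κT] {b bp : ℕ}

/-! ### coordinates of the Dirac part -/

theorem coe_lin {κ ι : Type} [Fintype κ] [DecidableEq ι] (s : Finset ι) (c : ι → ℝ)
    (F : ι → HH (μHE[4] : Measure M) κ) (g : ι → κ → M → ℝ)
    (hF : ∀ i, ∀ᵐ z ∂(μHE[4] : Measure M), ∀ y, (F i y : M → ℝ) z = g i y z) :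
    ∀ᵐ z ∂(μHE[4] : Measure M), ∀ y,
      (((∑ i ∈ s, c i • F i : HH (μHE[4] : Measure M) κ) y : Lp ℝ 2 (μHE[4] : Measure M)) :
        M → ℝ) z = ∑ i ∈ s, c i * g i y z := by
  induction s using Finset.induction_on with
  | empty =>
    rw [ae_all_iff]
    intro y
    simp only [Finset.sum_empty]
    exact Lp.coeFn_zero ℝ 2 (μHE[4] : Measure M)
  | insert a s ha ih =>
    have h1 : ∀ᵐ z ∂(μHE[4] : Measure M), ∀ y,
        (((c a • F a + ∑ i ∈ s, c i • F i : HH (μHE[4] : Measure M) κ) y :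
          Lp ℝ 2 (μHE[4] : Measure M)) : M → ℝ) z =
        (((c a • F a : HH (μHE[4] : Measure M) κ) y : Lp ℝ 2 (μHE[4] : Measure M)) : M → ℝ) z +
        (((∑ i ∈ s, c i • F i : HH (μHE[4] : Measure M) κ) y :
          Lp ℝ 2 (μHE[4] : Measure M)) : M → ℝ) z := by
      rw [ae_all_iff]
      intro y
      exact Lp.coeFn_add ((c a • F a : HH (μHE[4] : Measure M) κ) y)
        ((∑ i ∈ s, c i • F i : HH (μHE[4] : Measure M) κ) y)
    have h2 : ∀ᵐ z ∂(μHE[4] : Measure M), ∀ y,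
        (((c a • F a : HH (μHE[4] : Measure M) κ) y : Lp ℝ 2 (μHE[4] : Measure M)) : M → ℝ) z =
        c a * (F a y : M → ℝ) z := by
      rw [ae_all_iff]
      intro y
      exact Lp.coeFn_smul (c a) (F a y)
    filter_upwards [h1, h2, ih, hF a] with z e1 e2 e3 e4 y
    rw [Finset.sum_insert ha, Finset.sum_insert ha, e1 y, e2 y, e3 y, e4 y]

theorem cm_add {S : SWS M κ0 κ1 κT} (a a' : κT → M → ℝ) (u : κ0 → M → ℝ) (x : κ1) (z : M) :
    S.cm (a + a') u x z = S.cm a u x z + S.cm a' u x z := by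
  unfold SWS.cm
  simp only [Pi.add_apply, add_mul, Finset.sum_add_distrib]

theorem cm_fm {S : SWS M κ0 κ1 κT} (j : JD M κT b) (h : Fin b → ℝ) (u : κ0 → M → ℝ) (x : κ1)
    (z : M) : S.cm (j.fm h) u x z = ∑ i, h i * S.cm (fi j i) u x z := by
  unfold SWS.cm
  simp only [fm_eq, Finset.mul_sum, Finset.sum_mul]
  rw [Finset.sum_comm]
  rw [Finset.sum_congr rfl fun y _ => Finset.sum_comm]
  rw [Finset.sum_comm]
  refine Finset.sum_congr rfl fun i _ => ?_
  rw [Finset.sum_comm]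
  exact Finset.sum_congr rfl fun A _ => Finset.sum_congr rfl fun y _ => by ring

/-- the sum of the linear terms. -/
theorem coe_sumLI {S : SWS M κ0 κ1 κT} {j : JD M κT b} (hS : S.OK) (hj : j.OK S)
    (h : Fin b → ℝ) (x : S.D0.toAD.WE) : ∀ᵐ z ∂(μHE[4] : Measure M), ∀ y,
      (((∑ i, h i • LI hS hj i x : S.D1.toAD.HE) : HH (μHE[4] : Measure M) κ1) y : M → ℝ) z =
        S.cm (j.fm h) (rp x) y z := by
  have h1 := coe_lin Finset.univ h
    (fun i => ((LI hS hj i x : S.D1.toAD.HE) : HH (μHE[4] : Measure M) κ1))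
    (fun i y z => S.cm (fi j i) (rp x) y z) (fun i => coe_LI hS hj i x)
  have h2 : ((∑ i, h i • LI hS hj i x : S.D1.toAD.HE) : HH (μHE[4] : Measure M) κ1) =
      ∑ i, h i • ((LI hS hj i x : S.D1.toAD.HE) : HH (μHE[4] : Measure M) κ1) := by
    rw [Submodule.coe_sum]
    rfl
  rw [h2]
  filter_upwards [h1] with z e1 y
  rw [e1 y, cm_fm]

/-- **the nonlinear side of the twisted Dirac equation**. -/
theorem coe_tot {S : SWS M κ0 κ1 κT} {j : JD M κT b} {d : SWD M κT} (hS : S.OK) (hj : j.OK S)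
    (hd : d.Adm S) (s0 : Spec S.DL) (R : ℝ) (h : Fin b → ℝ) (t : E3) (x : S.D0.toAD.WE) :
    ∀ᵐ z ∂(μHE[4] : Measure M), ∀ y,
      (((-(∑ i, h i • LI hS hj i x + KP hS hd s0 R t x) : S.D1.toAD.HE) :
        HH (μHE[4] : Measure M) κ1) y : M → ℝ) z =
      - S.cm (rp (GG1 S s0 (Fq d R t x)) + (d.tw j h).th t) (rp x) y z := by
  have h1 : ((-(∑ i, h i • LI hS hj i x + KP hS hd s0 R t x) : S.D1.toAD.HE) :
      HH (μHE[4] : Measure M) κ1) =
      -(((∑ i, h i • LI hS hj i x : S.D1.toAD.HE) : HH (μHE[4] : Measure M) κ1) +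
        KKt hS hd s0 R t x) := by
    have h2 : ((KP hS hd s0 R t x : S.D1.toAD.HE) : HH (μHE[4] : Measure M) κ1) =
        KKt hS hd s0 R t x := P_KKt hS hd s0 (e4 S.D0) (e4 S.DT) R t x
    rw [← h2]
    rfl
  rw [h1]
  set A := ((∑ i, h i • LI hS hj i x : S.D1.toAD.HE) : HH (μHE[4] : Measure M) κ1) with hA
  set K := KKt hS hd s0 R t x with hK
  have h3 : ∀ᵐ z ∂(μHE[4] : Measure M), ∀ y,
      (((-(A + K) : HH (μHE[4] : Measure M) κ1) y : Lp ℝ 2 (μHE[4] : Measure M)) : M → ℝ) z =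
        -((A + K : HH (μHE[4] : Measure M) κ1) y : M → ℝ) z := by
    rw [ae_all_iff]
    intro y
    exact Lp.coeFn_neg ((A + K : HH (μHE[4] : Measure M) κ1) y)
  have h4 : ∀ᵐ z ∂(μHE[4] : Measure M), ∀ y,
      (((A + K : HH (μHE[4] : Measure M) κ1) y : Lp ℝ 2 (μHE[4] : Measure M)) : M → ℝ) z =
        (A y : M → ℝ) z + (K y : M → ℝ) z := by
    rw [ae_all_iff]
    intro y
    exact Lp.coeFn_add (A y) (K y)
  filter_upwards [h3, h4, coe_sumLI hS hj h x,
    coe_KKt hS hd s0 (e4 S.D0) (e4 S.DT) R t x] with z f1 f2 f3 f4 y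
  rw [f1 y, f2 y, f3 y, f4 y]
  have h5 : (rp (GG1 S s0 (Fq d R t x)) + (d.tw j h).th t : κT → M → ℝ) =
      j.fm h + (rp (GG1 S s0 (Fq d R t x)) + d.th t) := by
    have : (d.tw j h).th t = d.th t + j.fm h := rfl
    rw [this]
    abel
  rw [h5, cm_add (j.fm h) (rp (GG1 S s0 (Fq d R t x)) + d.th t)]

/-- the harmonic part vanishes if the curvature equation has a solution. -/
theorem KA_of_wk {S : SWS M κ0 κ1 κT} {hS : S.OK} {d : SWD M κT} (H : HarB hS bp) {R : ℝ}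
    {t : E3} {x : S.D0.toAD.WE} {a : κT → M → ℝ} {f : Fin 4 → M → ℝ}
    (hf : ∀ᵐ z ∂(μHE[4] : Measure M), ∀ l, (Fq d R t x l : M → ℝ) z = f l z)
    (h : WkA S.H.swap a f) : KA H d R t x = 0 := by
  ext i
  show H.har (Fq d R t x) i = 0
  rw [H.har_apply, real_inner_comm, inner_HH (Fq d R t x) (clH (H.ph i) (H.sm i)) hf
    (coe_clH (H.ph i) (H.sm i))]
  have h1 := h.2.2 (H.ph i) (H.sm i) (sec_full hS _)
  have h2 : S.H.swap.B (H.ph i) = 0 := by
    funext b z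
    exact H.ker i b z
  rw [h2] at h1
  have h3 : ipp a (0 : κT → M → ℝ) = 0 := by
    unfold Crest.Agent.R249.Tv57.ip
    simp
  exact h1.trans h3

/-- the curvature equation, solved by the Green operator. -/
theorem cur_of_KA {S : SWS M κ0 κ1 κT} {hS : S.OK} {d : SWD M κT} (hd : d.Adm S)
    (s0 : Spec S.DL) (H : HarB hS bp) {R : ℝ} (hR : 0 < R) {t : E3} (ht : ‖t‖ ≤ 1)
    {x : S.D0.toAD.WE} (h : KA H d R t x = 0) :
    WkA S.H.swap (rp (GG1 S s0 (Fq d R t x))) (rhs S d t (trc R (rp x))) ∧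
      NoHarm S (rp (GG1 S s0 (Fq d R t x))) := by
  obtain ⟨sT⟩ := spec4 S.DT (exists_p_ne S.H s0)
  refine (cur_iff S s0 sT (a := rp (GG1 S s0 (Fq d R t x))) (A := GG1 S s0 (Fq d R t x))
    (fun _ => EventuallyEq.rfl) (f := rhs S d t (trc R (rp x)))
    (F := (⟨Fq d R t x, dl_P hS _⟩ : S.DL.toAD.HE)) (fun b => by
      filter_upwards [coe_Fq hS hd hR ht x] with z e
      exact e b)).2 ⟨rfl, fun l hl => ?_⟩
  exact H.perp (Fq d R t x) (Fq_cst hS hd hR ht x) h (s0.φ l) (s0.smooth l) (by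
    intro b z
    exact congrArg (fun v : SmS S.DT => v.1 b z) (lA_ker S.H s0 (s0.mem_ker.1 hl)))

/-- **zeros are solutions of the truncated twisted system**. -/
theorem zero_iff {S : SWS M κ0 κ1 κT} {j : JD M κT b} {d : SWD M κT} (hS : S.OK) (hj : j.OK S)
    (hd : d.Adm S) (s0 : Spec S.DL) (H : HarB hS bp) {R : ℝ} (hR : 0 < R) (h : Fin b → ℝ)
    {t : E3} (ht : ‖t‖ ≤ 1) (x : S.D0.toAD.WE) :
    (KA H d R t x = 0 ∧ Ah S.P x + ∑ i, h i • LI hS hj i x + KP hS hd s0 R t x = 0) ↔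
      TSol S (d.tw j h) R t (rp (GG1 S s0 (Fq d R t x))) (rp x) := by
  have hdir := wkA_iff_eq (P := S.P) (u := rp x) (U := x) (fun _ => EventuallyEq.rfl)
    (f := fun y z => - S.cm (rp (GG1 S s0 (Fq d R t x)) + (d.tw j h).th t) (rp x) y z)
    (F := -(∑ i, h i • LI hS hj i x + KP hS hd s0 R t x)) (fun y => by
      filter_upwards [coe_tot hS hj hd s0 R h t x] with z e
      exact e y)
  have hsum : Ah S.P x + ∑ i, h i • LI hS hj i x + KP hS hd s0 R t x = 0 ↔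
      Ah S.P x = -(∑ i, h i • LI hS hj i x + KP hS hd s0 R t x) := by
    rw [add_assoc]
    exact add_eq_zero_iff_eq_neg
  constructor
  · rintro ⟨h1, h2⟩
    have hc := cur_of_KA hd s0 H hR ht h1
    exact ⟨inW_rp _, inW_rp _, hdir.2 (hsum.1 h2), hc.1, hc.2⟩
  · intro hT
    refine ⟨KA_of_wk H (coe_Fq hS hd hR ht x) hT.cur, hsum.2 (hdir.1 hT.dir)⟩


end main

end Crest.Agent.R235.SWJn_333

end
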