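import Crest.Agent.R235.SWJDefs_53
import Crest.Agent.R235.SWTd_451
import Crest.Agent.R235.SWZerA_463
import Crest.Agent.R235.Fred_649
import Crest.Agent.R235.Swx4_333
import Crest.Agent.R235.FDADef_365
import Crest.Agent.R235.SwjDef_844
import Crest.Agent.R235.SWJz_333_Mg
import Crest.Agent.R235.SWJqq_649_Mg
import Crest.Agent.R235.SWJ1_133
import Crest.Agent.R235.SWJd_952

-- ▼ part R235/SWZerB_463
section

/-!
Row 235 (S0364), PACKAGE SW, task 445 (helper463), part B: pointwise algebra of the eigenline `E`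
for `Sym S cc`, the Leibniz rule of `∇^E` for `f U + g i U`, circle valued functions (`Cm`).
-/

set_option autoImplicit false
set_option maxSynthPendingDepth 3
set_option linter.unusedSectionVars false
set_option linter.unusedVariables false

open scoped ContDiff ENNReal NNReal Topology Manifold Bundle RealInnerProductSpace
open MeasureTheory Set Filter Metric Bundle

universe v

namespace Crest.Agent.R235.SWZerB_463

open Crest.Agent.R249.Tv57 Crest.Agent.R247.Ms322 Crest.Agent.R247.Dir593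
open Crest.Agent.R247.Frd657
open Crest.Agent.R235.SWDefs_53 Crest.Agent.R235.SWSym_451 Crest.Agent.R235.SWTd_451
open Crest.Agent.R235.SWZerA_463

noncomputable section

local notation "𝔼4" => EuclideanSpace ℝ (Fin 4)

/-! ### constants -/

section const

variable {n : ℕ} {M : Type*} [MetricSpace M] [ChartedSpace (EuclideanSpace ℝ (Fin n)) M]
  [IsManifold (𝓡 n) ∞ M]
  [RiemannianBundle (fun p : M => TangentSpace (𝓡 n) p)]
  [IsContMDiffRiemannianBundle (𝓡 n) ∞ (EuclideanSpace ℝ (Fin n)) (fun p : M => TangentSpace (𝓡 n) p)]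
  [IsRiemannianManifold (𝓡 n) M] [MeasurableSpace M] [BorelSpace M]
  [SecondCountableTopology M] [Nonempty M]

local notation "𝔼" => EuclideanSpace ℝ (Fin n)

/-- a function with vanishing gradient is locally constant. -/
theorem ev_const_of_Gr {f : M → ℝ} (hf : ∀ y, MDifferentiableAt (𝓡 n) 𝓘(ℝ, ℝ) f y)
    (hG : ∀ y, Gr (n := n) f y = 0) (z : M) : ∀ᶠ y in 𝓝 z, f y = f z := by
  have hz := mem_chart_source 𝔼 z
  have hat := (chartAt 𝔼 z).map_source hz
  have h1 : ∀ᶠ b in 𝓝 (chartAt 𝔼 z z), b ∈ (chartAt 𝔼 z).target :=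
    (chartAt 𝔼 z).open_target.mem_nhds hat
  obtain ⟨r, hr, hball⟩ := Metric.eventually_nhds_iff_ball.1 h1
  have hd : ∀ b ∈ ball (chartAt 𝔼 z z) r,
      DifferentiableAt ℝ (fun b => f ((chartAt 𝔼 z).symm b)) b := by
    intro b hb
    have h3 : MDifferentiableAt (𝓡 n) (𝓡 n) (chartAt 𝔼 z).symm b :=
      ((contMDiffOn_chart_symm (I := 𝓡 n) (n := ∞) (x := z)).contMDiffAt
        ((chartAt 𝔼 z).open_target.mem_nhds (hball b hb))).mdifferentiableAt (by simp)
    exact ((hf _).comp b h3).differentiableAt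
  have h0 : ∀ b ∈ ball (chartAt 𝔼 z z) r, fderiv ℝ (fun b => f ((chartAt 𝔼 z).symm b)) b = 0 := by
    intro b hb
    have hbt := hball b hb
    ext v
    rw [fderiv_eq_sum]
    simp only [zero_apply]
    refine Finset.sum_eq_zero fun i _ => ?_
    have h4 := inner_Ef_Gr z ((chartAt 𝔼 z).map_target hbt) i f
    rw [hG, inner_zero_right, (chartAt 𝔼 z).right_inv hbt] at h4
    rw [← h4, mul_zero]
  have hcst : ∀ b ∈ ball (chartAt 𝔼 z z) r,
      f ((chartAt 𝔼 z).symm b) = f ((chartAt 𝔼 z).symm (chartAt 𝔼 z z)) := by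
    intro b hb
    refine (convex_ball (chartAt 𝔼 z z) r).is_const_of_fderivWithin_eq_zero (𝕜 := ℝ)
      (f := fun b => f ((chartAt 𝔼 z).symm b))
      (fun w hw => (hd w hw).differentiableWithinAt) ?_ hb (mem_ball_self hr)
    intro w hw
    rw [fderivWithin_of_isOpen isOpen_ball hw]
    exact h0 w hw
  have h5 : ∀ᶠ y in 𝓝 z, chartAt 𝔼 z y ∈ ball (chartAt 𝔼 z z) r :=
    ((chartAt 𝔼 z).continuousAt hz).eventually (ball_mem_nhds _ hr)
  filter_upwards [h5, (chartAt 𝔼 z).open_source.mem_nhds hz] with y hy hy'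
  have h6 := hcst _ hy
  rwa [(chartAt 𝔼 z).left_inv hy', (chartAt 𝔼 z).left_inv hz] at h6

/-- a function with vanishing gradient on a connected manifold is constant. -/
theorem const_of_Gr [ConnectedSpace M] {f : M → ℝ}
    (hf : ∀ y, MDifferentiableAt (𝓡 n) 𝓘(ℝ, ℝ) f y)
    (hG : ∀ y, Gr (n := n) f y = 0) (y z : M) : f y = f z := by
  have h1 : IsLocallyConstant f := (IsLocallyConstant.iff_eventually_eq f).2 fun z =>
    ev_const_of_Gr hf hG z
  exact h1.apply_eq_of_isPreconnected isPreconnected_univ (mem_univ _) (mem_univ _)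

end const

section basic

variable {M : Type v} [MetricSpace M] [ChartedSpace (EuclideanSpace ℝ (Fin 4)) M]
  [IsManifold (𝓡 4) ∞ M]
  [RiemannianBundle (fun p : M => TangentSpace (𝓡 4) p)]
  [IsContMDiffRiemannianBundle (𝓡 4) ∞ (EuclideanSpace ℝ (Fin 4))
    (fun p : M => TangentSpace (𝓡 4) p)]
  [IsRiemannianManifold (𝓡 4) M] [MeasurableSpace M] [BorelSpace M]
  [SecondCountableTopology M] [Nonempty M]

/-! ### circle valued functions -/

/-- `f : M → U(1)` smooth, `df = 2 π i V f`. -/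
structure Cm (V : M → EuclideanSpace ℝ (Fin 4)) (f : M → ℂ) : Prop where
  smr : ContMDiff (𝓡 4) 𝓘(ℝ, ℝ) ∞ (fun z => (f z).re)
  smi : ContMDiff (𝓡 4) 𝓘(ℝ, ℝ) ∞ (fun z => (f z).im)
  nrm : ∀ z, (f z).re ^ 2 + (f z).im ^ 2 = 1
  dr : ∀ z, Gr (n := 4) (fun z => (f z).re) z = (-(2 * Real.pi * (f z).im)) • V z
  di : ∀ z, Gr (n := 4) (fun z => (f z).im) z = (2 * Real.pi * (f z).re) • V z

namespace Cm

variable {V W : M → 𝔼4} {f g : M → ℂ}

theorem congr (h : Cm V f) (hV : ∀ z, W z = V z) (hf : ∀ z, g z = f z) : Cm W g := by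
  have e1 : W = V := funext hV
  have e2 : g = f := funext hf
  rw [e1, e2]
  exact h

theorem one : Cm (fun _ : M => (0 : 𝔼4)) (fun _ => 1) where
  smr := contMDiff_const
  smi := contMDiff_const
  nrm := fun z => by simp
  dr := fun z => by
    rw [smul_zero]
    exact Gr_const (n := 4) _ z
  di := fun z => by
    rw [smul_zero]
    exact Gr_const (n := 4) _ z

theorem mul (h : Cm V f) (h' : Cm W g) : Cm (fun z => V z + W z) (fun z => f z * g z) where
  smr := by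
    have : (fun z => (f z * g z).re) = fun z => (f z).re * (g z).re - (f z).im * (g z).im := by
      funext z; exact Complex.mul_re _ _
    rw [this]
    exact (h.smr.mul h'.smr).sub (h.smi.mul h'.smi)
  smi := by
    have : (fun z => (f z * g z).im) = fun z => (f z).re * (g z).im + (f z).im * (g z).re := by
      funext z; exact Complex.mul_im _ _
    rw [this]
    exact (h.smr.mul h'.smi).add (h.smi.mul h'.smr)
  nrm := fun z => by
    have e1 := h.nrm z
    have e2 := h'.nrm z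
    rw [Complex.mul_re, Complex.mul_im]
    calc _ = ((f z).re ^ 2 + (f z).im ^ 2) * ((g z).re ^ 2 + (g z).im ^ 2) := by ring
      _ = 1 := by rw [e1, e2, one_mul]
  dr := fun z => by
    have : (fun z => (f z * g z).re) = fun z => (f z).re * (g z).re + (-1) * ((f z).im * (g z).im) := by
      funext z; rw [Complex.mul_re]; ring
    rw [this, Gr_add ((md h.smr z).mul (md h'.smr z))
      (f := fun z => (f z).re * (g z).re) (g := fun z => (-1) * ((f z).im * (g z).im))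
      ((md (contMDiff_const.mul (h.smi.mul h'.smi)) z)),
      Gr_mul (md h.smr z) (md h'.smr z),
      Gr_const_mul (f := fun z => (f z).im * (g z).im) _ (md (h.smi.mul h'.smi) z),
      Gr_mul (md h.smi z) (md h'.smi z), h.dr, h.di, h'.dr, h'.di, Complex.mul_im]
    module
  di := fun z => by
    have : (fun z => (f z * g z).im) = fun z => (f z).re * (g z).im + (f z).im * (g z).re := by
      funext z; exact Complex.mul_im _ _
    rw [this, Gr_add (f := fun z => (f z).re * (g z).im) (g := fun z => (f z).im * (g z).re)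
      (md (h.smr.mul h'.smi) z) (md (h.smi.mul h'.smr) z),
      Gr_mul (md h.smr z) (md h'.smi z), Gr_mul (md h.smi z) (md h'.smr z), h.dr, h.di, h'.dr,
      h'.di, Complex.mul_re]
    module

theorem inv_eq (h : Cm V f) (z : M) : (f z)⁻¹ = ⟨(f z).re, - (f z).im⟩ := by
  have h1 : Complex.normSq (f z) = 1 := by
    rw [Complex.normSq_apply, ← sq, ← sq]
    exact h.nrm z
  rw [Complex.inv_def, h1]
  simp [Complex.ext_iff]

theorem ne_zero (h : Cm V f) (z : M) : f z ≠ 0 := by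
  intro h0
  have := h.nrm z
  rw [h0] at this
  simp at this

theorem norm_eq (h : Cm V f) (z : M) : ‖f z‖ = 1 := by
  have h1 : ‖f z‖ ^ 2 = 1 := by
    rw [← Complex.normSq_eq_norm_sq, Complex.normSq_apply, ← sq, ← sq]
    exact h.nrm z
  exact (pow_eq_one_iff_of_nonneg (norm_nonneg _) two_ne_zero).1 h1

theorem inv (h : Cm V f) : Cm (fun z => - V z) (fun z => (f z)⁻¹) where
  smr := by
    have : (fun z => ((f z)⁻¹).re) = fun z => (f z).re := by
      funext z; rw [h.inv_eq]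
    rw [this]
    exact h.smr
  smi := by
    have : (fun z => ((f z)⁻¹).im) = fun z => (-1) * (f z).im := by
      funext z; rw [h.inv_eq]; ring
    rw [this]
    exact contMDiff_const.mul h.smi
  nrm := fun z => by
    rw [h.inv_eq]
    have := h.nrm z
    simpa using this
  dr := fun z => by
    have : (fun z => ((f z)⁻¹).re) = fun z => (f z).re := by
      funext z; rw [h.inv_eq]
    rw [this, h.dr, h.inv_eq]
    simp
  di := fun z => by
    have : (fun z => ((f z)⁻¹).im) = fun z => (-1) * (f z).im := by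
      funext z; rw [h.inv_eq]; ring
    rw [this, Gr_const_mul _ (md h.smi z), h.di, h.inv_eq]
    simp

theorem npow (h : Cm V f) (k : ℕ) : Cm (fun z => (k : ℝ) • V z) (fun z => f z ^ k) := by
  induction k with
  | zero => exact one.congr (fun z => by simp) (fun z => by simp)
  | succ k ih =>
    refine (ih.mul h).congr (fun z => ?_) (fun z => pow_succ _ _)
    push_cast
    rw [add_smul, one_smul]

theorem zpow (h : Cm V f) (k : ℤ) : Cm (fun z => (k : ℝ) • V z) (fun z => f z ^ k) := by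
  cases k with
  | ofNat k => exact (h.npow k).congr (fun z => by simp) (fun z => by simp)
  | negSucc k =>
    refine ((h.npow (k + 1)).inv).congr (fun z => ?_) (fun z => zpow_negSucc _ _)
    rw [Int.cast_negSucc, neg_smul]

theorem prod {ι : Type*} (s : Finset ι) {V : ι → M → 𝔼4} {f : ι → M → ℂ}
    (h : ∀ i ∈ s, Cm (V i) (f i)) : Cm (fun z => ∑ i ∈ s, V i z) (fun z => ∏ i ∈ s, f i z) := by
  classical
  induction s using Finset.induction_on with
  | empty => exact one.congr (fun z => by simp) (fun z => by simp)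
  | insert i s hi ih =>
    refine ((h i (Finset.mem_insert_self i s)).mul
      (ih fun j hj => h j (Finset.mem_insert_of_mem hj))).congr (fun z => ?_) (fun z => ?_)
    · rw [Finset.sum_insert hi]
    · rw [Finset.prod_insert hi]

theorem const [ConnectedSpace M] (h : Cm (fun _ => 0) f) (y z : M) : f y = f z := by
  apply Complex.ext
  · exact const_of_Gr (n := 4) (f := fun z => (f z).re) (fun y => md h.smr y)
      (fun y => by rw [h.dr, smul_zero]) y z
  · exact const_of_Gr (n := 4) (f := fun z => (f z).im) (fun y => md h.smi y)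
      (fun y => by rw [h.di, smul_zero]) y z

end Cm

end basic

section main

variable {M : Type v} [MetricSpace M] [CompactSpace M] [ConnectedSpace M]
  [ChartedSpace (EuclideanSpace ℝ (Fin 4)) M] [IsManifold (𝓡 4) ∞ M]
  [RiemannianBundle (fun p : M => TangentSpace (𝓡 4) p)]
  [IsContMDiffRiemannianBundle (𝓡 4) ∞ (EuclideanSpace ℝ (Fin 4))
    (fun p : M => TangentSpace (𝓡 4) p)]
  [IsRiemannianManifold (𝓡 4) M] [MeasurableSpace M] [BorelSpace M]
  [SecondCountableTopology M] [Nonempty M]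
  {κ0 κ1 κT : Type} [Fintype κ0] [Fintype κ1] [Fintype κT]
  {S : SWS M κ0 κ1 κT} {cc : κ1 → κ0 → M → EuclideanSpace ℝ (Fin 4)} {τ : TD M κT}

/-! ### matrices -/

/-- the matrices at `z`. -/
def pM (S : SWS M κ0 κ1 κT) (z : M) : Matrix κ0 κ0 ℝ := fun y y' => S.D0.p y y' z
def JM (S : SWS M κ0 κ1 κT) (z : M) : Matrix κ0 κ0 ℝ := fun y y' => S.J y y' z
def rM (S : SWS M κ0 κ1 κT) (z : M) (k : Fin 3) : Matrix κ0 κ0 ℝ := fun y y' => S.rho k y y' z

theorem pt (H : Sym S cc) (z : M) : Pt (pM S z) (JM S z) (rM S z) where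
  symp := by
    ext i j
    exact S.D0.symmp j i z
  idem := by
    ext i j
    exact S.D0.idem i j z
  tr := H.rk0 z
  skew := by
    ext i j
    exact H.skewJ j i z
  pJ := by
    ext i j
    exact H.pJ i j z
  JJ := by
    ext i j
    exact H.Jsq i j z
  symρ := fun k => by
    ext i j
    exact H.symrho k j i z
  pρ := fun k => by
    ext i j
    exact H.prho k i j z
  Jρ := fun k => by
    ext i j
    exact H.Jrho k i j z
  anti := fun j k => by
    ext a b
    have h := H.anti j k a b z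
    rw [Finset.sum_add_distrib] at h
    rw [Matrix.add_apply, Matrix.mul_apply, Matrix.mul_apply]
    refine h.trans ?_
    split_ifs
    · rfl
    · rfl

theorem RR_mulVec {κ : Type} [Fintype κ] (ρ : Fin 3 → Matrix κ κ ℝ) (n : Fin 3 → ℝ) (v : κ → ℝ)
    (y : κ) : (RR ρ n).mulVec v y = ∑ k, ∑ y', n k * ρ k y y' * v y' := by
  simp only [RR, Matrix.mulVec, dotProduct, Matrix.sum_apply, Matrix.smul_apply, smul_eq_mul,
    Finset.sum_mul]
  rw [Finset.sum_comm]

theorem secp {s : κ0 → M → ℝ} (hs : S.D0.Sec s) (z : M) :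
    (pM S z).mulVec (fun y => s y z) = fun y => s y z := by
  funext y
  exact hs y z

theorem secR {s : κ0 → M → ℝ} (hs : τ.SecE S s) (z : M) :
    (RR (rM S z) (fun k => τ.n k z)).mulVec (fun y => s y z) = - fun y => s y z := by
  funext y
  rw [RR_mulVec]
  exact hs.2 y z


theorem sec_iu (H : Sym S cc) (u : κ0 → M → ℝ) : S.D0.Sec (S.iu u) := by
  intro y z
  have h1 : (pM S z).mulVec ((JM S z).mulVec fun y => u y z) =
      (JM S z).mulVec fun y => u y z := by
    rw [Matrix.mulVec_mulVec, (pt H z).pJ]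
  exact congrFun h1 y

theorem secE_iu (H : Sym S cc) {u : κ0 → M → ℝ} (hu : τ.SecE S u) : τ.SecE S (S.iu u) := by
  classical
  refine ⟨sec_iu H u, fun y z => ?_⟩
  have h1 : (RR (rM S z) (fun k => τ.n k z)).mulVec ((JM S z).mulVec fun y => u y z) =
      - (JM S z).mulVec fun y => u y z := by
    rw [Matrix.mulVec_mulVec, ← (pt H z).JR, ← Matrix.mulVec_mulVec, secR hu, Matrix.mulVec_neg]
  have h2 := congrFun h1 y
  rw [RR_mulVec] at h2
  exact h2

theorem iu_iu (H : Sym S cc) {u : κ0 → M → ℝ} (hu : S.D0.Sec u) (y : κ0) (z : M) :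
    S.iu (S.iu u) y z = - u y z := by
  have h1 : (JM S z).mulVec ((JM S z).mulVec fun y => u y z) = - fun y => u y z := by
    rw [Matrix.mulVec_mulVec, (pt H z).JJ, Matrix.neg_mulVec, secp hu]
  exact congrFun h1 y

theorem iu_lin (S : SWS M κ0 κ1 κT) (f g : M → ℝ) (u w : κ0 → M → ℝ) (y : κ0) (z : M) :
    S.iu (fun y z => f z * u y z + g z * w y z) y z = f z * S.iu u y z + g z * S.iu w y z := by
  unfold SWS.iu
  rw [Finset.mul_sum, Finset.mul_sum, ← Finset.sum_add_distrib]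
  exact Finset.sum_congr rfl fun y' _ => by ring

theorem smV_iu (H : Sym S cc) {u : κ0 → M → ℝ} (hu : SmV (n := 4) u) : SmV (n := 4) (S.iu u) :=
  fun y => contMDiff_finsetSum fun y' _ => (H.smJ y y').mul (hu y')

/-- `⟨i u, w⟩ = - ⟨u, i w⟩`. -/
theorem ip_iu (H : Sym S cc) (u w : κ0 → M → ℝ) (z : M) :
    ∑ y, S.iu u y z * w y z = - ∑ y, u y z * S.iu w y z := by
  unfold SWS.iu
  simp only [Finset.sum_mul, Finset.mul_sum]
  rw [Finset.sum_comm, ← Finset.sum_neg_distrib]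
  refine Finset.sum_congr rfl fun y _ => ?_
  rw [← Finset.sum_neg_distrib]
  refine Finset.sum_congr rfl fun y' _ => ?_
  rw [H.skewJ y' y z]
  ring

theorem ip_self_iu (H : Sym S cc) (u : κ0 → M → ℝ) (z : M) : ∑ y, u y z * S.iu u y z = 0 := by
  have h1 := ip_iu H u u z
  have h2 : ∑ y, S.iu u y z * u y z = ∑ y, u y z * S.iu u y z :=
    Finset.sum_congr rfl fun y _ => mul_comm _ _
  linarith

theorem sq_iu (H : Sym S cc) {u : κ0 → M → ℝ} (hu : S.D0.Sec u) (z : M) :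
    ∑ y, S.iu u y z ^ 2 = ∑ y, u y z ^ 2 := by
  have h1 := ip_iu H u (S.iu u) z
  simp only [iu_iu H hu] at h1
  simp only [sq]
  rw [h1, ← Finset.sum_neg_distrib]
  exact Finset.sum_congr rfl fun y _ => by ring

theorem secE_lin {u w : κ0 → M → ℝ} (hu : τ.SecE S u) (hw : τ.SecE S w) (f g : M → ℝ) :
    τ.SecE S (fun y z => f z * u y z + g z * w y z) := by
  constructor
  · intro y z
    have h1 := hu.1 y z
    have h2 := hw.1 y z
    calc ∑ b, S.D0.p y b z * (f z * u b z + g z * w b z) =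
        f z * ∑ b, S.D0.p y b z * u b z + g z * ∑ b, S.D0.p y b z * w b z := by
          rw [Finset.mul_sum, Finset.mul_sum, ← Finset.sum_add_distrib]
          exact Finset.sum_congr rfl fun b _ => by ring
      _ = _ := by rw [h1, h2]
  · intro y z
    have h1 := hu.2 y z
    have h2 := hw.2 y z
    unfold TD.R at h1 h2 ⊢
    have e : ∀ k : Fin 3, ∑ y', τ.n k z * S.rho k y y' z * (f z * u y' z + g z * w y' z) =
        f z * ∑ y', τ.n k z * S.rho k y y' z * u y' z +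
          g z * ∑ y', τ.n k z * S.rho k y y' z * w y' z := by
      intro k
      rw [Finset.mul_sum, Finset.mul_sum, ← Finset.sum_add_distrib]
      exact Finset.sum_congr rfl fun b _ => by ring
    rw [Finset.sum_congr rfl fun k _ => e k, Finset.sum_add_distrib, ← Finset.mul_sum,
      ← Finset.mul_sum, h1, h2]
    ring

/-- **the eigenline is spanned by `e, i e`.** -/
theorem e2 (H : Sym S cc) (hn : ∀ z, ∑ k, τ.n k z ^ 2 = 1) {e s : κ0 → M → ℝ} (he : τ.SecE S e)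
    (he1 : ∀ z, ∑ y, e y z ^ 2 = 1) (hs : τ.SecE S s) (y : κ0) (z : M) :
    s y z = (∑ y', s y' z * e y' z) * e y z + (∑ y', s y' z * S.iu e y' z) * S.iu e y z := by
  classical
  have h0 : (fun y => e y z) ⬝ᵥ (fun y => e y z) = 1 := by
    rw [← he1 z]
    exact Finset.sum_congr rfl fun y _ => (sq _).symm
  have h := (pt H z).E2 (n := fun k => τ.n k z) (hn z) h0 (secp he.1 z) (secR he z) (secp hs.1 z)
    (secR hs z)
  exact congrFun h y

/-- `⟨ρ_k s, s⟩ = - n_k |s|²` on `E`. -/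
theorem rq_E (H : Sym S cc) {s : κ0 → M → ℝ} (hs : τ.SecE S s) (k : Fin 3) (z : M) :
    S.rq k s z = - τ.n k z * ∑ y, s y z ^ 2 := by
  classical
  have h := (pt H z).rho_E (n := fun k => τ.n k z) (secp hs.1 z) (secR hs z) k
  have e1 : S.rq k s z = (fun y => s y z) ⬝ᵥ (rM S z k).mulVec fun y => s y z := by
    unfold SWS.rq
    refine Finset.sum_congr rfl fun y _ => ?_
    rw [Matrix.mulVec, dotProduct, Finset.mul_sum]
    refine Finset.sum_congr rfl fun y' _ => ?_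
    rw [rM]
    ring
  rw [e1, h]
  congr 1
  exact Finset.sum_congr rfl fun y _ => (sq _).symm

/-! ### Leibniz -/

/-- the projection onto `E`. -/
def Pe (τ : TD M κT) (S : SWS M κ0 κ1 κT) (y y' : κ0) (z : M) : ℝ :=
  (1 / 2) * (S.D0.p y y' z - ∑ k, τ.n k z * S.rho k y y' z)

theorem Pe_eq (z : M) (y y' : κ0) :
    Pe τ S y y' z = Pi0 (pM S z) (rM S z) (fun k => τ.n k z) y y' := by
  simp only [Pe, Pi0, RR, Matrix.smul_apply, Matrix.sub_apply, Matrix.sum_apply, smul_eq_mul, pM,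
    rM]

theorem Pe_sec {u : κ0 → M → ℝ} (hu : τ.SecE S u) (y : κ0) (z : M) :
    ∑ y', Pe τ S y y' z * u y' z = u y z := by
  have h1 := hu.1 y z
  have h2 := hu.2 y z
  unfold TD.R at h2
  have e : ∀ y', Pe τ S y y' z * u y' z = (1 / 2) * (S.D0.p y y' z * u y' z) -
      (1 / 2) * ∑ k, τ.n k z * S.rho k y y' z * u y' z := by
    intro y'
    unfold Pe
    rw [mul_sub, sub_mul, ← Finset.sum_mul]
    ring
  rw [Finset.sum_congr rfl fun y' _ => e y', Finset.sum_sub_distrib, ← Finset.mul_sum, h1,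
    ← Finset.mul_sum, Finset.sum_comm, h2]
  ring

theorem Pe_J (H : Sym S cc) (y c : κ0) (z : M) :
    ∑ y', Pe τ S y y' z * S.J y' c z = ∑ y', S.J y y' z * Pe τ S y' c z := by
  classical
  simp only [Pe_eq]
  exact congrFun (congrFun ((pt H z).Pi0_J (n := fun k => τ.n k z)) y) c

theorem cv_lin (D : Dat 4 M κ0) {f g : M → ℝ} {u w : κ0 → M → ℝ}
    (hf : ContMDiff (𝓡 4) 𝓘(ℝ, ℝ) ∞ f) (hg : ContMDiff (𝓡 4) 𝓘(ℝ, ℝ) ∞ g)
    (hu : SmV (n := 4) u) (hw : SmV (n := 4) w) (y : κ0) (z : M) :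
    D.cv (fun y z => f z * u y z + g z * w y z) y z =
      f z • D.cv u y z + g z • D.cv w y z + u y z • Gr (n := 4) f z + w y z • Gr (n := 4) g z := by
  unfold Dat.cv
  rw [Gr_add (f := fun z => f z * u y z) (g := fun z => g z * w y z)
    (md (hf.mul (hu y)) z) (md (hg.mul (hw y)) z), Gr_mul (md hf z) (md (hu y) z),
    Gr_mul (md hg z) (md (hw y) z)]
  have e : ∑ b, (f z * u b z + g z * w b z) • D.X y b z =
      f z • ∑ b, u b z • D.X y b z + g z • ∑ b, w b z • D.X y b z := by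
    rw [Finset.smul_sum, Finset.smul_sum, ← Finset.sum_add_distrib]
    exact Finset.sum_congr rfl fun b _ => by rw [add_smul, smul_smul, smul_smul]
  rw [e]
  module

/-- `J` is parallel. -/
theorem cv_iu (H : Sym S cc) {u : κ0 → M → ℝ} (hu : SmV (n := 4) u) (y : κ0) (z : M) :
    S.D0.cv (S.iu u) y z = ∑ c, S.J y c z • S.D0.cv u c z := by
  have h1 : Gr (n := 4) (S.iu u y) z =
      ∑ b, (S.J y b z • Gr (n := 4) (u b) z + u b z • Gr (n := 4) (S.J y b) z) := by
    have h2 : S.iu u y = fun x => ∑ b, S.J y b x * u b x := rfl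
    rw [h2, Gr_sum' (f := fun b x => S.J y b x * u b x) Finset.univ
      (fun b _ => (H.smJ y b).mul (hu b))]
    exact Finset.sum_congr rfl fun b _ => Gr_mul (md (H.smJ y b) z) (md (hu b) z)
  have h3 : ∀ b, Gr (n := 4) (S.J y b) z =
      ∑ c, (S.J y c z • S.D0.X c b z - S.J c b z • S.D0.X y c z) := by
    intro b
    have h4 := H.Jpar y b z
    rw [eq_neg_of_add_eq_zero_left h4, ← Finset.sum_neg_distrib]
    exact Finset.sum_congr rfl fun c _ => by rw [neg_sub]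
  unfold Dat.cv
  rw [h1]
  simp only [h3, smul_add, Finset.sum_add_distrib, Finset.smul_sum, smul_sub,
    Finset.sum_sub_distrib, smul_smul]
  have e1 : ∑ b, ∑ c, (u b z * S.J c b z) • S.D0.X y c z =
      ∑ b, S.iu u b z • S.D0.X y b z := by
    rw [Finset.sum_comm]
    refine Finset.sum_congr rfl fun c _ => ?_
    rw [← Finset.sum_smul]
    congr 1
    exact Finset.sum_congr rfl fun b _ => mul_comm _ _
  have e2 : ∑ b, ∑ c, (u b z * S.J y c z) • S.D0.X c b z =
      ∑ b, ∑ c, (S.J y b z * u c z) • S.D0.X b c z := by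
    rw [Finset.sum_comm]
    refine Finset.sum_congr rfl fun c _ => Finset.sum_congr rfl fun b _ => ?_
    rw [mul_comm]
  rw [e1, e2]
  abel

/-- `∇^E s = Π ∇ s + i s ⊗ (a + sh)`. -/
theorem nE_eq (H : Sym S cc) {s : κ0 → M → ℝ} (hs : τ.SecE S s) (a : κT → M → ℝ) (y : κ0) (z : M) :
    τ.nE S a s y z = ∑ y', Pe τ S y y' z • S.D0.cv s y' z +
      S.iu s y z • (S.vf a z + S.vf τ.sh z) := by
  have h1 := Pe_sec (secE_iu H hs) y z
  unfold TD.nE TD.prE SWS.nab
  have e : ∑ y', ((1 / 2) * (S.D0.p y y' z - ∑ k, τ.n k z * S.rho k y y' z)) •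
      (S.D0.cv s y' z + (∑ y'', S.J y' y'' z * s y'' z) • ∑ A, a A z • S.s A z) =
      ∑ y', Pe τ S y y' z • S.D0.cv s y' z + S.iu s y z • S.vf a z := by
    simp only [smul_add, Finset.sum_add_distrib]
    congr 1
    conv_rhs => rw [← h1]
    rw [Finset.sum_smul]
    refine Finset.sum_congr rfl fun y' _ => ?_
    rw [smul_smul]
    rfl
  rw [e, smul_add, ← add_assoc]
  rfl

theorem vf_add (S : SWS M κ0 κ1 κT) (a b : κT → M → ℝ) (z : M) :
    S.vf (a + b) z = S.vf a z + S.vf b z := by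
  unfold SWS.vf
  rw [← Finset.sum_add_distrib]
  exact Finset.sum_congr rfl fun A _ => add_smul _ _ _

/-- **Leibniz rule.** -/
theorem nE_lin (H : Sym S cc) {U : κ0 → M → ℝ} (hU : τ.SecE S U) (hUs : SmV (n := 4) U)
    {f g : M → ℝ} (hf : ContMDiff (𝓡 4) 𝓘(ℝ, ℝ) ∞ f) (hg : ContMDiff (𝓡 4) 𝓘(ℝ, ℝ) ∞ g)
    (th η : κT → M → ℝ) (y : κ0) (z : M) :
    τ.nE S (th + η) (fun y z => f z * U y z + g z * S.iu U y z) y z =
      f z • τ.nE S th U y z + g z • (∑ c, S.J y c z • τ.nE S th U c z) +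
        U y z • (Gr (n := 4) f z - g z • S.vf η z) +
        S.iu U y z • (Gr (n := 4) g z + f z • S.vf η z) := by
  have hiU := secE_iu H hU
  have hs := secE_lin hU hiU f g
  rw [nE_eq H hs]
  have e1 : S.iu (fun y z => f z * U y z + g z * S.iu U y z) y z =
      f z * S.iu U y z - g z * U y z := by
    rw [iu_lin, iu_iu H hU.1]
    ring
  have e2 : ∑ y', Pe τ S y y' z •
      S.D0.cv (fun y z => f z * U y z + g z * S.iu U y z) y' z =
      f z • ∑ y', Pe τ S y y' z • S.D0.cv U y' z +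
        g z • ∑ y', Pe τ S y y' z • S.D0.cv (S.iu U) y' z +
        U y z • Gr (n := 4) f z + S.iu U y z • Gr (n := 4) g z := by
    have h3 : ∀ y', Pe τ S y y' z •
        S.D0.cv (fun y z => f z * U y z + g z * S.iu U y z) y' z =
        f z • (Pe τ S y y' z • S.D0.cv U y' z) + g z • (Pe τ S y y' z • S.D0.cv (S.iu U) y' z) +
          (Pe τ S y y' z * U y' z) • Gr (n := 4) f z +
          (Pe τ S y y' z * S.iu U y' z) • Gr (n := 4) g z := by
      intro y'
      rw [cv_lin S.D0 hf hg hUs (smV_iu H hUs)]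
      module
    rw [Finset.sum_congr rfl fun y' _ => h3 y', Finset.sum_add_distrib, Finset.sum_add_distrib,
      Finset.sum_add_distrib, ← Finset.smul_sum, ← Finset.smul_sum, ← Finset.sum_smul,
      ← Finset.sum_smul, Pe_sec hU, Pe_sec hiU]
  have e3 : ∑ y', Pe τ S y y' z • S.D0.cv (S.iu U) y' z =
      ∑ c, S.J y c z • ∑ y', Pe τ S c y' z • S.D0.cv U y' z := by
    simp only [cv_iu H hUs, Finset.smul_sum, smul_smul]
    rw [Finset.sum_comm]
    conv_rhs => rw [Finset.sum_comm]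
    refine Finset.sum_congr rfl fun c _ => ?_
    rw [← Finset.sum_smul, ← Finset.sum_smul, Pe_J H]
  have e4 : ∑ c, S.J y c z • τ.nE S th U c z =
      ∑ c, S.J y c z • ∑ y', Pe τ S c y' z • S.D0.cv U y' z -
        U y z • (S.vf th z + S.vf τ.sh z) := by
    have h4 : ∀ c, S.J y c z • τ.nE S th U c z =
        S.J y c z • ∑ y', Pe τ S c y' z • S.D0.cv U y' z +
          (S.J y c z * S.iu U c z) • (S.vf th z + S.vf τ.sh z) := by
      intro c
      rw [nE_eq H hU, smul_add, smul_smul]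
    rw [Finset.sum_congr rfl fun c _ => h4 c, Finset.sum_add_distrib, ← Finset.sum_smul]
    have h5 : ∑ c, S.J y c z * S.iu U c z = - U y z := iu_iu H hU.1 y z
    rw [h5, neg_smul, sub_eq_add_neg]
  rw [e1, e2, e3, e4, nE_eq H hU, vf_add]
  module

theorem pair_sum {κ : Type} [Fintype κ] (w u v : κ → ℝ) (A B : EuclideanSpace ℝ (Fin 4))
    (h : ∀ y, u y • A + v y • B = 0) :
    (∑ y, w y * u y) • A + (∑ y, w y * v y) • B = 0 := by
  have h1 : ∑ y, w y • (u y • A + v y • B) = 0 :=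
    Finset.sum_eq_zero fun y _ => by rw [h, smul_zero]
  rw [← h1, Finset.sum_smul, Finset.sum_smul, ← Finset.sum_add_distrib]
  exact Finset.sum_congr rfl fun y _ => by rw [smul_add, smul_smul, smul_smul]

/-! ### the action of complex functions -/

/-- `f u`, `f : M → ℂ`. -/
def act (S : SWS M κ0 κ1 κT) (f : M → ℂ) (u : κ0 → M → ℝ) : κ0 → M → ℝ :=
  fun y z => (f z).re * u y z + (f z).im * S.iu u y z

theorem gau_eq {b : ℕ} (j : JD M κT b) (k : Fin b → ℤ) (u : κ0 → M → ℝ) :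
    j.gau S k u =
      act S (fun z => ∏ i, ((j.gc i z : ℂ) + (j.gs i z : ℂ) * Complex.I) ^ k i) u := rfl

theorem act_mul (H : Sym S cc) (f g : M → ℂ) {u : κ0 → M → ℝ} (hu : S.D0.Sec u) (y : κ0) (z : M) :
    act S (fun z => f z * g z) u y z = act S f (act S g u) y z := by
  have h1 : S.iu (act S g u) y z = (g z).re * S.iu u y z - (g z).im * u y z := by
    unfold act
    rw [iu_lin S (fun z => (g z).re) (fun z => (g z).im), iu_iu H hu]
    ring
  show (f z * g z).re * u y z + (f z * g z).im * S.iu u y z =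
    (f z).re * ((g z).re * u y z + (g z).im * S.iu u y z) + (f z).im * S.iu (act S g u) y z
  rw [h1, Complex.mul_re, Complex.mul_im]
  ring

/-- `|a U + b i U|² = a² + b²`. -/
theorem sq_lin (H : Sym S cc) {U : κ0 → M → ℝ} (hU : S.D0.Sec U) {z : M}
    (hU1 : ∑ y, U y z ^ 2 = 1) (a b : ℝ) :
    ∑ y, (a * U y z + b * S.iu U y z) ^ 2 = a ^ 2 + b ^ 2 := by
  have h1 := ip_self_iu H U z
  have h2 := sq_iu H hU z
  calc ∑ y, (a * U y z + b * S.iu U y z) ^ 2 =
      a ^ 2 * ∑ y, U y z ^ 2 + 2 * a * b * ∑ y, U y z * S.iu U y z +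
        b ^ 2 * ∑ y, S.iu U y z ^ 2 := by
        rw [Finset.mul_sum, Finset.mul_sum, Finset.mul_sum, ← Finset.sum_add_distrib,
          ← Finset.sum_add_distrib]
        exact Finset.sum_congr rfl fun y _ => by ring
    _ = a ^ 2 + b ^ 2 := by rw [h1, h2, hU1]; ring

/-- **twisting a parallel section**: `√(2 r) f U` is parallel for `th + η` if `df = - i η f`. -/
theorem psec_act (H : Sym S cc) {th η : κT → M → ℝ} {W : M → 𝔼4}
    (hη : ∀ z, S.vf η z = (2 * Real.pi) • W z) {U : κ0 → M → ℝ} (hU : τ.PSec S th (1 / 2) U)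
    {f : M → ℂ} (hf : Cm (fun z => - W z) f) {c r : ℝ} (hc : c ^ 2 = 2 * r) :
    τ.PSec S (th + η) r (fun y z => c * act S f U y z) := by
  have hU1 : ∀ z, ∑ y, U y z ^ 2 = 1 := fun z => by rw [hU.nrm]; norm_num
  have e0 : (fun (y : κ0) z => c * act S f U y z) =
      fun y z => (c * (f z).re) * U y z + (c * (f z).im) * S.iu U y z := by
    funext y z
    unfold act
    ring
  have s1 : ContMDiff (𝓡 4) 𝓘(ℝ, ℝ) ∞ fun z => c * (f z).re := contMDiff_const.mul hf.smr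
  have s2 : ContMDiff (𝓡 4) 𝓘(ℝ, ℝ) ∞ fun z => c * (f z).im := contMDiff_const.mul hf.smi
  rw [e0]
  constructor
  · intro y
    exact (s1.mul (hU.sm y)).add (s2.mul (smV_iu H hU.sm y))
  · exact secE_lin hU.sec (secE_iu H hU.sec) (fun z => c * (f z).re) (fun z => c * (f z).im)
  · intro z
    rw [sq_lin H hU.sec.1 (hU1 z)]
    have := hf.nrm z
    calc (c * (f z).re) ^ 2 + (c * (f z).im) ^ 2 = c ^ 2 * ((f z).re ^ 2 + (f z).im ^ 2) := by ring
      _ = 2 * r := by rw [this, mul_one, hc]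
  · intro y z
    rw [nE_lin H hU.sec hU.sm s1 s2]
    have h1 : Gr (n := 4) (fun z => c * (f z).re) z - (c * (f z).im) • S.vf η z = 0 := by
      rw [Gr_const_mul _ (md hf.smr z), hf.dr, hη]
      module
    have h2 : Gr (n := 4) (fun z => c * (f z).im) z + (c * (f z).re) • S.vf η z = 0 := by
      rw [Gr_const_mul _ (md hf.smi z), hf.di, hη]
      module
    simp only [h1, h2, hU.par, smul_zero, Finset.sum_const_zero, add_zero]

/-- **two parallel sections**: if `U` is parallel of length one for `th` and `s` is parallel of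
length `√(2r)` for `th + η`, `s = √(2 r) f U`, `df = - i η f`. -/
theorem exists_act (H : Sym S cc) (hn : ∀ z, ∑ k, τ.n k z ^ 2 = 1) {th η : κT → M → ℝ}
    {W : M → 𝔼4} (hη : ∀ z, S.vf η z = (2 * Real.pi) • W z) {U s : κ0 → M → ℝ}
    (hU : τ.PSec S th (1 / 2) U) {c r : ℝ} (hc : c ^ 2 = 2 * r) (hc0 : 0 < c)
    (hs : τ.PSec S (th + η) r s) :
    ∃ f : M → ℂ, Cm (fun z => - W z) f ∧ ∀ y z, s y z = c * act S f U y z := by
  have hU1 : ∀ z, ∑ y, U y z ^ 2 = 1 := fun z => by rw [hU.nrm]; norm_num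
  set f : M → ℝ := fun z => ∑ y', s y' z * U y' z with hf
  set g : M → ℝ := fun z => ∑ y', s y' z * S.iu U y' z with hg
  have hfs : ContMDiff (𝓡 4) 𝓘(ℝ, ℝ) ∞ f :=
    contMDiff_finsetSum fun y' _ => (hs.sm y').mul (hU.sm y')
  have hgs : ContMDiff (𝓡 4) 𝓘(ℝ, ℝ) ∞ g :=
    contMDiff_finsetSum fun y' _ => (hs.sm y').mul (smV_iu H hU.sm y')
  have e0 : s = fun y z => f z * U y z + g z * S.iu U y z := by
    funext y z
    exact e2 H hn hU.sec hU1 hs.sec y z
  have hsq : ∀ z, f z ^ 2 + g z ^ 2 = c ^ 2 := by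
    intro z
    have h1 := hs.nrm z
    rw [e0, sq_lin H hU.sec.1 (hU1 z)] at h1
    rw [h1, hc]
  have hpar : ∀ y z, U y z • (Gr (n := 4) f z - g z • S.vf η z) +
      S.iu U y z • (Gr (n := 4) g z + f z • S.vf η z) = 0 := by
    intro y z
    have h1 := hs.par y z
    rw [e0, nE_lin H hU.sec hU.sm hfs hgs] at h1
    simpa only [hU.par, smul_zero, Finset.sum_const_zero, zero_add] using h1
  have hd1 : ∀ z, Gr (n := 4) f z = g z • S.vf η z := by
    intro z
    have h1 := pair_sum (fun y => U y z) (fun y => U y z) (fun y => S.iu U y z) _ _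
      (fun y => hpar y z)
    have h2 : ∑ y, U y z * U y z = 1 := by
      rw [← hU1 z]
      exact Finset.sum_congr rfl fun y _ => (sq _).symm
    rw [h2, ip_self_iu H, zero_smul, add_zero, one_smul] at h1
    exact sub_eq_zero.1 h1
  have hd2 : ∀ z, Gr (n := 4) g z = - (f z • S.vf η z) := by
    intro z
    have h1 := pair_sum (fun y => S.iu U y z) (fun y => U y z) (fun y => S.iu U y z) _ _
      (fun y => hpar y z)
    have h2 : ∑ y, S.iu U y z * U y z = 0 := by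
      rw [ip_iu H, ip_self_iu H, neg_zero]
    have h3 : ∑ y, S.iu U y z * S.iu U y z = 1 := by
      rw [← hU1 z, ← sq_iu H hU.sec.1]
      exact Finset.sum_congr rfl fun y _ => (sq _).symm
    rw [h2, h3, zero_smul, zero_add, one_smul] at h1
    exact eq_neg_of_add_eq_zero_left h1
  refine ⟨fun z => ⟨c⁻¹ * f z, c⁻¹ * g z⟩, ?_, ?_⟩
  · constructor
    · exact contMDiff_const.mul hfs
    · exact contMDiff_const.mul hgs
    · intro z
      have h1 := hsq z
      show (c⁻¹ * f z) ^ 2 + (c⁻¹ * g z) ^ 2 = 1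
      calc (c⁻¹ * f z) ^ 2 + (c⁻¹ * g z) ^ 2 = c⁻¹ ^ 2 * (f z ^ 2 + g z ^ 2) := by ring
        _ = 1 := by rw [h1]; field_simp
    · intro z
      show Gr (n := 4) (fun z => c⁻¹ * f z) z = (-(2 * Real.pi * (c⁻¹ * g z))) • (- W z)
      rw [Gr_const_mul _ (md hfs z), hd1, hη]
      module
    · intro z
      show Gr (n := 4) (fun z => c⁻¹ * g z) z = (2 * Real.pi * (c⁻¹ * f z)) • (- W z)
      rw [Gr_const_mul _ (md hgs z), hd2, hη]
      module
  · intro y z
    have h1 := congrFun (congrFun e0 y) z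
    rw [h1]
    show _ = c * (c⁻¹ * f z * U y z + c⁻¹ * g z * S.iu U y z)
    have hc' : c ≠ 0 := hc0.ne'
    field_simp

end main

end

end Crest.Agent.R235.SWZerB_463
end

-- ▼ part R235/SWZer_463
section

/-!
Row 235 (S0364), PACKAGE SW, task 445 (helper463): **`UNI → REG → ZER`** (`zer_of`): the solutions at
`|t| = 1` for `L` trivial are the gauge transforms of the Hopf family.

`sol_of_psec` : the converse of `UNI`: `(0, ρ^{3/4} s)` is a solution for every parallel `s`.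
-/

set_option autoImplicit false
set_option maxSynthPendingDepth 3
set_option linter.unusedSectionVars false
set_option linter.unusedVariables false

open scoped ContDiff ENNReal NNReal Topology Manifold Bundle RealInnerProductSpace
open MeasureTheory Set Filter Metric Bundle

universe v

namespace Crest.Agent.R235.SWZer_463

open Crest.Agent.R249.Tv57 Crest.Agent.R247.Ms322 Crest.Agent.R247.Dir593
open Crest.Agent.R247.Frd657
open Crest.Agent.R235.SWDefs_53 Crest.Agent.R235.SWSym_451 Crest.Agent.R235.SWTd_451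
open Crest.Agent.R235.SWZerA_463 Crest.Agent.R235.SWZerB_463
open Crest.Agent.R235.Fs4_546 Crest.Agent.R235.Fred_649

noncomputable section

local notation "𝔼4" => EuclideanSpace ℝ (Fin 4)
local notation "ipp" => Crest.Agent.R249.Tv57.ip 4

section main

variable {M : Type v} [MetricSpace M] [CompactSpace M] [ConnectedSpace M]
  [ChartedSpace (EuclideanSpace ℝ (Fin 4)) M] [IsManifold (𝓡 4) ∞ M]
  [RiemannianBundle (fun p : M => TangentSpace (𝓡 4) p)]
  [IsContMDiffRiemannianBundle (𝓡 4) ∞ (EuclideanSpace ℝ (Fin 4))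
    (fun p : M => TangentSpace (𝓡 4) p)]
  [IsRiemannianManifold (𝓡 4) M] [MeasurableSpace M] [BorelSpace M]
  [SecondCountableTopology M] [Nonempty M] [IsFiniteMeasureOnCompacts (μHE[4] : Measure M)]
  {κ0 κ1 κT : Type} [Fintype κ0] [Fintype κ1] [Fintype κT]
  {S : SWS M κ0 κ1 κT} {cc : κ1 → κ0 → M → EuclideanSpace ℝ (Fin 4)} {τ : TD M κT}

/-- `ρ^{3/4} s` is smooth. -/
theorem smV_sc {C : ℝ} (hτ : τ.OK S C) {s : κ0 → M → ℝ} (hs : SmV (n := 4) s) (q : ℝ) :
    SmV (n := 4) (τ.sc q s) := fun y => (smooth_rpow hτ.smrr hτ.pos q).mul (hs y)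

theorem sec_sc {s : κ0 → M → ℝ} (hs : S.D0.Sec s) (q : ℝ) : S.D0.Sec (τ.sc q s) := by
  intro y z
  have h1 := hs y z
  unfold TD.sc
  calc ∑ b, S.D0.p y b z * (τ.rr z ^ q * s b z) = τ.rr z ^ q * ∑ b, S.D0.p y b z * s b z := by
        rw [Finset.mul_sum]
        exact Finset.sum_congr rfl fun b _ => by ring
    _ = _ := by rw [h1]

theorem smV_cm (hok : S.OK) {a : κT → M → ℝ} {u : κ0 → M → ℝ} (ha : SmV (n := 4) a)
    (hu : SmV (n := 4) u) : SmV (n := 4) (S.cm a u) := fun x =>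
  contMDiff_finsetSum fun A _ => contMDiff_finsetSum fun y _ =>
    ((ha A).mul (hu y)).mul (hok.smcl A x y)

/-- **`A_th (ρ^{3/4} s) = 0` for a parallel section `s` of the flat line bundle `E`** (first Stokes
identity). -/
theorem dir_zero (hok : S.OK) {C : ℝ} (hτ : τ.OK S C) {th : κT → M → ℝ}
    (hth : SmV (n := 4) th) (hths : S.DT.Sec th) (hfl : τ.Flat S th) {r : ℝ} {s : κ0 → M → ℝ}
    (hs : τ.PSec S th r s) (x : κ1) (z : M) :
    S.P.A (τ.sc (3 / 4) s) x z + S.cm th (τ.sc (3 / 4) s) x z = 0 := by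
  have hu := smV_sc hτ hs.sm (3 / 4)
  have hus := sec_sc (τ := τ) hs.sec.1 (3 / 4)
  set u0 := τ.sc (3 / 4) s with hu0
  set v : κ1 → M → ℝ := fun x z => τ.rr z ^ (-(1 / 4) : ℝ) * (S.P.A u0 + S.cm th u0) x z with hv
  have hvs : SmV (n := 4) v := fun x =>
    (smooth_rpow hτ.smrr hτ.pos _).mul ((S.P.smA u0 hu hus x).add (smV_cm hok hth hu x))
  have h1 := hτ.T1 th s hth hths hs.sm hs.sec
  have h2 : ∫ z, (τ.rr z * (∑ y, ‖τ.nE S th s y z‖ ^ 2) -
      τ.rr z * (∑ k, (S.H.B th k.succ z + τ.fE k z) * τ.n k z) * ∑ y, s y z ^ 2)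
      ∂(μHE[4] : Measure M) = 0 := by
    have h3 : ∀ z, (τ.rr z * (∑ y, ‖τ.nE S th s y z‖ ^ 2) -
      τ.rr z * (∑ k, (S.H.B th k.succ z + τ.fE k z) * τ.n k z) * ∑ y, s y z ^ 2) = 0 := by
      intro z
      have h4 : ∀ k, S.H.B th k.succ z + τ.fE k z = 0 := fun k => by
        rw [add_comm]; exact hfl k z
      simp [hs.par, h4]
    simp only [h3, integral_zero]
  rw [h2] at h1
  have h3 : ipp v v = 0 := by
    rw [← h1]
    unfold Crest.Agent.R249.Tv57.ip
    refine integral_congr_ae (Eventually.of_forall fun z => ?_)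
    show ∑ x, v x z * v x z = τ.rr z ^ (-(1 / 2) : ℝ) *
      ∑ x, ((S.P.A u0 + S.cm th u0) x z) ^ 2
    rw [Finset.mul_sum]
    refine Finset.sum_congr rfl fun x _ => ?_
    have h4 : τ.rr z ^ (-(1 / 2) : ℝ) = τ.rr z ^ (-(1 / 4) : ℝ) * τ.rr z ^ (-(1 / 4) : ℝ) := by
      rw [← Real.rpow_add (hτ.pos z)]
      norm_num
    rw [h4, hv]
    ring
  have h4 := eq_zero_of_ip hvs h3 x z
  have h5 : τ.rr z ^ (-(1 / 4) : ℝ) ≠ 0 := (Real.rpow_pos_of_pos (hτ.pos z) _).ne'
  exact (mul_eq_zero.1 h4).resolve_left h5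

/-- the right hand side of the curvature equation vanishes at `ρ^{3/4} s`. -/
theorem rhs_zero (H : Sym S cc) {C : ℝ} (hτ : τ.OK S C) {d : SWD M κT} {t : E3}
    (hfit : τ.Fit S d t) (hfl : τ.Flat S (d.th t)) {s : κ0 → M → ℝ}
    (hs : τ.PSec S (d.th t) d.r s) {u : κ0 → M → ℝ} {z : M}
    (hu : ∀ y, u y z = τ.sc (3 / 4) s y z) (b : Fin 4) : rhs S d t u b z = 0 := by
  refine Fin.cases rfl (fun k => ?_) b
  show d.mu t z * ((1 / 2) * S.rq k u z) + d.r * d.wt t k z + d.et t k z = 0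
  have h1 : S.rq k u z = τ.rr z ^ (3 / 2 : ℝ) * S.rq k s z := by
    unfold SWS.rq
    rw [Finset.mul_sum]
    refine Finset.sum_congr rfl fun y _ => ?_
    rw [Finset.mul_sum]
    refine Finset.sum_congr rfl fun y' _ => ?_
    have h4 : τ.rr z ^ (3 / 2 : ℝ) = τ.rr z ^ (3 / 4 : ℝ) * τ.rr z ^ (3 / 4 : ℝ) := by
      rw [← Real.rpow_add (hτ.pos z)]
      norm_num
    rw [hu y, hu y', h4]
    unfold TD.sc
    ring
  have h2 : τ.rr z ^ (-(1 / 2) : ℝ) * τ.rr z ^ (3 / 2 : ℝ) = τ.rr z := by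
    rw [← Real.rpow_add (hτ.pos z)]
    norm_num
  rw [h1, rq_E H hs.sec, hs.nrm, hfit.mu, hfit.wt, hfit.et, hfl k z]
  calc τ.rr z ^ (-(1 / 2) : ℝ) * (1 / 2 * (τ.rr z ^ (3 / 2 : ℝ) * (-τ.n k z * (2 * d.r)))) +
      d.r * (τ.rr z * τ.n k z) + -0 =
      (τ.rr z ^ (-(1 / 2) : ℝ) * τ.rr z ^ (3 / 2 : ℝ)) * (- τ.n k z * d.r) +
      d.r * (τ.rr z * τ.n k z) := by ring
    _ = 0 := by rw [h2]; ring

/-- **`(0, ρ^{3/4} s)` is a solution.** -/
theorem sol_of_psec (hok : S.OK) (H : Sym S cc) {C : ℝ} (hτ : τ.OK S C) {d : SWD M κT} {t : E3}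
    (hfit : τ.Fit S d t) (hfl : τ.Flat S (d.th t)) {s : κ0 → M → ℝ}
    (hs : τ.PSec S (d.th t) d.r s) {a : κT → M → ℝ} {u : κ0 → M → ℝ}
    (ha : ∀ᵐ z ∂(μHE[4] : Measure M), ∀ A, a A z = 0)
    (hu : ∀ᵐ z ∂(μHE[4] : Measure M), ∀ y, u y z = τ.sc (3 / 4) s y z) : Sol S d t a u := by
  have hu0 := smV_sc hτ hs.sm (3 / 4)
  have hus := sec_sc (τ := τ) hs.sec.1 (3 / 4)
  set W : SmS S.D0 := ⟨τ.sc (3 / 4) s, hu0, hus⟩ with hW
  have hrep : ∀ y, rp (cW S.D0 W) y =ᵐ[(μHE[4] : Measure M)] u y := by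
    intro y
    filter_upwards [coe_clH W.1 W.2.1, hu] with z e1 e2
    show (clH W.1 W.2.1 y : M → ℝ) z = u y z
    rw [e1 y, e2 y]
  refine ⟨?_, ⟨cW S.D0 W, hrep⟩, ?_, ?_, ?_, ?_⟩
  · refine ⟨cW S.DT 0, fun A => ?_⟩
    filter_upwards [coe_clH (0 : SmS S.DT).1 (0 : SmS S.DT).2.1, ha] with z e1 e2
    show (clH (0 : SmS S.DT).1 (0 : SmS S.DT).2.1 A : M → ℝ) z = a A z
    rw [e1 A, e2 A]
    rfl
  · have hc : Continuous fun z => ∑ y, τ.sc (3 / 4) s y z ^ 2 :=
      continuous_finsetSum _ fun y _ => (hu0 y).continuous.pow 2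
    obtain ⟨K, hK⟩ := isCompact_univ.exists_bound_of_continuousOn hc.continuousOn
    refine ⟨K, ?_⟩
    filter_upwards [hu] with z e2
    have h1 : ∑ y, u y z ^ 2 = ∑ y, τ.sc (3 / 4) s y z ^ 2 :=
      Finset.sum_congr rfl fun y _ => by rw [e2 y]
    rw [h1]
    exact (le_abs_self _).trans (hK z (mem_univ z))
  · refine (wkA_iff hrep).2 fun x => ?_
    rw [Ah_cW (dns4 S.D0)]
    filter_upwards [coe_clH (lA S.P W).1 (lA S.P W).2.1, hu, ha] with z e1 e2 e3
    show (clH (lA S.P W).1 (lA S.P W).2.1 x : M → ℝ) z = _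
    rw [e1 x]
    have h1 := dir_zero hok hτ hfit.smth hfit.secth hfl hs x z
    have h2 : S.cm (a + d.th t) u x z = S.cm (d.th t) (τ.sc (3 / 4) s) x z := by
      unfold SWS.cm
      refine Finset.sum_congr rfl fun A _ => Finset.sum_congr rfl fun y _ => ?_
      rw [e2 y, Pi.add_apply, Pi.add_apply, e3 A, zero_add]
    rw [h2]
    exact eq_neg_of_add_eq_zero_left h1
  · have hr : ∀ᵐ z ∂(μHE[4] : Measure M), ∀ b, rhs S d t u b z = 0 := by
      filter_upwards [hu] with z hz b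
      exact rhs_zero H hτ hfit hfl hs hz b
    refine ⟨fun b => ?_, ?_, fun w hw hws => ?_⟩
    · have h1 : rhs S d t u b =ᵐ[(μHE[4] : Measure M)] fun _ => 0 := by
        filter_upwards [hr] with z hz
        exact hz b
      exact (memLp_congr_ae h1).2 MemLp.zero'
    · filter_upwards [hr] with z hz b
      simp [hz]
    · have h1 : ipp (rhs S d t u) w = 0 := by
        refine integral_eq_zero_of_ae ?_
        filter_upwards [hr] with z hz
        exact Finset.sum_eq_zero fun b _ => by rw [hz b, zero_mul]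
      have h2 : ipp a (S.H.swap.B w) = 0 := by
        refine integral_eq_zero_of_ae ?_
        filter_upwards [ha] with z hz
        exact Finset.sum_eq_zero fun b _ => by rw [hz b, zero_mul]
      rw [h1, h2]
  · intro w _ _ _
    refine integral_eq_zero_of_ae ?_
    filter_upwards [ha] with z hz
    exact Finset.sum_eq_zero fun b _ => by rw [hz b, zero_mul]

/-! ### the Jacobian data -/

variable {b : ℕ} {j : JD M κT b}

theorem vf_fm (S : SWS M κ0 κ1 κT) (j : JD M κT b) (h : Fin b → ℝ) (z : M) :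
    S.vf (j.fm h) z = (2 * Real.pi) • ∑ i, h i • S.vf (j.al i) z := by
  unfold SWS.vf JD.fm
  simp only [Finset.smul_sum, Finset.mul_sum, Finset.sum_smul, smul_smul]
  rw [Finset.sum_comm]

/-- `2 π ∑ h_i al_i` as a smooth section. -/
theorem fm_mem (hj : j.OK S) (h : Fin b → ℝ) : j.fm h ∈ SmS S.DT := by
  have h1 : j.fm h = (2 * Real.pi) • ∑ i, h i • j.al i := by
    funext A z
    simp [JD.fm, Finset.sum_apply]
  rw [h1]
  exact (SmS S.DT).smul_mem _ ((SmS S.DT).sum_mem fun i _ =>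
    (SmS S.DT).smul_mem _ ⟨hj.sm i, hj.sec i⟩)

theorem B_fm (hj : j.OK S) (h : Fin b → ℝ) (k : Fin 4) (z : M) : S.H.B (j.fm h) k z = 0 := by
  set al' : Fin b → SmS S.DT := fun i => ⟨j.al i, hj.sm i, hj.sec i⟩ with hal
  have h1 : (⟨j.fm h, fm_mem hj h⟩ : SmS S.DT) = (2 * Real.pi) • ∑ i, h i • al' i := by
    apply Subtype.ext
    funext A z
    simp [JD.fm, hal, Finset.sum_apply]
  have h2 : ∀ i, lA S.H.swap (al' i) = 0 := by
    intro i
    apply Subtype.ext
    funext k z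
    exact hj.harm i k z
  have h3 : lA S.H.swap (⟨j.fm h, fm_mem hj h⟩ : SmS S.DT) = 0 := by
    rw [h1, map_smul, map_sum]
    rw [Finset.sum_eq_zero (fun i _ => by rw [map_smul, h2, smul_zero]), smul_zero]
  have h4 := congrArg (fun w : SmS S.DL => w.1 k z) h3
  exact h4

theorem B_add (P : OpPair S.DL S.DT) {a c : κT → M → ℝ} (ha : SmV (n := 4) a)
    (has : S.DT.Sec a) (hc : SmV (n := 4) c) (hcs : S.DT.Sec c) (k : Fin 4) (z : M) :
    P.B (a + c) k z = P.B a k z + P.B c k z := by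
  have h1 := (lA P.swap).map_add (⟨a, ha, has⟩ : SmS S.DT) (⟨c, hc, hcs⟩ : SmS S.DT)
  have h4 := congrArg (fun w : SmS S.DL => w.1 k z) h1
  exact h4

/-- the circle valued maps of the Jacobian data. -/
theorem cm_g (hj : j.OK S) (i : Fin b) :
    Cm (S.vf (j.al i)) (fun z => (j.gc i z : ℂ) + (j.gs i z : ℂ) * Complex.I) := by
  have h1 : Cm (S.vf (j.al i)) (fun z => (⟨j.gc i z, j.gs i z⟩ : ℂ)) :=
    ⟨hj.smc i, hj.sms i, hj.unit i, hj.dgc i, hj.dgs i⟩
  exact h1.congr (fun _ => rfl) (fun z => (Complex.mk_eq_add_mul_I _ _).symm)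

theorem cm_gk (hj : j.OK S) (k : Fin b → ℤ) :
    Cm (fun z => ∑ i, (k i : ℝ) • S.vf (j.al i) z)
      (fun z => ∏ i, ((j.gc i z : ℂ) + (j.gs i z : ℂ) * Complex.I) ^ k i) :=
  Cm.prod Finset.univ (V := fun i z => (k i : ℝ) • S.vf (j.al i) z)
    (f := fun i z => ((j.gc i z : ℂ) + (j.gs i z : ℂ) * Complex.I) ^ k i)
    fun i _ => (cm_g hj i).zpow (k i)

theorem fit_tw {d : SWD M κT} {ww : Fin 3 → Fin 3 → M → ℝ} {τ : E3 → TD M κT} {C : ℝ}
    {th : E3 → κT → M → ℝ} (hj : j.OK S) (hfam : FFam S ww τ C th) (hd : d.FFit S ww τ C th)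
    {t : E3} (ht : ‖t‖ = 1) (h : Fin b → ℝ) :
    (τ t).Flat S ((d.tw j h).th t) ∧ (τ t).Fit S (d.tw j h) t := by
  have hth : (d.tw j h).th t = th t + j.fm h := by
    show d.th t + j.fm h = _
    rw [hd.th t ht]
  have hfm := fm_mem (S := S) hj h
  have hfl : (τ t).Flat S ((d.tw j h).th t) := by
    intro k z
    rw [hth, B_add S.H (hfam.smth t ht) (hfam.secth t ht) hfm.1 hfm.2, B_fm hj, add_zero]
    exact hfam.flat t ht k z
  refine ⟨hfl, ?_, ?_, ?_, ?_, ?_⟩
  · exact hd.mu t ht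
  · intro k z
    rw [hfam.nn t k z ht]
    show ∑ i, t i * d.ww i k z = _
    rw [hd.ww]
  · intro k z
    show d.et t k z = _
    rw [hd.et t ht, hfl k z, neg_zero]
  · rw [hth]
    exact fun A => (hfam.smth t ht A).add (hfm.1 A)
  · rw [hth]
    exact ((SmS S.DT).add_mem (show th t ∈ SmS S.DT from ⟨hfam.smth t ht, hfam.secth t ht⟩) hfm).2

end main

/-- **task 445**: flat Taubes and elliptic regularity ⇒ the solutions at `|t| = 1`. -/
theorem zer_of : UNI.{v} → REG.{v} → ZER.{v} := by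
  intro hUNI hREG M _ _ _ _ _ _ _ _ _ _ _ _ _ κ0 κ1 κT _ _ _ S cc b j d ww τ C th pi U H hj hh hd
    t h a u ht
  have hfam := hh.fam
  have hτ := hfam.tau t ht
  obtain ⟨hflat, hfit⟩ := fit_tw (S := S) (j := j) hj hfam hd ht h
  have hth : (d.tw j h).th t = th t + j.fm h := by
    show d.th t + j.fm h = _
    rw [hd.th t ht]
  have hr : √(2 * d.r) ^ 2 = 2 * d.r := Real.sq_sqrt (by have := hd.rpos; positivity)
  have hr0 : 0 < √(2 * d.r) := Real.sqrt_pos.2 (by have := hd.rpos; positivity)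
  have hPU : ∀ s0, ‖s0‖ = 1 → pi s0 = t → (τ t).PSec S (th t) (1 / 2) (U s0) := by
    intro s0 h1 h2
    have h3 := hh.psec s0 h1
    rwa [h2] at h3
  have hW : ∀ z, S.vf (j.fm h) z = (2 * Real.pi) • ∑ i, h i • S.vf (j.al i) z := vf_fm S j h
  constructor
  · intro hsol
    obtain ⟨ha, s, hs, hu⟩ := hUNI M κ0 κ1 κT S (d.tw j h) (τ t) C t hfam.ok hτ hfit hd.rpos
      (hd.rbig t ht) hflat (hREG M κ0 κ1 κT S cc hfam.ok H _ hfit.smth hfit.secth) a u hsol
    refine ⟨ha, ?_⟩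
    obtain ⟨s0, hs0, hpi⟩ := hh.spi t ht
    have hU := hPU s0 hs0 hpi
    rw [hth] at hs
    obtain ⟨f, hf, hsf⟩ := exists_act H hτ.norm hW hU hr hr0 hs
    -- integrality
    have hint : ∀ i, ∃ k : ℤ, h i = k := by
      have h1 := hf.inv
      refine hj.int h (fun z => ((f z)⁻¹).re) (fun z => ((f z)⁻¹).im) h1.smr h1.smi h1.nrm
        (fun z => ?_) (fun z => ?_)
      · rw [h1.dr, neg_neg]
      · rw [h1.di, neg_neg]
    choose k hk using hint
    have hG := cm_gk hj k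
    have hfG : Cm (fun _ : M => (0 : 𝔼4))
        (fun z => f z * ∏ i, ((j.gc i z : ℂ) + (j.gs i z : ℂ) * Complex.I) ^ k i) := by
      refine (hf.mul hG).congr (fun z => ?_) (fun _ => rfl)
      simp only [hk]
      rw [neg_add_cancel]
    obtain ⟨p0⟩ : Nonempty M := inferInstance
    set z0 : ℂ := f p0 * ∏ i, ((j.gc i p0 : ℂ) + (j.gs i p0 : ℂ) * Complex.I) ^ k i with hz0
    have hz1 : ‖z0‖ = 1 := hfG.norm_eq p0
    have hfz : ∀ z, f z =
        (∏ i, ((j.gc i z : ℂ) + (j.gs i z : ℂ) * Complex.I) ^ (- k i)) * z0 := by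
      intro z
      have h1 : f z * ∏ i, ((j.gc i z : ℂ) + (j.gs i z : ℂ) * Complex.I) ^ k i = z0 :=
        hfG.const z p0
      have h2 := hG.ne_zero z
      have h3 : (∏ i, ((j.gc i z : ℂ) + (j.gs i z : ℂ) * Complex.I) ^ (- k i)) =
          (∏ i, ((j.gc i z : ℂ) + (j.gs i z : ℂ) * Complex.I) ^ k i)⁻¹ := by
        rw [← Finset.prod_inv_distrib]
        exact Finset.prod_congr rfl fun i _ => zpow_neg _ _
      rw [h3, ← h1, mul_comm (f z), ← mul_assoc, inv_mul_cancel₀ h2, one_mul]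
    have hs' : ‖z0 • s0‖ = 1 := by rw [norm_smul, hz1, hs0, one_mul]
    refine ⟨k, z0 • s0, hs', ?_, hk, ?_⟩
    · rw [← hpi]
      exact ((hh.fpi s0 (z0 • s0) hs0 hs').2 ⟨z0, hz1, rfl⟩).symm
    · have hact : act S (fun _ => z0) (U s0) = U (z0 • s0) := by
        funext y z
        exact (hh.eqU s0 z0 hs0 hz1 y z).symm
      filter_upwards [hu] with z hz y
      have h1 : act S f (U s0) y z = j.gau S (fun i => - k i) (U (z0 • s0)) y z := by
        rw [gau_eq, ← hact, ← act_mul H _ _ hU.sec.1]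
        have h2 : f = fun z =>
          (∏ i, ((j.gc i z : ℂ) + (j.gs i z : ℂ) * Complex.I) ^ (- k i)) * z0 := funext hfz
        conv_lhs => rw [h2]
      rw [hz y]
      show (τ t).rr z ^ (3 / 4 : ℝ) * s y z = _
      rw [hsf y z, h1]
      ring
  · rintro ⟨ha, k, s0, hs0, hpi, hk, hu⟩
    have hU := hPU s0 hs0 hpi
    have hG := (cm_gk hj (fun i => - k i))
    have hG' : Cm (fun z => - ∑ i, h i • S.vf (j.al i) z)
        (fun z => ∏ i, ((j.gc i z : ℂ) + (j.gs i z : ℂ) * Complex.I) ^ (- k i)) := by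
      refine hG.congr (fun z => ?_) (fun _ => rfl)
      rw [← Finset.sum_neg_distrib]
      refine Finset.sum_congr rfl fun i _ => ?_
      rw [hk i]
      push_cast
      rw [neg_smul]
    have hP := psec_act H hW hU hG' hr
    rw [← hth] at hP
    refine sol_of_psec hfam.ok H hτ hfit hflat hP ha ?_
    filter_upwards [hu] with z hz y
    rw [hz y, gau_eq]
    unfold TD.sc
    ring

end

end Crest.Agent.R235.SWZer_463
end

-- ▼ part R235/SwjFred_649
section

/-!
Row 235 (S0364), SWJA (helper649): the fields `fred`, `index` of `SwjAbs_844.JData` for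
`L = Ah P`: `Ah P : W^{1,2}(D0) → L²(D1)` is Fredholm, of index `d0 - d1`.
-/

set_option autoImplicit false
set_option maxSynthPendingDepth 3
set_option linter.unusedSectionVars false

open scoped ContDiff ENNReal NNReal Topology Manifold Bundle RealInnerProductSpace
open MeasureTheory Set Filter Metric Bundle

namespace Crest.Agent.R235.SwjFred_649

open Crest.Agent.R249.Tv57 Crest.Agent.R247.Ms322 Crest.Agent.R247.Dir593
open Crest.Agent.R235.Fs4_546 Crest.Agent.R235.Fred_649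

noncomputable section

variable {M : Type} [MetricSpace M] [CompactSpace M] [ConnectedSpace M]
  [ChartedSpace (EuclideanSpace ℝ (Fin 4)) M] [IsManifold (𝓡 4) ∞ M]
  [RiemannianBundle (fun p : M => TangentSpace (𝓡 4) p)]
  [IsContMDiffRiemannianBundle (𝓡 4) ∞ (EuclideanSpace ℝ (Fin 4))
    (fun p : M => TangentSpace (𝓡 4) p)]
  [IsRiemannianManifold (𝓡 4) M] [MeasurableSpace M] [BorelSpace M]
  [SecondCountableTopology M] [Nonempty M] [IsFiniteMeasureOnCompacts (μHE[4] : Measure M)]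
  {κ κ' : Type} [Fintype κ] [Fintype κ'] {D0 : Dat 4 M κ} {D1 : Dat 4 M κ'}

theorem fred_Ah {P : OpPair D0 D1} (S0 : Spec D0) (S1 : Spec D1) : FDADef_365.Fred (Ah P) where
  ker := finiteDimensional_ker (dns4 D0) S0
  closed := isClosed_range (P := P) (dns4 D0) (dns4 D1) S1
  coker := by
    rw [orth_range (dns4 D0) (dns4 D1) S1]
    exact finDim_span S1

theorem ind_Ah {P : OpPair D0 D1} (S0 : Spec D0) (S1 : Spec D1) :
    FDADef_365.ind (Ah P) = (S0.ker.card : ℤ) - S1.ker.card := by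
  unfold FDADef_365.ind
  rw [finrank_ker (dns4 D0) S0, finrank_coker (dns4 D0) (dns4 D1) S1]

/-- the trivial case -/
theorem fred_zero {A Y : Type} [NormedAddCommGroup A] [NormedSpace ℝ A] [NormedAddCommGroup Y]
    [InnerProductSpace ℝ Y] [Subsingleton A] [Subsingleton Y] (L : A →L[ℝ] Y) :
    FDADef_365.Fred L ∧ FDADef_365.ind L = 0 := by
  refine ⟨⟨inferInstance, (Set.subsingleton_of_subsingleton).isClosed, inferInstance⟩, ?_⟩
  unfold FDADef_365.ind
  rw [Module.finrank_zero_of_subsingleton, Module.finrank_zero_of_subsingleton]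
  norm_num

/-- the zero bundle -/
theorem p_zero (D : Dat 4 M κ) (h : ∀ a z, D.p a a z = 0) (a b : κ) (z : M) : D.p a b z = 0 := by
  have h2 := D.idem a a z
  rw [h a z] at h2
  have h3 : ∀ b ∈ Finset.univ, D.p a b z * D.p b a z = 0 := by
    refine (Finset.sum_eq_zero_iff_of_nonneg fun b _ => ?_).1 h2
    rw [D.symmp b a z]
    exact mul_self_nonneg _
  have h4 := h3 b (Finset.mem_univ b)
  rw [D.symmp b a z] at h4
  exact mul_self_eq_zero.1 h4

theorem subsingleton_HE (D : Dat 4 M κ) (h : ∀ a z, D.p a a z = 0) :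
    Subsingleton D.toAD.HE := by
  have h1 : ∀ f : D.toAD.HE, f = 0 := by
    intro f
    apply Subtype.ext
    have h2 : D.toAD.P (f : HH (μHE[4] : Measure M) κ) = f := f.2
    rw [← h2]
    ext a
    have h3 : ((0 : HH (μHE[4] : Measure M) κ) a : Lp ℝ 2 (μHE[4] : Measure M)) = 0 := rfl
    have h4 : (((0 : D.toAD.HE) : HH (μHE[4] : Measure M) κ)) = 0 := rfl
    rw [h4, h3]
    filter_upwards [D.toAD.coe_P (f : HH (μHE[4] : Measure M) κ),
      Lp.coeFn_zero ℝ 2 (μHE[4] : Measure M)] with x e1 e2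
    rw [e1 a, e2]
    have h5 : ∀ b, D.toAD.p a b x = 0 := fun b => p_zero D h a b x
    simp [h5]
  exact ⟨fun f g => (h1 f).trans (h1 g).symm⟩

theorem subsingleton_WE (D : Dat 4 M κ) (h : ∀ a z, D.p a a z = 0) :
    Subsingleton D.toAD.WE := by
  have := subsingleton_HE D h
  exact ⟨fun f g => D.toAD.jj_injective (Subsingleton.elim _ _)⟩

/-- **the Fredholm property and the index** -/
theorem fred4 (P : OpPair D0 D1) {d0 d1 : ℕ} (h0 : Nonempty (KerD D0 P.A d0))
    (h1 : Nonempty (KerD D1 P.B d1)) :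
    FDADef_365.Fred (Ah P) ∧ FDADef_365.ind (Ah P) = (d0 : ℤ) - d1 := by
  by_cases hp : ∃ a z, D0.p a a z ≠ 0
  · obtain ⟨S0⟩ := Swx_333.spec4 D0 hp
    obtain ⟨S1⟩ := Swx_333.spec4 D1 (Swx_333.exists_p_ne P S0)
    refine ⟨fred_Ah S0 S1, ?_⟩
    rw [ind_Ah S0 S1, card_ker P S0 h0, card_ker P.swap S1 h1]
  · have hq : ¬ ∃ a z, D1.p a a z ≠ 0 := by
      intro hq
      obtain ⟨S1⟩ := Swx_333.spec4 D1 hq
      exact hp (Swx_333.exists_p_ne P.swap S1)
    obtain ⟨K0⟩ := h0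
    obtain ⟨K1⟩ := h1
    have e0 : d0 = 0 := by
      by_contra hc
      exact hp (Swx_333.exists_p_ne_of_ker K0 (Nat.pos_of_ne_zero hc))
    have e1 : d1 = 0 := by
      by_contra hc
      exact hq (Swx_333.exists_p_ne_of_ker K1 (Nat.pos_of_ne_zero hc))
    push Not at hp hq
    have s0 := subsingleton_WE D0 hp
    have s1 := subsingleton_HE D1 hq
    obtain ⟨h2, h3⟩ := fred_zero (Ah P)
    exact ⟨h2, by rw [h3, e0, e1]; norm_num⟩

end

end Crest.Agent.R235.SwjFred_649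
end

-- ▼ part R235/SwjHopf_844
section

/-!
Row 235 (S0364), helper844: the standard Hopf map `hopf : ℂ² → ℝ³`, descent of `U(1)`-invariant
functions, and the collapsing map `Kn` of the three-sphere.
-/

set_option autoImplicit false

open Set Function Topology Filter
open scoped ComplexConjugate

namespace Crest.Agent.R235.SwjAbs_844

open Crest.Agent.R235

noncomputable section

/-- the Hopf map. -/
def hopf (s : C2) : E3 :=
  WithLp.toLp 2 ![‖s 0‖ ^ 2 - ‖s 1‖ ^ 2, 2 * (s 0 * conj (s 1)).re, 2 * (s 0 * conj (s 1)).im]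

@[simp] theorem hopf_0 (s : C2) : hopf s 0 = ‖s 0‖ ^ 2 - ‖s 1‖ ^ 2 := rfl
@[simp] theorem hopf_1 (s : C2) : hopf s 1 = 2 * (s 0 * conj (s 1)).re := rfl
@[simp] theorem hopf_2 (s : C2) : hopf s 2 = 2 * (s 0 * conj (s 1)).im := rfl

theorem norm_sq_C2 (s : C2) : ‖s‖ ^ 2 = ‖s 0‖ ^ 2 + ‖s 1‖ ^ 2 := by
  rw [EuclideanSpace.norm_sq_eq, Fin.sum_univ_two]

theorem norm_sq_E3 (t : E3) : ‖t‖ ^ 2 = t 0 ^ 2 + t 1 ^ 2 + t 2 ^ 2 := by
  rw [EuclideanSpace.norm_sq_eq, Fin.sum_univ_three]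
  simp only [Real.norm_eq_abs, sq_abs]

theorem re_im_sq (z : ℂ) : z.re ^ 2 + z.im ^ 2 = ‖z‖ ^ 2 := by
  rw [← Complex.normSq_eq_norm_sq, Complex.normSq_apply]; ring

theorem norm_hopf (s : C2) : ‖hopf s‖ = ‖s‖ ^ 2 := by
  have h1 : ‖hopf s‖ ^ 2 = (‖s‖ ^ 2) ^ 2 := by
    rw [norm_sq_E3, norm_sq_C2, hopf_0, hopf_1, hopf_2]
    have h2 := re_im_sq (s 0 * conj (s 1))
    rw [norm_mul, RCLike.norm_conj] at h2
    nlinarith [h2]
  exact (sq_eq_sq₀ (norm_nonneg _) (sq_nonneg _)).1 h1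

theorem continuous_hopf : Continuous hopf := by
  refine (PiLp.continuous_toLp 2 _).comp ?_
  refine continuous_pi fun i => ?_
  fin_cases i
  · show Continuous fun s : C2 => ‖s 0‖ ^ 2 - ‖s 1‖ ^ 2
    fun_prop
  · show Continuous fun s : C2 => 2 * (s 0 * conj (s 1)).re
    exact continuous_const.mul (Complex.continuous_re.comp (by fun_prop))
  · show Continuous fun s : C2 => 2 * (s 0 * conj (s 1)).im
    exact continuous_const.mul (Complex.continuous_im.comp (by fun_prop))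

theorem ext_E3 {t t' : E3} (h0 : t 0 = t' 0) (h1 : t 1 = t' 1) (h2 : t 2 = t' 2) : t = t' := by
  ext i
  fin_cases i
  · exact h0
  · exact h1
  · exact h2

theorem ext_C2 {t t' : C2} (h0 : t 0 = t' 0) (h1 : t 1 = t' 1) : t = t' := by
  ext i
  fin_cases i
  · exact h0
  · exact h1

@[simp] theorem smul_C2 (z : ℂ) (s : C2) (i : Fin 2) : (z • s) i = z * s i := rfl

theorem conj_mul_norm {z : ℂ} (hz : ‖z‖ = 1) : z * conj z = 1 := by
  rw [Complex.mul_conj, Complex.normSq_eq_norm_sq, hz]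
  simp

theorem hopf_smul (s : C2) {z : ℂ} (hz : ‖z‖ = 1) : hopf (z • s) = hopf s := by
  have h1 : (z • s) 0 * conj ((z • s) 1) = s 0 * conj (s 1) := by
    rw [smul_C2, smul_C2, map_mul]
    calc z * s 0 * (conj z * conj (s 1)) = (z * conj z) * (s 0 * conj (s 1)) := by ring
      _ = _ := by rw [conj_mul_norm hz, one_mul]
  refine ext_E3 ?_ ?_ ?_
  · simp only [hopf_0, smul_C2, norm_mul, hz, one_mul]
  · rw [hopf_1, hopf_1, h1]
  · rw [hopf_2, hopf_2, h1]

theorem hopf_eq {s s' : C2} (hs : ‖s‖ = 1) (hs' : ‖s'‖ = 1) (h : hopf s = hopf s') :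
    ∃ z : ℂ, ‖z‖ = 1 ∧ s' = z • s := by
  have e0 : ‖s 0‖ ^ 2 - ‖s 1‖ ^ 2 = ‖s' 0‖ ^ 2 - ‖s' 1‖ ^ 2 := congrArg (fun t : E3 => t 0) h
  have e1 : 2 * (s 0 * conj (s 1)).re = 2 * (s' 0 * conj (s' 1)).re :=
    congrArg (fun t : E3 => t 1) h
  have e2 : 2 * (s 0 * conj (s 1)).im = 2 * (s' 0 * conj (s' 1)).im :=
    congrArg (fun t : E3 => t 2) h
  have e3 : s 0 * conj (s 1) = s' 0 * conj (s' 1) := by
    refine Complex.ext ?_ ?_ <;> linarith
  have n1 := norm_sq_C2 s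
  have n2 := norm_sq_C2 s'
  rw [hs] at n1
  rw [hs'] at n2
  have a0 : ‖s 0‖ = ‖s' 0‖ := by
    refine (sq_eq_sq₀ (norm_nonneg _) (norm_nonneg _)).1 ?_
    linarith
  have a1 : ‖s 1‖ = ‖s' 1‖ := by
    refine (sq_eq_sq₀ (norm_nonneg _) (norm_nonneg _)).1 ?_
    linarith
  by_cases h0 : s 0 = 0
  · have h0' : s' 0 = 0 := by rw [← norm_eq_zero, ← a0, h0, norm_zero]
    have h1 : ‖s 1‖ ≠ 0 := by
      intro hc
      rw [h0, hc, norm_zero] at n1
      norm_num at n1
    have h1' : s 1 ≠ 0 := norm_ne_zero_iff.1 h1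
    refine ⟨s' 1 / s 1, by rw [norm_div, ← a1, div_self h1], ext_C2 ?_ ?_⟩
    · rw [smul_C2, h0, h0', mul_zero]
    · rw [smul_C2, div_mul_cancel₀ _ h1']
  · have hn : ‖s 0‖ ≠ 0 := norm_ne_zero_iff.2 h0
    have h0' : s' 0 ≠ 0 := norm_ne_zero_iff.1 (a0 ▸ hn)
    refine ⟨s' 0 / s 0, by rw [norm_div, ← a0, div_self hn], ext_C2 ?_ ?_⟩
    · rw [smul_C2, div_mul_cancel₀ _ h0]
    · rw [smul_C2]
      have hz : ‖s' 0 / s 0‖ = 1 := by rw [norm_div, ← a0, div_self hn]
      -- conj (s' 1) = s 0 conj (s 1) / s' 0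
      have h4 : conj (s' 1) = conj (s' 0 / s 0 * s 1) := by
        have h5 : s' 0 * conj (s' 1) = s' 0 * conj (s' 0 / s 0 * s 1) := by
          rw [← e3, map_mul]
          have h6 : s' 0 * conj (s' 0 / s 0) = s 0 := by
            have h7 := conj_mul_norm hz
            calc s' 0 * conj (s' 0 / s 0) = s 0 * (s' 0 / s 0 * conj (s' 0 / s 0)) := by
                  field_simp
              _ = s 0 := by rw [h7, mul_one]
          rw [← mul_assoc, h6]
        exact mul_left_cancel₀ h0' h5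
      have := congrArg conj h4
      simpa using this

theorem e0_0 : e0 0 = 1 := by simp [e0]
theorem e0_1 : e0 1 = 0 := by simp [e0]
theorem norm_e0 : ‖e0‖ = 1 := by simp [e0]

/-- the section of the Hopf map near `(1, 0, 0)`. -/
def sec (n : E3) : C2 :=
  WithLp.toLp 2 ![((√((1 + n 0) / 2) : ℝ) : ℂ),
    ((n 1 : ℂ) - (n 2 : ℂ) * Complex.I) / (2 * ((√((1 + n 0) / 2) : ℝ) : ℂ))]


theorem abs_comp_le (n : E3) (hn : ‖n‖ = 1) : |n 0| ≤ 1 := by
  have := norm_sq_E3 n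
  rw [hn] at this
  have h1 : n 0 ^ 2 ≤ 1 := by nlinarith [sq_nonneg (n 1), sq_nonneg (n 2)]
  exact (sq_le_one_iff_abs_le_one _).1 h1

theorem hopf_sec {n : E3} (hn : ‖n‖ = 1) (h0 : n 0 ≠ -1) : ‖sec n‖ = 1 ∧ hopf (sec n) = n := by
  have hle := abs_le.1 (abs_comp_le n hn)
  have hp : 0 < (1 + n 0) / 2 := by
    have : -1 < n 0 := lt_of_le_of_ne hle.1 (Ne.symm h0)
    linarith
  set r := √((1 + n 0) / 2) with hr
  have hrp : 0 < r := Real.sqrt_pos.2 hp
  have hr2 : r ^ 2 = (1 + n 0) / 2 := Real.sq_sqrt hp.le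
  have hn2 := norm_sq_E3 n
  rw [hn] at hn2
  have s0 : sec n 0 = (r : ℂ) := rfl
  have s1 : sec n 1 = ((n 1 : ℂ) - (n 2 : ℂ) * Complex.I) / (2 * (r : ℂ)) := rfl
  have m0 : ‖sec n 0‖ = r := by rw [s0, Complex.norm_real, Real.norm_eq_abs, abs_of_pos hrp]
  have m1 : ‖sec n 1‖ ^ 2 = (1 - n 0) / 2 := by
    rw [s1, norm_div, norm_mul, Complex.norm_real, Real.norm_eq_abs, abs_of_pos hrp, div_pow,
      mul_pow, hr2]
    have : ‖(n 1 : ℂ) - (n 2 : ℂ) * Complex.I‖ ^ 2 = n 1 ^ 2 + n 2 ^ 2 := by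
      rw [← re_im_sq]
      simp
    rw [this]
    have h2 : ‖(2 : ℂ)‖ = 2 := by simp
    rw [h2]
    have h3 : n 1 ^ 2 + n 2 ^ 2 = (1 - n 0) * (1 + n 0) := by nlinarith
    rw [h3]
    have : (1 + n 0) ≠ 0 := by linarith
    field_simp
  constructor
  · have : ‖sec n‖ ^ 2 = 1 := by
      rw [norm_sq_C2, m0, m1, hr2]; ring
    nlinarith [norm_nonneg (sec n)]
  · have hc : sec n 0 * conj (sec n 1) = ((n 1 : ℂ) + (n 2 : ℂ) * Complex.I) / 2 := by
      rw [s0, s1, map_div₀, map_sub, map_mul, map_mul, Complex.conj_ofReal, Complex.conj_ofReal,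
        Complex.conj_ofReal, Complex.conj_I]
      have h2 : (starRingEnd ℂ) (2 : ℂ) = 2 := Complex.conj_ofNat 2
      rw [h2]
      have : (r : ℂ) ≠ 0 := by exact_mod_cast hrp.ne'
      field_simp
      ring
    refine ext_E3 ?_ ?_ ?_
    · rw [hopf_0, m0, m1, hr2]; ring
    · rw [hopf_1, hc]; simp; ring
    · rw [hopf_2, hc]; simp; ring

theorem exists_lift {n : E3} (hn : ‖n‖ = 1) : ∃ s : C2, ‖s‖ = 1 ∧ hopf s = n := by
  by_cases h0 : n 0 = -1
  · refine ⟨EuclideanSpace.single 1 1, by simp, ?_⟩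
    have hn2 := norm_sq_E3 n
    rw [hn, h0] at hn2
    have h1 : n 1 = 0 := by nlinarith [sq_nonneg (n 1), sq_nonneg (n 2)]
    have h2 : n 2 = 0 := by nlinarith [sq_nonneg (n 1), sq_nonneg (n 2)]
    refine ext_E3 ?_ ?_ ?_
    · rw [hopf_0, h0]; simp
    · rw [hopf_1, h1]; simp
    · rw [hopf_2, h2]; simp
  · exact ⟨sec n, hopf_sec hn h0⟩

theorem exists_lift' (t : E3) : ∃ s : C2, ‖s‖ = 1 ∧ t = ‖t‖ • hopf s := by
  by_cases ht : t = 0
  · exact ⟨e0, norm_e0, by rw [ht, norm_zero, zero_smul]⟩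
  · have hn : ‖t‖ ≠ 0 := norm_ne_zero_iff.2 ht
    obtain ⟨s, h1, h2⟩ := exists_lift (n := ‖t‖⁻¹ • t) (by
      rw [norm_smul, norm_inv, norm_norm, inv_mul_cancel₀ hn])
    exact ⟨s, h1, by rw [h2, smul_smul, mul_inv_cancel₀ hn, one_smul]⟩

/-- **descent** of invariant functions. -/
theorem desc {Z : Type*} [NormedAddCommGroup Z] [NormedSpace ℝ Z] {ζ : ℝ → ℝ} (hζ : Continuous ζ)
    (hζ0 : ζ 0 = 0) {F : C2 → Z} (hF : ContinuousOn F {s | ‖s‖ = 1})
    (hinv : ∀ s (z : ℂ), ‖s‖ = 1 → ‖z‖ = 1 → F (z • s) = F s) :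
    ∃ G : E3 → Z, Continuous G ∧
      ∀ t s, ‖s‖ = 1 → t = ‖t‖ • hopf s → G t = ζ ‖t‖ • F s := by
  choose lf hl1 hl2 using exists_lift'
  have key : ∀ t s, ‖s‖ = 1 → t = ‖t‖ • hopf s → ζ ‖t‖ • F (lf t) = ζ ‖t‖ • F s := by
    intro t s hs ht
    by_cases h0 : t = 0
    · rw [h0, norm_zero, hζ0, zero_smul, zero_smul]
    · have hn : ‖t‖ ≠ 0 := norm_ne_zero_iff.2 h0
      have h1 : hopf s = hopf (lf t) := by
        have h2 : ‖t‖ • hopf s = ‖t‖ • hopf (lf t) := by rw [← ht, ← hl2 t]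
        exact smul_right_injective E3 hn h2
      obtain ⟨z, hz, h3⟩ := hopf_eq hs (hl1 t) h1
      rw [h3, hinv s z hs hz]
  refine ⟨fun t => ζ ‖t‖ • F (lf t), ?_, key⟩
  rw [continuous_iff_continuousAt]
  intro t
  refine tendsto_of_subseq_tendsto fun ns hns => ?_
  have hc : IsCompact (Metric.sphere (0 : C2) 1) := isCompact_sphere _ _
  obtain ⟨s, hs, φ, hφ, hlim⟩ := hc.tendsto_subseq (x := fun n => lf (ns n))
    (fun n => by rw [mem_sphere_zero_iff_norm]; exact hl1 _)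
  rw [mem_sphere_zero_iff_norm] at hs
  refine ⟨φ, ?_⟩
  have h1 : Tendsto (fun n => ns (φ n)) atTop (𝓝 t) := hns.comp hφ.tendsto_atTop
  have h2 : Tendsto (fun n => ‖ns (φ n)‖ • hopf (lf (ns (φ n)))) atTop (𝓝 (‖t‖ • hopf s)) :=
    h1.norm.smul ((continuous_hopf.tendsto s).comp hlim)
  have h3 : t = ‖t‖ • hopf s := by
    refine tendsto_nhds_unique ?_ h2
    refine h1.congr fun n => hl2 _
  have h4 : Tendsto (fun n => F (lf (ns (φ n)))) atTop (𝓝 (F s)) := by
    refine (hF s hs).tendsto.comp ?_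
    exact tendsto_nhdsWithin_iff.2 ⟨hlim, Eventually.of_forall fun n => hl1 _⟩
  show Tendsto (fun n => ζ ‖ns (φ n)‖ • F (lf (ns (φ n)))) atTop (𝓝 (ζ ‖t‖ • F (lf t)))
  rw [key t s hs h3]
  exact ((hζ.tendsto _).comp h1.norm).smul h4

/-! ### the collapsing map -/

/-- cut-off. -/
def lam (r : ℝ) : ℝ := max 0 (min 1 (4 * r - 1))

theorem continuous_lam : Continuous lam := by unfold lam; fun_prop

theorem lam_of_le {r : ℝ} (h : r ≤ 1 / 4) : lam r = 0 := by
  unfold lam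
  rw [max_eq_left]
  exact (min_le_right _ _).trans (by linarith)

theorem lam_pos {r : ℝ} (h : 1 / 4 < r) : 0 < lam r := by
  unfold lam
  exact lt_max_of_lt_right (lt_min one_pos (by linarith))

/-- the collapsing map, not normalised. -/
def K0 (s : C2) : C2 := WithLp.toLp 2 ![s 0, (lam ‖s 1‖ : ℂ) * s 1]

theorem K0_0 (s : C2) : K0 s 0 = s 0 := rfl
theorem K0_1 (s : C2) : K0 s 1 = (lam ‖s 1‖ : ℂ) * s 1 := rfl

theorem continuous_K0 : Continuous K0 := by
  refine (PiLp.continuous_toLp 2 _).comp ?_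
  refine continuous_pi fun i => ?_
  fin_cases i
  · show Continuous fun s : C2 => s 0
    fun_prop
  · show Continuous fun s : C2 => (lam ‖s 1‖ : ℂ) * s 1
    have h1 : Continuous fun s : C2 => s 1 := by fun_prop
    exact (Complex.continuous_ofReal.comp (continuous_lam.comp h1.norm)).mul h1

theorem K0_ne {s : C2} (hs : ‖s‖ = 1) : K0 s ≠ 0 := by
  intro h
  have h0 : s 0 = 0 := by rw [← K0_0 s, h]; rfl
  have h1 : (lam ‖s 1‖ : ℂ) * s 1 = 0 := by rw [← K0_1 s, h]; rfl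
  have n1 := norm_sq_C2 s
  rw [hs, h0, norm_zero] at n1
  have h2 : ‖s 1‖ = 1 := by nlinarith [norm_nonneg (s 1)]
  rcases mul_eq_zero.1 h1 with h3 | h3
  · have : lam ‖s 1‖ = 0 := by exact_mod_cast h3
    have h4 := lam_pos (r := ‖s 1‖) (by rw [h2]; norm_num)
    linarith
  · rw [h3, norm_zero] at h2
    norm_num at h2

/-- the collapsing map of the three-sphere. -/
def Kn (s : C2) : C2 := ((‖K0 s‖⁻¹ : ℝ) : ℂ) • K0 s

theorem norm_Kn {s : C2} (hs : ‖s‖ = 1) : ‖Kn s‖ = 1 := by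
  have h := norm_ne_zero_iff.2 (K0_ne hs)
  rw [Kn, norm_smul, Complex.norm_real, norm_inv, norm_norm, inv_mul_cancel₀ h]

theorem continuousOn_Kn : ContinuousOn Kn {s | ‖s‖ = 1} := by
  have h1 : ContinuousOn (fun s : C2 => ((‖K0 s‖⁻¹ : ℝ) : ℂ)) {s | ‖s‖ = 1} :=
    Complex.continuous_ofReal.comp_continuousOn
      ((continuous_K0.norm.continuousOn).inv₀ fun s hs => norm_ne_zero_iff.2 (K0_ne hs))
  exact h1.smul continuous_K0.continuousOn

theorem K0_smul (s : C2) {z : ℂ} (hz : ‖z‖ = 1) : K0 (z • s) = z • K0 s := by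
  refine ext_C2 ?_ ?_
  · rw [K0_0, smul_C2, smul_C2, K0_0]
  · rw [K0_1, smul_C2, smul_C2, K0_1, norm_mul, hz, one_mul]; ring

theorem Kn_smul (s : C2) {z : ℂ} (hz : ‖z‖ = 1) : Kn (z • s) = z • Kn s := by
  rw [Kn, Kn, K0_smul s hz, norm_smul, hz, one_mul, smul_smul, smul_smul, mul_comm]

/-- the collapsed region. -/
theorem Kn_of_small {s : C2} (h : ‖s 1‖ ≤ 1 / 4) :
    Kn s = ((‖s 0‖⁻¹ : ℝ) * s 0) • e0 := by
  have h1 : K0 s = s 0 • e0 := by
    refine ext_C2 ?_ ?_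
    · rw [K0_0, smul_C2, e0_0, mul_one]
    · rw [K0_1, lam_of_le h, smul_C2, e0_1]; simp
  rw [Kn, h1, norm_smul, norm_e0, mul_one, smul_smul]

end

end Crest.Agent.R235.SwjAbs_844
end

-- ▼ part R235/SwjEval_844
section

/-!
Row 235 (S0364), helper844: the evaluation functional and the frozen parameter.
-/

set_option autoImplicit false

open Set Function Topology Filter
open scoped ComplexConjugate

namespace Crest.Agent.R235.SwjAbs_844

open Crest.Agent.R235

noncomputable section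

variable {b bp : ℕ} {P Y : Type} [NormedAddCommGroup P] [NormedSpace ℝ P]
  [CompleteSpace P] [NormedAddCommGroup Y] [InnerProductSpace ℝ Y] [CompleteSpace Y]
  (D : JData b bp P Y)

/-- the complex `L²` product. -/
def cz (φ x : P) : ℂ := (D.B φ x : ℂ) + (D.B (D.I φ) x : ℂ) * Complex.I

theorem cz_re (φ x : P) : (cz D φ x).re = D.B φ x := by simp [cz]
theorem cz_im (φ x : P) : (cz D φ x).im = D.B (D.I φ) x := by simp [cz]

theorem cz_smul (φ x : P) (z : ℂ) :
    cz D (z.re • φ + z.im • D.I φ) x = conj z * cz D φ x := by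
  have h1 : D.I (z.re • φ + z.im • D.I φ) = z.re • D.I φ - z.im • φ := by
    rw [map_add, map_smul, map_smul, D.I_I, smul_neg, sub_eq_add_neg]
  refine Complex.ext ?_ ?_
  · rw [cz_re]
    simp only [map_add, map_smul, _root_.add_apply, _root_.smul_apply,
      smul_eq_mul, Complex.mul_re, Complex.conj_re, Complex.conj_im, cz_re, cz_im]
    ring
  · rw [cz_im, h1]
    simp only [map_sub, map_smul, _root_.sub_apply, _root_.smul_apply,
      smul_eq_mul, Complex.mul_im, Complex.conj_re, Complex.conj_im, cz_re, cz_im]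
    ring

/-- the weight. -/
def mw (s : C2) : ℝ := max ‖s 0‖ (1 / 2)

theorem mw_pos (s : C2) : 0 < mw s := lt_max_of_lt_right (by norm_num)

theorem continuous_mw : Continuous mw := by
  have h1 : Continuous fun s : C2 => s 0 := by fun_prop
  exact h1.norm.max continuous_const

/-- the solution over `Kn s`. -/
def qk (s : C2) : P := D.Q (Kn s)

/-- basis vectors. -/
def bv (i : Fin 3) : E3 := EuclideanSpace.single i 1

/-- the evaluation functional. -/
def Gf (s : C2) : P →L[ℝ] E3 :=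
  mw s • ((((s 0).im • D.B (qk D s) + (s 0).re • D.B (D.I (qk D s))).smulRight (bv 0) +
    ((s 1).re • D.B (qk D s) - (s 1).im • D.B (D.I (qk D s))).smulRight (bv 1)) +
    ((s 1).im • D.B (qk D s) + (s 1).re • D.B (D.I (qk D s))).smulRight (bv 2))

theorem Gf_0 (s : C2) (x : P) : Gf D s x 0 = mw s * (cz D (qk D s) x * s 0).im := by
  simp [Gf, bv, Complex.mul_im, cz_re, cz_im]
  left; ring

theorem Gf_1 (s : C2) (x : P) : Gf D s x 1 = mw s * (cz D (qk D s) x * s 1).re := by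
  simp [Gf, bv, Complex.mul_re, cz_re, cz_im]
  left; ring

theorem Gf_2 (s : C2) (x : P) : Gf D s x 2 = mw s * (cz D (qk D s) x * s 1).im := by
  simp [Gf, bv, Complex.mul_im, cz_re, cz_im]
  left; ring

theorem continuousOn_qk : ContinuousOn (qk D) {s | ‖s‖ = 1} :=
  D.cQ.comp continuousOn_Kn fun _ hs => norm_Kn hs

theorem continuousOn_Gf : ContinuousOn (Gf D) {s | ‖s‖ = 1} := by
  have h0 : Continuous fun s : C2 => s 0 := by fun_prop
  have h1 : Continuous fun s : C2 => s 1 := by fun_prop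
  have hB : ContinuousOn (fun s => D.B (qk D s)) {s | ‖s‖ = 1} :=
    D.B.continuous.comp_continuousOn (continuousOn_qk D)
  have hBI : ContinuousOn (fun s => D.B (D.I (qk D s))) {s | ‖s‖ = 1} :=
    (D.B.continuous.comp D.I.continuous).comp_continuousOn (continuousOn_qk D)
  have hsr : ∀ (v : E3) (f : C2 → (P →L[ℝ] ℝ)), ContinuousOn f {s | ‖s‖ = 1} →
      ContinuousOn (fun s => (f s).smulRight v) {s | ‖s‖ = 1} := by
    intro v f hf
    exact (((ContinuousLinearMap.smulRightL ℝ P E3).flip v).continuous).comp_continuousOn hf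
  have r0 := (Complex.continuous_re.comp h0).continuousOn (s := {s : C2 | ‖s‖ = 1})
  have i0 := (Complex.continuous_im.comp h0).continuousOn (s := {s : C2 | ‖s‖ = 1})
  have r1 := (Complex.continuous_re.comp h1).continuousOn (s := {s : C2 | ‖s‖ = 1})
  have i1 := (Complex.continuous_im.comp h1).continuousOn (s := {s : C2 | ‖s‖ = 1})
  refine (continuous_mw.continuousOn).smul ?_
  exact ((hsr _ _ ((i0.smul hB).add (r0.smul hBI))).add
    (hsr _ _ ((r1.smul hB).sub (i1.smul hBI)))).add (hsr _ _ ((i1.smul hB).add (r1.smul hBI)))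

theorem mw_smul (s : C2) {z : ℂ} (hz : ‖z‖ = 1) : mw (z • s) = mw s := by
  rw [mw, mw, smul_C2, norm_mul, hz, one_mul]

theorem Gf_smul (s : C2) (z : ℂ) (hs : ‖s‖ = 1) (hz : ‖z‖ = 1) : Gf D (z • s) = Gf D s := by
  have hq : ∀ x, cz D (qk D (z • s)) x = conj z * cz D (qk D s) x := by
    intro x
    rw [qk, Kn_smul s hz, D.eqQ _ z (norm_Kn hs) hz, cz_smul]
    rfl
  have hc : ∀ x i, cz D (qk D (z • s)) x * (z • s) i = cz D (qk D s) x * s i := by
    intro x i
    rw [hq, smul_C2]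
    calc conj z * cz D (qk D s) x * (z * s i) = (z * conj z) * (cz D (qk D s) x * s i) := by ring
      _ = _ := by rw [conj_mul_norm hz, one_mul]
  ext1 x
  refine ext_E3 ?_ ?_ ?_
  · rw [Gf_0, Gf_0, hc, mw_smul s hz]
  · rw [Gf_1, Gf_1, hc, mw_smul s hz]
  · rw [Gf_2, Gf_2, hc, mw_smul s hz]

theorem exists_G : ∃ G : E3 → (P →L[ℝ] E3), Continuous G ∧
    ∀ t s, ‖s‖ = 1 → t = ‖t‖ • hopf s → G t = ‖t‖ • Gf D s :=
  desc (ζ := fun r => r) continuous_id rfl (continuousOn_Gf D) (Gf_smul D)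

theorem exists_Psi : ∃ Ψ : E3 → E3, Continuous Ψ ∧
    ∀ t s, ‖s‖ = 1 → t = ‖t‖ • hopf s → Ψ t = (min 1 (2 * ‖t‖)) • D.pi (Kn s) := by
  refine desc (ζ := fun r => min 1 (2 * r)) (by fun_prop) (by norm_num)
    (F := fun s => D.pi (Kn s)) (D.cpi.comp_continuousOn continuousOn_Kn) ?_
  intro s z hs hz
  show D.pi (Kn (z • s)) = D.pi (Kn s)
  rw [Kn_smul s hz]
  exact ((D.fpi (Kn s) (z • Kn s) (norm_Kn hs) (by rw [norm_smul, hz, norm_Kn hs, one_mul])).2
    ⟨z, hz, rfl⟩).symm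

/-- the evaluation operator of the parameter. -/
def GG (D : JData b bp P Y) : E3 → (P →L[ℝ] E3) := (exists_G D).choose

theorem continuous_GG : Continuous (GG D) := (exists_G D).choose_spec.1

theorem GG_eq {t : E3} {s : C2} (hs : ‖s‖ = 1) (h : t = ‖t‖ • hopf s) :
    GG D t = ‖t‖ • Gf D s := (exists_G D).choose_spec.2 t s hs h

/-- the frozen parameter. -/
def Psi (D : JData b bp P Y) : E3 → E3 := (exists_Psi D).choose

theorem continuous_Psi : Continuous (Psi D) := (exists_Psi D).choose_spec.1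

theorem Psi_eq {t : E3} {s : C2} (hs : ‖s‖ = 1) (h : t = ‖t‖ • hopf s) :
    Psi D t = (min 1 (2 * ‖t‖)) • D.pi (Kn s) := (exists_Psi D).choose_spec.2 t s hs h

theorem norm_Psi_le (t : E3) : ‖Psi D t‖ ≤ 1 := by
  obtain ⟨s, hs, h⟩ := exists_lift' t
  rw [Psi_eq D hs h, norm_smul, D.npi _ (norm_Kn hs), mul_one, Real.norm_eq_abs, abs_of_nonneg
    (le_min zero_le_one (by positivity))]
  exact min_le_left _ _

/-- the region near `(1, 0, 0)`. -/
def W0 : Set E3 := {t | 7 / 8 * ‖t‖ < t 0 ∧ 1 / 2 < ‖t‖}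

theorem isOpen_W0 : IsOpen W0 := by
  have h0 : Continuous fun t : E3 => t 0 := by fun_prop
  exact (isOpen_lt (continuous_const.mul continuous_norm) h0).inter
    (isOpen_lt continuous_const continuous_norm)

/-- the centre. -/
def t0 : E3 := hopf e0

theorem norm_t0 : ‖t0‖ = 1 := by rw [t0, norm_hopf, norm_e0]; norm_num
theorem t0_0 : t0 0 = 1 := by rw [t0, hopf_0, e0_0, e0_1]; norm_num
theorem t0_1 : t0 1 = 0 := by rw [t0, hopf_1, e0_0, e0_1]; norm_num
theorem t0_2 : t0 2 = 0 := by rw [t0, hopf_2, e0_0, e0_1]; norm_num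

theorem t0_mem : t0 ∈ W0 := ⟨by rw [norm_t0, t0_0]; norm_num, by rw [norm_t0]; norm_num⟩

theorem W0_mem : W0 ∈ 𝓝 t0 := isOpen_W0.mem_nhds t0_mem

/-- the lift over `W0`. -/
theorem lift_W0 {t : E3} (ht : t ∈ W0) : ∃ (s : C2) (r : ℝ), ‖s‖ = 1 ∧ t = ‖t‖ • hopf s ∧
    s 0 = (r : ℂ) ∧ 1 / 2 < r ∧ ‖s 1‖ ≤ 1 / 4 ∧ ‖t‖ * r ^ 2 = (‖t‖ + t 0) / 2 ∧
    (‖t‖ : ℂ) * (r : ℂ) * s 1 = ((t 1 : ℂ) - (t 2 : ℂ) * Complex.I) / 2 := by
  obtain ⟨h1, h2⟩ := ht
  have hp : 0 < ‖t‖ := by linarith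
  set n : E3 := ‖t‖⁻¹ • t with hn
  have hn1 : ‖n‖ = 1 := by rw [hn, norm_smul, norm_inv, norm_norm, inv_mul_cancel₀ hp.ne']
  have ni : ∀ i, n i = ‖t‖⁻¹ * t i := fun i => rfl
  have ti : ∀ i, t i = ‖t‖ * n i := fun i => by rw [ni]; field_simp
  have hn0 : 7 / 8 < n 0 := by
    have : 7 / 8 * ‖t‖ < ‖t‖ * n 0 := by rw [← ti]; exact h1
    nlinarith
  have hne : n 0 ≠ -1 := by linarith
  obtain ⟨hs1, hs2⟩ := hopf_sec hn1 hne
  set r := √((1 + n 0) / 2) with hr
  have hpp : 0 < (1 + n 0) / 2 := by linarith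
  have hrp : 0 < r := Real.sqrt_pos.2 hpp
  have hr2 : r ^ 2 = (1 + n 0) / 2 := Real.sq_sqrt hpp.le
  have e0' : sec n 0 = (r : ℂ) := rfl
  have e1' : sec n 1 = ((n 1 : ℂ) - (n 2 : ℂ) * Complex.I) / (2 * (r : ℂ)) := rfl
  refine ⟨sec n, r, hs1, ?_, e0', ?_, ?_, ?_, ?_⟩
  · rw [hs2, hn, smul_smul, mul_inv_cancel₀ hp.ne', one_smul]
  · nlinarith
  · have h3 := norm_sq_C2 (sec n)
    rw [hs1, e0', Complex.norm_real, Real.norm_eq_abs, abs_of_pos hrp, hr2] at h3
    have h4 : ‖sec n 1‖ ^ 2 ≤ (1 / 4) ^ 2 := by linarith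
    exact (sq_le_sq₀ (norm_nonneg _) (by norm_num)).1 h4
  · rw [hr2, ti 0]; ring
  · rw [e1', ti 1, ti 2]
    have : (r : ℂ) ≠ 0 := by exact_mod_cast hrp.ne'
    push_cast
    field_simp

theorem Kn_W0 {s : C2} {r : ℝ} (h0 : s 0 = (r : ℂ)) (hr : 1 / 2 < r) (h1 : ‖s 1‖ ≤ 1 / 4) :
    Kn s = e0 := by
  have hrp : 0 < r := by linarith
  rw [Kn_of_small h1, h0, Complex.norm_real, Real.norm_eq_abs, abs_of_pos hrp]
  have : (((r⁻¹ : ℝ) : ℂ) * (r : ℂ)) = 1 := by
    rw [← Complex.ofReal_mul, inv_mul_cancel₀ hrp.ne', Complex.ofReal_one]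
  rw [this, one_smul]

theorem Psi_W0 {t : E3} (ht : t ∈ W0) : Psi D t = D.pi e0 := by
  obtain ⟨s, r, hs, h, h0, hr, h1, -, -⟩ := lift_W0 ht
  rw [Psi_eq D hs h, Kn_W0 h0 hr h1, min_eq_left (by have := ht.2; linarith), one_smul]

/-- explicit form of the evaluation. -/
theorem GG_W0 {t : E3} (ht : t ∈ W0) (x : P) : GG D t x = WithLp.toLp 2
    ![(‖t‖ + t 0) / 2 * D.B (D.I (D.Q e0)) x,
      (D.B (D.Q e0) x * t 1 + D.B (D.I (D.Q e0)) x * t 2) / 2,
      (D.B (D.I (D.Q e0)) x * t 1 - D.B (D.Q e0) x * t 2) / 2] := by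
  obtain ⟨s, r, hs, h, h0, hr, h1, h2, h3⟩ := lift_W0 ht
  have hrp : 0 < r := by linarith
  have hm : mw s = r := by
    rw [mw, h0, Complex.norm_real, Real.norm_eq_abs, abs_of_pos hrp, max_eq_left hr.le]
  have hq : qk D s = D.Q e0 := by rw [qk, Kn_W0 h0 hr h1]
  rw [GG_eq D hs h, _root_.smul_apply]
  have key : ∀ c : ℂ, (‖t‖ : ℂ) * ((r : ℂ) * (c * s 1)) =
      c * (((t 1 : ℂ) - (t 2 : ℂ) * Complex.I) / 2) := by
    intro c
    rw [← h3]; ring
  refine ext_E3 ?_ ?_ ?_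
  · show ‖t‖ * (Gf D s x 0) = (‖t‖ + t 0) / 2 * D.B (D.I (D.Q e0)) x
    rw [Gf_0, hm, hq, h0, Complex.mul_im, cz_re, cz_im, Complex.ofReal_re, Complex.ofReal_im,
      ← h2]
    ring
  · show ‖t‖ * (Gf D s x 1) = (D.B (D.Q e0) x * t 1 + D.B (D.I (D.Q e0)) x * t 2) / 2
    rw [Gf_1, hm, hq]
    have h4 := congrArg Complex.re (key (cz D (D.Q e0) x))
    rw [Complex.re_ofReal_mul, Complex.re_ofReal_mul] at h4
    rw [h4]
    simp [Complex.mul_re, cz_re, cz_im]
    ring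
  · show ‖t‖ * (Gf D s x 2) = (D.B (D.I (D.Q e0)) x * t 1 - D.B (D.Q e0) x * t 2) / 2
    rw [Gf_2, hm, hq]
    have h4 := congrArg Complex.im (key (cz D (D.Q e0) x))
    rw [Complex.im_ofReal_mul, Complex.im_ofReal_mul] at h4
    rw [h4]
    simp [Complex.mul_im, cz_re, cz_im]
    ring

end

end Crest.Agent.R235.SwjAbs_844
end

-- ▼ part R235/SwjAbs_844
section

/-!
Row 235 (S0364), helper844: the abstract data `JData` are contradictory.
-/

set_option autoImplicit false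
set_option linter.unusedSectionVars false

open Set Function Topology Filter
open scoped ComplexConjugate RealInnerProductSpace

namespace Crest.Agent.R235.SwjAbs_844

open Crest.Agent.R235 FDADef_365

noncomputable section

/-! ### rounding -/

section rounding

variable {b : ℕ}

/-- rounding. -/
def rd (h : Fin b → ℝ) : Fin b → ℤ := fun i => round (h i)

theorem rd_of {h : Fin b → ℝ} {k : Fin b → ℤ} (hk : ‖h - lat k‖ < 1 / 2) : rd h = k := by
  funext i
  have h1 : |h i - (k i : ℝ)| < 1 / 2 := by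
    have := norm_le_pi_norm (h - lat k) i
    rw [Real.norm_eq_abs] at this
    exact lt_of_le_of_lt this hk
  rw [abs_lt] at h1
  show round (h i) = k i
  rw [round_eq, Int.floor_eq_iff]
  constructor <;> linarith

theorem rd_lat (k : Fin b → ℤ) : rd (lat k) = k := rd_of (by rw [sub_self, norm_zero]; norm_num)

theorem rd_add (h : Fin b → ℝ) (m : Fin b → ℤ) : rd (h + lat m) = rd h + m := by
  funext i
  show round (h i + (m i : ℝ)) = round (h i) + m i
  exact round_add_intCast _ _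

/-- cut-off. -/
def chi (y : Fin b → ℝ) : ℝ := max 0 (min 1 (2 - 6 * ‖y‖))

theorem continuous_chi : Continuous (chi (b := b)) := by unfold chi; fun_prop

theorem chi_of_small {y : Fin b → ℝ} (h : ‖y‖ ≤ 1 / 6) : chi y = 1 := by
  unfold chi
  rw [min_eq_left (by linarith), max_eq_right zero_le_one]

theorem chi_of_large {y : Fin b → ℝ} (h : 1 / 3 ≤ ‖y‖) : chi y = 0 := by
  unfold chi
  rw [max_eq_left]
  exact (min_le_right _ _).trans (by linarith)

end rounding

variable {b bp : ℕ} {P Y : Type} [NormedAddCommGroup P] [NormedSpace ℝ P]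
  [CompleteSpace P] [NormedAddCommGroup Y] [InnerProductSpace ℝ Y] [CompleteSpace Y]
  (D : JData b bp P Y)

/-- the evaluation operator. -/
def EO (h : Fin b → ℝ) (t : E3) : P →L[ℝ] E3 :=
  chi (h - lat (rd h)) • ((GG D t).comp (D.U (-rd h) : P →L[ℝ] P))

theorem continuous_EO : Continuous (fun q : (Fin b → ℝ) × E3 => EO D q.1 q.2) := by
  rw [continuous_iff_continuousAt]
  rintro ⟨h0, t⟩
  by_cases hlt : ‖h0 - lat (rd h0)‖ < 1 / 2
  · set k := rd h0 with hk
    have h1 : ∀ᶠ q : (Fin b → ℝ) × E3 in 𝓝 (h0, t), ‖q.1 - lat k‖ < 1 / 2 := by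
      have hc : Continuous fun q : (Fin b → ℝ) × E3 => ‖q.1 - lat k‖ :=
        (continuous_fst.sub continuous_const).norm
      exact (isOpen_lt hc continuous_const).mem_nhds hlt
    have h2 : (fun q : (Fin b → ℝ) × E3 => EO D q.1 q.2) =ᶠ[𝓝 (h0, t)]
        fun q => chi (q.1 - lat k) • ((GG D q.2).comp (D.U (-k) : P →L[ℝ] P)) := by
      filter_upwards [h1] with q hq
      simp only [EO, rd_of hq]
    refine ContinuousAt.congr ?_ h2.symm
    refine Continuous.continuousAt ?_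
    exact (continuous_chi.comp (continuous_fst.sub continuous_const)).smul
      (((continuous_GG D).comp continuous_snd).clm_comp continuous_const)
  · push Not at hlt
    have h1 : ∀ᶠ q : (Fin b → ℝ) × E3 in 𝓝 (h0, t), ‖h0 - q.1‖ < 1 / 6 := by
      have hc : Continuous fun q : (Fin b → ℝ) × E3 => ‖h0 - q.1‖ :=
        (continuous_const.sub continuous_fst).norm
      refine (isOpen_lt hc continuous_const).mem_nhds ?_
      show ‖h0 - h0‖ < 1 / 6
      rw [sub_self, norm_zero]; norm_num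
    have h2 : (fun q : (Fin b → ℝ) × E3 => EO D q.1 q.2) =ᶠ[𝓝 (h0, t)] fun _ => 0 := by
      filter_upwards [h1] with q hq
      have h3 : 1 / 3 ≤ ‖q.1 - lat (rd q.1)‖ := by
        by_contra hcon
        push Not at hcon
        have h4 : ‖h0 - lat (rd q.1)‖ < 1 / 2 := by
          have h5 : h0 - lat (rd q.1) = (h0 - q.1) + (q.1 - lat (rd q.1)) := by abel
          rw [h5]
          exact lt_of_le_of_lt (norm_add_le _ _) (by linarith)
        have h6 := rd_of h4
        rw [h6] at hlt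
        linarith
      show chi (q.1 - lat (rd q.1)) • ((GG D q.2).comp (D.U (-rd q.1) : P →L[ℝ] P)) = 0
      rw [chi_of_large h3]
      exact zero_smul ℝ ((GG D q.2).comp (D.U (-rd q.1) : P →L[ℝ] P))
    exact ContinuousAt.congr continuousAt_const h2.symm

theorem U_zero (x : P) : D.U 0 x = x := by
  have h := D.U_add 0 0 x
  rw [add_zero] at h
  exact (D.U 0).injective h.symm

theorem U_neg (k : Fin b → ℤ) (x : P) : D.U (-k) (D.U k x) = x := by
  rw [← D.U_add, neg_add_cancel, U_zero]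

theorem EO_shift (h : Fin b → ℝ) (m : Fin b → ℤ) (t : E3) (x : P) :
    EO D (h + lat m) t (D.U m x) = EO D h t x := by
  have h1 : h + lat m - lat (rd (h + lat m)) = h - lat (rd h) := by
    rw [rd_add]
    funext i
    simp [lat]
  have h2 : D.U (-(rd h + m)) (D.U m x) = D.U (-rd h) x := by
    rw [← D.U_add]
    congr 1
    congr 1
    abel
  show (chi (h + lat m - lat (rd (h + lat m))) • ((GG D t).comp
    (D.U (-rd (h + lat m)) : P →L[ℝ] P))) (D.U m x) = (chi (h - lat (rd h)) •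
      ((GG D t).comp (D.U (-rd h) : P →L[ℝ] P))) x
  rw [h1, rd_add]
  show chi (h - lat (rd h)) • GG D t (D.U (-(rd h + m)) (D.U m x)) =
    chi (h - lat (rd h)) • GG D t (D.U (-rd h) x)
  rw [h2]

theorem EO_lat (k : Fin b → ℤ) (t : E3) (x : P) : EO D (lat k) t (D.U k x) = GG D t x := by
  have h1 : lat k - lat (rd (lat k)) = (0 : Fin b → ℝ) := by rw [rd_lat, sub_self]
  show (chi (lat k - lat (rd (lat k)))) • GG D t (D.U (-rd (lat k)) (D.U k x)) = _
  rw [h1, rd_lat, U_neg, chi_of_small (by rw [norm_zero]; norm_num), one_smul]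

theorem EO_near {h : Fin b → ℝ} (hh : ‖h‖ < 1 / 6) (t : E3) (x : P) : EO D h t x = GG D t x := by
  have h0 : (lat (0 : Fin b → ℤ) : Fin b → ℝ) = 0 := by funext i; simp [lat]
  have h1 : rd h = 0 := rd_of (by rw [h0, sub_zero]; linarith)
  show (chi (h - lat (rd h))) • GG D t (D.U (-rd h) x) = _
  rw [h1, h0, sub_zero, neg_zero, U_zero, chi_of_small hh.le, one_smul]

/-! ### the target -/

/-- the target of the odd equations. -/
abbrev YP (Y : Type) [NormedAddCommGroup Y] : Type := WithLp 2 (Y × E3)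

/-- pairs. -/
def mk (Y : Type) [NormedAddCommGroup Y] [InnerProductSpace ℝ Y] : (Y × E3) ≃L[ℝ] YP Y :=
  (WithLp.prodContinuousLinearEquiv 2 ℝ Y E3).symm



theorem mk_inj {p q : Y × E3} (h : mk Y p = mk Y q) : p = q := (mk Y).injective h

/-- the Fredholm operator. -/
def LL : P →L[ℝ] YP Y := (mk Y : (Y × E3) →L[ℝ] YP Y).comp (D.L.prod 0)

theorem LL_apply (x : P) : LL D x = mk Y (D.L x, 0) := rfl

/-- the gauge transformations on the target. -/
def VV (m : Fin b → ℤ) : YP Y ≃L[ℝ] YP Y :=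
  ((mk Y).symm.trans ((D.V m).prodCongr (ContinuousLinearEquiv.refl ℝ E3))).trans (mk Y)


/-- the sum of the torus terms. -/
def MM (h : Fin b → ℝ) (x : P) : Y := ∑ i, h i • D.M i x

/-- the odd nonlinearity. -/
def KKp (p : (Fin b → ℝ) × E3 × P) : YP Y :=
  mk Y (MM D p.1 p.2.2 + D.KP (Psi D p.2.1) p.2.2, EO D p.1 p.2.1 p.2.2)

/-- the even nonlinearity. -/
def KKa (p : (Fin b → ℝ) × E3 × P) : EuclideanSpace ℝ (Fin bp) := D.KA (Psi D p.2.1) p.2.2

theorem continuous_MM : Continuous (fun p : (Fin b → ℝ) × P => MM D p.1 p.2) := by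
  unfold MM
  refine continuous_finsetSum _ fun i _ => ?_
  exact ((continuous_apply i).comp continuous_fst).smul ((D.M i).continuous.comp continuous_snd)

theorem cont_KKa : Continuous (KKa D) := by
  have h1 : Continuous fun p : (Fin b → ℝ) × E3 × P => ((Psi D p.2.1, p.2.2) : E3 × P) :=
    ((continuous_Psi D).comp (continuous_fst.comp continuous_snd)).prodMk
      (continuous_snd.comp continuous_snd)
  exact D.cKA.comp_continuous h1 fun p => norm_Psi_le D _

theorem cont_KKp : Continuous (KKp D) := by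
  have h1 : Continuous fun p : (Fin b → ℝ) × E3 × P => ((Psi D p.2.1, p.2.2) : E3 × P) :=
    ((continuous_Psi D).comp (continuous_fst.comp continuous_snd)).prodMk
      (continuous_snd.comp continuous_snd)
  have h2 : Continuous fun p : (Fin b → ℝ) × E3 × P => D.KP (Psi D p.2.1) p.2.2 :=
    D.cKP.comp_continuous h1 fun p => norm_Psi_le D _
  have h3 : Continuous fun p : (Fin b → ℝ) × E3 × P => MM D p.1 p.2.2 :=
    (continuous_MM D).comp (continuous_fst.prodMk (continuous_snd.comp continuous_snd))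
  have h4 : Continuous fun p : (Fin b → ℝ) × E3 × P => EO D p.1 p.2.1 p.2.2 := by
    have h6 : Continuous fun p : (Fin b → ℝ) × E3 × P => ((p.1, p.2.1) : (Fin b → ℝ) × E3) :=
      continuous_fst.prodMk (continuous_fst.comp continuous_snd)
    have h5 : Continuous fun p : (Fin b → ℝ) × E3 × P => EO D p.1 p.2.1 :=
      Continuous.comp (g := fun q : (Fin b → ℝ) × E3 => EO D q.1 q.2)
        (f := fun p : (Fin b → ℝ) × E3 × P => ((p.1, p.2.1) : (Fin b → ℝ) × E3))
        (continuous_EO D) h6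
    have h7 : Continuous fun p : (Fin b → ℝ) × E3 × P => p.2.2 :=
      continuous_snd.comp continuous_snd
    exact h5.clm_apply h7
  have h8 : Continuous fun p : (Fin b → ℝ) × E3 × P =>
      ((MM D p.1 p.2.2 + D.KP (Psi D p.2.1) p.2.2, EO D p.1 p.2.1 p.2.2) : Y × E3) :=
    (h3.add h2).prodMk h4
  exact (mk Y).continuous.comp h8

theorem cpt_KKa (R : ℝ) : IsCompact (closure (KKa D '' {p | ‖p‖ ≤ R})) := by
  obtain ⟨C, hC, h⟩ := D.cptA R
  refine hC.of_isClosed_subset isClosed_closure (closure_minimal ?_ hC.isClosed)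
  rintro _ ⟨p, hp, rfl⟩
  have h1 : ‖p.2.2‖ ≤ R := (norm_snd_le p.2).trans ((norm_snd_le p).trans hp)
  exact h _ _ (norm_Psi_le D _) h1

theorem cpt_KKp (R : ℝ) : IsCompact (closure (KKp D '' {p | ‖p‖ ≤ R})) := by
  obtain ⟨C, hC, hCP⟩ := D.cptP R
  have hM : ∀ i, ∃ Ci, IsCompact Ci ∧ ∀ x, ‖x‖ ≤ R → D.M i x ∈ Ci := by
    intro i
    obtain ⟨Ci, hCi, hsub⟩ := (D.cptM i).image_closedBall_subset_compact R
    exact ⟨Ci, hCi, fun x hx => hsub ⟨x, by simpa using hx, rfl⟩⟩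
  choose Ci hCi hMi using hM
  -- the evaluation is bounded
  have hcb : IsCompact ((Metric.closedBall (0 : Fin b → ℝ) R) ×ˢ (Metric.closedBall (0 : E3) R)) :=
    (isCompact_closedBall _ _).prod (isCompact_closedBall _ _)
  obtain ⟨N, hN⟩ := hcb.exists_bound_of_continuousOn (continuous_EO D).continuousOn
  have hK : IsCompact ((fun q : ((Fin b → ℝ) × (Fin b → Y)) × (Y × E3) =>
      mk Y (∑ i, q.1.1 i • q.1.2 i + q.2.1, q.2.2)) ''
      (((Metric.closedBall (0 : Fin b → ℝ) R) ×ˢ (Set.univ.pi Ci)) ×ˢ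
        (C ×ˢ (Metric.closedBall (0 : E3) (N * R))))) := by
    refine IsCompact.image ?_ ?_
    · exact (((isCompact_closedBall _ _).prod (isCompact_univ_pi hCi))).prod
        (hC.prod (isCompact_closedBall _ _))
    · refine (mk Y).continuous.comp ?_
      refine Continuous.prodMk (Continuous.add ?_ (continuous_fst.comp continuous_snd))
        (continuous_snd.comp continuous_snd)
      refine continuous_finsetSum _ fun i _ => ?_
      exact ((continuous_apply i).comp (continuous_fst.comp continuous_fst)).smul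
        ((continuous_apply i).comp (continuous_snd.comp continuous_fst))
  refine hK.of_isClosed_subset isClosed_closure (closure_minimal ?_ hK.isClosed)
  rintro _ ⟨p, hp, rfl⟩
  have hp' : ‖p‖ ≤ R := hp
  have h0 : ‖p.1‖ ≤ R := (norm_fst_le p).trans hp'
  have h1 : ‖p.2.2‖ ≤ R := (norm_snd_le p.2).trans ((norm_snd_le p).trans hp')
  have h2 : ‖p.2.1‖ ≤ R := (norm_fst_le p.2).trans ((norm_snd_le p).trans hp')
  refine ⟨((p.1, fun i => D.M i p.2.2), (D.KP (Psi D p.2.1) p.2.2, EO D p.1 p.2.1 p.2.2)),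
    ⟨⟨by simpa using h0, fun i _ => hMi i _ h1⟩, hCP _ _ (norm_Psi_le D _) h1, ?_⟩, rfl⟩
  rw [mem_closedBall_zero_iff]
  have h3 : ‖EO D p.1 p.2.1‖ ≤ N := hN (p.1, p.2.1) ⟨by simpa using h0, by simpa using h2⟩
  calc ‖EO D p.1 p.2.1 p.2.2‖ ≤ ‖EO D p.1 p.2.1‖ * ‖p.2.2‖ := (EO D p.1 p.2.1).le_opNorm _
    _ ≤ N * R := mul_le_mul h3 h1 (norm_nonneg _) ((norm_nonneg _).trans h3)

/-! ### Fredholm -/

theorem fredA : Fred (0 : E3 →L[ℝ] EuclideanSpace ℝ (Fin bp)) := by
  refine ⟨inferInstance, ?_, inferInstance⟩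
  have : range (0 : E3 →L[ℝ] EuclideanSpace ℝ (Fin bp)) = {0} := by
    ext y
    constructor
    · rintro ⟨x, rfl⟩; rfl
    · rintro rfl; exact ⟨0, rfl⟩
  rw [this]
  exact isClosed_singleton

theorem indA : ind (0 : E3 →L[ℝ] EuclideanSpace ℝ (Fin bp)) = 3 - bp := by
  unfold ind
  have h1 : LinearMap.ker ((0 : E3 →L[ℝ] EuclideanSpace ℝ (Fin bp)) :
      E3 →ₗ[ℝ] EuclideanSpace ℝ (Fin bp)) = ⊤ := by
    rw [ContinuousLinearMap.toLinearMap_zero]; exact LinearMap.ker_zero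
  have h2 : LinearMap.range ((0 : E3 →L[ℝ] EuclideanSpace ℝ (Fin bp)) :
      E3 →ₗ[ℝ] EuclideanSpace ℝ (Fin bp)) = ⊥ := by
    rw [ContinuousLinearMap.toLinearMap_zero]; exact LinearMap.range_zero
  rw [h1, h2, Submodule.bot_orthogonal_eq_top, finrank_top, finrank_top,
    finrank_euclideanSpace_fin, finrank_euclideanSpace_fin]
  rfl

theorem ker_LL : LinearMap.ker (LL D : P →ₗ[ℝ] YP Y) = LinearMap.ker (D.L : P →ₗ[ℝ] Y) := by
  ext x
  rw [LinearMap.mem_ker, LinearMap.mem_ker]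
  constructor
  · intro h
    have h1 : mk Y (D.L x, 0) = mk Y 0 := by rw [map_zero]; exact h
    exact congrArg Prod.fst (mk_inj h1)
  · intro h
    show mk Y (D.L x, 0) = 0
    have h1 : D.L x = 0 := h
    rw [h1]
    exact map_zero _

theorem mem_orth (y : YP Y) : y ∈ (LinearMap.range (LL D : P →ₗ[ℝ] YP Y))ᗮ ↔
    y.fst ∈ (LinearMap.range (D.L : P →ₗ[ℝ] Y))ᗮ := by
  rw [Submodule.mem_orthogonal, Submodule.mem_orthogonal]
  constructor
  · rintro h _ ⟨x, rfl⟩
    have h1 := h (LL D x) ⟨x, rfl⟩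
    rw [WithLp.prod_inner_apply] at h1
    have h2 : ⟪(LL D x).snd, y.snd⟫ = (0 : ℝ) := by
      show ⟪(0 : E3), y.snd⟫ = (0 : ℝ)
      exact inner_zero_left _
    have h3 : ⟪(LL D x).fst, y.fst⟫ + ⟪(LL D x).snd, y.snd⟫ = (0 : ℝ) := h1
    rw [h2, add_zero] at h3
    exact h3
  · rintro h _ ⟨x, rfl⟩
    rw [WithLp.prod_inner_apply]
    have h2 : ⟪(LL D x).snd, y.snd⟫ = (0 : ℝ) := by
      show ⟪(0 : E3), y.snd⟫ = (0 : ℝ)
      exact inner_zero_left _
    have h3 : ⟪(LL D x).fst, y.fst⟫ = (0 : ℝ) := h (D.L x) ⟨x, rfl⟩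
    show ⟪(LL D x).fst, y.fst⟫ + ⟪(LL D x).snd, y.snd⟫ = (0 : ℝ)
    rw [h2, h3, add_zero]

/-- the cokernel. -/
def orthEquiv : (LinearMap.range (LL D : P →ₗ[ℝ] YP Y))ᗮ ≃ₗ[ℝ]
    ((LinearMap.range (D.L : P →ₗ[ℝ] Y))ᗮ : Submodule ℝ Y) × E3 where
  toFun y := (⟨y.1.fst, (mem_orth D y.1).1 y.2⟩, y.1.snd)
  invFun p := ⟨mk Y (p.1.1, p.2), (mem_orth D _).2 p.1.2⟩
  left_inv _ := rfl
  right_inv _ := rfl
  map_add' _ _ := rfl
  map_smul' _ _ := rfl

theorem fredP : Fred (LL D) := by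
  have h := D.fred
  have hk := h.ker
  have hc := h.coker
  refine ⟨?_, ?_, ?_⟩
  · rw [ker_LL]; exact hk
  · have h1 : range (LL D) = mk Y '' (range D.L ×ˢ {0}) := by
      ext y
      constructor
      · rintro ⟨x, rfl⟩
        exact ⟨(D.L x, 0), ⟨⟨x, rfl⟩, rfl⟩, rfl⟩
      · rintro ⟨⟨y1, y2⟩, ⟨⟨x, hx⟩, hy⟩, rfl⟩
        have h2 : y2 = 0 := hy
        refine ⟨x, ?_⟩
        rw [LL_apply, hx, h2]
    rw [h1]
    exact (mk Y).toHomeomorph.isClosedMap _ (h.closed.prod isClosed_singleton)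
  · exact (orthEquiv D).symm.finiteDimensional

theorem indP : ind (LL D) = ind D.L - 3 := by
  have hk := D.fred.ker
  have hc := D.fred.coker
  unfold ind
  rw [ker_LL, (orthEquiv D).finrank_eq, Module.finrank_prod, finrank_euclideanSpace_fin]
  push_cast
  ring

/-! ### the derivative -/

theorem B_I_self (x : P) : D.B (D.I x) x = 0 := by
  have h1 := D.B_I (D.I x) x
  rw [D.I_I, map_neg, _root_.neg_apply, D.B_symm x (D.I x)] at h1
  linarith

/-- the square of the norm of the solution. -/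
def AA : ℝ := D.B (D.Q e0) (D.Q e0)

theorem AA_pos : 0 < AA D := D.posQ e0 norm_e0

/-- the derivative of the evaluation. -/
def d2 : ((Fin b → ℝ) × E3 × P) →L[ℝ] E3 :=
  (((D.B (D.I (D.Q e0))).comp ((ContinuousLinearMap.snd ℝ E3 P).comp
      (ContinuousLinearMap.snd ℝ (Fin b → ℝ) (E3 × P)))).smulRight (bv 0) +
    ((AA D / 2) • ((EuclideanSpace.proj (1 : Fin 3) : E3 →L[ℝ] ℝ).comp
      ((ContinuousLinearMap.fst ℝ E3 P).comp
        (ContinuousLinearMap.snd ℝ (Fin b → ℝ) (E3 × P))))).smulRight (bv 1)) +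
    ((-(AA D / 2)) • ((EuclideanSpace.proj (2 : Fin 3) : E3 →L[ℝ] ℝ).comp
      ((ContinuousLinearMap.fst ℝ E3 P).comp
        (ContinuousLinearMap.snd ℝ (Fin b → ℝ) (E3 × P))))).smulRight (bv 2)

theorem d2_0 (y : (Fin b → ℝ) × E3 × P) : d2 D y 0 = D.B (D.I (D.Q e0)) y.2.2 := by
  simp [d2, bv]

theorem d2_1 (y : (Fin b → ℝ) × E3 × P) : d2 D y 1 = AA D / 2 * y.2.1 1 := by
  simp [d2, bv]

theorem d2_2 (y : (Fin b → ℝ) × E3 × P) : d2 D y 2 = -(AA D / 2) * y.2.1 2 := by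
  simp [d2, bv]

/-- the derivative of the Dirac equation. -/
def d1 : ((Fin b → ℝ) × E3 × P) →L[ℝ] Y :=
  (D.L + D.KP').comp ((ContinuousLinearMap.snd ℝ E3 P).comp
      (ContinuousLinearMap.snd ℝ (Fin b → ℝ) (E3 × P))) +
    ∑ i, ((ContinuousLinearMap.proj (R := ℝ) (φ := fun _ : Fin b => ℝ) i).comp
      (ContinuousLinearMap.fst ℝ (Fin b → ℝ) (E3 × P))).smulRight (D.M i (D.Q e0))

theorem d1_apply (y : (Fin b → ℝ) × E3 × P) :
    d1 D y = D.L y.2.2 + ∑ i, y.1 i • D.M i (D.Q e0) + D.KP' y.2.2 := by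
  simp only [d1, _root_.add_apply, ContinuousLinearMap.comp_apply,
    _root_.sum_apply, ContinuousLinearMap.smulRight_apply,
    ContinuousLinearMap.proj_apply, ContinuousLinearMap.coe_fst', ContinuousLinearMap.coe_snd']
  abel

/-- the derivative of the radius. -/
def d3 : ((Fin b → ℝ) × E3 × P) →L[ℝ] ℝ :=
  ((2 : ℝ) • innerSL ℝ t0).comp ((ContinuousLinearMap.fst ℝ E3 P).comp
    (ContinuousLinearMap.snd ℝ (Fin b → ℝ) (E3 × P)))

theorem inner_t0 (t : E3) : ⟪t0, t⟫ = t 0 := by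
  rw [PiLp.inner_apply, Fin.sum_univ_three, t0_0, t0_1, t0_2]
  simp

/-- the total derivative. -/
def dd : ((Fin b → ℝ) × E3 × P) →L[ℝ] EuclideanSpace ℝ (Fin bp) × YP Y × ℝ :=
  (D.KA'.comp ((ContinuousLinearMap.snd ℝ E3 P).comp
      (ContinuousLinearMap.snd ℝ (Fin b → ℝ) (E3 × P)))).prod
    (((mk Y : (Y × E3) →L[ℝ] YP Y).comp ((d1 D).prod (d2 D))).prod (d3 (P := P)))

theorem dd_inj (y : (Fin b → ℝ) × E3 × P) (h : dd D y = 0) : y = 0 := by
  obtain ⟨κ, τ, v⟩ := y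
  have h1 : D.KA' v = 0 := congrArg Prod.fst h
  have h2 : mk Y (d1 D (κ, τ, v), d2 D (κ, τ, v)) = mk Y 0 := by
    rw [map_zero]
    exact congrArg (fun z => z.2.1) h
  have h3 : (2 : ℝ) * ⟪t0, τ⟫ = 0 := congrArg (fun z => z.2.2) h
  have h4 := mk_inj h2
  have h5 : d1 D (κ, τ, v) = 0 := congrArg Prod.fst h4
  have h6 : d2 D (κ, τ, v) = 0 := congrArg Prod.snd h4
  rw [d1_apply] at h5
  obtain ⟨hκ, c, hv⟩ := D.ker κ v h1 h5
  have g0 : D.B (D.I (D.Q e0)) v = 0 := by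
    have := congrArg (fun z : E3 => z 0) h6
    simp only [d2_0] at this
    exact this
  have g1 : AA D / 2 * τ 1 = 0 := by
    have := congrArg (fun z : E3 => z 1) h6
    simp only [d2_1] at this
    exact this
  have g2 : -(AA D / 2) * τ 2 = 0 := by
    have := congrArg (fun z : E3 => z 2) h6
    simp only [d2_2] at this
    exact this
  have hA := AA_pos D
  rw [hv, map_smul, D.B_I, smul_eq_mul] at g0
  have hc : c = 0 := by
    rcases mul_eq_zero.1 g0 with h | h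
    · exact h
    · exact absurd h hA.ne'
  rw [inner_t0] at h3
  have k0 : τ 0 = 0 := by linarith
  have k1 : τ 1 = 0 := by
    rcases mul_eq_zero.1 g1 with h | h
    · linarith
    · exact h
  have k2 : τ 2 = 0 := by
    rcases mul_eq_zero.1 g2 with h | h
    · linarith
    · exact h
  have hτ : τ = 0 := ext_E3 k0 k1 k2
  rw [hκ, hτ, hv, hc, zero_smul]
  rfl

/-! ### differentiability -/

theorem hasFDeriv_x (p0 : (Fin b → ℝ) × E3 × P) :
    HasFDerivAt (fun p : (Fin b → ℝ) × E3 × P => p.2.2)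
      ((ContinuousLinearMap.snd ℝ E3 P).comp (ContinuousLinearMap.snd ℝ (Fin b → ℝ) (E3 × P)))
      p0 :=
  ((ContinuousLinearMap.snd ℝ E3 P).comp
    (ContinuousLinearMap.snd ℝ (Fin b → ℝ) (E3 × P))).hasFDerivAt

theorem hasFDeriv_t (p0 : (Fin b → ℝ) × E3 × P) :
    HasFDerivAt (fun p : (Fin b → ℝ) × E3 × P => p.2.1)
      ((ContinuousLinearMap.fst ℝ E3 P).comp (ContinuousLinearMap.snd ℝ (Fin b → ℝ) (E3 × P)))
      p0 :=
  ((ContinuousLinearMap.fst ℝ E3 P).comp
    (ContinuousLinearMap.snd ℝ (Fin b → ℝ) (E3 × P))).hasFDerivAt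

/-- the base point. -/
def q0 : (Fin b → ℝ) × E3 × P := (0, t0, D.Q e0)

theorem near : ∀ᶠ p : (Fin b → ℝ) × E3 × P in 𝓝 (q0 D), p.2.1 ∈ W0 ∧ ‖p.1‖ < 1 / 6 := by
  have h1 : Continuous fun p : (Fin b → ℝ) × E3 × P => p.2.1 :=
    continuous_fst.comp continuous_snd
  have h2 : Continuous fun p : (Fin b → ℝ) × E3 × P => ‖p.1‖ := continuous_fst.norm
  have h3 : ∀ᶠ p : (Fin b → ℝ) × E3 × P in 𝓝 (q0 D), p.2.1 ∈ W0 :=
    (h1.tendsto (q0 D)).eventually (show ∀ᶠ t in 𝓝 (q0 D).2.1, t ∈ W0 from W0_mem)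
  have h4 : ∀ᶠ p : (Fin b → ℝ) × E3 × P in 𝓝 (q0 D), ‖p.1‖ < 1 / 6 := by
    refine (isOpen_lt h2 continuous_const).mem_nhds ?_
    show ‖(0 : Fin b → ℝ)‖ < 1 / 6
    rw [norm_zero]; norm_num
  exact h3.and h4

theorem der_A : HasFDerivAt (fun p : (Fin b → ℝ) × E3 × P => (0 : E3 →L[ℝ]
    EuclideanSpace ℝ (Fin bp)) p.2.1 + KKa D p)
    (D.KA'.comp ((ContinuousLinearMap.snd ℝ E3 P).comp
      (ContinuousLinearMap.snd ℝ (Fin b → ℝ) (E3 × P)))) (q0 D) := by
  have h1 : HasFDerivAt (fun p : (Fin b → ℝ) × E3 × P => D.KA (D.pi e0) p.2.2)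
    (D.KA'.comp ((ContinuousLinearMap.snd ℝ E3 P).comp
      (ContinuousLinearMap.snd ℝ (Fin b → ℝ) (E3 × P)))) (q0 D) :=
    HasFDerivAt.comp (q0 D) (g := D.KA (D.pi e0)) (f := fun p : (Fin b → ℝ) × E3 × P => p.2.2)
      D.dA (hasFDeriv_x (q0 D))
  refine h1.congr_of_eventuallyEq ?_
  filter_upwards [near D] with p hp
  show (0 : EuclideanSpace ℝ (Fin bp)) + D.KA (Psi D p.2.1) p.2.2 = D.KA (D.pi e0) p.2.2
  rw [Psi_W0 D hp.1, zero_add]

theorem der_M (i : Fin b) : HasFDerivAt (fun p : (Fin b → ℝ) × E3 × P => p.1 i • D.M i p.2.2)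
    (((ContinuousLinearMap.proj (R := ℝ) (φ := fun _ : Fin b => ℝ) i).comp
      (ContinuousLinearMap.fst ℝ (Fin b → ℝ) (E3 × P))).smulRight (D.M i (D.Q e0))) (q0 D) := by
  have h1 : HasFDerivAt (fun p : (Fin b → ℝ) × E3 × P => p.1 i)
      ((ContinuousLinearMap.proj (R := ℝ) (φ := fun _ : Fin b => ℝ) i).comp
      (ContinuousLinearMap.fst ℝ (Fin b → ℝ) (E3 × P))) (q0 D) :=
    ((ContinuousLinearMap.proj (R := ℝ) (φ := fun _ : Fin b => ℝ) i).comp
      (ContinuousLinearMap.fst ℝ (Fin b → ℝ) (E3 × P))).hasFDerivAt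
  have h2 : HasFDerivAt (fun p : (Fin b → ℝ) × E3 × P => D.M i p.2.2)
      ((D.M i).comp ((ContinuousLinearMap.snd ℝ E3 P).comp
      (ContinuousLinearMap.snd ℝ (Fin b → ℝ) (E3 × P)))) (q0 D) :=
    ((D.M i).comp ((ContinuousLinearMap.snd ℝ E3 P).comp
      (ContinuousLinearMap.snd ℝ (Fin b → ℝ) (E3 × P)))).hasFDerivAt
  refine (h1.smul h2).congr_fderiv ?_
  have h3 : (q0 D).1 i = 0 := rfl
  rw [h3, zero_smul, zero_add]
  rfl

theorem der_1 : HasFDerivAt (fun p : (Fin b → ℝ) × E3 × P =>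
    D.L p.2.2 + MM D p.1 p.2.2 + D.KP (D.pi e0) p.2.2) (d1 D) (q0 D) := by
  have h1 : HasFDerivAt (fun p : (Fin b → ℝ) × E3 × P => D.L p.2.2)
      (D.L.comp ((ContinuousLinearMap.snd ℝ E3 P).comp
      (ContinuousLinearMap.snd ℝ (Fin b → ℝ) (E3 × P)))) (q0 D) :=
    (D.L.comp ((ContinuousLinearMap.snd ℝ E3 P).comp
      (ContinuousLinearMap.snd ℝ (Fin b → ℝ) (E3 × P)))).hasFDerivAt
  have h2 : HasFDerivAt (fun p : (Fin b → ℝ) × E3 × P => MM D p.1 p.2.2)
      (∑ i, ((ContinuousLinearMap.proj (R := ℝ) (φ := fun _ : Fin b => ℝ) i).comp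
      (ContinuousLinearMap.fst ℝ (Fin b → ℝ) (E3 × P))).smulRight (D.M i (D.Q e0))) (q0 D) :=
    HasFDerivAt.fun_sum fun i _ => der_M D i
  have h3 : HasFDerivAt (fun p : (Fin b → ℝ) × E3 × P => D.KP (D.pi e0) p.2.2)
    (D.KP'.comp ((ContinuousLinearMap.snd ℝ E3 P).comp
      (ContinuousLinearMap.snd ℝ (Fin b → ℝ) (E3 × P)))) (q0 D) :=
    HasFDerivAt.comp (q0 D) (g := D.KP (D.pi e0)) (f := fun p : (Fin b → ℝ) × E3 × P => p.2.2)
      D.dP (hasFDeriv_x (q0 D))
  refine ((h1.add h2).add h3).congr_fderiv ?_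
  refine ContinuousLinearMap.ext fun y => ?_
  rw [d1_apply]
  simp only [_root_.add_apply, ContinuousLinearMap.comp_apply,
    _root_.sum_apply, ContinuousLinearMap.smulRight_apply,
    ContinuousLinearMap.proj_apply, ContinuousLinearMap.coe_fst', ContinuousLinearMap.coe_snd']

/-- the explicit evaluation. -/
def ev (p : (Fin b → ℝ) × E3 × P) : E3 := WithLp.toLp 2
    ![(‖p.2.1‖ + p.2.1 0) / 2 * D.B (D.I (D.Q e0)) p.2.2,
      (D.B (D.Q e0) p.2.2 * p.2.1 1 + D.B (D.I (D.Q e0)) p.2.2 * p.2.1 2) / 2,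
      (D.B (D.I (D.Q e0)) p.2.2 * p.2.1 1 - D.B (D.Q e0) p.2.2 * p.2.1 2) / 2]

theorem der_lin (f : P →L[ℝ] ℝ) : HasFDerivAt (fun p : (Fin b → ℝ) × E3 × P => f p.2.2)
    (f.comp ((ContinuousLinearMap.snd ℝ E3 P).comp
      (ContinuousLinearMap.snd ℝ (Fin b → ℝ) (E3 × P)))) (q0 D) :=
  (f.comp ((ContinuousLinearMap.snd ℝ E3 P).comp
      (ContinuousLinearMap.snd ℝ (Fin b → ℝ) (E3 × P)))).hasFDerivAt

theorem der_t (i : Fin 3) : HasFDerivAt (fun p : (Fin b → ℝ) × E3 × P => p.2.1 i)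
    ((EuclideanSpace.proj i : E3 →L[ℝ] ℝ).comp ((ContinuousLinearMap.fst ℝ E3 P).comp
      (ContinuousLinearMap.snd ℝ (Fin b → ℝ) (E3 × P)))) (q0 D) :=
  ((EuclideanSpace.proj i : E3 →L[ℝ] ℝ).comp ((ContinuousLinearMap.fst ℝ E3 P).comp
      (ContinuousLinearMap.snd ℝ (Fin b → ℝ) (E3 × P)))).hasFDerivAt

theorem der_ev : HasFDerivAt (ev D) (d2 D) (q0 D) := by
  rw [← hasFDerivWithinAt_univ, hasFDerivWithinAt_euclidean]
  have b0 : D.B (D.I (D.Q e0)) (q0 D).2.2 = 0 := B_I_self D (D.Q e0)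
  have a0 : D.B (D.Q e0) (q0 D).2.2 = AA D := rfl
  have c0 : (q0 D).2.1 0 = 1 := t0_0
  have c1 : (q0 D).2.1 1 = 0 := t0_1
  have c2 : (q0 D).2.1 2 = 0 := t0_2
  intro i
  rw [hasFDerivWithinAt_univ]
  fin_cases i
  · -- the first component
    have hn : DifferentiableAt ℝ (fun p : (Fin b → ℝ) × E3 × P => ‖p.2.1‖) (q0 D) := by
      refine DifferentiableAt.norm ℝ (hasFDeriv_t (q0 D)).differentiableAt ?_
      intro h
      have h1 : ‖t0‖ = 0 := by
        have : t0 = 0 := h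
        rw [this, norm_zero]
      rw [norm_t0] at h1
      norm_num at h1
    have h1 := (hn.hasFDerivAt.add (der_t D 0)).mul_const (2 : ℝ)⁻¹
    have h2 := h1.mul (der_lin D (D.B (D.I (D.Q e0))))
    have h3 : HasFDerivAt (fun p : (Fin b → ℝ) × E3 × P =>
        (‖p.2.1‖ + p.2.1 0) / 2 * D.B (D.I (D.Q e0)) p.2.2)
        ((D.B (D.I (D.Q e0))).comp ((ContinuousLinearMap.snd ℝ E3 P).comp
      (ContinuousLinearMap.snd ℝ (Fin b → ℝ) (E3 × P)))) (q0 D) := by
      refine (h2.congr_of_eventuallyEq ?_).congr_fderiv ?_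
      · refine Eventually.of_forall fun p => ?_
        show (‖p.2.1‖ + p.2.1 0) / 2 * D.B (D.I (D.Q e0)) p.2.2 =
          (‖p.2.1‖ + p.2.1 0) * 2⁻¹ * D.B (D.I (D.Q e0)) p.2.2
        rw [div_eq_mul_inv]
      · have n0 : ‖(q0 D).2.1‖ = 1 := norm_t0
        rw [b0, zero_smul, add_zero]
        show ((‖(q0 D).2.1‖ + (q0 D).2.1 0) * 2⁻¹) • _ = _
        rw [n0, c0]
        norm_num
    refine h3.congr_fderiv ?_
    refine ContinuousLinearMap.ext fun y => ?_
    show _ = d2 D y 0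
    rw [d2_0]
    rfl
  · have h1 := ((der_lin D (D.B (D.Q e0))).mul (der_t D 1)).add
      ((der_lin D (D.B (D.I (D.Q e0)))).mul (der_t D 2))
    have h2 := h1.mul_const (2 : ℝ)⁻¹
    refine (h2.congr_of_eventuallyEq ?_).congr_fderiv ?_
    · refine Eventually.of_forall fun p => ?_
      show (D.B (D.Q e0) p.2.2 * p.2.1 1 + D.B (D.I (D.Q e0)) p.2.2 * p.2.1 2) / 2 = _
      rw [div_eq_mul_inv]
      rfl
    · refine ContinuousLinearMap.ext fun y => ?_
      rw [b0, a0, c1, c2]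
      simp only [zero_smul, add_zero, ContinuousLinearMap.comp_apply, _root_.smul_apply,
        ContinuousLinearMap.coe_fst', ContinuousLinearMap.coe_snd',
        smul_eq_mul]
      show (2 : ℝ)⁻¹ * (AA D * y.2.1 1) = d2 D y 1
      rw [d2_1]
      ring
  · have h1 := ((der_lin D (D.B (D.I (D.Q e0)))).mul (der_t D 1)).sub
      ((der_lin D (D.B (D.Q e0))).mul (der_t D 2))
    have h2 := h1.mul_const (2 : ℝ)⁻¹
    refine (h2.congr_of_eventuallyEq ?_).congr_fderiv ?_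
    · refine Eventually.of_forall fun p => ?_
      show (D.B (D.I (D.Q e0)) p.2.2 * p.2.1 1 - D.B (D.Q e0) p.2.2 * p.2.1 2) / 2 = _
      rw [div_eq_mul_inv]
      rfl
    · refine ContinuousLinearMap.ext fun y => ?_
      rw [b0, a0, c1, c2]
      simp only [zero_smul, add_zero, zero_sub, ContinuousLinearMap.comp_apply,
        _root_.smul_apply, _root_.neg_apply,
        ContinuousLinearMap.coe_fst', ContinuousLinearMap.coe_snd',
        smul_eq_mul]
      show (2 : ℝ)⁻¹ * (-(AA D * y.2.1 2)) = d2 D y 2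
      rw [d2_2]
      ring

theorem der_P : HasFDerivAt (fun p : (Fin b → ℝ) × E3 × P => LL D p.2.2 + KKp D p)
    ((mk Y : (Y × E3) →L[ℝ] YP Y).comp ((d1 D).prod (d2 D))) (q0 D) := by
  have h1 : HasFDerivAt (fun p : (Fin b → ℝ) × E3 × P =>
      ((D.L p.2.2 + MM D p.1 p.2.2 + D.KP (D.pi e0) p.2.2, ev D p) : Y × E3))
      ((d1 D).prod (d2 D)) (q0 D) := (der_1 D).prodMk (der_ev D)
  have h2 := (mk Y : (Y × E3) →L[ℝ] YP Y).hasFDerivAt.comp (q0 D) h1
  refine h2.congr_of_eventuallyEq ?_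
  filter_upwards [near D] with p hp
  show mk Y (D.L p.2.2, 0) + mk Y (MM D p.1 p.2.2 + D.KP (Psi D p.2.1) p.2.2,
    EO D p.1 p.2.1 p.2.2) = mk Y (D.L p.2.2 + MM D p.1 p.2.2 + D.KP (D.pi e0) p.2.2, ev D p)
  rw [← map_add, Psi_W0 D hp.1, EO_near D hp.2, GG_W0 D hp.1]
  congr 1
  refine Prod.ext ?_ ?_
  · show D.L p.2.2 + (MM D p.1 p.2.2 + D.KP (D.pi e0) p.2.2) = _
    rw [← add_assoc]
  · show (0 : E3) + _ = ev D p
    rw [zero_add]
    rfl

theorem der_rho : HasFDerivAt (fun p : (Fin b → ℝ) × E3 × P => ‖p.2.1‖ ^ 2 - 1)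
    (d3 (P := P)) (q0 D) := by
  have h1 : HasFDerivAt (fun t : E3 => ‖t‖ ^ 2) ((2 : ℝ) • innerSL ℝ t0) t0 := by
    have := (hasStrictFDerivAt_norm_sq (F := E3) t0).hasFDerivAt
    refine this.congr_fderiv ?_
    ext1 y
    simp [two_smul]
  have h2 := HasFDerivAt.comp (q0 D) (g := fun t : E3 => ‖t‖ ^ 2)
    (f := fun p : (Fin b → ℝ) × E3 × P => p.2.1) h1 (hasFDeriv_t (q0 D))
  exact h2.sub_const 1

/-- the data of `FDHILB`. -/
def toSW : SWData b E3 P (EuclideanSpace ℝ (Fin bp)) (YP Y) where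
  La := 0
  Lp := LL D
  Ka := KKa D
  Kp := KKp D
  ρ := fun p => ‖p.2.1‖ ^ 2 - 1
  U := D.U
  V := VV D
  h₀ := 0
  a₀ := t0
  ψ₀ := D.Q e0
  D := dd D
  fredA := fredA
  fredP := fredP D
  index := by
    rw [indA, indP]
    have := D.index
    push_cast at this ⊢
    linarith
  contA := cont_KKa D
  contP := cont_KKp D
  contρ := by
    have h : Continuous fun p : (Fin b → ℝ) × E3 × P => p.2.1 :=
      continuous_fst.comp continuous_snd
    exact (h.norm.pow 2).sub continuous_const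
  cptA := cpt_KKa D
  cptP := cpt_KKp D
  evenA := fun h a ψ => D.evenA _ _ (norm_Psi_le D _)
  oddP := fun h a ψ => by
    show mk Y (MM D h (-ψ) + D.KP (Psi D a) (-ψ), EO D h a (-ψ)) =
      -mk Y (MM D h ψ + D.KP (Psi D a) ψ, EO D h a ψ)
    rw [← map_neg, D.oddP _ _ (norm_Psi_le D _), map_neg (EO D h a)]
    congr 1
    refine Prod.ext ?_ rfl
    show MM D h (-ψ) + -D.KP (Psi D a) ψ = -(MM D h ψ + D.KP (Psi D a) ψ)
    have : MM D h (-ψ) = -MM D h ψ := by
      unfold MM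
      simp only [map_neg, smul_neg, Finset.sum_neg_distrib]
    rw [this, neg_add]
  evenρ := fun h a ψ => rfl
  U_add := D.U_add
  V_add := fun m n y => by
    show mk Y (D.V (m + n) y.fst, y.snd) = mk Y (D.V m (D.V n y.fst), y.snd)
    rw [D.V_add]
  latA := fun m h a ψ => D.latA m _ _ (norm_Psi_le D _)
  latP := fun m h a ψ => by
    show mk Y (D.L (D.U m ψ), 0) + mk Y (MM D (h + lat m) (D.U m ψ) +
      D.KP (Psi D a) (D.U m ψ), EO D (h + lat m) a (D.U m ψ)) = VV D m (mk Y (D.L ψ, 0) +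
        mk Y (MM D h ψ + D.KP (Psi D a) ψ, EO D h a ψ))
    rw [← map_add, ← map_add, EO_shift, D.latP m _ _ (norm_Psi_le D _)]
    show mk Y (D.L (D.U m ψ) + (MM D (h + lat m) (D.U m ψ) + D.V m (D.KP (Psi D a) ψ)),
      0 + EO D h a ψ) = mk Y (D.V m (D.L ψ + (MM D h ψ + D.KP (Psi D a) ψ)), 0 + EO D h a ψ)
    congr 1
    refine Prod.ext ?_ rfl
    show D.L (D.U m ψ) + (MM D (h + lat m) (D.U m ψ) + D.V m (D.KP (Psi D a) ψ)) =
      D.V m (D.L ψ + (MM D h ψ + D.KP (Psi D a) ψ))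
    have h1 : MM D (h + lat m) (D.U m ψ) = ∑ i, (m i : ℝ) • D.M i (D.U m ψ) +
        D.V m (MM D h ψ) := by
      unfold MM
      simp only [Pi.add_apply, add_smul, Finset.sum_add_distrib, map_sum, map_smul, D.latM]
      rw [add_comm]
      rfl
    rw [map_add, map_add, ← D.latL m ψ, h1]
    abel
  latρ := fun m h a ψ => rfl
  bdd := by
    obtain ⟨R, hR⟩ := D.bdd
    refine ⟨max R 1, fun h a ψ hh hρ hA hP => ?_⟩
    have ha : ‖a‖ ≤ 1 := by
      have h1 : ‖a‖ ^ 2 - 1 ≤ 0 := hρ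
      nlinarith [norm_nonneg a]
    have h1 : D.KA (Psi D a) ψ = 0 := by
      have h2 : (0 : EuclideanSpace ℝ (Fin bp)) + D.KA (Psi D a) ψ = 0 := hA
      rwa [zero_add] at h2
    have h2 : mk Y (D.L ψ, 0) + mk Y (MM D h ψ + D.KP (Psi D a) ψ, EO D h a ψ) = mk Y 0 := by
      rw [map_zero]; exact hP
    rw [← map_add] at h2
    have h3 : D.L ψ + (MM D h ψ + D.KP (Psi D a) ψ) = 0 := congrArg Prod.fst (mk_inj h2)
    rw [← add_assoc] at h3
    exact ⟨ha.trans (le_max_right _ _),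
      (hR _ h ψ (norm_Psi_le D a) hh h1 h3).trans (le_max_left _ _)⟩
  irred := fun h a hρ hA => by
    have h2 : (0 : EuclideanSpace ℝ (Fin bp)) + D.KA (Psi D a) 0 = 0 := hA
    rw [zero_add] at h2
    exact D.irred _ (norm_Psi_le D a) h2
  solA := by
    show (0 : EuclideanSpace ℝ (Fin bp)) + D.KA (Psi D t0) (D.Q e0) = 0
    rw [Psi_W0 D t0_mem, zero_add, D.solA]
  solP := by
    show mk Y (D.L (D.Q e0), 0) + mk Y (MM D 0 (D.Q e0) + D.KP (Psi D t0) (D.Q e0),
      EO D 0 t0 (D.Q e0)) = 0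
    rw [← map_add, Psi_W0 D t0_mem, EO_near D (by rw [norm_zero]; norm_num), GG_W0 D t0_mem,
      B_I_self, t0_1, t0_2]
    have h1 : MM D 0 (D.Q e0) = 0 := by
      unfold MM
      simp
    rw [h1, zero_add]
    have h2 : ((D.L (D.Q e0), (0 : E3)) + (D.KP (D.pi e0) (D.Q e0), WithLp.toLp 2
        ![(‖t0‖ + t0 0) / 2 * 0, (D.B (D.Q e0) (D.Q e0) * 0 + 0 * 0) / 2,
          (0 * 0 - D.B (D.Q e0) (D.Q e0) * 0) / 2]) : Y × E3) = 0 := by
      refine Prod.ext D.solP ?_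
      refine ext_E3 ?_ ?_ ?_
      · show (0 : ℝ) + (‖t0‖ + t0 0) / 2 * 0 = 0
        ring
      · show (0 : ℝ) + (D.B (D.Q e0) (D.Q e0) * 0 + 0 * 0) / 2 = 0
        ring
      · show (0 : ℝ) + (0 * 0 - D.B (D.Q e0) (D.Q e0) * 0) / 2 = 0
        ring
    rw [h2, map_zero]
  solρ := by
    show ‖t0‖ ^ 2 - 1 = 0
    rw [norm_t0]; norm_num
  uniq := fun h a ψ hρ hA hP => by
    have ha : ‖a‖ = 1 := by
      have h1 : ‖a‖ ^ 2 - 1 = 0 := hρ
      nlinarith [norm_nonneg a]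
    obtain ⟨s, hs, hs2⟩ := exists_lift' a
    have hPsi : Psi D a = D.pi (Kn s) := by
      rw [Psi_eq D hs hs2, ha, min_eq_left (by norm_num), one_smul]
    have h1 : D.KA (Psi D a) ψ = 0 := by
      have h2 : (0 : EuclideanSpace ℝ (Fin bp)) + D.KA (Psi D a) ψ = 0 := hA
      rwa [zero_add] at h2
    have h2 : mk Y (D.L ψ, 0) + mk Y (MM D h ψ + D.KP (Psi D a) ψ, EO D h a ψ) = mk Y 0 := by
      rw [map_zero]; exact hP
    rw [← map_add] at h2
    have h3 : D.L ψ + (MM D h ψ + D.KP (Psi D a) ψ) = 0 := congrArg Prod.fst (mk_inj h2)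
    have h4 : (0 : E3) + EO D h a ψ = 0 := congrArg Prod.snd (mk_inj h2)
    rw [zero_add] at h4
    rw [← add_assoc] at h3
    have hn : ‖Psi D a‖ = 1 := by rw [hPsi, D.npi _ (norm_Kn hs)]
    obtain ⟨k, s', hs', hpi, hh, hψ⟩ := D.uniq _ h ψ hn h1 h3
    have hhk : h = lat k := funext hh
    rw [hPsi] at hpi
    obtain ⟨z, hz, hzs⟩ := (D.fpi (Kn s) s' (norm_Kn hs) hs').1 hpi.symm
    -- the evaluation
    rw [hhk, hψ, EO_lat, GG_eq D hs hs2, ha, one_smul, hzs, D.eqQ _ z (norm_Kn hs) hz] at h4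
    set φ := D.Q (Kn s) with hφ
    have hA : 0 < D.B φ φ := D.posQ _ (norm_Kn hs)
    have hcz : cz D (qk D s) (z.re • φ + z.im • D.I φ) = z * (D.B φ φ : ℂ) := by
      have hq : qk D s = φ := rfl
      rw [hq]
      refine Complex.ext ?_ ?_
      · rw [cz_re, map_add, map_smul, map_smul, D.B_symm φ (D.I φ), B_I_self,
          Complex.mul_re, Complex.ofReal_re, Complex.ofReal_im]
        simp only [smul_eq_mul]
        ring
      · rw [cz_im, map_add, map_smul, map_smul, B_I_self, D.B_I,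
          Complex.mul_im, Complex.ofReal_re, Complex.ofReal_im]
        simp only [smul_eq_mul]
    have hm := mw_pos s
    have g0 : mw s * (z * (D.B φ φ : ℂ) * s 0).im = 0 := by
      have := congrArg (fun v : E3 => v 0) h4
      simp only [Gf_0, hcz] at this
      exact this
    have g1 : mw s * (z * (D.B φ φ : ℂ) * s 1).re = 0 := by
      have := congrArg (fun v : E3 => v 1) h4
      simp only [Gf_1, hcz] at this
      exact this
    have g2 : mw s * (z * (D.B φ φ : ℂ) * s 1).im = 0 := by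
      have := congrArg (fun v : E3 => v 2) h4
      simp only [Gf_2, hcz] at this
      exact this
    have g3 : z * (D.B φ φ : ℂ) * s 1 = 0 := by
      refine Complex.ext ?_ ?_
      · exact (mul_eq_zero.1 g1).resolve_left hm.ne'
      · exact (mul_eq_zero.1 g2).resolve_left hm.ne'
    have hz0 : z ≠ 0 := by
      intro h; rw [h, norm_zero] at hz; norm_num at hz
    have hAc : (D.B φ φ : ℂ) ≠ 0 := by exact_mod_cast hA.ne'
    have s1 : s 1 = 0 := (mul_eq_zero.1 g3).resolve_left (mul_ne_zero hz0 hAc)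
    have g4 : (z * s 0).im = 0 := by
      have h5 := (mul_eq_zero.1 g0).resolve_left hm.ne'
      have h6 : z * (D.B φ φ : ℂ) * s 0 = (D.B φ φ : ℂ) * (z * s 0) := by ring
      rw [h6, Complex.im_ofReal_mul] at h5
      exact (mul_eq_zero.1 h5).resolve_left hA.ne'
    have n0 : ‖s 0‖ = 1 := by
      have := norm_sq_C2 s
      rw [hs, s1, norm_zero] at this
      nlinarith [norm_nonneg (s 0)]
    have n1 : ‖z * s 0‖ = 1 := by rw [norm_mul, hz, n0, one_mul]
    have hKn : Kn s = s 0 • e0 := by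
      rw [Kn_of_small (by rw [s1, norm_zero]; norm_num), n0]
      simp
    have hs'e : s' = (z * s 0) • e0 := by rw [hzs, hKn, smul_smul]
    have hre : (z * s 0).re ^ 2 = 1 := by
      have := re_im_sq (z * s 0)
      rw [g4, n1] at this
      linarith
    have hat : a = t0 := by
      have h5 : s = s 0 • e0 := ext_C2 (by rw [smul_C2, e0_0, mul_one])
        (by rw [smul_C2, e0_1, mul_zero, s1])
      rw [hs2, ha, one_smul, h5, hopf_smul _ n0]
      rfl
    refine ⟨k, by rw [hhk, zero_add], hat, ?_⟩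
    have hQ : D.Q s' = (z * s 0).re • D.Q e0 := by
      rw [hs'e, D.eqQ e0 _ norm_e0 n1, g4, zero_smul, add_zero]
    rw [hψ, hQ]
    rcases sq_eq_one_iff.1 hre with h6 | h6
    · left; rw [h6, one_smul]
    · right; rw [h6, neg_one_smul, map_neg]
  deriv := (der_A D).prodMk ((der_P D).prodMk (der_rho D))
  inj := dd_inj D

/-- **the data are contradictory**. -/
theorem JData.false (D : JData b bp P Y) : False :=
  FDHILB_365.fdhilb b E3 P (EuclideanSpace ℝ (Fin bp)) (YP Y) (toSW D)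

end

end Crest.Agent.R235.SwjAbs_844
end

-- ▼ part R235/SWJa_365

/-!
Row 235 (S0364), node SWJA (owner helper365): **the assembly**: `ND → ZER → SWJA`, through
`SwjAbs_844.JData.false` (helper844, `FDHILB_365`).
-/

set_option autoImplicit false
set_option maxSynthPendingDepth 3
set_option linter.unusedSectionVars false

open scoped ContDiff ENNReal NNReal Topology Manifold Bundle RealInnerProductSpace
open MeasureTheory Set Filter Metric Bundle

noncomputable section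

namespace Crest.Agent.R235.SWJa_365

open Crest.Agent.R249.Tv57 Crest.Agent.R247.Ms322 Crest.Agent.R247.Dir593
open Crest.Agent.R235.SWDefs_53 Crest.Agent.R235.CptB_755 Crest.Agent.R235.Fs4_546
open Crest.Agent.R235.CptC_755 Crest.Agent.R235.Cpt_755 Crest.Agent.R235.Fred_649
open Crest.Agent.R235.Swx_333 Crest.Agent.R235.SWSym_451 Crest.Agent.R235.SWJc_365
open Crest.Agent.R235.SwjAbs_844 Crest.Agent.R235.SWJq_365 Crest.Agent.R235.SWJz_365

local notation "ipp" => Crest.Agent.R249.Tv57.ip 4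

section main

variable {M : Type} [MetricSpace M] [CompactSpace M] [ConnectedSpace M]
  [ChartedSpace (EuclideanSpace ℝ (Fin 4)) M] [IsManifold (𝓡 4) ∞ M]
  [RiemannianBundle (fun p : M => TangentSpace (𝓡 4) p)]
  [IsContMDiffRiemannianBundle (𝓡 4) ∞ (EuclideanSpace ℝ (Fin 4))
    (fun p : M => TangentSpace (𝓡 4) p)]
  [IsRiemannianManifold (𝓡 4) M] [MeasurableSpace M] [BorelSpace M]
  [SecondCountableTopology M] [Nonempty M] [IsFiniteMeasureOnCompacts (μHE[4] : Measure M)]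
  {κ0 κ1 κT : Type} [Fintype κ0] [Fintype κ1] [Fintype κT] {b bp : ℕ}

variable {S : SWS M κ0 κ1 κT} {cc : κ1 → κ0 → M → EuclideanSpace ℝ (Fin 4)}
  {ww : Fin 3 → Fin 3 → M → ℝ} {τ : E3 → TD M κT} {C : ℝ}
  {th : E3 → κT → M → ℝ} {pi : C2 → E3} {U : C2 → κ0 → M → ℝ} {j : JD M κT b} {d : SWD M κT}

/-- the real data of the system. -/
def jdata (hND : ND.{0}) (hZ : ZER.{0}) (hc : Sym S cc) (hg : GrdH S) (hj : j.OK S)
    (hH : HopfD S ww τ C th pi U) (hF : d.FFit S ww τ C th)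
    (hfix : ∀ t : E3, ‖t‖ ≤ 1 → ∃ φ : Fin 4 → M → ℝ, SmV (n := 4) φ ∧
      (∀ x z, S.H.A φ x z = 0) ∧ ipp (rhs S d t 0) φ ≠ 0)
    {d0 d1 : ℕ} (hK0 : Nonempty (KerD S.D0 S.P.A d0)) (hK1 : Nonempty (KerD S.D1 S.P.B d1))
    (hnum : d0 + b = d1 + 1 + bp) (hS : S.OK) (hd : d.Adm S) (s0 : Spec S.DL) (sT : Spec S.DT)
    (HB : HarB hS bp) {J1 : κ1 → κ1 → M → ℝ} (CJ : CJ1 S cc J1) {R C0 : ℝ} (hR : 0 < R)
    (hC : C0 < R ^ 2)
    (hsup : ∀ (h : Fin b → ℝ) (t : E3) (a : κT → M → ℝ) (u : κ0 → M → ℝ), ‖t‖ ≤ 1 →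
      TSol S (d.tw j h) R t a u → ∀ᵐ z ∂(μHE[4] : Measure M), ∑ y, u y z ^ 2 ≤ C0)
    (hbdd : ∃ ρ : ℝ, ∀ (t : E3) (h : Fin b → ℝ) (x : S.D0.toAD.WE), ‖t‖ ≤ 1 →
      (∀ i, h i ∈ Icc (0 : ℝ) 1) → KA HB d R t x = 0 →
      Ah S.P x + ∑ i, h i • LI hS hj i x + KP hS hd s0 R t x = 0 → ‖x‖ ≤ ρ)
    (hB : ∀ s : C2, ‖s‖ = 1 → ∀ z, ∑ y, us τ pi U d.r s y z ^ 2 < R ^ 2) :
    JData b bp S.D0.toAD.WE S.D1.toAD.HE :=
  have he0 : ‖e0‖ = 1 := by simp [e0]
  have ht0 : pi e0 ∈ BB := (hH.npi e0 he0).le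
  { L := Ah S.P
    M := LI hS hj
    KA := KA HB d R
    KP := KP hS hd s0 R
    I := SWJu_435.II hc
    B := Bl S.D0
    U := SWJu_435.UU hc hj
    V := SWJu_435.VV CJ hj
    pi := pi
    Q := QQ hH d.r
    KA' := SWJd_952.KA' HB hd ht0 ⟨us τ pi U d.r e0, sm_us hH d.r he0, sec_us hH d.r he0⟩
    KP' := SWJd_952.KP' hS hd s0 (SWJn_333.e4 _) (SWJn_333.e4 _) R ht0
      ⟨us τ pi U d.r e0, sm_us hH d.r he0, sec_us hH d.r he0⟩
    fred := (SwjFred_649.fred4 S.P hK0 hK1).1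
    index := by
      rw [(SwjFred_649.fred4 S.P hK0 hK1).2]
      have : (d0 : ℤ) + b = d1 + 1 + bp := by exact_mod_cast hnum
      linarith
    cptM := compact_LI hS hj
    cKA := SWJn_333.cKA hd HB hR
    cKP := SWJn_333.cKP hS hd s0 hR
    cptA := SWJn_333.cptA hd HB hR
    cptP := SWJn_333.cptP hS hd s0 hR
    evenA := fun t x ht => SWJn_333.evenA hd HB hR ht x
    oddP := fun t x ht => SWJn_333.oddP hS hd s0 hR ht x
    U_add := SWJu_435.UU_add hc hj
    V_add := SWJu_435.VV_add CJ hj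
    latA := fun m t x ht => SWJu_435.latKA hS HB hd hc hj hR ht m x
    latP := fun m t x ht => SWJu_435.latP hS hd s0 hc CJ hj hR ht m x
    latM := fun m i x => SWJu_435.latM hS hc CJ hj m i x
    latL := fun m x => SWJu_435.latL hS hc CJ hj m x
    I_I := SWJu_435.II_II hc
    B_symm := Bl_symm S.D0
    B_I := Bl_I hc (SWJu_435.coe_II hc)
    bdd := hbdd
    irred := fun t ht => SWJn_333.irred hd HB hR ht (hfix t ht)
    cpi := hH.cpi
    npi := hH.npi
    fpi := hH.fpi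
    cQ := SWJq_649.cQQ hH d.r
    eqQ := eqQ hH d.r (SWJu_435.coe_II hc)
    posQ := fun s hs => posQ hH hF.rpos hs
    solA := by
      show HB.har (Fq d R (pi e0) (QQ hH d.r e0)) = 0
      rw [fq_us hS hd hH hF hR he0 fun z => (hB e0 he0 z).le, map_zero]
    solP := solP hZ hc hj hS hd hH hF s0 (SWJn_333.e4 _) (SWJn_333.e4 _) hR he0
      fun z => (hB e0 he0 z).le
    uniq := fun t h x ht h1 h2 => uniq hZ hc hj hS hd hH hF s0 HB hR hC
      (fun t h x ht h1 h2 => (SWJn_333.zero_iff hS hj hd s0 HB hR h ht x).1 ⟨h1, h2⟩) hsup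
      (SWJu_435.UU hc hj) (SWJu_435.coe_UU hc hj) t h x ht h1 h2
    dA := by
      rw [QQ_eq hH d.r he0]
      exact SWJd_952.dA HB hd (SWJn_333.e4 _) hR ht0 _ (hB e0 he0)
    dP := by
      rw [QQ_eq hH d.r he0]
      exact SWJd_952.dP hS hd s0 (SWJn_333.e4 _) (SWJn_333.e4 _) hR ht0 _ (hB e0 he0)
    ker := fun κ v h1 h2 => by
      rw [QQ_eq hH d.r he0] at h2 ⊢
      exact SWJd_952.ker hND hH hF hS hd hc hg he0 ht0 s0 sT (SWJn_333.e4 _) (SWJn_333.e4 _) hR _
        (us_sc _ _) (hB e0 he0) hj HB (SWJu_435.II hc) (SWJu_435.coe_II hc) κ v h1 h2 }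

end main

end Crest.Agent.R235.SWJa_365

end
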