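import Crest.Agent.R249.Tv4_57

-- ▼ part R235/W12_109
section

/-!
# Row 235, SW-FS (helper109), part 1: chain rule for vector valued elements of `V = W^{1,2}`

`S : GradS X F μ` on a compact space.

* `GoodF S κ Φ` : `Φ : (κ → ℝ) → ℝ` is `C¹` and satisfies the chain rule on locally Lipschitz
  functions; closed under constants, coordinates, sums, products, composition with `χ : ℝ → ℝ`;
* `GoodF.chain` : the chain rule on `V` for `Φ` with bounded partial derivatives;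
* `nsq`, `good_rad` (`h(|y|²)`), `good_rad_mul` (`h(|y|²) y_a`), with the bounds.
-/

set_option autoImplicit false
set_option linter.unusedSectionVars false
open MeasureTheory Set Filter Topology
open scoped ENNReal NNReal RealInnerProductSpace

noncomputable section
namespace Crest.Agent.R235.W12_109

open Crest.Agent.R247.Dir593 Crest.Agent.R249.Tv57
open Crest.Agent.R247.Dir593.GradS

section good

variable {X : Type*} [MetricSpace X] [CompactSpace X] [MeasurableSpace X] [BorelSpace X]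
  {F : Type*} [NormedAddCommGroup F] [InnerProductSpace ℝ F] {μ : Measure X}
  [IsFiniteMeasureOnCompacts μ] (S : GradS X F μ) {κ : Type} [Fintype κ]

/-- the partial derivative -/
def pd (Φ : (κ → ℝ) → ℝ) (a : κ) (y : κ → ℝ) : ℝ := by
  classical exact fderiv ℝ Φ y (Pi.single a 1)

theorem fderiv_eq_sum (Φ : (κ → ℝ) → ℝ) (y v : κ → ℝ) :
    fderiv ℝ Φ y v = ∑ a, v a * pd Φ a y := by
  classical
  have h : v = ∑ a, v a • (Pi.single a (1 : ℝ) : κ → ℝ) := by
    ext b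
    simp [Finset.sum_apply, Pi.single_apply]
  conv_lhs => rw [h]
  rw [map_sum]
  refine Finset.sum_congr rfl fun a _ => ?_
  rw [map_smul, smul_eq_mul]
  rfl

/-- chain rule on locally Lipschitz functions -/
structure GoodF (Φ : (κ → ℝ) → ℝ) : Prop where
  cd : ContDiff ℝ 1 Φ
  ch : ∀ f : κ → X → ℝ, (∀ a, LocallyLipschitz (f a)) →
    ∀ᵐ x ∂μ, S.G (fun y => Φ (fun a => f a y)) x = ∑ a, pd Φ a (fun b => f b x) • S.G (f a) x

variable {S}

theorem GoodF.diff {Φ : (κ → ℝ) → ℝ} (h : GoodF S Φ) (y : κ → ℝ) : DifferentiableAt ℝ Φ y :=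
  (h.cd.differentiable (by norm_num)).differentiableAt

theorem GoodF.cont_pd {Φ : (κ → ℝ) → ℝ} (h : GoodF S Φ) (a : κ) : Continuous (pd Φ a) := by
  classical
  have := h.cd.continuous_fderiv (by norm_num)
  exact this.clm_apply continuous_const

theorem locLip_vec {f : κ → X → ℝ} (hf : ∀ a, LocallyLipschitz (f a)) :
    LocallyLipschitz fun x => fun a => f a x := by
  classical
  intro x
  choose K t ht hK using fun a => hf a x
  refine ⟨Finset.univ.sup K, ⋂ a, t a, (Filter.iInter_mem (β := κ)).2 ht, ?_⟩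
  refine LipschitzOnWith.of_dist_le_mul fun y hy z hz => ?_
  rw [dist_pi_le_iff (by positivity)]
  intro a
  have h1 : ((K a : ℝ≥0) : ℝ) ≤ (Finset.univ.sup K : ℝ≥0) :=
    NNReal.coe_le_coe.2 (Finset.le_sup (Finset.mem_univ a))
  exact ((hK a).dist_le_mul y (mem_iInter.1 hy a) z (mem_iInter.1 hz a)).trans
    (mul_le_mul_of_nonneg_right h1 dist_nonneg)

theorem GoodF.locLip {Φ : (κ → ℝ) → ℝ} (h : GoodF S Φ) {f : κ → X → ℝ}
    (hf : ∀ a, LocallyLipschitz (f a)) : LocallyLipschitz fun x => Φ fun a => f a x :=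
  h.cd.locallyLipschitz.comp (locLip_vec hf)

theorem good_const (c : ℝ) : GoodF (κ := κ) S (fun _ => c) where
  cd := contDiff_const
  ch := fun f _ => by
    filter_upwards [S.const c] with x hx
    rw [hx]
    simp [pd]

theorem good_coord (a : κ) : GoodF S (fun y : κ → ℝ => y a) where
  cd := contDiff_apply ℝ ℝ a
  ch := fun f _ => Eventually.of_forall fun x => by
    classical
    have h : ∀ b y, pd (fun y : κ → ℝ => y a) b y = if b = a then 1 else 0 := fun b y => by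
      unfold pd
      have : fderiv ℝ (fun y : κ → ℝ => y a) y = ContinuousLinearMap.proj a :=
        (ContinuousLinearMap.proj (R := ℝ) (φ := fun _ : κ => ℝ) a).fderiv
      rw [this, ContinuousLinearMap.proj_apply, Pi.single_apply]
      simp only [eq_comm]
    simp only [h, ite_smul, one_smul, zero_smul, Finset.sum_ite_eq', Finset.mem_univ, if_true]

theorem pd_add {Φ Ψ : (κ → ℝ) → ℝ} {y : κ → ℝ} (h1 : DifferentiableAt ℝ Φ y)
    (h2 : DifferentiableAt ℝ Ψ y) (a : κ) :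
    pd (fun y => Φ y + Ψ y) a y = pd Φ a y + pd Ψ a y := by
  classical
  unfold pd
  rw [fderiv_fun_add h1 h2]
  rfl

theorem pd_mul {Φ Ψ : (κ → ℝ) → ℝ} {y : κ → ℝ} (h1 : DifferentiableAt ℝ Φ y)
    (h2 : DifferentiableAt ℝ Ψ y) (a : κ) :
    pd (fun y => Φ y * Ψ y) a y = Φ y * pd Ψ a y + Ψ y * pd Φ a y := by
  classical
  unfold pd
  rw [fderiv_fun_mul h1 h2]
  rfl

theorem pd_comp {Φ : (κ → ℝ) → ℝ} {χ : ℝ → ℝ} {y : κ → ℝ} (h1 : DifferentiableAt ℝ Φ y)
    (h2 : DifferentiableAt ℝ χ (Φ y)) (a : κ) :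
    pd (fun y => χ (Φ y)) a y = deriv χ (Φ y) * pd Φ a y := by
  classical
  unfold pd
  have h3 : HasFDerivAt (fun y => χ (Φ y)) (deriv χ (Φ y) • fderiv ℝ Φ y) y :=
    h2.hasDerivAt.comp_hasFDerivAt y h1.hasFDerivAt
  rw [h3.fderiv]
  rfl

theorem GoodF.add {Φ Ψ : (κ → ℝ) → ℝ} (h1 : GoodF S Φ) (h2 : GoodF S Ψ) :
    GoodF S (fun y => Φ y + Ψ y) where
  cd := h1.cd.add h2.cd
  ch := fun f hf => by
    filter_upwards [h1.ch f hf, h2.ch f hf, S.add (h1.locLip hf) (h2.locLip hf)] with x e1 e2 e3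
    rw [e3, e1, e2, ← Finset.sum_add_distrib]
    refine Finset.sum_congr rfl fun a _ => ?_
    rw [pd_add (h1.diff _) (h2.diff _), add_smul]

theorem GoodF.mul {Φ Ψ : (κ → ℝ) → ℝ} (h1 : GoodF S Φ) (h2 : GoodF S Ψ) :
    GoodF S (fun y => Φ y * Ψ y) where
  cd := h1.cd.mul h2.cd
  ch := fun f hf => by
    filter_upwards [h1.ch f hf, h2.ch f hf, S.mul (h1.locLip hf) (h2.locLip hf)] with x e1 e2 e3
    rw [e3, e1, e2, Finset.smul_sum, Finset.smul_sum, ← Finset.sum_add_distrib]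
    refine Finset.sum_congr rfl fun a _ => ?_
    rw [pd_mul (h1.diff _) (h2.diff _), add_smul, mul_smul, mul_smul]

theorem GoodF.comp {Φ : (κ → ℝ) → ℝ} (h1 : GoodF S Φ) {χ : ℝ → ℝ} (hχ : ContDiff ℝ 1 χ) :
    GoodF S (fun y => χ (Φ y)) where
  cd := hχ.comp h1.cd
  ch := fun f hf => by
    filter_upwards [h1.ch f hf, S.comp (h1.locLip hf) hχ] with x e1 e2
    rw [e2, e1, Finset.smul_sum]
    refine Finset.sum_congr rfl fun a _ => ?_
    rw [pd_comp (h1.diff _) ((hχ.differentiable (by norm_num)).differentiableAt), mul_smul]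

theorem GoodF.congr {Φ Ψ : (κ → ℝ) → ℝ} (h : GoodF S Φ) (e : ∀ y, Ψ y = Φ y) : GoodF S Ψ := by
  rw [funext e]; exact h

theorem GoodF.sum {ι : Type*} (s : Finset ι) {Φ : ι → (κ → ℝ) → ℝ} (h : ∀ i ∈ s, GoodF S (Φ i)) :
    GoodF S (fun y => ∑ i ∈ s, Φ i y) := by
  classical
  induction s using Finset.induction_on with
  | empty => simpa using good_const (S := S) (κ := κ) 0
  | insert i t hi ih =>
    have e : ∀ y, ∑ j ∈ insert i t, Φ j y = Φ i y + ∑ j ∈ t, Φ j y := fun y =>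
      Finset.sum_insert hi
    exact ((h i (Finset.mem_insert_self i t)).add
      (ih fun j hj => h j (Finset.mem_insert_of_mem hj))).congr e

/-! ### the chain rule on `V` -/

variable [IsFiniteMeasure μ]

theorem isT_of_lip {f : X → ℝ} (hf : LocallyLipschitz f) : IsT f :=
  ⟨hf, HasCompactSupport.of_compactSpace f⟩

theorem lip_of_pd {Φ : (κ → ℝ) → ℝ} (h : ContDiff ℝ 1 Φ) {C : ℝ}
    (hb : ∀ a y, |pd Φ a y| ≤ C) (y z : κ → ℝ) : |Φ y - Φ z| ≤ C * ∑ a, |y a - z a| := by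
  set v := y - z with hv
  have hd : ∀ t : ℝ, HasDerivAt (fun t : ℝ => Φ (z + t • v)) (fderiv ℝ Φ (z + t • v) v) t := by
    intro t
    have h1 : HasFDerivAt Φ (fderiv ℝ Φ (z + t • v)) (z + t • v) :=
      (h.differentiable (by norm_num)).differentiableAt.hasFDerivAt
    have h2 : HasDerivAt (fun t : ℝ => z + t • v) v t := by
      simpa using ((hasDerivAt_id t).smul_const v).const_add z
    exact h1.comp_hasDerivAt t h2
  have hbd : ∀ t : ℝ, ‖fderiv ℝ Φ (z + t • v) v‖ ≤ C * ∑ a, |y a - z a| := by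
    intro t
    rw [fderiv_eq_sum, Real.norm_eq_abs, Finset.mul_sum]
    refine (Finset.abs_sum_le_sum_abs _ _).trans (Finset.sum_le_sum fun a _ => ?_)
    rw [abs_mul, mul_comm]
    exact mul_le_mul_of_nonneg_right (hb a _) (abs_nonneg _)
  have h3 := Convex.norm_image_sub_le_of_norm_hasDerivWithin_le (s := univ)
    (fun t _ => (hd t).hasDerivWithinAt) (fun t _ => hbd t) convex_univ (mem_univ (0 : ℝ))
    (mem_univ (1 : ℝ))
  simpa [hv, Real.norm_eq_abs] using h3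

/-- **the chain rule** for vector valued elements of `V` -/
theorem GoodF.chain {Φ : (κ → ℝ) → ℝ} (h : GoodF S Φ) {C : ℝ} (hC : 0 ≤ C)
    (hb : ∀ a y, |pd Φ a y| ≤ C) {u : κ → Lp ℝ 2 μ} (hu : ∀ a, u a ∈ S.V) {w : Lp ℝ 2 μ}
    (hw : (w : X → ℝ) =ᵐ[μ] fun x => Φ fun a => u a x) :
    w ∈ S.V ∧ (S.D w : X → F) =ᵐ[μ] fun x => ∑ a, pd Φ a (fun b => u b x) • S.D (u a) x := by
  choose f hf f1 f2 f3 f4 using fun a => S.exists_seq_ae (hu a)
  have hfL : ∀ k, ∀ a, LocallyLipschitz (f a k) := fun k a => (hf a k).1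
  have hT : ∀ k, IsT (fun x => Φ fun a => f a k x) := fun k => isT_of_lip (h.locLip (hfL k))
  have hlip := lip_of_pd h.cd hb
  have huc : ∀ᵐ x ∂μ, Tendsto (fun k => fun a => f a k x) atTop (𝓝 fun a => u a x) := by
    have : ∀ᵐ x ∂μ, ∀ a, Tendsto (fun k => f a k x) atTop (𝓝 (u a x)) := ae_all_iff.2 f3
    filter_upwards [this] with x hx
    exact tendsto_pi_nhds.2 hx
  -- values
  have e1 : Tendsto (fun k => (tL (hT k) : Lp ℝ 2 μ)) atTop (𝓝 w) := by
    rw [tendsto_iff_norm_sub_tendsto_zero]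
    refine squeeze_zero (fun _ => norm_nonneg _)
      (g := fun k => C * ∑ a, ‖(tL (hf a k) : Lp ℝ 2 μ) - u a‖) (fun k => ?_) ?_
    · set v : κ → Lp ℝ 2 μ := fun a => (tL (hf a k) : Lp ℝ 2 μ) - u a with hv
      set n : κ → Lp ℝ 2 μ := fun a => (Lp.memLp (v a)).norm.toLp _ with hn
      have hnc : ∀ a, (n a : X → ℝ) =ᵐ[μ] fun x => ‖v a x‖ := fun a => MemLp.coeFn_toLp _
      have hnn : ∀ a, ‖n a‖ ≤ 1 * ‖v a‖ := fun a => norm_le_of_ae zero_le_one (by
        filter_upwards [hnc a] with x hx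
        rw [hx, norm_norm, one_mul])
      have h1 : ‖(tL (hT k) : Lp ℝ 2 μ) - w‖ ≤ C * ‖∑ a, n a‖ := by
        refine norm_le_of_ae hC ?_
        have a4 : ∀ᵐ x ∂μ, ∀ a, (tL (hf a k) : Lp ℝ 2 μ) x = f a k x :=
          ae_all_iff.2 fun a => coe_tL (hf a k)
        have a6 : ∀ᵐ x ∂μ, ∀ a, v a x = (tL (hf a k) : Lp ℝ 2 μ) x - u a x :=
          ae_all_iff.2 fun a => Lp.coeFn_sub _ _
        have a7 : ∀ᵐ x ∂μ, ∀ a, n a x = ‖v a x‖ := ae_all_iff.2 hnc
        filter_upwards [Lp.coeFn_sub (tL (hT k) : Lp ℝ 2 μ) w, coe_tL (μ := μ) (hT k), hw, a4, a6,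
          a7, Lp.coeFn_fun_finsetSum Finset.univ n] with x b1 b2 b3 b4 b6 b7 b8
        rw [b1, Pi.sub_apply, b2, b3, b8, Real.norm_eq_abs, Real.norm_eq_abs]
        refine (hlip _ _).trans (mul_le_mul_of_nonneg_left ?_ hC)
        refine le_trans (le_of_eq ?_) (le_abs_self _)
        refine Finset.sum_congr rfl fun a _ => ?_
        rw [b7 a, b6 a, b4 a, Real.norm_eq_abs]
      refine h1.trans (mul_le_mul_of_nonneg_left ?_ hC)
      refine (norm_sum_le _ _).trans (Finset.sum_le_sum fun a _ => ?_)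
      simpa using hnn a
    · have : Tendsto (fun k => C * ∑ a, ‖(tL (hf a k) : Lp ℝ 2 μ) - u a‖) atTop
          (𝓝 (C * ∑ _a : κ, (0 : ℝ))) :=
        (tendsto_finsetSum _ fun a _ => tendsto_iff_norm_sub_tendsto_zero.1 (f1 a)).const_mul C
      simpa using this
  -- gradients
  have hm : ∀ (a : κ) (v : κ → Lp ℝ 2 μ), AEStronglyMeasurable (fun x => pd Φ a fun b => v b x) μ :=
    fun a v => (h.cont_pd a).comp_aestronglyMeasurable
      (aemeasurable_pi_lambda (fun x b => v b x)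
        fun b => (Lp.aestronglyMeasurable (v b)).aemeasurable).aestronglyMeasurable
  have hmf : ∀ (a : κ) (k : ℕ), AEStronglyMeasurable (fun x => pd Φ a fun b => f b k x) μ :=
    fun a k => ((h.cont_pd a).comp (continuous_pi fun b => (hf b k).1.continuous)).aestronglyMeasurable
  set g : κ → Lp F 2 μ := fun a => (memLp_smul (hm a u)
    (Eventually.of_forall fun x => hb a _) (S.D (u a))).toLp _ with hg
  have hgc : ∀ a, (g a : X → F) =ᵐ[μ] fun x => pd Φ a (fun b => u b x) • S.D (u a) x :=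
    fun a => MemLp.coeFn_toLp _
  set gk : κ → ℕ → Lp F 2 μ := fun a k => (memLp_smul (hmf a k)
    (Eventually.of_forall fun x => hb a _) (S.D (tL (hf a k)))).toLp _ with hgk
  have hgkc : ∀ a k, (gk a k : X → F) =ᵐ[μ] fun x => pd Φ a (fun b => f b k x) •
      S.D (tL (hf a k)) x := fun a k => MemLp.coeFn_toLp _
  have e2 : ∀ a, Tendsto (gk a) atTop (𝓝 (g a)) := fun a =>
    smul_tendsto (a := fun k x => pd Φ a fun b => f b k x) (a' := fun x => pd Φ a fun b => u b x) hC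
      (hmf a) (fun k => Eventually.of_forall fun x => hb a _) (f2 a)
      (by
        filter_upwards [huc] with x hx
        exact Or.inr (((h.cont_pd a).tendsto _).comp hx)) (hgkc a) (hgc a)
  have e3 : ∀ k, S.D (tL (hT k)) = ∑ a, gk a k := by
    intro k
    ext1
    have a1 : ∀ᵐ x ∂μ, ∀ a, gk a k x = pd Φ a (fun b => f b k x) • S.D (tL (hf a k)) x :=
      ae_all_iff.2 fun a => hgkc a k
    have a2 : ∀ᵐ x ∂μ, ∀ a, S.D (tL (hf a k)) x = S.G (f a k) x :=
      ae_all_iff.2 fun a => S.D_tL (hf a k)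
    filter_upwards [S.D_tL (hT k), h.ch (fun a => f a k) (hfL k), a1, a2,
      Lp.coeFn_fun_finsetSum Finset.univ (fun a => gk a k)] with x b1 b2 b3 b4 b5
    rw [b1, b2, b5]
    refine Finset.sum_congr rfl fun a _ => ?_
    rw [b3 a, b4 a]
  have e4 : Tendsto (fun k => S.D (tL (hT k))) atTop (𝓝 (∑ a, g a)) := by
    simp only [e3]
    exact tendsto_finsetSum _ fun a _ => e2 a
  obtain ⟨hwV, hD⟩ := S.D_closed (fun k => S.tL_mem (hT k)) e1 e4
  refine ⟨hwV, ?_⟩
  rw [hD]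
  have a1 : ∀ᵐ x ∂μ, ∀ a, g a x = pd Φ a (fun b => u b x) • S.D (u a) x := ae_all_iff.2 hgc
  filter_upwards [Lp.coeFn_fun_finsetSum Finset.univ g, a1] with x b1 b2
  rw [b1]
  exact Finset.sum_congr rfl fun a _ => b2 a

/-! ### radial functions -/

/-- `|y|²` -/
def nsq (y : κ → ℝ) : ℝ := ∑ a, y a ^ 2

theorem nsq_nonneg (y : κ → ℝ) : 0 ≤ nsq y := Finset.sum_nonneg fun _ _ => sq_nonneg _

theorem sq_le_nsq (y : κ → ℝ) (a : κ) : y a ^ 2 ≤ nsq y :=
  Finset.single_le_sum (f := fun a => y a ^ 2) (fun _ _ => sq_nonneg _) (Finset.mem_univ a)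

theorem abs_le_sqrt_nsq (y : κ → ℝ) (a : κ) : |y a| ≤ √(nsq y) :=
  Real.abs_le_sqrt (sq_le_nsq y a)

theorem abs_mul_le_nsq (y : κ → ℝ) (a b : κ) : |y a * y b| ≤ nsq y := by
  rw [abs_mul]
  have h1 := abs_le_sqrt_nsq y a
  have h2 := abs_le_sqrt_nsq y b
  calc |y a| * |y b| ≤ √(nsq y) * √(nsq y) :=
        mul_le_mul h1 h2 (abs_nonneg _) (Real.sqrt_nonneg _)
    _ = nsq y := Real.mul_self_sqrt (nsq_nonneg y)

theorem good_nsq : GoodF (κ := κ) S nsq := by
  have h : ∀ a ∈ (Finset.univ : Finset κ), GoodF S (fun y : κ → ℝ => y a * y a) :=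
    fun a _ => (good_coord a).mul (good_coord a)
  refine (GoodF.sum Finset.univ h).congr fun y => ?_
  exact Finset.sum_congr rfl fun a _ => by ring

theorem hasFDerivAt_nsq (y : κ → ℝ) : HasFDerivAt nsq
    (∑ a, (2 * y a) • (ContinuousLinearMap.proj a : (κ → ℝ) →L[ℝ] ℝ)) y := by
  unfold nsq
  refine HasFDerivAt.fun_sum fun a _ => ?_
  have h1 : HasFDerivAt (fun y : κ → ℝ => y a)
      (ContinuousLinearMap.proj a : (κ → ℝ) →L[ℝ] ℝ) y :=
    (ContinuousLinearMap.proj (R := ℝ) (φ := fun _ : κ => ℝ) a).hasFDerivAt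
  have h2 := h1.pow 2
  simpa using h2

theorem pd_nsq (a : κ) (y : κ → ℝ) : pd nsq a y = 2 * y a := by
  classical
  unfold pd
  rw [(hasFDerivAt_nsq y).fderiv]
  simp [Pi.single_apply]

/-- a `C¹` function on `[0,∞)` extends -/
theorem ext_C1 {h h' : ℝ → ℝ} (hd : ∀ s, 0 ≤ s → HasDerivWithinAt h (h' s) (Ici 0) s)
    (hc : ContinuousOn h' (Ici 0)) :
    ∃ χ : ℝ → ℝ, ContDiff ℝ 1 χ ∧ (∀ s, 0 ≤ s → χ s = h s) ∧ ∀ s, 0 ≤ s → deriv χ s = h' s := by
  set g : ℝ → ℝ := fun t => h' (max t 0) with hg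
  have hgc : Continuous g := by
    rw [← continuousOn_univ]
    exact hc.comp (continuous_id.max continuous_const).continuousOn
      (fun t _ => mem_Ici.2 (le_max_right _ _))
  set χ : ℝ → ℝ := fun s => h 0 + ∫ t in (0 : ℝ)..s, g t with hχ
  have hder : ∀ s, HasDerivAt χ (g s) s := fun s =>
    (intervalIntegral.integral_hasDerivAt_right (hgc.intervalIntegrable _ _)
      hgc.aestronglyMeasurable.stronglyMeasurableAtFilter hgc.continuousAt).const_add _
  have hderiv : deriv χ = g := funext fun s => (hder s).deriv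
  refine ⟨χ, ?_, fun s hs => ?_, fun s hs => ?_⟩
  · rw [contDiff_one_iff_deriv]
    exact ⟨fun s => (hder s).differentiableAt, by rw [hderiv]; exact hgc⟩
  · have h1 : ∫ t in (0 : ℝ)..s, g t = h s - h 0 := by
      refine intervalIntegral.integral_eq_sub_of_hasDeriv_right_of_le hs ?_ ?_
        (hgc.intervalIntegrable _ _)
      · intro t ht
        exact ((hd t ht.1).continuousWithinAt).mono Icc_subset_Ici_self
      · intro t ht
        have h2 := (hd t ht.1.le).mono (Ici_subset_Ici.2 ht.1.le : Ici t ⊆ Ici 0)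
        have h3 : g t = h' t := by rw [hg]; simp only [max_eq_left ht.1.le]
        rw [h3]
        exact h2.mono Ioi_subset_Ici_self
    rw [hχ]
    simp only [h1]
    ring
  · rw [hderiv, hg]
    simp only [max_eq_left hs]

theorem good_rad {h h' : ℝ → ℝ} (hd : ∀ s, 0 ≤ s → HasDerivWithinAt h (h' s) (Ici 0) s)
    (hc : ContinuousOn h' (Ici 0)) : GoodF (κ := κ) S (fun y => h (nsq y)) ∧
      ∀ a (y : κ → ℝ), pd (fun y => h (nsq y)) a y = h' (nsq y) * (2 * y a) := by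
  obtain ⟨χ, h1, h2, h3⟩ := ext_C1 hd hc
  have e : (fun y : κ → ℝ => h (nsq y)) = fun y => χ (nsq y) :=
    funext fun y => (h2 _ (nsq_nonneg y)).symm
  rw [e]
  have hg := (good_nsq (S := S) (κ := κ))
  refine ⟨hg.comp h1, fun a y => ?_⟩
  rw [pd_comp (hg.diff y) ((h1.differentiable (by norm_num)).differentiableAt), pd_nsq,
    h3 _ (nsq_nonneg y)]

theorem pd_coord [DecidableEq κ] (a b : κ) (y : κ → ℝ) :
    pd (fun y : κ → ℝ => y a) b y = if b = a then 1 else 0 := by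
  unfold pd
  have : fderiv ℝ (fun y : κ → ℝ => y a) y = ContinuousLinearMap.proj a :=
    (ContinuousLinearMap.proj (R := ℝ) (φ := fun _ : κ => ℝ) a).fderiv
  rw [this, ContinuousLinearMap.proj_apply]
  by_cases hab : b = a
  · subst hab; simp
  · simp only [Pi.single_apply, if_neg hab, if_neg (fun h : a = b => hab h.symm)]

theorem good_rad_mul [DecidableEq κ] {h h' : ℝ → ℝ}
    (hd : ∀ s, 0 ≤ s → HasDerivWithinAt h (h' s) (Ici 0) s)
    (hc : ContinuousOn h' (Ici 0)) (a : κ) : GoodF (κ := κ) S (fun y => h (nsq y) * y a) ∧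
      ∀ b (y : κ → ℝ), pd (fun y => h (nsq y) * y a) b y =
        (if b = a then h (nsq y) else 0) + 2 * h' (nsq y) * y a * y b := by
  obtain ⟨h1, h2⟩ := good_rad (S := S) (κ := κ) hd hc
  refine ⟨h1.mul (good_coord a), fun b y => ?_⟩
  rw [pd_mul (h1.diff y) ((good_coord (S := S) a).diff y), pd_coord, h2]
  split_ifs <;> ring

end good

end Crest.Agent.R235.W12_109
end
end

-- ▼ part R235/W12b_109

/-!
# Row 235, SW-FS (helper109), part 2: test sections `h(|ψ|²) ψ`, first order operators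

* `RF h h' C` : `h` is `C¹` on `[0,∞)`, `|h| ≤ C`, `|s h'(s)| ≤ C`;
* `RF.mul u a` : `h(|u|²) u_a` in `L²`, in `V` if `u` is, with its gradient;
* `AD.tst H w : A.WE`, `coe_tst`, `cv_tst` : `∇(h(|u|²)u)_a = h ∇u_a + 2 h' u_a q`,
  `q = ∑_b u_b ∇u_b`;
* `innF`, `opC` : `(opC w)_x = ∑_y ⟪∇u_y, c_xy⟫`, `opC_tst`.
-/

set_option autoImplicit false
set_option linter.unusedSectionVars false
open MeasureTheory Set Filter Topology
open scoped ENNReal NNReal RealInnerProductSpace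

noncomputable section
namespace Crest.Agent.R235.W12_109

open Crest.Agent.R247.Dir593 Crest.Agent.R249.Tv57
open Crest.Agent.R247.Dir593.GradS

/-- radial multipliers -/
structure RF (h h' : ℝ → ℝ) (C : ℝ) : Prop where
  nonneg : 0 ≤ C
  hd : ∀ s, 0 ≤ s → HasDerivWithinAt h (h' s) (Ici 0) s
  hc : ContinuousOn h' (Ici 0)
  b0 : ∀ s, 0 ≤ s → |h s| ≤ C
  b1 : ∀ s, 0 ≤ s → |s * h' s| ≤ C

section rf

variable {X : Type*} [MetricSpace X] [CompactSpace X] [MeasurableSpace X] [BorelSpace X]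
  {F : Type*} [NormedAddCommGroup F] [InnerProductSpace ℝ F] {μ : Measure X}
  [IsFiniteMeasure μ] {S : GradS X F μ} {κ : Type} [Fintype κ]
  {h h' : ℝ → ℝ} {C : ℝ}

theorem RF.cont (H : RF h h' C) : Continuous fun y : κ → ℝ => h (nsq y) := by
  obtain ⟨χ, h1, h2, -⟩ := ext_C1 H.hd H.hc
  have e : (fun y : κ → ℝ => h (nsq y)) = fun y => χ (nsq y) :=
    funext fun y => (h2 _ (nsq_nonneg y)).symm
  rw [e]
  refine h1.continuous.comp ?_
  unfold nsq
  exact continuous_finsetSum _ fun a _ => (continuous_apply a).pow 2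


theorem RF.abs_le (H : RF h h' C) (y : κ → ℝ) : |h (nsq y)| ≤ C := H.b0 _ (nsq_nonneg y)

theorem RF.abs_le' (H : RF h h' C) (y : κ → ℝ) (a b : κ) :
    |2 * h' (nsq y) * y a * y b| ≤ 2 * C := by
  have h1 := abs_mul_le_nsq y a b
  have h2 := H.b1 _ (nsq_nonneg y)
  rw [abs_mul, abs_of_nonneg (nsq_nonneg y)] at h2
  have e : 2 * h' (nsq y) * y a * y b = 2 * (h' (nsq y) * (y a * y b)) := by ring
  rw [e, abs_mul, abs_two, abs_mul]
  have h3 : |h' (nsq y)| * |y a * y b| ≤ |h' (nsq y)| * nsq y :=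
    mul_le_mul_of_nonneg_left h1 (abs_nonneg _)
  linarith [mul_comm (|h' (nsq y)|) (nsq y)]

theorem aem_vec (u : κ → Lp ℝ 2 μ) : AEStronglyMeasurable (fun x => fun b => u b x) μ :=
  (aemeasurable_pi_lambda (fun x b => u b x)
    fun b => (Lp.aestronglyMeasurable (u b)).aemeasurable).aestronglyMeasurable

theorem RF.memLp (H : RF h h' C) (u : κ → Lp ℝ 2 μ) (a : κ) :
    MemLp (fun x => h (nsq fun b => u b x) * u a x) 2 μ := by
  refine (Lp.memLp (u a)).of_le_mul (c := C)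
    ((H.cont.comp_aestronglyMeasurable (aem_vec u)).mul (Lp.aestronglyMeasurable (u a)))
    (Eventually.of_forall fun x => ?_)
  rw [norm_mul, Real.norm_eq_abs]
  exact mul_le_mul_of_nonneg_right (H.abs_le _) (norm_nonneg _)

/-- `h(|u|²) u_a` -/
def RF.mul (H : RF h h' C) (u : κ → Lp ℝ 2 μ) (a : κ) : Lp ℝ 2 μ := (H.memLp u a).toLp _

theorem RF.coe_mul (H : RF h h' C) (u : κ → Lp ℝ 2 μ) :
    ∀ᵐ x ∂μ, ∀ a, (H.mul u a : X → ℝ) x = h (nsq fun b => u b x) * u a x :=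
  ae_all_iff.2 fun a => (H.memLp u a).coeFn_toLp

theorem RF.mul_mem (H : RF h h' C) {u : κ → Lp ℝ 2 μ} (hu : ∀ a, u a ∈ S.V) (a : κ) :
    H.mul u a ∈ S.V ∧ (S.D (H.mul u a) : X → F) =ᵐ[μ] fun x =>
      h (nsq fun b => u b x) • S.D (u a) x +
        ∑ b, (2 * h' (nsq fun b => u b x) * u a x * u b x) • S.D (u b) x := by
  classical
  obtain ⟨h1, h2⟩ := good_rad_mul (S := S) (κ := κ) H.hd H.hc a
  have hb : ∀ b y, |pd (fun y : κ → ℝ => h (nsq y) * y a) b y| ≤ 3 * C := fun b y => by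
    rw [h2]
    refine (abs_add_le _ _).trans ?_
    have e1 : |if b = a then h (nsq y) else 0| ≤ C := by
      split_ifs
      · exact H.abs_le y
      · rw [abs_zero]; exact H.nonneg
    have e2 := H.abs_le' y a b
    linarith
  obtain ⟨h3, h4⟩ := h1.chain (by have := H.nonneg; positivity) hb hu
    (w := H.mul u a) (H.memLp u a).coeFn_toLp
  refine ⟨h3, ?_⟩
  filter_upwards [h4] with x hx
  rw [hx]
  simp only [h2, add_smul, Finset.sum_add_distrib, ite_smul, zero_smul, Finset.sum_ite_eq',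
    Finset.mem_univ, if_true]

end rf

section inn

variable {X : Type*} [MeasurableSpace X] {μ : Measure X} {F : Type*} [NormedAddCommGroup F]
  [InnerProductSpace ℝ F]

lemma BM.memLp_inn {c : X → F} (hc : BM μ c) (g : Lp F 2 μ) :
    MemLp (fun x => (⟪g x, c x⟫ : ℝ)) 2 μ := by
  obtain ⟨K, hK0, hK⟩ := hc.bd
  refine (Lp.memLp g).of_le_mul (c := K) ((Lp.aestronglyMeasurable g).inner hc.meas) ?_
  filter_upwards [hK] with x hx
  refine (norm_inner_le_norm _ _).trans ?_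
  rw [mul_comm]
  exact mul_le_mul_of_nonneg_right hx (norm_nonneg _)

/-- contraction with a bounded field -/
def innF {c : X → F} (hc : BM μ c) : Lp F 2 μ →L[ℝ] Lp ℝ 2 μ :=
  LinearMap.mkContinuousOfExistsBound
    { toFun := fun g => (BM.memLp_inn hc g).toLp _
      map_add' := fun u v => by
        ext1
        filter_upwards [(BM.memLp_inn hc (u + v)).coeFn_toLp, (BM.memLp_inn hc u).coeFn_toLp,
          (BM.memLp_inn hc v).coeFn_toLp, Lp.coeFn_add u v,
          Lp.coeFn_add ((BM.memLp_inn hc u).toLp _) ((BM.memLp_inn hc v).toLp _)]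
          with x e1 e2 e3 e4 e5
        rw [e1, e5, Pi.add_apply, e2, e3, e4, Pi.add_apply, inner_add_left]
      map_smul' := fun r u => by
        ext1
        filter_upwards [(BM.memLp_inn hc (r • u)).coeFn_toLp, (BM.memLp_inn hc u).coeFn_toLp,
          Lp.coeFn_smul r u, Lp.coeFn_smul r ((BM.memLp_inn hc u).toLp _)] with x e1 e2 e3 e4
        simp only [RingHom.id_apply]
        rw [e1, e4, Pi.smul_apply, e2, e3, Pi.smul_apply, smul_eq_mul, real_inner_smul_left] }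
    (by
      obtain ⟨K, hK0, hK⟩ := hc.bd
      refine ⟨K, fun u => ?_⟩
      refine norm_le_of_ae hK0 ?_
      filter_upwards [(BM.memLp_inn hc u).coeFn_toLp, hK] with x e1 e2
      simp only [LinearMap.coe_mk, AddHom.coe_mk]
      rw [e1]
      refine (norm_inner_le_norm _ _).trans ?_
      rw [mul_comm]
      exact mul_le_mul_of_nonneg_right e2 (norm_nonneg _))

lemma coe_innF {c : X → F} (hc : BM μ c) (g : Lp F 2 μ) :
    (innF hc g : X → ℝ) =ᵐ[μ] fun x => (⟪g x, c x⟫ : ℝ) := (BM.memLp_inn hc g).coeFn_toLp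

/-- matrix contraction `(c g)_x = ∑_y ⟪g_y, c_xy⟫` -/
def matI {κ κ' : Type} [Fintype κ] [Fintype κ'] {c : κ' → κ → X → F}
    (hc : ∀ a b, BM μ (c a b)) : GG F μ κ →L[ℝ] HH μ κ' :=
  ((PiLp.continuousLinearEquiv 2 ℝ (fun _ : κ' => Lp ℝ 2 μ)).symm :
      (∀ _ : κ', Lp ℝ 2 μ) →L[ℝ] PiLp 2 (fun _ : κ' => Lp ℝ 2 μ)).comp
    (ContinuousLinearMap.pi fun a => ∑ b, (innF (hc a b)).comp (PiLp.proj 2 _ b))

lemma matI_apply {κ κ' : Type} [Fintype κ] [Fintype κ'] {c : κ' → κ → X → F}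
    (hc : ∀ a b, BM μ (c a b)) (g : GG F μ κ) (a : κ') :
    matI hc g a = ∑ b, innF (hc a b) (g b) := by
  simp [matI]

lemma coe_matI {κ κ' : Type} [Fintype κ] [Fintype κ'] {c : κ' → κ → X → F}
    (hc : ∀ a b, BM μ (c a b)) (g : GG F μ κ) :
    ∀ᵐ x ∂μ, ∀ a, (matI hc g a : Lp ℝ 2 μ) x = ∑ b, ⟪g b x, c a b x⟫ := by
  rw [ae_all_iff]
  intro a
  have h1 : ∀ᵐ x ∂μ, ∀ b, (innF (hc a b) (g b) : Lp ℝ 2 μ) x = ⟪g b x, c a b x⟫ :=
    ae_all_iff.2 fun b => coe_innF (hc a b) (g b)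
  filter_upwards [h1, Lp.coeFn_fun_finsetSum Finset.univ (fun b => innF (hc a b) (g b))]
    with x e1 e2
  rw [matI_apply, e2]
  exact Finset.sum_congr rfl fun b _ => e1 b

end inn

section ad

variable {X : Type*} [MetricSpace X] [CompactSpace X] [MeasurableSpace X] [BorelSpace X]
  {F : Type*} [NormedAddCommGroup F] [InnerProductSpace ℝ F] {μ : Measure X}
  [IsFiniteMeasure μ] {S : GradS X F μ} {κ κ' : Type} [Fintype κ] [Fintype κ']
  {h h' : ℝ → ℝ} {C : ℝ} (A : AD S κ)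

theorem i1_mem (w : A.WE) (a : κ) : A.i1 w a ∈ S.V := S.mem_V.2 ⟨_, w.2.1 a⟩

theorem D_i1 (w : A.WE) (a : κ) : S.D (A.i1 w a) = (w : A.Amb).snd a := S.D_eq (w.2.1 a)

/-- the value of the covariant derivative -/
theorem coe_c1 (w : A.WE) : ∀ᵐ x ∂μ, ∀ a, (A.c1 w a : Lp F 2 μ) x =
    (w : A.Amb).snd a x + ∑ b, (A.i1 w b : Lp ℝ 2 μ) x • A.w a b x := by
  have e : ∀ a, A.c1 w a = (w : A.Amb).snd a + matF A.hw (A.i1 w) a := fun a => rfl
  have h1 : ∀ᵐ x ∂μ, ∀ a, (A.c1 w a : Lp F 2 μ) x =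
      (w : A.Amb).snd a x + (matF A.hw (A.i1 w) a : Lp F 2 μ) x := by
    rw [ae_all_iff]
    intro a
    rw [e a]
    exact Lp.coeFn_add _ _
  filter_upwards [h1, coe_matF A.hw (A.i1 w)] with x e1 e2 a
  rw [e1 a, e2 a]

/-- the test section `h(|ψ|²) ψ` -/
def tst (H : RF h h' C) (w : A.WE) : A.WE :=
  A.mkW (WithLp.toLp 2 fun a => H.mul (fun b => A.i1 w b) a)
    (fun a => (H.mul_mem (fun b => i1_mem A w b) a).1) (by
      have hP : A.P (A.i1 w) = A.i1 w := w.2.2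
      ext a
      filter_upwards [A.coe_P (WithLp.toLp 2 fun a => H.mul (fun b => A.i1 w b) a),
        A.coe_P (A.i1 w), H.coe_mul (fun b => A.i1 w b)] with x e1 e2 e3
      rw [e1 a]
      rw [hP] at e2
      simp only [e3]
      rw [e2 a, Finset.mul_sum]
      exact Finset.sum_congr rfl fun b _ => by ring)


theorem coe_tst (H : RF h h' C) (w : A.WE) : ∀ᵐ x ∂μ, ∀ a,
    (A.i1 (tst A H w) a : Lp ℝ 2 μ) x = h (nsq fun b => A.i1 w b x) * A.i1 w a x :=
  H.coe_mul (fun b => A.i1 w b)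

/-- half the gradient of `|ψ|²` -/
def qf (w : A.WE) (x : X) : F := ∑ b, (A.i1 w b : Lp ℝ 2 μ) x • (A.c1 w b : Lp F 2 μ) x

/-- by skewness the covariant and the ordinary gradient give the same `q` -/
theorem qf_eq (w : A.WE) : ∀ᵐ x ∂μ, qf A w x = ∑ b, (A.i1 w b : Lp ℝ 2 μ) x •
    ((w : A.Amb).snd b : Lp F 2 μ) x := by
  filter_upwards [coe_c1 A w] with x e1
  unfold qf
  simp only [e1, smul_add, Finset.sum_add_distrib, Finset.smul_sum]
  have hz : ∑ b, ∑ c, (A.i1 w b : Lp ℝ 2 μ) x • (A.i1 w c : Lp ℝ 2 μ) x • A.w b c x = 0 := by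
    have h1 : ∑ b, ∑ c, (A.i1 w b : Lp ℝ 2 μ) x • (A.i1 w c : Lp ℝ 2 μ) x • A.w b c x =
        -∑ b, ∑ c, (A.i1 w b : Lp ℝ 2 μ) x • (A.i1 w c : Lp ℝ 2 μ) x • A.w b c x := by
      conv_lhs => rw [Finset.sum_comm]
      rw [← Finset.sum_neg_distrib]
      refine Finset.sum_congr rfl fun b _ => ?_
      rw [← Finset.sum_neg_distrib]
      refine Finset.sum_congr rfl fun c _ => ?_
      rw [A.skew c b x, smul_neg, smul_neg, smul_smul, smul_smul, mul_comm]
    have h2 : (2 : ℝ) • ∑ b, ∑ c, (A.i1 w b : Lp ℝ 2 μ) x • (A.i1 w c : Lp ℝ 2 μ) x •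
        A.w b c x = 0 := by
      rw [two_smul]
      nth_rewrite 1 [h1]
      exact neg_add_cancel _
    exact (smul_eq_zero.1 h2).resolve_left two_ne_zero
  rw [hz, add_zero]

/-- **covariant derivative of the test section** -/
theorem cv_tst (H : RF h h' C) (w : A.WE) : ∀ᵐ x ∂μ, ∀ a,
    (A.c1 (tst A H w) a : Lp F 2 μ) x = h (nsq fun b => A.i1 w b x) • (A.c1 w a : Lp F 2 μ) x +
      (2 * h' (nsq fun b => A.i1 w b x) * A.i1 w a x) • qf A w x := by
  have h1 : ∀ᵐ x ∂μ, ∀ a, ((tst A H w : A.Amb).snd a : Lp F 2 μ) x =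
      h (nsq fun b => A.i1 w b x) • S.D (A.i1 w a) x +
        ∑ b, (2 * h' (nsq fun b => A.i1 w b x) * A.i1 w a x * A.i1 w b x) • S.D (A.i1 w b) x :=
    ae_all_iff.2 fun a => (H.mul_mem (fun b => i1_mem A w b) a).2
  filter_upwards [h1, coe_c1 A w, coe_c1 A (tst A H w), coe_tst A H w, qf_eq A w]
    with x e1 e2 e3 e4 e5 a
  have t1 : (2 * h' (nsq fun b => A.i1 w b x) * A.i1 w a x) • ∑ b, (A.i1 w b : Lp ℝ 2 μ) x •
      ((w : A.Amb).snd b : Lp F 2 μ) x =
      ∑ b, (2 * h' (nsq fun b => A.i1 w b x) * A.i1 w a x * A.i1 w b x) •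
        ((w : A.Amb).snd b : Lp F 2 μ) x := by
    rw [Finset.smul_sum]
    exact Finset.sum_congr rfl fun b _ => smul_smul _ _ _
  have t2 : h (nsq fun b => A.i1 w b x) • ∑ b, (A.i1 w b : Lp ℝ 2 μ) x • A.w a b x =
      ∑ b, (h (nsq fun b => A.i1 w b x) * A.i1 w b x) • A.w a b x := by
    rw [Finset.smul_sum]
    exact Finset.sum_congr rfl fun b _ => smul_smul _ _ _
  rw [e3 a, e1 a, e2 a, e5, smul_add, t1, t2]
  simp only [e4, D_i1]
  abel

/-- the first order operator with symbol `c` -/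
def opC {c : κ' → κ → X → F} (hc : ∀ a b, BM μ (c a b)) : A.WE →L[ℝ] HH μ κ' :=
  (matI hc).comp A.c1

theorem coe_opC {c : κ' → κ → X → F} (hc : ∀ a b, BM μ (c a b)) (w : A.WE) :
    ∀ᵐ x ∂μ, ∀ a, (opC A hc w a : Lp ℝ 2 μ) x = ∑ b, ⟪(A.c1 w b : Lp F 2 μ) x, c a b x⟫ :=
  coe_matI hc (A.c1 w)


end ad

end Crest.Agent.R235.W12_109
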