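import Crest.Agent.R235.TauxE_433
import Crest.Agent.R235.SWJDefs_53
import Crest.Agent.R235.Fred_649
import Crest.Agent.R235.Tauf_433
import Crest.Agent.R235.SWTe_451
import Crest.Agent.R249.Ker57a_57
import Crest.Agent.R235.L4_433

-- ▼ part R235/TauxF_433
section

/-!
# Row 235, SW-TAUX (helper433): `taux : TAUX`, the energy inequality of Taubes
-/

set_option autoImplicit false
set_option linter.unusedSectionVars false
set_option linter.unusedVariables false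
set_option maxSynthPendingDepth 3
open scoped ContDiff ENNReal NNReal Topology Manifold Bundle RealInnerProductSpace
open MeasureTheory Set Filter Metric Bundle

universe v

noncomputable section
namespace Crest.Agent.R235.TauxF_433

open Crest.Agent.R247.Dir593 Crest.Agent.R247.Ms322 Crest.Agent.R247.Frd657
open Crest.Agent.R249.Tv57 Crest.Agent.R235.Dens_433 Crest.Agent.R235.Fs4_546
open Crest.Agent.R235.Dns_433 Crest.Agent.R235.SWDefs_53 Crest.Agent.R235.W12_109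
open Crest.Agent.R235.SupbA_433 Crest.Agent.R235.Cpt_755 Crest.Agent.R235.L4_433
open Crest.Agent.R235.CptC_755 Crest.Agent.R235.WtzW_86 Crest.Agent.R235.Tauf_433
open Crest.Agent.R235.TauxB_433 Crest.Agent.R235.TauxA_433 Crest.Agent.R235.TauxC_433
open Crest.Agent.R235.TauxE_433

section mfd
variable {M : Type v} [MetricSpace M] [CompactSpace M] [ConnectedSpace M]
  [ChartedSpace (EuclideanSpace ℝ (Fin 4)) M] [IsManifold (𝓡 4) ∞ M]
  [RiemannianBundle (fun p : M => TangentSpace (𝓡 4) p)]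
  [IsContMDiffRiemannianBundle (𝓡 4) ∞ (EuclideanSpace ℝ (Fin 4))
    (fun p : M => TangentSpace (𝓡 4) p)]
  [IsRiemannianManifold (𝓡 4) M] [MeasurableSpace M] [BorelSpace M]
  [SecondCountableTopology M] [Nonempty M] [IsFiniteMeasureOnCompacts (μHE[4] : Measure M)]
  {κ0 κ1 κT : Type} [Fintype κ0] [Fintype κ1] [Fintype κT] (S : SWS M κ0 κ1 κT)

variable {τ : TD M κT} {C : ℝ}

/-- the form `w_t = ρ n` as a section of `ℝ ⊕ Λ⁺` -/
def wS (hOK : S.OK) (hτ : τ.OK S C) : SmS S.DL :=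
  ⟨Fin.cons (fun _ => 0) fun k z => τ.rr z * τ.n k z, by
    intro a
    refine Fin.cases ?_ (fun k => ?_) a
    · exact contMDiff_const
    · exact hτ.smrr.mul (hτ.smn k), by
    intro a z
    simp only [hOK.fullL, ite_mul, one_mul, zero_mul, Finset.sum_ite_eq, Finset.mem_univ, if_true]⟩

/-- **the topological term** -/
theorem top (hOK : S.OK) (hτ : τ.OK S C) (β : S.DT.toAD.WE) :
    Integrable (fun z => ∑ k, τ.rr z * τ.n k z * cur S β k z) (μHE[4] : Measure M) ∧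
    ∫ z, ∑ k, τ.rr z * τ.n k z * cur S β k z ∂(μHE[4] : Measure M) = 0 := by
  have h1 : (⟪Ah S.H.swap β, S.DL.toAD.jj (cW S.DL (wS S hOK hτ))⟫ : ℝ) =
      ⟪S.DT.toAD.jj β, Ah S.H.swap.swap (cW S.DL (wS S hOK hτ))⟫ :=
    adj (dns S.DT (by norm_num)) (dns S.DL (by norm_num)) β _
  have h2 : Ah S.H.swap.swap (cW S.DL (wS S hOK hτ)) = 0 := by
    rw [Ah_cW (dns S.DL (by norm_num))]
    have h3 : lA S.H.swap.swap (wS S hOK hτ) = 0 := by
      refine Subtype.ext ?_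
      funext x z
      exact hτ.harm x z
    rw [h3, map_zero]
  rw [h2, inner_zero_right] at h1
  obtain ⟨h4, h5⟩ := inner_HH' ((Ah S.H.swap β : S.DL.toAD.HE) : HH (μHE[4] : Measure M) (Fin 4))
    (clH (wS S hOK hτ).1 (wS S hOK hτ).2.1)
    (f := fun b z => (((Ah S.H.swap β : S.DL.toAD.HE) : HH (μHE[4] : Measure M) (Fin 4)) b :
      M → ℝ) z) (Eventually.of_forall fun _ _ => rfl) (coe_clH _ _)
  have h6 : ∀ z, ∑ b : Fin 4, (((Ah S.H.swap β : S.DL.toAD.HE) :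
      HH (μHE[4] : Measure M) (Fin 4)) b : M → ℝ) z * (wS S hOK hτ).1 b z =
      ∑ k, τ.rr z * τ.n k z * cur S β k z := by
    intro z
    rw [Fin.sum_univ_succ]
    have e0 : (wS S hOK hτ).1 0 z = 0 := rfl
    have e1 : ∀ k : Fin 3, (wS S hOK hτ).1 k.succ z = τ.rr z * τ.n k z := fun k => rfl
    rw [e0, mul_zero, zero_add]
    exact Finset.sum_congr rfl fun k _ => by rw [e1 k, mul_comm]; rfl
  refine ⟨h5.congr (Eventually.of_forall h6), ?_⟩
  rw [← integral_congr_ae (Eventually.of_forall h6), ← h4]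
  exact h1

variable {d : SWD M κT} {t : E3} {a : κT → M → ℝ} {u : κ0 → M → ℝ}

/-- the full connection form and its curvature -/
theorem beta_ex (hfit : τ.Fit S d t) (hτ : τ.OK S C) (hsol : Sol S d t a u) :
    ∃ β : S.DT.toAD.WE,
      (∀ᵐ z ∂(μHE[4] : Measure M), ∀ A, rp β A z = a A z + d.th t A z) ∧
      ∀ᵐ z ∂(μHE[4] : Measure M), ∀ k : Fin 3, cur S β k z + τ.fE k z =
        τ.rr z ^ (-(1 / 2) : ℝ) * ((1 / 2) * S.rq k u z) + d.r * (τ.rr z * τ.n k z) := by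
  obtain ⟨α0, hα0⟩ := hsol.wa
  have hα0e : ∀ᵐ z ∂(μHE[4] : Measure M), ∀ A, rp α0 A z = a A z := ae_all_iff.2 hα0
  set T : SmS S.DT := ⟨d.th t, hfit.smth, hfit.secth⟩ with hT
  refine ⟨α0 + cW S.DT T, ?_, ?_⟩
  · have h1 : ∀ᵐ z ∂(μHE[4] : Measure M), ∀ A, rp (α0 + cW S.DT T) A z =
        rp α0 A z + rp (cW S.DT T) A z := by
      unfold rp
      rw [map_add]
      exact ae_all_iff.2 fun x => Lp.coeFn_add _ _
    filter_upwards [h1, hα0e, rp_cWT S T] with z e1 e2 e3 A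
    rw [e1 A, e2 A, e3 A]
  · have h1 : ∀ᵐ z ∂(μHE[4] : Measure M), ∀ k : Fin 3, cur S (α0 + cW S.DT T) k z =
        cur S α0 k z + cur S (cW S.DT T) k z := by
      unfold cur
      rw [map_add]
      exact ae_all_iff.2 fun x => Lp.coeFn_add _ _
    filter_upwards [h1, Ah_of_WkA S.H.swap hsol.cur α0 hα0, cur_cW S T] with z e1 e2 e3 k
    rw [e1 k, e3 k]
    have e4 : cur S α0 k z = rhs S d t u k.succ z := e2 k.succ
    have e5 : rhs S d t u k.succ z =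
        d.mu t z * ((1 / 2) * S.rq k u z) + d.r * d.wt t k z + d.et t k z := rfl
    rw [e4, e5, hfit.mu z, hfit.wt k z, hfit.et k z]
    ring

/-- the Dirac equation -/
theorem dir0 (hsol : Sol S d t a u) {β : S.DT.toAD.WE}
    (hβ : ∀ᵐ z ∂(μHE[4] : Measure M), ∀ A, rp β A z = a A z + d.th t A z) {U : S.D0.toAD.WE}
    (hU : ∀ y, (S.D0.toAD.i1 U y : M → ℝ) =ᵐ[(μHE[4] : Measure M)] u y) :
    ∀ᵐ z ∂(μHE[4] : Measure M), ∀ x, dirW S β U x z = 0 := by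
  have hUe : ∀ᵐ z ∂(μHE[4] : Measure M), ∀ y, rp U y z = u y z := ae_all_iff.2 hU
  filter_upwards [Ah_of_WkA S.P hsol.dir U hU, hβ, hUe] with z e1 e2 e3 x
  unfold dirW
  rw [e1 x]
  have : S.cm (rp β) (rp U) x z = S.cm (a + d.th t) u x z := by
    unfold SWS.cm
    exact Finset.sum_congr rfl fun A _ => Finset.sum_congr rfl fun y _ => by
      rw [e2 A, e3 y]; rfl
  rw [this]
  ring

/-- **the energy inequality** -/
theorem taux_one (hOK : S.OK) (hτ : τ.OK S C) (hfit : τ.Fit S d t) (hr : 0 < d.r)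
    (hbig : ∀ z, C ^ 2 ≤ d.r * τ.rr z ^ 3)
    (htop : ∫ z, ∑ k, τ.rr z * τ.n k z * τ.fE k z ∂(μHE[4] : Measure M) ≤ 0)
    (hsol : Sol S d t a u) : ∃ w : S.D0.toAD.WE, τ.Par S d t a u w := by
  obtain ⟨β, hβ, hcur⟩ := beta_ex S hfit hτ hsol
  obtain ⟨U, hU⟩ := hsol.wu
  have hUe : ∀ᵐ z ∂(μHE[4] : Measure M), ∀ y, rp U y z = u y z := ae_all_iff.2 hU
  obtain ⟨h6i, h6⟩ := top S hOK hτ β
  have hc := core S hOK hτ hr hbig htop hUe hcur (dir0 S hsol hβ hU) h6i h6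
  refine ⟨zW S hOK hτ (scW S hτ (-(3 / 4)) U), ?_, ?_, ?_, ?_⟩
  · filter_upwards [hc, z_add_o S hOK hτ (scW S hτ (-(3 / 4)) U), coe_scW S hτ (-(3 / 4)) U, hUe]
      with z e1 e2 e3 e4 y
    have h1 := e2 y
    rw [e1.1 y, add_zero, e3 y, e4 y] at h1
    exact h1
  · filter_upwards [hc] with z e1
    exact e1.2.2
  · filter_upwards [R_zW S hOK hτ (scW S hτ (-(3 / 4)) U)] with z e1 y
    have h1 := e1 y
    rw [neg_one_mul] at h1
    exact h1
  · filter_upwards [hc, hβ] with z e1 e2 y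
    refine Eq.trans ?_ (e1.2.1 y)
    unfold TD.prE nabW
    simp only [e2]
    rfl

end mfd

/-- **TAUX** -/
theorem taux : TAUX.{v} := by
  intro M _ _ _ _ _ _ _ _ _ _ _ _ _ κ0 κ1 κT _ _ _ S d τ C t hOK hτ hfit hr hbig htop a u hsol
  exact taux_one S hOK hτ hfit hr hbig htop hsol

end Crest.Agent.R235.TauxF_433
end
end

-- ▼ part R235/SWNdA_918
section

/-!
Row 235 (S0364), PACKAGE SW, ND (helper918), part A: pointwise algebra, expansions for smooth sections.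
-/

set_option autoImplicit false
set_option maxSynthPendingDepth 3
set_option linter.unusedSectionVars false

open scoped ContDiff ENNReal NNReal Topology Manifold Bundle RealInnerProductSpace
open MeasureTheory Set Filter Metric Bundle

universe v

namespace Crest.Agent.R235.SWNd_918

open Crest.Agent.R249.Tv57 Crest.Agent.R247.Ms322 Crest.Agent.R247.Dir593
open Crest.Agent.R247.Frd657
open Crest.Agent.R235.SWDefs_53 Crest.Agent.R235.SWSym_451 Crest.Agent.R235.SWTd_451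
open Crest.Agent.R235.SWTe_451 Crest.Agent.R235.Fs4_546

noncomputable section

local notation "ipp" => Crest.Agent.R249.Tv57.ip 4
local notation "𝔼4" => EuclideanSpace ℝ (Fin 4)

variable {M : Type v} [MetricSpace M] [CompactSpace M] [ConnectedSpace M]
  [ChartedSpace (EuclideanSpace ℝ (Fin 4)) M] [IsManifold (𝓡 4) ∞ M]
  [RiemannianBundle (fun p : M => TangentSpace (𝓡 4) p)]
  [IsContMDiffRiemannianBundle (𝓡 4) ∞ (EuclideanSpace ℝ (Fin 4))
    (fun p : M => TangentSpace (𝓡 4) p)]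
  [IsRiemannianManifold (𝓡 4) M] [MeasurableSpace M] [BorelSpace M]
  [SecondCountableTopology M] [Nonempty M] [IsFiniteMeasureOnCompacts (μHE[4] : Measure M)]
  {κ0 κ1 κT : Type} [Fintype κ0] [Fintype κ1] [Fintype κT]

/-! ### the two projections -/

/-- `Π₀` -/
def P0 (S : SWS M κ0 κ1 κT) (τ : TD M κT) : κ0 → κ0 → M → ℝ := Pr S (fun k z => - τ.n k z)
/-- `Π₁` -/
def P1 (S : SWS M κ0 κ1 κT) (τ : TD M κT) : κ0 → κ0 → M → ℝ := Pr S τ.n

variable {S : SWS M κ0 κ1 κT} {cc : κ1 → κ0 → M → EuclideanSpace ℝ (Fin 4)} {τ : TD M κT} {C : ℝ}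

theorem P0_eq (y y' : κ0) (z : M) :
    (1 / 2) * (S.D0.p y y' z - ∑ k, τ.n k z * S.rho k y y' z) = P0 S τ y y' z := by
  unfold P0 Pr
  congr 1
  rw [sub_eq_add_neg, ← Finset.sum_neg_distrib]
  congr 1
  exact Finset.sum_congr rfl fun k _ => by ring

theorem P0_add_P1 (y y' : κ0) (z : M) : P0 S τ y y' z + P1 S τ y y' z = S.D0.p y y' z := by
  rw [← P0_eq]
  unfold P1 Pr
  ring

theorem pj0 (H : Sym S cc) (hτ : τ.OK S C) : Pj S (P0 S τ) :=
  pj H (fun k => (hτ.smn k).neg) fun z => by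
    rw [← hτ.norm z]
    exact Finset.sum_congr rfl fun k _ => by ring

theorem pj1 (H : Sym S cc) (hτ : τ.OK S C) : Pj S (P1 S τ) := pj H hτ.smn hτ.norm

theorem R_eq (s : κ0 → M → ℝ) (y : κ0) (z : M) :
    τ.R S s y z = ∑ b, P1 S τ y b z * s b z - ∑ b, P0 S τ y b z * s b z := by
  rw [← Finset.sum_sub_distrib, TD.R, Finset.sum_comm]
  refine Finset.sum_congr rfl fun b _ => ?_
  rw [← Finset.sum_mul, ← sub_mul]
  congr 1
  unfold P0 P1 Pr
  have : ∑ k, - τ.n k z * S.rho k y b z = - ∑ k, τ.n k z * S.rho k y b z := by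
    rw [← Finset.sum_neg_distrib]
    exact Finset.sum_congr rfl fun k _ => by ring
  rw [this]
  ring

theorem p_eq (s : κ0 → M → ℝ) (y : κ0) (z : M) :
    ∑ b, S.D0.p y b z * s b z = ∑ b, P0 S τ y b z * s b z + ∑ b, P1 S τ y b z * s b z := by
  rw [← Finset.sum_add_distrib]
  exact Finset.sum_congr rfl fun b _ => by rw [← P0_add_P1 (τ := τ)]; ring

/-- `p P u = P u` -/
theorem sec_of_pj {P : κ0 → κ0 → M → ℝ} (hP : Pj S P) {s : κ0 → M → ℝ}
    (h : ∀ y z, ∑ b, P y b z * s b z = s y z) : S.D0.Sec s := by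
  intro y z
  calc ∑ b, S.D0.p y b z * s b z = ∑ b, S.D0.p y b z * ∑ c, P b c z * s c z := by
        refine Finset.sum_congr rfl fun b _ => ?_
        rw [h]
    _ = ∑ c, (∑ b, S.D0.p y b z * P b c z) * s c z := by
        simp only [Finset.mul_sum, Finset.sum_mul]
        rw [Finset.sum_comm]
        refine Finset.sum_congr rfl fun c _ => Finset.sum_congr rfl fun b _ => ?_
        ring
    _ = s y z := by
        simp only [hP.pP]
        exact h y z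

theorem secE_iff (H : Sym S cc) (hτ : τ.OK S C) {s : κ0 → M → ℝ} :
    τ.SecE S s ↔ ∀ y z, ∑ b, P0 S τ y b z * s b z = s y z := by
  constructor
  · rintro ⟨h1, h2⟩ y z
    have e1 := R_eq (S := S) (τ := τ) s y z
    have e2 := p_eq (S := S) (τ := τ) s y z
    rw [h1 y z] at e2
    rw [h2 y z] at e1
    linarith
  · intro h
    have hs := sec_of_pj (pj0 H hτ) h
    refine ⟨hs, fun y z => ?_⟩
    have e1 := R_eq (S := S) (τ := τ) s y z
    have e2 := p_eq (S := S) (τ := τ) s y z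
    rw [hs y z, h y z] at e2
    rw [h y z] at e1
    linarith

theorem secE'_iff (H : Sym S cc) (hτ : τ.OK S C) {s : κ0 → M → ℝ} :
    τ.SecE' S s ↔ ∀ y z, ∑ b, P1 S τ y b z * s b z = s y z := by
  constructor
  · rintro ⟨h1, h2⟩ y z
    have e1 := R_eq (S := S) (τ := τ) s y z
    have e2 := p_eq (S := S) (τ := τ) s y z
    rw [h1 y z] at e2
    rw [h2 y z] at e1
    linarith
  · intro h
    have hs := sec_of_pj (pj1 H hτ) h
    refine ⟨hs, fun y z => ?_⟩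
    have e1 := R_eq (S := S) (τ := τ) s y z
    have e2 := p_eq (S := S) (τ := τ) s y z
    rw [hs y z, h y z] at e2
    rw [h y z] at e1
    linarith

/-- `P (P u) = P u` -/
theorem pj_idem {P : κ0 → κ0 → M → ℝ} (hP : Pj S P) (u : κ0 → M → ℝ) (y : κ0) (z : M) :
    ∑ b, P y b z * ∑ c, P b c z * u c z = ∑ c, P y c z * u c z := by
  simp only [Finset.mul_sum]
  rw [Finset.sum_comm]
  refine Finset.sum_congr rfl fun c _ => ?_
  rw [← hP.idem y c z, Finset.sum_mul]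
  exact Finset.sum_congr rfl fun b _ => by ring

/-- `P J s = J s` -/
theorem P_iu {P : κ0 → κ0 → M → ℝ} (hP : Pj S P) {s : κ0 → M → ℝ}
    (hs : ∀ y z, ∑ b, P y b z * s b z = s y z) (y : κ0) (z : M) :
    ∑ b, P y b z * S.iu s b z = S.iu s y z := by
  unfold SWS.iu
  calc ∑ y', P y y' z * ∑ b, S.J y' b z * s b z
      = ∑ b, (∑ y', P y y' z * S.J y' b z) * s b z := by
        simp only [Finset.mul_sum, Finset.sum_mul]
        rw [Finset.sum_comm]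
        refine Finset.sum_congr rfl fun b _ => Finset.sum_congr rfl fun y' _ => ?_
        ring
    _ = ∑ b, (∑ y', S.J y y' z * P y' b z) * s b z := by simp only [hP.PJ]
    _ = ∑ y', S.J y y' z * ∑ b, P y' b z * s b z := by
        simp only [Finset.mul_sum, Finset.sum_mul]
        rw [Finset.sum_comm]
        refine Finset.sum_congr rfl fun b _ => Finset.sum_congr rfl fun y' _ => ?_
        ring
    _ = ∑ b, S.J y b z * s b z := by simp only [hs]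

/-! ### the connection of `E` -/

/-- `∇^E s` for a section of `E` -/
theorem nE_eq (H : Sym S cc) (hτ : τ.OK S C) (a : κT → M → ℝ) {s : κ0 → M → ℝ}
    (hs : τ.SecE S s) (y : κ0) (z : M) :
    τ.nE S a s y z = ∑ b, P0 S τ y b z • S.D0.cv s b z + S.iu s y z • (S.vf a z + S.vf τ.sh z) := by
  have h1 := P_iu (pj0 H hτ) ((secE_iff H hτ).1 hs) y z
  unfold TD.nE TD.prE SWS.nab
  simp only [P0_eq, smul_add, Finset.sum_add_distrib, smul_smul]
  rw [← Finset.sum_smul]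
  have h2 : ∑ b, P0 S τ y b z * ∑ y', S.J b y' z * s y' z = S.iu s y z := h1
  rw [h2]
  unfold SWS.vf SWS.iu
  rw [add_assoc]

/-- linearity of `i` -/
theorem iu_add (s s1 : κ0 → M → ℝ) (ε : ℝ) (y : κ0) (z : M) :
    S.iu (fun y z => s y z + ε * s1 y z) y z = S.iu s y z + ε * S.iu s1 y z := by
  unfold SWS.iu
  rw [Finset.mul_sum, ← Finset.sum_add_distrib]
  exact Finset.sum_congr rfl fun b _ => by ring

theorem vf_add (a b : κT → M → ℝ) (ε : ℝ) (z : M) :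
    S.vf (fun A z => a A z + ε * b A z) z = S.vf a z + ε • S.vf b z := by
  unfold SWS.vf
  rw [Finset.smul_sum, ← Finset.sum_add_distrib]
  exact Finset.sum_congr rfl fun b _ => by rw [add_smul, smul_smul]

theorem cv_add' {κ : Type} [Fintype κ] (D : Dat 4 M κ) {u w : κ → M → ℝ} (hu : SmV (n := 4) u)
    (hw : SmV (n := 4) w) (ε : ℝ) (a : κ) (z : M) :
    D.cv (fun a z => u a z + ε * w a z) a z = D.cv u a z + ε • D.cv w a z := by
  have h := Crest.Agent.R249.Ker57.cv_lin (D := D) hu hw 1 ε a z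
  simp only [one_mul, one_smul] at h
  exact h

theorem smV_add' {κ : Type} {u w : κ → M → ℝ} (hu : SmV (n := 4) u)
    (hw : SmV (n := 4) w) (ε : ℝ) : SmV (n := 4) (fun a z => u a z + ε * w a z) := fun a =>
  (hu a).add (contMDiff_const.mul (hw a))

theorem sec_add' {κ : Type} [Fintype κ] (D : Dat 4 M κ) {u w : κ → M → ℝ} (hu : D.Sec u)
    (hw : D.Sec w) (ε : ℝ) : D.Sec (fun a z => u a z + ε * w a z) := by
  intro a z
  simp only [mul_add, Finset.sum_add_distrib]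
  rw [hu a z, ← hw a z, Finset.mul_sum]
  congr 1
  exact Finset.sum_congr rfl fun b _ => by ring

theorem secE_add (H : Sym S cc) (hτ : τ.OK S C) {s s1 : κ0 → M → ℝ} (hs : τ.SecE S s)
    (hs1 : τ.SecE S s1) (ε : ℝ) : τ.SecE S (fun y z => s y z + ε * s1 y z) := by
  rw [secE_iff H hτ] at *
  intro y z
  simp only [mul_add, Finset.sum_add_distrib]
  rw [hs y z, ← hs1 y z, Finset.mul_sum]
  congr 1
  exact Finset.sum_congr rfl fun b _ => by ring

/-- the linearised connection -/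
def NN (S : SWS M κ0 κ1 κT) (τ : TD M κT) (th : κT → M → ℝ) (s0 : κ0 → M → ℝ)
    (al : κT → M → ℝ) (s1 : κ0 → M → ℝ) (y : κ0) (z : M) : 𝔼4 :=
  τ.nE S th s1 y z + S.iu s0 y z • S.vf al z

/-- expansion of `∇^E` -/
theorem nE_exp (H : Sym S cc) (hτ : τ.OK S C) (th al : κT → M → ℝ) {s0 s1 : κ0 → M → ℝ}
    (h0 : SmV (n := 4) s0) (h1 : SmV (n := 4) s1)
    (hs : τ.SecE S s0) (hs1 : τ.SecE S s1) (ε : ℝ) (y : κ0) (z : M)
    (hpar : ∀ y z, τ.nE S th s0 y z = 0) :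
    τ.nE S (fun A z => th A z + ε * al A z) (fun y z => s0 y z + ε * s1 y z) y z =
      ε • (NN S τ th s0 al s1 y z + ε • (S.iu s1 y z • S.vf al z)) := by
  have e0 := hpar y z
  rw [nE_eq H hτ _ hs] at e0
  rw [nE_eq H hτ _ (secE_add H hτ hs hs1 ε), NN, nE_eq H hτ _ hs1]
  simp only [cv_add' S.D0 h0 h1, iu_add, vf_add, smul_add, Finset.sum_add_distrib]
  rw [smul_add] at e0
  have e1 : ∑ b, P0 S τ y b z • ε • S.D0.cv s1 b z = ε • ∑ b, P0 S τ y b z • S.D0.cv s1 b z := by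
    rw [Finset.smul_sum]
    exact Finset.sum_congr rfl fun b _ => smul_comm _ _ _
  rw [e1]
  have e2 : ∑ b, P0 S τ y b z • S.D0.cv s0 b z =
      - (S.iu s0 y z • S.vf th z + S.iu s0 y z • S.vf τ.sh z) := eq_neg_of_add_eq_zero_left e0
  rw [e2]
  module

/-! ### the Dirac operator -/

theorem A_lin {κ κ' : Type} [Fintype κ] [Fintype κ'] {D0 : Dat 4 M κ} {D1 : Dat 4 M κ'}
    (P : OpPair D0 D1) {u w : κ → M → ℝ} (hu : SmV (n := 4) u) (hus : D0.Sec u)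
    (hw : SmV (n := 4) w) (hws : D0.Sec w) (ε : ℝ) (x : κ') (z : M) :
    P.A (fun y z => u y z + ε * w y z) x z = P.A u x z + ε * P.A w x z := by
  have h1 : lA P (⟨u, hu, hus⟩ + ε • ⟨w, hw, hws⟩) = lA P ⟨u, hu, hus⟩ + ε • lA P ⟨w, hw, hws⟩ := by
    rw [map_add, map_smul]
  exact congrFun (congrFun (congrArg Subtype.val h1) x) z

theorem cm_exp (th al : κT → M → ℝ) (u w : κ0 → M → ℝ) (ε : ℝ) (x : κ1) (z : M) :
    S.cm (fun A z => th A z + ε * al A z) (fun y z => u y z + ε * w y z) x z =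
      S.cm th u x z + ε * (S.cm th w x z + S.cm al u x z) + ε ^ 2 * S.cm al w x z := by
  unfold SWS.cm
  simp only [Finset.mul_sum, ← Finset.sum_add_distrib]
  refine Finset.sum_congr rfl fun A _ => Finset.sum_congr rfl fun y _ => ?_
  ring

theorem smV_sc (hτ : τ.OK S C) (q : ℝ) {s : κ0 → M → ℝ} (hs : SmV (n := 4) s) :
    SmV (n := 4) (τ.sc q s) := fun y => (smooth_rpow hτ.smrr hτ.pos q).mul (hs y)

theorem sec_sc (q : ℝ) {s : κ0 → M → ℝ} (hs : S.D0.Sec s) : S.D0.Sec (τ.sc q s) := by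
  intro y z
  unfold TD.sc
  rw [← hs y z, Finset.mul_sum]
  exact Finset.sum_congr rfl fun b _ => by ring

theorem sc_add (q : ℝ) (s s1 : κ0 → M → ℝ) (ε : ℝ) :
    τ.sc q (fun y z => s y z + ε * s1 y z) = fun y z => τ.sc q s y z + ε * τ.sc q s1 y z := by
  funext y z
  unfold TD.sc
  ring

/-- `D_a u` -/
def dd (S : SWS M κ0 κ1 κT) (τ : TD M κT) (a : κT → M → ℝ) (s : κ0 → M → ℝ) (x : κ1) (z : M) : ℝ :=
  S.P.A (τ.sc (3 / 4) s) x z + S.cm a (τ.sc (3 / 4) s) x z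

/-- the linearised Dirac equation -/
def XX (S : SWS M κ0 κ1 κT) (τ : TD M κT) (th : κT → M → ℝ) (s0 : κ0 → M → ℝ)
    (al : κT → M → ℝ) (s1 : κ0 → M → ℝ) (x : κ1) (z : M) : ℝ :=
  dd S τ th s1 x z + S.cm al (τ.sc (3 / 4) s0) x z

theorem dd_exp (hτ : τ.OK S C) (th al : κT → M → ℝ) {s0 s1 : κ0 → M → ℝ}
    (h0 : SmV (n := 4) s0) (h1 : SmV (n := 4) s1) (hs0 : S.D0.Sec s0) (hs1 : S.D0.Sec s1)
    (ε : ℝ) (x : κ1) (z : M) :
    dd S τ (fun A z => th A z + ε * al A z) (fun y z => s0 y z + ε * s1 y z) x z =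
      dd S τ th s0 x z + ε * (XX S τ th s0 al s1 x z + ε * S.cm al (τ.sc (3 / 4) s1) x z) := by
  unfold XX dd
  rw [sc_add, A_lin S.P (smV_sc hτ _ h0) (sec_sc _ hs0) (smV_sc hτ _ h1) (sec_sc _ hs1), cm_exp]
  ring

/-- the same with a fixed second section -/
theorem dd_exp' (th al : κT → M → ℝ) (s' : κ0 → M → ℝ) (ε : ℝ) (x : κ1) (z : M) :
    dd S τ (fun A z => th A z + ε * al A z) s' x z =
      dd S τ th s' x z + ε * S.cm al (τ.sc (3 / 4) s') x z := by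
  unfold dd
  have h := cm_exp (S := S) th al (τ.sc (3 / 4) s') (fun _ _ => 0) ε x z
  have e : ∀ a : κT → M → ℝ, S.cm a (fun _ _ => 0) x z = 0 := by
    intro a
    unfold SWS.cm
    simp
  rw [e, e] at h
  simp only [mul_zero, add_zero] at h
  rw [h]
  ring

/-! ### continuity -/

theorem ic {f : M → ℝ} (h : Continuous f) : Integrable f (μHE[4] : Measure M) :=
  h.integrable_of_hasCompactSupport (HasCompactSupport.of_compactSpace f)

theorem smooth_cm (hOK : S.OK) {a : κT → M → ℝ} {u : κ0 → M → ℝ} (ha : SmV (n := 4) a)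
    (hu : SmV (n := 4) u) (x : κ1) : ContMDiff (𝓡 4) 𝓘(ℝ, ℝ) ∞ (S.cm a u x) :=
  contMDiff_finsetSum fun A _ => contMDiff_finsetSum fun y _ =>
    ((ha A).mul (hu y)).mul (hOK.smcl A x y)

theorem smooth_dd (hOK : S.OK) (hτ : τ.OK S C) {a : κT → M → ℝ} {s : κ0 → M → ℝ}
    (ha : SmV (n := 4) a) (hs : SmV (n := 4) s) (hse : S.D0.Sec s) (x : κ1) :
    ContMDiff (𝓡 4) 𝓘(ℝ, ℝ) ∞ (dd S τ a s x) :=
  (S.P.smA _ (smV_sc hτ _ hs) (sec_sc _ hse) x).add (smooth_cm hOK ha (smV_sc hτ _ hs) x)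

theorem smooth_XX (hOK : S.OK) (hτ : τ.OK S C) {th al : κT → M → ℝ} {s0 s1 : κ0 → M → ℝ}
    (hth : SmV (n := 4) th) (hal : SmV (n := 4) al) (h0 : SmV (n := 4) s0) (h1 : SmV (n := 4) s1)
    (hs1 : S.D0.Sec s1) (x : κ1) : ContMDiff (𝓡 4) 𝓘(ℝ, ℝ) ∞ (XX S τ th s0 al s1 x) :=
  (smooth_dd hOK hτ hth h1 hs1 x).add (smooth_cm hOK hal (smV_sc hτ _ h0) x)

theorem smF_vf (hOK : S.OK) {a : κT → M → ℝ} (ha : SmV (n := 4) a) : SmF (S.vf a) :=
  SmF.sum _ fun A _ => SmF.smul (ha A) (hOK.sms A)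

theorem smV_iu (hOK : S.OK) {s : κ0 → M → ℝ} (hs : SmV (n := 4) s) : SmV (n := 4) (S.iu s) :=
  fun y => contMDiff_finsetSum fun b _ => (hOK.smJ y b).mul (hs b)

theorem smF_nE (hOK : S.OK) (H : Sym S cc) (hτ : τ.OK S C) {a : κT → M → ℝ} {s : κ0 → M → ℝ}
    (ha : SmV (n := 4) a) (hs : SmV (n := 4) s) (hE : τ.SecE S s) (y : κ0) :
    SmF (τ.nE S a s y) := by
  refine SmF.congr ?_ fun z => nE_eq H hτ a hE y z
  exact (SmF.sum _ fun b _ => SmF.smul ((pj0 H hτ).sm y b) (smF_cv S.D0 hs b)).add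
    (SmF.smul (smV_iu hOK hs y) ((smF_vf hOK ha).add (smF_vf hOK hτ.smsh)))

theorem smF_NN (hOK : S.OK) (H : Sym S cc) (hτ : τ.OK S C) {th al : κT → M → ℝ}
    {s0 s1 : κ0 → M → ℝ} (hth : SmV (n := 4) th) (hal : SmV (n := 4) al) (h0 : SmV (n := 4) s0)
    (h1 : SmV (n := 4) s1) (hE : τ.SecE S s1) (y : κ0) :
    SmF (NN S τ th s0 al s1 y) :=
  (smF_nE hOK H hτ hth h1 hE y).add (SmF.smul (smV_iu hOK h0 y) (smF_vf hOK hal))

theorem cont_nsq {X : κ0 → M → 𝔼4} (hX : ∀ y, SmF (X y)) :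
    Continuous fun z => ∑ y, ‖X y z‖ ^ 2 := by
  refine continuous_finsetSum _ fun y _ => ?_
  have h := ((hX y).inner (hX y)).continuous
  simp only [real_inner_self_eq_norm_sq] at h
  exact h

theorem cont_nin {X Y : κ0 → M → 𝔼4} (hX : ∀ y, SmF (X y)) (hY : ∀ y, SmF (Y y)) :
    Continuous fun z => ∑ y, (⟪X y z, Y y z⟫ : ℝ) :=
  continuous_finsetSum _ fun y _ => ((hX y).inner (hY y)).continuous

/-! ### scalar lemmas -/

theorem sum_sq_exp {ι : Type*} [Fintype ι] (ε : ℝ) (X Z : ι → ℝ) :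
    ∑ x, (ε * (X x + ε * Z x)) ^ 2 =
      ε ^ 2 * ∑ x, X x ^ 2 + 2 * ε ^ 3 * ∑ x, X x * Z x + ε ^ 4 * ∑ x, Z x ^ 2 := by
  simp only [Finset.mul_sum, ← Finset.sum_add_distrib]
  exact Finset.sum_congr rfl fun x _ => by ring

theorem sum_norm_exp {ι : Type*} [Fintype ι] (ε : ℝ) (X Z : ι → 𝔼4) :
    ∑ x, ‖X x + ε • Z x‖ ^ 2 =
      ∑ x, ‖X x‖ ^ 2 + 2 * ε * ∑ x, (⟪X x, Z x⟫ : ℝ) + ε ^ 2 * ∑ x, ‖Z x‖ ^ 2 := by
  simp only [Finset.mul_sum, ← Finset.sum_add_distrib]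
  refine Finset.sum_congr rfl fun x _ => ?_
  rw [norm_add_sq_real, real_inner_smul_right, norm_smul, mul_pow, Real.norm_eq_abs, sq_abs]
  ring

theorem sum_norm_smul {ι : Type*} [Fintype ι] (ε : ℝ) (X : ι → 𝔼4) :
    ∑ x, ‖ε • X x‖ ^ 2 = ε ^ 2 * ∑ x, ‖X x‖ ^ 2 := by
  simp only [Finset.mul_sum]
  refine Finset.sum_congr rfl fun x _ => ?_
  rw [norm_smul, mul_pow, Real.norm_eq_abs, sq_abs]

theorem lim_le {a0 a1 a2 b0 b1 b2 : ℝ}
    (h : ∀ ε > (0:ℝ), |a0 + ε * a1 + ε ^ 2 * a2| ≤ b0 + ε * b1 + ε ^ 2 * b2) : |a0| ≤ b0 := by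
  have h1 : Tendsto (fun ε : ℝ => |a0 + ε * a1 + ε ^ 2 * a2|) (𝓝[>] 0) (𝓝 |a0|) := by
    have hc : Continuous fun ε : ℝ => |a0 + ε * a1 + ε ^ 2 * a2| := by fun_prop
    have := (hc.tendsto 0).mono_left (nhdsWithin_le_nhds (s := Ioi 0))
    simpa using this
  have h2 : Tendsto (fun ε : ℝ => b0 + ε * b1 + ε ^ 2 * b2) (𝓝[>] 0) (𝓝 b0) := by
    have hc : Continuous fun ε : ℝ => b0 + ε * b1 + ε ^ 2 * b2 := by fun_prop
    have := (hc.tendsto 0).mono_left (nhdsWithin_le_nhds (s := Ioi 0))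
    simpa using this
  exact le_of_tendsto_of_tendsto h1 h2 (eventually_nhdsWithin_of_forall fun ε hε => h ε hε)

theorem int_poly {f0 f1 f2 : M → ℝ} (h0 : Continuous f0) (h1 : Continuous f1) (h2 : Continuous f2)
    (ε : ℝ) : ∫ z, (f0 z + ε * f1 z + ε ^ 2 * f2 z) ∂(μHE[4] : Measure M) =
      ∫ z, f0 z ∂(μHE[4] : Measure M) + ε * ∫ z, f1 z ∂(μHE[4] : Measure M) +
        ε ^ 2 * ∫ z, f2 z ∂(μHE[4] : Measure M) := by
  have i0 := ic h0
  have i1 : Integrable (fun z => ε * f1 z) (μHE[4] : Measure M) := (ic h1).const_mul ε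
  have i2 : Integrable (fun z => ε ^ 2 * f2 z) (μHE[4] : Measure M) := (ic h2).const_mul _
  have i3 : Integrable (fun z => f0 z + ε * f1 z) (μHE[4] : Measure M) := i0.add i1
  rw [integral_add i3 i2, integral_add i0 i1, integral_const_mul, integral_const_mul]

theorem amgm {ρ r c x y : ℝ} (hρ : 0 < ρ) (hc : c ^ 2 ≤ r * ρ ^ 3) :
    c * (x * y) ≤ (1 / 2) * (ρ * x ^ 2 + r * ρ ^ 2 * y ^ 2) := by
  have h1 : 0 ≤ (ρ * x - c * y) ^ 2 := sq_nonneg _
  have h2 : c ^ 2 * y ^ 2 ≤ r * ρ ^ 3 * y ^ 2 := mul_le_mul_of_nonneg_right hc (sq_nonneg _)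
  have h3 : ρ * (2 * (c * (x * y))) ≤ ρ * (ρ * x ^ 2 + r * ρ ^ 2 * y ^ 2) := by nlinarith
  have h4 := le_of_mul_le_mul_left h3 hρ
  linarith

/-! ### the hypotheses -/

/-- the hypotheses of ND on the data -/
structure Hyp (S : SWS M κ0 κ1 κT) (cc : κ1 → κ0 → M → EuclideanSpace ℝ (Fin 4))
    (τ : TD M κT) (C r : ℝ) (th : κT → M → ℝ) (s0 : κ0 → M → ℝ) : Prop where
  ok : S.OK
  sym : Sym S cc
  grd : GrdH S
  tau : τ.OK S C
  smth : SmV (n := 4) th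
  secth : S.DT.Sec th
  rpos : 0 < r
  big : ∀ z, C ^ 2 ≤ r * τ.rr z ^ 3
  flat : τ.Flat S th
  par : τ.PSec S th r s0

variable {r : ℝ} {th : κT → M → ℝ} {s0 : κ0 → M → ℝ}

namespace Hyp

/-- the function `ρ^q` is continuous -/
theorem cont_rpow (hτ : τ.OK S C) (q : ℝ) : Continuous fun z => τ.rr z ^ q :=
  (smooth_rpow hτ.smrr hτ.pos q).continuous

/-- `D_th (ρ^{3/4} s0) = 0` -/
theorem dd0 (h : Hyp S cc τ C r th s0) (x : κ1) (z : M) : dd S τ th s0 x z = 0 := by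
  have h1 := h.tau.T1 th s0 h.smth h.secth h.par.sm h.par.sec
  have h2 : ∫ z, (τ.rr z * (∑ y, ‖τ.nE S th s0 y z‖ ^ 2) -
      τ.rr z * (∑ k, (S.H.B th k.succ z + τ.fE k z) * τ.n k z) * ∑ y, s0 y z ^ 2)
      ∂(μHE[4] : Measure M) = 0 := by
    rw [← integral_zero M ℝ (μ := (μHE[4] : Measure M))]
    refine integral_congr_ae (Eventually.of_forall fun z => ?_)
    simp only [h.par.par]
    have e : ∀ k, S.H.B th k.succ z + τ.fE k z = 0 := fun k => by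
      rw [add_comm]; exact h.flat k z
    simp [e]
  rw [h2] at h1
  set u : κ1 → M → ℝ := fun x z => τ.rr z ^ (-(1 / 4) : ℝ) * dd S τ th s0 x z with hu
  have hus : SmV (n := 4) u := fun x => (smooth_rpow h.tau.smrr h.tau.pos _).mul
    (smooth_dd h.ok h.tau h.smth h.par.sm h.par.sec.1 x)
  have h3 : ipp u u = 0 := by
    rw [← h1]
    refine integral_congr_ae (Eventually.of_forall fun z => ?_)
    simp only [hu]
    rw [Finset.mul_sum]
    refine Finset.sum_congr rfl fun x _ => ?_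
    have e : τ.rr z ^ (-(1 / 2) : ℝ) = τ.rr z ^ (-(1 / 4) : ℝ) * τ.rr z ^ (-(1 / 4) : ℝ) := by
      rw [← Real.rpow_add (h.tau.pos z)]
      norm_num
    rw [e]
    simp only [dd, Pi.add_apply]
    ring
  have h4 := eq_zero_of_ip hus h3 x z
  rcases mul_eq_zero.1 h4 with h5 | h5
  · exact absurd h5 (Real.rpow_pos_of_pos (h.tau.pos z) _).ne'
  · exact h5

theorem B_exp (h : Hyp S cc τ C r th s0) {al : κT → M → ℝ} (hal : SmV (n := 4) al)
    (has : S.DT.Sec al) (ε : ℝ) (k : Fin 3) (z : M) :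
    S.H.B (fun A z => th A z + ε * al A z) k.succ z + τ.fE k z = ε * S.H.B al k.succ z := by
  have h1 := A_lin S.H.swap h.smth h.secth hal has ε k.succ z
  have h2 := h.flat k z
  have h3 : S.H.B (fun A z => th A z + ε * al A z) k.succ z =
    S.H.B th k.succ z + ε * S.H.B al k.succ z := h1
  rw [h3]
  linarith

/-- the integrand of (Q1) -/
def G1 (S : SWS M κ0 κ1 κT) (τ : TD M κT) (th : κT → M → ℝ) (s0 : κ0 → M → ℝ)
    (al : κT → M → ℝ) (s1 : κ0 → M → ℝ) (z : M) : ℝ :=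
  τ.rr z ^ (-(1 / 2) : ℝ) * ∑ x, XX S τ th s0 al s1 x z ^ 2 -
    τ.rr z * ∑ y, ‖NN S τ th s0 al s1 y z‖ ^ 2 +
    2 * (τ.rr z * (∑ k : Fin 3, S.H.B al k.succ z * τ.n k z) * ∑ y, s0 y z * s1 y z)

/-- **(Q1)** -/
theorem q1 (h : Hyp S cc τ C r th s0) {al : κT → M → ℝ} {s1 : κ0 → M → ℝ}
    (hal : SmV (n := 4) al) (has : S.DT.Sec al) (h1 : SmV (n := 4) s1) (hE : τ.SecE S s1) :
    ∫ z, G1 S τ th s0 al s1 z ∂(μHE[4] : Measure M) = 0 := by
  set aε : ℝ → κT → M → ℝ := fun ε A z => th A z + ε * al A z with haε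
  set sε : ℝ → κ0 → M → ℝ := fun ε y z => s0 y z + ε * s1 y z with hsε
  set L : ℝ → M → ℝ := fun ε z => τ.rr z ^ (-(1 / 2) : ℝ) * ∑ x, dd S τ (aε ε) (sε ε) x z ^ 2 with hL
  set R : ℝ → M → ℝ := fun ε z => τ.rr z * (∑ y, ‖τ.nE S (aε ε) (sε ε) y z‖ ^ 2) -
      τ.rr z * (∑ k, (S.H.B (aε ε) k.succ z + τ.fE k z) * τ.n k z) * ∑ y, sε ε y z ^ 2 with hR
  have sma : ∀ ε, SmV (n := 4) (aε ε) := fun ε => smV_add' h.smth hal ε
  have sca : ∀ ε, S.DT.Sec (aε ε) := fun ε => sec_add' S.DT h.secth has ε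
  have sms : ∀ ε, SmV (n := 4) (sε ε) := fun ε => smV_add' h.par.sm h1 ε
  have scs : ∀ ε, τ.SecE S (sε ε) := fun ε => secE_add h.sym h.tau h.par.sec hE ε
  have hLc : ∀ ε, Continuous (L ε) := fun ε => (cont_rpow h.tau _).mul
    (continuous_finsetSum _ fun x _ =>
      (smooth_dd h.ok h.tau (sma ε) (sms ε) (scs ε).1 x).continuous.pow 2)
  have hRc : ∀ ε, Continuous (R ε) := fun ε =>
    (h.tau.smrr.continuous.mul (cont_nsq fun y => smF_nE h.ok h.sym h.tau (sma ε) (sms ε) (scs ε) y)).sub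
      ((h.tau.smrr.continuous.mul (continuous_finsetSum _ fun k _ =>
        ((S.H.smB _ (sma ε) (sca ε) k.succ).continuous.add (h.tau.smfE k).continuous).mul
          (h.tau.smn k).continuous)).mul
        (continuous_finsetSum _ fun y _ => (sms ε y).continuous.pow 2))
  have hI : ∀ ε, ∫ z, (L ε z - R ε z) ∂(μHE[4] : Measure M) = 0 := fun ε => by
    rw [integral_sub (ic (hLc ε)) (ic (hRc ε))]
    exact sub_eq_zero.2 (h.tau.T1 (aε ε) (sε ε) (sma ε) (sca ε) (sms ε) (scs ε))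
  have hg : ∀ ε z, L ε z - R ε z = τ.rr z ^ (-(1 / 2) : ℝ) *
      (ε ^ 2 * ∑ x, XX S τ th s0 al s1 x z ^ 2 +
        2 * ε ^ 3 * ∑ x, XX S τ th s0 al s1 x z * S.cm al (τ.sc (3 / 4) s1) x z +
        ε ^ 4 * ∑ x, S.cm al (τ.sc (3 / 4) s1) x z ^ 2) -
      (τ.rr z * (ε ^ 2 * (∑ y, ‖NN S τ th s0 al s1 y z‖ ^ 2 +
        2 * ε * ∑ y, (⟪NN S τ th s0 al s1 y z, S.iu s1 y z • S.vf al z⟫ : ℝ) +
        ε ^ 2 * ∑ y, ‖S.iu s1 y z • S.vf al z‖ ^ 2)) -
      τ.rr z * (ε * ∑ k : Fin 3, S.H.B al k.succ z * τ.n k z) *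
        (∑ y, s0 y z ^ 2 + 2 * ε * ∑ y, s0 y z * s1 y z + ε ^ 2 * ∑ y, s1 y z ^ 2)) := by
    intro ε z
    simp only [hL, hR, haε, hsε]
    simp only [dd_exp h.tau th al h.par.sm h1 h.par.sec.1 hE.1, h.dd0, zero_add, sum_sq_exp]
    simp only [nE_exp h.sym h.tau th al h.par.sm h1 h.par.sec hE ε _ _ h.par.par, sum_norm_smul,
      sum_norm_exp, h.B_exp hal has]
    have e1 : ∑ k : Fin 3, ε * S.H.B al k.succ z * τ.n k z =
        ε * ∑ k : Fin 3, S.H.B al k.succ z * τ.n k z := by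
      rw [Finset.mul_sum]
      exact Finset.sum_congr rfl fun k _ => by ring
    have e2 : ∑ y, (s0 y z + ε * s1 y z) ^ 2 =
        ∑ y, s0 y z ^ 2 + 2 * ε * ∑ y, s0 y z * s1 y z + ε ^ 2 * ∑ y, s1 y z ^ 2 := by
      simp only [Finset.mul_sum, ← Finset.sum_add_distrib]
      exact Finset.sum_congr rfl fun x _ => by ring
    rw [e1, e2]
  have key : ∀ z, G1 S τ th s0 al s1 z = (16 * ((L 1 z - R 1 z) + (L (-1) z - R (-1) z)) -
      ((L 2 z - R 2 z) + (L (-2) z - R (-2) z))) / 24 := by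
    intro z
    rw [hg, hg, hg, hg, G1]
    ring
  simp only [key]
  have i : ∀ ε, Integrable (fun z => L ε z - R ε z) (μHE[4] : Measure M) := fun ε =>
    ic ((hLc ε).sub (hRc ε))
  have i12 : Integrable (fun z => 16 * ((L 1 z - R 1 z) + (L (-1) z - R (-1) z)))
    (μHE[4] : Measure M) := ((i 1).add (i (-1))).const_mul 16
  have i22 : Integrable (fun z => ((L 2 z - R 2 z) + (L (-2) z - R (-2) z)))
    (μHE[4] : Measure M) := (i 2).add (i (-2))
  rw [integral_div, integral_sub i12 i22, integral_const_mul]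
  have j1 : ∫ z, ((L 1 z - R 1 z) + (L (-1) z - R (-1) z)) ∂(μHE[4] : Measure M) = 0 := by
    rw [integral_add (i 1) (i (-1)), hI, hI, add_zero]
  have j2 : ∫ z, ((L 2 z - R 2 z) + (L (-2) z - R (-2) z)) ∂(μHE[4] : Measure M) = 0 := by
    rw [integral_add (i 2) (i (-2)), hI, hI, add_zero]
  rw [j1, j2]
  norm_num

/-- the integrand of (Q2) -/
def G2 (S : SWS M κ0 κ1 κT) (τ : TD M κT) (th : κT → M → ℝ) (s0 : κ0 → M → ℝ)
    (al : κT → M → ℝ) (s1 s' : κ0 → M → ℝ) (z : M) : ℝ :=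
  τ.rr z ^ (-(1 / 2) : ℝ) * ∑ x, XX S τ th s0 al s1 x z * dd S τ th s' x z -
    τ.rr z * ∑ k : Fin 3, S.H.B al k.succ z * ∑ y, ∑ y', S.rho k y y' z * s0 y z * s' y' z

/-- **(Q2)** -/
theorem q2 (h : Hyp S cc τ C r th s0) {al : κT → M → ℝ} {s1 s' : κ0 → M → ℝ}
    (hal : SmV (n := 4) al) (has : S.DT.Sec al) (h1 : SmV (n := 4) s1) (hE : τ.SecE S s1)
    (h' : SmV (n := 4) s') (hE' : τ.SecE' S s') :
    |∫ z, G2 S τ th s0 al s1 s' z ∂(μHE[4] : Measure M)| ≤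
      ∫ z, (1 / 2) * (τ.rr z * ∑ y, ‖NN S τ th s0 al s1 y z‖ ^ 2 +
        r * τ.rr z ^ 2 * ∑ y, s' y z ^ 2) ∂(μHE[4] : Measure M) := by
  set aε : ℝ → κT → M → ℝ := fun ε A z => th A z + ε * al A z with haε
  set sε : ℝ → κ0 → M → ℝ := fun ε y z => s0 y z + ε * s1 y z with hsε
  have sma : ∀ ε, SmV (n := 4) (aε ε) := fun ε => smV_add' h.smth hal ε
  have sca : ∀ ε, S.DT.Sec (aε ε) := fun ε => sec_add' S.DT h.secth has ε
  have sms : ∀ ε, SmV (n := 4) (sε ε) := fun ε => smV_add' h.par.sm h1 ε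
  have scs : ∀ ε, τ.SecE S (sε ε) := fun ε => secE_add h.sym h.tau h.par.sec hE ε
  set Z : κ1 → M → ℝ := S.cm al (τ.sc (3 / 4) s1) with hZ
  set Z' : κ1 → M → ℝ := S.cm al (τ.sc (3 / 4) s') with hZ'
  set K : κ0 → M → 𝔼4 := fun y z => S.iu s1 y z • S.vf al z with hK
  have smX := smooth_XX h.ok h.tau h.smth hal h.par.sm h1 hE.1
  have smY := smooth_dd h.ok h.tau h.smth h' hE'.1
  have smZ := fun x => smooth_cm (x := x) h.ok hal (smV_sc h.tau (3 / 4) h1)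
  have smZ' := fun x => smooth_cm (x := x) h.ok hal (smV_sc h.tau (3 / 4) h')
  have smK : ∀ y, SmF (K y) := fun y => SmF.smul (smV_iu h.ok h1 y) (smF_vf h.ok hal)
  have smN := smF_NN h.ok h.sym h.tau h.smth hal h.par.sm h1 hE
  have smB := fun k : Fin 3 => (S.H.smB _ hal has k.succ).continuous
  -- the coefficients
  set g1 : M → ℝ := fun z => τ.rr z ^ (-(1 / 2) : ℝ) *
    (∑ x, XX S τ th s0 al s1 x z * Z' x z + ∑ x, Z x z * dd S τ th s' x z) -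
    τ.rr z * ∑ k : Fin 3, S.H.B al k.succ z * ∑ y, ∑ y', S.rho k y y' z * s1 y z * s' y' z with hg1
  set g2 : M → ℝ := fun z => τ.rr z ^ (-(1 / 2) : ℝ) * ∑ x, Z x z * Z' x z with hg2
  have cB : ∀ s1 : κ0 → M → ℝ, SmV (n := 4) s1 → Continuous fun z => τ.rr z *
      ∑ k : Fin 3, S.H.B al k.succ z * ∑ y, ∑ y', S.rho k y y' z * s1 y z * s' y' z := fun s1 h1 =>
    h.tau.smrr.continuous.mul (continuous_finsetSum _ fun k _ => (smB k).mul
      (continuous_finsetSum _ fun y _ => continuous_finsetSum _ fun y' _ =>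
        ((h.ok.smrho k y y').continuous.mul (h1 y).continuous).mul (h' y').continuous))
  have c0 : Continuous (G2 S τ th s0 al s1 s') :=
    ((cont_rpow h.tau _).mul (continuous_finsetSum _ fun x _ =>
      (smX x).continuous.mul (smY x).continuous)).sub (cB s0 h.par.sm)
  have c1 : Continuous g1 :=
    ((cont_rpow h.tau _).mul ((continuous_finsetSum _ fun x _ =>
      (smX x).continuous.mul (smZ' x).continuous).add (continuous_finsetSum _ fun x _ =>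
      (smZ x).continuous.mul (smY x).continuous))).sub (cB s1 h1)
  have c2 : Continuous g2 := (cont_rpow h.tau _).mul (continuous_finsetSum _ fun x _ =>
      (smZ x).continuous.mul (smZ' x).continuous)
  -- the right side
  have cq : Continuous fun z => ∑ y, s' y z ^ 2 :=
    continuous_finsetSum _ fun y _ => (h' y).continuous.pow 2
  have cN := cont_nsq smN
  set e1 : M → ℝ := fun z => τ.rr z * ∑ y, (⟪NN S τ th s0 al s1 y z, K y z⟫ : ℝ) with he1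
  set e2 : M → ℝ := fun z => (1 / 2) * (τ.rr z * ∑ y, ‖K y z‖ ^ 2) with he2
  have d0 : Continuous fun z => (1 / 2) * (τ.rr z * ∑ y, ‖NN S τ th s0 al s1 y z‖ ^ 2 +
        r * τ.rr z ^ 2 * ∑ y, s' y z ^ 2) :=
    continuous_const.mul ((h.tau.smrr.continuous.mul cN).add
      ((continuous_const.mul (h.tau.smrr.continuous.pow 2)).mul cq))
  have d1 : Continuous e1 := h.tau.smrr.continuous.mul (cont_nin smN smK)
  have d2 : Continuous e2 := continuous_const.mul (h.tau.smrr.continuous.mul (cont_nsq smK))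
  refine lim_le (a1 := ∫ z, g1 z ∂(μHE[4] : Measure M)) (a2 := ∫ z, g2 z ∂(μHE[4] : Measure M))
    (b1 := ∫ z, e1 z ∂(μHE[4] : Measure M)) (b2 := ∫ z, e2 z ∂(μHE[4] : Measure M)) fun ε hε => ?_
  rw [← int_poly c0 c1 c2, ← int_poly d0 d1 d2]
  have hT := h.tau.T2 (aε ε) (sε ε) s' (sma ε) (sca ε) (sms ε) h' (scs ε) hE'
  have hl : ∫ z, (τ.rr z ^ (-(1 / 2) : ℝ) *
        (∑ x, (S.P.A (τ.sc (3 / 4) (sε ε)) + S.cm (aε ε) (τ.sc (3 / 4) (sε ε))) x z *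
          (S.P.A (τ.sc (3 / 4) s') + S.cm (aε ε) (τ.sc (3 / 4) s')) x z) -
        τ.rr z * ∑ k, (S.H.B (aε ε) k.succ z + τ.fE k z) *
          ∑ y, ∑ y', S.rho k y y' z * (sε ε) y z * s' y' z) ∂(μHE[4] : Measure M) =
      ε * ∫ z, (G2 S τ th s0 al s1 s' z + ε * g1 z + ε ^ 2 * g2 z) ∂(μHE[4] : Measure M) := by
    rw [← integral_const_mul]
    refine integral_congr_ae (Eventually.of_forall fun z => ?_)
    have a1 : ∑ x, (S.P.A (τ.sc (3 / 4) (sε ε)) + S.cm (aε ε) (τ.sc (3 / 4) (sε ε))) x z *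
          (S.P.A (τ.sc (3 / 4) s') + S.cm (aε ε) (τ.sc (3 / 4) s')) x z =
        ε * (∑ x, XX S τ th s0 al s1 x z * dd S τ th s' x z +
          ε * (∑ x, XX S τ th s0 al s1 x z * Z' x z + ∑ x, Z x z * dd S τ th s' x z) +
          ε ^ 2 * ∑ x, Z x z * Z' x z) := by
      simp only [Finset.mul_sum, ← Finset.sum_add_distrib]
      refine Finset.sum_congr rfl fun x _ => ?_
      have b1 : (S.P.A (τ.sc (3 / 4) (sε ε)) + S.cm (aε ε) (τ.sc (3 / 4) (sε ε))) x z =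
          ε * (XX S τ th s0 al s1 x z + ε * Z x z) := by
        have := dd_exp h.tau th al h.par.sm h1 h.par.sec.1 hE.1 ε x z
        rw [h.dd0, zero_add] at this
        exact this
      have b2 : (S.P.A (τ.sc (3 / 4) s') + S.cm (aε ε) (τ.sc (3 / 4) s')) x z =
          dd S τ th s' x z + ε * Z' x z := dd_exp' th al s' ε x z
      rw [b1, b2]
      ring
    have a2 : ∑ k, (S.H.B (aε ε) k.succ z + τ.fE k z) *
          ∑ y, ∑ y', S.rho k y y' z * (sε ε) y z * s' y' z =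
        ε * (∑ k : Fin 3, S.H.B al k.succ z * ∑ y, ∑ y', S.rho k y y' z * s0 y z * s' y' z +
          ε * ∑ k : Fin 3, S.H.B al k.succ z * ∑ y, ∑ y', S.rho k y y' z * s1 y z * s' y' z) := by
      rw [mul_add, Finset.mul_sum, Finset.mul_sum, Finset.mul_sum, ← Finset.sum_add_distrib]
      refine Finset.sum_congr rfl fun k _ => ?_
      rw [h.B_exp hal has]
      have b3 : ∑ y, ∑ y', S.rho k y y' z * (sε ε) y z * s' y' z =
          ∑ y, ∑ y', S.rho k y y' z * s0 y z * s' y' z +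
            ε * ∑ y, ∑ y', S.rho k y y' z * s1 y z * s' y' z := by
        simp only [Finset.mul_sum, ← Finset.sum_add_distrib]
        refine Finset.sum_congr rfl fun y _ => Finset.sum_congr rfl fun y' _ => ?_
        simp only [hsε]
        ring
      rw [b3]
      ring
    simp only [a1, a2, G2, hg1, hg2]
    ring
  rw [hl, abs_mul, abs_of_pos hε] at hT
  have hr : C * ∫ z, √(∑ y, ‖τ.nE S (aε ε) (sε ε) y z‖ ^ 2) * √(∑ y, s' y z ^ 2)
      ∂(μHE[4] : Measure M) ≤ ε * ∫ z, ((1 / 2) * (τ.rr z * ∑ y, ‖NN S τ th s0 al s1 y z‖ ^ 2 +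
        r * τ.rr z ^ 2 * ∑ y, s' y z ^ 2) + ε * e1 z + ε ^ 2 * e2 z) ∂(μHE[4] : Measure M) := by
    rw [← integral_const_mul, ← integral_const_mul]
    refine integral_mono (ic (continuous_const.mul ((Real.continuous_sqrt.comp (cont_nsq fun y =>
      smF_nE h.ok h.sym h.tau (sma ε) (sms ε) (scs ε) y)).mul (Real.continuous_sqrt.comp cq))))
      (ic (continuous_const.mul ((d0.add (continuous_const.mul d1)).add
        (continuous_const.mul d2)))) fun z => ?_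
    have b0 : ∑ y, ‖τ.nE S (aε ε) (sε ε) y z‖ ^ 2 =
        ε ^ 2 * ∑ y, ‖NN S τ th s0 al s1 y z + ε • K y z‖ ^ 2 := by
      simp only [haε, hsε, nE_exp h.sym h.tau th al h.par.sm h1 h.par.sec hE ε _ _ h.par.par]
      exact sum_norm_smul ε _
    have b1 := sum_norm_exp ε (fun y => NN S τ th s0 al s1 y z) (fun y => K y z)
    have b2 : √(∑ y, ‖τ.nE S (aε ε) (sε ε) y z‖ ^ 2) =
        ε * √(∑ y, ‖NN S τ th s0 al s1 y z + ε • K y z‖ ^ 2) := by
      rw [b0, Real.sqrt_mul (sq_nonneg _), Real.sqrt_sq hε.le]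
    have b3 := amgm (x := √(∑ y, ‖NN S τ th s0 al s1 y z + ε • K y z‖ ^ 2))
      (y := √(∑ y, s' y z ^ 2)) (h.tau.pos z) (h.big z)
    rw [Real.sq_sqrt (Finset.sum_nonneg fun _ _ => sq_nonneg _),
      Real.sq_sqrt (Finset.sum_nonneg fun _ _ => sq_nonneg _)] at b3
    have b4 := mul_le_mul_of_nonneg_left b3 hε.le
    simp only [b2]
    calc C * (ε * √(∑ y, ‖NN S τ th s0 al s1 y z + ε • K y z‖ ^ 2) * √(∑ y, s' y z ^ 2)) =
          ε * (C * (√(∑ y, ‖NN S τ th s0 al s1 y z + ε • K y z‖ ^ 2) * √(∑ y, s' y z ^ 2))) := by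
            ring
      _ ≤ _ := b4
      _ = _ := by
        simp only [he1, he2]
        rw [b1]
        ring
  exact le_of_mul_le_mul_left (hT.trans hr) hε

end Hyp

end

end Crest.Agent.R235.SWNd_918
end

-- ▼ part R235/SWNdB_918
section

/-!
Row 235 (S0364), PACKAGE SW, ND (helper918), part B: pointwise algebra of `E`, the gradient identity.
-/

set_option autoImplicit false
set_option maxSynthPendingDepth 3
set_option linter.unusedSectionVars false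

open scoped ContDiff ENNReal NNReal Topology Manifold Bundle RealInnerProductSpace Matrix
open MeasureTheory Set Filter Metric Bundle

universe v

namespace Crest.Agent.R235.SWNd_918

open Crest.Agent.R249.Tv57 Crest.Agent.R247.Ms322 Crest.Agent.R247.Dir593
open Crest.Agent.R247.Frd657
open Crest.Agent.R235.SWDefs_53 Crest.Agent.R235.SWSym_451 Crest.Agent.R235.SWTd_451
open Crest.Agent.R235.SWTe_451 Crest.Agent.R235.Fs4_546

noncomputable section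

local notation "ipp" => Crest.Agent.R249.Tv57.ip 4
local notation "𝔼4" => EuclideanSpace ℝ (Fin 4)

variable {M : Type v} [MetricSpace M] [CompactSpace M] [ConnectedSpace M]
  [ChartedSpace (EuclideanSpace ℝ (Fin 4)) M] [IsManifold (𝓡 4) ∞ M]
  [RiemannianBundle (fun p : M => TangentSpace (𝓡 4) p)]
  [IsContMDiffRiemannianBundle (𝓡 4) ∞ (EuclideanSpace ℝ (Fin 4))
    (fun p : M => TangentSpace (𝓡 4) p)]
  [IsRiemannianManifold (𝓡 4) M] [MeasurableSpace M] [BorelSpace M]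
  [SecondCountableTopology M] [Nonempty M] [IsFiniteMeasureOnCompacts (μHE[4] : Measure M)]
  {κ0 κ1 κT : Type} [Fintype κ0] [Fintype κ1] [Fintype κT]

variable {S : SWS M κ0 κ1 κT} {cc : κ1 → κ0 → M → EuclideanSpace ℝ (Fin 4)} {τ : TD M κT} {C : ℝ}

/-! ### pointwise algebra -/

theorem rho_dot (k : Fin 3) (z : M) (a b : κ0 → ℝ) :
    ∑ y, ∑ y', S.rho k y y' z * a y * b y' = a ⬝ᵥ (mr S k z *ᵥ b) := by
  simp only [dotProduct, Matrix.mulVec, mr, Finset.mul_sum]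
  refine Finset.sum_congr rfl fun y _ => Finset.sum_congr rfl fun y' _ => ?_
  ring

theorem rho_dot_comm (H : Sym S cc) (k : Fin 3) (z : M) (a b : κ0 → ℝ) :
    a ⬝ᵥ (mr S k z *ᵥ b) = b ⬝ᵥ (mr S k z *ᵥ a) := by
  rw [Matrix.dotProduct_mulVec, ← Matrix.mulVec_transpose, mr_symm H, dotProduct_comm]

theorem R_dot (H : Sym S cc) (m : Fin 3 → M → ℝ) (z : M) (a b : κ0 → ℝ) :
    a ⬝ᵥ (mR S m z *ᵥ b) = (mR S m z *ᵥ a) ⬝ᵥ b := by
  rw [Matrix.dotProduct_mulVec, ← Matrix.mulVec_transpose, mR_symm H]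

theorem anti_R (H : Sym S cc) (m : Fin 3 → M → ℝ) (k : Fin 3) (z : M) :
    mr S k z * mR S m z + mR S m z * mr S k z = (2 * m k z) • mp S z := by
  have h1 : mr S k z * mR S m z + mR S m z * mr S k z =
      ∑ j, m j z • (mr S k z * mr S j z + mr S j z * mr S k z) := by
    rw [mR, Matrix.mul_sum, Matrix.sum_mul, ← Finset.sum_add_distrib]
    refine Finset.sum_congr rfl fun j _ => ?_
    rw [Matrix.mul_smul, Matrix.smul_mul, smul_add]
  rw [h1]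
  simp only [mr_anti H, smul_ite, smul_zero, Finset.sum_ite_eq, Finset.mem_univ, if_true,
    smul_smul]
  rw [mul_comm]

/-- `2 ε ⟨ρ_k a, b⟩ = 2 n_k ⟨a, b⟩` -/
theorem rho_same (H : Sym S cc) {m : Fin 3 → M → ℝ} (k : Fin 3) (z : M) {a b : κ0 → ℝ} {ε : ℝ}
    (ha : mR S m z *ᵥ a = ε • a) (hb : mR S m z *ᵥ b = ε • b) (hp : mp S z *ᵥ b = b) :
    ε * (a ⬝ᵥ (mr S k z *ᵥ b)) = m k z * (a ⬝ᵥ b) := by
  have h1 := congrArg (fun A => a ⬝ᵥ (A *ᵥ b)) (anti_R H m k z)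
  simp only [Matrix.add_mulVec, dotProduct_add, Matrix.smul_mulVec, hp, dotProduct_smul,
    ← Matrix.mulVec_mulVec, hb, Matrix.mulVec_smul, smul_eq_mul] at h1
  rw [R_dot H, ha, smul_dotProduct, smul_eq_mul] at h1
  linarith

/-- `E ⊥ E'` -/
theorem dot_zero (H : Sym S cc) {m : Fin 3 → M → ℝ} (z : M) {a b : κ0 → ℝ}
    (ha : mR S m z *ᵥ a = - a) (hb : mR S m z *ᵥ b = b) : a ⬝ᵥ b = 0 := by
  have h1 := R_dot H m z a b
  rw [ha, hb, neg_dotProduct] at h1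
  linarith

theorem sum_n_rho (m : Fin 3 → M → ℝ) (z : M) (a b : κ0 → ℝ) :
    ∑ k, m k z * (a ⬝ᵥ (mr S k z *ᵥ b)) = a ⬝ᵥ (mR S m z *ᵥ b) := by
  rw [mR, Matrix.sum_mulVec, dotProduct_sum]
  refine Finset.sum_congr rfl fun k _ => ?_
  rw [Matrix.smul_mulVec, dotProduct_smul, smul_eq_mul]

/-- `∑ ⟨ρ_k a, b⟩² = |a|² |b|²` for `a ∈ E`, `b ∈ E'` -/
theorem sum_rho_sq (hOK : S.OK) (H : Sym S cc) (hτ : τ.OK S C) (z : M) {a b : κ0 → ℝ}
    (ha : mR S τ.n z *ᵥ a = - a) (hb : mR S τ.n z *ᵥ b = b) (hpa : mp S z *ᵥ a = a)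
    (hpb : mp S z *ᵥ b = b) :
    ∑ k, (a ⬝ᵥ (mr S k z *ᵥ b)) ^ 2 = (a ⬝ᵥ a) * (b ⬝ᵥ b) := by
  have h0 := dot_zero H z ha hb
  have h1 := hOK.fierz z (a + b) (fun y => by
    have h2 : (mp S z *ᵥ (a + b)) y = (a + b) y := by rw [Matrix.mulVec_add, hpa, hpb]
    exact h2)
  have h3 : ∀ k, ∑ y, ∑ y', S.rho k y y' z * (a + b) y * (a + b) y' =
      τ.n k z * (b ⬝ᵥ b - a ⬝ᵥ a) + 2 * (a ⬝ᵥ (mr S k z *ᵥ b)) := by
    intro k
    rw [rho_dot, Matrix.mulVec_add, dotProduct_add, add_dotProduct, add_dotProduct]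
    have e1 := rho_same H (m := τ.n) k z (ε := -1) (a := a) (b := a) (by rw [ha, neg_one_smul])
      (by rw [ha, neg_one_smul]) hpa
    have e2 := rho_same H (m := τ.n) k z (ε := 1) (a := b) (b := b) (by rw [hb, one_smul])
      (by rw [hb, one_smul]) hpb
    rw [rho_dot_comm H k z b a]
    linarith
  have h4 : ∑ y, (a + b) y ^ 2 = a ⬝ᵥ a + b ⬝ᵥ b := by
    have e : ∑ y, (a + b) y ^ 2 = (a + b) ⬝ᵥ (a + b) := by
      simp only [dotProduct]
      exact Finset.sum_congr rfl fun y _ => by ring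
    rw [e, dotProduct_add, add_dotProduct, add_dotProduct, dotProduct_comm b a, h0]
    ring
  rw [h4] at h1
  simp only [h3] at h1
  have h5 : ∑ k, τ.n k z * (a ⬝ᵥ (mr S k z *ᵥ b)) = 0 := by
    rw [sum_n_rho, hb, h0]
  have h6 : ∑ k, (τ.n k z * (b ⬝ᵥ b - a ⬝ᵥ a) + 2 * (a ⬝ᵥ (mr S k z *ᵥ b))) ^ 2 =
      (b ⬝ᵥ b - a ⬝ᵥ a) ^ 2 * ∑ k, τ.n k z ^ 2 +
        4 * (b ⬝ᵥ b - a ⬝ᵥ a) * ∑ k, τ.n k z * (a ⬝ᵥ (mr S k z *ᵥ b)) +
        4 * ∑ k, (a ⬝ᵥ (mr S k z *ᵥ b)) ^ 2 := by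
    simp only [Finset.mul_sum, ← Finset.sum_add_distrib]
    exact Finset.sum_congr rfl fun k _ => by ring
  rw [h6, h5, hτ.norm] at h1
  linarith

/-- `E` is spanned by `a`, `J a` -/
theorem eq_of_E (H : Sym S cc) (hτ : τ.OK S C) (z : M) {a b : κ0 → ℝ} {r : ℝ} (hr : 0 < r)
    (ha : mP S (fun k z => - τ.n k z) z *ᵥ a = a) (hb : mP S (fun k z => - τ.n k z) z *ᵥ b = b)
    (hn : a ⬝ᵥ a = 2 * r) (h0 : a ⬝ᵥ b = 0) :
    b = ((1 / (2 * r)) * (b ⬝ᵥ (mJ S z *ᵥ a))) • (mJ S z *ᵥ a) := by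
  set m : Fin 3 → M → ℝ := fun k z => - τ.n k z with hmd
  have hm : ∑ k, m k z ^ 2 = 1 := by
    rw [← hτ.norm z]
    exact Finset.sum_congr rfl fun k _ => by simp only [hmd]; ring
  obtain ⟨J1, hP, -⟩ := exists_pnt H z hm
  set c : ℝ := (√(2 * r))⁻¹ with hc
  have hc2 : c ^ 2 = 1 / (2 * r) := by
    rw [hc, inv_pow, Real.sq_sqrt (by positivity), one_div]
  have h1 : mP S m z *ᵥ (c • a) = c • a := by rw [Matrix.mulVec_smul, ha]
  have h2 : (c • a) ⬝ᵥ (c • a) = 1 := by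
    rw [smul_dotProduct, dotProduct_smul, smul_eq_mul, smul_eq_mul, hn, ← mul_assoc, ← sq, hc2]
    field_simp
  have h3 := hP.P_eq h1 h2
  rw [h3] at hb
  set e := mJ S z *ᵥ a with he
  have hJc : mJ S z *ᵥ (c • a) = c • e := Matrix.mulVec_smul _ _ _
  rw [Matrix.add_mulVec, Matrix.vecMulVec_mulVec, Matrix.vecMulVec_mulVec, hJc, smul_dotProduct,
    smul_dotProduct, h0, smul_eq_mul, mul_zero, op_smul_eq_smul, zero_smul, zero_add,
    op_smul_eq_smul, smul_smul, smul_eq_mul] at hb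
  have h4 : c * e ⬝ᵥ b * c = (1 / (2 * r)) * (b ⬝ᵥ e) := by
    rw [← hc2, dotProduct_comm b e]
    ring
  rw [h4] at hb
  exact hb.symm

/-! ### the gradient identity -/

theorem grad_ip {κ : Type} [Fintype κ] (D : Dat 4 M κ) {u w : κ → M → ℝ} (hu : SmV (n := 4) u)
    (hw : SmV (n := 4) w) (z : M) : Gr (n := 4) (fun z => ∑ a, u a z * w a z) z =
      ∑ a, (w a z • D.cv u a z + u a z • D.cv w a z) := by
  rw [SWTd_451.Gr_sum' (f := fun a z => u a z * w a z) Finset.univ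
    (fun a _ => (hu a).mul (hw a))]
  have h1 : ∀ a, Gr (n := 4) (fun z => u a z * w a z) z =
      u a z • Gr (n := 4) (w a) z + w a z • Gr (n := 4) (u a) z := fun a =>
    Gr_mul (SWTd_451.md (hu a) z) (SWTd_451.md (hw a) z)
  simp only [h1, Dat.cv, smul_add, Finset.sum_add_distrib, Finset.smul_sum, smul_smul]
  have h2 : ∑ a, ∑ b, (w a z * u b z) • D.X a b z = - ∑ a, ∑ b, (u a z * w b z) • D.X a b z := by
    rw [Finset.sum_comm, ← Finset.sum_neg_distrib]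
    refine Finset.sum_congr rfl fun a _ => ?_
    rw [← Finset.sum_neg_distrib]
    refine Finset.sum_congr rfl fun b _ => ?_
    rw [D.skew b a z, smul_neg, mul_comm]
  rw [h2]
  abel

theorem cv_iu (H : Sym S cc) {s : κ0 → M → ℝ} (hs : SmV (n := 4) s) (y : κ0) (z : M) :
    S.D0.cv (S.iu s) y z = ∑ b, S.J y b z • S.D0.cv s b z := by
  have h1 : Gr (n := 4) (S.iu s y) z =
      ∑ b, (S.J y b z • Gr (n := 4) (s b) z + s b z • Gr (n := 4) (S.J y b) z) := by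
    have e : S.iu s y = fun z => ∑ b, S.J y b z * s b z := rfl
    rw [e, SWTd_451.Gr_sum' (f := fun b z => S.J y b z * s b z) Finset.univ
      (fun b _ => (H.smJ y b).mul (hs b))]
    exact Finset.sum_congr rfl fun b _ =>
      Gr_mul (SWTd_451.md (H.smJ y b) z) (SWTd_451.md (hs b) z)
  have h2 : ∀ b, Gr (n := 4) (S.J y b) z =
      - ∑ c, (S.J c b z • S.D0.X y c z - S.J y c z • S.D0.X c b z) := fun b =>
    eq_neg_of_add_eq_zero_left (H.Jpar y b z)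
  unfold Dat.cv
  rw [h1]
  simp only [h2, SWS.iu, smul_add, Finset.sum_add_distrib, Finset.smul_sum, smul_sub,
    Finset.sum_sub_distrib, smul_smul, Finset.sum_smul, neg_sub]
  have e1 : ∑ b, ∑ c, (s b z * S.J y c z) • S.D0.X c b z =
      ∑ b, ∑ c, (S.J y b z * s c z) • S.D0.X b c z := by
    rw [Finset.sum_comm]
    exact Finset.sum_congr rfl fun b _ => Finset.sum_congr rfl fun c _ => by rw [mul_comm]
  have e2 : ∑ b, ∑ c, (s b z * S.J c b z) • S.D0.X y c z =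
      ∑ b, ∑ c, (S.J b c z * s c z) • S.D0.X y b z := by
    rw [Finset.sum_comm]
    exact Finset.sum_congr rfl fun b _ => Finset.sum_congr rfl fun c _ => by rw [mul_comm]
  rw [e1, e2]
  abel

theorem iu_ip (H : Sym S cc) (s : κ0 → M → ℝ) {w : κ0 → M → ℝ} (z : M)
    (hw : ∀ y, ∑ b, S.D0.p y b z * w b z = w y z) :
    ∑ y, S.iu s y z * S.iu w y z = ∑ y, s y z * w y z := by
  have h1 : ∑ y, S.iu s y z * S.iu w y z =
      ∑ b, s b z * ∑ c, (- ∑ y, S.J b y z * S.J y c z) * w c z := by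
    calc ∑ y, S.iu s y z * S.iu w y z =
          ∑ y, ∑ b, ∑ c, (S.J y b z * s b z) * (S.J y c z * w c z) := by
          simp only [SWS.iu, Finset.sum_mul_sum]
      _ = ∑ b, ∑ c, ∑ y, (S.J y b z * s b z) * (S.J y c z * w c z) := by
          rw [Finset.sum_comm]
          refine Finset.sum_congr rfl fun b _ => ?_
          rw [Finset.sum_comm]
      _ = _ := by
          simp only [Finset.mul_sum, Finset.sum_mul, ← Finset.sum_neg_distrib]
          refine Finset.sum_congr rfl fun b _ => Finset.sum_congr rfl fun c _ =>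
            Finset.sum_congr rfl fun y _ => ?_
          rw [H.skewJ y b z]
          ring
  rw [h1]
  refine Finset.sum_congr rfl fun b _ => ?_
  congr 1
  rw [← hw b]
  refine Finset.sum_congr rfl fun c _ => ?_
  rw [H.Jsq, neg_neg]


/-- `∑ (P u)_y • V_y = ∑ u_y • (P V)_y` -/
theorem P_swap {P : κ0 → κ0 → M → ℝ} (hP : Pj S P) (u : κ0 → ℝ) (V : κ0 → 𝔼4) (z : M) :
    ∑ y, u y • ∑ b, P y b z • V b = ∑ b, (∑ y, P b y z * u y) • V b := by
  simp only [Finset.smul_sum, Finset.sum_smul, smul_smul]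
  rw [Finset.sum_comm]
  refine Finset.sum_congr rfl fun b _ => Finset.sum_congr rfl fun y _ => ?_
  rw [hP.symm y b z, mul_comm]

variable {r : ℝ} {th : κT → M → ℝ} {s0 : κ0 → M → ℝ}

namespace Hyp

/-- `2 r grad y = ∑ (J s0) ∇^E s1` -/
theorem grad_y (h : Hyp S cc τ C r th s0) {s1 : κ0 → M → ℝ} (h1 : SmV (n := 4) s1)
    (hE : τ.SecE S s1) (z : M) :
    Gr (n := 4) (fun z => ∑ y, s1 y z * S.iu s0 y z) z =
      ∑ y, S.iu s0 y z • τ.nE S th s1 y z := by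
  have hP := pj0 h.sym h.tau
  rw [grad_ip S.D0 h1 (smV_iu h.ok h.par.sm)]
  simp only [cv_iu h.sym h.par.sm, nE_eq h.sym h.tau th hE, smul_add, Finset.sum_add_distrib]
  have e1 : ∑ y, S.iu s0 y z • ∑ b, P0 S τ y b z • S.D0.cv s1 b z =
      ∑ b, S.iu s0 b z • S.D0.cv s1 b z := by
    rw [P_swap hP]
    refine Finset.sum_congr rfl fun b _ => ?_
    rw [P_iu hP ((secE_iff h.sym h.tau).1 h.par.sec)]
  have e2 : ∑ y, s1 y z • ∑ b, S.J y b z • S.D0.cv s0 b z =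
      - ∑ b, S.iu s1 b z • S.D0.cv s0 b z := by
    simp only [Finset.smul_sum, smul_smul, SWS.iu, Finset.sum_smul]
    rw [Finset.sum_comm, ← Finset.sum_neg_distrib]
    refine Finset.sum_congr rfl fun b _ => ?_
    rw [← Finset.sum_neg_distrib]
    refine Finset.sum_congr rfl fun y _ => ?_
    rw [h.sym.skewJ y b z, ← neg_smul]
    congr 1
    ring
  have e3 : ∑ b, S.iu s1 b z • S.D0.cv s0 b z =
      - ((∑ y, S.iu s1 y z * S.iu s0 y z) • (S.vf th z + S.vf τ.sh z)) := by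
    have a1 : ∑ b, S.iu s1 b z • S.D0.cv s0 b z =
        ∑ y, S.iu s1 y z • ∑ b, P0 S τ y b z • S.D0.cv s0 b z := by
      rw [P_swap hP]
      refine Finset.sum_congr rfl fun b _ => ?_
      rw [P_iu hP ((secE_iff h.sym h.tau).1 hE)]
    have a2 : ∀ y, ∑ b, P0 S τ y b z • S.D0.cv s0 b z =
        - (S.iu s0 y z • (S.vf th z + S.vf τ.sh z)) := by
      intro y
      have := h.par.par y z
      rw [nE_eq h.sym h.tau th h.par.sec] at this
      exact eq_neg_of_add_eq_zero_left this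
    rw [a1]
    simp only [a2, smul_neg, Finset.sum_neg_distrib, smul_smul]
    rw [Finset.sum_smul]
  rw [e1, e2, e3]
  have e4 : ∑ y, S.iu s0 y z • S.iu s1 y z • S.vf th z +
      ∑ y, S.iu s0 y z • S.iu s1 y z • S.vf τ.sh z =
      (∑ y, S.iu s1 y z * S.iu s0 y z) • (S.vf th z + S.vf τ.sh z) := by
    rw [smul_add, Finset.sum_smul, Finset.sum_smul]
    congr 1 <;> exact Finset.sum_congr rfl fun y _ => by rw [smul_smul, mul_comm]
  rw [e4, neg_neg]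

theorem nrm_iu (h : Hyp S cc τ C r th s0) (z : M) : ∑ y, S.iu s0 y z ^ 2 = 2 * r := by
  have h1 := iu_ip h.sym s0 z (w := s0) (fun y => h.par.sec.1 y z)
  have h2 := h.par.nrm z
  rw [← h2]
  simp only [sq]
  exact h1

/-- `∑ (J s0) N = 2 r (grad y + al)` -/
theorem pair_NN (h : Hyp S cc τ C r th s0) {s1 : κ0 → M → ℝ} (h1 : SmV (n := 4) s1)
    (hE : τ.SecE S s1) (al : κT → M → ℝ) (z : M) :
    ∑ y, S.iu s0 y z • NN S τ th s0 al s1 y z =
      Gr (n := 4) (fun z => ∑ y, s1 y z * S.iu s0 y z) z + (2 * r) • S.vf al z := by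
  rw [h.grad_y h1 hE]
  simp only [NN, smul_add, Finset.sum_add_distrib, smul_smul]
  rw [← Finset.sum_smul, ← h.nrm_iu z]
  simp only [sq]

end Hyp

end

end Crest.Agent.R235.SWNd_918
end

-- ▼ part R235/SWNdC_918
section

/-!
Row 235 (S0364), PACKAGE SW, ND (helper918), part C: the linearised operators on `W^{1,2}`, extension of
(Q1), (Q2) by density.
-/

set_option autoImplicit false
set_option maxSynthPendingDepth 3
set_option linter.unusedSectionVars false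

open scoped ContDiff ENNReal NNReal Topology Manifold Bundle RealInnerProductSpace Matrix
open MeasureTheory Set Filter Metric Bundle

universe v

namespace Crest.Agent.R235.SWNd_918

open Crest.Agent.R249.Tv57 Crest.Agent.R247.Ms322 Crest.Agent.R247.Dir593
open Crest.Agent.R247.Frd657
open Crest.Agent.R235.SWDefs_53 Crest.Agent.R235.SWSym_451 Crest.Agent.R235.SWTd_451
open Crest.Agent.R235.SWTe_451 Crest.Agent.R235.Fs4_546 Crest.Agent.R235.Cpt_755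
open Crest.Agent.R235.L4_433 Crest.Agent.R235.Dens_433 Crest.Agent.R235.W12_109

noncomputable section

local notation "ipp" => Crest.Agent.R249.Tv57.ip 4
local notation "𝔼4" => EuclideanSpace ℝ (Fin 4)

/-! ### bilinear forms with bounded coefficients -/

section gen
variable {X : Type*} [MeasurableSpace X] {μ : Measure X} {κ κ' : Type} [Fintype κ] [Fintype κ']

/-- `∫ ∑ c_ab F_a G_b` -/
def bil {c : κ → κ' → X → ℝ} (hc : ∀ a b, BM μ (c a b)) (F : HH μ κ) (G : HH μ κ') : ℝ :=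
  ⟪F, matR hc G⟫

theorem continuous_bil {c : κ → κ' → X → ℝ} (hc : ∀ a b, BM μ (c a b)) {V : Type*}
    [TopologicalSpace V] {f : V → HH μ κ} {g : V → HH μ κ'} (hf : Continuous f)
    (hg : Continuous g) : Continuous fun v => bil hc (f v) (g v) :=
  hf.inner ((matR hc).continuous.comp hg)

theorem bil_eq {c : κ → κ' → X → ℝ} (hc : ∀ a b, BM μ (c a b)) {F : HH μ κ} {G : HH μ κ'}
    {f : κ → X → ℝ} {g : κ' → X → ℝ} (hF : ∀ᵐ x ∂μ, ∀ a, (F a : X → ℝ) x = f a x)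
    (hG : ∀ᵐ x ∂μ, ∀ b, (G b : X → ℝ) x = g b x) :
    bil hc F G = ∫ x, ∑ a, ∑ b, c a b x * (f a x * g b x) ∂μ := by
  have h1 : ∀ᵐ x ∂μ, ∀ a, (matR hc G a : X → ℝ) x = ∑ b, g b x * c a b x := by
    filter_upwards [coe_matR hc G, hG] with x e1 e2 a
    rw [e1 a]
    exact Finset.sum_congr rfl fun b _ => by rw [e2 b]
  rw [bil, inner_HH F (matR hc G) hF h1]
  refine integral_congr_ae (Eventually.of_forall fun x => ?_)
  refine Finset.sum_congr rfl fun a _ => ?_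
  rw [Finset.mul_sum]
  exact Finset.sum_congr rfl fun b _ => by ring

theorem integrable_bil {c : κ → κ' → X → ℝ} (hc : ∀ a b, BM μ (c a b)) (F : HH μ κ) (G : HH μ κ') :
    Integrable (fun x => ∑ a, ∑ b, c a b x * ((F a : X → ℝ) x * (G b : X → ℝ) x)) μ := by
  have h1 : Integrable (fun x => ∑ a, (⟪(F a : X → ℝ) x, (matR hc G a : X → ℝ) x⟫ : ℝ)) μ :=
    integrable_finsetSum _ fun a _ => L2.integrable_inner (𝕜 := ℝ) (F a) (matR hc G a)
  refine h1.congr ?_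
  filter_upwards [coe_matR hc G] with x e1
  refine Finset.sum_congr rfl fun a _ => ?_
  rw [e1 a, rin, Finset.mul_sum]
  exact Finset.sum_congr rfl fun b _ => by ring

open Classical in
/-- diagonal matrices -/
def dg {κ : Type} (w : X → ℝ) (a b : κ) (x : X) : ℝ := if a = b then w x else 0

theorem bm_zero : BM μ (fun _ : X => (0:ℝ)) :=
  ⟨aestronglyMeasurable_const, 0, le_rfl, Eventually.of_forall fun _ => by simp⟩

theorem bm_dg {κ : Type} {w : X → ℝ} (hw : BM μ w) (a b : κ) : BM μ (dg w a b) := by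
  unfold dg
  by_cases h : a = b
  · simp only [if_pos h]
    exact hw
  · simp only [if_neg h]
    exact bm_zero

theorem sum_dg (w : X → ℝ) (x : X) (f g : κ → ℝ) :
    ∑ a, ∑ b, dg w a b x * (f a * g b) = w x * ∑ a, f a * g a := by
  classical
  rw [Finset.mul_sum]
  refine Finset.sum_congr rfl fun a _ => ?_
  simp only [dg, ite_mul, zero_mul]
  rw [Finset.sum_ite_eq]
  simp

end gen

/-! ### bounded functions -/

section bm
variable {X : Type*} [MeasurableSpace X] {μ : Measure X} {F : Type*} [NormedAddCommGroup F]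
  [InnerProductSpace ℝ F]

theorem bm_mul {f g : X → ℝ} (hf : BM μ f) (hg : BM μ g) : BM μ (fun x => f x * g x) := by
  obtain ⟨A, hA0, hA⟩ := hf.bd
  obtain ⟨B, hB0, hB⟩ := hg.bd
  refine ⟨hf.meas.mul hg.meas, A * B, mul_nonneg hA0 hB0, ?_⟩
  filter_upwards [hA, hB] with x e1 e2
  rw [norm_mul]
  exact mul_le_mul e1 e2 (norm_nonneg _) hA0

theorem bm_smul_const {f : X → ℝ} (hf : BM μ f) (e : F) : BM μ (fun x => f x • e) := by
  obtain ⟨A, hA0, hA⟩ := hf.bd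
  refine ⟨hf.meas.smul_const e, A * ‖e‖, mul_nonneg hA0 (norm_nonneg _), ?_⟩
  filter_upwards [hA] with x e1
  rw [norm_smul]
  exact mul_le_mul_of_nonneg_right e1 (norm_nonneg _)

theorem bm_inner_const {f : X → F} (hf : BM μ f) (e : F) : BM μ (fun x => (⟪f x, e⟫ : ℝ)) := by
  obtain ⟨A, hA0, hA⟩ := hf.bd
  refine ⟨hf.meas.inner aestronglyMeasurable_const, A * ‖e‖, mul_nonneg hA0 (norm_nonneg _), ?_⟩
  filter_upwards [hA] with x e1
  exact (norm_inner_le_norm _ _).trans (mul_le_mul_of_nonneg_right e1 (norm_nonneg _))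

end bm

/-- the standard basis -/
def ei (i : Fin 4) : 𝔼4 := EuclideanSpace.single i (1 : ℝ)

theorem sum_ei (X Y : 𝔼4) : ∑ i, (⟪X, ei i⟫ : ℝ) * ⟪Y, ei i⟫ = ⟪X, Y⟫ := by
  have h := (EuclideanSpace.basisFun (Fin 4) ℝ).sum_inner_mul_inner X Y
  rw [← h]
  refine Finset.sum_congr rfl fun i _ => ?_
  rw [EuclideanSpace.basisFun_apply, real_inner_comm Y]
  rfl

section mfd

variable {M : Type v} [MetricSpace M] [CompactSpace M] [ConnectedSpace M]
  [ChartedSpace (EuclideanSpace ℝ (Fin 4)) M] [IsManifold (𝓡 4) ∞ M]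
  [RiemannianBundle (fun p : M => TangentSpace (𝓡 4) p)]
  [IsContMDiffRiemannianBundle (𝓡 4) ∞ (EuclideanSpace ℝ (Fin 4))
    (fun p : M => TangentSpace (𝓡 4) p)]
  [IsRiemannianManifold (𝓡 4) M] [MeasurableSpace M] [BorelSpace M]
  [SecondCountableTopology M] [Nonempty M] [IsFiniteMeasureOnCompacts (μHE[4] : Measure M)]
  {κ0 κ1 κT : Type} [Fintype κ0] [Fintype κ1] [Fintype κT]

/-- multipliers on smooth sections -/
theorem mulS_cW {κ : Type} [Fintype κ] (D D' : Dat 4 M κ) {m : κ → κ → M → ℝ}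
    (hm : ∀ a b, ContMDiff (𝓡 4) 𝓘(ℝ, ℝ) ∞ (m a b))
    (hp : ∀ a b x, ∑ c, D'.p a c x * m c b x = m a b x) (u : SmS D) (w : SmS D')
    (h : ∀ a z, ∑ b, m a b z * u.1 b z = w.1 a z) : mulS D D' hm hp (cW D u) = cW D' w := by
  refine i1_injective D'.toAD ?_
  ext a
  filter_upwards [coe_mulS D D' hm hp (cW D u), coe_clH u.1 u.2.1, coe_clH w.1 w.2.1]
    with z e1 e2 e3
  rw [e1 a]
  have e4 : (D'.toAD.i1 (cW D' w) a : M → ℝ) z = w.1 a z := e3 a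
  rw [e4, ← h a z]
  refine Finset.sum_congr rfl fun b _ => ?_
  congr 1
  exact e2 b

variable {S : SWS M κ0 κ1 κT} {cc : κ1 → κ0 → M → EuclideanSpace ℝ (Fin 4)} {τ : TD M κT}
  {C r : ℝ} {th : κT → M → ℝ} {s0 : κ0 → M → ℝ}

/-- the pairs -/
abbrev VV (S : SWS M κ0 κ1 κT) := S.DT.toAD.WE × S.D0.toAD.WE

namespace Hyp

/-! #### the multipliers -/

theorem bm_cth (h : Hyp S cc τ C r th s0) (x : κ1) (y : κ0) :
    BM (μHE[4] : Measure M) (fun z => ∑ A, th A z * S.cl A x y z) :=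
  bm_smooth (contMDiff_finsetSum fun A _ => (h.smth A).mul (h.ok.smcl A x y))

theorem bm_cS (h : Hyp S cc τ C r th s0) (x : κ1) (A : κT) :
    BM (μHE[4] : Measure M) (fun z => ∑ y, τ.sc (3 / 4) s0 y z * S.cl A x y z) :=
  bm_smooth (contMDiff_finsetSum fun y _ => (smV_sc h.tau _ h.par.sm y).mul (h.ok.smcl A x y))

/-- `D_th` -/
def DL (h : Hyp S cc τ C r th s0) : S.D0.toAD.WE →L[ℝ] HH (μHE[4] : Measure M) κ1 :=
  S.D1.toAD.HE.subtypeL.comp (Ah S.P) + (matR (κ' := κ1) h.bm_cth).comp S.D0.toAD.i1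

theorem sm_msc (h : Hyp S cc τ C r th s0) (q : ℝ) (a b : κ0) :
    ContMDiff (𝓡 4) 𝓘(ℝ, ℝ) ∞ (fun z => τ.rr z ^ q * S.D0.p a b z) :=
  (smooth_rpow h.tau.smrr h.tau.pos q).mul (S.D0.smp a b)

theorem p_msc (_h : Hyp S cc τ C r th s0) (q : ℝ) (a b : κ0) (z : M) :
    ∑ c, S.D0.p a c z * (τ.rr z ^ q * S.D0.p c b z) = τ.rr z ^ q * S.D0.p a b z := by
  rw [← S.D0.idem a b z, Finset.mul_sum]
  exact Finset.sum_congr rfl fun c _ => by ring

/-- `ρ^q` on `W^{1,2}` -/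
def Sq (h : Hyp S cc τ C r th s0) (q : ℝ) : S.D0.toAD.WE →L[ℝ] S.D0.toAD.WE :=
  mulS S.D0 S.D0 (h.sm_msc q) (h.p_msc q)

/-- `Π₀` on `W^{1,2}` -/
def A0 (h : Hyp S cc τ C r th s0) : S.D0.toAD.WE →L[ℝ] S.D0.toAD.WE :=
  mulS S.D0 S.D0 (pj0 h.sym h.tau).sm (pj0 h.sym h.tau).pP

/-- `Π₁` on `W^{1,2}` -/
def A1 (h : Hyp S cc τ C r th s0) : S.D0.toAD.WE →L[ℝ] S.D0.toAD.WE :=
  mulS S.D0 S.D0 (pj1 h.sym h.tau).sm (pj1 h.sym h.tau).pP

/-- `P u`, smooth -/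
def PS (S : SWS M κ0 κ1 κT) {P : κ0 → κ0 → M → ℝ} (hP : Pj S P) (u : SmS S.D0) : SmS S.D0 :=
  ⟨fun y z => ∑ b, P y b z * u.1 b z,
    fun y => contMDiff_finsetSum fun b _ => (hP.sm y b).mul (u.2.1 b),
    sec_of_pj hP fun y z => pj_idem hP u.1 y z⟩

theorem A0_cW (h : Hyp S cc τ C r th s0) (u : SmS S.D0) :
    h.A0 (cW S.D0 u) = cW S.D0 (PS S (pj0 h.sym h.tau) u) :=
  mulS_cW S.D0 S.D0 _ _ _ _ fun _ _ => rfl

theorem A1_cW (h : Hyp S cc τ C r th s0) (u : SmS S.D0) :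
    h.A1 (cW S.D0 u) = cW S.D0 (PS S (pj1 h.sym h.tau) u) :=
  mulS_cW S.D0 S.D0 _ _ _ _ fun _ _ => rfl

/-- `ρ^q u`, smooth -/
def SS (h : Hyp S cc τ C r th s0) (q : ℝ) (u : SmS S.D0) : SmS S.D0 :=
  ⟨τ.sc q u.1, smV_sc h.tau q u.2.1, sec_sc q u.2.2⟩

theorem Sq_cW (h : Hyp S cc τ C r th s0) (q : ℝ) (u : SmS S.D0) :
    h.Sq q (cW S.D0 u) = cW S.D0 (h.SS q u) :=
  mulS_cW S.D0 S.D0 _ _ _ _ fun a z => by
    show ∑ b, τ.rr z ^ q * S.D0.p a b z * u.1 b z = τ.rr z ^ q * u.1 a z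
    rw [← u.2.2 a z, Finset.mul_sum]
    exact Finset.sum_congr rfl fun b _ => by ring

theorem DL_cW (h : Hyp S cc τ C r th s0) (w : SmS S.D0) : ∀ᵐ z ∂(μHE[4] : Measure M), ∀ x,
    (h.DL (cW S.D0 w) x : M → ℝ) z = S.P.A w.1 x z + S.cm th w.1 x z := by
  have h0 : Ah S.P (cW S.D0 w) = cH S.D1 (lA S.P w) := Ah_cW (Fred_649.dns4 S.D0) w
  have h1 : ∀ᵐ z ∂(μHE[4] : Measure M), ∀ x, (h.DL (cW S.D0 w) x : M → ℝ) z =
      (clH (lA S.P w).1 (lA S.P w).2.1 x : M → ℝ) z +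
      (matR (κ' := κ1) h.bm_cth (S.D0.toAD.i1 (cW S.D0 w)) x : M → ℝ) z := by
    rw [ae_all_iff]
    intro x
    have e : h.DL (cW S.D0 w) x = clH (lA S.P w).1 (lA S.P w).2.1 x +
        matR (κ' := κ1) h.bm_cth (S.D0.toAD.i1 (cW S.D0 w)) x := by
      show ((Ah S.P (cW S.D0 w) : S.D1.toAD.HE) : HH (μHE[4] : Measure M) κ1) x + _ = _
      rw [h0]
      rfl
    rw [e]
    exact Lp.coeFn_add _ _
  filter_upwards [h1, coe_clH (lA S.P w).1 (lA S.P w).2.1,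
    coe_matR (κ' := κ1) h.bm_cth (S.D0.toAD.i1 (cW S.D0 w)), coe_clH w.1 w.2.1] with z e1 e2 e3 e4 x
  rw [e1 x, e2 x, e3 x]
  congr 1
  unfold SWS.cm
  rw [Finset.sum_comm]
  refine Finset.sum_congr rfl fun y _ => ?_
  have e5 : (S.D0.toAD.i1 (cW S.D0 w) y : M → ℝ) z = w.1 y z := e4 y
  rw [e5, Finset.mul_sum]
  exact Finset.sum_congr rfl fun A _ => by ring

/-- the linearised Dirac equation -/
def XL (h : Hyp S cc τ C r th s0) : VV S →L[ℝ] HH (μHE[4] : Measure M) κ1 :=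
  (h.DL.comp ((h.Sq (3 / 4)).comp h.A0)).comp (ContinuousLinearMap.snd ℝ _ _) +
    ((matR (κ' := κ1) h.bm_cS).comp S.DT.toAD.i1).comp (ContinuousLinearMap.fst ℝ _ _)

/-- `D_th s'` -/
def YL (h : Hyp S cc τ C r th s0) : VV S →L[ℝ] HH (μHE[4] : Measure M) κ1 :=
  (h.DL.comp ((h.Sq (3 / 4)).comp h.A1)).comp (ContinuousLinearMap.snd ℝ _ _)

theorem YL_cW (h : Hyp S cc τ C r th s0) (al : SmS S.DT) (u : SmS S.D0) :
    ∀ᵐ z ∂(μHE[4] : Measure M), ∀ x, (h.YL (cW S.DT al, cW S.D0 u) x : M → ℝ) z =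
      dd S τ th (PS S (pj1 h.sym h.tau) u).1 x z := by
  have e : h.YL (cW S.DT al, cW S.D0 u) =
      h.DL (cW S.D0 (h.SS (3 / 4) (PS S (pj1 h.sym h.tau) u))) := by
    show h.DL (h.Sq (3 / 4) (h.A1 (cW S.D0 u))) = _
    rw [A1_cW, Sq_cW]
  rw [e]
  exact h.DL_cW _

theorem XL_cW (h : Hyp S cc τ C r th s0) (al : SmS S.DT) (u : SmS S.D0) :
    ∀ᵐ z ∂(μHE[4] : Measure M), ∀ x, (h.XL (cW S.DT al, cW S.D0 u) x : M → ℝ) z =
      XX S τ th s0 al.1 (PS S (pj0 h.sym h.tau) u).1 x z := by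
  have h1 : ∀ᵐ z ∂(μHE[4] : Measure M), ∀ x, (h.XL (cW S.DT al, cW S.D0 u) x : M → ℝ) z =
      (h.DL (cW S.D0 (h.SS (3 / 4) (PS S (pj0 h.sym h.tau) u))) x : M → ℝ) z +
      (matR (κ' := κ1) h.bm_cS (S.DT.toAD.i1 (cW S.DT al)) x : M → ℝ) z := by
    rw [ae_all_iff]
    intro x
    have e : h.XL (cW S.DT al, cW S.D0 u) x =
        h.DL (cW S.D0 (h.SS (3 / 4) (PS S (pj0 h.sym h.tau) u))) x +
        matR (κ' := κ1) h.bm_cS (S.DT.toAD.i1 (cW S.DT al)) x := by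
      show h.DL (h.Sq (3 / 4) (h.A0 (cW S.D0 u))) x + _ = _
      rw [A0_cW, Sq_cW]
      rfl
    rw [e]
    exact Lp.coeFn_add _ _
  filter_upwards [h1, h.DL_cW (h.SS (3 / 4) (PS S (pj0 h.sym h.tau) u)),
    coe_matR (κ' := κ1) h.bm_cS (S.DT.toAD.i1 (cW S.DT al)), coe_clH al.1 al.2.1]
    with z e1 e2 e3 e4 x
  rw [e1 x, e2 x, e3 x, XX]
  congr 1
  unfold SWS.cm
  refine Finset.sum_congr rfl fun A _ => ?_
  have e5 : (S.DT.toAD.i1 (cW S.DT al) A : M → ℝ) z = al.1 A z := e4 A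
  rw [e5, Finset.mul_sum]
  exact Finset.sum_congr rfl fun y _ => by ring

/-! #### the connection -/

theorem bm_cN (h : Hyp S cc τ C r th s0) (q : κ0 × Fin 4) (b : κ0) :
    BM (μHE[4] : Measure M) (fun z => P0 S τ q.1 b z • ei q.2) :=
  bm_smul_const (bm_smooth ((pj0 h.sym h.tau).sm q.1 b)) _

theorem bm_mJ (h : Hyp S cc τ C r th s0) (q : κ0 × Fin 4) (b : κ0) :
    BM (μHE[4] : Measure M) (fun z => S.J q.1 b z * ⟪S.vf th z + S.vf τ.sh z, ei q.2⟫) :=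
  bm_mul (bm_smooth (h.ok.smJ q.1 b))
    (bm_inner_const ((smF_vf h.ok h.smth).add (smF_vf h.ok h.tau.smsh)).bm _)

theorem bm_mA (h : Hyp S cc τ C r th s0) (q : κ0 × Fin 4) (A : κT) :
    BM (μHE[4] : Measure M) (fun z => S.iu s0 q.1 z * ⟪S.s A z, ei q.2⟫) :=
  bm_mul (bm_smooth (smV_iu h.ok h.par.sm q.1)) (bm_inner_const (h.ok.sms A).bm _)

/-- the linearised connection, in components -/
def NL (h : Hyp S cc τ C r th s0) : VV S →L[ℝ] HH (μHE[4] : Measure M) (κ0 × Fin 4) :=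
  ((opC S.D0.toAD (κ' := κ0 × Fin 4) h.bm_cN +
    (matR (κ' := κ0 × Fin 4) h.bm_mJ).comp S.D0.toAD.i1).comp h.A0).comp
      (ContinuousLinearMap.snd ℝ _ _) +
    ((matR (κ' := κ0 × Fin 4) h.bm_mA).comp S.DT.toAD.i1).comp (ContinuousLinearMap.fst ℝ _ _)

theorem NL_cW (h : Hyp S cc τ C r th s0) (al : SmS S.DT) (u : SmS S.D0) :
    ∀ᵐ z ∂(μHE[4] : Measure M), ∀ q, (h.NL (cW S.DT al, cW S.D0 u) q : M → ℝ) z =
      ⟪NN S τ th s0 al.1 (PS S (pj0 h.sym h.tau) u).1 q.1 z, ei q.2⟫ := by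
  set s1 := PS S (pj0 h.sym h.tau) u with hs1
  have hE : τ.SecE S s1.1 := (secE_iff h.sym h.tau).2 fun y z => pj_idem (pj0 h.sym h.tau) u.1 y z
  have h1 : ∀ᵐ z ∂(μHE[4] : Measure M), ∀ q, (h.NL (cW S.DT al, cW S.D0 u) q : M → ℝ) z =
      (opC S.D0.toAD (κ' := κ0 × Fin 4) h.bm_cN (cW S.D0 s1) q : M → ℝ) z +
      (matR (κ' := κ0 × Fin 4) h.bm_mJ (S.D0.toAD.i1 (cW S.D0 s1)) q : M → ℝ) z +
      (matR (κ' := κ0 × Fin 4) h.bm_mA (S.DT.toAD.i1 (cW S.DT al)) q : M → ℝ) z := by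
    rw [ae_all_iff]
    intro q
    have e : h.NL (cW S.DT al, cW S.D0 u) q =
        opC S.D0.toAD (κ' := κ0 × Fin 4) h.bm_cN (cW S.D0 s1) q +
        matR (κ' := κ0 × Fin 4) h.bm_mJ (S.D0.toAD.i1 (cW S.D0 s1)) q +
        matR (κ' := κ0 × Fin 4) h.bm_mA (S.DT.toAD.i1 (cW S.DT al)) q := by
      show opC S.D0.toAD (κ' := κ0 × Fin 4) h.bm_cN (h.A0 (cW S.D0 u)) q +
        matR (κ' := κ0 × Fin 4) h.bm_mJ (S.D0.toAD.i1 (h.A0 (cW S.D0 u))) q + _ = _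
      rw [A0_cW]
      rfl
    rw [e]
    filter_upwards [Lp.coeFn_add (opC S.D0.toAD (κ' := κ0 × Fin 4) h.bm_cN (cW S.D0 s1) q +
        matR (κ' := κ0 × Fin 4) h.bm_mJ (S.D0.toAD.i1 (cW S.D0 s1)) q)
        (matR (κ' := κ0 × Fin 4) h.bm_mA (S.DT.toAD.i1 (cW S.DT al)) q),
      Lp.coeFn_add (opC S.D0.toAD (κ' := κ0 × Fin 4) h.bm_cN (cW S.D0 s1) q)
        (matR (κ' := κ0 × Fin 4) h.bm_mJ (S.D0.toAD.i1 (cW S.D0 s1)) q)] with z e1 e2
    rw [e1, Pi.add_apply, e2, Pi.add_apply]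
  filter_upwards [h1, coe_opC S.D0.toAD (κ' := κ0 × Fin 4) h.bm_cN (cW S.D0 s1),
    coe_matR (κ' := κ0 × Fin 4) h.bm_mJ (S.D0.toAD.i1 (cW S.D0 s1)),
    coe_matR (κ' := κ0 × Fin 4) h.bm_mA (S.DT.toAD.i1 (cW S.DT al)),
    coe_clH al.1 al.2.1, coe_clH s1.1 s1.2.1, coe_c1_secW S.D0 s1.2.1 s1.2.2]
    with z e1 e2 e3 e4 e5 e6 e7 q
  have f5 : ∀ A, (S.DT.toAD.i1 (cW S.DT al) A : M → ℝ) z = al.1 A z := e5
  have f6 : ∀ y, (S.D0.toAD.i1 (cW S.D0 s1) y : M → ℝ) z = s1.1 y z := e6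
  have f7 : ∀ y, (S.D0.toAD.c1 (cW S.D0 s1) y : M → 𝔼4) z = S.D0.cv s1.1 y z := e7
  rw [e1 q, e2 q, e3 q, e4 q, NN, nE_eq h.sym h.tau th hE]
  simp only [f5, f6, f7, inner_add_left, real_inner_smul_left, real_inner_smul_right, sum_inner]
  have g1 : S.iu s1.1 q.1 z * (⟪S.vf th z, ei q.2⟫ + ⟪S.vf τ.sh z, ei q.2⟫) =
      ∑ b, s1.1 b z * (S.J q.1 b z * (⟪S.vf th z, ei q.2⟫ + ⟪S.vf τ.sh z, ei q.2⟫)) := by
    unfold SWS.iu
    rw [Finset.sum_mul]
    exact Finset.sum_congr rfl fun b _ => by ring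
  have g2 : S.iu s0 q.1 z * ⟪S.vf al.1 z, ei q.2⟫ =
      ∑ A, al.1 A z * (S.iu s0 q.1 z * ⟪S.s A z, ei q.2⟫) := by
    unfold SWS.vf
    rw [sum_inner, Finset.mul_sum]
    refine Finset.sum_congr rfl fun A _ => ?_
    rw [real_inner_smul_left]
    ring
  rw [g1, g2]

/-- the curvature -/
def BL (_h : Hyp S cc τ C r th s0) : VV S →L[ℝ] HH (μHE[4] : Measure M) (Fin 4) :=
  (S.DL.toAD.HE.subtypeL.comp (Ah S.H.swap)).comp (ContinuousLinearMap.fst ℝ _ _)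

theorem BL_cW (h : Hyp S cc τ C r th s0) (al : SmS S.DT) (u : SmS S.D0) :
    ∀ᵐ z ∂(μHE[4] : Measure M), ∀ k, (h.BL (cW S.DT al, cW S.D0 u) k : M → ℝ) z =
      S.H.B al.1 k z := by
  have h0 : Ah S.H.swap (cW S.DT al) = cH S.DL (lA S.H.swap al) := Ah_cW (Fred_649.dns4 S.DT) al
  have e : h.BL (cW S.DT al, cW S.D0 u) = clH (lA S.H.swap al).1 (lA S.H.swap al).2.1 := by
    show ((Ah S.H.swap (cW S.DT al) : S.DL.toAD.HE) : HH (μHE[4] : Measure M) (Fin 4)) = _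
    rw [h0]
    rfl
  rw [e]
  exact coe_clH _ _

/-- `s1` and `s'` -/
def U0 (h : Hyp S cc τ C r th s0) : VV S →L[ℝ] HH (μHE[4] : Measure M) κ0 :=
  (S.D0.toAD.i1.comp h.A0).comp (ContinuousLinearMap.snd ℝ _ _)

def U1 (h : Hyp S cc τ C r th s0) : VV S →L[ℝ] HH (μHE[4] : Measure M) κ0 :=
  (S.D0.toAD.i1.comp h.A1).comp (ContinuousLinearMap.snd ℝ _ _)

theorem U0_cW (h : Hyp S cc τ C r th s0) (al : SmS S.DT) (u : SmS S.D0) :
    ∀ᵐ z ∂(μHE[4] : Measure M), ∀ y, (h.U0 (cW S.DT al, cW S.D0 u) y : M → ℝ) z =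
      (PS S (pj0 h.sym h.tau) u).1 y z := by
  have e : h.U0 (cW S.DT al, cW S.D0 u) = clH (PS S (pj0 h.sym h.tau) u).1
      (PS S (pj0 h.sym h.tau) u).2.1 := by
    show S.D0.toAD.i1 (h.A0 (cW S.D0 u)) = _
    rw [A0_cW]
    rfl
  rw [e]
  exact coe_clH _ _

theorem U1_cW (h : Hyp S cc τ C r th s0) (al : SmS S.DT) (u : SmS S.D0) :
    ∀ᵐ z ∂(μHE[4] : Measure M), ∀ y, (h.U1 (cW S.DT al, cW S.D0 u) y : M → ℝ) z =
      (PS S (pj1 h.sym h.tau) u).1 y z := by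
  have e : h.U1 (cW S.DT al, cW S.D0 u) = clH (PS S (pj1 h.sym h.tau) u).1
      (PS S (pj1 h.sym h.tau) u).2.1 := by
    show S.D0.toAD.i1 (h.A1 (cW S.D0 u)) = _
    rw [A1_cW]
    rfl
  rw [e]
  exact coe_clH _ _

/-- density -/
theorem dense_VV (S : SWS M κ0 κ1 κT) : DenseRange (Prod.map (cW S.DT) (cW S.D0)) :=
  (Fred_649.dns4 S.DT).prodMap (Fred_649.dns4 S.D0)

/-! #### the forms -/

theorem bm_rpow (h : Hyp S cc τ C r th s0) (q : ℝ) :
    BM (μHE[4] : Measure M) (fun z => τ.rr z ^ q) :=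
  bm_smooth (smooth_rpow h.tau.smrr h.tau.pos q)

/-- coefficients of the curvature term of (Q1) -/
def c1c (τ : TD M κT) (s0 : κ0 → M → ℝ) : Fin 4 → κ0 → M → ℝ :=
  Fin.cons (fun _ _ => 0) fun k y z => τ.rr z * τ.n k z * s0 y z

theorem bm_c1c (h : Hyp S cc τ C r th s0) (k : Fin 4) (y : κ0) :
    BM (μHE[4] : Measure M) (c1c τ s0 k y) := by
  refine Fin.cases ?_ (fun k => ?_) k
  · exact bm_zero
  · exact bm_smooth ((h.tau.smrr.mul (h.tau.smn k)).mul (h.par.sm y))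

/-- coefficients of the curvature term of (Q2) -/
def c2c (S : SWS M κ0 κ1 κT) (τ : TD M κT) (s0 : κ0 → M → ℝ) : Fin 4 → κ0 → M → ℝ :=
  Fin.cons (fun _ _ => 0) fun k y' z => τ.rr z * ∑ y, S.rho k y y' z * s0 y z

theorem bm_c2c (h : Hyp S cc τ C r th s0) (k : Fin 4) (y : κ0) :
    BM (μHE[4] : Measure M) (c2c S τ s0 k y) := by
  refine Fin.cases ?_ (fun k => ?_) k
  · exact bm_zero
  · exact bm_smooth (h.tau.smrr.mul (contMDiff_finsetSum fun y' _ =>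
      (h.ok.smrho k y' y).mul (h.par.sm y')))

/-- `∫ ρ^{-1/2} ⟨X, Y⟩` -/
def fX (h : Hyp S cc τ C r th s0) (X Y : HH (μHE[4] : Measure M) κ1) : ℝ :=
  bil (c := dg fun z => τ.rr z ^ (-(1 / 2) : ℝ)) (bm_dg (h.bm_rpow _)) X Y

/-- `∫ ρ |N|²` -/
def fN (h : Hyp S cc τ C r th s0) (X : HH (μHE[4] : Measure M) (κ0 × Fin 4)) : ℝ :=
  bil (c := dg fun z => τ.rr z) (bm_dg (bm_smooth h.tau.smrr)) X X

/-- `∫ ρ² |s'|²` -/
def fS (h : Hyp S cc τ C r th s0) (X : HH (μHE[4] : Measure M) κ0) : ℝ :=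
  bil (c := dg fun z => τ.rr z ^ 2) (bm_dg (bm_smooth (h.tau.smrr.pow 2))) X X

/-- `∫ ρ (∑ n_k B_k) ⟨s0, s1⟩` -/
def f1 (h : Hyp S cc τ C r th s0) (B : HH (μHE[4] : Measure M) (Fin 4))
    (X : HH (μHE[4] : Measure M) κ0) : ℝ := bil (c := c1c τ s0) h.bm_c1c B X

/-- `∫ ρ ∑ B_k ⟨ρ_k s0, s'⟩` -/
def f2 (h : Hyp S cc τ C r th s0) (B : HH (μHE[4] : Measure M) (Fin 4))
    (X : HH (μHE[4] : Measure M) κ0) : ℝ := bil (c := c2c S τ s0) h.bm_c2c B X

theorem sum_c1c (z : M) (B : Fin 4 → ℝ) (X : κ0 → ℝ) :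
    ∑ k, ∑ y, c1c τ s0 k y z * (B k * X y) =
      τ.rr z * (∑ k : Fin 3, B k.succ * τ.n k z) * ∑ y, s0 y z * X y := by
  rw [Fin.sum_univ_succ]
  simp only [c1c, Fin.cons_zero, Fin.cons_succ, zero_mul, Finset.sum_const_zero, zero_add]
  rw [mul_assoc, Finset.sum_mul, Finset.mul_sum]
  refine Finset.sum_congr rfl fun k _ => ?_
  rw [Finset.mul_sum, Finset.mul_sum]
  exact Finset.sum_congr rfl fun y _ => by ring

theorem sum_c2c (z : M) (B : Fin 4 → ℝ) (X : κ0 → ℝ) :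
    ∑ k, ∑ y, c2c S τ s0 k y z * (B k * X y) =
      τ.rr z * ∑ k : Fin 3, B k.succ * ∑ y, ∑ y', S.rho k y y' z * s0 y z * X y' := by
  rw [Fin.sum_univ_succ]
  simp only [c2c, Fin.cons_zero, Fin.cons_succ, zero_mul, Finset.sum_const_zero, zero_add]
  rw [Finset.mul_sum]
  refine Finset.sum_congr rfl fun k _ => ?_
  rw [Finset.sum_comm, Finset.mul_sum, Finset.mul_sum]
  refine Finset.sum_congr rfl fun y _ => ?_
  have e : ∑ i, S.rho k i y z * s0 i z * X y = (∑ i, S.rho k i y z * s0 i z) * X y := by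
    rw [Finset.sum_mul]
  rw [e]
  ring

theorem sum_nn {ι : Type*} [Fintype ι] (X : ι → 𝔼4) :
    ∑ q : ι × Fin 4, (⟪X q.1, ei q.2⟫ : ℝ) * ⟪X q.1, ei q.2⟫ = ∑ y, ‖X y‖ ^ 2 := by
  rw [Fintype.sum_prod_type]
  refine Finset.sum_congr rfl fun y _ => ?_
  have := sum_ei (X y) (X y)
  rw [real_inner_self_eq_norm_sq] at this
  exact this

/-- **(Q1) on `W^{1,2}`** -/
theorem Q1 (h : Hyp S cc τ C r th s0) (v : VV S) :
    h.fX (h.XL v) (h.XL v) - h.fN (h.NL v) + 2 * h.f1 (h.BL v) (h.U0 v) = 0 := by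
  refine DenseRange.induction_on (dense_VV S) v ?_ ?_
  · refine isClosed_eq ?_ continuous_const
    exact ((continuous_bil _ h.XL.continuous h.XL.continuous).sub
      (continuous_bil _ h.NL.continuous h.NL.continuous)).add
      (continuous_const.mul (continuous_bil _ h.BL.continuous h.U0.continuous))
  · rintro ⟨al, u⟩
    set s1 := PS S (pj0 h.sym h.tau) u with hs1
    have hE : τ.SecE S s1.1 := (secE_iff h.sym h.tau).2 fun y z => pj_idem (pj0 h.sym h.tau) u.1 y z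
    have q := h.q1 al.2.1 al.2.2 s1.2.1 hE
    have smX := smooth_XX h.ok h.tau h.smth al.2.1 h.par.sm s1.2.1 hE.1
    have smN := smF_NN h.ok h.sym h.tau h.smth al.2.1 h.par.sm s1.2.1 hE
    have smB := fun k : Fin 3 => (S.H.smB _ al.2.1 al.2.2 k.succ).continuous
    have e1 : h.fX (h.XL (cW S.DT al, cW S.D0 u)) (h.XL (cW S.DT al, cW S.D0 u)) =
        ∫ z, τ.rr z ^ (-(1 / 2) : ℝ) * ∑ x, XX S τ th s0 al.1 s1.1 x z ^ 2
          ∂(μHE[4] : Measure M) := by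
      rw [fX, bil_eq _ (h.XL_cW al u) (h.XL_cW al u)]
      simp only [sum_dg, sq]
      rfl
    have e2 : h.fN (h.NL (cW S.DT al, cW S.D0 u)) =
        ∫ z, τ.rr z * ∑ y, ‖NN S τ th s0 al.1 s1.1 y z‖ ^ 2 ∂(μHE[4] : Measure M) := by
      rw [fN, bil_eq _ (h.NL_cW al u) (h.NL_cW al u)]
      simp only [sum_dg]
      refine integral_congr_ae (Eventually.of_forall fun z => ?_)
      simp only
      rw [sum_nn (fun y => NN S τ th s0 al.1 s1.1 y z)]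
    have e3 : h.f1 (h.BL (cW S.DT al, cW S.D0 u)) (h.U0 (cW S.DT al, cW S.D0 u)) =
        ∫ z, τ.rr z * (∑ k : Fin 3, S.H.B al.1 k.succ z * τ.n k z) * ∑ y, s0 y z * s1.1 y z
          ∂(μHE[4] : Measure M) := by
      rw [f1, bil_eq _ (h.BL_cW al u) (h.U0_cW al u)]
      simp only [sum_c1c]
      rfl
    have c1 : Continuous fun z => τ.rr z ^ (-(1 / 2) : ℝ) * ∑ x, XX S τ th s0 al.1 s1.1 x z ^ 2 :=
      (cont_rpow h.tau _).mul (continuous_finsetSum _ fun x _ => (smX x).continuous.pow 2)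
    have c2 : Continuous fun z => τ.rr z * ∑ y, ‖NN S τ th s0 al.1 s1.1 y z‖ ^ 2 :=
      h.tau.smrr.continuous.mul (cont_nsq smN)
    have c3 : Continuous fun z => τ.rr z * (∑ k : Fin 3, S.H.B al.1 k.succ z * τ.n k z) *
        ∑ y, s0 y z * s1.1 y z :=
      (h.tau.smrr.continuous.mul (continuous_finsetSum _ fun k _ =>
        (smB k).mul (h.tau.smn k).continuous)).mul (continuous_finsetSum _ fun y _ =>
          (h.par.sm y).continuous.mul (s1.2.1 y).continuous)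
    show h.fX (h.XL (cW S.DT al, cW S.D0 u)) (h.XL (cW S.DT al, cW S.D0 u)) -
      h.fN (h.NL (cW S.DT al, cW S.D0 u)) +
      2 * h.f1 (h.BL (cW S.DT al, cW S.D0 u)) (h.U0 (cW S.DT al, cW S.D0 u)) = 0
    have i12 : Integrable (fun z => τ.rr z ^ (-(1 / 2) : ℝ) * ∑ x, XX S τ th s0 al.1 s1.1 x z ^ 2 -
        τ.rr z * ∑ y, ‖NN S τ th s0 al.1 s1.1 y z‖ ^ 2) (μHE[4] : Measure M) := (ic c1).sub (ic c2)
    have i3 : Integrable (fun z => 2 * (τ.rr z * (∑ k : Fin 3, S.H.B al.1 k.succ z * τ.n k z) *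
        ∑ y, s0 y z * s1.1 y z)) (μHE[4] : Measure M) := (ic c3).const_mul 2
    rw [e1, e2, e3, ← integral_const_mul, ← integral_sub (ic c1) (ic c2), ← integral_add i12 i3]
    exact q

set_option maxHeartbeats 1000000 in
/-- **(Q2) on `W^{1,2}`** -/
theorem Q2 (h : Hyp S cc τ C r th s0) (v : VV S) :
    |h.fX (h.XL v) (h.YL v) - h.f2 (h.BL v) (h.U1 v)| ≤
      (1 / 2) * (h.fN (h.NL v) + r * h.fS (h.U1 v)) := by
  refine DenseRange.induction_on (dense_VV S) v ?_ ?_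
  · refine isClosed_le ?_ ?_
    · exact ((continuous_bil _ h.XL.continuous h.YL.continuous).sub
        (continuous_bil _ h.BL.continuous h.U1.continuous)).abs
    · exact continuous_const.mul ((continuous_bil _ h.NL.continuous h.NL.continuous).add
        (continuous_const.mul (continuous_bil _ h.U1.continuous h.U1.continuous)))
  · rintro ⟨al, u⟩
    set s1 := PS S (pj0 h.sym h.tau) u with hs1
    set s' := PS S (pj1 h.sym h.tau) u with hs'
    have hE : τ.SecE S s1.1 := (secE_iff h.sym h.tau).2 fun y z => pj_idem (pj0 h.sym h.tau) u.1 y z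
    have hE' : τ.SecE' S s'.1 :=
      (secE'_iff h.sym h.tau).2 fun y z => pj_idem (pj1 h.sym h.tau) u.1 y z
    have q := h.q2 al.2.1 al.2.2 s1.2.1 hE s'.2.1 hE'
    have smX := smooth_XX h.ok h.tau h.smth al.2.1 h.par.sm s1.2.1 hE.1
    have smY := smooth_dd h.ok h.tau h.smth s'.2.1 hE'.1
    have smN := smF_NN h.ok h.sym h.tau h.smth al.2.1 h.par.sm s1.2.1 hE
    have smB := fun k : Fin 3 => (S.H.smB _ al.2.1 al.2.2 k.succ).continuous
    have e1 : h.fX (h.XL (cW S.DT al, cW S.D0 u)) (h.YL (cW S.DT al, cW S.D0 u)) =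
        ∫ z, τ.rr z ^ (-(1 / 2) : ℝ) * ∑ x, XX S τ th s0 al.1 s1.1 x z * dd S τ th s'.1 x z
          ∂(μHE[4] : Measure M) := by
      rw [fX, bil_eq _ (h.XL_cW al u) (h.YL_cW al u)]
      simp only [sum_dg]
      rfl
    have e2 : h.fN (h.NL (cW S.DT al, cW S.D0 u)) =
        ∫ z, τ.rr z * ∑ y, ‖NN S τ th s0 al.1 s1.1 y z‖ ^ 2 ∂(μHE[4] : Measure M) := by
      rw [fN, bil_eq _ (h.NL_cW al u) (h.NL_cW al u)]
      simp only [sum_dg]
      refine integral_congr_ae (Eventually.of_forall fun z => ?_)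
      simp only
      rw [sum_nn (fun y => NN S τ th s0 al.1 s1.1 y z)]
    have e3 : h.f2 (h.BL (cW S.DT al, cW S.D0 u)) (h.U1 (cW S.DT al, cW S.D0 u)) =
        ∫ z, τ.rr z * ∑ k : Fin 3, S.H.B al.1 k.succ z *
          ∑ y, ∑ y', S.rho k y y' z * s0 y z * s'.1 y' z ∂(μHE[4] : Measure M) := by
      rw [f2, bil_eq _ (h.BL_cW al u) (h.U1_cW al u)]
      simp only [sum_c2c]
      rfl
    have e4 : h.fS (h.U1 (cW S.DT al, cW S.D0 u)) =
        ∫ z, τ.rr z ^ 2 * ∑ y, s'.1 y z ^ 2 ∂(μHE[4] : Measure M) := by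
      rw [fS, bil_eq _ (h.U1_cW al u) (h.U1_cW al u)]
      simp only [sum_dg, ← sq]
      rfl
    have c1 : Continuous fun z => τ.rr z ^ (-(1 / 2) : ℝ) *
        ∑ x, XX S τ th s0 al.1 s1.1 x z * dd S τ th s'.1 x z :=
      (cont_rpow h.tau _).mul (continuous_finsetSum _ fun x _ =>
        (smX x).continuous.mul (smY x).continuous)
    have c2 : Continuous fun z => τ.rr z * ∑ y, ‖NN S τ th s0 al.1 s1.1 y z‖ ^ 2 :=
      h.tau.smrr.continuous.mul (cont_nsq smN)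
    have c3 : Continuous fun z => τ.rr z * ∑ k : Fin 3, S.H.B al.1 k.succ z *
          ∑ y, ∑ y', S.rho k y y' z * s0 y z * s'.1 y' z :=
      h.tau.smrr.continuous.mul (continuous_finsetSum _ fun k _ => (smB k).mul
        (continuous_finsetSum _ fun y _ => continuous_finsetSum _ fun y' _ =>
          ((h.ok.smrho k y y').continuous.mul (h.par.sm y).continuous).mul
            (s'.2.1 y').continuous))
    have c4 : Continuous fun z => τ.rr z ^ 2 * ∑ y, s'.1 y z ^ 2 :=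
      (h.tau.smrr.continuous.pow 2).mul
        (continuous_finsetSum _ fun y _ => (s'.2.1 y).continuous.pow 2)
    show |h.fX (h.XL (cW S.DT al, cW S.D0 u)) (h.YL (cW S.DT al, cW S.D0 u)) -
      h.f2 (h.BL (cW S.DT al, cW S.D0 u)) (h.U1 (cW S.DT al, cW S.D0 u))| ≤
      (1 / 2) * (h.fN (h.NL (cW S.DT al, cW S.D0 u)) + r * h.fS (h.U1 (cW S.DT al, cW S.D0 u)))
    have i4 : Integrable (fun z => r * (τ.rr z ^ 2 * ∑ y, s'.1 y z ^ 2)) (μHE[4] : Measure M) :=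
      (ic c4).const_mul r
    rw [e1]
    rw [e3]
    rw [e2]
    rw [e4, ← integral_const_mul]
    rw [← integral_sub (ic c1) (ic c3)]
    rw [← integral_add (ic c2) i4, ← integral_const_mul]
    simp only [G2] at q
    have e5 : ∫ z, (1 / 2) * (τ.rr z * ∑ y, ‖NN S τ th s0 al.1 s1.1 y z‖ ^ 2 +
        r * τ.rr z ^ 2 * ∑ y, s'.1 y z ^ 2) ∂(μHE[4] : Measure M) =
        ∫ z, (1 / 2) * (τ.rr z * ∑ y, ‖NN S τ th s0 al.1 s1.1 y z‖ ^ 2 +
        r * (τ.rr z ^ 2 * ∑ y, s'.1 y z ^ 2)) ∂(μHE[4] : Measure M) := by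
      refine integral_congr_ae (Eventually.of_forall fun z => ?_)
      simp only
      ring
    rw [e5] at q
    exact q

end Hyp

end mfd

end

end Crest.Agent.R235.SWNd_918
end

-- ▼ part R235/SWNdD_918
section

/-!
Row 235 (S0364), PACKAGE SW, ND (helper918), part D: the linearised equations at a flat solution.
-/

set_option autoImplicit false
set_option maxSynthPendingDepth 3
set_option linter.unusedSectionVars false

open scoped ContDiff ENNReal NNReal Topology Manifold Bundle RealInnerProductSpace Matrix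
open MeasureTheory Set Filter Metric Bundle

universe v

namespace Crest.Agent.R235.SWNd_918

open Crest.Agent.R249.Tv57 Crest.Agent.R247.Ms322 Crest.Agent.R247.Dir593
open Crest.Agent.R247.Frd657
open Crest.Agent.R235.SWDefs_53 Crest.Agent.R235.SWSym_451 Crest.Agent.R235.SWTd_451
open Crest.Agent.R235.SWTe_451 Crest.Agent.R235.Fs4_546 Crest.Agent.R235.Cpt_755
open Crest.Agent.R235.L4_433 Crest.Agent.R235.Dens_433 Crest.Agent.R235.W12_109

noncomputable section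

local notation "ipp" => Crest.Agent.R249.Tv57.ip 4
local notation "𝔼4" => EuclideanSpace ℝ (Fin 4)

section gen
variable {X : Type*} [MeasurableSpace X] {μ : Measure X} {κ : Type} [Fintype κ]

theorem bil_dg_eq {w : X → ℝ} (hw : BM μ w) (F : HH μ κ) :
    bil (c := dg w) (bm_dg hw) F F = ∫ x, w x * ∑ a, (F a : X → ℝ) x ^ 2 ∂μ := by
  rw [bil_eq (bm_dg hw) (F := F) (G := F) (f := fun a x => (F a : X → ℝ) x)
    (g := fun a x => (F a : X → ℝ) x) (Eventually.of_forall fun _ _ => rfl)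
    (Eventually.of_forall fun _ _ => rfl)]
  simp only [sum_dg, sq]

theorem bil_dg_nonneg {w : X → ℝ} (hw : BM μ w) (h0 : ∀ x, 0 < w x) (F : HH μ κ) :
    0 ≤ bil (c := dg w) (bm_dg hw) F F := by
  rw [bil_dg_eq hw]
  exact integral_nonneg fun x => mul_nonneg (h0 x).le (Finset.sum_nonneg fun _ _ => sq_nonneg _)

theorem bil_dg_zero {w : X → ℝ} (hw : BM μ w) (h0 : ∀ x, 0 < w x) {F : HH μ κ}
    (h : bil (c := dg w) (bm_dg hw) F F = 0) : ∀ᵐ x ∂μ, ∀ a, (F a : X → ℝ) x = 0 := by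
  rw [bil_dg_eq hw] at h
  have hi : Integrable (fun x => w x * ∑ a, (F a : X → ℝ) x ^ 2) μ := by
    refine (integrable_bil (bm_dg hw) F F).congr (Eventually.of_forall fun x => ?_)
    simp only [sum_dg, sq]
  have h1 := (integral_eq_zero_iff_of_nonneg (fun x => mul_nonneg (h0 x).le
    (Finset.sum_nonneg fun _ _ => sq_nonneg _)) hi).1 h
  filter_upwards [h1] with x hx a
  have hx' : w x * ∑ a, (F a : X → ℝ) x ^ 2 = 0 := hx
  have h2 := (mul_eq_zero.1 hx').resolve_left (h0 x).ne'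
  have h3 := (Finset.sum_eq_zero_iff_of_nonneg fun a _ => sq_nonneg _).1 h2 a (Finset.mem_univ a)
  exact pow_eq_zero_iff two_ne_zero |>.1 h3

theorem eq_zero_of_ae {F : HH μ κ} (h : ∀ᵐ x ∂μ, ∀ a, (F a : X → ℝ) x = 0) : F = 0 := by
  ext a
  filter_upwards [h, Lp.coeFn_zero ℝ 2 μ] with x e1 e2
  rw [e1 a]
  exact e2.symm

end gen

variable {M : Type v} [MetricSpace M] [CompactSpace M] [ConnectedSpace M]
  [ChartedSpace (EuclideanSpace ℝ (Fin 4)) M] [IsManifold (𝓡 4) ∞ M]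
  [RiemannianBundle (fun p : M => TangentSpace (𝓡 4) p)]
  [IsContMDiffRiemannianBundle (𝓡 4) ∞ (EuclideanSpace ℝ (Fin 4))
    (fun p : M => TangentSpace (𝓡 4) p)]
  [IsRiemannianManifold (𝓡 4) M] [MeasurableSpace M] [BorelSpace M]
  [SecondCountableTopology M] [Nonempty M] [IsFiniteMeasureOnCompacts (μHE[4] : Measure M)]
  {κ0 κ1 κT : Type} [Fintype κ0] [Fintype κ1] [Fintype κT]

variable {S : SWS M κ0 κ1 κT} {cc : κ1 → κ0 → M → EuclideanSpace ℝ (Fin 4)} {τ : TD M κT}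
  {C r : ℝ} {th : κT → M → ℝ} {s0 : κ0 → M → ℝ}

/-! ### matrices of the projections -/

theorem R_P1 (H : Sym S cc) {m : Fin 3 → M → ℝ} (z : M) (hm : ∑ k, m k z ^ 2 = 1) :
    mR S m z * mP S m z = mP S m z := by
  rw [mP, Matrix.mul_smul, Matrix.mul_add, mR_mp H, mR_sq H z hm, add_comm]

theorem mR_neg (m : Fin 3 → M → ℝ) (z : M) : mR S (fun k z => - m k z) z = - mR S m z := by
  unfold mR
  rw [← Finset.sum_neg_distrib]
  exact Finset.sum_congr rfl fun k _ => by rw [neg_smul]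

theorem R_P0 (H : Sym S cc) {m : Fin 3 → M → ℝ} (z : M) (hm : ∑ k, m k z ^ 2 = 1) :
    mR S m z * mP S (fun k z => - m k z) z = - mP S (fun k z => - m k z) z := by
  rw [mP, mR_neg, Matrix.mul_smul, Matrix.mul_add, mR_mp H, Matrix.mul_neg, mR_sq H z hm,
    ← smul_neg]
  congr 1
  abel

theorem mP_add (m : Fin 3 → M → ℝ) (z : M) :
    mP S (fun k z => - m k z) z + mP S m z = mp S z := by
  rw [mP, mP, mR_neg, ← smul_add]
  have : mp S z + -mR S m z + (mp S z + mR S m z) = (2 : ℝ) • mp S z := by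
    rw [two_smul]; abel
  rw [this, smul_smul]
  norm_num

theorem P0_vec (u : κ0 → ℝ) (y : κ0) (z : M) :
    ∑ b, P0 S τ y b z * u b = (mP S (fun k z => - τ.n k z) z *ᵥ u) y := by
  simp only [Matrix.mulVec, dotProduct, mP_apply]
  rfl

theorem P1_vec (u : κ0 → ℝ) (y : κ0) (z : M) :
    ∑ b, P1 S τ y b z * u b = (mP S τ.n z *ᵥ u) y := by
  simp only [Matrix.mulVec, dotProduct, mP_apply]
  rfl

namespace Hyp

theorem R_s0 (h : Hyp S cc τ C r th s0) (z : M) :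
    mR S τ.n z *ᵥ (fun y => s0 y z) = - fun y => s0 y z := by
  funext y
  have h1 := h.par.sec.2 y z
  rw [TD.R, Finset.sum_comm] at h1
  simp only [Matrix.mulVec, dotProduct, mR_apply, Pi.neg_apply]
  rw [← h1]
  refine Finset.sum_congr rfl fun b _ => ?_
  rw [Finset.sum_mul]

theorem p_s0 (h : Hyp S cc τ C r th s0) (z : M) :
    mp S z *ᵥ (fun y => s0 y z) = fun y => s0 y z := funext fun y => h.par.sec.1 y z

theorem nrm_s0 (h : Hyp S cc τ C r th s0) (z : M) :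
    (fun y => s0 y z) ⬝ᵥ (fun y => s0 y z) = 2 * r := by
  rw [← h.par.nrm z]
  simp only [dotProduct, sq]

theorem pt1 (h : Hyp S cc τ C r th s0) (z : M) {u : κ0 → ℝ} (hp : mp S z *ᵥ u = u) :
    ∑ k, τ.n k z * (∑ y, ∑ y', S.rho k y y' z * s0 y z * u y') =
      - ∑ y, s0 y z * ∑ b, P0 S τ y b z * u b := by
  have g : ∀ k, ∑ y, ∑ y', S.rho k y y' z * s0 y z * u y' =
      (fun y => s0 y z) ⬝ᵥ (mr S k z *ᵥ u) := fun k => rho_dot k z _ u
  simp only [g, P0_vec]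
  rw [sum_n_rho, R_dot h.sym, h.R_s0, neg_dotProduct]
  congr 1
  have e1 : mP S (fun k z => - τ.n k z) z *ᵥ u + mP S τ.n z *ᵥ u = u := by
    rw [← Matrix.add_mulVec, mP_add, hp]
  have e2 : (fun y => s0 y z) ⬝ᵥ (mP S τ.n z *ᵥ u) = 0 :=
    dot_zero h.sym z (h.R_s0 z) (by rw [Matrix.mulVec_mulVec, R_P1 h.sym z (h.tau.norm z)])
  conv_lhs => rw [← e1]
  rw [dotProduct_add, e2, add_zero]
  rfl

theorem pt2 (h : Hyp S cc τ C r th s0) (z : M) {u : κ0 → ℝ} (hp : mp S z *ᵥ u = u) :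
    ∑ k, (∑ y, ∑ y', S.rho k y y' z * s0 y z * u y') *
      (∑ y, ∑ y', S.rho k y y' z * s0 y z * ∑ b, P1 S τ y' b z * u b) =
      2 * r * ∑ y, (∑ b, P1 S τ y b z * u b) ^ 2 := by
  set a : κ0 → ℝ := fun y => s0 y z with ha
  set s' : κ0 → ℝ := mP S τ.n z *ᵥ u with hs'
  set s1 : κ0 → ℝ := mP S (fun k z => - τ.n k z) z *ᵥ u with hs1
  have e0 : ∀ y, ∑ b, P1 S τ y b z * u b = s' y := fun y => P1_vec u y z
  simp only [e0]
  have e1 : s1 + s' = u := by rw [hs1, hs', ← Matrix.add_mulVec, mP_add, hp]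
  have f1 : mR S τ.n z *ᵥ s' = s' := by rw [hs', Matrix.mulVec_mulVec, R_P1 h.sym z (h.tau.norm z)]
  have f2 : mR S τ.n z *ᵥ s1 = - s1 := by
    rw [hs1, Matrix.mulVec_mulVec, R_P0 h.sym z (h.tau.norm z), Matrix.neg_mulVec]
  have f3 : mp S z *ᵥ s' = s' := by rw [hs', Matrix.mulVec_mulVec, mp_mP h.sym]
  have f4 : mp S z *ᵥ s1 = s1 := by rw [hs1, Matrix.mulVec_mulVec, mp_mP h.sym]
  have f5 : a ⬝ᵥ s' = 0 := dot_zero h.sym z (h.R_s0 z) f1
  have f6 := sum_rho_sq h.ok h.sym h.tau z (h.R_s0 z) f1 (h.p_s0 z) f3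
  have f7 : ∑ k, τ.n k z * (a ⬝ᵥ (mr S k z *ᵥ s')) = 0 := by rw [sum_n_rho, f1, f5]
  have g1 : ∀ k, ∑ y, ∑ y', S.rho k y y' z * s0 y z * u y' =
      - (τ.n k z * (a ⬝ᵥ s1)) + a ⬝ᵥ (mr S k z *ᵥ s') := by
    intro k
    have := rho_dot (S := S) k z a u
    rw [this]
    conv_lhs => rw [← e1]
    rw [Matrix.mulVec_add, dotProduct_add]
    have := rho_same h.sym (m := τ.n) k z (ε := -1) (a := a) (b := s1)
      (by rw [neg_one_smul]; exact h.R_s0 z) (by rw [neg_one_smul]; exact f2) f4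
    linarith
  have g2 : ∀ k, ∑ y, ∑ y', S.rho k y y' z * s0 y z * s' y' = a ⬝ᵥ (mr S k z *ᵥ s') := fun k =>
    rho_dot k z a s'
  simp only [g1, g2]
  have g3 : ∑ k, (- (τ.n k z * (a ⬝ᵥ s1)) + a ⬝ᵥ (mr S k z *ᵥ s')) * (a ⬝ᵥ (mr S k z *ᵥ s')) =
      - (a ⬝ᵥ s1) * ∑ k, τ.n k z * (a ⬝ᵥ (mr S k z *ᵥ s')) +
        ∑ k, (a ⬝ᵥ (mr S k z *ᵥ s')) ^ 2 := by
    rw [Finset.mul_sum, ← Finset.sum_add_distrib]
    exact Finset.sum_congr rfl fun k _ => by ring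
  rw [g3, f7, f6, h.nrm_s0, mul_zero, zero_add]
  congr 1
  simp only [dotProduct, sq]

/-! ### representatives -/

theorem U0_ae (h : Hyp S cc τ C r th s0) (v : VV S) : ∀ᵐ z ∂(μHE[4] : Measure M), ∀ y,
    (h.U0 v y : M → ℝ) z = ∑ b, P0 S τ y b z * (S.D0.toAD.i1 v.2 b : M → ℝ) z :=
  coe_mulS S.D0 S.D0 (pj0 h.sym h.tau).sm (pj0 h.sym h.tau).pP v.2

theorem U1_ae (h : Hyp S cc τ C r th s0) (v : VV S) : ∀ᵐ z ∂(μHE[4] : Measure M), ∀ y,
    (h.U1 v y : M → ℝ) z = ∑ b, P1 S τ y b z * (S.D0.toAD.i1 v.2 b : M → ℝ) z :=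
  coe_mulS S.D0 S.D0 (pj1 h.sym h.tau).sm (pj1 h.sym h.tau).pP v.2

theorem sec_ae (U : S.D0.toAD.WE) : ∀ᵐ z ∂(μHE[4] : Measure M),
    mp S z *ᵥ (fun y => (S.D0.toAD.i1 U y : M → ℝ) z) = fun y => (S.D0.toAD.i1 U y : M → ℝ) z := by
  filter_upwards [Fred_649.sec_rp U] with z e1
  funext y
  exact e1 y

/-- `⟨s0, s1⟩` -/
def SG (h : Hyp S cc τ C r th s0) : VV S →L[ℝ] HH (μHE[4] : Measure M) (Fin 1) :=
  (matR (κ' := Fin 1) (m := fun _ y => s0 y) fun _ y => bm_smooth (h.par.sm y)).comp h.U0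

theorem SG_ae (h : Hyp S cc τ C r th s0) (v : VV S) : ∀ᵐ z ∂(μHE[4] : Measure M), ∀ a,
    (h.SG v a : M → ℝ) z = ∑ y, s0 y z * (h.U0 v y : M → ℝ) z := by
  filter_upwards [coe_matR (κ' := Fin 1) (m := fun _ y => s0 y)
    (fun _ y => bm_smooth (h.par.sm y)) (h.U0 v)] with z e1 a
  refine (e1 a).trans ?_
  exact Finset.sum_congr rfl fun y _ => mul_comm _ _

set_option maxHeartbeats 2000000 in
/-- **the main estimate** -/
theorem step4 (h : Hyp S cc τ C r th s0) (v : VV S) (hD : h.XL v + h.YL v = 0)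
    (hC : ∀ᵐ z ∂(μHE[4] : Measure M), ∀ k : Fin 3, (h.BL v k.succ : M → ℝ) z =
      τ.rr z * ∑ y, ∑ y', S.rho k y y' z * s0 y z * (S.D0.toAD.i1 v.2 y' : M → ℝ) z) :
    h.NL v = 0 ∧ (∀ᵐ z ∂(μHE[4] : Measure M), ∑ y, s0 y z * (h.U0 v y : M → ℝ) z = 0) ∧
      ∀ᵐ z ∂(μHE[4] : Measure M), ∀ y, (h.U1 v y : M → ℝ) z = 0 := by
  have hρ2 : ∀ z, 0 < τ.rr z ^ 2 := fun z => pow_pos (h.tau.pos z) 2
  set nG : ℝ := bil (c := dg fun z => τ.rr z ^ 2) (bm_dg (bm_smooth (h.tau.smrr.pow 2)))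
    (h.SG v) (h.SG v) with hnG
  have e1 : h.fX (h.XL v) (h.YL v) = - h.fX (h.XL v) (h.XL v) := by
    have hY : h.YL v = - h.XL v := eq_neg_of_add_eq_zero_right hD
    rw [hY]
    unfold fX bil
    rw [map_neg, inner_neg_right]
  have e2 : h.f1 (h.BL v) (h.U0 v) = - nG := by
    rw [hnG, bil_dg_eq (bm_smooth (h.tau.smrr.pow 2)), ← integral_neg, f1,
      bil_eq h.bm_c1c (F := h.BL v) (G := h.U0 v) (f := fun a x => (h.BL v a : M → ℝ) x)
        (g := fun a x => (h.U0 v a : M → ℝ) x) (Eventually.of_forall fun _ _ => rfl)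
        (Eventually.of_forall fun _ _ => rfl)]
    refine integral_congr_ae ?_
    filter_upwards [h.U0_ae v, sec_ae v.2, hC, h.SG_ae v] with z a1 a2 a3 a4
    rw [sum_c1c]
    simp only [a4, a3, Finset.univ_unique, Finset.sum_singleton]
    have p := h.pt1 z a2
    have a5 : ∑ y, s0 y z * (h.U0 v y : M → ℝ) z =
        ∑ y, s0 y z * ∑ b, P0 S τ y b z * (S.D0.toAD.i1 v.2 b : M → ℝ) z :=
      Finset.sum_congr rfl fun y _ => by rw [a1 y]
    rw [a5]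
    have a6 : ∑ k, τ.rr z * (∑ y, ∑ y', S.rho k y y' z * s0 y z *
        (S.D0.toAD.i1 v.2 y' : M → ℝ) z) * τ.n k z = τ.rr z * ∑ k, τ.n k z *
          (∑ y, ∑ y', S.rho k y y' z * s0 y z * (S.D0.toAD.i1 v.2 y' : M → ℝ) z) := by
      rw [Finset.mul_sum]
      exact Finset.sum_congr rfl fun k _ => by ring
    rw [a6, p]
    ring
  have e3 : h.f2 (h.BL v) (h.U1 v) = 2 * r * h.fS (h.U1 v) := by
    rw [fS, bil_dg_eq (bm_smooth (h.tau.smrr.pow 2)), ← integral_const_mul, f2,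
      bil_eq h.bm_c2c (F := h.BL v) (G := h.U1 v) (f := fun a x => (h.BL v a : M → ℝ) x)
        (g := fun a x => (h.U1 v a : M → ℝ) x) (Eventually.of_forall fun _ _ => rfl)
        (Eventually.of_forall fun _ _ => rfl)]
    refine integral_congr_ae ?_
    filter_upwards [h.U1_ae v, sec_ae v.2, hC] with z a1 a2 a3
    rw [sum_c2c]
    have p := h.pt2 z a2
    simp only [a3, a1]
    have a6 : ∑ k, τ.rr z * (∑ y, ∑ y', S.rho k y y' z * s0 y z *
        (S.D0.toAD.i1 v.2 y' : M → ℝ) z) * (∑ y, ∑ y', S.rho k y y' z * s0 y z *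
          ∑ b, P1 S τ y' b z * (S.D0.toAD.i1 v.2 b : M → ℝ) z) = τ.rr z * ∑ k,
        (∑ y, ∑ y', S.rho k y y' z * s0 y z *
        (S.D0.toAD.i1 v.2 y' : M → ℝ) z) * (∑ y, ∑ y', S.rho k y y' z * s0 y z *
          ∑ b, P1 S τ y' b z * (S.D0.toAD.i1 v.2 b : M → ℝ) z) := by
      rw [Finset.mul_sum]
      exact Finset.sum_congr rfl fun k _ => by ring
    rw [a6, p]
    ring
  have q1 := h.Q1 v
  have q2 := h.Q2 v
  rw [e2] at q1
  rw [e1, e3] at q2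
  have b1 : BM (μHE[4] : Measure M) (fun z => τ.rr z) := bm_smooth h.tau.smrr
  have b2 : BM (μHE[4] : Measure M) (fun z => τ.rr z ^ 2) := bm_smooth (h.tau.smrr.pow 2)
  have nN0 : 0 ≤ h.fN (h.NL v) := bil_dg_nonneg b1 h.tau.pos _
  have nG0 : 0 ≤ nG := bil_dg_nonneg b2 hρ2 _
  have nS0 : 0 ≤ h.fS (h.U1 v) := bil_dg_nonneg b2 hρ2 _
  have q3 := neg_le_of_abs_le q2
  have hr := h.rpos
  have rS : 0 ≤ r * h.fS (h.U1 v) := mul_nonneg hr.le nS0
  have z1 : h.fN (h.NL v) = 0 := by linarith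
  have z2 : nG = 0 := by linarith
  have z3 : h.fS (h.U1 v) = 0 := by
    have : r * h.fS (h.U1 v) = 0 := by linarith
    exact (mul_eq_zero.1 this).resolve_left hr.ne'
  refine ⟨eq_zero_of_ae (bil_dg_zero b1 h.tau.pos z1), ?_, bil_dg_zero b2 hρ2 z3⟩
  filter_upwards [h.SG_ae v, bil_dg_zero b2 hρ2 z2] with z a1 a2
  rw [← a1 0, a2 0]

end Hyp

end

end Crest.Agent.R235.SWNd_918
end

-- ▼ part R235/SWNdE_918
section

/-!
Row 235 (S0364), PACKAGE SW, ND (helper918), part E: `d^* a = 0` forces `a = 0`; `y` is constant.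
-/

set_option autoImplicit false
set_option maxSynthPendingDepth 3
set_option linter.unusedSectionVars false

open scoped ContDiff ENNReal NNReal Topology Manifold Bundle RealInnerProductSpace Matrix
open MeasureTheory Set Filter Metric Bundle

universe v

namespace Crest.Agent.R235.SWNd_918

open Crest.Agent.R249.Tv57 Crest.Agent.R247.Ms322 Crest.Agent.R247.Dir593
open Crest.Agent.R247.Frd657
open Crest.Agent.R235.SWDefs_53 Crest.Agent.R235.SWSym_451 Crest.Agent.R235.SWTd_451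
open Crest.Agent.R235.SWTe_451 Crest.Agent.R235.Fs4_546 Crest.Agent.R235.Cpt_755
open Crest.Agent.R235.L4_433 Crest.Agent.R235.Dens_433 Crest.Agent.R235.W12_109

noncomputable section

local notation "ipp" => Crest.Agent.R249.Tv57.ip 4
local notation "𝔼4" => EuclideanSpace ℝ (Fin 4)

variable {M : Type v} [MetricSpace M] [CompactSpace M] [ConnectedSpace M]
  [ChartedSpace (EuclideanSpace ℝ (Fin 4)) M] [IsManifold (𝓡 4) ∞ M]
  [RiemannianBundle (fun p : M => TangentSpace (𝓡 4) p)]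
  [IsContMDiffRiemannianBundle (𝓡 4) ∞ (EuclideanSpace ℝ (Fin 4))
    (fun p : M => TangentSpace (𝓡 4) p)]
  [IsRiemannianManifold (𝓡 4) M] [MeasurableSpace M] [BorelSpace M]
  [SecondCountableTopology M] [Nonempty M] [IsFiniteMeasureOnCompacts (μHE[4] : Measure M)]
  {κ0 κ1 κT : Type} [Fintype κ0] [Fintype κ1] [Fintype κT]

variable {S : SWS M κ0 κ1 κT} {cc : κ1 → κ0 → M → EuclideanSpace ℝ (Fin 4)} {τ : TD M κT}
  {C r : ℝ} {th : κT → M → ℝ} {s0 : κ0 → M → ℝ}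

/-- a function with vanishing gradient is constant -/
theorem const_of_Gr {f : M → ℝ} (hf : ContMDiff (𝓡 4) 𝓘(ℝ, ℝ) ∞ f)
    (h : ∀ z, Gr (n := 4) f z = 0) : ∃ c : ℝ, ∀ z, f z = c := by
  obtain ⟨z0⟩ := ‹Nonempty M›
  refine ⟨f z0, fun z => ?_⟩
  exact Crest.Agent.R249.Grn324.const_of_mGam_zero (n := 4) (hf.of_le (by simp)) (fun p => by
    rw [← inner_Gr_eq_mGam, h p, inner_zero_left]) z z0

/-- the functions as sections of `ℝ ⊕ Λ⁺` -/
def fn0 (hOK : S.OK) {f : M → ℝ} (hf : ContMDiff (𝓡 4) 𝓘(ℝ, ℝ) ∞ f) : SmS S.DL :=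
  ⟨Fin.cons f fun _ _ => 0, by
    intro a
    refine Fin.cases ?_ (fun k => ?_) a
    · exact hf
    · exact contMDiff_const, by
    intro a z
    simp only [hOK.fullL, ite_mul, one_mul, zero_mul, Finset.sum_ite_eq, Finset.mem_univ, if_true]⟩

namespace Hyp

theorem bm_cA (h : Hyp S cc τ C r th s0) (i : Fin 4) (A : κT) :
    BM (μHE[4] : Measure M) (fun z => (⟪S.s A z, ei i⟫ : ℝ)) := bm_inner_const (h.ok.sms A).bm _

/-- the vector field of `α` -/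
def AS (h : Hyp S cc τ C r th s0) : S.DT.toAD.WE →L[ℝ] HH (μHE[4] : Measure M) (Fin 4) :=
  (matR (κ' := Fin 4) h.bm_cA).comp S.DT.toAD.i1

theorem AS_ae (h : Hyp S cc τ C r th s0) (α : S.DT.toAD.WE) : ∀ᵐ z ∂(μHE[4] : Measure M), ∀ i,
    (h.AS α i : M → ℝ) z = ⟪∑ A, (S.DT.toAD.i1 α A : M → ℝ) z • S.s A z, ei i⟫ := by
  filter_upwards [coe_matR (κ' := Fin 4) h.bm_cA (S.DT.toAD.i1 α)] with z e1 i
  refine (e1 i).trans ?_
  rw [sum_inner]
  exact Finset.sum_congr rfl fun A _ => by rw [real_inner_smul_left]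

theorem AS_cW (h : Hyp S cc τ C r th s0) (al : SmS S.DT) : ∀ᵐ z ∂(μHE[4] : Measure M), ∀ i,
    (h.AS (cW S.DT al) i : M → ℝ) z = ⟪S.vf al.1 z, ei i⟫ := by
  filter_upwards [h.AS_ae (cW S.DT al), coe_clH al.1 al.2.1] with z e1 e2 i
  rw [e1 i, SWS.vf]
  congr 1
  refine Finset.sum_congr rfl fun A _ => ?_
  congr 1
  exact e2 A

open Classical in
/-- the coefficients of the pairing with `J s0` -/
def cJS (S : SWS M κ0 κ1 κT) (s0 : κ0 → M → ℝ) (i : Fin 4) (q : κ0 × Fin 4) (z : M) : ℝ :=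
  if i = q.2 then S.iu s0 q.1 z else 0

theorem bm_cJS (h : Hyp S cc τ C r th s0) (i : Fin 4) (q : κ0 × Fin 4) :
    BM (μHE[4] : Measure M) (cJS S s0 i q) := by
  unfold cJS
  by_cases hq : i = q.2
  · simp only [if_pos hq]
    exact bm_smooth (smV_iu h.ok h.par.sm q.1)
  · simp only [if_neg hq]
    exact bm_zero

theorem sum_cJS (i : Fin 4) (z : M) (N : κ0 × Fin 4 → ℝ) :
    ∑ q, N q * cJS S s0 i q z = ∑ y, S.iu s0 y z * N (y, i) := by
  classical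
  rw [Fintype.sum_prod_type]
  refine Finset.sum_congr rfl fun y _ => ?_
  simp only [cJS, mul_ite, mul_zero]
  rw [Finset.sum_ite_eq]
  simp only [Finset.mem_univ, if_true]
  ring

/-- `2 r grad y` -/
def GY (h : Hyp S cc τ C r th s0) : VV S →L[ℝ] HH (μHE[4] : Measure M) (Fin 4) :=
  (matR (κ' := Fin 4) h.bm_cJS).comp h.NL -
    (2 * r) • h.AS.comp (ContinuousLinearMap.fst ℝ _ _)

/-- `y` up to the factor `2 r` -/
def Yf (S : SWS M κ0 κ1 κT) (s0 s1 : κ0 → M → ℝ) (z : M) : ℝ := ∑ y, s1 y z * S.iu s0 y z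

theorem sm_Yf (h : Hyp S cc τ C r th s0) {s1 : κ0 → M → ℝ} (h1 : SmV (n := 4) s1) :
    ContMDiff (𝓡 4) 𝓘(ℝ, ℝ) ∞ (Yf S s0 s1) :=
  contMDiff_finsetSum fun y _ => (h1 y).mul (smV_iu h.ok h.par.sm y)

theorem GY_cW (h : Hyp S cc τ C r th s0) (al : SmS S.DT) (u : SmS S.D0) :
    ∀ᵐ z ∂(μHE[4] : Measure M), ∀ i, (h.GY (cW S.DT al, cW S.D0 u) i : M → ℝ) z =
      ⟪Gr (n := 4) (Yf S s0 (PS S (pj0 h.sym h.tau) u).1) z, ei i⟫ := by
  set s1 := PS S (pj0 h.sym h.tau) u with hs1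
  have hE : τ.SecE S s1.1 := (secE_iff h.sym h.tau).2 fun y z => pj_idem (pj0 h.sym h.tau) u.1 y z
  have h1 : ∀ᵐ z ∂(μHE[4] : Measure M), ∀ i, (h.GY (cW S.DT al, cW S.D0 u) i : M → ℝ) z =
      (matR (κ' := Fin 4) h.bm_cJS (h.NL (cW S.DT al, cW S.D0 u)) i : M → ℝ) z -
        (2 * r) * (h.AS (cW S.DT al) i : M → ℝ) z := by
    rw [ae_all_iff]
    intro i
    have e : h.GY (cW S.DT al, cW S.D0 u) i =
      matR (κ' := Fin 4) h.bm_cJS (h.NL (cW S.DT al, cW S.D0 u)) i -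
        (2 * r) • h.AS (cW S.DT al) i := rfl
    rw [e]
    filter_upwards [Lp.coeFn_sub (matR (κ' := Fin 4) h.bm_cJS (h.NL (cW S.DT al, cW S.D0 u)) i)
      ((2 * r) • h.AS (cW S.DT al) i), Lp.coeFn_smul (2 * r) (h.AS (cW S.DT al) i)] with z a1 a2
    rw [a1, Pi.sub_apply, a2, Pi.smul_apply, smul_eq_mul]
  filter_upwards [h1, coe_matR (κ' := Fin 4) h.bm_cJS (h.NL (cW S.DT al, cW S.D0 u)),
    h.NL_cW al u, h.AS_cW al] with z a1 a2 a3 a4 i
  rw [a1 i, a2 i, a4 i, sum_cJS]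
  have p := h.pair_NN s1.2.1 hE al.1 z
  have p2 := congrArg (fun X : 𝔼4 => (⟪X, ei i⟫ : ℝ)) p
  simp only [inner_add_left, sum_inner, real_inner_smul_left] at p2
  have a5 : ∑ y, S.iu s0 y z * (h.NL (cW S.DT al, cW S.D0 u) (y, i) : M → ℝ) z =
      ∑ y, S.iu s0 y z * ⟪NN S τ th s0 al.1 s1.1 y z, ei i⟫ :=
    Finset.sum_congr rfl fun y _ => by rw [a3 (y, i)]
  rw [a5, p2]
  unfold Yf
  ring

/-- the coexactness of `α`: orthogonality to gradients -/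
def CoEx (h : Hyp S cc τ C r th s0) (α : S.DT.toAD.WE) : Prop :=
  ∀ (f : M → ℝ) (hf : ContMDiff (𝓡 4) 𝓘(ℝ, ℝ) ∞ f),
    (⟪S.DT.toAD.jj α, cH S.DT (lA S.H (fn0 h.ok hf))⟫ : ℝ) = 0

theorem inner_AS (h : Hyp S cc τ C r th s0) (α : S.DT.toAD.WE) {f : M → ℝ}
    {G : HH (μHE[4] : Measure M) (Fin 4)}
    (hG : ∀ᵐ z ∂(μHE[4] : Measure M), ∀ i, (G i : M → ℝ) z = ⟪Gr (n := 4) f z, ei i⟫) :
    (⟪G, h.AS α⟫ : ℝ) = ∫ z, ∑ A, (S.DT.toAD.i1 α A : M → ℝ) z * ⟪Gr (n := 4) f z, S.s A z⟫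
      ∂(μHE[4] : Measure M) := by
  rw [inner_HH G (h.AS α) hG (h.AS_ae α)]
  refine integral_congr_ae (Eventually.of_forall fun z => ?_)
  simp only
  rw [sum_ei, inner_sum]
  exact Finset.sum_congr rfl fun A _ => by rw [real_inner_smul_right]

theorem inner_GY_AS (h : Hyp S cc τ C r th s0) {α : S.DT.toAD.WE} (hα : h.CoEx α) (v : VV S) :
    (⟪h.GY v, h.AS α⟫ : ℝ) = 0 := by
  obtain ⟨c, hc0, hc⟩ := h.grd
  refine DenseRange.induction_on (dense_VV S) v ?_ ?_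
  · exact isClosed_eq (h.GY.continuous.inner continuous_const) continuous_const
  · rintro ⟨al, u⟩
    show (⟪h.GY (cW S.DT al, cW S.D0 u), h.AS α⟫ : ℝ) = 0
    rw [h.inner_AS α (h.GY_cW al u)]
    set f := Yf S s0 (PS S (pj0 h.sym h.tau) u).1 with hfd
    have hf : ContMDiff (𝓡 4) 𝓘(ℝ, ℝ) ∞ f := h.sm_Yf (PS S (pj0 h.sym h.tau) u).2.1
    have h1 := hα f hf
    rw [← Fred_649.ip_rp α (lA S.H (fn0 h.ok hf))] at h1
    have h2 : ipp (Fred_649.rp α) (lA S.H (fn0 h.ok hf)).1 =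
        c * ∫ z, ∑ A, (S.DT.toAD.i1 α A : M → ℝ) z * ⟪Gr (n := 4) f z, S.s A z⟫
          ∂(μHE[4] : Measure M) := by
      rw [← integral_const_mul]
      refine integral_congr_ae (Eventually.of_forall fun z => ?_)
      simp only
      rw [Finset.mul_sum]
      refine Finset.sum_congr rfl fun A _ => ?_
      have h3 : (lA S.H (fn0 h.ok hf)).1 A z = c * ⟪Gr (n := 4) f z, S.s A z⟫ := hc f hf A z
      rw [h3]
      show (S.DT.toAD.i1 α A : M → ℝ) z * _ = _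
      ring
    rw [h2] at h1
    exact (mul_eq_zero.1 h1).resolve_left hc0

/-- `α = 0` -/
theorem alpha_zero (h : Hyp S cc τ C r th s0) {v : VV S} (hα : h.CoEx v.1) (hN : h.NL v = 0) :
    h.AS v.1 = 0 ∧ v.1 = 0 := by
  have h1 := h.inner_GY_AS hα v
  have h2 : h.GY v = - ((2 * r) • h.AS v.1) := by
    show matR (κ' := Fin 4) h.bm_cJS (h.NL v) - (2 * r) • h.AS v.1 = _
    rw [hN, map_zero, zero_sub]
  rw [h2, inner_neg_left, real_inner_smul_left, neg_eq_zero] at h1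
  have hr := h.rpos
  have h3 : h.AS v.1 = 0 := by
    rcases mul_eq_zero.1 h1 with h4 | h4
    · linarith
    · exact inner_self_eq_zero.1 h4
  refine ⟨h3, ?_⟩
  refine i1_injective S.DT.toAD ?_
  rw [map_zero]
  refine eq_zero_of_ae ?_
  have h5 : ∀ᵐ z ∂(μHE[4] : Measure M), ∀ i, (h.AS v.1 i : M → ℝ) z = 0 := by
    rw [h3, ae_all_iff]
    intro i
    exact Lp.coeFn_zero _ _ _
  filter_upwards [h.AS_ae v.1, h5, Fred_649.sec_rp v.1] with z a1 a2 a3 A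
  have b1 : ∑ B, (S.DT.toAD.i1 v.1 B : M → ℝ) z • S.s B z = 0 := by
    have b2 := sum_ei (∑ B, (S.DT.toAD.i1 v.1 B : M → ℝ) z • S.s B z)
      (∑ B, (S.DT.toAD.i1 v.1 B : M → ℝ) z • S.s B z)
    simp only [← a1, a2, mul_zero, Finset.sum_const_zero] at b2
    exact inner_self_eq_zero.1 b2.symm
  have b3 := a3 A
  rw [show (S.DT.toAD.i1 v.1 A : M → ℝ) z = Fred_649.rp v.1 A z from rfl, ← b3]
  have b4 : ∑ B, S.DT.p A B z * Fred_649.rp v.1 B z =
      ⟪S.s A z, ∑ B, (S.DT.toAD.i1 v.1 B : M → ℝ) z • S.s B z⟫ := by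
    rw [inner_sum]
    refine Finset.sum_congr rfl fun B _ => ?_
    rw [real_inner_smul_right, h.sym.pT]
    show _ * (S.DT.toAD.i1 v.1 B : M → ℝ) z = _
    ring
  rw [b4, b1, inner_zero_right]

/-! ### `y` is constant -/

/-- the coefficients of `∫ y (H.B w)_0` -/
def c7 (S : SWS M κ0 κ1 κT) (s0 : κ0 → M → ℝ) (y : κ0) : Fin 4 → M → ℝ :=
  Fin.cons (fun z => S.iu s0 y z) fun _ _ => 0

theorem bm_c7 (h : Hyp S cc τ C r th s0) (y : κ0) (j : Fin 4) :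
    BM (μHE[4] : Measure M) (c7 S s0 y j) := by
  refine Fin.cases ?_ (fun k => ?_) j
  · exact bm_smooth (smV_iu h.ok h.par.sm y)
  · exact bm_zero

theorem sum_c7 (z : M) (U : κ0 → ℝ) (B : Fin 4 → ℝ) :
    ∑ y, ∑ j, c7 S s0 y j z * (U y * B j) = (∑ y, U y * S.iu s0 y z) * B 0 := by
  rw [Finset.sum_mul]
  refine Finset.sum_congr rfl fun y _ => ?_
  rw [Fin.sum_univ_succ]
  simp only [c7, Fin.cons_zero, Fin.cons_succ, zero_mul, Finset.sum_const_zero, add_zero]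
  ring

/-- `∫ y (H.B w)_0 = c ∫ ⟨grad y, w⟩` -/
theorem bil_c7 (h : Hyp S cc τ C r th s0) {c : ℝ} (hc : ∀ f : M → ℝ,
    ContMDiff (𝓡 4) 𝓘(ℝ, ℝ) ∞ f → ∀ A z,
    S.H.A (Fin.cons f fun _ _ => 0) A z = c * ⟪Gr (n := 4) f z, S.s A z⟫) (w : SmS S.DT) (v : VV S) :
    bil (c := c7 S s0) h.bm_c7 (h.U0 v) (clH (lA S.H.swap w).1 (lA S.H.swap w).2.1) =
      c * ⟪h.GY v, h.AS (cW S.DT w)⟫ := by
  refine DenseRange.induction_on (dense_VV S) v ?_ ?_
  · exact isClosed_eq (continuous_bil _ h.U0.continuous continuous_const)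
      (continuous_const.mul (h.GY.continuous.inner continuous_const))
  · rintro ⟨al, u⟩
    show bil (c := c7 S s0) h.bm_c7 (h.U0 (cW S.DT al, cW S.D0 u))
      (clH (lA S.H.swap w).1 (lA S.H.swap w).2.1) =
      c * ⟪h.GY (cW S.DT al, cW S.D0 u), h.AS (cW S.DT w)⟫
    set s1 := PS S (pj0 h.sym h.tau) u with hs1
    set f := Yf S s0 s1.1 with hfd
    have hf : ContMDiff (𝓡 4) 𝓘(ℝ, ℝ) ∞ f := h.sm_Yf s1.2.1
    have e1 : bil (c := c7 S s0) h.bm_c7 (h.U0 (cW S.DT al, cW S.D0 u))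
        (clH (lA S.H.swap w).1 (lA S.H.swap w).2.1) = ipp (fn0 h.ok hf).1 (S.H.B w.1) := by
      rw [bil_eq _ (h.U0_cW al u) (coe_clH _ _)]
      simp only [sum_c7]
      refine integral_congr_ae (Eventually.of_forall fun z => ?_)
      simp only
      rw [Fin.sum_univ_succ]
      simp only [fn0, Fin.cons_zero, Fin.cons_succ, zero_mul, Finset.sum_const_zero, add_zero]
      rfl
    have e2 := S.H.adj (fn0 h.ok hf).1 w.1 (fn0 h.ok hf).2.1 (fn0 h.ok hf).2.2 w.2.1 w.2.2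
    have e3 : (⟪h.GY (cW S.DT al, cW S.D0 u), h.AS (cW S.DT w)⟫ : ℝ) =
        ∫ z, ∑ A, w.1 A z * ⟪Gr (n := 4) f z, S.s A z⟫ ∂(μHE[4] : Measure M) := by
      rw [inner_HH _ _ (h.GY_cW al u) (h.AS_cW w)]
      refine integral_congr_ae (Eventually.of_forall fun z => ?_)
      simp only
      rw [sum_ei, SWS.vf, inner_sum]
      exact Finset.sum_congr rfl fun A _ => by rw [real_inner_smul_right]
    rw [e1, ← e2, e3, ← integral_const_mul]
    refine integral_congr_ae (Eventually.of_forall fun z => ?_)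
    simp only
    rw [Finset.mul_sum]
    refine Finset.sum_congr rfl fun A _ => ?_
    have h3 : S.H.A (fn0 h.ok hf).1 A z = c * ⟪Gr (n := 4) f z, S.s A z⟫ := hc f hf A z
    rw [h3]
    ring

/-- the function `⟨J s0, s1⟩` in `L²` -/
def yL (h : Hyp S cc τ C r th s0) (v : VV S) : Lp ℝ 2 (μHE[4] : Measure M) :=
  ∑ y, mulF (bm_smooth (smV_iu h.ok h.par.sm y)) (S.D0.toAD.i1 (h.A0 v.2) y)

theorem yL_mem (h : Hyp S cc τ C r th s0) (v : VV S) : h.yL v ∈ (gradS 4 M).V :=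
  (gradS 4 M).V.sum_mem fun y _ =>
    (mulF_mem (bm_smooth (smV_iu h.ok h.par.sm y)) (isT_smooth (smV_iu h.ok h.par.sm y))
      (i1_mem S.D0.toAD (h.A0 v.2) y)).1

theorem yL_ae (h : Hyp S cc τ C r th s0) (v : VV S) : ∀ᵐ z ∂(μHE[4] : Measure M),
    (h.yL v : M → ℝ) z = ∑ y, (h.U0 v y : M → ℝ) z * S.iu s0 y z := by
  have h1 : ∀ᵐ z ∂(μHE[4] : Measure M), ∀ y,
      (mulF (bm_smooth (smV_iu h.ok h.par.sm y)) (S.D0.toAD.i1 (h.A0 v.2) y) : M → ℝ) z =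
      (S.D0.toAD.i1 (h.A0 v.2) y : M → ℝ) z • S.iu s0 y z :=
    ae_all_iff.2 fun y => coe_mulF _ _
  filter_upwards [h1, Lp.coeFn_fun_finsetSum Finset.univ
    (fun y => mulF (bm_smooth (smV_iu h.ok h.par.sm y)) (S.D0.toAD.i1 (h.A0 v.2) y))] with z e1 e2
  refine e2.trans ?_
  exact Finset.sum_congr rfl fun y _ => e1 y

/-- the function `⟨J s0, s1⟩` in `W^{1,2}(ℝ ⊕ Λ⁺)` -/
def YW (h : Hyp S cc τ C r th s0) (v : VV S) : S.DL.toAD.WE :=
  S.DL.toAD.mkW (WithLp.toLp 2 (Fin.cons (h.yL v) fun _ => 0)) (by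
    intro a
    refine Fin.cases ?_ (fun k => ?_) a
    · exact h.yL_mem v
    · exact (gradS 4 M).V.zero_mem) (by
    ext a
    filter_upwards [S.DL.toAD.coe_P (WithLp.toLp 2 (Fin.cons (h.yL v) fun _ => 0))] with z e1
    rw [e1 a]
    have e2 : ∀ b, S.DL.toAD.p a b z = if a = b then 1 else 0 := fun b => h.ok.fullL a b z
    simp only [e2, ite_mul, one_mul, zero_mul, Finset.sum_ite_eq, Finset.mem_univ, if_true])

theorem YW_ae (h : Hyp S cc τ C r th s0) (v : VV S) : ∀ᵐ z ∂(μHE[4] : Measure M),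
    (S.DL.toAD.i1 (h.YW v) 0 : M → ℝ) z = ∑ y, (h.U0 v y : M → ℝ) z * S.iu s0 y z ∧
      ∀ k : Fin 3, (S.DL.toAD.i1 (h.YW v) k.succ : M → ℝ) z = 0 := by
  have h1 : ∀ᵐ z ∂(μHE[4] : Measure M), ∀ k : Fin 3,
      (S.DL.toAD.i1 (h.YW v) k.succ : M → ℝ) z = 0 := by
    rw [ae_all_iff]
    intro k
    exact Lp.coeFn_zero _ _ _
  filter_upwards [h.yL_ae v, h1] with z e1 e2
  exact ⟨e1, e2⟩

theorem Ah_YW (h : Hyp S cc τ C r th s0) {v : VV S} (hG : h.GY v = 0) : Ah S.H (h.YW v) = 0 := by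
  obtain ⟨c, hc0, hc⟩ := h.grd
  refine Dns_433.eq_of_inner_cH S.DT (by norm_num) fun w => ?_
  rw [inner_zero_left]
  have h1 := adj (P := S.H) (Fred_649.dns4 S.DL) (Fred_649.dns4 S.DT) (h.YW v) (cW S.DT w)
  rw [jj_cW, Ah_cW (Fred_649.dns4 S.DT)] at h1
  rw [h1]
  have h2 := h.bil_c7 hc w v
  rw [hG, inner_zero_left, mul_zero] at h2
  rw [← h2]
  have h3 : (⟪S.DL.toAD.jj (h.YW v), cH S.DL (lA S.H.swap w)⟫ : ℝ) =
      ⟪S.DL.toAD.i1 (h.YW v), clH (lA S.H.swap w).1 (lA S.H.swap w).2.1⟫ := rfl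
  rw [h3, inner_HH (S.DL.toAD.i1 (h.YW v)) (clH (lA S.H.swap w).1 (lA S.H.swap w).2.1)
    (f := fun j z => (S.DL.toAD.i1 (h.YW v) j : M → ℝ) z) (Eventually.of_forall fun _ _ => rfl)
    (coe_clH _ _), bil_eq h.bm_c7 (F := h.U0 v) (f := fun j z => (h.U0 v j : M → ℝ) z)
    (Eventually.of_forall fun _ _ => rfl) (coe_clH _ _)]
  refine integral_congr_ae ?_
  filter_upwards [h.YW_ae v] with z e1
  rw [sum_c7, Fin.sum_univ_succ]
  simp only [e1.2, zero_mul, Finset.sum_const_zero, add_zero, e1.1]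

/-- **`⟨J s0, s1⟩` is constant** -/
theorem y_const (h : Hyp S cc τ C r th s0) {v : VV S} (hG : h.GY v = 0) :
    ∃ c : ℝ, ∀ᵐ z ∂(μHE[4] : Measure M), ∑ y, (h.U0 v y : M → ℝ) z * S.iu s0 y z = c := by
  obtain ⟨z0⟩ := ‹Nonempty M›
  have := isLocallyFiniteMeasure 4 M
  have hop := isOpenPosMeasure 4 M
  obtain ⟨k, hk, hRic⟩ := Crest.Agent.R249.Grn324.exists_ricciLowerBound 4 M
  have hp : S.DL.p 0 0 z0 ≠ 0 := by rw [h.ok.fullL]; norm_num
  obtain ⟨Sp⟩ := exists_spec (by norm_num) hk hRic S.DL hp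
  have h0 := h.Ah_YW hG
  have h1 := ker_eq Sp (Fred_649.dns4 S.DL) h0
  set f : SmS S.DL := ∑ k ∈ Sp.ker, (⟪S.DL.toAD.jj (h.YW v),
    S.DL.toAD.jj (cW S.DL (ph Sp k))⟫ : ℝ) • ph Sp k with hf
  have h2 : h.YW v = cW S.DL f := by
    rw [hf, map_sum]
    simp only [map_smul]
    exact h1
  have h3 : lA S.H f = 0 := by
    rw [h2, Ah_cW (Fred_649.dns4 S.DL)] at h0
    exact cH_injective S.DT (h0.trans (map_zero _).symm)
  have h4 : ∀ᵐ z ∂(μHE[4] : Measure M), ∀ j, (S.DL.toAD.i1 (h.YW v) j : M → ℝ) z = f.1 j z := by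
    rw [h2]
    exact coe_clH f.1 f.2.1
  have h5 : ∀ k : Fin 3, f.1 k.succ = fun _ => 0 := by
    intro k
    refine ((f.2.1 k.succ).continuous.ae_eq_iff_eq (μHE[4] : Measure M) continuous_const).1 ?_
    filter_upwards [h4, h.YW_ae v] with z e1 e2
    rw [← e1, e2.2]
  have h6 : f.1 = Fin.cons (f.1 0) fun _ _ => 0 := by
    funext j
    refine Fin.cases ?_ (fun k => ?_) j
    · rfl
    · rw [h5 k]
      rfl
  obtain ⟨c, hc0, hc⟩ := h.grd
  have h7 : ∀ z, Gr (n := 4) (f.1 0) z = 0 := by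
    intro z
    rw [← h.sym.tight z (Gr (n := 4) (f.1 0) z)]
    refine Finset.sum_eq_zero fun A _ => ?_
    have e1 : S.H.A f.1 A z = 0 := congrFun (congrFun (congrArg Subtype.val h3) A) z
    rw [h6, hc (f.1 0) (f.2.1 0)] at e1
    rw [(mul_eq_zero.1 e1).resolve_left hc0, zero_smul]
  obtain ⟨c', hc'⟩ := const_of_Gr (f.2.1 0) h7
  refine ⟨c', ?_⟩
  filter_upwards [h4, h.YW_ae v] with z e1 e2
  rw [← e2.1, e1 0, hc']

end Hyp

end

end Crest.Agent.R235.SWNd_918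
end

-- ▼ part R235/SWNd_918

/-!
Row 235 (S0364), PACKAGE SW, ND (helper918): **nondegeneracy of the flat Taubes solutions**.
-/

set_option autoImplicit false
set_option maxSynthPendingDepth 3
set_option linter.unusedSectionVars false

open scoped ContDiff ENNReal NNReal Topology Manifold Bundle RealInnerProductSpace Matrix
open MeasureTheory Set Filter Metric Bundle

universe v

namespace Crest.Agent.R235.SWNd_918

open Crest.Agent.R249.Tv57 Crest.Agent.R247.Ms322 Crest.Agent.R247.Dir593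
open Crest.Agent.R247.Frd657
open Crest.Agent.R235.SWDefs_53 Crest.Agent.R235.SWSym_451 Crest.Agent.R235.SWTd_451
open Crest.Agent.R235.SWTe_451 Crest.Agent.R235.Fs4_546 Crest.Agent.R235.Cpt_755
open Crest.Agent.R235.L4_433 Crest.Agent.R235.Dens_433 Crest.Agent.R235.W12_109

noncomputable section

local notation "ipp" => Crest.Agent.R249.Tv57.ip 4
local notation "𝔼4" => EuclideanSpace ℝ (Fin 4)

variable {M : Type v} [MetricSpace M] [CompactSpace M] [ConnectedSpace M]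
  [ChartedSpace (EuclideanSpace ℝ (Fin 4)) M] [IsManifold (𝓡 4) ∞ M]
  [RiemannianBundle (fun p : M => TangentSpace (𝓡 4) p)]
  [IsContMDiffRiemannianBundle (𝓡 4) ∞ (EuclideanSpace ℝ (Fin 4))
    (fun p : M => TangentSpace (𝓡 4) p)]
  [IsRiemannianManifold (𝓡 4) M] [MeasurableSpace M] [BorelSpace M]
  [SecondCountableTopology M] [Nonempty M] [IsFiniteMeasureOnCompacts (μHE[4] : Measure M)]
  {κ0 κ1 κT : Type} [Fintype κ0] [Fintype κ1] [Fintype κT]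

variable {S : SWS M κ0 κ1 κT} {cc : κ1 → κ0 → M → EuclideanSpace ℝ (Fin 4)} {τ : TD M κT}
  {C r : ℝ} {th : κT → M → ℝ} {s0 : κ0 → M → ℝ}

namespace Hyp

theorem Sq_ae (h : Hyp S cc τ C r th s0) (q : ℝ) (W : S.D0.toAD.WE) :
    ∀ᵐ z ∂(μHE[4] : Measure M), ∀ y, (S.D0.toAD.i1 (h.Sq q W) y : M → ℝ) z =
      τ.rr z ^ q * (S.D0.toAD.i1 W y : M → ℝ) z := by
  filter_upwards [coe_mulS S.D0 S.D0 (h.sm_msc q) (h.p_msc q) W, Fred_649.sec_rp W] with z e1 e2 y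
  refine (e1 y).trans ?_
  have e3 := e2 y
  have e4 : ∑ b, τ.rr z ^ q * S.D0.p y b z * (S.D0.toAD.i1 W b : M → ℝ) z =
      τ.rr z ^ q * ∑ b, S.D0.p y b z * Fred_649.rp W b z := by
    rw [Finset.mul_sum]
    refine Finset.sum_congr rfl fun b _ => ?_
    show _ = τ.rr z ^ q * (S.D0.p y b z * (S.D0.toAD.i1 W b : M → ℝ) z)
    ring
  rw [e4, e3]
  rfl

theorem Sq_Sq (h : Hyp S cc τ C r th s0) (W : S.D0.toAD.WE) :
    h.Sq (3 / 4) (h.Sq (-(3 / 4)) W) = W := by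
  refine i1_injective S.D0.toAD ?_
  ext y
  filter_upwards [h.Sq_ae (3 / 4) (h.Sq (-(3 / 4)) W), h.Sq_ae (-(3 / 4)) W] with z e1 e2
  rw [e1 y, e2 y, ← mul_assoc, ← Real.rpow_add (h.tau.pos z)]
  norm_num

theorem A_add (h : Hyp S cc τ C r th s0) (W : S.D0.toAD.WE) : h.A0 W + h.A1 W = W := by
  refine i1_injective S.D0.toAD ?_
  have e0 : S.D0.toAD.i1 (h.A0 W + h.A1 W) = S.D0.toAD.i1 (h.A0 W) + S.D0.toAD.i1 (h.A1 W) :=
    map_add _ _ _
  rw [e0]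
  ext y
  filter_upwards [Lp.coeFn_add (S.D0.toAD.i1 (h.A0 W) y) (S.D0.toAD.i1 (h.A1 W) y),
    coe_mulS S.D0 S.D0 (pj0 h.sym h.tau).sm (pj0 h.sym h.tau).pP W,
    coe_mulS S.D0 S.D0 (pj1 h.sym h.tau).sm (pj1 h.sym h.tau).pP W, Fred_649.sec_rp W]
    with z e1 e2 e3 e4
  have e5 : ((S.D0.toAD.i1 (h.A0 W) + S.D0.toAD.i1 (h.A1 W)) y : M → ℝ) z =
      (S.D0.toAD.i1 (h.A0 W) y : M → ℝ) z + (S.D0.toAD.i1 (h.A1 W) y : M → ℝ) z := e1
  have e2' : (S.D0.toAD.i1 (h.A0 W) y : M → ℝ) z = _ := e2 y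
  have e3' : (S.D0.toAD.i1 (h.A1 W) y : M → ℝ) z = _ := e3 y
  rw [e5, e2', e3', ← Finset.sum_add_distrib]
  refine Eq.trans ?_ (e4 y)
  refine Finset.sum_congr rfl fun b _ => ?_
  rw [← add_mul, P0_add_P1]
  rfl

/-- `XL + YL` -/
theorem XY_eq (h : Hyp S cc τ C r th s0) (α : S.DT.toAD.WE) (W : S.D0.toAD.WE) :
    h.XL (α, h.Sq (-(3 / 4)) W) + h.YL (α, h.Sq (-(3 / 4)) W) =
      h.DL W + matR (κ' := κ1) h.bm_cS (S.DT.toAD.i1 α) := by
  show h.DL (h.Sq (3 / 4) (h.A0 (h.Sq (-(3 / 4)) W))) + matR (κ' := κ1) h.bm_cS (S.DT.toAD.i1 α) +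
    h.DL (h.Sq (3 / 4) (h.A1 (h.Sq (-(3 / 4)) W))) = _
  have e1 : h.DL W = h.DL (h.Sq (3 / 4) (h.A0 (h.Sq (-(3 / 4)) W))) +
      h.DL (h.Sq (3 / 4) (h.A1 (h.Sq (-(3 / 4)) W))) := by
    rw [← map_add, ← map_add, h.A_add, h.Sq_Sq]
  rw [e1]
  abel

/-- `D_th v`, representatives -/
theorem DL_ae (h : Hyp S cc τ C r th s0) (W : S.D0.toAD.WE) : ∀ᵐ z ∂(μHE[4] : Measure M), ∀ x,
    (h.DL W x : M → ℝ) z =
      (((Ah S.P W : S.D1.toAD.HE) : HH (μHE[4] : Measure M) κ1) x : M → ℝ) z +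
      ∑ y, (S.D0.toAD.i1 W y : M → ℝ) z * ∑ A, th A z * S.cl A x y z := by
  have h1 : ∀ᵐ z ∂(μHE[4] : Measure M), ∀ x, (h.DL W x : M → ℝ) z =
      (((Ah S.P W : S.D1.toAD.HE) : HH (μHE[4] : Measure M) κ1) x : M → ℝ) z +
      (matR (κ' := κ1) h.bm_cth (S.D0.toAD.i1 W) x : M → ℝ) z := by
    rw [ae_all_iff]
    intro x
    exact Lp.coeFn_add (((Ah S.P W : S.D1.toAD.HE) : HH (μHE[4] : Measure M) κ1) x)
      (matR (κ' := κ1) h.bm_cth (S.D0.toAD.i1 W) x)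
  filter_upwards [h1, coe_matR (κ' := κ1) h.bm_cth (S.D0.toAD.i1 W)] with z e1 e2 x
  rw [e1 x, e2 x]

/-- the Dirac equation -/
theorem hD (h : Hyp S cc τ C r th s0) {b : κT → M → ℝ} {v : κ0 → M → ℝ} {α : S.DT.toAD.WE}
    {W : S.D0.toAD.WE}
    (hα : ∀ᵐ z ∂(μHE[4] : Measure M), ∀ A, (S.DT.toAD.i1 α A : M → ℝ) z = b A z)
    (hW : ∀ y, Fred_649.rp W y =ᵐ[(μHE[4] : Measure M)] v y)
    (h2 : WkA S.P v (fun x z => - S.cm th v x z - S.cm b (τ.sc (3 / 4) s0) x z)) :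
    h.XL (α, h.Sq (-(3 / 4)) W) + h.YL (α, h.Sq (-(3 / 4)) W) = 0 := by
  rw [h.XY_eq]
  refine eq_zero_of_ae ?_
  have h1 : ∀ᵐ z ∂(μHE[4] : Measure M), ∀ x,
      ((h.DL W + matR (κ' := κ1) h.bm_cS (S.DT.toAD.i1 α)) x : M → ℝ) z =
      (h.DL W x : M → ℝ) z + (matR (κ' := κ1) h.bm_cS (S.DT.toAD.i1 α) x : M → ℝ) z := by
    rw [ae_all_iff]
    intro x
    exact Lp.coeFn_add (h.DL W x) (matR (κ' := κ1) h.bm_cS (S.DT.toAD.i1 α) x)
  have h3 : ∀ᵐ z ∂(μHE[4] : Measure M), ∀ x,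
      (((Ah S.P W : S.D1.toAD.HE) : HH (μHE[4] : Measure M) κ1) x : M → ℝ) z =
      - S.cm th v x z - S.cm b (τ.sc (3 / 4) s0) x z := by
    rw [ae_all_iff]
    exact (Fred_649.wkA_iff hW).1 h2
  have h4 : ∀ᵐ z ∂(μHE[4] : Measure M), ∀ y, (S.D0.toAD.i1 W y : M → ℝ) z = v y z := by
    rw [ae_all_iff]
    exact hW
  filter_upwards [h1, h3, h4, hα, h.DL_ae W, coe_matR (κ' := κ1) h.bm_cS (S.DT.toAD.i1 α)]
    with z e1 e3 e4 e5 e6 e7 x
  rw [e1 x, e6 x, e3 x, e7 x]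
  have g1 : ∑ y, (S.D0.toAD.i1 W y : M → ℝ) z * ∑ A, th A z * S.cl A x y z = S.cm th v x z := by
    unfold SWS.cm
    rw [Finset.sum_comm]
    refine Finset.sum_congr rfl fun y _ => ?_
    rw [e4 y, Finset.mul_sum]
    exact Finset.sum_congr rfl fun A _ => by ring
  have g2 : ∑ A, (S.DT.toAD.i1 α A : M → ℝ) z * ∑ y, τ.sc (3 / 4) s0 y z * S.cl A x y z =
      S.cm b (τ.sc (3 / 4) s0) x z := by
    unfold SWS.cm
    refine Finset.sum_congr rfl fun A _ => ?_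
    rw [e5 A, Finset.mul_sum]
    exact Finset.sum_congr rfl fun y _ => by ring
  rw [g1, g2]
  ring

theorem Ah_harm {η : SmS S.DT} (hB : ∀ k z, S.H.B η.1 k z = 0) :
    Ah S.H.swap (cW S.DT η) = 0 := by
  rw [Ah_cW (Fred_649.dns4 S.DT)]
  have e : lA S.H.swap η = 0 := Subtype.ext (funext fun k => funext fun z => hB k z)
  rw [e, map_zero]

/-- the curvature equation -/
theorem hC (h : Hyp S cc τ C r th s0) {a : κT → M → ℝ} {v : κ0 → M → ℝ} {mu : M → ℝ}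
    (hmu : ∀ z, mu z = τ.rr z ^ (-(1 / 2) : ℝ)) {Aw : S.DT.toAD.WE} {η : SmS S.DT}
    (hB : ∀ k z, S.H.B η.1 k z = 0) {W : S.D0.toAD.WE}
    (hA : ∀ A, Fred_649.rp Aw A =ᵐ[(μHE[4] : Measure M)] a A)
    (hW : ∀ y, Fred_649.rp W y =ᵐ[(μHE[4] : Measure M)] v y)
    (h1 : WkA S.H.swap a (Fin.cons (fun _ => 0) fun k z =>
      mu z * ∑ y, ∑ y', S.rho k y y' z * τ.sc (3 / 4) s0 y z * v y' z)) :
    ∀ᵐ z ∂(μHE[4] : Measure M), ∀ k : Fin 3,
      (h.BL (Aw + cW S.DT η, h.Sq (-(3 / 4)) W) k.succ : M → ℝ) z =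
      τ.rr z * ∑ y, ∑ y', S.rho k y y' z * s0 y z *
        (S.D0.toAD.i1 (h.Sq (-(3 / 4)) W) y' : M → ℝ) z := by
  have e0 : h.BL (Aw + cW S.DT η, h.Sq (-(3 / 4)) W) =
      ((Ah S.H.swap Aw : S.DL.toAD.HE) : HH (μHE[4] : Measure M) (Fin 4)) := by
    show ((Ah S.H.swap (Aw + cW S.DT η) : S.DL.toAD.HE) : HH (μHE[4] : Measure M) (Fin 4)) = _
    rw [map_add, Ah_harm hB, add_zero]
  rw [e0]
  have h3 := (Fred_649.wkA_iff hA).1 h1
  have h3' : ∀ᵐ z ∂(μHE[4] : Measure M), ∀ k : Fin 3,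
      (((Ah S.H.swap Aw : S.DL.toAD.HE) : HH (μHE[4] : Measure M) (Fin 4)) k.succ : M → ℝ) z =
      mu z * ∑ y, ∑ y', S.rho k y y' z * τ.sc (3 / 4) s0 y z * v y' z := by
    rw [ae_all_iff]
    intro k
    exact h3 k.succ
  have h4 : ∀ᵐ z ∂(μHE[4] : Measure M), ∀ y, (S.D0.toAD.i1 W y : M → ℝ) z = v y z := by
    rw [ae_all_iff]
    exact hW
  filter_upwards [h3', h4, h.Sq_ae (-(3 / 4)) W] with z e1 e2 e3 k
  rw [e1 k, hmu z, Finset.mul_sum, Finset.mul_sum]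
  refine Finset.sum_congr rfl fun y _ => ?_
  rw [Finset.mul_sum, Finset.mul_sum]
  refine Finset.sum_congr rfl fun y' _ => ?_
  rw [e3 y', e2 y', TD.sc]
  have p := h.tau.pos z
  have g1 : τ.rr z ^ (-(1 / 2) : ℝ) * τ.rr z ^ (3 / 4 : ℝ) =
      τ.rr z * τ.rr z ^ (-(3 / 4) : ℝ) := by
    nth_rewrite 3 [← Real.rpow_one (τ.rr z)]
    rw [← Real.rpow_add p, ← Real.rpow_add p]
    norm_num
  calc τ.rr z ^ (-(1 / 2) : ℝ) * (S.rho k y y' z * (τ.rr z ^ (3 / 4 : ℝ) * s0 y z) * v y' z)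
      = (τ.rr z ^ (-(1 / 2) : ℝ) * τ.rr z ^ (3 / 4 : ℝ)) * (S.rho k y y' z * s0 y z * v y' z) := by
        ring
    _ = _ := by rw [g1]; ring

/-- `a + η` is orthogonal to the gradients -/
theorem coEx (h : Hyp S cc τ C r th s0) {a : κT → M → ℝ} {Aw : S.DT.toAD.WE} {η : SmS S.DT}
    (hB : ∀ k z, S.H.B η.1 k z = 0)
    (hA : ∀ A, Fred_649.rp Aw A =ᵐ[(μHE[4] : Measure M)] a A) {G : Fin 3 → M → ℝ}
    (h1 : WkA S.H.swap a (Fin.cons (fun _ => 0) G)) : h.CoEx (Aw + cW S.DT η) := by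
  intro f hf
  rw [map_add, inner_add_left]
  have e1 : (⟪S.DT.toAD.jj (cW S.DT η), cH S.DT (lA S.H (fn0 h.ok hf))⟫ : ℝ) = 0 := by
    rw [jj_cW, real_inner_comm, inner_cH]
    have e2 := S.H.adj (fn0 h.ok hf).1 η.1 (fn0 h.ok hf).2.1 (fn0 h.ok hf).2.2 η.2.1 η.2.2
    refine e2.trans ?_
    unfold Crest.Agent.R249.Tv57.ip
    simp only [hB, mul_zero, Finset.sum_const_zero, integral_zero]
  have e3 : (⟪S.DT.toAD.jj Aw, cH S.DT (lA S.H (fn0 h.ok hf))⟫ : ℝ) = 0 := by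
    rw [← Fred_649.ip_rp Aw (lA S.H (fn0 h.ok hf))]
    have e4 := h1.2.2 (fn0 h.ok hf).1 (fn0 h.ok hf).2.1 (fn0 h.ok hf).2.2
    have e5 : ipp (Fred_649.rp Aw) (lA S.H (fn0 h.ok hf)).1 =
        ipp a (S.H.swap.B (fn0 h.ok hf).1) := by
      unfold Crest.Agent.R249.Tv57.ip
      refine integral_congr_ae ?_
      have h4 : ∀ᵐ z ∂(μHE[4] : Measure M), ∀ A, Fred_649.rp Aw A z = a A z := by
        rw [ae_all_iff]
        exact hA
      filter_upwards [h4] with z g1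
      refine Finset.sum_congr rfl fun A _ => ?_
      rw [g1 A]
      rfl
    rw [e5, ← e4]
    unfold Crest.Agent.R249.Tv57.ip
    refine (integral_congr_ae (Eventually.of_forall fun z => ?_)).trans (integral_zero M ℝ)
    simp only [fn0]
    rw [Fin.sum_univ_succ]
    simp only [Fin.cons_zero, Fin.cons_succ, zero_mul, mul_zero, Finset.sum_const_zero, add_zero]
  rw [e1, e3, add_zero]

theorem U0_fix (h : Hyp S cc τ C r th s0) (v : VV S) : ∀ᵐ z ∂(μHE[4] : Measure M),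
    mP S (fun k z => - τ.n k z) z *ᵥ (fun y => (h.U0 v y : M → ℝ) z) =
      fun y => (h.U0 v y : M → ℝ) z := by
  filter_upwards [h.U0_ae v] with z e1
  funext y
  rw [← P0_vec]
  simp only [e1]
  exact pj_idem (pj0 h.sym h.tau) (fun b _ => (S.D0.toAD.i1 v.2 b : M → ℝ) z) y z

theorem s0_fix (h : Hyp S cc τ C r th s0) (z : M) :
    mP S (fun k z => - τ.n k z) z *ᵥ (fun y => s0 y z) = fun y => s0 y z := by
  funext y
  rw [← P0_vec]
  exact (secE_iff h.sym h.tau).1 h.par.sec y z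

/-- **nondegeneracy** -/
theorem fin (h : Hyp S cc τ C r th s0) {a η : κT → M → ℝ} {v : κ0 → M → ℝ} {mu : M → ℝ}
    (hmu : ∀ z, mu z = τ.rr z ^ (-(1 / 2) : ℝ)) (ha : InW S.DT a) (hN : NoHarm S a)
    (sη : SmV (n := 4) η) (hη : S.DT.Sec η) (hB : ∀ k z, S.H.B η k z = 0) (hv : InW S.D0 v)
    (h1 : WkA S.H.swap a (Fin.cons (fun _ => 0) fun k z =>
      mu z * ∑ y, ∑ y', S.rho k y y' z * τ.sc (3 / 4) s0 y z * v y' z))
    (h2 : WkA S.P v (fun x z => - S.cm th v x z - S.cm (a + η) (τ.sc (3 / 4) s0) x z)) :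
    (∀ᵐ z ∂(μHE[4] : Measure M), ∀ A, a A z = 0) ∧ η = 0 ∧
      ∃ c : ℝ, ∀ᵐ z ∂(μHE[4] : Measure M), ∀ y, v y z = c * S.iu (τ.sc (3 / 4) s0) y z := by
  obtain ⟨Aw, hA⟩ := ha
  obtain ⟨W, hW⟩ := hv
  set ηS : SmS S.DT := ⟨η, sη, hη⟩ with hηS
  set α : S.DT.toAD.WE := Aw + cW S.DT ηS with hα
  set U : S.D0.toAD.WE := h.Sq (-(3 / 4)) W with hU
  have hA' : ∀ᵐ z ∂(μHE[4] : Measure M), ∀ A, (S.DT.toAD.i1 Aw A : M → ℝ) z = a A z := by
    rw [ae_all_iff]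
    exact hA
  have hW' : ∀ᵐ z ∂(μHE[4] : Measure M), ∀ y, (S.D0.toAD.i1 W y : M → ℝ) z = v y z := by
    rw [ae_all_iff]
    exact hW
  have rα : ∀ᵐ z ∂(μHE[4] : Measure M), ∀ A, (S.DT.toAD.i1 α A : M → ℝ) z = (a + η) A z := by
    have g1 : ∀ᵐ z ∂(μHE[4] : Measure M), ∀ A, (S.DT.toAD.i1 α A : M → ℝ) z =
        (S.DT.toAD.i1 Aw A : M → ℝ) z + (clH ηS.1 ηS.2.1 A : M → ℝ) z := by
      rw [ae_all_iff]
      intro A
      exact Lp.coeFn_add (S.DT.toAD.i1 Aw A) (clH ηS.1 ηS.2.1 A)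
    filter_upwards [g1, hA', coe_clH ηS.1 ηS.2.1] with z e1 e2 e3 A
    rw [e1 A, e2 A, e3 A]
    rfl
  obtain ⟨hNL, hs0, hU1⟩ := h.step4 (α, U) (h.hD rα hW h2) (h.hC (η := ηS) hmu hB hA hW h1)
  obtain ⟨hAS, hα0⟩ := h.alpha_zero (v := (α, U)) (h.coEx (η := ηS) hB hA h1) hNL
  have hGY : h.GY (α, U) = 0 := by
    show matR (κ' := Fin 4) h.bm_cJS (h.NL (α, U)) - (2 * r) • h.AS α = 0
    have hAS' : h.AS α = 0 := hAS
    rw [hNL, hAS', map_zero, smul_zero, sub_zero]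
  obtain ⟨c, hc⟩ := h.y_const hGY
  have hsum : ∀ᵐ z ∂(μHE[4] : Measure M), ∀ A, a A z + η A z = 0 := by
    have g1 : ∀ᵐ z ∂(μHE[4] : Measure M), ∀ A, (S.DT.toAD.i1 α A : M → ℝ) z = 0 := by
      have hα0' : α = 0 := hα0
      rw [hα0', ae_all_iff]
      intro A
      exact Lp.coeFn_zero _ _ _
    filter_upwards [g1, rα] with z e1 e2 A
    rw [← e1 A, e2 A]
    rfl
  have hη0 : η = 0 := by
    have g1 := hN η sη hη hB
    have g2 : ipp η η = 0 := by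
      have g3 : ipp a η = - ipp η η := by
        unfold Crest.Agent.R249.Tv57.ip
        rw [← integral_neg]
        refine integral_congr_ae ?_
        filter_upwards [hsum] with z e1
        rw [← Finset.sum_neg_distrib]
        refine Finset.sum_congr rfl fun A _ => ?_
        rw [eq_neg_of_add_eq_zero_left (e1 A)]
        ring
      linarith
    funext A z
    exact eq_zero_of_ip sη g2 A z
  refine ⟨?_, hη0, c / (2 * r), ?_⟩
  · filter_upwards [hsum] with z e1 A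
    have e2 := e1 A
    rw [hη0] at e2
    simpa using e2
  · filter_upwards [hc, hs0, hU1, h.U0_fix (α, U), h.U0_ae (α, U), h.U1_ae (α, U), hW',
      h.Sq_ae (-(3 / 4)) W, sec_ae U] with z e1 e2 e3 e4 e5 e6 e7 e8 e9 y
    have p := h.tau.pos z
    have hr := h.rpos
    have k1 := eq_of_E h.sym h.tau z h.rpos (h.s0_fix z) e4 (h.nrm_s0 z) e2
    have k2 : (fun y => (h.U0 (α, U) y : M → ℝ) z) ⬝ᵥ (mJ S z *ᵥ fun y => s0 y z) = c := e1
    rw [k2] at k1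
    have k3 : (h.U0 (α, U) y : M → ℝ) z = (1 / (2 * r)) * c * S.iu s0 y z := congrFun k1 y
    have k4 : (S.D0.toAD.i1 U y : M → ℝ) z = (h.U0 (α, U) y : M → ℝ) z := by
      have k5 : (S.D0.toAD.i1 U y : M → ℝ) z = ∑ b, S.D0.p y b z * (S.D0.toAD.i1 U b : M → ℝ) z :=
        (congrFun e9 y).symm
      have k6 := e6 y
      rw [e3 y] at k6
      rw [k5, e5 y, ← add_zero (∑ b, P0 S τ y b z * _), k6, ← Finset.sum_add_distrib]
      refine Finset.sum_congr rfl fun b _ => ?_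
      rw [← add_mul, P0_add_P1]
    have k7 : v y z = τ.rr z ^ (3 / 4 : ℝ) * (S.D0.toAD.i1 U y : M → ℝ) z := by
      rw [e8 y, e7 y, ← mul_assoc, ← Real.rpow_add p]
      norm_num
    have k8 : S.iu (τ.sc (3 / 4) s0) y z = τ.rr z ^ (3 / 4 : ℝ) * S.iu s0 y z := by
      unfold SWS.iu TD.sc
      rw [Finset.mul_sum]
      exact Finset.sum_congr rfl fun b _ => by ring
    rw [k7, k4, k3, k8]
    ring

end Hyp

/-- **ND** : nondegeneracy of the flat Taubes solutions. -/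
theorem nd : ND.{v} := by
  intro M _ _ _ _ _ _ _ _ _ _ _ _ _ κ0 κ1 κT _ _ _ S cc d τ C t s hOK hsym hgrd htau hfit hr hbig
    hflat hpar a η v ha hN sη hη hB hv h1 h2
  have h : Hyp S cc τ C d.r (d.th t) s :=
    ⟨hOK, hsym, hgrd, htau, hfit.smth, hfit.secth, hr, hbig, hflat, hpar⟩
  exact h.fin hfit.mu ha hN sη hη hB hv h1 h2

end

end Crest.Agent.R235.SWNd_918
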