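import Mathlib
import Crest.Agent.R275.FredC_685

/-!
Row 235 (S0364), PACKAGE SW, leaf PFX (helper435), part A: abstract lemmas.

* `fred_real`    : closed range, finite dimensional kernel and orthogonal complement of the range;
* `lft`          : real linear maps commuting with the complex structures, as complex linear maps;
* `ker_eq`, `coker_eq`, `fin_ker`, `fin_coker`, `closed_range` : transfer between a complex linear map
                   and its real form;
* `contDiff_cosC`, `contDiff_sinC` : `h ↦ cos (2π h·x)`, `sin (2π h·x)` in `C(K, ℝ)` are smooth.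
-/

set_option autoImplicit false

open Topology Set Module
open scoped ContDiff RealInnerProductSpace
open Crest.Agent.R275

namespace Crest.Agent.R235.SWPfA_435

noncomputable section

/-! ### Fredholm operators -/

section fred

variable {A Y : Type*} [NormedAddCommGroup A] [NormedSpace ℝ A] [CompleteSpace A]
  [NormedAddCommGroup Y] [InnerProductSpace ℝ Y] [CompleteSpace Y]

theorem fred_real {L : A →L[ℝ] Y} (h : Fred685.Fred L) :
    FiniteDimensional ℝ (LinearMap.ker (L : A →ₗ[ℝ] Y)) ∧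
      IsClosed ((LinearMap.range (L : A →ₗ[ℝ] Y) : Submodule ℝ Y) : Set Y) ∧
      FiniteDimensional ℝ ((LinearMap.range (L : A →ₗ[ℝ] Y))ᗮ : Submodule ℝ Y) := by
  obtain ⟨hk, hc⟩ := h.finIdx
  obtain ⟨Q, hQ, hKQ⟩ := (Submodule.ClosedComplemented.of_finiteDimensional
    (LinearMap.ker (L : A →ₗ[ℝ] Y))).exists_isClosed_isCompl
  obtain ⟨G, hG⟩ := Submodule.exists_isCompl (LinearMap.range (L : A →ₗ[ℝ] Y))
  have hGf : FiniteDimensional ℝ G :=
    LinearEquiv.finiteDimensional (Submodule.quotientEquivOfIsCompl _ G hG)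
  have : CompleteSpace Q := hQ.completeSpace_coe
  have hr : LinearMap.range ((L.comp Q.subtypeL : Q →L[ℝ] Y) : Q →ₗ[ℝ] Y) =
      LinearMap.range (L : A →ₗ[ℝ] Y) := by
    ext y
    constructor
    · rintro ⟨x, hx⟩
      exact ⟨x, hx⟩
    · rintro ⟨x, hx⟩
      have h3 : x ∈ LinearMap.ker (L : A →ₗ[ℝ] Y) ⊔ Q := by rw [hKQ.sup_eq_top]; trivial
      obtain ⟨n, hn, q, hq, rfl⟩ := Submodule.mem_sup.1 h3
      refine ⟨⟨q, hq⟩, ?_⟩
      have h4 : L n = 0 := hn
      have h5 : L (n + q) = y := hx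
      rw [map_add, h4, zero_add] at h5
      exact h5
  have hker : LinearMap.ker ((L.comp Q.subtypeL : Q →L[ℝ] Y) : Q →ₗ[ℝ] Y) = ⊥ := by
    rw [Submodule.eq_bot_iff]
    intro x hx
    have h1 : L x = 0 := hx
    have h2 : (x : A) ∈ LinearMap.ker (L : A →ₗ[ℝ] Y) ⊓ Q := ⟨h1, x.2⟩
    rw [hKQ.inf_eq_bot] at h2
    exact Subtype.ext ((Submodule.mem_bot ℝ).1 h2)
  have hcl := ContinuousLinearMap.closed_complemented_range_of_isCompl_of_ker_eq_bot
    (L.comp Q.subtypeL) G (by rw [hr]; exact hG) G.closed_of_finiteDimensional hker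
  rw [hr] at hcl
  refine ⟨hk, hcl, ?_⟩
  have : CompleteSpace (LinearMap.range (L : A →ₗ[ℝ] Y)) := hcl.completeSpace_coe
  exact LinearEquiv.finiteDimensional (Submodule.quotientEquivOfIsCompl _ _
    (Submodule.isCompl_orthogonal (LinearMap.range (L : A →ₗ[ℝ] Y))))

end fred

/-! ### complex linear maps and their real forms -/

section lift

variable {X Y V W : Type*} [NormedAddCommGroup X] [InnerProductSpace ℂ X]
  [NormedAddCommGroup Y] [InnerProductSpace ℂ Y]
  [NormedAddCommGroup V] [InnerProductSpace ℝ V] [NormedAddCommGroup W] [InnerProductSpace ℝ W]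

theorem cpt_of_range {E F : Type*} [NormedAddCommGroup E] [NormedSpace ℝ E] [NormedAddCommGroup F]
    [NormedSpace ℝ F] (K : E →L[ℝ] F) (N : Submodule ℝ F) [FiniteDimensional ℝ N]
    (h : ∀ x, K x ∈ N) : IsCompactOperator K := by
  have h1 := Fred685.isCompactOperator_comp_finiteDimensional N.subtypeL (K.codRestrict N h)
  have h2 : N.subtypeL.comp (K.codRestrict N h) = K := by
    ext x
    rfl
  rwa [h2] at h1


variable {eX : X ≃L[ℝ] V} {eY : Y ≃L[ℝ] W} {J : V →L[ℝ] V} {J' : W →L[ℝ] W}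





/-- the kernels. -/
def kerE {D : X →L[ℂ] Y} {DR : V →L[ℝ] W} (h : ∀ x, eY (D x) = DR (eX x)) :
    (LinearMap.ker (D : X →ₗ[ℂ] Y)) ≃ₗ[ℝ] LinearMap.ker (DR : V →ₗ[ℝ] W) where
  toFun x := ⟨eX x, by
    have h1 : D x = 0 := x.2
    show DR (eX x) = 0
    rw [← h, h1, map_zero]⟩
  map_add' x y := Subtype.ext (map_add eX _ _)
  map_smul' c x := Subtype.ext (map_smul eX c (x : X))
  invFun v := ⟨eX.symm v, by
    have h1 : DR v = 0 := v.2
    show D (eX.symm v) = 0
    apply eY.injective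
    rw [h, eX.apply_symm_apply, h1, map_zero]⟩
  left_inv x := Subtype.ext (eX.symm_apply_apply _)
  right_inv v := Subtype.ext (eX.apply_symm_apply _)

theorem re_inner_eq (hn : ∀ y, ‖eY y‖ = ‖y‖) (a b : Y) :
    (inner ℂ a b : ℂ).re = ⟪eY a, eY b⟫ := by
  have h1 := re_inner_eq_norm_add_mul_self_sub_norm_sub_mul_self_div_four (𝕜 := ℂ) a b
  have h2 := re_inner_eq_norm_add_mul_self_sub_norm_sub_mul_self_div_four (𝕜 := ℝ) (eY a) (eY b)
  rw [← map_add, ← map_sub, hn, hn] at h2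
  exact h1.trans h2.symm

theorem mem_orth (hn : ∀ y, ‖eY y‖ = ‖y‖)
    {D : X →L[ℂ] Y} {DR : V →L[ℝ] W} (h : ∀ x, eY (D x) = DR (eX x)) (y : Y) :
    y ∈ ((LinearMap.range (D : X →ₗ[ℂ] Y))ᗮ : Submodule ℂ Y) ↔
      eY y ∈ ((LinearMap.range (DR : V →ₗ[ℝ] W))ᗮ : Submodule ℝ W) := by
  rw [Submodule.mem_orthogonal, Submodule.mem_orthogonal]
  constructor
  · rintro h1 _ ⟨v, rfl⟩
    have h2 := h1 (D (eX.symm v)) ⟨_, rfl⟩
    have h3 := re_inner_eq hn (D (eX.symm v)) y
    rw [h2, h, eX.apply_symm_apply] at h3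
    exact h3.symm
  · rintro h1 _ ⟨x, rfl⟩
    have h3 : ∀ x, (inner ℂ (D x) y : ℂ).re = 0 := by
      intro x
      rw [re_inner_eq hn, h]
      exact h1 _ ⟨eX x, rfl⟩
    have h4 := h3 (Complex.I • x)
    rw [map_smul, inner_smul_left] at h4
    apply Complex.ext
    · exact h3 x
    · simpa using h4

/-- the cokernels. -/
def cokE (hn : ∀ y, ‖eY y‖ = ‖y‖)
    {D : X →L[ℂ] Y} {DR : V →L[ℝ] W} (h : ∀ x, eY (D x) = DR (eX x)) :
    ((LinearMap.range (D : X →ₗ[ℂ] Y))ᗮ : Submodule ℂ Y) ≃ₗ[ℝ]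
      ((LinearMap.range (DR : V →ₗ[ℝ] W))ᗮ : Submodule ℝ W) where
  toFun y := ⟨eY y, (mem_orth hn h y).1 y.2⟩
  map_add' x y := Subtype.ext (map_add eY _ _)
  map_smul' c x := Subtype.ext (map_smul eY c (x : Y))
  invFun w := ⟨eY.symm w, (mem_orth hn h _).2 (by rw [eY.apply_symm_apply]; exact w.2)⟩
  left_inv x := Subtype.ext (eY.symm_apply_apply _)
  right_inv v := Subtype.ext (eY.apply_symm_apply _)


theorem finrank_of_real {E : Type*} [AddCommGroup E] [Module ℂ E] {F : Type*} [AddCommGroup F]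
    [Module ℝ F] (e : E ≃ₗ[ℝ] F) : 2 * finrank ℂ E = finrank ℝ F := by
  rw [← finrank_real_of_complex, e.finrank_eq]

end lift

/-! ### smoothness in `C(K, ℝ)` -/

section exp

variable {K : Type*} [TopologicalSpace K] [CompactSpace K] {b : ℕ} (x : Fin b → C(K, ℝ))

/-- `cos (2π h·x)`. -/
def cosC (h : Fin b → ℝ) : C(K, ℝ) := ⟨fun t => Real.cos (2 * Real.pi * ∑ i, h i * x i t), by
  fun_prop⟩

/-- `sin (2π h·x)`. -/
def sinC (h : Fin b → ℝ) : C(K, ℝ) := ⟨fun t => Real.sin (2 * Real.pi * ∑ i, h i * x i t), by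
  fun_prop⟩

/-- the complex phase. -/
def phC (h : Fin b → ℝ) : C(K, ℂ) :=
  ∑ i, h i • (⟨fun t => (2 * Real.pi * x i t : ℝ) * Complex.I, by fun_prop⟩ : C(K, ℂ))

omit [CompactSpace K] in
theorem phC_apply (h : Fin b → ℝ) (t : K) :
    phC x h t = ((2 * Real.pi * ∑ i, h i * x i t : ℝ) : ℂ) * Complex.I := by
  simp only [phC, ContinuousMap.coe_sum, Finset.sum_apply, ContinuousMap.coe_smul, Pi.smul_apply,
    ContinuousMap.coe_mk, Complex.real_smul]
  push_cast
  rw [Finset.mul_sum, Finset.sum_mul]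
  exact Finset.sum_congr rfl fun i _ => by ring

/-- real and imaginary part. -/
def reC : C(K, ℂ) →L[ℝ] C(K, ℝ) := Complex.reCLM.compLeftContinuous ℝ K
def imC : C(K, ℂ) →L[ℝ] C(K, ℝ) := Complex.imCLM.compLeftContinuous ℝ K

theorem contDiff_expC : ContDiff ℝ ∞ fun h : Fin b → ℝ => NormedSpace.exp (phC x h) := by
  have h1 : ContDiff ℝ ∞ (NormedSpace.exp : C(K, ℂ) → C(K, ℂ)) := by
    have h2 : AnalyticOnNhd ℝ (NormedSpace.exp : C(K, ℂ) → C(K, ℂ)) univ := fun y _ =>
      NormedSpace.exp_analytic y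
    exact contDiffOn_univ.1 (h2.contDiffOn uniqueDiffOn_univ)
  refine h1.comp ?_
  unfold phC
  exact ContDiff.sum fun i _ => (contDiff_apply ℝ ℝ i).smul contDiff_const

theorem reC_exp (h : Fin b → ℝ) : reC (NormedSpace.exp (phC x h)) = cosC x h := by
  ext t
  show (NormedSpace.exp (phC x h) t : ℂ).re = Real.cos _
  rw [NormedSpace.exp_continuousMap_eq]
  show (NormedSpace.exp (phC x h t) : ℂ).re = Real.cos _
  rw [← Complex.exp_eq_exp_ℂ, phC_apply, Complex.exp_ofReal_mul_I_re]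

theorem imC_exp (h : Fin b → ℝ) : imC (NormedSpace.exp (phC x h)) = sinC x h := by
  ext t
  show (NormedSpace.exp (phC x h) t : ℂ).im = Real.sin _
  rw [NormedSpace.exp_continuousMap_eq]
  show (NormedSpace.exp (phC x h t) : ℂ).im = Real.sin _
  rw [← Complex.exp_eq_exp_ℂ, phC_apply, Complex.exp_ofReal_mul_I_im]

theorem contDiff_cosC : ContDiff ℝ ∞ (cosC x) := by
  have h1 := (reC (K := K)).contDiff.comp (contDiff_expC x)
  have h2 : (reC (K := K) ∘ fun h : Fin b → ℝ => NormedSpace.exp (phC x h)) = cosC x :=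
    funext fun h => reC_exp x h
  rwa [h2] at h1

theorem contDiff_sinC : ContDiff ℝ ∞ (sinC x) := by
  have h1 := (imC (K := K)).contDiff.comp (contDiff_expC x)
  have h2 : (imC (K := K) ∘ fun h : Fin b → ℝ => NormedSpace.exp (phC x h)) = sinC x :=
    funext fun h => imC_exp x h
  rwa [h2] at h1

end exp

end

end Crest.Agent.R235.SWPfA_435
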