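import Crest.Agent.R235.SWHil_53
import Crest.Agent.R235.L4_433
import Crest.Agent.R235.Swx4_333
import Crest.Agent.R235.SWPfA_435
import Crest.Agent.R235.SWTd_451

-- ▼ part R235/SWPfB_435
section

/-!
Row 235 (S0364), PACKAGE SW, leaf PFX (helper435), part B: multiplication operators on `L²(E)` and
`W^{1,2}(E)`, the complex structures.
-/

set_option autoImplicit false
set_option maxSynthPendingDepth 3
set_option linter.unusedSectionVars false

open scoped ContDiff ENNReal NNReal Topology Manifold Bundle RealInnerProductSpace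
open MeasureTheory Set Filter Metric Bundle Module

universe v

namespace Crest.Agent.R235.SWPf_435

open Crest.Agent.R249.Tv57 Crest.Agent.R247.Ms322 Crest.Agent.R247.Dir593
open Crest.Agent.R235.SWSym_451 Crest.Agent.R235.Fs4_546 Crest.Agent.R235.Fred_649
open Crest.Agent.R235.FamR_151 Crest.Agent.R235.SWDefs_53 Crest.Agent.R235.L4_433
open Crest.Agent.R235.Cpt_755 Crest.Agent.R275 Crest.Agent.R235.SWPfA_435

noncomputable section

section gen

variable {M : Type v} [MetricSpace M] [CompactSpace M] [ConnectedSpace M]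
  [ChartedSpace (EuclideanSpace ℝ (Fin 4)) M] [IsManifold (𝓡 4) ∞ M]
  [RiemannianBundle (fun p : M => TangentSpace (𝓡 4) p)]
  [IsContMDiffRiemannianBundle (𝓡 4) ∞ (EuclideanSpace ℝ (Fin 4))
    (fun p : M => TangentSpace (𝓡 4) p)]
  [IsRiemannianManifold (𝓡 4) M] [MeasurableSpace M] [BorelSpace M]
  [SecondCountableTopology M] [Nonempty M] [IsFiniteMeasureOnCompacts (μHE[4] : Measure M)]
  {κ κ' : Type} [Fintype κ] [Fintype κ'] {D : Dat 4 M κ} {D' : Dat 4 M κ'}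

local notation "μM" => (μHE[4] : Measure M)

/-! ### representatives -/

/-- the representative of an element of `L²(E)`. -/
def rf (f : D.toAD.HE) : κ → M → ℝ := fun a => ((f : HH μM κ) a : M → ℝ)

theorem HE_ext {f g : D.toAD.HE} (h : ∀ᵐ z ∂μM, ∀ a, rf f a z = rf g a z) : f = g := by
  apply Subtype.ext
  ext a
  filter_upwards [h] with z hz
  exact hz a

theorem WE_ext {u v : D.toAD.WE} (h : ∀ᵐ z ∂μM, ∀ a, rp u a z = rp v a z) : u = v := by
  apply Green_649.i1_injective D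
  ext a
  filter_upwards [h] with z hz
  exact hz a

theorem rf_add (f g : D.toAD.HE) : ∀ᵐ z ∂μM, ∀ a, rf (f + g) a z = rf f a z + rf g a z := by
  rw [ae_all_iff]
  intro a
  exact Lp.coeFn_add ((f : HH μM κ) a) ((g : HH μM κ) a)

theorem rf_neg (f : D.toAD.HE) : ∀ᵐ z ∂μM, ∀ a, rf (-f) a z = - rf f a z := by
  rw [ae_all_iff]
  intro a
  exact Lp.coeFn_neg ((f : HH μM κ) a)

theorem rf_smul (c : ℝ) (f : D.toAD.HE) : ∀ᵐ z ∂μM, ∀ a, rf (c • f) a z = c * rf f a z := by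
  rw [ae_all_iff]
  intro a
  exact Lp.coeFn_smul c ((f : HH μM κ) a)




theorem sec_rf (f : D.toAD.HE) : ∀ᵐ z ∂μM, ∀ a, ∑ b, D.p a b z * rf f b z = rf f a z := by
  have h0 : D.toAD.P (f : HH μM κ) = f := f.2
  have h1 := D.toAD.coe_P (f : HH μM κ)
  rw [h0] at h1
  filter_upwards [h1] with z hz a
  exact (hz a).symm


theorem rf_cH (u : SmS D) : ∀ᵐ z ∂μM, ∀ a, rf (cH D u) a z = u.1 a z := coe_clH u.1 u.2.1

theorem rp_cW (u : SmS D) : ∀ᵐ z ∂μM, ∀ a, rp (cW D u) a z = u.1 a z := coe_clH u.1 u.2.1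

theorem norm_sq_HE (f : D.toAD.HE) : ‖f‖ ^ 2 = ∫ z, ∑ a, rf f a z ^ 2 ∂μM :=
  Swx_333.norm_sq_HH (f : HH μM κ)

/-! ### complex structures -/

/-- a complex structure of the bundle `D`. -/
structure CS (D : Dat 4 M κ) (J : κ → κ → M → ℝ) : Prop where
  sm : ∀ a b, ContMDiff (𝓡 4) 𝓘(ℝ, ℝ) ∞ (J a b)
  skew : ∀ a b z, J a b z = - J b a z
  pJ : ∀ a b z, ∑ c, D.p a c z * J c b z = J a b z
  sq : ∀ a b z, ∑ c, J a c z * J c b z = - D.p a b z

/-- `i v`. -/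
def jv (J : κ → κ → M → ℝ) (v : κ → ℝ) (z : M) : κ → ℝ := fun a => ∑ b, J a b z * v b

/-- `c v`, `c` complex. -/
def cv' (J : κ → κ → M → ℝ) (c : ℂ) (v : κ → ℝ) (z : M) : κ → ℝ :=
  fun a => c.re * v a + c.im * jv J v z a

variable {J : κ → κ → M → ℝ}

theorem jv_jv (H : CS D J) {v : κ → ℝ} {z : M} (hv : ∀ a, ∑ b, D.p a b z * v b = v a) (a : κ) :
    jv J (jv J v z) z a = - v a := by
  unfold jv
  simp only [Finset.mul_sum]
  rw [Finset.sum_comm]
  calc ∑ c, ∑ b, J a b z * (J b c z * v c) = ∑ c, (∑ b, J a b z * J b c z) * v c := by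
        refine Finset.sum_congr rfl fun c _ => ?_
        rw [Finset.sum_mul]
        exact Finset.sum_congr rfl fun b _ => by ring
    _ = - v a := by
        rw [← hv a, ← Finset.sum_neg_distrib]
        refine Finset.sum_congr rfl fun c _ => ?_
        rw [H.sq]
        ring

theorem jv_add (v w : κ → ℝ) (z : M) (a : κ) : jv J (fun b => v b + w b) z a =
    jv J v z a + jv J w z a := by
  unfold jv
  simp only [mul_add, Finset.sum_add_distrib]

theorem jv_smul (c : ℝ) (v : κ → ℝ) (z : M) (a : κ) : jv J (fun b => c * v b) z a =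
    c * jv J v z a := by
  unfold jv
  rw [Finset.mul_sum]
  exact Finset.sum_congr rfl fun b _ => by ring

theorem p_jv (H : CS D J) (v : κ → ℝ) (z : M) (a : κ) :
    ∑ b, D.p a b z * jv J v z b = jv J v z a := by
  unfold jv
  simp only [Finset.mul_sum]
  rw [Finset.sum_comm]
  refine Finset.sum_congr rfl fun c _ => ?_
  rw [← H.pJ a c z, Finset.sum_mul]
  exact Finset.sum_congr rfl fun b _ => by ring

theorem inner_jv (H : CS D J) (v w : κ → ℝ) (z : M) :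
    ∑ a, v a * jv J w z a = - ∑ a, jv J v z a * w a := by
  unfold jv
  simp only [Finset.mul_sum, Finset.sum_mul]
  rw [Finset.sum_comm, ← Finset.sum_neg_distrib]
  refine Finset.sum_congr rfl fun a _ => ?_
  rw [← Finset.sum_neg_distrib]
  refine Finset.sum_congr rfl fun b _ => ?_
  rw [H.skew b a z]
  ring

theorem orth_jv (H : CS D J) (v : κ → ℝ) (z : M) : ∑ a, v a * jv J v z a = 0 := by
  have h1 := inner_jv H v v z
  have h2 : ∑ a, jv J v z a * v a = ∑ a, v a * jv J v z a :=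
    Finset.sum_congr rfl fun a _ => mul_comm _ _
  rw [h2] at h1
  linarith

theorem norm_jv (H : CS D J) {v : κ → ℝ} {z : M} (hv : ∀ a, ∑ b, D.p a b z * v b = v a) :
    ∑ a, jv J v z a ^ 2 = ∑ a, v a ^ 2 := by
  have h1 := inner_jv H (jv J v z) v z
  have h2 : ∑ a, jv J v z a ^ 2 = ∑ a, jv J v z a * jv J v z a :=
    Finset.sum_congr rfl fun a _ => sq _
  rw [h2, h1, ← Finset.sum_neg_distrib]
  refine Finset.sum_congr rfl fun a _ => ?_
  rw [jv_jv H hv]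
  ring

theorem sec_cv (H : CS D J) (c : ℂ) {v : κ → ℝ} {z : M} (hv : ∀ a, ∑ b, D.p a b z * v b = v a)
    (a : κ) : ∑ b, D.p a b z * cv' J c v z b = cv' J c v z a := by
  unfold cv'
  have h1 : ∀ b, D.p a b z * (c.re * v b + c.im * jv J v z b) =
      c.re * (D.p a b z * v b) + c.im * (D.p a b z * jv J v z b) := fun b => by ring
  simp only [h1, Finset.sum_add_distrib, ← Finset.mul_sum, hv, p_jv H]

theorem norm_cv (H : CS D J) (c : ℂ) {v : κ → ℝ} {z : M}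
    (hv : ∀ a, ∑ b, D.p a b z * v b = v a) :
    ∑ a, cv' J c v z a ^ 2 = Complex.normSq c * ∑ a, v a ^ 2 := by
  unfold cv'
  have h1 : ∀ a, (c.re * v a + c.im * jv J v z a) ^ 2 =
      c.re ^ 2 * v a ^ 2 + 2 * c.re * c.im * (v a * jv J v z a) + c.im ^ 2 * jv J v z a ^ 2 :=
    fun a => by ring
  simp only [h1, Finset.sum_add_distrib, ← Finset.mul_sum]
  rw [orth_jv H, norm_jv H hv, Complex.normSq_apply]
  ring

theorem cv_cv (H : CS D J) (c c' : ℂ) {v : κ → ℝ} {z : M}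
    (hv : ∀ a, ∑ b, D.p a b z * v b = v a) (a : κ) :
    cv' J c (cv' J c' v z) z a = cv' J (c * c') v z a := by
  have h1 : jv J (cv' J c' v z) z a = c'.re * jv J v z a - c'.im * v a := by
    have h2 : jv J (cv' J c' v z) z a = jv J (fun b => c'.re * v b) z a +
        jv J (fun b => c'.im * jv J v z b) z a := jv_add _ _ z a
    rw [h2, jv_smul, jv_smul, jv_jv H hv]
    ring
  unfold cv' at h1 ⊢
  rw [h1, Complex.mul_re, Complex.mul_im]
  ring

theorem jv_cv (H : CS D J) (c : ℂ) {v : κ → ℝ} {z : M}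
    (hv : ∀ a, ∑ b, D.p a b z * v b = v a) (a : κ) :
    jv J (cv' J c v z) z a = cv' J c (jv J v z) z a := by
  have h2 : jv J (cv' J c v z) z a = jv J (fun b => c.re * v b) z a +
      jv J (fun b => c.im * jv J v z b) z a := jv_add _ _ z a
  rw [h2, jv_smul, jv_smul]
  rfl

/-! ### operators on `L²(E)` -/

/-- `J` on `L²(E)`. -/
def JH (H : CS D J) : D.toAD.HE →L[ℝ] D.toAD.HE :=
  ((matF fun a b => bm_smooth (H.sm a b)).comp D.toAD.HE.subtypeL).codRestrict D.toAD.HE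
    fun f => P_matF D.toAD (fun a b => bm_smooth (H.sm a b)) H.pJ _

theorem coe_JH (H : CS D J) (f : D.toAD.HE) :
    ∀ᵐ z ∂μM, ∀ a, rf (JH H f) a z = jv J (fun b => rf f b z) z a := by
  filter_upwards [coe_matF (fun a b => bm_smooth (H.sm a b)) (f : HH μM κ)] with z e1 a
  refine (e1 a).trans ?_
  exact Finset.sum_congr rfl fun b _ => by rw [smul_eq_mul, mul_comm]; rfl

/-- multiplication by a bounded measurable function. -/
def NH {g : M → ℝ} (hg : BM μM g) : D.toAD.HE →L[ℝ] D.toAD.HE :=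
  ((cw κ (mulF hg)).comp D.toAD.HE.subtypeL).codRestrict D.toAD.HE fun f => by
    show D.toAD.P (cw κ (mulF hg) (f : HH μM κ)) = cw κ (mulF hg) (f : HH μM κ)
    have h1 : ∀ᵐ z ∂μM, ∀ a, (cw κ (mulF hg) (f : HH μM κ) a : M → ℝ) z = g z * rf f a z := by
      rw [ae_all_iff]
      intro a
      rw [cw_apply]
      filter_upwards [coe_mulF hg ((f : HH μM κ) a)] with z hz
      rw [hz, smul_eq_mul, mul_comm]
      rfl
    ext a
    filter_upwards [D.toAD.coe_P (cw κ (mulF hg) (f : HH μM κ)), h1, sec_rf f] with z e1 e2 e3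
    rw [e1 a, e2 a]
    simp only [e2]
    rw [← e3 a, Finset.mul_sum]
    exact Finset.sum_congr rfl fun b _ => by
      show D.p a b z * (g z * rf f b z) = _
      ring

theorem coe_NH {g : M → ℝ} (hg : BM μM g) (f : D.toAD.HE) :
    ∀ᵐ z ∂μM, ∀ a, rf (NH hg f) a z = g z * rf f a z := by
  rw [ae_all_iff]
  intro a
  have h0 : rf (NH hg f) a = (cw κ (mulF hg) (f : HH μM κ) a : M → ℝ) := rfl
  rw [h0, cw_apply]
  filter_upwards [coe_mulF hg ((f : HH μM κ) a)] with z hz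
  rw [hz, smul_eq_mul, mul_comm]
  rfl

theorem norm_le_of_ae {f g : D.toAD.HE} {C : ℝ} (hC : 0 ≤ C)
    (h : ∀ᵐ z ∂μM, ∑ a, rf f a z ^ 2 ≤ C ^ 2 * ∑ a, rf g a z ^ 2) : ‖f‖ ≤ C * ‖g‖ := by
  refine (pow_le_pow_iff_left₀ (norm_nonneg _) (by positivity) two_ne_zero).1 ?_
  rw [mul_pow, norm_sq_HE, norm_sq_HE, ← integral_const_mul]
  exact integral_mono_ae (Swx_333.int_sq (f : HH μM κ))
    ((Swx_333.int_sq (g : HH μM κ)).const_mul _) h

theorem norm_eq_of_ae {f g : D.toAD.HE}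
    (h : ∀ᵐ z ∂μM, ∑ a, rf f a z ^ 2 = ∑ a, rf g a z ^ 2) : ‖f‖ = ‖g‖ := by
  have h1 : ‖f‖ ^ 2 = ‖g‖ ^ 2 := by
    rw [norm_sq_HE, norm_sq_HE]
    exact integral_congr_ae h
  exact (pow_left_inj₀ (norm_nonneg _) (norm_nonneg _) two_ne_zero).1 h1

theorem norm_NH_le {g : M → ℝ} (hg : BM μM g) {C : ℝ} (hC : 0 ≤ C) (h : ∀ z, |g z| ≤ C)
    (f : D.toAD.HE) : ‖NH hg f‖ ≤ C * ‖f‖ := by
  refine norm_le_of_ae hC ?_
  filter_upwards [coe_NH hg f] with z e1
  rw [Finset.mul_sum]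
  refine Finset.sum_le_sum fun a _ => ?_
  rw [e1 a, mul_pow, ← sq_abs (g z)]
  exact mul_le_mul_of_nonneg_right (pow_le_pow_left₀ (abs_nonneg _) (h z) 2) (sq_nonneg _)

theorem norm_JH (H : CS D J) (f : D.toAD.HE) : ‖JH H f‖ = ‖f‖ := by
  refine norm_eq_of_ae ?_
  filter_upwards [coe_JH H f, sec_rf f] with z e1 e2
  simp only [e1]
  exact norm_jv H e2

theorem JH_JH (H : CS D J) (f : D.toAD.HE) : JH H (JH H f) = -f := by
  refine HE_ext ?_
  filter_upwards [coe_JH H (JH H f), coe_JH H f, sec_rf f, rf_neg f] with z e1 e2 e3 e4 a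
  rw [e1 a, e4 a]
  simp only [e2]
  exact jv_jv H e3 a

theorem JH_NH (H : CS D J) {g : M → ℝ} (hg : BM μM g) (f : D.toAD.HE) :
    NH hg (JH H f) = JH H (NH hg f) := by
  refine HE_ext ?_
  filter_upwards [coe_NH hg (JH H f), coe_JH H f, coe_JH H (NH hg f), coe_NH hg f]
    with z e1 e2 e3 e4 a
  rw [e1 a, e2 a, e3 a]
  simp only [e4]
  rw [jv_smul]

/-! ### operators on `W^{1,2}(E)` -/

/-- `J` on `W^{1,2}(E)`. -/
def JW (H : CS D J) : D.toAD.WE →L[ℝ] D.toAD.WE := mulS D D H.sm H.pJ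

theorem coe_JW (H : CS D J) (u : D.toAD.WE) :
    ∀ᵐ z ∂μM, ∀ a, rp (JW H u) a z = jv J (fun b => rp u b z) z a := coe_mulS D D H.sm H.pJ u

theorem jj_JW (H : CS D J) (u : D.toAD.WE) : D.toAD.jj (JW H u) = JH H (D.toAD.jj u) := by
  refine HE_ext ?_
  filter_upwards [coe_JW H u, coe_JH H (D.toAD.jj u)] with z e1 e2 a
  rw [e2 a]
  exact e1 a

theorem JW_JW (H : CS D J) (u : D.toAD.WE) : JW H (JW H u) = -u := by
  apply D.toAD.jj_injective
  rw [jj_JW, jj_JW, JH_JH, map_neg]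

/-- multiplication by a smooth complex function (a matrix `α p + β J`). -/
def MW (H : CS D J) {α β : M → ℝ} (hα : ContMDiff (𝓡 4) 𝓘(ℝ, ℝ) ∞ α)
    (hβ : ContMDiff (𝓡 4) 𝓘(ℝ, ℝ) ∞ β) : D.toAD.WE →L[ℝ] D.toAD.WE :=
  mulS D D (m := fun a b z => α z * D.p a b z + β z * J a b z)
    (fun a b => (hα.mul (D.smp a b)).add (hβ.mul (H.sm a b)))
    (fun a b z => by
      have h1 : ∀ c, D.p a c z * (α z * D.p c b z + β z * J c b z) =
        α z * (D.p a c z * D.p c b z) + β z * (D.p a c z * J c b z) := fun c => by ring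
      simp only [h1, Finset.sum_add_distrib, ← Finset.mul_sum, D.idem, H.pJ])

theorem mat_apply (H : CS D J) (α β : M → ℝ) {v : κ → ℝ} {z : M}
    (hv : ∀ a, ∑ b, D.p a b z * v b = v a) (a : κ) :
    ∑ b, (α z * D.p a b z + β z * J a b z) * v b = cv' J ⟨α z, β z⟩ v z a := by
  have h1 : ∀ b, (α z * D.p a b z + β z * J a b z) * v b =
      α z * (D.p a b z * v b) + β z * (J a b z * v b) := fun b => by ring
  simp only [h1, Finset.sum_add_distrib, ← Finset.mul_sum, hv]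
  rfl

theorem coe_MW (H : CS D J) {α β : M → ℝ} (hα : ContMDiff (𝓡 4) 𝓘(ℝ, ℝ) ∞ α)
    (hβ : ContMDiff (𝓡 4) 𝓘(ℝ, ℝ) ∞ β) (u : D.toAD.WE) :
    ∀ᵐ z ∂μM, ∀ a, rp (MW H hα hβ u) a z = cv' J ⟨α z, β z⟩ (fun b => rp u b z) z a := by
  filter_upwards [coe_mulS D D (m := fun a b z => α z * D.p a b z + β z * J a b z)
    (fun a b => (hα.mul (D.smp a b)).add (hβ.mul (H.sm a b)))
    (fun a b z => by
      have h1 : ∀ c, D.p a c z * (α z * D.p c b z + β z * J c b z) =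
        α z * (D.p a c z * D.p c b z) + β z * (D.p a c z * J c b z) := fun c => by ring
      simp only [h1, Finset.sum_add_distrib, ← Finset.mul_sum, D.idem, H.pJ]) u, sec_rp u]
    with z e1 e2 a
  refine (e1 a).trans ?_
  exact mat_apply H α β e2 a

/-- the smooth section `c u`, `c = α + i β`. -/
def mS (H : CS D J) {α β : M → ℝ} (hα : ContMDiff (𝓡 4) 𝓘(ℝ, ℝ) ∞ α)
    (hβ : ContMDiff (𝓡 4) 𝓘(ℝ, ℝ) ∞ β) (u : SmS D) : SmS D :=
  ⟨fun a z => cv' J ⟨α z, β z⟩ (fun b => u.1 b z) z a,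
    fun a => (hα.mul (u.2.1 a)).add (hβ.mul (contMDiff_finsetSum fun b _ =>
      (H.sm a b).mul (u.2.1 b))), fun a z => sec_cv H _ (fun a => u.2.2 a z) a⟩

theorem MW_cW (H : CS D J) {α β : M → ℝ} (hα : ContMDiff (𝓡 4) 𝓘(ℝ, ℝ) ∞ α)
    (hβ : ContMDiff (𝓡 4) 𝓘(ℝ, ℝ) ∞ β) (u : SmS D) :
    MW H hα hβ (cW D u) = cW D (mS H hα hβ u) := by
  refine WE_ext ?_
  filter_upwards [coe_MW H hα hβ (cW D u), rp_cW u, rp_cW (mS H hα hβ u)] with z e1 e2 e3 a
  rw [e1 a, e3 a]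
  simp only [e2]
  rfl

/-- the smooth section `i u`. -/
def jS (H : CS D J) (u : SmS D) : SmS D :=
  ⟨fun a z => jv J (fun b => u.1 b z) z a, fun a => contMDiff_finsetSum fun b _ =>
      (H.sm a b).mul (u.2.1 b), fun a z => p_jv H _ z a⟩

theorem JW_cW (H : CS D J) (u : SmS D) : JW H (cW D u) = cW D (jS H u) := by
  refine WE_ext ?_
  filter_upwards [coe_JW H (cW D u), rp_cW u, rp_cW (jS H u)] with z e1 e2 e3 a
  rw [e1 a, e3 a]
  simp only [e2]
  rfl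

theorem JH_cH (H : CS D J) (u : SmS D) : JH H (cH D u) = cH D (jS H u) := by
  refine HE_ext ?_
  filter_upwards [coe_JH H (cH D u), rf_cH u, rf_cH (jS H u)] with z e1 e2 e3 a
  rw [e1 a, e3 a]
  simp only [e2]
  rfl

/-- multiplication by a bounded measurable complex function on `L²(E)`. -/
def MH (H : CS D J) {α β : M → ℝ} (hα : BM μM α) (hβ : BM μM β) : D.toAD.HE →L[ℝ] D.toAD.HE :=
  NH hα + (NH hβ).comp (JH H)

theorem coe_MH (H : CS D J) {α β : M → ℝ} (hα : BM μM α) (hβ : BM μM β) (f : D.toAD.HE) :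
    ∀ᵐ z ∂μM, ∀ a, rf (MH H hα hβ f) a z = cv' J ⟨α z, β z⟩ (fun b => rf f b z) z a := by
  filter_upwards [rf_add (NH hα f) (NH hβ (JH H f)), coe_NH hα f, coe_NH hβ (JH H f), coe_JH H f]
    with z e1 e2 e3 e4 a
  refine (e1 a).trans ?_
  rw [e2 a, e3 a, e4 a]
  rfl

theorem MH_comp (H : CS D J) {α β α' β' α'' β'' : M → ℝ} (hα : BM μM α) (hβ : BM μM β)
    (hα' : BM μM α') (hβ' : BM μM β') (hα'' : BM μM α'') (hβ'' : BM μM β'')
    (h : ∀ z, (⟨α z, β z⟩ : ℂ) * ⟨α' z, β' z⟩ = ⟨α'' z, β'' z⟩) (f : D.toAD.HE) :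
    MH H hα hβ (MH H hα' hβ' f) = MH H hα'' hβ'' f := by
  refine HE_ext ?_
  filter_upwards [coe_MH H hα hβ (MH H hα' hβ' f), coe_MH H hα' hβ' f, coe_MH H hα'' hβ'' f,
    sec_rf f] with z e1 e2 e3 e4 a
  rw [e1 a, e3 a]
  simp only [e2]
  rw [cv_cv H _ _ e4, h]

theorem MW_comp (H : CS D J) {α β α' β' α'' β'' : M → ℝ}
    (hα : ContMDiff (𝓡 4) 𝓘(ℝ, ℝ) ∞ α) (hβ : ContMDiff (𝓡 4) 𝓘(ℝ, ℝ) ∞ β)
    (hα' : ContMDiff (𝓡 4) 𝓘(ℝ, ℝ) ∞ α') (hβ' : ContMDiff (𝓡 4) 𝓘(ℝ, ℝ) ∞ β')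
    (hα'' : ContMDiff (𝓡 4) 𝓘(ℝ, ℝ) ∞ α'') (hβ'' : ContMDiff (𝓡 4) 𝓘(ℝ, ℝ) ∞ β'')
    (h : ∀ z, (⟨α z, β z⟩ : ℂ) * ⟨α' z, β' z⟩ = ⟨α'' z, β'' z⟩) (u : D.toAD.WE) :
    MW H hα hβ (MW H hα' hβ' u) = MW H hα'' hβ'' u := by
  refine WE_ext ?_
  filter_upwards [coe_MW H hα hβ (MW H hα' hβ' u), coe_MW H hα' hβ' u, coe_MW H hα'' hβ'' u,
    sec_rp u] with z e1 e2 e3 e4 a
  rw [e1 a, e3 a]
  simp only [e2]
  rw [cv_cv H _ _ e4, h]

theorem MH_one (H : CS D J) {α β : M → ℝ} (hα : BM μM α) (hβ : BM μM β)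
    (h1 : ∀ z, α z = 1) (h2 : ∀ z, β z = 0) (f : D.toAD.HE) : MH H hα hβ f = f := by
  refine HE_ext ?_
  filter_upwards [coe_MH H hα hβ f] with z e1 a
  rw [e1 a, h1, h2]
  simp [cv']

theorem MW_one (H : CS D J) {α β : M → ℝ} (hα : ContMDiff (𝓡 4) 𝓘(ℝ, ℝ) ∞ α)
    (hβ : ContMDiff (𝓡 4) 𝓘(ℝ, ℝ) ∞ β)
    (h1 : ∀ z, α z = 1) (h2 : ∀ z, β z = 0) (u : D.toAD.WE) : MW H hα hβ u = u := by
  refine WE_ext ?_
  filter_upwards [coe_MW H hα hβ u] with z e1 a
  rw [e1 a, h1, h2]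
  simp [cv']

theorem norm_MH (H : CS D J) {α β : M → ℝ} (hα : BM μM α) (hβ : BM μM β)
    (h : ∀ z, α z ^ 2 + β z ^ 2 = 1) (f : D.toAD.HE) : ‖MH H hα hβ f‖ = ‖f‖ := by
  refine norm_eq_of_ae ?_
  filter_upwards [coe_MH H hα hβ f, sec_rf f] with z e1 e2
  simp only [e1]
  rw [norm_cv H _ e2, Complex.normSq_apply]
  simp only
  rw [← sq, ← sq, h z, one_mul]

theorem MH_JH (H : CS D J) {α β : M → ℝ} (hα : BM μM α) (hβ : BM μM β) (f : D.toAD.HE) :
    MH H hα hβ (JH H f) = JH H (MH H hα hβ f) := by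
  show NH hα (JH H f) + NH hβ (JH H (JH H f)) = JH H (NH hα f + NH hβ (JH H f))
  rw [map_add, JH_NH, JH_NH]

theorem MW_JW (H : CS D J) {α β : M → ℝ} (hα : ContMDiff (𝓡 4) 𝓘(ℝ, ℝ) ∞ α)
    (hβ : ContMDiff (𝓡 4) 𝓘(ℝ, ℝ) ∞ β) (u : D.toAD.WE) :
    MW H hα hβ (JW H u) = JW H (MW H hα hβ u) := by
  refine WE_ext ?_
  filter_upwards [coe_MW H hα hβ (JW H u), coe_JW H u, coe_JW H (MW H hα hβ u), coe_MW H hα hβ u,
    sec_rp u] with z e1 e2 e3 e4 e5 a
  rw [e1 a, e3 a]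
  simp only [e2, e4]
  rw [jv_cv H _ e5]

/-- the inclusion `W^{1,2} → L²` intertwines the multiplications. -/
theorem jj_MW (H : CS D J) {α β : M → ℝ} (hα : ContMDiff (𝓡 4) 𝓘(ℝ, ℝ) ∞ α)
    (hβ : ContMDiff (𝓡 4) 𝓘(ℝ, ℝ) ∞ β) (u : D.toAD.WE) :
    D.toAD.jj (MW H hα hβ u) = MH H (bm_smooth hα) (bm_smooth hβ) (D.toAD.jj u) := by
  refine HE_ext ?_
  filter_upwards [coe_MW H hα hβ u, coe_MH H (bm_smooth hα) (bm_smooth hβ) (D.toAD.jj u)]
    with z e1 e2 a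
  rw [e2 a]
  exact e1 a

end gen

end

end Crest.Agent.R235.SWPf_435
end

-- ▼ part R235/SWPfC_435

/-!
Row 235 (S0364), PACKAGE SW, leaf PFX (helper435), part C: the Dirac operator and the complex
structures, gauge transformations (smooth functions with values in the circle).
-/

set_option autoImplicit false
set_option maxSynthPendingDepth 3
set_option linter.unusedSectionVars false

open scoped ContDiff ENNReal NNReal Topology Manifold Bundle RealInnerProductSpace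
open MeasureTheory Set Filter Metric Bundle Module

universe v

namespace Crest.Agent.R235.SWPf_435

open Crest.Agent.R249.Tv57 Crest.Agent.R247.Ms322 Crest.Agent.R247.Dir593
open Crest.Agent.R247.Frd657
open Crest.Agent.R235.SWSym_451 Crest.Agent.R235.Fs4_546 Crest.Agent.R235.Fred_649
open Crest.Agent.R235.FamR_151 Crest.Agent.R235.SWDefs_53 Crest.Agent.R235.L4_433
open Crest.Agent.R235.Cpt_755 Crest.Agent.R275 Crest.Agent.R235.SWPfA_435

noncomputable section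

section sys

variable {M : Type v} [MetricSpace M] [CompactSpace M] [ConnectedSpace M]
  [ChartedSpace (EuclideanSpace ℝ (Fin 4)) M] [IsManifold (𝓡 4) ∞ M]
  [RiemannianBundle (fun p : M => TangentSpace (𝓡 4) p)]
  [IsContMDiffRiemannianBundle (𝓡 4) ∞ (EuclideanSpace ℝ (Fin 4))
    (fun p : M => TangentSpace (𝓡 4) p)]
  [IsRiemannianManifold (𝓡 4) M] [MeasurableSpace M] [BorelSpace M]
  [SecondCountableTopology M] [Nonempty M] [IsFiniteMeasureOnCompacts (μHE[4] : Measure M)]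
  {κ0 κ1 κT : Type} [Fintype κ0] [Fintype κ1] [Fintype κT]
  {S : SWS M κ0 κ1 κT} {cc : κ1 → κ0 → M → EuclideanSpace ℝ (Fin 4)} {J1 : κ1 → κ1 → M → ℝ}

local notation "μM" => (μHE[4] : Measure M)

theorem cs0 (H : Sym S cc) : CS S.D0 S.J := ⟨H.smJ, H.skewJ, H.pJ, H.Jsq⟩
theorem cs1 (C : CJ1 S cc J1) : CS S.D1 J1 := ⟨C.sm, C.skew, C.pJ, C.sq⟩

/-! ### Clifford multiplication -/

/-- `c(V) v`. -/
def cl' (cc : κ1 → κ0 → M → EuclideanSpace ℝ (Fin 4)) (V : EuclideanSpace ℝ (Fin 4)) (v : κ0 → ℝ)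
    (z : M) : κ1 → ℝ := fun x => ∑ y, v y * ⟪V, cc x y z⟫

theorem cl_add (V : EuclideanSpace ℝ (Fin 4)) (v w : κ0 → ℝ) (z : M) (x : κ1) :
    cl' cc V (fun y => v y + w y) z x = cl' cc V v z x + cl' cc V w z x := by
  unfold cl'
  simp only [add_mul, Finset.sum_add_distrib]

theorem cl_smul (V : EuclideanSpace ℝ (Fin 4)) (c : ℝ) (v : κ0 → ℝ) (z : M) (x : κ1) :
    cl' cc V (fun y => c * v y) z x = c * cl' cc V v z x := by
  unfold cl'
  rw [Finset.mul_sum]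
  exact Finset.sum_congr rfl fun y _ => by ring

theorem cl_vsmul (c : ℝ) (V : EuclideanSpace ℝ (Fin 4)) (v : κ0 → ℝ) (z : M) (x : κ1) :
    cl' cc (c • V) v z x = c * cl' cc V v z x := by
  unfold cl'
  rw [Finset.mul_sum]
  exact Finset.sum_congr rfl fun y _ => by rw [real_inner_smul_left]; ring

theorem cl_jv (C : CJ1 S cc J1) (V : EuclideanSpace ℝ (Fin 4)) (v : κ0 → ℝ) (z : M) (x : κ1) :
    cl' cc V (jv S.J v z) z x = jv J1 (cl' cc V v z) z x := by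
  have h1 : ∀ y, ⟪V, ∑ x', J1 x x' z • cc x' y z⟫ = ⟪V, ∑ y', S.J y' y z • cc x y' z⟫ :=
    fun y => by rw [C.cc]
  simp only [inner_sum, real_inner_smul_right] at h1
  unfold cl' jv
  simp only [Finset.mul_sum, Finset.sum_mul]
  rw [Finset.sum_comm]
  calc ∑ y, ∑ y', S.J y' y z * v y * ⟪V, cc x y' z⟫
      = ∑ y, v y * ∑ y', S.J y' y z * ⟪V, cc x y' z⟫ := by
        refine Finset.sum_congr rfl fun y _ => ?_
        rw [Finset.mul_sum]
        exact Finset.sum_congr rfl fun y' _ => by ring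
    _ = ∑ y, v y * ∑ x', J1 x x' z * ⟪V, cc x' y z⟫ := by
        refine Finset.sum_congr rfl fun y _ => ?_
        rw [h1]
    _ = ∑ x', ∑ y, J1 x x' z * (v y * ⟪V, cc x' y z⟫) := by
        simp only [Finset.mul_sum]
        rw [Finset.sum_comm]
        exact Finset.sum_congr rfl fun y _ => Finset.sum_congr rfl fun x' _ => by ring

theorem cl_cv (C : CJ1 S cc J1) (V : EuclideanSpace ℝ (Fin 4)) (c : ℂ) (v : κ0 → ℝ) (z : M)
    (x : κ1) : cl' cc V (cv' S.J c v z) z x = cv' J1 c (cl' cc V v z) z x := by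
  have h1 : cl' cc V (cv' S.J c v z) z x = cl' cc V (fun y => c.re * v y) z x +
      cl' cc V (fun y => c.im * jv S.J v z y) z x := cl_add _ _ _ z x
  rw [h1, cl_smul, cl_smul, cl_jv C]
  rfl

theorem cm_eq (H : Sym S cc) (a : κT → M → ℝ) (u : κ0 → M → ℝ) (x : κ1) (z : M) :
    S.cm a u x z = cl' cc (S.vf a z) (jv S.J (fun y => u y z) z) z x := by
  unfold SWS.cm SWS.vf cl' jv
  simp only [H.cl_eq, sum_inner, real_inner_smul_left, Finset.mul_sum, Finset.sum_mul]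
  have e1 : ∀ A : κT, (∑ y : κ0, ∑ y' : κ0,
      a A z * u y z * (⟪cc x y' z, S.s A z⟫ * S.J y' y z) : ℝ) =
      ∑ y' : κ0, ∑ y : κ0, a A z * u y z * (⟪cc x y' z, S.s A z⟫ * S.J y' y z) :=
    fun A => Finset.sum_comm
  simp only [e1]
  rw [Finset.sum_comm]
  refine Finset.sum_congr rfl fun y' _ => ?_
  refine Finset.sum_congr rfl fun A _ => ?_
  refine Finset.sum_congr rfl fun y _ => ?_
  rw [real_inner_comm (S.s A z) (cc x y' z)]
  ring

theorem cm_cv (H : Sym S cc) (C : CJ1 S cc J1) (a : κT → M → ℝ) (c : M → ℂ) (u : κ0 → M → ℝ)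
    (x : κ1) {z : M} (hu : ∀ y, ∑ b, S.D0.p y b z * u b z = u y z) :
    S.cm a (fun y z => cv' S.J (c z) (fun b => u b z) z y) x z =
      cv' J1 (c z) (fun x' => S.cm a u x' z) z x := by
  rw [cm_eq H]
  have h1 : jv S.J (fun y => cv' S.J (c z) (fun b => u b z) z y) z =
      cv' S.J (c z) (jv S.J (fun b => u b z) z) z := funext fun y => jv_cv (cs0 H) (c z) hu y
  have h2 : (fun x' => S.cm a u x' z) = cl' cc (S.vf a z) (jv S.J (fun y => u y z) z) z :=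
    funext fun x' => cm_eq H a u x' z
  rw [h1, cl_cv C, h2]

theorem smcl (H : Sym S cc) (A : κT) (x : κ1) (y : κ0) :
    ContMDiff (𝓡 4) 𝓘(ℝ, ℝ) ∞ (S.cl A x y) := by
  have h1 : S.cl A x y = fun z => ∑ y', ⟪cc x y' z, S.s A z⟫ * S.J y' y z :=
    funext fun z => H.cl_eq A x y z
  rw [h1]
  exact contMDiff_finsetSum fun y' _ => ((H.smcc x y').inner (H.sms A)).mul (H.smJ y' y)

theorem clsec (H : Sym S cc) (A : κT) (x : κ1) (y : κ0) (z : M) :
    ∑ x', S.D1.p x x' z * S.cl A x' y z = S.cl A x y z := by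
  simp only [H.cl_eq, Finset.mul_sum]
  rw [Finset.sum_comm]
  refine Finset.sum_congr rfl fun y' _ => ?_
  have h1 : ⟪∑ x', S.D1.p x x' z • cc x' y' z, S.s A z⟫ = ⟪cc x y' z, S.s A z⟫ := by rw [H.p_cc]
  rw [sum_inner] at h1
  rw [← h1, Finset.sum_mul]
  refine Finset.sum_congr rfl fun x' _ => ?_
  rw [real_inner_smul_left]
  ring

/-! ### the operator `c(θ) i` -/

/-- the matrix of `c(θ) i`. -/
def mth (S : SWS M κ0 κ1 κT) (θ : κT → M → ℝ) (x : κ1) (y : κ0) (z : M) : ℝ :=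
  ∑ A, θ A z * S.cl A x y z

theorem sm_mth (H : Sym S cc) {θ : κT → M → ℝ} (hθ : SmV (n := 4) θ) (x : κ1) (y : κ0) :
    ContMDiff (𝓡 4) 𝓘(ℝ, ℝ) ∞ (mth S θ x y) :=
  contMDiff_finsetSum fun A _ => (hθ A).mul (smcl H A x y)

theorem cm_mth (θ : κT → M → ℝ) (u : κ0 → M → ℝ) (x : κ1) (z : M) :
    ∑ y, u y z * mth S θ x y z = S.cm θ u x z := by
  unfold mth SWS.cm
  simp only [Finset.mul_sum]
  rw [Finset.sum_comm]
  exact Finset.sum_congr rfl fun A _ => Finset.sum_congr rfl fun y _ => by ring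

theorem cm_sec (H : Sym S cc) (a : κT → M → ℝ) (u : κ0 → M → ℝ) (x : κ1)
    (z : M) : ∑ x', S.D1.p x x' z * S.cm a u x' z = S.cm a u x z := by
  unfold SWS.cm
  simp only [Finset.mul_sum]
  rw [Finset.sum_comm]
  refine Finset.sum_congr rfl fun A _ => ?_
  rw [Finset.sum_comm]
  refine Finset.sum_congr rfl fun y _ => ?_
  rw [← clsec H A x y z, Finset.mul_sum]
  exact Finset.sum_congr rfl fun x' _ => by ring

/-- `c(θ) i : L²(D0) → L²(D1)`. -/
def CH (H : Sym S cc) {θ : κT → M → ℝ} (hθ : SmV (n := 4) θ) : S.D0.toAD.HE →L[ℝ] S.D1.toAD.HE :=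
  ((matR fun x y => bm_smooth (sm_mth H hθ x y)).comp S.D0.toAD.HE.subtypeL).codRestrict
    S.D1.toAD.HE fun f => by
      set F : HH μM κ1 := matR (fun x y => bm_smooth (sm_mth H hθ x y)) (f : HH μM κ0) with hF
      have h1 : ∀ᵐ z ∂μM, ∀ x, (F x : M → ℝ) z = S.cm θ (rf f) x z := by
        filter_upwards [coe_matR (fun x y => bm_smooth (sm_mth H hθ x y)) (f : HH μM κ0)]
          with z e1 x
        rw [e1 x]
        exact cm_mth θ (rf f) x z
      show S.D1.toAD.P F = F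
      ext x
      filter_upwards [S.D1.toAD.coe_P F, h1] with z e1 e2
      rw [e1 x, e2 x, ← cm_sec H]
      exact Finset.sum_congr rfl fun x' _ => by rw [e2 x']; rfl

theorem coe_CH (H : Sym S cc) {θ : κT → M → ℝ} (hθ : SmV (n := 4) θ) (f : S.D0.toAD.HE) :
    ∀ᵐ z ∂μM, ∀ x, rf (CH H hθ f) x z = S.cm θ (rf f) x z := by
  filter_upwards [coe_matR (fun x y => bm_smooth (sm_mth H hθ x y)) (f : HH μM κ0)] with z e1 x
  refine (e1 x).trans ?_
  exact cm_mth θ (rf f) x z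

theorem CH_JH (H : Sym S cc) (C : CJ1 S cc J1) {θ : κT → M → ℝ} (hθ : SmV (n := 4) θ)
    (f : S.D0.toAD.HE) : CH H hθ (JH (cs0 H) f) = JH (cs1 C) (CH H hθ f) := by
  refine HE_ext ?_
  filter_upwards [coe_CH H hθ (JH (cs0 H) f), coe_JH (cs0 H) f, coe_JH (cs1 C) (CH H hθ f),
    coe_CH H hθ f, sec_rf f] with z e1 e2 e3 e4 e5 x
  rw [e1 x, e3 x]
  simp only [e4]
  have h2 : (fun x' => S.cm θ (rf f) x' z) = cl' cc (S.vf θ z) (jv S.J (fun y => rf f y z) z) z :=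
    funext fun x' => cm_eq H θ (rf f) x' z
  rw [h2, ← cl_jv C, cm_eq H]
  simp only [e2]

theorem CH_MH (H : Sym S cc) (C : CJ1 S cc J1) {θ : κT → M → ℝ} (hθ : SmV (n := 4) θ)
    {α β : M → ℝ} (hα : BM μM α) (hβ : BM μM β) (f : S.D0.toAD.HE) :
    CH H hθ (MH (cs0 H) hα hβ f) = MH (cs1 C) hα hβ (CH H hθ f) := by
  refine HE_ext ?_
  filter_upwards [coe_CH H hθ (MH (cs0 H) hα hβ f), coe_MH (cs0 H) hα hβ f,
    coe_MH (cs1 C) hα hβ (CH H hθ f), coe_CH H hθ f, sec_rf f] with z e1 e2 e3 e4 e5 x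
  rw [e1 x, e3 x]
  simp only [e4]
  have h1 := cm_cv H C θ (fun z => ⟨α z, β z⟩) (rf f) x (z := z) e5
  rw [← h1]
  unfold SWS.cm
  simp only [e2]

/-- `c(θ) i : W^{1,2}(D0) → L²(D1)`. -/
def CW (H : Sym S cc) {θ : κT → M → ℝ} (hθ : SmV (n := 4) θ) : S.D0.toAD.WE →L[ℝ] S.D1.toAD.HE :=
  (CH H hθ).comp S.D0.toAD.jj

theorem coe_CW (H : Sym S cc) {θ : κT → M → ℝ} (hθ : SmV (n := 4) θ) (u : S.D0.toAD.WE) :
    ∀ᵐ z ∂μM, ∀ x, rf (CW H hθ u) x z = S.cm θ (rp u) x z := coe_CH H hθ (S.D0.toAD.jj u)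

theorem CW_JW (H : Sym S cc) (C : CJ1 S cc J1) {θ : κT → M → ℝ} (hθ : SmV (n := 4) θ)
    (u : S.D0.toAD.WE) : CW H hθ (JW (cs0 H) u) = JH (cs1 C) (CW H hθ u) := by
  show CH H hθ (S.D0.toAD.jj (JW (cs0 H) u)) = _
  rw [jj_JW, CH_JH H C]
  rfl

theorem CW_MW (H : Sym S cc) (C : CJ1 S cc J1) {θ : κT → M → ℝ} (hθ : SmV (n := 4) θ)
    {α β : M → ℝ} (hα : ContMDiff (𝓡 4) 𝓘(ℝ, ℝ) ∞ α) (hβ : ContMDiff (𝓡 4) 𝓘(ℝ, ℝ) ∞ β)
    (u : S.D0.toAD.WE) : CW H hθ (MW (cs0 H) hα hβ u) =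
      MH (cs1 C) (bm_smooth hα) (bm_smooth hβ) (CW H hθ u) := by
  show CH H hθ (S.D0.toAD.jj (MW (cs0 H) hα hβ u)) = _
  rw [jj_MW, CH_MH H C]
  rfl

theorem compact_CW (H : Sym S cc) {θ : κT → M → ℝ} (hθ : SmV (n := 4) θ) :
    IsCompactOperator (CW H hθ) :=
  (S.D0.toAD.compact_jj Swx_333.fried4).clm_comp (CH H hθ)

/-! ### the Dirac operator on smooth sections -/

theorem md {f : M → ℝ} (hf : ContMDiff (𝓡 4) 𝓘(ℝ, ℝ) ∞ f) (z : M) :
    MDifferentiableAt (𝓡 4) 𝓘(ℝ) f z := hf.mdifferentiableAt (by simp)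

theorem cv_add {u w : κ0 → M → ℝ} (hu : SmV (n := 4) u) (hw : SmV (n := 4) w) (y : κ0) (z : M) :
    S.D0.cv (fun a z => u a z + w a z) y z = S.D0.cv u y z + S.D0.cv w y z := by
  unfold Dat.cv
  rw [Gr_add (md (hu y) z) (md (hw y) z)]
  simp only [add_smul, Finset.sum_add_distrib]
  abel

theorem cv_mul {α : M → ℝ} (hα : ContMDiff (𝓡 4) 𝓘(ℝ, ℝ) ∞ α) {u : κ0 → M → ℝ}
    (hu : SmV (n := 4) u) (y : κ0) (z : M) :
    S.D0.cv (fun a z => α z * u a z) y z = α z • S.D0.cv u y z + u y z • Gr (n := 4) α z := by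
  unfold Dat.cv
  rw [Gr_mul (md hα z) (md (hu y) z)]
  simp only [smul_add, Finset.smul_sum, smul_smul]
  abel

theorem cv_J (H : Sym S cc) {u : κ0 → M → ℝ} (hu : SmV (n := 4) u) (y : κ0) (z : M) :
    S.D0.cv (fun a z => jv S.J (fun b => u b z) z a) y z = ∑ b, S.J y b z • S.D0.cv u b z := by
  have h1 : Gr (n := 4) (fun z => jv S.J (fun b => u b z) z y) z =
      ∑ b, (S.J y b z • Gr (n := 4) (u b) z + u b z • Gr (n := 4) (S.J y b) z) := by
    unfold jv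
    rw [SWTd_451.Gr_sum' (f := fun b z => S.J y b z * u b z) Finset.univ
      (fun b _ => (H.smJ y b).mul (hu b))]
    refine Finset.sum_congr rfl fun b _ => ?_
    exact Gr_mul (md (H.smJ y b) z) (md (hu b) z)
  have h2 : ∀ b, Gr (n := 4) (S.J y b) z =
      - ∑ c, (S.J c b z • S.D0.X y c z - S.J y c z • S.D0.X c b z) := fun b =>
    eq_neg_of_add_eq_zero_left (H.Jpar y b z)
  have h3 : S.D0.cv (fun a z => jv S.J (fun b => u b z) z a) y z =
      Gr (n := 4) (fun z => jv S.J (fun b => u b z) z y) z +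
        ∑ c, (∑ b, S.J c b z * u b z) • S.D0.X y c z := rfl
  rw [h3, h1]
  unfold Dat.cv
  simp only [h2, Finset.smul_sum, smul_sub, Finset.sum_sub_distrib, smul_add,
    Finset.sum_add_distrib, smul_smul, Finset.sum_smul, neg_sub]
  have e1 : ∑ b, ∑ c, (u b z * S.J c b z) • S.D0.X y c z =
      ∑ c, ∑ b, (S.J c b z * u b z) • S.D0.X y c z := by
    rw [Finset.sum_comm]
    exact Finset.sum_congr rfl fun c _ => Finset.sum_congr rfl fun b _ => by rw [mul_comm]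
  have e2 : ∑ b, ∑ c, (u b z * S.J y c z) • S.D0.X c b z =
      ∑ b, ∑ c, (S.J y b z * u c z) • S.D0.X b c z := by
    rw [Finset.sum_comm]
    exact Finset.sum_congr rfl fun c _ => Finset.sum_congr rfl fun b _ => by rw [mul_comm]
  rw [e1, e2]
  abel

theorem A_add (H : Sym S cc) {u w : κ0 → M → ℝ} (hu : SmV (n := 4) u) (hus : S.D0.Sec u)
    (hw : SmV (n := 4) w) (hws : S.D0.Sec w) (x : κ1) (z : M) :
    S.P.A (fun a z => u a z + w a z) x z = S.P.A u x z + S.P.A w x z := by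
  have h1 : SmV (n := 4) fun a z => u a z + w a z := fun a => (hu a).add (hw a)
  have h2 : S.D0.Sec fun a z => u a z + w a z := fun a z => by
    simp only [mul_add, Finset.sum_add_distrib, hus a z, hws a z]
  rw [H.A_eq _ h1 h2, H.A_eq u hu hus, H.A_eq w hw hws, ← Finset.sum_add_distrib]
  refine Finset.sum_congr rfl fun y _ => ?_
  rw [cv_add hu hw, inner_add_left]

theorem A_mul (H : Sym S cc) {α : M → ℝ} (hα : ContMDiff (𝓡 4) 𝓘(ℝ, ℝ) ∞ α) {u : κ0 → M → ℝ}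
    (hu : SmV (n := 4) u) (hus : S.D0.Sec u) (x : κ1) (z : M) :
    S.P.A (fun a z => α z * u a z) x z =
      α z * S.P.A u x z + cl' cc (Gr (n := 4) α z) (fun y => u y z) z x := by
  have h1 : SmV (n := 4) fun a z => α z * u a z := fun a => hα.mul (hu a)
  have h2 : S.D0.Sec fun a z => α z * u a z := fun a z => by
    have h3 : ∀ b, S.D0.p a b z * (α z * u b z) = α z * (S.D0.p a b z * u b z) := fun b => by ring
    simp only [h3, ← Finset.mul_sum, hus a z]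
  rw [H.A_eq _ h1 h2, H.A_eq u hu hus]
  unfold cl'
  rw [Finset.mul_sum, ← Finset.sum_add_distrib]
  refine Finset.sum_congr rfl fun y _ => ?_
  rw [cv_mul hα hu, inner_add_left, real_inner_smul_left, real_inner_smul_left]

theorem A_J (H : Sym S cc) (C : CJ1 S cc J1) {u : κ0 → M → ℝ} (hu : SmV (n := 4) u)
    (hus : S.D0.Sec u) (x : κ1) (z : M) :
    S.P.A (fun a z => jv S.J (fun b => u b z) z a) x z = jv J1 (fun x' => S.P.A u x' z) z x := by
  have h1 : SmV (n := 4) fun a z => jv S.J (fun b => u b z) z a := fun a =>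
    contMDiff_finsetSum fun b _ => (H.smJ a b).mul (hu b)
  have h2 : S.D0.Sec fun a z => jv S.J (fun b => u b z) z a := fun a z => p_jv (cs0 H) _ z a
  rw [H.A_eq _ h1 h2]
  have h3 : (fun x' => S.P.A u x' z) = fun x' => ∑ y, ⟪S.D0.cv u y z, cc x' y z⟫ :=
    funext fun x' => H.A_eq u hu hus x' z
  rw [h3]
  have h4 : ∀ y, ⟪S.D0.cv u y z, ∑ x', J1 x x' z • cc x' y z⟫ =
      ⟪S.D0.cv u y z, ∑ y', S.J y' y z • cc x y' z⟫ := fun y => by rw [C.cc]
  simp only [inner_sum, real_inner_smul_right] at h4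
  simp only [cv_J H hu, sum_inner, real_inner_smul_left]
  rw [Finset.sum_comm]
  simp only [← h4]
  unfold jv
  simp only [Finset.mul_sum]
  rw [Finset.sum_comm]

/-- the Leibniz rule for complex functions. -/
theorem A_cv (H : Sym S cc) (C : CJ1 S cc J1) {α β : M → ℝ}
    (hα : ContMDiff (𝓡 4) 𝓘(ℝ, ℝ) ∞ α) (hβ : ContMDiff (𝓡 4) 𝓘(ℝ, ℝ) ∞ β)
    {u : κ0 → M → ℝ} (hu : SmV (n := 4) u) (hus : S.D0.Sec u) (x : κ1) (z : M) :
    S.P.A (fun a z => cv' S.J ⟨α z, β z⟩ (fun b => u b z) z a) x z =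
      cv' J1 ⟨α z, β z⟩ (fun x' => S.P.A u x' z) z x +
        (cl' cc (Gr (n := 4) α z) (fun y => u y z) z x +
          cl' cc (Gr (n := 4) β z) (jv S.J (fun y => u y z) z) z x) := by
  have h1 : SmV (n := 4) fun a z => jv S.J (fun b => u b z) z a := fun a =>
    contMDiff_finsetSum fun b _ => (H.smJ a b).mul (hu b)
  have h2 : S.D0.Sec fun a z => jv S.J (fun b => u b z) z a := fun a z => p_jv (cs0 H) _ z a
  have h3 : ∀ {γ : M → ℝ} {w : κ0 → M → ℝ}, S.D0.Sec w → S.D0.Sec fun a z => γ z * w a z := by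
    intro γ w hw a z
    have h4 : ∀ b, S.D0.p a b z * (γ z * w b z) = γ z * (S.D0.p a b z * w b z) := fun b => by ring
    simp only [h4, ← Finset.mul_sum, hw a z]
  have h5 := A_add H (u := fun a z => α z * u a z)
    (w := fun a z => β z * jv S.J (fun b => u b z) z a)
    (fun a => hα.mul (hu a)) (h3 hus) (fun a => hβ.mul (h1 a)) (h3 h2) x z
  have h6 := A_mul H hα hu hus x z
  have h7 := A_mul H hβ h1 h2 x z
  rw [A_J H C hu hus] at h7
  refine h5.trans ?_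
  rw [h6, h7]
  unfold cv'
  simp only
  have h8 : (fun y => jv S.J (fun b => u b z) z y) = jv S.J (fun y => u y z) z := rfl
  rw [h8]
  ring

/-! ### on `W^{1,2}` -/

theorem Ah_JW (H : Sym S cc) (C : CJ1 S cc J1) (u : S.D0.toAD.WE) :
    Ah S.P (JW (cs0 H) u) = JH (cs1 C) (Ah S.P u) := by
  have h1 : (fun u : S.D0.toAD.WE => Ah S.P (JW (cs0 H) u)) =
      fun u => JH (cs1 C) (Ah S.P u) := by
    refine (dns4 S.D0).equalizer ((Ah S.P).continuous.comp (JW (cs0 H)).continuous)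
      ((JH (cs1 C)).continuous.comp (Ah S.P).continuous) (funext fun w => ?_)
    show Ah S.P (JW (cs0 H) (cW S.D0 w)) = JH (cs1 C) (Ah S.P (cW S.D0 w))
    rw [JW_cW, Ah_cW (dns4 S.D0), Ah_cW (dns4 S.D0), JH_cH]
    congr 1
    apply Subtype.ext
    funext x z
    exact A_J H C w.2.1 w.2.2 x z
  exact congrFun h1 u

/-- **the gauge transformation** of the Dirac operator. -/
theorem Ah_MW (H : Sym S cc) (C : CJ1 S cc J1) {θ : κT → M → ℝ} (hθ : SmV (n := 4) θ)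
    {α β : M → ℝ} (hα : ContMDiff (𝓡 4) 𝓘(ℝ, ℝ) ∞ α) (hβ : ContMDiff (𝓡 4) 𝓘(ℝ, ℝ) ∞ β)
    (h1 : ∀ z, Gr (n := 4) α z = β z • S.vf θ z)
    (h2 : ∀ z, Gr (n := 4) β z = -(α z) • S.vf θ z) (u : S.D0.toAD.WE) :
    Ah S.P (MW (cs0 H) hα hβ u) + CW H hθ (MW (cs0 H) hα hβ u) =
      MH (cs1 C) (bm_smooth hα) (bm_smooth hβ) (Ah S.P u) := by
  have h3 : (fun u : S.D0.toAD.WE => Ah S.P (MW (cs0 H) hα hβ u) +
      CW H hθ (MW (cs0 H) hα hβ u)) =
      fun u => MH (cs1 C) (bm_smooth hα) (bm_smooth hβ) (Ah S.P u) := by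
    refine (dns4 S.D0).equalizer (((Ah S.P).continuous.comp (MW (cs0 H) hα hβ).continuous).add
      ((CW H hθ).continuous.comp (MW (cs0 H) hα hβ).continuous))
      ((MH (cs1 C) (bm_smooth hα) (bm_smooth hβ)).continuous.comp (Ah S.P).continuous)
      (funext fun w => ?_)
    show Ah S.P (MW (cs0 H) hα hβ (cW S.D0 w)) + CW H hθ (MW (cs0 H) hα hβ (cW S.D0 w)) =
      MH (cs1 C) (bm_smooth hα) (bm_smooth hβ) (Ah S.P (cW S.D0 w))
    rw [MW_cW, Ah_cW (dns4 S.D0), Ah_cW (dns4 S.D0)]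
    refine HE_ext ?_
    filter_upwards [rf_add (cH S.D1 (lA S.P (mS (cs0 H) hα hβ w)))
      (CW H hθ (cW S.D0 (mS (cs0 H) hα hβ w))), rf_cH (lA S.P (mS (cs0 H) hα hβ w)),
      coe_CW H hθ (cW S.D0 (mS (cs0 H) hα hβ w)), rp_cW (mS (cs0 H) hα hβ w),
      coe_MH (cs1 C) (bm_smooth hα) (bm_smooth hβ) (cH S.D1 (lA S.P w)), rf_cH (lA S.P w)]
      with z e1 e2 e3 e4 e5 e6 x
    rw [e1 x, e2 x, e3 x, e5 x]
    simp only [e6]
    have g1 : (lA S.P (mS (cs0 H) hα hβ w)).1 x z =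
        S.P.A (fun a z => cv' S.J ⟨α z, β z⟩ (fun b => w.1 b z) z a) x z := rfl
    have g2 : ∀ x', (lA S.P w).1 x' z = S.P.A w.1 x' z := fun _ => rfl
    simp only [g2]
    rw [g1, A_cv H C hα hβ w.2.1 w.2.2, cm_eq H]
    simp only [e4]
    have g3 : jv S.J (fun y => (mS (cs0 H) hα hβ w).1 y z) z =
        cv' S.J ⟨α z, β z⟩ (jv S.J (fun y => w.1 y z) z) z := funext fun y =>
      jv_cv (cs0 H) _ (fun a => w.2.2 a z) y
    have g4 : cl' cc (S.vf θ z) (cv' S.J ⟨α z, β z⟩ (jv S.J (fun y => w.1 y z) z) z) z x =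
        α z * cl' cc (S.vf θ z) (jv S.J (fun y => w.1 y z) z) z x -
          β z * cl' cc (S.vf θ z) (fun y => w.1 y z) z x := by
      have g5 : cv' S.J ⟨α z, β z⟩ (jv S.J (fun y => w.1 y z) z) z =
          fun y => α z * jv S.J (fun y => w.1 y z) z y + (-(β z)) * w.1 y z := funext fun y => by
        unfold cv'
        rw [jv_jv (cs0 H) (fun a => w.2.2 a z)]
        ring
      rw [g5, cl_add, cl_smul, cl_smul]
      ring
    rw [g3, g4, h1, h2, cl_vsmul, cl_vsmul]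
    ring
  exact congrFun h3 u

/-! ### Fredholm property -/

theorem spec0 (H : Sym S cc) : Nonempty (Spec S.D0) := by
  obtain ⟨z⟩ := ‹Nonempty M›
  refine Swx_333.spec4 S.D0 ?_
  by_contra hcon
  push Not at hcon
  have h1 := H.rk0 z
  simp only [hcon, Finset.sum_const_zero] at h1
  norm_num at h1

theorem spec1 (H : Sym S cc) : Nonempty (Spec S.D1) := by
  obtain ⟨z⟩ := ‹Nonempty M›
  refine Swx_333.spec4 S.D1 ?_
  by_contra hcon
  push Not at hcon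
  have h1 := H.rk1 z
  simp only [hcon, Finset.sum_const_zero] at h1
  norm_num at h1

theorem fred_Ah (H : Sym S cc) : Fred685.Fred (Ah S.P) := by
  obtain ⟨S0⟩ := spec0 H
  obtain ⟨S1⟩ := spec1 H
  refine ⟨Go S.P S1, ?_, ?_⟩
  · have : FiniteDimensional ℝ (Submodule.span ℝ (Set.range fun k : S0.ker =>
        cW S.D0 (ph S0 k))) := FiniteDimensional.span_of_finite ℝ (Set.finite_range _)
    refine cpt_of_range _ (Submodule.span ℝ (Set.range fun k : S0.ker => cW S.D0 (ph S0 k)))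
      fun u => ?_
    have h1 : (1 - (Go S.P S1).comp (Ah S.P)) u =
        ∑ k ∈ S0.ker, (⟪S.D0.toAD.jj u, cH S.D0 (ph S0 k)⟫ : ℝ) • cW S.D0 (ph S0 k) := by
      show u - Go S.P S1 (Ah S.P u) = _
      rw [Go_Ah (dns4 S.D0) (dns4 S.D1) S0 S1, sub_sub_cancel]
    rw [h1]
    exact Submodule.sum_mem _ fun k hk =>
      Submodule.smul_mem _ _ (Submodule.subset_span ⟨⟨k, hk⟩, rfl⟩)
  · have : FiniteDimensional ℝ (Submodule.span ℝ (Set.range fun k : S1.ker =>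
        cH S.D1 (ph S1 k))) := FiniteDimensional.span_of_finite ℝ (Set.finite_range _)
    refine cpt_of_range _ (Submodule.span ℝ (Set.range fun k : S1.ker => cH S.D1 (ph S1 k)))
      fun f => ?_
    have h1 : (1 - (Ah S.P).comp (Go S.P S1)) f =
        ∑ k ∈ S1.ker, (⟪f, cH S.D1 (ph S1 k)⟫ : ℝ) • cH S.D1 (ph S1 k) := by
      show f - Ah S.P (Go S.P S1 f) = _
      rw [Ah_Go (dns4 S.D0) (dns4 S.D1) S1, sub_sub_cancel, Pk_apply]
    rw [h1]
    exact Submodule.sum_mem _ fun k hk =>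
      Submodule.smul_mem _ _ (Submodule.subset_span ⟨⟨k, hk⟩, rfl⟩)

end sys

end

end Crest.Agent.R235.SWPf_435
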