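import Crest.Agent.R235.L4_433
import Crest.Agent.R235.SupbA_433
import Crest.Agent.R235.SWJDefs_53

/-!
# Row 235, SW-REG (helper433): elliptic regularity of the Dirac operator with a smooth form

`regD S th` : the bundle `W⁺ ⊗ L` with the connection `∇ + i th`; `reg : REG`.
-/

set_option autoImplicit false
set_option linter.unusedSectionVars false
set_option maxSynthPendingDepth 3
open scoped ContDiff ENNReal NNReal Topology Manifold Bundle RealInnerProductSpace
open MeasureTheory Set Filter Metric Bundle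

universe v

noncomputable section
namespace Crest.Agent.R235.SWReg_433

open Crest.Agent.R247.Dir593 Crest.Agent.R247.Ms322 Crest.Agent.R247.Frd657
open Crest.Agent.R249.Tv57 Crest.Agent.R235.Dens_433 Crest.Agent.R235.Fs4_546
open Crest.Agent.R235.Dns_433 Crest.Agent.R235.SWDefs_53 Crest.Agent.R235.SWSym_451
open Crest.Agent.R235.SupbA_433 Crest.Agent.R235.L4_433

variable {M : Type v} [MetricSpace M] [CompactSpace M] [ConnectedSpace M]
  [ChartedSpace (EuclideanSpace ℝ (Fin 4)) M] [IsManifold (𝓡 4) ∞ M]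
  [RiemannianBundle (fun p : M => TangentSpace (𝓡 4) p)]
  [IsContMDiffRiemannianBundle (𝓡 4) ∞ (EuclideanSpace ℝ (Fin 4))
    (fun p : M => TangentSpace (𝓡 4) p)]
  [IsRiemannianManifold (𝓡 4) M] [MeasurableSpace M] [BorelSpace M]
  [SecondCountableTopology M] [Nonempty M] [IsFiniteMeasureOnCompacts (μHE[4] : Measure M)]
  {κ0 κ1 κT : Type} [Fintype κ0] [Fintype κ1] [Fintype κT] (S : SWS M κ0 κ1 κT)
  {cc : κ1 → κ0 → M → EuclideanSpace ℝ (Fin 4)}

theorem Jp (hsym : Sym S cc) (y y'' : κ0) (z : M) :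
    ∑ y', S.J y y' z * S.D0.p y' y'' z = S.J y y'' z := by
  rw [hsym.skewJ y y'' z, ← hsym.pJ y'' y z, ← Finset.sum_neg_distrib]
  refine Finset.sum_congr rfl fun y' _ => ?_
  rw [hsym.skewJ y y' z, S.D0.symmp y' y'' z]
  ring

theorem rhop (hsym : Sym S cc) (k : Fin 3) (y y'' : κ0) (z : M) :
    ∑ y', S.rho k y y' z * S.D0.p y' y'' z = S.rho k y y'' z := by
  rw [hsym.symrho k y y'' z, ← hsym.prho k y'' y z]
  refine Finset.sum_congr rfl fun y' _ => ?_
  rw [hsym.symrho k y y' z, S.D0.symmp y' y'' z]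
  ring

/-- the vector field of `th` -/
def Vf (th : κT → M → ℝ) (z : M) : EuclideanSpace ℝ (Fin 4) := ∑ A, th A z • S.s A z

/-- the bundle with the connection `∇ + i th` -/
def regD (hOK : S.OK) (hsym : Sym S cc) {th : κT → M → ℝ} (hth : SmV (n := 4) th)
    (hths : S.DT.Sec th) : Dat 4 M κ0 where
  X := fun y y' z => S.D0.X y y' z + S.J y y' z • Vf S th z
  Q := fun y y' z => S.D0.Q y y' z + ∑ k : Fin 3, S.H.B th k.succ z * S.rho k y y' z
  p := S.D0.p
  smX := fun a b => (S.D0.smX a b).add (SmF.smul (hOK.smJ a b)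
    (SmF.sum _ fun A _ => SmF.smul (hth A) (hOK.sms A)))
  skew := fun a b z => by
    rw [S.D0.skew a b z, hOK.skewJ a b z, neg_smul]
    abel
  smQ := fun a b => (S.D0.smQ a b).add (contMDiff_finsetSum fun k _ =>
    (S.H.smB th hth hths k.succ).mul (hOK.smrho k a b))
  symmQ := fun a b z => by
    rw [S.D0.symmQ a b z]
    congr 1
    exact Finset.sum_congr rfl fun k _ => by rw [hOK.symrho k a b z]
  smp := S.D0.smp
  symmp := S.D0.symmp
  idem := S.D0.idem
  par := fun a b z => by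
    have h1 := S.D0.par a b z
    have h2 : ∑ c, (S.D0.p c b z • (S.D0.X a c z + S.J a c z • Vf S th z) -
        S.D0.p a c z • (S.D0.X c b z + S.J c b z • Vf S th z)) =
        (∑ c, (S.D0.p c b z • S.D0.X a c z - S.D0.p a c z • S.D0.X c b z)) +
        ((∑ c, S.J a c z * S.D0.p c b z) - ∑ c, S.D0.p a c z * S.J c b z) • Vf S th z := by
      rw [sub_smul, Finset.sum_smul, Finset.sum_smul, ← Finset.sum_sub_distrib,
        ← Finset.sum_add_distrib]
      refine Finset.sum_congr rfl fun c _ => ?_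
      rw [smul_add, smul_add, smul_smul, smul_smul, mul_comm (S.J a c z)]
      abel
    rw [h2, Jp S hsym, hsym.pJ, sub_self, zero_smul, add_zero]
    exact h1
  comm := fun a b z => by
    have h1 := S.D0.comm a b z
    simp only [add_mul, mul_add, Finset.sum_add_distrib, Finset.sum_mul, Finset.mul_sum]
    rw [h1]
    congr 1
    rw [Finset.sum_comm, Finset.sum_comm (s := (Finset.univ : Finset κ0))
      (f := fun c k => S.D0.p a c z * (S.H.B th (Fin.succ k) z * S.rho k c b z))]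
    refine Finset.sum_congr rfl fun k _ => ?_
    have e1 : ∑ c, S.H.B th k.succ z * S.rho k a c z * S.D0.p c b z =
        S.H.B th k.succ z * ∑ c, S.rho k a c z * S.D0.p c b z := by
      rw [Finset.mul_sum]
      exact Finset.sum_congr rfl fun c _ => by ring
    have e2 : ∑ c, S.D0.p a c z * (S.H.B th k.succ z * S.rho k c b z) =
        S.H.B th k.succ z * ∑ c, S.D0.p a c z * S.rho k c b z := by
      rw [Finset.mul_sum]
      exact Finset.sum_congr rfl fun c _ => by ring
    rw [e1, e2, rhop S hsym, hsym.prho]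

variable (hOK : S.OK) (hsym : Sym S cc) {th : κT → M → ℝ} (hth : SmV (n := 4) th)
    (hths : S.DT.Sec th)


/-- the Weitzenboeck identity as an energy identity of `regD` -/
theorem ed_regD {u v : κ0 → M → ℝ} (hu : SmV (n := 4) u) (hus : S.D0.Sec u)
    (hv : SmV (n := 4) v) (hvs : S.D0.Sec v) :
    ∫ z, (regD S hOK hsym hth hths).ed u v z ∂(μHE[4] : Measure M) =
      Crest.Agent.R249.Tv57.ip 4 (S.P.A u + S.cm th u) (S.P.A v + S.cm th v) := by
  rw [hOK.weitz th u v hth hths hu hus hv hvs]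
  refine integral_congr_ae (Eventually.of_forall fun z => ?_)
  have hcv : ∀ (u : κ0 → M → ℝ) (y : κ0), (regD S hOK hsym hth hths).cv u y z =
      S.nab th u y z := by
    intro u y
    show Gr (n := 4) (u y) z + ∑ b, u b z • (S.D0.X y b z + S.J y b z • Vf S th z) =
      (Gr (n := 4) (u y) z + ∑ b, u b z • S.D0.X y b z) +
        (∑ y', S.J y y' z * u y' z) • Vf S th z
    rw [Finset.sum_smul, add_assoc, ← Finset.sum_add_distrib]
    congr 1
    refine Finset.sum_congr rfl fun b _ => ?_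
    rw [smul_add, smul_smul, mul_comm (u b z)]
  have hQ : ∑ a, ∑ b, (S.D0.Q a b z + ∑ k : Fin 3, S.H.B th k.succ z * S.rho k a b z) * u b z *
      v a z = (∑ y, ∑ y', S.D0.Q y y' z * u y' z * v y z) +
        ∑ k : Fin 3, S.H.B th k.succ z * ∑ y, ∑ y', S.rho k y y' z * u y z * v y' z := by
    have e1 : ∀ a b, (S.D0.Q a b z + ∑ k : Fin 3, S.H.B th k.succ z * S.rho k a b z) * u b z *
        v a z = S.D0.Q a b z * u b z * v a z +
          ∑ k : Fin 3, S.H.B th k.succ z * (S.rho k b a z * u b z * v a z) := by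
      intro a b
      rw [add_mul, add_mul, Finset.sum_mul, Finset.sum_mul]
      congr 1
      exact Finset.sum_congr rfl fun k _ => by rw [hOK.symrho k a b z]; ring
    simp only [e1, Finset.sum_add_distrib]
    congr 1
    simp only [Finset.mul_sum]
    rw [Finset.sum_congr rfl fun a _ => Finset.sum_comm, Finset.sum_comm]
    refine Finset.sum_congr rfl fun k _ => ?_
    rw [Finset.sum_comm]
  show (∑ a, ⟪(regD S hOK hsym hth hths).cv u a z, (regD S hOK hsym hth hths).cv v a z⟫) +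
    (∑ a, ∑ b, (S.D0.Q a b z + ∑ k : Fin 3, S.H.B th k.succ z * S.rho k a b z) * u b z * v a z) = _
  simp only [hcv]
  rw [hQ, ← add_assoc]

/-- smoothness of `c(th) i u` -/
theorem smcm (hOK : S.OK) {th : κT → M → ℝ} (hth : SmV (n := 4) th) {u : κ0 → M → ℝ}
    (hu : SmV (n := 4) u) : SmV (n := 4) (S.cm th u) := fun x =>
  contMDiff_finsetSum fun A _ => contMDiff_finsetSum fun y _ =>
    ((hth A).mul (hu y)).mul (hOK.smcl A x y)

/-- the transposed Clifford multiplication -/
def cmT (th : κT → M → ℝ) (g : κ1 → M → ℝ) : κ0 → M → ℝ :=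
  fun y z => ∑ x, (∑ A, th A z * S.cl A x y z) * g x z

theorem smcmT (hOK : S.OK) {th : κT → M → ℝ} (hth : SmV (n := 4) th) {g : κ1 → M → ℝ}
    (hg : SmV (n := 4) g) : SmV (n := 4) (cmT S th g) := fun y =>
  contMDiff_finsetSum fun x _ => (contMDiff_finsetSum fun A _ =>
    (hth A).mul (hOK.smcl A x y)).mul (hg x)

theorem cm_cmT (th : κT → M → ℝ) (u : κ0 → M → ℝ) (g : κ1 → M → ℝ) (z : M) :
    ∑ x, S.cm th u x z * g x z = ∑ y, u y z * cmT S th g y z := by
  simp only [SWS.cm, cmT, Finset.sum_mul, Finset.mul_sum]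
  rw [Finset.sum_comm]
  conv_rhs => rw [Finset.sum_comm]
  rw [Finset.sum_comm]
  refine Finset.sum_congr rfl fun x _ => ?_
  rw [Finset.sum_comm]
  refine Finset.sum_congr rfl fun y _ => Finset.sum_congr rfl fun A _ => ?_
  ring

/-- the identity `W^{1,2}(W⁺ ⊗ L) → W^{1,2}(regD)` -/
def TT : S.D0.toAD.WE →L[ℝ] (regD S hOK hsym hth hths).toAD.WE :=
  mulS S.D0 (regD S hOK hsym hth hths) (m := S.D0.p) S.D0.smp S.D0.idem

theorem i1_TT (w : S.D0.toAD.WE) :
    (regD S hOK hsym hth hths).toAD.i1 (TT S hOK hsym hth hths w) = S.D0.toAD.i1 w := by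
  have h1 := coe_mulS S.D0 (regD S hOK hsym hth hths) (m := S.D0.p) S.D0.smp S.D0.idem w
  have h2 := S.D0.toAD.coe_P (S.D0.toAD.i1 w)
  rw [show S.D0.toAD.P (S.D0.toAD.i1 w) = S.D0.toAD.i1 w from w.2.2] at h2
  ext a
  filter_upwards [h1, h2] with z e1 e2
  exact (e1 a).trans (e2 a).symm

theorem TT_secW {u : κ0 → M → ℝ} (hu : SmV (n := 4) u) (hs : S.D0.Sec u) :
    TT S hOK hsym hth hths (secW S.D0 hu hs) = secW (regD S hOK hsym hth hths) hu hs := by
  refine i1_injective (regD S hOK hsym hth hths).toAD ?_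
  rw [i1_TT]
  rfl

theorem smg (hOK : S.OK) (hth : SmV (n := 4) th) {v : κ0 → M → ℝ} (hv : SmV (n := 4) v)
    (hvs : S.D0.Sec v) : SmV (n := 4) (S.P.A v + S.cm th v) := fun x =>
  (S.P.smA v hv hvs x).add (smcm S hOK hth hv x)

theorem integrable_sm {ν : Type} [Fintype ν] {u v : ν → M → ℝ} (hu : SmV (n := 4) u)
    (hv : SmV (n := 4) v) : Integrable (fun z => ∑ a, u a z * v a z) (μHE[4] : Measure M) :=
  (continuous_finsetSum _ fun a _ => (hu a).continuous.mul
    (hv a).continuous).integrable_of_hasCompactSupport (HasCompactSupport.of_compactSpace _)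

/-- **the form of `regD` against a smooth section** -/
theorem frm_TT {v : κ0 → M → ℝ} (hv : SmV (n := 4) v) (hvs : S.D0.Sec v) (U : S.D0.toAD.WE) :
    frm (regD S hOK hsym hth hths).toAD (TT S hOK hsym hth hths U)
      (secW (regD S hOK hsym hth hths) hv hvs) =
    ⟪((Ah S.P U : S.D1.toAD.HE) : HH (μHE[4] : Measure M) κ1), sm2 (smg S hOK hth hv hvs)⟫ +
      ⟪S.D0.toAD.i1 U, sm2 (smcmT S hOK hth (smg S hOK hth hv hvs))⟫ := by
  have hg := smg S hOK hth hv hvs
  refine eq_of_smooth S.D0 (by norm_num)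
    (f := fun U => frm (regD S hOK hsym hth hths).toAD (TT S hOK hsym hth hths U)
      (secW (regD S hOK hsym hth hths) hv hvs))
    (g := fun U => ⟪((Ah S.P U : S.D1.toAD.HE) : HH (μHE[4] : Measure M) κ1),
        sm2 (smg S hOK hth hv hvs)⟫ +
      ⟪S.D0.toAD.i1 U, sm2 (smcmT S hOK hth (smg S hOK hth hv hvs))⟫) ?_ ?_ ?_ U
  · simp only [frm_comm (regD S hOK hsym hth hths).toAD _
      (secW (regD S hOK hsym hth hths) hv hvs)]
    exact (continuous_frm _ _).comp (TT S hOK hsym hth hths).continuous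
  · exact ((continuous_subtype_val.comp (Ah S.P).continuous).inner continuous_const).add
      (S.D0.toAD.i1.continuous.inner continuous_const)
  · intro u hu hs
    beta_reduce
    rw [TT_secW]
    refine ((frm_secW (regD S hOK hsym hth hths) hu hs hv hvs).trans
      (ed_regD S hOK hsym hth hths hu hs hv hvs)).trans ?_
    have h1 : ⟪((Ah S.P (secW S.D0 hu hs) : S.D1.toAD.HE) : HH (μHE[4] : Measure M) κ1),
        sm2 (smg S hOK hth hv hvs)⟫ =
        ∫ z, ∑ x, S.P.A u x z * (S.P.A v + S.cm th v) x z ∂(μHE[4] : Measure M) := by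
      have e1 : Ah S.P (secW S.D0 hu hs) = cH S.D1 (lA S.P ⟨u, hu, hs⟩) :=
        Ah_cW (dns S.D0 (by norm_num)) ⟨u, hu, hs⟩
      rw [e1]
      exact inner_HH (clH (S.P.A u) (S.P.smA _ hu hs)) (sm2 hg) (coe_clH _ _) (coe_sm2 hg)
    have h2 : ⟪S.D0.toAD.i1 (secW S.D0 hu hs), sm2 (smcmT S hOK hth (smg S hOK hth hv hvs))⟫ =
        ∫ z, ∑ x, S.cm th u x z * (S.P.A v + S.cm th v) x z ∂(μHE[4] : Measure M) := by
      rw [inner_HH _ _ (coe_secW S.D0 hu hs) (coe_sm2 _)]
      exact integral_congr_ae (Eventually.of_forall fun z => (cm_cmT S th u _ z).symm)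
    rw [h1, h2, ← integral_add (integrable_sm (S.P.smA _ hu hs) hg)
      (integrable_sm (smcm S hOK hth hu) hg)]
    refine integral_congr_ae (Eventually.of_forall fun z => ?_)
    simp only
    rw [← Finset.sum_add_distrib]
    refine Finset.sum_congr rfl fun x _ => ?_
    rw [← add_mul]
    rfl

/-- **REG** -/
theorem reg : REG.{v} := by
  intro M _ _ _ _ _ _ _ _ _ _ _ _ _ κ0 κ1 κT _ _ _ S cc hOK hsym th hth hths u hu hw
  obtain ⟨U, hU⟩ := hu
  set D' := regD S hOK hsym hth hths with hD'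
  have h1 := Ah_of_WkA S.P hw U hU
  have h2 : ∀ (v : κ0 → M → ℝ) (hv : SmV (n := 4) v) (hvs : D'.Sec v),
      frm D'.toAD (TT S hOK hsym hth hths U) (secW D' hv hvs) = 0 := by
    intro v hv hvs
    rw [frm_TT S hOK hsym hth hths hv hvs U, inner_HH _ _ h1 (coe_sm2 _),
      inner_HH _ _ (ae_all_iff.2 hU) (coe_sm2 _)]
    have e1 : ∀ z, ∑ y, u y z * cmT S th (S.P.A v + S.cm th v) y z =
        ∑ x, S.cm th u x z * (S.P.A v + S.cm th v) x z := fun z => (cm_cmT S th u _ z).symm
    have e2 : ∀ z, ∑ x, -S.cm th u x z * (S.P.A v + S.cm th v) x z =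
        -∑ x, S.cm th u x z * (S.P.A v + S.cm th v) x z := fun z => by
      rw [← Finset.sum_neg_distrib]
      exact Finset.sum_congr rfl fun x _ => by ring
    simp only [e1, e2]
    rw [integral_neg, neg_add_cancel]
  have h3 : ∀ w : D'.toAD.WE, frm D'.toAD (TT S hOK hsym hth hths U) w = 0 := fun w =>
    eq_of_smooth D' (by norm_num) (continuous_frm D'.toAD _) continuous_const
      (g := fun _ => (0:ℝ)) h2 w
  have hV : ∀ a, D'.toAD.i1 (TT S hOK hsym hth hths U) a ∈ (gradS 4 M).V := fun a =>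
    (gradS 4 M).mem_V.2 ⟨_, (TT S hOK hsym hth hths U).2.1 a⟩
  obtain ⟨φ, hφ, hφe⟩ := smooth_rep D' hV (lam := 0) (fun v hv => by
    rw [zero_mul]
    have hv' : ∀ a, D'.toAD.P v a ∈ (gradS 4 M).V := fun a => (D'.toAD.P_mem hv a).1
    have h4 := h3 (D'.toAD.mkW (D'.toAD.P v) hv' (D'.toAD.P_P v))
    rw [frm_eq] at h4
    rw [← h4]
    exact (integral_congr_ae (D'.toAD.en_P hV hv (TT S hOK hsym hth hths U).2.2)).symm)
  rw [i1_TT S hOK hsym hth hths U] at hφe
  obtain ⟨hs, -⟩ := exists_secW S.D0 (w := U) hφ hφe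
  refine ⟨φ, hφ, hs, ?_⟩
  filter_upwards [ae_all_iff.2 hU, hφe] with z e1 e2 y
  rw [← e1 y, e2 y]

end Crest.Agent.R235.SWReg_433
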