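import Crest.Agent.R235.Tauf_433
import Crest.Agent.R235.Sob4_984
import Crest.Agent.R235.SWGen_53_Mg
import Crest.Agent.R235.SWJa_365_Mg
import Crest.Agent.R235.SWJn_900
import Crest.Agent.R235.SWReg_433
import Crest.Agent.R235.HopfM_453
import Crest.Agent.R235.SWTop_53
import Crest.Agent.R235.SWEnd_53
import Crest.Agent.R235.SwxT_333
import Crest.Agent.R235.SWNd_918_Mg
import Crest.Agent.R235.SWGeo_659
import Crest.Agent.R235.SWUni_312
import Crest.Agent.R235.FamTop2_307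
import Crest.Agent.R235.FamU_151
import Crest.Agent.R235.SWJz_333_Mg
import Crest.Agent.R235.SWJu_133
import Crest.Agent.R235.SWJ1_133
import Crest.Agent.R235.SWJqq_649_Mg
import Crest.Agent.R235.Hopf_143
import Crest.Agent.R235.SWJd_952
import Crest.Agent.R275.FredC_685
import Crest.Agent.R235.SWPfC_435

-- ▼ part R235/TaufF_433
section

/-!
# Row 235 (helper433): `TAUF`, unconditional
-/

set_option autoImplicit false
open scoped ContDiff Topology Manifold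

universe v

noncomputable section
namespace Crest.Agent.R235.TaufF_433

open Crest.Agent.R235.SWDefs_53

/-- **TAUF** : a parallel section forces `∫ F ∧ F = 0` -/
theorem tauf : TAUF.{v} :=
  Tauf_433.tauf_of fun M _ _ _ _ _ _ _ _ _ _ _ _ _ _ _ D => Sob4_984.emb4_Dat D

end Crest.Agent.R235.TaufF_433
end
end

-- ▼ part R235/ModRE_692
section

/-!
Row 235 (S0364), package SW (helper692): `CEX` from 53's `SWGen_53.ch_g`; **MODR is a theorem**.
-/

set_option autoImplicit false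
set_option maxSynthPendingDepth 3
set_option linter.unusedSectionVars false

open scoped ContDiff ENNReal NNReal Topology Manifold Bundle RealInnerProductSpace
open MeasureTheory Set Filter Metric Bundle Matrix

namespace Crest.Agent.R235.ModR_692

open Crest.Agent.R240 Crest.Agent.R240.Ch Crest.Agent.R240.Int Crest.Agent.R235.SWDefs_53
open Crest.Agent.R235.IndTri_451 Crest.Agent.R235.Tau483
open Crest.Agent.R235.SWData_451 Crest.Agent.R235.SWTn_451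
open Crest.Agent.R249.Tz805 (ToF)
open Crest.Agent.R249.Tz2_805 (PF)
open Crest.Agent.R235.Ind167
open Crest.Agent.R235.SwsL_755 Crest.Agent.R235.TwfL_755
open Crest.Agent.R235.LTwLd_774 (ldOf)
open Crest.Agent.R235.QSTri_451 (qs)

noncomputable section

variable {M : Type} [MetricSpace M] [CompactSpace M] [ConnectedSpace M]
  [ChartedSpace (EuclideanSpace ℝ (Fin 4)) M] [IsManifold (𝓡 4) ∞ M]
  [RiemannianBundle (fun p : M => TangentSpace (𝓡 4) p)]
  [IsContMDiffRiemannianBundle (𝓡 4) ∞ (EuclideanSpace ℝ (Fin 4))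
    (fun p : M => TangentSpace (𝓡 4) p)]
  [IsRiemannianManifold (𝓡 4) M] [MeasurableSpace M] [BorelSpace M]
  [SecondCountableTopology M] [Nonempty M] [IsFiniteMeasureOnCompacts (μHE[4] : Measure M)]
  {w : Trip M} {e : Fin 3 → F2 E4 M} (he : IsTri (und w) e)
  (hin : ∀ (x : M) (u v : TangentSpace 𝓘(ℝ, E4) x), inner ℝ u v = at2 (gg e) x u v)
  {N : ℕ} {p : M → Matrix (Fin N) (Fin N) ℂ} {a : Z2 M} (hp : IsLine p) (hc : IsChern p a)
  {κ : Type} [Fintype κ] (T : ToF 4 M) (s : PF 4 M κ)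

include hc in
/-- 451's `Hyp` for the concrete system, with the class of `cE`. -/
theorem hyp_g : Hyp (SL T (qs he hin) s (ldOf p hp)) T (twL (qs he hin) s (ldOf p hp)).cc
    (twL (qs he hin) s (ldOf p hp)).D0.W s.s w e (-1) (-1) (wwf (und w) e)
    (SWGen_53.cEg T s he hin (ldOf p hp)) where
  tg := SWGen_53.tg_g T s he hin (ldOf p hp)
  sym := SWGen_53.sym_g T s he hin (ldOf p hp)
  smc x y z := (twL (qs he hin) s (ldOf p hp)).smc x y z
  lt := SWGen_53.lt_g he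
  smw := SWGen_53.sm_g he
  ch _ ht := (SWGen_53.ch_g T s he hin hp (okL T (qs he hin) s (ldOf p hp)) hc ht).1

include hc in
theorem cls_g {t : E3} (ht : t ≠ 0) : cls (SWGen_53.cEg T s he hin (ldOf p hp) t) = cls a :=
  (SWGen_53.ch_g T s he hin hp (okL T (qs he hin) s (ldOf p hp)) hc ht).2

/-- **CEX**. -/
theorem cex : CEX := by
  intro M _ _ _ _ _ _ _ _ _ _ _ _ _ w e he hin N p a hp hc κ _ T s
  exact ⟨_, hyp_g he hin hp hc T s, fun t ht => cls_g he hin hp hc T s (Hyp.ne_of ht)⟩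

/-- **MODR**. -/
theorem modr : SWTop_53.MODR := modr_of_cex cex

end

end Crest.Agent.R235.ModR_692
end

-- ▼ part R235/SWJf_365
section

/-!
Row 235 (S0364), node SWJA (owner helper365): **`swja : ND → ZER → SWJA`**.
-/

set_option autoImplicit false
set_option maxSynthPendingDepth 3
set_option linter.unusedSectionVars false

open scoped ContDiff ENNReal NNReal Topology Manifold Bundle RealInnerProductSpace
open MeasureTheory Set Filter Metric Bundle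

noncomputable section

namespace Crest.Agent.R235.SWJf_365

open Crest.Agent.R249.Tv57 Crest.Agent.R247.Ms322 Crest.Agent.R247.Dir593
open Crest.Agent.R235.SWDefs_53 Crest.Agent.R235.CptB_755 Crest.Agent.R235.Fs4_546
open Crest.Agent.R235.CptC_755 Crest.Agent.R235.Cpt_755 Crest.Agent.R235.Fred_649
open Crest.Agent.R235.Swx_333 Crest.Agent.R235.SWSym_451 Crest.Agent.R235.SWJc_365
open Crest.Agent.R235.SwjAbs_844 Crest.Agent.R235.SWJq_365 Crest.Agent.R235.SWJz_365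
open Crest.Agent.R235.SWJa_365

/-- **SWJA**, from `ND` and `ZER`. -/
theorem swja (hND : ND.{0}) (hZ : ZER.{0}) : SWJA.{0} := by
  intro M _ _ _ _ _ _ _ _ _ _ _ _ _ κ0 κ1 κT _ _ _ S ec b j d ww τ C th pi U hc hg hj hH hF hfix
    d0 d1 bp hK0 hK1 hK hnum
  have hS : S.OK := hH.fam.ok
  have hd : d.Adm S := hF.adm
  obtain ⟨s0⟩ := spec_DL hS
  obtain ⟨sT⟩ := spec4 S.DT (exists_p_ne S.H s0)
  obtain ⟨HB⟩ := exists_HarB hS hK
  obtain ⟨J1, CJ⟩ := SWJ1_133.j1x M κ0 κ1 κT S ec hc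
  obtain ⟨C0, hC00, hC0⟩ := SWJn_900.supJ hS hj hd
  obtain ⟨B, hB0, hB⟩ := us_bdd hH hF.rpos
  have hm : 0 ≤ √(max C0 B) := Real.sqrt_nonneg _
  have hR : 0 < √(max C0 B) + 1 := by positivity
  have hR2 : max C0 B < (√(max C0 B) + 1) ^ 2 := by
    have h1 := Real.sq_sqrt (hC00.trans (le_max_left C0 B))
    nlinarith
  have hCR : C0 < (√(max C0 B) + 1) ^ 2 := (le_max_left _ _).trans_lt hR2
  have hsup : ∀ (h : Fin b → ℝ) (t : E3) (a : κT → M → ℝ) (u : κ0 → M → ℝ), ‖t‖ ≤ 1 →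
      TSol S (d.tw j h) (√(max C0 B) + 1) t a u →
      ∀ᵐ z ∂(μHE[4] : Measure M), ∑ y, u y z ^ 2 ≤ C0 := fun h t a u ht hT =>
    hC0 h _ hCR hR t a u ht hT
  obtain ⟨ρ, -, hρ⟩ := SWJn_900.bddJ hS hj hd s0 HB (SWJn_333.e4 _) (SWJn_333.e4 _) hR hsup
    fun h t x ht h1 h2 => (SWJn_333.zero_iff hS hj hd s0 HB hR h ht x).1 ⟨h1, h2⟩
  exact (jdata hND hZ hc hg hj hH hF hfix hK0 hK1 hnum hS hd s0 sT HB CJ hR hCR hsup ⟨ρ, hρ⟩
    fun s hs z => (hB s hs z).trans_lt ((le_max_right _ _).trans_lt hR2)).false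


end Crest.Agent.R235.SWJf_365

end
end

-- ▼ part R235/ModBE_453
section

/-!
Row 235 (S0364), PACKAGE SW, helper453: **MODB is a theorem** (344's `modb_of` + `hopfm`).
-/

set_option autoImplicit false

namespace Crest.Agent.R235.ModBE_453

/-- **MODB**. -/
theorem modb : SWTop_53.MODB := ModB_344.modb_of HopfM_453.hopfm

/-- **BPLUS** from `BPF`. -/
theorem bplus (hG : SWDefs_53.BPF.{0}) : BPLUS.{0} := SWTop_53.bplus_of hG modb

end Crest.Agent.R235.ModBE_453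
end

-- ▼ part R235/SWFin_53
section

/-!
Row 235 (S0364), PACKAGE SW (helper53): `ROOT`, `FLATK`, `SWJA`, `BPLUS`.
-/

set_option autoImplicit false

namespace Crest.Agent.R235.SWFin_53

open Crest.Agent.R235.SWDefs_53 Crest.Agent.R235.SWTop_53

universe v

/-- the abstract existence theorem. -/
theorem swx : SWX.{v} := Swx_333.swx_of SupbF_433.supb

theorem geox : GEOX.{v} := SWEnd_53.geox_of swx TauxF_433.taux TaufF_433.tauf

theorem uni : UNI.{v} := SWUni_312.uni_of TauxF_433.taux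

theorem zer : ZER.{v} := SWZer_463.zer_of uni SWReg_433.reg

/-- **ROOT**. -/
theorem root : ROOT.{0} := root_of geox ModR_692.modr

/-- **FLATK**. -/
theorem flatk : FLATK.{0} := flatk_of (SWGeo_659.geofl_of swx SWReg_433.reg uni) ModF_53.modf

/-- **SWJA**. -/
theorem swja : SWJA.{0} := SWJf_365.swja SWNd_918.nd zer

/-- **BPLUS**. -/
theorem bplus : BPLUS.{0} := bplus_of (SWGeo_659.bpf_of swja) ModBE_453.modb

end Crest.Agent.R235.SWFin_53
end

-- ▼ part R235/FvA_844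
section

/-!
Row 235 (S0364), PACKAGE FAM (helper844): translation of the Seiberg-Witten system over the Jacobian
torus through `Rep`: the abstract data `SWd` of `FamT_151`.
-/

set_option autoImplicit false
set_option maxSynthPendingDepth 3
set_option linter.unusedSectionVars false

open scoped ContDiff ENNReal NNReal Topology Manifold Bundle RealInnerProductSpace
open MeasureTheory Set Filter Metric Bundle Module

universe v

namespace Crest.Agent.R235.FvA_844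

open Crest.Agent.R249.Tv57 Crest.Agent.R247.Ms322 Crest.Agent.R247.Dir593
open Crest.Agent.R235.SWDefs_53 Crest.Agent.R235.CptB_755 Crest.Agent.R235.Fs4_546
open Crest.Agent.R235.CptC_755 Crest.Agent.R235.Cpt_755 Crest.Agent.R235.Fred_649
open Crest.Agent.R235.Swx_333 Crest.Agent.R235.SWSym_451 Crest.Agent.R235.SWJc_365
open Crest.Agent.R235.FamR_151 Crest.Agent.R235.SWJn_333 Crest.Agent.R235.SWJu_133

noncomputable section

local notation "ipp" => Crest.Agent.R249.Tv57.ip 4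

section main

variable {M : Type v} [MetricSpace M] [CompactSpace M] [ConnectedSpace M]
  [ChartedSpace (EuclideanSpace ℝ (Fin 4)) M] [IsManifold (𝓡 4) ∞ M]
  [RiemannianBundle (fun p : M => TangentSpace (𝓡 4) p)]
  [IsContMDiffRiemannianBundle (𝓡 4) ∞ (EuclideanSpace ℝ (Fin 4))
    (fun p : M => TangentSpace (𝓡 4) p)]
  [IsRiemannianManifold (𝓡 4) M] [MeasurableSpace M] [BorelSpace M]
  [SecondCountableTopology M] [Nonempty M] [IsFiniteMeasureOnCompacts (μHE[4] : Measure M)]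
  {κ0 κ1 κT : Type} [Fintype κ0] [Fintype κ1] [Fintype κT] {b bp : ℕ}
  {S : SWS M κ0 κ1 κT} {cc : κ1 → κ0 → M → EuclideanSpace ℝ (Fin 4)} {J1 : κ1 → κ1 → M → ℝ}
  {j : JD M κT b} {d : SWD M κT}
  {X Y : Type v} [NormedAddCommGroup X] [InnerProductSpace ℂ X] [CompleteSpace X]
  [NormedAddCommGroup Y] [InnerProductSpace ℂ Y] [CompleteSpace Y]
  {Φ : PFam b X Y} {eX : X ≃L[ℝ] S.D0.toAD.WE} {eY : Y ≃L[ℝ] S.D1.toAD.HE} {φ : Fin b → M → ℝ}

/-! ### linear algebra of the identifications -/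

/-- `z x = (re z) x + (im z) (i x)`. -/
theorem smul_split {E : Type*} [NormedAddCommGroup E] [InnerProductSpace ℂ E] (z : ℂ) (x : E) :
    z • x = z.re • x + z.im • (Complex.I • x) := by
  conv_lhs => rw [← Complex.re_add_im z]
  rw [add_smul, mul_smul]
  rfl

theorem coe_add_smul {κ : Type} [Fintype κ] {D : Dat 4 M κ} (a c : ℝ) (f g : D.toAD.HE) :
    ∀ᵐ z ∂(μHE[4] : Measure M), ∀ y,
      (((a • f + c • g : D.toAD.HE) : HH (μHE[4] : Measure M) κ) y : M → ℝ) z =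
        a * ((f : HH (μHE[4] : Measure M) κ) y : M → ℝ) z +
        c * ((g : HH (μHE[4] : Measure M) κ) y : M → ℝ) z := by
  rw [ae_all_iff]
  intro y
  have e : (((a • f + c • g : D.toAD.HE) : HH (μHE[4] : Measure M) κ) y :
      Lp ℝ 2 (μHE[4] : Measure M)) = a • ((f : HH (μHE[4] : Measure M) κ) y) +
      c • ((g : HH (μHE[4] : Measure M) κ) y) := rfl
  rw [e]
  filter_upwards [Lp.coeFn_add (a • ((f : HH (μHE[4] : Measure M) κ) y))
    (c • ((g : HH (μHE[4] : Measure M) κ) y)),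
    Lp.coeFn_smul a ((f : HH (μHE[4] : Measure M) κ) y),
    Lp.coeFn_smul c ((g : HH (μHE[4] : Measure M) κ) y)] with z e1 e2 e3
  rw [e1, Pi.add_apply, e2, e3]
  rfl

theorem rp_add_smul {κ : Type} [Fintype κ] {D : Dat 4 M κ} (a c : ℝ) (f g : D.toAD.WE) :
    ∀ᵐ z ∂(μHE[4] : Measure M), ∀ y,
      rp (a • f + c • g) y z = a * rp f y z + c * rp g y z := by
  rw [ae_all_iff]
  intro y
  have e : (D.toAD.i1 (a • f + c • g) y : Lp ℝ 2 (μHE[4] : Measure M)) =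
      a • (D.toAD.i1 f y) + c • (D.toAD.i1 g y) := by
    rw [map_add, map_smul, map_smul]
    rfl
  unfold rp
  rw [e]
  filter_upwards [Lp.coeFn_add (a • (D.toAD.i1 f y)) (c • (D.toAD.i1 g y)),
    Lp.coeFn_smul a (D.toAD.i1 f y), Lp.coeFn_smul c (D.toAD.i1 g y)] with z e1 e2 e3
  rw [e1, Pi.add_apply, e2, e3]
  rfl

/-- the complex scalars in `X`. -/
theorem rp_smul (h : Rep S j J1 Φ eX eY φ) (c : ℂ) (x : X) :
    ∀ᵐ z ∂(μHE[4] : Measure M), ∀ y,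
      rp (eX (c • x)) y z = c.re * rp (eX x) y z + c.im * S.iu (rp (eX x)) y z := by
  have e : eX (c • x) = c.re • eX x + c.im • eX (Complex.I • x) := by
    rw [smul_split, map_add, map_smul, map_smul]
  rw [e]
  filter_upwards [rp_add_smul (D := S.D0) c.re c.im (eX x) (eX (Complex.I • x)), h.iX x]
    with z e1 e2 y
  rw [e1 y, e2 y]

/-- the complex scalars in `Y`. -/
theorem coe_smulY (h : Rep S j J1 Φ eX eY φ) (c : ℂ) (f : Y) :
    ∀ᵐ z ∂(μHE[4] : Measure M), ∀ x,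
      (((eY (c • f) : S.D1.toAD.HE) : HH (μHE[4] : Measure M) κ1) x : M → ℝ) z =
        c.re * (((eY f : S.D1.toAD.HE) : HH (μHE[4] : Measure M) κ1) x : M → ℝ) z +
        c.im * ∑ x', J1 x x' z *
          (((eY f : S.D1.toAD.HE) : HH (μHE[4] : Measure M) κ1) x' : M → ℝ) z := by
  have e : eY (c • f) = c.re • eY f + c.im • eY (Complex.I • f) := by
    rw [smul_split, map_add, map_smul, map_smul]
  rw [e]
  filter_upwards [coe_add_smul (D := S.D1) c.re c.im (eY f) (eY (Complex.I • f)), h.iY f]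
    with z e1 e2 y
  rw [e1 y, e2 y]

/-- the family in the real Hilbert spaces. -/
theorem eY_D (h : Rep S j J1 Φ eX eY φ) (hS : S.OK) (hj : j.OK S) (k : Fin b → ℝ) (x : X) :
    eY (Φ.D k x) = Ah S.P (eX x) + ∑ i, k i • LI hS hj i (eX x) := by
  refine SWJz_365.he_ext ?_
  have e1 := coe_add_smul (D := S.D1) 1 1 (Ah S.P (eX x)) (∑ i, k i • LI hS hj i (eX x))
  simp only [one_smul, one_mul] at e1
  filter_upwards [h.D k x, coe_sumLI hS hj k (eX x), e1] with z f1 f2 f3 y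
  rw [f1 y, f3 y, f2 y]

/-! ### the lattice -/

/-- `g_i = exp (2π i φ_i)`. -/
theorem gj_eq (h : Rep S j J1 Φ eX eY φ) (i : Fin b) (z : M) :
    ((j.gc i z : ℂ) + (j.gs i z : ℂ) * Complex.I) =
      Complex.exp (((2 * Real.pi * φ i z : ℝ) : ℂ) * Complex.I) := by
  rw [h.cphi, h.sphi, Complex.exp_mul_I, Complex.ofReal_cos, Complex.ofReal_sin]

theorem prod_eq (h : Rep S j J1 Φ eX eY φ) (k : Fin b → ℤ) (z : M) :
    (∏ i, ((j.gc i z : ℂ) + (j.gs i z : ℂ) * Complex.I) ^ k i) =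
      Complex.exp (((2 * Real.pi * ∑ i, (k i : ℝ) * φ i z : ℝ) : ℂ) * Complex.I) := by
  simp only [gj_eq h, ← Complex.exp_int_mul]
  rw [← Complex.exp_sum]
  congr 1
  rw [Finset.mul_sum, Complex.ofReal_sum, Finset.sum_mul]
  refine Finset.sum_congr rfl fun i _ => ?_
  push_cast
  ring

theorem gre_eq (h : Rep S j J1 Φ eX eY φ) (k : Fin b → ℤ) (z : M) :
    gre j k z = Real.cos (2 * Real.pi * ∑ i, (k i : ℝ) * φ i z) := by
  unfold gre
  rw [prod_eq h, Complex.exp_ofReal_mul_I_re]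

theorem gim_eq (h : Rep S j J1 Φ eX eY φ) (k : Fin b → ℤ) (z : M) :
    gim j k z = Real.sin (2 * Real.pi * ∑ i, (k i : ℝ) * φ i z) := by
  unfold gim
  rw [prod_eq h, Complex.exp_ofReal_mul_I_im]

/-- `Th` at lattice points. -/
theorem coe_Th (h : Rep S j J1 Φ eX eY φ) (k : Fin b → ℤ) (f : Y) :
    ∀ᵐ z ∂(μHE[4] : Measure M), ∀ x,
      (((eY (Φ.Th (zv k) f) : S.D1.toAD.HE) : HH (μHE[4] : Measure M) κ1) x : M → ℝ) z =
        gre j (fun i => - k i) z *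
          (((eY f : S.D1.toAD.HE) : HH (μHE[4] : Measure M) κ1) x : M → ℝ) z +
        gim j (fun i => - k i) z * ∑ x', J1 x x' z *
          (((eY f : S.D1.toAD.HE) : HH (μHE[4] : Measure M) κ1) x' : M → ℝ) z := by
  filter_upwards [h.Th (zv k) f] with z e1 x
  rw [e1 x, gre_eq h, gim_eq h]
  have e2 : (2 * Real.pi * ∑ i, (((- k i : ℤ)) : ℝ) * φ i z) =
      -(2 * Real.pi * ∑ i, zv k i * φ i z) := by
    rw [← mul_neg, ← Finset.sum_neg_distrib]
    congr 1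
    refine Finset.sum_congr rfl fun i _ => ?_
    show ((- k i : ℤ) : ℝ) * φ i z = -((k i : ℝ) * φ i z)
    push_cast
    ring
  rw [e2, Real.cos_neg, Real.sin_neg]
  ring

/-! ### the nonlinear maps -/

/-- nonlinear part of the Dirac equation. -/
def Kx (eX : X ≃L[ℝ] S.D0.toAD.WE) (eY : Y ≃L[ℝ] S.D1.toAD.HE) (hS : S.OK) (hd : d.Adm S)
    (s0 : Spec S.DL) (R : ℝ) (t : E3) (x : X) : Y := eY.symm (KP hS hd s0 R t (eX x))

/-- harmonic part of the curvature equation. -/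
def Ex (eX : X ≃L[ℝ] S.D0.toAD.WE) {hS : S.OK} (H : HarB hS bp) (d : SWD M κT) (R : ℝ) (t : E3)
    (x : X) : EuclideanSpace ℝ (Fin bp) := KA H d R t (eX x)

theorem eY_Kx (hS : S.OK) (hd : d.Adm S) (s0 : Spec S.DL) (R : ℝ) (t : E3) (x : X) :
    eY (Kx eX eY hS hd s0 R t x) = KP hS hd s0 R t (eX x) := eY.apply_symm_apply _

/-- the Dirac equation. -/
theorem dirac_iff (h : Rep S j J1 Φ eX eY φ) (hS : S.OK) (hj : j.OK S) (hd : d.Adm S)
    (s0 : Spec S.DL) (R : ℝ) (t : E3) (k : Fin b → ℝ) (x : X) :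
    Φ.D k x + Kx eX eY hS hd s0 R t x = 0 ↔
      Ah S.P (eX x) + ∑ i, k i • LI hS hj i (eX x) + KP hS hd s0 R t (eX x) = 0 := by
  rw [← eY_D h hS hj, ← eY_Kx (eX := eX) (eY := eY) hS hd s0 R t x, ← map_add]
  exact (map_eq_zero_iff eY eY.injective).symm

end main

end

end Crest.Agent.R235.FvA_844
end

-- ▼ part R235/FvB_844
section

/-!
Row 235 (S0364), PACKAGE FAM (helper844): `SWd` of `FamT_151` for the Seiberg-Witten system over the
Jacobian torus (`Kc`, `Ec` are `Kx`, `Ex`, extended by zero outside the closed unit ball).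
-/

set_option autoImplicit false
set_option maxSynthPendingDepth 3
set_option linter.unusedSectionVars false

open scoped ContDiff ENNReal NNReal Topology Manifold Bundle RealInnerProductSpace
open MeasureTheory Set Filter Metric Bundle Module

universe v

namespace Crest.Agent.R235.FvA_844

open Crest.Agent.R249.Tv57 Crest.Agent.R247.Ms322 Crest.Agent.R247.Dir593
open Crest.Agent.R235.SWDefs_53 Crest.Agent.R235.CptB_755 Crest.Agent.R235.Fs4_546
open Crest.Agent.R235.CptC_755 Crest.Agent.R235.Cpt_755 Crest.Agent.R235.Fred_649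
open Crest.Agent.R235.Swx_333 Crest.Agent.R235.SWSym_451 Crest.Agent.R235.SWJc_365
open Crest.Agent.R235.FamR_151 Crest.Agent.R235.SWJn_333 Crest.Agent.R235.SWJu_133

noncomputable section

local notation "ipp" => Crest.Agent.R249.Tv57.ip 4

section main

variable {M : Type v} [MetricSpace M] [CompactSpace M] [ConnectedSpace M]
  [ChartedSpace (EuclideanSpace ℝ (Fin 4)) M] [IsManifold (𝓡 4) ∞ M]
  [RiemannianBundle (fun p : M => TangentSpace (𝓡 4) p)]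
  [IsContMDiffRiemannianBundle (𝓡 4) ∞ (EuclideanSpace ℝ (Fin 4))
    (fun p : M => TangentSpace (𝓡 4) p)]
  [IsRiemannianManifold (𝓡 4) M] [MeasurableSpace M] [BorelSpace M]
  [SecondCountableTopology M] [Nonempty M] [IsFiniteMeasureOnCompacts (μHE[4] : Measure M)]
  {κ0 κ1 κT : Type} [Fintype κ0] [Fintype κ1] [Fintype κT] {b bp : ℕ}
  {S : SWS M κ0 κ1 κT} {cc : κ1 → κ0 → M → EuclideanSpace ℝ (Fin 4)} {J1 : κ1 → κ1 → M → ℝ}
  {j : JD M κT b} {d : SWD M κT}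
  {X Y : Type v} [NormedAddCommGroup X] [InnerProductSpace ℂ X] [CompleteSpace X]
  [NormedAddCommGroup Y] [InnerProductSpace ℂ Y] [CompleteSpace Y]
  {Φ : PFam b X Y} {eX : X ≃L[ℝ] S.D0.toAD.WE} {eY : Y ≃L[ℝ] S.D1.toAD.HE} {φ : Fin b → M → ℝ}

/-- `Kx`, extended by zero. -/
def Kc (eX : X ≃L[ℝ] S.D0.toAD.WE) (eY : Y ≃L[ℝ] S.D1.toAD.HE) (hS : S.OK) (hd : d.Adm S)
    (s0 : Spec S.DL) (R : ℝ) (t : E3) (x : X) : Y :=
  open scoped Classical in if ‖t‖ ≤ 1 then Kx eX eY hS hd s0 R t x else 0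

/-- `Ex`, extended by zero. -/
def Ec (eX : X ≃L[ℝ] S.D0.toAD.WE) {hS : S.OK} (H : HarB hS bp) (d : SWD M κT) (R : ℝ) (t : E3)
    (x : X) : EuclideanSpace ℝ (Fin bp) :=
  open scoped Classical in if ‖t‖ ≤ 1 then Ex eX H d R t x else 0

theorem Kc_of {hS : S.OK} {hd : d.Adm S} {s0 : Spec S.DL} {R : ℝ} {t : E3} (ht : ‖t‖ ≤ 1) (x : X) :
    Kc eX eY hS hd s0 R t x = Kx eX eY hS hd s0 R t x := if_pos ht

theorem Ec_of {hS : S.OK} {H : HarB hS bp} {R : ℝ} {t : E3} (ht : ‖t‖ ≤ 1) (x : X) :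
    Ec eX H d R t x = Ex eX H d R t x := if_pos ht

/-- constant gauge transformations, Dirac part. -/
theorem Kx_smul (h : Rep S j J1 Φ eX eY φ) (hS : S.OK) (hc : Sym S cc) (hJ : CJ1 S cc J1)
    (hd : d.Adm S) (s0 : Spec S.DL) {R : ℝ} (hR : 0 < R) {t : E3} (ht : ‖t‖ ≤ 1) {c : ℂ}
    (hn : ‖c‖ = 1) (x : X) :
    Kx eX eY hS hd s0 R t (c • x) = c • Kx eX eY hS hd s0 R t x := by
  have hce : ∀ _ : M, c.re ^ 2 + c.im ^ 2 = 1 := fun _ => by
    have h3 := Complex.sq_norm c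
    rw [hn, Complex.normSq_apply] at h3
    linarith
  apply eY.injective
  rw [eY_Kx]
  refine PL_KKt_rot hS hd hc hJ s0 hR ht (c := fun _ => c.re) (e := fun _ => c.im) hce
    (rp_smul h c x) ?_
  filter_upwards [coe_smulY h c (Kx eX eY hS hd s0 R t x)] with z e1 l
  rw [e1 l, eY_Kx]
  rfl

/-- constant gauge transformations, curvature part. -/
theorem Ex_smul (h : Rep S j J1 Φ eX eY φ) {hS : S.OK} (hc : Sym S cc)
    (hd : d.Adm S) (H : HarB hS bp) {R : ℝ} (hR : 0 < R) {t : E3} (ht : ‖t‖ ≤ 1) {c : ℂ}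
    (hn : ‖c‖ = 1) (x : X) :
    Ex eX H d R t (c • x) = Ex eX H d R t x := by
  have hce : ∀ _ : M, c.re ^ 2 + c.im ^ 2 = 1 := fun _ => by
    have h3 := Complex.sq_norm c
    rw [hn, Complex.normSq_apply] at h3
    linarith
  unfold Ex KA
  rw [Fq_rot hS hd hc hR ht (c := fun _ => c.re) (e := fun _ => c.im) hce (rp_smul h c x)]

/-- lattice gauge transformations, Dirac part. -/
theorem Kx_U (h : Rep S j J1 Φ eX eY φ) (hS : S.OK) (hc : Sym S cc) (hJ : CJ1 S cc J1)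
    (hj : j.OK S) (hd : d.Adm S) (s0 : Spec S.DL) {R : ℝ} (hR : 0 < R) {t : E3} (ht : ‖t‖ ≤ 1)
    (k : Fin b → ℤ) (x : X) :
    Kx eX eY hS hd s0 R t (Φ.U k x) = Φ.Th (zv k) (Kx eX eY hS hd s0 R t x) := by
  apply eY.injective
  rw [eY_Kx]
  refine PL_KKt_gau hj.unit hS hd hc hJ s0 hR ht (fun i => - k i) (h.U k x) ?_
  filter_upwards [coe_Th h k (Kx eX eY hS hd s0 R t x)] with z e1 l
  rw [e1 l, eY_Kx]
  rfl

/-- lattice gauge transformations, curvature part. -/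
theorem Ex_U (h : Rep S j J1 Φ eX eY φ) {hS : S.OK} (hc : Sym S cc)
    (hj : j.OK S) (hd : d.Adm S) (H : HarB hS bp) {R : ℝ} (hR : 0 < R) {t : E3} (ht : ‖t‖ ≤ 1)
    (k : Fin b → ℤ) (x : X) :
    Ex eX H d R t (Φ.U k x) = Ex eX H d R t x := by
  unfold Ex KA
  rw [Fq_gau hj.unit hS hd hc hR ht (fun i => - k i) (h.U k x)]

/-- **the abstract data.** -/
theorem swd (h : Rep S j J1 Φ eX eY φ) (hS : S.OK) (hc : Sym S cc) (hJ : CJ1 S cc J1)
    (hj : j.OK S) (hd : d.Adm S) (s0 : Spec S.DL) (H : HarB hS bp) {R C0 : ℝ} (hR : 0 < R)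
    (hsup : ∀ (h : Fin b → ℝ) (t : E3) (a : κT → M → ℝ) (u : κ0 → M → ℝ), ‖t‖ ≤ 1 →
      TSol S (d.tw j h) R t a u → ∀ᵐ z ∂(μHE[4] : Measure M), ∑ y, u y z ^ 2 ≤ C0) :
    SWd Φ (Kc eX eY hS hd s0 R) (Ec eX H d R) where
  K_cont := by
    have h1 : ContinuousOn (fun q : E3 × X => Kx eX eY hS hd s0 R q.1 q.2) {q | ‖q.1‖ ≤ 1} := by
      have h2 : ContinuousOn (fun q : E3 × X => KP hS hd s0 R q.1 (eX q.2)) {q | ‖q.1‖ ≤ 1} :=
        (cKP hS hd s0 hR).comp (f := fun q : E3 × X => (q.1, eX q.2))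
          (continuous_fst.prodMk (eX.continuous.comp continuous_snd)).continuousOn (fun q hq => hq)
      exact eY.symm.continuous.comp_continuousOn h2
    exact h1.congr fun q hq => Kc_of hq _
  K_cpt ρ := by
    obtain ⟨C, hC, h1⟩ := cptP hS hd s0 hR (‖(eX : X →L[ℝ] S.D0.toAD.WE)‖ * ρ)
    refine ⟨eY.symm '' C, hC.image eY.symm.continuous, fun t x ht hx => ?_⟩
    rw [Kc_of ht]
    refine ⟨_, h1 t (eX x) ht ?_, rfl⟩
    exact ((eX : X →L[ℝ] S.D0.toAD.WE).le_opNorm x).trans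
      (mul_le_mul_of_nonneg_left hx (norm_nonneg _))
  K_eq t x z hz := by
    by_cases ht : ‖t‖ ≤ 1
    · rw [Kc_of ht, Kc_of ht, Kx_smul h hS hc hJ hd s0 hR ht hz]
    · unfold Kc
      rw [if_neg ht, if_neg ht, smul_zero]
  K_U t k x := by
    by_cases ht : ‖t‖ ≤ 1
    · rw [Kc_of ht, Kc_of ht, Kx_U h hS hc hJ hj hd s0 hR ht]
    · unfold Kc
      rw [if_neg ht, if_neg ht, map_zero]
  Ec_cont := by
    have h1 : ContinuousOn (fun q : E3 × X => Ex eX H d R q.1 q.2) {q | ‖q.1‖ ≤ 1} :=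
      (cKA hd H hR).comp (f := fun q : E3 × X => (q.1, eX q.2))
        (continuous_fst.prodMk (eX.continuous.comp continuous_snd)).continuousOn (fun q hq => hq)
    exact h1.congr fun q hq => Ec_of hq _
  Ec_eq t x z hz := by
    by_cases ht : ‖t‖ ≤ 1
    · rw [Ec_of ht, Ec_of ht, Ex_smul h hc hd H hR ht hz]
    · unfold Ec
      rw [if_neg ht, if_neg ht]
  Ec_U t k x := by
    by_cases ht : ‖t‖ ≤ 1
    · rw [Ec_of ht, Ec_of ht, Ex_U h hc hj hd H hR ht]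
    · unfold Ec
      rw [if_neg ht, if_neg ht]
  bdd := by
    obtain ⟨ρ, hρ0, hρ⟩ := SWJn_900.bddJ hS hj hd s0 H (e4 _) (e4 _) hR hsup
      fun h t x ht h1 h2 => (zero_iff hS hj hd s0 H hR h ht x).1 ⟨h1, h2⟩
    refine ⟨‖(eX.symm : S.D0.toAD.WE →L[ℝ] X)‖ * ρ, fun t k x ht hk h1 h2 => ?_⟩
    rw [Ec_of ht] at h1
    rw [Kc_of ht] at h2
    have h3 := hρ t k (eX x) ht (fun i => ⟨hk.1 i, hk.2 i⟩) h1
      ((dirac_iff h hS hj hd s0 R t k x).1 h2)
    have h4 : x = eX.symm (eX x) := (eX.symm_apply_apply x).symm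
    conv_lhs => rw [h4]
    exact ((eX.symm : S.D0.toAD.WE →L[ℝ] X).le_opNorm (eX x)).trans
      (mul_le_mul_of_nonneg_left h3 (norm_nonneg _))

/-- a zero over the closed ball is a bounded solution of the twisted system. -/
theorem sol_of_zero (h : Rep S j J1 Φ eX eY φ) (hS : S.OK) (hj : j.OK S) (hd : d.Adm S)
    (s0 : Spec S.DL) (H : HarB hS bp) {R C0 : ℝ} (hR : 0 < R) (hC : C0 < R ^ 2)
    (hsup : ∀ (h : Fin b → ℝ) (t : E3) (a : κT → M → ℝ) (u : κ0 → M → ℝ), ‖t‖ ≤ 1 →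
      TSol S (d.tw j h) R t a u → ∀ᵐ z ∂(μHE[4] : Measure M), ∑ y, u y z ^ 2 ≤ C0)
    {t : E3} (ht : ‖t‖ ≤ 1) {k : Fin b → ℝ} {x : X} (h1 : Ec eX H d R t x = 0)
    (h2 : Φ.D k x + Kc eX eY hS hd s0 R t x = 0) :
    Sol S (d.tw j k) t (rp (GG1 S s0 (Fq d R t (eX x)))) (rp (eX x)) := by
  rw [Ec_of ht] at h1
  rw [Kc_of ht] at h2
  have hT := (zero_iff hS hj hd s0 H hR k ht (eX x)).1
    ⟨h1, (dirac_iff h hS hj hd s0 R t k x).1 h2⟩
  exact sol_of_tsol hR hC hT (hsup k t _ _ ht hT)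

end main

end

end Crest.Agent.R235.FvA_844
end

-- ▼ part R235/FvX_844
section

/-!
Row 235 (S0364), PACKAGE FAM (helper844): **`fwx0c : FWX0C`**.
-/

set_option autoImplicit false
set_option maxSynthPendingDepth 3
set_option linter.unusedSectionVars false

open scoped ContDiff ENNReal NNReal Topology Manifold Bundle RealInnerProductSpace
open MeasureTheory Set Filter Metric Bundle Module

universe v

namespace Crest.Agent.R235.FvX_844

open Crest.Agent.R249.Tv57 Crest.Agent.R247.Ms322 Crest.Agent.R247.Dir593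
open Crest.Agent.R235.SWDefs_53 Crest.Agent.R235.CptB_755 Crest.Agent.R235.Fs4_546
open Crest.Agent.R235.CptC_755 Crest.Agent.R235.Cpt_755 Crest.Agent.R235.Fred_649
open Crest.Agent.R235.Swx_333 Crest.Agent.R235.SWSym_451 Crest.Agent.R235.SWJc_365
open Crest.Agent.R235.FamR_151 Crest.Agent.R235.SWJn_333 Crest.Agent.R235.SWJu_133
open Crest.Agent.R235.FvA_844 Crest.Agent.R235.FamTop_307 Crest.Agent.R235.FamTop2_307
open Crest.Agent.R235.FamW_307

noncomputable section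

local notation "ipp" => Crest.Agent.R249.Tv57.ip 4

section main

variable {M : Type v} [MetricSpace M] [CompactSpace M] [ConnectedSpace M]
  [ChartedSpace (EuclideanSpace ℝ (Fin 4)) M] [IsManifold (𝓡 4) ∞ M]
  [RiemannianBundle (fun p : M => TangentSpace (𝓡 4) p)]
  [IsContMDiffRiemannianBundle (𝓡 4) ∞ (EuclideanSpace ℝ (Fin 4))
    (fun p : M => TangentSpace (𝓡 4) p)]
  [IsRiemannianManifold (𝓡 4) M] [MeasurableSpace M] [BorelSpace M]
  [SecondCountableTopology M] [Nonempty M] [IsFiniteMeasureOnCompacts (μHE[4] : Measure M)]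
  {κ0 κ1 κT : Type} [Fintype κ0] [Fintype κ1] [Fintype κT] {b bp : ℕ}
  {S : SWS M κ0 κ1 κT} {d : SWD M κT}
  {X : Type v} [NormedAddCommGroup X] [InnerProductSpace ℂ X] [CompleteSpace X]
  {eX : X ≃L[ℝ] S.D0.toAD.WE}

/-- the harmonic elements `(0, w_i)`. -/
def HW (hS : S.OK) (hd : d.Adm S) (K : KerD S.DL S.H.A 4) : HarB hS 3 where
  Φ i := el hS hd i.succ
  span v := by
    obtain ⟨hfin, hrank⟩ := finrank_KrS K
    have hspan : Submodule.span ℝ (Set.range (el hS hd)) = ⊤ :=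
      (el_li hS hd).span_eq_top_of_card_eq_finrank' (by rw [hrank, Fintype.card_fin])
    have hv : v ∈ Submodule.span ℝ (Set.range (el hS hd)) := by rw [hspan]; trivial
    obtain ⟨g, hg⟩ := (Submodule.mem_span_range_iff_exists_fun ℝ).1 hv
    refine ⟨g 0, fun i => g i.succ, ?_⟩
    rw [← hg, Fin.sum_univ_succ]
    rfl


/-- the linear isomorphism `t ↦ (⟨r w_t, w_i⟩)_i`. -/
def Lr (hd : d.Adm S) : E3 ≃L[ℝ] E3 :=
  (LinearEquiv.ofBijective (gA d) (gA_bij hd)).toContinuousLinearEquiv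

theorem Lr_apply (hd : d.Adm S) (t : E3) : Lr hd t = gA d t := rfl

/-- **no zero of the reducible part on `|t| = 1`**. -/
theorem seg (hS : S.OK) (hd : d.Adm S) (K : KerD S.DL S.H.A 4) {R : ℝ} (hR : 0 < R)
    {t : E3} (ht : ‖t‖ = 1) {s : ℝ} (hs : s ∈ Icc (0 : ℝ) 1) :
    (1 - s) • Ec eX (HW hS hd K) d R t 0 + s • Lr hd t ≠ 0 := by
  have e : Ec eX (HW hS hd K) d R t 0 = hpr hd (Fq (S := S) d R t 0) := by
    rw [Ec_of ht.le]
    unfold Ex KA
    rw [map_zero]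
    rfl
  rw [e, Lr_apply]
  exact hred hd hs.1 hs.2 ht (V := hpr hd (Fq (S := S) d R t 0)) (hpr_zero hS hd hR ht.le)

end main

/-- a real vector is a vector of the unit cube plus an integral vector. -/
theorem exists_floor {b : ℕ} (h : Fin b → ℝ) :
    ∃ (h' : Fin b → ℝ) (k : Fin b → ℤ), (∀ i, 0 ≤ h' i ∧ h' i ≤ 1) ∧ h = h' + zv k :=
  ⟨fun i => Int.fract (h i), fun i => ⌊h i⌋,
    fun i => ⟨Int.fract_nonneg _, (Int.fract_lt_one _).le⟩, funext fun i => by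
      show h i = Int.fract (h i) + ((⌊h i⌋ : ℤ) : ℝ)
      rw [add_comm]
      exact (Int.floor_add_fract (h i)).symm⟩

/-- **FWX0C**. -/
theorem fwx0c : FWX0C.{v} := by
  intro M _ _ _ _ _ _ _ _ _ _ _ _ _ κ0 κ1 κT _ _ _ S cc J1 j d hS hc hJ hj hd X Y _ _ _ _ _ _
    Φ eX eY φ h hind hK hno
  obtain ⟨K⟩ := hK
  obtain ⟨s0⟩ := spec_DL hS
  obtain ⟨C0, hC00, hC0⟩ := SWJn_900.supJ hS hj hd
  have hm : 0 ≤ √C0 := Real.sqrt_nonneg _
  have hR : 0 < √C0 + 1 := by positivity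
  have hCR : C0 < (√C0 + 1) ^ 2 := by
    have h1 := Real.sq_sqrt hC00
    nlinarith
  have hsup : ∀ (h : Fin 4 → ℝ) (t : E3) (a : κT → M → ℝ) (u : κ0 → M → ℝ), ‖t‖ ≤ 1 →
      TSol S (d.tw j h) (√C0 + 1) t a u →
      ∀ᵐ z ∂(μHE[4] : Measure M), ∑ y, u y z ^ 2 ≤ C0 := fun h t a u ht hT =>
    hC0 h _ hCR hR t a u ht hT
  have hw := swd h hS hc hJ hj hd s0 (HW hS hd K) hR hsup
  obtain ⟨W, hWf, hWs, n, fr, fR, fW, R', hfw, hnz⟩ := fw_nz hw (Lr hd)
    (fun t ht s hs => seg hS hd K hR ht hs) hind (by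
      intro t k x ht h1 h2
      obtain ⟨k', m, hk', rfl⟩ := exists_floor k
      have h3 := hw.shift h2
      have h4 := hw.Ec_U t (-m) x
      rw [h1] at h4
      exact hno t k' _ _ ht hk' (sol_of_zero h hS hj hd s0 (HW hS hd K) hR hCR hsup ht.le h4 h3))
  exact ⟨W, hWf, n, _, fr, Lr hd, fR, fW, R', hWs, hfw, hnz⟩

end

end Crest.Agent.R235.FvX_844
end

-- ▼ part R235/FvY_143
section

/-!
Row 235 (S0364), block FAM (helper143), for `FWXH`: the Hopf family of solutions in the complex Hilbert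
spaces.

* `eX_I`, `eX_smul`, `eX_U`: translation through `Rep`;
* `Psi` : `Ψ s = eX.symm (QQ s)`; `cPsi`, `eqPsi`, `nePsi`, `zz` : the fields of `HopfP` (`FamT_151`);
* `hopfP` : `HopfP`, from `z0` and `der` (952).
-/

set_option autoImplicit false
set_option maxSynthPendingDepth 3
set_option linter.unusedSectionVars false

open scoped ContDiff ENNReal NNReal Topology Manifold Bundle RealInnerProductSpace
open MeasureTheory Set Filter Metric Bundle Module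

universe v

noncomputable section

namespace Crest.Agent.R235.FvY_143

open Crest.Agent.R249.Tv57 Crest.Agent.R247.Ms322 Crest.Agent.R247.Dir593
open Crest.Agent.R235.SWDefs_53 Crest.Agent.R235.CptB_755 Crest.Agent.R235.Fs4_546
open Crest.Agent.R235.CptC_755 Crest.Agent.R235.Cpt_755 Crest.Agent.R235.Fred_649
open Crest.Agent.R235.Swx_333 Crest.Agent.R235.SWSym_451 Crest.Agent.R235.SWJc_365
open Crest.Agent.R235.SWJq_365 Crest.Agent.R235.SWJz_365 Crest.Agent.R235.FvA_844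
open Crest.Agent.R235.FamR_151 (PFam zv HopfP)
open Crest.Agent.R235.Hopf_143 (hopf)

abbrev C2 := EuclideanSpace ℂ (Fin 2)

section main

variable {M : Type v} [MetricSpace M] [CompactSpace M] [ConnectedSpace M]
  [ChartedSpace (EuclideanSpace ℝ (Fin 4)) M] [IsManifold (𝓡 4) ∞ M]
  [RiemannianBundle (fun p : M => TangentSpace (𝓡 4) p)]
  [IsContMDiffRiemannianBundle (𝓡 4) ∞ (EuclideanSpace ℝ (Fin 4))
    (fun p : M => TangentSpace (𝓡 4) p)]
  [IsRiemannianManifold (𝓡 4) M] [MeasurableSpace M] [BorelSpace M]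
  [SecondCountableTopology M] [Nonempty M] [IsFiniteMeasureOnCompacts (μHE[4] : Measure M)]
  {κ0 κ1 κT : Type} [Fintype κ0] [Fintype κ1] [Fintype κT] {b bp : ℕ}

variable {S : SWS M κ0 κ1 κT} {cc : κ1 → κ0 → M → EuclideanSpace ℝ (Fin 4)}
  {J1 : κ1 → κ1 → M → ℝ} {j : JD M κT b} {d : SWD M κT}
  {ww : Fin 3 → Fin 3 → M → ℝ} {τ : E3 → TD M κT} {C : ℝ} {th : E3 → κT → M → ℝ}
  {pi : C2 → E3} {U : C2 → κ0 → M → ℝ}
  {X Y : Type v} [NormedAddCommGroup X] [InnerProductSpace ℂ X] [CompleteSpace X]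
  [NormedAddCommGroup Y] [InnerProductSpace ℂ Y] [CompleteSpace Y]
  {Φ : PFam b X Y} {eX : X ≃L[ℝ] S.D0.toAD.WE} {eY : Y ≃L[ℝ] S.D1.toAD.HE}
  {φ : Fin b → M → ℝ}

/-! ### translation -/

theorem eX_I (hrep : Rep S j J1 Φ eX eY φ) (hc : Sym S cc) (x : X) :
    eX (Complex.I • x) = SWJu_435.II hc (eX x) := by
  refine we_ext ?_
  filter_upwards [hrep.iX x, SWJu_435.coe_II hc (eX x)] with z e1 e2 y
  rw [e1 y, e2 y]

theorem eX_smul (hrep : Rep S j J1 Φ eX eY φ) (hc : Sym S cc) (z : ℂ) (x : X) :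
    eX (z • x) = z.re • eX x + z.im • SWJu_435.II hc (eX x) := by
  rw [smul_split z x, map_add, map_smul, map_smul, eX_I hrep hc]

theorem eX_U (hrep : Rep S j J1 Φ eX eY φ) (hc : Sym S cc) (hj : j.OK S) (k : Fin b → ℤ) (x : X) :
    eX (Φ.U k x) = SWJu_435.UU hc hj k (eX x) := by
  refine we_ext ?_
  filter_upwards [hrep.U k x, SWJu_435.coe_UU hc hj k (eX x)] with z e1 e2 y
  rw [e1 y, e2 y]

/-! ### the family of solutions -/

/-- `Ψ s`. -/
def Psi (eX : X ≃L[ℝ] S.D0.toAD.WE) (hH : HopfD S ww τ C th pi U) (r : ℝ) (s : C2) : X :=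
  eX.symm (QQ hH r s)

theorem eX_Psi (hH : HopfD S ww τ C th pi U) (r : ℝ) (s : C2) :
    eX (Psi eX hH r s) = QQ hH r s := eX.apply_symm_apply _

theorem sphere_eq : Metric.sphere (0 : C2) 1 = {s | ‖s‖ = 1} := by
  ext s
  simp

theorem cPsi (hH : HopfD S ww τ C th pi U) (r : ℝ) :
    ContinuousOn (Psi eX hH r) (Metric.sphere 0 1) := by
  rw [sphere_eq]
  exact eX.symm.continuous.comp_continuousOn (SWJq_649.cQQ hH r)

theorem eqPsi (hrep : Rep S j J1 Φ eX eY φ) (hc : Sym S cc) (hH : HopfD S ww τ C th pi U) (r : ℝ)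
    (z : ℂ) (hz : ‖z‖ = 1) (s : C2) (hs : ‖s‖ = 1) :
    Psi eX hH r (z • s) = z • Psi eX hH r s := by
  apply eX.injective
  rw [eX_Psi, eX_smul hrep hc, eX_Psi]
  exact eqQ hH r (SWJu_435.coe_II hc) s z hs hz

theorem nePsi (hH : HopfD S ww τ C th pi U) {r : ℝ} (hr : 0 < r) (s : C2) (hs : ‖s‖ = 1) :
    Psi eX hH r s ≠ 0 := by
  intro h
  have h1 : QQ hH r s = 0 := by
    rw [← eX_Psi (eX := eX) hH r s, h, map_zero]
  have h2 := posQ hH hr hs
  rw [h1, Bl_apply] at h2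
  have h3 : S.D0.toAD.jj (0 : S.D0.toAD.WE) = 0 := map_zero _
  rw [h3, inner_zero_left] at h2
  exact lt_irrefl _ h2

/-- **the zeros over the unit sphere**. -/
theorem zz (hrep : Rep S j J1 Φ eX eY φ) (hZ : ZER.{v}) (hc : Sym S cc) (hj : j.OK S)
    (hS : S.OK) (hd : d.Adm S) (hH : HopfD S ww τ C th pi U) (hF : d.FFit S ww τ C th)
    (s0 : Spec S.DL) (H : HarB hS bp) {R C0 : ℝ} (hR : 0 < R) (hC : C0 < R ^ 2)
    (hsup : ∀ (h : Fin b → ℝ) (t : E3) (a : κT → M → ℝ) (u : κ0 → M → ℝ), ‖t‖ ≤ 1 →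
      TSol S (d.tw j h) R t a u → ∀ᵐ z ∂(μHE[4] : Measure M), ∑ y, u y z ^ 2 ≤ C0)
    (t : E3) (h : Fin b → ℝ) (x : X) (ht : ‖t‖ = 1) (h1 : Ex eX H d R t x = 0)
    (h2 : Φ.D h x + Kx eX eY hS hd s0 R t x = 0) :
    ∃ s : C2, ‖s‖ = 1 ∧ pi s = t ∧ ∃ k : Fin b → ℤ, h = zv k ∧ x = Φ.U k (Psi eX hH d.r s) := by
  rw [dirac_iff hrep hS hj] at h2
  obtain ⟨k, s, hs, hpi, hk, hx⟩ := uniq hZ hc hj hS hd hH hF s0 H hR hC
    (fun t h x ht h1 h2 => (SWJn_333.zero_iff hS hj hd s0 H hR h ht x).1 ⟨h1, h2⟩) hsup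
    (SWJu_435.UU hc hj) (SWJu_435.coe_UU hc hj) t h (eX x) ht h1 h2
  refine ⟨s, hs, hpi, k, funext hk, ?_⟩
  apply eX.injective
  rw [eX_U hrep hc hj, eX_Psi]
  exact hx

/-- **`HopfP`**, from `z0` and `der` (952). -/
theorem hopfP (hrep : Rep S j J1 Φ eX eY φ) (hZ : ZER.{v}) (hc : Sym S cc) (hj : j.OK S)
    (hS : S.OK) (hd : d.Adm S) (hH : HopfD S ww τ C th pi U) (hF : d.FFit S ww τ C th)
    (s0 : Spec S.DL) (H : HarB hS bp) {R C0 : ℝ} (hR : 0 < R) (hC : C0 < R ^ 2)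
    (hsup : ∀ (h : Fin b → ℝ) (t : E3) (a : κT → M → ℝ) (u : κ0 → M → ℝ), ‖t‖ ≤ 1 →
      TSol S (d.tw j h) R t a u → ∀ᵐ z ∂(μHE[4] : Measure M), ∑ y, u y z ^ 2 ≤ C0)
    (A : E3 ≃ₗᵢ[ℝ] E3) (hA : ∀ s, ‖s‖ = 1 → pi s = A (hopf s))
    (hz0 : Ex eX H d R (pi Hopf_143.s0) (Psi eX hH d.r Hopf_143.s0) = 0 ∧
      Φ.D 0 (Psi eX hH d.r Hopf_143.s0) +
        Kx eX eY hS hd s0 R (pi Hopf_143.s0) (Psi eX hH d.r Hopf_143.s0) = 0)
    (hder : ∃ L : ((Fin b → ℝ) × X) →L[ℝ] EuclideanSpace ℝ (Fin bp) × Y,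
      HasFDerivAt (fun w : (Fin b → ℝ) × X =>
        (Ex eX H d R (pi Hopf_143.s0) w.2,
          Φ.D w.1 w.2 + Kx eX eY hS hd s0 R (pi Hopf_143.s0) w.2)) L
        ((0 : Fin b → ℝ), Psi eX hH d.r Hopf_143.s0) ∧
      (∀ w, L w = 0 → ∃ a : ℝ, w = (0, ((a : ℂ) * Complex.I) • Psi eX hH d.r Hopf_143.s0)) ∧
      ∀ z, ∃ w, L w = z) :
    HopfP Φ (Kc eX eY hS hd s0 R) (Ec eX H d R) (fun s => A (hopf s)) (Psi eX hH d.r) := by
  have hn : ‖Hopf_143.s0‖ = 1 := Hopf_143.norm_s0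
  have e0 : A (hopf Hopf_143.s0) = pi Hopf_143.s0 := (hA _ hn).symm
  have hp0 : ‖pi Hopf_143.s0‖ ≤ 1 := (hH.npi _ hn).le
  have eK : ∀ x, Kc eX eY hS hd s0 R (A (hopf Hopf_143.s0)) x =
      Kx eX eY hS hd s0 R (pi Hopf_143.s0) x := fun x => by rw [e0, Kc_of hp0]
  have eE : ∀ x, Ec eX H d R (A (hopf Hopf_143.s0)) x =
      Ex eX H d R (pi Hopf_143.s0) x := fun x => by rw [e0, Ec_of hp0]
  exact {
    cpi := (A.continuous.comp Hopf_143.continuous_hopf).continuousOn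
    npi := fun s hs => by
      show ‖A (hopf s)‖ = 1
      rw [← hA s hs]
      exact hH.npi s hs
    piz := fun z hz s hs => by
      have h1 : ‖z • s‖ = 1 := by rw [norm_smul, hz, hs, mul_one]
      show A (hopf (z • s)) = A (hopf s)
      rw [← hA s hs, ← hA _ h1]
      exact ((hH.fpi s (z • s) hs h1).2 ⟨z, hz, rfl⟩).symm
    fib := fun s s' hs hs' h => by
      refine (hH.fpi s s' hs hs').1 ?_
      rw [hA s hs, hA s' hs']
      exact h
    cΨ := cPsi hH d.r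
    eqΨ := fun z hz s hs => eqPsi hrep hc hH d.r z hz s hs
    neΨ := fun s hs => nePsi hH hF.rpos s hs
    z0 := by
      refine ⟨(eE _).trans hz0.1, ?_⟩
      show Φ.D 0 _ + Kc eX eY hS hd s0 R (A (hopf Hopf_143.s0)) _ = 0
      rw [eK]
      exact hz0.2
    zz := fun t h x ht h1 h2 => by
      rw [Ec_of ht.le] at h1
      rw [Kc_of ht.le] at h2
      obtain ⟨s, hs, hpi, hk⟩ := zz hrep hZ hc hj hS hd hH hF s0 H hR hC hsup t h x ht h1 h2
      refine ⟨s, hs, ?_, hk⟩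
      show A (hopf s) = t
      rw [← hA s hs]
      exact hpi
    der := by
      show ∃ L : ((Fin b → ℝ) × X) →L[ℝ] EuclideanSpace ℝ (Fin bp) × Y,
        HasFDerivAt (fun w : (Fin b → ℝ) × X =>
          (Ec eX H d R (A (hopf Hopf_143.s0)) w.2,
            Φ.D w.1 w.2 + Kc eX eY hS hd s0 R (A (hopf Hopf_143.s0)) w.2)) L _ ∧ _
      simp only [eK, eE]
      exact hder }

end main

end Crest.Agent.R235.FvY_143

end
end

-- ▼ part R235/SWJo_952
section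

/-!
Row 235 (S0364), node FAM (helper952), for `FamTop_307.FWXH`: the linearisation at the parallel
section is ONTO.

* `onto_of_ker` : abstract index count: `D` Fredholm of index 0, `K` compact, `dim P = dim Q + N`,
  kernel of `(κ, v) ↦ (A v, D v + L κ + K v)` of dimension `≤ N`: the map is onto;
* `compact_KP'` : (K1);
* `LT`, `LT_apply`, `hasFDerivAt_LT` : the derivative of
  `(h, x) ↦ (KA x, Ah P x + ∑ h_i LI_i x + KP x)` at `(0, x0)`;
* `onto` : (K2), and `ker_LT : ker = ℝ (0, II x0)`.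
-/

set_option autoImplicit false
set_option maxSynthPendingDepth 3
set_option linter.unusedSectionVars false

open scoped ContDiff ENNReal NNReal Topology Manifold Bundle RealInnerProductSpace
open MeasureTheory Set Filter Metric Bundle Module

universe v

noncomputable section

namespace Crest.Agent.R235.SWJo_952

open Crest.Agent.R249.Tv57 Crest.Agent.R247.Ms322 Crest.Agent.R247.Dir593
open Crest.Agent.R235.SWDefs_53 Crest.Agent.R235.CptB_755 Crest.Agent.R235.Fs4_546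
open Crest.Agent.R235.CptC_755 Crest.Agent.R235.Cpt_755 Crest.Agent.R235.Fred_649
open Crest.Agent.R235.Swx_333 Crest.Agent.R235.SWSym_451 Crest.Agent.R235.SWJc_365
open Crest.Agent.R235.SWFre_952 Crest.Agent.R235.SWJd_952 Crest.Agent.R275

/-! ### the index count -/

section count

variable {𝕜 E F P Q : Type*} [RCLike 𝕜] [NormedAddCommGroup E] [NormedSpace 𝕜 E]
  [NormedAddCommGroup F] [NormedSpace 𝕜 F] [NormedAddCommGroup P] [NormedSpace 𝕜 P]
  [NormedAddCommGroup Q] [NormedSpace 𝕜 Q] [FiniteDimensional 𝕜 P] [FiniteDimensional 𝕜 Q]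

theorem compact_of_dom (T : P →L[𝕜] F) : IsCompactOperator T := by
  have := FiniteDimensional.proper 𝕜 P
  have h1 : IsCompactOperator (id : P → P) :=
    isCompactOperator_id_iff_locallyCompactSpace.2 inferInstance
  exact h1.clm_comp T

theorem compact_of_cod (T : E →L[𝕜] Q) : IsCompactOperator T := by
  have := FiniteDimensional.proper 𝕜 Q
  have h1 : IsCompactOperator (id : Q → Q) :=
    isCompactOperator_id_iff_locallyCompactSpace.2 inferInstance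
  exact h1.comp_clm T

/-- block map `(κ, v) ↦ (A v, D v + L κ + K v)`. -/
def blk (D K : E →L[𝕜] F) (L : P →L[𝕜] F) (A : E →L[𝕜] Q) : (P × E) →L[𝕜] Q × F :=
  (A.comp (ContinuousLinearMap.snd 𝕜 P E)).prod
    (D.comp (ContinuousLinearMap.snd 𝕜 P E) + L.comp (ContinuousLinearMap.fst 𝕜 P E) +
      K.comp (ContinuousLinearMap.snd 𝕜 P E))

omit [FiniteDimensional 𝕜 P] [FiniteDimensional 𝕜 Q] in
theorem blk_apply (D K : E →L[𝕜] F) (L : P →L[𝕜] F) (A : E →L[𝕜] Q) (w : P × E) :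
    blk D K L A w = (A w.2, D w.2 + L w.1 + K w.2) := rfl

theorem fred_prod0 {D : E →L[𝕜] F} (hD : Fred685.Fred D) :
    Fred685.Fred ((0 : P →L[𝕜] Q).prodMap D) := by
  obtain ⟨S, h1, h2⟩ := hD
  refine ⟨(0 : Q →L[𝕜] P).prodMap S, ?_, ?_⟩
  · have e : (1 : P × E →L[𝕜] P × E) - ((0 : Q →L[𝕜] P).prodMap S).comp
        ((0 : P →L[𝕜] Q).prodMap D) =
        (ContinuousLinearMap.inl 𝕜 P E).comp (ContinuousLinearMap.fst 𝕜 P E) +
        (ContinuousLinearMap.inr 𝕜 P E).comp (((1 : E →L[𝕜] E) - S.comp D).comp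
          (ContinuousLinearMap.snd 𝕜 P E)) := by
      ext w <;> simp
    rw [e]
    exact ((compact_of_dom (ContinuousLinearMap.inl 𝕜 P E)).comp_clm
      (ContinuousLinearMap.fst 𝕜 P E)).add ((h1.comp_clm (ContinuousLinearMap.snd 𝕜 P E)).clm_comp
        (ContinuousLinearMap.inr 𝕜 P E))
  · have e : (1 : Q × F →L[𝕜] Q × F) - ((0 : P →L[𝕜] Q).prodMap D).comp
        ((0 : Q →L[𝕜] P).prodMap S) =
        (ContinuousLinearMap.inl 𝕜 Q F).comp (ContinuousLinearMap.fst 𝕜 Q F) +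
        (ContinuousLinearMap.inr 𝕜 Q F).comp (((1 : F →L[𝕜] F) - D.comp S).comp
          (ContinuousLinearMap.snd 𝕜 Q F)) := by
      ext w <;> simp
    rw [e]
    exact ((compact_of_dom (ContinuousLinearMap.inl 𝕜 Q F)).comp_clm
      (ContinuousLinearMap.fst 𝕜 Q F)).add ((h2.comp_clm (ContinuousLinearMap.snd 𝕜 Q F)).clm_comp
        (ContinuousLinearMap.inr 𝕜 Q F))

omit [FiniteDimensional 𝕜 P] in
theorem idx_zero : Fred685.idx (0 : P →ₗ[𝕜] Q) = (finrank 𝕜 P : ℤ) - finrank 𝕜 Q := by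
  unfold Fred685.idx
  rw [LinearMap.ker_zero, LinearMap.range_zero, finrank_top,
    (Submodule.quotEquivOfEqBot (⊥ : Submodule 𝕜 Q) rfl).finrank_eq]

theorem finIdx_zero : Fred685.FinIdx (0 : P →ₗ[𝕜] Q) := by
  refine ⟨?_, ?_⟩ <;> infer_instance

variable [CompleteSpace E] [CompleteSpace F]

theorem ind_prod0 {D : E →L[𝕜] F} (hD : Fred685.Fred D) :
    Fred685.ind ((0 : P →L[𝕜] Q).prodMap D) =
      (finrank 𝕜 P : ℤ) - finrank 𝕜 Q + Fred685.ind D := by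
  have h := Fred685.idx_prodMap (finIdx_zero (P := P) (Q := Q) (𝕜 := 𝕜)) hD.finIdx
  rw [idx_zero] at h
  exact h

theorem blk_eq (D K : E →L[𝕜] F) (L : P →L[𝕜] F) (A : E →L[𝕜] Q) :
    blk D K L A = (0 : P →L[𝕜] Q).prodMap D + blk 0 K L A := by
  refine ContinuousLinearMap.ext fun w => ?_
  show (A w.2, D w.2 + L w.1 + K w.2) = ((0 : Q), D w.2) + (A w.2, (0 : F) + L w.1 + K w.2)
  rw [Prod.mk_add_mk]
  simp only [zero_add, add_assoc]

theorem compact_blk {K : E →L[𝕜] F} (hK : IsCompactOperator K) (L : P →L[𝕜] F) (A : E →L[𝕜] Q) :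
    IsCompactOperator (blk 0 K L A) := by
  have e : blk 0 K L A = (ContinuousLinearMap.inl 𝕜 Q F).comp (A.comp
        (ContinuousLinearMap.snd 𝕜 P E)) + (ContinuousLinearMap.inr 𝕜 Q F).comp
        (L.comp (ContinuousLinearMap.fst 𝕜 P E)) + (ContinuousLinearMap.inr 𝕜 Q F).comp
        (K.comp (ContinuousLinearMap.snd 𝕜 P E)) := by
    refine ContinuousLinearMap.ext fun w => ?_
    show (A w.2, (0 : F) + L w.1 + K w.2) = ((A w.2, (0 : F)) + ((0 : Q), L w.1)) +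
      ((0 : Q), K w.2)
    simp
  rw [e]
  exact ((((compact_of_cod A).comp_clm (ContinuousLinearMap.snd 𝕜 P E)).clm_comp
    (ContinuousLinearMap.inl 𝕜 Q F)).add (((compact_of_dom L).comp_clm
      (ContinuousLinearMap.fst 𝕜 P E)).clm_comp (ContinuousLinearMap.inr 𝕜 Q F))).add
    ((hK.comp_clm (ContinuousLinearMap.snd 𝕜 P E)).clm_comp (ContinuousLinearMap.inr 𝕜 Q F))

theorem fred_blk {D K : E →L[𝕜] F} (hD : Fred685.Fred D) (hK : IsCompactOperator K)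
    (L : P →L[𝕜] F) (A : E →L[𝕜] Q) : Fred685.Fred (blk D K L A) := by
  rw [blk_eq]
  exact (fred_prod0 hD).add_compact (compact_blk hK L A)

/-- **the index of the block map**. -/
theorem ind_blk {D K : E →L[𝕜] F} (hD : Fred685.Fred D) (hK : IsCompactOperator K)
    (L : P →L[𝕜] F) (A : E →L[𝕜] Q) :
    Fred685.ind (blk D K L A) = (finrank 𝕜 P : ℤ) - finrank 𝕜 Q + Fred685.ind D := by
  have := FiniteDimensional.complete 𝕜 P
  have := FiniteDimensional.complete 𝕜 Q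
  rw [blk_eq, Fred685.ind_add_compact (fred_prod0 hD) (compact_blk hK L A), ind_prod0 hD]

/-- **the count**: a kernel of dimension at most the index forces surjectivity. -/
theorem onto_of_ker {D K : E →L[𝕜] F} (hD : Fred685.Fred D) (hK : IsCompactOperator K)
    (L : P →L[𝕜] F) (A : E →L[𝕜] Q) {w0 : P × E}
    (hi : (finrank 𝕜 P : ℤ) + Fred685.ind D = finrank 𝕜 Q + 1)
    (hker : ∀ w, blk D K L A w = 0 → w ∈ Submodule.span 𝕜 {w0}) :
    Function.Surjective (blk D K L A) ∧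
      LinearMap.ker (blk D K L A : P × E →ₗ[𝕜] Q × F) = Submodule.span 𝕜 {w0} := by
  have := FiniteDimensional.complete 𝕜 P
  have := FiniteDimensional.complete 𝕜 Q
  obtain ⟨f1, f2⟩ := (fred_blk hD hK L A).finIdx
  have h1 := ind_blk hD hK L A
  have h2 : LinearMap.ker (blk D K L A : P × E →ₗ[𝕜] Q × F) ≤ Submodule.span 𝕜 {w0} :=
    fun w hw => hker w hw
  have h3 := Submodule.finrank_mono h2
  have h4 : finrank 𝕜 (Submodule.span 𝕜 {w0}) ≤ 1 :=
    (finrank_span_le_card ({w0} : Set (P × E))).trans (by simp)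
  unfold Fred685.ind Fred685.idx at h1
  have h5 : finrank 𝕜 ((Q × F) ⧸ LinearMap.range (blk D K L A : P × E →ₗ[𝕜] Q × F)) = 0 := by
    unfold Fred685.ind Fred685.idx at hi
    omega
  have h6 : Subsingleton ((Q × F) ⧸ LinearMap.range (blk D K L A : P × E →ₗ[𝕜] Q × F)) :=
    finrank_zero_iff.1 h5
  have h7 := Submodule.Quotient.subsingleton_iff.1 h6
  refine ⟨LinearMap.range_eq_top.1 h7, Submodule.eq_of_le_of_finrank_le h2 ?_⟩
  unfold Fred685.ind Fred685.idx at hi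
  omega

end count

section real

variable {E F Q : Type*} [NormedAddCommGroup E] [NormedSpace ℝ E]
  [NormedAddCommGroup F] [NormedSpace ℝ F] [NormedAddCommGroup Q] [NormedSpace ℝ Q] {b : ℕ}

/-- `κ ↦ ∑ κ_i l_i x`. -/
def lsum (l : Fin b → E →L[ℝ] F) (x : E) : (Fin b → ℝ) →L[ℝ] F :=
  ∑ i, (ContinuousLinearMap.proj (R := ℝ) (φ := fun _ : Fin b => ℝ) i).smulRight (l i x)

theorem lsum_apply (l : Fin b → E →L[ℝ] F) (x : E) (κ : Fin b → ℝ) :
    lsum l x κ = ∑ i, κ i • l i x := by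
  unfold lsum
  rw [_root_.sum_apply]
  rfl

theorem hasFDerivAt_blk {fA : E → Q} {A : E →L[ℝ] Q} {fK : E → F} {K : E →L[ℝ] F} {x0 : E}
    (hA : HasFDerivAt fA A x0) (hK : HasFDerivAt fK K x0) (D : E →L[ℝ] F)
    (l : Fin b → E →L[ℝ] F) :
    HasFDerivAt (fun w : (Fin b → ℝ) × E => (fA w.2, D w.2 + ∑ i, w.1 i • l i w.2 + fK w.2))
      (blk D K (lsum l x0) A) ((0 : Fin b → ℝ), x0) := by
  have e0 : HasFDerivAt (Prod.snd : (Fin b → ℝ) × E → E)
      (ContinuousLinearMap.snd ℝ (Fin b → ℝ) E) ((0 : Fin b → ℝ), x0) := hasFDerivAt_snd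
  have e1 : HasFDerivAt (fun w : (Fin b → ℝ) × E => fA w.2)
      (A.comp (ContinuousLinearMap.snd ℝ (Fin b → ℝ) E)) ((0 : Fin b → ℝ), x0) :=
    HasFDerivAt.comp (g := fA) (f := Prod.snd) ((0 : Fin b → ℝ), x0) hA e0
  have e2 : HasFDerivAt (fun w : (Fin b → ℝ) × E => fK w.2)
      (K.comp (ContinuousLinearMap.snd ℝ (Fin b → ℝ) E)) ((0 : Fin b → ℝ), x0) :=
    HasFDerivAt.comp (g := fK) (f := Prod.snd) ((0 : Fin b → ℝ), x0) hK e0
  have e3 : HasFDerivAt (fun w : (Fin b → ℝ) × E => D w.2)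
      (D.comp (ContinuousLinearMap.snd ℝ (Fin b → ℝ) E)) ((0 : Fin b → ℝ), x0) :=
    (D.comp (ContinuousLinearMap.snd ℝ (Fin b → ℝ) E)).hasFDerivAt
  have e4 : ∀ i, HasFDerivAt (fun w : (Fin b → ℝ) × E => w.1 i • l i w.2)
      (((ContinuousLinearMap.proj (R := ℝ) (φ := fun _ : Fin b => ℝ) i).smulRight
        (l i x0)).comp (ContinuousLinearMap.fst ℝ (Fin b → ℝ) E)) ((0 : Fin b → ℝ), x0) := by
    intro i
    have f1 : HasFDerivAt (fun w : (Fin b → ℝ) × E => w.1 i)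
        ((ContinuousLinearMap.proj (R := ℝ) (φ := fun _ : Fin b => ℝ) i).comp
          (ContinuousLinearMap.fst ℝ (Fin b → ℝ) E)) ((0 : Fin b → ℝ), x0) :=
      ((ContinuousLinearMap.proj (R := ℝ) (φ := fun _ : Fin b => ℝ) i).comp
          (ContinuousLinearMap.fst ℝ (Fin b → ℝ) E)).hasFDerivAt
    have f2 : HasFDerivAt (fun w : (Fin b → ℝ) × E => l i w.2)
        ((l i).comp (ContinuousLinearMap.snd ℝ (Fin b → ℝ) E)) ((0 : Fin b → ℝ), x0) :=
      ((l i).comp (ContinuousLinearMap.snd ℝ (Fin b → ℝ) E)).hasFDerivAt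
    refine (f1.smul f2).congr_fderiv ?_
    refine ContinuousLinearMap.ext fun w => ?_
    show (0 : ℝ) • l i w.2 + w.1 i • l i x0 = w.1 i • l i x0
    rw [zero_smul, zero_add]
  have e5 : HasFDerivAt (fun w : (Fin b → ℝ) × E => ∑ i, w.1 i • l i w.2)
      ((lsum l x0).comp (ContinuousLinearMap.fst ℝ (Fin b → ℝ) E)) ((0 : Fin b → ℝ), x0) := by
    refine (HasFDerivAt.fun_sum fun i _ => e4 i).congr_fderiv ?_
    refine ContinuousLinearMap.ext fun w => ?_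
    rw [_root_.sum_apply]
    show _ = lsum l x0 w.1
    rw [lsum_apply]
    rfl
  exact e1.prodMk ((e3.add e5).add e2)

theorem blk_lsum (D K : E →L[ℝ] F) (l : Fin b → E →L[ℝ] F) (x0 : E) (A : E →L[ℝ] Q)
    (w : (Fin b → ℝ) × E) : blk D K (lsum l x0) A w =
      (A w.2, D w.2 + ∑ i, w.1 i • l i x0 + K w.2) := by
  rw [blk_apply, lsum_apply]

/-- the count, in coordinates. -/
theorem onto_sum [CompleteSpace E] [CompleteSpace F] [FiniteDimensional ℝ Q] {D K : E →L[ℝ] F}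
    (hD : Fred685.Fred D) (hi : Fred685.ind D = 0) (hK : IsCompactOperator K)
    (l : Fin b → E →L[ℝ] F) (x0 : E) (A : E →L[ℝ] Q) (hb : finrank ℝ Q + 1 = b) (v0 : E)
    (hker : ∀ (κ : Fin b → ℝ) (v : E), A v = 0 → D v + ∑ i, κ i • l i x0 + K v = 0 →
      κ = 0 ∧ ∃ c : ℝ, v = c • v0) :
    (∀ y : Q × F, ∃ (κ : Fin b → ℝ) (v : E), A v = y.1 ∧
      D v + ∑ i, κ i • l i x0 + K v = y.2) ∧
    (∀ w : (Fin b → ℝ) × E, blk D K (lsum l x0) A w = 0 → ∃ c : ℝ, w = (0, c • v0)) ∧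
    ∀ c : ℝ, blk D K (lsum l x0) A (0, c • v0) = 0 := by
  have h0 : ∀ w : (Fin b → ℝ) × E, blk D K (lsum l x0) A w = 0 → ∃ c : ℝ, w = (0, c • v0) := by
    intro w hw
    rw [blk_lsum, Prod.mk_eq_zero] at hw
    obtain ⟨h1, c, h2⟩ := hker w.1 w.2 hw.1 hw.2
    exact ⟨c, Prod.ext h1 h2⟩
  obtain ⟨h1, h2⟩ := onto_of_ker hD hK (lsum l x0) A (w0 := ((0 : Fin b → ℝ), v0)) (by
    rw [hi, Module.finrank_fin_fun]
    omega) fun w hw => by
      obtain ⟨c, hc⟩ := h0 w hw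
      rw [hc]
      refine Submodule.mem_span_singleton.2 ⟨c, ?_⟩
      rw [Prod.smul_mk, smul_zero]
  refine ⟨fun y => ?_, h0, fun c => ?_⟩
  · obtain ⟨w, hw⟩ := h1 y
    rw [blk_lsum] at hw
    exact ⟨w.1, w.2, congrArg Prod.fst hw, congrArg Prod.snd hw⟩
  · have h3 : ((0 : Fin b → ℝ), c • v0) ∈ Submodule.span ℝ {((0 : Fin b → ℝ), v0)} :=
      Submodule.mem_span_singleton.2 ⟨c, by rw [Prod.smul_mk, smul_zero]⟩
    rw [← h2] at h3
    exact h3

end real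

/-! ### the Seiberg-Witten map -/

section main

variable {M : Type v} [MetricSpace M] [CompactSpace M] [ConnectedSpace M]
  [ChartedSpace (EuclideanSpace ℝ (Fin 4)) M] [IsManifold (𝓡 4) ∞ M]
  [RiemannianBundle (fun p : M => TangentSpace (𝓡 4) p)]
  [IsContMDiffRiemannianBundle (𝓡 4) ∞ (EuclideanSpace ℝ (Fin 4))
    (fun p : M => TangentSpace (𝓡 4) p)]
  [IsRiemannianManifold (𝓡 4) M] [MeasurableSpace M] [BorelSpace M]
  [SecondCountableTopology M] [Nonempty M] [IsFiniteMeasureOnCompacts (μHE[4] : Measure M)]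
  {κ0 κ1 κT : Type} [Fintype κ0] [Fintype κ1] [Fintype κT] {b bp : ℕ}

/-! ### the Fredholm property and the index of `Ah P` -/

section fredAh

variable {κ κ' : Type} [Fintype κ] [Fintype κ'] {D0 : Dat 4 M κ} {D1 : Dat 4 M κ'}

theorem cpt_of_range {E F : Type*} [NormedAddCommGroup E] [NormedSpace ℝ E]
    [NormedAddCommGroup F] [NormedSpace ℝ F] (T : E →L[ℝ] F) (N : Submodule ℝ F)
    [FiniteDimensional ℝ N] (h : ∀ x, T x ∈ N) : IsCompactOperator T := by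
  have e : T = N.subtypeL.comp (T.codRestrict N h) := rfl
  rw [e]
  exact (compact_of_cod (T.codRestrict N h)).clm_comp N.subtypeL

theorem fred_Ah {P : OpPair D0 D1} (S0 : Spec D0) (S1 : Spec D1) : Fred685.Fred (Ah P) := by
  refine ⟨Go P S1, ?_, ?_⟩
  · have : FiniteDimensional ℝ (Submodule.span ℝ (Set.range fun k : S0.ker =>
        cW D0 (ph S0 k))) := FiniteDimensional.span_of_finite ℝ (Set.finite_range _)
    refine cpt_of_range _ (Submodule.span ℝ (Set.range fun k : S0.ker => cW D0 (ph S0 k)))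
      fun u => ?_
    have h1 : (1 - (Go P S1).comp (Ah P)) u =
        ∑ k ∈ S0.ker, (⟪D0.toAD.jj u, cH D0 (ph S0 k)⟫ : ℝ) • cW D0 (ph S0 k) := by
      show u - Go P S1 (Ah P u) = _
      rw [Go_Ah (dns4 D0) (dns4 D1) S0 S1, sub_sub_cancel]
    rw [h1]
    exact Submodule.sum_mem _ fun k hk =>
      Submodule.smul_mem _ _ (Submodule.subset_span ⟨⟨k, hk⟩, rfl⟩)
  · have : FiniteDimensional ℝ (Submodule.span ℝ (Set.range fun k : S1.ker =>
        cH D1 (ph S1 k))) := FiniteDimensional.span_of_finite ℝ (Set.finite_range _)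
    refine cpt_of_range _ (Submodule.span ℝ (Set.range fun k : S1.ker => cH D1 (ph S1 k)))
      fun f => ?_
    have h1 : (1 - (Ah P).comp (Go P S1)) f =
        ∑ k ∈ S1.ker, (⟪f, cH D1 (ph S1 k)⟫ : ℝ) • cH D1 (ph S1 k) := by
      show f - Ah P (Go P S1 f) = _
      rw [Ah_Go (dns4 D0) (dns4 D1) S1, sub_sub_cancel, Pk_apply]
    rw [h1]
    exact Submodule.sum_mem _ fun k hk =>
      Submodule.smul_mem _ _ (Submodule.subset_span ⟨⟨k, hk⟩, rfl⟩)



end fredAh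

/-! ### the Seiberg-Witten map -/

/-- **(K1)** compactness of `KP'`. -/
theorem compact_KP' {S : SWS M κ0 κ1 κT} {d : SWD M κT} (hS : S.OK) (hd : d.Adm S)
    (s0 : Spec S.DL) (h4 : Emb4 S.D0.toAD.i1) (hT4 : Emb4 S.DT.toAD.i1) {R : ℝ} (hR : 0 < R)
    {t : E3} (ht : t ∈ BB) (u : SmS S.D0) (hu : ∀ z, ∑ y, u.1 y z ^ 2 < R ^ 2) :
    IsCompactOperator (KP' hS hd s0 h4 hT4 R ht u) := by
  obtain ⟨R0, h0, h1, h2⟩ := exists_R0 u hR hu
  exact compact_dKK hS hd s0 h4 hT4 h0 h1 ht u h2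

/-- the derivative of the map at `(0, x0)`, `x0 = cW u`. -/
def LT {S : SWS M κ0 κ1 κT} {d : SWD M κT} {hS : S.OK} (hd : d.Adm S) (s0 : Spec S.DL)
    (h4 : Emb4 S.D0.toAD.i1) (hT4 : Emb4 S.DT.toAD.i1) (R : ℝ) {t : E3} (ht : t ∈ BB)
    (u : SmS S.D0) {j : JD M κT b} (hj : j.OK S) (H : HarB hS bp) :
    ((Fin b → ℝ) × S.D0.toAD.WE) →L[ℝ] EuclideanSpace ℝ (Fin bp) × S.D1.toAD.HE :=
  blk (Ah S.P) (KP' hS hd s0 h4 hT4 R ht u) (lsum (LI hS hj) (cW S.D0 u)) (KA' H hd ht u)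

theorem LT_apply {S : SWS M κ0 κ1 κT} {d : SWD M κT} {hS : S.OK} (hd : d.Adm S) (s0 : Spec S.DL)
    (h4 : Emb4 S.D0.toAD.i1) (hT4 : Emb4 S.DT.toAD.i1) (R : ℝ) {t : E3} (ht : t ∈ BB)
    (u : SmS S.D0) {j : JD M κT b} (hj : j.OK S) (H : HarB hS bp)
    (w : (Fin b → ℝ) × S.D0.toAD.WE) : LT hd s0 h4 hT4 R ht u hj H w =
      (KA' H hd ht u w.2, Ah S.P w.2 + ∑ i, w.1 i • LI hS hj i (cW S.D0 u) +
        KP' hS hd s0 h4 hT4 R ht u w.2) :=
  blk_lsum (Ah S.P) (KP' hS hd s0 h4 hT4 R ht u) (LI hS hj) (cW S.D0 u) (KA' H hd ht u) w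

/-- **the joint derivative**. -/
theorem hasFDerivAt_LT {S : SWS M κ0 κ1 κT} {d : SWD M κT} {hS : S.OK} (hd : d.Adm S)
    (s0 : Spec S.DL) (h4 : Emb4 S.D0.toAD.i1) (hT4 : Emb4 S.DT.toAD.i1) {R : ℝ} (hR : 0 < R)
    {t : E3} (ht : t ∈ BB) (u : SmS S.D0) (hu : ∀ z, ∑ y, u.1 y z ^ 2 < R ^ 2)
    {j : JD M κT b} (hj : j.OK S) (H : HarB hS bp) :
    HasFDerivAt (fun w : (Fin b → ℝ) × S.D0.toAD.WE => (KA H d R t w.2,
      Ah S.P w.2 + ∑ i, w.1 i • LI hS hj i w.2 + KP hS hd s0 R t w.2))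
      (LT hd s0 h4 hT4 R ht u hj H) ((0 : Fin b → ℝ), cW S.D0 u) :=
  hasFDerivAt_blk (dA H hd h4 hR ht u hu) (dP hS hd s0 h4 hT4 hR ht u hu) (Ah S.P) (LI hS hj)

/-- **(K2)**: the derivative is onto and its kernel is the line `ℝ (0, II x0)`. -/
theorem onto_all (hND : ND.{v}) {S : SWS M κ0 κ1 κT}
    {ec : κ1 → κ0 → M → EuclideanSpace ℝ (Fin 4)} {ww : Fin 3 → Fin 3 → M → ℝ}
    {τ : E3 → TD M κT} {C : ℝ} {th : E3 → κT → M → ℝ} {pi : EuclideanSpace ℂ (Fin 2) → E3}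
    {U : EuclideanSpace ℂ (Fin 2) → κ0 → M → ℝ} (hH : HopfD S ww τ C th pi U) {d : SWD M κT}
    (hF : d.FFit S ww τ C th) (hS : S.OK) (hd : d.Adm S) (hsym : Sym S ec) (hg : GrdH S)
    {s : EuclideanSpace ℂ (Fin 2)} (hs : ‖s‖ = 1) (ht : pi s ∈ BB)
    (s0 : Spec S.DL) (sT : Spec S.DT) (h4 : Emb4 S.D0.toAD.i1) (hT4 : Emb4 S.DT.toAD.i1)
    {R : ℝ} (hR : 0 < R) (u : SmS S.D0)
    (hu : u.1 = (τ (pi s)).sc (3 / 4) (fun y z => √(2 * d.r) * U s y z))
    (huR : ∀ z, ∑ y, u.1 y z ^ 2 < R ^ 2)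
    {j : JD M κT b} (hj : j.OK S) (H : HarB hS bp)
    (II : S.D0.toAD.WE →L[ℝ] S.D0.toAD.WE)
    (coe_II : ∀ x, ∀ᵐ z ∂(μHE[4] : Measure M), ∀ y, rp (II x) y z = S.iu (rp x) y z)
    (hfr : Fred685.Fred (Ah S.P)) (hind : Fred685.ind (Ah S.P) = 0) (hb : bp + 1 = b) :
    (∀ y : EuclideanSpace ℝ (Fin bp) × S.D1.toAD.HE, ∃ (κ : Fin b → ℝ) (v : S.D0.toAD.WE),
      KA' H hd ht u v = y.1 ∧ Ah S.P v + ∑ i, κ i • LI hS hj i (cW S.D0 u) +
        KP' hS hd s0 h4 hT4 R ht u v = y.2) ∧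
    (∀ w : (Fin b → ℝ) × S.D0.toAD.WE, LT hd s0 h4 hT4 R ht u hj H w = 0 →
      ∃ c : ℝ, w = (0, c • II (cW S.D0 u))) ∧
    ∀ c : ℝ, LT hd s0 h4 hT4 R ht u hj H (0, c • II (cW S.D0 u)) = 0 :=
  onto_sum hfr hind (compact_KP' hS hd s0 h4 hT4 hR ht u huR) (LI hS hj) (cW S.D0 u)
    (KA' H hd ht u) (by rw [finrank_euclideanSpace_fin]; exact hb) (II (cW S.D0 u))
    fun κ v h1 h2 => ker hND hH hF hS hd hsym hg hs ht s0 sT h4 hT4 hR u hu huR hj H II
      coe_II κ v h1 h2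

/-- surjectivity of `LT`. -/
theorem LT_surj {S : SWS M κ0 κ1 κT} {d : SWD M κT} {hS : S.OK} {hd : d.Adm S} {s0 : Spec S.DL}
    {h4 : Emb4 S.D0.toAD.i1} {hT4 : Emb4 S.DT.toAD.i1} {R : ℝ} {t : E3} {ht : t ∈ BB}
    {u : SmS S.D0} {j : JD M κT b} {hj : j.OK S} {H : HarB hS bp}
    (h : ∀ y : EuclideanSpace ℝ (Fin bp) × S.D1.toAD.HE, ∃ (κ : Fin b → ℝ) (v : S.D0.toAD.WE),
      KA' H hd ht u v = y.1 ∧ Ah S.P v + ∑ i, κ i • LI hS hj i (cW S.D0 u) +
        KP' hS hd s0 h4 hT4 R ht u v = y.2) :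
    ∀ y, ∃ w, LT hd s0 h4 hT4 R ht u hj H w = y := by
  intro y
  obtain ⟨κ, v, h1, h2⟩ := h y
  refine ⟨(κ, v), (LT_apply hd s0 h4 hT4 R ht u hj H (κ, v)).trans ?_⟩
  exact Prod.ext h1 h2

end main

end Crest.Agent.R235.SWJo_952

end
end

-- ▼ part R235/FvD_952

/-!
Row 235 (S0364), PACKAGE FAM (helper952): the fields `der` and `z0` of `FamT_151.HopfP` for the
Seiberg-Witten system over the Jacobian torus, at `Ψ s = eX.symm (QQ hH d.r s)`.

* `transfer` : derivative through real isomorphisms;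
* `ind_zero` : `ind_ℝ (Ah P) = 0` from the complex index of `Φ.D 0`;
* `hopf_der`, `hopf_z0`.
-/

set_option autoImplicit false
set_option maxSynthPendingDepth 3
set_option linter.unusedSectionVars false

open scoped ContDiff ENNReal NNReal Topology Manifold Bundle RealInnerProductSpace
open MeasureTheory Set Filter Metric Bundle Module

universe v

namespace Crest.Agent.R235.FvD_952

open Crest.Agent.R249.Tv57 Crest.Agent.R247.Ms322 Crest.Agent.R247.Dir593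
open Crest.Agent.R235.SWDefs_53 Crest.Agent.R235.CptB_755 Crest.Agent.R235.Fs4_546
open Crest.Agent.R235.CptC_755 Crest.Agent.R235.Cpt_755 Crest.Agent.R235.Fred_649
open Crest.Agent.R235.Swx_333 Crest.Agent.R235.SWSym_451 Crest.Agent.R235.SWJc_365
open Crest.Agent.R235.FamR_151 Crest.Agent.R235.SWJq_365 Crest.Agent.R235.SWJz_365
open Crest.Agent.R235.SWPfA_435 Crest.Agent.R235.SWJo_952 Crest.Agent.R275
open Crest.Agent.R235.FvA_844

noncomputable section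

/-! ### real isomorphisms -/

section abs

variable {X Y V W Q : Type*} [NormedAddCommGroup X] [InnerProductSpace ℂ X]
  [NormedAddCommGroup Y] [InnerProductSpace ℂ Y] [NormedAddCommGroup V] [NormedSpace ℝ V]
  [NormedAddCommGroup W] [NormedSpace ℝ W] [NormedAddCommGroup Q] [NormedSpace ℝ Q] {b : ℕ}

/-- conjugation by the isomorphisms. -/
def cj (eX : X ≃L[ℝ] V) (eY : Y ≃L[ℝ] W) (T : ((Fin b → ℝ) × V) →L[ℝ] Q × W) :
    ((Fin b → ℝ) × X) →L[ℝ] Q × Y :=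
  ((ContinuousLinearMap.id ℝ Q).prodMap (eY.symm : W →L[ℝ] Y)).comp
    (T.comp ((ContinuousLinearMap.id ℝ (Fin b → ℝ)).prodMap (eX : X →L[ℝ] V)))

theorem cj_apply (eX : X ≃L[ℝ] V) (eY : Y ≃L[ℝ] W) (T : ((Fin b → ℝ) × V) →L[ℝ] Q × W)
    (w : (Fin b → ℝ) × X) : cj eX eY T w = ((T (w.1, eX w.2)).1, eY.symm (T (w.1, eX w.2)).2) :=
  rfl

theorem transfer (eX : X ≃L[ℝ] V) (eY : Y ≃L[ℝ] W) {G : (Fin b → ℝ) × V → Q × W}
    {T : ((Fin b → ℝ) × V) →L[ℝ] Q × W} {v0 : V} (hG : HasFDerivAt G T ((0 : Fin b → ℝ), v0)) :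
    HasFDerivAt (fun w : (Fin b → ℝ) × X => ((G (w.1, eX w.2)).1, eY.symm (G (w.1, eX w.2)).2))
      (cj eX eY T) ((0 : Fin b → ℝ), eX.symm v0) := by
  have h1 : HasFDerivAt ((ContinuousLinearMap.id ℝ (Fin b → ℝ)).prodMap (eX : X →L[ℝ] V))
      ((ContinuousLinearMap.id ℝ (Fin b → ℝ)).prodMap (eX : X →L[ℝ] V))
      ((0 : Fin b → ℝ), eX.symm v0) := ContinuousLinearMap.hasFDerivAt _
  have h2 : ((ContinuousLinearMap.id ℝ (Fin b → ℝ)).prodMap (eX : X →L[ℝ] V))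
      ((0 : Fin b → ℝ), eX.symm v0) = ((0 : Fin b → ℝ), v0) :=
    Prod.ext rfl (eX.apply_symm_apply v0)
  rw [← h2] at hG
  have h3 := hG.comp ((0 : Fin b → ℝ), eX.symm v0) h1
  exact (((ContinuousLinearMap.id ℝ Q).prodMap (eY.symm : W →L[ℝ] Y)).hasFDerivAt).comp _ h3

theorem cj_onto (eX : X ≃L[ℝ] V) (eY : Y ≃L[ℝ] W) {T : ((Fin b → ℝ) × V) →L[ℝ] Q × W}
    (h : ∀ y, ∃ w, T w = y) (y : Q × Y) : ∃ w, cj eX eY T w = y := by
  obtain ⟨w, hw⟩ := h (y.1, eY y.2)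
  refine ⟨(w.1, eX.symm w.2), ?_⟩
  rw [cj_apply]
  have e : ((w.1, eX (w.1, eX.symm w.2).2) : (Fin b → ℝ) × V) = w :=
    Prod.ext rfl (eX.apply_symm_apply w.2)
  rw [e, hw]
  exact Prod.ext rfl (eY.symm_apply_apply y.2)

theorem cj_ker (eX : X ≃L[ℝ] V) (eY : Y ≃L[ℝ] W) {T : ((Fin b → ℝ) × V) →L[ℝ] Q × W}
    {w : (Fin b → ℝ) × X} (h : cj eX eY T w = 0) : T (w.1, eX w.2) = 0 := by
  rw [cj_apply, Prod.mk_eq_zero] at h
  exact Prod.ext h.1 ((map_eq_zero_iff eY.symm eY.symm.injective).1 h.2)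

end abs

section main

variable {M : Type v} [MetricSpace M] [CompactSpace M] [ConnectedSpace M]
  [ChartedSpace (EuclideanSpace ℝ (Fin 4)) M] [IsManifold (𝓡 4) ∞ M]
  [RiemannianBundle (fun p : M => TangentSpace (𝓡 4) p)]
  [IsContMDiffRiemannianBundle (𝓡 4) ∞ (EuclideanSpace ℝ (Fin 4))
    (fun p : M => TangentSpace (𝓡 4) p)]
  [IsRiemannianManifold (𝓡 4) M] [MeasurableSpace M] [BorelSpace M]
  [SecondCountableTopology M] [Nonempty M] [IsFiniteMeasureOnCompacts (μHE[4] : Measure M)]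
  {κ0 κ1 κT : Type} [Fintype κ0] [Fintype κ1] [Fintype κT] {b bp : ℕ}
  {S : SWS M κ0 κ1 κT} {cc : κ1 → κ0 → M → EuclideanSpace ℝ (Fin 4)} {J1 : κ1 → κ1 → M → ℝ}
  {j : JD M κT b} {d : SWD M κT} {ww : Fin 3 → Fin 3 → M → ℝ} {τ : E3 → TD M κT} {C : ℝ}
  {th : E3 → κT → M → ℝ} {pi : EuclideanSpace ℂ (Fin 2) → E3}
  {U : EuclideanSpace ℂ (Fin 2) → κ0 → M → ℝ}
  {X Y : Type v} [NormedAddCommGroup X] [InnerProductSpace ℂ X] [CompleteSpace X]
  [NormedAddCommGroup Y] [InnerProductSpace ℂ Y] [CompleteSpace Y]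
  {Φ : PFam b X Y} {eX : X ≃L[ℝ] S.D0.toAD.WE} {eY : Y ≃L[ℝ] S.D1.toAD.HE} {φ : Fin b → M → ℝ}

theorem eY_D0 (h : Rep S j J1 Φ eX eY φ) (hS : S.OK) (hj : j.OK S) (x : X) :
    eY (Φ.D 0 x) = Ah S.P (eX x) := by
  rw [eY_D h hS hj 0 x]
  simp

/-- **the real index of `Ah P`**. -/
theorem ind_zero (h : Rep S j J1 Φ eX eY φ) (hc : Sym S cc) (hS : S.OK) (hj : j.OK S)
    (hind : finrank ℂ (LinearMap.ker (Φ.D 0 : X →ₗ[ℂ] Y)) =
      finrank ℂ ((LinearMap.range (Φ.D 0 : X →ₗ[ℂ] Y))ᗮ : Submodule ℂ Y)) :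
    Fred685.ind (Ah S.P) = 0 := by
  have hD := eY_D0 h hS hj
  have h1 := finrank_of_real (kerE hD)
  have h2 := finrank_of_real (cokE h.nY hD)
  obtain ⟨S1⟩ := SWPf_435.spec1 hc
  have h3 := isClosed_range (P := S.P) (dns4 S.D0) (dns4 S.D1) S1
  have : CompleteSpace (LinearMap.range (Ah S.P : S.D0.toAD.WE →ₗ[ℝ] S.D1.toAD.HE)) :=
    h3.completeSpace_coe
  have h4 := (Submodule.quotientEquivOfIsCompl _ _
    (Submodule.isCompl_orthogonal
      (K := LinearMap.range (Ah S.P : S.D0.toAD.WE →ₗ[ℝ] S.D1.toAD.HE)))).finrank_eq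
  unfold Fred685.ind Fred685.idx
  rw [h4]
  omega

/-- multiplication by `i`, in `W^{1,2}`. -/
def IIx (eX : X ≃L[ℝ] S.D0.toAD.WE) : S.D0.toAD.WE →L[ℝ] S.D0.toAD.WE :=
  (eX : X →L[ℝ] S.D0.toAD.WE).comp
    (((Complex.I • (ContinuousLinearMap.id ℂ X)).restrictScalars ℝ).comp
      (eX.symm : S.D0.toAD.WE →L[ℝ] X))

theorem IIx_apply (eX : X ≃L[ℝ] S.D0.toAD.WE) (x : S.D0.toAD.WE) :
    IIx eX x = eX (Complex.I • eX.symm x) := rfl

theorem coe_IIx (h : Rep S j J1 Φ eX eY φ) (x : S.D0.toAD.WE) :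
    ∀ᵐ z ∂(μHE[4] : Measure M), ∀ y, rp (IIx eX x) y z = S.iu (rp x) y z := by
  have h1 := h.iX (eX.symm x)
  rw [eX.apply_symm_apply] at h1
  exact h1

theorem eX_symm_smul (eX : X ≃L[ℝ] S.D0.toAD.WE) (c : ℝ) (x : S.D0.toAD.WE) :
    eX.symm (c • IIx eX x) = ((c : ℂ) * Complex.I) • eX.symm x := by
  rw [map_smul, IIx_apply, eX.symm_apply_apply, mul_smul]
  rfl

/-- the map, transported. -/
theorem map_eq (h : Rep S j J1 Φ eX eY φ) (hS : S.OK) (hj : j.OK S) (hd : d.Adm S)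
    (s0 : Spec S.DL) (H : HarB hS bp) (R : ℝ) (t : E3) (w : (Fin b → ℝ) × X) :
    (Ex eX H d R t w.2, Φ.D w.1 w.2 + Kx eX eY hS hd s0 R t w.2) =
      (KA H d R t (eX w.2), eY.symm (Ah S.P (eX w.2) + ∑ i, w.1 i • LI hS hj i (eX w.2) +
        KP hS hd s0 R t (eX w.2))) := by
  refine Prod.ext rfl ?_
  apply eY.injective
  show eY (Φ.D w.1 w.2 + Kx eX eY hS hd s0 R t w.2) = eY (eY.symm _)
  rw [eY.apply_symm_apply, map_add, eY_D h hS hj, eY_Kx]

/-- **`HopfP.der`**. -/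
theorem hopf_der (hND : ND.{v}) (h : Rep S j J1 Φ eX eY φ) (hc : Sym S cc) (hg : GrdH S)
    (hj : j.OK S) (hH : HopfD S ww τ C th pi U) (hF : d.FFit S ww τ C th) (hS : S.OK)
    (hd : d.Adm S) (s0 : Spec S.DL) (sT : Spec S.DT) (H : HarB hS bp) {R : ℝ} (hR : 0 < R)
    {s : EuclideanSpace ℂ (Fin 2)} (hs : ‖s‖ = 1)
    (hB : ∀ z, ∑ y, us τ pi U d.r s y z ^ 2 < R ^ 2)
    (hind : finrank ℂ (LinearMap.ker (Φ.D 0 : X →ₗ[ℂ] Y)) =
      finrank ℂ ((LinearMap.range (Φ.D 0 : X →ₗ[ℂ] Y))ᗮ : Submodule ℂ Y)) (hb : bp + 1 = b) :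
    ∃ L : ((Fin b → ℝ) × X) →L[ℝ] EuclideanSpace ℝ (Fin bp) × Y,
      HasFDerivAt (fun w : (Fin b → ℝ) × X =>
        (Ex eX H d R (pi s) w.2, Φ.D w.1 w.2 + Kx eX eY hS hd s0 R (pi s) w.2)) L
        ((0 : Fin b → ℝ), eX.symm (QQ hH d.r s)) ∧
      (∀ w, L w = 0 → ∃ a : ℝ, w = (0, ((a : ℂ) * Complex.I) • eX.symm (QQ hH d.r s))) ∧
      ∀ z, ∃ w, L w = z := by
  have ht : pi s ∈ BB := (hH.npi s hs).le
  have e4 : Emb4 S.D0.toAD.i1 := SWJn_333.e4 _
  have eT : Emb4 S.DT.toAD.i1 := SWJn_333.e4 _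
  set u : SmS S.D0 := ⟨us τ pi U d.r s, sm_us hH d.r hs, sec_us hH d.r hs⟩ with hu
  obtain ⟨k1, k2, -⟩ := onto_all hND hH hF hS hd hc hg hs ht s0 sT e4 eT hR u (us_sc _ _) hB hj H
    (IIx eX) (coe_IIx h) (SWPf_435.fred_Ah hc) (ind_zero h hc hS hj hind) hb
  have k3 := hasFDerivAt_LT (hS := hS) hd s0 e4 eT hR ht u hB hj H
  have hQ : QQ hH d.r s = cW S.D0 u := QQ_eq hH d.r hs
  rw [hQ]
  refine ⟨cj eX eY (LT hd s0 e4 eT R ht u hj H), ?_, fun w hw => ?_,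
    fun z => cj_onto eX eY (LT_surj k1) z⟩
  · refine (transfer eX eY k3).congr_of_eventuallyEq (Eventually.of_forall fun w => ?_)
    exact map_eq h hS hj hd s0 H R (pi s) w
  · obtain ⟨c, hc'⟩ := k2 _ (cj_ker eX eY hw)
    have e5 : eX w.2 = c • IIx eX (cW S.D0 u) := congrArg Prod.snd hc'
    have e6 : w.1 = 0 := congrArg Prod.fst hc'
    refine ⟨c, Prod.ext e6 ?_⟩
    show w.2 = ((c : ℂ) * Complex.I) • eX.symm (cW S.D0 u)
    rw [← eX_symm_smul, ← e5, eX.symm_apply_apply]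

/-- **`HopfP.z0`**, over every point of the sphere. -/
theorem hopf_z0 (hZ : ZER.{v}) (h : Rep S j J1 Φ eX eY φ) (hc : Sym S cc)
    (hj : j.OK S) (hH : HopfD S ww τ C th pi U) (hF : d.FFit S ww τ C th) (hS : S.OK)
    (hd : d.Adm S) (s0 : Spec S.DL) (H : HarB hS bp) {R : ℝ} (hR : 0 < R)
    {s : EuclideanSpace ℂ (Fin 2)} (hs : ‖s‖ = 1)
    (hB : ∀ z, ∑ y, us τ pi U d.r s y z ^ 2 ≤ R ^ 2) :
    Ex eX H d R (pi s) (eX.symm (QQ hH d.r s)) = 0 ∧
      Φ.D 0 (eX.symm (QQ hH d.r s)) + Kx eX eY hS hd s0 R (pi s) (eX.symm (QQ hH d.r s)) = 0 := by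
  refine ⟨?_, ?_⟩
  · unfold Ex
    rw [eX.apply_symm_apply]
    show H.har (Fq d R (pi s) (QQ hH d.r s)) = 0
    rw [fq_us hS hd hH hF hR hs hB, map_zero]
  · rw [dirac_iff h hS hj hd s0 R (pi s) 0, eX.apply_symm_apply]
    have h1 := solP hZ hc hj hS hd hH hF s0 (SWJn_333.e4 _) (SWJn_333.e4 _) hR hs hB
    simpa using h1

end main

end

end Crest.Agent.R235.FvD_952
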