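import Crest.Agent.R235.K12Defs_417

/-!
Row 235 (S0364), package KUM, block K12 (helper417): leaf RADF (helper843).
-/

set_option autoImplicit false
set_option linter.unusedSimpArgs false
set_option maxSynthPendingDepth 3

open Set Function Filter MeasureTheory
open scoped Manifold ContDiff Topology RealInnerProductSpace

namespace Crest.Agent.R235.K12Radf_843

open Crest.Agent.R240 Crest.Agent.R240.Ch Crest.Agent.R235 Crest.Agent.R235.K12_417

noncomputable section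

/-! ### the cross product -/

lemma inn (a b : E3) : ⟪a, b⟫ = a 0 * b 0 + a 1 * b 1 + a 2 * b 2 := by
  simp [PiLp.inner_apply, Fin.sum_univ_three, mul_comm]

@[simp] lemma cr0 (a b : E3) : cr a b 0 = a 1 * b 2 - a 2 * b 1 := rfl
@[simp] lemma cr1 (a b : E3) : cr a b 1 = a 2 * b 0 - a 0 * b 2 := rfl
@[simp] lemma cr2 (a b : E3) : cr a b 2 = a 0 * b 1 - a 1 * b 0 := rfl

lemma cr_anti (a b : E3) : cr b a = -cr a b := by
  ext i; fin_cases i <;> simp <;> ring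

lemma cr_self (a : E3) : cr a a = 0 := by
  ext i; fin_cases i <;> simp <;> ring




lemma cr_smul_right (t : ℝ) (a b : E3) : cr a (t • b) = t • cr a b := by
  ext i; fin_cases i <;> simp <;> ring

lemma cr_neg_right (a b : E3) : cr a (-b) = -cr a b := by
  ext i; fin_cases i <;> simp <;> ring


lemma cr_zero_right (a : E3) : cr a 0 = 0 := by
  ext i; fin_cases i <;> simp

lemma cr_zero_left (a : E3) : cr 0 a = 0 := by
  ext i; fin_cases i <;> simp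

/-- `a × (b × c) = ⟪a, c⟫ b - ⟪a, b⟫ c`. -/
lemma cr_cr (a b c : E3) : cr a (cr b c) = ⟪a, c⟫ • b - ⟪a, b⟫ • c := by
  ext i; fin_cases i <;> simp [inn] <;> ring

lemma cyc (a b c : E3) : ⟪cr a b, c⟫ = ⟪a, cr b c⟫ := by
  simp [inn]; ring

lemma inn_cr_left (a b : E3) : ⟪a, cr a b⟫ = 0 := by
  simp [inn]; ring

lemma inn_cr_right (a b : E3) : ⟪b, cr a b⟫ = 0 := by
  simp [inn]; ring

lemma lagrange (a b : E3) : ⟪cr a b, cr a b⟫ = ⟪a, a⟫ * ⟪b, b⟫ - ⟪a, b⟫ ^ 2 := by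
  rw [inn, inn, inn, inn]; simp only [cr0, cr1, cr2]; ring

/-! ### oriented frames of the plane orthogonal to `q` -/

section Fr

variable {q e : E3}

lemma fr_qq (h : IsFr q e) : ⟪q, q⟫ = 1 := by
  rw [real_inner_self_eq_norm_sq, h.1]; norm_num

lemma fr_ee (h : IsFr q e) : ⟪e, e⟫ = 1 := by
  rw [real_inner_self_eq_norm_sq, h.2.1]; norm_num

lemma fr_e3 (h : IsFr q e) : ⟪cr q e, cr q e⟫ = 1 := by
  rw [lagrange, fr_qq h, fr_ee h, h.2.2]; norm_num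

lemma fr_norm_e3 (h : IsFr q e) : ‖cr q e‖ = 1 := by
  have h1 := fr_e3 h
  rw [real_inner_self_eq_norm_sq] at h1
  nlinarith [norm_nonneg (cr q e)]

/-- `e × (q × e) = q`. -/
lemma fr_cr_e (h : IsFr q e) : cr e (cr q e) = q := by
  rw [cr_cr, fr_ee h, real_inner_comm, h.2.2]; simp

/-- `(q × e) × q = e`. -/
lemma fr_cr_q (h : IsFr q e) : cr (cr q e) q = e := by
  rw [cr_anti, cr_cr, fr_qq h, h.2.2]; simp

/-- `q × (q × e) = - e`. -/
lemma fr_cr_qq (h : IsFr q e) : cr q (cr q e) = -e := by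
  rw [cr_cr, fr_qq h, h.2.2]; simp

/-- `e × p = ⟪p, q × e⟫ q` for `p` orthogonal to `q`. -/
lemma fr_e_cr (h : IsFr q e) {p : E3} (hp : ⟪q, p⟫ = 0) : cr e p = ⟪p, cr q e⟫ • q := by
  have h2 : cr p e = -(⟪p, cr q e⟫ • q) := by
    calc cr p e = cr p (cr (cr q e) q) := by rw [fr_cr_q h]
      _ = -(⟪p, cr q e⟫ • q) := by
        rw [cr_cr, real_inner_comm q p, hp]; simp
  rw [cr_anti p e, h2, neg_neg]

/-- `(q × e) × p = - ⟪p, e⟫ q` for `p` orthogonal to `q`. -/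
lemma fr_e3_cr {p : E3} (hp : ⟪q, p⟫ = 0) : cr (cr q e) p = -(⟪p, e⟫ • q) := by
  have h1 : cr (cr q e) p = -(cr p (cr q e)) := by rw [← cr_anti]
  rw [h1, cr_cr]
  rw [real_inner_comm] at hp
  rw [hp]; simp

/-- `|p|² = ⟪p, e⟫² + ⟪p, q × e⟫²`. -/
lemma fr_sq (h : IsFr q e) {p : E3} (hp : ⟪q, p⟫ = 0) :
    ⟪p, e⟫ ^ 2 + ⟪p, cr q e⟫ ^ 2 = ‖p‖ ^ 2 := by
  have h1 := lagrange e p
  rw [fr_e_cr h hp, fr_ee h] at h1
  rw [real_inner_smul_left, real_inner_smul_right, fr_qq h, real_inner_self_eq_norm_sq,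
    real_inner_comm p e] at h1
  nlinarith [h1]

end Fr

/-! ### directional derivatives -/

lemma fd_apply {β : E6 → E6 →L[ℝ] ℝ} {z : E6} (hβ : DifferentiableAt ℝ β z) (U V : E6) {c : ℝ}
    (h : HasDerivAt (fun t : ℝ => β (z + t • U) V) c 0) : fderiv ℝ β z U V = c := by
  have h1 : HasDerivAt (fun t : ℝ => z + t • U) U 0 := by
    simpa using ((hasDerivAt_id (0 : ℝ)).smul_const U).const_add z
  have h2 : HasFDerivAt β (fderiv ℝ β z) (z + (0 : ℝ) • U) := by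
    simpa using hβ.hasFDerivAt
  have h3 : HasDerivAt (fun t : ℝ => β (z + t • U)) (fderiv ℝ β z U) 0 := h2.comp_hasDerivAt 0 h1
  have h4 : HasDerivAt (fun t : ℝ => β (z + t • U) V) (fderiv ℝ β z U V) 0 := by
    simpa using h3.clm_apply (hasDerivAt_const (0 : ℝ) V)
  exact h4.unique h

lemma l1_apply (z V : E6) : l1 z V = ⟪z.2, V.1⟫ := by
  simp [l1]

lemma l2_apply (z V : E6) : l2 z V = ⟪z.2, cr z.1 V.1⟫ := by
  simp [l2, crL]

lemma ps_apply (z V : E6) : ps z V = (‖z.2‖ ^ 2)⁻¹ * ⟪cr z.1 z.2, V.2⟫ := by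
  simp [ps]

lemma contDiff_l1 : ContDiff ℝ ∞ l1 := by
  rw [contDiff_clm_apply_iff]
  intro V
  simp only [l1_apply]
  exact contDiff_snd.inner ℝ contDiff_const

lemma contDiff_cr_fst (v : E3) : ContDiff ℝ ∞ (fun z : E6 => cr z.1 v) := by
  rw [contDiff_euclidean]
  intro i
  fin_cases i <;> simp <;> fun_prop


lemma contDiff_cr : ContDiff ℝ ∞ (fun z : E6 => cr z.1 z.2) := by
  rw [contDiff_euclidean]
  intro i
  fin_cases i <;> simp <;> fun_prop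

lemma contDiff_l2 : ContDiff ℝ ∞ l2 := by
  rw [contDiff_clm_apply_iff]
  intro V
  simp only [l2_apply]
  exact contDiff_snd.inner ℝ (contDiff_cr_fst V.1)

lemma diffAt_ps {z : E6} (hz : z.2 ≠ 0) : DifferentiableAt ℝ ps z := by
  have ho : IsOpen {y : E6 | y.2 ≠ 0} := isOpen_ne_fun continuous_snd continuous_const
  have h1 : ContDiffOn ℝ ∞ ps {y : E6 | y.2 ≠ 0} := by
    rw [contDiffOn_clm_apply]
    intro V
    simp only [ps_apply]
    refine ContDiffOn.mul (ContDiffOn.inv ?_ ?_) ?_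
    · exact (contDiff_snd.norm_sq ℝ).contDiffOn
    · intro y hy
      exact pow_ne_zero 2 (norm_ne_zero_iff.2 hy)
    · exact (contDiff_cr.inner ℝ contDiff_const).contDiffOn
  exact (h1.contDiffAt (ho.mem_nhds hz)).differentiableAt (by simp)

lemma hd_line (z U : E6) : HasDerivAt (fun t : ℝ => z + t • U) U 0 := by
  simpa using ((hasDerivAt_id (0 : ℝ)).smul_const U).const_add z

lemma hd_snd (z U : E6) : HasDerivAt (fun t : ℝ => (z + t • U).2) U.2 0 := by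
  have := (hd_line z U).snd
  exact this

lemma hd_cr (z U : E6) : HasDerivAt (fun t : ℝ => cr (z + t • U).1 (z + t • U).2)
    (cr U.1 z.2 + cr z.1 U.2) 0 := by
  have h1 : (fun t : ℝ => cr (z + t • U).1 (z + t • U).2) =
      fun t : ℝ => cr z.1 z.2 + t • (cr U.1 z.2 + cr z.1 U.2) + (t ^ 2) • cr U.1 U.2 := by
    funext t
    ext i
    fin_cases i <;> simp <;> ring
  rw [h1]
  have h2 : HasDerivAt (fun t : ℝ => t • (cr U.1 z.2 + cr z.1 U.2)) (cr U.1 z.2 + cr z.1 U.2) 0 := by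
    simpa using (hasDerivAt_id (0 : ℝ)).smul_const (cr U.1 z.2 + cr z.1 U.2)
  have h3 : HasDerivAt (fun t : ℝ => (t ^ 2) • cr U.1 U.2) 0 0 := by
    simpa using ((hasDerivAt_id (0 : ℝ)).pow 2).smul_const (cr U.1 U.2)
  have h4 := (h2.const_add (cr z.1 z.2)).add h3
  rw [add_zero] at h4
  exact h4

lemma hd_cr1 (z U : E6) (v : E3) : HasDerivAt (fun t : ℝ => cr (z + t • U).1 v)
    (cr U.1 v) 0 := by
  have h1 : (fun t : ℝ => cr (z + t • U).1 v) = fun t : ℝ => cr z.1 v + t • cr U.1 v := by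
    funext t
    ext i
    fin_cases i <;> simp <;> ring
  rw [h1]
  simpa using ((hasDerivAt_id (0 : ℝ)).smul_const (cr U.1 v)).const_add (cr z.1 v)

lemma fd_l1 (z U V : E6) : fderiv ℝ l1 z U V = ⟪U.2, V.1⟫ := by
  refine fd_apply (contDiff_l1.differentiable (by simp) z) U V ?_
  simp only [l1_apply]
  simpa using (hd_snd z U).inner ℝ (hasDerivAt_const (0 : ℝ) V.1)

lemma fd_l2 (z U V : E6) : fderiv ℝ l2 z U V = ⟪U.2, cr z.1 V.1⟫ + ⟪z.2, cr U.1 V.1⟫ := by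
  refine fd_apply (contDiff_l2.differentiable (by simp) z) U V ?_
  simp only [l2_apply]
  have := (hd_snd z U).inner ℝ (hd_cr1 z U V.1)
  simp only [zero_smul, add_zero] at this
  rw [add_comm]
  exact this

lemma fd_ps (z U V : E6) {a : ℝ → ℝ} (hz : z.2 ≠ 0) (ha : ContDiffAt ℝ 1 a ‖z.2‖) :
    fderiv ℝ (fun y => a ‖y.2‖ • ps y) z U V =
      (deriv a ‖z.2‖ / ‖z.2‖ ^ 3 - 2 * a ‖z.2‖ / ‖z.2‖ ^ 4) * (⟪z.2, U.2⟫ * ⟪cr z.1 z.2, V.2⟫) +
      a ‖z.2‖ / ‖z.2‖ ^ 2 * (⟪cr U.1 z.2, V.2⟫ + ⟪cr z.1 U.2, V.2⟫) := by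
  have hn : ‖z.2‖ ≠ 0 := norm_ne_zero_iff.2 hz
  have hd : HasDerivAt a (deriv a ‖z.2‖) ‖z.2‖ := (ha.differentiableAt (by simp)).hasDerivAt
  have hnd : DifferentiableAt ℝ (fun y : E6 => ‖y.2‖) z :=
    DifferentiableAt.norm ℝ differentiableAt_snd hz
  refine fd_apply ?_ U V ?_
  · have hf : DifferentiableAt ℝ (fun y : E6 => a ‖y.2‖) z :=
      DifferentiableAt.comp z hd.differentiableAt hnd
    exact hf.smul (diffAt_ps hz)
  · have e1 : (fun t : ℝ => (a ‖(z + t • U).2‖ • ps (z + t • U)) V) =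
        fun t : ℝ => a ‖(z + t • U).2‖ * ((‖(z + t • U).2‖ ^ 2)⁻¹ *
          ⟪cr (z + t • U).1 (z + t • U).2, V.2⟫) := by
      funext t
      rw [smul_apply, ps_apply, smul_eq_mul]
    rw [e1]
    have hN : HasDerivAt (fun t : ℝ => ‖(z + t • U).2‖) (⟪z.2, U.2⟫ / ‖z.2‖) 0 := by
      have h1 : HasDerivAt (fun t : ℝ => ‖(z + t • U).2‖ ^ 2) (2 * ⟪z.2, U.2⟫) 0 := by
        simpa using (hd_snd z U).norm_sq
      have h2 := h1.sqrt (by simpa using hn)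
      have h3 : (fun t : ℝ => √(‖(z + t • U).2‖ ^ 2)) = fun t : ℝ => ‖(z + t • U).2‖ := by
        funext t; rw [Real.sqrt_sq (norm_nonneg _)]
      rw [h3] at h2
      convert h2 using 1
      simp only [zero_smul, add_zero]
      rw [Real.sqrt_sq (norm_nonneg _)]
      field_simp
    have hA : HasDerivAt (fun t : ℝ => a ‖(z + t • U).2‖)
        (deriv a ‖z.2‖ * (⟪z.2, U.2⟫ / ‖z.2‖)) 0 := by
      have : HasDerivAt a (deriv a ‖z.2‖) ‖(z + (0 : ℝ) • U).2‖ := by simpa using hd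
      exact this.comp 0 hN
    have hI : HasDerivAt (fun t : ℝ => (‖(z + t • U).2‖ ^ 2)⁻¹)
        (-(2 * ‖z.2‖ * (⟪z.2, U.2⟫ / ‖z.2‖)) / (‖z.2‖ ^ 2) ^ 2) 0 := by
      have h5 := (hN.pow 2).inv (by simpa using hn)
      have h6 : (fun t : ℝ => (‖(z + t • U).2‖ ^ 2)⁻¹) =
          ((fun t : ℝ => ‖(z + t • U).2‖) ^ 2)⁻¹ := by
        funext t; simp
      rw [h6]
      refine h5.congr_deriv ?_
      simp
    have hC : HasDerivAt (fun t : ℝ => ⟪cr (z + t • U).1 (z + t • U).2, V.2⟫)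
        (⟪cr U.1 z.2 + cr z.1 U.2, V.2⟫) 0 := by
      simpa using (hd_cr z U).inner ℝ (hasDerivAt_const (0 : ℝ) V.2)
    have hT := hA.mul (hI.mul hC)
    refine hT.congr_deriv ?_
    simp only [Pi.mul_apply, zero_smul, add_zero, inner_add_left]
    field_simp
    ring


/-! ### the values in the frames -/

lemma d1_l1 (z U V : E6) : d1 l1 z U V = ⟪U.2, V.1⟫ - ⟪V.2, U.1⟫ := by
  rw [d1_apply, fd_l1, fd_l1]

lemma d1_l2 (z U V : E6) : d1 l2 z U V = ⟪U.2, cr z.1 V.1⟫ + ⟪z.2, cr U.1 V.1⟫ -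
    (⟪V.2, cr z.1 U.1⟫ + ⟪z.2, cr V.1 U.1⟫) := by
  rw [d1_apply, fd_l2, fd_l2]

lemma en_ps (z U V : E6) {a : ℝ → ℝ} (hz : z.2 ≠ 0) (ha : ContDiffAt ℝ 1 a ‖z.2‖) :
    d1 (fun y => a ‖y.2‖ • ps y) z U V =
      (deriv a ‖z.2‖ / ‖z.2‖ ^ 3 - 2 * a ‖z.2‖ / ‖z.2‖ ^ 4) *
        (⟪z.2, U.2⟫ * ⟪cr z.1 z.2, V.2⟫ - ⟪z.2, V.2⟫ * ⟪cr z.1 z.2, U.2⟫) +
      a ‖z.2‖ / ‖z.2‖ ^ 2 * (⟪cr U.1 z.2, V.2⟫ + ⟪cr z.1 U.2, V.2⟫ -
        (⟪cr V.1 z.2, U.2⟫ + ⟪cr z.1 V.2, U.2⟫)) := by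
  rw [d1_apply, fd_ps z U V hz ha, fd_ps z V U hz ha]
  ring

/-- all the products in the frame `q, e, f = q × e`. -/
structure Fac (q e f p : E3) : Prop where
  nq : ‖q‖ = 1
  ne : ‖e‖ = 1
  nf : ‖f‖ = 1
  qe : ⟪q, e⟫ = 0
  eq : ⟪e, q⟫ = 0
  qf : ⟪q, f⟫ = 0
  fq : ⟪f, q⟫ = 0
  ef : ⟪e, f⟫ = 0
  fe : ⟪f, e⟫ = 0
  pq : ⟪p, q⟫ = 0
  cqe : cr q e = f
  cqf : cr q f = -e
  cef : cr e f = q
  cfe : cr f e = -q
  cep : cr e p = ⟪p, f⟫ • q
  cfp : cr f p = -(⟪p, e⟫ • q)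
  npe : ⟪cr q p, e⟫ = -⟪p, f⟫
  npf : ⟪cr q p, f⟫ = ⟪p, e⟫
  npq : ⟪cr q p, q⟫ = 0
  sq : ⟪p, e⟫ ^ 2 + ⟪p, f⟫ ^ 2 = ‖p‖ ^ 2

lemma fac {q e p : E3} (h : IsFr q e) (hp : ⟪q, p⟫ = 0) : Fac q e (cr q e) p where
  nq := h.1
  ne := h.2.1
  nf := fr_norm_e3 h
  qe := h.2.2
  eq := by rw [real_inner_comm]; exact h.2.2
  qf := inn_cr_left _ _
  fq := by rw [real_inner_comm]; exact inn_cr_left _ _
  ef := inn_cr_right _ _
  fe := by rw [real_inner_comm]; exact inn_cr_right _ _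
  pq := by rw [real_inner_comm]; exact hp
  cqe := rfl
  cqf := fr_cr_qq h
  cef := fr_cr_e h
  cfe := by rw [cr_anti, fr_cr_e h]
  cep := fr_e_cr h hp
  cfp := fr_e3_cr hp
  npe := by
    rw [cyc, cr_anti e p, real_inner_comm]
    rw [fr_e_cr h hp]
    simp [inner_neg_left, real_inner_smul_left, h.1]
  npf := by
    rw [cyc, cr_anti (cr q e) p, fr_e3_cr hp]
    simp [real_inner_smul_right, h.1]
  npq := by
    rw [real_inner_comm]; exact inn_cr_left _ _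
  sq := fr_sq h hp

theorem radf : RADF where
  d1l1 := d1_l1
  l1f := by
    intro z r e hz he i j
    have F := fac he hz.2.1
    obtain ⟨q, p⟩ := z
    simp only at F he
    generalize hf : cr q e = f at F
    obtain ⟨h1, h2, h3, h4, h5, h6, h7, h8, h9, h10, h11, h12, h13, h14, h15, h16, h17, h18,
      h19, h20⟩ := F
    fin_cases i <;> fin_cases j <;>
      simp [en, X, hor, ver, d1_l1, hf, inner_neg_left, real_inner_smul_left, h1, h2, h3, h4, h5,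
        h6, h7, h8, h9]
  l2f := by
    intro z r e hz he i j
    have F := fac he hz.2.1
    obtain ⟨q, p⟩ := z
    simp only at F he
    generalize hf : cr q e = f at F
    obtain ⟨h1, h2, h3, h4, h5, h6, h7, h8, h9, h10, h11, h12, h13, h14, h15, h16, h17, h18,
      h19, h20⟩ := F
    fin_cases i <;> fin_cases j <;>
      simp [en, X, hor, ver, d1_l2, hf, inner_neg_left, inner_neg_right, real_inner_smul_left,
        h1, h2, h3, h4, h5, h6, h7, h8, h9, h10, h12, h13, h14, cr_self, cr_zero_right,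
        cr_zero_left]
  psf := by
    intro z r e a hz hz2 he ha i j
    have F := fac he hz.2.1
    obtain ⟨q, p⟩ := z
    simp only at F he hz2 ha
    have hn : ‖p‖ ≠ 0 := norm_ne_zero_iff.2 hz2
    have key := fun U V => en_ps (q, p) U V hz2 ha
    generalize hf : cr q e = f at F
    obtain ⟨h1, h2, h3, h4, h5, h6, h7, h8, h9, h10, h11, h12, h13, h14, h15, h16, h17, h18,
      h19, h20⟩ := F
    have hs : ⟪p, f⟫ ^ 2 = ‖p‖ ^ 2 - ⟪p, e⟫ ^ 2 := by linarith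
    fin_cases i <;> fin_cases j <;>
      simp [en, X, hor, ver, key, hf, inner_neg_left, inner_neg_right, real_inner_smul_left,
        real_inner_smul_right, cr_neg_right, cr_smul_right,
        h1, h2, h3, h4, h5, h6, h7, h8, h9, h10, h12, h13, h14, h15, h16, h17, h18, h19, cr_self,
        cr_zero_right, cr_zero_left]
    · have e1 : -‖⟪p, f⟫ • q‖ ^ 2 - ‖⟪p, e⟫ • q‖ ^ 2 = -‖p‖ ^ 2 := by
        rw [norm_smul, norm_smul, h1, mul_one, mul_one, Real.norm_eq_abs, Real.norm_eq_abs,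
          sq_abs, sq_abs]
        linarith
      rw [e1]
      field_simp
    · have e1 : ‖⟪p, e⟫ • q‖ ^ 2 + ‖⟪p, f⟫ • q‖ ^ 2 = ‖p‖ ^ 2 := by
        rw [norm_smul, norm_smul, h1, mul_one, mul_one, Real.norm_eq_abs, Real.norm_eq_abs,
          sq_abs, sq_abs]
        linarith
      rw [e1]
      field_simp
    · have e1 : ⟪p, e⟫ * ⟪p, e⟫ + ⟪p, f⟫ * ⟪p, f⟫ = ‖p‖ ^ 2 := by linarith
      rw [e1]
      field_simp
      ring
    · have e1 : -(⟪p, f⟫ * ⟪p, f⟫) - ⟪p, e⟫ * ⟪p, e⟫ = -‖p‖ ^ 2 := by linarith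
      rw [e1]
      field_simp
      ring

end

end Crest.Agent.R235.K12Radf_843
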