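import Crest.Agent.R235.Defs_837
import Crest.Agent.R235.PB_604
import Crest.Agent.R235.KT_604

/-!
Row 235 (S0364), package KUM, block K12 (helper417): DEFINITIONS AND LEAF PROPS.

Standardisation of a positive triple near disjoint Lagrangian spheres.  Everything near a sphere is
read on an open subset of `E6 = E3 × E3 ∋ (q, p)` through a map `Ps : E6 → M` which factors through
the retraction `Pi` onto `T S² = {|q| = 1, q·p = 0}`.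
-/

set_option autoImplicit false
set_option maxSynthPendingDepth 3

open Set Function Filter MeasureTheory
open scoped Manifold ContDiff Topology RealInnerProductSpace

universe u

namespace Crest.Agent.R235.K12_417

open Crest.Agent.R240 Crest.Agent.R240.Ch Crest.Agent.R235

noncomputable section

/-! ### linear algebra -/

/-- the pairs `(q, p)`. -/
abbrev E6 : Type := E3 × E3

/-- the cross product. -/
def cr (a b : E3) : E3 :=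
  !₂[a 1 * b 2 - a 2 * b 1, a 2 * b 0 - a 0 * b 2, a 0 * b 1 - a 1 * b 0]

/-- `i z`. -/
def qI (z : E4) : E4 := !₂[-z 1, z 0, -z 3, z 2]

/-- `j z`. -/
def qJ (z : E4) : E4 := !₂[-z 2, z 3, z 0, -z 1]

/-- `k z`. -/
def qK (z : E4) : E4 := !₂[-z 3, -z 2, z 1, z 0]

/-- the retraction of `{q ≠ 0}` onto `T S²`. -/
def Pi (z : E6) : E6 := (‖z.1‖⁻¹ • z.1, z.2 - (⟪z.1, z.2⟫ / ‖z.1‖ ^ 2) • z.1)

/-- the disc bundle of radius `r` in `T S²`. -/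
def TS (r : ℝ) : Set E6 := {z | ‖z.1‖ = 1 ∧ ⟪z.1, z.2⟫ = 0 ∧ ‖z.2‖ < r}

/-- the preimage of `TS r` under `Pi`. -/
def OS (r : ℝ) : Set E6 := {z | z.1 ≠ 0 ∧ ‖(Pi z).2‖ < r}

/-- `e` and `cr q e` are an oriented orthonormal basis of the plane orthogonal to the unit
vector `q`. -/
def IsFr (q e : E3) : Prop := ‖q‖ = 1 ∧ ‖e‖ = 1 ∧ ⟪q, e⟫ = 0

/-- the horizontal vector over `e` at `(q, p)`. -/
def hor (z : E6) (e : E3) : E6 := (e, -(⟪z.2, e⟫ • z.1))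

/-- the vertical vector over `e`. -/
def ver (e : E3) : E6 := (0, e)

/-- the frame `X₁ … X₄` of `T S²` at `z = (q, p)` given by `e`. -/
def X (z : E6) (e : E3) : Fin 4 → E6
  | 0 => hor z e
  | 1 => hor z (cr z.1 e)
  | 2 => ver e
  | 3 => ver (cr z.1 e)

/-- two-forms on `E6` at a point. -/
abbrev B6 : Type := E6 →L[ℝ] E6 →L[ℝ] ℝ

/-- the entries of a two-form in the frame. -/
def en (b : B6) (z : E6) (e : E3) (i j : Fin 4) : ℝ := b (X z e i) (X z e j)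

/-- the Pfaffian of a two-form in the frame. -/
def pf (b : B6) (z : E6) (e : E3) : ℝ :=
  en b z e 0 1 * en b z e 2 3 - en b z e 0 2 * en b z e 1 3 + en b z e 0 3 * en b z e 1 2

/-- positivity (in the sense of `K12`) of a triple of two-forms at `z`, in the frame `e`. -/
def PosF (b : Fin 3 → B6) (z : E6) (e : E3) : Prop :=
  ∀ c : Fin 3 → ℝ, c ≠ 0 → pf (∑ i, c i • b i) z e < 0

/-! ### the model forms on `E6` -/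

/-- `p · dq`. -/
def l1 (z : E6) : E6 →L[ℝ] ℝ := (innerSL ℝ z.2).comp (ContinuousLinearMap.fst ℝ E3 E3)

/-- `v ↦ cr q v`. -/
def crL (q : E3) : E3 →L[ℝ] E3 :=
  LinearMap.toContinuousLinearMap
    { toFun := fun v => cr q v
      map_add' := fun a b => by
        ext i; fin_cases i <;> simp [cr] <;> ring
      map_smul' := fun c a => by
        ext i; fin_cases i <;> simp [cr] <;> ring }

/-- `p · (q × dq)`. -/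
def l2 (z : E6) : E6 →L[ℝ] ℝ :=
  (innerSL ℝ z.2).comp ((crL z.1).comp (ContinuousLinearMap.fst ℝ E3 E3))

/-- `(q × p) · dp / |p|²`, the angular form. -/
def ps (z : E6) : E6 →L[ℝ] ℝ :=
  (‖z.2‖ ^ 2)⁻¹ • (innerSL ℝ (cr z.1 z.2)).comp (ContinuousLinearMap.snd ℝ E3 E3)

/-- the one-form `(g(|z|²)/|z|²) · ½⟨i z, dz⟩` on `E4`. -/
def lg (g : ℝ → ℝ) (z : E4) : E4 →L[ℝ] ℝ := (g (‖z‖ ^ 2) / ‖z‖ ^ 2 / 2) • innerSL ℝ (qI z)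

/-! ### the neck parametrisation -/

/-- `z̄ i z / |z|²`. -/
def hQ (z : E4) : E3 :=
  (‖z‖ ^ 2)⁻¹ • !₂[z 0 ^ 2 + z 1 ^ 2 - z 2 ^ 2 - z 3 ^ 2, 2 * (z 1 * z 2 - z 0 * z 3),
    2 * (z 1 * z 3 + z 0 * z 2)]

/-- `z̄ k z`. -/
def hP (z : E4) : E3 :=
  !₂[2 * (z 1 * z 3 - z 0 * z 2), 2 * (z 2 * z 3 + z 0 * z 1),
    z 0 ^ 2 - z 1 ^ 2 - z 2 ^ 2 + z 3 ^ 2]

/-- `z ↦ (z̄ i z / |z|², t z̄ k z)`. -/
def hh (t : ℝ) (z : E4) : E6 := (hQ z, t • hP z)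

/-- LEAF PHI: elementary properties of `hh`. -/
structure PHI : Prop where
  mem : ∀ (z : E4) (t : ℝ), z ≠ 0 → ‖hQ z‖ = 1 ∧ ⟪hQ z, t • hP z⟫ = 0 ∧ ‖hP z‖ = ‖z‖ ^ 2
  even : ∀ (z : E4) (t : ℝ), hh t (-z) = hh t z
  inj : ∀ (z z' : E4) (t : ℝ), z ≠ 0 → z' ≠ 0 → t ≠ 0 → hh t z = hh t z' → z' = z ∨ z' = -z
  surj : ∀ (q p : E3) (t : ℝ), ‖q‖ = 1 → ⟪q, p⟫ = 0 → p ≠ 0 → 0 < t →
    ∃ z : E4, z ≠ 0 ∧ hh t z = (q, p)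
  smooth : ∀ t : ℝ, ContDiffOn ℝ ∞ (hh t) {0}ᶜ
  imm : ∀ (z v : E4) (t : ℝ), z ≠ 0 → t ≠ 0 → fderiv ℝ (hh t) z v = 0 → v = 0
  pl1 : ∀ (z v : E4) (t : ℝ), z ≠ 0 → l1 (hh t z) (fderiv ℝ (hh t) z v) = 2 * t * ⟪qJ z, v⟫
  pl2 : ∀ (z v : E4) (t : ℝ), z ≠ 0 → l2 (hh t z) (fderiv ℝ (hh t) z v) = -(2 * t * ⟪qK z, v⟫)
  pps : ∀ (z v : E4) (t : ℝ), z ≠ 0 → 0 < t →
    ps (hh t z) (fderiv ℝ (hh t) z v) = -(2 * ⟪qI z, v⟫ / ‖z‖ ^ 2)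

/-! ### radial forms -/

/-- LEAF RADF: the exact values of the model forms in the frames (at points of `T S²`,
`p ≠ 0` for the angular form). `a` is a function of `|p|`. -/
structure RADF : Prop where
  d1l1 : ∀ (z U V : E6), d1 l1 z U V = ⟪U.2, V.1⟫ - ⟪V.2, U.1⟫
  l1f : ∀ (z : E6) (r : ℝ) (e : E3), z ∈ TS r → IsFr z.1 e → ∀ i j, en (d1 l1 z) z e i j =
    if (i = 0 ∧ j = 2) ∨ (i = 1 ∧ j = 3) then -1
    else if (i = 2 ∧ j = 0) ∨ (i = 3 ∧ j = 1) then 1 else 0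
  l2f : ∀ (z : E6) (r : ℝ) (e : E3), z ∈ TS r → IsFr z.1 e → ∀ i j, en (d1 l2 z) z e i j =
    if (i = 0 ∧ j = 3) ∨ (i = 2 ∧ j = 1) then -1
    else if (i = 3 ∧ j = 0) ∨ (i = 1 ∧ j = 2) then 1 else 0
  psf : ∀ (z : E6) (r : ℝ) (e : E3) (a : ℝ → ℝ), z ∈ TS r → z.2 ≠ 0 → IsFr z.1 e →
    ContDiffAt ℝ 1 a ‖z.2‖ → ∀ i j, en (d1 (fun y => a ‖y.2‖ • ps y) z) z e i j =
    if i = 0 ∧ j = 1 then - a ‖z.2‖ else if i = 1 ∧ j = 0 then a ‖z.2‖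
    else if i = 2 ∧ j = 3 then deriv a ‖z.2‖ / ‖z.2‖
    else if i = 3 ∧ j = 2 then - (deriv a ‖z.2‖ / ‖z.2‖) else 0

/-! ### the Pfaffian inequalities

`E i a b` = entries of the `i`-th form (only `01, 23, 02, 13, 03, 12` are used). -/

/-- the Pfaffian of a matrix of entries. -/
def pfE (m : Fin 4 → Fin 4 → ℝ) : ℝ := m 0 1 * m 2 3 - m 0 2 * m 1 3 + m 0 3 * m 1 2

/-- the determinant of the mixed block. -/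
def detE (m : Fin 4 → Fin 4 → ℝ) : ℝ := m 0 2 * m 1 3 - m 0 3 * m 1 2

/-- LEAF ALGQ: almost block diagonal triples with `a b` large are positive. -/
def ALGQ : Prop :=
  ∀ (κ a b m B e₁ e₂ : ℝ) (E : Fin 3 → Fin 4 → Fin 4 → ℝ), 0 < κ → 0 < a → 0 < b →
    E 0 0 1 = a → E 0 2 3 = -b →
    |E 0 0 2| ≤ m → |E 0 0 3| ≤ m → |E 0 1 2| ≤ m → |E 0 1 3| ≤ m →
    |E 1 0 1| ≤ e₁ → |E 2 0 1| ≤ e₁ → |E 1 2 3| ≤ e₂ → |E 2 2 3| ≤ e₂ →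
    |E 1 0 2| ≤ B → |E 1 0 3| ≤ B → |E 1 1 2| ≤ B → |E 1 1 3| ≤ B →
    |E 2 0 2| ≤ B → |E 2 0 3| ≤ B → |E 2 1 2| ≤ B → |E 2 1 3| ≤ B →
    (∀ x y : ℝ, κ * (x ^ 2 + y ^ 2) ≤ detE (fun i j => x * E 1 i j + y * E 2 i j)) →
    4 * (e₁ * e₂) ≤ κ → (a * e₂ + b * e₁ + 4 * (m * B)) ^ 2 < κ * (a * b - 2 * m ^ 2) →
    ∀ c : Fin 3 → ℝ, c ≠ 0 → pfE (fun i j => ∑ k, c k * E k i j) < 0

/-- LEAF ALGI: the bump inequality (`A` is subtracted from the entry `01` of the zeroth form, `L`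
from the entry `23`). -/
def ALGI : Prop :=
  ∀ (κ α C A L e₁ : ℝ) (E : Fin 3 → Fin 4 → Fin 4 → ℝ), 0 < κ → 0 < α → 0 ≤ A → 0 ≤ L → 0 ≤ e₁ →
    α ≤ E 0 0 1 → (∀ k, |E k 2 3| ≤ C) → |E 1 0 1| ≤ e₁ → |E 2 0 1| ≤ e₁ →
    (∀ c : Fin 3 → ℝ, κ * (c 0 ^ 2 + c 1 ^ 2 + c 2 ^ 2) ≤
      - pfE (fun i j => ∑ k, c k * E k i j)) →
    2 * A ≤ α → 16 * (A * C) ≤ κ → 16 * (L * e₁ ^ 2) ≤ κ * α →
    ∀ c : Fin 3 → ℝ, c ≠ 0 →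
      pfE (fun i j => ∑ k, c k * E k i j -
        (if i = 0 ∧ j = 1 then c 0 * A else if i = 2 ∧ j = 3 then c 0 * L else 0)) < 0

/-! ### cut-off functions -/

/-- LEAF CUT: logarithmic cut-off functions and the compensating function. -/
def CUT : Prop :=
  ∀ ρ η : ℝ, 0 < ρ → 0 < η → ∃ (ρ' : ℝ) (χ a : ℝ → ℝ), 0 < ρ' ∧ ρ' < ρ ∧
    ContDiff ℝ ∞ χ ∧ (∀ t, 0 ≤ χ t ∧ χ t ≤ 1) ∧ (∀ t ≤ ρ', χ t = 1) ∧ (∀ t, ρ ≤ t → χ t = 0) ∧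
    (∀ t, |t * deriv χ t| ≤ η) ∧
    ContDiff ℝ ∞ a ∧ (∀ t, 0 ≤ t → 0 ≤ a t ∧ a t ≤ η) ∧ (∀ t, ρ ≤ t → a t = 0) ∧
    (∀ t ≤ ρ', a t = a 0) ∧ ∀ t, deriv a t = - (t * deriv χ t ^ 2)

/-- LEAF FLAT: the radial profile with a flat zone. `g₁` is the profile `c + K t²/2`. -/
def FLAT : Prop :=
  ∀ c K ρ : ℝ, 0 < c → 0 < K → 0 < ρ → ∃ (t₁ t₂ t₃ : ℝ) (g : ℝ → ℝ), 0 < t₁ ∧ t₁ < t₂ ∧
    t₂ < t₃ ∧ t₃ < ρ ∧ ContDiff ℝ ∞ g ∧ (∀ t, t₃ ≤ t → g t = c + K * t ^ 2 / 2) ∧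
    (∀ t, t₁ ≤ t → t ≤ t₂ → g t = t) ∧ (∀ t, 0 ≤ t → 0 < g t) ∧ (∀ t, 0 < t → 0 < deriv g t) ∧
    ∃ c' K' t₀ : ℝ, 0 < c' ∧ 0 < K' ∧ 0 < t₀ ∧ ∀ t, t ≤ t₀ → g t = c' + K' * t ^ 2 / 2

/-! ### primitives -/

/-- a function on the sphere, extended homogeneously of degree `0`, smooth. -/
def Hom0 (f : E3 → ℝ) : Prop :=
  ContDiffOn ℝ ∞ f {0}ᶜ ∧ ∀ (t : ℝ) (q : E3), 0 < t → f (t • q) = f q

/-- LEAF S2PRIM: functions of mean zero on the sphere: `f · area` has a primitive. -/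
def S2PRIM : Prop :=
  ∀ f : E3 → ℝ, Hom0 f →
    ∫ y : Metric.sphere (0 : E3) 1, f y ∂((volume : Measure E3).toSphere) = 0 →
    ∃ γ : E3 → E3 →L[ℝ] ℝ, ContDiffOn ℝ ∞ γ {0}ᶜ ∧ (∀ q, γ q q = 0) ∧
      (∀ (t : ℝ) (q : E3), 0 < t → q ≠ 0 → γ (t • q) = t⁻¹ • γ q) ∧
      ∀ q u v : E3, ‖q‖ = 1 → ⟪q, u⟫ = 0 → ⟪q, v⟫ = 0 → d1 γ q u v = f q * ⟪q, cr u v⟫

/-- a smooth closed alternating two-form on `OS r` which is the pull-back of its restriction to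
`T S²`. -/
structure Bas (r : ℝ) (W : E6 → B6) : Prop where
  smooth : ContDiffOn ℝ ∞ W (OS r)
  alt : ∀ z ∈ OS r, ∀ U, W z U U = 0
  closed : ∀ z ∈ OS r, ∀ U V Y, dd W z U V Y = 0
  bas : ∀ z ∈ OS r, ∀ U V, W z U V = W (Pi z) (fderiv ℝ Pi z U) (fderiv ℝ Pi z V)

/-- a smooth one-form on `OS r` which is the pull-back of its restriction to `T S²`. -/
structure Bas1 (r : ℝ) (β : E6 → E6 →L[ℝ] ℝ) : Prop where
  smooth : ContDiffOn ℝ ∞ β (OS r)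
  bas : ∀ z ∈ OS r, ∀ U, β z U = β (Pi z) (fderiv ℝ Pi z U)

/-- LEAF RPRIM: relative Poincaré lemma. If `W` vanishes on the zero section (as a form on `S²`),
it has a primitive `β` on `OS r` which vanishes on the zero section, and to second order if `W`
vanishes at the zero section on all vectors. -/
def RPRIM : Prop :=
  ∀ (r : ℝ) (W : E6 → B6), 0 < r → Bas r W →
    (∀ q u v : E3, ‖q‖ = 1 → ⟪q, u⟫ = 0 → ⟪q, v⟫ = 0 → W (q, 0) (u, 0) (v, 0) = 0) →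
    ∃ β : E6 → E6 →L[ℝ] ℝ, Bas1 r β ∧ (∀ z ∈ OS r, d1 β z = W z) ∧
      (∀ r' < r, ∃ C : ℝ, ∀ z ∈ TS r', ‖β z‖ ≤ C * ‖z.2‖) ∧
      ((∀ q : E3, ‖q‖ = 1 → W (q, 0) = 0) →
        ∀ r' < r, ∃ C : ℝ, ∀ z ∈ TS r', ‖β z‖ ≤ C * ‖z.2‖ ^ 2)

/-! ### the tube -/

section Man

variable {M : Type u} [TopologicalSpace M] [ChartedSpace E4 M] [IsManifold 𝓘(ℝ, E4) ∞ M]

/-- the pull-back of a two-form of `M` by a map `E6 → M`. -/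
def P2 (Ps : E6 → M) (a : F2 E4 M) (z : E6) : B6 :=
  at2 (PB_604.pb2 (E := E6) (F := E4) Ps a) z


/-- a tube round an embedded sphere: `Ps : OS r → U` and its inverse `G : U → TS r`. -/
structure Tube (σ : E3 → M) (r : ℝ) (Ps : E6 → M) (G : M → E6) (U : Set M) : Prop where
  r_pos : 0 < r
  smooth : ContMDiffOn 𝓘(ℝ, E6) 𝓘(ℝ, E4) ∞ Ps (OS r)
  fac : ∀ z ∈ OS r, Ps (Pi z) = Ps z
  zero : ∀ q : E3, ‖q‖ = 1 → Ps (q, 0) = σ q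
  openU : IsOpen U
  maps : ∀ z ∈ OS r, Ps z ∈ U
  smoothG : ContMDiffOn 𝓘(ℝ, E4) 𝓘(ℝ, E6) ∞ G U
  mapsG : ∀ x ∈ U, G x ∈ TS r
  left : ∀ x ∈ U, Ps (G x) = x
  right : ∀ z ∈ OS r, G (Ps z) = Pi z

end Man

section Closed

variable {M : Type u} [TopologicalSpace M] [T2Space M] [CompactSpace M]
  [ChartedSpace E4 M] [IsManifold 𝓘(ℝ, E4) ∞ M]

/-- the image of a sphere. -/
def im (σ : E3 → M) : Set M := σ '' Metric.sphere 0 1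

/-- the values of the pair on the zero section: `w 1` is the canonical form `d(p·dq)`, the fibres
are Lagrangian for `w 2`, and so is the sphere. -/
structure Jet (w : Trip M) (Ps : E6 → M) : Prop where
  one : ∀ q : E3, ‖q‖ = 1 → P2 Ps ((w 1).1.1 : F2 E4 M) (q, 0) = (d1 (fun z => (l1 (Pi z)).comp (fderiv ℝ Pi z)) (q, 0))
  hor2 : ∀ q u v : E3, ‖q‖ = 1 → P2 Ps ((w 2).1.1 : F2 E4 M) (q, 0) (u, 0) (v, 0) = 0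
  ver2 : ∀ q u v : E3, ‖q‖ = 1 → ⟪q, u⟫ = 0 → ⟪q, v⟫ = 0 →
    P2 Ps ((w 2).1.1 : F2 E4 M) (q, 0) (0, u) (0, v) = 0

variable (M) in
/-- LEAF TUBE. -/
def TUBE : Prop :=
  ∀ (w : Trip M), Pos3 w → ∀ σ : E3 → M, EmbS σ →
    (∀ y u v : E3, ‖y‖ = 1 → val (w 1) (σ y) (dmap σ y u) (dmap σ y v) = 0) →
    (∀ y u v : E3, ‖y‖ = 1 → val (w 2) (σ y) (dmap σ y u) (dmap σ y v) = 0) →
    ∀ O : Set M, IsOpen O → im σ ⊆ O →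
    ∃ (r : ℝ) (Ps : E6 → M) (G : M → E6) (U : Set M), Tube σ r Ps G U ∧ U ⊆ O ∧ Jet w Ps


variable (M) in
/-- LEAF EXT: a basic one-form on `OS r` with support in `{|p| ≤ r'}`, `r' < r`, extends by zero to
a smooth one-form on `M`; the pull-back of its differential. -/
def EXT : Prop :=
  ∀ (σ : E3 → M) (r : ℝ) (Ps : E6 → M) (G : M → E6) (U : Set M), Tube σ r Ps G U →
    ∀ (β : E6 → E6 →L[ℝ] ℝ) (r' : ℝ), r' < r → Bas1 r β → (∀ z ∈ TS r, r' ≤ ‖z.2‖ → β z = 0) →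
      ∃ a : Z2 M, (∃ s : F1 E4 M, Smooth1 s ∧ (a.1.1 : F2 E4 M) = dG s) ∧
        (∀ x, (∀ z ∈ TS r, ‖z.2‖ ≤ r' → x ≠ Ps z) → val a x = 0) ∧
        ∀ z ∈ OS r, P2 Ps (a.1.1 : F2 E4 M) z = d1 β z

/-! ### the output -/

/-- the triple is standard near the spheres (`s = ± 1` is the same for all spheres). -/
structure Std {m : ℕ} (σ : Fin m → E3 → M) (w : Trip M) (φ : Fin m → E4 → M) (s : ℝ)
    (R r₀ : Fin m → ℝ) (g : Fin m → ℝ → ℝ) : Prop where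
  smooth : ∀ i, ContMDiffOn 𝓘(ℝ, E4) 𝓘(ℝ, E4) ∞ (φ i) (KT_604.PB 1)
  even : ∀ i, ∀ z ∈ KT_604.PB 1, φ i (-z) = φ i z
  inj : ∀ i, ∀ z ∈ KT_604.PB 1, ∀ z' ∈ KT_604.PB 1, φ i z = φ i z' → z' = z ∨ z' = -z
  imm : ∀ i, ∀ z ∈ KT_604.PB 1, ∀ v : E4, dmap (φ i) z v = 0 → v = 0
  out : ∀ i j, ∀ z ∈ KT_604.PB 1, φ i z ∉ im (σ j)
  sep : ∀ i j, i ≠ j → ∀ z ∈ KT_604.PB 1, ∀ z' ∈ KT_604.PB 1, φ i z ≠ φ j z'
  nbh : ∀ i (r : ℝ), 0 < r → r ≤ 1 → IsOpen (im (σ i) ∪ φ i '' KT_604.PB r)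
  shrink : ∀ i (O : Set M), IsOpen O → im (σ i) ⊆ O →
    ∃ r : ℝ, 0 < r ∧ r ≤ 1 ∧ φ i '' KT_604.PB r ⊆ O
  sgn : s = 1 ∨ s = -1
  R_pos : ∀ i, 0 < R i
  r_pos : ∀ i, 0 < r₀ i ∧ r₀ i < 1
  w1 : ∀ i, ∀ z ∈ KT_604.PB 1, ∀ u v : E4,
    val (w 1) (φ i z) (dmap (φ i) z u) (dmap (φ i) z v) = R i * ⟪qJ u, v⟫
  w2 : ∀ i, ∀ z ∈ KT_604.PB 1, ∀ u v : E4,
    val (w 2) (φ i z) (dmap (φ i) z u) (dmap (φ i) z v) = s * R i * ⟪qK u, v⟫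
  w0 : ∀ i, ∀ z ∈ KT_604.PB 1, ∀ u v : E4,
    val (w 0) (φ i z) (dmap (φ i) z u) (dmap (φ i) z v) = R i * d1 (lg (g i)) z u v
  g_smooth : ∀ i, ContDiffOn ℝ ∞ (g i) (Ioi 0)
  g_pos : ∀ i t, 0 < t → t < 1 → 0 < g i t ∧ 0 < deriv (g i) t
  g_flat : ∀ i t, r₀ i ^ 2 ≤ t → t < 1 → g i t = t


end Closed

end

end Crest.Agent.R235.K12_417
private theorem rz_68f0519022 : type_of% @_root_.Crest.Agent.R235.K12_417.X.eq_1 := @_root_.Crest.Agent.R235.K12_417.X.eq_1 -- L65
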