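import Crest.Agent.R235.KGlue_604
import Crest.Agent.R235.KForm_604
import Crest.Agent.R235.KumDefs2_152
import Crest.Agent.R235.TorMinA_510

/-!
Row 235, KUM-K3' (helper604): the lift of the standardised triple to the double cover: `KUP`.
-/

set_option autoImplicit false
set_option maxSynthPendingDepth 3
set_option linter.unusedSectionVars false

open Set Function Filter
open scoped Manifold ContDiff Topology RealInnerProductSpace

universe u

namespace Crest.Agent.R235.KUp_604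

open Crest.Agent.R240 Crest.Agent.R240.Ch Crest.Agent.R235 Crest.Agent.R235.PB_604
  Crest.Agent.R235.KLin_604 Crest.Agent.R235.KT_604 Crest.Agent.R235.KGlue_604
  Crest.Agent.R235.KForm_604 Crest.Agent.R235.K12_417

noncomputable section

section Basic

variable {M : Type u} [TopologicalSpace M] [ChartedSpace E4 M] [IsManifold 𝓘(ℝ, E4) ∞ M]

/-- a closed form from local data. -/
def mkZ (c : F2 E4 M) (h : ∀ x, Z2At c x) : Z2 M :=
  ⟨⟨c, smooth2_of_z2At h⟩, closed2_of_z2At h⟩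

@[simp] lemma val_mkZ (c : F2 E4 M) (h : ∀ x, Z2At c x) (x : M) : val (mkZ c h) x = at2 c x := rfl

lemma z2At_val (a : Z2 M) (x : M) : Z2At (a.1.1 : F2 E4 M) x := z2At_of_mem a.1.2 a.2 x

lemma alt_val (a : Z2 M) (x : M) : Alt (val a x) := fun v => (z2At_val a x).alt v


lemma ext_Z2 {a b : Z2 M} (h : ∀ x, val a x = val b x) : a = b := by
  apply Subtype.ext
  apply Subtype.ext
  funext x
  exact h x

end Basic

section KO

variable {M : Type u} [TopologicalSpace M] [ChartedSpace E4 M] [IsManifold 𝓘(ℝ, E4) ∞ M]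
  {m : ℕ} {K : KIn M m}
variable {X : Type u} [TopologicalSpace X] [ChartedSpace E4 X] [IsManifold 𝓘(ℝ, E4) ∞ X]
variable (O : KOut K X)

lemma dself_io (x : X) : dself O.io x = D1 E4 E4 O.io x := TorMin_510.dself_eq O.io_smooth x

/-- even forms. -/
def EvF (c : F2 E4 X) : Prop := ∀ x, pl (D1 E4 E4 O.io x) (at2 c (O.io x)) = at2 c x

variable {O}

lemma evenT_iff [T2Space X] [CompactSpace X] {u : Trip X} :
    EvenT O.io u ↔ ∀ k, EvF O ((u k).1.1 : F2 E4 X) := by
  constructor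
  · intro h k x
    ext v v'
    rw [pl_apply]
    have := h k x v v'
    rw [dself_io] at this
    exact this
  · intro h k x v v'
    have := congrArg (fun b : Bil => b v v') (h k x)
    simp only [pl_apply] at this
    rw [dself_io]
    exact this

variable (O) [T2Space X]

/-- the chain rule for `io ∘ ch i`. -/
lemma D1_io_ch {i : Fin m} {z : E4} (hz : z ∈ Metric.ball (0 : E4) 1) :
    (D1 E4 E4 O.io (O.ch i z)).comp (D1 E4 E4 (O.ch i) z) = - D1 E4 E4 (O.ch i) (-z) := by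
  have hz' : -z ∈ Metric.ball (0 : E4) 1 := by simpa using hz
  have h1 := D1_comp (E := E4) (F := E4) (G := E4) (f := O.ch i) (g := O.io) (x := z)
    ((KOut.ch_at O hz).of_le one_le_infty) ((O.io_smooth _).of_le one_le_infty)
  rw [← h1]
  have h2 : D1 E4 E4 (O.io ∘ O.ch i) z = D1 E4 E4 (O.ch i ∘ fun z : E4 => -z) z := by
    refine D1_congr ?_
    filter_upwards [Metric.isOpen_ball.mem_nhds hz] with y hy
    exact O.io_ch i y hy
  rw [h2]
  have h3 : ContMDiffAt 𝓘(ℝ, E4) 𝓘(ℝ, E4) 1 (fun z : E4 => -z) z :=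
    (contDiff_neg.contDiffAt (n := 1)).contMDiffAt
  rw [D1_comp (E := E4) (F := E4) (G := E4) (f := fun z : E4 => -z) (g := O.ch i) (x := z) h3
    ((KOut.ch_at O hz').of_le one_le_infty)]
  have h4 : D1 E4 E4 (fun z : E4 => -z) z = - ContinuousLinearMap.id ℝ E4 := by
    show fderiv ℝ (fun z : E4 => -z) z = _
    exact (hasFDerivAt_id (𝕜 := ℝ) z).fun_neg.fderiv
  rw [h4]
  ext1 v
  simp

lemma pl_neg_right (A : E4 →L[ℝ] E4) (b : Bil) : pl (-A) b = pl A b := by
  ext u v; simp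

/-- evenness in the chart at a new point. -/
lemma even_ch {c : F2 E4 X} (hc : EvF O c) {i : Fin m} {z : E4}
    (hz : z ∈ Metric.ball (0 : E4) 1) :
    pl (D1 E4 E4 (O.ch i) (-z)) (at2 c (O.ch i (-z))) =
      pl (D1 E4 E4 (O.ch i) z) (at2 c (O.ch i z)) := by
  have h1 := hc (O.ch i z)
  rw [O.io_ch i z hz] at h1
  rw [← h1, pl_pl, D1_io_ch O hz, pl_neg_right]

/-- evenness at a point of the ball, from evenness in the chart. -/
lemma even_of_ch {c : F2 E4 X} {i : Fin m} {z : E4} (hz : z ∈ Metric.ball (0 : E4) 1)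
    (h : pl (D1 E4 E4 (O.ch i) (-z)) (at2 c (O.ch i (-z))) =
      pl (D1 E4 E4 (O.ch i) z) (at2 c (O.ch i z))) :
    pl (D1 E4 E4 O.io (O.ch i z)) (at2 c (O.io (O.ch i z))) = at2 c (O.ch i z) := by
  refine pl_inj (A := D1 E4 E4 (O.ch i) z) (O.ch_imm i z hz) ?_
  rw [pl_pl, D1_io_ch O hz, pl_neg_right, O.io_ch i z hz, h]

/-- chain rule for `pr ∘ io`. -/
lemma D1_pr_io {x : X} (hx : x ∈ Reg O) :
    D1 E4 E4 O.pr x = (D1 E4 E4 O.pr (O.io x)).comp (D1 E4 E4 O.io x) := by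
  have h7 := D1_comp (E := E4) (F := E4) (G := E4) (f := O.io) (g := O.pr) (x := x)
    ((O.io_smooth x).of_le one_le_infty)
    ((KOut.pr_at O (KOut.io_Reg O hx)).of_le one_le_infty)
  rw [← h7]
  refine D1_congr ?_
  filter_upwards [(KOut.isOpen_Reg O).mem_nhds hx] with y hy
  exact (O.pr_io y hy).symm

end KO

/-! ### the standard forms -/

section Std

variable {M : Type u} [TopologicalSpace M] [T2Space M] [CompactSpace M]
  [ChartedSpace E4 M] [IsManifold 𝓘(ℝ, E4) ∞ M]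

lemma g_hasDeriv_one {g : ℝ → ℝ} (hg : ContDiffOn ℝ ∞ g (Ioi 0)) {r t : ℝ} (hr : 0 < r)
    (hf : ∀ t, r ^ 2 ≤ t → t < 1 → g t = t) (h1 : r ^ 2 ≤ t) (h2 : t < 1) :
    HasDerivAt g 1 t := by
  have ht : 0 < t := lt_of_lt_of_le (by positivity) h1
  have hd : DifferentiableAt ℝ g t :=
    (hg.contDiffAt (Ioi_mem_nhds ht)).differentiableAt infty_ne_zero
  have e1 : HasDerivWithinAt g (deriv g t) (Ici t) t := hd.hasDerivAt.hasDerivWithinAt
  have e2 : HasDerivWithinAt g 1 (Ici t) t := by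
    have e3 : HasDerivWithinAt (fun s : ℝ => s) 1 (Ici t) t := (hasDerivAt_id' t).hasDerivWithinAt
    refine e3.congr_of_eventuallyEq ?_ (hf t h1 h2)
    have e4 : ∀ᶠ s in 𝓝[Ici t] t, s < 1 := nhdsWithin_le_nhds (Iio_mem_nhds h2)
    filter_upwards [e4, self_mem_nhdsWithin] with s hs1 hs2
    exact hf s (h1.trans hs2) hs1
  have e5 : deriv g t = 1 := (uniqueDiffWithinAt_Ici t).eq_deriv _ e1 e2
  rw [← e5]
  exact hd.hasDerivAt


variable {m : ℕ} {σ : Fin m → E3 → M} {w : Trip M} {φ : Fin m → E4 → M} {s : ℝ}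
    {R r₀ : Fin m → ℝ} {g : Fin m → ℝ → ℝ}

lemma std_g (h : Std σ w φ s R r₀ g) (i : Fin m) {t : ℝ} (h1 : r₀ i ^ 2 ≤ t) (h2 : t < 1) :
    HasDerivAt (g i) 1 t :=
  g_hasDeriv_one (h.g_smooth i) (h.r_pos i).1 (h.g_flat i) h1 h2

lemma std_cd (h : Std σ w φ s R r₀ g) (i : Fin m) {z : E4} (hz : z ≠ 0) :
    ContDiffAt ℝ ∞ (g i) (‖z‖ ^ 2) := (h.g_smooth i).contDiffAt (Ioi_mem_nhds (nsq_pos hz))

lemma std_df (h : Std σ w φ s R r₀ g) (i : Fin m) {z : E4} (hz : z ≠ 0) :
    DifferentiableAt ℝ (g i) (‖z‖ ^ 2) := (std_cd h i hz).differentiableAt infty_ne_zero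

lemma nsq_lt {z : E4} (hz : z ∈ PB 1) : ‖z‖ ^ 2 < 1 := by
  have h1 := hz.2
  have h0 := norm_nonneg z
  nlinarith

/-- flat part of the neck. -/
lemma std_flat (h : Std σ w φ s R r₀ g) (i : Fin m) {z : E4} (hz : z ∈ PB 1) (hr : r₀ i ≤ ‖z‖) :
    d1 (lg (g i)) z = et 0 := by
  have h0 := (h.r_pos i).1
  have h1 : r₀ i ^ 2 ≤ ‖z‖ ^ 2 := by gcongr
  exact d1_lg_id hz.1 (h.g_flat i _ h1 (nsq_lt hz)) (std_g h i h1 (nsq_lt hz))

/-- the triple on the neck. -/
def neckT (g : ℝ → ℝ) (z : E4) : Fin 3 → Bil := ![d1 (lg g) z, et 1, et 2]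


lemma neckT_flat {g : ℝ → ℝ} {z : E4} (h : d1 (lg g) z = et 0) : neckT g z = et := by
  funext a
  fin_cases a
  · exact h
  · rfl
  · rfl

/-- pull back of the standard triple to the neck. -/
lemma std_pl (h : Std σ w φ 1 R r₀ g) (i : Fin m) {z : E4} (hz : z ∈ PB 1) (k : Fin 3) :
    pl (D1 E4 E4 (φ i) z) (val (w k) (φ i z)) = R i • neckT (g i) z k := by
  ext u v
  rw [pl_apply]
  fin_cases k
  · exact h.w0 i z hz u v
  · have := h.w1 i z hz u v
    rw [← et_qJ] at this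
    exact this
  · have := h.w2 i z hz u v
    rw [← et_qK, one_mul] at this
    exact this

end Std

/-! ### KUP -/

set_option maxHeartbeats 1000000 in
theorem kup (M : Type u) [TopologicalSpace M] [T2Space M] [CompactSpace M] [ConnectedSpace M]
    [ChartedSpace E4 M] [IsManifold 𝓘(ℝ, E4) ∞ M] (w : Trip M) (hw : Pos3 w)
    (m : ℕ) (σ : Fin m → E3 → M) (φ : Fin m → E4 → M) (R r₀ : Fin m → ℝ)
    (g : Fin m → ℝ → ℝ) (hS : Std σ w φ 1 R r₀ g) (K : KIn M m) (hKC : ∀ i, K.C i = im (σ i))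
    (hKp : K.phi = φ) (X : Type u) [TopologicalSpace X] [T2Space X] [CompactSpace X]
    [ConnectedSpace X] [ChartedSpace E4 X] [IsManifold 𝓘(ℝ, E4) ∞ X] (O : KOut K X) :
    ∃ u : Trip X, Pos3 u ∧ LiftT w O R r₀ u := by
  subst hKp
  -- a radius
  obtain ⟨r, hr1, hr⟩ : ∃ r : ℝ, r < 1 ∧ ∀ i, r₀ i ≤ r := by
    have h1 : ∀ᶠ r in 𝓝[<] (1 : ℝ), ∀ i, r₀ i ≤ r := by
      refine eventually_all.2 fun i => ?_
      filter_upwards [Ioo_mem_nhdsLT (hS.r_pos i).2] with r hr
      exact hr.1.le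
    obtain ⟨r, hr, hr'⟩ := (h1.and self_mem_nhdsWithin).exists
    exact ⟨r, hr', hr⟩
  have key : ∀ k : Fin 3, ∃ c : F2 E4 X, (∀ x, Z2At c x) ∧
      (∀ i, ∀ z ∈ Metric.ball (0 : E4) 1, pl (D1 E4 E4 (O.ch i) z) (at2 c (O.ch i z)) =
        R i • et k) ∧
      (∀ x, (∀ i, ∀ z, ‖z‖ ≤ r → x ≠ O.ch i z) → x ∈ Reg O →
        at2 c x = pl (D1 E4 E4 O.pr x) (val (w k) (O.pr x))) := by
    intro k
    refine up O ((w k).1.1 : F2 E4 M) (fun y _ => z2At_val (w k) y)
      (fun i => ((fun _ => R i • et k) : F2 E4 E4)) r hr1 (fun i z _ => ?_) fun i z hz hrz => ?_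
    · exact z2At_const (fun v => by
        show R i * et k v v = 0
        rw [alt_et k v, mul_zero]) z
    · rw [at2_pb2]
      show pl (D1 E4 E4 (K.phi i) z) (val (w k) (K.phi i z)) = R i • et k
      rw [std_pl hS i hz k, neckT_flat (std_flat hS i hz ((hr i).trans hrz.le))]
  choose c hc1 hc2 hc3 using key
  -- outside the balls
  have hout : ∀ k x, (∀ i, x ∉ O.ch i '' Metric.ball 0 (r₀ i)) → x ∈ Reg O →
      at2 (c k) x = pl (D1 E4 E4 O.pr x) (val (w k) (O.pr x)) := by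
    intro k x hx hxR
    by_cases h : ∃ i, ∃ z, ‖z‖ ≤ r ∧ x = O.ch i z
    · obtain ⟨i, z, hz, rfl⟩ := h
      have hz1 : z ∈ Metric.ball (0 : E4) 1 := by simpa using lt_of_le_of_lt hz hr1
      have hz0 : z ≠ 0 := by
        rintro rfl
        exact hxR i rfl
      have hzP : z ∈ PB 1 := ⟨hz0, by simpa using hz1⟩
      have hzr : r₀ i ≤ ‖z‖ := by
        by_contra hcon
        exact hx i ⟨z, by simpa using not_le.1 hcon, rfl⟩
      refine pl_inj (A := D1 E4 E4 (O.ch i) z) (O.ch_imm i z hz1) ?_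
      rw [hc2 k i z hz1, pl_pl, ← D1_pr_ch O hzP, O.pr_ch i z hzP, std_pl hS i hzP k,
        neckT_flat (std_flat hS i hzP hzr)]
    · push Not at h
      exact hc3 k x (fun i z hz => h i z hz) hxR
  have hReg : ∀ x, (∀ i, x ∉ O.ch i '' Metric.ball 0 (r₀ i)) → x ∈ Reg O := by
    intro x hx i hxi
    exact hx i ⟨0, by simpa using (hS.r_pos i).1, hxi.symm⟩
  refine ⟨fun k => mkZ (c k) (hc1 k), ?_, ?_⟩
  · intro x
    show PosB (fun a => at2 (c a) x)
    by_cases h : ∃ i, x ∈ O.ch i '' Metric.ball 0 (r₀ i)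
    · obtain ⟨i, z, hz, rfl⟩ := h
      have hz1 : z ∈ Metric.ball (0 : E4) 1 :=
        Metric.ball_subset_ball (hS.r_pos i).2.le hz
      exact posB_of_pl (c := ket (R i)) (fun a => (hc1 a _).alt) (O.ch_imm i z hz1)
        (fun a => hc2 a i z hz1) fun x hx => ((ket_def3 (hS.R_pos i)).pos x hx).ne'
    · push Not at h
      have hxR := hReg x h
      exact posB_of_eq_pl (b := fun a => val (w a) (O.pr x)) (fun a => alt_val _ _)
        (O.pr_imm x hxR) (fun a => hout a x h hxR) (hw (O.pr x))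
  · refine ⟨?_, ?_, ?_, ?_, ?_⟩
    · rw [evenT_iff]
      intro k x
      show pl (D1 E4 E4 O.io x) (at2 (c k) (O.io x)) = at2 (c k) x
      by_cases h : ∃ i, x ∈ O.ch i '' Metric.ball 0 1
      · obtain ⟨i, z, hz, rfl⟩ := h
        refine even_of_ch O hz ?_
        rw [hc2 k i z hz, hc2 k i (-z) (by simpa using hz)]
      · push Not at h
        have h1 : ∀ i, x ∉ O.ch i '' Metric.ball 0 (r₀ i) := fun i hi =>
          h i (image_mono (Metric.ball_subset_ball (hS.r_pos i).2.le) hi)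
        have hxR := hReg x h1
        have h2 : ∀ i, O.io x ∉ O.ch i '' Metric.ball 0 (r₀ i) := by
          rintro i ⟨z, hz, hzx⟩
          have hz1 : z ∈ Metric.ball (0 : E4) 1 :=
            Metric.ball_subset_ball (hS.r_pos i).2.le hz
          have h3 : O.ch i (-z) = x := by
            rw [← O.io_ch i z hz1, hzx, O.io_io]
          exact h i ⟨-z, by simpa using hz1, h3⟩
        rw [hout k x h1 hxR, hout k _ h2 (hReg _ h2), pl_pl, ← D1_pr_io O hxR, O.pr_io x hxR]
    · intro k x hx v v'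
      have := congrArg (fun b : Bil => b v v') (hout k x hx (hReg x hx))
      simp only [pl_apply] at this
      exact this
    · intro i z hz v v'
      have := congrArg (fun b : Bil => b v v') (hc2 0 i z hz)
      simp only [pl_apply] at this
      rw [← et_qI]
      exact this
    · intro i z hz v v'
      have := congrArg (fun b : Bil => b v v') (hc2 1 i z hz)
      simp only [pl_apply] at this
      rw [← et_qJ]
      exact this
    · intro i z hz v v'
      have := congrArg (fun b : Bil => b v v') (hc2 2 i z hz)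
      simp only [pl_apply] at this
      rw [← et_qK]
      exact this

theorem kup_stmt : KUP.{u} := fun M _ _ _ _ _ _ w hw m σ φ R r₀ g hS K hKC hKp X _ _ _ _ _ _ O =>
  kup M w hw m σ φ R r₀ g hS K hKC hKp X O

end

end Crest.Agent.R235.KUp_604
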