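import Mathlib

-- ▼ part R235/Move_844
section

/-!
Row 235 (S0364), helper844, package MOVE: the abstract class-moving argument.

`X` = closed two-forms, `P` = positive triples, `cl : X → H` = de Rham class, `B` = intersection
form, `R` = roots (classes of square `-2`; empty if `b₁ = 4`), `Hy` = hyperkaehler triples.
-/

set_option autoImplicit false

open Set Function

namespace Crest.Agent.R235.Mv

section Basic

variable {X : Type*} [AddCommGroup X] [Module ℝ X]

/-- affine interpolation of triples. -/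
def lin (w w' : Fin 3 → X) (t : ℝ) : Fin 3 → X := fun i => (1 - t) • w i + t • w' i

/-- interpolation with three different parameters. -/
def mix (w w' : Fin 3 → X) (a : Fin 3 → ℝ) : Fin 3 → X := fun i => (1 - a i) • w i + a i • w' i

/-- action of matrices on triples. -/
def act (g : Matrix (Fin 3) (Fin 3) ℝ) (c : Fin 3 → X) : Fin 3 → X := fun i => ∑ j, g i j • c j

/-- the segment from `w` to `w'` lies in `P`. -/
def Seg (P : Set (Fin 3 → X)) (w w' : Fin 3 → X) : Prop := ∀ t ∈ Icc (0 : ℝ) 1, lin w w' t ∈ P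

/-- the forms on the same side as `w k` (= forms which tame the almost complex structure of the
other two). -/
def Tm (P : Set (Fin 3 → X)) (w : Fin 3 → X) (k : Fin 3) : Set X :=
  {x | Seg P w (update w k x)}

@[simp] theorem lin_zero (w w' : Fin 3 → X) : lin w w' 0 = w := by
  funext i; simp [lin]

@[simp] theorem lin_one (w w' : Fin 3 → X) : lin w w' 1 = w' := by
  funext i; simp [lin]

theorem lin_self (w : Fin 3 → X) (t : ℝ) : lin w w t = w := by
  funext i
  rw [lin, ← add_smul]
  simp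

theorem lin_update (w : Fin 3 → X) (k : Fin 3) (x y : X) (t : ℝ) :
    lin (update w k x) (update w k y) t = update w k ((1 - t) • x + t • y) := by
  funext i
  by_cases h : i = k
  · subst h; simp [lin]
  · simp only [lin, update_of_ne h]
    rw [← add_smul]; simp

theorem lin_update' (w : Fin 3 → X) (k : Fin 3) (y : X) (t : ℝ) :
    lin w (update w k y) t = update w k ((1 - t) • w k + t • y) := by
  conv_lhs => rw [← update_eq_self k w]
  rw [update_idem, lin_update]

theorem lin_update_both (w w' : Fin 3 → X) (k : Fin 3) (x : X) (t : ℝ) :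
    lin (update w k x) (update w' k x) t = update (lin w w' t) k x := by
  funext i
  by_cases h : i = k
  · subst h
    simp only [lin, update_self]
    rw [← add_smul]; simp
  · simp [lin, update_of_ne h]

theorem lin_lin (w w' : Fin 3 → X) (a b t : ℝ) :
    lin (lin w w' a) (lin w w' b) t = lin w w' ((1 - t) * a + t * b) := by
  funext i
  simp only [lin]
  module


theorem mix_update (w w' : Fin 3 → X) (a : Fin 3 → ℝ) (k : Fin 3) (s : ℝ) :
    mix w w' (update a k s) = update (mix w w' a) k ((1 - s) • w k + s • w' k) := by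
  funext i
  by_cases h : i = k
  · subst h; simp [mix]
  · simp [mix, update_of_ne h]

theorem Seg.left {P : Set (Fin 3 → X)} {w w' : Fin 3 → X} (h : Seg P w w') : w ∈ P := by
  have := h 0 (by simp)
  simpa using this

theorem Seg.right {P : Set (Fin 3 → X)} {w w' : Fin 3 → X} (h : Seg P w w') : w' ∈ P := by
  have := h 1 (by simp)
  simpa using this

theorem Seg.symm {P : Set (Fin 3 → X)} {w w' : Fin 3 → X} (h : Seg P w w') : Seg P w' w := by
  intro t ht
  have h1 := h (1 - t) ⟨by linarith [ht.2], by linarith [ht.1]⟩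
  have h2 : lin w' w t = lin w w' (1 - t) := by
    funext i; simp only [lin]; module
  rw [h2]; exact h1

theorem Seg.refl {P : Set (Fin 3 → X)} {w : Fin 3 → X} (h : w ∈ P) : Seg P w w := fun t _ => by
  rw [lin_self]; exact h

theorem Seg.sub {P : Set (Fin 3 → X)} {w w' : Fin 3 → X} (h : Seg P w w') {a b : ℝ}
    (ha : a ∈ Icc (0 : ℝ) 1) (hb : b ∈ Icc (0 : ℝ) 1) : Seg P (lin w w' a) (lin w w' b) := by
  intro t ht
  rw [lin_lin]
  refine h _ ⟨?_, ?_⟩
  · have := mul_nonneg (by linarith [ht.2] : (0 : ℝ) ≤ 1 - t) ha.1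
    have := mul_nonneg ht.1 hb.1
    linarith
  · have h1 := mul_le_mul_of_nonneg_left ha.2 (by linarith [ht.2] : (0 : ℝ) ≤ 1 - t)
    have h2 := mul_le_mul_of_nonneg_left hb.2 ht.1
    linarith

theorem act_one (c : Fin 3 → X) : act 1 c = c := by
  funext i
  simp [act, Matrix.one_apply]

theorem act_mul (g h : Matrix (Fin 3) (Fin 3) ℝ) (c : Fin 3 → X) :
    act (g * h) c = act g (act h c) := by
  funext i
  simp only [act, Matrix.mul_apply, Finset.sum_smul, Finset.smul_sum]
  rw [Finset.sum_comm]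
  refine Finset.sum_congr rfl fun j _ => Finset.sum_congr rfl fun k _ => ?_
  rw [smul_smul]

theorem act_lin (g : Matrix (Fin 3) (Fin 3) ℝ) (c c' : Fin 3 → X) (t : ℝ) :
    act g (lin c c' t) = lin (act g c) (act g c') t := by
  funext i
  simp only [act, lin, smul_add, Finset.sum_add_distrib, Finset.smul_sum]
  congr 1 <;> exact Finset.sum_congr rfl fun j _ => smul_comm _ _ _

theorem sum_act (g : Matrix (Fin 3) (Fin 3) ℝ) (c : Fin 3 → X) (a : Fin 3 → ℝ) :
    ∑ i, a i • act g c i = ∑ j, (Matrix.vecMul a g) j • c j := by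
  simp only [act, Matrix.vecMul, dotProduct, Finset.sum_smul, Finset.smul_sum, smul_smul]
  rw [Finset.sum_comm]


end Basic

/-- a frame of classes is positive. -/
def PosF {H : Type*} [AddCommGroup H] [Module ℝ H] (B : H →ₗ[ℝ] H →ₗ[ℝ] ℝ) (c : Fin 3 → H) :
    Prop := ∀ a : Fin 3 → ℝ, a ≠ 0 → 0 < B (∑ i, a i • c i) (∑ i, a i • c i)

/-- no class of `R` is orthogonal to the pair `(c i, i ≠ k)`. -/
def NCp {H : Type*} [AddCommGroup H] [Module ℝ H] (B : H →ₗ[ℝ] H →ₗ[ℝ] ℝ) (R : Set H)
    (c : Fin 3 → H) (k : Fin 3) : Prop := ∀ d ∈ R, ∃ i, i ≠ k ∧ B d (c i) ≠ 0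

/-- the class condition for replacing the `k`-th class of the frame `c` by `x`. -/
def CC {H : Type*} [AddCommGroup H] [Module ℝ H] (B : H →ₗ[ℝ] H →ₗ[ℝ] ℝ) (R : Set H)
    (c : Fin 3 → H) (k : Fin 3) (x : H) : Prop :=
  Seg {c | PosF B c} c (update c k x) ∧ NCp B R c k

theorem PosF.act {H : Type*} [AddCommGroup H] [Module ℝ H] {B : H →ₗ[ℝ] H →ₗ[ℝ] ℝ} {c : Fin 3 → H}
    (hc : PosF B c) {g : Matrix (Fin 3) (Fin 3) ℝ} (hg : g.det ≠ 0) : PosF B (act g c) := by
  intro a ha
  rw [sum_act]
  refine hc _ fun h => ha ?_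
  exact Matrix.eq_zero_of_vecMul_eq_zero hg h

/-! ### density of generic vectors -/

theorem dense_ne {V : Type*} [NormedAddCommGroup V] [NormedSpace ℝ V] (l : V →ₗ[ℝ] ℝ)
    (hl : ∃ y, l y ≠ 0) : Dense {x | l x ≠ 0} := by
  obtain ⟨y, hy⟩ := hl
  intro x
  by_cases hx : l x = 0
  · have ht : Filter.Tendsto (fun n : ℕ => x + (1 / ((n : ℝ) + 1)) • y) Filter.atTop (nhds x) := by
      have h1 : Filter.Tendsto (fun n : ℕ => (1 / ((n : ℝ) + 1)) • y) Filter.atTop
          (nhds ((0 : ℝ) • y)) :=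
        (tendsto_one_div_add_atTop_nhds_zero_nat).smul_const y
      rw [zero_smul] at h1
      simpa using h1.const_add x
    refine mem_closure_of_tendsto ht (Filter.Eventually.of_forall fun n => ?_)
    show l _ ≠ 0
    rw [map_add, hx, zero_add, map_smul, smul_eq_mul]
    exact mul_ne_zero (by positivity) hy
  · exact subset_closure hx

theorem dense_gen {V ι : Type*} [NormedAddCommGroup V] [NormedSpace ℝ V] [FiniteDimensional ℝ V]
    (R : Set ι) (hR : R.Countable) (l : ι → V →ₗ[ℝ] ℝ) (hl : ∀ d ∈ R, ∃ y, l d y ≠ 0) :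
    Dense {x : V | ∀ d ∈ R, l d x ≠ 0} := by
  have : CompleteSpace V := FiniteDimensional.complete ℝ V
  have := dense_biInter_of_isOpen (S := R) (f := fun d => {x : V | l d x ≠ 0})
    (fun d _ => isOpen_ne_fun (LinearMap.continuous_of_finiteDimensional (l d)) continuous_const)
    hR (fun d hd => dense_ne (l d) (hl d hd))
  convert this using 1
  ext x
  simp

/-- near every matrix there are generic ones. -/
theorem dense_mat {ι H : Type*} [AddCommGroup H] [Module ℝ H] (B : ι → H →ₗ[ℝ] ℝ) (R : Set ι)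
    (hR : R.Countable) (c : ι → Fin 3 → H) (hroot : ∀ d ∈ R, ∃ i, B d (c d i) ≠ 0) :
    Dense {g : Fin 3 → Fin 3 → ℝ | ∀ i, ∀ d ∈ R, B d (act (Matrix.of g) (c d) i) ≠ 0} := by
  have h1 : Dense {x : Fin 3 → ℝ | ∀ d ∈ R, ∑ j, x j * B d (c d j) ≠ 0} := by
    refine dense_gen R hR (fun d => ∑ j, (B d (c d j)) • LinearMap.proj (R := ℝ) j)
      (fun d hd => ?_) |>.mono ?_
    · obtain ⟨i, hi⟩ := hroot d hd
      refine ⟨Pi.single i 1, ?_⟩
      simpa [Pi.single_apply] using hi
    · intro x hx d hd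
      have := hx d hd
      simpa [mul_comm] using this
  have h2 := dense_pi (univ : Set (Fin 3))
    (s := fun _ => {x : Fin 3 → ℝ | ∀ d ∈ R, ∑ j, x j * B d (c d j) ≠ 0}) (fun _ _ => h1)
  convert h2 using 1
  ext f
  simp [act]

/-- the data and nodes used by the class-moving argument. -/
structure Sys (X H : Type*) [AddCommGroup X] [Module ℝ X] [NormedAddCommGroup H]
    [NormedSpace ℝ H] [FiniteDimensional ℝ H] where
  /-- positive triples of closed forms -/
  P : Set (Fin 3 → X)
  P_act : ∀ (g : Matrix (Fin 3) (Fin 3) ℝ) (w : Fin 3 → X), g.det ≠ 0 → w ∈ P → act g w ∈ P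
  /-- de Rham class -/
  cl : X →ₗ[ℝ] H
  /-- intersection form -/
  B : H →ₗ[ℝ] H →ₗ[ℝ] ℝ
  B_symm : ∀ a b, B a b = B b a
  /-- dangerous classes -/
  R : Set H
  R_cnt : R.Countable
  /-- hyperkaehler triples -/
  Hy : Set (Fin 3 → X)
  Hy_sub : Hy ⊆ P
  Hy_act : ∀ (g : Matrix (Fin 3) (Fin 3) ℝ) (w : Fin 3 → X), g.det ≠ 0 → w ∈ Hy → act g w ∈ Hy
  /-- convexity of the set of taming forms -/
  cvx : ∀ w ∈ P, ∀ k, Convex ℝ (Tm P w k)
  /-- openness in finite-dimensional subspaces -/
  opn : ∀ (m : ℕ) (b : Fin m → X),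
    IsOpen {a : Fin 3 → Fin m → ℝ | (fun i => ∑ j, a i j • b j) ∈ P}
  /-- classes of a positive triple span a positive 3-space -/
  pos : ∀ w ∈ P, PosF B (fun i => cl (w i))
  /-- no positive triple is orthogonal to a dangerous class (SWB, b⁺ = 3) -/
  swb : ∀ w ∈ P, ∀ d ∈ R, ∃ i, B d (cl (w i)) ≠ 0
  /-- CONE -/
  cone : ∀ w ∈ P, ∀ k, ∀ c : H, CC B R (fun i => cl (w i)) k c → ∃ x ∈ Tm P w k, cl x = c
  /-- HKCONE -/
  hkcone : ∀ w ∈ Hy, ∀ k, ∀ c : H, CC B R (fun i => cl (w i)) k c →
    ∃ x ∈ Tm P w k, cl x = c ∧ update w k x ∈ Hy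

namespace Sys

variable {X H : Type*} [AddCommGroup X] [Module ℝ X] [NormedAddCommGroup H]
    [NormedSpace ℝ H] [FiniteDimensional ℝ H] (S : Sys X H)

/-- same classes. -/
def Same (w w' : Fin 3 → X) : Prop := ∀ i, S.cl (w i) = S.cl (w' i)

/-- positive segment inside the classes. -/
def SegC (w w' : Fin 3 → X) : Prop := Seg S.P w w' ∧ S.Same w w'

/-- joined inside the classes to a hyperkaehler triple. -/
def Hn (w : Fin 3 → X) : Prop := ∃ w', Relation.ReflTransGen S.SegC w w' ∧ w' ∈ S.Hy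

theorem SegC.symm {w w' : Fin 3 → X} (h : S.SegC w w') : S.SegC w' w :=
  ⟨h.1.symm, fun i => (h.2 i).symm⟩


theorem chain_same {w w' : Fin 3 → X} (h : Relation.ReflTransGen S.SegC w w') : S.Same w w' := by
  induction h with
  | refl => exact fun _ => rfl
  | tail _ h2 ih => exact fun i => (ih i).trans (h2.2 i)

/-- the parameters of a fixed form stay taming nearby. -/
theorem isOpen_Tm (w w' : Fin 3 → X) (k : Fin 3) (x : X) :
    IsOpen {s : ℝ | x ∈ Tm S.P (lin w w' s) k} := by
  -- the seven vectors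
  let b : Fin 7 → X := ![w 0, w 1, w 2, w' 0, w' 1, w' 2, x]
  let f : ℝ × ℝ → Fin 3 → Fin 7 → ℝ := fun p i =>
    (fun j => if i = k then
        (if (j : ℕ) = i then (1 - p.2) * (1 - p.1) else 0) +
        (if (j : ℕ) = i + 3 then (1 - p.2) * p.1 else 0) + (if (j : ℕ) = 6 then p.2 else 0)
      else (if (j : ℕ) = i then (1 - p.1) else 0) + (if (j : ℕ) = i + 3 then p.1 else 0))
  have hf : Continuous f := by
    refine continuous_pi fun i => continuous_pi fun j => ?_
    by_cases h : i = k
    · simp only [f, if_pos h]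
      refine ((Continuous.add ?_ ?_).add ?_) <;> split_ifs <;> fun_prop
    · simp only [f, if_neg h]
      refine (Continuous.add ?_ ?_) <;> split_ifs <;> fun_prop
  have hfb : ∀ p : ℝ × ℝ, (fun i => ∑ j, f p i j • b j) =
      lin (lin w w' p.1) (update (lin w w' p.1) k x) p.2 := by
    intro p
    rw [lin_update']
    funext i
    by_cases h : i = k
    · subst h
      simp only [f, if_true, update_self]
      fin_cases i <;> simp [b, Fin.sum_univ_succ, lin] <;> module
    · simp only [f, if_neg h, update_of_ne h]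
      fin_cases i <;> simp [b, Fin.sum_univ_succ, lin]
  have hO : IsOpen {p : ℝ × ℝ | lin (lin w w' p.1) (update (lin w w' p.1) k x) p.2 ∈ S.P} := by
    have := (S.opn 7 b).preimage hf
    convert this using 1
    ext p
    simp only [mem_setOf_eq, mem_preimage]
    rw [hfb p]
  -- tube lemma
  rw [isOpen_iff_mem_nhds]
  intro s hs
  have hK : IsCompact (Icc (0 : ℝ) 1) := isCompact_Icc
  have hsub : ({s} : Set ℝ) ×ˢ Icc (0 : ℝ) 1 ⊆
      {p : ℝ × ℝ | lin (lin w w' p.1) (update (lin w w' p.1) k x) p.2 ∈ S.P} := by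
    rintro ⟨a, t⟩ ⟨ha, ht⟩
    rw [mem_singleton_iff] at ha
    subst ha
    exact hs t ht
  obtain ⟨u, v, hu, hv, hsu, hIv, huv⟩ := generalized_tube_lemma isCompact_singleton hK hO hsub
  refine Filter.mem_of_superset (hu.mem_nhds (hsu (mem_singleton s))) ?_
  intro a ha t ht
  exact @huv (a, t) ⟨ha, hIv ht⟩

/-- a chain of intervals: if `A s s'` holds for nearby parameters, it propagates. -/
theorem interval_induct (A : ℝ → ℝ → Prop)
    (ht : ∀ a ∈ Icc (0 : ℝ) 1, ∀ b ∈ Icc (0 : ℝ) 1, ∀ c ∈ Icc (0 : ℝ) 1, A a b → A b c → A a c)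
    (hl : ∀ s ∈ Icc (0 : ℝ) 1, ∃ U ∈ nhds s, ∀ a ∈ U ∩ Icc (0 : ℝ) 1, ∀ b ∈ U ∩ Icc (0 : ℝ) 1,
      A a b) : A 0 1 := by
  refine (isPreconnected_Icc (a := (0 : ℝ)) (b := 1)).induction₂' A ?_
    (fun a b c ha hb hc => ht a ha b hb c hc) (by simp) (by simp)
  intro x hx
  obtain ⟨U, hU, h⟩ := hl x hx
  have h1 : ∀ᶠ y in nhdsWithin x (Icc (0 : ℝ) 1), y ∈ U ∩ Icc (0 : ℝ) 1 :=
    Filter.inter_mem (mem_nhdsWithin_of_mem_nhds hU) self_mem_nhdsWithin
  have hxU : x ∈ U ∩ Icc (0 : ℝ) 1 := ⟨mem_of_mem_nhds hU, hx⟩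
  exact h1.mono fun y hy => ⟨h x hxU y hy, h y hy x hxU⟩

/-! ### Lemma 1: elementary moves -/

theorem cl_lin (w w' : Fin 3 → X) (t : ℝ) :
    (fun i => S.cl (lin w w' t i)) = lin (fun i => S.cl (w i)) (fun i => S.cl (w' i)) t := by
  funext i; simp [lin]

theorem cl_update (w : Fin 3 → X) (k : Fin 3) (x : X) :
    (fun i => S.cl (update w k x i)) = update (fun i => S.cl (w i)) k (S.cl x) := by
  funext i
  by_cases h : i = k
  · subst h; simp
  · simp [update_of_ne h]

theorem cl_act (g : Matrix (Fin 3) (Fin 3) ℝ) (w : Fin 3 → X) :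
    (fun i => S.cl (act g w i)) = act g (fun i => S.cl (w i)) := by
  funext i; simp [act]

/-- an elementary move satisfies the class condition. -/
theorem cc_of_tm {w : Fin 3 → X} {k : Fin 3} {x : X} (hx : x ∈ Tm S.P w k)
    (hnc : NCp S.B S.R (fun i => S.cl (w i)) k) :
    CC S.B S.R (fun i => S.cl (w i)) k (S.cl x) := by
  refine ⟨fun t ht => ?_, hnc⟩
  have := S.pos _ (hx t ht)
  rw [← S.cl_update, ← S.cl_lin]
  exact this

theorem sameSeg {w : Fin 3 → X} (hw : w ∈ S.P) {k : Fin 3} {x y : X} (hx : x ∈ Tm S.P w k)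
    (hy : y ∈ Tm S.P w k) (hxy : S.cl x = S.cl y) :
    S.SegC (update w k x) (update w k y) := by
  refine ⟨fun t ht => ?_, fun i => ?_⟩
  · have h1 : (1 - t) • x + t • y ∈ Tm S.P w k :=
      S.cvx w hw k hx hy (by linarith [ht.2]) ht.1 (by ring)
    rw [lin_update]
    exact Seg.right h1
  · by_cases h : i = k
    · subst h; simpa using hxy
    · simp [update_of_ne h]

/-- one step of the propagation. -/
theorem step {u u' : Fin 3 → X} (h : S.SegC u u') {k : Fin 3} {c : H}
    (hc : CC S.B S.R (fun i => S.cl (u i)) k c) {v v' : X} (hv : v ∈ Tm S.P u k)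
    (hvc : S.cl v = c) (hv' : v' ∈ Tm S.P u' k) (hvc' : S.cl v' = c) :
    Relation.ReflTransGen S.SegC (update u k v) (update u' k v') := by
  let A : ℝ → ℝ → Prop := fun s s' => ∀ v ∈ Tm S.P (lin u u' s) k, S.cl v = c →
    ∀ v' ∈ Tm S.P (lin u u' s') k, S.cl v' = c →
    Relation.ReflTransGen S.SegC (update (lin u u' s) k v) (update (lin u u' s') k v')
  have hcl : ∀ s, (fun i => S.cl (lin u u' s i)) = fun i => S.cl (u i) := by
    intro s
    funext i
    have := h.2 i
    simp only [lin, map_add, map_smul, ← this]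
    module
  have hex : ∀ s ∈ Icc (0 : ℝ) 1, ∃ v ∈ Tm S.P (lin u u' s) k, S.cl v = c := by
    intro s hs
    refine S.cone _ (h.1 s hs) k c ?_
    rw [hcl s]; exact hc
  have hA : A 0 1 := by
    refine interval_induct A ?_ ?_
    · intro a _ b hb e _ hab hbe v hv hvc v' hv' hvc'
      obtain ⟨m, hm, hmc⟩ := hex b hb
      exact (hab v hv hvc m hm hmc).trans (hbe m hm hmc v' hv' hvc')
    · intro s hs
      obtain ⟨m, hm, hmc⟩ := hex s hs
      obtain ⟨r, hr, hball⟩ := Metric.isOpen_iff.1 (S.isOpen_Tm u u' k m) s hm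
      refine ⟨Metric.ball s r, Metric.ball_mem_nhds s hr, ?_⟩
      rintro a ⟨ha, haI⟩ b ⟨hb, hbI⟩ v hv hvc v' hv' hvc'
      have h1 := S.sameSeg (h.1 a haI) hv (hball ha) (hvc.trans hmc.symm)
      have h3 := S.sameSeg (h.1 b hbI) (hball hb) hv' (hmc.trans hvc'.symm)
      have h2 : S.SegC (update (lin u u' a) k m) (update (lin u u' b) k m) := by
        refine ⟨fun t ht => ?_, fun i => ?_⟩
        · rw [lin_update_both, lin_lin]
          have : (1 - t) * a + t * b ∈ Metric.ball s r := by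
            have := (convex_ball s r) ha hb (by linarith [ht.2] : (0 : ℝ) ≤ 1 - t) ht.1 (by ring)
            simpa [smul_eq_mul] using this
          exact Seg.right (hball this)
        · by_cases hik : i = k
          · subst hik; simp
          · simp only [update_of_ne hik]
            have e1 := congrFun (hcl a) i
            have e2 := congrFun (hcl b) i
            exact e1.trans e2.symm
      exact (Relation.ReflTransGen.single h1).trans
        ((Relation.ReflTransGen.single h2).trans (Relation.ReflTransGen.single h3))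
  have := hA v (by rw [lin_zero]; exact hv) hvc v' (by rw [lin_one]; exact hv') hvc'
  rwa [lin_zero, lin_one] at this

/-- Lemma 1. -/
theorem Hn_update {w : Fin 3 → X} {k : Fin 3} {x : X} (hx : x ∈ Tm S.P w k)
    (hnc : NCp S.B S.R (fun i => S.cl (w i)) k) (hn : S.Hn w) :
    S.Hn (update w k x) := by
  obtain ⟨z, hz, hzH⟩ := hn
  have hcc := S.cc_of_tm hx hnc
  -- along the chain
  have key : ∃ v ∈ Tm S.P z k, S.cl v = S.cl x ∧
      Relation.ReflTransGen S.SegC (update w k x) (update z k v) := by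
    clear hzH
    induction hz with
    | refl => exact ⟨x, hx, rfl, Relation.ReflTransGen.refl⟩
    | tail h1 h2 ih =>
      rename_i b e
      obtain ⟨v, hv, hvc, hch⟩ := ih
      have hb : (fun i => S.cl (b i)) = fun i => S.cl (w i) :=
        funext fun i => (S.chain_same h1 i).symm
      have he : (fun i => S.cl (e i)) = fun i => S.cl (w i) := by
        rw [← hb]; exact funext fun i => (h2.2 i).symm
      obtain ⟨v', hv', hvc'⟩ := S.cone e h2.1.right k (S.cl x) (by rw [he]; exact hcc)
      exact ⟨v', hv', hvc', hch.trans (S.step h2 (by rw [hb]; exact hcc) hv hvc hv' hvc')⟩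
  obtain ⟨v, hv, hvc, hch⟩ := key
  have hzc : (fun i => S.cl (z i)) = fun i => S.cl (w i) :=
    funext fun i => (S.chain_same hz i).symm
  obtain ⟨v', hv', hvc', hH⟩ := S.hkcone z hzH k (S.cl x) (by rw [hzc]; exact hcc)
  refine ⟨update z k v', hch.trans (Relation.ReflTransGen.single ?_), hH⟩
  exact S.sameSeg (S.Hy_sub hzH) hv hv' (hvc.trans hvc'.symm)

/-! ### Lemma 2: invariance under deformations with varying classes -/

theorem Hn_act {w : Fin 3 → X} {g : Matrix (Fin 3) (Fin 3) ℝ} (hg : g.det ≠ 0) (hn : S.Hn w) :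
    S.Hn (act g w) := by
  obtain ⟨z, hz, hzH⟩ := hn
  refine ⟨act g z, ?_, S.Hy_act g z hg hzH⟩
  have key : ∀ a b : Fin 3 → X, S.SegC a b → S.SegC (act g a) (act g b) := by
    intro a b hab
    refine ⟨fun t ht => ?_, fun i => ?_⟩
    · rw [← act_lin]
      exact S.P_act g _ hg (hab.1 t ht)
    · show S.cl (act g a i) = S.cl (act g b i)
      simp only [act, map_sum, map_smul]
      exact Finset.sum_congr rfl fun j _ => by rw [hab.2 j]
  clear hzH
  induction hz with
  | refl => exact Relation.ReflTransGen.refl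
  | tail _ h2 ih => exact ih.tail (key _ _ h2)

theorem Hn_act_iff {w : Fin 3 → X} {g : Matrix (Fin 3) (Fin 3) ℝ} (hg : g.det ≠ 0) :
    S.Hn (act g w) ↔ S.Hn w := by
  refine ⟨fun h => ?_, S.Hn_act hg⟩
  have h1 : (g⁻¹).det ≠ 0 := by
    rw [Matrix.det_nonsing_inv, Ring.inverse_eq_inv']
    exact inv_ne_zero hg
  have := S.Hn_act h1 h
  rwa [← act_mul, Matrix.nonsing_inv_mul _ hg.isUnit, act_one] at this

theorem isOpen_mix (w w' : Fin 3 → X) : IsOpen {p : (Fin 3 → Fin 3 → ℝ) × (Fin 3 → ℝ) |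
    mix (act (Matrix.of p.1) w) (act (Matrix.of p.1) w') p.2 ∈ S.P} := by
  let b : Fin 6 → X := ![w 0, w 1, w 2, w' 0, w' 1, w' 2]
  let f : (Fin 3 → Fin 3 → ℝ) × (Fin 3 → ℝ) → Fin 3 → Fin 6 → ℝ := fun p i =>
    ![(1 - p.2 i) * p.1 i 0, (1 - p.2 i) * p.1 i 1, (1 - p.2 i) * p.1 i 2,
      p.2 i * p.1 i 0, p.2 i * p.1 i 1, p.2 i * p.1 i 2]
  have hf : Continuous f := by
    refine continuous_pi fun i => continuous_pi fun j => ?_
    fin_cases j <;> simp only [f] <;> simp <;> fun_prop
  have hfb : ∀ p, (fun i => ∑ j, f p i j • b j) =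
      mix (act (Matrix.of p.1) w) (act (Matrix.of p.1) w') p.2 := by
    intro p
    funext i
    simp [f, b, Fin.sum_univ_succ, mix, act]
    module
  have := (S.opn 6 b).preimage hf
  convert this using 1
  ext p
  rw [Set.mem_preimage, Set.mem_setOf_eq, Set.mem_setOf_eq, hfb p]

theorem Hn_seg {w w' : Fin 3 → X} (h : Seg S.P w w') (hn : S.Hn w) : S.Hn w' := by
  have hA : (S.Hn (lin w w' 0) → S.Hn (lin w w' 1)) := by
    refine interval_induct (fun s s' => S.Hn (lin w w' s) → S.Hn (lin w w' s'))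
      (fun _ _ _ _ _ _ h1 h2 h3 => h2 (h1 h3)) ?_
    intro s hs
    have hm : ((fun i j => (1 : Matrix (Fin 3) (Fin 3) ℝ) i j), fun _ => s) ∈
        {p : (Fin 3 → Fin 3 → ℝ) × (Fin 3 → ℝ) |
          mix (act (Matrix.of p.1) w) (act (Matrix.of p.1) w') p.2 ∈ S.P} := by
      show mix (act 1 w) (act 1 w') (fun _ => s) ∈ S.P
      rw [act_one, act_one]
      exact h s hs
    obtain ⟨r, hr, hball⟩ := Metric.isOpen_iff.1 (S.isOpen_mix w w') _ hm
    refine ⟨Metric.ball s r, Metric.ball_mem_nhds s hr, ?_⟩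
    rintro a ⟨ha, haI⟩ b ⟨hb, hbI⟩ hna
    -- a generic matrix near `1`
    obtain ⟨g, hg1, hg2, hg3⟩ : ∃ g : Fin 3 → Fin 3 → ℝ,
        (∀ i, ∀ d ∈ (S.R ×ˢ (univ : Set Bool)), S.B d.1 (act (Matrix.of g)
          (fun j => S.cl (lin w w' (if d.2 then a else b) j)) i) ≠ 0) ∧
        g ∈ Metric.ball (fun i j => (1 : Matrix (Fin 3) (Fin 3) ℝ) i j) r ∧
        (Matrix.of g).det ≠ 0 := by
      have hd := dense_mat (fun d : H × Bool => S.B d.1) (S.R ×ˢ (univ : Set Bool))
        (S.R_cnt.prod (Set.to_countable _))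
        (fun d j => S.cl (lin w w' (if d.2 then a else b) j)) (by
          rintro ⟨d, β⟩ ⟨hd, -⟩
          cases β
          · exact S.swb _ (h b hbI) d hd
          · exact S.swb _ (h a haI) d hd)
      have hdetc : Continuous fun g : Fin 3 → Fin 3 → ℝ => (Matrix.of g).det := by
        have : Continuous fun g : Matrix (Fin 3) (Fin 3) ℝ => g.det := continuous_id.matrix_det
        exact this
      have hN : {g : Fin 3 → Fin 3 → ℝ |
          g ∈ Metric.ball (fun i j => (1 : Matrix (Fin 3) (Fin 3) ℝ) i j) r ∧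
          0 < (Matrix.of g).det} ∈ nhds (fun i j => (1 : Matrix (Fin 3) (Fin 3) ℝ) i j) := by
        refine Filter.inter_mem (Metric.ball_mem_nhds _ hr) ?_
        refine (hdetc.tendsto _) (lt_mem_nhds ?_)
        show 0 < (1 : Matrix (Fin 3) (Fin 3) ℝ).det
        simp
      obtain ⟨g, hg1, hg2⟩ := hd.inter_nhds_nonempty hN
      exact ⟨g, hg1, hg2.1, hg2.2.ne'⟩
    have hga : ∀ i, ∀ d ∈ S.R, S.B d (act (Matrix.of g) (fun j => S.cl (lin w w' a j)) i) ≠ 0 :=
      fun i d hd => by simpa using hg1 i (d, true) ⟨hd, mem_univ _⟩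
    have hgb : ∀ i, ∀ d ∈ S.R, S.B d (act (Matrix.of g) (fun j => S.cl (lin w w' b j)) i) ≠ 0 :=
      fun i d hd => by simpa using hg1 i (d, false) ⟨hd, mem_univ _⟩
    -- boxes
    have hbox : ∀ p : Fin 3 → ℝ, (∀ i, p i ∈ Metric.ball s r) →
        mix (act (Matrix.of g) w) (act (Matrix.of g) w') p ∈ S.P := by
      intro p hp
      refine @hball (g, p) ?_
      rw [Metric.mem_ball, Prod.dist_eq, max_lt_iff]
      refine ⟨hg2, ?_⟩
      rw [dist_pi_lt_iff hr]
      exact fun i => hp i
    have hcom : ∀ (p : Fin 3 → ℝ) (i : Fin 3), S.cl (mix (act (Matrix.of g) w) (act (Matrix.of g) w') p i) =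
        act (Matrix.of g) (fun j => S.cl (lin w w' (p i) j)) i := by
      intro p i
      have e := congrFun (act_lin (Matrix.of g) w w' (p i)) i
      have e2 : mix (act (Matrix.of g) w) (act (Matrix.of g) w') p i = lin (act (Matrix.of g) w) (act (Matrix.of g) w') (p i) i := rfl
      rw [e2, ← e]
      simp [act]
    have hstep : ∀ (p : Fin 3 → ℝ) (k m : Fin 3), (∀ i, p i ∈ Metric.ball s r) → m ≠ k →
        (p m = a ∨ p m = b) →
        S.Hn (mix (act (Matrix.of g) w) (act (Matrix.of g) w') p) → S.Hn (mix (act (Matrix.of g) w) (act (Matrix.of g) w') (update p k b)) := by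
      intro p k m hp hmk hpm hnp
      rw [mix_update]
      refine S.Hn_update ?_ (fun d hd => ⟨m, hmk, ?_⟩) hnp
      · intro t ht
        rw [lin_update']
        have e : update (mix (act (Matrix.of g) w) (act (Matrix.of g) w') p) k ((1 - t) • mix (act (Matrix.of g) w) (act (Matrix.of g) w') p k +
            t • ((1 - b) • act (Matrix.of g) w k + b • act (Matrix.of g) w' k)) =
            mix (act (Matrix.of g) w) (act (Matrix.of g) w') (update p k ((1 - t) * p k + t * b)) := by
          rw [mix_update]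
          congr 1
          simp only [mix]
          module
        rw [e]
        refine hbox _ fun i => ?_
        by_cases hik : i = k
        · subst hik
          rw [update_self]
          have := (convex_ball s r) (hp i) hb (by linarith [ht.2] : (0 : ℝ) ≤ 1 - t) ht.1
            (by ring)
          simpa [smul_eq_mul] using this
        · rw [update_of_ne hik]; exact hp i
      · show S.B d (S.cl (mix (act (Matrix.of g) w) (act (Matrix.of g) w') p m)) ≠ 0
        rw [hcom]
        rcases hpm with h | h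
        · rw [h]; exact hga m d hd
        · rw [h]; exact hgb m d hd
    have hupd : ∀ (p : Fin 3 → ℝ) (k : Fin 3), (∀ i, p i ∈ Metric.ball s r) →
        ∀ i, update p k b i ∈ Metric.ball s r := by
      intro p k hp i
      by_cases hik : i = k
      · subst hik; rw [update_self]; exact hb
      · rw [update_of_ne hik]; exact hp i
    have p0 : ∀ i : Fin 3, (fun _ => a : Fin 3 → ℝ) i ∈ Metric.ball s r := fun _ => ha
    have hna' : S.Hn (mix (act (Matrix.of g) w) (act (Matrix.of g) w') (fun _ => a)) := by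
      show S.Hn (lin (act (Matrix.of g) w) (act (Matrix.of g) w') a)
      rw [← act_lin]
      exact S.Hn_act hg3 hna
    have s1 := hstep (fun _ => a) 0 1 p0 (by decide) (Or.inl rfl) hna'
    have s2 := hstep _ 1 0 (hupd _ 0 p0) (by decide) (Or.inr (by simp)) s1
    have s3 := hstep _ 2 0 (hupd _ 1 (hupd _ 0 p0)) (by decide) (Or.inr (by simp [update])) s2
    have e : update (update (update (fun _ => a : Fin 3 → ℝ) 0 b) 1 b) 2 b = fun _ => b := by
      funext i
      fin_cases i <;> simp [update]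
    rw [e] at s3
    have s4 : S.Hn (act (Matrix.of g) (lin w w' b)) := by rw [act_lin]; exact s3
    exact (S.Hn_act_iff hg3).1 s4
  rw [lin_zero, lin_one] at hA
  exact hA hn

/-- Lemma 2 (GLOBAL). -/
theorem Hn_path {w w' : Fin 3 → X} (h : Relation.ReflTransGen (Seg S.P) w w') (hn : S.Hn w') :
    S.Hn w := by
  induction h with
  | refl => exact hn
  | tail _ h2 ih => exact ih (S.Hn_seg h2.symm hn)

end Sys

end Crest.Agent.R235.Mv
end

-- ▼ part R235/Frames_844

/-!
Row 235 (S0364), helper844, package MOVE, class level: every positive frame (in the right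
component, with one generic class) is reached by elementary moves satisfying the class condition.
-/

set_option autoImplicit false

open Set Function

namespace Crest.Agent.R235.Mv

/-! ### recombinations with positive determinant, on the level of triples -/

section Good

variable {X : Type*} [AddCommGroup X] [Module ℝ X]

/-- the matrix replacing row `k` of the identity by `a`. -/
def rowM (k : Fin 3) (a : Fin 3 → ℝ) : Matrix (Fin 3) (Fin 3) ℝ :=
  Matrix.of fun i j => if i = k then a j else if i = j then 1 else 0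

theorem rowM_apply (k : Fin 3) (a : Fin 3 → ℝ) (i j : Fin 3) :
    rowM k a i j = if i = k then a j else if i = j then 1 else 0 := rfl

theorem det_rowM (k : Fin 3) (a : Fin 3 → ℝ) : (rowM k a).det = a k := by
  rw [Matrix.det_fin_three]
  fin_cases k <;> simp [rowM_apply]

/-- `P` is invariant under recombinations. -/
def Inv (P : Set (Fin 3 → X)) : Prop :=
  ∀ (g : Matrix (Fin 3) (Fin 3) ℝ) (w : Fin 3 → X), g.det ≠ 0 → w ∈ P → act g w ∈ P

/-- matrices realised by polygonal paths. -/
def Good (P : Set (Fin 3 → X)) (g : Matrix (Fin 3) (Fin 3) ℝ) : Prop :=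
  ∀ c : Fin 3 → X, c ∈ P → Relation.ReflTransGen (Seg P) c (act g c)

theorem Good.mul {P : Set (Fin 3 → X)} (hP : Inv P) {g h : Matrix (Fin 3) (Fin 3) ℝ}
    (hg : Good P g) (hh : Good P h) (hd : h.det ≠ 0) : Good P (g * h) := by
  intro c hc
  rw [act_mul]
  exact (hh c hc).trans (hg _ (hP h c hd hc))

theorem good_one (P : Set (Fin 3 → X)) : Good P 1 := by
  intro c _
  rw [act_one]

/-- replacing `c k` by `(positive multiple of c k) + combination of the others`. -/
theorem seg_span {P : Set (Fin 3 → X)} (hP : Inv P) {c : Fin 3 → X} (hc : c ∈ P) (k : Fin 3)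
    (a : Fin 3 → ℝ) (ha : 0 < a k) : Seg P c (update c k (∑ j, a j • c j)) := by
  intro t ht
  have e : lin c (update c k (∑ j, a j • c j)) t =
      act (rowM k fun j => (if j = k then (1 - t) else 0) + t * a j) c := by
    rw [lin_update']
    funext i
    by_cases h : i = k
    · subst h
      simp only [update_self, act, rowM_apply, if_true, add_smul, Finset.sum_add_distrib,
        ite_smul, zero_smul, Finset.sum_ite_eq', Finset.mem_univ, Finset.smul_sum, smul_smul]
    · simp [act, rowM_apply, h]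
  rw [e]
  refine hP _ _ ?_ hc
  rw [det_rowM, if_pos rfl]
  rcases eq_or_lt_of_le ht.1 with h | h
  · rw [← h]; simp
  · have := mul_pos h ha
    exact (by linarith [ht.2] : 0 < (1 - t) + t * a k).ne'

theorem good_row {P : Set (Fin 3 → X)} (hP : Inv P) (k : Fin 3)
    (a : Fin 3 → ℝ) (ha : 0 < a k) :
    Good P (rowM k a) := by
  intro c hc
  have e : act (rowM k a) c = update c k (∑ j, a j • c j) := by
    funext i
    by_cases h : i = k
    · subst h; simp [act, rowM_apply]
    · simp [act, rowM_apply, h]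
  rw [e]
  exact Relation.ReflTransGen.single (seg_span hP hc k a ha)

theorem good_transvection {P : Set (Fin 3 → X)} (hP : Inv P) (i j : Fin 3) (hij : i ≠ j)
    (b : ℝ) : Good P (Matrix.transvection i j b) := by
  have := good_row hP i (fun m => (if m = i then 1 else 0) + (if m = j then b else 0))
    (by simp [hij])
  have e : Matrix.transvection i j b =
      rowM i (fun m => (if m = i then 1 else 0) + (if m = j then b else 0)) := by
    ext m n
    rw [rowM_apply]
    by_cases h : m = i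
    · subst h
      simp only [Matrix.transvection, Matrix.add_apply, Matrix.one_apply, Matrix.single_apply,
        if_true, true_and, eq_comm]
    · simp [Matrix.transvection, Matrix.one_apply, Matrix.single_apply, h, Ne.symm h]
  rw [e]
  exact this

theorem good_list {P : Set (Fin 3 → X)} (hP : Inv P)
    (L : List (Matrix.TransvectionStruct (Fin 3) ℝ)) :
    Good P (L.map Matrix.TransvectionStruct.toMatrix).prod := by
  induction L with
  | nil => simpa using good_one P
  | cons t L ih =>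
    rw [List.map_cons, List.prod_cons]
    refine Good.mul hP (good_transvection hP t.i t.j t.hij t.c) ih ?_
    rw [Matrix.TransvectionStruct.det_toMatrix_prod]
    exact one_ne_zero

theorem good_scal {P : Set (Fin 3 → X)} (hP : Inv P) (k : Fin 3) (l : ℝ) (hl : 0 < l) :
    Good P (Matrix.diagonal (update (fun _ => 1) k l)) := by
  have := good_row hP k (fun m => if m = k then l else 0) (by simp [hl])
  have e : Matrix.diagonal (update (fun _ => 1) k l) =
      rowM k (fun m => if m = k then l else 0) := by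
    ext m n
    rw [rowM_apply]
    by_cases h : m = k
    · subst h
      by_cases hn : n = m
      · subst hn; simp
      · simp [Matrix.diagonal_apply, Ne.symm hn, hn]
    · simp [Matrix.diagonal_apply, h]
  rw [e]
  exact this

theorem good_diag_pos {P : Set (Fin 3 → X)} (hP : Inv P) (D : Fin 3 → ℝ)
    (hD : ∀ i, 0 < D i) : Good P (Matrix.diagonal D) := by
  have e : Matrix.diagonal D = Matrix.diagonal (update (fun _ => 1) 0 (D 0)) *
      (Matrix.diagonal (update (fun _ => 1) 1 (D 1)) *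
        Matrix.diagonal (update (fun _ => 1) 2 (D 2))) := by
    rw [Matrix.diagonal_mul_diagonal, Matrix.diagonal_mul_diagonal]
    congr 1
    funext i
    fin_cases i <;> simp [update]
  rw [e]
  refine Good.mul hP (good_scal hP 0 _ (hD 0)) (Good.mul hP (good_scal hP 1 _ (hD 1))
    (good_scal hP 2 _ (hD 2)) ?_) ?_
  · rw [Matrix.det_diagonal]; simp [Fin.prod_univ_three, update, (hD 2).ne']
  · rw [Matrix.det_mul, Matrix.det_diagonal, Matrix.det_diagonal]
    simp [Fin.prod_univ_three, update, (hD 1).ne', (hD 2).ne']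

/-- two signs. -/
theorem good_neg {P : Set (Fin 3 → X)} (hP : Inv P) (i j : Fin 3) (hij : i ≠ j) :
    Good P (Matrix.diagonal (fun m => if m = i ∨ m = j then -1 else 1)) := by
  have hw : Good P (Matrix.transvection i j 1 * (Matrix.transvection j i (-1) *
      Matrix.transvection i j 1)) := by
    refine Good.mul hP (good_transvection hP i j hij 1)
      (Good.mul hP (good_transvection hP j i hij.symm (-1)) (good_transvection hP i j hij 1) ?_) ?_
    · rw [Matrix.det_transvection_of_ne _ _ hij]; exact one_ne_zero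
    · rw [Matrix.det_mul, Matrix.det_transvection_of_ne _ _ hij,
        Matrix.det_transvection_of_ne _ _ hij.symm]; simp
  have h2 := Good.mul hP hw hw (by
    rw [Matrix.det_mul, Matrix.det_mul, Matrix.det_transvection_of_ne _ _ hij,
        Matrix.det_transvection_of_ne _ _ hij.symm]; simp)
  convert h2 using 1
  ext m n
  fin_cases i <;> fin_cases j <;> first | (exact absurd rfl hij) | skip
  all_goals
    fin_cases m <;> fin_cases n <;>
    simp [Matrix.transvection, Matrix.mul_apply, Fin.sum_univ_three, Matrix.one_apply,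
      Matrix.single_apply, Matrix.diagonal_apply]

theorem good_diag_two {P : Set (Fin 3 → X)} (hP : Inv P) (D : Fin 3 → ℝ) (i j : Fin 3)
    (hij : i ≠ j) (hi : D i < 0) (hj : D j < 0) (hm : ∀ m, m ≠ i → m ≠ j → 0 < D m) :
    Good P (Matrix.diagonal D) := by
  have e : Matrix.diagonal D = Matrix.diagonal (fun m => if m = i ∨ m = j then -1 else 1) *
      Matrix.diagonal (fun m => |D m|) := by
    rw [Matrix.diagonal_mul_diagonal]
    congr 1
    funext m
    by_cases h1 : m = i
    · subst h1; simp [abs_of_neg hi]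
    · by_cases h2 : m = j
      · subst h2; simp [abs_of_neg hj]
      · simp [h1, h2, abs_of_pos (hm m h1 h2)]
  have hne : ∀ m, D m ≠ 0 := by
    intro m
    by_cases h1 : m = i
    · subst h1; exact hi.ne
    · by_cases h2 : m = j
      · subst h2; exact hj.ne
      · exact (hm m h1 h2).ne'
  rw [e]
  refine Good.mul hP (good_neg hP i j hij) (good_diag_pos hP _ fun m => abs_pos.2 (hne m)) ?_
  rw [Matrix.det_diagonal]
  exact Finset.prod_ne_zero_iff.2 fun m _ => abs_ne_zero.2 (hne m)

theorem good_of_det_pos {P : Set (Fin 3 → X)} (hP : Inv P) (g : Matrix (Fin 3) (Fin 3) ℝ)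
    (hg : 0 < g.det) : Good P g := by
  obtain ⟨L, L', D, h⟩ := Matrix.Pivot.exists_list_transvec_mul_diagonal_mul_list_transvec g
  have hdet : g.det = D 0 * D 1 * D 2 := by
    rw [h, Matrix.det_mul, Matrix.det_mul, Matrix.TransvectionStruct.det_toMatrix_prod,
      Matrix.TransvectionStruct.det_toMatrix_prod, Matrix.det_diagonal, Fin.prod_univ_three]
    ring
  rw [hdet] at hg
  have hne : ∀ i, D i ≠ 0 := by
    intro i hi
    fin_cases i <;> simp_all
  have hDg : Good P (Matrix.diagonal D) := by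
    rcases lt_or_gt_of_ne (hne 0) with h0 | h0 <;> rcases lt_or_gt_of_ne (hne 1) with h1 | h1 <;>
      rcases lt_or_gt_of_ne (hne 2) with h2 | h2
    · exact absurd hg (not_lt.2 (mul_neg_of_pos_of_neg (mul_pos_of_neg_of_neg h0 h1) h2).le)
    · exact good_diag_two hP D 0 1 (by decide) h0 h1 (by
        intro m hm hm'; fin_cases m <;> simp_all)
    · exact good_diag_two hP D 0 2 (by decide) h0 h2 (by
        intro m hm hm'; fin_cases m <;> simp_all)
    · exact absurd hg (not_lt.2 (mul_neg_of_neg_of_pos (mul_neg_of_neg_of_pos h0 h1) h2).le)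
    · exact good_diag_two hP D 1 2 (by decide) h1 h2 (by
        intro m hm hm'; fin_cases m <;> simp_all)
    · exact absurd hg (not_lt.2 (mul_neg_of_neg_of_pos (mul_neg_of_pos_of_neg h0 h1) h2).le)
    · exact absurd hg (not_lt.2 (mul_neg_of_pos_of_neg (mul_pos h0 h1) h2).le)
    · exact good_diag_pos hP D (by intro m; fin_cases m <;> assumption)
  rw [h]
  have hd1 : (Matrix.diagonal D).det ≠ 0 := by
    rw [Matrix.det_diagonal]; exact Finset.prod_ne_zero_iff.2 fun m _ => hne m
  refine Good.mul hP (Good.mul hP (good_list hP L) hDg hd1) (good_list hP L') ?_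
  rw [Matrix.TransvectionStruct.det_toMatrix_prod]
  exact one_ne_zero

end Good

variable {H : Type*} [NormedAddCommGroup H] [NormedSpace ℝ H] [FiniteDimensional ℝ H]

/-- elementary move of frames. -/
def MvC (B : H →ₗ[ℝ] H →ₗ[ℝ] ℝ) (R : Set H) (c c' : Fin 3 → H) : Prop :=
  ∃ (k : Fin 3) (x : H), CC B R c k x ∧ c' = update c k x

/-! ### positivity is open -/

theorem isOpen_posF (B : H →ₗ[ℝ] H →ₗ[ℝ] ℝ) : IsOpen {c : Fin 3 → H | PosF B c} := by
  have hBc : Continuous fun p : H × H => B p.1 p.2 := by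
    have h1 : Continuous fun x : H => (LinearMap.toContinuousLinearMap (B x) : H →L[ℝ] ℝ) := by
      have : (fun x : H => (LinearMap.toContinuousLinearMap (B x) : H →L[ℝ] ℝ)) =
          ((LinearMap.toContinuousLinearMap (𝕜 := ℝ) (E := H) (F' := ℝ)).toLinearMap ∘ₗ B) := rfl
      rw [this]
      exact LinearMap.continuous_of_finiteDimensional _
    have h2 : (fun p : H × H => B p.1 p.2) =
        fun p : H × H => (LinearMap.toContinuousLinearMap (B p.1) : H →L[ℝ] ℝ) p.2 := rfl
    rw [h2]
    exact (h1.comp continuous_fst).clm_apply continuous_snd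
  have hcont : Continuous fun p : (Fin 3 → H) × (Fin 3 → ℝ) =>
      B (∑ i, p.2 i • p.1 i) (∑ i, p.2 i • p.1 i) := by
    have h3 : Continuous fun p : (Fin 3 → H) × (Fin 3 → ℝ) => ∑ i, p.2 i • p.1 i := by fun_prop
    exact hBc.comp (h3.prodMk h3)
  have hset : {c : Fin 3 → H | PosF B c} =
      {c : Fin 3 → H | ∀ a ∈ Metric.sphere (0 : Fin 3 → ℝ) 1,
        0 < B (∑ i, a i • c i) (∑ i, a i • c i)} := by
    ext c
    constructor
    · intro h a ha
      refine h a fun h0 => ?_
      rw [h0] at ha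
      simp at ha
    · intro h a ha
      have hn : 0 < ‖a‖ := norm_pos_iff.2 ha
      have h1 := h (‖a‖⁻¹ • a) (by
        rw [mem_sphere_zero_iff_norm, norm_smul, norm_inv, norm_norm]
        exact inv_mul_cancel₀ hn.ne')
      have e : ∑ i, (‖a‖⁻¹ • a) i • c i = ‖a‖⁻¹ • ∑ i, a i • c i := by
        simp [Finset.smul_sum, smul_smul]
      rw [e] at h1
      simp only [map_smul, LinearMap.smul_apply, smul_eq_mul] at h1
      have h2 : 0 < ‖a‖⁻¹ := inv_pos.2 hn
      have h3 := (mul_pos_iff_of_pos_left h2).1 h1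
      exact (mul_pos_iff_of_pos_left h2).1 h3
  rw [hset, isOpen_iff_mem_nhds]
  intro c hc
  have hK : IsCompact (Metric.sphere (0 : Fin 3 → ℝ) 1) := isCompact_sphere 0 1
  refine hK.eventually_forall_of_forall_eventually (x₀ := c)
    (P := fun c a => 0 < B (∑ i, a i • c i) (∑ i, a i • c i)) ?_
  intro a ha
  exact (hcont.continuousAt (x := (c, a))).eventually (lt_mem_nhds (hc a ha))

/-! ### reaching -/

/-- generic class -/
def Gen (B : H →ₗ[ℝ] H →ₗ[ℝ] ℝ) (R : Set H) (x : H) : Prop := ∀ d ∈ R, B d x ≠ 0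

theorem mix_reach {B : H →ₗ[ℝ] H →ₗ[ℝ] ℝ} {R : Set H} {x : Fin 3 → H} {r : ℝ}
    (hball : Metric.ball x r ⊆ {c | PosF B c}) {f f' : Fin 3 → H} (hf : f ∈ Metric.ball x r)
    (hf' : f' ∈ Metric.ball x r) (hg : ∀ i, Gen B R (f i)) (hg' : Gen B R (f' 0)) :
    Relation.ReflTransGen (MvC B R) f f' := by
  have hr : 0 < r := lt_of_le_of_lt dist_nonneg hf
  have hupd : ∀ (u : Fin 3 → H) (k : Fin 3), u ∈ Metric.ball x r →
      update u k (f' k) ∈ Metric.ball x r := by
    intro u k hu
    rw [Metric.mem_ball, dist_pi_lt_iff hr] at hu hf' ⊢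
    intro i
    by_cases h : i = k
    · subst h; rw [update_self]; exact hf' i
    · rw [update_of_ne h]; exact hu i
  have hmv : ∀ (u : Fin 3 → H) (k m : Fin 3), m ≠ k → u ∈ Metric.ball x r → Gen B R (u m) →
      MvC B R u (update u k (f' k)) := by
    intro u k m hmk hu hgm
    refine ⟨k, f' k, ⟨fun t ht => ?_, fun d hd => ⟨m, hmk, hgm d hd⟩⟩, rfl⟩
    apply hball
    exact (convex_ball x r) hu (hupd u k hu) (by linarith [ht.2] : (0 : ℝ) ≤ 1 - t) ht.1
      (by ring)
  have m0 := hmv f 0 1 (by decide) hf (hg 1)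
  have b1 := hupd f 0 hf
  have m1 := hmv (update f 0 (f' 0)) 1 0 (by decide) b1 (by rw [update_self]; exact hg')
  have b2 := hupd _ 1 b1
  have m2 := hmv _ 2 0 (by decide) b2 (by
    rw [update_of_ne (by decide), update_self]; exact hg')
  have e : update (update (update f 0 (f' 0)) 1 (f' 1)) 2 (f' 2) = f' := by
    funext i
    fin_cases i <;> simp [update]
  rw [e] at m2
  exact ((Relation.ReflTransGen.single m0).tail m1).tail m2

theorem reach {B : H →ₗ[ℝ] H →ₗ[ℝ] ℝ} (hBs : ∀ a b, B a b = B b a) {R : Set H}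
    (hR : R.Countable) {c cs : Fin 3 → H} (hc : PosF B c) (hcs : PosF B cs)
    (hroot : ∀ d ∈ R, ∃ i, B d (c i) ≠ 0) (hgen : Gen B R (cs 0))
    (hdet : 0 < (Matrix.of fun i j => B (c i) (cs j)).det) :
    ∃ g : Matrix (Fin 3) (Fin 3) ℝ, 0 < g.det ∧ Relation.ReflTransGen (MvC B R) (act g c) cs := by
  set Mt : Matrix (Fin 3) (Fin 3) ℝ := Matrix.of fun i j => B (c i) (cs j) with hMt
  have hpair : ∀ g : Matrix (Fin 3) (Fin 3) ℝ, ∀ i j, B (act g c i) (cs j) = (g * Mt) i j := by
    intro g i j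
    simp [act, Matrix.mul_apply, hMt]
  let ct : Fin 3 → H := act Mt⁻¹ c
  have hctp : PosF B ct := by
    refine hc.act ?_
    rw [Matrix.det_nonsing_inv, Ring.inverse_eq_inv']
    exact inv_ne_zero hdet.ne'
  have hunit : IsUnit Mt.det := hdet.ne'.isUnit
  have hct : ∀ i j, B (ct i) (cs j) = if i = j then 1 else 0 := by
    intro i j
    rw [hpair, Matrix.nonsing_inv_mul _ hunit, Matrix.one_apply]
  let p : ℝ → Fin 3 → H := fun s => lin ct cs s
  have hpc : Continuous p := by
    refine continuous_pi fun i => ?_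
    show Continuous fun s : ℝ => (1 - s) • ct i + s • cs i
    fun_prop
  -- positivity along the line
  have hpp : ∀ s ∈ Icc (0 : ℝ) 1, PosF B (p s) := by
    intro s hs a ha
    have e : ∑ i, a i • p s i = (1 - s) • (∑ i, a i • ct i) + s • (∑ i, a i • cs i) := by
      simp only [p, lin, smul_add, Finset.sum_add_distrib, Finset.smul_sum, smul_comm (a _)]
    have h1 := hctp a ha
    have h2 := hcs a ha
    have h3 : B (∑ i, a i • ct i) (∑ i, a i • cs i) = ∑ i, a i * a i := by
      simp only [map_sum, LinearMap.sum_apply, map_smul, LinearMap.smul_apply, smul_eq_mul, hct]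
      simp
    have h4 : B (∑ i, a i • cs i) (∑ i, a i • ct i) = ∑ i, a i * a i := by
      rw [hBs, h3]
    have h5 : 0 < ∑ i, a i * a i := by
      obtain ⟨i, hi⟩ := Function.ne_iff.1 ha
      exact Finset.sum_pos' (fun j _ => mul_self_nonneg _)
        ⟨i, Finset.mem_univ _, mul_self_pos.2 hi⟩
    rw [e]
    set C := ∑ i, a i • ct i
    set D := ∑ i, a i • cs i
    simp only [map_add, map_smul, LinearMap.add_apply, LinearMap.smul_apply, smul_eq_mul, h3, h4]
    have k1 : 0 ≤ 1 - s := by linarith [hs.2]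
    have k2 : 0 ≤ s := hs.1
    have e2 : (1 - s) * ((1 - s) * B C C + s * ∑ i, a i * a i) +
        s * ((1 - s) * ∑ i, a i * a i + s * B D D) =
        (1 - s) ^ 2 * B C C + 2 * (s * (1 - s)) * (∑ i, a i * a i) + s ^ 2 * B D D := by ring
    rw [e2]
    rcases eq_or_lt_of_le k1 with h | h
    · have : s = 1 := by linarith
      subst this
      simpa using h2
    · have g1 : 0 < (1 - s) ^ 2 * B C C := by positivity
      have g2 : 0 ≤ 2 * (s * (1 - s)) * (∑ i, a i * a i) := by positivity
      have g3 : 0 ≤ s ^ 2 * B D D := by positivity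
      linarith
  -- density of generic frames
  have hdH : Dense {f : Fin 3 → H | ∀ i, Gen B R (f i)} := by
    have h1 : Dense {x : H | Gen B R x} := by
      refine dense_gen R hR (fun d => B d) fun d hd => ?_
      obtain ⟨i, hi⟩ := hroot d hd
      exact ⟨_, hi⟩
    have h2 := dense_pi (univ : Set (Fin 3)) (s := fun _ => {x : H | Gen B R x})
      (fun _ _ => h1)
    convert h2 using 1
    ext f
    simp
  -- the relation
  let Q : ℝ → ℝ → Prop := fun s s' => ∃ U ∈ nhds (p s), ∃ V ∈ nhds (p s'), ∀ f ∈ U,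
    (∀ i, Gen B R (f i)) → ∀ f' ∈ V, (∀ i, Gen B R (f' i)) → Relation.ReflTransGen (MvC B R) f f'
  have hQ : Q 0 1 := by
    refine Sys.interval_induct Q ?_ ?_
    · rintro a _ b _ e _ ⟨U, hU, V, hV, h1⟩ ⟨U', hU', V', hV', h2⟩
      refine ⟨U, hU, V', hV', fun f hf hfg f' hf' hfg' => ?_⟩
      obtain ⟨g, hg1, hg2⟩ := hdH.inter_nhds_nonempty (Filter.inter_mem hV hU')
      exact (h1 f hf hfg g hg2.1 hg1).trans (h2 g hg2.2 hg1 f' hf' hfg')
    · intro s hs
      obtain ⟨r, hr, hball⟩ := Metric.isOpen_iff.1 (isOpen_posF B) (p s) (hpp s hs)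
      refine ⟨p ⁻¹' Metric.ball (p s) r, hpc.continuousAt (Metric.ball_mem_nhds _ hr), ?_⟩
      rintro a ⟨ha, -⟩ b ⟨hb, -⟩
      refine ⟨Metric.ball (p s) r, Metric.isOpen_ball.mem_nhds ha, Metric.ball (p s) r,
        Metric.isOpen_ball.mem_nhds hb, fun f hf hfg f' hf' hfg' => ?_⟩
      exact mix_reach hball hf hf' hfg (hfg' 0)
  obtain ⟨U, hU, V, hV, hUV⟩ := hQ
  have hp0 : p 0 = ct := lin_zero _ _
  have hp1 : p 1 = cs := lin_one _ _
  rw [hp0] at hU
  rw [hp1] at hV
  -- the end
  obtain ⟨r, hr, hball⟩ := Metric.isOpen_iff.1 (isOpen_posF B) cs hcs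
  obtain ⟨f', hfg', hf'⟩ := hdH.inter_nhds_nonempty
    (Filter.inter_mem hV (Metric.ball_mem_nhds cs hr))
  have hend : Relation.ReflTransGen (MvC B R) f' cs :=
    mix_reach hball hf'.2 (Metric.mem_ball_self hr) hfg' hgen
  -- the beginning
  have hact : Continuous fun g : Fin 3 → Fin 3 → ℝ => act (Matrix.of g) c := by
    refine continuous_pi fun i => ?_
    show Continuous fun g : Fin 3 → Fin 3 → ℝ => ∑ j, g i j • c j
    fun_prop
  have hdG := dense_mat (fun d : H => B d) R hR (fun _ => c) hroot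
  have hdetc : Continuous fun g : Fin 3 → Fin 3 → ℝ => (Matrix.of g).det := by
    have : Continuous fun g : Matrix (Fin 3) (Fin 3) ℝ => g.det := continuous_id.matrix_det
    exact this
  obtain ⟨g0, hg0⟩ : ∃ g0 : Fin 3 → Fin 3 → ℝ, Matrix.of g0 = Mt⁻¹ :=
    ⟨Matrix.of.symm Mt⁻¹, rfl⟩
  have hdet0 : 0 < (Matrix.of g0).det := by
    rw [hg0, Matrix.det_nonsing_inv, Ring.inverse_eq_inv']
    exact inv_pos.2 hdet
  have hct0 : act (Matrix.of g0) c = ct := by
    show _ = act Mt⁻¹ c
    rw [hg0]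
  have hN : {g : Fin 3 → Fin 3 → ℝ | act (Matrix.of g) c ∈ U ∧ 0 < (Matrix.of g).det} ∈ nhds g0 := by
    have k1 : {g : Fin 3 → Fin 3 → ℝ | act (Matrix.of g) c ∈ U} ∈ nhds g0 := by
      refine (hact.tendsto g0) ?_
      rw [hct0]
      exact hU
    have k2 : {g : Fin 3 → Fin 3 → ℝ | 0 < (Matrix.of g).det} ∈ nhds g0 := by
      refine (hdetc.tendsto g0) ?_
      exact lt_mem_nhds hdet0
    exact Filter.inter_mem k1 k2
  obtain ⟨g, hg1, hg2⟩ := hdG.inter_nhds_nonempty hN
  exact ⟨Matrix.of g, hg2.2, (hUV _ hg2.1 hg1 f' hf'.1 hfg').trans hend⟩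

/-! ### the main theorem of the abstract argument -/

namespace Sys

variable {X : Type*} [AddCommGroup X] [Module ℝ X] (S : Sys X H)

theorem lift_move {w : Fin 3 → X} (hw : w ∈ S.P) {cs : Fin 3 → H}
    (h : Relation.ReflTransGen (MvC S.B S.R) (fun i => S.cl (w i)) cs) :
    ∃ w' ∈ S.P, Relation.ReflTransGen (Seg S.P) w w' ∧ (fun i => S.cl (w' i)) = cs := by
  induction h with
  | refl => exact ⟨w, hw, Relation.ReflTransGen.refl, rfl⟩
  | tail _ h2 ih =>
    obtain ⟨w', hw', h1, h3⟩ := ih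
    obtain ⟨k, x, hcc, rfl⟩ := h2
    rw [← h3] at hcc ⊢
    obtain ⟨y, hy, rfl⟩ := S.cone w' hw' k x hcc
    exact ⟨update w' k y, Seg.right hy, h1.tail hy, S.cl_update w' k y⟩

/-- Lemma 3 (REACH). -/
theorem reach {w : Fin 3 → X} (hw : w ∈ S.P) {cs : Fin 3 → H} (hcs : PosF S.B cs)
    (hgen : ∀ d ∈ S.R, S.B d (cs 0) ≠ 0)
    (hdet : 0 < (Matrix.of fun i j => S.B (S.cl (w i)) (cs j)).det) :
    ∃ w' ∈ S.P, Relation.ReflTransGen (Seg S.P) w w' ∧ (fun i => S.cl (w' i)) = cs := by
  obtain ⟨g, hg, h⟩ := Mv.reach S.B_symm S.R_cnt (S.pos w hw) hcs (S.swb w hw) hgen hdet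
  have h1 := good_of_det_pos (P := S.P) S.P_act g hg w hw
  have h2 : act g w ∈ S.P := S.P_act g w hg.ne' hw
  rw [← S.cl_act] at h
  obtain ⟨w', hw', h3, h4⟩ := S.lift_move h2 h
  exact ⟨w', hw', h1.trans h3, h4⟩

/-- MAIN: if the triples in the classes `cs` are joined (with varying classes) to hyperkaehler
triples, then `w` is joined inside its classes to a hyperkaehler triple. -/
theorem main {w : Fin 3 → X} (hw : w ∈ S.P) {cs : Fin 3 → H} (hcs : PosF S.B cs)
    (hgen : ∀ d ∈ S.R, S.B d (cs 0) ≠ 0)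
    (hdet : 0 < (Matrix.of fun i j => S.B (S.cl (w i)) (cs j)).det)
    (htar : ∀ w' ∈ S.P, (fun i => S.cl (w' i)) = cs →
      ∃ z ∈ S.Hy, Relation.ReflTransGen (Seg S.P) w' z) : S.Hn w := by
  obtain ⟨w', hw', h1, h2⟩ := S.reach hw hcs hgen hdet
  obtain ⟨z, hz, h3⟩ := htar w' hw' h2
  exact S.Hn_path (h1.trans h3) ⟨z, Relation.ReflTransGen.refl, hz⟩

end Sys

end Crest.Agent.R235.Mv
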