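import Crest.Agent.R235.TopA_844

/-!
Row 235 (S0364), helper844: THE TOP THEOREM
`EXJ, CONE, HKCONE, ROOT, DICH, KUM, TOR, LATK, LATT ⇒ MAIN`.
-/

set_option autoImplicit false
set_option maxSynthPendingDepth 3

open Set Function Filter MeasureTheory
open scoped Manifold ContDiff Topology

universe u

namespace Crest.Agent.R235

open Crest.Agent.R240 Crest.Agent.R240.Ch Crest.Agent.R240.Int

noncomputable section

set_option linter.unusedSectionVars false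

section Gen

variable {V : Type*} [AddCommGroup V] [Module ℝ V] {n : ℕ} (E : V ≃ₗ[ℝ] (Fin n → ℝ))

theorem symm_comb (a : Fin 3 → ℝ) (b : Fin 3 → V) :
    E.symm (∑ i, a i • E (b i)) = ∑ i, a i • b i := by
  rw [map_sum]
  exact Finset.sum_congr rfl fun i _ => by rw [map_smul, E.symm_apply_apply]

theorem symm_lin (v : Fin 3 → V) (k : Fin 3) (c : Fin n → ℝ) (t : ℝ) (a : Fin 3 → ℝ) :
    E.symm (∑ i, a i • Mv.lin (fun i => E (v i)) (update (fun i => E (v i)) k c) t i) =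
      ∑ i, a i • ((1 - t) • v i + t • update v k (E.symm c) i) := by
  rw [map_sum]
  refine Finset.sum_congr rfl fun i _ => ?_
  rw [map_smul]
  congr 1
  unfold Mv.lin
  rw [map_add, map_smul, map_smul, E.symm_apply_apply]
  congr 2
  by_cases h : i = k
  · subst h
    rw [update_self, update_self]
  · rw [update_of_ne h, update_of_ne h, E.symm_apply_apply]

end Gen

section Inst

variable {M : Type u} [TopologicalSpace M] [T2Space M] [CompactSpace M] [ConnectedSpace M]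
  [ChartedSpace E4 M] [IsManifold 𝓘(ℝ, E4) ∞ M]

/-- positive triples with the orientation of `F`. -/
def PO (F : Z2 M) : Set (Trip M) := {w | Pos3 w ∧ SO F (w 0)}

theorem mvSeg_iff {F : Z2 M} {w w' : Trip M} (hw : w ∈ PO F) :
    Mv.Seg (PO F) w w' ↔ Seg w w' := by
  constructor
  · intro h t h0 h1
    exact (h t ⟨h0, h1⟩).1
  · intro h t ht
    refine ⟨h t ht.1 ht.2, ?_⟩
    have h1 : Seg w (seg w w' t) := by
      intro s h0 hs
      have e : seg w (seg w w' t) s = seg w w' (s * t) := by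
        funext i
        simp only [seg]
        module
      rw [e]
      exact h _ (mul_nonneg h0 ht.1) (by nlinarith [ht.1, ht.2])
    exact hw.2.trans h1.so

theorem path_of_pl {F : Z2 M} {w w' : Trip M} (hw : w ∈ PO F) (h : PL w w') :
    w' ∈ PO F ∧ Relation.ReflTransGen (Mv.Seg (PO F)) w w' := by
  induction h with
  | refl => exact ⟨hw, Relation.ReflTransGen.refl⟩
  | tail _ h2 ih =>
    obtain ⟨h3, h4⟩ := ih
    have h5 := (mvSeg_iff h3).2 h2
    exact ⟨h5.right, h4.tail h5⟩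

theorem tm_iff {F : Z2 M} {w : Trip M} (hw : w ∈ PO F) (k : Fin 3) (a : Z2 M) :
    a ∈ Mv.Tm (PO F) w k ↔ Seg w (update w k a) := mvSeg_iff hw

theorem so_linear {F : Z2 M} {w : Trip M} (hw : w ∈ PO F) {g : Matrix (Fin 3) (Fin 3) ℝ}
    (hg : g.det ≠ 0) : Mv.act g w ∈ PO F := by
  refine ⟨hw.1.linear hg, hw.2.trans ?_⟩
  intro x
  refine hw.1.mul_pos_comb 0 (c := g 0) ?_ x
  intro h0
  exact hg (Matrix.det_eq_zero_of_row_eq_zero 0 fun j => congrFun h0 j)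

/-- openness, with the orientation. -/
theorem isOpen_PO (F : Z2 M) (m : ℕ) (b : Fin m → Z2 M) :
    IsOpen {a : Fin 3 → Fin m → ℝ | (fun i => ∑ j, a i j • b j) ∈ PO F} := by
  rw [Metric.isOpen_iff]
  rintro a ⟨ha, hao⟩
  obtain ⟨δ, hδ, h⟩ := fam_seg_near b (A0 := a) ha
  refine ⟨δ, hδ, fun a' ha' => ?_⟩
  have hs : Seg (fam b a) (fam b a') := h a a' (by simpa using hδ) ha'
  exact ⟨hs.right, hao.trans hs.so⟩

/-- the intersection form in coordinates. -/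
def Bt (F : Z2 M) (hF : Vol (F.1.1 : F2 E4 M)) {n : ℕ} (E : H2 M ≃ₗ[ℝ] (Fin n → ℝ)) :
    (Fin n → ℝ) →ₗ[ℝ] (Fin n → ℝ) →ₗ[ℝ] ℝ :=
  (ipB F hF).compl₁₂ E.symm.toLinearMap E.symm.toLinearMap

theorem Bt_apply (F : Z2 M) (hF : Vol (F.1.1 : F2 E4 M)) {n : ℕ} (E : H2 M ≃ₗ[ℝ] (Fin n → ℝ))
    (a b : Fin n → ℝ) : Bt F hF E a b = ip F (E.symm a) (E.symm b) := rfl

/-- the class map in coordinates. -/
def clt {n : ℕ} (E : H2 M ≃ₗ[ℝ] (Fin n → ℝ)) : Z2 M →ₗ[ℝ] (Fin n → ℝ) := E.toLinearMap ∘ₗ cls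

theorem clt_apply {n : ℕ} (E : H2 M ≃ₗ[ℝ] (Fin n → ℝ)) (a : Z2 M) : clt E a = E (cls a) := rfl

theorem PO.ip_eq {F : Z2 M} (hF : Vol (F.1.1 : F2 E4 M)) {w : Trip M} (hw : w ∈ PO F) :
    ip (w 0) = ip F := hw.2.ip_eq hF (hw.1.vol 0)

theorem ccond_of {F : Z2 M} (hF : Vol (F.1.1 : F2 E4 M)) {n : ℕ} (E : H2 M ≃ₗ[ℝ] (Fin n → ℝ))
    {w : Trip M} (hw : w ∈ PO F) {k : Fin 3} {c : Fin n → ℝ}
    (hc : Mv.CC (Bt F hF E) (E '' Dg F) (fun i => E (clw w i)) k c) :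
    CCond (w 0) (clw w) k (E.symm c) := by
  rw [CCond_congr (PO.ip_eq hF hw)]
  refine ⟨fun t ht a ha => ?_, fun e he => ?_⟩
  · have h1 : 0 < Bt F hF E _ _ := hc.1 t ht a ha
    rw [Bt_apply, symm_lin] at h1
    exact h1
  · obtain ⟨i, hik, hi⟩ := hc.2 (E e) (mem_image_of_mem _ he)
    refine ⟨i, hik, ?_⟩
    rw [Bt_apply, E.symm_apply_apply, E.symm_apply_apply] at hi
    exact hi

theorem pos_of {F : Z2 M} (hF : Vol (F.1.1 : F2 E4 M)) {n : ℕ} (E : H2 M ≃ₗ[ℝ] (Fin n → ℝ))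
    {w : Trip M} (hw : w ∈ PO F) : Mv.PosF (Bt F hF E) (fun i => E (clw w i)) := by
  intro a ha
  have h1 := BPlus_723.posCls_of_pos3 hw.1 a ha
  rw [PO.ip_eq hF hw] at h1
  rw [Bt_apply, symm_comb]
  exact h1



theorem joined_of_mv {F : Z2 M} {n : ℕ} (E : H2 M ≃ₗ[ℝ] (Fin n → ℝ)) {w z : Trip M}
    (h : Relation.ReflTransGen (fun a b : Trip M => Mv.Seg (PO F) a b ∧
      ∀ i, clt E (a i) = clt E (b i)) w z) : Joined w z := by
  induction h with
  | refl => exact Relation.ReflTransGen.refl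
  | tail _ h2 ih =>
    exact ih.tail ⟨(mvSeg_iff h2.1.left).1 h2.1, fun i => E.injective (h2.2 i)⟩


end Inst


end

end Crest.Agent.R235
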