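import Crest.Agent.R235.CurDel_538
import Crest.Agent.R235.AdjNodes_43
import Crest.Agent.R235.Wind4_688
import Crest.Agent.R235.Pull_129
import Crest.Agent.R235.Frames_844
import Crest.Agent.R235.T4R_837
import Crest.Agent.R235.TopA_844
import Crest.Agent.R235.TorMin_510
import Crest.Agent.R235.Top_844
import Crest.Agent.R235.KumDefs_152
import Crest.Agent.R235.TorFlat_68_Mg
import Crest.Agent.R235.CurvesProps_489
import Crest.Agent.R235.ChInd_4
import Crest.Agent.R235.LimtD_225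
import Crest.Agent.R235.CurTopProps_844
import Crest.Agent.R235.SwcDefs_215
import Crest.Agent.R235.PB_604
import Crest.Agent.R235.Loc_524
import Crest.Agent.R235.KumTwC_57

-- ▼ part R235/CurGri_538
section

/-!
Row 235, package CUR (task 352, helper538): `GRI`, the integral of the bound of the gradient
tends to `0`.
-/

set_option autoImplicit false
set_option maxSynthPendingDepth 3

open Set Function Filter MeasureTheory Metric
open scoped ContDiff ENNReal Manifold Topology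

namespace Crest.Agent.R235.CurGri_538

open Crest.Agent.R240 Crest.Agent.R240.En Crest.Agent.R240.Pot Crest.Agent.R235.CurDefs_132
open Crest.Agent.R235.CurDel_538

noncomputable section

theorem qx_bound (hL : LIN4) (D : LC) : ∃ C : ℝ, 0 ≤ C ∧ ∀ x y, |D.qx x y| ≤ C := by
  obtain ⟨C2, hC2, hC'⟩ := hL D.m D.M D.L
  refine ⟨C2 * C2, by positivity, fun x y => ?_⟩
  obtain ⟨-, h2, -⟩ := hC' (D.J x) (D.F x) (D.bd x) (D.bJ x) (D.φ x) (D.pos x) (D.nrm x)
  obtain ⟨h3, -⟩ := hC' (D.J y) (D.F y) (D.bd y) (D.bJ y) (D.φ y) (D.pos y) (D.nrm y)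
  calc |D.qx x y| ≤ C2 * ‖D.φ y‖ := h2 _ (D.pos y).alt
    _ ≤ C2 * C2 := by gcongr

theorem am_gm {A B ε : ℝ} (hA : 0 ≤ A) (hB : 0 ≤ B) (hε : 0 < ε) :
    √A * √B ≤ ε⁻¹ * A + ε * B := by
  have h1 := Real.sq_sqrt hA
  have h2 := Real.sq_sqrt hB
  have h3 : 0 ≤ √A := Real.sqrt_nonneg _
  have h4 : 0 ≤ √B := Real.sqrt_nonneg _
  have h5 : 0 ≤ (√A - ε * √B) ^ 2 := sq_nonneg _
  have h6 : 2 * ε * (√A * √B) ≤ A + ε ^ 2 * B := by nlinarith
  have h7 : 0 ≤ ε * (√A * √B) := by positivity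
  have h8 : ε * (√A * √B) ≤ ε * (ε⁻¹ * A + ε * B) := by
    have e : ε * (ε⁻¹ * A + ε * B) = A + ε ^ 2 * B := by field_simp
    rw [e]; linarith
  exact le_of_mul_le_mul_left h8 hε

theorem LL_add {s : Measure E4} [SFinite s] {B : Set E4} {ρ : ℝ}
    {f g : E4 × E4 → ℝ} (hf : Measurable f) (h0 : ∀ x y, 0 ≤ f (x, y))
    (h1 : ∀ x y, 0 ≤ g (x, y)) :
    LL s B ρ (fun z => f z + g z) = LL s B ρ f + LL s B ρ g := by
  unfold LL
  have hm := meas_inner s ρ (g := fun z => ENNReal.ofReal (f z)) hf.ennreal_ofReal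
  rw [← lintegral_add_left hm]
  refine lintegral_congr fun x => ?_
  have hm2 : Measurable fun y => ENNReal.ofReal (f (x, y)) :=
    hf.ennreal_ofReal.comp measurable_prodMk_left
  rw [← lintegral_add_left hm2]
  refine lintegral_congr fun y => ?_
  exact ENNReal.ofReal_add (h0 x y) (h1 x y)

theorem LL_smul {s : Measure E4} {B : Set E4} {ρ c : ℝ} (hc : 0 ≤ c) (f : E4 × E4 → ℝ) :
    LL s B ρ (fun z => c * f z) = ENNReal.ofReal c * LL s B ρ f := by
  unfold LL
  rw [← lintegral_const_mul' _ _ ENNReal.ofReal_ne_top]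
  refine lintegral_congr fun x => ?_
  rw [← lintegral_const_mul' _ _ ENNReal.ofReal_ne_top]
  refine lintegral_congr fun y => ?_
  exact ENNReal.ofReal_mul hc

theorem gri (hD : DEL) (hL : LIN1') (hL4 : LIN4) (h1 : GEO1) : GRI := by
  intro D a ha
  have := D.fin
  have hDm := meas_De h1 D
  have hqm := meas_qx D
  obtain ⟨Cb, hCb, hDb⟩ := De_bound h1 hL4 D
  obtain ⟨Cq, hCq, hqb⟩ := qx_bound hL4 D
  have hDn := De_nonneg hL D
  set B := ball D.x0 (2 * D.R) with hB
  have hBm : MeasurableSet B := measurableSet_ball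
  set S := D.s.real univ with hS
  -- the three kernels
  set f : E4 × E4 → ℝ := fun z => D.De z.1 z.2 with hf
  set g : E4 × E4 → ℝ := fun z => |D.qx z.1 z.2| with hg
  set h : E4 × E4 → ℝ := fun z => ‖z.2 - z.1‖ ^ 2 with hh
  set P : E4 × E4 → ℝ := fun z => √(D.De z.1 z.2) * √(|D.qx z.1 z.2| + ‖z.2 - z.1‖ ^ 2) with hP
  have hgm : Measurable g := hqm.abs
  have hhm : Measurable h := (by fun_prop : Continuous fun z : E4 × E4 => ‖z.2 - z.1‖ ^ 2).measurable
  have hPm : Measurable P := hDm.sqrt.mul (hgm.add hhm).sqrt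
  have hf0 : ∀ x y, 0 ≤ f (x, y) := hDn
  have hg0 : ∀ x y, 0 ≤ g (x, y) := fun x y => abs_nonneg _
  have hh0 : ∀ x y, 0 ≤ h (x, y) := fun x y => by positivity
  have hP0 : ∀ x y, 0 ≤ P (x, y) := fun x y => mul_nonneg (Real.sqrt_nonneg _) (Real.sqrt_nonneg _)
  -- bounds on small balls
  have hsm : ∀ ρ : ℝ, ρ ≤ 1 → ∀ x : E4, ∀ y ∈ ball x ρ, ‖y - x‖ ≤ 1 ∧ ‖y - x‖ ^ 2 ≤ 1 := by
    intro ρ hρ x y hy
    rw [mem_ball, dist_eq_norm] at hy
    have h3 : ‖y - x‖ ≤ 1 := by linarith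
    exact ⟨h3, pow_le_one₀ (norm_nonneg _) h3⟩
  have bf : ∀ ρ : ℝ, ρ ≤ 1 → ∀ x, ∀ y ∈ ball x ρ, f (x, y) ≤ Cb := by
    intro ρ hρ x y hy
    obtain ⟨h3, h4⟩ := hsm ρ hρ x y hy
    refine (hDb x y h3).trans ?_
    nlinarith
  have bg : ∀ x y, g (x, y) ≤ Cq := hqb
  have bh : ∀ ρ : ℝ, ρ ≤ 1 → ∀ x, ∀ y ∈ ball x ρ, h (x, y) ≤ 1 := fun ρ hρ x y hy =>
    (hsm ρ hρ x y hy).2
  have bP : ∀ ρ : ℝ, ρ ≤ 1 → ∀ x, ∀ y ∈ ball x ρ, P (x, y) ≤ Cb + (Cq + 1) := by
    intro ρ hρ x y hy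
    have h3 : P (x, y) ≤ (1 : ℝ)⁻¹ * f (x, y) + 1 * (g (x, y) + h (x, y)) :=
      am_gm (hf0 x y) (add_nonneg (hg0 x y) (hh0 x y)) one_pos
    have := bf ρ hρ x y hy
    have := bg x y
    have := bh ρ hρ x y hy
    rw [inv_one, one_mul, one_mul] at h3
    linarith
  -- the second factor
  obtain ⟨r, hr0, hrt, hlim⟩ := hD D a ha
  refine ⟨r, hr0, hrt, ?_⟩
  set E : ℝ := D.Q * a ^ 4 * (1 + |Real.log a|) + a ^ 4 * D.C * S with hE
  have hE0 : 0 ≤ E := by
    have := D.Q_nn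
    have := D.C_nn
    positivity
  have hev : ∀ᶠ k in atTop, a * r k ≤ D.R ∧ a * r k ≤ 1 := by
    have h2 : ∀ᶠ k in atTop, r k < min D.R 1 / a :=
      hrt.eventually (gt_mem_nhds (div_pos (lt_min D.R_pos one_pos) ha))
    filter_upwards [h2] with k hk
    have h3 := hk.le
    rw [le_div_iff₀ ha, mul_comm] at h3
    exact ⟨h3.trans (min_le_left _ _), h3.trans (min_le_right _ _)⟩
  have hlogpos : ∀ t : ℝ, 0 < 1 + |Real.log t| := fun t => by positivity
  have hlogmul : ∀ t, 0 < t → 1 + |Real.log (a * t)| ≤ (1 + |Real.log a|) * (1 + |Real.log t|) := by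
    intro t ht
    rw [Real.log_mul ha.ne' ht.ne']
    have h2 := abs_add_le (Real.log a) (Real.log t)
    have h3 := mul_nonneg (abs_nonneg (Real.log a)) (abs_nonneg (Real.log t))
    nlinarith
  have hgLL : ∀ t, 0 < t → a * t ≤ D.R → (LL D.s B (a * t) g).toReal ≤
      D.Q * (a * t) ^ 4 * ((1 + |Real.log a|) * (1 + |Real.log t|)) := by
    intro t ht ht2
    have e1 := bochner_eq D.s (B := ball D.x0 (3 * D.R)) measurableSet_ball (ρ := a * t)
      (f := g) hgm hg0 (c := Cq) fun x _ y _ => bg x y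
    have h2 := D.qq (a * t) (mul_pos ha ht) ht2
    have h3 : (LL D.s (ball D.x0 (3 * D.R)) (a * t) g).toReal ≤
        D.Q * (a * t) ^ 4 * (1 + |Real.log (a * t)|) := by
      rw [← e1.1]; exact h2
    refine (ENNReal.toReal_mono e1.2 ?_).trans (h3.trans ?_)
    · exact lintegral_mono_set (ball_subset_ball (by linarith [D.R_pos]))
    · exact mul_le_mul_of_nonneg_left (hlogmul t ht) (mul_nonneg D.Q_nn (by positivity))
  have hhLL : ∀ t, 0 < t → a * t ≤ 1 → (LL D.s B (a * t) h).toReal ≤ (a * t) ^ 4 * D.C * S := by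
    intro r hr hr2
    have har : 0 < a * r := mul_pos ha hr
    have h2 : LL D.s B (a * r) h ≤ ENNReal.ofReal ((a * r) ^ 4 * D.C) * D.s univ := by
      have h3 : ∀ x, ∫⁻ y in ball x (a * r), ENNReal.ofReal (h (x, y)) ∂D.s ≤
          ENNReal.ofReal ((a * r) ^ 4 * D.C) := by
        intro x
        calc ∫⁻ y in ball x (a * r), ENNReal.ofReal (h (x, y)) ∂D.s
            ≤ ∫⁻ y in ball x (a * r), ENNReal.ofReal ((a * r) ^ 2) ∂D.s := by
              refine setLIntegral_mono measurable_const fun y hy => ENNReal.ofReal_le_ofReal ?_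
              rw [mem_ball, dist_eq_norm] at hy
              show ‖y - x‖ ^ 2 ≤ (a * r) ^ 2
              gcongr
          _ = ENNReal.ofReal ((a * r) ^ 2) * D.s (ball x (a * r)) := by rw [setLIntegral_const]
          _ = ENNReal.ofReal ((a * r) ^ 2) * ENNReal.ofReal (D.s.real (ball x (a * r))) := by
              rw [Measure.real, ENNReal.ofReal_toReal (measure_ne_top _ _)]
          _ ≤ ENNReal.ofReal ((a * r) ^ 2) * ENNReal.ofReal (D.C * (a * r) ^ 2) := by
              gcongr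
              exact D.gr x (a * r) har
          _ = ENNReal.ofReal ((a * r) ^ 4 * D.C) := by
              rw [← ENNReal.ofReal_mul (by positivity)]
              congr 1; ring
      calc LL D.s B (a * r) h ≤ ∫⁻ _ in B, ENNReal.ofReal ((a * r) ^ 4 * D.C) ∂D.s :=
            lintegral_mono fun x => h3 x
        _ = ENNReal.ofReal ((a * r) ^ 4 * D.C) * D.s B := by rw [setLIntegral_const]
        _ ≤ ENNReal.ofReal ((a * r) ^ 4 * D.C) * D.s univ := by gcongr; exact subset_univ _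
    have h4 := ENNReal.toReal_mono (ENNReal.mul_ne_top ENNReal.ofReal_ne_top
      (measure_ne_top _ _)) h2
    rw [ENNReal.toReal_mul, ENNReal.toReal_ofReal (mul_nonneg (by positivity) D.C_nn)] at h4
    exact h4
  -- the inequality
  have key : ∀ ε : ℝ, 0 < ε → ∀ t, 0 < t → a * t ≤ D.R → a * t ≤ 1 →
      (t ^ 4)⁻¹ * ∫ x in B, ∫ y in ball x (a * t), P (x, y) ∂D.s ∂D.s ≤
        ε⁻¹ * ((t ^ 4)⁻¹ * ∫ x in B, ∫ y in ball x (a * t), D.De x y ∂D.s ∂D.s) +
          ε * (E * (1 + |Real.log t|)) := by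
    intro ε hε t ht0 ht1 ht2
    have eP := bochner_eq D.s hBm (ρ := a * t) (f := P) hPm hP0 fun x _ y hy => bP _ ht2 x y hy
    have ef := bochner_eq D.s hBm (ρ := a * t) (f := f) hDm hf0 fun x _ y hy => bf _ ht2 x y hy
    have eg := bochner_eq D.s hBm (ρ := a * t) (f := g) hgm hg0 fun x _ y _ => bg x y
    have eh := bochner_eq D.s hBm (ρ := a * t) (f := h) hhm hh0 fun x _ y hy => bh _ ht2 x y hy
    have hi : (0 : ℝ) ≤ ε⁻¹ := (inv_pos.2 hε).le
    have h2 : LL D.s B (a * t) P ≤ ENNReal.ofReal ε⁻¹ * LL D.s B (a * t) f +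
        ENNReal.ofReal ε * (LL D.s B (a * t) g + LL D.s B (a * t) h) := by
      calc LL D.s B (a * t) P ≤ LL D.s B (a * t) (fun z => ε⁻¹ * f z + ε * (g z + h z)) :=
            LL_mono hBm fun x _ y _ => am_gm (hf0 x y) (add_nonneg (hg0 x y) (hh0 x y)) hε
        _ = LL D.s B (a * t) (fun z => ε⁻¹ * f z) + LL D.s B (a * t) (fun z => ε * (g z + h z)) :=
            LL_add (hDm.const_mul _)
              (fun x y => mul_nonneg hi (hf0 x y))
              (fun x y => mul_nonneg hε.le (add_nonneg (hg0 x y) (hh0 x y)))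
        _ = _ := by
            rw [LL_smul hi, LL_smul hε.le (fun z => g z + h z), LL_add hgm hg0 hh0]
    have h3 : (LL D.s B (a * t) P).toReal ≤ ε⁻¹ * (LL D.s B (a * t) f).toReal +
        ε * ((LL D.s B (a * t) g).toReal + (LL D.s B (a * t) h).toReal) := by
      have h4 := ENNReal.toReal_mono (ENNReal.add_ne_top.2
        ⟨ENNReal.mul_ne_top ENNReal.ofReal_ne_top ef.2, ENNReal.mul_ne_top ENNReal.ofReal_ne_top
          (ENNReal.add_ne_top.2 ⟨eg.2, eh.2⟩)⟩) h2
      rwa [ENNReal.toReal_add (ENNReal.mul_ne_top ENNReal.ofReal_ne_top ef.2)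
        (ENNReal.mul_ne_top ENNReal.ofReal_ne_top (ENNReal.add_ne_top.2 ⟨eg.2, eh.2⟩)),
        ENNReal.toReal_mul, ENNReal.toReal_mul, ENNReal.toReal_add eg.2 eh.2,
        ENNReal.toReal_ofReal hi, ENNReal.toReal_ofReal hε.le] at h4
    have h5 := hgLL t ht0 ht1
    have h6 := hhLL t ht0 ht2
    have e1 : ∫ x in B, ∫ y in ball x (a * t), D.De x y ∂D.s ∂D.s =
        (LL D.s B (a * t) f).toReal := ef.1
    have hlt := hlogpos t
    have h6' : (LL D.s B (a * t) h).toReal ≤ (a * t) ^ 4 * D.C * S * (1 + |Real.log t|) := by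
      refine h6.trans ?_
      have h8 : 0 ≤ (a * t) ^ 4 * D.C * S :=
        mul_nonneg (mul_nonneg (by positivity) D.C_nn) measureReal_nonneg
      have h9 := abs_nonneg (Real.log t)
      nlinarith
    rw [eP.1, e1]
    have h7 : (LL D.s B (a * t) P).toReal ≤ ε⁻¹ * (LL D.s B (a * t) f).toReal +
        ε * (D.Q * (a * t) ^ 4 * ((1 + |Real.log a|) * (1 + |Real.log t|)) +
          (a * t) ^ 4 * D.C * S * (1 + |Real.log t|)) := by
      refine h3.trans ?_
      gcongr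
    calc (t ^ 4)⁻¹ * (LL D.s B (a * t) P).toReal
        ≤ (t ^ 4)⁻¹ * (ε⁻¹ * (LL D.s B (a * t) f).toReal +
          ε * (D.Q * (a * t) ^ 4 * ((1 + |Real.log a|) * (1 + |Real.log t|)) +
          (a * t) ^ 4 * D.C * S * (1 + |Real.log t|))) := by gcongr
      _ = ε⁻¹ * ((t ^ 4)⁻¹ * (LL D.s B (a * t) f).toReal) + ε * (E * (1 + |Real.log t|)) := by
          rw [hE]
          field_simp
  -- conclusion
  have hpos : ∀ k, 0 ≤ (r k ^ 4)⁻¹ * ∫ x in B, ∫ y in ball x (a * r k), P (x, y) ∂D.s ∂D.s := by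
    intro k
    have := hr0 k
    exact mul_nonneg (by positivity) (integral_nonneg fun x => integral_nonneg fun y => hP0 x y)
  show Tendsto (fun k => (r k ^ 4)⁻¹ * ∫ x in B, ∫ y in ball x (a * r k), P (x, y) ∂D.s ∂D.s)
    atTop (𝓝 0)
  rw [Metric.tendsto_nhds]
  intro η hη
  set ε : ℝ := η / (2 * (E + 1)) with hε
  have hε0 : 0 < ε := by positivity
  have h2 : ∀ᶠ k in atTop, (r k ^ 4)⁻¹ *
      (∫ x in B, ∫ y in ball x (a * r k), D.De x y ∂D.s ∂D.s) * (1 + |Real.log (r k)|) <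
      ε * (η / 2) := hlim.eventually (gt_mem_nhds (by positivity))
  filter_upwards [h2, hev] with k h5 hk
  rw [Real.dist_eq, sub_zero, abs_of_nonneg (hpos k)]
  have hΛ := hlogpos (r k)
  have h3 := key (ε / (1 + |Real.log (r k)|)) (by positivity) (r k) (hr0 k) hk.1 hk.2
  have h6 : (ε / (1 + |Real.log (r k)|))⁻¹ * ((r k ^ 4)⁻¹ *
      ∫ x in B, ∫ y in ball x (a * r k), D.De x y ∂D.s ∂D.s) < η / 2 := by
    rw [inv_div, div_mul_eq_mul_div, div_lt_iff₀ hε0]
    calc _ = (r k ^ 4)⁻¹ * (∫ x in B, ∫ y in ball x (a * r k), D.De x y ∂D.s ∂D.s) *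
        (1 + |Real.log (r k)|) := by ring
      _ < ε * (η / 2) := h5
      _ = η / 2 * ε := by ring
  have h7 : ε / (1 + |Real.log (r k)|) * (E * (1 + |Real.log (r k)|)) ≤ η / 2 := by
    have e1 : ε / (1 + |Real.log (r k)|) * (E * (1 + |Real.log (r k)|)) = ε * E := by
      field_simp
    rw [e1, hε, div_mul_eq_mul_div, div_le_div_iff₀ (by positivity) two_pos]
    nlinarith
  linarith

end

end Crest.Agent.R235.CurGri_538
end

-- ▼ part R235/Brint_464
section

/-!
Row 235, package ADJ (helper464): node BRINT of `AdjNodes_43`.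
-/

set_option autoImplicit false
set_option maxSynthPendingDepth 3

open Set Function Filter MeasureTheory Metric
open scoped Manifold ContDiff Topology Real

universe u

namespace Crest.Agent.R235.Brint_464

open Crest.Agent.R240 Crest.Agent.R240.Ch Crest.Agent.R240.Int
open Crest.Agent.R235 Crest.Agent.R235.Glob_370 Crest.Agent.R235.Wind_688
open Crest.Agent.R235.Adj Crest.Agent.R235.Pull_129

noncomputable section

/-! ### the plane: filling the hole -/

/-- radial cut-off -/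
def et (a b t : ℝ) : ℝ := Real.smoothTransition ((b - t) / (b - a))

theorem et_contDiff (a b : ℝ) : ContDiff ℝ ∞ (et a b) :=
  Real.smoothTransition.contDiff.comp ((contDiff_const.sub contDiff_id).div_const _)

theorem et_zero {a b t : ℝ} (hab : a < b) (h : b ≤ t) : et a b t = 0 :=
  Real.smoothTransition.zero_of_nonpos (div_nonpos_of_nonpos_of_nonneg (by linarith) (by linarith))

theorem et_one {a b t : ℝ} (hab : a < b) (h : t ≤ a) : et a b t = 1 :=
  Real.smoothTransition.one_of_one_le ((one_le_div (by linarith)).2 (by linarith))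

theorem et_mem (a b t : ℝ) : 0 ≤ et a b t ∧ et a b t ≤ 1 :=
  ⟨Real.smoothTransition.nonneg _, Real.smoothTransition.le_one _⟩

/-- the radial map -/
def rad (a b c : ℝ) (z : ℂ) : ℂ :=
  ((1 - et a b (Complex.normSq z) + et a b (Complex.normSq z) * (c / √(Complex.normSq z)) : ℝ) : ℂ)
    * z

theorem normSq_contDiff : ContDiff ℝ ∞ (fun z : ℂ => Complex.normSq z) := by
  have h : (fun z : ℂ => Complex.normSq z) = fun z : ℂ => z.re * z.re + z.im * z.im := by
    ext z; exact Complex.normSq_apply z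
  rw [h]
  exact (Complex.reCLM.contDiff.mul Complex.reCLM.contDiff).add
    (Complex.imCLM.contDiff.mul Complex.imCLM.contDiff)

theorem rad_contDiffAt (a b c : ℝ) {z : ℂ} (hz : z ≠ 0) : ContDiffAt ℝ ∞ (rad a b c) z := by
  have h1 : ContDiffAt ℝ ∞ (fun z : ℂ => et a b (Complex.normSq z)) z :=
    ((et_contDiff a b).comp normSq_contDiff).contDiffAt
  have h2 : ContDiffAt ℝ ∞ (fun z : ℂ => √(Complex.normSq z)) z :=
    (Real.contDiffAt_sqrt (Complex.normSq_pos.2 hz).ne').comp z normSq_contDiff.contDiffAt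
  have h3 : √(Complex.normSq z) ≠ 0 := (Real.sqrt_pos.2 (Complex.normSq_pos.2 hz)).ne'
  have h4 : ContDiffAt ℝ ∞ (fun z : ℂ => 1 - et a b (Complex.normSq z) +
      et a b (Complex.normSq z) * (c / √(Complex.normSq z))) z :=
    (contDiffAt_const.sub h1).add (h1.mul (contDiffAt_const.div h2 h3))
  exact (Complex.ofRealCLM.contDiff.contDiffAt.comp z h4).mul contDiffAt_id

theorem rad_eq {a b c : ℝ} (hab : a < b) {z : ℂ} (hz : b ≤ Complex.normSq z) : rad a b c z = z := by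
  simp [rad, et_zero hab hz]

theorem rad_norm {a b c : ℝ} (hc : 0 < c) {z : ℂ} (hz : z ≠ 0) :
    ‖rad a b c z‖ = (1 - et a b (Complex.normSq z)) * ‖z‖ + et a b (Complex.normSq z) * c := by
  have h1 := et_mem a b (Complex.normSq z)
  have h2 : √(Complex.normSq z) = ‖z‖ := rfl
  have h3 : 0 < ‖z‖ := norm_pos_iff.2 hz
  rw [rad, norm_mul, Complex.norm_real, h2, Real.norm_of_nonneg]
  · field_simp
  · have : 0 ≤ c / ‖z‖ := by positivity
    nlinarith [mul_nonneg h1.1 this, h1.2]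

/-- a function on an annulus is, near the outer part, the restriction of a function on the
punctured disc. -/
theorem fill {G : ℂ → ℂ} {ρ1 ρ ρ3 : ℝ} (h1 : 0 < ρ1) (h2 : ρ1 < ρ) (h3 : ρ < ρ3)
    (hG : ∀ z : ℂ, ρ1 < ‖z‖ → ‖z‖ < ρ3 → ContDiffAt ℝ 2 G z ∧ G z ≠ 0) :
    ∃ (G' : ℂ → ℂ), (∀ z : ℂ, z ≠ 0 → ‖z‖ < ρ3 → ContDiffAt ℝ 2 G' z ∧ G' z ≠ 0) ∧
      (∀ z : ℂ, ρ ≤ ‖z‖ → G' z = G z) := by
  obtain ⟨c, hc1, hc2⟩ := exists_between h2
  have hc0 : 0 < c := h1.trans hc1
  set a := c ^ 2 with ha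
  set b := ρ ^ 2 with hb
  have hab : a < b := by rw [ha, hb]; nlinarith
  have hns : ∀ z : ℂ, Complex.normSq z = ‖z‖ ^ 2 := fun z => Complex.normSq_eq_norm_sq z
  refine ⟨fun z => G (rad a b c z), fun z hz hz3 => ?_, fun z hz => ?_⟩
  · have hn := rad_norm (a := a) (b := b) hc0 hz
    have he := et_mem a b (Complex.normSq z)
    have hz0 : 0 < ‖z‖ := norm_pos_iff.2 hz
    have hlo : ρ1 < ‖rad a b c z‖ := by
      rw [hn]
      by_cases hza : ‖z‖ ≤ c
      · rw [et_one hab (by rw [hns, ha]; gcongr)]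
        linarith
      · push Not at hza
        nlinarith [he.1, he.2]
    have hhi : ‖rad a b c z‖ < ρ3 := by
      rw [hn]
      have hc3 : c < ρ3 := hc2.trans h3
      set t := et a b (Complex.normSq z)
      rcases eq_or_lt_of_le he.1 with ht | ht
      · rw [← ht]; linarith
      · have h5 : t * c < t * ρ3 := by gcongr
        have h6 : (1 - t) * ‖z‖ ≤ (1 - t) * ρ3 := by
          have : 0 ≤ 1 - t := by linarith [he.2]
          gcongr
        linarith
    obtain ⟨hd, h0⟩ := hG _ hlo hhi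
    exact ⟨hd.comp z ((rad_contDiffAt a b c hz).of_le (by norm_cast)), h0⟩
  · show G (rad a b c z) = G z
    rw [rad_eq hab]
    rw [hns, hb]
    gcongr
    exact (h1.trans h2).le

/-- the planar statement -/
theorem planar {G : ℂ → ℂ} {X : ℂ → ℝ} {ρ1 ρ ρ2 ρ3 : ℝ} {n : ℤ} (h1 : 0 < ρ1) (h2 : ρ1 < ρ)
    (h3 : ρ < ρ2) (h4 : ρ2 < ρ3)
    (hG : ∀ z : ℂ, ρ1 < ‖z‖ → ‖z‖ < ρ3 → ContDiffAt ℝ 2 G z ∧ G z ≠ 0) (hX : ContDiff ℝ 1 X)
    (hX1 : ∀ z : ℂ, ‖z‖ ≤ ρ → X =ᶠ[𝓝 z] fun _ => 1)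
    (hX0 : ∀ z : ℂ, ρ2 ≤ ‖z‖ → X =ᶠ[𝓝 z] fun _ => 0) (hn : IsW G 0 ρ n) :
    Integrable (fun z => jac X G z / G z) ∧ ∫ z, jac X G z / G z = -(2 * π * Complex.I) * n := by
  have hρ : 0 < ρ := h1.trans h2
  have hρ3 : ρ < ρ3 := h3.trans h4
  obtain ⟨G', hG', hGG⟩ := fill h1 h2 hρ3 hG
  have e : ∀ z, jac X G z / G z = jac X G' z / G' z := by
    intro z
    rcases le_or_gt ‖z‖ ρ with hz | hz
    · have hf : fderiv ℝ X z = 0 := by
        rw [(hX1 z hz).fderiv_eq, fderiv_fun_const]; rfl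
      simp [jac, hf]
    · have h5 : G' =ᶠ[𝓝 z] G := by
        filter_upwards [continuous_norm.isOpen_preimage _ isOpen_Ioi |>.mem_nhds
          (show z ∈ norm ⁻¹' Ioi ρ from hz)] with w hw
        exact hGG w (le_of_lt hw)
      rw [jac, jac, h5.fderiv_eq, h5.self_of_nhds]
  have hXs : ∀ z, z ∈ tsupport X → ‖z‖ < ρ2 := by
    intro z hz
    by_contra hcon
    push Not at hcon
    exact (notMem_tsupport_iff_eventuallyEq.2 (hX0 z hcon)) hz
  have hcs : HasCompactSupport X := by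
    refine HasCompactSupport.intro (isCompact_closedBall (0 : ℂ) ρ2) fun z hz => ?_
    rw [mem_closedBall_zero_iff, not_le] at hz
    exact (hX0 z hz.le).self_of_nhds
  set U : Set ℂ := ball 0 ρ3 \ {0} with hU
  have hUo : IsOpen U := isOpen_ball.sdiff isClosed_singleton
  have hGU : ∀ z ∈ U, ContDiffAt ℝ 2 G' z ∧ G' z ≠ 0 := fun z hz =>
    hG' z hz.2 (mem_ball_zero_iff.1 hz.1)
  have hnG : IsW G' 0 ρ n := hn.congr hρ.le fun z hz =>
    (hGG z (by rw [mem_sphere_zero_iff_norm.1 hz])).symm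
  have hcut := cut hUo (F := G') (fun z hz => (hGU z hz).1.contDiffWithinAt)
    (fun z hz => (hGU z hz).2) {0} (fun _ => n) (fun p hp => by
      rw [Finset.mem_singleton.1 hp]
      filter_upwards [self_mem_nhdsWithin, mem_nhdsWithin_of_mem_nhds
        (ball_mem_nhds (0 : ℂ) (hρ.trans hρ3))] with z hz hz2
      exact ⟨hz2, hz⟩) (fun p hp => by
      rw [Finset.mem_singleton.1 hp]
      have h6 : ∀ᶠ r in 𝓝[>] (0 : ℝ), r ∈ Ioo 0 ρ3 := Ioo_mem_nhdsGT (hρ.trans hρ3)
      filter_upwards [h6] with r hr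
      exact IsW.radius' (fun z hz => (hGU z hz).1.continuousAt.continuousWithinAt)
        (fun z hz hne => (hGU z ⟨hz, hne⟩).2) hρ hρ3 hr.1 hr.2 hnG) X hX hcs
    (fun z hz => by
      by_cases h0 : z = 0
      · right; simp [h0]
      · left
        exact ⟨mem_ball_zero_iff.2 ((hXs z hz).trans h4), h0⟩)
    (fun p hp => by
      rw [Finset.mem_singleton.1 hp]
      have h7 := hX1 0 (by rw [norm_zero]; exact hρ.le)
      filter_upwards [h7] with z hz
      rw [hz, h7.self_of_nhds])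
  have h8 : X 0 = 1 := (hX1 0 (by rw [norm_zero]; exact hρ.le)).self_of_nhds
  simp_rw [e]
  refine ⟨hcut.1, ?_⟩
  rw [hcut.2, Finset.sum_singleton, h8]
  push_cast
  ring

/-! ### on the manifold -/

section Man

variable {M : Type u} [TopologicalSpace M] [ChartedSpace E4 M] [IsManifold 𝓘(ℝ, E4) ∞ M]

theorem sm_chart {F : M → ℂ} {x : M} (hF : SmAt F x) :
    ContDiffAt ℝ ∞ (fun y : E4 => F ((chartAt E4 x).symm y)) (chartAt E4 x x) := by
  have hs : ContMDiffAt 𝓘(ℝ, E4) 𝓘(ℝ, E4) ∞ (chartAt E4 x).symm (chartAt E4 x x) :=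
    (contMDiffOn_chart_symm (I := 𝓘(ℝ, E4)) (x := x)).contMDiffAt
      ((chartAt E4 x).open_target.mem_nhds (mem_chart_target E4 x))
  have hF' : ContMDiffAt 𝓘(ℝ, E4) 𝓘(ℝ, ℂ) ∞ F ((chartAt E4 x).symm (chartAt E4 x x)) := by
    rw [(chartAt E4 x).left_inv (mem_chart_source E4 x)]
    exact hF
  exact (hF'.comp _ hs).contDiffAt

omit [IsManifold 𝓘(ℝ, E4) ∞ M] in
theorem sm_comp {F : M → ℂ} {h : ℂ → M} {z : ℂ} (hh : ContMDiffAt 𝓘(ℝ, ℂ) 𝓘(ℝ, E4) ∞ h z)
    (hF : SmAt F (h z)) : ContDiffAt ℝ ∞ (fun z => F (h z)) z := by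
  have hF' : ContMDiffAt 𝓘(ℝ, E4) 𝓘(ℝ, ℂ) ∞ F (h z) := hF
  exact (hF'.comp z hh).contDiffAt

theorem dArg_dmap {F : M → ℂ} {h : ℂ → M} {z : ℂ}
    (hh : ContMDiffAt 𝓘(ℝ, ℂ) 𝓘(ℝ, E4) ∞ h z) (hF : SmAt F (h z)) (w : ℂ) :
    at1 (dArg F) (h z) (dmap h z w) =
      (2 * π)⁻¹ * ((F (h z))⁻¹ * fderiv ℝ (fun z => F (h z)) z w).im := by
  have h1 : HasFDerivAt (fun y => chartAt E4 (h z) (h y))
      (fderiv ℝ (fun y => chartAt E4 (h z) (h y)) z) z :=
    ((inC_contDiffAt (p := h z) hh (mem_chart_source E4 _)).differentiableAt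
      (by simp)).hasFDerivAt
  have h2 := (sm_chart hF).differentiableAt (by simp) |>.hasFDerivAt
  have h3 := HasFDerivAt.comp z h2 h1
  have h4 : (fun z => F (h z)) =ᶠ[𝓝 z]
      (fun y : E4 => F ((chartAt E4 (h z)).symm y)) ∘ fun y => chartAt E4 (h z) (h y) := by
    filter_upwards [hh.continuousAt.eventually ((chartAt E4 (h z)).open_source.mem_nhds
      (mem_chart_source E4 (h z)))] with y hy
    show F (h y) = F ((chartAt E4 (h z)).symm (chartAt E4 (h z) (h y)))
    rw [(chartAt E4 (h z)).left_inv hy]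
  rw [h4.fderiv_eq, h3.fderiv]
  rfl

end Man

/-- **BRINT** -/
theorem brint : BRINT.{u} := by
  intro M _ _ _ _ _ _ F χ h B ρ1 ρ ρ2 ρ3 n h01 h12 h23 h34 h31 hh hχ hF hχ1 hχ0 hB hn
  classical
  have hρ : 0 < ρ := h01.trans h12
  have hat : ∀ z : ℂ, ‖z‖ < 1 → ContMDiffAt 𝓘(ℝ, ℂ) 𝓘(ℝ, E4) ∞ h z := fun z hz =>
    hh.contMDiffAt (isOpen_ball.mem_nhds (mem_ball_zero_iff.2 hz))
  set G : ℂ → ℂ := fun z => F (h z) with hG
  set X : ℂ → ℝ := fun z => if ‖z‖ < 1 then χ (h z) else 0 with hX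
  have hball : ∀ z : ℂ, ‖z‖ < 1 → ∀ᶠ w in 𝓝 z, ‖w‖ < 1 := fun z hz =>
    continuous_norm.continuousAt.eventually (gt_mem_nhds hz)
  have hXe : ∀ z : ℂ, ‖z‖ < 1 → X =ᶠ[𝓝 z] fun z => χ (h z) := fun z hz => by
    filter_upwards [hball z hz] with w hw
    simp only [hX, if_pos hw]
  have hX1 : ∀ z : ℂ, ‖z‖ ≤ ρ → X =ᶠ[𝓝 z] fun _ => 1 := fun z hz => by
    have hz1 : ‖z‖ < 1 := by linarith
    filter_upwards [hXe z hz1, (hat z hz1).continuousAt.eventually
      (hχ1 z (mem_closedBall_zero_iff.2 hz))] with w hw hw2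
    rw [hw, hw2]
  have hX0' : ∀ z : ℂ, ρ2 ≤ ‖z‖ → X z = 0 := fun z hz => by
    by_cases hz1 : ‖z‖ < 1
    · simp only [hX, if_pos hz1]
      exact (hχ0 z (mem_ball_zero_iff.2 hz1) hz).self_of_nhds
    · simp only [hX, if_neg hz1]
  have hX0 : ∀ z : ℂ, ρ2 ≤ ‖z‖ → X =ᶠ[𝓝 z] fun _ => 0 := fun z hz => by
    by_cases hz1 : ‖z‖ < 1
    · filter_upwards [hXe z hz1, (hat z hz1).continuousAt.eventually
        (hχ0 z (mem_ball_zero_iff.2 hz1) hz)] with w hw hw2
      rw [hw, hw2]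
    · have hz2 : ρ2 < ‖z‖ := by linarith
      filter_upwards [continuous_norm.continuousAt.eventually (lt_mem_nhds hz2)] with w hw
      exact hX0' w hw.le
  have hXd : ∀ z : ℂ, ‖z‖ < 1 → ContDiffAt ℝ ∞ X z := fun z hz =>
    ((comp_contDiffOn isOpen_ball hh hχ).contDiffAt
      (isOpen_ball.mem_nhds (mem_ball_zero_iff.2 hz))).congr_of_eventuallyEq (hXe z hz)
  have hXc : ContDiff ℝ 1 X := by
    rw [contDiff_iff_contDiffAt]
    intro z
    by_cases hz : ‖z‖ < 1
    · exact (hXd z hz).of_le (by simp)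
    · exact contDiffAt_const.congr_of_eventuallyEq (hX0 z (by linarith))
  have hGd : ∀ z : ℂ, ρ1 < ‖z‖ → ‖z‖ < ρ3 → ContDiffAt ℝ 2 G z ∧ G z ≠ 0 := fun z hz hz' =>
    ⟨(sm_comp (hat z (by linarith)) (hF z hz hz').1).of_le (by norm_cast), (hF z hz hz').2⟩
  obtain ⟨hi, hI⟩ := planar h01 h12 h23 h34 hGd hXc hX1 hX0 hn
  -- the pull-back
  have key : ∀ z ∈ ball (0 : ℂ) 1, pb h (B : F2 E4 M) z
      = -(2 * π)⁻¹ * (jac X G z / G z).im := by
    intro z hz
    have hz1 : ‖z‖ < 1 := mem_ball_zero_iff.1 hz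
    have e1 : pb h (B : F2 E4 M) z =
        at1 (dArg F) (h z) (dmap h z 1) * at1 (dF χ) (h z) (dmap h z Complex.I)
        - at1 (dF χ) (h z) (dmap h z 1) * at1 (dArg F) (h z) (dmap h z Complex.I) := by
      unfold pb
      rw [hB z hz]
      rfl
    have e2 : ∀ w : ℂ, at1 (dF (E := E4) χ) (h z) (dmap h z w) = fderiv ℝ X z w := by
      intro w
      have h5 := pb1_dF (Φ := h) (q := z) (hat z hz1) hχ
      have h6 : pb1 h (dF (E := E4) χ) z w = fderiv ℝ (fun z => χ (h z)) z w := by rw [h5]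
      rw [(hXe z hz1).fderiv_eq, ← h6]
      rfl
    rw [e1, e2, e2]
    rcases le_or_gt ‖z‖ ρ with hz2 | hz2
    · have hf : fderiv ℝ X z = 0 := by
        rw [(hX1 z hz2).fderiv_eq, fderiv_fun_const]; rfl
      simp [jac, hf]
    rcases le_or_gt ρ2 ‖z‖ with hz3 | hz3
    · have hf : fderiv ℝ X z = 0 := by
        rw [(hX0 z hz3).fderiv_eq, fderiv_fun_const]; rfl
      simp [jac, hf]
    have hs := (hF z (by linarith) (by linarith)).1
    rw [dArg_dmap (hat z hz1) hs, dArg_dmap (hat z hz1) hs]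
    have e3 : (jac X G z / G z).im = fderiv ℝ X z 1 * ((G z)⁻¹ * fderiv ℝ G z Complex.I).im
        - fderiv ℝ X z Complex.I * ((G z)⁻¹ * fderiv ℝ G z 1).im := by
      have h7 : jac X G z / G z
          = (fderiv ℝ X z 1 : ℂ) * ((G z)⁻¹ * fderiv ℝ G z Complex.I)
          - (fderiv ℝ X z Complex.I : ℂ) * ((G z)⁻¹ * fderiv ℝ G z 1) := by
        rw [jac, div_eq_mul_inv]; ring
      rw [h7, Complex.sub_im, Complex.im_ofReal_mul, Complex.im_ofReal_mul]
    rw [e3]
    show (2 * π)⁻¹ * ((G z)⁻¹ * fderiv ℝ G z 1).im * _ - _ * ((2 * π)⁻¹ *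
      ((G z)⁻¹ * fderiv ℝ G z Complex.I).im) = _
    ring
  rw [setIntegral_congr_fun measurableSet_ball key]
  have h9 : ∀ z ∉ ball (0 : ℂ) 1, -(2 * π)⁻¹ * (jac X G z / G z).im = 0 := by
    intro z hz
    rw [mem_ball_zero_iff, not_lt] at hz
    have hf : fderiv ℝ X z = 0 := by
      rw [(hX0 z (by linarith)).fderiv_eq, fderiv_fun_const]; rfl
    simp [jac, hf]
  rw [setIntegral_eq_integral_of_forall_compl_eq_zero h9, integral_const_mul]
  have e4 : ∫ z, (jac X G z / G z).im = (∫ z, jac X G z / G z).im := by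
    have := Complex.imCLM.integral_comp_comm hi
    simpa using this
  rw [e4, hI]
  have e5 : (-(2 * π * Complex.I) * n : ℂ).im = -(2 * π * n) := by
    simp
  rw [e5]
  field_simp

end

end Crest.Agent.R235.Brint_464
end

-- ▼ part R235/EvenS_510
section

/-!
Row 235 (S0364), node (C) of #1826 (EVEN REACH), abstract part, helper510: the class-moving argument
inside the triples fixed by a linear involution `T` of the space of closed forms which acts
trivially on the classes and preserves positivity.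
-/

set_option autoImplicit false

open Set Function

namespace Crest.Agent.R235.Mv

section Even

variable {X : Type*} [AddCommGroup X] [Module ℝ X]

/-- the even forms. -/
def evn (T : X →ₗ[ℝ] X) : Submodule ℝ X := LinearMap.ker (T - LinearMap.id)

theorem mem_evn {T : X →ₗ[ℝ] X} {x : X} : x ∈ evn T ↔ T x = x := by
  simp [evn, sub_eq_zero]

/-- a triple of even forms as a triple of forms. -/
def inc {T : X →ₗ[ℝ] X} (w : Fin 3 → evn T) : Fin 3 → X := fun i => (w i : X)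

theorem inc_lin {T : X →ₗ[ℝ] X} (w w' : Fin 3 → evn T) (t : ℝ) :
    inc (lin w w' t) = lin (inc w) (inc w') t := by
  funext i; simp [inc, lin]

theorem inc_update {T : X →ₗ[ℝ] X} (w : Fin 3 → evn T) (k : Fin 3) (x : evn T) :
    inc (update w k x) = update (inc w) k (x : X) := by
  funext i
  by_cases h : i = k
  · subst h; simp [inc]
  · simp [inc, update_of_ne h]

theorem inc_act {T : X →ₗ[ℝ] X} (g : Matrix (Fin 3) (Fin 3) ℝ) (w : Fin 3 → evn T) :
    inc (act g w) = act g (inc w) := by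
  funext i
  simp [inc, act]

theorem seg_inc {T : X →ₗ[ℝ] X} {P : Set (Fin 3 → X)} {w w' : Fin 3 → evn T} :
    Seg {w : Fin 3 → evn T | inc w ∈ P} w w' ↔ Seg P (inc w) (inc w') := by
  constructor
  · intro h t ht
    have := h t ht
    rw [mem_ofPred_eq, inc_lin] at this
    exact this
  · intro h t ht
    show inc _ ∈ P
    rw [inc_lin]
    exact h t ht

theorem tm_inc {T : X →ₗ[ℝ] X} {P : Set (Fin 3 → X)} {w : Fin 3 → evn T} {k : Fin 3}
    {x : evn T} : x ∈ Tm {w : Fin 3 → evn T | inc w ∈ P} w k ↔ (x : X) ∈ Tm P (inc w) k := by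
  show Seg _ _ _ ↔ Seg _ _ _
  rw [seg_inc, inc_update]

end Even

variable {X H : Type*} [AddCommGroup X] [Module ℝ X] [NormedAddCommGroup H]
    [NormedSpace ℝ H] [FiniteDimensional ℝ H]

/-- `T` preserves `Tm` at even triples. -/
theorem Sys.T_mem_tm (S : Sys X H) {T : X →ₗ[ℝ] X}
    (hP : ∀ w ∈ S.P, (fun i => T (w i)) ∈ S.P) {w : Fin 3 → evn T} {k : Fin 3} {x : X}
    (hx : x ∈ Tm S.P (inc w) k) : T x ∈ Tm S.P (inc w) k := by
  intro t ht
  have h := hP _ (hx t ht)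
  have e : (fun i => T (lin (inc w) (update (inc w) k x) t i)) =
      lin (inc w) (update (inc w) k (T x)) t := by
    funext i
    have hw : T (inc w i) = inc w i := mem_evn.1 (w i).2
    by_cases hi : i = k
    · subst hi
      simp only [lin, update_self, map_add, map_smul, hw]
    · simp only [lin, update_of_ne hi, map_add, map_smul, hw]
  rwa [e] at h

/-- the system of even triples. -/
def Sys.even (S : Sys X H) (T : X →ₗ[ℝ] X) (hT : ∀ x, T (T x) = x)
    (hcl : ∀ x, S.cl (T x) = S.cl x) (hP : ∀ w ∈ S.P, (fun i => T (w i)) ∈ S.P) :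
    Sys (evn T) H where
  P := {w | inc w ∈ S.P}
  P_act g w hg hw := by
    show inc _ ∈ S.P
    rw [inc_act]
    exact S.P_act g _ hg hw
  cl := S.cl ∘ₗ (evn T).subtype
  B := S.B
  B_symm := S.B_symm
  R := S.R
  R_cnt := S.R_cnt
  Hy := ∅
  Hy_sub := empty_subset _
  Hy_act _ _ _ h := h.elim
  cvx w hw k := by
    intro x hx y hy a b ha hb hab
    rw [tm_inc] at hx hy ⊢
    exact S.cvx (inc w) hw k hx hy ha hb hab
  opn m b := by
    have h := S.opn m (fun j => (b j : X))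
    convert h using 1
    ext a
    simp only [mem_ofPred_eq]
    have e : inc (fun i => ∑ j, a i j • b j) = fun i => ∑ j, a i j • (b j : X) := by
      funext i; simp [inc]
    rw [e]
  pos w hw := S.pos (inc w) hw
  swb w hw := S.swb (inc w) hw
  cone w hw k c hc := by
    obtain ⟨x, hx, hxc⟩ := S.cone (inc w) hw k c hc
    have hTx := S.T_mem_tm hP hx
    have hmem : ((1 / 2 : ℝ) • x + (1 / 2 : ℝ) • T x) ∈ evn T := by
      rw [mem_evn, map_add, map_smul, map_smul, hT, add_comm]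
    refine ⟨⟨_, hmem⟩, ?_, ?_⟩
    · rw [tm_inc]
      exact S.cvx (inc w) hw k hx hTx (by norm_num) (by norm_num) (by norm_num)
    · show S.cl ((1 / 2 : ℝ) • x + (1 / 2 : ℝ) • T x) = c
      rw [map_add, map_smul, map_smul, hcl, hxc, ← add_smul]
      norm_num
  hkcone _ hw := hw.elim

/-- EVEN REACH, abstract form: every even positive triple is joined by segments of even positive
triples to one with the prescribed classes. -/
theorem Sys.even_reach (S : Sys X H) (T : X →ₗ[ℝ] X) (hT : ∀ x, T (T x) = x)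
    (hcl : ∀ x, S.cl (T x) = S.cl x) (hP : ∀ w ∈ S.P, (fun i => T (w i)) ∈ S.P)
    {w : Fin 3 → X} (hw : w ∈ S.P) (hev : ∀ i, T (w i) = w i) {cs : Fin 3 → H}
    (hcs : PosF S.B cs) (hgen : ∀ d ∈ S.R, S.B d (cs 0) ≠ 0)
    (hdet : 0 < (Matrix.of fun i j => S.B (S.cl (w i)) (cs j)).det) :
    ∃ w' ∈ S.P, (∀ i, T (w' i) = w' i) ∧
      Relation.ReflTransGen (fun u v => Seg S.P u v ∧ (∀ i, T (u i) = u i) ∧ ∀ i, T (v i) = v i)
        w w' ∧ (fun i => S.cl (w' i)) = cs := by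
  let w0 : Fin 3 → evn T := fun i => ⟨w i, mem_evn.2 (hev i)⟩
  have hw0 : w0 ∈ (S.even T hT hcl hP).P := hw
  obtain ⟨w', hw', h1, h2⟩ := (S.even T hT hcl hP).reach hw0 (cs := cs) hcs hgen hdet
  refine ⟨inc w', hw', fun i => mem_evn.1 (w' i).2, ?_, h2⟩
  have key : ∀ u v : Fin 3 → evn T, Relation.ReflTransGen (Seg (S.even T hT hcl hP).P) u v →
      Relation.ReflTransGen (fun u v => Seg S.P u v ∧ (∀ i, T (u i) = u i) ∧ ∀ i, T (v i) = v i)
        (inc u) (inc v) := by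
    intro u v h
    induction h with
    | refl => exact Relation.ReflTransGen.refl
    | tail _ h2 ih =>
      exact ih.tail ⟨seg_inc.1 h2, fun i => mem_evn.1 (Subtype.mem _),
        fun i => mem_evn.1 (Subtype.mem _)⟩
  exact key _ _ h1

end Crest.Agent.R235.Mv
end

-- ▼ part R235/T4RLem_510
section

/-!
Row 235 (S0364), helper510: lemmas on the REAL TORUS TYPE `T4R` (T4R_837):
congruence, countability of the integral classes, finite dimension, `b⁺ = 3`, `b₁ ≠ 0`,
`T4Type → T4R`.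
-/

set_option autoImplicit false
set_option maxSynthPendingDepth 3
set_option linter.unusedSectionVars false

open Set Function Filter MeasureTheory
open scoped Manifold ContDiff Topology

universe u

namespace Crest.Agent.R235.T4RLem_510

open Crest.Agent.R235 Crest.Agent.R240 Crest.Agent.R240.Ch Crest.Agent.R240.Int

noncomputable section

variable {M : Type u} [TopologicalSpace M] [T2Space M] [CompactSpace M]
  [ChartedSpace E4 M] [IsManifold 𝓘(ℝ, E4) ∞ M]

theorem isEx_wed_dF' {f : M → ℝ} (hf : SmoothF E4 f) {s : F1 E4 M} (hs : Closed1 s) :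
    IsEx (wedG (dF (E := E4) f) s) := by
  have h := dG_fmul1 hf hs.1
  have hz : dG s = 0 := by
    funext x
    exact hs.2 x _ (mem_chart_target E4 x)
  rw [hz] at h
  have h0 : fmul f (0 : F2 E4 M) = 0 := by
    funext x
    exact smul_zero _
  rw [h0, add_zero] at h
  rw [← h]
  exact isEx_dG (Smooth1.fmul hf hs.1)

theorem ip_of_pI {F G : Z2 M} (h : pI G = pI F) : ip G = ip F := by
  funext a b
  unfold ip
  rw [h]

theorem T4R_congr {F G : Z2 M} (h : pI G = pI F) : T4R G = T4R F := by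
  unfold T4R
  rw [h, ip_of_pI h]

theorem of_t4 {F : Z2 M} (hF : Vol (F.1.1 : F2 E4 M)) (h : T4Type F) : T4R F := by
  obtain ⟨f, g, h1, h2, h3, -, h4⟩ := BPlus_723.T4_hyp hF h
  obtain ⟨s, hs, hs', a, ha, hG, habs, hspan, -⟩ := h
  refine ⟨⟨s, hs, hs', a, ha, hG, ?_, hspan⟩, f, g, h1, h2, h3, h4⟩
  intro h0
  rw [h0] at habs
  simp at habs

/-- the integral classes are countable. -/
theorem cnt {F : Z2 M} (h : T4R F) : (HZ M).Countable := by
  obtain ⟨-, f, g, -, -, -, hZ⟩ := h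
  rw [hZ]
  refine (Set.countable_range (fun p : (Fin 3 → ℤ) × (Fin 3 → ℤ) =>
    ∑ i, (p.1 i : ℝ) • f i + ∑ i, (p.2 i : ℝ) • g i)).mono ?_
  rintro c ⟨m, n, rfl⟩
  exact ⟨(m, n), rfl⟩

/-- the second cohomology has dimension at most six. -/
theorem span6 {F : Z2 M} (h : T4R F) : ∃ Φ : (Fin 6 → ℝ) →ₗ[ℝ] H2 M, Function.Surjective Φ := by
  obtain ⟨⟨s, -, -, a, ha, -, -, hspan⟩, -⟩ := h
  have hanti : ∀ i j, cls (a j i) = - cls (a i j) := by
    intro i j
    rw [← map_neg]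
    congr 1
    apply Z2_ext
    intro x
    show at2 ((a j i).1.1 : F2 E4 M) x = - at2 ((a i j).1.1 : F2 E4 M) x
    rw [ha, ha, BPlus_723.wedG_anti]
    rfl
  have hdiag : ∀ i, cls (a i i) = 0 := by
    intro i
    have h1 : cls (a i i) = - cls (a i i) := hanti i i
    have h2 : (2 : ℝ) • cls (a i i) = 0 := by
      rw [two_smul]
      nth_rewrite 1 [h1]
      exact neg_add_cancel _
    calc cls (a i i) = (1 / 2 : ℝ) • ((2 : ℝ) • cls (a i i)) := by rw [smul_smul]; norm_num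
      _ = 0 := by rw [h2, smul_zero]
  refine ⟨Fintype.linearCombination ℝ
    (![cls (a 0 1), cls (a 0 2), cls (a 0 3), cls (a 1 2), cls (a 1 3), cls (a 2 3)] :
      Fin 6 → H2 M), fun c => ?_⟩
  obtain ⟨n, hn⟩ := hspan c
  refine ⟨![n 0 1 - n 1 0, n 0 2 - n 2 0, n 0 3 - n 3 0, n 1 2 - n 2 1, n 1 3 - n 3 1,
    n 2 3 - n 3 2], ?_⟩
  rw [hn, Fintype.linearCombination_apply]
  simp only [Fin.sum_univ_six, Fin.sum_univ_four, Matrix.cons_val_zero, Matrix.cons_val_one,
    Matrix.cons_val, hdiag, hanti 0 1, hanti 0 2, hanti 0 3, hanti 1 2, hanti 1 3, hanti 2 3]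
  module

theorem fin {F : Z2 M} (h : T4R F) : Module.Finite ℝ (H2 M) := by
  obtain ⟨Φ, hΦ⟩ := span6 h
  exact Module.Finite.of_surjective Φ hΦ

theorem finrank_le {F : Z2 M} (h : T4R F) : Module.finrank ℝ (H2 M) ≤ 6 := by
  obtain ⟨Φ, hΦ⟩ := span6 h
  have h1 := LinearMap.finrank_le_finrank_of_surjective (f := Φ) hΦ
  rwa [Module.finrank_fin_fun] at h1

/-- the orthogonal complement of a positive frame is negative definite. -/
theorem neg {F : Z2 M} (hF : Vol (F.1.1 : F2 E4 M)) (h : T4R F) (c : Fin 3 → H2 M)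
    (hc : PosCls F c) (x : H2 M) (hx : ∀ i, ip F x (c i) = 0) (h0 : x ≠ 0) : ip F x x < 0 := by
  have hfd := fin h
  have hdim := finrank_le h
  obtain ⟨-, f, g, hff, hgg, hfg, -⟩ := h
  let Φ : ((Fin 3 → ℝ) × (Fin 3 → ℝ)) →ₗ[ℝ] H2 M :=
    LinearMap.coprod (Fintype.linearCombination ℝ f) (Fintype.linearCombination ℝ g)
  have hΦ : ∀ p, Φ p = ∑ i, p.1 i • f i + ∑ i, p.2 i • g i := by
    intro p
    simp [Φ, Fintype.linearCombination_apply]
  refine LatS_723.neg_of_sylvester (N := Fin 3 → ℝ) (ipB F hF)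
    (fun x y => ip_comm F x y) (Φ ∘ₗ LinearMap.prod LinearMap.id (-LinearMap.id)) ?_ (k := 3) ?_
    c hc x hx h0
  · intro n hn
    have h1 : (Φ ∘ₗ LinearMap.prod LinearMap.id (-LinearMap.id)) n =
        ∑ i, n i • f i + ∑ i, (-n i) • g i := by
      rw [LinearMap.comp_apply, hΦ]
      rfl
    rw [h1, ipB_apply, BPlus_723.hyp_pair hF hff hgg hfg]
    obtain ⟨i, hi⟩ : ∃ i, n i ≠ 0 := by
      by_contra hcon
      push Not at hcon
      exact hn (funext hcon)
    have h7 : ∀ i, n i * - n i + - n i * n i ≤ 0 := fun i => by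
      nlinarith [sq_nonneg (n i)]
    refine Finset.sum_neg' (fun i _ => h7 i) ⟨i, Finset.mem_univ _, ?_⟩
    have := mul_self_pos.2 hi
    nlinarith
  · rw [Module.finrank_fin_fun]
    exact hdim




/-- torus type manifolds have `b₁ ≠ 0`. -/
theorem not_b1zero {F : Z2 M} (hF : Vol (F.1.1 : F2 E4 M)) (h : T4R F) : ¬ B1Zero M := by
  intro hB
  obtain ⟨⟨s, hs, -, a, ha, -, h1, -⟩, -⟩ := h
  obtain ⟨f, hf, hsf⟩ := hB (s 0) (hs 0)
  have hex : IsEx ((a 0 1).1.1 : F2 E4 M) := by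
    rw [ha, hsf]
    exact isEx_wed_dF' hf (hs 1)
  exact h1 (pI_exact_left hF hex _)



end

end Crest.Agent.R235.T4RLem_510
end

-- ▼ part R235/EvenR_510
section

/-!
Row 235 (S0364), node (C) of #1826 (EVEN REACH), part on the manifold, helper510.
-/

set_option autoImplicit false
set_option maxSynthPendingDepth 3
set_option linter.unusedSectionVars false

open Set Function Filter MeasureTheory
open scoped Manifold ContDiff Topology

universe u

namespace Crest.Agent.R235.TorMin_510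

open Crest.Agent.R235 Crest.Agent.R240 Crest.Agent.R240.Ch Crest.Agent.R240.Int

noncomputable section

section Self

variable {M : Type u} [TopologicalSpace M] [ChartedSpace E4 M] [IsManifold 𝓘(ℝ, E4) ∞ M]

theorem val_tb_pull {τ : M → M} (hτ : ContMDiff 𝓘(ℝ, E4) 𝓘(ℝ, E4) ∞ τ) (b : Z2 M) (x : M) :
    val (tb hτ b) x = pull (dself τ x) (val b (τ x)) := by
  ext u v
  rw [pull_apply]
  rfl

theorem W_tb {τ : M → M} (hτ : ContMDiff 𝓘(ℝ, E4) 𝓘(ℝ, E4) ∞ τ) (b c : Z2 M) (x : M) :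
    W (val (tb hτ b) x) (val (tb hτ c) x) =
      LinearMap.det (dself τ x : E4 →ₗ[ℝ] E4) * W (val b (τ x)) (val c (τ x)) := by
  rw [val_tb_pull, val_tb_pull, W_pull (val_alt b _) (val_alt c _)]

theorem det_dself_ne {τ : M → M} (hτ : ContMDiff 𝓘(ℝ, E4) 𝓘(ℝ, E4) ∞ τ)
    (hi : ∀ x, τ (τ x) = x) (x : M) : LinearMap.det (dself τ x : E4 →ₗ[ℝ] E4) ≠ 0 := by
  intro h
  have h1 : (dself τ (τ x) : E4 →ₗ[ℝ] E4) ∘ₗ (dself τ x : E4 →ₗ[ℝ] E4) = LinearMap.id := by
    ext v : 1
    exact dself_dself hτ hi x v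
  have h2 := congrArg LinearMap.det h1
  rw [LinearMap.det_comp, h, mul_zero, LinearMap.det_id] at h2
  exact zero_ne_one h2

/-- the pull back of a positive triple by an involution is positive. -/
theorem pos3_tb {τ : M → M} (hτ : ContMDiff 𝓘(ℝ, E4) 𝓘(ℝ, E4) ∞ τ)
    (hi : ∀ x, τ (τ x) = x) {w : Trip M} (hw : Pos3 w) : Pos3 (fun i => tb hτ (w i)) := by
  intro x c hc
  have e : ∑ i, c i • val (tb hτ (w i)) x = val (tb hτ (∑ i, c i • w i)) x := by
    rw [← val_comb, map_sum]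
    simp only [map_smul]
  rw [e, W_tb]
  refine mul_ne_zero (det_dself_ne hτ hi x) ?_
  rw [val_comb]
  exact hw (τ x) c hc

theorem tb_tb {τ : M → M} (hτ : ContMDiff 𝓘(ℝ, E4) 𝓘(ℝ, E4) ∞ τ)
    (hi : ∀ x, τ (τ x) = x) (b : Z2 M) : tb hτ (tb hτ b) = b := by
  apply Z2_ext
  intro x
  ext u v
  rw [val_tb, val_tb, dself_dself hτ hi, dself_dself hτ hi, hi]

/-- a triple is preserved by the involution iff its forms are even. -/
theorem invol_iff {τ : M → M} (hτ : ContMDiff 𝓘(ℝ, E4) 𝓘(ℝ, E4) ∞ τ)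
    (hi : ∀ x, τ (τ x) = x) {w : Trip M} : Invol w τ ↔ ∀ i, tb hτ (w i) = w i := by
  constructor
  · intro h i
    apply Z2_ext
    intro x
    ext u v
    rw [val_tb, h.pres]
  · intro h
    refine ⟨hτ, hi, fun i x u v => ?_⟩
    rw [← val_tb hτ, h i]

end Self

section Closed

variable {M : Type u} [TopologicalSpace M] [T2Space M] [CompactSpace M]
  [ChartedSpace E4 M] [IsManifold 𝓘(ℝ, E4) ∞ M]



/-- the orientation is preserved by an involution which preserves `F`. -/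
theorem po_tb {F : Z2 M} {τ : M → M} (hs : ContMDiff 𝓘(ℝ, E4) 𝓘(ℝ, E4) ∞ τ)
    (hinv : ∀ x, τ (τ x) = x) (hFe : tb hs F = F) {u : Trip M}
    (hu : Pos3 u ∧ SO F (u 0)) : Pos3 (fun i => tb hs (u i)) ∧ SO F (tb hs (u 0)) := by
  refine ⟨pos3_tb hs hinv hu.1, fun x => ?_⟩
  have h1 : W (val F x) (val F x) =
      LinearMap.det (dself τ x : E4 →ₗ[ℝ] E4) * W (val F (τ x)) (val F (τ x)) := by
    rw [← W_tb hs, hFe]
  rw [h1, W_tb]
  have h2 := hu.2 (τ x)
  have h3 : 0 < LinearMap.det (dself τ x : E4 →ₗ[ℝ] E4) ^ 2 := by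
    have := det_dself_ne hs hinv x
    positivity
  nlinarith [mul_pos h3 h2]

end Closed

section Inst

variable {M : Type u} [TopologicalSpace M] [T2Space M] [CompactSpace M] [ConnectedSpace M]
  [ChartedSpace E4 M] [IsManifold 𝓘(ℝ, E4) ∞ M]

/-- (SWB) for torus type. -/
theorem swb0 {F : Z2 M} (hF : Vol (F.1.1 : F2 E4 M)) {n : ℕ} (E : H2 M ≃ₗ[ℝ] (Fin n → ℝ))
    (hT : T4R F) {w : Trip M} (hw : w ∈ PO F) :
    ∀ d ∈ E '' Dg F, ∃ i, Bt F hF E d (E (clw w i)) ≠ 0 := by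
  rintro _ ⟨e, he, rfl⟩
  by_contra hcon
  push Not at hcon
  have h0 : ∀ i, ip F e (cls (w i)) = 0 := by
    intro i
    have h1 := hcon i
    rw [Bt_apply, E.symm_apply_apply, E.symm_apply_apply] at h1
    exact h1
  have hneg : ip F e e < 0 := by
    have hpc := BPlus_723.posCls_of_pos3 hw.1
    rw [PosCls_congr (PO.ip_eq hF hw)] at hpc
    exact T4RLem_510.neg hF hT _ hpc e h0 he.2.1
  rcases he.2.2 with h1 | h1
  · exact absurd hneg (not_lt.2 h1)
  · exact T4RLem_510.not_b1zero hF hT h1.1.1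

/-- the system of 844 without hyperkaehler triples (no `HKCONE` needed). -/
def sys0 (F : Z2 M) (hF : Vol (F.1.1 : F2 E4 M)) {n : ℕ} (E : H2 M ≃ₗ[ℝ] (Fin n → ℝ))
    (hT : T4R F) (hex : ∀ w : Trip M, Pos3 w → ∃ J, IsJ w J)
    (hcone : ∀ w : Trip M, Pos3 w → ∀ (k : Fin 3) (x : H2 M), CCond (w 0) (clw w) k x →
      ∃ a : Z2 M, cls a = x ∧ Seg w (update w k a)) :
    Mv.Sys (Z2 M) (Fin n → ℝ) where
  P := PO F
  P_act := fun g w hg hw => so_linear hw hg
  cl := clt E
  B := Bt F hF E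
  B_symm := fun a b => ip_comm F _ _
  R := E '' Dg F
  R_cnt := ((T4RLem_510.cnt hT).mono fun e he => he.1).image _
  Hy := ∅
  Hy_sub := empty_subset _
  Hy_act := fun _ _ _ h => h.elim
  cvx := by
    intro w hw k
    have : Mv.Tm (PO F) w k = {a : Z2 M | Seg w (update w k a)} := by
      ext a; exact tm_iff hw k a
    rw [this]
    exact convex_tame hw.1 k hex
  opn := isOpen_PO F
  pos := fun w hw => pos_of hF E hw
  swb := fun _ hw => swb0 hF E hT hw
  cone := by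
    intro w hw k c hc
    obtain ⟨a, ha, hs⟩ := hcone w hw.1 k (E.symm c) (ccond_of hF E hw hc)
    exact ⟨a, (tm_iff hw k a).2 hs, by rw [clt_apply, ha, E.apply_symm_apply]⟩
  hkcone := fun _ h => h.elim

/-- the steps of the even paths. -/
def EvSeg (τ : M → M) (u v : Trip M) : Prop := Seg u v ∧ Invol u τ ∧ Invol v τ


theorem even_reach_aux {F : Z2 M} (hF : Vol (F.1.1 : F2 E4 M)) {n : ℕ}
    (E : H2 M ≃ₗ[ℝ] (Fin n → ℝ)) (hT : T4R F)
    (hex : ∀ w : Trip M, Pos3 w → ∃ J, IsJ w J)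
    (hcone : ∀ w : Trip M, Pos3 w → ∀ (k : Fin 3) (x : H2 M), CCond (w 0) (clw w) k x →
      ∃ a : Z2 M, cls a = x ∧ Seg w (update w k a))
    {τ : M → M} (hs : ContMDiff 𝓘(ℝ, E4) 𝓘(ℝ, E4) ∞ τ) (hinv : ∀ x, τ (τ x) = x)
    (hm : MinusOne τ) (hFe : tb hs F = F)
    {w : Trip M} (hw : w ∈ PO F) (hev : ∀ i, tb hs (w i) = w i) {b : Fin 3 → H2 M}
    (hb : PosCls F b) (hgen : ∀ e ∈ HZ M, e ≠ 0 → ip F e (b 0) ≠ 0)
    (hdet : 0 < (Matrix.of fun i j => ip F (b i) (cls (w j))).det) :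
    ∃ w' : Trip M, w' ∈ PO F ∧ (∀ i, tb hs (w' i) = w' i) ∧
      Relation.ReflTransGen (fun u v : Trip M => Mv.Seg (PO F) u v ∧ (∀ i, tb hs (u i) = u i) ∧
        ∀ i, tb hs (v i) = v i) w w' ∧ clw w' = b := by
  have h1 : Mv.PosF (Bt F hF E) (fun i => E (b i)) := by
    intro a ha
    have h1 := hb a ha
    rw [Bt_apply, symm_comb]
    exact h1
  have h2 : ∀ d ∈ E '' Dg F, Bt F hF E d (E (b 0)) ≠ 0 := by
    rintro _ ⟨e, he, rfl⟩
    rw [Bt_apply, E.symm_apply_apply, E.symm_apply_apply]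
    exact hgen e he.1 he.2.1
  have h3 : 0 < (Matrix.of fun i j => Bt F hF E (clt E (w i)) (E (b j))).det := by
    rw [← Matrix.det_transpose]
    have e : (Matrix.of fun i j => Bt F hF E (clt E (w i)) (E (b j))).transpose =
        Matrix.of fun i j => ip F (b i) (cls (w j)) := by
      ext i j
      rw [Matrix.transpose_apply, Matrix.of_apply, Matrix.of_apply, Bt_apply, clt_apply,
        E.symm_apply_apply, E.symm_apply_apply, ip_comm]
    rw [e]
    exact hdet
  have h4 : ∀ x : Z2 M, (sys0 F hF E hT hex hcone).cl (tb hs x) =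
      (sys0 F hF E hT hex hcone).cl x := by
    intro x
    show clt E (tb hs x) = clt E x
    rw [clt_apply, clt_apply, cls_tb hT hs hm]
  have h5 : ∀ u ∈ (sys0 F hF E hT hex hcone).P,
      (fun i => tb hs (u i)) ∈ (sys0 F hF E hT hex hcone).P :=
    fun u hu => po_tb hs hinv hFe hu
  obtain ⟨w', hw', hev', hpath, hcl⟩ :=
    (sys0 F hF E hT hex hcone).even_reach (tb hs)
      (tb_tb hs hinv) h4 h5 (w := w) hw hev (cs := fun i => E (b i)) h1 h2 h3
  exact ⟨w', hw', hev', hpath, funext fun i => E.injective (congrFun hcl i)⟩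

/-- EVEN REACH: an even positive triple on a torus-type manifold is joined, through segments of even
positive triples, to an even positive triple with prescribed generic classes. -/
theorem even_reach (hex : EXJ.{u}) (hcone : CONE.{u}) {w : Trip M} (hw : Pos3 w)
    (hT : T4R (w 0)) {τ : M → M} (hi : Invol w τ) (hm : MinusOne τ) {b : Fin 3 → H2 M}
    (hb : Frame w b) (hgen : ∀ e ∈ HZ M, e ≠ 0 → ip (w 0) e (b 0) ≠ 0) :
    ∃ w' : Trip M, w' ∈ PO (w 0) ∧ Invol w' τ ∧ Relation.ReflTransGen (EvSeg τ) w w' ∧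
      clw w' = b := by
  have hF : Vol ((w 0).1.1 : F2 E4 M) := hw.vol 0
  have hfin : Module.Finite ℝ (H2 M) := T4RLem_510.fin hT
  have hev := (invol_iff hi.smooth hi.inv).1 hi
  obtain ⟨w', hw', hev', hpath, hcl⟩ := even_reach_aux hF (Module.finBasis ℝ (H2 M)).equivFun hT
    (hex M) (hcone M) hi.smooth hi.inv hm (hev 0) (w := w) ⟨hw, hw.so 0 0⟩ hev
    ((BPlus_723.posCls_iff hF b).2 hb.pos) hgen hb.ori
  refine ⟨w', hw', (invol_iff hi.smooth hi.inv).2 hev', ?_, hcl⟩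
  refine Relation.ReflTransGen.mono (fun u v h => ?_) _ _ hpath
  exact ⟨(mvSeg_iff h.1.left).1 h.1, (invol_iff hi.smooth hi.inv).2 h.2.1,
    (invol_iff hi.smooth hi.inv).2 h.2.2⟩

/-- EVEN REACH to elliptic position: from an even positive triple on a torus-type manifold one
reaches, through segments of even positive triples, an even positive triple in elliptic position. -/
theorem even_torpos (hex : EXJ.{u}) (hcone : CONE.{u}) (hLT : LATTR.{u}) {w : Trip M}
    (hw : Pos3 w) (hT : T4R (w 0)) {τ : M → M} (hi : Invol w τ) (hm : MinusOne τ) :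
    ∃ (w' : Trip M) (e : H2 M), w' ∈ PO (w 0) ∧ Invol w' τ ∧ Relation.ReflTransGen (EvSeg τ) w w' ∧
      T4R (w' 0) ∧ TorPos (w' 0) e (clw w') := by
  obtain ⟨e, b, hb, hd⟩ := hLT M w hw hT
  obtain ⟨w', hw', hi', hpath, hcl⟩ := even_reach hex hcone hw hT hi hm hb hd.gen
  have hF : Vol ((w 0).1.1 : F2 E4 M) := hw.vol 0
  refine ⟨w', e, hw', hi', hpath, ?_, ?_⟩
  · rw [T4RLem_510.T4R_congr (hw'.2.pI_eq hF (hw'.1.vol 0))]; exact hT
  · rw [hcl]; exact TorPos_congr (PO.ip_eq hF hw') hd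

end Inst

end

end Crest.Agent.R235.TorMin_510
end

-- ▼ part R235/KumEv_510
section

/-!
Row 235 (S0364), package KUM, node EVMOVE (helper152), by helper510:
`EXJ, CONE, LATTR ⇒ EVMOVE`.
-/

set_option autoImplicit false
set_option maxSynthPendingDepth 3
set_option linter.unusedSectionVars false

open Set Function Filter MeasureTheory
open scoped Manifold ContDiff Topology

universe u

namespace Crest.Agent.R235.TorMin_510

open Crest.Agent.R235 Crest.Agent.R240 Crest.Agent.R240.Ch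

section Basic

variable {M : Type u} [TopologicalSpace M] [T2Space M] [CompactSpace M]
  [ChartedSpace E4 M] [IsManifold 𝓘(ℝ, E4) ∞ M]



theorem ple_of_evSeg {τ : M → M} {u v : Trip M} (h : Relation.ReflTransGen (EvSeg τ) u v) :
    PLE τ u v :=
  Relation.ReflTransGen.mono (fun _ _ h => ⟨h.1, h.2.1.pres, h.2.2.pres⟩) _ _ h

end Basic

/-- EVMOVE. -/
theorem evmove (hex : EXJ.{u}) (hcone : CONE.{u}) (hLT : LATTR.{u}) : EVMOVE.{u} := by
  intro X _ _ _ _ _ _ w τ hw hT hi hm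
  have hT' : T4R (w 0) := by
    first
      | exact hT
      | exact T4RLem_510.of_t4 (hw.vol 0) hT
  obtain ⟨w', e, h1, h2, h3, h4, h5⟩ := even_torpos hex hcone hLT hw hT' hi hm
  refine ⟨e, w', h5, ple_of_evSeg h3, h1.1, h2.pres, ?_⟩
  first
    | exact h4
    | (rw [T4Type_congr (h1.2.pI_eq (hw.vol 0) (h1.1.vol 0))]; exact hT)

end Crest.Agent.R235.TorMin_510
end

-- ▼ part R235/KumEvt_152
section

/-!
Row 235 (S0364), PACKAGE KUM (helper152): node `EVT`
`EVMOVE, TORUSR, ATLAS, INTT, COFRAMEI, FLATC ⇒ EVT`.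
-/

set_option autoImplicit false
set_option maxSynthPendingDepth 3

open Set Function Filter MeasureTheory
open scoped Manifold ContDiff Topology

universe u

namespace Crest.Agent.R235.KumEvt_152

open Crest.Agent.R240 Crest.Agent.R240.Ch Crest.Agent.R235

noncomputable section

section Basic

variable {M : Type u} [TopologicalSpace M] [T2Space M] [CompactSpace M]
  [ChartedSpace E4 M] [IsManifold 𝓘(ℝ, E4) ∞ M]

omit [T2Space M] [CompactSpace M] [IsManifold 𝓘(ℝ, E4) ∞ M] in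
/-- the wedge of odd one-forms is even. -/
theorem wed_even {τ : M → M} {s t : F1 E4 M} (hs : Odd1 τ s) (ht : Odd1 τ t) (x : M) (u v : E4) :
    wed (at1 s (τ x)) (at1 t (τ x)) (dself τ x u) (dself τ x v) =
      wed (at1 s x) (at1 t x) u v := by
  simp only [wed_apply, hs x u, hs x v, ht x u, ht x v]
  ring

/-- the coframe `(l 0, l 1, a 0, a 1)`. -/
def fr (l a : Fin 2 → F1 E4 M) : Fin 4 → F1 E4 M := ![l 0, l 1, a 0, a 1]

end Basic

/-- EVT. -/
theorem evt_of (hMv : EVMOVE.{u}) (hTo : TORUSR.{u}) (hA : ATLAS.{u}) (hI : INTT.{u})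
    (hCo : COFRAMEI.{u}) (hF : FLATC.{u}) : EVT.{u} := by
  intro X _ _ _ _ _ _ w τ hw hT hi hm
  obtain ⟨e, w1, hTP, hP1, hw1, hE1, hT1⟩ := hMv X w τ hw hT hi hm
  obtain ⟨k, hk, hne⟩ := hTo X w1 e hw1 hT1 hTP
  obtain ⟨T, hTA⟩ := hA X w1 e hw1 hT1 hTP k hk hne
  have hV : Int.Vol ((w1 0).1.1 : F2 E4 X) := hw1.vol 0
  have hi1 : Invol w1 τ := ⟨hi.smooth, hi.inv, hE1⟩
  have hff : ip (w1 0) ((k : ℝ) • e) ((k : ℝ) • e) = 0 := by
    rw [ip_smul_left hV, ip_smul_right hV, hTP.iso, mul_zero, mul_zero]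
  obtain ⟨l, a, hC, hol, hoa⟩ := hCo X w1 _ hw1 hT1 T hTA τ hi1 hm
    (TorMin_510.leaves hI hw1 hT1 hi1 hm hff hTA)
  obtain ⟨w2, w', hs1, hs2, hHK, ⟨K, h21, h22, h20⟩, K', c', h0', h1', s', hs', h2'⟩ :=
    hF X w1 hw1 l a hC
  have hE2 : EvenT τ w2 := by
    intro i x u v
    fin_cases i
    · show val (w2 0) (τ x) (dself τ x u) (dself τ x v) = val (w2 0) x u v
      rw [h20, h20]
      show val (w1 0) (τ x) (dself τ x u) (dself τ x v) +
        K * wed (at1 (l 0) (τ x)) (at1 (l 1) (τ x)) (dself τ x u) (dself τ x v) =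
        val (w1 0) x u v + K * wed (at1 (l 0) x) (at1 (l 1) x) u v
      rw [hE1 0 x u v, wed_even (hol 0) (hol 1)]
    · show val (w2 1) (τ x) (dself τ x u) (dself τ x v) = val (w2 1) x u v
      rw [h21]
      exact hE1 1 x u v
    · show val (w2 2) (τ x) (dself τ x u) (dself τ x v) = val (w2 2) x u v
      rw [h22]
      exact hE1 2 x u v
  have hE' : EvenT τ w' := by
    intro i x u v
    fin_cases i
    · show val (w' 0) (τ x) (dself τ x u) (dself τ x v) = val (w' 0) x u v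
      rw [h0', h0']
      show K' * wed (at1 (l 0) (τ x)) (at1 (l 1) (τ x)) (dself τ x u) (dself τ x v) +
        c' * wed (at1 (a 0) (τ x)) (at1 (a 1) (τ x)) (dself τ x u) (dself τ x v) =
        K' * wed (at1 (l 0) x) (at1 (l 1) x) u v + c' * wed (at1 (a 0) x) (at1 (a 1) x) u v
      rw [wed_even (hol 0) (hol 1), wed_even (hoa 0) (hoa 1)]
    · show val (w' 1) (τ x) (dself τ x u) (dself τ x v) = val (w' 1) x u v
      rw [h1', h1']
      show wed (at1 (a 0) (τ x)) (at1 (l 0) (τ x)) (dself τ x u) (dself τ x v) +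
        wed (at1 (a 1) (τ x)) (at1 (l 1) (τ x)) (dself τ x u) (dself τ x v) =
        wed (at1 (a 0) x) (at1 (l 0) x) u v + wed (at1 (a 1) x) (at1 (l 1) x) u v
      rw [wed_even (hoa 0) (hol 0), wed_even (hoa 1) (hol 1)]
    · show val (w' 2) (τ x) (dself τ x u) (dself τ x v) = val (w' 2) x u v
      rw [h2', h2']
      show s' * (wed (at1 (a 1) (τ x)) (at1 (l 0) (τ x)) (dself τ x u) (dself τ x v) -
        wed (at1 (a 0) (τ x)) (at1 (l 1) (τ x)) (dself τ x u) (dself τ x v)) =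
        s' * (wed (at1 (a 1) x) (at1 (l 0) x) u v - wed (at1 (a 0) x) (at1 (l 1) x) u v)
      rw [wed_even (hoa 1) (hol 0), wed_even (hoa 0) (hol 1)]
  refine ⟨w', fr l a, ?_, hs2.right, hE', ⟨?_, ?_, ?_⟩, ?_⟩
  · exact (hP1.tail ⟨hs1, hE1, hE2⟩).tail ⟨hs2, hE2, hE'⟩
  · intro i
    fin_cases i
    · exact hC.cl 0
    · exact hC.cl 1
    · exact hC.ca 0
    · exact hC.ca 1
  · intro x v hv
    refine hC.ind x v (fun k => ?_) fun k => ?_
    · fin_cases k
      · exact hv 0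
      · exact hv 1
    · fin_cases k
      · exact hv 2
      · exact hv 3
  · refine ⟨![fun i j => if i = 0 ∧ j = 1 then K' else if i = 2 ∧ j = 3 then c' else 0,
      fun i j => if i = 2 ∧ j = 0 then 1 else if i = 3 ∧ j = 1 then 1 else 0,
      fun i j => if i = 3 ∧ j = 0 then s' else if i = 2 ∧ j = 1 then -s' else 0], ?_⟩
    intro k x
    fin_cases k
    · show val (w' 0) x = _
      rw [h0']
      simp [Fin.sum_univ_four, fr]
    · show val (w' 1) x = _
      rw [h1']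
      simp [Fin.sum_univ_four, fr]
    · show val (w' 2) x = _
      rw [h2']
      simp [Fin.sum_univ_four, fr]
      module
  · intro i
    fin_cases i
    · exact hol 0
    · exact hol 1
    · exact hoa 0
    · exact hoa 1

/-- EVT from the external nodes. -/
theorem evt_of' (hex : EXJ.{u}) (hcone : CONE.{u}) (hLT : LATTR.{u}) (hTo : TORUSR.{u})
    (hA : ATLAS.{u}) (hI : INTT.{u}) : EVT.{u} :=
  evt_of (TorMin_510.evmove hex hcone hLT) hTo hA hI FibTop_129.coframei TorFlat_68.flatc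

end

end Crest.Agent.R235.KumEvt_152
end

-- ▼ part R235/Curves_489
section

/-!
Row 235 (S0364), helper489: THE CURVES CHAIN, proofs:
`CUR3, REGC, GLOB ⟹ JDECD, T2SD ⟹ JDEC, T2S`.
-/

set_option autoImplicit false
set_option maxSynthPendingDepth 3
set_option linter.unusedSectionVars false

open Set Function Filter MeasureTheory Metric
open scoped Manifold ContDiff Topology ENNReal

universe u

namespace Crest.Agent.R235.Curves_489

open Crest.Agent.R240 Crest.Agent.R240.Ch Crest.Agent.R235 Crest.Agent.R235.T1_195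
  Crest.Agent.R235.Glob_370 Crest.Agent.R235.DenM_4

noncomputable section

section

variable {M : Type u} [MetricSpace M] [CompactSpace M] [ChartedSpace E4 M]
    [IsManifold 𝓘(ℝ, E4) ∞ M] [MeasurableSpace M] [BorelSpace M]

/-! ### comparison of trace measures -/

/-- smooth cut-off functions between a closed and an open set. -/
theorem exists_cutKU {K U : Set M} (hK : IsClosed K) (hU : IsOpen U) (hKU : K ⊆ U) :
    ∃ χ : M → ℝ, SmoothF E4 χ ∧ (∀ x, 0 ≤ χ x) ∧ (∀ x, χ x ≤ 1) ∧ (∀ x ∈ K, χ x = 1) ∧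
      ∀ x ∉ U, χ x = 0 := by
  obtain ⟨f, h0, h1, hf⟩ := exists_contMDiffMap_zero_one_of_isClosed (n := (⊤ : ℕ∞)) 𝓘(ℝ, E4) (M := M)
    hU.isClosed_compl hK (by
      rw [disjoint_left]
      intro x hx hxK
      exact hx (hKU hxK))
  exact ⟨f, (smoothF_iff _).1 f.contMDiff, fun x => (hf x).1, fun x => (hf x).2,
    fun x hx => h1 hx, fun x hx => h0 hx⟩

/-- absolute continuity from smooth test functions. -/
theorem ac_of_smooth {s s' : Measure M} [IsFiniteMeasure s] [IsFiniteMeasure s'] {C : ℝ}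
    (hC : 0 < C) (h : ∀ f : M → ℝ, SmoothF E4 f → (∀ x, 0 ≤ f x) →
      ∫ x, f x ∂s ≤ C * ∫ x, f x ∂s') : s ≪ s' := by
  refine Measure.AbsolutelyContinuous.mk fun A hA hA0 => ?_
  by_contra hcon
  have hpos : 0 < s A := pos_iff_ne_zero.2 hcon
  obtain ⟨K, hKA, hK, hK0⟩ := hA.exists_lt_isClosed_of_ne_top (measure_ne_top s A) hpos
  have hKr : 0 < s.real K := ENNReal.toReal_pos hK0.ne' (measure_ne_top _ _)
  have hK' : s' K < ENNReal.ofReal (s.real K / C) := by
    rw [measure_mono_null hKA hA0]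
    exact ENNReal.ofReal_pos.2 (by positivity)
  obtain ⟨U, hKU, hU, hUs⟩ := K.exists_isOpen_lt_of_lt _ hK'
  obtain ⟨χ, hχ, h0, h1, hχ1, hχ0⟩ := exists_cutKU hK hU hKU
  have e1 : s.real K ≤ ∫ x, χ x ∂s := Limt.le_int hχ h0 hK.measurableSet hχ1
  have e2 : ∫ x, χ x ∂s' ≤ s'.real U := Limt.int_le hχ h1 hU.measurableSet hχ0
  have e3 := h χ hχ h0
  have e4 : s'.real U < s.real K / C := by
    have := (ENNReal.lt_ofReal_iff_toReal_lt (measure_ne_top s' U)).1 hUs
    exact this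
  rw [lt_div_iff₀ hC] at e4
  have e5 : C * ∫ x, χ x ∂s' ≤ C * s'.real U := by gcongr
  linarith

/-- trace measures of the same current for two data with the same `J`. -/
theorem cur_ac {D D' : Dat M} (h : D'.J = D.J) {S : X2 M →ₗ[ℝ] ℝ} {s s' : Measure M}
    (hs : Cur D S s) (hs' : Cur D' S s') : s ≪ s' := by
  obtain ⟨C, hC, h1⟩ := Limt.comp h.symm
  have := hs.fin
  have := hs'.fin
  exact ac_of_smooth hC (h1 S s' s hs' hs)

/-- zero density does not depend on the data. -/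
theorem zeroDens_of {D D' : Dat M} (h : D'.J = D.J) {S : X2 M →ₗ[ℝ] ℝ} {s s' : Measure M}
    (hs : Cur D S s) (hs' : Cur D' S s') (hz : Dat.ZeroDens s') : Dat.ZeroDens s := by
  obtain ⟨C, hC, h1⟩ := Limt.comp_ball h.symm
  have h2 : ∀ᵐ x ∂s, Tendsto (fun r : ℝ => s'.real (ball x r) / r ^ 2) (𝓝[>] 0) (𝓝 0) :=
    (cur_ac h hs hs').ae_le hz
  filter_upwards [h2] with x hx
  have h3 : Tendsto (fun r : ℝ => C * 4 * (s'.real (ball x (2 * r)) / (2 * r) ^ 2)) (𝓝[>] 0)
      (𝓝 (C * 4 * 0)) := by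
    refine Tendsto.const_mul _ (hx.comp ?_)
    refine tendsto_nhdsWithin_iff.2 ⟨?_, ?_⟩
    · have : Tendsto (fun r : ℝ => 2 * r) (𝓝 0) (𝓝 (2 * 0)) := tendsto_id.const_mul 2
      rw [mul_zero] at this
      exact this.mono_left nhdsWithin_le_nhds
    · filter_upwards [self_mem_nhdsWithin] with r hr
      have hr' : (0 : ℝ) < r := hr
      exact mul_pos two_pos hr'
  rw [mul_zero] at h3
  refine tendsto_of_tendsto_of_tendsto_of_le_of_le' tendsto_const_nhds h3 ?_ ?_
  · filter_upwards [self_mem_nhdsWithin] with r hr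
    have hr' : (0 : ℝ) < r := hr
    positivity
  · filter_upwards [self_mem_nhdsWithin] with r hr
    have hr' : (0 : ℝ) < r := hr
    have h4 := h1 S s' s hs' hs x r (2 * r) (by linarith)
    have h5 : s.real (ball x r) / r ^ 2 ≤ C * s'.real (ball x (2 * r)) / r ^ 2 := by gcongr
    refine h5.trans (le_of_eq ?_)
    field_simp
    ring

/-! ### balls and ellipsoids, uniform in the centre -/


theorem gball_mono (D : Dat M) (x : M) {r r' : ℝ} (h0 : 0 ≤ r) (h : r ≤ r') :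
    gball D x r ⊆ gball D x r' := fun _ hy =>
  ⟨hy.1, hy.2.trans_le (pow_le_pow_left₀ h0 h 2)⟩

theorem unif_gball (D : Dat M) : ∃ c : ℝ, 0 < c ∧ ∀ x : M, ∀ᶠ r in 𝓝[>] (0 : ℝ),
    ball x r ⊆ gball D x (c * r) := by
  have key := (isCompact_univ (X := M)).induction_on
    (p := fun S : Set M => ∃ c : ℝ, 0 < c ∧ ∀ x ∈ S, ∀ᶠ r in 𝓝[>] (0 : ℝ),
      ball x r ⊆ gball D x (c * r)) ⟨1, one_pos, by simp⟩ ?_ ?_ ?_
  · obtain ⟨c, hc, h⟩ := key
    exact ⟨c, hc, fun x => h x (mem_univ x)⟩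
  · rintro S T hST ⟨c, hc, h⟩
    exact ⟨c, hc, fun x hx => h x (hST hx)⟩
  · rintro S T ⟨c, hc, h⟩ ⟨c', hc', h'⟩
    refine ⟨max c c', lt_max_of_lt_left hc, fun x hx => ?_⟩
    rcases hx with hx | hx
    · filter_upwards [h x hx, self_mem_nhdsWithin] with r hr hr0
      have hr0' : (0 : ℝ) < r := hr0
      exact hr.trans (gball_mono D x (by positivity)
        (mul_le_mul_of_nonneg_right (le_max_left _ _) hr0'.le))
    · filter_upwards [h' x hx, self_mem_nhdsWithin] with r hr hr0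
      have hr0' : (0 : ℝ) < r := hr0
      exact hr.trans (gball_mono D x (by positivity)
        (mul_le_mul_of_nonneg_right (le_max_right _ _) hr0'.le))
  · intro p _
    set φ := chartAt E4 p with hφ
    obtain ⟨ρ, hρ, hρt⟩ := Metric.nhds_basis_closedBall.mem_iff.1
      (φ.open_target.mem_nhds (mem_chart_target E4 p))
    obtain ⟨c1, C1, hc1, hC1, hbl⟩ := D.bl p (closedBall (φ p) ρ) (isCompact_closedBall _ _) hρt
    obtain ⟨m, M', hBd⟩ := ChDens.exists_Bd D p (isCompact_closedBall (φ p) ρ) hρt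
    have hM' : 0 < M' := (hBd (φ p) (mem_closedBall_self hρ.le)).M_pos
    have hV : IsOpen (φ.source ∩ φ ⁻¹' ball (φ p) ρ) := φ.isOpen_inter_preimage isOpen_ball
    refine ⟨φ.source ∩ φ ⁻¹' ball (φ p) ρ, mem_nhdsWithin_of_mem_nhds
      (hV.mem_nhds ⟨mem_chart_source E4 p, mem_ball_self hρ⟩), √(2 * M') / c1 + 1, by positivity,
      fun x hx => ?_⟩
    obtain ⟨δ, hδ, hcmp⟩ := exists_cmp D hx.1 (ε := 1) one_pos
    obtain ⟨δ', hδ', hδV⟩ := Metric.isOpen_iff.1 hV x hx
    have hev : ∀ᶠ r in 𝓝[>] (0 : ℝ), r < min δ δ' :=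
      mem_nhdsWithin_of_mem_nhds (Iio_mem_nhds (lt_min hδ hδ'))
    filter_upwards [hev, self_mem_nhdsWithin] with r hr hr0 y hy
    have hr0' : (0 : ℝ) < r := hr0
    have hyδ : y ∈ ball x δ := ball_subset_ball (hr.le.trans (min_le_left _ _)) hy
    have hyV := hδV (ball_subset_ball (hr.le.trans (min_le_right _ _)) hy)
    obtain ⟨hyp, hyx, h1, -⟩ := hcmp y hyδ
    refine ⟨hyx, ?_⟩
    have hxK : φ x ∈ closedBall (φ p) ρ := ball_subset_closedBall hx.2
    have hyK : φ y ∈ closedBall (φ p) ρ := ball_subset_closedBall hyV.2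
    have h2 := (hbl (φ y) hyK (φ x) hxK).1
    rw [φ.left_inv hyp, φ.left_inv hx.1] at h2
    have h3 : gp D p x (φ y - φ x) ≤ M' * ‖φ y - φ x‖ ^ 2 := (hBd (φ x) hxK).hi _
    have h4 : ‖φ y - φ x‖ ≤ r / c1 := by
      rw [le_div_iff₀ hc1, mul_comm]
      exact h2.trans (mem_ball.1 hy).le
    have h5 : ‖φ y - φ x‖ ^ 2 ≤ (r / c1) ^ 2 := pow_le_pow_left₀ (norm_nonneg _) h4 2
    have h6 : gx D x (chartAt E4 x y - chartAt E4 x x) ≤ 2 * M' * (r / c1) ^ 2 := by
      have h7 : M' * ‖φ y - φ x‖ ^ 2 ≤ M' * (r / c1) ^ 2 := by gcongr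
      linarith
    refine lt_of_le_of_lt h6 ?_
    have h8 : 2 * M' * (r / c1) ^ 2 = (√(2 * M') / c1 * r) ^ 2 := by
      have h9 : √(2 * M') ^ 2 = 2 * M' := Real.sq_sqrt (by positivity)
      rw [mul_pow, div_pow (√(2 * M')) c1 2, h9, div_pow]
      ring
    rw [h8]
    have h10 : √(2 * M') / c1 * r < (√(2 * M') / c1 + 1) * r := by linarith
    exact pow_lt_pow_left₀ h10 (by positivity) two_ne_zero

/-- small density in the frozen metric gives small balls, uniformly. -/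
theorem ball_small {D : Dat M} {c : ℝ} (hc : 0 < c) (h : ∀ x : M, ∀ᶠ r in 𝓝[>] (0 : ℝ),
    ball x r ⊆ gball D x (c * r)) {s : Measure M} [IsFiniteMeasure s] {x : M} {θ a : ℝ}
    (hθ : IsDen D s x θ) (ha : θ < a) :
    ∀ᶠ r in 𝓝[>] (0 : ℝ), s.real (ball x r) < a * Real.pi * c ^ 2 * r ^ 2 := by
  have h1 : Tendsto (fun r : ℝ => c * r) (𝓝[>] 0) (𝓝[>] 0) := by
    refine tendsto_nhdsWithin_iff.2 ⟨?_, ?_⟩
    · have : Tendsto (fun r : ℝ => c * r) (𝓝 0) (𝓝 (c * 0)) := tendsto_id.const_mul c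
      rw [mul_zero] at this
      exact this.mono_left nhdsWithin_le_nhds
    · filter_upwards [self_mem_nhdsWithin] with r hr
      have hr' : (0 : ℝ) < r := hr
      exact mul_pos hc hr'
  have h2 := (hθ.comp h1).eventually (Iio_mem_nhds ha)
  filter_upwards [h2, h x, self_mem_nhdsWithin] with r hr hr2 hr0
  have hr0' : (0 : ℝ) < r := hr0
  have h3 : s.real (gball D x (c * r)) / (Real.pi * (c * r) ^ 2) < a := hr
  rw [div_lt_iff₀ (by positivity)] at h3
  calc s.real (ball x r) ≤ s.real (gball D x (c * r)) := measureReal_mono hr2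
    _ < a * (Real.pi * (c * r) ^ 2) := h3
    _ = _ := by ring

/-- zero density in the frozen metric. -/
theorem zeroDens_of_isDen {D : Dat M} {s : Measure M} [IsFiniteMeasure s]
    (h : ∀ a : ℝ, 0 < a → ∀ᵐ x ∂s, ∃ θ, θ < a ∧ IsDen D s x θ) : Dat.ZeroDens s := by
  obtain ⟨c, hc, hcu⟩ := unif_gball D
  have h1 : ∀ᵐ x ∂s, ∀ k : ℕ, ∃ θ, θ < 1 / ((k : ℝ) + 1) ∧ IsDen D s x θ :=
    ae_all_iff.2 fun k => h _ (by positivity)
  filter_upwards [h1] with x hx
  rw [Metric.tendsto_nhds]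
  intro ε hε
  obtain ⟨k, hk⟩ := exists_nat_one_div_lt (show 0 < ε / (Real.pi * c ^ 2) by positivity)
  obtain ⟨θ, hθk, hθ⟩ := hx k
  filter_upwards [ball_small hc hcu hθ (hθk.trans hk), self_mem_nhdsWithin] with r hr hr0
  have hr0' : (0 : ℝ) < r := hr0
  rw [Real.dist_eq, sub_zero, abs_of_nonneg (by positivity), div_lt_iff₀ (by positivity)]
  refine hr.trans_le (le_of_eq ?_)
  field_simp

/-! ### the decomposition -/

theorem PCur.add' {J : EndF E4 M} {S T : X2 M →ₗ[ℝ] ℝ} (hS : PCur J S) (hT : PCur J T) :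
    PCur J (S + T) where
  inv b c h := by
    show S b + T b = S c + T c
    rw [hS.inv b c h, hT.inv b c h]
  nonneg b hb := add_nonneg (hS.nonneg b hb) (hT.nonneg b hb)
  closed b hb := by
    show S b + T b = 0
    rw [hS.closed b hb, hT.closed b hb, add_zero]

theorem PCur.smul' {J : EndF E4 M} {S : X2 M →ₗ[ℝ] ℝ} (hS : PCur J S) {a : ℝ} (ha : 0 ≤ a) :
    PCur J (a • S) where
  inv b c h := by
    show a * S b = a * S c
    rw [hS.inv b c h]
  nonneg b hb := mul_nonneg ha (hS.nonneg b hb)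
  closed b hb := by
    show a * S b = 0
    rw [hS.closed b hb, mul_zero]

theorem PCur.zero' {J : EndF E4 M} : PCur J (0 : X2 M →ₗ[ℝ] ℝ) where
  inv _ _ _ := rfl
  nonneg _ _ := le_rfl
  closed _ _ := rfl

theorem PCur.sum' {J : EndF E4 M} {ι : Type*} (t : Finset ι) (S : ι → X2 M →ₗ[ℝ] ℝ)
    (h : ∀ i ∈ t, PCur J (S i)) : PCur J (∑ i ∈ t, S i) := by
  classical
  induction t using Finset.induction_on with
  | empty => rw [Finset.sum_empty]; exact PCur.zero'
  | insert i t hi ih =>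
    rw [Finset.sum_insert hi]
    exact PCur.add' (h i (Finset.mem_insert_self i t))
      (ih fun j hj => h j (Finset.mem_insert_of_mem hj))

theorem pcur_of_cur {D : Dat M} {Φ : X2 M →ₗ[ℝ] ℝ} {s : Measure M} (h : Cur D Φ s) :
    PCur D.J Φ where
  inv := by
    intro b c hbc
    rw [h.inv b, h.inv c]
    congr 1
    apply Subtype.ext
    funext x
    show invp (atJ D.J x) (at2 (b : F2 E4 M) x) = invp (atJ D.J x) (at2 (c : F2 E4 M) x)
    rw [← hbc x]
    exact (invp_of_inv (invp_inv (D.sq x) _)).symm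
  nonneg b hb := h.nonneg b hb
  closed := h.closed

theorem cur_of_pcur {D : Dat M} {Φ : X2 M →ₗ[ℝ] ℝ} (h : PCur D.J Φ) : ∃ s, Cur D Φ s := by
  refine T1_195.exists_cur D ?_ ?_ h.closed
  · intro b
    exact h.inv b (D.pi' b) fun x => rfl
  · intro P hP
    exact h.nonneg P hP

theorem cur_of_rm {D : Dat M} {Φ : X2 M →ₗ[ℝ] ℝ} {s : Measure M} (h : PCur D.J Φ)
    (hs : D.IsRM Φ s) : Cur D Φ s := by
  obtain ⟨s', h'⟩ := cur_of_pcur h
  exact ⟨h'.inv, h'.nonneg, h'.closed, hs⟩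

/-- a current with trace measure `0` is `0`. -/
theorem cur_zero {D : Dat M} {Φ : X2 M →ₗ[ℝ] ℝ} (h : Cur D Φ 0) : Φ = 0 := by
  ext b
  have h1 := h.rm.bound b
  rw [integral_zero_measure, mul_zero] at h1
  have h2 := h.inv b
  rw [h2]
  exact abs_nonpos_iff.1 h1

/-- the trace of the full mass. -/
theorem cur_ne_zero {D : Dat M} {Φ : X2 M →ₗ[ℝ] ℝ} {s : Measure M} (h : Cur D Φ s)
    (hs : s ≠ 0) : Φ ≠ 0 := by
  rintro rfl
  have := h.fin
  have h1 := h.rm.trace (fun _ => 1) (En4.sF_const 1) D.FX (by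
    funext x
    show at2 D.F x = (1 : ℝ) • at2 D.F x
    rw [one_smul])
  rw [integral_const, smul_eq_mul, mul_one] at h1
  have h2 : s.real univ = 0 := h1.symm
  exact hs (Measure.measure_univ_eq_zero.1 ((measureReal_eq_zero_iff).1 h2))

end

/-- REGC + GLOB for one current of density one. -/
theorem curves_of (hR : REGC.{u}) (hG : GLOB.{u}) {M : Type u} [MetricSpace M] [CompactSpace M]
    [ConnectedSpace M] [ChartedSpace E4 M] [IsManifold 𝓘(ℝ, E4) ∞ M] [MeasurableSpace M]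
    [BorelSpace M] {D : Dat M} (hD : AK D) {C : X2 M →ₗ[ℝ] ℝ} {s : Measure M} (hC : Cur D C s)
    (h1 : ∀ᵐ x ∂s, IsDen D s x 1) :
    ∃ (m : ℕ) (c : Fin m → JCurve D.J), C = ∑ i, (c i).T ∧ msupp s = ⋃ i, range (c i).f := by
  obtain ⟨m, c, hc, hS, -⟩ := hG M D.J D.smJ D.sq (msupp s) C (hR M D hD C s hC h1)
  exact ⟨m, c, hc, hS⟩

/-- **JDECD**. -/
theorem jdecd (h3 : CUR3.{u}) (hR : REGC.{u}) (hG : GLOB.{u}) : JDECD.{u} := by
  classical
  intro M _ _ _ _ _ _ _ D hD Φ s hΦ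
  have hfin := hΦ.fin
  by_cases hz : Dat.ZeroDens s
  · exact Or.inl hz
  refine Or.inr ?_
  -- some `a` with at least one atom
  obtain ⟨a, ha, n, t, C, m, Φ', s', hC, hΦ', hs', hdec, hsum, hn⟩ :
      ∃ a : ℝ, 0 < a ∧ ∃ (n : ℕ) (t : Fin n → ℝ) (C : Fin n → X2 M →ₗ[ℝ] ℝ)
        (m : Fin n → Measure M) (Φ' : X2 M →ₗ[ℝ] ℝ) (s' : Measure M),
      (∀ i, a ≤ t i ∧ Cur D (C i) (m i) ∧ m i ≠ 0 ∧ ∀ᵐ x ∂(m i), IsDen D (m i) x 1) ∧
      Cur D Φ' s' ∧ (∀ᵐ x ∂s', ∃ θ, 0 ≤ θ ∧ θ < a ∧ IsDen D s' x θ ∧ IsDen D s x θ) ∧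
      Φ = ∑ i, t i • C i + Φ' ∧ s = ∑ i, ENNReal.ofReal (t i) • m i + s' ∧ 0 < n := by
    by_contra hcon
    push Not at hcon
    apply hz
    refine zeroDens_of_isDen (D := D) fun a ha => ?_
    obtain ⟨n, t, C, m, Φ', s', hC, hΦ', hs', hdec, hsum⟩ := h3 M D hD Φ s hΦ a ha
    have hn : n = 0 := by
      have := hcon a ha n t C m Φ' s' hC hΦ' hs' hdec hsum
      omega
    subst hn
    have h4 : s = s' := by rw [hsum]; simp
    rw [h4]
    rw [h4] at hs'
    filter_upwards [hs'] with x hx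
    obtain ⟨θ, -, hθ, h5, -⟩ := hx
    exact ⟨θ, hθ, h5⟩
  obtain ⟨k, hk⟩ : ∃ k, k = (⟨0, hn⟩ : Fin n) := ⟨_, rfl⟩
  obtain ⟨hak, hCk, hmk, h1k⟩ := hC k
  obtain ⟨l, c, hc, -⟩ := curves_of hR hG hD hCk h1k
  have hCne : C k ≠ 0 := cur_ne_zero hCk hmk
  obtain ⟨j, hj⟩ : ∃ j, (c j).T ≠ 0 := by
    by_contra hcon
    push Not at hcon
    apply hCne
    rw [hc]
    exact Finset.sum_eq_zero fun i _ => hcon i
  have htk : 0 < t k := ha.trans_le hak
  refine ⟨c j, t k, t k • (∑ i ∈ Finset.univ.erase j, (c i).T) +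
    (∑ i ∈ Finset.univ.erase k, t i • C i + Φ'), htk, hj, ?_, ?_⟩
  · refine PCur.add' (PCur.smul' (PCur.sum' _ _ fun i _ => (c i).pcur) htk.le)
      (PCur.add' (PCur.sum' _ _ fun i _ => PCur.smul' (pcur_of_cur (hC i).2.1)
        (ha.le.trans (hC i).1)) (pcur_of_cur hΦ'))
  · rw [hdec, ← Finset.add_sum_erase Finset.univ (fun i => t i • C i) (Finset.mem_univ k)]
    have h6 : C k = (c j).T + ∑ i ∈ Finset.univ.erase j, (c i).T := by
      rw [Finset.add_sum_erase Finset.univ (fun i => (c i).T) (Finset.mem_univ j)]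
      exact hc
    rw [h6, smul_add]
    abel

/-- **T2SD**. -/
theorem t2sd (h3 : CUR3.{u}) (hR : REGC.{u}) (hG : GLOB.{u}) : T2SD.{u} := by
  classical
  intro M _ _ _ _ _ _ _ D hD Φ s hΦ hlow
  have hfin := hΦ.fin
  obtain ⟨ε, hε, hlow⟩ := hlow
  obtain ⟨c, hc, hcu⟩ := unif_gball D
  have ha : 0 < ε / (Real.pi * c ^ 2) := by positivity
  obtain ⟨n, t, C, m, Φ', s', hC, hΦ', hs', hdec, hsum⟩ := h3 M D hD Φ s hΦ _ ha
  -- the rest vanishes
  have hss : s' ≤ s := by
    rw [hsum]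
    exact Measure.le_add_left le_rfl
  have h0 : s' = 0 := by
    rw [← ae_eq_bot, ← Filter.eventually_false_iff_eq_bot]
    filter_upwards [hs', ae_mono hss hlow] with x hx1 hx2
    obtain ⟨θ, -, hθ, -, h5⟩ := hx1
    have h6 := ball_small hc hcu h5 hθ
    obtain ⟨r, hr1, hr2⟩ := (hx2.and_eventually h6).exists
    have h7 : ε / (Real.pi * c ^ 2) * Real.pi * c ^ 2 * r ^ 2 = ε * r ^ 2 := by
      have := Real.pi_pos
      field_simp
    rw [h7] at hr2
    exact absurd hr1 (not_le.2 hr2)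
  subst h0
  have hΦ0 : Φ' = 0 := cur_zero hΦ'
  -- curves of every piece
  have hcv : ∀ i, ∃ (l : ℕ) (c : Fin l → JCurve D.J), C i = ∑ j, (c j).T ∧
      msupp (m i) = ⋃ j, range (c j).f := fun i => curves_of hR hG hD (hC i).2.1 (hC i).2.2.2
  choose l cv hcv1 hcv2 using hcv
  have htpos : ∀ i, 0 < t i := fun i => ha.trans_le (hC i).1
  let e := (Fintype.equivFin ((i : Fin n) × Fin (l i)))
  refine ⟨Fintype.card ((i : Fin n) × Fin (l i)), fun k => cv (e.symm k).1 (e.symm k).2,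
    fun k => t (e.symm k).1, fun k => htpos _, ?_, ?_⟩
  · rw [e.symm.sum_comp (fun q : (i : Fin n) × Fin (l i) => t q.1 • (cv q.1 q.2).T),
      Fintype.sum_sigma, hdec, hΦ0, add_zero]
    refine Finset.sum_congr rfl fun i _ => ?_
    rw [hcv1 i, Finset.smul_sum]
  · have h8 : msupp s = ⋃ i, msupp (m i) := by
      ext x
      rw [mem_iUnion]
      constructor
      · intro hx
        by_contra hcon
        push Not at hcon
        have h9 : ∀ i, ∃ U : Set M, IsOpen U ∧ x ∈ U ∧ m i U = 0 := by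
          intro i
          have h10 := hcon i
          simp only [msupp, mem_ofPred_eq, not_forall, not_lt, nonpos_iff_eq_zero] at h10
          obtain ⟨U, hU, hxU, h0⟩ := h10
          exact ⟨U, hU, hxU, h0⟩
        choose U hU hxU hU0 using h9
        have h11 := hx (⋂ i, U i) (isOpen_iInter_of_finite hU) (mem_iInter.2 hxU)
        rw [hsum] at h11
        have h12 : (∑ i, ENNReal.ofReal (t i) • m i + (0 : Measure M)) (⋂ i, U i) = 0 := by
          rw [add_zero, Measure.coe_finsetSum, Finset.sum_apply]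
          refine Finset.sum_eq_zero fun i _ => ?_
          rw [Measure.smul_apply, measure_mono_null (iInter_subset U i) (hU0 i), smul_zero]
        rw [h12] at h11
        exact lt_irrefl _ h11
      · rintro ⟨i, hi⟩ V hV hxV
        have h9 := hi V hV hxV
        rw [hsum, add_zero, Measure.coe_finsetSum, Finset.sum_apply]
        refine lt_of_lt_of_le ?_ (Finset.single_le_sum (f := fun i => (ENNReal.ofReal (t i) • m i) V)
          (fun j _ => zero_le) (Finset.mem_univ i))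
        rw [Measure.smul_apply, smul_eq_mul]
        exact ENNReal.mul_pos (ENNReal.ofReal_pos.2 (htpos i)).ne' h9.ne'
    rw [h8]
    ext x
    simp only [mem_iUnion]
    constructor
    · rintro ⟨i, hi⟩
      rw [hcv2 i, mem_iUnion] at hi
      obtain ⟨j, hj⟩ := hi
      refine ⟨e ⟨i, j⟩, ?_⟩
      rw [e.symm_apply_apply]
      exact hj
    · rintro ⟨k, hk⟩
      refine ⟨(e.symm k).1, ?_⟩
      rw [hcv2, mem_iUnion]
      exact ⟨_, hk⟩

/-! ### the consumers -/

theorem ak_of {M : Type u} [MetricSpace M] [CompactSpace M] [ChartedSpace E4 M]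
    [IsManifold 𝓘(ℝ, E4) ∞ M] [MeasurableSpace M] [BorelSpace M] {D : Dat M}
    (h : D.F = D.al) : AK D := by
  intro x u v
  have h1 : invp (atJ D.J x) (at2 D.al x) = at2 D.al x := by
    have h2 : at2 D.F x = at2 D.al x := by rw [h]
    exact h2
  have h3 := invp_inv (D.sq x) (at2 D.al x) u v
  rwa [h1] at h3

/-- **JDEC** (844). -/
theorem jdec (h3 : CUR3.{u}) (hR : REGC.{u}) (hG : GLOB.{u}) : JDEC.{u} := by
  intro M _ _ _ _ _ _ _ D w _ _ _ S s hS hs
  obtain ⟨D', hJ, hF⟩ := Limt.exists_closedF D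
  have hcur : Cur D S s := cur_of_rm hS hs
  have hS' : PCur D'.J S := by rw [hJ]; exact hS
  obtain ⟨s', hs'⟩ := cur_of_pcur hS'
  have h := jdecd h3 hR hG M D' (ak_of hF) S s' hs'
  rw [hJ] at h
  rcases h with h | h
  · exact Or.inl (zeroDens_of hJ hcur hs' h)
  · exact Or.inr h

theorem sup_iff {M : Type u} [MetricSpace M] [MeasurableSpace M] {s : Measure M}
    [IsFiniteMeasure s] {x : M} : Swc.Sup s x ↔ x ∈ msupp s := by
  constructor
  · intro h U hU hxU
    obtain ⟨r, hr, hrU⟩ := Metric.isOpen_iff.1 hU x hxU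
    have h1 := h r hr
    have h2 : 0 < s (ball x r) := (ENNReal.toReal_pos_iff.1 h1).1
    exact h2.trans_le (measure_mono hrU)
  · intro h r hr
    exact ENNReal.toReal_pos (h (ball x r) isOpen_ball (mem_ball_self hr)).ne' (measure_ne_top _ _)

theorem ae_sup {M : Type u} [MetricSpace M] [CompactSpace M] [MeasurableSpace M] [BorelSpace M]
    (s : Measure M) [IsFiniteMeasure s] : ∀ᵐ x ∂s, Swc.Sup s x := by
  have h1 : {x : M | ¬ Swc.Sup s x} ⊆ ⋃₀ {U | IsOpen U ∧ s U = 0} := by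
    intro x hx
    rw [mem_ofPred_eq, sup_iff] at hx
    simp only [msupp, mem_ofPred_eq, not_forall, not_lt, nonpos_iff_eq_zero] at hx
    obtain ⟨U, hU, hxU, h0⟩ := hx
    exact mem_sUnion.2 ⟨U, ⟨hU, h0⟩, hxU⟩
  obtain ⟨T, hTc, hTs, hTU⟩ := TopologicalSpace.isOpen_sUnion_countable
    {U : Set M | IsOpen U ∧ s U = 0} (fun U hU => hU.1)
  refine measure_mono_null h1 ?_
  rw [← hTU]
  exact (measure_sUnion_null_iff hTc).2 fun U hU => (hTs hU).2

/-- **T2S** (215). -/
theorem t2s (h3 : CUR3.{u}) (hR : REGC.{u}) (hG : GLOB.{u}) : Swc.T2S.{u} := by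
  intro M _ _ _ _ _ _ _ D w _ _ _ S s hs hlow
  obtain ⟨D', hJ, hF⟩ := Limt.exists_closedF D
  have hfin := hs.fin
  have hS' : PCur D'.J S := by rw [hJ]; exact pcur_of_cur hs
  obtain ⟨s', hs'⟩ := cur_of_pcur hS'
  have hfin' := hs'.fin
  have hlow' : Swc.LowDens s' := Limt.lowDens_of hJ.symm hs' hs hlow
  obtain ⟨κ, r0, hκ, hr0, hl⟩ := hlow'
  have h := t2sd h3 hR hG M D' (ak_of hF) S s' hs' ⟨κ, hκ, by
    filter_upwards [ae_sup s'] with x hx
    refine Filter.Eventually.frequently ?_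
    have hev : ∀ᶠ r in 𝓝[>] (0 : ℝ), r < r0 := mem_nhdsWithin_of_mem_nhds (Iio_mem_nhds hr0)
    filter_upwards [hev, self_mem_nhdsWithin] with r hr hr0'
    exact hl x hx r hr0' hr.le⟩
  rw [hJ] at h
  obtain ⟨m, c, a, ha, hSc, hsup⟩ := h
  refine ⟨m, c, a, ha, hSc, fun x hx => ?_⟩
  have hx' : Swc.Sup s' x := Limt.sup_of hJ.symm hs' hs hx
  rw [sup_iff, hsup, mem_iUnion] at hx'
  exact hx'

end

end Crest.Agent.R235.Curves_489
end

-- ▼ part R235/KumMinus_918
section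

/-!
Row 235 (S0364), package KUM, task 329 (helper918): node `MINUSX`.
If `b₁(M) = 0` then the involution of the double cover `X` acts by `-1` on `H¹(X)`.
-/

set_option autoImplicit false
set_option maxSynthPendingDepth 3
set_option linter.unusedSectionVars false

open Set Function Filter MeasureTheory
open scoped Manifold ContDiff Topology

universe u

namespace Crest.Agent.R235.KumMinus_918

open Crest.Agent.R240 Crest.Agent.R240.Ch Crest.Agent.R235 Crest.Agent.R235.KT_604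

noncomputable section

/-! ### linear algebra and topology of `E4` -/

lemma bij_of_inj {A : E4 →L[ℝ] E4} (h : ∀ v, A v = 0 → v = 0) : Bijective A := by
  have h1 : Injective (A : E4 →ₗ[ℝ] E4) := (injective_iff_map_eq_zero A).2 h
  exact ⟨h1, LinearMap.injective_iff_surjective.1 h1⟩

/-- cancel a surjective linear map. -/
lemma cancel {A : E4 →L[ℝ] E4} (h : Surjective A) {l k : E4 →L[ℝ] ℝ} (e : l.comp A = k.comp A) :
    l = k := by
  ext v
  obtain ⟨w, rfl⟩ := h v
  exact congrArg (fun L : E4 →L[ℝ] ℝ => L w) e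

lemma isOpen_PB (r : ℝ) : IsOpen (PB r) :=
  (isOpen_ne_fun continuous_id continuous_const).inter (isOpen_lt continuous_norm continuous_const)

lemma preconn_PB (r : ℝ) : IsPreconnected (PB r) := by
  have h1 : PB r = (fun p : ℝ × E4 => p.1 • p.2) '' (Ioo 0 r ×ˢ Metric.sphere (0 : E4) 1) := by
    ext v
    constructor
    · rintro ⟨h0, hr⟩
      have h0' : 0 < ‖v‖ := norm_pos_iff.2 h0
      refine ⟨(‖v‖, ‖v‖⁻¹ • v), ⟨⟨h0', hr⟩, ?_⟩, ?_⟩
      · simp [norm_smul, h0]
      · simp [smul_smul, h0]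
    · rintro ⟨⟨a, w⟩, ⟨⟨ha0, har⟩, hw⟩, rfl⟩
      have hw' : ‖w‖ = 1 := by simpa using hw
      have hw0 : w ≠ 0 := by
        rintro rfl
        simp at hw'
      refine ⟨smul_ne_zero (ne_of_gt ha0) hw0, ?_⟩
      show ‖a • w‖ < r
      rw [norm_smul, hw', mul_one, Real.norm_eq_abs, abs_of_pos ha0]
      exact har
  rw [h1]
  have h2 : 1 < Module.rank ℝ E4 := by
    rw [← Module.finrank_eq_rank]
    simp
  exact (isPreconnected_Ioo.prod (isPreconnected_sphere h2 0 1)).image _ (by fun_prop)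

/-! ### closed at a point -/

section Loc

variable {M : Type u} [TopologicalSpace M] [ChartedSpace E4 M] [IsManifold 𝓘(ℝ, E4) ∞ M]

/-- smooth and closed at `x`. -/
def Cl1 (s : F1 E4 M) (x : M) : Prop := Loc_524.SmAt1 s x ∧ at2 (dG s) x = 0

theorem closed1_iff_cl1 {s : F1 E4 M} : Closed1 s ↔ ∀ x, Cl1 s x := by
  rw [TorMin_510.closed1_iff, Loc_524.smooth1_iff_smAt]
  constructor
  · rintro ⟨h1, h2⟩ x
    exact ⟨h1 x, by rw [h2]; rfl⟩
  · intro h
    exact ⟨fun x => (h x).1, funext fun x => (h x).2⟩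

theorem Cl1.congr {s t : F1 E4 M} {x : M} (hs : Cl1 s x) (h : t =ᶠ[𝓝 x] s) : Cl1 t x :=
  ⟨hs.1.congr h, by rw [Loc_524.dG_congr h]; exact hs.2⟩

theorem cl1_zero (x : M) : Cl1 (0 : F1 E4 M) x := by
  refine closed1_iff_cl1.1 (TorMin_510.closed1_iff.2 ⟨smooth1_zero, ?_⟩) x
  have h := dG_smul (0 : ℝ) (smooth1_zero (E := E4) (M := M))
  simpa using h

/-- closed at `Φ q` if the pull-back is. -/
theorem cl1_of_pb {Φ : E4 → M} {U : Set E4} {q : E4} (hU : IsOpen U)
    (h : ContMDiffOn 𝓘(ℝ, E4) 𝓘(ℝ, E4) ∞ Φ U)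
    (hb : ∀ z ∈ U, Bijective (Pull_129.dL (E := E4) Φ z)) (hq : q ∈ U) {s : F1 E4 M}
    (hs : ContDiffAt ℝ ∞ (Pull_129.pb1 Φ s) q) (hc : d1 (Pull_129.pb1 Φ s) q = 0) :
    Cl1 s (Φ q) :=
  ⟨Pull_129.rep1_contDiffAt hU h hb hq (mem_chart_source E4 _) hs,
    Pull_129.rep1_closed hU h hb hq (mem_chart_source E4 _) hs hc⟩

/-- the differential of a function is the differential of a map. -/
theorem dF_eq_D1 (f : M → ℝ) (x : M) : at1 (dF (E := E4) f) x = PB_604.D1 E4 ℝ f x := rfl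

end Loc

/-! ### the double cover -/

section Cover

variable {M : Type u} [TopologicalSpace M] [ChartedSpace E4 M] [IsManifold 𝓘(ℝ, E4) ∞ M]
variable {X : Type u} [TopologicalSpace X] [T2Space X] [CompactSpace X]
  [ChartedSpace E4 X] [IsManifold 𝓘(ℝ, E4) ∞ X]
variable {m : ℕ} {K : KIn M m} (O : KOut K X)

/-- the points over `M ∖ ⋃ C i`. -/
def good : Set X := {x | ∀ i, x ≠ O.ch i 0}

lemma isOpen_good : IsOpen (good O) := by
  have h : good O = ⋂ i, {O.ch i 0}ᶜ := by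
    ext x
    simp [good]
  rw [h]
  exact isOpen_iInter_of_finite fun i => isOpen_compl_singleton

lemma zero_mem : (0 : E4) ∈ Metric.ball (0 : E4) 1 := Metric.mem_ball_self one_pos

lemma neg_mem {z : E4} {r : ℝ} (hz : z ∈ Metric.ball (0 : E4) r) : -z ∈ Metric.ball (0 : E4) r := by
  rw [mem_ball_zero_iff] at hz ⊢
  rwa [norm_neg]


lemma ch_good {i : Fin m} {z : E4} (hz : z ∈ PB 1) : O.ch i z ∈ good O := by
  have hz1 : z ∈ Metric.ball (0 : E4) 1 := mem_ball_zero_iff.2 hz.2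
  intro j h
  rcases eq_or_ne i j with rfl | hij
  · exact hz.1 (O.ch_inj i hz1 zero_mem h)
  · exact O.ch_sep i j hij z hz1 0 zero_mem h

/-- uniqueness of the coordinates. -/
lemma ch_uniq {i j : Fin m} {z w : E4} (hz : z ∈ Metric.ball (0 : E4) 1)
    (hw : w ∈ Metric.ball (0 : E4) 1) (h : O.ch i z = O.ch j w) : i = j ∧ z = w := by
  rcases eq_or_ne i j with rfl | hij
  · exact ⟨rfl, O.ch_inj i hz hw h⟩
  · exact (O.ch_sep i j hij z hz w hw h).elim

lemma bij_ch (i : Fin m) {z : E4} (hz : z ∈ Metric.ball (0 : E4) 1) :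
    Bijective (Pull_129.dL (E := E4) (O.ch i) z) :=
  bij_of_inj fun v hv => O.ch_imm i z hz v hv

lemma bij_pr {x : X} (hx : x ∈ good O) : Bijective (PB_604.D1 E4 E4 O.pr x) :=
  bij_of_inj fun v hv => O.pr_imm x hx v hv

lemma pr_at {x : X} (hx : x ∈ good O) : ContMDiffAt 𝓘(ℝ, E4) 𝓘(ℝ, E4) ∞ O.pr x :=
  O.pr_smooth.contMDiffAt ((isOpen_good O).mem_nhds hx)

lemma ch_at (i : Fin m) {z : E4} (hz : z ∈ Metric.ball (0 : E4) 1) :
    ContMDiffAt 𝓘(ℝ, E4) 𝓘(ℝ, E4) ∞ (O.ch i) z :=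
  (O.ch_smooth i).contMDiffAt (Metric.isOpen_ball.mem_nhds hz)

/-- even one-forms. -/
def Even1 (r : F1 E4 X) : Prop := ∀ x v, at1 r (O.io x) (dself O.io x v) = at1 r x v

/-! #### even primitives near the new points -/

/-- the pull-back of an even form by `ch i` is odd. -/
lemma pb_neg {r : F1 E4 X} (he : Even1 O r) (i : Fin m) {z : E4}
    (hz : z ∈ Metric.ball (0 : E4) 1) (v : E4) :
    Pull_129.pb1 (O.ch i) r (-z) (-v) = Pull_129.pb1 (O.ch i) r z v := by
  have hnz := neg_mem hz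
  have hd : DifferentiableAt ℝ (fun y : E4 => -y) z := differentiableAt_id.neg
  have hf : fderiv ℝ (fun y : E4 => -y) z = -ContinuousLinearMap.id ℝ E4 := by
    have := (hasFDerivAt_id (𝕜 := ℝ) z).neg
    exact this.fderiv
  have h1 := Pull_129.pb1_comp (Φ := O.ch i) (g := fun y : E4 => -y) (z := z) (ch_at O i hnz) hd r
  have h2 : (fun y => O.ch i (-y)) =ᶠ[𝓝 z] fun y => O.io (O.ch i y) := by
    filter_upwards [Metric.isOpen_ball.mem_nhds hz] with y hy
    exact (O.io_ch i y hy).symm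
  rw [Pull_129.pb1_congr h2, hf] at h1
  have h3 := congrArg (fun L : E4 →L[ℝ] ℝ => L v) h1
  have h4 : Pull_129.pb1 (O.ch i) r (-z) (-v) =
      Pull_129.pb1 (fun y => O.io (O.ch i y)) r z v := h3.symm
  rw [h4]
  have h5 : Pull_129.dL (E := E4) (fun y => O.io (O.ch i y)) z v =
      dself O.io (O.ch i z) (Pull_129.dL (E := E4) (O.ch i) z v) :=
    TorMin_510.dmap_comp O.io_smooth (ch_at O i hz) v
  rw [Pull_129.pb1_apply, h5]
  exact he _ _

/-- even primitives in the charts `ch i`. -/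
lemma exists_prim {r : F1 E4 X} (hr : Closed1 r) (he : Even1 O r) (i : Fin m) :
    ∃ g : E4 → ℝ, (∀ z ∈ Metric.ball (0 : E4) 1,
      HasFDerivAt g (Pull_129.pb1 (O.ch i) r z) z) ∧
      ContDiffOn ℝ ∞ g (Metric.ball 0 1) ∧ ∀ z ∈ Metric.ball (0 : E4) 1, g (-z) = g z := by
  obtain ⟨hr1, hr2⟩ := TorMin_510.closed1_iff.1 hr
  have hs := Pull_129.pb1_contDiffOn Metric.isOpen_ball (O.ch_smooth i) hr1
  obtain ⟨g, hg⟩ := R281.Poi_234.poincare1 Metric.isOpen_ball (convex_ball (0 : E4) 1) hs (by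
    intro z hz v w
    have h1 := Pull_129.d1_pb1 Metric.isOpen_ball (O.ch_smooth i) hz hr1 v w
    rw [hr2, d1_apply] at h1
    have h2 : Pull_129.pb2 (O.ch i) (0 : F2 E4 X) z v w = 0 := rfl
    rw [h2] at h1
    linarith)
  refine ⟨g, hg, R281.Poi_234.contDiffOn_of_hasFDerivAt Metric.isOpen_ball hs hg, ?_⟩
  have hd : ∀ z ∈ Metric.ball (0 : E4) 1,
      HasFDerivAt (fun y => g (-y) - g y) (0 : E4 →L[ℝ] ℝ) z := by
    intro z hz
    have h1 : HasFDerivAt (fun y : E4 => g (-y))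
        ((Pull_129.pb1 (O.ch i) r (-z)).comp (-ContinuousLinearMap.id ℝ E4)) z :=
      HasFDerivAt.comp z (g := g) (hg (-z) (neg_mem hz)) (hasFDerivAt_id z).neg
    have h2 := h1.sub (hg z hz)
    have h3 : (Pull_129.pb1 (O.ch i) r (-z)).comp (-ContinuousLinearMap.id ℝ E4) -
        Pull_129.pb1 (O.ch i) r z = 0 := by
      ext v
      have h4 := pb_neg O he i hz v
      show Pull_129.pb1 (O.ch i) r (-z) (-v) - Pull_129.pb1 (O.ch i) r z v = 0
      rw [h4, sub_self]
    rw [h3] at h2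
    exact h2
  intro z hz
  have h1 := (convex_ball (0 : E4) 1).is_const_of_fderivWithin_eq_zero (𝕜 := ℝ)
    (f := fun y => g (-y) - g y) (fun y hy => (hd y hy).differentiableAt.differentiableWithinAt)
    (fun y hy => by
      rw [fderivWithin_of_isOpen Metric.isOpen_ball hy]
      exact (hd y hy).fderiv) hz zero_mem
  simp only [neg_zero, sub_self] at h1
  linarith

/-- the compact neighbourhood of the new points. -/
def Kn : Set X := ⋃ i, O.ch i '' Metric.closedBall 0 (1 / 2)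

lemma half_sub : Metric.closedBall (0 : E4) (1 / 2) ⊆ Metric.ball 0 1 :=
  Metric.closedBall_subset_ball (by norm_num)

lemma isClosed_Kn : IsClosed (Kn O) := by
  refine (isCompact_iUnion fun i => ?_).isClosed
  exact (isCompact_closedBall _ _).image_of_continuousOn
    ((O.ch_smooth i).continuousOn.mono half_sub)

/-- a function near the new points which is an even primitive of an even closed form. -/
lemma exists_primF {r : F1 E4 X} (hr : Closed1 r) (he : Even1 O r) :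
    ∃ F : X → ℝ, ∀ i, ∀ z ∈ Metric.ball (0 : E4) 1, Loc_524.SmAtF E4 F (O.ch i z) ∧
      at1 (dF (E := E4) F) (O.ch i z) = at1 r (O.ch i z) ∧
      F (O.io (O.ch i z)) = F (O.ch i z) := by
  classical
  choose g hg hgs hge using exists_prim O hr he
  let F : X → ℝ := fun x =>
    if h : ∃ p : Fin m × E4, p.2 ∈ Metric.ball (0 : E4) 1 ∧ O.ch p.1 p.2 = x then
      g h.choose.1 h.choose.2 else 0
  have hF : ∀ i, ∀ z ∈ Metric.ball (0 : E4) 1, F (O.ch i z) = g i z := by
    intro i z hz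
    have h : ∃ p : Fin m × E4, p.2 ∈ Metric.ball (0 : E4) 1 ∧ O.ch p.1 p.2 = O.ch i z :=
      ⟨(i, z), hz, rfl⟩
    have h1 : F (O.ch i z) = g h.choose.1 h.choose.2 := dif_pos h
    obtain ⟨h2, h3⟩ := ch_uniq O h.choose_spec.1 hz h.choose_spec.2
    rw [h1, h2, h3]
  refine ⟨F, fun i z hz => ?_⟩
  have hev : (fun y => F (O.ch i y)) =ᶠ[𝓝 z] g i := by
    filter_upwards [Metric.isOpen_ball.mem_nhds hz] with y hy
    exact hF i y hy
  have hsm : Loc_524.SmAtF E4 F (O.ch i z) :=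
    Pull_129.repF_contDiffAt (ch_at O i hz) (bij_ch O i hz) (mem_chart_source E4 _)
      (((hgs i).contDiffAt (Metric.isOpen_ball.mem_nhds hz)).congr_of_eventuallyEq hev)
  refine ⟨hsm, ?_, ?_⟩
  · refine cancel (bij_ch O i hz).2 ?_
    have h1 := Pull_129.pb1_dF_at (ch_at O i hz) hsm
    rw [hev.fderiv_eq, (hg i z hz).fderiv] at h1
    exact h1
  · rw [O.io_ch i z hz, hF i _ (neg_mem hz), hF i z hz, hge i z hz]

/-- a global even function whose differential is `r` near the new points. -/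
lemma exists_F1 {r : F1 E4 X} (hr : Closed1 r) (he : Even1 O r) :
    ∃ F : X → ℝ, SmoothF E4 F ∧ (∀ x, F (O.io x) = F x) ∧
      ∀ x ∈ Kn O, at1 (dF (E := E4) F) x = at1 r x := by
  obtain ⟨F, hF⟩ := exists_primF O hr he
  have hU : IsOpen (⋃ i, O.ch i '' Metric.ball 0 1) :=
    isOpen_iUnion fun i => O.ch_open i 1 one_pos le_rfl
  obtain ⟨g, hg, hgF⟩ := Loc_524.exists_extF (E := E4) (f := F) (isClosed_Kn O) hU
    (iUnion_mono fun i => image_mono half_sub) (by
      intro x hx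
      obtain ⟨i, hi⟩ := mem_iUnion.1 hx
      obtain ⟨z, hz, rfl⟩ := hi
      exact (hF i z hz).1)
  have hg2 : SmoothF E4 (fun x => g x + g (O.io x)) := hg.add (TorMin_510.SmoothF.pb O.io_smooth hg)
  refine ⟨fun x => (1 / 2 : ℝ) * (g x + g (O.io x)), (smoothF_const _).mul hg2, ?_, ?_⟩
  · intro x
    simp only [O.io_io]
    ring
  · intro x hx
    obtain ⟨i, hi⟩ := mem_iUnion.1 hx
    obtain ⟨z, hz, rfl⟩ := hi
    have hz1 := half_sub hz
    have hx' : O.io (O.ch i z) ∈ Kn O := by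
      rw [O.io_ch i z hz1]
      refine mem_iUnion.2 ⟨i, mem_image_of_mem _ ?_⟩
      rw [mem_closedBall_zero_iff] at hz ⊢
      rwa [norm_neg]
    have e1 : ∀ᶠ y in 𝓝 (O.ch i z), g (O.io y) = F (O.io y) :=
      O.io_smooth.continuous.continuousAt.eventually (hgF _ hx')
    have e2 : ∀ᶠ y in 𝓝 (O.ch i z), y ∈ O.ch i '' Metric.ball 0 1 :=
      (O.ch_open i 1 one_pos le_rfl).mem_nhds (mem_image_of_mem _ hz1)
    have e3 : (fun x => (1 / 2 : ℝ) * (g x + g (O.io x))) =ᶠ[𝓝 (O.ch i z)] F := by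
      filter_upwards [hgF _ hx, e1, e2] with y h1 h2 h3
      obtain ⟨w, hw, rfl⟩ := h3
      rw [h1, h2, (hF i w hw).2.2]
      ring
    rw [Loc_524.dF_congr e3, (hF i z hz1).2.1]

/-! #### descent -/

/-- descent of an even form to `M`. -/
lemma descend {s : F1 E4 X} (he : Even1 O s) :
    ∃ t : F1 E4 M, (∀ x ∈ good O, (at1 t (O.pr x)).comp (PB_604.D1 E4 E4 O.pr x) = at1 s x) ∧
      ∀ y, (∀ x ∈ good O, O.pr x ≠ y) → at1 t y = 0 := by
  classical
  let t : F1 E4 M := fun y =>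
    if h : (∃ x ∈ good O, O.pr x = y) ∧ ∃ l : E4 →L[ℝ] ℝ, ∀ x ∈ good O, O.pr x = y →
      l.comp (PB_604.D1 E4 E4 O.pr x) = at1 s x then h.2.choose else 0
  refine ⟨t, fun x hx => ?_, fun y hy => dif_neg fun h => ?_⟩
  · have hb := bij_pr O hx
    let e : E4 ≃L[ℝ] E4 := ContinuousLinearEquiv.ofBijective (PB_604.D1 E4 E4 O.pr x)
      (LinearMap.ker_eq_bot.2 hb.1) (LinearMap.range_eq_top.2 hb.2)
    have hl : ((at1 s x).comp (e.symm : E4 →L[ℝ] E4)).comp (PB_604.D1 E4 E4 O.pr x) =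
        at1 s x := by
      ext v
      show at1 s x (e.symm (e v)) = _
      rw [e.symm_apply_apply]
    have h : (∃ x' ∈ good O, O.pr x' = O.pr x) ∧ ∃ l : E4 →L[ℝ] ℝ, ∀ x' ∈ good O,
        O.pr x' = O.pr x → l.comp (PB_604.D1 E4 E4 O.pr x') = at1 s x' := by
      refine ⟨⟨x, hx, rfl⟩, (at1 s x).comp (e.symm : E4 →L[ℝ] E4), fun x' hx' hxx => ?_⟩
      rcases O.pr_inj x x' hx hx' hxx.symm with rfl | rfl
      · exact hl
      · have h1 : O.pr ∘ O.io =ᶠ[𝓝 x] O.pr := by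
          filter_upwards [(isOpen_good O).mem_nhds hx] with y hy
          exact O.pr_io y hy
        have h2 := PB_604.D1_comp (E := E4) (F := E4) (G := E4) (f := O.io) (g := O.pr) (x := x)
          ((O.io_smooth x).of_le one_le_infty) ((pr_at O hx').of_le one_le_infty)
        rw [PB_604.D1_congr h1] at h2
        have h3 : dself O.io x = PB_604.D1 E4 E4 O.io x := TorMin_510.dself_eq O.io_smooth x
        have h4 : Surjective (dself O.io x) := by
          intro v
          refine ⟨dself O.io (O.io x) v, ?_⟩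
          have h5 := TorMin_510.dself_dself O.io_smooth O.io_io (O.io x) v
          rwa [O.io_io] at h5
        refine cancel h4 ?_
        have h6 : (at1 s (O.io x)).comp (dself O.io x) = at1 s x :=
          ContinuousLinearMap.ext fun v => he x v
        rw [h6, ContinuousLinearMap.comp_assoc, h3, ← h2]
        exact hl
    have h1 : at1 t (O.pr x) = h.2.choose := dif_pos h
    rw [h1]
    exact h.2.choose_spec x hx rfl
  · obtain ⟨x, hx, hxy⟩ := h.1
    exact hy x hx hxy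

/-- the descended form is closed over the good points. -/
lemma cl1_descend {s : F1 E4 X} (hs : Closed1 s) {t : F1 E4 M}
    (ht : ∀ x ∈ good O, (at1 t (O.pr x)).comp (PB_604.D1 E4 E4 O.pr x) = at1 s x)
    {x : X} (hx : x ∈ good O) : Cl1 t (O.pr x) := by
  obtain ⟨hs1, hs2⟩ := hs
  set U : Set E4 := (chartAt E4 x).target ∩ (chartAt E4 x).symm ⁻¹' good O with hUdef
  have hU : IsOpen U := (chartAt E4 x).isOpen_inter_preimage_symm (isOpen_good O)
  have hΦ : ContMDiffOn 𝓘(ℝ, E4) 𝓘(ℝ, E4) ∞ (fun y => O.pr ((chartAt E4 x).symm y)) U := by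
    intro y hy
    have h1 : ContMDiffAt 𝓘(ℝ, E4) 𝓘(ℝ, E4) ∞ (chartAt E4 x).symm y :=
      (contMDiffOn_chart_symm (I := 𝓘(ℝ, E4)) (x := x)).contMDiffAt
        ((chartAt E4 x).open_target.mem_nhds hy.1)
    exact ((pr_at O hy.2).comp y h1).contMDiffWithinAt
  -- the differential
  have hdL : ∀ y ∈ U, ∀ u, Pull_129.dL (E := E4) (fun y => O.pr ((chartAt E4 x).symm y)) y u =
      PB_604.D1 E4 E4 O.pr ((chartAt E4 x).symm y)
        (tcc x ((chartAt E4 x).symm y) ((chartAt E4 x).symm y) u) := by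
    intro y hy u
    have h1 := PB_604.fderiv_mrep (E := E4) (F := E4) (f := O.pr) (x := (chartAt E4 x).symm y)
      ((pr_at O hy.2).of_le one_le_infty) (p := x) (q := O.pr ((chartAt E4 x).symm y))
      (symm_mem hy.1) (mem_chart_source E4 _) u
    rw [(chartAt E4 x).right_inv hy.1, tcc_self (mem_chart_source E4 _)] at h1
    exact h1
  have hb : ∀ y ∈ U, Bijective
      (Pull_129.dL (E := E4) (fun y => O.pr ((chartAt E4 x).symm y)) y) := by
    intro y hy
    refine bij_of_inj fun v hv => ?_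
    rw [hdL y hy] at hv
    have h1 := O.pr_imm _ hy.2 _ hv
    have h2 := tcc_cancel (symm_mem hy.1) v
    rw [h1, map_zero] at h2
    exact h2.symm
  have hpb : ∀ y ∈ U, Pull_129.pb1 (fun y => O.pr ((chartAt E4 x).symm y)) t y = rep1 x s y := by
    intro y hy
    ext u
    rw [Pull_129.pb1_apply, hdL y hy, rep1_apply, ← ht _ hy.2]
    rfl
  have hq : chartAt E4 x x ∈ U := by
    refine ⟨mem_chart_target E4 x, ?_⟩
    show (chartAt E4 x).symm (chartAt E4 x x) ∈ good O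
    rw [(chartAt E4 x).left_inv (mem_chart_source E4 x)]
    exact hx
  have hev : Pull_129.pb1 (fun y => O.pr ((chartAt E4 x).symm y)) t =ᶠ[𝓝 (chartAt E4 x x)]
      rep1 x s := by
    filter_upwards [hU.mem_nhds hq] with y hy
    exact hpb y hy
  have h := cl1_of_pb hU hΦ hb hq (s := t)
    ((hs1.at (mem_chart_target E4 x)).congr_of_eventuallyEq hev)
    (by rw [d1_congr hev]; exact hs2 x _ (mem_chart_target E4 x))
  simp only [(chartAt E4 x).left_inv (mem_chart_source E4 x)] at h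
  exact h

/-- the descended form vanishes near the removed sets. -/
lemma zero_descend {s : F1 E4 X} (hs : ∀ x ∈ Kn O, at1 s x = 0) {t : F1 E4 M}
    (ht : ∀ x ∈ good O, (at1 t (O.pr x)).comp (PB_604.D1 E4 E4 O.pr x) = at1 s x)
    (ht0 : ∀ y, (∀ x ∈ good O, O.pr x ≠ y) → at1 t y = 0) (i : Fin m) :
    ∀ y ∈ K.C i ∪ K.phi i '' PB (1 / 2), at1 t y = 0 := by
  rintro y (hy | ⟨z, hz, rfl⟩)
  · exact ht0 y fun x hx h => O.pr_out x hx i (h ▸ hy)
  · have hz1 : z ∈ PB 1 := ⟨hz.1, hz.2.trans (by norm_num)⟩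
    have h1 := ht _ (ch_good O (i := i) hz1)
    rw [O.pr_ch i z hz1, hs (O.ch i z) (mem_iUnion.2 ⟨i, mem_image_of_mem _
      (mem_closedBall_zero_iff.2 hz.2.le)⟩)] at h1
    exact cancel (bij_pr O (ch_good O (i := i) hz1)).2 (by rw [h1]; rfl)

/-- the descended form is closed. -/
lemma closed_descend {s : F1 E4 X} (hs : Closed1 s) (hs0 : ∀ x ∈ Kn O, at1 s x = 0)
    {t : F1 E4 M}
    (ht : ∀ x ∈ good O, (at1 t (O.pr x)).comp (PB_604.D1 E4 E4 O.pr x) = at1 s x)
    (ht0 : ∀ y, (∀ x ∈ good O, O.pr x ≠ y) → at1 t y = 0) : Closed1 t := by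
  rw [closed1_iff_cl1]
  intro y
  by_cases hy : ∃ i, y ∈ K.C i
  · obtain ⟨i, hi⟩ := hy
    refine (cl1_zero y).congr ?_
    filter_upwards [(K.nbh i (1 / 2) (by norm_num) (by norm_num)).mem_nhds (Or.inl hi)] with z hz
    exact zero_descend O hs0 ht ht0 i z hz
  · push Not at hy
    obtain ⟨x, hx, rfl⟩ := O.pr_surj y hy
    exact cl1_descend O hs ht hx

/-! #### the function on `X` -/

/-- a function on `M`, locally constant near the removed sets, is constant on the necks. -/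
lemma const_neck {h : M → ℝ} (hh : SmoothF E4 h) (i : Fin m)
    (h0 : ∀ y ∈ K.C i ∪ K.phi i '' PB (1 / 2), at1 (dF (E := E4) h) y = 0) :
    ∃ c : ℝ, ∀ z ∈ PB (1 / 2), h (K.phi i z) = c := by
  have hsub : PB (1 / 2) ⊆ PB 1 := fun z hz => ⟨hz.1, hz.2.trans (by norm_num)⟩
  have hat : ∀ z ∈ PB (1 / 2), ContMDiffAt 𝓘(ℝ, E4) 𝓘(ℝ, E4) ∞ (K.phi i) z := fun z hz =>
    (K.smooth i).contMDiffAt ((isOpen_PB 1).mem_nhds (hsub hz))
  refine IsOpen.exists_is_const_of_fderiv_eq_zero (𝕜 := ℝ) (f := fun z => h (K.phi i z))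
    (isOpen_PB (1 / 2)) (preconn_PB (1 / 2)) ?_ ?_
  · intro z hz
    exact ((Pull_129.comp_contDiffAt (hat z hz) (mem_chart_source E4 _)
      (hh.at (mem_chart_target E4 _))).differentiableAt infty_ne_zero).differentiableWithinAt
  · intro z hz
    have h1 := Pull_129.pb1_dF (hat z hz) hh
    show fderiv ℝ (fun z => h (K.phi i z)) z = 0
    rw [← h1]
    ext v
    rw [Pull_129.pb1_apply, h0 _ (Or.inr (mem_image_of_mem _ hz))]
    rfl

/-- lift of a function on `M` which is constant near the removed sets. -/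
lemma lift_fun {h : M → ℝ} (hh : SmoothF E4 h) {c : Fin m → ℝ}
    (hc : ∀ i, ∀ z ∈ PB (1 / 2), h (K.phi i z) = c i) :
    ∃ H : X → ℝ, SmoothF E4 H ∧ (∀ i, ∀ z ∈ Metric.ball (0 : E4) (1 / 2),
      at1 (dF (E := E4) H) (O.ch i z) = 0) ∧
      ∀ x ∈ good O, at1 (dF (E := E4) H) x =
        (at1 (dF (E := E4) h) (O.pr x)).comp (PB_604.D1 E4 E4 O.pr x) := by
  classical
  let H : X → ℝ := fun x => if hx : ∃ i, x = O.ch i 0 then c hx.choose else h (O.pr x)
  have hH0 : ∀ i, H (O.ch i 0) = c i := by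
    intro i
    have hx : ∃ j, O.ch i 0 = O.ch j 0 := ⟨i, rfl⟩
    have h1 : H (O.ch i 0) = c hx.choose := dif_pos hx
    rw [h1, (ch_uniq O zero_mem zero_mem hx.choose_spec).1.symm]
  have hH1 : ∀ x ∈ good O, H x = h (O.pr x) := by
    intro x hx
    refine dif_neg ?_
    rintro ⟨i, hi⟩
    exact hx i hi
  have hH2 : ∀ i, ∀ z ∈ Metric.ball (0 : E4) (1 / 2), H (O.ch i z) = c i := by
    intro i z hz
    by_cases hz0 : z = 0
    · rw [hz0, hH0]
    · have hz2 : z ∈ PB (1 / 2) := ⟨hz0, mem_ball_zero_iff.1 hz⟩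
      have hz1 : z ∈ PB 1 := ⟨hz0, hz2.2.trans (by norm_num)⟩
      rw [hH1 _ (ch_good O hz1), O.pr_ch i z hz1, hc i z hz2]
  have hev : ∀ i, ∀ z ∈ Metric.ball (0 : E4) (1 / 2), H =ᶠ[𝓝 (O.ch i z)] fun _ => c i := by
    intro i z hz
    filter_upwards [(O.ch_open i (1 / 2) (by norm_num) (by norm_num)).mem_nhds
      (mem_image_of_mem _ hz)] with y hy
    obtain ⟨w, hw, rfl⟩ := hy
    exact hH2 i w hw
  have hev2 : ∀ x ∈ good O, H =ᶠ[𝓝 x] h ∘ O.pr := by
    intro x hx
    filter_upwards [(isOpen_good O).mem_nhds hx] with y hy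
    exact hH1 y hy
  have hhM : ContMDiff 𝓘(ℝ, E4) 𝓘(ℝ, ℝ) ∞ h := (smoothF_iff h).2 hh
  refine ⟨H, Loc_524.smoothF_iff_smAt.2 fun x => ?_, fun i z hz => ?_, fun x hx => ?_⟩
  · by_cases hx : x ∈ good O
    · refine Loc_524.SmAtF.congr ?_ (hev2 x hx)
      exact (contMDiffAt_F (mem_chart_source E4 x) _).1 ((hhM _).comp x (pr_at O hx))
    · have : ∃ i, x = O.ch i 0 := by
        by_contra hcon
        push Not at hcon
        exact hx hcon
      obtain ⟨i, rfl⟩ := this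
      exact Loc_524.SmAtF.congr (Loc_524.smAtF_of_smooth (smoothF_const (E := E4) (c i)) _)
        (hev i 0 (Metric.mem_ball_self (by norm_num)))
  · rw [Loc_524.dF_congr (hev i z hz)]
    show fderiv ℝ (fun _ => c i) _ = 0
    exact (hasFDerivAt_const (c i) _).fderiv
  · rw [Loc_524.dF_congr (hev2 x hx), dF_eq_D1, dF_eq_D1]
    exact PB_604.D1_comp (E := E4) (F := E4) (G := ℝ) ((pr_at O hx).of_le one_le_infty)
      ((hhM _).of_le one_le_infty)

end Cover

/-- **MINUSX**: if `b₁(M) = 0` then the involution of the double cover acts by `-1` on `H¹`. -/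
theorem minusx : MINUSX.{u} := by
  intro M _ _ _ _ _ _ hM m K X _ _ _ _ _ _ O s hs
  have hpb : Closed1 (TorMin_510.pb1 O.io s) := TorMin_510.Closed1.pb O.io_smooth hs
  -- the even form
  obtain ⟨r, hr⟩ : ∃ r : F1 E4 X, r = s + TorMin_510.pb1 O.io s := ⟨_, rfl⟩
  have hrc : Closed1 r := by rw [hr]; exact TorMin_510.Closed1.add hs hpb
  have hrv : ∀ x v, at1 r x v = at1 s x v + at1 s (O.io x) (dself O.io x v) := by
    intro x v
    rw [hr]
    rfl
  have hre : Even1 O r := by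
    intro x v
    rw [hrv, hrv, O.io_io, TorMin_510.dself_dself O.io_smooth O.io_io, add_comm]
  obtain ⟨F, hF, hFe, hFr⟩ := exists_F1 O hrc hre
  -- the even form, zero near the new points
  obtain ⟨q, hq⟩ : ∃ q : F1 E4 X, q = r + (-1 : ℝ) • dF F := ⟨_, rfl⟩
  have hqc : Closed1 q := by
    rw [hq]
    exact TorMin_510.Closed1.add hrc (TorMin_510.Closed1.smul _ (TorMin_510.closed1_dF hF))
  have hqv : ∀ x v, at1 q x v = at1 r x v + (-1 : ℝ) * at1 (dF F) x v := by
    intro x v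
    rw [hq]
    rfl
  have hqe : Even1 O q := by
    intro x v
    have h1 : at1 (dF (E := E4) F) (O.io x) (dself O.io x v) = at1 (dF F) x v := by
      have h2 := TorMin_510.pb1_dF O.io_smooth hF
      have h3 : (fun x => F (O.io x)) = F := funext hFe
      rw [h3] at h2
      rw [← TorMin_510.at1_pb1, h2]
    rw [hqv, hqv, hre x v, h1]
  have hq0 : ∀ x ∈ Kn O, at1 q x = 0 := by
    intro x hx
    ext v
    rw [hqv, hFr x hx]
    show _ = (0 : ℝ)
    ring
  -- descent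
  obtain ⟨t, ht, ht0⟩ := descend O hqe
  obtain ⟨h, hh, hth⟩ := hM t (closed_descend O hqc hq0 ht ht0)
  have hz : ∀ i, ∃ c : ℝ, ∀ z ∈ PB (1 / 2), h (K.phi i z) = c := by
    intro i
    refine const_neck hh i ?_
    rw [← hth]
    exact zero_descend O hq0 ht ht0 i
  choose c hc using hz
  obtain ⟨H, hH, hH0, hH1⟩ := lift_fun O hh hc
  have hHq : ∀ x v, at1 (dF (E := E4) H) x v = at1 q x v := by
    intro x v
    by_cases hx : x ∈ good O
    · rw [hH1 x hx, ← hth, ht x hx]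
    · have : ∃ i, x = O.ch i 0 := by
        by_contra hcon
        push Not at hcon
        exact hx hcon
      obtain ⟨i, rfl⟩ := this
      rw [hH0 i 0 (Metric.mem_ball_self (by norm_num)), hq0]
      exact mem_iUnion.2 ⟨i, mem_image_of_mem _ (Metric.mem_closedBall_self (by norm_num))⟩
  refine ⟨fun x => F x + H x, hF.add hH, fun x v => ?_⟩
  rw [TorMin_510.dF_add hF hH]
  have h1 : at1 (dF (E := E4) F + dF H) x v = at1 (dF F) x v + at1 (dF H) x v := rfl
  rw [h1, hHq, hqv, hrv]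
  ring

end

end Crest.Agent.R235.KumMinus_918
end

-- ▼ part R235/KumK4T_305

/-!
Row 235 (S0364), package KUM, node K4T: the double cover is of torus type.

`COC` = locally constant `U(1)` cocycles on a closed manifold of K3 type are coboundaries
(helper57, from `FLATK`).  `k4t_of : DICH → COC → K4T`.
-/

set_option autoImplicit false
set_option maxSynthPendingDepth 3

open Set Function Filter
open scoped Manifold ContDiff Topology

universe u

namespace Crest.Agent.R235.KumK4T_305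

open Crest.Agent.R240 Crest.Agent.R240.Ch Crest.Agent.R235 Crest.Agent.R235.KT_604

noncomputable section

/-- locally constant `U(1)` cocycles are coboundaries (K3 type). -/
def COC : Prop :=
  ∀ (X : Type u) [TopologicalSpace X] [T2Space X] [CompactSpace X] [ConnectedSpace X]
    [ChartedSpace E4 X] [IsManifold 𝓘(ℝ, E4) ∞ X] (w : Trip X), Pos3 w → K3Type (w 0) →
    ∀ (n : ℕ) (U : Fin n → Set X) (g : Fin n → Fin n → X → ℂ), (∀ a, IsOpen (U a)) →
    (∀ x, ∃ a, x ∈ U a) → (∀ a b, ∀ x ∈ U a, x ∈ U b → ‖g a b x‖ = 1) →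
    (∀ a b, ∀ x ∈ U a, x ∈ U b → ∀ᶠ y in 𝓝 x, g a b y = g a b x) →
    (∀ a b c, ∀ x ∈ U a, x ∈ U b → x ∈ U c → g a b x * g b c x = g a c x) →
    ∃ c : Fin n → X → ℂ, (∀ a, ∀ x ∈ U a, ‖c a x‖ = 1) ∧
      (∀ a, ∀ x ∈ U a, ∀ᶠ y in 𝓝 x, c a y = c a x) ∧
      ∀ a b, ∀ x ∈ U a, x ∈ U b → c a x = g a b x * c b x

/-- helper57's theorem. -/
theorem coc (hF : FLATK.{u}) : COC.{u} := by
  intro X _ _ _ _ _ _ w hw hk n U g hU hcov h1 hl hcc
  obtain ⟨c, hc1, hc2⟩ := KumTwC_57.ktwc hF hw hk (U := U) (g := g)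
    ⟨hU, hcov, fun a b x ha hb => h1 a b x ha hb, fun a b x ha hb => hl a b x ha hb,
      fun a b c x ha hb hc => hcc a b c x ha hb hc⟩
  refine ⟨c, fun a x hx => (hc1 a x hx).1, fun a x hx => (hc1 a x hx).2, ?_⟩
  intro a b x ha hb
  have h3 := (hc1 b x hb).1
  have h4 : (starRingEnd ℂ) (c b x) * c b x = 1 := by
    rw [mul_comm, Complex.mul_conj, Complex.normSq_eq_norm_sq, h3]
    norm_num
  rw [hc2 a b x ha hb, mul_assoc, h4, mul_one]

/-! ### pure topology -/

/-- the inverse of an injective continuous map on a compact set is continuous. -/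
theorem continuousOn_invFunOn {A B : Type*} [TopologicalSpace A] [TopologicalSpace B]
    [T2Space B] [Nonempty A] {f : A → B} {K L : Set A} (hK : IsCompact K) (hKL : K ⊆ L)
    (hf : ContinuousOn f K) (hi : InjOn f L) : ContinuousOn (invFunOn f L) (f '' K) := by
  rw [continuousOn_iff_isClosed]
  intro t ht
  refine ⟨f '' (K ∩ t), ((hK.inter_right ht).image_of_continuousOn
    (hf.mono inter_subset_left)).isClosed, ?_⟩
  ext y
  constructor
  · rintro ⟨h1, ⟨z, hz, rfl⟩⟩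
    have h2 : invFunOn f L (f z) = z := hi.leftInvOn_invFunOn (hKL hz)
    refine ⟨⟨z, ⟨hz, ?_⟩, rfl⟩, ⟨z, hz, rfl⟩⟩
    rw [mem_preimage, h2] at h1
    exact h1
  · rintro ⟨⟨z, ⟨hz, hzt⟩, rfl⟩, _⟩
    refine ⟨?_, ⟨z, hz, rfl⟩⟩
    rw [mem_preimage, hi.leftInvOn_invFunOn (hKL hz)]
    exact hzt

/-- two double-valued descriptions differ by a sign. -/
theorem pair_sign {V : Type*} [AddCommGroup V] {v w : V} {D : Set V} (hv : D = {v, -v})
    (hw : D = {w, -w}) : v = w ∨ v = -w := by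
  have : v ∈ D := by rw [hv]; simp
  rw [hw] at this
  simpa using this

theorem eq_zero_of_eq_neg {N : ℕ} {v : CN N} (h : v = -v) : v = 0 := by
  have h1 : v + v = 0 := by
    nth_rewrite 1 [h]
    exact neg_add_cancel v
  have h2 : (2 : ℂ) • v = 0 := by rw [two_smul, h1]
  exact (smul_eq_zero.1 h2).resolve_left two_ne_zero

theorem eventually_ne_of_ne {A : Type*} [TopologicalSpace A] {N : ℕ} {f g : A → CN N} {x : A}
    (hf : ContinuousAt f x) (hg : ContinuousAt g x) (h : f x ≠ g x) : ∀ᶠ y in 𝓝 x, f y ≠ g y := by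
  have h1 : ContinuousAt (fun y => f y - g y) x := hf.sub hg
  filter_upwards [h1.eventually_ne (sub_ne_zero.2 h)] with y hy h2
  exact hy (sub_eq_zero.2 h2)

set_option linter.unusedSectionVars false

section Main

variable {M : Type u} [TopologicalSpace M] [ChartedSpace E4 M] {m : ℕ} {K : Neck M m}
  {t : Twist K (fun _ => -1)} {σ : Fin m → ℝ} (s : Twist K σ)
  {X : Type u} [TopologicalSpace X] [T2Space X] [ChartedSpace E4 X] (O : KOut (K.kin t) X)

/-- the complement of the new points. -/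
def Xo : Set X := {x | ∀ i, x ≠ O.ch i 0}

theorem isOpen_Xo : IsOpen (Xo O) := by
  have : (Xo O) = (Set.range fun i => O.ch i 0)ᶜ := by
    ext x
    simp [Xo, eq_comm]
  rw [this]
  exact (Set.finite_range _).isClosed.isOpen_compl

theorem ch_mem_Xo {i : Fin m} {z : E4} (hz : z ∈ PB 1) : O.ch i z ∈ Xo O := by
  intro j hj
  have hz1 : z ∈ Metric.ball (0 : E4) 1 := by simpa using hz.2
  by_cases hij : i = j
  · subst hij
    exact hz.1 (O.ch_inj i hz1 (Metric.mem_ball_self one_pos) hj)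
  · exact O.ch_sep i j hij z hz1 0 (Metric.mem_ball_self one_pos) hj

theorem io_mem_Xo {x : X} (hx : x ∈ Xo O) : O.io x ∈ Xo O := by
  intro i hi
  have h1 := O.io_io x
  have h2 := O.io_ch i 0 (Metric.mem_ball_self one_pos)
  rw [hi, h2, neg_zero] at h1
  exact hx i h1.symm

/-- local sections of the pulled back double-valued function. -/
theorem loc_sec (x : X) : ∃ (U : Set X) (v : X → CN s.N), IsOpen U ∧ x ∈ U ∧
    ContinuousOn v (U ∩ Xo O) ∧
    (∀ y ∈ U, y ∈ Xo O → v y ≠ 0 ∧ s.tw (O.pr y) = {v y, -v y}) ∧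
    (∀ i, O.ch i 0 ∈ U → x = O.ch i 0) ∧
    (∀ i, x = O.ch i 0 → ∀ z ∈ PB (1 / 2), O.ch i z ∈ U ∧ v (O.ch i z) = s.psi i z) := by
  by_cases hx : x ∈ Xo O
  · obtain ⟨U₀, hU₀, v₀, hv₀, hU⟩ := s.tw_loc (O.pr x) (fun i => O.pr_out x hx i)
    have hprc : ContinuousOn O.pr (Xo O) := O.pr_smooth.continuousOn
    refine ⟨Xo O ∩ O.pr ⁻¹' (interior U₀), fun y => v₀ (O.pr y),
      hprc.isOpen_inter_preimage (isOpen_Xo O) isOpen_interior,
      ⟨hx, mem_interior_iff_mem_nhds.2 hU₀⟩, ?_, ?_, ?_, ?_⟩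
    · refine hv₀.comp (hprc.mono inter_subset_right) ?_
      intro y hy
      exact interior_subset hy.1.2
    · intro y hy _
      exact hU _ (interior_subset hy.2)
    · intro i hi
      exact absurd rfl (hi.1 i)
    · intro i hi
      exact absurd hi (hx i)
  · have : ∃ i, x = O.ch i 0 := by
      by_contra h
      push Not at h
      exact hx h
    obtain ⟨i, rfl⟩ := this
    have hsub : Metric.closedBall (0 : E4) (1 / 2) ⊆ Metric.ball 0 1 :=
      Metric.closedBall_subset_ball (by norm_num)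
    have hc : ContinuousOn (O.ch i) (Metric.closedBall 0 (1 / 2)) :=
      (O.ch_smooth i).continuousOn.mono hsub
    have hinv := continuousOn_invFunOn (isCompact_closedBall (0 : E4) (1 / 2)) hsub hc (O.ch_inj i)
    have hleft : ∀ z ∈ Metric.ball (0 : E4) 1,
        invFunOn (O.ch i) (Metric.ball 0 1) (O.ch i z) = z :=
      fun z hz => (O.ch_inj i).leftInvOn_invFunOn hz
    -- points of the punctured image
    have hpt : ∀ y ∈ O.ch i '' Metric.ball 0 (1 / 2), y ∈ Xo O →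
        ∃ z ∈ PB (1 / 2), y = O.ch i z := by
      rintro y ⟨z, hz, rfl⟩ hy
      refine ⟨z, ⟨?_, by simpa using hz⟩, rfl⟩
      rintro rfl
      exact hy i rfl
    have hPB : ∀ z ∈ PB (1 / 2), z ∈ PB 1 := fun z hz => ⟨hz.1, by linarith [hz.2]⟩
    have hPB' : ∀ z ∈ PB (1 / 2), z ∈ Metric.ball (0 : E4) 1 := fun z hz => by
      simpa using (hPB z hz).2
    refine ⟨O.ch i '' Metric.ball 0 (1 / 2),
      fun y => s.psi i (invFunOn (O.ch i) (Metric.ball 0 1) y),
      O.ch_open i (1 / 2) (by norm_num) (by norm_num),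
      ⟨0, Metric.mem_ball_self (by norm_num), rfl⟩, ?_, ?_, ?_, ?_⟩
    · refine (s.psi_cont i).comp (hinv.mono ?_) ?_
      · intro y hy
        exact image_mono Metric.ball_subset_closedBall hy.1
      · intro y hy
        obtain ⟨z, hz, rfl⟩ := hpt y hy.1 hy.2
        rw [hleft z (hPB' z hz)]
        exact hPB z hz
    · intro y hy hyo
      obtain ⟨z, hz, rfl⟩ := hpt y hy hyo
      simp only [hleft z (hPB' z hz)]
      have h1 := s.psi_mem i z (hPB z hz)
      have h2 : O.pr (O.ch i z) = K.phi i z := O.pr_ch i z (hPB z hz)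
      rw [h2]
      obtain ⟨U₀, hU₀, v₀, hv₀, hU⟩ := s.tw_loc (K.phi i z) (fun j => K.out i j z (hPB z hz))
      obtain ⟨h3, h4⟩ := hU _ (mem_of_mem_nhds hU₀)
      rw [h4] at h1
      rcases h1 with h1 | h1
      · rw [h1, h4]
        exact ⟨h3, rfl⟩
      · have h5 : s.psi i z = - v₀ (K.phi i z) := h1
        rw [h5, h4]
        refine ⟨neg_ne_zero.2 h3, ?_⟩
        rw [neg_neg, pair_comm]
    · rintro j ⟨z, hz, hzj⟩
      have hz1 : z ∈ Metric.ball (0 : E4) 1 :=
        Metric.ball_subset_ball (by norm_num) hz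
      by_cases hij : i = j
      · rw [hij]
      · exact absurd hzj (O.ch_sep i j hij z hz1 0 (Metric.mem_ball_self one_pos))
    · intro j hj z hz
      have hij : i = j := by
        by_contra hij
        exact O.ch_sep i j hij 0 (Metric.mem_ball_self one_pos) 0 (Metric.mem_ball_self one_pos) hj
      subst hij
      refine ⟨⟨z, by simpa using hz.2, rfl⟩, ?_⟩
      simp only [hleft z (hPB' z hz)]

/-- the global section of the pulled back double-valued function. -/
theorem glob_sec (hC : COC.{u}) [CompactSpace X] [ConnectedSpace X]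
    [IsManifold 𝓘(ℝ, E4) ∞ X] (w : Trip X) (hw : Pos3 w) (hk : K3Type (w 0)) :
    ∃ W : X → CN s.N, ContinuousOn W (Xo O) ∧
      (∀ y ∈ Xo O, W y ≠ 0 ∧ s.tw (O.pr y) = {W y, -W y}) ∧
      ∀ i, ∃ (r : ℝ) (η : ℂ), 0 < r ∧ r ≤ 1 / 2 ∧
        ∀ z ∈ PB r, W (O.ch i z) = η • s.psi i z := by
  classical
  choose U v hUo hxU hvc hvD hsp hch using loc_sec s O
  obtain ⟨T, -, hT⟩ := isCompact_univ.elim_nhds_subcover U
    (fun x _ => (hUo x).mem_nhds (hxU x))
  obtain ⟨n, a, hainj, hacov⟩ : ∃ (n : ℕ) (a : Fin n → X), Injective a ∧ ∀ x, ∃ j, x ∈ U (a j) := by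
    refine ⟨T.card, fun j => (T.equivFin.symm j : X), ?_, ?_⟩
    · intro j k hjk
      exact T.equivFin.symm.injective (Subtype.ext hjk)
    · intro x
      have := hT (mem_univ x)
      simp only [mem_iUnion] at this
      obtain ⟨y, hy, hxy⟩ := this
      refine ⟨T.equivFin ⟨y, hy⟩, ?_⟩
      simpa using hxy
  -- different sets meet in `Xo`
  have hover : ∀ j k, j ≠ k → ∀ x, x ∈ U (a j) → x ∈ U (a k) → x ∈ Xo O := by
    intro j k hjk x hj hk i hi
    rw [hi] at hj hk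
    exact hjk (hainj ((hsp _ i hj).trans (hsp _ i hk).symm))
  set g : Fin n → Fin n → X → ℂ := fun j k x => if v (a j) x = v (a k) x then 1 else -1 with hg
  have hgv : ∀ j k, ∀ x, x ∈ U (a j) → x ∈ U (a k) → x ∈ Xo O →
      v (a j) x = g j k x • v (a k) x := by
    intro j k x hj hk hx
    by_cases h : v (a j) x = v (a k) x
    · simp [hg, h]
    · have h1 := pair_sign (hvD _ x hj hx).2 (hvD _ x hk hx).2
      rcases h1 with h1 | h1
      · exact absurd h1 h
      · simp only [hg, if_neg h]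
        rw [h1]
        simp
  have hgself : ∀ j x, g j j x = 1 := by
    intro j x
    simp [hg]
  have hgsq : ∀ j k x, g j k x * g j k x = 1 := by
    intro j k x
    simp only [hg]
    split_ifs <;> norm_num
  have hgnorm : ∀ j k x, ‖g j k x‖ = 1 := by
    intro j k x
    simp only [hg]
    split_ifs <;> simp
  have hvat : ∀ j, ∀ x, x ∈ U (a j) → x ∈ Xo O → ContinuousAt (v (a j)) x := by
    intro j x hj hx
    exact (hvc (a j)).continuousAt (((hUo _).inter (isOpen_Xo O)).mem_nhds ⟨hj, hx⟩)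
  have hgloc : ∀ j k, ∀ x ∈ U (a j), x ∈ U (a k) → ∀ᶠ y in 𝓝 x, g j k y = g j k x := by
    intro j k x hj hk
    by_cases hjk : j = k
    · subst hjk
      exact Eventually.of_forall fun y => by rw [hgself, hgself]
    · have hx := hover j k hjk x hj hk
      have hc1 := hvat j x hj hx
      have hc2 := hvat k x hk hx
      have hev : ∀ᶠ y in 𝓝 x, y ∈ U (a j) ∧ y ∈ U (a k) ∧ y ∈ Xo O := by
        filter_upwards [(hUo _).mem_nhds hj, (hUo _).mem_nhds hk, (isOpen_Xo O).mem_nhds hx]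
          with y h1 h2 h3 using ⟨h1, h2, h3⟩
      by_cases h : v (a j) x = v (a k) x
      · have h2 : v (a j) x ≠ - v (a k) x := by
          intro h3
          have h4 : v (a k) x = - v (a k) x := h ▸ h3
          exact (hvD _ x hk hx).1 (eq_zero_of_eq_neg h4)
        have h3 : ∀ᶠ y in 𝓝 x, v (a j) y ≠ - v (a k) y :=
          eventually_ne_of_ne hc1 hc2.neg h2
        filter_upwards [h3, hev] with y hy hy2
        have h5 : v (a j) y = v (a k) y := by
          rcases pair_sign (hvD _ y hy2.1 hy2.2.2).2 (hvD _ y hy2.2.1 hy2.2.2).2 with h6 | h6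
          · exact h6
          · exact absurd h6 hy
        simp only [hg, if_pos h, if_pos h5]
      · have h3 : ∀ᶠ y in 𝓝 x, v (a j) y ≠ v (a k) y := eventually_ne_of_ne hc1 hc2 h
        filter_upwards [h3] with y hy
        simp only [hg, if_neg h, if_neg hy]
  have hgcoc : ∀ j k l, ∀ x ∈ U (a j), x ∈ U (a k) → x ∈ U (a l) →
      g j k x * g k l x = g j l x := by
    intro j k l x hj hk hl
    by_cases hx : x ∈ Xo O
    · have h1 := hgv j k x hj hk hx
      have h2 := hgv k l x hk hl hx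
      have h3 := hgv j l x hj hl hx
      rw [h2, smul_smul, h3] at h1
      have h4 : (g j k x * g k l x - g j l x) • v (a l) x = 0 := by
        rw [sub_smul, ← h1, sub_self]
      rcases smul_eq_zero.1 h4 with h5 | h5
      · exact sub_eq_zero.1 h5
      · exact absurd h5 (hvD _ x hl hx).1
    · have h1 : j = k := by
        by_contra h
        exact hx (hover j k h x hj hk)
      have h2 : k = l := by
        by_contra h
        exact hx (hover k l h x hk hl)
      subst h1 h2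
      rw [hgself, one_mul]
  obtain ⟨c, hc1, hcloc, hcg⟩ := hC X w hw hk n (fun j => U (a j)) g (fun j => hUo _) hacov
    (fun j k x _ _ => hgnorm j k x) hgloc hgcoc
  choose idx hidx using hacov
  -- the square is constant
  have hsq : ∀ j k, ∀ x, x ∈ U (a j) → x ∈ U (a k) → c j x ^ 2 = c k x ^ 2 := by
    intro j k x hj hk
    rw [hcg j k x hj hk, mul_pow, pow_two (g j k x), hgsq, one_mul]
  have hlc : IsLocallyConstant (fun x => c (idx x) x ^ 2) := by
    rw [IsLocallyConstant.iff_eventually_eq]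
    intro x
    filter_upwards [hcloc (idx x) x (hidx x), (hUo (a (idx x))).mem_nhds (hidx x)] with y hy hy2
    rw [hsq (idx y) (idx x) y (hidx y) hy2, hy]
  obtain ⟨x₀⟩ : Nonempty X := inferInstance
  have hconst : ∀ x, c (idx x) x ^ 2 = c (idx x₀) x₀ ^ 2 :=
    fun x => hlc.apply_eq_of_preconnectedSpace x x₀
  obtain ⟨κ, hκ⟩ := IsAlgClosed.exists_pow_nat_eq (c (idx x₀) x₀ ^ 2) (n := 2) (by norm_num)
  have hc0 : c (idx x₀) x₀ ≠ 0 := by
    intro h
    have := hc1 _ x₀ (hidx x₀)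
    rw [h] at this
    simp at this
  have hκ0 : κ ≠ 0 := by
    intro h
    rw [h] at hκ
    exact pow_ne_zero 2 hc0 (by rw [← hκ]; norm_num)
  have hεsq : ∀ j x, x ∈ U (a j) → (c j x / κ) = 1 ∨ (c j x / κ) = -1 := by
    intro j x hj
    refine sq_eq_one_iff.1 ?_
    rw [div_pow, hκ, hsq j (idx x) x hj (hidx x), hconst x]
    exact div_self (pow_ne_zero 2 hc0)
  have hWj : ∀ j, ∀ y, y ∈ U (a j) → y ∈ Xo O →
      (c (idx y) y / κ) • v (a (idx y)) y = (c j y / κ) • v (a j) y := by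
    intro j y hj hy
    rw [hgv (idx y) j y (hidx y) hj hy, hcg (idx y) j y (hidx y) hj, smul_smul]
    congr 1
    have := hgsq (idx y) j y
    rw [mul_div_assoc, mul_comm (g (idx y) j y) (c j y / κ), mul_assoc, this, mul_one]
  refine ⟨fun y => (c (idx y) y / κ) • v (a (idx y)) y, ?_, ?_, ?_⟩
  · intro x hx
    refine ContinuousAt.continuousWithinAt ?_
    have h1 : ContinuousAt (fun y => (c (idx x) x / κ) • v (a (idx x)) y) x :=
      (hvat _ x (hidx x) hx).const_smul (c (idx x) x / κ)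
    refine h1.congr ?_
    filter_upwards [hcloc (idx x) x (hidx x), (hUo (a (idx x))).mem_nhds (hidx x),
      (isOpen_Xo O).mem_nhds hx] with y hy1 hy2 hy3
    rw [hWj (idx x) y hy2 hy3, hy1]
  · intro y hy
    obtain ⟨h1, h2⟩ := hvD (a (idx y)) y (hidx y) hy
    rcases hεsq (idx y) y (hidx y) with h3 | h3
    · simp only [h3, one_smul]
      exact ⟨h1, h2⟩
    · simp only [h3, neg_smul, one_smul, neg_neg]
      exact ⟨neg_ne_zero.2 h1, by rw [h2, pair_comm]⟩
  · intro i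
    have hai : a (idx (O.ch i 0)) = O.ch i 0 := hsp _ i (hidx _)
    have h1 := hcloc (idx (O.ch i 0)) (O.ch i 0) (hidx _)
    obtain ⟨V, hV, hVo, hVm⟩ := mem_nhds_iff.1 h1
    obtain ⟨r, hr, hr1, hrV⟩ := O.ch_nhds i V hVo hVm
    refine ⟨min r (1 / 2), c (idx (O.ch i 0)) (O.ch i 0) / κ, lt_min hr (by norm_num),
      min_le_right _ _, ?_⟩
    intro z hz
    have hz2 : z ∈ PB (1 / 2) := ⟨hz.1, lt_of_lt_of_le hz.2 (min_le_right _ _)⟩
    have hz1 : z ∈ PB 1 := ⟨hz.1, lt_of_lt_of_le hz2.2 (by norm_num)⟩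
    obtain ⟨h2, h3⟩ := hch (a (idx (O.ch i 0))) i hai z hz2
    have h4 : O.ch i z ∈ V := hrV ⟨z, by
      have := lt_of_lt_of_le hz.2 (min_le_left r (1 / 2))
      simpa using this, rfl⟩
    have h5 : c (idx (O.ch i 0)) (O.ch i z) = c (idx (O.ch i 0)) (O.ch i 0) := hV h4
    change (c (idx (O.ch i z)) (O.ch i z) / κ) • v (a (idx (O.ch i z))) (O.ch i z) = _
    rw [hWj (idx (O.ch i 0)) (O.ch i z) h2 (ch_mem_Xo O hz1), h5, h3]

/-- the monodromies of a double-valued function with a global section are all equal. -/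
theorem sign_eq [ConnectedSpace X] {W : X → CN s.N} (hWc : ContinuousOn W (Xo O))
    (hWD : ∀ y ∈ Xo O, W y ≠ 0 ∧ s.tw (O.pr y) = {W y, -W y})
    (hWch : ∀ i, ∃ (r : ℝ) (η : ℂ), 0 < r ∧ r ≤ 1 / 2 ∧
        ∀ z ∈ PB r, W (O.ch i z) = η • s.psi i z)
    (hσ : ∀ i, σ i = 1 ∨ σ i = -1) (i j : Fin m) (hi : σ i = 1) (hj : σ j = -1) : False := by
  have hWat : ∀ x ∈ Xo O, ContinuousAt W x := fun x hx =>
    hWc.continuousAt ((isOpen_Xo O).mem_nhds hx)
  have hWio : ∀ x ∈ Xo O, ContinuousAt (fun y => W (O.io y)) x := by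
    intro x hx
    exact ContinuousAt.comp (hWat _ (io_mem_Xo O hx)) O.io_smooth.continuous.continuousAt
  have hdich : ∀ x ∈ Xo O, W (O.io x) = W x ∨ W (O.io x) = - W x := by
    intro x hx
    refine pair_sign (hWD _ (io_mem_Xo O hx)).2 ?_
    rw [O.pr_io x hx]
    exact (hWD x hx).2
  -- the values near the new points
  have hnear : ∀ k, ∀ᶠ y in 𝓝 (O.ch k 0), y ∈ Xo O → W (O.io y) = σ k • W y := by
    intro k
    obtain ⟨r, η, hr, hr2, h⟩ := hWch k
    have h1 : O.ch k '' Metric.ball 0 r ∈ 𝓝 (O.ch k 0) :=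
      (O.ch_open k r hr (by linarith)).mem_nhds ⟨0, Metric.mem_ball_self hr, rfl⟩
    filter_upwards [h1] with y hy hyo
    obtain ⟨z, hz, rfl⟩ := hy
    have hzr : ‖z‖ < r := by simpa using hz
    have hz0 : z ≠ 0 := by
      rintro rfl
      exact hyo k rfl
    have hzP : z ∈ PB r := ⟨hz0, hzr⟩
    have hzN : -z ∈ PB r := ⟨neg_ne_zero.2 hz0, by rwa [norm_neg]⟩
    have hz1 : z ∈ PB 1 := ⟨hz0, by linarith⟩
    rw [O.io_ch k z (by simpa using hz1.2), h z hzP, h (-z) hzN, s.psi_par k z hz1,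
      smul_comm]
  -- the clopen set
  let P : Set X := {x | (x ∈ Xo O ∧ W (O.io x) = W x) ∨ ∃ k, x = O.ch k 0 ∧ σ k = 1}
  have hch : ∀ x, x ∉ Xo O → ∃ k, x = O.ch k 0 := by
    intro x hx
    by_contra h
    push Not at h
    exact hx h
  have hchinj : ∀ k l, O.ch k 0 = O.ch l 0 → k = l := by
    intro k l h
    by_contra hkl
    exact O.ch_sep k l hkl 0 (Metric.mem_ball_self one_pos) 0 (Metric.mem_ball_self one_pos) h
  have hPo : ∀ x ∈ Xo O, (x ∈ P ↔ W (O.io x) = W x) := by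
    intro x hx
    constructor
    · rintro (h | ⟨k, hk, _⟩)
      · exact h.2
      · exact absurd hk (hx k)
    · intro h
      exact Or.inl ⟨hx, h⟩
  have hPch : ∀ k, (O.ch k 0 ∈ P ↔ σ k = 1) := by
    intro k
    constructor
    · rintro (h | ⟨l, hl, hl1⟩)
      · exact absurd rfl (h.1 k)
      · rw [hchinj k l hl]
        exact hl1
    · intro h
      exact Or.inr ⟨k, rfl, h⟩
  have hloc : ∀ x, ∀ᶠ y in 𝓝 x, (y ∈ P ↔ x ∈ P) := by
    intro x
    by_cases hx : x ∈ Xo O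
    · have hne : W x ≠ - W x := fun h => (hWD x hx).1 (eq_zero_of_eq_neg h)
      rcases hdich x hx with h | h
      · have h2 : ∀ᶠ y in 𝓝 x, W (O.io y) ≠ - W y :=
          eventually_ne_of_ne (hWio x hx) (hWat x hx).neg (by rw [h]; exact hne)
        filter_upwards [h2, (isOpen_Xo O).mem_nhds hx] with y hy hyo
        rw [hPo x hx, hPo y hyo]
        exact ⟨fun _ => h, fun _ => (hdich y hyo).resolve_right hy⟩
      · have h2 : W (O.io x) ≠ W x := by
          rw [h]
          exact fun h3 => hne h3.symm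
        have h3 : ∀ᶠ y in 𝓝 x, W (O.io y) ≠ W y :=
          eventually_ne_of_ne (hWio x hx) (hWat x hx) h2
        filter_upwards [h3, (isOpen_Xo O).mem_nhds hx] with y hy hyo
        rw [hPo x hx, hPo y hyo]
        exact ⟨fun h4 => absurd h4 hy, fun h4 => absurd h4 h2⟩
    · obtain ⟨k, rfl⟩ := hch x hx
      -- near the point `ch k 0`
      have h1 : O.ch k '' Metric.ball 0 1 ∈ 𝓝 (O.ch k 0) :=
        (O.ch_open k 1 one_pos le_rfl).mem_nhds ⟨0, Metric.mem_ball_self one_pos, rfl⟩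
      filter_upwards [hnear k, h1] with y hy hyb
      by_cases hyo : y ∈ Xo O
      · rw [hPo y hyo, hPch k, hy hyo]
        have hW0 := (hWD y hyo).1
        rcases hσ k with h2 | h2
        · rw [h2]
          simp
        · rw [h2]
          constructor
          · intro h3
            exact absurd (eq_zero_of_eq_neg (by simpa using h3.symm)) hW0
          · intro h3
            norm_num at h3
      · obtain ⟨l, rfl⟩ := hch y hyo
        obtain ⟨z, hz, hzl⟩ := hyb
        have hkl : k = l := by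
          by_contra hkl
          exact O.ch_sep k l hkl z hz 0 (Metric.mem_ball_self one_pos) hzl
        rw [hkl]
  have hclopen : IsClopen P := by
    constructor
    · rw [← isOpen_compl_iff, isOpen_iff_mem_nhds]
      intro x hx
      filter_upwards [hloc x] with y hy hyP
      exact hx (hy.1 hyP)
    · rw [isOpen_iff_mem_nhds]
      intro x hx
      filter_upwards [hloc x] with y hy
      exact hy.2 hx
  have huniv : P = univ := hclopen.eq_univ ⟨O.ch i 0, (hPch i).2 hi⟩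
  have : O.ch j 0 ∈ P := by rw [huniv]; trivial
  rw [hPch j, hj] at this
  norm_num at this

end Main

/-- **K4T.** -/
theorem k4t_of (hD : DICHR.{u}) (hC : COC.{u}) : K4T.{u} := by
  intro M _ _ _ _ _ _ m K t I hI hI' hs X _ _ _ _ _ _ O u hu
  rcases hD X u hu with h | h
  · exfalso
    obtain ⟨s⟩ := hs
    obtain ⟨W, h1, h2, h3⟩ := glob_sec s O hC u hu h
    obtain ⟨j, hj⟩ := hI
    obtain ⟨i, hi⟩ : ∃ i, i ∉ I := by
      by_contra hcon
      push Not at hcon
      exact hI' (Finset.eq_univ_iff_forall.2 hcon)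
    refine sign_eq s O h1 h2 h3 ?_ i j (by simp [hi]) (by simp [hj])
    intro k
    by_cases hk : k ∈ I
    · right; simp [hk]
    · left; simp [hk]
  · exact h

/-- **K4T** from `DICHR` and `FLATK`. -/
theorem k4t (hD : DICHR.{u}) (hF : FLATK.{u}) : K4T.{u} := k4t_of hD (coc hF)

end

end Crest.Agent.R235.KumK4T_305
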