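import Crest.Agent.R235.STFProps_861
import Crest.Agent.R240.TopAll
import Crest.Agent.R240.N8

-- ▼ part R235/APX_291
section

/-!
Row 235, package STF (leader helper861), leaf APX (helper291): approximately compatible forms in
the class of a Kaehler current.

* dichotomy (R240 `N2.n2_core`) with `Z` = the forms `t a + exact`;
* if the first alternative fails: `L` kills `a` and the exact forms, `L ≥ 0`, `L F = 1`;
* smoothings `T_e` of `Φ - δ F`: `L T_e → Φ a_L - δ = -δ`, but `liminf L T_e ≥ 0` (zero density).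
-/

set_option autoImplicit false
set_option maxSynthPendingDepth 3

open Set Function Filter MeasureTheory Metric
open scoped Manifold ContDiff Topology ENNReal

universe u

namespace Crest.Agent.R235.Apx_291

open Crest.Agent.R240 Crest.Agent.R240.Ch Crest.Agent.R235.STF_861

noncomputable section

variable {M : Type u} [MetricSpace M] [CompactSpace M] [ChartedSpace E4 M]
    [IsManifold 𝓘(ℝ, E4) ∞ M] [MeasurableSpace M] [BorelSpace M] (D : Dat M)

/-- the forms `t a + exact`. -/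
def ZS (a : X2 M) : Submodule ℝ (X2 M) := St1.ExS M ⊔ Submodule.span ℝ {a}

omit [CompactSpace M] [MeasurableSpace M] [BorelSpace M] in
theorem mem_ZS {a b : X2 M} : b ∈ ZS a ↔ ∃ t : ℝ, IsEx ((b - t • a : X2 M) : F2 E4 M) := by
  unfold ZS
  rw [Submodule.mem_sup]
  constructor
  · rintro ⟨y, hy, z, hz, rfl⟩
    obtain ⟨t, rfl⟩ := Submodule.mem_span_singleton.1 hz
    refine ⟨t, ?_⟩
    rw [add_sub_cancel_right]
    exact hy
  · rintro ⟨t, ht⟩
    exact ⟨b - t • a, ht, t • a, Submodule.mem_span_singleton.2 ⟨t, rfl⟩, by abel⟩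

/-- the dichotomy. -/
theorem dich (a : X2 M) (𝒰 : Cover M) (m : ℕ) (ρ : ℝ) (hρ : 0 < ρ) :
    (∃ b ∈ ZS a, D.pi' b - D.FX ∈ D.Pp ∧ 𝒰.cm m ((D.pi'' b : X2 M) : F2 E4 M) < ρ) ∨
    ∃ L : X2 M →ₗ[ℝ] ℝ, (∀ b ∈ ZS a, L b = 0) ∧ D.IsNonneg L ∧ L D.FX = 1 ∧
      ∀ b : X2 M, |L (D.pi'' b)| ≤ ρ⁻¹ * 𝒰.cm m ((D.pi'' b : X2 M) : F2 E4 M) := by
  have hunit : ∀ b : X2 M, ∃ t : ℝ, ∀ x (v : E4),
      |at2 b.1 x v (atJ D.J x v)| ≤ t * at2 D.FX.1 x v (atJ D.J x v) := by
    intro b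
    obtain ⟨t, -, ht⟩ := order_unit (En4.smF D) b.2 D.smJ (fun x v hv => (En4.spos D x).pos v hv)
    exact ⟨t, ht⟩
  rcases N2.n2_core D.sq (X2 M) (fun a ha x => ha.1 x) D.pi' D.pi'' (fun b => rfl) (fun b => rfl)
    (ZS a) D.FX (N24.posF D) hunit (N24.cmS 𝒰 m) ρ hρ with ⟨b, hb, h1, h2⟩ | ⟨L, h1, h2, h3, h4⟩
  · left
    refine ⟨b, hb, ?_, h2⟩
    intro x
    exact h1 x
  · right
    refine ⟨L, h1, fun P hP => h2 P hP, h3, fun b => ?_⟩
    refine h4 (D.pi'' b) ?_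
    have h := En4.pi''_pi'' D b
    exact congrArg Subtype.val h

omit [ChartedSpace E4 M] [IsManifold 𝓘(ℝ, E4) ∞ M] in
theorem integrable_fin {ν : Measure M} [IsFiniteMeasure ν] {f : M → ℝ} (hf : Continuous f) :
    Integrable f ν :=
  hf.integrable_of_hasCompactSupport (HasCompactSupport.of_compactSpace _)

omit [ChartedSpace E4 M] [IsManifold 𝓘(ℝ, E4) ∞ M] [CompactSpace M] in
theorem meas_ball (s₀ : Measure M) [IsFiniteMeasure s₀] [SecondCountableTopology M] (r : ℝ) :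
    Measurable fun x : M => s₀.real (ball x r) := by
  have hS : MeasurableSet {z : M × M | dist z.2 z.1 < r} :=
    (isOpen_lt (by fun_prop) (by fun_prop)).measurableSet
  have := measurable_measure_prodMk_left (ν := s₀) hS
  exact this.ennreal_toReal

/-- the lower bound for `L b`, `b` = a smoothed current. -/
theorem lower {L : X2 M →ₗ[ℝ] ℝ} {sT : Measure M} {C5 : ℝ} (hsT : D.IsRM L sT)
    (hC5 : ∀ b : X2 M, |L (D.pi'' b)| ≤ C5 * D.n2 ((D.pi'' b : X2 M) : F2 E4 M))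
    {s₀ : Measure M} [IsFiniteMeasure s₀] {C : ℝ} (hC : 0 < C) {e : ℝ} (he : 0 < e)
    {b : X2 M} {p : M → ℝ} (hpc : Continuous p)
    (hp : ∀ x, 0 ≤ p x ∧ p x ≤ C * (s₀.real (ball x (C * e)) / e ^ 4))
    (hge : GeF D.J D.F (b : F2 E4 M) (fun x => - (C * e ^ 2 * p x)))
    (hnr : ∀ x, D.nr ((D.pi'' b : X2 M) : F2 E4 M) x ≤ C * e * p x) :
    - (C ^ 2 * ∫ x, s₀.real (ball x (C * e)) / e ^ 2 ∂sT +
        |C5| * √(C ^ 4 * ∫ x, s₀.real (ball x (C * e)) / e ^ 2 *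
          (s₀.real (ball x (C * e)) / e ^ 4) ∂D.μ)) ≤ L b := by
  have hfin := hsT.fin
  have hμfin := D.fin
  have hlow := hsT.lower b (fun x => - (C * e ^ 2 * p x)) (by fun_prop) hge
  have hbd : ∀ r : ℝ, ∀ x : M, s₀.real (ball x r) ≤ s₀.real univ := fun r x =>
    measureReal_mono (subset_univ _)
  have hI1 : Integrable (fun x => s₀.real (ball x (C * e)) / e ^ 2) sT := by
    apply Integrable.mono' (integrable_const (s₀.real univ / e ^ 2))
      ((meas_ball s₀ _).div_const _).aestronglyMeasurable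
    refine ae_of_all _ fun x => ?_
    have h0 : 0 ≤ s₀.real (ball x (C * e)) := measureReal_nonneg
    rw [Real.norm_eq_abs, abs_of_nonneg (by positivity)]
    exact div_le_div_of_nonneg_right (hbd (C * e) x) (by positivity)
  have hI2 : Integrable (fun x => s₀.real (ball x (C * e)) / e ^ 2 *
      (s₀.real (ball x (C * e)) / e ^ 4)) D.μ := by
    apply Integrable.mono' (integrable_const (s₀.real univ / e ^ 2 * (s₀.real univ / e ^ 4)))
      (((meas_ball s₀ _).div_const _).mul ((meas_ball s₀ _).div_const _)).aestronglyMeasurable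
    refine ae_of_all _ fun x => ?_
    have h0 : 0 ≤ s₀.real (ball x (C * e)) := measureReal_nonneg
    have h1 : s₀.real (ball x (C * e)) / e ^ 2 ≤ s₀.real univ / e ^ 2 :=
      div_le_div_of_nonneg_right (hbd (C * e) x) (by positivity)
    have h2 : s₀.real (ball x (C * e)) / e ^ 4 ≤ s₀.real univ / e ^ 4 :=
      div_le_div_of_nonneg_right (hbd (C * e) x) (by positivity)
    have h3 : 0 ≤ s₀.real univ / e ^ 2 := le_trans (by positivity) h1
    have h4 : 0 ≤ s₀.real (ball x (C * e)) / e ^ 2 * (s₀.real (ball x (C * e)) / e ^ 4) := by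
      positivity
    show ‖s₀.real (ball x (C * e)) / e ^ 2 * (s₀.real (ball x (C * e)) / e ^ 4)‖ ≤ _
    rw [Real.norm_eq_abs, abs_of_nonneg h4]
    exact mul_le_mul h1 h2 (by positivity) h3
  have hpe : ∀ x, e ^ 2 * p x ≤ C * (s₀.real (ball x (C * e)) / e ^ 2) := by
    intro x
    calc e ^ 2 * p x ≤ e ^ 2 * (C * (s₀.real (ball x (C * e)) / e ^ 4)) := by
          have := (hp x).2
          gcongr
      _ = C * (s₀.real (ball x (C * e)) / e ^ 2) := by
          field_simp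
  -- first integral
  have h1 : ∫ x, - (C * e ^ 2 * p x) ∂sT = - (C * ∫ x, e ^ 2 * p x ∂sT) := by
    rw [integral_neg, ← integral_const_mul]
    congr 2
    funext x
    ring
  have h2 : C * ∫ x, e ^ 2 * p x ∂sT ≤ C ^ 2 * ∫ x, s₀.real (ball x (C * e)) / e ^ 2 ∂sT := by
    calc C * ∫ x, e ^ 2 * p x ∂sT ≤ C * (C * ∫ x, s₀.real (ball x (C * e)) / e ^ 2 ∂sT) := by
          gcongr
          rw [← integral_const_mul]
          exact integral_mono (integrable_fin (by fun_prop)) (hI1.const_mul C) hpe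
      _ = _ := by ring
  -- second integral
  have h3 : ∫ x, nsqG D.J D.F ((D.pi'' b : X2 M) : F2 E4 M) x ∂D.μ ≤
      C ^ 4 * ∫ x, s₀.real (ball x (C * e)) / e ^ 2 *
        (s₀.real (ball x (C * e)) / e ^ 4) ∂D.μ := by
    rw [← integral_const_mul]
    apply integral_mono_of_nonneg
    · refine ae_of_all _ fun x => ?_
      show 0 ≤ nsqG D.J D.F ((D.pi'' b : X2 M) : F2 E4 M) x
      rw [D.nsq_eq]; positivity
    · exact hI2.const_mul _
    · refine ae_of_all _ fun x => ?_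
      show nsqG D.J D.F ((D.pi'' b : X2 M) : F2 E4 M) x ≤ _
      rw [D.nsq_eq]
      have h4 := hnr x
      have h40 := D.nr_nonneg ((D.pi'' b : X2 M) : F2 E4 M) x
      have h5 := (hp x).1
      have h6 := (hp x).2
      calc D.nr ((D.pi'' b : X2 M) : F2 E4 M) x ^ 2 ≤ (C * e * p x) ^ 2 := by gcongr
        _ = C ^ 2 * ((e ^ 2 * p x) * p x) := by ring
        _ ≤ C ^ 2 * ((C * (s₀.real (ball x (C * e)) / e ^ 2)) *
              (C * (s₀.real (ball x (C * e)) / e ^ 4))) := by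
            have := hpe x
            gcongr
        _ = C ^ 4 * (s₀.real (ball x (C * e)) / e ^ 2 *
              (s₀.real (ball x (C * e)) / e ^ 4)) := by ring
  have h4 : |L (D.pi'' b)| ≤ |C5| * √(C ^ 4 * ∫ x, s₀.real (ball x (C * e)) / e ^ 2 *
        (s₀.real (ball x (C * e)) / e ^ 4) ∂D.μ) := by
    calc |L (D.pi'' b)| ≤ C5 * D.n2 ((D.pi'' b : X2 M) : F2 E4 M) := hC5 b
      _ ≤ |C5| * D.n2 ((D.pi'' b : X2 M) : F2 E4 M) := by
          apply mul_le_mul_of_nonneg_right (le_abs_self _) (Real.sqrt_nonneg _)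
      _ ≤ _ := by
          apply mul_le_mul_of_nonneg_left _ (abs_nonneg _)
          exact Real.sqrt_le_sqrt h3
  have h5 : L b = L (D.pi' b) + L (D.pi'' b) := by rw [← map_add, D.pi_add]
  have h6 := neg_abs_le (L (D.pi'' b))
  rw [h1] at hlow
  linarith

/-- `Φ - δ F`. -/
def Φ₁ (δ : ℝ) (Φ : X2 M →ₗ[ℝ] ℝ) : X2 M →ₗ[ℝ] ℝ := Φ - δ • St1.IX D D.FX

theorem Φ₁_apply (δ : ℝ) (Φ : X2 M →ₗ[ℝ] ℝ) (b : X2 M) :
    Φ₁ D δ Φ b = Φ b - δ * D.I (b : F2 E4 M) D.F := by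
  show Φ b - δ * D.I D.F (b : F2 E4 M) = _
  rw [St1.I_comm]

theorem Φ₁_inv {δ : ℝ} {Φ : X2 M →ₗ[ℝ] ℝ} (h : D.IsInv Φ) : D.IsInv (Φ₁ D δ Φ) := by
  intro b
  rw [Φ₁_apply, Φ₁_apply, ← h b]
  have h1 := En4.I_pi'_right D b D.FX
  rw [St1.pi'_FX] at h1
  have h2 : D.I (b : F2 E4 M) D.F = D.I ((D.pi' b : X2 M) : F2 E4 M) D.F := h1
  rw [h2]

theorem Φ₁_nonneg {a : X2 M} {δ : ℝ} {Φ : X2 M →ₗ[ℝ] ℝ} (h : KCur D a δ Φ) :
    D.IsNonneg (Φ₁ D δ Φ) := by
  intro P hP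
  rw [Φ₁_apply]
  linarith [h.ge P hP]

theorem Φ₁_exact {a : X2 M} {δ : ℝ} {Φ : X2 M →ₗ[ℝ] ℝ} (hFX : D.FX ∈ Z2 M) (ha : a ∈ Z2 M)
    (h : KCur D a δ Φ) : Dat.KillsExact (Φ₁ D δ Φ) := by
  intro b hb
  rw [Φ₁_apply, h.cls b (St1.ex_closed hb), St1.stokes D a ha b hb, St1.I_comm,
    show D.I D.F (b : F2 E4 M) = 0 from St1.stokes D D.FX hFX b hb, mul_zero, sub_zero]

/-- **APX** from N5E. -/
theorem apx (h5 : N5E.{u}) : APX.{u} := by
  intro M _ _ _ _ _ _ D a δ Φ hFX ha hK hPD hZD 𝒰 m ρ hρ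
  rcases dich D a 𝒰 m ρ hρ with ⟨b, hb, hb1, hb2⟩ | ⟨L, hL0, hLn, hLF, hLf⟩
  · obtain ⟨t, ht⟩ := mem_ZS.1 hb
    refine ⟨b, ?_, t, ht, hb1, hb2⟩
    have h1 := (Z2 M).add_mem (St1.ex_closed ht) ((Z2 M).smul_mem t ha)
    rwa [sub_add_cancel] at h1
  exfalso
  -- the class of `L`
  have hLex : Dat.KillsExact L := fun b hb => hL0 b (mem_ZS.2 ⟨0, by rwa [zero_smul, sub_zero]⟩)
  have hLa : L a = 0 := hL0 a (mem_ZS.2 ⟨1, by
    rw [one_smul, sub_self]
    exact (St1.ExS M).zero_mem⟩)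
  obtain ⟨aL, haL, hLI⟩ := hPD L hLex
  obtain ⟨sL, hsL⟩ := N24.n4 D L hLn
  obtain ⟨hgL, C5, hC5⟩ := h5 M D L sL aL haL hLI hLn (by rw [hLF]; norm_num) ⟨𝒰, m, ρ⁻¹, hLf⟩ hsL
  -- the current `Φ₁`
  have hinv := Φ₁_inv D (δ := δ) hK.inv
  have hnn := Φ₁_nonneg D hK
  have hex := Φ₁_exact D hFX ha hK
  obtain ⟨s₁, hs₁⟩ := N24.n4 D _ hnn
  have hg₁ : Dat.Growth2 s₁ := N5P.n5'_of D (Dat.n8 D) (node_N9 D) (Fund.fund D) _ s₁ hinv hnn
    hex hs₁
  have hz₁ : Dat.ZeroDens s₁ := hZD _ s₁ hinv hnn hex hs₁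
  have hfin₁ := hs₁.fin
  have hfinL := hsL.fin
  -- smoothing
  obtain ⟨𝒰'⟩ := Int.node_COV D
  obtain ⟨S⟩ := Dat.n8 D 𝒰'
  have hn := N5P.nrcm D 𝒰'
  obtain ⟨C1, hC1, hT⟩ := En4.tpart D S hn
  obtain ⟨C2, hC2, hrepm⟩ := S.repm
  obtain ⟨C3, happ⟩ := S.approx 0
  obtain ⟨C4, hC40, hC4⟩ := NrCm.nr_le_cm D 𝒰'
  set C : ℝ := C1 + C2 with hC
  have hC0 : 0 < C := by linarith
  -- the value `Φ₁ a_L = - δ`
  have hval : Φ₁ D δ Φ aL = - δ := by
    rw [Φ₁_apply, hK.cls aL haL, St1.I_comm, ← hLI a ha, hLa]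
    have h1 := hLI D.FX hFX
    rw [hLF] at h1
    have h2 : D.I (aL : F2 E4 M) D.F = 1 := h1.symm
    rw [h2]; ring
  set K : ℝ := 2 * (s₁.real univ * (C4 * (C3 * 𝒰'.cm 1 (aL : F2 E4 M)))) with hKdef
  -- for each small `e`
  have key : ∀ e : ℝ, 0 < e → e ≤ S.e0 →
      δ ≤ K * e + (C ^ 2 * ∫ x, s₁.real (ball x (C * e)) / e ^ 2 ∂sL +
        |C5| * √(C ^ 4 * ∫ x, s₁.real (ball x (C * e)) / e ^ 2 *
          (s₁.real (ball x (C * e)) / e ^ 4) ∂D.μ)) := by
    intro e he hee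
    obtain ⟨g, hgS, hg0, hgd, hgle, -⟩ := hrepm s₁ hfin₁ e he hee
    obtain ⟨T, hT0, -, -, hT3, hT4, -, -⟩ :=
      hT _ s₁ hs₁ e he hee g hgS hg0 hgd S.one (S.one_mem 0)
    have hT1 : ∀ b : X2 M, Φ₁ D δ Φ (S.A e S.one b) = D.I (T : F2 E4 M) (b : F2 E4 M) := by
      intro b
      rw [← hT0 b, ← hinv]
    have hTZ : T ∈ Z2 M := by
      refine Fund.fund D T fun b hb => ?_
      rw [← hT1]
      exact hex _ (S.exact e S.one he hee b hb)
    have hlow := lower D hsL hC5 (s₀ := s₁) hC0 he (b := T) (p := g) (En4.sF_continuous hgS)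
      (fun x => ⟨hg0 x, by
        have h0 : 0 ≤ s₁.real (ball x (C2 * e)) := measureReal_nonneg
        have h1 : s₁.real (ball x (C2 * e)) ≤ s₁.real (ball x (C * e)) :=
          measureReal_mono (ball_subset_ball (by
            apply mul_le_mul_of_nonneg_right _ he.le
            linarith)) (measure_ne_top s₁ _)
        calc g x ≤ C2 / e ^ 4 * s₁.real (ball x (C2 * e)) := hgle x
          _ ≤ C / e ^ 4 * s₁.real (ball x (C * e)) := by
              gcongr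
              linarith
          _ = _ := by ring⟩)
      (En4.GeF.mono D hT3 fun x => by
        have := hg0 x
        have h2 : 0 ≤ e ^ 2 * g x := by positivity
        have h3 : C1 * (e ^ 2 * g x) ≤ C * (e ^ 2 * g x) := by
          apply mul_le_mul_of_nonneg_right _ h2
          linarith
        linarith)
      (fun x => (hT4 x).trans (by
        have := hg0 x
        have h2 : 0 ≤ e * g x := by positivity
        have h3 : C1 * (e * g x) ≤ C * (e * g x) := by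
          apply mul_le_mul_of_nonneg_right _ h2
          linarith
        linarith))
    -- `L T = Φ₁ (A a_L)`
    have h1 : L T = Φ₁ D δ Φ (S.A e S.one aL) := by
      rw [hLI T hTZ, St1.I_comm, hT1]
    have h2 : Φ₁ D δ Φ (S.A e S.one aL) = - δ + Φ₁ D δ Φ (S.A e S.one aL - aL) := by
      rw [map_sub, hval]; ring
    have h3 : |Φ₁ D δ Φ (S.A e S.one aL - aL)| ≤ K * e := by
      rw [hinv]
      have hb := hs₁.bound (S.A e S.one aL - aL)
      have hi : ∫ x, D.nr ((S.A e S.one aL - aL : X2 M) : F2 E4 M) x ∂s₁ ≤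
          ∫ _x, C4 * 𝒰'.cm 0 ((S.A e S.one aL - aL : X2 M) : F2 E4 M) ∂s₁ :=
        integral_mono (integrable_fin (En4.cont_nr D (S.A e S.one aL - aL).2))
          (integrable_const _) (fun x => hC4 _ x)
      rw [integral_const, smul_eq_mul] at hi
      have ha2 := (happ e he hee aL).2
      have hs0 : 0 ≤ s₁.real univ := measureReal_nonneg
      calc |Φ₁ D δ Φ (D.pi' (S.A e S.one aL - aL))|
          ≤ 2 * ∫ x, D.nr ((S.A e S.one aL - aL : X2 M) : F2 E4 M) x ∂s₁ := hb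
        _ ≤ 2 * (s₁.real univ * (C4 * 𝒰'.cm 0 ((S.A e S.one aL - aL : X2 M) : F2 E4 M))) := by
            linarith
        _ ≤ 2 * (s₁.real univ * (C4 * (C3 * e * 𝒰'.cm 1 (aL : F2 E4 M)))) := by
            gcongr
        _ = K * e := by rw [hKdef]; ring
    have h4 := neg_abs_le (Φ₁ D δ Φ (S.A e S.one aL - aL))
    have h5 := le_abs_self (Φ₁ D δ Φ (S.A e S.one aL - aL))
    linarith
  -- the limit
  have h7 := D.n7_proof s₁ sL hfin₁ hfinL hg₁ hgL hz₁ C hC0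
  have hlim : Tendsto (fun e : ℝ => K * e + (C ^ 2 * ∫ x, s₁.real (ball x (C * e)) / e ^ 2 ∂sL +
        |C5| * √(C ^ 4 * ∫ x, s₁.real (ball x (C * e)) / e ^ 2 *
          (s₁.real (ball x (C * e)) / e ^ 4) ∂D.μ))) (𝓝[>] 0) (𝓝 0) := by
    have t1 : Tendsto (fun e : ℝ => K * e) (𝓝[>] 0) (𝓝 (K * 0)) :=
      (tendsto_id.mono_left nhdsWithin_le_nhds).const_mul K
    have t2 := h7.1.const_mul (C ^ 2)
    have t3 := (h7.2.const_mul (C ^ 4)).sqrt.const_mul |C5|
    have := t1.add (t2.add t3)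
    simpa using this
  have hev : ∀ᶠ e in 𝓝[>] (0 : ℝ), δ ≤ K * e +
      (C ^ 2 * ∫ x, s₁.real (ball x (C * e)) / e ^ 2 ∂sL +
        |C5| * √(C ^ 4 * ∫ x, s₁.real (ball x (C * e)) / e ^ 2 *
          (s₁.real (ball x (C * e)) / e ^ 4) ∂D.μ)) := by
    filter_upwards [Ioc_mem_nhdsGT S.e0_pos] with e he
    exact key e he.1 he.2
  have := ge_of_tendsto hlim hev
  linarith [hK.dpos]

end

end Crest.Agent.R235.Apx_291
end

-- ▼ part R235/N5Ea_861
section

/-!
Row 235, package STF (helper861): N5E, part 1: the smoothings of a closed form are bounded in `L²`,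
uniformly in the scale and in the kernel; consequence for functionals with a closed representative.
-/

set_option autoImplicit false
set_option maxSynthPendingDepth 3

open Set Function Filter MeasureTheory Metric
open scoped Manifold ContDiff Topology ENNReal

namespace Crest.Agent.R235.N5Ea_861

open Crest.Agent.R240 Crest.Agent.R240.Ch Crest.Agent.R240.En4

noncomputable section

variable {M : Type*} [MetricSpace M] [CompactSpace M] [ChartedSpace E4 M]
    [IsManifold 𝓘(ℝ, E4) ∞ M] [MeasurableSpace M] [BorelSpace M] (D : Dat M)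

theorem exists_sup (a : X2 M) : ∃ C : ℝ, 0 ≤ C ∧ ∀ x, D.nr (a : F2 E4 M) x ≤ C := by
  obtain ⟨C, h0, h⟩ := St1.exists_bound _ (cont_nr D a.2)
  exact ⟨C, h0, fun x => (le_abs_self _).trans (h x)⟩

/-- `|∫ a ∧ b| ≤ C ∫ |b|`. -/
theorem I_le_int (a b : X2 M) {C : ℝ} (hC : ∀ x, D.nr (a : F2 E4 M) x ≤ C) :
    |D.I (a : F2 E4 M) (b : F2 E4 M)| ≤ C * ∫ x, D.nr (b : F2 E4 M) x ∂D.μ := by
  have hb := cont_nr D b.2
  calc |D.I (a : F2 E4 M) (b : F2 E4 M)| ≤ ∫ x, |qG D.F (a : F2 E4 M) (b : F2 E4 M) x| ∂D.μ :=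
        abs_integral_le_integral_abs
    _ ≤ ∫ x, C * D.nr (b : F2 E4 M) x ∂D.μ := by
        apply integral_mono
        · exact (integrable_qG D a.2 b.2).abs
        · exact integrable_cont D (continuous_const.mul hb)
        · intro x
          refine (abs_qG_le D a b x).trans ?_
          exact mul_le_mul_of_nonneg_right (hC x) (nr_nonneg D _ x)
    _ = _ := integral_const_mul _ _

theorem fOrd_I {𝒰 : Cover M} (a : X2 M) : FOrd 𝒰 (St1.IX D a) := by
  obtain ⟨C, h0, hC⟩ := exists_sup D a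
  obtain ⟨K, hK⟩ := N5P.nrcm D 𝒰
  have := D.fin
  refine ⟨0, C * (D.μ.real univ * K), fun b => ?_⟩
  rw [St1.IX_apply]
  refine (I_le_int D a b hC).trans ?_
  rw [mul_assoc]
  refine mul_le_mul_of_nonneg_left ?_ h0
  calc ∫ x, D.nr (b : F2 E4 M) x ∂D.μ ≤ ∫ _, K * 𝒰.cm 0 (b : F2 E4 M) ∂D.μ := by
        apply integral_mono (integrable_cont D (cont_nr D b.2)) (integrable_const _)
        intro x; exact hK b x
    _ = _ := by rw [integral_const, smul_eq_mul]; ring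

/-- `∫ |A_{e,p} b| ≤ C ‖b‖₂`. -/
theorem int_A_le {𝒰 : Cover M} (S : SmPack D 𝒰) : ∃ C : ℝ, 0 ≤ C ∧ ∀ e p, 0 < e → e ≤ S.e0 →
    p ∈ S.clp 0 → ∀ b : X2 M,
    ∫ x, D.nr (S.A e p b : F2 E4 M) x ∂D.μ ≤ C * D.n2 (b : F2 E4 M) := by
  have hfin := D.fin
  obtain ⟨C1, h1⟩ := S.bd
  obtain ⟨C2, hC2, h2⟩ := S.repm
  obtain ⟨C3, h3⟩ := D.vg_int
  set V := D.μ.real univ with hV
  have hV0 : 0 ≤ V := measureReal_nonneg
  -- the density of the smoothed volume
  have hdens : ∀ e, 0 < e → e ≤ S.e0 → ∀ h : M → ℝ, SmoothF E4 h → (∀ x, 0 ≤ h x) →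
      ∫ x, S.a e h x ∂D.μ ≤ (C2 * (|C3| * C2 ^ 4)) * ∫ x, h x ∂D.μ := by
    intro e he hee h hh h0
    obtain ⟨g, hg, hg0, hgs, hgle, -⟩ := h2 D.μ D.fin e he hee
    rw [hgs h hh, ← integral_const_mul]
    apply integral_mono (integrable_cont D ((sF_continuous hh).mul (sF_continuous hg)))
      (integrable_cont D (continuous_const.mul (sF_continuous hh)))
    intro x
    show h x * g x ≤ C2 * (|C3| * C2 ^ 4) * h x
    rw [mul_comm]
    refine mul_le_mul_of_nonneg_right ?_ (h0 x)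
    calc g x ≤ C2 / e ^ 4 * D.μ.real (ball x (C2 * e)) := hgle x
      _ ≤ C2 / e ^ 4 * (C3 * (C2 * e) ^ 4) := by
          have := h3 x (C2 * e) (by positivity)
          gcongr
      _ ≤ C2 / e ^ 4 * (|C3| * (C2 * e) ^ 4) := by
          have := le_abs_self C3
          gcongr
      _ = C2 * (|C3| * C2 ^ 4) := by field_simp
  have ha : ∀ e, 0 < e → e ≤ S.e0 → ∀ p ∈ S.clp 0, ∀ (b : X2 M) (t : ℝ), 0 < t →
      ∫ x, D.nr (S.A e p b : F2 E4 M) x ∂D.μ ≤
        |C1| * (C2 * (|C3| * C2 ^ 4)) * ((D.n2 (b : F2 E4 M) ^ 2 / t + t * V) / 2) := by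
    intro e he hee p hp b t ht
    set h : M → ℝ := fun x => (1 / (2 * t)) * nsqG D.J D.F (b : F2 E4 M) x + t / 2 with hh
    have hsm : SmoothF E4 h := sF_add (sF_const_mul _ (sF_nsqG D b.2)) (sF_const _)
    have hle : ∀ x, D.nr (b : F2 E4 M) x ≤ h x := by
      intro x
      have h4 := nr_sq D b.2.1 x
      show _ ≤ (1 / (2 * t)) * nsqG D.J D.F (b : F2 E4 M) x + t / 2
      rw [← h4]
      have h5 : (1 / (2 * t)) * D.nr (b : F2 E4 M) x ^ 2 + t / 2 - D.nr (b : F2 E4 M) x =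
          (D.nr (b : F2 E4 M) x - t) ^ 2 / (2 * t) := by field_simp; ring
      have h6 : 0 ≤ (D.nr (b : F2 E4 M) x - t) ^ 2 / (2 * t) := by positivity
      linarith
    have h0 : ∀ x, 0 ≤ h x := fun x => (nr_nonneg D _ x).trans (hle x)
    have hac : Continuous (S.a e h) := sF_continuous (S.a_smooth e he hee h hsm)
    have ha0 := S.a_nonneg e he hee h hsm h0
    calc ∫ x, D.nr (S.A e p b : F2 E4 M) x ∂D.μ ≤ ∫ x, |C1| * S.a e h x ∂D.μ := by
          apply integral_mono (integrable_cont D (cont_nr D (S.A e p b).2))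
            (integrable_cont D (continuous_const.mul hac))
          intro x
          refine (h1 e p he hee hp b h hsm hle x).trans ?_
          exact mul_le_mul_of_nonneg_right (le_abs_self _) (ha0 x)
      _ = |C1| * ∫ x, S.a e h x ∂D.μ := integral_const_mul _ _
      _ ≤ |C1| * ((C2 * (|C3| * C2 ^ 4)) * ∫ x, h x ∂D.μ) := by
          have := hdens e he hee h hsm h0
          gcongr
      _ = _ := by
          have e1 : ∫ x, h x ∂D.μ = (D.n2 (b : F2 E4 M) ^ 2 / t + t * V) / 2 := by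
            rw [hh, integral_add ((integrable_cont D (sF_continuous (sF_nsqG D b.2))).const_mul _)
              (integrable_const _), integral_const_mul, integral_const, smul_eq_mul, ← n2_sq,
              ← hV]
            field_simp
          rw [e1]; ring
  set K := |C1| * (C2 * (|C3| * C2 ^ 4)) with hK
  have hK0 : 0 ≤ K := by positivity
  refine ⟨K * (1 + V) / 2, by positivity, fun e p he hee hp b => ?_⟩
  have hn := n2_nonneg D (b : F2 E4 M)
  rcases hn.eq_or_lt with h0 | h0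
  · rw [← h0, mul_zero]
    refine le_of_forall_pos_le_add fun ε hε => ?_
    have h5 := ha e he hee p hp b (ε / (K * V + 1)) (by positivity)
    rw [← h0] at h5
    refine h5.trans ?_
    have h6 : K * ((0 ^ 2 / (ε / (K * V + 1)) + ε / (K * V + 1) * V) / 2) =
        (K * V) / (K * V + 1) * ε / 2 := by
      field_simp
      ring
    rw [h6]
    have h7 : (K * V) / (K * V + 1) ≤ 1 := by
      rw [div_le_one (by positivity)]; linarith
    have h8 : (K * V) / (K * V + 1) * ε ≤ 1 * ε := by gcongr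
    linarith
  · have h5 := ha e he hee p hp b _ h0
    refine h5.trans (le_of_eq ?_)
    field_simp

/-- the form representing `b ↦ ∫ a ∧ A_{e,p} b`. -/
theorem exists_adj {𝒰 : Cover M} (S : SmPack D 𝒰) (a : X2 M) (ha : a ∈ Z2 M) :
    ∃ K : ℝ, 0 ≤ K ∧ ∀ e p, 0 < e → e ≤ S.e0 → p ∈ S.clp 0 → ∃ c ∈ Z2 M,
      (∀ b : X2 M, D.I (a : F2 E4 M) (S.A e p b : F2 E4 M) =
        D.I ((c : X2 M) : F2 E4 M) (b : F2 E4 M)) ∧ D.n2 ((c : X2 M) : F2 E4 M) ≤ K := by
  obtain ⟨C, hC0, hC⟩ := exists_sup D a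
  obtain ⟨K, hK0, hK⟩ := int_A_le D S
  refine ⟨C * K, by positivity, fun e p he hee hp => ?_⟩
  obtain ⟨c, hc⟩ := S.rep (St1.IX D a) (fOrd_I D a) e p he hee
  refine ⟨c, ?_, hc, ?_⟩
  · refine Fund.fund D c fun b hb => ?_
    rw [← hc, St1.IX_apply]
    exact St1.stokes D a ha _ (S.exact e p he hee b hb)
  · refine n2_le_of_dual D (by positivity) fun b => ?_
    rw [← hc, St1.IX_apply]
    calc |D.I (a : F2 E4 M) (S.A e p b : F2 E4 M)|
        ≤ C * ∫ x, D.nr (S.A e p b : F2 E4 M) x ∂D.μ := I_le_int D a _ hC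
      _ ≤ C * (K * D.n2 (b : F2 E4 M)) := by
          have := hK e p he hee hp b
          gcongr
      _ = _ := by ring

/-- **the square of the smoothing of `L` is bounded** if `L = ∫ a ∧ ·` on the closed forms. -/
theorem II_bound {𝒰 : Cover M} (S : SmPack D 𝒰) (a : X2 M) (ha : a ∈ Z2 M) :
    ∃ K : ℝ, 0 ≤ K ∧ ∀ L : X2 M →ₗ[ℝ] ℝ,
      (∀ b ∈ Z2 M, L b = D.I (a : F2 E4 M) ((b : X2 M) : F2 E4 M)) →
      ∀ e p, 0 < e → e ≤ S.e0 → p ∈ S.clp 0 → ∀ η ∈ Z2 M,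
      (∀ b : X2 M, D.I ((η : X2 M) : F2 E4 M) (b : F2 E4 M) = L (S.A e p b)) →
      |D.I ((η : X2 M) : F2 E4 M) ((η : X2 M) : F2 E4 M)| ≤ K := by
  obtain ⟨K, hK0, hK⟩ := exists_adj D S a ha
  refine ⟨K ^ 2, by positivity, fun L hL e p he hee hp η hη h => ?_⟩
  obtain ⟨c, hcZ, hc, hcK⟩ := hK e p he hee hp
  have h1 : ∀ b ∈ Z2 M, D.I ((η : X2 M) : F2 E4 M) ((b : X2 M) : F2 E4 M) =
      D.I (c : F2 E4 M) ((b : X2 M) : F2 E4 M) := by
    intro b hb
    rw [h, hL _ (S.closed e p he hee b hb), hc]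
  have h2 : D.I (η : F2 E4 M) (η : F2 E4 M) = D.I (c : F2 E4 M) (c : F2 E4 M) := by
    rw [h1 η hη, I_comm, h1 c hcZ]
  rw [h2]
  refine (I_le D c c).trans ?_
  have := n2_nonneg D (c : F2 E4 M)
  nlinarith

end

end Crest.Agent.R235.N5Ea_861
end

-- ▼ part R235/N5Eb_861
section

/-!
Row 235, package STF (helper861): N5E, part 2: the energy inequality of R240 (`En4.bpart`) for
functionals with a closed representative (adapted from helper744's file).
-/

set_option autoImplicit false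
set_option maxSynthPendingDepth 3

open Set Function Filter MeasureTheory Metric
open scoped Manifold ContDiff Topology ENNReal

namespace Crest.Agent.R235.N5Eb_861

open Crest.Agent.R240 Crest.Agent.R240.Ch Crest.Agent.R240.En4

noncomputable section

variable {M : Type*} [MetricSpace M] [CompactSpace M] [ChartedSpace E4 M]
    [IsManifold 𝓘(ℝ, E4) ∞ M] [MeasurableSpace M] [BorelSpace M] (D : Dat M)

set_option maxHeartbeats 1000000 in
/-- **Energy inequality** (T1). -/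
theorem bpart {𝒰 : Cover M} (S : SmPack D 𝒰) (hn : NRCM D 𝒰) (hfund : D.FUND) :
    ∃ C : ℝ, 1 ≤ C ∧ ∀ a ∈ Z2 M, ∃ K : ℝ, 0 ≤ K ∧ ∀ (L : X2 M →ₗ[ℝ] ℝ) (s : Measure M),
      D.IsRM L s →
      (∀ b ∈ Z2 M, L b = D.I ((a : X2 M) : F2 E4 M) ((b : X2 M) : F2 E4 M)) →
      FOrd 𝒰 (L.comp D.pi'') →
      ∀ e, 0 < e → e ≤ S.e0 → ∀ g : M → ℝ, SmoothF E4 g → (∀ x, 0 ≤ g x) →
      (∀ f, SmoothF E4 f → ∫ x, S.a e f x ∂s = ∫ x, f x * g x ∂D.μ) → ∀ p ∈ S.clp 0,
      ∃ T B : X2 M, (∀ b : X2 M, L (D.pi' (S.A e p b)) = D.I (T : F2 E4 M) (b : F2 E4 M)) ∧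
        (∀ b : X2 M, L (D.pi'' (S.A e p b)) = D.I (B : F2 E4 M) (b : F2 E4 M)) ∧
        T + B ∈ Z2 M ∧
        (∀ x, D.nr (T : F2 E4 M) x ≤ C * g x) ∧
        GeF D.J D.F (T : F2 E4 M) (fun x => - (C * e ^ 2 * g x)) ∧
        (∀ x, D.nr (D.pi'' T : F2 E4 M) x ≤ C * e * g x) ∧
        (p = S.one → ∀ x, (1 - C * e) * g x ≤ qG D.F (T : F2 E4 M) D.F x) ∧
        D.n2 (D.pi'' B : F2 E4 M) ^ 2 ≤ C * (e ^ 2 * ∫ x, g x ^ 2 ∂D.μ
          + √(∫ x, g x ^ 2 ∂D.μ) * D.n2 (D.pi' B : F2 E4 M)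
          + D.n2 (D.pi' B : F2 E4 M) ^ 2 + K) := by
  obtain ⟨C, hC1, hC⟩ := tpart D S hn
  refine ⟨8 * C ^ 2, by nlinarith, ?_⟩
  intro a ha
  obtain ⟨K, hK0, hK⟩ := N5Ea_861.II_bound D S a ha
  refine ⟨K, hK0, ?_⟩
  intro L s hR hkill hfo e he he0 g hg hg0 hgs p hp
  have he1 : e ≤ 1 := he0.trans S.e0_le
  obtain ⟨T, hT, hT1, hT2, hT3, hT4, hT5, hT6⟩ := hC L s hR e he he0 g hg hg0 hgs p hp
  obtain ⟨B, hB⟩ := S.rep (L.comp D.pi'') hfo e p he he0
  have hB' : ∀ b : X2 M, L (D.pi'' (S.A e p b)) = D.I (B : F2 E4 M) (b : F2 E4 M) := hB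
  have hCC : C ≤ 8 * C ^ 2 := by nlinarith
  have hC0 : 0 ≤ C := by linarith
  have hgc := sF_continuous hg
  have hsum : ∀ b : X2 M, D.I ((T + B : X2 M) : F2 E4 M) (b : F2 E4 M) = L (S.A e p b) := by
    intro b
    rw [I_add_left, ← hT, ← hB', ← map_add, pi_add]
  have hZ : T + B ∈ Z2 M := by
    apply hfund
    intro b hb
    rw [hsum, hkill _ (closed_of_isEx (S.exact e p he he0 b hb))]
    exact St1.stokes D a ha _ (S.exact e p he he0 b hb)
  have hII : D.I ((T + B : X2 M) : F2 E4 M) ((T + B : X2 M) : F2 E4 M) ≤ K :=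
    (le_abs_self _).trans (hK L hkill e p he he0 hp _ hZ hsum)
  refine ⟨T, B, hT, hB', hZ, ?_, ?_, ?_, ?_, ?_⟩
  · intro x
    have := hg0 x
    exact (hT1 x).trans (by gcongr)
  · apply GeF.mono D hT3
    intro x
    have := hg0 x
    have h : C * e ^ 2 * g x ≤ 8 * C ^ 2 * e ^ 2 * g x := by gcongr
    linarith
  · intro x
    have := hg0 x
    exact (hT4 x).trans (by gcongr)
  · intro hp1 x
    have := hg0 x
    have h : C * e * g x ≤ 8 * C ^ 2 * e * g x := by gcongr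
    have := hT6 hp1 x
    linarith
  · -- energy
    set β := D.n2 (D.pi' B : F2 E4 M) with hβ
    have hβ0 : 0 ≤ β := n2_nonneg D _
    set G := ∫ x, g x ^ 2 ∂D.μ with hG
    have hG0 : 0 ≤ G := integral_nonneg fun x => sq_nonneg _
    have hnB : Continuous (D.nr (D.pi' B : F2 E4 M)) := cont_nr D (D.pi' B).2
    have hβ2 : ∫ x, D.nr (D.pi' B : F2 E4 M) x ^ 2 ∂D.μ = β ^ 2 := by
      rw [hβ, n2_sq]
      congr 1
      funext x
      exact nr_sq D (D.pi' B).2.1 x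
    have hi1 : Integrable (fun x => g x ^ 2) D.μ := integrable_cont D (hgc.pow 2)
    have hi2 : Integrable (fun x => g x * D.nr (D.pi' B : F2 E4 M) x) D.μ :=
      integrable_cont D (hgc.mul hnB)
    have hi3 : Integrable (fun x => D.nr (D.pi' B : F2 E4 M) x ^ 2) D.μ :=
      integrable_cont D (hnB.pow 2)
    -- the invariant part
    have hi4 : Integrable (fun x => 3 * C ^ 2 * e ^ 2 * g x ^ 2
        + 2 * C * (g x * D.nr (D.pi' B : F2 E4 M) x)) D.μ := (hi1.const_mul _).add (hi2.const_mul _)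
    have h1 : - (3 * C ^ 2 * e ^ 2 * G + 2 * C * ∫ x, g x * D.nr (D.pi' B : F2 E4 M) x ∂D.μ
        + β ^ 2) ≤ D.I (D.pi' (T + B) : F2 E4 M) (D.pi' (T + B) : F2 E4 M) := by
      have e1 : - (3 * C ^ 2 * e ^ 2 * G + 2 * C * ∫ x, g x * D.nr (D.pi' B : F2 E4 M) x ∂D.μ
        + β ^ 2) = ∫ x, - (3 * C ^ 2 * e ^ 2 * g x ^ 2
          + 2 * C * (g x * D.nr (D.pi' B : F2 E4 M) x) + D.nr (D.pi' B : F2 E4 M) x ^ 2) ∂D.μ := by
        rw [integral_neg, integral_add hi4 hi3,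
          integral_add (hi1.const_mul _) (hi2.const_mul _), integral_const_mul,
          integral_const_mul, hβ2]
      rw [e1]
      apply integral_mono
      · exact (hi4.add hi3).neg
      · exact integrable_qG D (D.pi' (T + B)).2 (D.pi' (T + B)).2
      · intro x
        exact pt_energy D hC1 he.le he1 (hg0 x) (hT2 x) (fun v => hT3 x v) (hT5 x)
    have hcs : ∫ x, g x * D.nr (D.pi' B : F2 E4 M) x ∂D.μ ≤ √G * β := by
      have := cs_int D hgc hnB hg0 (nr_nonneg D _)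
      rw [hβ2, Real.sqrt_sq hβ0] at this
      exact this
    -- the anti-invariant part
    have h2 : D.n2 (D.pi'' (T + B) : F2 E4 M) ^ 2 ≤
        3 * C ^ 2 * e ^ 2 * G + 2 * C * (√G * β) + β ^ 2 + K := by
      rw [n2_sq_pi'']
      have h3 := I_split D (T + B) (T + B)
      have h4 : 2 * C * ∫ x, g x * D.nr (D.pi' B : F2 E4 M) x ∂D.μ ≤ 2 * C * (√G * β) := by
        gcongr
      linarith
    -- remove T''
    have h5 : D.n2 (D.pi'' B : F2 E4 M) ^ 2 ≤
        2 * D.n2 (D.pi'' (T + B) : F2 E4 M) ^ 2 + 2 * (C ^ 2 * e ^ 2 * G) := by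
      have e1 : D.pi'' B = D.pi'' (T + B) - D.pi'' T := by rw [map_add]; abel
      have hT'' : ∫ x, nsqG D.J D.F (D.pi'' T : F2 E4 M) x ∂D.μ ≤ C ^ 2 * e ^ 2 * G := by
        rw [hG, ← integral_const_mul]
        apply integral_mono (integrable_cont D (sF_continuous (sF_nsqG D (D.pi'' T).2)))
          (hi1.const_mul _)
        intro x
        have h6 := hT4 x
        have h7 := nr_nonneg D (D.pi'' T : F2 E4 M) x
        have h8 := nr_sq D (D.pi'' T).2.1 x
        have h9 : D.nr (D.pi'' T : F2 E4 M) x ^ 2 ≤ (C * e * g x) ^ 2 := by gcongr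
        rw [h8] at h9
        calc _ ≤ _ := h9
          _ = C ^ 2 * e ^ 2 * g x ^ 2 := by ring
      have hpt : ∫ x, nsqG D.J D.F (D.pi'' B : F2 E4 M) x ∂D.μ ≤
          2 * ∫ x, nsqG D.J D.F (D.pi'' (T + B) : F2 E4 M) x ∂D.μ
            + 2 * ∫ x, nsqG D.J D.F (D.pi'' T : F2 E4 M) x ∂D.μ := by
        have hiA := integrable_cont D (sF_continuous (sF_nsqG D (D.pi'' (T + B)).2))
        have hiB := integrable_cont D (sF_continuous (sF_nsqG D (D.pi'' T).2))
        rw [← integral_const_mul, ← integral_const_mul,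
          ← integral_add (hiA.const_mul 2) (hiB.const_mul 2)]
        apply integral_mono (integrable_cont D (sF_continuous (sF_nsqG D (D.pi'' B).2)))
          ((hiA.const_mul 2).add (hiB.const_mul 2))
        intro x
        rw [e1]
        exact nsqG_sub_le D _ _ x
      rw [n2_sq, n2_sq]
      linarith
    have hGs : 0 ≤ √G * β := by positivity
    have hC2 : C ≤ C ^ 2 := by nlinarith
    have h10 : 0 ≤ e ^ 2 * G := by positivity
    calc D.n2 (D.pi'' B : F2 E4 M) ^ 2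
        ≤ 2 * (3 * C ^ 2 * e ^ 2 * G + 2 * C * (√G * β) + β ^ 2 + K)
          + 2 * (C ^ 2 * e ^ 2 * G) := by
          linarith
      _ = 8 * C ^ 2 * (e ^ 2 * G) + 4 * C * (√G * β) + 2 * β ^ 2 + 2 * K := by ring
      _ ≤ 8 * C ^ 2 * (e ^ 2 * G) + 8 * C ^ 2 * (√G * β) + 8 * C ^ 2 * β ^ 2
          + 8 * C ^ 2 * K := by
          have a3 : 2 * K ≤ 8 * C ^ 2 * K := by
            apply mul_le_mul_of_nonneg_right _ hK0
            nlinarith
          have a1 : 4 * C * (√G * β) ≤ 8 * C ^ 2 * (√G * β) := by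
            apply mul_le_mul_of_nonneg_right _ hGs; nlinarith
          have a2 : 2 * β ^ 2 ≤ 8 * C ^ 2 * β ^ 2 := by
            apply mul_le_mul_of_nonneg_right _ (sq_nonneg _); nlinarith
          linarith
      _ = _ := by ring

end

end Crest.Agent.R235.N5Eb_861
end

-- ▼ part R235/N5E_861

/-!
Row 235, package STF (helper861): N5E, part 3: Step 4 of R240 (`N5.n5`, helper781) for functionals
with a closed representative (adapted).
-/

set_option autoImplicit false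
set_option maxSynthPendingDepth 3

open Set Function Filter MeasureTheory Metric
open scoped Manifold ContDiff Topology ENNReal

universe u

namespace Crest.Agent.R235.N5E_861

open Crest.Agent.R240 Crest.Agent.R240.Ch Crest.Agent.R240.N5

noncomputable section

variable {M : Type*} [MetricSpace M] [CompactSpace M] [ChartedSpace E4 M]
    [IsManifold 𝓘(ℝ, E4) ∞ M] [MeasurableSpace M] [BorelSpace M]

theorem ePart (D : Dat M) (hF : D.FUND) {𝒰 : Cover M} (S : SmPack D 𝒰) :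
    ∃ C : ℝ, 1 ≤ C ∧ ∀ a ∈ Z2 M, ∃ K : ℝ, 0 ≤ K ∧ ∀ (L : X2 M →ₗ[ℝ] ℝ) (s : Measure M),
    (∀ b ∈ Z2 M, L b = D.I ((a : X2 M) : F2 E4 M) ((b : X2 M) : F2 E4 M)) → D.IsNonneg L →
    D.IsRM L s → FOrd 𝒰 (L ∘ₗ D.pi'') →
    ∀ e, 0 < e → e ≤ S.e0 → ∀ g : M → ℝ, IsDen D S s e g → ∀ p ∈ S.clp 0,
    ∃ T B : X2 M, T + B ∈ Z2 M ∧
      (∀ b : X2 M, D.I (B : F2 E4 M) (b : F2 E4 M) = L (D.pi'' (S.A e p b))) ∧
      (∀ x, D.nr (T : F2 E4 M) x ≤ C * g x) ∧
      GeF D.J D.F (T : F2 E4 M) (fun x => - (C * e ^ 2 * g x)) ∧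
      (∀ x, D.nr (D.pi'' T : F2 E4 M) x ≤ C * e * g x) ∧
      (p = S.one → ∀ x, (1 - C * e) * g x ≤ qG D.F (T : F2 E4 M) D.F x) ∧
      D.n2 (D.pi'' B : F2 E4 M) ^ 2 ≤ C * (e ^ 2 * (∫ x, g x ^ 2 ∂D.μ) +
        √(∫ x, g x ^ 2 ∂D.μ) * D.n2 (D.pi' B : F2 E4 M) + D.n2 (D.pi' B : F2 E4 M) ^ 2 + K) := by
  obtain ⟨C, hC, h⟩ := N5Eb_861.bpart D S (N5P.nrcm D 𝒰) hF
  refine ⟨C, hC, fun a ha => ?_⟩
  obtain ⟨K, hK, h⟩ := h a ha
  refine ⟨K, hK, fun L s hcl _ hrm hfo e he hee g hg p hp => ?_⟩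
  obtain ⟨T, B, -, h2, h3, h4, h5, h6, h7, h8⟩ := h L s hrm hcl hfo e he hee g hg.1 hg.2.1 hg.2.2 p hp
  exact ⟨T, B, h3, fun b => (h2 b).symm, h4, h5, h6, h7, h8⟩

/-! ### N5 -/

set_option maxHeartbeats 4000000 in
/-- **N5E** (Step 4 for functionals with a closed representative). -/
theorem n5e_core (D : Dat M) (h8 : D.N8) (h9 : D.N9) (hF : D.FUND) (L : X2 M →ₗ[ℝ] ℝ)
    (s : Measure M) (a : X2 M) (haZ : a ∈ Z2 M)
    (hcl : ∀ b ∈ Z2 M, L b = D.I (a : F2 E4 M) ((b : X2 M) : F2 E4 M)) (hnn : D.IsNonneg L)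
    (hLF : 0 < L D.FX) (hfo : D.FinOrd L) (hrm : D.IsRM L s) :
    Dat.Growth2 s ∧ ∃ C : ℝ, ∀ b : X2 M,
      |L (D.pi'' b)| ≤ C * D.n2 ((D.pi'' b : X2 M) : F2 E4 M) := by
  have hfin := hrm.fin
  rcases isEmpty_or_nonempty M with hM | ⟨⟨x₀⟩⟩
  · refine ⟨⟨0, fun x => (hM.false x).elim⟩, 0, fun b => ?_⟩
    have h0 : D.pi'' b = 0 := Subtype.ext (funext fun x => (hM.false x).elim)
    rw [h0, map_zero]; simp
  have hsu : 0 < s.real univ := by
    have h1 := hrm.trace (fun _ => 1) (fun p => contDiffOn_const) D.FX (by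
      funext x
      show D.F x = (1 : ℝ) • D.F x
      rw [one_smul])
    rw [h1] at hLF
    simpa using hLF
  obtain ⟨R0, hR0, hR0e, hR0u⟩ : ∃ R0 : ℝ, 0 < R0 ∧ 1 ≤ R0 ∧ ball x₀ R0 = univ := by
    obtain ⟨R, hR⟩ := (isCompact_univ (X := M)).isBounded.subset_ball x₀
    refine ⟨max R 1, by positivity, le_max_right _ _, ?_⟩
    exact Set.eq_univ_of_univ_subset (hR.trans (ball_subset_ball (le_max_left _ _)))
  obtain ⟨𝒰, m, K, hK⟩ := hfo
  have hFO := fOrd_pi'' D 𝒰 L hK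
  obtain ⟨S⟩ := h8 𝒰
  obtain ⟨C₁, hC₁, hE⟩ := ePart D hF S
  obtain ⟨Ka, hKa, hE⟩ := hE a haZ
  obtain ⟨C₂, hC₂, hrepm⟩ := S.repm
  have hC₁0 : 0 < C₁ := by linarith
  have hC₂0 : 0 < C₂ := by linarith
  obtain ⟨m', K', hK'⟩ := hFO
  obtain ⟨k, n, C₄, hcrude⟩ := S.crude m'
  obtain ⟨C₅, hleak⟩ := S.leak k
  obtain ⟨C₆, hsign⟩ := S.sign k
  obtain ⟨C₇, happ⟩ := S.approx m'
  set A : ℝ := max 2 C₁ with hA
  have hA2 : 2 ≤ A := le_max_left _ _
  have hAC : C₁ ≤ A := le_max_right _ _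
  obtain ⟨C₃, r₀, hC₃, hr₀, h9⟩ := h9 A (by linarith)
  set e0 : ℝ := min S.e0 (1 / (2 * C₁)) with he0
  have he0pos : 0 < e0 := lt_min S.e0_pos (by positivity)
  have he0S : e0 ≤ S.e0 := min_le_left _ _
  have hs0 : 0 ≤ s.real univ := measureReal_nonneg
  set L' : X2 M →ₗ[ℝ] ℝ := L ∘ₗ D.pi'' with hL'
  have hL'' : ∀ b, L' b = L' (D.pi'' b) := by
    intro b
    show L (D.pi'' b) = L (D.pi'' (D.pi'' b))
    rw [En4.pi''_pi'']
  have hFO : FOrd 𝒰 L' := ⟨m', K', hK'⟩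
  -- the smoothed functionals
  have hB : ∀ (e : ℝ) (p : S.κ), ∃ η : X2 M, 0 < e → e ≤ S.e0 →
      ∀ b : X2 M, L' (S.A e p b) = D.I (η : F2 E4 M) (b : F2 E4 M) := by
    intro e p
    by_cases h : 0 < e ∧ e ≤ S.e0
    · obtain ⟨η, hη⟩ := S.rep L' hFO e p h.1 h.2
      exact ⟨η, fun _ _ => hη⟩
    · exact ⟨0, fun h1 h2 => (h ⟨h1, h2⟩).elim⟩
  choose B hB using hB
  have hG : ∀ e : ℝ, ∃ g : M → ℝ, 0 < e → e ≤ S.e0 → IsDen D S s e g ∧
      (∀ x, g x ≤ C₂ / e ^ 4 * s.real (ball x (C₂ * e))) ∧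
      (∀ x r, e ≤ r → s.real (ball x r) ≤ C₂ * ∫ y in ball x (C₂ * r), g y ∂D.μ) := by
    intro e
    by_cases h : 0 < e ∧ e ≤ S.e0
    · obtain ⟨g, h1, h2, h3, h4, h5⟩ := hrepm s hfin e h.1 h.2
      exact ⟨g, fun _ _ => ⟨⟨h1, h2, h3⟩, h4, h5⟩⟩
    · exact ⟨0, fun h1 h2 => (h ⟨h1, h2⟩).elim⟩
  choose G hG using hG
  let ι : Type := {p : S.κ // p ∈ S.cl k}
  let one' : ι := ⟨S.one, S.clp_sub k (S.one_mem k)⟩
  have : Nonempty ι := ⟨one'⟩
  set pos : Set ι := {q | q.1 ∈ S.clp k} with hpos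
  have hone : one' ∈ pos := S.one_mem k
  set f : ℝ → ι → ℝ := fun e q => D.n2 (B e q.1 : F2 E4 M) with hf
  set g : ℝ → ι → ℝ := fun e q => D.n2 (D.pi' (B e q.1) : F2 E4 M) with hg
  set h : ℝ → ι → ℝ := fun e q => D.n2 (D.pi'' (B e q.1) : F2 E4 M) with hh
  set t : ℝ → ℝ := fun e => √(∫ x, G e x ^ 2 ∂D.μ) with ht
  have hf0 : ∀ e q, 0 ≤ f e q := fun e q => En4.n2_nonneg D _
  have hg0 : ∀ e q, 0 ≤ g e q := fun e q => En4.n2_nonneg D _
  have hIB : ∀ e, 0 < e → e ≤ e0 → ∀ q : ι, ∀ b : X2 M,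
      |L' (S.A e q.1 b)| ≤ f e q * D.n2 (b : F2 E4 M) := by
    intro e he hee q b
    rw [hB e q.1 he (hee.trans he0S)]
    exact En4.I_le D _ _
  have hfle : ∀ e, 0 < e → e ≤ e0 → ∀ q : ι, ∀ N : ℝ, 0 ≤ N →
      (∀ b : X2 M, |L' (S.A e q.1 b)| ≤ N * D.n2 (b : F2 E4 M)) → f e q ≤ N := by
    intro e he hee q N hN h
    apply En4.n2_le_of_dual D hN
    intro b
    rw [← hB e q.1 he (hee.trans he0S)]
    exact h b
  -- crude bound
  have hbdd : ∀ e, 0 < e → e ≤ e0 → BddAbove (Set.range (f e)) := by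
    intro e he hee
    refine ⟨|K'| * (|C₄| / e ^ n), ?_⟩
    rintro _ ⟨q, rfl⟩
    apply hfle e he hee q _ (by positivity)
    intro b
    calc |L' (S.A e q.1 b)| ≤ K' * 𝒰.cm m' (S.A e q.1 b : F2 E4 M) := hK' _
      _ ≤ |K'| * 𝒰.cm m' (S.A e q.1 b : F2 E4 M) :=
          mul_le_mul_of_nonneg_right (le_abs_self _) (cm_nonneg _ _ _)
      _ ≤ |K'| * (C₄ / e ^ n * D.n2 (b : F2 E4 M)) :=
          mul_le_mul_of_nonneg_left (hcrude e q.1 he (hee.trans he0S) q.2 b) (abs_nonneg _)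
      _ ≤ |K'| * (|C₄| / e ^ n * D.n2 (b : F2 E4 M)) := by
          have h0 := En4.n2_nonneg D (b : F2 E4 M)
          gcongr
          exact le_abs_self _
      _ = _ := by ring
  -- leak
  have hleak' : ∀ e, 0 < e → e ≤ e0 → ∀ N : ℝ, (∀ q, f e q ≤ N) →
      ∀ q, g e q ≤ |C₅| * e * N := by
    intro e he hee N hN q
    have hN0 : 0 ≤ N := (hf0 e one').trans (hN one')
    apply En4.n2_inv_le_of_dual D (by positivity)
    intro b
    rw [← hB e q.1 he (hee.trans he0S)]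
    refine (hleak e he (hee.trans he0S) L' hFO hL'' N hN0 ?_ q.1 q.2 b).trans ?_
    · intro p hp c
      exact (hIB e he hee ⟨p, hp⟩ c).trans
        (mul_le_mul_of_nonneg_right (hN ⟨p, hp⟩) (En4.n2_nonneg D _))
    · have h0 := En4.n2_nonneg D (b : F2 E4 M)
      gcongr
      exact le_abs_self _
  -- the decomposition into positive kernels
  have hdec : ∀ e, 0 < e → e ≤ e0 → ∀ q, ∃ q₁ ∈ pos, ∃ q₂ ∈ pos,
      f e q ≤ (2 * |C₆|) * (f e q₁ + f e q₂) := by
    intro e he hee q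
    set R : ℝ := sSup (f e '' pos) with hR
    have hbd : BddAbove (f e '' pos) := (hbdd e he hee).mono (image_subset_range _ _)
    have hle : ∀ q' ∈ pos, f e q' ≤ R := fun q' hq' => le_csSup hbd ⟨q', hq', rfl⟩
    have hR0 : 0 ≤ R := (hf0 e one').trans (hle one' hone)
    have hq : f e q ≤ |C₆| * R := by
      apply hfle e he hee q _ (by positivity)
      intro b
      have h0 := En4.n2_nonneg D (b : F2 E4 M)
      have h1 := hsign e he (hee.trans he0S) L' b (R * D.n2 (b : F2 E4 M)) (by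
        intro p hp
        exact (hIB e he hee ⟨p, S.clp_sub k hp⟩ b).trans
          (mul_le_mul_of_nonneg_right (hle ⟨p, S.clp_sub k hp⟩ hp) h0)) q.1 q.2
      calc |L' (S.A e q.1 b)| ≤ C₆ * (R * D.n2 (b : F2 E4 M)) := h1
        _ ≤ |C₆| * (R * D.n2 (b : F2 E4 M)) := by gcongr; exact le_abs_self _
        _ = _ := by ring
    rcases hR0.eq_or_lt with hR1 | hR1
    · refine ⟨one', hone, one', hone, ?_⟩
      rw [← hR1, mul_zero] at hq
      have := hf0 e one'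
      exact hq.trans (by positivity)
    · obtain ⟨_, ⟨q', hq', rfl⟩, hlt⟩ := exists_lt_of_lt_csSup
        (⟨_, one', hone, rfl⟩ : (f e '' pos).Nonempty) (half_lt_self hR1)
      refine ⟨q', hq', q', hq', hq.trans ?_⟩
      have : R ≤ 2 * f e q' := by linarith
      have h6 := abs_nonneg C₆
      nlinarith [hf0 e q']
  -- energy
  have hpos' : ∀ e, 0 < e → e ≤ e0 → ∀ q ∈ pos,
      h e q ^ 2 ≤ C₁ * (e ^ 2 * t e ^ 2 + t e * g e q + g e q ^ 2 + Ka) := by
    intro e he hee q hq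
    obtain ⟨hden, -, -⟩ := hG e he (hee.trans he0S)
    obtain ⟨T, B', -, hB', -, -, -, -, hen⟩ := hE L s hcl hnn hrm hFO e he (hee.trans he0S)
      (G e) hden q.1 (S.clp_anti 0 k (Nat.zero_le k) hq)
    have hcong : ∀ b : X2 M, D.I (B' : F2 E4 M) (b : F2 E4 M) =
        D.I (B e q.1 : F2 E4 M) (b : F2 E4 M) := by
      intro b
      rw [hB', ← hB e q.1 he (hee.trans he0S)]
      rfl
    rw [n2_pi''_congr D hcong, n2_pi'_congr D hcong] at hen
    have ht2 : t e ^ 2 = ∫ x, G e x ^ 2 ∂D.μ :=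
      Real.sq_sqrt (integral_nonneg fun x => sq_nonneg _)
    rw [ht2]
    exact hen
  -- the density
  have htb : ∀ e, 0 < e → e ≤ e0 → ∀ Dn, Top.DenB s e Dn →
      e ^ 2 * t e ^ 2 ≤ (C₂ ^ 3 * s.real univ) * Dn := by
    intro e he hee Dn hDn
    obtain ⟨hden, hup, -⟩ := hG e he (hee.trans he0S)
    have hDn0 : 0 ≤ Dn := by
      have h1 : 0 ≤ s.real (ball x₀ e) := measureReal_nonneg
      have h2 := hDn x₀ e le_rfl
      have h3 : 0 < e ^ 2 := by positivity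
      by_contra hneg
      rw [not_le] at hneg
      nlinarith
    have ht2 : t e ^ 2 = ∫ x, G e x ^ 2 ∂D.μ :=
      Real.sq_sqrt (integral_nonneg fun x => sq_nonneg _)
    have hGc : Continuous (G e) := En4.sF_continuous hden.1
    have hGle : ∀ x, G e x ≤ C₂ ^ 3 * Dn / e ^ 2 := by
      intro x
      have h1 := hup x
      have h2 := hDn x (C₂ * e) (le_mul_of_one_le_left he.le hC₂)
      calc G e x ≤ C₂ / e ^ 4 * s.real (ball x (C₂ * e)) := h1
        _ ≤ C₂ / e ^ 4 * (Dn * (C₂ * e) ^ 2) := by gcongr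
        _ = C₂ ^ 3 * Dn / e ^ 2 := by field_simp
    have hint : ∫ x, G e x ^ 2 ∂D.μ ≤ C₂ ^ 3 * Dn / e ^ 2 * s.real univ := by
      calc ∫ x, G e x ^ 2 ∂D.μ ≤ ∫ x, C₂ ^ 3 * Dn / e ^ 2 * G e x ∂D.μ := by
            apply integral_mono (En4.integrable_cont D (hGc.pow 2))
              (En4.integrable_cont D (continuous_const.mul hGc))
            intro x
            show G e x ^ 2 ≤ C₂ ^ 3 * Dn / e ^ 2 * G e x
            have h1 := hGle x
            have h2 := hden.2.1 x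
            rw [sq]
            exact mul_le_mul_of_nonneg_right h1 h2
        _ = C₂ ^ 3 * Dn / e ^ 2 * s.real univ := by
            rw [integral_const_mul, int_den D S he (hee.trans he0S) hden]
    rw [ht2]
    calc e ^ 2 * ∫ x, G e x ^ 2 ∂D.μ ≤ e ^ 2 * (C₂ ^ 3 * Dn / e ^ 2 * s.real univ) := by
          gcongr
      _ = _ := by field_simp
  -- monotonicity
  have hmono : ∀ e, 0 < e → e ≤ e0 → ∀ N, (∀ q, f e q ≤ N) →
      Top.DenB s e ((C₂ ^ 3 * (C₃ * (s.real univ + 1 + |C₅|)) +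
        s.real univ * (C₂ / r₀) ^ 2) * (1 + N)) := by
    intro e he hee N hN
    have hN0 : 0 ≤ N := (hf0 e one').trans (hN one')
    obtain ⟨hden, -, hlo⟩ := hG e he (hee.trans he0S)
    obtain ⟨T, B', hTB, hB', hT2, hT3, hT4, hT5, -⟩ := hE L s hcl hnn hrm hFO e he
      (hee.trans he0S) (G e) hden S.one (S.one_mem 0)
    have hcong : ∀ b : X2 M, D.I (B' : F2 E4 M) (b : F2 E4 M) =
        D.I (B e S.one : F2 E4 M) (b : F2 E4 M) := by
      intro b
      rw [hB', ← hB e S.one he (hee.trans he0S)]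
      rfl
    have hn1 : D.n2 (B' : F2 E4 M) ≤ N := by
      rw [n2_congr D hcong]; exact hN one'
    have hn2 : D.n2 (D.pi' B' : F2 E4 M) ≤ |C₅| * e * N := by
      rw [n2_pi'_congr D hcong]; exact hleak' e he hee N hN one'
    have hesm : C₁ * e ≤ 1 / 2 := by
      have h1 : e ≤ 1 / (2 * C₁) := hee.trans (min_le_right _ _)
      rw [le_div_iff₀ (by positivity)] at h1
      linarith
    have hgn := hden.2.1
    have hpg : ∀ x, G e x ≤ A * qG D.F (T : F2 E4 M) D.F x := by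
      intro x
      exact dens_le hA2 (hgn x) hesm (hT5 rfl x)
    have hA1 : ∀ x, D.nr (T : F2 E4 M) x ≤ A * G e x := fun x =>
      (hT2 x).trans (mul_le_mul_of_nonneg_right hAC (hgn x))
    have hA2 : GeF D.J D.F (T : F2 E4 M) (fun x => - (A * e ^ 2 * G e x)) := by
      intro x v
      refine le_trans ?_ (hT3 x v)
      apply mul_le_mul_of_nonneg_right
      · have := mul_le_mul_of_nonneg_right hAC (mul_nonneg (sq_nonneg e) (hgn x))
        simp only
        nlinarith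
      · rcases eq_or_ne v 0 with rfl | hv
        · simp
        · exact ((En4.spos D x).pos v hv).le
    have hA3 : ∀ x, D.nr (D.pi'' T : F2 E4 M) x ≤ A * e * G e x := fun x =>
      (hT4 x).trans (mul_le_mul_of_nonneg_right
        (mul_le_mul_of_nonneg_right hAC he.le) (hgn x))
    have hm := h9 e he ((hee.trans he0S).trans S.e0_le) T B' (G e) hden.1 hgn hTB hA1 hA2 hA3 hpg
    have hgr := den_growth D hC₂ he (Q := C₃ * (s.real univ + 1 + |C₅|) * (1 + N)) hr₀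
      (by positivity) (by
        intro x r hr hrr
        have hr0 : 0 < r := he.trans_le hr
        have hm1 := hm x r hr hrr
        rw [int_den D S he (hee.trans he0S) hden] at hm1
        have h5 : D.n2 (D.pi' B' : F2 E4 M) / r ≤ |C₅| * N := by
          rw [div_le_iff₀ hr0]
          calc D.n2 (D.pi' B' : F2 E4 M) ≤ |C₅| * e * N := hn2
            _ ≤ |C₅| * r * N := by gcongr
            _ = _ := by ring
        have h5' := abs_nonneg C₅
        calc ∫ y in ball x r, G e y ∂D.μ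
            ≤ C₃ * r ^ 2 * (s.real univ + D.n2 (B' : F2 E4 M) +
              D.n2 (D.pi' B' : F2 E4 M) / r) := hm1
          _ ≤ C₃ * r ^ 2 * (s.real univ + N + |C₅| * N) := by gcongr
          _ ≤ C₃ * r ^ 2 * ((s.real univ + 1 + |C₅|) * (1 + N)) := by
              gcongr
              nlinarith [mul_nonneg hs0 hN0]
          _ = _ := by ring) hlo
    intro x r hr
    refine (hgr x r hr).trans ?_
    have hr2 : 0 ≤ r ^ 2 := sq_nonneg r
    apply mul_le_mul_of_nonneg_right _ hr2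
    have h7 : 0 ≤ s.real univ * (C₂ / r₀) ^ 2 := by positivity
    have h8 := mul_nonneg h7 hN0
    have h9 : (C₂ ^ 3 * (C₃ * (s.real univ + 1 + |C₅|)) + s.real univ * (C₂ / r₀) ^ 2) * (1 + N) =
      C₂ ^ 3 * (C₃ * (s.real univ + 1 + |C₅|) * (1 + N)) + s.real univ * (C₂ / r₀) ^ 2 +
        s.real univ * (C₂ / r₀) ^ 2 * N := by ring
    rw [h9]
    exact le_add_of_nonneg_right h8
  -- bootstrap
  obtain ⟨C, hC⟩ : ∃ C : ℝ, C = 1 + C₁ + |C₅| + 2 * |C₆| +
    (C₂ ^ 3 * s.real univ + Ka * R0 ^ 2 / s.real univ) +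
    (C₂ ^ 3 * (C₃ * (s.real univ + 1 + |C₅|)) + s.real univ * (C₂ / r₀) ^ 2) := ⟨_, rfl⟩
  obtain ⟨tt, htt⟩ : ∃ tt : ℝ → ℝ, ∀ e, tt e = √(t e ^ 2 + Ka / e ^ 2) := ⟨_, fun e => rfl⟩
  have htt0 : ∀ e, 0 ≤ tt e := fun e => by rw [htt]; exact Real.sqrt_nonneg _
  have htt2 : ∀ e, 0 < e → e ^ 2 * tt e ^ 2 = e ^ 2 * t e ^ 2 + Ka := by
    intro e he
    have h1 : tt e ^ 2 = t e ^ 2 + Ka / e ^ 2 := by
      rw [htt]
      exact Real.sq_sqrt (by positivity)
    rw [h1]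
    field_simp
  have htle : ∀ e, 0 < e → t e ≤ tt e := by
    intro e he
    rw [htt]
    apply Real.le_sqrt_of_sq_le
    have : 0 ≤ Ka / e ^ 2 := by positivity
    linarith
  have a5 : 0 ≤ Ka * R0 ^ 2 / s.real univ := by positivity
  have a1 : 0 ≤ |C₅| := abs_nonneg _
  have a2 : 0 ≤ |C₆| := abs_nonneg _
  have a3 : 0 ≤ C₂ ^ 3 * s.real univ := by positivity
  have a4 : 0 ≤ C₂ ^ 3 * (C₃ * (s.real univ + 1 + |C₅|)) + s.real univ * (C₂ / r₀) ^ 2 := by
    positivity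
  have hC1 : 1 ≤ C := by rw [hC]; linarith
  obtain ⟨e1, he1, N, Dn, hN, hDn⟩ := Top.step4_boot (pos := pos) (s := s) (e0 := e0) (C := C)
    he0pos hC1 f g h tt htt0 hf0 hg0 hbdd
    (by
      intro e he hee q hq
      have h1 : f e q ^ 2 = g e q ^ 2 + h e q ^ 2 := En4.n2_split D (B e q.1)
      rw [h1]
      exact le_mul_of_one_le_left (by positivity) hC1)
    (by
      intro e he hee q hq
      have b1 := hg0 e q
      have b2 : 0 ≤ t e := Real.sqrt_nonneg _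
      have b3 : 0 ≤ tt e := htt0 e
      have b4 := htle e he
      have b5 : e ^ 2 * t e ^ 2 + t e * g e q + g e q ^ 2 + Ka ≤
          e ^ 2 * tt e ^ 2 + tt e * g e q + g e q ^ 2 := by
        rw [htt2 e he]
        have := mul_le_mul_of_nonneg_right b4 b1
        linarith
      calc h e q ^ 2 ≤ C₁ * (e ^ 2 * t e ^ 2 + t e * g e q + g e q ^ 2 + Ka) := hpos' e he hee q hq
        _ ≤ C₁ * (e ^ 2 * tt e ^ 2 + tt e * g e q + g e q ^ 2) :=
            mul_le_mul_of_nonneg_left b5 hC₁0.le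
        _ ≤ C * (e ^ 2 * tt e ^ 2 + tt e * g e q + g e q ^ 2) := by
            apply mul_le_mul_of_nonneg_right
            · rw [hC]; linarith
            · positivity)
    (by
      intro e he hee N hN q
      have hN0 : 0 ≤ N := (hf0 e one').trans (hN one')
      calc g e q ≤ |C₅| * e * N := hleak' e he hee N hN q
        _ = |C₅| * (e * N) := by ring
        _ ≤ C * (e * N) := by
            apply mul_le_mul_of_nonneg_right _ (by positivity)
            rw [hC]; linarith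
        _ ≤ C * (e * (N + 1)) := by
            have : 0 ≤ C := by linarith
            gcongr
            linarith)
    (by
      intro e he hee q
      obtain ⟨q₁, h1, q₂, h2, h3⟩ := hdec e he hee q
      refine ⟨q₁, h1, q₂, h2, h3.trans ?_⟩
      apply mul_le_mul_of_nonneg_right _ (add_nonneg (hf0 _ _) (hf0 _ _))
      rw [hC]; linarith)
    (by
      intro e he hee Dn hDn
      rw [htt2 e he]
      have hKD : Ka ≤ Ka * R0 ^ 2 / s.real univ * Dn := by
        have h1 := hDn x₀ R0 ((hee.trans (he0S.trans S.e0_le)).trans hR0e)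
        rw [hR0u] at h1
        have h2 : 1 ≤ R0 ^ 2 / s.real univ * Dn := by
          rw [div_mul_eq_mul_div, le_div_iff₀ hsu]
          linarith
        calc Ka = Ka * 1 := (mul_one _).symm
          _ ≤ Ka * (R0 ^ 2 / s.real univ * Dn) := mul_le_mul_of_nonneg_left h2 hKa
          _ = _ := by ring
      refine (add_le_add (htb e he hee Dn hDn) hKD).trans ?_
      rw [← add_mul]
      have hDn0 : 0 ≤ Dn := by
        have h1 : 0 ≤ s.real (ball x₀ e) := measureReal_nonneg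
        have h2 := hDn x₀ e le_rfl
        have h3 : 0 < e ^ 2 := by positivity
        by_contra hneg
        rw [not_le] at hneg
        nlinarith
      apply mul_le_mul_of_nonneg_right _ hDn0
      rw [hC]; linarith)
    (by
      intro e he hee N hN x r hr
      have hN0 : 0 ≤ N := (hf0 e one').trans (hN one')
      refine (hmono e he hee N hN x r hr).trans ?_
      apply mul_le_mul_of_nonneg_right _ (sq_nonneg r)
      apply mul_le_mul_of_nonneg_right _ (by linarith)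
      rw [hC]; linarith)
  refine ⟨⟨Dn, hDn⟩, N, fun b => ?_⟩
  set c : X2 M := D.pi'' b with hc
  have hLc : L c = L' c := by
    show L c = L (D.pi'' c)
    rw [hc, En4.pi''_pi'']
  rw [hLc]
  refine le_of_small (lt_min he1 he0pos)
    (c := |K'| * (|C₇| * 𝒰.cm (m' + 1) (c : F2 E4 M))) fun e he hee => ?_
  have hee1 : e ≤ e1 := hee.trans (min_le_left _ _)
  have hee0 : e ≤ e0 := hee.trans (min_le_right _ _)
  have h1 : |L' (S.A e S.one c)| ≤ N * D.n2 (c : F2 E4 M) :=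
    (hIB e he hee0 one' c).trans
      (mul_le_mul_of_nonneg_right (hN e he hee1 one') (En4.n2_nonneg D _))
  have h2 : |L' (S.A e S.one c - c)| ≤ |K'| * (|C₇| * e * 𝒰.cm (m' + 1) (c : F2 E4 M)) := by
    calc |L' (S.A e S.one c - c)|
        ≤ K' * 𝒰.cm m' ((S.A e S.one c - c : X2 M) : F2 E4 M) := hK' _
      _ ≤ |K'| * 𝒰.cm m' ((S.A e S.one c - c : X2 M) : F2 E4 M) :=
          mul_le_mul_of_nonneg_right (le_abs_self _) (cm_nonneg _ _ _)
      _ ≤ |K'| * (C₇ * e * 𝒰.cm (m' + 1) (c : F2 E4 M)) :=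
          mul_le_mul_of_nonneg_left ((happ e he (hee0.trans he0S) c).2) (abs_nonneg _)
      _ ≤ _ := by
          have h0 := cm_nonneg 𝒰 (m' + 1) (c : F2 E4 M)
          gcongr
          exact le_abs_self _
  have h3 : L' c = L' (S.A e S.one c) - L' (S.A e S.one c - c) := by
    rw [map_sub]; ring
  rw [h3]
  calc |L' (S.A e S.one c) - L' (S.A e S.one c - c)|
      ≤ |L' (S.A e S.one c)| + |L' (S.A e S.one c - c)| := abs_sub _ _
    _ ≤ N * D.n2 (c : F2 E4 M) + |K'| * (|C₇| * e * 𝒰.cm (m' + 1) (c : F2 E4 M)) :=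
        add_le_add h1 h2
    _ = _ := by ring


/-- **LEAF N5E of package STF.** -/
theorem n5e : STF_861.N5E.{u} := by
  intro M _ _ _ _ _ _ D L s a ha hcl hnn hLF hfo hrm
  exact n5e_core D D.n8 (node_N9 D) (Fund.fund D) L s a ha hcl hnn hLF hfo hrm

end

end Crest.Agent.R235.N5E_861
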