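import Crest.Agent.R235.N3E_168_Mg
import Crest.Agent.R235.HDG_819
import Crest.Agent.R235.KC_61_Mg
import Crest.Agent.R235.N5E_861_Mg
import Crest.Agent.R235.LatK_766
import Crest.Agent.R235.K12Ext_168
import Crest.Agent.R235.KumThB_785
import Crest.Agent.R235.Ip_288

-- ▼ part R235/STF_861
section

/-!
Row 235 (S0364), PACKAGE STF (leader helper861): `STF` from the inputs `EXJ`, `BPLUS`, `ZD`, `PD`.
-/

set_option autoImplicit false

universe u

namespace Crest.Agent.R235.STFin_861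

open Crest.Agent.R235 Crest.Agent.R235.STF_861

/-- compatible forms in the class. -/
theorem dom : DOM.{u} := DOM_560.dom KC_61.kc N3E_168.n3e (Apx_291.apx N5E_861.n5e)

/-- **PACKAGE STF**: the class `c` of positive square, orthogonal to an NC pair of a normalised
hyperkaehler triple, contains a hyperkaehler form. -/
theorem stf (exj : EXJ.{0}) (bplus : BPLUS.{0}) (zd : ZD.{0}) (pd : PD.{0}) : STF.{0} :=
  STF_560.stf_of exj bplus zd pd NRM_181.nrm HDG_819.hdg Link_819.link dom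

end Crest.Agent.R235.STFin_861
end

-- ▼ part R235/KumCode_766
section

/-!
Row 235 (S0364), packages LAT/KUM, helper766: a Kummer configuration in a lattice of K3 type has a
word of weight eight (node (B) of the KUM chain).
-/

set_option autoImplicit false
set_option maxSynthPendingDepth 3

open Set Function Filter MeasureTheory
open scoped Manifold ContDiff Topology

universe u

namespace Crest.Agent.R235.KumCode_766

open Crest.Agent.R240 Crest.Agent.R240.Ch Crest.Agent.R240.Int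
open Crest.Agent.R235.LatKx_766 Crest.Agent.R235.LatKz_766 Crest.Agent.R235.LatK_766

/-- unimodularity of the K3 form over any ring. -/
theorem nondegR {R : Type*} [CommRing R] {v : IK → R} (hv : ∀ k, qf v (Pi.single k 1) = 0) :
    v = 0 := by
  have a00 := hv (Sum.inl (0, 1))
  have a01 := hv (Sum.inl (0, 0))
  have a10 := hv (Sum.inl (1, 1))
  have a11 := hv (Sum.inl (1, 0))
  have a20 := hv (Sum.inl (2, 1))
  have a21 := hv (Sum.inl (2, 0))
  simp [qf, hy, e8] at a00 a01 a10 a11 a20 a21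
  have hE0 : ∀ s : Fin 8, v (Sum.inr (0, s)) = 0 := by
    have h0 := hv (Sum.inr (0, 0))
    have h1 := hv (Sum.inr (0, 1))
    have h2 := hv (Sum.inr (0, 2))
    have h3 := hv (Sum.inr (0, 3))
    have h4 := hv (Sum.inr (0, 4))
    have h5 := hv (Sum.inr (0, 5))
    have h6 := hv (Sum.inr (0, 6))
    have h7 := hv (Sum.inr (0, 7))
    simp [qf, hy, e8] at h0 h1 h2 h3 h4 h5 h6 h7
    intro s
    fin_cases s
    · show v (Sum.inr (0, 0)) = 0
      linear_combination -((4)*h0 + (5)*h1 + (7)*h2 + (10)*h3 + (8)*h4 + (6)*h5 + (4)*h6 + (2)*h7)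
    · show v (Sum.inr (0, 1)) = 0
      linear_combination -((5)*h0 + (8)*h1 + (10)*h2 + (15)*h3 + (12)*h4 + (9)*h5 + (6)*h6 + (3)*h7)
    · show v (Sum.inr (0, 2)) = 0
      linear_combination -((7)*h0 + (10)*h1 + (14)*h2 + (20)*h3 + (16)*h4 + (12)*h5 + (8)*h6 + (4)*h7)
    · show v (Sum.inr (0, 3)) = 0
      linear_combination -((10)*h0 + (15)*h1 + (20)*h2 + (30)*h3 + (24)*h4 + (18)*h5 + (12)*h6 + (6)*h7)
    · show v (Sum.inr (0, 4)) = 0
      linear_combination -((8)*h0 + (12)*h1 + (16)*h2 + (24)*h3 + (20)*h4 + (15)*h5 + (10)*h6 + (5)*h7)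
    · show v (Sum.inr (0, 5)) = 0
      linear_combination -((6)*h0 + (9)*h1 + (12)*h2 + (18)*h3 + (15)*h4 + (12)*h5 + (8)*h6 + (4)*h7)
    · show v (Sum.inr (0, 6)) = 0
      linear_combination -((4)*h0 + (6)*h1 + (8)*h2 + (12)*h3 + (10)*h4 + (8)*h5 + (6)*h6 + (3)*h7)
    · show v (Sum.inr (0, 7)) = 0
      linear_combination -((2)*h0 + (3)*h1 + (4)*h2 + (6)*h3 + (5)*h4 + (4)*h5 + (3)*h6 + (2)*h7)
  have hE1 : ∀ s : Fin 8, v (Sum.inr (1, s)) = 0 := by
    have h0 := hv (Sum.inr (1, 0))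
    have h1 := hv (Sum.inr (1, 1))
    have h2 := hv (Sum.inr (1, 2))
    have h3 := hv (Sum.inr (1, 3))
    have h4 := hv (Sum.inr (1, 4))
    have h5 := hv (Sum.inr (1, 5))
    have h6 := hv (Sum.inr (1, 6))
    have h7 := hv (Sum.inr (1, 7))
    simp [qf, hy, e8] at h0 h1 h2 h3 h4 h5 h6 h7
    intro s
    fin_cases s
    · show v (Sum.inr (1, 0)) = 0
      linear_combination -((4)*h0 + (5)*h1 + (7)*h2 + (10)*h3 + (8)*h4 + (6)*h5 + (4)*h6 + (2)*h7)
    · show v (Sum.inr (1, 1)) = 0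
      linear_combination -((5)*h0 + (8)*h1 + (10)*h2 + (15)*h3 + (12)*h4 + (9)*h5 + (6)*h6 + (3)*h7)
    · show v (Sum.inr (1, 2)) = 0
      linear_combination -((7)*h0 + (10)*h1 + (14)*h2 + (20)*h3 + (16)*h4 + (12)*h5 + (8)*h6 + (4)*h7)
    · show v (Sum.inr (1, 3)) = 0
      linear_combination -((10)*h0 + (15)*h1 + (20)*h2 + (30)*h3 + (24)*h4 + (18)*h5 + (12)*h6 + (6)*h7)
    · show v (Sum.inr (1, 4)) = 0
      linear_combination -((8)*h0 + (12)*h1 + (16)*h2 + (24)*h3 + (20)*h4 + (15)*h5 + (10)*h6 + (5)*h7)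
    · show v (Sum.inr (1, 5)) = 0
      linear_combination -((6)*h0 + (9)*h1 + (12)*h2 + (18)*h3 + (15)*h4 + (12)*h5 + (8)*h6 + (4)*h7)
    · show v (Sum.inr (1, 6)) = 0
      linear_combination -((4)*h0 + (6)*h1 + (8)*h2 + (12)*h3 + (10)*h4 + (8)*h5 + (6)*h6 + (3)*h7)
    · show v (Sum.inr (1, 7)) = 0
      linear_combination -((2)*h0 + (3)*h1 + (4)*h2 + (6)*h3 + (5)*h4 + (4)*h5 + (3)*h6 + (2)*h7)
  funext k
  rcases k with ⟨k, s⟩ | ⟨k, s⟩
  · fin_cases k <;> fin_cases s <;> assumption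
  · fin_cases k
    · exact hE0 s
    · exact hE1 s

theorem qf_even (n : IK → ℤ) : ∃ z, qf n n = 2 * z := by
  refine ⟨n (Sum.inl (0, 0)) * n (Sum.inl (0, 1)) + n (Sum.inl (1, 0)) * n (Sum.inl (1, 1)) +
    n (Sum.inl (2, 0)) * n (Sum.inl (2, 1)) - ?_ - ?_, ?_⟩
  · exact (n (Sum.inr (0, 0)) * n (Sum.inr (0, 0)) + n (Sum.inr (0, 1)) * n (Sum.inr (0, 1)) +
      n (Sum.inr (0, 2)) * n (Sum.inr (0, 2)) + n (Sum.inr (0, 3)) * n (Sum.inr (0, 3)) +
      n (Sum.inr (0, 4)) * n (Sum.inr (0, 4)) + n (Sum.inr (0, 5)) * n (Sum.inr (0, 5)) +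
      n (Sum.inr (0, 6)) * n (Sum.inr (0, 6)) + n (Sum.inr (0, 7)) * n (Sum.inr (0, 7))) -
      (n (Sum.inr (0, 0)) * n (Sum.inr (0, 2)) + n (Sum.inr (0, 1)) * n (Sum.inr (0, 3)) +
      n (Sum.inr (0, 2)) * n (Sum.inr (0, 3)) + n (Sum.inr (0, 3)) * n (Sum.inr (0, 4)) +
      n (Sum.inr (0, 4)) * n (Sum.inr (0, 5)) + n (Sum.inr (0, 5)) * n (Sum.inr (0, 6)) +
      n (Sum.inr (0, 6)) * n (Sum.inr (0, 7)))
  · exact (n (Sum.inr (1, 0)) * n (Sum.inr (1, 0)) + n (Sum.inr (1, 1)) * n (Sum.inr (1, 1)) +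
      n (Sum.inr (1, 2)) * n (Sum.inr (1, 2)) + n (Sum.inr (1, 3)) * n (Sum.inr (1, 3)) +
      n (Sum.inr (1, 4)) * n (Sum.inr (1, 4)) + n (Sum.inr (1, 5)) * n (Sum.inr (1, 5)) +
      n (Sum.inr (1, 6)) * n (Sum.inr (1, 6)) + n (Sum.inr (1, 7)) * n (Sum.inr (1, 7))) -
      (n (Sum.inr (1, 0)) * n (Sum.inr (1, 2)) + n (Sum.inr (1, 1)) * n (Sum.inr (1, 3)) +
      n (Sum.inr (1, 2)) * n (Sum.inr (1, 3)) + n (Sum.inr (1, 3)) * n (Sum.inr (1, 4)) +
      n (Sum.inr (1, 4)) * n (Sum.inr (1, 5)) + n (Sum.inr (1, 5)) * n (Sum.inr (1, 6)) +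
      n (Sum.inr (1, 6)) * n (Sum.inr (1, 7)))
  · simp only [qf, hy, e8]; ring

/-- the form modulo two. -/
def B2 : LinearMap.BilinForm (ZMod 2) (IK → ZMod 2) :=
  LinearMap.mk₂ (ZMod 2) qf (fun x y z => qf_add x y z) (fun c x y => qf_smul c x y)
    (fun x y z => by rw [qf_comm, qf_add, qf_comm y, qf_comm z])
    (fun c x y => by rw [qf_comm, qf_smul, qf_comm y]; rfl)

theorem B2_apply (x y : IK → ZMod 2) : B2 x y = qf x y := rfl

/-- isotropic subspaces have dimension at most eleven. -/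
theorem isotropic (W : Submodule (ZMod 2) (IK → ZMod 2))
    (hW : ∀ x ∈ W, ∀ y ∈ W, qf x y = 0) : Module.finrank (ZMod 2) W ≤ 11 := by
  have hrefl : B2.IsRefl := fun x y h => by rw [B2_apply, qf_comm]; exact h
  have hnd : B2.Nondegenerate := by
    refine (LinearMap.IsRefl.nondegenerate_iff_separatingLeft hrefl).2 ?_
    intro x hx
    exact nondegR fun k => hx _
  have h1 := LinearMap.BilinForm.finrank_orthogonal hnd W
  have h2 : W ≤ B2.orthogonal W := by
    intro x hx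
    rw [LinearMap.BilinForm.mem_orthogonal_iff]
    intro y hy
    exact hW y hy x hx
  have h3 := Submodule.finrank_mono h2
  have h4 : Module.finrank (ZMod 2) (IK → ZMod 2) = 22 := by
    rw [Module.finrank_fintype_fun_eq_card]; rfl
  omega

/-- sixteen orthogonal roots with half sum: a word which is neither zero nor everything. -/
theorem exists_word (n : Fin 16 → IK → ℤ) (hn : ∀ i j, qf (n i) (n j) = if i = j then -2 else 0) :
    ∃ I : Finset (Fin 16), I.Nonempty ∧ Iᶜ.Nonempty ∧ ∀ k, (2 : ℤ) ∣ ∑ i ∈ I, n i k := by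
  let φ : (Fin 16 → ZMod 2) →ₗ[ZMod 2] (IK → ZMod 2) :=
    Fintype.linearCombination (ZMod 2) (fun i k => ((n i k : ℤ) : ZMod 2))
  have hφ : ∀ c, φ c = ∑ i, c i • (fun k => ((n i k : ℤ) : ZMod 2) : IK → ZMod 2) := fun c => by
    simp [φ, Fintype.linearCombination_apply]
  have hbb : ∀ i j, B2 (fun k => ((n i k : ℤ) : ZMod 2)) (fun k => ((n j k : ℤ) : ZMod 2)) = 0 := by
    intro i j
    have h := qf_map (Int.castRingHom (ZMod 2)) (n i) (n j)
    rw [B2_apply]
    refine h.trans ?_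
    rw [hn]
    split_ifs
    · decide
    · simp
  have hiso : ∀ x ∈ LinearMap.range φ, ∀ y ∈ LinearMap.range φ, qf x y = 0 := by
    rintro _ ⟨c, rfl⟩ _ ⟨c', rfl⟩
    rw [← B2_apply, hφ, hφ]
    simp only [map_sum, map_smul, LinearMap.sum_apply, LinearMap.smul_apply, hbb, smul_zero,
      Finset.sum_const_zero]
  have h1 := isotropic _ hiso
  have h2 := LinearMap.finrank_range_add_finrank_ker φ
  rw [Module.finrank_fintype_fun_eq_card, Fintype.card_fin] at h2
  have h3 : ¬ LinearMap.ker φ ≤ Submodule.span (ZMod 2) {(1 : Fin 16 → ZMod 2)} := by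
    intro h
    have h4 := Submodule.finrank_mono h
    have h5 := finrank_span_le_card (R := ZMod 2) ({(1 : Fin 16 → ZMod 2)} : Set _)
    simp at h5
    omega
  obtain ⟨c, hc, hc'⟩ := SetLike.not_le_iff_exists.1 h3
  have h01 : ∀ z : ZMod 2, z = 0 ∨ z = 1 := by decide
  refine ⟨Finset.univ.filter fun i => c i = 1, ?_, ?_, ?_⟩
  · by_contra hne
    rw [Finset.not_nonempty_iff_eq_empty, Finset.filter_eq_empty_iff] at hne
    apply hc'
    have : c = 0 := by
      funext i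
      exact (h01 (c i)).resolve_right (hne (Finset.mem_univ i))
    rw [this]
    exact Submodule.zero_mem _
  · by_contra hne
    rw [Finset.not_nonempty_iff_eq_empty, Finset.compl_eq_empty_iff] at hne
    apply hc'
    have : c = 1 := by
      funext i
      have : i ∈ Finset.univ.filter fun i => c i = 1 := by rw [hne]; exact Finset.mem_univ i
      exact (Finset.mem_filter.1 this).2
    rw [this]
    exact Submodule.mem_span_singleton_self _
  · intro k
    have h4 : φ c = 0 := hc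
    rw [hφ] at h4
    have h5 := congrFun h4 k
    simp only [Finset.sum_apply, Pi.smul_apply, smul_eq_mul, Pi.zero_apply] at h5
    have h6 : ((∑ i ∈ Finset.univ.filter (fun i => c i = 1), n i k : ℤ) : ZMod 2) = 0 := by
      rw [Int.cast_sum, Finset.sum_filter]
      refine Eq.trans (Finset.sum_congr rfl fun i _ => ?_) h5
      rcases h01 (c i) with h | h
      · rw [h, zero_mul, if_neg (by decide)]
      · rw [h, one_mul, if_pos rfl]
    exact (ZMod.intCast_zmod_eq_zero_iff_dvd _ 2).1 h6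

/-- a word `J` of the code, as a vector. -/
theorem word_vec (n : Fin 16 → IK → ℤ) (J : Finset (Fin 16)) (hJ : ∀ k, (2 : ℤ) ∣ ∑ i ∈ J, n i k) :
    ∃ h : IK → ℤ, rl h = ((1 : ℝ) / 2) • ∑ i ∈ J, rl (n i) := by
  refine ⟨fun k => (∑ i ∈ J, n i k) / 2, ?_⟩
  funext k
  have h2 : (∑ i ∈ J, n i k) = 2 * ((∑ i ∈ J, n i k) / 2) := by
    have := hJ k
    omega
  have h3 : ((∑ i ∈ J, n i k : ℤ) : ℝ) = 2 * (((∑ i ∈ J, n i k) / 2 : ℤ) : ℝ) := by
    exact_mod_cast h2
  show (((∑ i ∈ J, n i k) / 2 : ℤ) : ℝ) = (1 / 2 : ℝ) * (∑ i ∈ J, rl (n i)) k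
  rw [Finset.sum_apply]
  have h4 : ∑ i ∈ J, rl (n i) k = ((∑ i ∈ J, n i k : ℤ) : ℝ) := by
    rw [Int.cast_sum]; rfl
  rw [h4, h3]
  ring

theorem word_card (n : Fin 16 → IK → ℤ) (hn : ∀ i j, qf (n i) (n j) = if i = j then -2 else 0)
    (b1 b2 : V) (h1 : ∀ i, B (rl (n i)) b1 = 0) (h2 : ∀ i, B (rl (n i)) b2 = 0)
    (only : ∀ m : IK → ℤ, qf m m = -2 → B (rl m) b1 = 0 → B (rl m) b2 = 0 →
      ∃ i, m = n i ∨ m = - n i)
    (J : Finset (Fin 16)) (hne : J.Nonempty) (hJ : ∀ k, (2 : ℤ) ∣ ∑ i ∈ J, n i k) :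
    4 ∣ J.card ∧ 8 ≤ J.card := by
  obtain ⟨h, hh⟩ := word_vec n J hJ
  have hB : ∀ i j, B (rl (n i)) (rl (n j)) = if i = j then -2 else 0 := by
    intro i j
    rw [B_rl, hn]
    split_ifs <;> simp
  have hhn : ∀ i ∈ J, B (rl h) (rl (n i)) = -1 := by
    intro i hi
    rw [hh, map_smul, map_sum, LinearMap.smul_apply, LinearMap.sum_apply]
    simp only [hB, Finset.sum_ite_eq', hi, if_true, smul_eq_mul]
    norm_num
  have hhh : B (rl h) (rl h) = -(J.card : ℝ) / 2 := by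
    calc B (rl h) (rl h) = B (rl h) (((1 : ℝ) / 2) • ∑ i ∈ J, rl (n i)) := by rw [← hh]
      _ = (1 / 2 : ℝ) * ∑ i ∈ J, B (rl h) (rl (n i)) := by
        rw [map_smul, map_sum, smul_eq_mul]
      _ = (1 / 2 : ℝ) * ∑ i ∈ J, (-1 : ℝ) := by rw [Finset.sum_congr rfl hhn]
      _ = -(J.card : ℝ) / 2 := by
        rw [Finset.sum_const, nsmul_eq_mul]; ring
  obtain ⟨z, hz⟩ := qf_even h
  have hcz : (J.card : ℤ) = -4 * z := by
    have h3 : B (rl h) (rl h) = ((2 * z : ℤ) : ℝ) := by rw [B_rl, hz]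
    have h4 : (J.card : ℝ) = ((-4 * z : ℤ) : ℝ) := by
      rw [hhh] at h3
      push_cast at h3 ⊢
      linarith
    exact_mod_cast h4
  have hpos : 0 < J.card := hne.card_pos
  have hz1 : z ≠ -1 := by
    intro hz1
    have hq : qf h h = -2 := by rw [hz, hz1]; norm_num
    have hp1 : B (rl h) b1 = 0 := by
      rw [hh, map_smul, map_sum, LinearMap.smul_apply, LinearMap.sum_apply]
      simp [h1]
    have hp2 : B (rl h) b2 = 0 := by
      rw [hh, map_smul, map_sum, LinearMap.smul_apply, LinearMap.sum_apply]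
      simp [h2]
    obtain ⟨i, hi⟩ := only h hq hp1 hp2
    obtain ⟨m, hm⟩ := hne
    have h5 := hhn m hm
    have h6 : rl h = rl (n i) ∨ rl h = - rl (n i) := by
      rcases hi with hi | hi
      · left; rw [hi]
      · right
        rw [hi]
        funext k
        simp [rl]
    rcases h6 with h6 | h6
    · rw [h6, hB] at h5
      split_ifs at h5 <;> norm_num at h5
    · rw [h6, map_neg, LinearMap.neg_apply, hB] at h5
      split_ifs at h5 <;> norm_num at h5
  constructor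
  · have : (4 : ℤ) ∣ (J.card : ℤ) := ⟨-z, by rw [hcz]; ring⟩
    exact_mod_cast this
  · omega

section

variable {M : Type u} [TopologicalSpace M] [T2Space M] [CompactSpace M]
  [ChartedSpace E4 M] [IsManifold 𝓘(ℝ, E4) ∞ M]

set_option maxHeartbeats 1000000 in
/-- KUM node (B): sixteen roots in Kummer position contain a word of weight eight. -/
theorem exists_eight {F : Z2 M} (hF : Vol (F.1.1 : F2 E4 M)) (hK : K3Type F)
    {d : Fin 16 → H2 M} {b : Fin 3 → H2 M} (hP : KumPos F d b) :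
    ∃ I : Finset (Fin 16), I.card = 8 ∧ ((1 : ℝ) / 2) • ∑ i ∈ I, d i ∈ HZ M := by
  obtain ⟨-, e, hG, hZ⟩ := hK
  have hint : ∀ c ∈ HZ M, ∃ n : IK → ℤ, c = e.equivFun.symm (rl n) := by
    intro c hc
    rw [hZ] at hc
    obtain ⟨n, hn⟩ := hc
    exact ⟨n, by rw [symm_rl]; exact hn⟩
  have hint' : ∀ n : IK → ℤ, e.equivFun.symm (rl n) ∈ HZ M := by
    intro n
    rw [hZ, symm_rl]
    exact ⟨n, rfl⟩
  choose n hn using fun i => hint (d i) (hP.conf.root i).1
  have hqn : ∀ i j, qf (n i) (n j) = if i = j then -2 else 0 := by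
    intro i j
    have h1 : ((qf (n i) (n j) : ℤ) : ℝ) = ip F (d i) (d j) := by
      rw [← B_rl, hn i, hn j, ip_eq' hF e hG]
    split_ifs with h
    · subst h
      have h2 := (hP.conf.root i).2
      rw [← h1] at h2
      exact_mod_cast h2
    · rw [hP.conf.orth i j h] at h1
      exact_mod_cast h1
  have hb : ∀ m : IK → ℤ, ∀ x : H2 M,
      B (rl m) (e.equivFun x) = ip F (e.equivFun.symm (rl m)) x := by
    intro m x
    rw [ip_eq hF e hG, LinearEquiv.apply_symm_apply]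
  have h1 : ∀ i, B (rl (n i)) (e.equivFun (b 1)) = 0 := fun i => by
    rw [hb, ← hn i, hP.perp1]
  have h2 : ∀ i, B (rl (n i)) (e.equivFun (b 2)) = 0 := fun i => by
    rw [hb, ← hn i, hP.perp2]
  have hinj : ∀ m m' : IK → ℤ, rl m = rl m' → m = m' := by
    intro m m' h
    funext k
    have : (m k : ℝ) = (m' k : ℝ) := congrFun h k
    exact_mod_cast this
  have only : ∀ m : IK → ℤ, qf m m = -2 → B (rl m) (e.equivFun (b 1)) = 0 →
      B (rl m) (e.equivFun (b 2)) = 0 → ∃ i, m = n i ∨ m = - n i := by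
    intro m hm hm1 hm2
    rw [hb] at hm1 hm2
    have hr : e.equivFun.symm (rl m) ∈ Root F := by
      refine ⟨hint' m, ?_⟩
      rw [ip_eq' hF e hG, B_rl, hm]
      norm_num
    obtain ⟨i, hi⟩ := hP.only _ hr hm1 hm2
    refine ⟨i, ?_⟩
    rw [hn i] at hi
    rcases hi with hi | hi
    · left
      exact hinj _ _ (e.equivFun.symm.injective hi)
    · right
      rw [← map_neg] at hi
      have h3 := e.equivFun.symm.injective hi
      apply hinj
      rw [h3]
      funext k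
      simp [rl]
  obtain ⟨m, hm⟩ := hint _ hP.conf.half
  have hall : ∀ k, ∑ i, n i k = 2 * m k := by
    intro k
    have h3 : ∑ i, d i = e.equivFun.symm (∑ i, rl (n i)) := by
      rw [map_sum]
      exact Finset.sum_congr rfl fun i _ => hn i
    rw [h3, ← map_smul] at hm
    have h4 := congrFun (e.equivFun.symm.injective hm) k
    have h5 : ∑ i, rl (n i) k = ((∑ i, n i k : ℤ) : ℝ) := by
      rw [Int.cast_sum]; rfl
    have h6 : (1 / 2 : ℝ) * ((∑ i, n i k : ℤ) : ℝ) = (m k : ℝ) := by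
      rw [← h5, ← Finset.sum_apply]
      exact h4
    have h7 : ((∑ i, n i k : ℤ) : ℝ) = ((2 * m k : ℤ) : ℝ) := by
      push_cast at h6 ⊢
      linarith
    exact_mod_cast h7
  obtain ⟨I, hI1, hI2, hI3⟩ := exists_word n hqn
  have hI4 : ∀ k, (2 : ℤ) ∣ ∑ i ∈ Iᶜ, n i k := by
    intro k
    have h3 := Finset.sum_add_sum_compl I (fun i => n i k)
    have h4 := hall k
    have h5 := hI3 k
    omega
  have c1 := word_card n hqn _ _ h1 h2 only I hI1 hI3
  have c2 := word_card n hqn _ _ h1 h2 only Iᶜ hI2 hI4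
  have c3 := Finset.card_add_card_compl I
  rw [Fintype.card_fin] at c3
  have hI8 : I.card = 8 := by
    clear h1 h2 only hall hm hP
    omega
  refine ⟨I, hI8, ?_⟩
  obtain ⟨h, hh⟩ := word_vec n I hI3
  have h8 : ((1 : ℝ) / 2) • ∑ i ∈ I, d i = e.equivFun.symm (rl h) := by
    rw [hh, map_smul, map_sum]
    congr 1
    exact Finset.sum_congr rfl fun i _ => hn i
  rw [h8]
  exact hint' h

end

end Crest.Agent.R235.KumCode_766
end

-- ▼ part R235/KumThA_785
section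

/-!
Row 235 (S0364), package KUM, node NECKTH (a) (helper785), part A:

* `s2 G U B` : a closed two-form on `TS r` with support in `{|p| ≤ r'}`, `r' < r`, extended by
  zero to a closed two-form `thZ` of `M`; `s2_pull` : its pull-backs;
* `bas_P2` : the pull-back of a closed two-form of `M` to the tube is basic;
* `val_zero_of_P2` : a form vanishes where its pull-back to the tube vanishes.
-/

set_option autoImplicit false
set_option maxSynthPendingDepth 3
set_option linter.unusedSectionVars false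

open Set Function Filter MeasureTheory
open scoped Manifold ContDiff Topology RealInnerProductSpace

universe u

namespace Crest.Agent.R235.KumThA_785

open Crest.Agent.R240 Crest.Agent.R240.Ch Crest.Agent.R235 Crest.Agent.R235.K12_417
  Crest.Agent.R235.PB_604 Crest.Agent.R235.K12Ext_168

noncomputable section

variable {M : Type u} [TopologicalSpace M] [T2Space M] [CompactSpace M]
  [ChartedSpace E4 M] [IsManifold 𝓘(ℝ, E4) ∞ M]

variable {σ : E3 → M} {r : ℝ} {Ps : E6 → M} {G : M → E6} {U : Set M}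

open Classical in
/-- the extension by zero of a two-form. -/
def s2 (G : M → E6) (U : Set M) (B : E6 → B6) : F2 E4 M :=
  fun x => if x ∈ U then pb2 (E := E4) (F := E6) (X := M) (M := E6) G B x else 0

lemma s2_of_mem {B : E6 → B6} {x : M} (hx : x ∈ U) :
    at2 (s2 G U B) x = at2 (pb2 (E := E4) (F := E6) (X := M) (M := E6) G B) x := by
  show s2 G U B x = _
  unfold s2
  rw [if_pos hx]
  rfl

lemma s2_zero (h : Tube σ r Ps G U) {B : E6 → B6} {r' : ℝ}
    (hB : ∀ z ∈ TS r, r' ≤ ‖z.2‖ → B z = 0) {x : M} (hx : x ∉ KK r' Ps) :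
    at2 (s2 G U B) x = 0 := by
  by_cases hU : x ∈ U
  · rw [s2_of_mem hU, at2_pb2]
    have h1 := h.mapsG x hU
    have h2 : B (G x) = 0 := by
      refine hB _ h1 ?_
      by_contra hc
      exact hx ⟨G x, ⟨h1.1, h1.2.1, (not_le.1 hc).le⟩, h.left x hU⟩
    show pl _ (B (G x)) = 0
    rw [h2]
    ext u v
    simp
  · show s2 G U B x = _
    unfold s2
    rw [if_neg hU]

lemma z2At_zero (x : M) : Z2At (0 : F2 E4 M) x :=
  z2At_of_mem (0 : Z2 M).1.2 (0 : Z2 M).2 x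

theorem z2At_s2 (h : Tube σ r Ps G U) {B : E6 → B6} {r' : ℝ} (hr : r' < r)
    (hs : ∀ z ∈ TS r, Z2At (E := E6) (X := E6) B z) (hB : ∀ z ∈ TS r, r' ≤ ‖z.2‖ → B z = 0)
    (x : M) : Z2At (s2 G U B) x := by
  by_cases hx : x ∈ U
  · refine (Z2At.pb2 (hs (G x) (h.mapsG x hx)) (smoothGAt h hx)).congr ?_
    filter_upwards [h.openU.mem_nhds hx] with y hy
    exact (s2_of_mem hy).symm
  · have hK : x ∉ KK r' Ps := fun hc => hx (KK_subset h hr hc)
    refine (z2At_zero x).congr ?_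
    filter_upwards [(isClosed_KK h hr).isOpen_compl.mem_nhds hK] with y hy
    rw [s2_zero h hB hy]
    rfl

/-- the extension as a closed form. -/
def thZ (h : Tube σ r Ps G U) {B : E6 → B6} {r' : ℝ} (hr : r' < r)
    (hs : ∀ z ∈ TS r, Z2At (E := E6) (X := E6) B z) (hB : ∀ z ∈ TS r, r' ≤ ‖z.2‖ → B z = 0) :
    Z2 M :=
  ⟨⟨s2 G U B, smooth2_of_z2At (z2At_s2 h hr hs hB)⟩, closed2_of_z2At (z2At_s2 h hr hs hB)⟩


/-- `dmap` is `D1`. -/
lemma dmap_eq {V : Type} [NormedAddCommGroup V] [NormedSpace ℝ V] (f : V → M) (y v : V) :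
    dmap f y v = D1 V E4 f y v := rfl

/-- the pull-back of the extension under a map `f` into `U` with `G ∘ f = g`. -/
theorem s2_pull (h : Tube σ r Ps G U) {B : E6 → B6} {V : Type} [NormedAddCommGroup V]
    [NormedSpace ℝ V] {f : V → M} {g : V → E6} {y : V}
    (hf : ContMDiffAt 𝓘(ℝ, V) 𝓘(ℝ, E4) ∞ f y) (hU : f y ∈ U)
    (hg : ∀ᶠ x in 𝓝 y, G (f x) = g x) (u v : V) :
    at2 (s2 G U B) (f y) (dmap f y u) (dmap f y v) =
      B (g y) (fderiv ℝ g y u) (fderiv ℝ g y v) := by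
  have hf1 : ContMDiffAt 𝓘(ℝ, V) 𝓘(ℝ, E4) 1 f y := hf.of_le one_le_infty
  have hG1 : ContMDiffAt 𝓘(ℝ, E4) 𝓘(ℝ, E6) 1 G (f y) := (smoothGAt h hU).of_le one_le_infty
  rw [s2_of_mem hU, at2_pb2, pl_apply, dmap_eq, dmap_eq]
  have h1 := D1_comp (E := V) (F := E4) (G := E6) (X := V) (M := M) (N := E6) hf1 hG1
  have h2 : D1 V E6 (G ∘ f) y = fderiv ℝ g y := by
    rw [D1_congr (show G ∘ f =ᶠ[𝓝 y] g from hg)]
    rfl
  have h3 : ∀ w : V, D1 E4 E6 G (f y) (D1 V E4 f y w) = fderiv ℝ g y w := by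
    intro w
    rw [← h2, h1]
    rfl
  rw [h3, h3]
  have h4 : G (f y) = g y := hg.self_of_nhds
  show B (G (f y)) _ _ = _
  rw [h4]

/-! ### pull-backs to the tube -/

/-- a form of `M` vanishes at a point of the tube where its pull-back vanishes. -/
theorem at2_zero_of_P2 (h : Tube σ r Ps G U) (a : F2 E4 M) {x : M} (hx : x ∈ U)
    (h0 : P2 Ps a (G x) = 0) : at2 a x = 0 := by
  have hG1 : ContMDiffAt 𝓘(ℝ, E4) 𝓘(ℝ, E6) 1 G x := (smoothGAt h hx).of_le one_le_infty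
  have hP1 : ContMDiffAt 𝓘(ℝ, E6) 𝓘(ℝ, E4) 1 Ps (G x) :=
    (smoothAt h (TS_subset_OS r (h.mapsG x hx))).of_le one_le_infty
  have h1 := D1_comp (E := E4) (F := E6) (G := E4) (X := M) (M := E6) (N := M) hG1 hP1
  have h2 : (D1 E4 E4 (Ps ∘ G) x : E4 →L[ℝ] E4) = ContinuousLinearMap.id ℝ E4 := by
    have h3 : Ps ∘ G =ᶠ[𝓝 x] (id : M → M) := by
      filter_upwards [h.openU.mem_nhds hx] with y hy
      exact h.left y hy
    rw [D1_congr h3, D1_id]
  have h4 : ∀ w : E4, D1 E6 E4 Ps (G x) (D1 E4 E6 G x w) = w := by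
    intro w
    have := congrArg (fun L : E4 →L[ℝ] E4 => L w) h1
    simp only [ContinuousLinearMap.comp_apply] at this
    rw [← this]
    have h5 := congrArg (fun L : E4 →L[ℝ] E4 => L w) h2
    exact h5
  have h6 : P2 Ps a (G x) = pl (D1 E6 E4 Ps (G x)) (at2 a (Ps (G x))) := rfl
  ext u v
  have h7 : P2 Ps a (G x) (D1 E4 E6 G x u) (D1 E4 E6 G x v) = 0 := by rw [h0]; rfl
  rw [h6, pl_apply, h4, h4, h.left x hx] at h7
  rw [h7]; rfl

theorem bas_P2 (h : Tube σ r Ps G U) (b : Z2 M) : Bas r (P2 Ps (b.1.1 : F2 E4 M)) := by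
  have hz : ∀ z ∈ OS r, Z2At (E := E6) (X := E6)
      (pb2 (E := E6) (F := E4) (X := E6) (M := M) Ps (b.1.1 : F2 E4 M)) z := by
    intro z hz
    exact (z2At_of_mem b.1.2 b.2 (Ps z)).pb2 (smoothAt h hz)
  refine ⟨?_, ?_, ?_, ?_⟩
  · intro z hz'
    have h1 := (hz z hz').sm
    have h2 : rep z (pb2 (E := E6) (F := E4) (X := E6) (M := M) Ps (b.1.1 : F2 E4 M)) =
        P2 Ps (b.1.1 : F2 E4 M) := by
      funext y
      exact rep_model z _ y
    rw [h2] at h1
    exact h1.contDiffWithinAt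
  · intro z hz' U
    exact (hz z hz').alt U
  · intro z hz' U V Y
    have h1 := (hz z hz').cl U V Y
    have h2 : rep z (pb2 (E := E6) (F := E4) (X := E6) (M := M) Ps (b.1.1 : F2 E4 M)) =
        P2 Ps (b.1.1 : F2 E4 M) := by
      funext y
      exact rep_model z _ y
    rw [h2] at h1
    exact h1
  · intro z hz' U V
    have hP1 : ContMDiffAt 𝓘(ℝ, E6) 𝓘(ℝ, E4) 1 Ps (Pi z) :=
      (smoothAt h (TS_subset_OS r (Pi_mem_TS hz'))).of_le one_le_infty
    have hPi : ContMDiffAt 𝓘(ℝ, E6) 𝓘(ℝ, E6) 1 Pi z :=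
      ((contDiffAt_Pi hz'.1).contMDiffAt).of_le one_le_infty
    have h1 := D1_comp (E := E6) (F := E6) (G := E4) (X := E6) (M := E6) (N := M) hPi hP1
    have h3 : Ps ∘ Pi =ᶠ[𝓝 z] Ps := by
      filter_upwards [(isOpen_OS r).mem_nhds hz'] with y hy
      exact h.fac y hy
    have h2 : (D1 E6 E4 Ps z : E6 →L[ℝ] E4) = (D1 E6 E4 Ps (Pi z)).comp (fderiv ℝ Pi z) := by
      rw [← D1_congr h3, h1]
      rfl
    show at2 (b.1.1 : F2 E4 M) (Ps z) (D1 E6 E4 Ps z U) (D1 E6 E4 Ps z V) =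
      at2 (b.1.1 : F2 E4 M) (Ps (Pi z)) (D1 E6 E4 Ps (Pi z) (fderiv ℝ Pi z U))
        (D1 E6 E4 Ps (Pi z) (fderiv ℝ Pi z V))
    rw [h2, h.fac z hz']
    rfl

end

end Crest.Agent.R235.KumThA_785
end

-- ▼ part R235/KumThC_785

/-!
Row 235 (S0364), package KUM, node NECKTH (a) (helper785), part C: a closed form of `M` whose
integral over the sphere vanishes is cohomologous to a form vanishing near the sphere.
-/

set_option autoImplicit false
set_option maxSynthPendingDepth 3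
set_option linter.unusedSectionVars false

open Set Function Filter MeasureTheory
open scoped Manifold ContDiff Topology RealInnerProductSpace

universe u

namespace Crest.Agent.R235.KumThC_785

open Crest.Agent.R240 Crest.Agent.R240.Ch Crest.Agent.R235 Crest.Agent.R235.K12_417
  Crest.Agent.R235.PB_604 Crest.Agent.R235.K12Ext_168 Crest.Agent.R235.KumThA_785
  Crest.Agent.R235.KumThB_785

noncomputable section

variable {r : ℝ}

/-! ### the normalisation map of `E3` -/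

/-- `y / |y|`. -/
def sn (y : E3) : E3 := ‖y‖⁻¹ • y

/-- `(y / |y|, 0)`. -/
def gy (y : E3) : E6 := (sn y, 0)

lemma contDiffAt_sn {y : E3} (hy : y ≠ 0) : ContDiffAt ℝ ∞ sn y :=
  ((contDiffAt_id.norm ℝ hy).inv (norm_ne_zero_iff.2 hy)).smul contDiffAt_id

lemma contDiffAt_gy {y : E3} (hy : y ≠ 0) : ContDiffAt ℝ ∞ gy y :=
  (contDiffAt_sn hy).prodMk contDiffAt_const

lemma norm_sn {y : E3} (hy : y ≠ 0) : ‖sn y‖ = 1 := by
  unfold sn
  rw [norm_smul, norm_inv, norm_norm, inv_mul_cancel₀ (norm_ne_zero_iff.2 hy)]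

lemma sn_of_norm {y : E3} (hy : ‖y‖ = 1) : sn y = y := by
  unfold sn; rw [hy, inv_one, one_smul]

lemma sn_smul {t : ℝ} (ht : 0 < t) (y : E3) : sn (t • y) = sn y := by
  unfold sn
  rw [norm_smul, Real.norm_of_nonneg ht.le, smul_smul, mul_inv, mul_comm t⁻¹, mul_assoc,
    inv_mul_cancel₀ ht.ne', mul_one]

lemma ne_of_norm {y : E3} (hy : ‖y‖ = 1) : y ≠ 0 := by
  intro h; rw [h, norm_zero] at hy; exact zero_ne_one hy

lemma fderiv_sn {y : E3} (hy : ‖y‖ = 1) (u : E3) : fderiv ℝ sn y u = u - ⟪y, u⟫ • y := by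
  have hy0 := ne_of_norm hy
  have h1 : HasFDerivAt (fun y : E3 => ‖y‖) (innerSL ℝ y) y := by
    have h2 : HasFDerivAt (fun y : E3 => ‖y‖ ^ 2) (2 • innerSL ℝ y) y :=
      (hasStrictFDerivAt_norm_sq y).hasFDerivAt
    have h3 : DifferentiableAt ℝ (fun y : E3 => ‖y‖) y :=
      (contDiffAt_id.norm ℝ hy0).differentiableAt infty_ne_zero
    have h4 := h3.hasFDerivAt.pow 2
    have h5 := h2.unique h4
    have h6 : fderiv ℝ (fun y : E3 => ‖y‖) y = innerSL ℝ y := by
      refine ContinuousLinearMap.ext fun v => ?_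
      have h7 := congrArg (fun L : E3 →L[ℝ] ℝ => L v) h5
      simp [hy] at h7
      simpa using h7.symm
    rw [← h6]
    exact h3.hasFDerivAt
  have h8 : HasFDerivAt (fun y : E3 => ‖y‖⁻¹) (-(innerSL ℝ y)) y := by
    have h := (hasDerivAt_inv (norm_ne_zero_iff.2 hy0)).comp_hasFDerivAt y h1
    refine HasFDerivAt.congr_fderiv h ?_
    rw [hy]; simp
  have h9 := h8.smul (hasFDerivAt_id y)
  have h10 : fderiv ℝ sn y = _ := h9.fderiv
  rw [h10]
  simp [hy]
  abel

lemma fderiv_gy {y : E3} (hy : y ≠ 0) (u : E3) : fderiv ℝ gy y u = (fderiv ℝ sn y u, 0) := by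
  have h := ((contDiffAt_sn hy).differentiableAt infty_ne_zero).hasFDerivAt.prodMk
    (hasFDerivAt_const (0 : E3) y)
  rw [show gy = fun y => (sn y, (0 : E3)) from rfl, h.fderiv]
  rfl

lemma gy_mem_TS {r : ℝ} (hr : 0 < r) {y : E3} (hy : y ≠ 0) : gy y ∈ TS r :=
  ⟨norm_sn hy, by show ⟪sn y, (0 : E3)⟫ = 0; rw [inner_zero_right], by
    show ‖(0 : E3)‖ < r; rw [norm_zero]; exact hr⟩

/-! ### area -/

/-- the cross product of two vectors orthogonal to `q`. -/
lemma cr_eq {q u v : E3} (hq : ‖q‖ = 1) (hu : ⟪q, u⟫ = 0) (hv : ⟪q, v⟫ = 0) :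
    cr u v = ⟪q, cr u v⟫ • q := by
  have a1 : q 0 ^ 2 + q 1 ^ 2 + q 2 ^ 2 = 1 := by rw [← norm_sq3, hq]; norm_num
  rw [in3] at hu hv ⊢
  ext i
  fin_cases i
  · simp only [cr_0, cr_1, cr_2]
    simp
    linear_combination (-(u 1 * v 2 - u 2 * v 1)) * a1 + (q 1 * v 2 - q 2 * v 1) * hu -
      (q 1 * u 2 - q 2 * u 1) * hv
  · simp only [cr_0, cr_1, cr_2]
    simp
    linear_combination (-(u 2 * v 0 - u 0 * v 2)) * a1 + (q 2 * v 0 - q 0 * v 2) * hu -
      (q 2 * u 0 - q 0 * u 2) * hv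
  · simp only [cr_0, cr_1, cr_2]
    simp
    linear_combination (-(u 0 * v 1 - u 1 * v 0)) * a1 + (q 0 * v 1 - q 1 * v 0) * hu -
      (q 0 * u 1 - q 1 * u 0) * hv

/-- the coefficient of an alternating form on `q^⊥`. -/
def cf (w : E3 → E3 → ℝ) (q : E3) : ℝ :=
  q 2 * w (EuclideanSpace.single 0 1) (EuclideanSpace.single 1 1) +
    q 0 * w (EuclideanSpace.single 1 1) (EuclideanSpace.single 2 1) +
    q 1 * w (EuclideanSpace.single 2 1) (EuclideanSpace.single 0 1)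

lemma single3 (v : E3) : v = v 0 • EuclideanSpace.single 0 (1 : ℝ) +
    v 1 • EuclideanSpace.single 1 (1 : ℝ) + v 2 • EuclideanSpace.single 2 (1 : ℝ) := by
  ext i; fin_cases i <;> simp

lemma cf_spec (w : E3 →L[ℝ] E3 →L[ℝ] ℝ) (hw : ∀ u, w u u = 0) {q u v : E3} (hq : ‖q‖ = 1)
    (hu : ⟪q, u⟫ = 0) (hv : ⟪q, v⟫ = 0) :
    w u v = cf (fun a b => w a b) q * ⟪q, cr u v⟫ := by
  have hsw : ∀ a b, w a b = - w b a := fun a b => alt_swap hw a b
  have h1 : w u v = w (EuclideanSpace.single 1 1) (EuclideanSpace.single 2 1) * cr u v 0 +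
      w (EuclideanSpace.single 2 1) (EuclideanSpace.single 0 1) * cr u v 1 +
      w (EuclideanSpace.single 0 1) (EuclideanSpace.single 1 1) * cr u v 2 := by
    conv_lhs => rw [single3 u, single3 v]
    simp only [map_add, map_smul, add_apply, smul_apply, smul_eq_mul, hw,
      hsw (EuclideanSpace.single 1 1) (EuclideanSpace.single 0 1),
      hsw (EuclideanSpace.single 0 1) (EuclideanSpace.single 2 1),
      hsw (EuclideanSpace.single 2 1) (EuclideanSpace.single 1 1), cr_0, cr_1, cr_2]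
    ring
  have h2 := cr_eq hq hu hv
  have c0 : cr u v 0 = ⟪q, cr u v⟫ * q 0 := congrArg (fun x : E3 => x 0) h2
  have c1 : cr u v 1 = ⟪q, cr u v⟫ * q 1 := congrArg (fun x : E3 => x 1) h2
  have c2 : cr u v 2 = ⟪q, cr u v⟫ * q 2 := congrArg (fun x : E3 => x 2) h2
  rw [h1, c0, c1, c2]
  unfold cf
  ring

lemma cr_proj {q u v : E3} :
    ⟪q, cr (u - ⟪q, u⟫ • q) (v - ⟪q, v⟫ • q)⟫ = ⟪q, cr u v⟫ := by
  simp only [in3, cr_0, cr_1, cr_2, PiLp.sub_apply, PiLp.smul_apply, smul_eq_mul]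
  ring

lemma inner_proj {q u : E3} (hq : ‖q‖ = 1) : ⟪q, u - ⟪q, u⟫ • q⟫ = 0 := by
  rw [inner_sub_right, inner_smul_right, real_inner_self_eq_norm_sq, hq]; ring

lemma cr_single : cr (EuclideanSpace.single 0 1) (EuclideanSpace.single 1 1) =
      EuclideanSpace.single 2 1 ∧
    cr (EuclideanSpace.single 1 1) (EuclideanSpace.single 2 1) = EuclideanSpace.single 0 1 ∧
    cr (EuclideanSpace.single 2 1) (EuclideanSpace.single 0 1) = EuclideanSpace.single 1 1 := by
  refine ⟨?_, ?_, ?_⟩ <;> (ext i; fin_cases i <;> simp [cr])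

lemma cf_area {c : ℝ} {q : E3} (hq : ‖q‖ = 1) (w : E3 → E3 → ℝ)
    (hw : ∀ u v, w u v = c * ⟪q, cr u v⟫) : cf w q = c := by
  obtain ⟨h1, h2, h3⟩ := cr_single
  unfold cf
  rw [hw, hw, hw, h1, h2, h3, in3, in3, in3]
  simp
  have a1 : q 0 ^ 2 + q 1 ^ 2 + q 2 ^ 2 = 1 := by rw [← norm_sq3, hq]; norm_num
  linear_combination c * a1

section Man

variable {M : Type u} [TopologicalSpace M] [T2Space M] [CompactSpace M]
  [ChartedSpace E4 M] [IsManifold 𝓘(ℝ, E4) ∞ M]

variable {σ : E3 → M} {Ps : E6 → M} {G : M → E6} {U : Set M}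

/-- the pull-back of a form under a map which factors through the tube. -/
theorem pull_Ps (h : Tube σ r Ps G U) (a : F2 E4 M) {V : Type} [NormedAddCommGroup V]
    [NormedSpace ℝ V] {f : V → M} {g : V → E6} {y : V} (hg : ContDiffAt ℝ ∞ g y)
    (hy : g y ∈ OS r) (hf : ∀ᶠ x in 𝓝 y, f x = Ps (g x)) (u v : V) :
    at2 a (f y) (dmap f y u) (dmap f y v) = P2 Ps a (g y) (fderiv ℝ g y u) (fderiv ℝ g y v) := by
  have hP1 : ContMDiffAt 𝓘(ℝ, E6) 𝓘(ℝ, E4) 1 Ps (g y) := (smoothAt h hy).of_le one_le_infty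
  have hg1 : ContMDiffAt 𝓘(ℝ, V) 𝓘(ℝ, E6) 1 g y := hg.contMDiffAt.of_le one_le_infty
  have h1 := D1_comp (E := V) (F := E6) (G := E4) (X := V) (M := E6) (N := M) hg1 hP1
  have h2 : (D1 V E4 f y : V →L[ℝ] E4) = D1 V E4 (Ps ∘ g) y :=
    D1_congr (show f =ᶠ[𝓝 y] Ps ∘ g from hf)
  have h3 : ∀ w, dmap f y w = D1 E6 E4 Ps (g y) (fderiv ℝ g y w) := by
    intro w
    rw [dmap_eq, h2, h1]
    rfl
  have h4 : f y = Ps (g y) := hf.self_of_nhds
  have h5 : P2 Ps a (g y) = pl (D1 E6 E4 Ps (g y)) (at2 a (Ps (g y))) := rfl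
  rw [h3, h3, h5, pl_apply, h4]

/-- near the unit sphere `σ = Ps ∘ gy`. -/
lemma sigma_ev (h : Tube σ r Ps G U) (hσ : EmbS σ) {y : E3} (hy : y ≠ 0) :
    ∀ᶠ x in 𝓝 y, σ x = Ps (gy x) := by
  filter_upwards [isOpen_ne.mem_nhds hy] with x hx
  have hx0 : x ≠ 0 := hx
  have h1 : Ps (gy x) = σ (sn x) := h.zero (sn x) (norm_sn hx0)
  rw [h1]
  exact (hσ.hom _ _ (inv_pos.2 (norm_pos_iff.2 hx0)) hx0).symm

/-- the restriction of `W` to the zero section. -/
def rW (W : E6 → B6) (q : E3) (u v : E3) : ℝ := W (q, 0) (u, 0) (v, 0)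

/-- the coefficient function of the restriction of `W` to the sphere. -/
def fW (W : E6 → B6) (q : E3) : ℝ := cf (rW W (sn q)) (sn q)

lemma sphI_eq (h : Tube σ r Ps G U) (hσ : EmbS σ) (a : F2 E4 M)
    (halt : ∀ z ∈ OS r, ∀ U, P2 Ps a z U U = 0) :
    sphI σ a = ∫ y : Metric.sphere (0 : E3) 1, fW (P2 Ps a) y ∂((volume : Measure E3).toSphere) := by
  unfold sphI
  refine integral_congr_ae (Eventually.of_forall fun y => ?_)
  have hy : ‖(y : E3)‖ = 1 := by simp
  have hy0 := ne_of_norm hy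
  have hmem : gy (y : E3) ∈ OS r := TS_subset_OS r (gy_mem_TS h.r_pos hy0)
  have hp := fun u v => pull_Ps h a (contDiffAt_gy hy0) hmem (sigma_ev h hσ hy0) u v
  have hgy : gy (y : E3) = ((y : E3), 0) := by unfold gy; rw [sn_of_norm hy]
  simp only [hp, fderiv_gy hy0, fderiv_sn hy]
  rw [hgy]
  -- the alternating form on `E3`
  let w : E3 →L[ℝ] E3 →L[ℝ] ℝ := pl (ContinuousLinearMap.inl ℝ E3 E3) (P2 Ps a ((y : E3), 0))
  have hw : ∀ u v, P2 Ps a ((y : E3), 0) (u, 0) (v, 0) = w u v := by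
    intro u v
    show _ = pl (ContinuousLinearMap.inl ℝ E3 E3) (P2 Ps a ((y : E3), 0)) u v
    rw [pl_apply]; rfl
  have hwa : ∀ u, w u u = 0 := by
    intro u
    rw [← hw]
    rw [hgy] at hmem
    exact halt _ hmem _
  have hspec : ∀ u v : E3, w (u - ⟪(y : E3), u⟫ • (y : E3)) (v - ⟪(y : E3), v⟫ • (y : E3)) =
      cf (fun a b => w a b) y * ⟪(y : E3), cr u v⟫ := by
    intro u v
    rw [cf_spec w hwa hy (inner_proj hy) (inner_proj hy), cr_proj]
  simp only [hw, hspec]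
  have h1 : fW (P2 Ps a) (y : E3) = cf (fun a b => w a b) y := by
    unfold fW
    rw [sn_of_norm hy]
    congr 1
  rw [h1]
  exact cf_area hy (fun u v => cf (fun a b => w a b) y * ⟪(y : E3), cr u v⟫) fun u v => rfl

lemma hom0_fW {W : E6 → B6} (hr : 0 < r) (hW : ContDiffOn ℝ ∞ W (OS r)) : Hom0 (fW W) := by
  constructor
  · intro q hq
    have hq0 : q ≠ 0 := hq
    have h1 : ContDiffAt ℝ ∞ (fun q => W (gy q)) q :=
      (hW.contDiffAt ((isOpen_OS r).mem_nhds (TS_subset_OS r (gy_mem_TS hr hq0)))).comp q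
        (contDiffAt_gy hq0)
    have h2 : ∀ u v : E3, ContDiffAt ℝ ∞ (fun q => rW W (sn q) u v) q := by
      intro u v
      exact (h1.clm_apply contDiffAt_const).clm_apply contDiffAt_const
    have h3 : ∀ i : Fin 3, ContDiffAt ℝ ∞ (fun q => sn q i) q := by
      intro i
      exact ((EuclideanSpace.proj (𝕜 := ℝ) i : E3 →L[ℝ] ℝ).contDiff.contDiffAt).comp q
        (contDiffAt_sn hq0)
    have h4 : ContDiffAt ℝ ∞ (fW W) q := by
      unfold fW cf
      exact (((h3 2).mul (h2 _ _)).add ((h3 0).mul (h2 _ _))).add ((h3 1).mul (h2 _ _))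
    exact h4.contDiffWithinAt
  · intro t q ht
    unfold fW
    rw [sn_smul ht]

end Man

/-! ### basic one-forms -/

lemma Pi_ev_mem {r : ℝ} {z : E6} (hz : z ∈ OS r) : ∀ᶠ w in 𝓝 z, w ∈ OS r :=
  (isOpen_OS r).mem_nhds hz

/-- the differential of a basic one-form is basic. -/
theorem bas_d1 {β : E6 → E6 →L[ℝ] ℝ} (h : Bas1 r β) : Bas r (d1 β) := by
  have hs : ∀ z ∈ OS r, ContDiffAt ℝ ∞ β z := fun z hz =>
    h.smooth.contDiffAt ((isOpen_OS r).mem_nhds hz)
  refine ⟨?_, ?_, ?_, ?_⟩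
  · intro z hz
    have h1 : ContDiffAt ℝ ∞ (fderiv ℝ β) z := (hs z hz).fderiv_right (m := ∞) (by simp)
    have h2 : d1 β = fun y => fderiv ℝ β y -
        (ContinuousLinearMap.flipₗᵢ ℝ E6 E6 ℝ) (fderiv ℝ β y) := rfl
    rw [h2]
    exact (h1.sub ((ContinuousLinearMap.flipₗᵢ ℝ E6 E6 ℝ).contDiff.contDiffAt.comp z
      h1)).contDiffWithinAt
  · intro z _ U
    rw [d1_apply, sub_self]
  · intro z hz U V Y
    exact dd_d1 (hs z hz) U V Y
  · intro z hz U V
    refine d1_pullback' (contDiffAt_Pi hz.1)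
      ((hs _ (TS_subset_OS r (Pi_mem_TS hz))).differentiableAt infty_ne_zero) ?_ U V
    filter_upwards [Pi_ev_mem hz] with w hw
    refine ContinuousLinearMap.ext fun X => ?_
    exact h.bas w hw X

lemma bas_sub {W W' : E6 → B6} (h : Bas r W) (h' : Bas r W') : Bas r (fun z => W z - W' z) := by
  have hs : ∀ z ∈ OS r, DifferentiableAt ℝ W z := fun z hz =>
    (h.smooth.contDiffAt ((isOpen_OS r).mem_nhds hz)).differentiableAt infty_ne_zero
  have hs' : ∀ z ∈ OS r, DifferentiableAt ℝ W' z := fun z hz =>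
    (h'.smooth.contDiffAt ((isOpen_OS r).mem_nhds hz)).differentiableAt infty_ne_zero
  refine ⟨h.smooth.sub h'.smooth, ?_, ?_, ?_⟩
  · intro z hz U
    show W z U U - W' z U U = 0
    rw [h.alt z hz, h'.alt z hz, sub_zero]
  · intro z hz U V Y
    have h1 := h.closed z hz U V Y
    have h2 := h'.closed z hz U V Y
    unfold dd at h1 h2 ⊢
    have h3 : fderiv ℝ (fun z => W z - W' z) z = fderiv ℝ W z - fderiv ℝ W' z :=
      fderiv_fun_sub (hs z hz) (hs' z hz)
    rw [h3]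
    simp only [sub_apply]
    linear_combination h1 - h2
  · intro z hz U V
    show W z U V - W' z U V = W (Pi z) _ _ - W' (Pi z) _ _
    rw [h.bas z hz, h'.bas z hz]

lemma bas1_add {β β' : E6 → E6 →L[ℝ] ℝ} (h : Bas1 r β) (h' : Bas1 r β') :
    Bas1 r (fun z => β z + β' z) where
  smooth := h.smooth.add h'.smooth
  bas z hz U := by
    show β z U + β' z U = β (Pi z) _ + β' (Pi z) _
    rw [h.bas z hz, h'.bas z hz]

/-- the pull-back of a homogeneous one-form of `E3 ∖ 0`. -/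
lemma bas1_fst {γ : E3 → E3 →L[ℝ] ℝ} (h1 : ContDiffOn ℝ ∞ γ {0}ᶜ) (h2 : ∀ q, γ q q = 0)
    (h3 : ∀ (t : ℝ) (q : E3), 0 < t → q ≠ 0 → γ (t • q) = t⁻¹ • γ q) :
    Bas1 r (fun z : E6 => (γ z.1).comp (ContinuousLinearMap.fst ℝ E3 E3)) where
  smooth := by
    intro z hz
    have h4 : ContDiffAt ℝ ∞ (fun z : E6 => γ z.1) z :=
      (h1.contDiffAt (isOpen_ne.mem_nhds hz.1)).comp z contDiffAt_fst
    exact (h4.clm_comp contDiffAt_const).contDiffWithinAt
  bas z hz U := by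
    have hn : ‖z.1‖ ≠ 0 := norm_ne_zero_iff.2 hz.1
    show γ z.1 U.1 = γ (‖z.1‖⁻¹ • z.1) ((fderiv ℝ Pi z U).1)
    rw [h3 _ _ (inv_pos.2 (norm_pos_iff.2 hz.1)) hz.1, inv_inv]
    -- the first component of `dPi`
    have e1 : (fderiv ℝ Pi z U).1 = fderiv ℝ sn z.1 U.1 := by
      rw [← fderiv_nn hz.1]
      have h5 : nn = fun z : E6 => sn z.1 := rfl
      rw [h5]
      have h6 := ((contDiffAt_sn hz.1).differentiableAt infty_ne_zero).hasFDerivAt.comp z
        (hasFDerivAt_fst (𝕜 := ℝ) (E := E3) (F := E3) (p := z))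
      have h7 : fderiv ℝ (fun z : E6 => sn z.1) z = _ := h6.fderiv
      rw [h7]; rfl
    have e2 : ∃ c : ℝ, fderiv ℝ sn z.1 U.1 = ‖z.1‖⁻¹ • U.1 + c • z.1 := by
      have h8 : HasFDerivAt (fun y : E3 => ‖y‖⁻¹) (fderiv ℝ (fun y : E3 => ‖y‖⁻¹) z.1) z.1 :=
        (((contDiffAt_id.norm ℝ hz.1).inv hn).differentiableAt infty_ne_zero).hasFDerivAt
      have h9 := h8.smul (hasFDerivAt_id z.1)
      refine ⟨fderiv ℝ (fun y : E3 => ‖y‖⁻¹) z.1 U.1, ?_⟩
      have h10 : fderiv ℝ sn z.1 = _ := h9.fderiv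
      rw [h10]
      simp
    obtain ⟨c, hc⟩ := e2
    rw [e1, hc, smul_apply, map_add, map_smul, map_smul, h2]
    simp only [smul_eq_mul, mul_zero, add_zero]
    rw [← mul_assoc, mul_inv_cancel₀ hn, one_mul]

/-- a basic closed two-form with integral zero over the zero section is exact. -/
theorem exists_prim (hS : S2PRIM) (hR : RPRIM) (hr : 0 < r) {W : E6 → B6} (hW : Bas r W)
    (h0 : ∫ y : Metric.sphere (0 : E3) 1, fW W y ∂((volume : Measure E3).toSphere) = 0) :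
    ∃ β : E6 → E6 →L[ℝ] ℝ, Bas1 r β ∧ ∀ z ∈ OS r, d1 β z = W z := by
  obtain ⟨γ, g1, g2, g3, g4⟩ := hS (fW W) (hom0_fW hr hW.smooth) h0
  have hb1 : Bas1 r (fun z : E6 => (γ z.1).comp (ContinuousLinearMap.fst ℝ E3 E3)) :=
    bas1_fst g1 g2 g3
  have hd : ∀ z ∈ OS r, ∀ u v : E6, d1 (fun z : E6 => (γ z.1).comp
      (ContinuousLinearMap.fst ℝ E3 E3)) z u v = d1 γ z.1 u.1 v.1 := by
    intro z hz u v
    have hf : ∀ w : E6, fderiv ℝ (fun z : E6 => z.1) w = ContinuousLinearMap.fst ℝ E3 E3 :=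
      fun w => (hasFDerivAt_fst (𝕜 := ℝ) (E := E3) (F := E3) (p := w)).fderiv
    have h1 := d1_pullback' (s := γ)
      (t := fun z : E6 => (γ z.1).comp (ContinuousLinearMap.fst ℝ E3 E3))
      (φ := fun z : E6 => z.1) (y := z) contDiffAt_fst
      ((g1.contDiffAt (isOpen_ne.mem_nhds hz.1)).differentiableAt infty_ne_zero)
      (Eventually.of_forall fun w => by rw [hf w]) u v
    rw [h1, hf z]
    rfl
  have hW' := bas_sub hW (bas_d1 hb1)
  obtain ⟨β2, k1, k2, -, -⟩ := hR r _ hr hW' (by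
    intro q u v hq hu hv
    have hmem : ((q, 0) : E6) ∈ OS r := by
      have := TS_subset_OS r (gy_mem_TS hr (ne_of_norm hq))
      unfold gy at this
      rwa [sn_of_norm hq] at this
    show W (q, 0) (u, 0) (v, 0) - d1 _ (q, 0) (u, 0) (v, 0) = 0
    rw [hd _ hmem, g4 q u v hq hu hv]
    let w : E3 →L[ℝ] E3 →L[ℝ] ℝ := pl (ContinuousLinearMap.inl ℝ E3 E3) (W (q, 0))
    have hw : ∀ u v, W (q, 0) (u, 0) (v, 0) = w u v := by
      intro u v
      show _ = pl (ContinuousLinearMap.inl ℝ E3 E3) (W (q, 0)) u v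
      rw [pl_apply]; rfl
    have hwa : ∀ u, w u u = 0 := by
      intro u
      rw [← hw]
      exact hW.alt _ hmem _
    rw [hw, cf_spec w hwa hq hu hv]
    have h1 : fW W q = cf (fun a b => w a b) q := by
      unfold fW
      rw [sn_of_norm hq]
      congr 1
    rw [h1, sub_self])
  refine ⟨_, bas1_add hb1 k1, fun z hz => ?_⟩
  have s1 : DifferentiableAt ℝ (fun z : E6 => (γ z.1).comp (ContinuousLinearMap.fst ℝ E3 E3)) z :=
    (hb1.smooth.contDiffAt ((isOpen_OS r).mem_nhds hz)).differentiableAt infty_ne_zero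
  have s2 : DifferentiableAt ℝ β2 z :=
    (k1.smooth.contDiffAt ((isOpen_OS r).mem_nhds hz)).differentiableAt infty_ne_zero
  have h3 := fderiv_fun_add s1 s2
  refine ContinuousLinearMap.ext fun u => ContinuousLinearMap.ext fun v => ?_
  have h4 : d1 β2 z u v = W z u v - d1 (fun z : E6 => (γ z.1).comp
      (ContinuousLinearMap.fst ℝ E3 E3)) z u v := by
    rw [k2 z hz]; rfl
  rw [d1_apply, h3]
  rw [d1_apply, d1_apply] at h4
  simp only [add_apply]
  linarith

/-! ### cutting off -/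

/-- the cut-off function. -/
def ch (t s : ℝ) : ℝ := Real.smoothTransition ((t - s) / (t / 2))

lemma contDiff_ch (t : ℝ) : ContDiff ℝ ∞ (ch t) :=
  Real.smoothTransition.contDiff.comp ((contDiff_const.sub contDiff_id).div_const _)

lemma ch_one {t s : ℝ} (ht : 0 < t) (hs : s ≤ t / 2) : ch t s = 1 := by
  unfold ch
  apply Real.smoothTransition.one_of_one_le
  rw [le_div_iff₀ (by linarith)]
  linarith

lemma ch_zero {t s : ℝ} (ht : 0 < t) (hs : t ≤ s) : ch t s = 0 := by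
  unfold ch
  apply Real.smoothTransition.zero_of_nonpos
  exact div_nonpos_of_nonpos_of_nonneg (by linarith) (by linarith)

lemma bas1_cut {β : E6 → E6 →L[ℝ] ℝ} (h : Bas1 r β) {t : ℝ} (ht : 0 < t) :
    Bas1 r (fun z => ch t ‖(Pi z).2‖ • β z) where
  smooth := by
    intro z hz
    have hb : ContDiffAt ℝ ∞ β z := h.smooth.contDiffAt ((isOpen_OS r).mem_nhds hz)
    have hc : ContDiffAt ℝ ∞ (fun z => ch t ‖(Pi z).2‖) z := by
      by_cases hp : (Pi z).2 = 0
      · have h1 : (fun z => ch t ‖(Pi z).2‖) =ᶠ[𝓝 z] fun _ => 1 := by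
          have h2 : ‖(Pi z).2‖ < t / 2 := by rw [hp, norm_zero]; linarith
          filter_upwards [((contDiffAt_Pi hz.1).continuousAt.snd.norm).eventually_lt_const h2]
            with w hw
          exact ch_one ht hw.le
        exact contDiffAt_const.congr_of_eventuallyEq h1
      · exact (contDiff_ch t).contDiffAt.comp z ((contDiffAt_Pi hz.1).snd.norm ℝ hp)
    exact (hc.smul hb).contDiffWithinAt
  bas z hz U := by
    show ch t _ * β z U = ch t _ * β (Pi z) _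
    rw [h.bas z hz U, Pi_of_TS (Pi_mem_TS hz)]

section Man2

variable {M : Type u} [TopologicalSpace M] [T2Space M] [CompactSpace M]
  [ChartedSpace E4 M] [IsManifold 𝓘(ℝ, E4) ∞ M]

variable {σ : E3 → M} {Ps : E6 → M} {G : M → E6} {U : Set M}

/-- a closed form with integral zero over the sphere can be made to vanish near the sphere. -/
theorem kill (hS : S2PRIM) (hR : RPRIM) (h : Tube σ r Ps G U) (hσ : EmbS σ) {t : ℝ} (ht : 0 < t)
    (htr : t < r) (b : Z2 M) (h0 : sphI σ (b.1.1 : F2 E4 M) = 0) :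
    ∃ b' : Z2 M, cls b' = cls b ∧ ∀ x ∈ U, ‖(G x).2‖ < t / 2 → val b' x = 0 := by
  have hB := bas_P2 h b
  rw [sphI_eq h hσ _ hB.alt] at h0
  obtain ⟨β, h1, h2⟩ := exists_prim hS hR h.r_pos hB h0
  obtain ⟨a, ⟨s, hs, has⟩, -, ha⟩ := K12Ext_168.ext M σ r Ps G U h _ t htr (bas1_cut h1 ht)
    (fun z hz hzt => by
      show ch t ‖(Pi z).2‖ • β z = 0
      rw [Pi_of_TS hz, ch_zero ht hzt, zero_smul])
  refine ⟨b - a, ?_, fun x hx hxt => ?_⟩
  · rw [cls_eq]
    have e : b - a - b = -a := by abel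
    rw [e]
    refine isEx_iff.2 ⟨(-1 : ℝ) • s, hs.smul _, ?_⟩
    rw [dG_smul _ hs, ← has]
    show -(a.1.1 : F2 E4 M) = (-1 : ℝ) • (a.1.1 : F2 E4 M)
    rw [neg_smul, one_smul]
  · refine at2_zero_of_P2 h ((b - a : Z2 M).1.1 : F2 E4 M) hx ?_
    have hT := h.mapsG x hx
    have hO := TS_subset_OS r hT
    have e1 : P2 Ps ((b - a : Z2 M).1.1 : F2 E4 M) (G x) =
        P2 Ps (b.1.1 : F2 E4 M) (G x) - P2 Ps (a.1.1 : F2 E4 M) (G x) := by
      refine ContinuousLinearMap.ext fun u => ContinuousLinearMap.ext fun v => ?_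
      rfl
    rw [e1, ha _ hO, ← h2 _ hO]
    have hev : (fun z => ch t ‖(Pi z).2‖ • β z) =ᶠ[𝓝 (G x)] β := by
      have h3 : ‖(Pi (G x)).2‖ < t / 2 := by rw [Pi_of_TS hT]; exact hxt
      filter_upwards [((contDiffAt_Pi hO.1).continuousAt.snd.norm).eventually_lt_const h3]
        with w hw
      rw [ch_one ht hw.le, one_smul]
    rw [d1_congr hev, sub_self]

end Man2

end

end Crest.Agent.R235.KumThC_785
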