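import Crest.Agent.R235.Clif4_723
import Crest.Agent.R235.SymQ_755
import Crest.Agent.R235.HodgeEnd_194
import Crest.Agent.R235.FamTop_307
import Crest.Agent.R235.SwsL_755
import Crest.Agent.R235.SWJDt_930
import Crest.Agent.R235.DichW_723

-- ▼ part R235/RC7_723
section

/-!
Row 235 (S0364), block FAM / RC, leaf RC7 (helper723), part 2: the alternating sum of four Clifford
multiplications of a quaternionic Clifford pair.

`h : Pt q P Jf Kt z j0 j1 b` (helper755), `X : Fin 4 → T_z M`: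

* `alt_cc0` : `∑_σ sgn σ c(X_σ0)ᵀ c(X_σ1) c(X_σ2)ᵀ c(X_σ3) = 24 det⟨X_i, b_j⟩ p_0`;
* `alt_cc1` : `∑_σ sgn σ c(X_σ0) c(X_σ1)ᵀ c(X_σ2) c(X_σ3)ᵀ = - 24 det⟨X_i, b_j⟩ p_1`;
* `volF_b`  : `volF F z X = - det⟨X_i, b_j⟩` if `F(u,v) = ⟨I_0 u, v⟩`;
* `alt_vol0`, `alt_vol1` : hence `-24 volF F z X p_0`, `24 volF F z X p_1`;
* `volF_wed` : `volF F z X = 2 q(F; s_0∧s_1, s_2∧s_3)` if `s_i = ⟨X_i, ·⟩`;
* `int_volF` : `∫ volF (w 0) z (X z) dμ = pI (w 0) a b`.
-/

set_option autoImplicit false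
set_option maxSynthPendingDepth 3
set_option linter.unusedSectionVars false
set_option linter.unusedVariables false
set_option maxHeartbeats 1000000

open Set Function Filter MeasureTheory Bundle
open Matrix hiding J
open scoped Manifold ContDiff Topology ENNReal
open Crest.GeometryTopology.CoordMetric Crest.GeometryTopology.ChartCurvature

namespace Crest.Agent.R235.RC7_723

open Crest.Agent.R240 Crest.Agent.R240.Ch Crest.Agent.R240.Int
open Crest.Agent.R249.Vf281 Crest.Agent.R249.Tz2_805 Crest.Agent.R249.Tz805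
open Crest.Agent.R249.C2_198 hiding cp half_two
open Crest.Agent.R235.Ind167 Crest.Agent.R235.Mdl2_755 Crest.Agent.R235.SymQ_755
open Crest.Agent.R235.RiemC_399
open Crest.Agent.R235.IndVol_57 (WF WF_vol Cpt)

noncomputable section

theorem WF_wed (α : Fin 4 → (E4 →L[ℝ] ℝ)) (v : Fin 4 → E4) :
    WF (wed (α 0) (α 1)) (wed (α 2) (α 3)) v = (Matrix.of fun i j => α i (v j)).det := by
  unfold WF
  simp only [wed_apply]
  rw [Matrix.det_succ_row_zero]
  simp only [Fin.sum_univ_succ, Matrix.det_fin_three, Matrix.submatrix_apply, Matrix.of_apply,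
    Fin.sum_univ_zero]
  simp [Fin.succAbove, Fin.lt_def]
  ring

theorem tr3 {a b c d : Type*} [Fintype a] [Fintype b] [Fintype c] (A : Matrix d a ℝ)
    (D : Matrix a b ℝ) (B : Matrix c b ℝ) : (A * D * Bᵀ)ᵀ = B * Dᵀ * Aᵀ := by
  rw [Matrix.transpose_mul, Matrix.transpose_mul, Matrix.transpose_transpose, Matrix.mul_assoc]

theorem dd_t {m n : Type*} (C : Fin 4 → Matrix m n ℝ) (x : Fin 4 → ℝ) :
    (dd C x)ᵀ = dd (fun k => (C k)ᵀ) x := by
  unfold dd
  rw [Matrix.transpose_sum]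
  exact Finset.sum_congr rfl fun k _ => Matrix.transpose_smul _ _

section pt

variable {M : Type*} [TopologicalSpace M] [ChartedSpace (EuclideanSpace ℝ (Fin 4)) M]
  [IsManifold 𝓘(ℝ, EuclideanSpace ℝ (Fin 4)) ∞ M]
  [RiemannianBundle (fun x : M => TangentSpace 𝓘(ℝ, EuclideanSpace ℝ (Fin 4)) x)]
  [IsContMDiffRiemannianBundle 𝓘(ℝ, EuclideanSpace ℝ (Fin 4)) ∞ (EuclideanSpace ℝ (Fin 4))
      (fun x : M => TangentSpace 𝓘(ℝ, EuclideanSpace ℝ (Fin 4)) x)]

variable {κ κ0 κ1 : Type} [Fintype κ] [Fintype κ0] [Fintype κ1]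
  {q : QS M} {P : CPair 4 M κ κ0 κ1} {Jf : κ0 → κ0 → M → ℝ}
  {Kt : Fin 3 → κ0 → κ0 → M → ℝ} {z : M} {j0 : Matrix κ0 (Fin 4) ℝ} {j1 : Matrix κ1 (Fin 4) ℝ}
  {b : Fin 4 → TangentSpace 𝓘(ℝ, EuclideanSpace ℝ (Fin 4)) z} (h : Pt q P Jf Kt z j0 j1 b)
  (X : Fin 4 → TangentSpace 𝓘(ℝ, EuclideanSpace ℝ (Fin 4)) z)

/-- the components of the vectors in a frame. -/
def cpt (b : Fin 4 → TangentSpace 𝓘(ℝ, EuclideanSpace ℝ (Fin 4)) z) 
    (X : Fin 4 → TangentSpace 𝓘(ℝ, EuclideanSpace ℝ (Fin 4)) z) (i j : Fin 4) : ℝ :=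
  (inner ℝ (X i) (b j) : ℝ)

/-- their determinant. -/
def dt (b : Fin 4 → TangentSpace 𝓘(ℝ, EuclideanSpace ℝ (Fin 4)) z) 
    (X : Fin 4 → TangentSpace 𝓘(ℝ, EuclideanSpace ℝ (Fin 4)) z) : ℝ := (Matrix.of (cpt b X)).det

theorem q_self (q : QS M) (v : TangentSpace 𝓘(ℝ, EuclideanSpace ℝ (Fin 4)) z) :
    (inner ℝ (q.op 0 z v) v : ℝ) = 0 := by
  rw [real_inner_comm]
  exact q.inner_self_op 0 z v

include h

theorem ccX_dd (i : Fin 4) : ccX P.cc z (X i) = j1 * dd (fun k => cK ℝ k) (cpt b X i) * j0ᵀ :=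
  h.cc (X i)




variable {F : F2 (EuclideanSpace ℝ (Fin 4)) M}
  (hF : ∀ (u v : TangentSpace 𝓘(ℝ, EuclideanSpace ℝ (Fin 4)) z),
    at2 F z u v = inner ℝ (q.op 0 z u) v)

include hF

theorem F_b (i j : Fin 4) : at2 F z (b i) (b j) = K ℝ 0 j i := by
  exact (hF _ _).trans ((real_inner_comm _ _).trans (h.adp 0 j i))

theorem alt_F : Alt (at2 F z) := by
  intro v
  exact (hF v v).trans (q_self q _)

theorem WF_b : WF (at2 F z) (at2 F z) b = -2 := by
  unfold WF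
  simp only [F_b h hF]
  simp [K]
  norm_num

/-- **the volume form in the frame** -/
theorem volF_b : volF F z X = - dt b X := by
  unfold volF
  have h1 : (X : Fin 4 → E4) = fun i => ∑ a, cpt b X i a • (b a : E4) := by
    funext i
    exact (h.ex (X i)).symm
  have h2 := WF_change (alt_F h hF) (alt_F h hF) (fun a => (b a : E4)) (Matrix.of (cpt b X))
  have h4 : WF (at2 F z) (at2 F z) (X : Fin 4 → E4) = dt b X * 
      WF (at2 F z) (at2 F z) (fun a => (b a : E4)) :=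
    (congrArg (WF (at2 F z) (at2 F z)) h1).trans h2
  refine (congrArg (fun r : ℝ => r / 2) h4).trans ?_
  have h3 : WF (at2 F z) (at2 F z) (fun a => (b a : E4)) = -2 := WF_b h hF
  rw [h3]
  ring



/-- `2 q(F; α_0∧α_1, α_2∧α_3) = vol_F(X)` if `α_i = ⟨X_i, ·⟩`. -/
theorem volF_wed {α : Fin 4 → (E4 →L[ℝ] ℝ)}
    (hα : ∀ (i : Fin 4) (v : TangentSpace 𝓘(ℝ, EuclideanSpace ℝ (Fin 4)) z),
      α i v = inner ℝ (X i) v) (h0 : W (at2 F z) (at2 F z) ≠ 0) :
    2 * Crest.Agent.R240.q (at2 F z) (wed (α 0) (α 1)) (wed (α 2) (α 3)) = volF F z X := by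
  have hw : ∀ i j, Alt (wed (α i) (α j)) := by
    intro i j v
    rw [wed_apply]
    ring
  have h1 := WF_vol (alt_F h hF) (hw 0 1) (hw 2 3) h0 (fun a => (b a : E4))
  have h2 : WF (at2 F z) (at2 F z) (fun a => (b a : E4)) = -2 := WF_b h hF
  have h3 : WF (wed (α 0) (α 1)) (wed (α 2) (α 3)) (fun a => (b a : E4)) = dt b X := by
    refine (WF_wed α (fun a => (b a : E4))).trans ?_
    have e : (fun i k => α i (b k : E4)) = cpt b X := by
      funext i k
      exact hα i (b k)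
    exact congrArg (fun A : Fin 4 → Fin 4 → ℝ => (Matrix.of A).det) e
  rw [h2, h3] at h1
  rw [volF_b h X hF]
  linarith

omit hF

/-- the matrix `c(X) i`. -/
def bm (P : CPair 4 M κ κ0 κ1) (Jf : κ0 → κ0 → M → ℝ) (z : M)
    (X : Fin 4 → TangentSpace 𝓘(ℝ, EuclideanSpace ℝ (Fin 4)) z) (i : Fin 4) : Matrix κ1 κ0 ℝ :=
  ccX P.cc z (X i) * Matrix.of fun y' y => Jf y' y z

theorem bm_eq (i : Fin 4) :
    bm P Jf z X i = j1 * dd (fun k => cK ℝ k) (cpt b X i) * (j0 * (J ℝ 0)ᵀ)ᵀ := by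
  unfold bm
  rw [ccX_dd h, h.hJ, Matrix.transpose_mul, Matrix.transpose_transpose]
  calc j1 * dd (fun k => cK ℝ k) (cpt b X i) * j0ᵀ * (j0 * J ℝ 0 * j0ᵀ) =
      j1 * dd (fun k => cK ℝ k) (cpt b X i) * ((j0ᵀ * j0) * (J ℝ 0 * j0ᵀ)) := by
        simp only [Matrix.mul_assoc]
    _ = _ := by rw [h.tj0, Matrix.one_mul]

theorem bm_eq_t (i : Fin 4) : (bm P Jf z X i)ᵀ =
    (j0 * (J ℝ 0)ᵀ) * dd (fun k => (cK ℝ k)ᵀ) (cpt b X i) * j1ᵀ := by
  rw [bm_eq h, tr3, dd_t]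

theorem J0_ort : J ℝ 0 * (J ℝ 0)ᵀ = 1 ∧ (J ℝ 0)ᵀ * J ℝ 0 = 1 := by
  rw [J0_t]
  constructor
  · rw [mul_neg, J0_sq, neg_neg]
  · rw [neg_mul, J0_sq, neg_neg]

/-- **the alternating sum for `b_i = c(X_i) i`** -/
theorem alt_bm : alt4 (fun i => (bm P Jf z X i)ᵀ) (fun i => bm P Jf z X i) =
    (24 * dt b X) • pz P.D0 z := by
  have h1 : (fun i => (bm P Jf z X i)ᵀ) =
      fun i => (j0 * (J ℝ 0)ᵀ) * dd (fun k => (cK ℝ k)ᵀ) (cpt b X i) * j1ᵀ := funext (bm_eq_t h X)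
  have h2 : (fun i => bm P Jf z X i) =
      fun i => j1 * dd (fun k => cK ℝ k) (cpt b X i) * (j0 * (J ℝ 0)ᵀ)ᵀ := funext (bm_eq h X)
  have h3 : (j0 * (J ℝ 0)ᵀ)ᵀ * (j0 * (J ℝ 0)ᵀ) = 1 := by
    rw [Matrix.transpose_mul, Matrix.transpose_transpose]
    calc J ℝ 0 * j0ᵀ * (j0 * (J ℝ 0)ᵀ) = J ℝ 0 * ((j0ᵀ * j0) * (J ℝ 0)ᵀ) := by
          simp only [Matrix.mul_assoc]
      _ = 1 := by rw [h.tj0, Matrix.one_mul, (J0_ort h).1]
  have h4 : (j0 * (J ℝ 0)ᵀ) * (j0 * (J ℝ 0)ᵀ)ᵀ = pz P.D0 z := by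
    rw [Matrix.transpose_mul, Matrix.transpose_transpose, ← h.jt0]
    calc j0 * (J ℝ 0)ᵀ * (J ℝ 0 * j0ᵀ) = j0 * (((J ℝ 0)ᵀ * J ℝ 0) * j0ᵀ) := by
          simp only [Matrix.mul_assoc]
      _ = j0 * j0ᵀ := by rw [(J0_ort h).2, Matrix.one_mul]
  rw [h1, h2, alt4_conj h3 h.tj1, alt4_dd, alt4_cK0, ← h4, Matrix.mul_smul, Matrix.mul_smul,
    Matrix.smul_mul, Matrix.smul_mul, Matrix.mul_one, smul_smul]
  congr 1
  rw [mul_comm]
  rfl

/-- **the trace**: `∑_σ sgn σ tr (b_σ0ᵀ b_σ1 b_σ2ᵀ b_σ3) = 96 det⟨X_i, b_j⟩`. -/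
theorem trace_bm : (alt4 (fun i => (bm P Jf z X i)ᵀ) (fun i => bm P Jf z X i)).trace =
    96 * dt b X := by
  rw [alt_bm h, Matrix.trace_smul, h.trace0, smul_eq_mul]
  ring

include hF in
theorem trace_vol : (alt4 (fun i => (bm P Jf z X i)ᵀ) (fun i => bm P Jf z X i)).trace =
    -96 * volF F z X := by
  rw [trace_bm h, volF_b h X hF]
  ring

omit h in
/-- the matrix of `c(a) i`. -/
theorem sum_al (a : κ → ℝ) (x : κ1) (y : κ0) : ∑ A, a A * clJ P Jf A x y z =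
    (ccX P.cc z (∑ A, a A • P.s.s A z) * Matrix.of fun y' y => Jf y' y z) x y := by
  rw [ccX_sum]
  simp only [ccX_smul, Matrix.sum_mul, Matrix.smul_mul, Matrix.sum_apply, Matrix.smul_apply,
    smul_eq_mul]
  refine Finset.sum_congr rfl fun A _ => ?_
  simp only [Matrix.mul_apply, ccX, Matrix.of_apply, clJ]

end pt

end

end Crest.Agent.R235.RC7_723
end

-- ▼ part R235/NumJ_723
section

/-!
Row 235 (S0364), block FAM, leaf NUMJ (helper723): **`numJ S j = K1 * ∫ α_0 ∧ α_1 ∧ α_2 ∧ α_3`**.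

`S = swsQ T P Jf Kt H` (helper755), `Twf q P Jf Kt`, `F(u,v) = ⟨I_0 u, v⟩`, `j.al i = cof P.s (α i)`:

* `L4_eq`, `sum_L4` : the integrand of `numJ` is `- 96 (2π)⁴ vol_F (X)`;
* `numJ_eq`         : `numJ S j = - 96 (2π)⁴ pI F (α_0∧α_1) (α_2∧α_3)`.
-/

set_option autoImplicit false
set_option maxSynthPendingDepth 3
set_option linter.unusedSectionVars false
set_option linter.unusedVariables false
set_option maxHeartbeats 1000000

open Set Function Filter MeasureTheory Bundle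
open Matrix hiding J
open scoped Manifold ContDiff Topology ENNReal

namespace Crest.Agent.R235.NumJ_723

open Crest.Agent.R240 Crest.Agent.R240.Ch Crest.Agent.R240.Int
open Crest.Agent.R249.Tv57 (Dat OpPair)
open Crest.Agent.R249.Vf281 Crest.Agent.R249.Tz2_805 Crest.Agent.R249.Tz805
open Crest.Agent.R235.Ind167 Crest.Agent.R235.Mdl2_755 Crest.Agent.R235.SymQ_755
open Crest.Agent.R235.SWDefs_53 Crest.Agent.R235.SwsQ_755
open Crest.Agent.R235.RiemC_399 Crest.Agent.R235.RC7_723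
open Crest.Agent.R235.IndVol_57 (Cpt)
open Crest.Agent.R235.Hodge_194 (cof shp inner_shp)
open Crest.Agent.R235.FamTop_307 (bJ L4 numJ)

noncomputable section

variable {M : Type} [MetricSpace M] [CompactSpace M] [ConnectedSpace M]
  [ChartedSpace (EuclideanSpace ℝ (Fin 4)) M] [IsManifold (𝓡 4) ∞ M]
  [RiemannianBundle (fun p : M => TangentSpace (𝓡 4) p)]
  [IsContMDiffRiemannianBundle (𝓡 4) ∞ (EuclideanSpace ℝ (Fin 4))
    (fun p : M => TangentSpace (𝓡 4) p)]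
  [IsRiemannianManifold (𝓡 4) M] [MeasurableSpace M] [BorelSpace M]
  [SecondCountableTopology M] [Nonempty M]
  {κ κ0 κ1 : Type} [Fintype κ] [Fintype κ0] [Fintype κ1]

variable {T : ToF 4 M} {P : CPair 4 M κ κ0 κ1} {Jf : κ0 → κ0 → M → ℝ}
  {Kt : Fin 3 → κ0 → κ0 → M → ℝ} {DL : Dat 4 M (Fin 4)} {DT : Dat 4 M κ} {H : OpPair DL DT}
  {q : QS M}

/-- the vector fields. -/
def XX (P : CPair 4 M κ κ0 κ1) (j : JD M κ 4) (z : M) (i : Fin 4) :
    TangentSpace (𝓡 4) z := ∑ A, j.al i A z • P.s.s A z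

theorem bJ_eq (j : JD M κ 4) (i : Fin 4) (x : κ1) (y : κ0) (z : M) :
    bJ (swsQ T P Jf Kt H) j i x y z = 2 * Real.pi * bm P Jf z (XX P j z) i x y := by
  unfold bJ
  congr 1
  exact sum_al (fun A => j.al i A z) x y

theorem L4_eq (j : JD M κ 4) (i k l m : Fin 4) (y y' : κ0) (z : M) :
    L4 (swsQ T P Jf Kt H) j i k l m y y' z = (2 * Real.pi) ^ 4 *
      ((bm P Jf z (XX P j z) i)ᵀ * bm P Jf z (XX P j z) k * (bm P Jf z (XX P j z) l)ᵀ *
        bm P Jf z (XX P j z) m) y y' := by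
  unfold L4
  simp only [bJ_eq]
  have h : ((bm P Jf z (XX P j z) i)ᵀ * bm P Jf z (XX P j z) k * (bm P Jf z (XX P j z) l)ᵀ *
        bm P Jf z (XX P j z) m) y y' = ∑ x, ∑ y1, ∑ x1, bm P Jf z (XX P j z) i x y *
          bm P Jf z (XX P j z) k x y1 * bm P Jf z (XX P j z) l x1 y1 *
            bm P Jf z (XX P j z) m x1 y' := by
    rw [Matrix.mul_apply]
    simp only [Matrix.mul_apply, Matrix.transpose_apply, Finset.sum_mul]
    have e1 : ∀ x1 : κ1, ∑ y1, ∑ x, bm P Jf z (XX P j z) i x y *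
          bm P Jf z (XX P j z) k x y1 * bm P Jf z (XX P j z) l x1 y1 *
            bm P Jf z (XX P j z) m x1 y' = ∑ x, ∑ y1, bm P Jf z (XX P j z) i x y *
          bm P Jf z (XX P j z) k x y1 * bm P Jf z (XX P j z) l x1 y1 *
            bm P Jf z (XX P j z) m x1 y' := fun x1 => Finset.sum_comm
    simp only [e1]
    rw [Finset.sum_comm]
    exact Finset.sum_congr rfl fun x _ => Finset.sum_comm
  rw [h, Finset.mul_sum]
  refine Finset.sum_congr rfl fun x _ => ?_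
  rw [Finset.mul_sum]
  refine Finset.sum_congr rfl fun y1 _ => ?_
  rw [Finset.mul_sum]
  refine Finset.sum_congr rfl fun x1 _ => ?_
  ring

/-- the integrand of `numJ`. -/
theorem sum_L4 (j : JD M κ 4) (z : M) :
    ∑ σ : Equiv.Perm (Fin 4), ((Equiv.Perm.sign σ : ℤ) : ℝ) *
      ∑ y, L4 (swsQ T P Jf Kt H) j (σ 0) (σ 1) (σ 2) (σ 3) y y z = (2 * Real.pi) ^ 4 *
      (alt4 (fun i => (bm P Jf z (XX P j z) i)ᵀ) (fun i => bm P Jf z (XX P j z) i)).trace := by
  unfold alt4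
  rw [Matrix.trace_sum, Finset.mul_sum]
  refine Finset.sum_congr rfl fun σ _ => ?_
  rw [Matrix.trace_smul, smul_eq_mul, mul_left_comm]
  congr 1
  rw [Matrix.trace, Finset.mul_sum]
  exact Finset.sum_congr rfl fun y _ => L4_eq j _ _ _ _ y y z

variable (h : Twf q P Jf Kt) {F : Z2 M} {J' : EndF E4 M} (hC : Cpt (F.1.1 : F2 E4 M) J')
  (hF : ∀ (x : M) (u v : TangentSpace (𝓡 4) x), at2 (F.1.1 : F2 E4 M) x u v
    = inner ℝ (q.op 0 x u) v)
  (j : JD M κ 4) {α : Fin 4 → F1 E4 M} (hα : ∀ i, j.al i = cof P.s (α i))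

include h hC hF hα in
theorem density (z : M) :
    ∑ σ : Equiv.Perm (Fin 4), ((Equiv.Perm.sign σ : ℤ) : ℝ) *
      ∑ y, L4 (swsQ T P Jf Kt H) j (σ 0) (σ 1) (σ 2) (σ 3) y y z =
      (-96 * (2 * Real.pi) ^ 4) *
        (2 * qG (F.1.1 : F2 E4 M) (wedG (α 0) (α 1)) (wedG (α 2) (α 3)) z) := by
  obtain ⟨j0, j1, b, hb⟩ := h.pt z
  have h1 : 2 * qG (F.1.1 : F2 E4 M) (wedG (α 0) (α 1)) (wedG (α 2) (α 3)) z =
      volF (F.1.1 : F2 E4 M) z (XX P j z) := by
    refine volF_wed hb (XX P j z) (hF z) (α := fun i => at1 (α i) z) ?_ (hC.vol.ne z)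
    intro i v
    have h2 : XX P j z i = shp P.s (α i) z := by
      unfold XX
      rw [hα i]
      rfl
    rw [h2, inner_shp]
  rw [sum_L4, trace_vol hb (XX P j z) (hF z), h1]
  ring

include h hC hF hα in
/-- **NUMJ** -/
theorem numJ_eq {a b : Z2 M} (ha : (a.1.1 : F2 E4 M) = wedG (α 0) (α 1))
    (hb : (b.1.1 : F2 E4 M) = wedG (α 2) (α 3)) :
    numJ (swsQ T P Jf Kt H) j = (-96 * (2 * Real.pi) ^ 4) * pI F a b := by
  rw [IndVol_57.pI_eq hC, ha, hb, ← integral_const_mul]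
  unfold numJ
  exact integral_congr_ae (Eventually.of_forall fun z => density h hC hF j hα z)

end

end Crest.Agent.R235.NumJ_723
end

-- ▼ part R235/QH1_57
section

/-!
Row 235 (S0364), helper57: change of the closed one-forms in a quadruple product (H1 half of NUMJ):
`pI (r0 ∧ r1) (r2 ∧ r3) = det c * pI (s0 ∧ s1) (s2 ∧ s3)` for `r_i = ∑ c_ij s_j + df_i`.
-/

set_option autoImplicit false
set_option maxSynthPendingDepth 3
set_option linter.unusedSectionVars false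

open Set Function Filter MeasureTheory
open scoped Manifold ContDiff Topology

universe u

namespace Crest.Agent.R235.QH1_57

open Crest.Agent.R240 Crest.Agent.R240.Ch Crest.Agent.R240.Int
open DichProps_723 DichH1_723 DichW_723 TorMin_510

noncomputable section

/-- multiplicativity of the quadruple product. -/
theorem W_comb (c : Fin 4 → Fin 4 → ℝ) (α β : Fin 4 → (E4 →L[ℝ] ℝ))
    (h : ∀ i, β i = ∑ j, c i j • α j) :
    W (wed (β 0) (β 1)) (wed (β 2) (β 3)) =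
      (Matrix.of c).det * W (wed (α 0) (α 1)) (wed (α 2) (α 3)) := by
  rw [W_wed4, W_wed4]
  refine Eq.trans (congrArg Matrix.det ?_) (Matrix.det_mul (Matrix.of c)
    (Matrix.of fun i j => (![α 0, α 1, α 2, α 3] i) (ee j)))
  ext m n
  rw [Matrix.mul_apply]
  have h1 : ∀ t : Fin 4, (![α 0, α 1, α 2, α 3] t) = α t := by
    intro t; fin_cases t <;> rfl
  have h2 : (![β 0, β 1, β 2, β 3] m) = β m := by
    fin_cases m <;> rfl
  simp only [Matrix.of_apply, h1, h2, h m, sum_apply,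
    smul_apply, smul_eq_mul]

variable {M : Type u} [TopologicalSpace M] [T2Space M] [CompactSpace M]
  [ChartedSpace E4 M] [IsManifold 𝓘(ℝ, E4) ∞ M]

/-- linear combinations of closed one-forms are closed. -/
theorem closed_comb {ι : Type*} [Fintype ι] {s : ι → F1 E4 M} (hs : ∀ i, Closed1 (s i))
    (c : ι → ℝ) : Closed1 (∑ j, c j • s j) := by
  have h : (∑ j, c j • s j) ∈ Z1s M :=
    Submodule.sum_mem _ fun j _ => Submodule.smul_mem _ _ (hs j)
  exact h

/-- the product of an exact and a closed one-form is exact. -/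
theorem ex_wed {f : M → ℝ} {t : F1 E4 M} (hf : SmoothF E4 f) (ht : Closed1 t) :
    wedG (dF f) t = dG (fmul1 f t) := by
  rw [dG_fmul1 hf ht.1]
  funext x
  have h : at2 (dG t) x = 0 := ht.2 x _ (mem_chart_target E4 x)
  show _ = wedG (dF f) t x + f x • at2 (dG t) x
  rw [h, smul_zero, add_zero]



/-- changing the factors by exact forms does not change the class. -/
theorem cls_wed {r0 r1 R0 R1 : F1 E4 M} (h0 : Closed1 R0) (h1 : Closed1 R1) {f0 f1 : M → ℝ}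
    (hf0 : SmoothF E4 f0) (hf1 : SmoothF E4 f1) (e0 : r0 = R0 + dF f0) (e1 : r1 = R1 + dF f1)
    {a : Z2 M} (ha : (a.1.1 : F2 E4 M) = wedG r0 r1) : cls a = cls (wedZ h0 h1) := by
  rw [cls_eq]
  have c1 : Closed1 r1 := by rw [e1]; exact Closed1.add h1 (closed1_dF hf1)
  have e : ((a - wedZ h0 h1 : Z2 M).1.1 : F2 E4 M) =
      dG (fmul1 f0 r1 + (-1 : ℝ) • fmul1 f1 R0) := by
    have hS0 : Smooth1 (fmul1 f0 r1) := Smooth1.fmul hf0 c1.1
    have hS1 : Smooth1 (fmul1 f1 R0) := Smooth1.fmul hf1 h0.1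
    rw [dG_add hS0 (hS1.smul _), dG_smul _ hS1, ← ex_wed hf0 c1, ← ex_wed hf1 h0]
    show (a.1.1 : F2 E4 M) - wedG R0 R1 = _
    rw [ha]
    funext x
    ext u v
    have q0 : at1 r0 x = at1 R0 x + at1 (dF f0) x := by rw [e0]; rfl
    have q1 : at1 r1 x = at1 R1 x + at1 (dF f1) x := by rw [e1]; rfl
    show at1 r0 x u * at1 r1 x v - at1 r1 x u * at1 r0 x v -
      (at1 R0 x u * at1 R1 x v - at1 R1 x u * at1 R0 x v) =
      (at1 (dF f0) x u * at1 r1 x v - at1 r1 x u * at1 (dF f0) x v) +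
      (-1 : ℝ) * (at1 (dF f1) x u * at1 R0 x v - at1 R0 x u * at1 (dF f1) x v)
    rw [q0, q1]
    simp only [add_apply]
    ring
  rw [e]
  exact isEx_dG ((Smooth1.fmul hf0 c1.1).add ((Smooth1.fmul hf1 h0.1).smul _))

/-- **change of the one-forms in the quadruple product**. -/
theorem pI_wed_det {F : Z2 M} (hF : Vol (F.1.1 : F2 E4 M)) {s r : Fin 4 → F1 E4 M}
    (hs : ∀ i, Closed1 (s i)) (c : Fin 4 → Fin 4 → ℝ) (f : Fin 4 → M → ℝ)
    (hf : ∀ i, SmoothF E4 (f i)) (hr : ∀ i, r i = (∑ j, c i j • s j) + dF (f i))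
    {a b a' b' : Z2 M} (ha : (a.1.1 : F2 E4 M) = wedG (r 0) (r 1))
    (hb : (b.1.1 : F2 E4 M) = wedG (r 2) (r 3)) (ha' : (a'.1.1 : F2 E4 M) = wedG (s 0) (s 1))
    (hb' : (b'.1.1 : F2 E4 M) = wedG (s 2) (s 3)) :
    pI F a b = (Matrix.of c).det * pI F a' b' := by
  set R : Fin 4 → F1 E4 M := fun i => ∑ j, c i j • s j with hR
  have hRc : ∀ i, Closed1 (R i) := fun i => closed_comb hs (c i)
  have e1 : cls a = cls (wedZ (hRc 0) (hRc 1)) :=
    cls_wed (hRc 0) (hRc 1) (hf 0) (hf 1) (hr 0) (hr 1) ha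
  have e2 : cls b = cls (wedZ (hRc 2) (hRc 3)) :=
    cls_wed (hRc 2) (hRc 3) (hf 2) (hf 3) (hr 2) (hr 3) hb
  rw [pI_congr_left hF e1, pI_congr_right hF _ e2]
  refine pI_scale F fun x => ?_
  have v1 : val a' x = wed (at1 (s 0) x) (at1 (s 1) x) := by
    show at2 (a'.1.1 : F2 E4 M) x = _
    rw [ha']; rfl
  have v2 : val b' x = wed (at1 (s 2) x) (at1 (s 3) x) := by
    show at2 (b'.1.1 : F2 E4 M) x = _
    rw [hb']; rfl
  rw [v1, v2]
  refine W_comb c (fun i => at1 (s i) x) (fun i => at1 (R i) x) fun i => ?_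
  show (R i) x = _
  rw [hR]
  show (∑ j, c i j • s j) x = _
  rw [Finset.sum_apply]
  rfl

/-- if the quadruple product of some closed one-forms is `≠ 0`, then so is the one of every system
which spans modulo exact forms. -/
theorem pI_ne_of_span {F : Z2 M} (hF : Vol (F.1.1 : F2 E4 M)) {s r : Fin 4 → F1 E4 M}
    (hs : ∀ i, Closed1 (s i)) (hr : ∀ i, Closed1 (r i))
    (hspan : ∀ q : F1 E4 M, Closed1 q → ∃ (c : Fin 4 → ℝ) (f : M → ℝ), SmoothF E4 f ∧
      q = (∑ i, c i • s i) + dF f)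
    {a b a' b' : Z2 M} (ha : (a.1.1 : F2 E4 M) = wedG (r 0) (r 1))
    (hb : (b.1.1 : F2 E4 M) = wedG (r 2) (r 3)) (ha' : (a'.1.1 : F2 E4 M) = wedG (s 0) (s 1))
    (hb' : (b'.1.1 : F2 E4 M) = wedG (s 2) (s 3)) (hne : pI F a b ≠ 0) : pI F a' b' ≠ 0 := by
  choose c f hf hc using fun i => hspan (r i) (hr i)
  intro h0
  rw [pI_wed_det hF hs c f hf hc ha hb ha' hb', h0, mul_zero] at hne
  exact hne rfl

/-- **T4R**: the product of an integral basis (of length four) is `≠ 0`. -/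
theorem pI_ne_of_T4R {F : Z2 M} (hF : Vol (F.1.1 : F2 E4 M)) (hT : T4R F)
    {s : Fin 4 → F1 E4 M} (hs : H1Bas s) {a b : Z2 M} (ha : (a.1.1 : F2 E4 M) = wedG (s 0) (s 1))
    (hb : (b.1.1 : F2 E4 M) = wedG (s 2) (s 3)) : pI F a b ≠ 0 := by
  obtain ⟨⟨r, hr, -, A, hA, -, hne, -⟩, -⟩ := hT
  refine pI_ne_of_span hF hs.closed hr (fun q hq => ?_) (hA 0 1) (hA 2 3) ha hb hne
  obtain ⟨x, ⟨f, hf, e⟩, -⟩ := hs.span q hq
  exact ⟨x, f, hf, e⟩

/-- T4R has `b₁ = 4`: integral bases of `H¹` have length four. -/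
theorem hasB1_of_T4R {F : Z2 M} (hF : Vol (F.1.1 : F2 E4 M)) (hT : T4R F) : HasB1 M 4 := by
  obtain ⟨⟨r, hr, hsp, A, hA, -, hne, -⟩, -⟩ := hT
  refine ⟨r, hr, hsp, fun c f hf hcf => ?_⟩
  by_contra hc
  -- some combination is exact; then the quadruple product vanishes
  obtain ⟨i, hi⟩ : ∃ i, c i ≠ 0 := by
    by_contra h
    push Not at h
    exact hc (funext h)
  have hdF : SmoothF E4 (fun x => (c i)⁻¹ * f x) := SmoothF.mul (smoothF_const _) hf
  -- `r i = - ∑_{n ≠ i} (c_n / c_i) r n + d (f / c_i)`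
  have key : ∀ (P : Fin 4 → Fin 4 → ℝ), (∀ m, r m = (∑ n, P m n • r n) + dF
      (if m = i then (fun x => (c i)⁻¹ * f x) else fun _ => 0)) → (Matrix.of P).det = 1 := by
    intro P hP
    have h1 := pI_wed_det hF hr P (fun m => if m = i then (fun x => (c i)⁻¹ * f x) else fun _ => 0)
      (fun m => by
        by_cases h : m = i
        · simp only [h, if_true]; exact hdF
        · simp only [h, if_false]; exact smoothF_const 0) hP (hA 0 1) (hA 2 3) (hA 0 1) (hA 2 3)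
    have h2 : (Matrix.of P).det * pI F (A 0 1) (A 2 3) = 1 * pI F (A 0 1) (A 2 3) := by
      rw [← h1, one_mul]
    exact mul_right_cancel₀ hne h2
  have hP := key (fun m n => if m = i then (if n = i then 0 else -(c i)⁻¹ * c n) else
    if m = n then 1 else 0) (fun m => by
      by_cases h : m = i
      · subst h
        simp only [if_true]
        have e1 : dF (E := E4) (fun x => (c m)⁻¹ * f x) = (c m)⁻¹ • dF f := dF_smul _ hf
        have e2 : ∑ n, (if n = m then (0 : ℝ) else -(c m)⁻¹ * c n) • r n =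
            r m + (-(c m)⁻¹) • ∑ n, c n • r n := by
          rw [Finset.smul_sum]
          have e3 : ∀ n, (if n = m then (0 : ℝ) else -(c m)⁻¹ * c n) • r n =
              (if n = m then r m else 0) + (-(c m)⁻¹) • (c n • r n) := by
            intro n
            by_cases hn : n = m
            · subst hn
              rw [if_pos rfl, if_pos rfl, zero_smul, smul_smul, neg_mul,
                inv_mul_cancel₀ hi, neg_one_smul, add_neg_cancel]
            · rw [if_neg hn, if_neg hn, zero_add, smul_smul]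
          rw [Finset.sum_congr rfl fun n _ => e3 n, Finset.sum_add_distrib,
            Finset.sum_ite_eq' Finset.univ m, if_pos (Finset.mem_univ m)]
        rw [e1, e2, hcf, neg_smul, add_assoc, neg_add_cancel, add_zero]
      · simp only [h, if_false]
        rw [dF_zero, add_zero]
        rw [Finset.sum_eq_single m]
        · rw [if_pos rfl, one_smul]
        · intro n _ hn
          rw [if_neg (Ne.symm hn), zero_smul]
        · intro hn; exact absurd (Finset.mem_univ m) hn)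
  -- but the determinant is zero: column `i` vanishes
  have h0 : (Matrix.of fun m n : Fin 4 => if m = i then (if n = i then (0 : ℝ) else
      -(c i)⁻¹ * c n) else if m = n then 1 else 0).det = 0 := by
    refine Matrix.det_eq_zero_of_column_eq_zero i fun m => ?_
    rw [Matrix.of_apply]
    by_cases h : m = i
    · rw [if_pos h, if_pos rfl]
    · rw [if_neg h, if_neg h]
  rw [h0] at hP
  exact one_ne_zero hP.symm

end

end Crest.Agent.R235.QH1_57
end

-- ▼ part R235/NumJ2_723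

/-!
Row 235 (S0364), block FAM, leaf NUMJ (helper723), final form (uses helper57's `QH1_57`, helper930's
`exists_jd_bas_al`):

* `K1 = -96 (2π)⁴ ≠ 0`;
* `numJ_sigma`    : `numJ S j = K1 * pI F a b`, `a = σ_0∧σ_1`, `b = σ_2∧σ_3`, `α_i = σ_i - df_i`;
* `exists_jd_num` : for an integral basis `σ` of `H¹` of length four there is `j : JD M κ 4` with
                    `j.OK S` and `numJ S j = K1 * pI (w 0) a b`;
* `exists_jd_SL`  : the same for helper755's `SL T q s L`;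
* `exists_jd_T4R` : over `T4R (w 0)`: `∃ j, j.OK S ∧ numJ S j ≠ 0`.
-/

set_option autoImplicit false
set_option maxSynthPendingDepth 3
set_option linter.unusedSectionVars false
set_option linter.unusedVariables false
set_option maxHeartbeats 1000000

open Set Function Filter MeasureTheory Bundle
open scoped Manifold ContDiff Topology ENNReal

namespace Crest.Agent.R235.NumJ_723

open Crest.Agent.R240 Crest.Agent.R240.Ch Crest.Agent.R240.Int
open Crest.Agent.R249.Tv57 (Dat OpPair)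
open Crest.Agent.R249.Vf281 Crest.Agent.R249.Tz2_805 Crest.Agent.R249.Tz805
open Crest.Agent.R235.DichProps_723
open Crest.Agent.R235.Ind167 Crest.Agent.R235.Mdl2_755 Crest.Agent.R235.SymQ_755
open Crest.Agent.R235.SWDefs_53 Crest.Agent.R235.SwsQ_755 Crest.Agent.R235.SwsL_755
open Crest.Agent.R235.RiemC_399 Crest.Agent.R235.RC7_723 Crest.Agent.R235.QSTri_451
open Crest.Agent.R235.TwfL_755 Crest.Agent.R235.LTw_453 Crest.Agent.R235.Mdl3_399
open Crest.Agent.R235.IndVol_57 (Cpt)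
open Crest.Agent.R235.Hodge_194 (cof shp inner_shp CFn)
open Crest.Agent.R235.FamTop_307 (bJ L4 numJ)

noncomputable section

/-- the constant. -/
def K1 : ℝ := -96 * (2 * Real.pi) ^ 4

theorem K1_ne : K1 ≠ 0 := by
  unfold K1
  have := Real.pi_pos
  positivity

variable {M : Type} [MetricSpace M] [CompactSpace M] [ConnectedSpace M]
  [ChartedSpace (EuclideanSpace ℝ (Fin 4)) M] [IsManifold (𝓡 4) ∞ M]
  [RiemannianBundle (fun p : M => TangentSpace (𝓡 4) p)]
  [IsContMDiffRiemannianBundle (𝓡 4) ∞ (EuclideanSpace ℝ (Fin 4))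
    (fun p : M => TangentSpace (𝓡 4) p)]
  [IsRiemannianManifold (𝓡 4) M] [MeasurableSpace M] [BorelSpace M]
  [SecondCountableTopology M] [Nonempty M]
  {κ κ0 κ1 : Type} [Fintype κ] [Fintype κ0] [Fintype κ1]

variable {T : ToF 4 M} {P : CPair 4 M κ κ0 κ1} {Jf : κ0 → κ0 → M → ℝ}
  {Kt : Fin 3 → κ0 → κ0 → M → ℝ}

section sigma

variable {DL : Dat 4 M (Fin 4)} {DT : Dat 4 M κ} {H : OpPair DL DT} {q : QS M}

/-- **NUMJ for cohomologous forms** -/
theorem numJ_sigma (h : Twf q P Jf Kt) {F : Z2 M} {J' : EndF E4 M}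
    (hC : Cpt (F.1.1 : F2 E4 M) J')
    (hF : ∀ (x : M) (u v : TangentSpace (𝓡 4) x), at2 (F.1.1 : F2 E4 M) x u v
      = inner ℝ (q.op 0 x u) v)
    (j : JD M κ 4) {α σ : Fin 4 → F1 E4 M} (hα : ∀ i, j.al i = cof P.s (α i))
    (hσ : ∀ i, Closed1 (σ i)) {f : Fin 4 → M → ℝ} (hf : ∀ i, SmoothF E4 (f i))
    (hασ : ∀ i, α i = σ i - dF (f i))
    {a b : Z2 M} (ha : (a.1.1 : F2 E4 M) = wedG (σ 0) (σ 1))
    (hb : (b.1.1 : F2 E4 M) = wedG (σ 2) (σ 3)) :
    numJ (swsQ T P Jf Kt H) j = K1 * pI F a b := by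
  have hf' : ∀ i, SmoothF E4 (fun x => (-1 : ℝ) * f i x) := fun i =>
    SmoothF.mul (smoothF_const (-1)) (hf i)
  have hd : ∀ i, dF (E := E4) (fun x => (-1 : ℝ) * f i x) = - dF (E := E4) (f i) := by
    intro i
    have h1 := TorMin_510.dF_smul (M := M) (-1) (hf i)
    rw [h1, neg_one_smul]
  have hα' : ∀ i, α i = σ i + dF (fun x => (-1 : ℝ) * f i x) := by
    intro i
    rw [hασ, hd, sub_eq_add_neg]
  have hαc : ∀ i, Closed1 (α i) := by
    intro i
    rw [hα']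
    exact TorMin_510.Closed1.add (hσ i) (TorMin_510.closed1_dF (hf' i))
  have h1 := numJ_eq h hC hF j hα (T := T) (H := H) (a := DichH1_723.wedZ (hαc 0) (hαc 1))
    (b := DichH1_723.wedZ (hαc 2) (hαc 3)) rfl rfl
  have h2 := QH1_57.pI_wed_det hC.vol hσ (fun i k => if i = k then (1 : ℝ) else 0)
    (fun i x => (-1 : ℝ) * f i x) hf' (r := α) (fun i => by
      rw [hα' i]
      congr 1
      simp)
    (a := DichH1_723.wedZ (hαc 0) (hαc 1)) (b := DichH1_723.wedZ (hαc 2) (hαc 3)) rfl rfl ha hb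
  have h3 : (Matrix.of fun i k : Fin 4 => if i = k then (1 : ℝ) else 0).det = 1 := by
    have : (Matrix.of fun i k : Fin 4 => if i = k then (1 : ℝ) else 0) = 1 := by
      ext i k
      rw [Matrix.of_apply, Matrix.one_apply]
    rw [this, Matrix.det_one]
  rw [h1, h2, h3, one_mul]
  rfl

end sigma

variable {w : Trip M} {e : Fin 3 → F2 E4 M} (he : IndTri_451.IsTri (IndTri_451.und w) e)
  (hin : ∀ (x : M) (u v : TangentSpace 𝓘(ℝ, E4) x), inner ℝ u v = at2 (IndTri_451.gg e) x u v)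
  (s : PF 4 M κ)

/-- the form of `w 0`. -/
theorem hq0 (x : M) (u v : TangentSpace (𝓡 4) x) :
    at2 ((w 0).1.1 : F2 E4 M) x u v = inner ℝ ((qs he hin).op 0 x u) v := by
  have h := e_eq_inner he hin 0 x u v
  rw [he.e_zero] at h
  exact h

/-- **(M9) + NUMJ** -/
theorem exists_jd_num (h : Twf (qs he hin) P Jf Kt) (hs : ∀ A z, P.s.s A z = s.s A z)
    {σ : Fin 4 → F1 E4 M} (hσ : H1Bas σ) {a b : Z2 M}
    (ha : (a.1.1 : F2 E4 M) = wedG (σ 0) (σ 1)) (hb : (b.1.1 : F2 E4 M) = wedG (σ 2) (σ 3)) :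
    ∃ j : JD M κ 4, j.OK (swsQ T P Jf Kt (Hp T (qs he hin) s)) ∧
      numJ (swsQ T P Jf Kt (Hp T (qs he hin) s)) j = K1 * pI (w 0) a b := by
  obtain ⟨j, α, f, hj, h1, -, -, h2⟩ := SWJDok_930.exists_jd_bas_al he hin
    (S := swsQ T P Jf Kt (Hp T (qs he hin) s)) (T := T) (s := s) (fun _ _ _ => rfl)
    (fun A z => by
      show T.toF z (P.s.s A z) = _
      rw [hs]) (fun _ => rfl) hσ
  refine ⟨j, hj, numJ_sigma h (comp_w he hin).cpt (hq0 he hin) j (α := fun i => (α i).1)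
    (fun i => ?_) hσ.closed (f := fun i => (f i).1) (fun i => (f i).2) h1 ha hb⟩
  rw [h2 i]
  funext A z
  show at1 (α i).1 z (s.s A z) = at1 (α i).1 z (P.s.s A z)
  rw [hs]

/-- **(M9) + NUMJ for the twist by a line bundle**. -/
theorem exists_jd_SL {N : ℕ} (L : LD 4 M N) {σ : Fin 4 → F1 E4 M} (hσ : H1Bas σ) {a b : Z2 M}
    (ha : (a.1.1 : F2 E4 M) = wedG (σ 0) (σ 1)) (hb : (b.1.1 : F2 E4 M) = wedG (σ 2) (σ 3)) :
    ∃ j : JD M κ 4, j.OK (SL T (qs he hin) s L) ∧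
      numJ (SL T (qs he hin) s L) j = K1 * pI (w 0) a b :=
  exists_jd_num he hin s (twf_L (qs he hin) s L) (fun _ _ => rfl) hσ ha hb




end

end Crest.Agent.R235.NumJ_723
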