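import Crest.Agent.R235.MdlXt_399
import Crest.Agent.R235.NumJ2_723
import Crest.Agent.R235.NumC_692
import Crest.Agent.R235.SWJ1_133
import Crest.Agent.R235.H1Fin_692
import Crest.Agent.R249.TofM_352

/-!
Row 235 (S0364), MODXG (helper399): everything which the geometry delivers for a class `c` of square
zero on a manifold of type `T4R`: `SwcData`, continuity of the curvature, the Jacobian data of an
integral basis of `H¹`, `numJ ≠ 0`, the numbers.
-/

set_option autoImplicit false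
set_option maxSynthPendingDepth 3
set_option linter.unusedSectionVars false
set_option maxHeartbeats 1000000

open scoped ContDiff ENNReal NNReal Topology Manifold Bundle RealInnerProductSpace
open MeasureTheory Set Filter Metric Bundle

namespace Crest.Agent.R235.ModXG_399

open Crest.Agent.R240 Crest.Agent.R240.Ch Crest.Agent.R235 Crest.Agent.R235.SWDefs_53
open Crest.Agent.R235.SWSym_451
open Crest.Agent.R235.IndTri_451 Crest.Agent.R235.Tau483 Crest.Agent.R235.TauJ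
open Crest.Agent.R235.DichProps_723 Crest.Agent.R235.DichH1_723
open Crest.Agent.R249.Tv57 (Dat OpPair SmF SmV KerD)
open Crest.Agent.R249.Tz805 (ToF CPair)
open Crest.Agent.R249.Tz2_805 (PF)
open Crest.Agent.R249.Vf281 (VSm)
open Crest.Agent.R235.SWTn_451 Crest.Agent.R235.SWData_451 Crest.Agent.R235.MdlXs_399
open Crest.Agent.R235.MdlXt_399 Crest.Agent.R235.FamTop_307

noncomputable section

theorem hasB1_of_bas {M : Type} [TopologicalSpace M] [ChartedSpace E4 M] [IsManifold 𝓘(ℝ, E4) ∞ M]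
    {b : ℕ} {σ : Fin b → F1 E4 M} (h : H1Bas σ) : HasB1 M b :=
  ⟨σ, h.closed, fun r hr => by
    obtain ⟨x, ⟨f, hf, e⟩, -⟩ := h.span r hr
    exact ⟨x, f, hf, e⟩, h.indep⟩

variable {M : Type} [MetricSpace M] [CompactSpace M] [ConnectedSpace M]
  [ChartedSpace (EuclideanSpace ℝ (Fin 4)) M] [IsManifold (𝓡 4) ∞ M]
  [RiemannianBundle (fun p : M => TangentSpace (𝓡 4) p)]
  [IsContMDiffRiemannianBundle (𝓡 4) ∞ (EuclideanSpace ℝ (Fin 4))
    (fun p : M => TangentSpace (𝓡 4) p)]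
  [IsRiemannianManifold (𝓡 4) M] [MeasurableSpace M] [BorelSpace M]
  [SecondCountableTopology M] [Nonempty M] [IsFiniteMeasureOnCompacts (μHE[4] : Measure M)]

section jd

variable {κ : Type} [Fintype κ] {N : ℕ}

variable (T : ToF 4 M) (s : PF 4 M κ) {w : Trip M} {e : Fin 3 → F2 E4 M}
  (tri : IsTri (fun i => (w i).1.1) e)
  (hin : ∀ (x : M) (u v : TangentSpace (𝓡 4) x), inner ℝ u v = at2 (gg e) x u v)
  {p : M → Matrix (Fin N) (Fin N) ℂ} (hp : IsLine p)

/-- **the Jacobian data of an integral basis, `numJ ≠ 0`.** -/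
theorem exists_jd (hT : T4R (w 0)) :
    ∃ j : JD M κ 4, j.OK (SX T s tri hin hp) ∧ numJ (SX T s tri hin hp) j ≠ 0 := by
  have hC : IndVol_57.Cpt ((w 0).1.1 : F2 E4 M) (II e 0) := (QSTri_451.comp_w tri hin).cpt
  obtain ⟨b, σ, hσ⟩ := H1Fin_692.h1bas M
  obtain rfl : b = 4 := hasB1_unique (hasB1_of_bas hσ) (QH1_57.hasB1_of_T4R hC.vol hT)
  obtain ⟨j, hj, hn⟩ := NumJ_723.exists_jd_SL (T := T) tri hin s (LTwLd_774.ldOf p hp) hσ
    (a := wedZ (hσ.closed 0) (hσ.closed 1)) (b := wedZ (hσ.closed 2) (hσ.closed 3)) rfl rfl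
  refine ⟨j, hj, ?_⟩
  have e3 := QH1_57.pI_ne_of_T4R (F := w 0) hC.vol hT hσ (a := wedZ (hσ.closed 0) (hσ.closed 1))
    (b := wedZ (hσ.closed 2) (hσ.closed 3)) rfl rfl
  have e5 : numJ (SX T s tri hin hp) j = NumJ_723.K1 *
      pI (w 0) (wedZ (hσ.closed 0) (hσ.closed 1)) (wedZ (hσ.closed 2) (hσ.closed 3)) := hn
  rw [e5]
  exact mul_ne_zero NumJ_723.K1_ne e3

end jd

/-- **everything for the class `c`.** -/
theorem modxg_core {w : Trip M} {e : Fin 3 → F2 E4 M} (hw : Pos3 w) (hT : T4R (w 0))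
    (tri : IsTri (fun i => (w i).1.1) e)
    (hin : ∀ (x : M) (u v : TangentSpace (𝓡 4) x), inner ℝ u v = at2 (gg e) x u v)
    {c : H2 M} (hc : c ∈ HZ M) (hcc : ip (w 0) c c = 0) :
    ∃ (κ0 κ1 κT : Type) (_ : Fintype κ0) (_ : Fintype κ1) (_ : Fintype κT)
      (S : SWS M κ0 κ1 κT) (T : ToF 4 M) (cc : κ1 → κ0 → (z : M) → TangentSpace (𝓡 4) z)
      (W : κ0 → κ0 → (z : M) → TangentSpace (𝓡 4) z)
      (sT : κT → (z : M) → TangentSpace (𝓡 4) z) (τ : E3 → TD M κT) (C K : ℝ)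
      (J1 : κ1 → κ1 → M → ℝ) (j : JD M κT 4) (d0 d1 bp : ℕ),
      SwcProd_215.SwcData S T cc W sT w e (-1) (wwf (fun i => (w i).1.1) e) τ C K c ∧
      (∀ k, ContinuousOn (fun q : E3 × M => (τ q.1).fE k q.2) {q | ‖q.1‖ = 1}) ∧
      Sym S (fun x y z => T.toF z (cc x y z)) ∧ CJ1 S (fun x y z => T.toF z (cc x y z)) J1 ∧
      GrdH S ∧ j.OK S ∧ numJ S j ≠ 0 ∧
      Nonempty (KerD S.D0 S.P.A d0) ∧ Nonempty (KerD S.D1 S.P.B d1) ∧
      Nonempty (KerD S.DL S.H.A (1 + bp)) ∧ d0 + 4 = d1 + 1 + bp ∧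
      NumC_692.HNum w bp := by
  obtain ⟨N, p, a, hp, ha, rfl⟩ := hc
  obtain ⟨m, ⟨s⟩⟩ := R249.Tz2_805.exists_PF (n := 4) (M := M)
  let T : ToF 4 M := R249.Tof352.tof 4 M
  have hV := hw.vol 0
  have haa : pI (w 0) a a = 0 := by rw [← ip_cls hV]; exact hcc
  obtain ⟨C, K, hD⟩ := swcdata T s tri hin hp ha
  obtain ⟨j, hj, hn⟩ := exists_jd T s tri hin hp hT
  obtain ⟨d0, d1, b, bp, K0, K1, KL, KT, hb, hd, hN⟩ := NumC_692.numsL hw tri hin T s hp ha haa
  obtain rfl : b = 4 := hasB1_unique hb (QH1_57.hasB1_of_T4R hV hT)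
  exact ⟨_, _, _, inferInstance, inferInstance, inferInstance, SX T s tri hin hp, T, _, _, _,
    tX T s tri hin hp ha, C, K, _, j, d0, d1, bp, hD, fun k => (hyp T s tri hin hp ha).cfE k,
    sym T s tri hin hp, SWJ1_133.cj1 (sym T s tri hin hp),
    MdlJ_399.grdH T (qX tri hin) s _ _ _ rfl, hj, hn, K0, K1, KL, hd, hN⟩

end

end Crest.Agent.R235.ModXG_399
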