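import Crest.Agent.R096.BelA_205
import Crest.Agent.R235.NWIface_334
import Crest.Agent.R235.NWHol_952

-- ▼ part R235/KP_133
section

/-!
Row 235, package NW, leaf (K): Korn–Privalov.  `Pc u = (1/(π z)) * u` maps compactly supported
`a`-Hölder functions `ℂ → E` (`E` a complex Banach space) to `C^{1,a}`, with explicit constants
depending on `a, R` only; `∂̄ (Pc u) = u`.  No mollification: second order Taylor estimate
`‖w (z+h) - w z - A z h‖ ≤ K ‖h‖^(1+a)`.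
-/

set_option autoImplicit false
set_option linter.unusedSectionVars false

open MeasureTheory Set Metric Topology
open Filter hiding ker
open scoped ContDiff Real

namespace Crest.Agent.R235.KP_133

open Crest.Agent.R096.BelA_205

noncomputable section

/-! ### Integrals of powers -/

theorem intOn_pow {s : ℝ} (hs : -2 < s) (r : ℝ) :
    IntegrableOn (fun ζ : ℂ => ‖ζ‖ ^ s) (ball 0 r) := by
  have h := (integrableOn_fun_norm_addHaar (volume : Measure ℂ) (f := fun y : ℝ => y ^ s)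
    (r := r)).2
  apply h
  rw [Complex.finrank_real_complex]
  by_cases hr : r ≤ 0
  · rw [Ioo_eq_empty (by linarith)]; simp
  push Not at hr
  have h1 : IntegrableOn (fun y : ℝ => y ^ (s + 1)) (Ioo 0 r) := by
    have := (intervalIntegral.intervalIntegrable_rpow' (a := 0) (b := r) (r := s + 1)
      (by linarith)).1
    exact this.mono_set Ioo_subset_Ioc_self
  refine h1.congr_fun ?_ measurableSet_Ioo
  intro y hy
  have hy0 : 0 < y := hy.1
  simp only [Nat.add_one_sub_one, pow_one, smul_eq_mul]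
  rw [Real.rpow_add hy0, Real.rpow_one, mul_comm]

theorem int_J {a : ℝ} (ha0 : 0 < a) (ha1 : a < 1) :
    Integrable fun η : ℂ => ‖η‖ ^ (a - 2) * ‖η - 1‖⁻¹ := by
  have hm : Measurable fun η : ℂ => ‖η‖ ^ (a - 2) * ‖η - 1‖⁻¹ := by fun_prop
  -- the three dominating functions
  have i1 : Integrable ((ball (0:ℂ) (1/2)).indicator fun η => 2 * ‖η‖ ^ (a - 2)) := by
    rw [integrable_indicator_iff measurableSet_ball]
    exact (intOn_pow (by linarith) _).const_mul 2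
  have i2 : Integrable (fun η : ℂ => (ball (0:ℂ) (1/2)).indicator
      (fun ζ => 4 * ‖ζ‖⁻¹) (η - 1)) := by
    have : Integrable ((ball (0:ℂ) (1/2)).indicator (fun ζ : ℂ => 4 * ‖ζ‖⁻¹)) := by
      rw [integrable_indicator_iff measurableSet_ball]
      exact (integrableOn_inv _).const_mul 4
    exact this.comp_sub_right 1
  have i3 : Integrable fun η : ℂ => 54 * (1 + ‖η‖) ^ (-(3 - a)) := by
    apply Integrable.const_mul
    apply integrable_one_add_norm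
    rw [Complex.finrank_real_complex]; norm_num; linarith
  refine Integrable.mono' ((i1.add i2).add i3) hm.aestronglyMeasurable ?_
  filter_upwards with η
  have n1 : 0 ≤ (ball (0:ℂ) (1/2)).indicator (fun η => 2 * ‖η‖ ^ (a - 2)) η :=
    indicator_nonneg (fun _ _ => by positivity) _
  have n2 : 0 ≤ (ball (0:ℂ) (1/2)).indicator (fun ζ => 4 * ‖ζ‖⁻¹) (η - 1) :=
    indicator_nonneg (fun _ _ => by positivity) _
  have n3 : 0 ≤ 54 * (1 + ‖η‖) ^ (-(3 - a)) := by positivity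
  have hn : ‖‖η‖ ^ (a - 2) * ‖η - 1‖⁻¹‖ = ‖η‖ ^ (a - 2) * ‖η - 1‖⁻¹ := by
    rw [Real.norm_of_nonneg (by positivity)]
  rw [hn]
  simp only [Pi.add_apply]
  by_cases h1 : ‖η‖ < 1 / 2
  · have hm1 : η ∈ ball (0:ℂ) (1/2) := by simpa using h1
    rw [indicator_of_mem hm1]
    have : 1 / 2 ≤ ‖η - 1‖ := by
      have := norm_sub_norm_le (1:ℂ) η
      rw [norm_one, norm_sub_rev] at this
      linarith
    have h2 : ‖η - 1‖⁻¹ ≤ 2 := by
      calc ‖η - 1‖⁻¹ ≤ (1/2 : ℝ)⁻¹ := inv_anti₀ (by norm_num) this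
        _ = 2 := by norm_num
    have h3 : ‖η‖ ^ (a - 2) * ‖η - 1‖⁻¹ ≤ ‖η‖ ^ (a - 2) * 2 :=
      mul_le_mul_of_nonneg_left h2 (by positivity)
    linarith
  push Not at h1
  by_cases h2 : ‖η - 1‖ < 1 / 2
  · have hm1 : η - 1 ∈ ball (0:ℂ) (1/2) := by simpa using h2
    rw [indicator_of_mem hm1]
    have h3 : ‖η‖ ^ (a - 2) ≤ 4 := by
      calc ‖η‖ ^ (a - 2) ≤ (1/2 : ℝ) ^ (a - 2) :=
            Real.rpow_le_rpow_of_nonpos (by norm_num) h1 (by linarith)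
        _ = 2 ^ (2 - a) := by
            rw [one_div, Real.inv_rpow (by norm_num), ← Real.rpow_neg (by norm_num)]
            congr 1; ring
        _ ≤ 2 ^ (2:ℝ) := Real.rpow_le_rpow_of_exponent_le (by norm_num) (by linarith)
        _ = 4 := by norm_num
    have h4 : ‖η‖ ^ (a - 2) * ‖η - 1‖⁻¹ ≤ 4 * ‖η - 1‖⁻¹ :=
      mul_le_mul_of_nonneg_right h3 (by positivity)
    linarith
  push Not at h2
  have hη : 0 < 1 + ‖η‖ := by positivity
  have h3 : (1 + ‖η‖) / 3 ≤ ‖η‖ := by linarith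
  have h4 : (1 + ‖η‖) / 6 ≤ ‖η - 1‖ := by
    have := norm_sub_norm_le η (1:ℂ)
    rw [norm_one] at this
    by_cases h : ‖η‖ ≤ 2 <;> linarith
  have h5 : ‖η‖ ^ (a - 2) ≤ 9 * (1 + ‖η‖) ^ (a - 2) := by
    calc ‖η‖ ^ (a - 2) ≤ ((1 + ‖η‖) / 3) ^ (a - 2) :=
          Real.rpow_le_rpow_of_nonpos (by positivity) h3 (by linarith)
      _ = 3 ^ (2 - a) * (1 + ‖η‖) ^ (a - 2) := by
          rw [Real.div_rpow hη.le (by norm_num), div_eq_mul_inv, ← Real.rpow_neg (by norm_num),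
            mul_comm]
          congr 2; ring
      _ ≤ 3 ^ (2:ℝ) * (1 + ‖η‖) ^ (a - 2) := by
          apply mul_le_mul_of_nonneg_right _ (by positivity)
          exact Real.rpow_le_rpow_of_exponent_le (by norm_num) (by linarith)
      _ = 9 * (1 + ‖η‖) ^ (a - 2) := by norm_num
  have h6 : ‖η - 1‖⁻¹ ≤ 6 * (1 + ‖η‖)⁻¹ := by
    calc ‖η - 1‖⁻¹ ≤ ((1 + ‖η‖) / 6)⁻¹ := inv_anti₀ (by positivity) h4
      _ = 6 * (1 + ‖η‖)⁻¹ := by rw [inv_div]; ring
  have h7 : ‖η‖ ^ (a - 2) * ‖η - 1‖⁻¹ ≤ (9 * (1 + ‖η‖) ^ (a - 2)) * (6 * (1 + ‖η‖)⁻¹) :=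
    mul_le_mul h5 h6 (by positivity) (by positivity)
  have h8 : (9 * (1 + ‖η‖) ^ (a - 2)) * (6 * (1 + ‖η‖)⁻¹) = 54 * (1 + ‖η‖) ^ (-(3 - a)) := by
    rw [show -(3 - a) = (a - 2) + (-1) by ring, Real.rpow_add hη, Real.rpow_neg_one]
    ring
  linarith

/-- the constant `∫ |η|^(a-2) |η-1|⁻¹` -/
def Ja (a : ℝ) : ℝ := ∫ η : ℂ, ‖η‖ ^ (a - 2) * ‖η - 1‖⁻¹

theorem Ja_nonneg (a : ℝ) : 0 ≤ Ja a := integral_nonneg fun _ => by positivity

/-- scaling by a complex number -/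
theorem scale_aux {a : ℝ} {h : ℂ} (hh : h ≠ 0) (η : ℂ) :
    ‖h * η‖ ^ (a - 2) * ‖h * η - h‖⁻¹ = ‖h‖ ^ (a - 3) * (‖η‖ ^ (a - 2) * ‖η - 1‖⁻¹) := by
  have hn : 0 < ‖h‖ := norm_pos_iff.2 hh
  rw [show h * η - h = h * (η - 1) by ring, norm_mul, norm_mul,
    Real.mul_rpow (norm_nonneg _) (norm_nonneg _), mul_inv,
    show a - 3 = (a - 2) + (-1) by ring, Real.rpow_add hn, Real.rpow_neg_one]
  ring

theorem map_mul {h : ℂ} (hh : h ≠ 0) :
    Measure.map (fun η : ℂ => h * η) volume = ENNReal.ofReal ((‖h‖ ^ 2)⁻¹) • volume := by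
  have hn : 0 < ‖h‖ := norm_pos_iff.2 hh
  have hcm : ‖h / (‖h‖ : ℂ)‖ = 1 := by simp [hh]
  obtain ⟨c, hc⟩ : ∃ c : Circle, (c : ℂ) = h / (‖h‖ : ℂ) :=
    ⟨⟨h / ‖h‖, by simpa [Submonoid.unitSphere] using hcm⟩, rfl⟩
  have h1 : MeasurePreserving (rotation c) := (rotation c).measurePreserving
  have h2 : (fun η : ℂ => h * η) = (fun η => rotation c η) ∘ (fun η : ℂ => ‖h‖ • η) := by
    ext η
    simp only [Function.comp, Complex.real_smul]
    have : (‖h‖ : ℂ) ≠ 0 := by exact_mod_cast hn.ne'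
    rw [rotation_apply, hc]
    field_simp
  rw [h2, ← Measure.map_map h1.measurable (by fun_prop),
    Measure.map_addHaar_smul volume hn.ne', Complex.finrank_real_complex, Measure.map_smul,
    h1.map_eq, abs_of_pos (by positivity)]

theorem int_scale {h : ℂ} (hh : h ≠ 0) (f : ℂ → ℝ) :
    ∫ η, f (h * η) = (‖h‖ ^ 2)⁻¹ * ∫ η, f η := by
  have hem : MeasurableEmbedding (fun η : ℂ => h * η) :=
    (Homeomorph.mulLeft₀ h hh).measurableEmbedding
  rw [← hem.integral_map, map_mul hh, integral_smul_measure,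
    ENNReal.toReal_ofReal (by positivity), smul_eq_mul]

theorem integrable_scale {h : ℂ} (hh : h ≠ 0) {f : ℂ → ℝ}
    (hf : Integrable fun η => f (h * η)) : Integrable f := by
  have hem : MeasurableEmbedding (fun η : ℂ => h * η) :=
    (Homeomorph.mulLeft₀ h hh).measurableEmbedding
  have h1 : Integrable f (Measure.map (fun η : ℂ => h * η) volume) :=
    (hem.integrable_map_iff).2 hf
  rw [map_mul hh] at h1
  have hn : 0 < ‖h‖ := norm_pos_iff.2 hh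
  exact (integrable_smul_measure (by
    rw [Ne, ENNReal.ofReal_eq_zero, not_le]; positivity) ENNReal.ofReal_ne_top).1 h1

theorem int_Jh {a : ℝ} (ha0 : 0 < a) (ha1 : a < 1) {h : ℂ} (hh : h ≠ 0) :
    Integrable fun η : ℂ => ‖η‖ ^ (a - 2) * ‖η - h‖⁻¹ := by
  apply integrable_scale hh
  simp_rw [scale_aux hh]
  exact (int_J ha0 ha1).const_mul _

theorem Jh_eq {a : ℝ} {h : ℂ} (hh : h ≠ 0) :
    ∫ η : ℂ, ‖η‖ ^ (a - 2) * ‖η - h‖⁻¹ = ‖h‖ ^ (a - 1) * Ja a := by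
  have hn : 0 < ‖h‖ := norm_pos_iff.2 hh
  have h1 := int_scale hh (fun η : ℂ => ‖η‖ ^ (a - 2) * ‖η - h‖⁻¹)
  simp only [scale_aux hh, integral_const_mul] at h1
  have h2 : ∫ η : ℂ, ‖η‖ ^ (a - 2) * ‖η - h‖⁻¹ = ‖h‖ ^ 2 * (‖h‖ ^ (a - 3) * Ja a) := by
    unfold Ja; rw [h1]; field_simp
  rw [h2, ← mul_assoc]
  congr 1
  rw [← Real.rpow_natCast, ← Real.rpow_add hn]
  congr 1; push_cast; ring


/-- `∫_{|ζ|<1} |ζ|^(a-2)` -/
def Ia (a : ℝ) : ℝ := ∫ ζ in ball (0:ℂ) 1, ‖ζ‖ ^ (a - 2)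

theorem Ia_nonneg (a : ℝ) : 0 ≤ Ia a := integral_nonneg fun _ => by positivity

/-! ### The model function -/

theorem exists_psi : ∃ (ψ b : ℂ → ℂ) (K : ℝ), Tst 2 ψ ∧ P ψ = b ∧ (∀ ζ, ‖ζ‖ < 1 → ψ ζ = 1) ∧
    (∀ ζ, ‖ζ‖ ≤ 1 → b ζ = (starRingEnd ℂ) ζ) ∧ 0 ≤ K ∧ ∀ ζ, ‖ψ ζ‖ ≤ K := by
  set f : ContDiffBump (0:ℂ) := ⟨1, 2, by norm_num, by norm_num⟩ with hf
  set b : ℂ → ℂ := fun ζ => ((f ζ : ℝ) : ℂ) * (starRingEnd ℂ) ζ with hb
  have hb1 : ContDiff ℝ ∞ b := by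
    have h1 : ContDiff ℝ ∞ fun ζ : ℂ => ((f ζ : ℝ) : ℂ) :=
      Complex.ofRealCLM.contDiff.comp f.contDiff
    have h2 : ContDiff ℝ ∞ fun ζ : ℂ => (starRingEnd ℂ) ζ := Complex.conjCLE.contDiff
    exact h1.mul h2
  have hbT : Tst 2 b := by
    refine ⟨hb1, fun z hz => ?_⟩
    have : f z = 0 := f.zero_of_le_dist (by rw [dist_zero_right]; exact hz.le)
    simp [hb, this]
  have hP : P (dzb b) = b := by rw [← dzb_P' hbT, dzb_P hbT]
  have h1 : ∀ ζ : ℂ, ‖ζ‖ ≤ 1 → b ζ = (starRingEnd ℂ) ζ := by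
    intro ζ hζ
    have : f ζ = 1 := f.one_of_mem_closedBall (by simpa using hζ)
    simp [hb, this]
  have h2 : ∀ ζ : ℂ, ‖ζ‖ < 1 → dzb b ζ = 1 := by
    intro ζ hζ
    have he : b =ᶠ[𝓝 ζ] fun ζ => (starRingEnd ℂ) ζ := by
      filter_upwards [(isOpen_lt continuous_norm continuous_const).mem_nhds hζ] with y hy
      exact h1 y hy.le
    have hd : fderiv ℝ b ζ = Complex.conjCLE.toContinuousLinearMap := by
      rw [he.fderiv_eq]
      exact (Complex.conjCLE : ℂ ≃L[ℝ] ℂ).fderiv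
    unfold dzb dd
    rw [hd]
    simp
  obtain ⟨K, hK⟩ := hbT.dzb.compact.exists_bound_of_continuous hbT.dzb.cont
  refine ⟨dzb b, b, K, hbT.dzb, hP, h2, h1, (norm_nonneg _).trans (hK 0), hK⟩

/-- a fixed test function which is `1` on the unit ball and whose Cauchy transform is `ζ̄` there -/
def psi : ℂ → ℂ := exists_psi.choose

/-- its Cauchy transform -/
def bb : ℂ → ℂ := exists_psi.choose_spec.choose

/-- its sup -/
def Kp : ℝ := exists_psi.choose_spec.choose_spec.choose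

theorem psi_spec : Tst 2 psi ∧ P psi = bb ∧ (∀ ζ, ‖ζ‖ < 1 → psi ζ = 1) ∧
    (∀ ζ, ‖ζ‖ ≤ 1 → bb ζ = (starRingEnd ℂ) ζ) ∧ 0 ≤ Kp ∧ ∀ ζ, ‖psi ζ‖ ≤ Kp :=
  exists_psi.choose_spec.choose_spec.choose_spec

/-- its `L¹` norm -/
def Kq : ℝ := ∫ ζ, ‖psi ζ‖

theorem Kq_nonneg : 0 ≤ Kq := integral_nonneg fun _ => norm_nonneg _

/-! ### The Cauchy transform of vector valued functions -/

section Main

variable {E : Type*} [NormedAddCommGroup E] [NormedSpace ℂ E]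

/-- the Cauchy transform -/
def Pc (u : ℂ → E) (z : ℂ) : E := ∫ ζ, ker ζ • u (z - ζ)


/-- compactly supported Hölder functions, with constants -/
structure HC (a R N : ℝ) (u : ℂ → E) : Prop where
  supp : ∀ z, R < ‖z‖ → u z = 0
  hol : ∀ z w, ‖u z - u w‖ ≤ N * ‖z - w‖ ^ a

theorem compact_of {R : ℝ} {u : ℂ → E} (h : ∀ z, R < ‖z‖ → u z = 0) : HasCompactSupport u := by
  apply HasCompactSupport.intro (isCompact_closedBall (0:ℂ) R)
  intro z hz
  apply h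
  simpa using hz

theorem HC.nonneg {a R N : ℝ} {u : ℂ → E} (h : HC a R N u) : 0 ≤ N := by
  have := (norm_nonneg _).trans (h.hol 1 0)
  simpa using this

theorem HC.cont {a R N : ℝ} {u : ℂ → E} (h : HC a R N u) (ha : 0 < a) : Continuous u := by
  rw [continuous_iff_continuousAt]
  intro z
  rw [ContinuousAt, tendsto_iff_norm_sub_tendsto_zero]
  have h1 : Tendsto (fun w : ℂ => N * ‖w - z‖ ^ a) (𝓝 z) (𝓝 (N * ‖z - z‖ ^ a)) := by
    apply Tendsto.const_mul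
    apply Tendsto.rpow_const
    · exact (continuous_id.sub continuous_const).norm.tendsto z
    · right; exact ha.le
  rw [sub_self, norm_zero, Real.zero_rpow ha.ne', mul_zero] at h1
  exact squeeze_zero (fun _ => norm_nonneg _) (fun w => h.hol w z) h1

theorem HC.bound {a R N : ℝ} {u : ℂ → E} (h : HC a R N u) (hR : 0 ≤ R) (z : ℂ) :
    ‖u z‖ ≤ N * (2 * R + 1) ^ a := by
  by_cases hz : R < ‖z‖
  · rw [h.supp z hz, norm_zero]
    have := h.nonneg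
    positivity
  push Not at hz
  have h1 : u (z + ((2 * R + 1 : ℝ) : ℂ)) = 0 := by
    apply h.supp
    have h2 := norm_sub_norm_le (((2 * R + 1 : ℝ) : ℂ)) (-z)
    rw [norm_neg, sub_neg_eq_add, Complex.norm_real, Real.norm_of_nonneg (by positivity)] at h2
    rw [add_comm z]
    linarith
  have h2 := h.hol z (z + ((2 * R + 1 : ℝ) : ℂ))
  rw [h1, sub_zero, sub_add_cancel_left, norm_neg, Complex.norm_real,
    Real.norm_of_nonneg (by positivity)] at h2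
  exact h2

/-- the sup constant -/
def Mc (a R : ℝ) : ℝ := (2 * R + 1) ^ a

theorem int_ker {u : ℂ → E} (hc : Continuous u) (hs : HasCompactSupport u) (z h : ℂ) :
    Integrable fun ζ => ker (ζ + h) • u (z - ζ) := by
  have h1 : Integrable fun ζ => ker ζ • u ((z + h) - ζ) :=
    hs.convolutionExists_right (ContinuousLinearMap.lsmul ℝ ℂ) locallyIntegrable_ker hc (z + h)
  have h2 := h1.comp_add_right h
  refine h2.congr (Eventually.of_forall fun ζ => ?_)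
  simp only
  congr 2; ring

theorem Pc_shift (u : ℂ → E) (z h : ℂ) : Pc u (z + h) = ∫ ζ, ker (ζ + h) • u (z - ζ) := by
  unfold Pc
  rw [← integral_add_right_eq_self (fun ζ => ker ζ • u ((z + h) - ζ)) h]
  congr 1
  ext ζ
  congr 2; ring

theorem bb_eq (h : ℂ) : bb h = ∫ ζ, ker (ζ + h) * psi (-ζ) := by
  have h0 := psi_spec.2.1
  rw [← h0, P_swap, ← integral_neg_eq_self]
  congr 1
  ext ζ
  congr 2; ring

/-- the function `u (z - ζ) - psi (-ζ) u z` -/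
def G (u : ℂ → E) (z ζ : ℂ) : E := u (z - ζ) - psi (-ζ) • u z

theorem G_cont {u : ℂ → E} (hc : Continuous u) (z : ℂ) : Continuous (G u z) := by
  unfold G
  have h1 : Continuous fun ζ => psi (-ζ) := psi_spec.1.cont.comp continuous_neg
  exact (hc.comp (continuous_const.sub continuous_id)).sub (h1.smul continuous_const)

theorem G_supp {R : ℝ} {u : ℂ → E} (hR : ∀ z, R < ‖z‖ → u z = 0) (z ζ : ℂ)
    (h : max (R + ‖z‖) 2 < ‖ζ‖) : G u z ζ = 0 := by
  unfold G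
  rw [psi_spec.1.zero (-ζ) (by rw [norm_neg]; exact (le_max_right _ _).trans_lt h), zero_smul,
    sub_zero]
  apply hR
  have h1 := (le_max_left (R + ‖z‖) 2).trans_lt h
  have := norm_sub_norm_le ζ z
  rw [norm_sub_rev] at this
  linarith

theorem G_int {a R N : ℝ} {u : ℂ → E} (h : HC a R N u) (ha : 0 < a) (z : ℂ) :
    Integrable (G u z) :=
  (G_cont (h.cont ha) z).integrable_of_hasCompactSupport (compact_of (G_supp h.supp z))

/-- the Hölder constant of `G` at `0` -/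
def Nc (a R : ℝ) : ℝ := 1 + (1 + Kp) * Mc a R

theorem Mc_nonneg {a R : ℝ} (hR : 0 ≤ R) : 0 ≤ Mc a R := by
  unfold Mc; positivity

theorem Nc_nonneg {a R : ℝ} (hR : 0 ≤ R) : 0 ≤ Nc a R := by
  have h1 := Mc_nonneg (a := a) hR
  have h2 := psi_spec.2.2.2.2.1
  unfold Nc; positivity

theorem G_le {a R N : ℝ} {u : ℂ → E} (h : HC a R N u) (ha : 0 < a) (hR : 0 ≤ R) (z ζ : ℂ) :
    ‖G u z ζ‖ ≤ Nc a R * N * ‖ζ‖ ^ a := by
  have hN := h.nonneg
  have hK := psi_spec.2.2.2.2.1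
  have hM := Mc_nonneg (a := a) hR
  by_cases h1 : ‖ζ‖ < 1
  · unfold G
    rw [psi_spec.2.2.1 (-ζ) (by rwa [norm_neg]), one_smul]
    have h2 := h.hol (z - ζ) z
    rw [sub_sub_cancel_left, norm_neg] at h2
    have h3 : N * ‖ζ‖ ^ a ≤ Nc a R * N * ‖ζ‖ ^ a := by
      apply mul_le_mul_of_nonneg_right _ (by positivity)
      have : 1 * N ≤ Nc a R * N := by
        apply mul_le_mul_of_nonneg_right _ hN
        unfold Nc
        have : 0 ≤ (1 + Kp) * Mc a R := by positivity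
        linarith
      linarith
    exact h2.trans h3
  · push Not at h1
    have h2 : ‖G u z ζ‖ ≤ (1 + Kp) * (N * Mc a R) := by
      unfold G
      have e1 := h.bound hR (z - ζ)
      have e2 := h.bound hR z
      have e3 := psi_spec.2.2.2.2.2 (-ζ)
      calc ‖u (z - ζ) - psi (-ζ) • u z‖ ≤ ‖u (z - ζ)‖ + ‖psi (-ζ) • u z‖ := norm_sub_le _ _
        _ ≤ N * Mc a R + Kp * (N * Mc a R) := by
            rw [norm_smul]
            exact add_le_add e1 (mul_le_mul e3 e2 (norm_nonneg _) hK)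
        _ = (1 + Kp) * (N * Mc a R) := by ring
    have h3 : (1:ℝ) ≤ ‖ζ‖ ^ a := Real.one_le_rpow h1 ha.le
    have h4 : (1 + Kp) * (N * Mc a R) ≤ Nc a R * N := by
      unfold Nc; nlinarith
    have h5 : Nc a R * N * 1 ≤ Nc a R * N * ‖ζ‖ ^ a :=
      mul_le_mul_of_nonneg_left h3 (mul_nonneg (Nc_nonneg hR) hN)
    linarith

/-- `∂ (Pc u)` -/
def Tu (u : ℂ → E) (z : ℂ) : E := - ∫ ζ, ((π:ℂ)⁻¹ * (ζ ^ 2)⁻¹) • G u z ζ

theorem norm_pz (ζ : ℂ) : ‖(π:ℂ)⁻¹ * (ζ ^ 2)⁻¹‖ = π⁻¹ * (‖ζ‖ ^ 2)⁻¹ := by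
  simp [abs_of_pos Real.pi_pos]

theorem T_dom {a R N : ℝ} {u : ℂ → E} (h : HC a R N u) (ha : 0 < a) (hR : 0 ≤ R) (z ζ : ℂ) :
    ‖((π:ℂ)⁻¹ * (ζ ^ 2)⁻¹) • G u z ζ‖ ≤
      (ball (0:ℂ) 1).indicator (fun ζ => (π⁻¹ * (Nc a R * N)) * ‖ζ‖ ^ (a - 2)) ζ
        + π⁻¹ * ‖G u z ζ‖ := by
  have hN := h.nonneg
  have hNc := Nc_nonneg (a := a) hR
  rw [norm_smul, norm_pz]
  by_cases h1 : ζ ∈ ball (0:ℂ) 1
  · rw [indicator_of_mem h1]
    have h2 : 0 ≤ π⁻¹ * ‖G u z ζ‖ := by positivity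
    have h3 : π⁻¹ * (‖ζ‖ ^ 2)⁻¹ * ‖G u z ζ‖ ≤ π⁻¹ * (Nc a R * N) * ‖ζ‖ ^ (a - 2) := by
      by_cases h0 : ζ = 0
      · subst h0
        have e1 := G_le h ha hR z 0
        rw [norm_zero, Real.zero_rpow ha.ne', mul_zero] at e1
        have e2 : ‖G u z 0‖ = 0 := le_antisymm e1 (norm_nonneg _)
        rw [e2, mul_zero]; positivity
      have hp : 0 < ‖ζ‖ := norm_pos_iff.2 h0
      have e1 := G_le h ha hR z ζ
      calc π⁻¹ * (‖ζ‖ ^ 2)⁻¹ * ‖G u z ζ‖ ≤ π⁻¹ * (‖ζ‖ ^ 2)⁻¹ * (Nc a R * N * ‖ζ‖ ^ a) :=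
            mul_le_mul_of_nonneg_left e1 (by positivity)
        _ = π⁻¹ * (Nc a R * N) * ‖ζ‖ ^ (a - 2) := by
            rw [show a - 2 = a + (-2) by ring, Real.rpow_add hp,
              show ‖ζ‖ ^ (-2:ℝ) = (‖ζ‖ ^ 2)⁻¹ by
                rw [Real.rpow_neg hp.le]; norm_num]
            ring
    linarith
  · rw [indicator_of_notMem h1, zero_add]
    have h2 : 1 ≤ ‖ζ‖ := by simpa using h1
    apply mul_le_mul_of_nonneg_right _ (norm_nonneg _)
    have h3 : (‖ζ‖ ^ 2)⁻¹ ≤ 1 := inv_le_one_of_one_le₀ (one_le_pow₀ h2)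
    have : π⁻¹ * (‖ζ‖ ^ 2)⁻¹ ≤ π⁻¹ * 1 := mul_le_mul_of_nonneg_left h3 (by positivity)
    linarith

theorem T_dom_int {a R N : ℝ} {u : ℂ → E} (h : HC a R N u) (ha : 0 < a) (z : ℂ) :
    Integrable fun ζ => (ball (0:ℂ) 1).indicator
      (fun ζ => (π⁻¹ * (Nc a R * N)) * ‖ζ‖ ^ (a - 2)) ζ + π⁻¹ * ‖G u z ζ‖ := by
  apply Integrable.add
  · rw [integrable_indicator_iff measurableSet_ball]
    exact (intOn_pow (by linarith) _).const_mul _
  · exact (G_int h ha z).norm.const_mul _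

theorem T_int {a R N : ℝ} {u : ℂ → E} (h : HC a R N u) (ha : 0 < a) (hR : 0 ≤ R) (z : ℂ) :
    Integrable fun ζ => ((π:ℂ)⁻¹ * (ζ ^ 2)⁻¹) • G u z ζ := by
  refine (T_dom_int h ha z).mono' ?_ (Eventually.of_forall (T_dom h ha hR z))
  apply AEStronglyMeasurable.smul
  · have : Measurable fun ζ : ℂ => (π:ℂ)⁻¹ * (ζ ^ 2)⁻¹ := by fun_prop
    exact this.aestronglyMeasurable
  · exact (G_int h ha z).1

/-- volume of the ball -/
def Vo (R : ℝ) : ℝ := volume.real (closedBall (0:ℂ) R)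

theorem Vo_nonneg (R : ℝ) : 0 ≤ Vo R := measureReal_nonneg

theorem int_norm_le' {R M : ℝ} {u : ℂ → E} (hs : ∀ z, R < ‖z‖ → u z = 0)
    (hc : Continuous u) (hM : ∀ z, ‖u z‖ ≤ M) : ∫ ζ, ‖u ζ‖ ≤ Vo R * M := by
  have hi : Integrable u := hc.integrable_of_hasCompactSupport (compact_of hs)
  have h1 : ∫ ζ, ‖u ζ‖ = ∫ ζ in closedBall (0:ℂ) R, ‖u ζ‖ := by
    rw [setIntegral_eq_integral_of_forall_compl_eq_zero]
    intro ζ hζ
    rw [hs ζ (by simpa using hζ)]; simp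
  rw [h1]
  have h2 : ∫ ζ in closedBall (0:ℂ) R, ‖u ζ‖ ≤ ∫ ζ in closedBall (0:ℂ) R, M := by
    apply setIntegral_mono hi.norm.integrableOn
    · exact integrableOn_const (measure_closedBall_lt_top.ne) (by simp)
    · exact hM
  refine h2.trans ?_
  rw [setIntegral_const, smul_eq_mul, Vo]

theorem G_int_le {a R N : ℝ} {u : ℂ → E} (h : HC a R N u) (ha : 0 < a) (hR : 0 ≤ R) (z : ℂ) :
    ∫ ζ, ‖G u z ζ‖ ≤ (Vo R + Kq) * Mc a R * N := by
  have h1 : ∫ ζ, ‖u (z - ζ)‖ ≤ Vo R * (N * Mc a R) := by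
    rw [integral_sub_left_eq_self (fun ζ => ‖u ζ‖) volume z]
    exact int_norm_le' h.supp (h.cont ha) (h.bound hR)
  have h2 : ∫ ζ : ℂ, ‖psi (-ζ) • u z‖ ≤ Kq * (N * Mc a R) := by
    have e : ∀ ζ : ℂ, ‖psi (-ζ) • u z‖ = ‖psi (-ζ)‖ * ‖u z‖ := fun ζ => norm_smul _ _
    simp_rw [e]
    rw [integral_mul_const, integral_neg_eq_self (fun ζ => ‖psi ζ‖)]
    exact mul_le_mul_of_nonneg_left (h.bound hR z) Kq_nonneg
  have hi1 : Integrable fun ζ => ‖u (z - ζ)‖ := by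
    have : Integrable u := (h.cont ha).integrable_of_hasCompactSupport (compact_of h.supp)
    exact (this.comp_sub_left z).norm
  have hi2 : Integrable fun ζ : ℂ => ‖psi (-ζ) • u z‖ := by
    have : Integrable fun ζ : ℂ => psi (-ζ) := psi_spec.1.integrable.comp_neg
    exact (this.smul_const (u z)).norm
  calc ∫ ζ, ‖G u z ζ‖ ≤ ∫ ζ, (‖u (z - ζ)‖ + ‖psi (-ζ) • u z‖) := by
        apply integral_mono (G_int h ha z).norm (hi1.add hi2)
        intro ζ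
        exact norm_sub_le _ _
    _ ≤ Vo R * (N * Mc a R) + Kq * (N * Mc a R) := by
        rw [integral_add hi1 hi2]; exact add_le_add h1 h2
    _ = (Vo R + Kq) * Mc a R * N := by ring

/-- the constant for `T` -/
def Tc (a R : ℝ) : ℝ := π⁻¹ * (Nc a R * Ia a + (Vo R + Kq) * Mc a R)

theorem Tc_nonneg {a R : ℝ} (hR : 0 ≤ R) : 0 ≤ Tc a R := by
  have h1 := Mc_nonneg (a := a) hR
  have h2 := Nc_nonneg (a := a) hR
  have h3 := Ia_nonneg a
  have h4 := Vo_nonneg R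
  have h5 := Kq_nonneg
  unfold Tc; positivity

theorem T_le {a R N : ℝ} {u : ℂ → E} (h : HC a R N u) (ha : 0 < a) (hR : 0 ≤ R) (z : ℂ) :
    ‖Tu u z‖ ≤ Tc a R * N := by
  unfold Tu
  rw [norm_neg]
  calc ‖∫ ζ, ((π:ℂ)⁻¹ * (ζ ^ 2)⁻¹) • G u z ζ‖
      ≤ ∫ ζ, ((ball (0:ℂ) 1).indicator
      (fun ζ => (π⁻¹ * (Nc a R * N)) * ‖ζ‖ ^ (a - 2)) ζ + π⁻¹ * ‖G u z ζ‖) :=
        norm_integral_le_of_norm_le (T_dom_int h ha z) (Eventually.of_forall (T_dom h ha hR z))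
    _ = π⁻¹ * (Nc a R * N) * Ia a + π⁻¹ * ∫ ζ, ‖G u z ζ‖ := by
        rw [integral_add, integral_indicator measurableSet_ball, integral_const_mul,
          integral_const_mul]
        · rfl
        · rw [integrable_indicator_iff measurableSet_ball]
          exact (intOn_pow (by linarith) _).const_mul _
        · exact (G_int h ha z).norm.const_mul _
    _ ≤ π⁻¹ * (Nc a R * N) * Ia a + π⁻¹ * ((Vo R + Kq) * Mc a R * N) := by
        have := mul_le_mul_of_nonneg_left (G_int_le h ha hR z) (inv_nonneg.2 Real.pi_pos.le)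
        linarith
    _ = Tc a R * N := by unfold Tc; ring

/-- splitting off the model -/
theorem Pc_split [CompleteSpace E] {a R N : ℝ} {u : ℂ → E} (h : HC a R N u) (ha : 0 < a) (z : ℂ)
    {k : ℂ} (hk : ‖k‖ ≤ 1) :
    Pc u (z + k) = (∫ ζ, ker (ζ + k) • G u z ζ) + (starRingEnd ℂ) k • u z := by
  have hi1 : Integrable fun ζ => ker (ζ + k) • u (z - ζ) :=
    int_ker (h.cont ha) (compact_of h.supp) z k
  have hi2 : Integrable fun ζ => ker (ζ + k) * psi (-ζ) := by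
    have := int_ker psi_spec.1.cont psi_spec.1.compact 0 k
    refine this.congr (Eventually.of_forall fun ζ => ?_)
    simp
  have e : ∀ ζ, ker (ζ + k) • G u z ζ = ker (ζ + k) • u (z - ζ) - (ker (ζ + k) * psi (-ζ)) • u z := by
    intro ζ
    unfold G
    rw [smul_sub, mul_smul]
  simp_rw [e]
  rw [integral_sub hi1 (hi2.smul_const (u z)), integral_smul_const, ← bb_eq,
    psi_spec.2.2.2.1 k hk, Pc_shift]
  abel

theorem int_kerG {a R N : ℝ} {u : ℂ → E} (h : HC a R N u) (ha : 0 < a) (z k : ℂ) :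
    Integrable fun ζ => ker (ζ + k) • G u z ζ := by
  have hs := compact_of (G_supp h.supp z)
  have hs' : HasCompactSupport fun ζ => G u z (-ζ) := by
    exact hs.comp_homeomorph (Homeomorph.neg ℂ)
  have := int_ker (u := fun ζ => G u z (-ζ)) ((G_cont (h.cont ha) z).comp continuous_neg) hs' 0 k
  refine this.congr (Eventually.of_forall fun ζ => ?_)
  simp

/-- the remainder identity -/
theorem rem_eq {ζ k : ℂ} (h0 : ζ ≠ 0) (h1 : ζ + k ≠ 0) :
    ker (ζ + k) - ker ζ + k * ((π:ℂ)⁻¹ * (ζ ^ 2)⁻¹)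
      = (π:ℂ)⁻¹ * (k ^ 2 * ((ζ ^ 2)⁻¹ * (ζ + k)⁻¹)) := by
  unfold ker
  have hp : (π : ℂ) ≠ 0 := by exact_mod_cast Real.pi_ne_zero
  field_simp
  ring

theorem taylor_small [CompleteSpace E] {a R N : ℝ} {u : ℂ → E} (h : HC a R N u) (ha : 0 < a)
    (ha1 : a < 1) (hR : 0 ≤ R) (z : ℂ) {k : ℂ} (hk : ‖k‖ ≤ 1) :
    ‖Pc u (z + k) - Pc u z - (k • Tu u z + (starRingEnd ℂ) k • u z)‖
      ≤ π⁻¹ * (Nc a R * N) * Ja a * ‖k‖ ^ (1 + a) := by
  have hN := h.nonneg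
  have hNc := Nc_nonneg (a := a) hR
  have hJ := Ja_nonneg a
  by_cases hk0 : k = 0
  · subst hk0
    simp only [add_zero, sub_self, zero_smul, map_zero, norm_zero]
    positivity
  have hp : 0 < ‖k‖ := norm_pos_iff.2 hk0
  have e1 := Pc_split h ha z hk
  have e2 := Pc_split h ha z (k := 0) (by simp)
  rw [add_zero] at e2
  have i1 := int_kerG h ha z k
  have i2 := int_kerG h ha z 0
  have i3 : Integrable fun ζ => k • (((π:ℂ)⁻¹ * (ζ ^ 2)⁻¹) • G u z ζ) :=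
    (T_int h ha hR z).smul k
  have i12 : Integrable fun ζ => ker (ζ + k) • G u z ζ - ker (ζ + 0) • G u z ζ := i1.sub i2
  have e3 : Pc u (z + k) - Pc u z - (k • Tu u z + (starRingEnd ℂ) k • u z)
      = ∫ ζ, (ker (ζ + k) • G u z ζ - ker (ζ + 0) • G u z ζ
        + k • (((π:ℂ)⁻¹ * (ζ ^ 2)⁻¹) • G u z ζ)) := by
    rw [integral_add i12 i3, integral_sub i1 i2, e1, e2, integral_smul, Tu, smul_neg, map_zero,
      zero_smul]
    abel
  rw [e3]
  have hdom : ∀ᵐ ζ : ℂ, ‖ker (ζ + k) • G u z ζ - ker (ζ + 0) • G u z ζ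
        + k • (((π:ℂ)⁻¹ * (ζ ^ 2)⁻¹) • G u z ζ)‖
        ≤ π⁻¹ * (Nc a R * N) * ‖k‖ ^ 2 * (‖ζ‖ ^ (a - 2) * ‖ζ - (-k)‖⁻¹) := by
    have h0 : ∀ᵐ ζ : ℂ, ζ ≠ 0 := by simp [ae_iff]
    have h1 : ∀ᵐ ζ : ℂ, ζ ≠ -k := by simp [ae_iff]
    filter_upwards [h0, h1] with ζ hζ0 hζ1
    have hζk : ζ + k ≠ 0 := fun h => hζ1 (eq_neg_of_add_eq_zero_left h)
    have e : ker (ζ + k) • G u z ζ - ker (ζ + 0) • G u z ζ
        + k • (((π:ℂ)⁻¹ * (ζ ^ 2)⁻¹) • G u z ζ)
        = ((π:ℂ)⁻¹ * (k ^ 2 * ((ζ ^ 2)⁻¹ * (ζ + k)⁻¹))) • G u z ζ := by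
      rw [← rem_eq hζ0 hζk, add_zero, add_smul, sub_smul, smul_smul]
    have hq : 0 < ‖ζ‖ := norm_pos_iff.2 hζ0
    rw [e, norm_smul, sub_neg_eq_add]
    have e4 : ‖(π:ℂ)⁻¹ * (k ^ 2 * ((ζ ^ 2)⁻¹ * (ζ + k)⁻¹))‖
        = π⁻¹ * (‖k‖ ^ 2 * ((‖ζ‖ ^ 2)⁻¹ * ‖ζ + k‖⁻¹)) := by
      simp [abs_of_pos Real.pi_pos]
    rw [e4]
    calc π⁻¹ * (‖k‖ ^ 2 * ((‖ζ‖ ^ 2)⁻¹ * ‖ζ + k‖⁻¹)) * ‖G u z ζ‖
        ≤ π⁻¹ * (‖k‖ ^ 2 * ((‖ζ‖ ^ 2)⁻¹ * ‖ζ + k‖⁻¹)) * (Nc a R * N * ‖ζ‖ ^ a) :=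
          mul_le_mul_of_nonneg_left (G_le h ha hR z ζ) (by positivity)
      _ = π⁻¹ * (Nc a R * N) * ‖k‖ ^ 2 * (‖ζ‖ ^ (a - 2) * ‖ζ + k‖⁻¹) := by
          rw [show a - 2 = a + (-2) by ring, Real.rpow_add hq,
            show ‖ζ‖ ^ (-2:ℝ) = (‖ζ‖ ^ 2)⁻¹ by
              rw [Real.rpow_neg hq.le]; norm_num]
          ring
  have hk' : -k ≠ 0 := neg_ne_zero.2 hk0
  have hint := (int_Jh ha ha1 hk').const_mul (π⁻¹ * (Nc a R * N) * ‖k‖ ^ 2)
  refine (norm_integral_le_of_norm_le hint hdom).trans ?_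
  rw [integral_const_mul, Jh_eq hk', norm_neg]
  have e5 : ‖k‖ ^ (1 + a) = ‖k‖ ^ 2 * ‖k‖ ^ (a - 1) := by
    rw [← Real.rpow_natCast, ← Real.rpow_add hp]; congr 1; push_cast; ring
  rw [e5]
  apply le_of_eq; ring

/-- sup bound -/
theorem Pc_le {a R N : ℝ} {u : ℂ → E} (h : HC a R N u) (ha : 0 < a) (hR : 0 ≤ R) (z : ℂ) :
    ‖Pc u z‖ ≤ CP R * Mc a R * N := by
  set M : ℝ := N * Mc a R with hM
  have hb : ∀ z, ‖u z‖ ≤ M := h.bound hR
  have hc := h.cont ha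
  have hM0 : 0 ≤ M := (norm_nonneg _).trans (hb 0)
  have hiu : Integrable u := hc.integrable_of_hasCompactSupport (compact_of h.supp)
  have hi1 : Integrable ((ball (0:ℂ) 1).indicator fun ζ => ‖ker ζ‖ * M) := by
    rw [integrable_indicator_iff measurableSet_ball]
    exact ((integrableOn_ker 1).norm).mul_const M
  have hi2 : Integrable fun ζ => π⁻¹ * ‖u (z - ζ)‖ :=
    ((hiu.comp_sub_left z).norm).const_mul _
  have hle : ∀ ζ, ‖ker ζ • u (z - ζ)‖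
      ≤ (ball (0:ℂ) 1).indicator (fun ζ => ‖ker ζ‖ * M) ζ + π⁻¹ * ‖u (z - ζ)‖ := by
    intro ζ
    rw [norm_smul]
    by_cases hζ : ζ ∈ ball (0:ℂ) 1
    · rw [indicator_of_mem hζ]
      have h1 : ‖ker ζ‖ * ‖u (z - ζ)‖ ≤ ‖ker ζ‖ * M :=
        mul_le_mul_of_nonneg_left (hb _) (norm_nonneg _)
      have h2 : 0 ≤ π⁻¹ * ‖u (z - ζ)‖ := by positivity
      linarith
    · rw [indicator_of_notMem hζ, zero_add]
      apply mul_le_mul_of_nonneg_right _ (norm_nonneg _)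
      rw [norm_ker]
      have h1 : 1 ≤ ‖ζ‖ := by simpa using hζ
      have h2 : ‖ζ‖⁻¹ ≤ 1 := inv_le_one_of_one_le₀ h1
      have : π⁻¹ * ‖ζ‖⁻¹ ≤ π⁻¹ * 1 := mul_le_mul_of_nonneg_left h2 (by positivity)
      linarith
  calc ‖Pc u z‖ ≤ ∫ ζ, ((ball (0:ℂ) 1).indicator (fun ζ => ‖ker ζ‖ * M) ζ
        + π⁻¹ * ‖u (z - ζ)‖) :=
        norm_integral_le_of_norm_le (hi1.add hi2) (Eventually.of_forall hle)
    _ = IK 1 * M + π⁻¹ * ∫ ζ, ‖u ζ‖ := by
        rw [integral_add hi1 hi2, integral_indicator measurableSet_ball, integral_mul_const,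
          integral_const_mul, integral_sub_left_eq_self (fun ζ => ‖u ζ‖) volume z]
        rfl
    _ ≤ IK 1 * M + π⁻¹ * (Vo R * M) := by
        have := mul_le_mul_of_nonneg_left (int_norm_le' h.supp hc hb) (inv_nonneg.2 Real.pi_pos.le)
        linarith
    _ = CP R * Mc a R * N := by rw [hM]; unfold CP Vo; ring

/-- the real derivative of `Pc u`: `k ↦ k T + k̄ u` -/
def DP (u : ℂ → E) (z : ℂ) : ℂ →L[ℝ] E :=
  (ContinuousLinearMap.id ℝ ℂ).smulRight (Tu u z) +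
    (Complex.conjCLE.toContinuousLinearMap).smulRight (u z)

end Main

end

end Crest.Agent.R235.KP_133
end

-- ▼ part R235/NWKP_133

/-!
Row 235, package NW, leaf K, part 2 (helper133): the Cauchy transform `Pc : C^a_c → C^{1,a}`.
* `pc_hasFDerivAt`, `pc_hb`, `dp_hb`
* `liouville` : `∂̄u = 0`, `u → 0` at infinity `⇒ u = 0`
* `kp_stmt : KPStmt`
* `fderiv_Pc : D (Pc g) = Pc (D g)` for `g ∈ C¹_c`
-/

set_option autoImplicit false
set_option linter.unusedSectionVars false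

open MeasureTheory Set Metric Topology
open Filter hiding ker
open scoped ContDiff Real

namespace Crest.Agent.R235.NWKP_133

open Crest.Agent.R096.BelA_205 (ker norm_ker P CP CP_nonneg locallyIntegrable_ker)
open Crest.Agent.R235.KP_133 Crest.Agent.R235.NWDefs_334 Crest.Agent.R235.NWIface_334

noncomputable section

section Taylor

variable {V E : Type*} [NormedAddCommGroup V] [NormedSpace ℝ V] [NormedAddCommGroup E]
  [NormedSpace ℝ E]

/-- a uniform Taylor estimate gives differentiability -/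
theorem taylor_hasFDerivAt {w : V → E} {A : V → V →L[ℝ] E} {K a : ℝ} (ha : 0 < a)
    (h : ∀ z k, ‖w (z + k) - w z - A z k‖ ≤ K * ‖k‖ ^ (1 + a)) (z : V) :
    HasFDerivAt w (A z) z := by
  rw [hasFDerivAt_iff_isLittleO_nhds_zero]
  refine Asymptotics.IsLittleO.of_bound fun c hc => ?_
  have h1 : Tendsto (fun k : V => |K| * ‖k‖ ^ a) (𝓝 0) (𝓝 (|K| * ‖(0:V)‖ ^ a)) := by
    apply Tendsto.const_mul
    apply Tendsto.rpow_const
    · exact continuous_norm.tendsto 0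
    · right; exact ha.le
  rw [norm_zero, Real.zero_rpow ha.ne', mul_zero] at h1
  filter_upwards [h1.eventually (gt_mem_nhds hc)] with k hk
  have h2 := h z k
  have h3 : ‖k‖ ^ (1 + a) = ‖k‖ * ‖k‖ ^ a := by
    by_cases hk0 : ‖k‖ = 0
    · rw [hk0, Real.zero_rpow (by linarith), zero_mul]
    · rw [Real.rpow_add (lt_of_le_of_ne (norm_nonneg _) (Ne.symm hk0)), Real.rpow_one]
  rw [h3] at h2
  have h4 : K * (‖k‖ * ‖k‖ ^ a) ≤ (|K| * ‖k‖ ^ a) * ‖k‖ := by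
    have : K * (‖k‖ * ‖k‖ ^ a) ≤ |K| * (‖k‖ * ‖k‖ ^ a) :=
      mul_le_mul_of_nonneg_right (le_abs_self _) (by positivity)
    linarith
  have h5 : (|K| * ‖k‖ ^ a) * ‖k‖ ≤ c * ‖k‖ := mul_le_mul_of_nonneg_right hk.le (norm_nonneg _)
  linarith

/-- a uniform Taylor estimate makes the derivative Hölder -/
theorem taylor_holder {w : V → E} {A : V → V →L[ℝ] E} {K a : ℝ} (ha : 0 < a) (ha1 : a ≤ 1)
    (hK : 0 ≤ K) (h : ∀ z k, ‖w (z + k) - w z - A z k‖ ≤ K * ‖k‖ ^ (1 + a)) (z z' : V) :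
    ‖A z - A z'‖ ≤ 6 * K * ‖z - z'‖ ^ a := by
  by_cases hzz : z = z'
  · subst hzz; simp; positivity
  set δ : ℝ := ‖z - z'‖ with hδ
  have hδ0 : 0 < δ := norm_pos_iff.2 (sub_ne_zero.2 hzz)
  have hp : (2 * δ) ^ (1 + a) ≤ 4 * δ ^ (1 + a) := by
    rw [Real.mul_rpow (by norm_num) hδ0.le]
    apply mul_le_mul_of_nonneg_right _ (by positivity)
    calc (2:ℝ) ^ (1 + a) ≤ 2 ^ (2:ℝ) :=
          Real.rpow_le_rpow_of_exponent_le (by norm_num) (by linarith)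
      _ = 4 := by norm_num
  have key : ∀ k : V, ‖k‖ = δ → ‖(A z - A z') k‖ ≤ 6 * K * δ ^ (1 + a) := by
    intro k hk
    have e1 := h z ((z' - z) + k)
    have e2 := h z' k
    have e3 := h z (z' - z)
    rw [hk] at e2
    rw [norm_sub_rev z' z, ← hδ] at e3
    have e4 : ‖(z' - z) + k‖ ≤ 2 * δ := by
      calc ‖(z' - z) + k‖ ≤ ‖z' - z‖ + ‖k‖ := norm_add_le _ _
        _ = 2 * δ := by rw [norm_sub_rev, hk, ← hδ]; ring
    have e5 : K * ‖(z' - z) + k‖ ^ (1 + a) ≤ 4 * K * δ ^ (1 + a) := by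
      have : ‖(z' - z) + k‖ ^ (1 + a) ≤ (2 * δ) ^ (1 + a) :=
        Real.rpow_le_rpow (norm_nonneg _) e4 (by linarith)
      calc K * ‖(z' - z) + k‖ ^ (1 + a) ≤ K * (4 * δ ^ (1 + a)) :=
            mul_le_mul_of_nonneg_left (this.trans hp) hK
        _ = 4 * K * δ ^ (1 + a) := by ring
    have e6 : (A z - A z') k = -((w (z + ((z' - z) + k)) - w z - A z ((z' - z) + k))
        - (w (z' + k) - w z' - A z' k) - (w (z + (z' - z)) - w z - A z (z' - z))) := by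
      have i1 : z + ((z' - z) + k) = z' + k := by abel
      have i2 : z + (z' - z) = z' := by abel
      rw [i1, i2, map_add]
      simp only [sub_apply]
      abel
    rw [e6, norm_neg]
    calc _ ≤ ‖w (z + ((z' - z) + k)) - w z - A z ((z' - z) + k)‖ + ‖w (z' + k) - w z' - A z' k‖
          + ‖w (z + (z' - z)) - w z - A z (z' - z)‖ :=
          (norm_sub_le _ _).trans (add_le_add_left (norm_sub_le _ _) _)
      _ ≤ 4 * K * δ ^ (1 + a) + K * δ ^ (1 + a) + K * δ ^ (1 + a) := by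
          gcongr
          exact e1.trans e5
      _ = 6 * K * δ ^ (1 + a) := by ring
  apply ContinuousLinearMap.opNorm_le_bound _ (by positivity)
  intro k
  by_cases hk : k = 0
  · subst hk; simp
  have hk0 : 0 < ‖k‖ := norm_pos_iff.2 hk
  have h1 := key ((δ / ‖k‖) • k) (by
    rw [norm_smul, Real.norm_of_nonneg (by positivity)]; field_simp)
  rw [map_smul, norm_smul, Real.norm_of_nonneg (by positivity), Real.rpow_add hδ0,
    Real.rpow_one] at h1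
  have h2 : ‖(A z - A z') k‖ = (‖k‖ / δ) * (δ / ‖k‖ * ‖(A z - A z') k‖) := by field_simp
  rw [h2]
  calc (‖k‖ / δ) * (δ / ‖k‖ * ‖(A z - A z') k‖) ≤ (‖k‖ / δ) * (6 * K * (δ * δ ^ a)) :=
        mul_le_mul_of_nonneg_left h1 (by positivity)
    _ = 6 * K * δ ^ a * ‖k‖ := by field_simp

end Taylor

section Main

variable {E : Type*} [NormedAddCommGroup E] [NormedSpace ℂ E]

theorem dp_apply (u : ℂ → E) (z k : ℂ) : DP u z k = k • Tu u z + (starRingEnd ℂ) k • u z := by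
  simp [DP]

theorem dbl_dp (u : ℂ → E) (z : ℂ) : dbl (DP u z) = u z := by
  unfold dbl
  rw [dp_apply, dp_apply]
  simp only [one_smul, map_one, Complex.conj_I, smul_add, smul_smul]
  match_scalars <;> first
    | linear_combination (1 / 2) * Complex.I_sq
    | linear_combination (-1 / 2) * Complex.I_sq


theorem dp_norm_le (u : ℂ → E) (z : ℂ) : ‖DP u z‖ ≤ ‖Tu u z‖ + ‖u z‖ := by
  apply ContinuousLinearMap.opNorm_le_bound _ (by positivity)
  intro k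
  rw [dp_apply]
  calc _ ≤ ‖k • Tu u z‖ + ‖(starRingEnd ℂ) k • u z‖ := norm_add_le _ _
    _ = (‖Tu u z‖ + ‖u z‖) * ‖k‖ := by
        rw [norm_smul, norm_smul, RCLike.norm_conj]; ring

/-- the Taylor constant -/
def Kc (a R : ℝ) : ℝ := π⁻¹ * Nc a R * Ja a + 2 * (CP R * Mc a R) + Tc a R + Mc a R

theorem Kc_nonneg {a R : ℝ} (hR : 0 ≤ R) : 0 ≤ Kc a R := by
  have h1 := Mc_nonneg (a := a) hR
  have h2 := Nc_nonneg (a := a) hR
  have h3 := Ja_nonneg a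
  have h4 := CP_nonneg R
  have h5 := Tc_nonneg (a := a) hR
  unfold Kc; positivity

theorem dp_le {a R N : ℝ} {u : ℂ → E} (h : HC a R N u) (ha : 0 < a) (hR : 0 ≤ R) (z : ℂ) :
    ‖DP u z‖ ≤ (Tc a R + Mc a R) * N := by
  have h1 := T_le h ha hR z
  have h2 := h.bound hR z
  have h3 := dp_norm_le u z
  have h4 : N * (2 * R + 1) ^ a = Mc a R * N := by unfold Mc; ring
  linarith

theorem taylor [CompleteSpace E] {a R N : ℝ} {u : ℂ → E} (h : HC a R N u) (ha : 0 < a)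
    (ha1 : a < 1) (hR : 0 ≤ R) (z k : ℂ) :
    ‖Pc u (z + k) - Pc u z - DP u z k‖ ≤ Kc a R * N * ‖k‖ ^ (1 + a) := by
  have hN := h.nonneg
  have h1 := Mc_nonneg (a := a) hR
  have h2 := Nc_nonneg (a := a) hR
  have h3 := Ja_nonneg a
  have h4 := CP_nonneg R
  have h5 := Tc_nonneg (a := a) hR
  by_cases hk : ‖k‖ ≤ 1
  · rw [dp_apply]
    refine (taylor_small h ha ha1 hR z hk).trans ?_
    apply mul_le_mul_of_nonneg_right _ (by positivity)
    have : π⁻¹ * (Nc a R * N) * Ja a = (π⁻¹ * Nc a R * Ja a) * N := by ring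
    rw [this]
    apply mul_le_mul_of_nonneg_right _ hN
    unfold Kc
    have : 0 ≤ 2 * (CP R * Mc a R) := by positivity
    linarith
  · push Not at hk
    have e1 := Pc_le h ha hR (z + k)
    have e2 := Pc_le h ha hR z
    have e3 := (DP u z).le_opNorm k
    have e4 := dp_le h ha hR z
    have e5 : ‖DP u z k‖ ≤ (Tc a R + Mc a R) * N * ‖k‖ :=
      e3.trans (mul_le_mul_of_nonneg_right e4 (norm_nonneg _))
    have e6 : ‖Pc u (z + k) - Pc u z - DP u z k‖ ≤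
        CP R * Mc a R * N + CP R * Mc a R * N + (Tc a R + Mc a R) * N * ‖k‖ :=
      (norm_sub_le _ _).trans (add_le_add ((norm_sub_le _ _).trans (add_le_add e1 e2)) e5)
    have e7 : ‖k‖ ≤ ‖k‖ ^ (1 + a) := by
      calc ‖k‖ = ‖k‖ ^ (1:ℝ) := (Real.rpow_one _).symm
        _ ≤ ‖k‖ ^ (1 + a) := Real.rpow_le_rpow_of_exponent_le hk.le (by linarith)
    have e8 : (1:ℝ) ≤ ‖k‖ ^ (1 + a) := hk.le.trans e7
    have e9 : (CP R * Mc a R * N + CP R * Mc a R * N) * 1 ≤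
        (CP R * Mc a R * N + CP R * Mc a R * N) * ‖k‖ ^ (1 + a) :=
      mul_le_mul_of_nonneg_left e8 (by positivity)
    have e10 : (Tc a R + Mc a R) * N * ‖k‖ ≤ (Tc a R + Mc a R) * N * ‖k‖ ^ (1 + a) :=
      mul_le_mul_of_nonneg_left e7 (by positivity)
    have e11 : 0 ≤ π⁻¹ * Nc a R * Ja a * N * ‖k‖ ^ (1 + a) := by positivity
    calc _ ≤ _ := e6
      _ ≤ (CP R * Mc a R * N + CP R * Mc a R * N) * ‖k‖ ^ (1 + a)
          + (Tc a R + Mc a R) * N * ‖k‖ ^ (1 + a) + π⁻¹ * Nc a R * Ja a * N * ‖k‖ ^ (1 + a) := by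
          linarith
      _ = Kc a R * N * ‖k‖ ^ (1 + a) := by unfold Kc; ring

theorem pc_hasFDerivAt [CompleteSpace E] {a R N : ℝ} {u : ℂ → E} (h : HC a R N u) (ha : 0 < a)
    (ha1 : a < 1) (hR : 0 ≤ R) (z : ℂ) : HasFDerivAt (Pc u) (DP u z) z :=
  taylor_hasFDerivAt ha (taylor h ha ha1 hR) z

theorem dp_holder [CompleteSpace E] {a R N : ℝ} {u : ℂ → E} (h : HC a R N u) (ha : 0 < a)
    (ha1 : a < 1) (hR : 0 ≤ R) (z z' : ℂ) :
    ‖DP u z - DP u z'‖ ≤ 6 * (Kc a R * N) * ‖z - z'‖ ^ a :=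
  taylor_holder ha ha1.le (mul_nonneg (Kc_nonneg hR) h.nonneg) (taylor h ha ha1 hR) z z'

theorem pc_lip [CompleteSpace E] {a R N : ℝ} {u : ℂ → E} (h : HC a R N u) (ha : 0 < a)
    (ha1 : a < 1) (hR : 0 ≤ R) (z z' : ℂ) :
    ‖Pc u z - Pc u z'‖ ≤ (Tc a R + Mc a R) * N * ‖z - z'‖ := by
  have := Convex.norm_image_sub_le_of_norm_hasFDerivWithin_le (𝕜 := ℝ) (f := Pc u) (s := univ)
    (f' := DP u) (C := (Tc a R + Mc a R) * N) (x := z') (y := z)
    (fun x _ => (pc_hasFDerivAt h ha ha1 hR x).hasFDerivWithinAt)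
    (fun x _ => dp_le h ha hR x) convex_univ (mem_univ _) (mem_univ _)
  exact this

/-- the constant of the theorem -/
def KK (a R : ℝ) : ℝ := 6 * Kc a R + 2 * (CP R * Mc a R) + (Tc a R + Mc a R)

theorem KK_nonneg {a R : ℝ} (hR : 0 ≤ R) : 0 ≤ KK a R := by
  have h1 := Mc_nonneg (a := a) hR
  have h2 := Kc_nonneg (a := a) hR
  have h4 := CP_nonneg R
  have h5 := Tc_nonneg (a := a) hR
  unfold KK; positivity

theorem pc_hb [CompleteSpace E] {a R N : ℝ} {u : ℂ → E} (h : HC a R N u) (ha : 0 < a)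
    (ha1 : a < 1) (hR : 0 ≤ R) : HB a (KK a R * N) (Pc u) := by
  have hN := h.nonneg
  have h1 := Mc_nonneg (a := a) hR
  have h2 := Kc_nonneg (a := a) hR
  have h4 := CP_nonneg R
  have h5 := Tc_nonneg (a := a) hR
  have e := NWHol_952.hb_lip ha ha1.le (Pc_le h ha hR) (L := (Tc a R + Mc a R) * N)
    (fun x y => by rw [dist_eq_norm]; exact pc_lip h ha ha1 hR x y)
  rw [max_eq_left (by positivity)] at e
  refine NWHol_952.HB.mono e ?_
  unfold KK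
  have : 0 ≤ 6 * Kc a R * N := by positivity
  nlinarith

theorem dp_hb [CompleteSpace E] {a R N : ℝ} {u : ℂ → E} (h : HC a R N u) (ha : 0 < a)
    (ha1 : a < 1) (hR : 0 ≤ R) : HB a (KK a R * N) (DP u) := by
  have hN := h.nonneg
  have h1 := Mc_nonneg (a := a) hR
  have h2 := Kc_nonneg (a := a) hR
  have h4 := CP_nonneg R
  have h5 := Tc_nonneg (a := a) hR
  refine ⟨fun z => (dp_le h ha hR z).trans ?_, fun z z' => (dp_holder h ha ha1 hR z z').trans ?_⟩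
  · unfold KK
    have : 0 ≤ (6 * Kc a R + 2 * (CP R * Mc a R)) * N := by positivity
    nlinarith
  · rw [dist_eq_norm]
    apply mul_le_mul_of_nonneg_right _ (by positivity)
    unfold KK
    have : 0 ≤ (2 * (CP R * Mc a R) + (Tc a R + Mc a R)) * N := by positivity
    nlinarith

/-! ### decay and uniqueness -/

theorem pc_decay {R : ℝ} {u : ℂ → E} (hc : Continuous u) (hs : ∀ z, R < ‖z‖ → u z = 0)
    (hR : 0 < R) {z : ℂ} (hz : 2 * R ≤ ‖z‖) :
    ‖Pc u z‖ ≤ 2 * π⁻¹ * (∫ ζ, ‖u ζ‖) * ‖z‖⁻¹ := by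
  have hiu : Integrable u := hc.integrable_of_hasCompactSupport (compact_of hs)
  have hzpos : 0 < ‖z‖ := by linarith
  have e : Pc u z = ∫ ζ, ker (z - ζ) • u ζ := by
    unfold Pc
    rw [← integral_sub_left_eq_self (fun ζ => ker (z - ζ) • u ζ) volume z]
    simp
  rw [e]
  have hle : ∀ ζ, ‖ker (z - ζ) • u ζ‖ ≤ (2 * π⁻¹ * ‖z‖⁻¹) * ‖u ζ‖ := by
    intro ζ
    rw [norm_smul]
    by_cases hζ : R < ‖ζ‖
    · rw [hs ζ hζ]; simp
    push Not at hζ
    apply mul_le_mul_of_nonneg_right _ (norm_nonneg _)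
    rw [norm_ker]
    have h1 : ‖z‖ / 2 ≤ ‖z - ζ‖ := by
      have := norm_sub_norm_le z ζ
      linarith
    calc π⁻¹ * ‖z - ζ‖⁻¹ ≤ π⁻¹ * (‖z‖ / 2)⁻¹ :=
          mul_le_mul_of_nonneg_left (inv_anti₀ (by positivity) h1) (by positivity)
      _ = 2 * π⁻¹ * ‖z‖⁻¹ := by rw [inv_div]; ring
  refine (norm_integral_le_of_norm_le (hiu.norm.const_mul _) (Eventually.of_forall hle)).trans ?_
  rw [integral_const_mul]
  apply le_of_eq; ring

theorem pc_tendsto {R : ℝ} {u : ℂ → E} (hc : Continuous u) (hs : ∀ z, R < ‖z‖ → u z = 0) :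
    Tendsto (Pc u) (cocompact ℂ) (𝓝 0) := by
  set R' := max R 1 with hR'
  have hR0 : 0 < R' := by positivity
  have hs' : ∀ z, R' < ‖z‖ → u z = 0 := fun z hz => hs z ((le_max_left _ _).trans_lt hz)
  have h1 : Tendsto (fun z : ℂ => 2 * π⁻¹ * (∫ ζ, ‖u ζ‖) * ‖z‖⁻¹) (cocompact ℂ) (𝓝 0) := by
    have := (tendsto_inv_atTop_zero.comp (tendsto_norm_cocompact_atTop (E := ℂ))).const_mul
      (2 * π⁻¹ * (∫ ζ, ‖u ζ‖))
    simpa using this
  refine squeeze_zero_norm' ?_ h1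
  have h2 := (tendsto_norm_cocompact_atTop (E := ℂ)).eventually (eventually_ge_atTop (2 * R'))
  filter_upwards [h2] with z hz
  exact pc_decay hc hs' hR0 hz


/-! ### the two statements -/

theorem P_eq_Pc (g : ℂ → ℂ) : P g = Pc g := by
  funext z
  unfold P Pc
  simp only [smul_eq_mul]

theorem kp_stmt : KPStmt := by
  intro a ha ha1 R hR
  refine ⟨KK a R, KK_nonneg hR.le, fun g M hg hs => ?_⟩
  have h : HC a R M g := ⟨hs, fun z w => by rw [← dist_eq_norm z w]; exact hg.hol z w⟩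
  rw [P_eq_Pc]
  have hd := pc_hasFDerivAt h ha ha1 hR.le
  have hf : fderiv ℝ (Pc g) = DP g := funext fun z => (hd z).fderiv
  have hdp := dp_hb h ha ha1 hR.le
  refine ⟨?_, fun z => ?_, pc_hb h ha ha1 hR.le, ?_⟩
  · rw [contDiff_one_iff_fderiv, hf]
    exact ⟨fun z => (hd z).differentiableAt, NWHol_952.HB.continuous ha hdp⟩
  · unfold dzb
    rw [hf]; exact dbl_dp g z
  · rw [hf]; exact hdp

end Main

theorem pc_add {E : Type*} [NormedAddCommGroup E] [NormedSpace ℂ E] {u v : ℂ → E}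
    (hu : Continuous u) (hv : Continuous v) (hus : HasCompactSupport u)
    (hvs : HasCompactSupport v) (z : ℂ) : Pc (fun z => u z + v z) z = Pc u z + Pc v z := by
  have h1 := int_ker hu hus z 0
  have h2 := int_ker hv hvs z 0
  simp only [add_zero] at h1 h2
  unfold Pc
  rw [← integral_add h1 h2]
  congr 1; ext ζ; rw [smul_add]

theorem pc_smul {E : Type*} [NormedAddCommGroup E] [NormedSpace ℂ E] (c : ℝ) (u : ℂ → E) (z : ℂ) :
    Pc (fun z => c • u z) z = c • Pc u z := by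
  unfold Pc
  rw [← integral_smul]
  congr 1; ext ζ; rw [smul_comm]

/-- the product of a cut-off and a Hölder function is `HC` -/
theorem hc_mul {E : Type*} [NormedAddCommGroup E] [NormedSpace ℂ E] {a R : ℝ} {χ : ℂ → ℝ}
    {X M : ℝ} (hX : HB a X χ) (hs : ∀ z, R < ‖z‖ → χ z = 0) {g : ℂ → E} (hg : HB a M g) :
    HC a R (2 * X * M) (fun z => χ z • g z) := by
  have hX0 : 0 ≤ X := NWHol_952.HB.nonneg hX
  have hM0 : 0 ≤ M := NWHol_952.HB.nonneg hg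
  have h1 := NWHol_952.HB.bilin (ContinuousLinearMap.lsmul ℝ ℝ : ℝ →L[ℝ] E →L[ℝ] E) hX0
    hM0 hX hg
  refine ⟨fun z hz => by simp [hs z hz], fun z w => ?_⟩
  have h2 := h1.hol z w
  rw [dist_eq_norm] at h2
  refine h2.trans ?_
  apply mul_le_mul_of_nonneg_right _ (by positivity)
  have h3 : ‖(ContinuousLinearMap.lsmul ℝ ℝ : ℝ →L[ℝ] E →L[ℝ] E)‖ ≤ 1 :=
    ContinuousLinearMap.opNorm_lsmul_le
  have h4 : 0 ≤ X * M := by positivity
  nlinarith

/-- a smooth compactly supported function is `HB` -/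
theorem hb_of_smooth {a : ℝ} (ha : 0 < a) (ha1 : a ≤ 1) {F : Type*} [NormedAddCommGroup F]
    [NormedSpace ℝ F] {χ : ℂ → F} (h : ContDiff ℝ 1 χ) (hc : HasCompactSupport χ) :
    ∃ X, HB a X χ := by
  obtain ⟨M, hM⟩ := hc.exists_bound_of_continuous h.continuous
  obtain ⟨L, hL⟩ := (hc.fderiv ℝ).exists_bound_of_continuous (h.continuous_fderiv (by norm_num))
  refine ⟨_, NWHol_952.hb_lip ha ha1 hM (L := L) fun x y => ?_⟩
  rw [dist_eq_norm]
  exact Convex.norm_image_sub_le_of_norm_fderiv_le (𝕜 := ℝ) (s := univ)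
    (fun x _ => (h.differentiable (by norm_num)) x) (fun x _ => hL x) convex_univ
    (mem_univ _) (mem_univ _)

/-- support in a ball -/
theorem supp_ball {F : Type*} [NormedAddCommGroup F] {χ : ℂ → F} (hc : HasCompactSupport χ) :
    ∃ R : ℝ, 0 < R ∧ ∀ z, R < ‖z‖ → χ z = 0 := by
  obtain ⟨R, hR⟩ := hc.isCompact.isBounded.subset_closedBall 0
  refine ⟨max R 1, by positivity, fun z hz => ?_⟩
  apply image_eq_zero_of_notMem_tsupport
  intro h
  have := hR h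
  rw [mem_closedBall, dist_zero_right] at this
  have := (le_max_left R 1)
  linarith



end

end Crest.Agent.R235.NWKP_133
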