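import Crest.Agent.R235.NWHol_952
import Crest.Agent.R235.NWKP_133

-- ▼ part R235/NWC1_952
section

/-!
# Row 235, package NW, leaf H1 (helper952): the Hölder library, part 2 (`C1a a G E`)

* calculus through isometric embeddings with closed range: `hasFDerivAt_of_isometry`,
  `contDiffOn_of_isometry`, `contDiff_of_isometry`, `contDiffAt_of_isometry`;
* `CS a G E` (opaque type) = Banach space of `C¹` maps with `u`, `Du` bounded `a`-Hölder;
  `CS.val`, `CS.der` (CLMs), `w.fn`, `w.hasFDerivAt`, `CS.ext`, `CS.norm_eq`, `CompleteSpace`,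
  `CS.mk`, `CS.mkH`, `CS.lift` (CLM into `CS`), `CS.cl`, `CS.bl` (product rule), `CS.pair`,
  `CS.cst`, `CS.contDiff_iff`, `CS.contDiffAt_iff`, `CS.contDiffOn_iff`, `CS.hasFDerivAt_iff`,
  `CS.exists_hasFDerivAt`.
-/

set_option autoImplicit false
set_option linter.unusedSectionVars false

open Filter Topology Set
open scoped BoundedContinuousFunction ContDiff
open Crest.Agent.R235.NWDefs_334 Crest.Agent.R235.NWHol_952

namespace Crest.Agent.R235.NWC1_952

noncomputable section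

universe u v w z

/-! ### calculus through an isometric embedding with closed range -/

section iso

variable {Z V W : Type*} [NormedAddCommGroup Z] [NormedSpace ℝ Z] [NormedAddCommGroup V]
  [NormedSpace ℝ V] [NormedAddCommGroup W] [NormedSpace ℝ W]









end iso

/-! ### the space `CS a G E` -/

variable {a : ℝ} {G : Type u} [NormedAddCommGroup G] [NormedSpace ℝ G] {E : Type v}
  [NormedAddCommGroup E] [NormedSpace ℝ E] {F : Type w} [NormedAddCommGroup F] [NormedSpace ℝ F]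
  {H : Type z} [NormedAddCommGroup H] [NormedSpace ℝ H]

/-- the pairs `(u, Du)` -/
def CSub (a : ℝ) (G : Type u) (E : Type v) [NormedAddCommGroup G] [NormedSpace ℝ G]
    [NormedAddCommGroup E] [NormedSpace ℝ E] :
    Submodule ℝ (HS a G E × HS a G (G →L[ℝ] E)) where
  carrier := {q | ∀ x, HasFDerivAt q.1.fn (q.2.fn x) x}
  add_mem' := by
    rintro p q hp hq x
    exact (hp x).add (hq x)
  zero_mem' := by
    intro x
    exact hasFDerivAt_const (0 : E) x
  smul_mem' := by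
    intro c q hq x
    exact (hq x).const_smul c

theorem isClosed_CSub : IsClosed (CSub a G E : Set (HS a G E × HS a G (G →L[ℝ] E))) := by
  refine isSeqClosed_iff_isClosed.1 ?_
  intro q q0 hq hlim
  have l1 : Tendsto (fun n => (q n).1) atTop (𝓝 q0.1) :=
    (continuous_fst.tendsto q0).comp hlim
  have l2 : Tendsto (fun n => (q n).2) atTop (𝓝 q0.2) :=
    (continuous_snd.tendsto q0).comp hlim
  have k2 : TendstoUniformly (fun n => (q n).2.fn) q0.2.fn atTop := by
    have h1 : Tendsto (fun n => HS.toB (q n).2) atTop (𝓝 (HS.toB q0.2)) :=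
      (HS.toB.continuous.tendsto q0.2).comp l2
    exact BoundedContinuousFunction.tendsto_iff_tendstoUniformly.1 h1
  exact hasFDerivAt_of_tendstoUniformly k2 (fun n x => hq n x)
    fun x => ((HS.ev x).continuous.tendsto q0.1).comp l1

/-- THE BANACH SPACE of `C¹` maps with bounded `a`-Hölder `u`, `Du` (opaque type) -/
def CS (a : ℝ) (G : Type u) (E : Type v) [NormedAddCommGroup G] [NormedSpace ℝ G]
    [NormedAddCommGroup E] [NormedSpace ℝ E] : Type (max u v) := ↥(CSub a G E)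

instance CS.instNACG : NormedAddCommGroup (CS a G E) :=
  inferInstanceAs (NormedAddCommGroup ↥(CSub a G E))

instance CS.instNS : NormedSpace ℝ (CS a G E) := inferInstanceAs (NormedSpace ℝ ↥(CSub a G E))

instance CS.instCompleteSpace [CompleteSpace E] : CompleteSpace (CS a G E) :=
  (isClosed_CSub (a := a) (G := G) (E := E)).completeSpace_coe

namespace CS

/-- the inclusion -/
def incl : CS a G E →ₗᵢ[ℝ] (HS a G E × HS a G (G →L[ℝ] E)) := (CSub a G E).subtypeₗᵢ

/-- the underlying Hölder function -/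
def val : CS a G E →L[ℝ] HS a G E :=
  (ContinuousLinearMap.fst ℝ (HS a G E) (HS a G (G →L[ℝ] E))).comp
    (incl (a := a) (G := G) (E := E)).toContinuousLinearMap

/-- the derivative -/
def der : CS a G E →L[ℝ] HS a G (G →L[ℝ] E) :=
  (ContinuousLinearMap.snd ℝ (HS a G E) (HS a G (G →L[ℝ] E))).comp
    (incl (a := a) (G := G) (E := E)).toContinuousLinearMap

/-- the underlying function -/
def fn (w : CS a G E) : G → E := (val w).fn

@[simp] theorem fn_val (w : CS a G E) : (val w).fn = fn w := rfl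

protected theorem hasFDerivAt (w : CS a G E) (x : G) : HasFDerivAt w.fn ((der w).fn x) x := w.2 x

protected theorem fderiv (w : CS a G E) (x : G) : fderiv ℝ w.fn x = (der w).fn x :=
  (w.hasFDerivAt x).fderiv

theorem fn_der (w : CS a G E) : (der w).fn = fderiv ℝ w.fn := funext fun x => (w.fderiv x).symm

protected theorem differentiable (w : CS a G E) : Differentiable ℝ w.fn := fun x =>
  (w.hasFDerivAt x).differentiableAt

protected theorem continuous (w : CS a G E) : Continuous w.fn := (val w).continuous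

protected theorem contDiff (w : CS a G E) : ContDiff ℝ 1 w.fn := by
  rw [contDiff_one_iff_fderiv]
  refine ⟨w.differentiable, ?_⟩
  rw [← fn_der]
  exact (der w).continuous

@[simp] theorem fn_add (u v : CS a G E) (x : G) : (u + v).fn x = u.fn x + v.fn x := rfl
@[simp] theorem fn_sub (u v : CS a G E) (x : G) : (u - v).fn x = u.fn x - v.fn x := rfl
@[simp] theorem fn_neg (u : CS a G E) (x : G) : (-u).fn x = -u.fn x := rfl
@[simp] theorem fn_zero (x : G) : (0 : CS a G E).fn x = 0 := rfl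
@[simp] theorem fn_smul (c : ℝ) (u : CS a G E) (x : G) : (c • u).fn x = c • u.fn x := rfl

theorem ext' {u v : CS a G E} (h1 : val u = val v) (h2 : der u = der v) : u = v :=
  Subtype.ext (Prod.ext h1 h2)

protected theorem ext {u v : CS a G E} (h : ∀ x, u.fn x = v.fn x) : u = v := by
  have h0 : u.fn = v.fn := funext h
  refine ext' (HS.ext h) (HS.ext fun x => ?_)
  rw [← CS.fderiv, ← CS.fderiv, h0]


theorem norm_val_le (w : CS a G E) : ‖val w‖ ≤ ‖w‖ := le_max_left _ _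

theorem norm_der_le (w : CS a G E) : ‖der w‖ ≤ ‖w‖ := le_max_right _ _

theorem norm_fn_le (w : CS a G E) (x : G) : ‖w.fn x‖ ≤ ‖w‖ :=
  (HS.norm_fn_le (val w) x).trans (norm_val_le w)



theorem hb (w : CS a G E) : HB a ‖w‖ w.fn := HB.mono (HS.hb (val w)) (norm_val_le w)



protected theorem norm_le {w : CS a G E} {M : ℝ} (hM : 0 ≤ M) (h1 : HB a M w.fn)
    (h2 : HB a M (der w).fn) : ‖w‖ ≤ M :=
  max_le (HS.norm_le hM h1) (HS.norm_le hM h2)

/-- constructor from two elements of `HS` -/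
def mkH (u : HS a G E) (u' : HS a G (G →L[ℝ] E))
    (h : ∀ x, HasFDerivAt u.fn (u'.fn x) x) : CS a G E := ⟨(u, u'), h⟩

@[simp] theorem val_mkH (u : HS a G E) (u' : HS a G (G →L[ℝ] E))
    (h : ∀ x, HasFDerivAt u.fn (u'.fn x) x) : val (mkH u u' h) = u := rfl

@[simp] theorem der_mkH (u : HS a G E) (u' : HS a G (G →L[ℝ] E))
    (h : ∀ x, HasFDerivAt u.fn (u'.fn x) x) : der (mkH u u' h) = u' := rfl

@[simp] theorem fn_mkH (u : HS a G E) (u' : HS a G (G →L[ℝ] E))
    (h : ∀ x, HasFDerivAt u.fn (u'.fn x) x) : (mkH u u' h).fn = u.fn := rfl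

theorem norm_mkH_le {u : HS a G E} {u' : HS a G (G →L[ℝ] E)}
    {h : ∀ x, HasFDerivAt u.fn (u'.fn x) x} {M : ℝ} (h1 : ‖u‖ ≤ M) (h2 : ‖u'‖ ≤ M) :
    ‖mkH u u' h‖ ≤ M := max_le h1 h2

/-- constructor (`0 < a`) -/
def mk (ha : 0 < a) (f : G → E) (f' : G → G →L[ℝ] E) (M : ℝ) (h1 : HB a M f)
    (h2 : HB a M f') (h : ∀ x, HasFDerivAt f (f' x) x) : CS a G E :=
  mkH (HS.mk ha f M h1) (HS.mk ha f' M h2) h

@[simp] theorem fn_mk (ha : 0 < a) (f : G → E) (f' : G → G →L[ℝ] E) (M : ℝ) (h1 : HB a M f)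
    (h2 : HB a M f') (h : ∀ x, HasFDerivAt f (f' x) x) : (mk ha f f' M h1 h2 h).fn = f := rfl

@[simp] theorem fn_der_mk (ha : 0 < a) (f : G → E) (f' : G → G →L[ℝ] E) (M : ℝ)
    (h1 : HB a M f) (h2 : HB a M f') (h : ∀ x, HasFDerivAt f (f' x) x) :
    (der (mk ha f f' M h1 h2 h)).fn = f' := rfl

theorem norm_mk_le (ha : 0 < a) {f : G → E} {f' : G → G →L[ℝ] E} {M : ℝ} (h1 : HB a M f)
    (h2 : HB a M f') (h : ∀ x, HasFDerivAt f (f' x) x) (hM : 0 ≤ M) :
    ‖mk ha f f' M h1 h2 h‖ ≤ M := CS.norm_le hM h1 h2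

/-- a continuous linear map into `CS` -/
def lift {Z : Type*} [NormedAddCommGroup Z] [NormedSpace ℝ Z] (T : Z →L[ℝ] HS a G E)
    (T' : Z →L[ℝ] HS a G (G →L[ℝ] E))
    (h : ∀ z x, HasFDerivAt (T z).fn ((T' z).fn x) x) : Z →L[ℝ] CS a G E :=
  (T.prod T').codRestrict (CSub a G E) h

@[simp] theorem val_lift {Z : Type*} [NormedAddCommGroup Z] [NormedSpace ℝ Z]
    (T : Z →L[ℝ] HS a G E) (T' : Z →L[ℝ] HS a G (G →L[ℝ] E))
    (h : ∀ z x, HasFDerivAt (T z).fn ((T' z).fn x) x) (z : Z) :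
    val (lift T T' h z) = T z := rfl

@[simp] theorem der_lift {Z : Type*} [NormedAddCommGroup Z] [NormedSpace ℝ Z]
    (T : Z →L[ℝ] HS a G E) (T' : Z →L[ℝ] HS a G (G →L[ℝ] E))
    (h : ∀ z x, HasFDerivAt (T z).fn ((T' z).fn x) x) (z : Z) :
    der (lift T T' h z) = T' z := rfl

@[simp] theorem fn_lift {Z : Type*} [NormedAddCommGroup Z] [NormedSpace ℝ Z]
    (T : Z →L[ℝ] HS a G E) (T' : Z →L[ℝ] HS a G (G →L[ℝ] E))
    (h : ∀ z x, HasFDerivAt (T z).fn ((T' z).fn x) x) (z : Z) :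
    (lift T T' h z).fn = (T z).fn := rfl

/-- post-composition with a continuous linear map -/
def cl (T : E →L[ℝ] F) : CS a G E →L[ℝ] CS a G F :=
  lift ((HS.cl T).comp val) ((HS.cl (ContinuousLinearMap.compL ℝ G E F T)).comp der)
    fun w x => T.hasFDerivAt.comp x (w.hasFDerivAt x)

@[simp] theorem fn_cl (T : E →L[ℝ] F) (w : CS a G E) (x : G) : (cl T w).fn x = T (w.fn x) := rfl

@[simp] theorem val_cl (T : E →L[ℝ] F) (w : CS a G E) : val (cl T w) = HS.cl T (val w) := rfl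

@[simp] theorem fn_der_cl (T : E →L[ℝ] F) (w : CS a G E) (x : G) :
    (der (cl T w)).fn x = T.comp ((der w).fn x) := rfl



/-- product, as an element -/
def blE (B : E →L[ℝ] F →L[ℝ] H) (u : CS a G E) (v : CS a G F) : CS a G H :=
  mkH (HS.bl B (val u) (val v))
    (HS.bl (B.precompR G) (val u) (der v) + HS.bl (B.precompL G) (der u) (val v))
    fun x => B.hasFDerivAt_of_bilinear (u.hasFDerivAt x) (v.hasFDerivAt x)

theorem norm_blE_le (B : E →L[ℝ] F →L[ℝ] H) (u : CS a G E) (v : CS a G F) :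
    ‖blE B u v‖ ≤ 4 * ‖B‖ * ‖u‖ * ‖v‖ := by
  have n1 := norm_val_le u
  have n2 := norm_val_le v
  have n3 := norm_der_le u
  have n4 := norm_der_le v
  have b1 := B.norm_precompR_le G
  have b2 := B.norm_precompL_le G
  refine norm_mkH_le ?_ ?_
  · calc ‖HS.bl B (val u) (val v)‖ ≤ 2 * ‖B‖ * ‖val u‖ * ‖val v‖ := HS.norm_bl_le _ _ _
      _ ≤ 2 * ‖B‖ * ‖u‖ * ‖v‖ := by gcongr
      _ ≤ 4 * ‖B‖ * ‖u‖ * ‖v‖ := by gcongr; norm_num
  · have e1 : ‖HS.bl (B.precompR G) (val u) (der v)‖ ≤ 2 * ‖B‖ * ‖u‖ * ‖v‖ :=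
      (HS.norm_bl_le _ _ _).trans (by gcongr)
    have e2 : ‖HS.bl (B.precompL G) (der u) (val v)‖ ≤ 2 * ‖B‖ * ‖u‖ * ‖v‖ :=
      (HS.norm_bl_le _ _ _).trans (by gcongr)
    calc _ ≤ 2 * ‖B‖ * ‖u‖ * ‖v‖ + 2 * ‖B‖ * ‖u‖ * ‖v‖ :=
          (norm_add_le _ _).trans (add_le_add e1 e2)
      _ = 4 * ‖B‖ * ‖u‖ * ‖v‖ := by ring

theorem fn_blE (B : E →L[ℝ] F →L[ℝ] H) (u : CS a G E) (v : CS a G F) (x : G) :
    (blE B u v).fn x = B (u.fn x) (v.fn x) := rfl

/-- bilinear products (product rule) -/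
def bl (B : E →L[ℝ] F →L[ℝ] H) : CS a G E →L[ℝ] CS a G F →L[ℝ] CS a G H :=
  LinearMap.mkContinuous₂
    (LinearMap.mk₂ ℝ (fun (u : CS a G E) (v : CS a G F) => blE B u v)
      (fun u u' v => by
        refine CS.ext fun x => ?_
        simp only [fn_blE, fn_add, map_add, _root_.add_apply])
      (fun c u v => by
        refine CS.ext fun x => ?_
        simp only [fn_blE, fn_smul, map_smul, _root_.smul_apply])
      (fun u v v' => by
        refine CS.ext fun x => ?_
        simp only [fn_blE, fn_add, map_add])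
      (fun c u v => by
        refine CS.ext fun x => ?_
        simp only [fn_blE, fn_smul, map_smul]))
    (4 * ‖B‖) (fun u v => norm_blE_le B u v)

@[simp] theorem fn_bl (B : E →L[ℝ] F →L[ℝ] H) (u : CS a G E) (v : CS a G F) (x : G) :
    (bl B u v).fn x = B (u.fn x) (v.fn x) := rfl

@[simp] theorem val_bl (B : E →L[ℝ] F →L[ℝ] H) (u : CS a G E) (v : CS a G F) :
    val (bl B u v) = HS.bl B (val u) (val v) := rfl



/-- the continuous linear map `(S, T) ↦ (v ↦ (S v, T v))` -/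
def prodL (G : Type u) (E : Type v) (F : Type w) [NormedAddCommGroup G] [NormedSpace ℝ G]
    [NormedAddCommGroup E] [NormedSpace ℝ E] [NormedAddCommGroup F] [NormedSpace ℝ F] :
    ((G →L[ℝ] E) × (G →L[ℝ] F)) →L[ℝ] (G →L[ℝ] E × F) :=
  LinearMap.mkContinuous
    { toFun := fun p => p.1.prod p.2
      map_add' := fun _ _ => rfl
      map_smul' := fun _ _ => rfl }
    1 (fun p => by rw [one_mul]; exact (ContinuousLinearMap.opNorm_prod p.1 p.2).le)

/-- pairs -/
def pair : (CS a G E × CS a G F) →L[ℝ] CS a G (E × F) :=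
  lift ((HS.pair (a := a) (X := G)).comp ((val (a := a) (G := G) (E := E)).prodMap
      (val (a := a) (G := G) (E := F))))
    ((HS.cl (a := a) (X := G) (prodL G E F)).comp ((HS.pair (a := a) (X := G)).comp
      ((der (a := a) (G := G) (E := E)).prodMap (der (a := a) (G := G) (E := F)))))
    fun p x => (p.1.hasFDerivAt x).prodMk (p.2.hasFDerivAt x)

@[simp] theorem fn_pair (p : CS a G E × CS a G F) (x : G) :
    (pair p).fn x = (p.1.fn x, p.2.fn x) := rfl

@[simp] theorem val_pair (p : CS a G E × CS a G F) :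
    val (pair p) = HS.pair (val p.1, val p.2) := rfl

/-- constants -/
def cst (G : Type u) [NormedAddCommGroup G] [NormedSpace ℝ G] : E →L[ℝ] CS a G E :=
  lift (HS.cst G) 0 fun e x => hasFDerivAt_const e x

@[simp] theorem fn_cst (e : E) (x : G) : (cst G e : CS a G E).fn x = e := rfl

/-! ### differentiability of maps into `CS` -/

variable {Z : Type*} [NormedAddCommGroup Z] [NormedSpace ℝ Z]







end CS

end

end Crest.Agent.R235.NWC1_952
end

-- ▼ part R235/NWKPT_133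

/-!
Row 235, package NW, leaf K, part 3 (helper133): the Cauchy operator `g ↦ P (χ g)` as continuous
linear map `HS a ℂ E → CS a ℂ E` (`TS`), and `cauchy_stmt : CauchyStmt` (submodule version).
-/

set_option autoImplicit false
set_option linter.unusedSectionVars false

open MeasureTheory Set Metric Topology
open Filter hiding ker
open scoped ContDiff Real

namespace Crest.Agent.R235.NWKPT_133

open Crest.Agent.R235.KP_133 Crest.Agent.R235.NWKP_133 Crest.Agent.R235.NWDefs_334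
open Crest.Agent.R235.NWIface_334 Crest.Agent.R235.NWHol_952 Crest.Agent.R235.NWC1_952

noncomputable section

section Op

variable {E : Type*} [NormedAddCommGroup E] [NormedSpace ℂ E] [CompleteSpace E]

variable {a : ℝ} (ha : 0 < a) (ha1 : a < 1) {R : ℝ} (hR : 0 ≤ R) {χ : ℂ → ℝ} {X : ℝ}
  (hX : HB a X χ) (hs : ∀ z, R < ‖z‖ → χ z = 0)

/-- the element `P (χ g)` of `CS` -/
def Te (g : HS a ℂ E) : CS a ℂ E :=
  CS.mk ha (Pc fun z => χ z • g.fn z) (DP fun z => χ z • g.fn z) (KK a R * (2 * X * ‖g‖))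
    (pc_hb (hc_mul hX hs (HS.hb g)) ha ha1 hR) (dp_hb (hc_mul hX hs (HS.hb g)) ha ha1 hR)
    (fun x => pc_hasFDerivAt (hc_mul hX hs (HS.hb g)) ha ha1 hR x)

theorem Te_fn (g : HS a ℂ E) : (Te ha ha1 hR hX hs g).fn = Pc fun z => χ z • g.fn z := rfl


theorem Te_norm (g : HS a ℂ E) : ‖Te ha ha1 hR hX hs g‖ ≤ KK a R * (2 * X) * ‖g‖ := by
  have hX0 : 0 ≤ X := HB.nonneg hX
  have h0 : 0 ≤ KK a R * (2 * X * ‖g‖) := by
    have := KK_nonneg (a := a) hR
    positivity
  refine (CS.norm_mk_le ha _ _ _ h0).trans (le_of_eq ?_)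
  ring

theorem Te_add (u v : HS a ℂ E) :
    Te ha ha1 hR hX hs (u + v) = Te ha ha1 hR hX hs u + Te ha ha1 hR hX hs v := by
  apply CS.ext
  intro z
  have hu := hc_mul hX hs (HS.hb u)
  have hv := hc_mul hX hs (HS.hb v)
  rw [CS.fn_add, Te_fn, Te_fn, Te_fn,
    ← pc_add (hu.cont ha) (hv.cont ha) (compact_of hu.supp) (compact_of hv.supp) z]
  congr 1; funext z
  rw [HS.fn_add, smul_add]

theorem Te_smul (c : ℝ) (u : HS a ℂ E) :
    Te ha ha1 hR hX hs (c • u) = c • Te ha ha1 hR hX hs u := by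
  apply CS.ext
  intro z
  rw [CS.fn_smul, Te_fn, Te_fn, ← pc_smul]
  congr 1; funext z
  rw [HS.fn_smul, smul_comm]

/-- THE OPERATOR `g ↦ P (χ g)` -/
def TS : HS a ℂ E →L[ℝ] CS a ℂ E :=
  LinearMap.mkContinuous
    { toFun := fun g => Te ha ha1 hR hX hs g
      map_add' := Te_add ha ha1 hR hX hs
      map_smul' := Te_smul ha ha1 hR hX hs }
    (KK a R * (2 * X)) (Te_norm ha ha1 hR hX hs)

theorem TS_fn (g : HS a ℂ E) : (TS ha ha1 hR hX hs g).fn = Pc fun z => χ z • g.fn z := rfl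

theorem TS_d (g : HS a ℂ E) :
    (CS.der (TS ha ha1 hR hX hs g)).fn = DP fun z => χ z • g.fn z := rfl


theorem TS_dbar (g : HS a ℂ E) (z : ℂ) :
    dbl ((CS.der (TS ha ha1 hR hX hs g)).fn z) = χ z • g.fn z := by
  rw [TS_d, dbl_dp]

theorem TS_tendsto (g : HS a ℂ E) :
    Tendsto (TS ha ha1 hR hX hs g).fn (cocompact ℂ) (𝓝 0) := by
  rw [TS_fn]
  have h := hc_mul hX hs (HS.hb g)
  exact pc_tendsto (h.cont ha) h.supp

end Op

/-- existence form over `HS`, `CS` -/
theorem cauchyS {E : Type*} [NormedAddCommGroup E] [NormedSpace ℂ E] [CompleteSpace E] {a : ℝ}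
    (ha : 0 < a) (ha1 : a < 1) {χ : ℂ → ℝ} (hχ : ContDiff ℝ 1 χ) (hc : HasCompactSupport χ) :
    ∃ T : HS a ℂ E →L[ℝ] CS a ℂ E, ∀ g : HS a ℂ E,
      (∀ z, dbl ((CS.der (T g)).fn z) = χ z • g.fn z) ∧
      Tendsto (T g).fn (cocompact ℂ) (𝓝 0) := by
  obtain ⟨R, hR, hs⟩ := supp_ball hc
  obtain ⟨X, hX⟩ := hb_of_smooth ha ha1.le hχ hc
  exact ⟨TS ha ha1 hR.le hX hs, fun g => ⟨TS_dbar ha ha1 hR.le hX hs g,
    TS_tendsto ha ha1 hR.le hX hs g⟩⟩

/-- the identity `CS → C1a` -/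
def toC1a {a : ℝ} {G E : Type*} [NormedAddCommGroup G] [NormedSpace ℝ G] [NormedAddCommGroup E]
    [NormedSpace ℝ E] : CS a G E →L[ℝ] C1a a G E :=
  ((((HS.toHol (a := a) (X := G) (E := E)).toContinuousLinearEquiv :
    HS a G E →L[ℝ] Hol a G E).comp CS.val).prod
    (((HS.toHol (a := a) (X := G) (E := G →L[ℝ] E)).toContinuousLinearEquiv :
    HS a G (G →L[ℝ] E) →L[ℝ] Hol a G (G →L[ℝ] E)).comp CS.der)).codRestrict (C1a a G E)
    (fun w => w.2)

theorem cauchy_stmt : CauchyStmt := by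
  intro E _ _ _ a ha ha1 χ hχ hc
  have : CompleteSpace E := FiniteDimensional.complete ℂ E
  obtain ⟨T, hT⟩ := cauchyS (E := E) ha ha1 (hχ.of_le (by simp)) hc
  refine ⟨(toC1a.comp T).comp ((HS.toHol (a := a) (X := ℂ) (E := E)).symm.toContinuousLinearEquiv :
    Hol a ℂ E →L[ℝ] HS a ℂ E), fun g => ?_⟩
  exact hT g

end

end Crest.Agent.R235.NWKPT_133
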