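import Crest.Agent.R235.NWIface_334

/-!
# Row 235, PACKAGE NW (helper334): basic tools for `Hol` and `C1a`
-/

set_option autoImplicit false
set_option linter.unusedSectionVars false

open Set Filter Metric Topology MeasureTheory
open scoped ContDiff Real BoundedContinuousFunction

namespace Crest.Agent.R235.NWTool_334

open Crest.Agent.R235.NWDefs_334 Crest.Agent.R235.NWIface_334

noncomputable section

section hol

variable {a : ℝ} {X E : Type*} [MetricSpace X] [NormedAddCommGroup E] [NormedSpace ℝ E]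

theorem hol_ext {u v : Hol a X E} (h : ∀ x, Hol.fn u x = Hol.fn v x) : u = v := by
  apply Subtype.ext
  have h1 : u.1.1 = v.1.1 := by ext x; exact h x
  refine Prod.ext h1 ?_
  ext p
  have hu := u.2 p
  have hv := v.2 p
  have hd : dist p.1.1 p.1.2 ^ a ≠ 0 :=
    (Real.rpow_pos_of_pos (dist_pos.2 p.2) a).ne'
  have : (dist p.1.1 p.1.2 ^ a) • u.1.2 p = (dist p.1.1 p.1.2 ^ a) • v.1.2 p := by
    rw [hu, hv, h1]
  exact smul_right_injective E hd this

theorem hb_of (ha : 0 < a) (u : Hol a X E) : HB a ‖u‖ (Hol.fn u) := by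
  have h1 : ‖u.1.1‖ ≤ ‖u‖ := norm_fst_le u.1
  have h2 : ‖u.1.2‖ ≤ ‖u‖ := norm_snd_le u.1
  refine ⟨fun x => (u.1.1.norm_coe_le_norm x).trans h1, fun x y => ?_⟩
  by_cases hxy : x = y
  · subst hxy
    simp [Real.zero_rpow ha.ne']
  · have h3 := u.2 ⟨(x, y), hxy⟩
    have h4 : ‖u.1.2 ⟨(x, y), hxy⟩‖ ≤ ‖u‖ := (u.1.2.norm_coe_le_norm _).trans h2
    have h5 : 0 ≤ dist x y ^ a := Real.rpow_nonneg dist_nonneg a
    show ‖u.1.1 x - u.1.1 y‖ ≤ _
    rw [← h3, norm_smul, Real.norm_of_nonneg h5, mul_comm]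
    exact mul_le_mul_of_nonneg_right h4 h5

theorem hb_cont (ha : 0 < a) {M : ℝ} {f : X → E} (h : HB a M f) : Continuous f := by
  rw [continuous_iff_continuousAt]
  intro x
  rw [ContinuousAt, tendsto_iff_norm_sub_tendsto_zero]
  have h1 : Tendsto (fun y => M * dist y x ^ a) (𝓝 x) (𝓝 (M * 0)) := by
    refine Tendsto.const_mul _ ?_
    have h2 : Tendsto (fun y => dist y x) (𝓝 x) (𝓝 0) := by
      have := (continuous_id.dist continuous_const : Continuous fun y : X => dist y x).tendsto x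
      simpa using this
    have h3 := h2.rpow_const (Or.inr ha.le) (p := a)
    rwa [Real.zero_rpow ha.ne'] at h3
  rw [mul_zero] at h1
  exact squeeze_zero (fun _ => norm_nonneg _) (fun y => h.hol y x) h1

theorem exists_hol (ha : 0 < a) {M : ℝ} (hM : 0 ≤ M) {f : X → E} (h : HB a M f) :
    ∃ u : Hol a X E, (∀ x, Hol.fn u x = f x) ∧ ‖u‖ ≤ M := by
  have hc := hb_cont ha h
  let u1 : X →ᵇ E := BoundedContinuousFunction.ofNormedAddCommGroup f hc M h.bdd
  have hq : Continuous fun p : PR X => (dist p.1.1 p.1.2 ^ a)⁻¹ • (f p.1.1 - f p.1.2) := by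
    have h1 : Continuous fun p : PR X => dist p.1.1 p.1.2 := by fun_prop
    have h2 : Continuous fun p : PR X => dist p.1.1 p.1.2 ^ a :=
      h1.rpow_const fun p => Or.inl (dist_pos.2 p.2).ne'
    refine (h2.inv₀ fun p => (Real.rpow_pos_of_pos (dist_pos.2 p.2) a).ne').smul ?_
    exact (hc.comp (continuous_fst.comp continuous_subtype_val)).sub
      (hc.comp (continuous_snd.comp continuous_subtype_val))
  have hqb : ∀ p : PR X, ‖(dist p.1.1 p.1.2 ^ a)⁻¹ • (f p.1.1 - f p.1.2)‖ ≤ M := by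
    intro p
    have h5 : 0 < dist p.1.1 p.1.2 ^ a := Real.rpow_pos_of_pos (dist_pos.2 p.2) a
    rw [norm_smul, norm_inv, Real.norm_of_nonneg h5.le, inv_mul_le_iff₀ h5, mul_comm]
    exact h.hol _ _
  let u2 : PR X →ᵇ E := BoundedContinuousFunction.ofNormedAddCommGroup _ hq M hqb
  refine ⟨⟨(u1, u2), fun p => ?_⟩, fun x => rfl, ?_⟩
  · have h5 : 0 < dist p.1.1 p.1.2 ^ a := Real.rpow_pos_of_pos (dist_pos.2 p.2) a
    show (dist p.1.1 p.1.2 ^ a) • ((dist p.1.1 p.1.2 ^ a)⁻¹ • (f p.1.1 - f p.1.2)) = _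
    rw [smul_smul, mul_inv_cancel₀ h5.ne', one_smul]
    rfl
  · show ‖((u1, u2) : (X →ᵇ E) × (PR X →ᵇ E))‖ ≤ M
    rw [Prod.norm_def]
    exact max_le (BoundedContinuousFunction.norm_ofNormedAddCommGroup_le hc hM h.bdd)
      (BoundedContinuousFunction.norm_ofNormedAddCommGroup_le hq hM hqb)


/-- evaluation -/
def evH (x : X) : Hol a X E →L[ℝ] E :=
  ((BoundedContinuousFunction.evalCLM ℝ x).comp (ContinuousLinearMap.fst ℝ _ _)).comp
    (Hol a X E).subtypeL

@[simp] theorem evH_apply (x : X) (u : Hol a X E) : evH x u = Hol.fn u x := rfl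

@[simp] theorem fn_add (u v : Hol a X E) (x : X) : Hol.fn (u + v) x = Hol.fn u x + Hol.fn v x := rfl
@[simp] theorem fn_sub (u v : Hol a X E) (x : X) : Hol.fn (u - v) x = Hol.fn u x - Hol.fn v x := rfl
@[simp] theorem fn_smul (c : ℝ) (u : Hol a X E) (x : X) : Hol.fn (c • u) x = c • Hol.fn u x := rfl
@[simp] theorem fn_zero (x : X) : Hol.fn (0 : Hol a X E) x = 0 := rfl

end hol

section c1

variable {a : ℝ} {G E : Type*} [NormedAddCommGroup G] [NormedSpace ℝ G] [NormedAddCommGroup E]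
  [NormedSpace ℝ E]

theorem c1_fd (u : C1a a G E) (x : G) : HasFDerivAt (C1f u) (C1d u x) x := u.2 x

theorem c1_diff (u : C1a a G E) : Differentiable ℝ (C1f u) := fun x => (c1_fd u x).differentiableAt

theorem c1_fderiv (u : C1a a G E) (x : G) : fderiv ℝ (C1f u) x = C1d u x := (c1_fd u x).fderiv

theorem c1_ext {u v : C1a a G E} (h : ∀ x, C1f u x = C1f v x) : u = v := by
  have h0 : C1f u = C1f v := funext h
  apply Subtype.ext
  refine Prod.ext (hol_ext h) (hol_ext fun x => ?_)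
  have h1 := c1_fderiv u x
  have h2 := c1_fderiv v x
  rw [h0] at h1
  exact h1.symm.trans h2

theorem c1_norm_fst (u : C1a a G E) : ‖u.1.1‖ ≤ ‖u‖ := norm_fst_le u.1
theorem c1_norm_snd (u : C1a a G E) : ‖u.1.2‖ ≤ ‖u‖ := norm_snd_le u.1

theorem c1_hb (ha : 0 < a) (u : C1a a G E) : HB a ‖u‖ (C1f u) where
  bdd x := ((hb_of ha u.1.1).bdd x).trans (c1_norm_fst u)
  hol x y := ((hb_of ha u.1.1).hol x y).trans
    (mul_le_mul_of_nonneg_right (c1_norm_fst u) (Real.rpow_nonneg dist_nonneg a))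

theorem c1_hbd (ha : 0 < a) (u : C1a a G E) : HB a ‖u‖ (C1d u) where
  bdd x := ((hb_of ha u.1.2).bdd x).trans (c1_norm_snd u)
  hol x y := ((hb_of ha u.1.2).hol x y).trans
    (mul_le_mul_of_nonneg_right (c1_norm_snd u) (Real.rpow_nonneg dist_nonneg a))

theorem exists_c1 (ha : 0 < a) {M : ℝ} (hM : 0 ≤ M) {f : G → E} {f' : G → G →L[ℝ] E}
    (h : HB a M f) (h' : HB a M f') (hd : ∀ x, HasFDerivAt f (f' x) x) :
    ∃ u : C1a a G E, (∀ x, C1f u x = f x) ∧ (∀ x, C1d u x = f' x) ∧ ‖u‖ ≤ M := by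
  obtain ⟨v, hv, hvn⟩ := exists_hol ha hM h
  obtain ⟨w, hw, hwn⟩ := exists_hol ha hM h'
  have e1 : Hol.fn v = f := funext hv
  refine ⟨⟨(v, w), fun x => ?_⟩, hv, hw, ?_⟩
  · show HasFDerivAt (Hol.fn v) (Hol.fn w x) x
    rw [e1, hw]; exact hd x
  · show ‖((v, w) : Hol a G E × Hol a G (G →L[ℝ] E))‖ ≤ M
    rw [Prod.norm_def]
    exact max_le hvn hwn


/-- `C1a → Hol` -/
def valC : C1a a G E →L[ℝ] Hol a G E :=
  (ContinuousLinearMap.fst ℝ _ _).comp (C1a a G E).subtypeL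

/-- the derivative `C1a → Hol` -/
def derC : C1a a G E →L[ℝ] Hol a G (G →L[ℝ] E) :=
  (ContinuousLinearMap.snd ℝ _ _).comp (C1a a G E).subtypeL

@[simp] theorem fn_valC (u : C1a a G E) (x : G) : Hol.fn (valC u) x = C1f u x := rfl
@[simp] theorem fn_derC (u : C1a a G E) (x : G) : Hol.fn (derC u) x = C1d u x := rfl

/-- evaluation -/
def ev0 (x : G) : C1a a G E →L[ℝ] E := (evH x).comp valC

/-- evaluation of the derivative -/
def ev1 (x : G) : C1a a G E →L[ℝ] (G →L[ℝ] E) := (evH x).comp derC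

@[simp] theorem ev0_apply (x : G) (u : C1a a G E) : ev0 x u = C1f u x := rfl
@[simp] theorem ev1_apply (x : G) (u : C1a a G E) : ev1 x u = C1d u x := rfl

@[simp] theorem f_add (u v : C1a a G E) (x : G) : C1f (u + v) x = C1f u x + C1f v x := rfl
@[simp] theorem f_sub (u v : C1a a G E) (x : G) : C1f (u - v) x = C1f u x - C1f v x := rfl
@[simp] theorem f_smul (c : ℝ) (u : C1a a G E) (x : G) : C1f (c • u) x = c • C1f u x := rfl
@[simp] theorem f_zero (x : G) : C1f (0 : C1a a G E) x = 0 := rfl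
@[simp] theorem d_add (u v : C1a a G E) (x : G) : C1d (u + v) x = C1d u x + C1d v x := rfl
@[simp] theorem d_sub (u v : C1a a G E) (x : G) : C1d (u - v) x = C1d u x - C1d v x := rfl
@[simp] theorem d_smul (c : ℝ) (u : C1a a G E) (x : G) : C1d (c • u) x = c • C1d u x := rfl
@[simp] theorem d_zero (x : G) : C1d (0 : C1a a G E) x = 0 := rfl

theorem norm_f_le (ha : 0 < a) (u : C1a a G E) (x : G) : ‖C1f u x‖ ≤ ‖u‖ := (c1_hb ha u).bdd x
theorem norm_d_le (ha : 0 < a) (u : C1a a G E) (x : G) : ‖C1d u x‖ ≤ ‖u‖ := (c1_hbd ha u).bdd x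


end c1

/-! ### Liouville -/

section liou

variable {E : Type} [NormedAddCommGroup E] [NormedSpace ℂ E]

theorem dbl_add (L M : ℂ →L[ℝ] E) : dbl (L + M) = dbl L + dbl M := by
  simp only [dbl, add_apply, smul_add]; abel

theorem dbl_sub (L M : ℂ →L[ℝ] E) : dbl (L - M) = dbl L - dbl M := by
  simp only [dbl, sub_apply, smul_add, smul_sub]; abel

theorem dl_add (L M : ℂ →L[ℝ] E) : dl (L + M) = dl L + dl M := by
  simp only [dl, add_apply, smul_add, smul_sub]; abel


theorem dbl_eq_zero_iff (L : ℂ →L[ℝ] E) : dbl L = 0 ↔ L Complex.I = Complex.I • L 1 := by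
  constructor
  · intro h
    have h1 : L 1 + Complex.I • L Complex.I = 0 := by
      have h2 : (2 : ℂ) • dbl L = 0 := by rw [h, smul_zero]
      rwa [dbl, smul_smul, mul_inv_cancel₀ (by norm_num), one_smul] at h2
    have h3 : Complex.I • (L 1 + Complex.I • L Complex.I) = 0 := by rw [h1, smul_zero]
    rw [smul_add, smul_smul, Complex.I_mul_I, neg_one_smul, ← sub_eq_add_neg, sub_eq_zero] at h3
    exact h3.symm
  · intro h
    rw [dbl, h, smul_smul, Complex.I_mul_I, neg_one_smul, add_neg_cancel, smul_zero]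

theorem diffC_of_dbl {u : ℂ → E} {z : ℂ} (hd : DifferentiableAt ℝ u z)
    (h : dbl (fderiv ℝ u z) = 0) : DifferentiableAt ℂ u z :=
  differentiableAt_complex_iff_differentiableAt_real.2 ⟨hd, (dbl_eq_zero_iff _).1 h⟩

/-- **uniqueness**: equal `∂̄` and difference tending to zero at infinity -/
theorem eq_of_dbl {a : ℝ} {U V : C1a a ℂ E} (h : ∀ z, dbl (C1d U z) = dbl (C1d V z))
    (h0 : Tendsto (fun z => C1f U z - C1f V z) (cocompact ℂ) (𝓝 0)) : U = V := by
  have hd : Differentiable ℂ (C1f (U - V)) := by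
    intro z
    refine diffC_of_dbl (c1_diff _ z) ?_
    rw [c1_fderiv, d_sub, dbl_sub, h, sub_self]
  refine c1_ext fun z => ?_
  have h2 := hd.apply_eq_of_tendsto_cocompact z (c := 0) h0
  rw [f_sub] at h2
  exact sub_eq_zero.1 h2

end liou

end

end Crest.Agent.R235.NWTool_334
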