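import Crest.Agent.R235.EndC_745
import Crest.Agent.R235.EndDef_745
import Mathlib
import Crest.Agent.R235.LocSel_483
import Crest.Agent.R235.LocClus_305
import Crest.Agent.R235.NWKP_133
import Crest.Agent.R235.NWHol_952
import Crest.Agent.R235.NWTool_334
import Crest.Agent.R235.NWKPT_133

-- ▼ part R235/EndD_745
section

/-!
Row 235, package REG, leaf REG-END (helper745), part 4: the complex structure of the forms
`dz + μ dz̄`, `dw + β dz̄`; base change; smoothness of `C¹` discs.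
-/

set_option autoImplicit false

open Complex Metric Set Filter Topology
open scoped ContDiff ComplexConjugate

namespace Crest.Agent.R235.EndD_745

open Crest.Agent.R235.NWDefs_334 Crest.Agent.R235.NWIface_334 Crest.Agent.R235.EndA_745
open Crest.Agent.R235.Loc Crest.Agent.R235.End

noncomputable section

theorem lz_eq (A : ℂ →L[ℝ] ℂ) : lz A = dl A := by
  simp only [lz, dl, smul_eq_mul]; ring

theorem lzb_eq (A : ℂ →L[ℝ] ℂ) : lzb A = dbl A := by
  simp only [lzb, dbl, smul_eq_mul]; ring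

/-! ### the complex structure -/

/-- `1 - |μ|²` as a complex number. -/
def den (m : ℂ) : ℂ := 1 - m * conj m

theorem den_ne {m : ℂ} (h : ‖m‖ < 1) : den m ≠ 0 := by
  intro h0
  have h1 : m * conj m = 1 := by
    have : (1 : ℂ) - m * conj m = 0 := h0
    linear_combination -this
  have h2 : ‖m‖ * ‖m‖ = 1 := by
    have := congrArg norm h1
    rwa [norm_mul, Complex.norm_conj, norm_one] at this
  nlinarith [norm_nonneg m]

theorem conj_den (m : ℂ) : conj (den m) = den m := by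
  simp only [den, map_sub, map_one, map_mul, Complex.conj_conj]; ring

theorem den_pos_ne {m n : ℂ} (hm : ‖m‖ < 1) (hn : ‖n‖ < 1) : 1 - conj m * n ≠ 0 := by
  intro h0
  have h1 : conj m * n = 1 := by linear_combination -h0
  have h2 : ‖m‖ * ‖n‖ = 1 := by
    have := congrArg norm h1
    rwa [norm_mul, Complex.norm_conj, norm_one] at this
  nlinarith [norm_nonneg m, norm_nonneg n]

/-- first component of `J X`. -/
def J1 (m : ℂ) (a : ℂ) : ℂ := (I * ((1 + m * conj m) * a + 2 * m * conj a)) / den m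

/-- second component of `J X`. -/
def J2 (m b : ℂ) (X : ℂ × ℂ) : ℂ := I * (X.2 + b * conj X.1) - b * conj (J1 m X.1)

theorem J1_add (m a b : ℂ) : J1 m (a + b) = J1 m a + J1 m b := by
  simp only [J1, map_add]; ring

theorem J1_smul (m : ℂ) (r : ℝ) (a : ℂ) : J1 m (r • a) = r • J1 m a := by
  simp only [J1, Complex.real_smul, map_mul, Complex.conj_ofReal]; ring

/-- the complex structure at `x` as a real linear map -/
def Jm (μ β : ℂ × ℂ → ℂ) (x : ℂ × ℂ) : ℂ × ℂ →L[ℝ] ℂ × ℂ :=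
  LinearMap.toContinuousLinearMap
    { toFun := fun X => (J1 (μ x) X.1, J2 (μ x) (β x) X)
      map_add' := by
        intro X Y
        ext
        · simp only [Prod.fst_add, J1_add]
        · simp only [J2, Prod.fst_add, Prod.snd_add, J1_add, map_add]; ring
      map_smul' := by
        intro r X
        ext
        · simp only [Prod.smul_fst, J1_smul, RingHom.id_apply]
        · simp only [J2, Prod.smul_fst, Prod.smul_snd, J1_smul, RingHom.id_apply]
          simp only [Complex.real_smul, map_mul, Complex.conj_ofReal]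
          ring }

theorem Jm_apply (μ β : ℂ × ℂ → ℂ) (x X : ℂ × ℂ) :
    Jm μ β x X = (J1 (μ x) X.1, J2 (μ x) (β x) X) := rfl

theorem J1_form {m : ℂ} (h : ‖m‖ < 1) (a : ℂ) : J1 m a + m * conj (J1 m a) = I * (a + m * conj a) := by
  have hd := den_ne h
  simp only [J1, map_div₀, conj_den, map_mul, map_add, map_one, Complex.conj_conj, Complex.conj_I,
    map_ofNat]
  field_simp
  simp only [den]
  ring

theorem eq_zero_of_form {m e : ℂ} (h : ‖m‖ < 1) (he : e + m * conj e = 0) : e = 0 := by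
  by_contra hne
  have h1 : e = - (m * conj e) := by linear_combination he
  have h2 : ‖e‖ = ‖m‖ * ‖e‖ := by
    conv_lhs => rw [h1]
    rw [norm_neg, norm_mul, Complex.norm_conj]
  have h3 : 0 < ‖e‖ := norm_pos_iff.2 hne
  nlinarith

theorem Jm_iff {μ β : ℂ × ℂ → ℂ} {x : ℂ × ℂ} (h : ‖μ x‖ < 1) (X X' : ℂ × ℂ) :
    X' = Jm μ β x X ↔ X'.1 + μ x * conj X'.1 = I * (X.1 + μ x * conj X.1) ∧
      X'.2 + β x * conj X'.1 = I * (X.2 + β x * conj X.1) := by
  rw [Jm_apply]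
  constructor
  · rintro rfl
    refine ⟨J1_form h X.1, ?_⟩
    simp only [J2]; ring
  · rintro ⟨h1, h2⟩
    have h3 : X'.1 - J1 (μ x) X.1 = 0 := by
      apply eq_zero_of_form h
      rw [map_sub]
      linear_combination h1 - J1_form h X.1
    have h4 : X'.1 = J1 (μ x) X.1 := by linear_combination h3
    refine Prod.ext h4 ?_
    simp only [J2]
    rw [← h4]
    linear_combination h2

theorem Jm_sq {μ β : ℂ × ℂ → ℂ} {x : ℂ × ℂ} (h : ‖μ x‖ < 1) (X : ℂ × ℂ) :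
    Jm μ β x (Jm μ β x X) = - X := by
  symm
  rw [Jm_iff h]
  obtain ⟨h1, h2⟩ := (Jm_iff (β := β) h X _).1 rfl
  constructor
  · rw [h1]
    simp only [Prod.fst_neg, map_neg]
    linear_combination (-(X.1 + μ x * conj X.1)) * Complex.I_mul_I
  · rw [h2]
    simp only [Prod.fst_neg, Prod.snd_neg, map_neg]
    linear_combination (-(X.2 + β x * conj X.1)) * Complex.I_mul_I

theorem contDiff_conj {n : WithTop ℕ∞} : ContDiff ℝ n (fun z : ℂ => conj z) :=
  Complex.conjCLE.contDiff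

theorem contDiff_conj_comp {E : Type*} [NormedAddCommGroup E] [NormedSpace ℝ E]
    {n : WithTop ℕ∞} {f : E → ℂ} (hf : ContDiff ℝ n f) : ContDiff ℝ n (fun z => conj (f z)) :=
  contDiff_conj.comp hf

theorem cdiv {E : Type*} [NormedAddCommGroup E] [NormedSpace ℝ E] {n : WithTop ℕ∞} {f g : E → ℂ}
    (hf : ContDiff ℝ n f) (hg : ContDiff ℝ n g) (h : ∀ x, g x ≠ 0) :
    ContDiff ℝ n (fun x => f x / g x) := by
  have h1 := hf.mul (hg.inv h)
  have h2 : (fun x => f x / g x) = fun x => f x * g⁻¹ x := by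
    funext x; rw [div_eq_mul_inv]; rfl
  rw [h2]; exact h1

theorem Jm_smooth {μ β : ℂ × ℂ → ℂ} (hμ : ContDiff ℝ ∞ μ) (hβ : ContDiff ℝ ∞ β)
    (h : ∀ x, ‖μ x‖ < 1) : ContDiff ℝ ∞ (Jm μ β) := by
  rw [contDiff_clm_apply_iff]
  intro X
  have hcμ := contDiff_conj_comp hμ
  have hden : ContDiff ℝ ∞ (fun x => den (μ x)) := contDiff_const.sub (hμ.mul hcμ)
  have h1 : ContDiff ℝ ∞ (fun x => J1 (μ x) X.1) := by
    refine cdiv ?_ hden (fun x => den_ne (h x))
    exact contDiff_const.mul (((contDiff_const.add (hμ.mul hcμ)).mul contDiff_const).add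
      ((contDiff_const.mul hμ).mul contDiff_const))
  have h2 : ContDiff ℝ ∞ (fun x => J2 (μ x) (β x) X) :=
    (contDiff_const.mul (contDiff_const.add (hβ.mul contDiff_const))).sub
      (hβ.mul (contDiff_conj_comp h1))
  exact h1.prodMk h2

/-- **`C¹` discs are smooth** -/
theorem disc_smooth (hReg : RegStmt) {μ β : ℂ × ℂ → ℂ} (hμ : ContDiff ℝ ∞ μ)
    (hβ : ContDiff ℝ ∞ β) (h : ∀ x, ‖μ x‖ < 1) {u : ℂ → ℂ × ℂ} {O : Set ℂ} (hO : IsOpen O)
    (hu : ContDiffOn ℝ 1 u O)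
    (jz : ∀ z ∈ O, ∀ v : ℂ,
      (fderiv ℝ u z (I * v)).1 + μ (u z) * conj (fderiv ℝ u z (I * v)).1 =
        I * ((fderiv ℝ u z v).1 + μ (u z) * conj (fderiv ℝ u z v).1))
    (jw : ∀ z ∈ O, ∀ v : ℂ,
      (fderiv ℝ u z (I * v)).2 + β (u z) * conj (fderiv ℝ u z (I * v)).1 =
        I * ((fderiv ℝ u z v).2 + β (u z) * conj (fderiv ℝ u z v).1)) :
    ContDiffOn ℝ ∞ u O := by
  refine hReg (Jm μ β) univ isOpen_univ (Jm_smooth hμ hβ h).contDiffOn
    (fun x _ X => Jm_sq (h x) X) u O hO hu (fun _ _ => mem_univ _) (fun z hz => ⟨?_, fun v => ?_⟩)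
  · exact (hu.differentiableOn (by norm_num)).differentiableAt (hO.mem_nhds hz)
  · exact (Jm_iff (h _) _ _).2 ⟨jz z hz v, jw z hz v⟩

/-! ### components -/

theorem fderiv_pair {a b : ℂ → ℂ} {t : ℂ} (ha : DifferentiableAt ℝ a t)
    (hb : DifferentiableAt ℝ b t) (v : ℂ) :
    fderiv ℝ (fun t => (a t, b t)) t v =
      (dz a t * v + dzb a t * conj v, dz b t * v + dzb b t * conj v) := by
  rw [(ha.hasFDerivAt.prodMk hb.hasFDerivAt).fderiv]
  ext
  · rw [ContinuousLinearMap.prod_apply]; exact apply_eq _ v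
  · rw [ContinuousLinearMap.prod_apply]; exact apply_eq _ v

theorem jeq_of_dzb {μ β : ℂ × ℂ → ℂ} {a b : ℂ → ℂ} {t : ℂ} (ha : DifferentiableAt ℝ a t)
    (hb : DifferentiableAt ℝ b t) (h1 : dzb a t = - μ (a t, b t) * conj (dz a t))
    (h2 : dzb b t = - β (a t, b t) * conj (dz a t)) (v : ℂ) :
    (fderiv ℝ (fun t => (a t, b t)) t (I * v)).1 +
        μ (a t, b t) * conj (fderiv ℝ (fun t => (a t, b t)) t (I * v)).1 =
      I * ((fderiv ℝ (fun t => (a t, b t)) t v).1 +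
        μ (a t, b t) * conj (fderiv ℝ (fun t => (a t, b t)) t v).1) ∧
    (fderiv ℝ (fun t => (a t, b t)) t (I * v)).2 +
        β (a t, b t) * conj (fderiv ℝ (fun t => (a t, b t)) t (I * v)).1 =
      I * ((fderiv ℝ (fun t => (a t, b t)) t v).2 +
        β (a t, b t) * conj (fderiv ℝ (fun t => (a t, b t)) t v).1) := by
  rw [fderiv_pair ha hb, fderiv_pair ha hb]
  rw [h1, h2]
  simp only [map_add, map_mul, map_neg, Complex.conj_conj, Complex.conj_I]
  constructor <;> ring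

/-! ### base change -/

/-- `L x = x + m x̄` -/
def Lb (m : ℂ) (x : ℂ) : ℂ := x + m * conj x

/-- `L⁻¹ y = (y - m ȳ) / (1 - |m|²)` -/
def Li (m : ℂ) (y : ℂ) : ℂ := (y - m * conj y) / den m

theorem Lb_Li {m : ℂ} (h : ‖m‖ < 1) (y : ℂ) : Lb m (Li m y) = y := by
  have hd := den_ne h
  simp only [Lb, Li, map_div₀, conj_den, map_mul, map_sub, Complex.conj_conj]
  field_simp
  simp only [den]
  ring

theorem Li_Lb {m : ℂ} (h : ‖m‖ < 1) (x : ℂ) : Li m (Lb m x) = x := by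
  have hd := den_ne h
  simp only [Lb, Li, map_mul, map_add, Complex.conj_conj]
  field_simp
  simp only [den]
  ring

theorem contDiff_Li (m : ℂ) {n : WithTop ℕ∞} : ContDiff ℝ n (Li m) :=
  (contDiff_id.sub (contDiff_const.mul contDiff_conj)).div_const _

theorem contDiff_Lb (m : ℂ) {n : WithTop ℕ∞} : ContDiff ℝ n (Lb m) :=
  contDiff_id.add (contDiff_const.mul contDiff_conj)

theorem Li_zero (m : ℂ) : Li m 0 = 0 := by simp [Li]
theorem Lb_zero (m : ℂ) : Lb m 0 = 0 := by simp [Lb]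

theorem Li_sub (m x y : ℂ) : Li m (x - y) = Li m x - Li m y := by
  simp only [Li, map_sub]; ring


/-- transformed coefficients -/
def mu' (m p : ℂ) (μ : ℂ × ℂ → ℂ) (x : ℂ × ℂ) : ℂ :=
  (μ (p + Li m x.1, x.2) - m) / (1 - conj m * μ (p + Li m x.1, x.2))

def be' (m p : ℂ) (μ β : ℂ × ℂ → ℂ) (x : ℂ × ℂ) : ℂ :=
  β (p + Li m x.1, x.2) / (1 - conj m * μ (p + Li m x.1, x.2))

theorem contDiff_mu' {m p : ℂ} {μ : ℂ × ℂ → ℂ} {n : WithTop ℕ∞} (hm : ‖m‖ < 1)
    (hμ : ContDiff ℝ n μ) (h : ∀ x, ‖μ x‖ < 1) : ContDiff ℝ n (mu' m p μ) := by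
  have h1 : ContDiff ℝ n (fun x : ℂ × ℂ => μ (p + Li m x.1, x.2)) :=
    hμ.comp ((contDiff_const.add ((contDiff_Li m).comp contDiff_fst)).prodMk contDiff_snd)
  have h2 : ContDiff ℝ n (fun x : ℂ × ℂ => 1 - conj m * μ (p + Li m x.1, x.2)) :=
    contDiff_const.sub (contDiff_const.mul h1)
  exact cdiv (h1.sub contDiff_const) h2 (fun x => den_pos_ne hm (h _))

theorem contDiff_be' {m p : ℂ} {μ β : ℂ × ℂ → ℂ} {n : WithTop ℕ∞} (hm : ‖m‖ < 1)
    (hμ : ContDiff ℝ n μ) (hβ : ContDiff ℝ n β) (h : ∀ x, ‖μ x‖ < 1) :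
    ContDiff ℝ n (be' m p μ β) := by
  have h1 : ContDiff ℝ n (fun x : ℂ × ℂ => (p + Li m x.1, x.2)) :=
    (contDiff_const.add ((contDiff_Li m).comp contDiff_fst)).prodMk contDiff_snd
  have h2 : ContDiff ℝ n (fun x : ℂ × ℂ => 1 - conj m * μ (p + Li m x.1, x.2)) :=
    contDiff_const.sub (contDiff_const.mul (hμ.comp h1))
  exact cdiv (hβ.comp h1) h2 (fun x => den_pos_ne hm (h _))

theorem hasFDerivAt_Li_comp {m : ℂ} {Y : ℂ → ℂ} {t : ℂ} (hY : DifferentiableAt ℝ Y t) (p : ℂ) :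
    DifferentiableAt ℝ (fun t => p + Li m (Y t)) t ∧
    dz (fun t => p + Li m (Y t)) t = (dz Y t - m * conj (dzb Y t)) / den m ∧
    dzb (fun t => p + Li m (Y t)) t = (dzb Y t - m * conj (dz Y t)) / den m := by
  have hd : DifferentiableAt ℝ (fun t => p + Li m (Y t)) t :=
    (differentiableAt_const p).add
      (((contDiff_Li m (n := 1)).differentiable (by norm_num)).differentiableAt.comp t hY)
  refine ⟨hd, ?_⟩
  set Lc : ℂ →L[ℝ] ℂ := LinearMap.toContinuousLinearMap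
    { toFun := Li m
      map_add' := fun x y => by simp only [Li, map_add]; ring
      map_smul' := fun r x => by
        simp only [Li, Complex.real_smul, map_mul, Complex.conj_ofReal, RingHom.id_apply]; ring }
    with hLc
  have h1 : HasFDerivAt (fun t => p + Li m (Y t)) (Lc.comp (fderiv ℝ Y t)) t :=
    (Lc.hasFDerivAt.comp t hY.hasFDerivAt).const_add p
  have h2 := dl_comp Lc (fderiv ℝ Y t)
  have h3 : dl Lc = 1 / den m ∧ dbl Lc = - m / den m := by
    apply dl_of_apply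
    intro v
    change Li m v = _
    simp only [Li]; ring
  simp only [dz, dzb]
  rw [h1.fderiv, h2.1, h2.2, h3.1, h3.2]
  constructor <;> ring

/-- base change of the two equations. -/
theorem basechange {m p : ℂ} (hm : ‖m‖ < 1) {μ β : ℂ × ℂ → ℂ} (h : ∀ x, ‖μ x‖ < 1)
    {Y G : ℂ → ℂ} {t : ℂ} (hY : DifferentiableAt ℝ Y t)
    (h1 : dzb Y t = - mu' m p μ (Y t, G t) * conj (dz Y t))
    (h2 : dzb G t = - be' m p μ β (Y t, G t) * conj (dz Y t)) :
    dzb (fun t => p + Li m (Y t)) t =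
      - μ (p + Li m (Y t), G t) * conj (dz (fun t => p + Li m (Y t)) t) ∧
    dzb G t = - β (p + Li m (Y t), G t) * conj (dz (fun t => p + Li m (Y t)) t) := by
  obtain ⟨_, h3, h4⟩ := hasFDerivAt_Li_comp (m := m) hY p
  rw [h3, h4, h1, h2]
  simp only [mu', be', map_div₀, conj_den, map_sub, map_mul, map_neg, Complex.conj_conj]
  set q := μ (p + Li m (Y t), G t) with hq
  set b := β (p + Li m (Y t), G t) with hb
  set c := (starRingEnd ℂ) (dz Y t) with hc
  have hqn : ‖q‖ < 1 := h _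
  have hd := den_ne hm
  have e1 : 1 - q * conj m ≠ 0 := by rw [mul_comm]; exact den_pos_ne hm hqn
  rw [mul_comm (conj m) q]
  constructor
  · field_simp
    ring
  · field_simp
    simp only [den]
    ring

end

end Crest.Agent.R235.EndD_745
end

-- ▼ part R235/Mono1_659
section

/-!
# Row 235, REG-END (E1): monodromy of a simple `k`-valued continuous function

A `k`-valued function on a punctured disc which is continuous (up to permutations) and has `k`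
distinct values everywhere is a finite union of cyclic covers.  Pure topology.
-/

namespace Crest.Agent.R235.Mono1_659

open Complex Metric Set Filter Topology Function

variable {k : ℕ}

/-- distinct values are uniformly separated -/
theorem exists_sep (c : Fin k → ℂ) (hc : Injective c) :
    ∃ ε > 0, ∀ i j, i ≠ j → 4 * ε ≤ ‖c i - c j‖ := by
  have h : ∀ᶠ ε : ℝ in 𝓝[>] 0, ∀ i j, i ≠ j → 4 * ε ≤ ‖c i - c j‖ := by
    rw [eventually_all]
    intro i
    rw [eventually_all]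
    intro j
    by_cases hij : i = j
    · exact Eventually.of_forall fun ε h => absurd hij h
    · have hpos : 0 < ‖c i - c j‖ := norm_pos_iff.2 (sub_ne_zero.2 fun h => hij (hc h))
      filter_upwards [Ioo_mem_nhdsGT (show (0:ℝ) < ‖c i - c j‖ / 4 by positivity)] with ε hε _
      linarith [hε.2]
  obtain ⟨ε, h1, h2⟩ := (h.and self_mem_nhdsWithin).exists
  exact ⟨ε, h2, h1⟩

/-- local sheets -/
theorem sheets (s : ℂ → Fin k → ℂ) (B : Set ℂ) (hB : IsOpen B)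
    (cont : ∀ z ∈ B, ∀ ε > 0, ∀ᶠ z' in 𝓝 z, ∃ τ : Equiv.Perm (Fin k),
      ∀ i, ‖s z' (τ i) - s z i‖ < ε)
    (inj : ∀ z ∈ B, Injective (s z)) {z0 : ℂ} (hz0 : z0 ∈ B) :
    ∃ U : Set ℂ, IsOpen U ∧ z0 ∈ U ∧ U ⊆ B ∧ ∃ (f : Fin k → ℂ → ℂ) (ε : ℝ),
      0 < ε ∧ (∀ i j, i ≠ j → 4 * ε ≤ ‖s z0 i - s z0 j‖) ∧
      (∀ i, ContinuousOn (f i) U) ∧
      (∀ z ∈ U, ∃ τ : Equiv.Perm (Fin k), ∀ i, s z (τ i) = f i z) ∧
      (∀ z ∈ U, ∀ i, ‖f i z - s z0 i‖ < ε) := by
  classical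
  obtain ⟨ε, hε, hsep⟩ := exists_sep (s z0) (inj z0 hz0)
  obtain ⟨U, hU1, hU2, hU3⟩ := _root_.eventually_nhds_iff.1 ((cont z0 hz0 ε hε).and (hB.mem_nhds hz0))
  have hUB : U ⊆ B := fun z hz => (hU1 z hz).2
  have hτ : ∀ z, ∃ τ : Equiv.Perm (Fin k), z ∈ U → ∀ i, ‖s z (τ i) - s z0 i‖ < ε := by
    intro z
    by_cases hz : z ∈ U
    · obtain ⟨τ, h⟩ := (hU1 z hz).1
      exact ⟨τ, fun _ => h⟩
    · exact ⟨1, fun h => absurd h hz⟩
  choose τ hτ using hτ
  refine ⟨U, hU2, hU3, hUB, fun i z => s z (τ z i), ε, hε, hsep, ?_,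
    fun z hz => ⟨τ z, fun i => rfl⟩, fun z hz i => hτ z hz i⟩
  -- uniqueness of the index
  have huniq : ∀ z ∈ U, ∀ i j, ‖s z j - s z0 i‖ < 2 * ε → τ z i = j := by
    intro z hz i j hj
    obtain ⟨i', rfl⟩ := (τ z).surjective j
    by_contra hne
    have hii : i ≠ i' := fun h => hne (by rw [h])
    have h1 := hτ z hz i'
    have h2 := hsep i i' hii
    have h3 : ‖s z0 i - s z0 i'‖ ≤ ‖s z (τ z i') - s z0 i‖ + ‖s z (τ z i') - s z0 i'‖ := by
      have : s z0 i - s z0 i' = (s z (τ z i') - s z0 i') - (s z (τ z i') - s z0 i) := by ring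
      rw [this]
      linarith [norm_sub_le (s z (τ z i') - s z0 i') (s z (τ z i') - s z0 i)]
    linarith
  intro i z1 hz1
  rw [Metric.continuousWithinAt_iff']
  intro δ hδ
  have h1 := cont z1 (hUB hz1) (min δ ε) (lt_min hδ hε)
  filter_upwards [mem_nhdsWithin_of_mem_nhds h1, self_mem_nhdsWithin] with z ⟨τ', h2⟩ hz
  have h3 := h2 (τ z1 i)
  have h4 : τ z i = τ' (τ z1 i) := by
    apply huniq z hz
    have h5 := hτ z1 hz1 i
    have h6 : s z (τ' (τ z1 i)) - s z0 i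
        = (s z (τ' (τ z1 i)) - s z1 (τ z1 i)) + (s z1 (τ z1 i) - s z0 i) := by ring
    rw [h6]
    have h7 := norm_add_le (s z (τ' (τ z1 i)) - s z1 (τ z1 i)) (s z1 (τ z1 i) - s z0 i)
    have h8 := lt_of_lt_of_le h3 (min_le_right _ _)
    linarith
  rw [dist_eq_norm]
  change ‖s z (τ z i) - s z1 (τ z1 i)‖ < δ
  rw [h4]
  exact lt_of_lt_of_le h3 (min_le_left _ _)

/-- total space of the multigraph -/
abbrev E (s : ℂ → Fin k → ℂ) (B : Set ℂ) : Type := {q : ℂ × ℂ // q.1 ∈ B ∧ ∃ i, s q.1 i = q.2}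

/-- projection -/
def pr (s : ℂ → Fin k → ℂ) (B : Set ℂ) (e : E s B) : ℂ := e.1.1

theorem pr_continuous (s : ℂ → Fin k → ℂ) (B : Set ℂ) : Continuous (pr s B) :=
  continuous_fst.comp continuous_subtype_val

theorem isCov (s : ℂ → Fin k → ℂ) (B : Set ℂ) (hB : IsOpen B)
    (cont : ∀ z ∈ B, ∀ ε > 0, ∀ᶠ z' in 𝓝 z, ∃ τ : Equiv.Perm (Fin k),
      ∀ i, ‖s z' (τ i) - s z i‖ < ε)
    (inj : ∀ z ∈ B, Injective (s z)) : IsCoveringMapOn (pr s B) B := by
  classical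
  intro z0 hz0
  obtain ⟨U, hU, hz0U, hUB, f, ε, hε, hsep, hfc, hfs, hfn⟩ := sheets s B hB cont inj hz0
  refine IsEvenlyCovered.to_isEvenlyCovered_preimage (I := Fin k) ?_
  -- index
  have hidx : ∀ e : (pr s B) ⁻¹' U, ∃ i, f i e.1.1.1 = e.1.1.2 := by
    rintro ⟨⟨⟨z, y⟩, hz, j, hj⟩, he⟩
    obtain ⟨τ, hτ⟩ := hfs z he
    refine ⟨τ.symm j, ?_⟩
    change f (τ.symm j) z = y
    rw [← hτ, Equiv.apply_symm_apply]
    exact hj
  choose idx hidx using hidx
  have hidx' : ∀ (e : (pr s B) ⁻¹' U) i, ‖e.1.1.2 - s z0 i‖ < 2 * ε → idx e = i := by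
    intro e i h
    by_contra hne
    have h1 := hfn e.1.1.1 e.2 (idx e)
    rw [hidx e] at h1
    have h2 := hsep _ _ hne
    have h3 : ‖s z0 (idx e) - s z0 i‖ ≤ ‖e.1.1.2 - s z0 i‖ + ‖e.1.1.2 - s z0 (idx e)‖ := by
      have : s z0 (idx e) - s z0 i = (e.1.1.2 - s z0 i) - (e.1.1.2 - s z0 (idx e)) := by ring
      rw [this]
      exact norm_sub_le _ _
    linarith
  have hidxn : ∀ (e : (pr s B) ⁻¹' U), ‖e.1.1.2 - s z0 (idx e)‖ < ε := by
    intro e
    have h1 := hfn e.1.1.1 e.2 (idx e)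
    rwa [hidx e] at h1
  have hidxc : Continuous idx := by
    rw [continuous_iff_continuousAt]
    intro e
    have h1 : ContinuousAt (fun e' : (pr s B) ⁻¹' U => ‖e'.1.1.2 - s z0 (idx e)‖) e := by
      fun_prop
    have h2 : ∀ᶠ e' in 𝓝 e, ‖e'.1.1.2 - s z0 (idx e)‖ < 2 * ε :=
      h1.eventually_lt continuousAt_const (by linarith [hidxn e])
    exact (continuousAt_const (y := idx e)).congr
      (h2.mono fun e' he' => (hidx' e' _ he').symm)
  refine ⟨inferInstance, U, hz0U, hU, hU.preimage (pr_continuous s B), ?_⟩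
  have hmem : ∀ (x : U × Fin k), ((x.1 : ℂ), f x.2 x.1) ∈
      {q : ℂ × ℂ | q.1 ∈ B ∧ ∃ i, s q.1 i = q.2} := by
    intro x
    obtain ⟨τ, hτ⟩ := hfs x.1 x.1.2
    exact ⟨hUB x.1.2, τ x.2, hτ x.2⟩
  have hfc' : Continuous fun x : U × Fin k => f x.2 x.1 := by
    rw [continuous_prod_of_discrete_right]
    intro i
    exact (hfc i).domRestrict
  refine ⟨{ toFun := fun e => (⟨e.1.1.1, e.2⟩, idx e)
            invFun := fun x => ⟨⟨((x.1 : ℂ), f x.2 x.1), hmem x⟩, x.1.2⟩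
            left_inv := ?_
            right_inv := ?_
            continuous_toFun := ?_
            continuous_invFun := ?_ }, ?_⟩
  · intro e
    apply Subtype.ext
    apply Subtype.ext
    exact Prod.ext rfl (hidx e)
  · intro x
    refine Prod.ext rfl ?_
    apply hidx'
    have := hfn x.1 x.1.2 x.2
    change ‖f x.2 x.1 - s z0 x.2‖ < 2 * ε
    linarith
  · refine Continuous.prodMk ?_ hidxc
    exact Continuous.subtype_mk (by fun_prop) _
  · refine Continuous.subtype_mk (Continuous.subtype_mk ?_ _) _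
    exact Continuous.prodMk (by fun_prop) hfc'
  · intro e
    rfl

/-- the half plane `Re w < log R` -/
def HP (R : ℝ) : Set ℂ := {w | w.re < Real.log R}

theorem HP_open (R : ℝ) : IsOpen (HP R) := isOpen_lt Complex.continuous_re continuous_const

theorem HP_convex (R : ℝ) : Convex ℝ (HP R) := convex_halfSpace_re_lt _

theorem mem_HP_iff {R : ℝ} (hR : 0 < R) {w : ℂ} : w ∈ HP R ↔ ‖exp w‖ < R := by
  rw [Complex.norm_exp]
  exact Real.lt_log_iff_exp_lt hR

theorem base_mem (R : ℝ) : ((Real.log R - 1 : ℝ) : ℂ) ∈ HP R := by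
  change ((Real.log R - 1 : ℝ) : ℂ).re < Real.log R
  rw [Complex.ofReal_re]
  linarith

theorem pexp_mem {p : ℂ} {R : ℝ} (hR : 0 < R) {w : ℂ} (hw : w ∈ HP R) :
    p + exp w ∈ ball p R \ {p} := by
  refine ⟨?_, ?_⟩
  · rw [mem_ball, dist_eq_norm, add_sub_cancel_left]
    exact (mem_HP_iff hR).1 hw
  · simp [Complex.exp_ne_zero]

/-- existence and uniqueness of lifts -/
theorem lift_exu (s : ℂ → Fin k → ℂ) (p : ℂ) (R : ℝ) (hR : 0 < R)
    (cont : ∀ z ∈ ball p R \ {p}, ∀ ε > 0, ∀ᶠ z' in 𝓝 z, ∃ τ : Equiv.Perm (Fin k),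
      ∀ i, ‖s z' (τ i) - s z i‖ < ε)
    (inj : ∀ z ∈ ball p R \ {p}, Injective (s z)) {w0 : ℂ} (hw0 : w0 ∈ HP R) (i : Fin k) :
    ∃ g : ℂ → ℂ, (ContinuousOn g (HP R) ∧ (∀ w ∈ HP R, ∃ j, s (p + exp w) j = g w) ∧
      g w0 = s (p + exp w0) i) ∧ ∀ g' : ℂ → ℂ, (ContinuousOn g' (HP R) ∧
      (∀ w ∈ HP R, ∃ j, s (p + exp w) j = g' w) ∧ g' w0 = s (p + exp w0) i) →
        EqOn g' g (HP R) := by
  classical
  have hB : IsOpen (ball p R \ {p}) := isOpen_ball.sdiff isClosed_singleton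
  have hcov := isCov s _ hB cont inj
  have : ContractibleSpace (HP R) := (HP_convex R).contractibleSpace ⟨_, base_mem R⟩
  have : LocallyPathConnectedSpace (HP R) := (HP_open R).locallyPathConnectedSpace
  let f : C(HP R, ℂ) := ⟨fun w => p + exp (w : ℂ), by fun_prop⟩
  let e0 : E s (ball p R \ {p}) := ⟨(p + exp w0, s (p + exp w0) i), pexp_mem hR hw0, i, rfl⟩
  obtain ⟨F, ⟨hF1, hF2⟩, hF3⟩ := hcov.existsUnique_continuousMap_lifts f (a₀ := ⟨w0, hw0⟩)
    (e₀ := e0) rfl (fun a => pexp_mem hR a.2)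
  have hFp : ∀ w, (F w).1.1 = p + exp (w : ℂ) := fun w => congrFun hF2 w
  refine ⟨fun w => if h : w ∈ HP R then (F ⟨w, h⟩).1.2 else 0, ⟨?_, ?_, ?_⟩, ?_⟩
  · rw [continuousOn_iff_continuous_domRestrict]
    have h1 : Continuous fun w : HP R => (F w).1.2 :=
      (continuous_snd.comp continuous_subtype_val).comp F.continuous
    refine h1.congr fun w => ?_
    simp [Set.domRestrict_apply]
  · intro w hw
    obtain ⟨h1, j, hj⟩ := (F ⟨w, hw⟩).2
    rw [hFp] at hj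
    refine ⟨j, ?_⟩
    beta_reduce
    rw [dif_pos hw]
    exact hj
  · beta_reduce
    rw [dif_pos hw0, hF1]
  · rintro g' ⟨h1, h2, h3⟩ w hw
    beta_reduce
    rw [dif_pos hw]
    let G : C(HP R, E s (ball p R \ {p})) :=
      ⟨fun w => ⟨(p + exp (w : ℂ), g' w), pexp_mem hR w.2, h2 w w.2⟩, by
        refine Continuous.subtype_mk (Continuous.prodMk (by fun_prop) ?_) _
        exact continuousOn_iff_continuous_domRestrict.1 h1⟩
    have h4 : G = F := by
      apply hF3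
      refine ⟨?_, rfl⟩
      apply Subtype.ext
      exact Prod.ext rfl h3
    rw [← h4]
    rfl

/-- two continuous choices which agree at one point agree -/
theorem lift_unique (s : ℂ → Fin k → ℂ) (p : ℂ) (R : ℝ) (hR : 0 < R)
    (cont : ∀ z ∈ ball p R \ {p}, ∀ ε > 0, ∀ᶠ z' in 𝓝 z, ∃ τ : Equiv.Perm (Fin k),
      ∀ i, ‖s z' (τ i) - s z i‖ < ε)
    (inj : ∀ z ∈ ball p R \ {p}, Injective (s z)) {g g' : ℂ → ℂ}
    (hg : ContinuousOn g (HP R)) (hgs : ∀ w ∈ HP R, ∃ j, s (p + exp w) j = g w)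
    (hg' : ContinuousOn g' (HP R)) (hgs' : ∀ w ∈ HP R, ∃ j, s (p + exp w) j = g' w)
    {w0 : ℂ} (hw0 : w0 ∈ HP R) (h : g w0 = g' w0) : EqOn g g' (HP R) := by
  obtain ⟨i, hi⟩ := hgs w0 hw0
  obtain ⟨G, -, hG⟩ := lift_exu s p R hR cont inj hw0 i
  have h1 := hG g ⟨hg, hgs, hi.symm⟩
  have h2 := hG g' ⟨hg', hgs', by rw [← h, hi]⟩
  exact h1.trans h2.symm

/-- all the lifts -/
theorem lifts (s : ℂ → Fin k → ℂ) (p : ℂ) (R : ℝ) (hR : 0 < R)
    (cont : ∀ z ∈ ball p R \ {p}, ∀ ε > 0, ∀ᶠ z' in 𝓝 z, ∃ τ : Equiv.Perm (Fin k),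
      ∀ i, ‖s z' (τ i) - s z i‖ < ε)
    (inj : ∀ z ∈ ball p R \ {p}, Injective (s z)) :
    ∃ h : Fin k → ℂ → ℂ, (∀ i, ContinuousOn (h i) (HP R)) ∧
      (∀ w ∈ HP R, ∃ τ : Equiv.Perm (Fin k), ∀ i, s (p + exp w) (τ i) = h i w) ∧
      (∀ i j, ∀ w ∈ HP R, h i w = h j w → i = j) ∧
      (∀ g : ℂ → ℂ, ContinuousOn g (HP R) → (∀ w ∈ HP R, ∃ j, s (p + exp w) j = g w) →
        ∃ i, EqOn g (h i) (HP R)) := by
  classical
  have hw0 := base_mem R
  set w0 : ℂ := ((Real.log R - 1 : ℝ) : ℂ) with hw0d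
  choose h h1 h2 using fun i => lift_exu s p R hR cont inj hw0 i
  have hinj : ∀ i j, ∀ w ∈ HP R, h i w = h j w → i = j := by
    intro i j w hw hij
    have h3 := lift_unique s p R hR cont inj (h1 i).1 (h1 i).2.1 (h1 j).1 (h1 j).2.1 hw hij hw0
    rw [(h1 i).2.2, (h1 j).2.2] at h3
    exact inj _ (pexp_mem hR hw0) h3
  refine ⟨h, fun i => (h1 i).1, ?_, hinj, ?_⟩
  · intro w hw
    choose τ hτ using fun i => (h1 i).2.1 w hw
    have hτi : Injective τ := by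
      intro i j hij
      apply hinj i j w hw
      rw [← hτ i, ← hτ j, hij]
    exact ⟨Equiv.ofBijective τ (Finite.injective_iff_bijective.1 hτi), hτ⟩
  · intro g hg hgs
    obtain ⟨i, hi⟩ := hgs w0 hw0
    exact ⟨i, h2 i g ⟨hg, hgs, hi.symm⟩⟩

end Crest.Agent.R235.Mono1_659
end

-- ▼ part R235/Mono_659
section

/-!
# Row 235, REG-END (E1): monodromy, final statement

`mono` : a `k`-valued function on a punctured disc, continuous up to permutations, with `k`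
distinct values everywhere, is a finite union of cyclic covers `ζ ↦ (p + ζ ^ m, g ζ)`.
-/

namespace Crest.Agent.R235.Mono_659

open Complex Metric Set Filter Topology Function Crest.Agent.R235.Mono1_659

variable {k : ℕ}

theorem HP_add {R : ℝ} {w : ℂ} (hw : w ∈ HP R) (n : ℤ) :
    w + n * (2 * Real.pi * I) ∈ HP R := by
  have h : (w + n * (2 * Real.pi * I)).re = w.re := by
    simp
  change (w + n * (2 * Real.pi * I)).re < Real.log R
  rw [h]
  exact hw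

theorem exp_add_per (w : ℂ) (n : ℤ) : exp (w + n * (2 * Real.pi * I)) = exp w := by
  rw [Complex.exp_add, Complex.exp_int_mul_two_pi_mul_I, mul_one]

/-- A continuous choice among finitely many continuous branches with distinct values is one of the
branches near the point. -/
theorem eventually_sheet {X : Type*} [TopologicalSpace X] (γ : X → ℂ) (F : Fin k → X → ℂ) (x0 : X)
    (hγ : ContinuousAt γ x0) (hF : ∀ i, ContinuousAt (F i) x0)
    (hinj : Injective fun i => F i x0) (h : ∀ᶠ x in 𝓝 x0, ∃ i, F i x = γ x) :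
    ∃ i, ∀ᶠ x in 𝓝 x0, γ x = F i x := by
  obtain ⟨i, hi⟩ := h.self_of_nhds
  refine ⟨i, ?_⟩
  have h1 : ∀ᶠ x in 𝓝 x0, ∀ j, j ≠ i → F j x ≠ γ x := by
    rw [eventually_all]
    intro j
    by_cases hj : j = i
    · exact Eventually.of_forall fun x hx => absurd hj hx
    · have h2 : F j x0 ≠ γ x0 := fun h3 => hj (hinj (h3.trans hi.symm))
      filter_upwards [(ContinuousAt.ne_iff_eventually_ne (hF j) hγ).1 h2] with x hx _
      exact hx
  filter_upwards [h, h1] with x ⟨j, hj⟩ h2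
  by_cases hji : j = i
  · rw [← hji, hj]
  · exact absurd hj (h2 j hji)

/-- the monodromy permutation -/
theorem exists_perm (s : ℂ → Fin k → ℂ) (p : ℂ) (R : ℝ) (h : Fin k → ℂ → ℂ)
    (h1 : ∀ i, ContinuousOn (h i) (HP R))
    (h2 : ∀ w ∈ HP R, ∃ τ : Equiv.Perm (Fin k), ∀ i, s (p + exp w) (τ i) = h i w)
    (h3 : ∀ i j, ∀ w ∈ HP R, h i w = h j w → i = j)
    (h4 : ∀ g : ℂ → ℂ, ContinuousOn g (HP R) → (∀ w ∈ HP R, ∃ j, s (p + exp w) j = g w) →
        ∃ i, EqOn g (h i) (HP R)) :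
    ∃ σ : Equiv.Perm (Fin k), ∀ (n : ℤ) i, ∀ w ∈ HP R,
      h i (w + n * (2 * Real.pi * I)) = h ((σ ^ n) i) w := by
  classical
  have h5 : ∀ i, ∃ j, EqOn (fun w => h i (w + 2 * Real.pi * I)) (h j) (HP R) := by
    intro i
    have hadd : ∀ w ∈ HP R, w + 2 * Real.pi * I ∈ HP R := by
      intro w hw
      have := HP_add hw 1
      simpa using this
    refine h4 _ ((h1 i).comp (by fun_prop) hadd) ?_
    intro w hw
    obtain ⟨τ, hτ⟩ := h2 _ (hadd w hw)
    refine ⟨τ i, ?_⟩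
    have h6 := hτ i
    rw [Complex.exp_add, Complex.exp_two_pi_mul_I, mul_one] at h6
    exact h6
  choose σ0 hσ0 using h5
  have hinj : Injective σ0 := by
    intro i j hij
    have hw := base_mem R
    have h6 := hσ0 i hw
    have h7 := hσ0 j hw
    rw [hij] at h6
    have hadd := HP_add hw 1
    rw [Int.cast_one, one_mul] at hadd
    exact h3 i j _ hadd (h6.trans h7.symm)
  let σ : Equiv.Perm (Fin k) := Equiv.ofBijective σ0 (Finite.injective_iff_bijective.1 hinj)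
  have hσ : ∀ i, ∀ w ∈ HP R, h i (w + 2 * Real.pi * I) = h (σ i) w := fun i w hw => hσ0 i hw
  refine ⟨σ, ?_⟩
  intro n
  induction n using Int.induction_on with
  | zero => intro i w _; simp
  | succ n ih =>
    intro i w hw
    have h6 := HP_add hw n
    have h7 : w + ((n : ℤ) + 1 : ℤ) * (2 * Real.pi * I)
        = (w + ((n : ℤ) : ℂ) * (2 * Real.pi * I)) + 2 * Real.pi * I := by push_cast; ring
    rw [h7, hσ i _ h6, ih (σ i) w hw, zpow_add_one, Equiv.Perm.mul_apply]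
  | pred n ih =>
    intro i w hw
    have h6 : w + ((-(n : ℤ) - 1 : ℤ) : ℂ) * (2 * Real.pi * I) ∈ HP R := HP_add hw _
    have h7 : w + ((-(n : ℤ) : ℤ) : ℂ) * (2 * Real.pi * I)
        = (w + ((-(n : ℤ) - 1 : ℤ) : ℂ) * (2 * Real.pi * I)) + 2 * Real.pi * I := by
      push_cast; ring
    have h8 : h (σ⁻¹ i) (w + ((-(n : ℤ) : ℤ) : ℂ) * (2 * Real.pi * I))
        = h i (w + ((-(n : ℤ) - 1 : ℤ) : ℂ) * (2 * Real.pi * I)) := by
      rw [h7, hσ _ _ h6]
      simp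
    rw [← h8, ih (σ⁻¹ i) w hw, zpow_sub_one, Equiv.Perm.mul_apply]

/-- **Monodromy of a simple `k`-valued function on a punctured disc.** -/
theorem mono (s : ℂ → Fin k → ℂ) (p : ℂ) (R : ℝ) (hR : 0 < R)
    (cont : ∀ z ∈ ball p R \ {p}, ∀ ε > 0, ∀ᶠ z' in 𝓝 z, ∃ τ : Equiv.Perm (Fin k),
      ∀ i, ‖s z' (τ i) - s z i‖ < ε)
    (inj : ∀ z ∈ ball p R \ {p}, Injective (s z)) :
    ∃ (J : ℕ) (m : Fin J → ℕ) (g : Fin J → ℂ → ℂ), (∀ j, 0 < m j) ∧ ∑ j, m j = k ∧
      (∀ j, ContinuousOn (g j) {ζ | ζ ≠ 0 ∧ ‖ζ‖ ^ m j < R}) ∧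
      (∀ j ζ, ζ ≠ 0 → ‖ζ‖ ^ m j < R → ∃ i, s (p + ζ ^ m j) i = g j ζ) ∧
      (∀ z ∈ ball p R \ {p}, ∀ i, ∃ j ζ, ζ ^ m j = z - p ∧ g j ζ = s z i) ∧
      (∀ j j' ζ ζ', ζ ≠ 0 → ‖ζ‖ ^ m j < R → ζ ^ m j = ζ' ^ m j' → g j ζ = g j' ζ' →
        j = j' ∧ ζ = ζ') := by
  classical
  obtain ⟨h, h1, h2, h3, h4⟩ := lifts s p R hR cont inj
  obtain ⟨σ, hσ⟩ := exists_perm s p R h h1 h2 h3 h4
  -- cycles
  let Q := Quotient (Equiv.Perm.SameCycle.setoid σ)
  have : Fintype Q := Quotient.fintype _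
  let e : Fin (Fintype.card Q) ≃ Q := (Fintype.equivFin Q).symm
  let r : Fin (Fintype.card Q) → Fin k := fun j => (e j).out
  have hr : ∀ j, (Quotient.mk _ (r j) : Q) = e j := fun j => Quotient.out_eq _
  have hrc : ∀ j j', σ.SameCycle (r j) (r j') → j = j' := by
    intro j j' hjj
    apply e.injective
    rw [← hr j, ← hr j']
    exact Quotient.sound hjj
  have hre : ∀ i, ∃ j, σ.SameCycle (r j) i := by
    intro i
    refine ⟨e.symm (Quotient.mk _ i), ?_⟩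
    have h5 := hr (e.symm (Quotient.mk _ i))
    rw [Equiv.apply_symm_apply] at h5
    exact Quotient.exact h5
  let m : Fin (Fintype.card Q) → ℕ := fun j => minimalPeriod σ (r j)
  have hm : ∀ j, 0 < m j := by
    intro j
    apply Function.minimalPeriod_pos_of_mem_periodicPts
    exact Function.Injective.mem_periodicPts σ.injective (r j)
  have hmp : ∀ j (n : ℤ), (σ ^ n) (r j) = r j ↔ ((m j : ℤ) ∣ n) := by
    intro j n
    have h5 := MulAction.zpow_smul_eq_iff_minimalPeriod_dvd (a := σ) (b := r j) (n := n)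
    simpa [Equiv.Perm.smul_def] using h5
  have hm0 : ∀ j, (m j : ℂ) ≠ 0 := fun j => Nat.cast_ne_zero.2 (hm j).ne'
  have hexp : ∀ j ζ, ζ ≠ 0 → exp ((m j : ℂ) * log ζ) = ζ ^ m j := by
    intro j ζ hζ
    rw [Complex.exp_nat_mul, Complex.exp_log hζ]
  have hmem : ∀ j ζ, ζ ≠ 0 → ‖ζ‖ ^ m j < R → (m j : ℂ) * log ζ ∈ HP R := by
    intro j ζ hζ hζR
    rw [mem_HP_iff hR, hexp j ζ hζ, norm_pow]
    exact hζR
  let g : Fin (Fintype.card Q) → ℂ → ℂ := fun j ζ => h (r j) ((m j : ℂ) * log ζ)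
  have hkey : ∀ j ζ w, ζ ≠ 0 → exp (w / m j) = ζ → w ∈ HP R → h (r j) w = g j ζ := by
    intro j ζ w hζ hw hwR
    rw [← Complex.exp_log hζ] at hw
    obtain ⟨n, hn⟩ := Complex.exp_eq_exp_iff_exists_int.1 hw
    have h5 : w = (m j : ℂ) * log ζ + ((m j : ℤ) * n : ℤ) * (2 * Real.pi * I) := by
      rw [div_eq_iff (hm0 j)] at hn
      rw [hn]
      push_cast
      ring
    have h6 : (m j : ℂ) * log ζ ∈ HP R := by
      have h7 := HP_add hwR (-((m j : ℤ) * n))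
      rw [h5] at h7
      convert h7 using 1
      push_cast
      ring
    rw [h5, hσ _ _ _ h6, (hmp j _).2 (dvd_mul_right _ _)]
  refine ⟨Fintype.card Q, m, g, hm, ?_, ?_, ?_, ?_, ?_⟩
  · -- cardinality
    have hb : Bijective fun x : (Σ j, Fin (m j)) => (σ ^ ((x.2 : ℕ) : ℤ)) (r x.1) := by
      constructor
      · rintro ⟨j, a⟩ ⟨j', a'⟩ hjj
        change (σ ^ ((a : ℕ) : ℤ)) (r j) = (σ ^ ((a' : ℕ) : ℤ)) (r j') at hjj
        have h5 : (σ ^ (((a : ℕ) : ℤ) - ((a' : ℕ) : ℤ))) (r j) = r j' := by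
          rw [sub_eq_neg_add, zpow_add, Equiv.Perm.mul_apply, hjj, ← Equiv.Perm.mul_apply,
            ← zpow_add, neg_add_cancel, zpow_zero, Equiv.Perm.one_apply]
        have h6 : j = j' := hrc j j' ⟨_, h5⟩
        subst h6
        have h7 := (hmp j _).1 h5
        have h8 : (a : ℕ) = (a' : ℕ) := by
          have ha := a.2
          have ha' := a'.2
          by_contra hne
          have h9 : ((a : ℕ) : ℤ) - ((a' : ℕ) : ℤ) ≠ 0 := by omega
          have h10 := Int.le_of_dvd (abs_pos.2 h9) ((dvd_abs _ _).2 h7)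
          rcases abs_cases (((a : ℕ) : ℤ) - ((a' : ℕ) : ℤ)) with h11 | h11 <;> omega
        rw [Fin.ext h8]
      · intro i
        obtain ⟨j, n, hn⟩ := hre i
        have h5 : (0 : ℤ) < m j := by exact_mod_cast hm j
        have h6 := Int.emod_nonneg n h5.ne'
        have h7 := Int.emod_lt_of_pos n h5
        refine ⟨⟨j, ⟨(n % (m j : ℤ)).toNat, by omega⟩⟩, ?_⟩
        change (σ ^ (((n % (m j : ℤ)).toNat : ℕ) : ℤ)) (r j) = i
        rw [Int.toNat_of_nonneg h6, ← hn]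
        have h8 : (σ ^ n) (r j) = (σ ^ (n % (m j : ℤ))) ((σ ^ ((m j : ℤ) * (n / (m j : ℤ)))) (r j)) := by
          rw [← Equiv.Perm.mul_apply, ← zpow_add, Int.emod_add_mul_ediv]
        rw [h8, (hmp j _).2 (dvd_mul_right _ _)]
    have h5 := Fintype.card_of_bijective hb
    rw [Fintype.card_sigma, Fintype.card_fin] at h5
    rw [← h5]
    exact Finset.sum_congr rfl fun j _ => (Fintype.card_fin _).symm
  · -- continuity
    rintro j ζ0 ⟨hζ0, hζ0R⟩
    have hL : ∀ ζ, ζ ≠ 0 → exp (log ζ0 + log (ζ / ζ0)) = ζ := by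
      intro ζ hζ
      rw [Complex.exp_add, Complex.exp_log hζ0, Complex.exp_log (div_ne_zero hζ hζ0)]
      field_simp
    have hLm : ∀ ζ, ζ ≠ 0 → ‖ζ‖ ^ m j < R →
        (m j : ℂ) * (log ζ0 + log (ζ / ζ0)) ∈ HP R := by
      intro ζ hζ hζR
      rw [mem_HP_iff hR, Complex.exp_nat_mul, hL ζ hζ, norm_pow]
      exact hζR
    have h5 : ∀ ζ ∈ {ζ : ℂ | ζ ≠ 0 ∧ ‖ζ‖ ^ m j < R},
        g j ζ = h (r j) ((m j : ℂ) * (log ζ0 + log (ζ / ζ0))) := by
      rintro ζ ⟨hζ, hζR⟩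
      refine (hkey j ζ _ hζ ?_ (hLm ζ hζ hζR)).symm
      rw [mul_div_cancel_left₀ _ (hm0 j), hL ζ hζ]
    refine ContinuousWithinAt.congr ?_ h5 (h5 ζ0 ⟨hζ0, hζ0R⟩)
    have h6 : ContinuousAt (fun ζ : ℂ => (m j : ℂ) * (log ζ0 + log (ζ / ζ0))) ζ0 := by
      have h7 : ContinuousAt (fun ζ : ℂ => log (ζ / ζ0)) ζ0 := by
        have h8 : ContinuousAt log (ζ0 / ζ0) := by
          rw [div_self hζ0]
          exact continuousAt_clog Complex.one_mem_slitPlane
        exact ContinuousAt.comp (f := fun ζ : ℂ => ζ / ζ0) h8 (by fun_prop)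
      fun_prop
    exact ContinuousWithinAt.comp (h1 (r j) _ (hLm ζ0 hζ0 hζ0R)) h6.continuousWithinAt
      (fun ζ hζ => hLm ζ hζ.1 hζ.2)
  · -- values
    intro j ζ hζ hζR
    obtain ⟨τ, hτ⟩ := h2 _ (hmem j ζ hζ hζR)
    refine ⟨τ (r j), ?_⟩
    rw [← hexp j ζ hζ]
    exact hτ (r j)
  · -- all values
    rintro z ⟨hz1, hz2⟩ i
    have hz3 : z - p ≠ 0 := sub_ne_zero.2 hz2
    have hw : log (z - p) ∈ HP R := by
      rw [mem_HP_iff hR, Complex.exp_log hz3]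
      rwa [mem_ball, dist_eq_norm] at hz1
    obtain ⟨τ, hτ⟩ := h2 _ hw
    rw [Complex.exp_log hz3, add_sub_cancel] at hτ
    obtain ⟨j, n, hn⟩ := hre (τ.symm i)
    have h5 := hτ (τ.symm i)
    rw [Equiv.apply_symm_apply] at h5
    refine ⟨j, exp ((log (z - p) + n * (2 * Real.pi * I)) / m j), ?_, ?_⟩
    · rw [← Complex.exp_nat_mul, mul_div_cancel₀ _ (hm0 j), exp_add_per, Complex.exp_log hz3]
    · rw [← hkey j _ _ (Complex.exp_ne_zero _) rfl (HP_add hw n), hσ n _ _ hw, hn, h5]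
  · -- injectivity
    intro j j' ζ ζ' hζ hζR hpow hgg
    have hζ' : ζ' ≠ 0 := by
      rintro rfl
      rw [zero_pow (hm j').ne'] at hpow
      exact pow_ne_zero _ hζ hpow
    have hw := hmem j ζ hζ hζR
    have h5 : exp ((m j' : ℂ) * log ζ') = exp ((m j : ℂ) * log ζ) := by
      rw [hexp j ζ hζ, hexp j' ζ' hζ', hpow]
    obtain ⟨n, hn⟩ := Complex.exp_eq_exp_iff_exists_int.1 h5
    have h6 : h (r j) ((m j : ℂ) * log ζ) = h ((σ ^ n) (r j')) ((m j : ℂ) * log ζ) := by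
      rw [← hσ n _ _ hw, ← hn]
      exact hgg
    have h7 := h3 _ _ _ hw h6
    have h8 : j = j' := (hrc j' j ⟨n, h7.symm⟩).symm
    subst h8
    refine ⟨rfl, ?_⟩
    obtain ⟨b, hb⟩ := (hmp j n).1 h7.symm
    have h9 : log ζ' = log ζ + b * (2 * Real.pi * I) := by
      apply mul_left_cancel₀ (hm0 j)
      rw [hn, hb]
      push_cast
      ring
    rw [← Complex.exp_log hζ', h9, exp_add_per, Complex.exp_log hζ]

end Crest.Agent.R235.Mono_659
end

-- ▼ part R235/EndE_745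
section

/-!
Row 235, package REG, leaf REG-END (helper745), part 5: the branches of a `k`-valued graph at a
point where all values coincide: cyclic covers, Hölder continuity up to the centre, equation.
-/

set_option autoImplicit false

open Complex Metric Set Filter Topology
open scoped ContDiff ComplexConjugate

namespace Crest.Agent.R235.EndE_745

open Crest.Agent.R235.NWDefs_334 Crest.Agent.R235.NWIface_334 Crest.Agent.R235.EndA_745
open Crest.Agent.R235.Loc Crest.Agent.R235.End Crest.Agent.R235.EndD_745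

noncomputable section

/-! ### connected sets in finitely many discs -/

theorem spread {k : ℕ} {A : Finset ℂ} (hA : A.card ≤ k) {ρ : ℝ} {f : ℝ → ℂ}
    (hf : ContinuousOn f (Icc 0 1)) (h : ∀ t ∈ Icc (0 : ℝ) 1, ∃ a ∈ A, dist (f t) a ≤ ρ) :
    dist (f 1) (f 0) ≤ 2 * k * ρ := by
  by_contra hcon
  push Not at hcon
  obtain ⟨a0, ha0, hda0⟩ := h 0 (by simp)
  have hρ : 0 ≤ ρ := dist_nonneg.trans hda0
  have hk : 0 < k := lt_of_lt_of_le (Finset.card_pos.2 ⟨a0, ha0⟩) hA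
  have hk' : (0 : ℝ) < k := by exact_mod_cast hk
  set D := dist (f 1) (f 0) with hD
  have hDpos : 0 ≤ D := dist_nonneg
  have hcont : ContinuousOn (fun t => dist (f t) (f 0)) (Icc 0 1) :=
    (continuous_id.dist continuous_const).comp_continuousOn hf
  have hiv := intermediate_value_Icc (zero_le_one' ℝ) hcont
  have hex : ∀ i : Fin (k + 1), ∃ t ∈ Icc (0 : ℝ) 1, dist (f t) (f 0) = D * i / k := by
    intro i
    have hi : (i : ℝ) ≤ k := by exact_mod_cast Nat.lt_succ_iff.1 i.2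
    have hmem : D * i / k ∈ Icc (dist (f 0) (f 0)) (dist (f 1) (f 0)) := by
      rw [dist_self]
      refine ⟨by positivity, ?_⟩
      rw [div_le_iff₀ hk']
      exact mul_le_mul_of_nonneg_left hi hDpos
    obtain ⟨t, ht, hte⟩ := hiv hmem
    exact ⟨t, ht, hte⟩
  choose t ht hte using hex
  choose a ha hda using fun i => h (t i) (ht i)
  have hcard : A.card < (Finset.univ : Finset (Fin (k + 1))).card := by
    rw [Finset.card_univ, Fintype.card_fin]; omega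
  obtain ⟨i, -, j, -, hij, haij⟩ :=
    Finset.exists_ne_map_eq_of_card_lt_of_maps_to hcard (f := a) (fun i _ => ha i)
  have h1 : dist (f (t i)) (f (t j)) ≤ 2 * ρ := by
    calc dist (f (t i)) (f (t j)) ≤ dist (f (t i)) (a i) + dist (f (t j)) (a i) :=
          dist_triangle_right _ _ _
      _ ≤ ρ + ρ := add_le_add (hda i) (by rw [haij]; exact hda j)
      _ = 2 * ρ := by ring
  have h2 : |dist (f (t i)) (f 0) - dist (f (t j)) (f 0)| ≤ dist (f (t i)) (f (t j)) :=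
    abs_dist_sub_le _ _ _
  rw [hte, hte] at h2
  have h3 : D / k ≤ |D * i / k - D * j / k| := by
    have h4 : D * i / k - D * j / k = (D / k) * ((i : ℝ) - j) := by ring
    rw [h4, abs_mul, abs_of_nonneg (by positivity)]
    have h5 : (1 : ℝ) ≤ |(i : ℝ) - j| := by
      have h6 : ((i : ℕ) : ℤ) - ((j : ℕ) : ℤ) ≠ 0 := by
        intro h7
        apply hij
        apply Fin.ext
        omega
      have h7 : (1 : ℤ) ≤ |((i : ℕ) : ℤ) - ((j : ℕ) : ℤ)| := Int.one_le_abs h6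
      exact_mod_cast h7
    exact le_mul_of_one_le_right (by positivity) h5
  have h4 : D / k ≤ 2 * ρ := h3.trans (h2.trans h1)
  rw [div_le_iff₀ hk'] at h4
  nlinarith

theorem pow_sub_le {x y : ℂ} (hx : ‖x‖ ≤ 1) (hy : ‖y‖ ≤ 1) (n : ℕ) :
    ‖x ^ n - y ^ n‖ ≤ n * ‖x - y‖ := by
  induction n with
  | zero => simp
  | succ n ih =>
    have h1 : x ^ (n + 1) - y ^ (n + 1) = x * (x ^ n - y ^ n) + (x - y) * y ^ n := by ring
    have h2 : ‖y ^ n‖ ≤ 1 := by rw [norm_pow]; exact pow_le_one₀ (norm_nonneg _) hy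
    calc ‖x ^ (n + 1) - y ^ (n + 1)‖ ≤ ‖x * (x ^ n - y ^ n)‖ + ‖(x - y) * y ^ n‖ := by
          rw [h1]; exact norm_add_le _ _
      _ ≤ 1 * (n * ‖x - y‖) + ‖x - y‖ * 1 := by
          rw [norm_mul, norm_mul]
          exact add_le_add (mul_le_mul hx ih (norm_nonneg _) zero_le_one)
            (mul_le_mul_of_nonneg_left h2 (norm_nonneg _))
      _ = ((n + 1 : ℕ) : ℝ) * ‖x - y‖ := by push_cast; ring

/-! ### reduced data -/

/-- a `k`-valued graph over `ball 0 R`, all values equal at `0`, simple off `0`, with sheets. -/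
structure RG (mu be : ℂ × ℂ → ℂ) (T : ℂ → Multiset ℂ) (k : ℕ) (R C b : ℝ) (w0 : ℂ) : Prop where
  R0 : 0 < R
  C0 : 0 ≤ C
  b0 : 0 < b
  k0 : 0 < k
  card : ∀ y ∈ ball (0 : ℂ) R, (T y).card = k
  hold : ∀ y ∈ ball (0 : ℂ) R, ∀ y' ∈ ball (0 : ℂ) R, Close (C * dist y y' ^ b) (T y) (T y')
  zero : T 0 = Multiset.replicate k w0
  nodup : ∀ y ∈ ball (0 : ℂ) R, y ≠ 0 → (T y).Nodup
  sheets : ∀ y ∈ ball (0 : ℂ) R, y ≠ 0 → ∃ r > 0, ∃ f : Fin k → ℂ → ℂ,
    (∀ i, ∀ y' ∈ ball y r, DifferentiableAt ℝ (f i) y' ∧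
      dzb (f i) y' = mu (y', f i y') * dz (f i) y' - be (y', f i y')) ∧
    ∀ y' ∈ ball y r, T y' = Multiset.map (fun i => f i y') Finset.univ.val

section

variable {mu be : ℂ × ℂ → ℂ} {T : ℂ → Multiset ℂ} {k : ℕ} {R C b : ℝ} {w0 : ℂ}

theorem RG.near (h : RG mu be T k R C b w0) {y y' : ℂ} (hy : y ∈ ball (0 : ℂ) R)
    (hy' : y' ∈ ball (0 : ℂ) R) {w : ℂ} (hw : w ∈ T y') :
    ∃ a ∈ T y, dist w a ≤ C * dist y y' ^ b := by
  obtain ⟨a, ha, hd⟩ := Multiset.exists_mem_of_rel_of_mem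
    (Multiset.rel_flip.2 (h.hold y hy y' hy')) hw
  exact ⟨a, ha, by rw [dist_comm]; exact hd⟩

/-- Hölder estimate of a continuous branch. -/
theorem RG.branch_hold (h : RG mu be T k R C b w0) {n : ℕ} {r : ℝ} (hr1 : r ≤ 1) (hrR : r ≤ R)
    (hn : 0 < n) {g : ℂ → ℂ} (hg : ContinuousOn g (ball 0 r))
    (hm : ∀ s ∈ ball (0 : ℂ) r, g s ∈ T (s ^ n)) :
    ∀ s ∈ ball (0 : ℂ) r, ∀ s' ∈ ball (0 : ℂ) r,
      ‖g s - g s'‖ ≤ 2 * k * (C * (n : ℝ) ^ b) * dist s s' ^ b := by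
  have hpow : ∀ s ∈ ball (0 : ℂ) r, s ^ n ∈ ball (0 : ℂ) R := by
    intro s hs
    rw [mem_ball_zero_iff] at hs ⊢
    rw [norm_pow]
    calc ‖s‖ ^ n ≤ ‖s‖ ^ 1 := pow_le_pow_of_le_one (norm_nonneg _) (hs.le.trans hr1) hn
      _ = ‖s‖ := pow_one _
      _ < R := lt_of_lt_of_le hs hrR
  intro s hs s' hs'
  have hseg : ∀ t ∈ Icc (0 : ℝ) 1, s + (t : ℂ) * (s' - s) ∈ ball (0 : ℂ) r := by
    intro t ht
    have := (convex_ball (0 : ℂ) r).add_smul_sub_mem hs hs' ht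
    rwa [Complex.real_smul] at this
  have hcont : ContinuousOn (fun t : ℝ => g (s + (t : ℂ) * (s' - s))) (Icc 0 1) := by
    refine hg.comp (Continuous.continuousOn (by fun_prop)) hseg
  have hsn1 : ‖s‖ ≤ 1 := ((mem_ball_zero_iff.1 hs).le.trans hr1)
  have key := spread (k := k) (A := (T (s ^ n)).toFinset) (ρ := C * (n * dist s s') ^ b)
    (Multiset.toFinset_card_le _ |>.trans (h.card _ (hpow s hs)).le) hcont (by
      intro t ht
      obtain ⟨a, ha, hd⟩ := h.near (hpow s hs) (hpow _ (hseg t ht)) (hm _ (hseg t ht))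
      refine ⟨a, Multiset.mem_toFinset.2 ha, hd.trans ?_⟩
      refine mul_le_mul_of_nonneg_left (Real.rpow_le_rpow dist_nonneg ?_ h.b0.le) h.C0
      rw [dist_eq_norm]
      have ht1 : ‖s + (t : ℂ) * (s' - s)‖ ≤ 1 :=
        ((mem_ball_zero_iff.1 (hseg t ht)).le.trans hr1)
      refine (pow_sub_le hsn1 ht1 n).trans ?_
      refine mul_le_mul_of_nonneg_left ?_ (Nat.cast_nonneg n)
      have h1 : s - (s + (t : ℂ) * (s' - s)) = (t : ℂ) * (s - s') := by ring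
      rw [h1, norm_mul, Complex.norm_real, Real.norm_of_nonneg ht.1, dist_eq_norm]
      exact mul_le_of_le_one_left (norm_nonneg _) ht.2)
  simp only [Complex.ofReal_one, one_mul, Complex.ofReal_zero, zero_mul, add_zero] at key
  have h2 : s + (s' - s) = s' := by ring
  rw [h2, dist_comm, dist_eq_norm] at key
  refine key.trans (le_of_eq ?_)
  rw [Real.mul_rpow (Nat.cast_nonneg n) dist_nonneg]
  ring

/-- enumerations. -/
theorem RG.exists_label (h : RG mu be T k R C b w0) :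
    ∃ s : ℂ → Fin k → ℂ, ∀ y ∈ ball (0 : ℂ) R, T y = Multiset.map (s y) Finset.univ.val := by
  classical
  have h1 : ∀ y, ∃ s : Fin k → ℂ, y ∈ ball (0 : ℂ) R → T y = Multiset.map s Finset.univ.val := by
    intro y
    by_cases hy : y ∈ ball (0 : ℂ) R
    · obtain ⟨a, ha⟩ := LocSel_483.exists_enum (T y) (h.card y hy)
      exact ⟨a, fun _ => ha⟩
    · exact ⟨fun _ => 0, fun h2 => absurd h2 hy⟩
  choose s hs using h1
  exact ⟨s, hs⟩

theorem RG.cont_label (h : RG mu be T k R C b w0) {s : ℂ → Fin k → ℂ}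
    (hs : ∀ y ∈ ball (0 : ℂ) R, T y = Multiset.map (s y) Finset.univ.val) :
    (∀ z ∈ ball (0 : ℂ) R \ {0}, ∀ ε > 0, ∀ᶠ z' in 𝓝 z, ∃ τ : Equiv.Perm (Fin k),
      ∀ i, ‖s z' (τ i) - s z i‖ < ε) ∧ ∀ z ∈ ball (0 : ℂ) R \ {0}, Function.Injective (s z) := by
  have hinj : ∀ z ∈ ball (0 : ℂ) R \ {0}, Function.Injective (s z) := by
    intro z hz
    apply LocSel_483.inj_of_nodup
    rw [← hs z hz.1]
    exact h.nodup z hz.1 hz.2
  refine ⟨?_, hinj⟩
  intro z hz ε hε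
  have hopen : IsOpen (ball (0 : ℂ) R \ {0}) := isOpen_ball.sdiff isClosed_singleton
  have hlim : Tendsto (fun z' => C * dist z z' ^ b) (𝓝 z) (𝓝 0) := by
    have h1 : ContinuousAt (fun z' => C * dist z z' ^ b) z := by
      refine continuousAt_const.mul ?_
      exact ContinuousAt.rpow_const (by fun_prop) (Or.inr h.b0.le)
    have h2 := h1.tendsto
    rwa [dist_self, Real.zero_rpow h.b0.ne', mul_zero] at h2
  filter_upwards [hopen.mem_nhds hz, hlim.eventually_lt_const hε] with z' hz' hε'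
  have hcl := h.hold z hz.1 z' hz'.1
  rw [hs z hz.1] at hcl
  obtain ⟨b', hb', hd⟩ := LocSel_483.rel_fun hcl
  have hi' := hinj z' hz'
  have hT := hs z' hz'.1
  have hbinj : Function.Injective b' := by
    apply LocSel_483.inj_of_nodup
    rw [← hb']
    exact h.nodup z' hz'.1 hz'.2
  have hex : ∀ i, ∃ j, s z' j = b' i := by
    intro i
    have h1 : b' i ∈ T z' := by rw [hb']; exact Multiset.mem_map_of_mem _ (Finset.mem_univ i)
    rw [hT] at h1
    obtain ⟨j, -, hj⟩ := Multiset.mem_map.1 h1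
    exact ⟨j, hj⟩
  choose τ hτ using hex
  have hτi : Function.Injective τ := by
    intro i j hij
    apply hbinj
    rw [← hτ i, ← hτ j, hij]
  refine ⟨Equiv.ofBijective τ (Finite.injective_iff_bijective.1 hτi), fun i => ?_⟩
  rw [Equiv.ofBijective_apply, hτ i, ← dist_eq_norm, dist_comm]
  exact lt_of_le_of_lt (hd i) hε'

theorem dz_pow_comp {f : ℂ → ℂ} {s : ℂ} {n : ℕ} (hf : DifferentiableAt ℝ f (s ^ n)) :
    DifferentiableAt ℝ (fun s => f (s ^ n)) s ∧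
    dz (fun s => f (s ^ n)) s = dz f (s ^ n) * (n * s ^ (n - 1)) ∧
    dzb (fun s => f (s ^ n)) s = dzb f (s ^ n) * conj (n * s ^ (n - 1)) := by
  have hid : DifferentiableAt ℝ (fun s : ℂ => s) s := differentiableAt_id
  have hp := EndC_745.dz_pow hid n
  have h0 : dz (fun s : ℂ => s) s = 1 ∧ dzb (fun s : ℂ => s) s = 0 := by
    simp only [dz, dzb]
    rw [fderiv_fun_id]
    exact dl_id
  rw [h0.1, h0.2] at hp
  have hd : DifferentiableAt ℝ (fun s : ℂ => s ^ n) s := hid.pow n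
  refine ⟨hf.comp s hd, ?_⟩
  have h1 : fderiv ℝ (fun s => f (s ^ n)) s =
      (fderiv ℝ f (s ^ n)).comp (fderiv ℝ (fun s : ℂ => s ^ n) s) :=
    fderiv_comp s hf hd
  have h2 := dl_comp (fderiv ℝ f (s ^ n)) (fderiv ℝ (fun s : ℂ => s ^ n) s)
  have h3 : dl (fderiv ℝ (fun s : ℂ => s ^ n) s) = n * s ^ (n - 1) := by
    have := hp.1; simp only [dz] at this; rw [this]; ring
  have h4 : dbl (fderiv ℝ (fun s : ℂ => s ^ n) s) = 0 := by
    have := hp.2; simp only [dzb] at this; rw [this]; ring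
  simp only [dz, dzb]
  rw [h1, h2.1, h2.2, h3, h4, map_zero]
  constructor <;> ring

/-- **the branches** -/
theorem RG.branches (h : RG mu be T k R C b w0) :
    ∃ (J : ℕ) (n : Fin J → ℕ) (g : Fin J → ℂ → ℂ), (∀ j, 0 < n j) ∧ (∀ j, g j 0 = w0) ∧
      (∀ j, ContinuousOn (g j) {ζ | ‖ζ‖ ^ n j < R}) ∧
      (∀ j ζ, ‖ζ‖ ^ n j < R → g j ζ ∈ T (ζ ^ n j)) ∧
      (∀ y ∈ ball (0 : ℂ) R, ∀ w ∈ T y, ∃ j ζ, ζ ^ n j = y ∧ g j ζ = w) ∧
      (∀ j j' ζ ζ', ‖ζ‖ ^ n j < R → ζ ^ n j = ζ' ^ n j' → g j ζ = g j' ζ' →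
        (j = j' ∧ ζ = ζ') ∨ (ζ = 0 ∧ ζ' = 0)) ∧
      (∀ j, HG b (g j)) ∧
      (∀ j s, s ≠ 0 → ‖s‖ ^ n j < R → DifferentiableAt ℝ (g j) s ∧
        dzb (g j) s = mu (s ^ n j, g j s) * (conj s / s) ^ (n j - 1) * dz (g j) s -
          be (s ^ n j, g j s) * (n j * conj s ^ (n j - 1))) := by
  classical
  obtain ⟨s, hs⟩ := h.exists_label
  obtain ⟨hcont, hinj⟩ := h.cont_label hs
  obtain ⟨J, n, g0, hn, hsum, hg0, hval, hall, hinj0⟩ :=
    Mono_659.mono s 0 R h.R0 hcont hinj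
  simp only [zero_add, sub_zero] at hval hall
  have hpow : ∀ (n : ℕ) (ζ : ℂ), ‖ζ‖ ^ n < R → ζ ^ n ∈ ball (0 : ℂ) R := by
    intro n ζ hζ
    rw [mem_ball_zero_iff, norm_pow]; exact hζ
  set g : Fin J → ℂ → ℂ := fun j ζ => if ζ = 0 then w0 else g0 j ζ with hg
  have hgz : ∀ j, g j 0 = w0 := fun j => by simp [hg]
  have hgn : ∀ j ζ, ζ ≠ 0 → g j ζ = g0 j ζ := fun j ζ hζ => by simp [hg, hζ]
  have hmem : ∀ j ζ, ‖ζ‖ ^ n j < R → g j ζ ∈ T (ζ ^ n j) := by
    intro j ζ hζ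
    by_cases h0 : ζ = 0
    · rw [h0, hgz, zero_pow (hn j).ne', h.zero]
      exact Multiset.mem_replicate.2 ⟨h.k0.ne', rfl⟩
    · obtain ⟨i, hi⟩ := hval j ζ h0 hζ
      rw [hgn j ζ h0, ← hi, hs _ (hpow _ _ hζ)]
      exact Multiset.mem_map_of_mem _ (Finset.mem_univ i)
  have hopen : ∀ j, IsOpen {ζ : ℂ | ‖ζ‖ ^ n j < R} := fun j =>
    isOpen_lt (by fun_prop) continuous_const
  have hbd : ∀ j ζ, ‖ζ‖ ^ n j < R → dist (g j ζ) w0 ≤ C * (‖ζ‖ ^ n j) ^ b := by
    intro j ζ hζ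
    obtain ⟨a, ha, hd⟩ := h.near (mem_ball_self h.R0) (hpow _ _ hζ) (hmem j ζ hζ)
    rw [h.zero] at ha
    rw [Multiset.eq_of_mem_replicate ha, dist_zero_left, norm_pow] at hd
    exact hd
  have hgc : ∀ j, ContinuousOn (g j) {ζ | ‖ζ‖ ^ n j < R} := by
    intro j ζ hζ
    by_cases h0 : ζ = 0
    · subst h0
      apply ContinuousAt.continuousWithinAt
      rw [ContinuousAt, hgz, tendsto_iff_dist_tendsto_zero]
      have hlim : Tendsto (fun ζ : ℂ => C * (‖ζ‖ ^ n j) ^ b) (𝓝 0) (𝓝 0) := by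
        have h1 : ContinuousAt (fun ζ : ℂ => C * (‖ζ‖ ^ n j) ^ b) 0 := by
          refine continuousAt_const.mul ?_
          exact ContinuousAt.rpow_const (by fun_prop) (Or.inr h.b0.le)
        have h2 := h1.tendsto
        rwa [norm_zero, zero_pow (hn j).ne', Real.zero_rpow h.b0.ne', mul_zero] at h2
      refine squeeze_zero' (Eventually.of_forall fun _ => dist_nonneg) ?_ hlim
      filter_upwards [(hopen j).mem_nhds hζ] with ζ hζ
      exact hbd j ζ hζ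
    · have hop : IsOpen {ζ : ℂ | ζ ≠ 0 ∧ ‖ζ‖ ^ n j < R} := isOpen_ne.inter (hopen j)
      have h1 : ContinuousAt (g0 j) ζ := (hg0 j).continuousAt (hop.mem_nhds ⟨h0, hζ⟩)
      refine (h1.congr ?_).continuousWithinAt
      filter_upwards [isOpen_ne.mem_nhds h0] with ζ' hζ'
      exact (hgn j ζ' hζ').symm
  refine ⟨J, n, g, hn, hgz, hgc, hmem, ?_, ?_, ?_, ?_⟩
  · -- all values
    intro y hy w hw
    by_cases h0 : y = 0
    · subst h0
      rw [h.zero] at hw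
      have hJ : 0 < J := by
        rcases Nat.eq_zero_or_pos J with hJ | hJ
        · exfalso
          subst hJ
          simp only [Finset.univ_eq_empty, Finset.sum_empty] at hsum
          exact h.k0.ne hsum
        · exact hJ
      exact ⟨⟨0, hJ⟩, 0, zero_pow (hn _).ne', by rw [hgz, Multiset.eq_of_mem_replicate hw]⟩
    · rw [hs y hy] at hw
      obtain ⟨i, -, hi⟩ := Multiset.mem_map.1 hw
      obtain ⟨j, ζ, h1, h2⟩ := hall y ⟨hy, h0⟩ i
      have hζ : ζ ≠ 0 := by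
        rintro rfl
        rw [zero_pow (hn j).ne'] at h1
        exact h0 h1.symm
      exact ⟨j, ζ, h1, by rw [hgn j ζ hζ, h2, hi]⟩
  · -- injectivity
    intro j j' ζ ζ' hζ hpe hge
    by_cases h0 : ζ = 0
    · right
      refine ⟨h0, ?_⟩
      rw [h0, zero_pow (hn j).ne'] at hpe
      exact pow_eq_zero_iff (hn j').ne' |>.1 hpe.symm
    · left
      have h0' : ζ' ≠ 0 := by
        rintro rfl
        rw [zero_pow (hn j').ne'] at hpe
        exact h0 (pow_eq_zero_iff (hn j).ne' |>.1 hpe)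
      rw [hgn j ζ h0, hgn j' ζ' h0'] at hge
      exact hinj0 j j' ζ ζ' h0 hζ hpe hge
  · -- Hölder
    intro j
    set r := min 1 R with hr
    have hr0 : 0 < r := lt_min one_pos h.R0
    have hsub : ∀ ζ ∈ ball (0 : ℂ) r, ‖ζ‖ ^ n j < R := by
      intro ζ hζ
      rw [mem_ball_zero_iff] at hζ
      calc ‖ζ‖ ^ n j ≤ ‖ζ‖ ^ 1 :=
            pow_le_pow_of_le_one (norm_nonneg _) (hζ.le.trans (min_le_left _ _)) (hn j)
        _ = ‖ζ‖ := pow_one _
        _ < R := lt_of_lt_of_le hζ (min_le_right _ _)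
    refine ⟨r, hr0, 2 * k * (C * (n j : ℝ) ^ b), ?_, ?_⟩
    · have := h.C0
      positivity
    · exact h.branch_hold (min_le_left _ _) (min_le_right _ _) (hn j)
        ((hgc j).mono hsub) (fun s hs' => hmem j s (hsub s hs'))
  · -- equation
    intro j s0 hs0 hsR
    have hy0 : s0 ^ n j ≠ 0 := pow_ne_zero _ hs0
    obtain ⟨r, hr, f, hf, hTf⟩ := h.sheets (s0 ^ n j) (hpow _ _ hsR) hy0
    have hev : ∀ᶠ x in 𝓝 s0, x ^ n j ∈ ball (s0 ^ n j) r ∧ ‖x‖ ^ n j < R := by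
      refine (?_ : ∀ᶠ x in 𝓝 s0, x ^ n j ∈ ball (s0 ^ n j) r).and ((hopen j).mem_nhds hsR)
      exact (continuous_pow (n j)).continuousAt.eventually_mem (ball_mem_nhds _ hr)
    have hmem0 : s0 ^ n j ∈ ball (s0 ^ n j) r := mem_ball_self hr
    obtain ⟨i, hi⟩ := Mono_659.eventually_sheet (g j) (fun i x => f i (x ^ n j)) s0
      ((hgc j).continuousAt ((hopen j).mem_nhds hsR))
      (fun i => ContinuousAt.comp (f := fun x : ℂ => x ^ n j) (hf i _ hmem0).1.continuousAt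
        (continuous_pow (n j)).continuousAt)
      (by
        have := h.nodup _ (hpow _ _ hsR) hy0
        rw [hTf _ hmem0] at this
        exact LocSel_483.inj_of_nodup this)
      (by
        filter_upwards [hev] with x hx
        have h1 := hmem j x hx.2
        rw [hTf _ hx.1] at h1
        obtain ⟨i, -, hi⟩ := Multiset.mem_map.1 h1
        exact ⟨i, hi⟩)
    obtain ⟨hd, hpde⟩ := hf i _ hmem0
    obtain ⟨c1, c2, c3⟩ := dz_pow_comp (n := n j) hd
    have hi' : g j =ᶠ[𝓝 s0] (fun x => f i (x ^ n j)) := hi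
    have hfe : fderiv ℝ (g j) s0 = fderiv ℝ (fun x => f i (x ^ n j)) s0 := hi'.fderiv_eq
    have hge : g j s0 = f i (s0 ^ n j) := hi'.self_of_nhds
    refine ⟨(c1.congr_of_eventuallyEq hi'), ?_⟩
    have e1 : dz (g j) s0 = dz (fun x => f i (x ^ n j)) s0 := by simp only [dz]; rw [hfe]
    have e2 : dzb (g j) s0 = dzb (fun x => f i (x ^ n j)) s0 := by simp only [dzb]; rw [hfe]
    rw [e1, e2, c2, c3, hge, hpde]
    have h5 : (conj s0 / s0) ^ (n j - 1) * s0 ^ (n j - 1) = conj s0 ^ (n j - 1) := by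
      rw [← mul_pow, div_mul_cancel₀ _ hs0]
    simp only [map_mul, map_pow, map_natCast]
    linear_combination (-(mu (s0 ^ n j, f i (s0 ^ n j)) * dz (f i) (s0 ^ n j) * (n j : ℂ))) * h5

end

end

end Crest.Agent.R235.EndE_745
end

-- ▼ part R235/EndF_745
section

/-!
Row 235, package REG, leaf REG-END (helper745), part 6: from `Loc.KG` to the reduced data `RG`
(cluster, base change).
-/

set_option autoImplicit false

open Complex Metric Set Filter Topology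
open scoped ContDiff ComplexConjugate

namespace Crest.Agent.R235.EndF_745

open Crest.Agent.R235.NWDefs_334 Crest.Agent.R235.NWIface_334 Crest.Agent.R235.EndA_745
open Crest.Agent.R235.Loc Crest.Agent.R235.End Crest.Agent.R235.EndD_745
open Crest.Agent.R235.EndE_745

noncomputable section

/-- `Li` as a continuous linear map. -/
def Lic (m : ℂ) : ℂ →L[ℝ] ℂ := LinearMap.toContinuousLinearMap
  { toFun := Li m
    map_add' := fun x y => by simp only [Li, map_add]; ring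
    map_smul' := fun r x => by
      simp only [Li, Complex.real_smul, map_mul, Complex.conj_ofReal, RingHom.id_apply]; ring }

theorem Lic_apply (m y : ℂ) : Lic m y = Li m y := rfl

theorem Li_norm_le (m y : ℂ) : ‖Li m y‖ ≤ (‖Lic m‖ + 1) * ‖y‖ := by
  rw [← Lic_apply]
  refine ((Lic m).le_opNorm y).trans ?_
  exact mul_le_mul_of_nonneg_right (by linarith) (norm_nonneg _)

theorem dl_Lic (m : ℂ) : dl (Lic m) = 1 / den m ∧ dbl (Lic m) = - m / den m := by
  apply dl_of_apply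
  intro v
  rw [Lic_apply]
  simp only [Li]; ring

theorem comp_Li {w : ℂ → ℂ} {m p y : ℂ} (hw : DifferentiableAt ℝ w (p + Li m y)) :
    DifferentiableAt ℝ (fun y => w (p + Li m y)) y ∧
    dz (fun y => w (p + Li m y)) y =
      (dz w (p + Li m y) - conj m * dzb w (p + Li m y)) / den m ∧
    dzb (fun y => w (p + Li m y)) y =
      (dzb w (p + Li m y) - m * dz w (p + Li m y)) / den m := by
  have h1 : HasFDerivAt (fun y => p + Li m y) (Lic m) y := (Lic m).hasFDerivAt.const_add p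
  have h2 : HasFDerivAt (fun y => w (p + Li m y)) ((fderiv ℝ w (p + Li m y)).comp (Lic m)) y :=
    HasFDerivAt.comp (f := fun y => p + Li m y) y hw.hasFDerivAt h1
  refine ⟨h2.differentiableAt, ?_⟩
  have h3 := dl_comp (fderiv ℝ w (p + Li m y)) (Lic m)
  have h4 := dl_Lic m
  simp only [dz, dzb]
  rw [h2.fderiv, h3.1, h3.2, h4.1, h4.2]
  simp only [map_div₀, map_neg, map_one, conj_den]
  constructor <;> ring

theorem pde_Li {μ β : ℂ × ℂ → ℂ} (h : ∀ x, ‖μ x‖ < 1) {w : ℂ → ℂ} {m p y : ℂ} (hm : ‖m‖ < 1)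
    (hw : DifferentiableAt ℝ w (p + Li m y))
    (he : dzb w (p + Li m y) = μ (p + Li m y, w (p + Li m y)) * dz w (p + Li m y) -
      β (p + Li m y, w (p + Li m y))) :
    dzb (fun y => w (p + Li m y)) y =
      mu' m p μ (y, w (p + Li m y)) * dz (fun y => w (p + Li m y)) y -
        be' m p μ β (y, w (p + Li m y)) := by
  obtain ⟨_, h2, h3⟩ := comp_Li hw
  rw [h2, h3, he]
  simp only [mu', be']
  set q := μ (p + Li m y, w (p + Li m y)) with hq
  set b := β (p + Li m y, w (p + Li m y)) with hb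
  set d := dz w (p + Li m y) with hd
  have hqn : ‖q‖ < 1 := h _
  have hdn := den_ne hm
  have e1 : 1 - q * conj m ≠ 0 := by rw [mul_comm]; exact den_pos_ne hm hqn
  rw [mul_comm (conj m) q]
  field_simp
  simp only [den]
  ring

theorem close_mono {ε ε' : ℝ} (h : ε ≤ ε') {s t : Multiset ℂ} (hs : Close ε s t) :
    Close ε' s t :=
  Multiset.Rel.mono hs fun _ _ _ _ hab => hab.trans h

/-- **reduction** -/
theorem reduce {μ β : ℂ × ℂ → ℂ} {κ L : ℝ} (hB : BoxD μ β κ L) {c : ℂ} {R : ℝ} {k : ℕ}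
    {S : ℂ → Multiset ℂ} {e : ℂ → ℝ} (hK : KG μ β c R k S e) {p : ℂ} (hp : p ∈ ball c R)
    {C b r : ℝ} (hb : 0 < b) (hr : 0 < r)
    (hold : ∀ z ∈ ball p r, ∀ z' ∈ ball p r, Close (C * dist z z' ^ b) (S z) (S z'))
    (hnd : ∀ᶠ z in 𝓝[≠] p, (S z).Nodup) {w0 : ℂ} (hw0 : w0 ∈ S p) {ε0 : ℝ} (hε0 : 0 < ε0) :
    ∃ (ε Ry C' : ℝ) (k' : ℕ), 0 < ε ∧ ε ≤ ε0 ∧ (∀ y ∈ ball (0 : ℂ) Ry,
        p + Li (μ (p, w0)) y ∈ ball c R ∧ dist (p + Li (μ (p, w0)) y) p < ε0 ∧
        (y ≠ 0 → (S (p + Li (μ (p, w0)) y)).Nodup)) ∧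
      RG (mu' (μ (p, w0)) p μ) (be' (μ (p, w0)) p μ β)
        (fun y => (S (p + Li (μ (p, w0)) y)).filter (fun b => dist b w0 < ε)) k' Ry C' b w0 := by
  have hμ1 : ∀ x, ‖μ x‖ < 1 := fun x => (hB.bμ x).trans_lt hB.κ1
  set m := μ (p, w0) with hm_def
  have hm : ‖m‖ < 1 := hμ1 _
  obtain ⟨ε, r1, hε, hεε0, hr1, hsub1, hK', hrep, hsep, -, -⟩ :=
    LocClus_305.clus μ β κ L hB c R k S e hK p hp w0 hw0 ε0 hε0
  obtain ⟨r2, hr2, hnd2⟩ : ∃ r2 > 0, ∀ z ∈ ball p r2, z ≠ p → (S z).Nodup := by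
    rw [eventually_nhdsWithin_iff, Metric.eventually_nhds_iff_ball] at hnd
    obtain ⟨r2, hr2, H⟩ := hnd
    exact ⟨r2, hr2, fun z hz hzp => H z hz hzp⟩
  set C0 := max C 0 with hC0
  have hC00 : 0 ≤ C0 := le_max_right _ _
  obtain ⟨r3, hr3, hC3⟩ : ∃ r3 > 0, ∀ t : ℝ, 0 ≤ t → t ≤ 2 * r3 → C0 * t ^ b < ε := by
    have hlim : Tendsto (fun t : ℝ => C0 * t ^ b) (𝓝 0) (𝓝 0) := by
      have h1 : ContinuousAt (fun t : ℝ => C0 * t ^ b) 0 := by
        refine continuousAt_const.mul ?_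
        exact ContinuousAt.rpow_const continuousAt_id (Or.inr hb.le)
      have h2 := h1.tendsto
      simpa [Real.zero_rpow hb.ne'] using h2
    obtain ⟨δ, hδ, H⟩ := Metric.eventually_nhds_iff.1 (hlim.eventually_lt_const hε)
    refine ⟨δ / 4, by positivity, fun t ht0 ht => H ?_⟩
    rw [Real.dist_eq, sub_zero, abs_of_nonneg ht0]
    linarith
  set r4 := min (min r1 r2) (min (min r r3) ε0) with hr4
  have hr40 : 0 < r4 := by
    rw [hr4]; exact lt_min (lt_min hr1 hr2) (lt_min (lt_min hr hr3) hε0)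
  have h41 : r4 ≤ r1 := (min_le_left _ _).trans (min_le_left _ _)
  have h42 : r4 ≤ r2 := (min_le_left _ _).trans (min_le_right _ _)
  have h43 : r4 ≤ r := (min_le_right _ _).trans ((min_le_left _ _).trans (min_le_left _ _))
  have h44 : r4 ≤ r3 := (min_le_right _ _).trans ((min_le_left _ _).trans (min_le_right _ _))
  have h45 : r4 ≤ ε0 := (min_le_right _ _).trans (min_le_right _ _)
  set cL := ‖Lic m‖ + 1 with hcL
  have hcL0 : 0 < cL := by positivity
  set Ry := r4 / cL with hRy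
  have hRy0 : 0 < Ry := by positivity
  have hin : ∀ y ∈ ball (0 : ℂ) Ry, p + Li m y ∈ ball p r4 := by
    intro y hy
    rw [mem_ball, dist_eq_norm, add_sub_cancel_left]
    rw [mem_ball_zero_iff, hRy, lt_div_iff₀ hcL0] at hy
    refine (Li_norm_le m y).trans_lt ?_
    rw [mul_comm]; exact hy
  have hne : ∀ y : ℂ, y ≠ 0 → p + Li m y ≠ p := by
    intro y hy h
    have h1 : Li m y = 0 := by linear_combination h
    apply hy
    rw [← Lb_Li hm y, h1, Lb_zero]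
  have hP : ∀ z ∈ ball p r1, ∀ z' ∈ ball p r1, ∀ x ∈ S z, ∀ x' ∈ S z', dist x x' < ε →
      (dist x w0 < ε ↔ dist x' w0 < ε) := by
    intro z hz z' hz' x hx x' hx' hxx
    have key : ∀ z ∈ ball p r1, ∀ z' ∈ ball p r1, ∀ x ∈ S z, ∀ x' ∈ S z', dist x x' < ε →
        dist x w0 < ε → dist x' w0 < ε := by
      intro z _ z' hz' x _ x' hx' hxx h1
      rcases hsep z' hz' x' hx' with h2 | h2
      · exact h2
      · exfalso
        have h3 := dist_triangle x' x w0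
        rw [dist_comm x' x] at h3
        linarith
    exact ⟨key z hz z' hz' x hx x' hx' hxx, key z' hz' z hz x' hx' x hx (by rwa [dist_comm])⟩
  have hcard1 : 0 < (S p).count w0 := Multiset.count_pos.2 hw0
  refine ⟨ε, Ry, C0 * cL ^ b, (S p).count w0, hε, hεε0, ?_, ?_⟩
  · intro y hy
    have h1 := hin y hy
    refine ⟨hsub1 (ball_subset_ball h41 h1), lt_of_lt_of_le (mem_ball.1 h1) h45, fun hy0 => ?_⟩
    exact hnd2 _ (ball_subset_ball h42 h1) (hne y hy0)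
  refine ⟨hRy0, by positivity, hb, hcard1, ?_, ?_, ?_, ?_, ?_⟩
  · intro y hy
    exact hK'.card _ (ball_subset_ball h41 (hin y hy))
  · intro y hy y' hy'
    have hz := hin y hy
    have hz' := hin y' hy'
    have hd0 : dist (p + Li m y) (p + Li m y') ≤ cL * dist y y' := by
      rw [dist_eq_norm, dist_eq_norm]
      have h1 : p + Li m y - (p + Li m y') = Li m (y - y') := by rw [Li_sub]; ring
      rw [h1]
      exact Li_norm_le m _
    have hd2 : dist (p + Li m y) (p + Li m y') ≤ 2 * r3 := by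
      have h1 := dist_triangle_right (p + Li m y) (p + Li m y') p
      have h2 := mem_ball.1 hz
      have h3 := mem_ball.1 hz'
      linarith
    have h1 := hold _ (ball_subset_ball h43 hz) _ (ball_subset_ball h43 hz')
    have h2 : Close (C0 * dist (p + Li m y) (p + Li m y') ^ b) (S (p + Li m y))
        (S (p + Li m y')) :=
      close_mono (mul_le_mul_of_nonneg_right (le_max_left _ _)
        (Real.rpow_nonneg dist_nonneg _)) h1
    have h3 := LocClus_305.rel_filter (P := fun b => dist b w0 < ε) h2 (fun x hx x' hx' hxx =>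
      hP _ (ball_subset_ball h41 hz) _ (ball_subset_ball h41 hz') x hx x' hx'
        (lt_of_le_of_lt hxx (hC3 _ dist_nonneg hd2)))
    refine close_mono ?_ h3
    calc C0 * dist (p + Li m y) (p + Li m y') ^ b ≤ C0 * (cL * dist y y') ^ b :=
          mul_le_mul_of_nonneg_left (Real.rpow_le_rpow dist_nonneg hd0 hb.le) hC00
      _ = C0 * cL ^ b * dist y y' ^ b := by
          rw [Real.mul_rpow hcL0.le dist_nonneg]; ring
  · simp only [Li_zero, add_zero]
    exact hrep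
  · intro y hy hy0
    exact Multiset.Nodup.filter _ (hnd2 _ (ball_subset_ball h42 (hin y hy)) (hne y hy0))
  · intro y hy hy0
    have hz := hin y hy
    have hU : p + Li m y ∈ Usimp p r1 (fun z => (S z).filter (fun b => dist b w0 < ε)) :=
      ⟨ball_subset_ball h41 hz,
        Multiset.Nodup.filter _ (hnd2 _ (ball_subset_ball h42 hz) (hne y hy0))⟩
    obtain ⟨ρ, w, hρ, hsubU, hsh, hwC, -, hSw, -⟩ :=
      (LocSel_483.sel μ β κ L hB p r1 _ _ e hK').2 _ hU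
    refine ⟨ρ / cL, by positivity, fun i y => w i (p + Li m y), ?_, ?_⟩
    · intro i y' hy'
      have hz' : p + Li m y' ∈ ball (p + Li m y) ρ := by
        rw [mem_ball, dist_eq_norm]
        have h1 : p + Li m y' - (p + Li m y) = Li m (y' - y) := by rw [Li_sub]; ring
        rw [h1]
        rw [mem_ball, dist_eq_norm, lt_div_iff₀ hcL0] at hy'
        refine (Li_norm_le m _).trans_lt ?_
        rw [mul_comm]; exact hy'
      have hwd : DifferentiableAt ℝ (w i) (p + Li m y') :=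
        ((hwC i).differentiableOn (by simp)).differentiableAt
          (isOpen_ball.mem_nhds hz')
      have hpde := hK'.pde _ _ (fun z hz => (hsubU hz).1) (hsh i) _ hz'
      rw [lz_eq, lzb_eq] at hpde
      refine ⟨(comp_Li hwd).1, ?_⟩
      exact pde_Li hμ1 hm hwd hpde
    · intro y' hy'
      have hz' : p + Li m y' ∈ ball (p + Li m y) ρ := by
        rw [mem_ball, dist_eq_norm]
        have h1 : p + Li m y' - (p + Li m y) = Li m (y' - y) := by rw [Li_sub]; ring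
        rw [h1]
        rw [mem_ball, dist_eq_norm, lt_div_iff₀ hcL0] at hy'
        refine (Li_norm_le m _).trans_lt ?_
        rw [mul_comm]; exact hy'
      exact hSw _ hz'

end

end Crest.Agent.R235.EndF_745
end

-- ▼ part R235/EndG_745
section

/-!
Row 235, package REG, leaf REG-END (helper745), part 7: one branch = one `J`-disc; the
neighbourhood `U`.
-/

set_option autoImplicit false

open Complex Metric Set Filter Topology
open scoped ContDiff ComplexConjugate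

namespace Crest.Agent.R235.EndG_745

open Crest.Agent.R235.NWDefs_334 Crest.Agent.R235.NWIface_334 Crest.Agent.R235.EndA_745
open Crest.Agent.R235.Loc Crest.Agent.R235.End Crest.Agent.R235.EndD_745
open Crest.Agent.R235.EndE_745 Crest.Agent.R235.EndF_745

noncomputable section

theorem inj_fderiv {K : ℂ ≃ₜ ℂ} (hK : Differentiable ℝ K)
    (he : ∀ t, ∃ e : ℂ ≃L[ℝ] ℂ, (e : ℂ →L[ℝ] ℂ) = fderiv ℝ K t) (K0 : K 0 = 0) {n : ℕ}
    (hn : 0 < n) {m p t : ℂ} (hm : ‖m‖ < 1) (ht : t ≠ 0) (v : ℂ)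
    (hv : fderiv ℝ (fun t => p + Li m (K t ^ n)) t v = 0) : v = 0 := by
  have hKt : K t ≠ 0 := by
    intro h0
    exact ht (K.injective (h0.trans K0.symm))
  have hpd : DifferentiableAt ℝ (fun t => K t ^ n) t := (hK t).pow n
  have h1 : HasFDerivAt (fun t => p + Li m (K t ^ n))
      ((Lic m).comp (fderiv ℝ (fun t => K t ^ n) t)) t :=
    ((Lic m).hasFDerivAt.comp t hpd.hasFDerivAt).const_add p
  rw [h1.fderiv, ContinuousLinearMap.comp_apply, Lic_apply] at hv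
  have h2 : fderiv ℝ (fun t => K t ^ n) t v = 0 := by
    rw [← Lb_Li hm (fderiv ℝ (fun t => K t ^ n) t v), hv, Lb_zero]
  have h3 := EndC_745.dz_pow (hK t) n
  rw [apply_eq] at h2
  simp only [dz, dzb] at h3
  rw [h3.1, h3.2] at h2
  have h4 : (n * K t ^ (n - 1)) * fderiv ℝ K t v = 0 := by
    rw [apply_eq (fderiv ℝ K t)]
    linear_combination h2
  have h5 : (n : ℂ) * K t ^ (n - 1) ≠ 0 :=
    mul_ne_zero (by exact_mod_cast hn.ne') (pow_ne_zero _ hKt)
  have h6 : fderiv ℝ K t v = 0 := (mul_eq_zero.1 h4).resolve_left h5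
  obtain ⟨e, he⟩ := he t
  rw [← he] at h6
  exact e.map_eq_zero_iff.1 h6

/-- **one branch is one `J`-disc** -/
theorem disc_of_branch (hBel : BelStmt) (hKP : KPStmt) (hReg : RegStmt) {μ β : ℂ × ℂ → ℂ}
    (hμ1 : ∀ x, ‖μ x‖ < 1) (hμ : ContDiff ℝ ∞ μ) (hβ : ContDiff ℝ ∞ β) {p w0 : ℂ} {n : ℕ}
    (hn : 0 < n) {g : ℂ → ℂ} {b : ℝ} (hb : 0 < b) (hg : HG b g) (hg0 : g 0 = w0) {r : ℝ}
    (hr : 0 < r)
    (hpde : ∀ s ∈ ball (0 : ℂ) r, s ≠ 0 → DifferentiableAt ℝ g s ∧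
      dzb g s = mu' (μ (p, w0)) p μ (s ^ n, g s) * (conj s / s) ^ (n - 1) * dz g s -
        be' (μ (p, w0)) p μ β (s ^ n, g s) * (n * conj s ^ (n - 1))) :
    ∃ (K : ℂ ≃ₜ ℂ), K 0 = 0 ∧ ∃ ρ > 0,
      ContDiffOn ℝ ∞ (fun t => (p + Li (μ (p, w0)) (K t ^ n), g (K t))) (ball 0 ρ) ∧
      (∀ z ∈ ball (0 : ℂ) ρ, ∀ v : ℂ,
        (fderiv ℝ (fun t => (p + Li (μ (p, w0)) (K t ^ n), g (K t))) z (I * v)).1 +
          μ (p + Li (μ (p, w0)) (K z ^ n), g (K z)) *
            conj (fderiv ℝ (fun t => (p + Li (μ (p, w0)) (K t ^ n), g (K t))) z (I * v)).1 =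
        I * ((fderiv ℝ (fun t => (p + Li (μ (p, w0)) (K t ^ n), g (K t))) z v).1 +
          μ (p + Li (μ (p, w0)) (K z ^ n), g (K z)) *
            conj (fderiv ℝ (fun t => (p + Li (μ (p, w0)) (K t ^ n), g (K t))) z v).1)) ∧
      (∀ z ∈ ball (0 : ℂ) ρ, ∀ v : ℂ,
        (fderiv ℝ (fun t => (p + Li (μ (p, w0)) (K t ^ n), g (K t))) z (I * v)).2 +
          β (p + Li (μ (p, w0)) (K z ^ n), g (K z)) *
            conj (fderiv ℝ (fun t => (p + Li (μ (p, w0)) (K t ^ n), g (K t))) z (I * v)).1 =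
        I * ((fderiv ℝ (fun t => (p + Li (μ (p, w0)) (K t ^ n), g (K t))) z v).2 +
          β (p + Li (μ (p, w0)) (K z ^ n), g (K z)) *
            conj (fderiv ℝ (fun t => (p + Li (μ (p, w0)) (K t ^ n), g (K t))) z v).1)) ∧
      (∀ z ∈ ball (0 : ℂ) ρ, z ≠ 0 → ∀ v : ℂ,
        (fderiv ℝ (fun t => (p + Li (μ (p, w0)) (K t ^ n), g (K t))) z v).1 = 0 → v = 0) := by
  set m := μ (p, w0) with hm_def
  have hm : ‖m‖ < 1 := hμ1 _
  set b' := min b (1 / 2) with hb'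
  have hb0 : 0 < b' := lt_min hb (by norm_num)
  have hb1 : b' < 1 := (min_le_right _ _).trans_lt (by norm_num)
  have hmu0 : mu' m p μ (0, g 0) = 0 := by
    simp only [mu', Li_zero, add_zero, hg0]
    rw [← hm_def, sub_self, zero_div]
  have hmuC : ContDiff ℝ 1 (mu' m p μ) := (contDiff_mu' hm hμ hμ1).of_le (by exact_mod_cast le_top)
  have hbeC : ContDiff ℝ 1 (be' m p μ β) :=
    (contDiff_be' hm hμ hβ hμ1).of_le (by exact_mod_cast le_top)
  obtain ⟨K, hKC, -, hK0, -, hKe, -, ρ, hρ, hgK, he1, he2⟩ :=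
    EndC_745.branch hBel hKP hn hmuC hbeC hb0 hb1 (hg.mono hb0 (min_le_left _ _)) hmu0 hr
      (fun s hs hs0 => (hpde s hs hs0).1) (fun s hs hs0 => (hpde s hs hs0).2)
  have hKd : Differentiable ℝ K := hKC.differentiable (by norm_num)
  have hYC : ContDiff ℝ 1 (fun t => K t ^ n) := hKC.pow n
  have haC : ContDiff ℝ 1 (fun t => p + Li m (K t ^ n)) :=
    contDiff_const.add ((contDiff_Li m).comp hYC)
  have haD : Differentiable ℝ (fun t => p + Li m (K t ^ n)) := haC.differentiable (by norm_num)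
  have hgD : ∀ t ∈ ball (0 : ℂ) ρ, DifferentiableAt ℝ (fun t => g (K t)) t := fun t ht =>
    (hgK.differentiableOn (by norm_num)).differentiableAt (isOpen_ball.mem_nhds ht)
  have hjeq : ∀ t ∈ ball (0 : ℂ) ρ, ∀ v : ℂ, _ := fun t ht v =>
    have h1 := basechange (p := p) hm hμ1 (β := β) (G := fun t => g (K t))
      ((hYC.differentiable (by norm_num)) t) (he1 t ht) (he2 t ht)
    jeq_of_dzb (μ := μ) (β := β) (haD t) (hgD t ht) h1.1 h1.2 v
  have hC1 : ContDiffOn ℝ 1 (fun t => (p + Li m (K t ^ n), g (K t))) (ball 0 ρ) :=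
    haC.contDiffOn.prodMk hgK
  refine ⟨K, hK0, ρ, hρ, ?_, fun t ht v => (hjeq t ht v).1, fun t ht v => (hjeq t ht v).2, ?_⟩
  · exact disc_smooth hReg hμ hβ hμ1 isOpen_ball hC1 (fun t ht v => (hjeq t ht v).1)
      (fun t ht v => (hjeq t ht v).2)
  · intro t ht ht0 v hv
    apply inj_fderiv hKd hKe hK0 hn hm ht0 v (p := p)
    rw [fderiv_pair (haD t) (hgD t ht)] at hv
    rw [apply_eq]
    exact hv

/-! ### the neighbourhood -/

/-- abstract construction of the neighbourhood. -/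
theorem exists_U {J : ℕ} {X : Type*} [MetricSpace X] {G W : Set X} {P : X} (hW : IsOpen W)
    (hPW : P ∈ W) (U : Fin J → ℂ → X) (E : Fin J → Set ℂ) (hE : ∀ j, IsCompact (E j))
    (hU : ∀ j, ContinuousOn (U j) (E j)) (hU0 : ∀ j, U j 0 = P)
    (hUG : ∀ j, ∀ t ∈ E j, U j t ∈ G)
    (hinj : ∀ i j, ∀ t ∈ E i, ∀ t' ∈ E j, U i t = U j t' → (i = j ∧ t = t') ∨ (t = 0 ∧ t' = 0))
    (hcov : ∀ q ∈ G ∩ W, ∃ j, ∃ t ∈ E j, U j t = q) (ρ : Fin J → ℝ) (hρ : ∀ j, 0 < ρ j)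
    (hρE : ∀ j, closedBall 0 (ρ j) ⊆ E j) (hρW : ∀ j, ∀ t ∈ ball (0 : ℂ) (ρ j), U j t ∈ W) :
    ∃ O : Set X, IsOpen O ∧ P ∈ O ∧ O ⊆ W ∧ G ∩ O = ⋃ j, U j '' ball 0 (ρ j) ∧
      ∀ j, ∀ K : Set X, IsCompact K → K ⊆ O →
        ∃ r < ρ j, ∀ t ∈ ball (0 : ℂ) (ρ j), U j t ∈ K → ‖t‖ ≤ r := by
  set F : Set X := ⋃ j, U j '' (E j \ ball 0 (ρ j)) with hF
  have hFc : IsClosed F := by
    apply isClosed_iUnion_of_finite
    intro j
    apply IsCompact.isClosed
    exact ((hE j).diff isOpen_ball).image_of_continuousOn ((hU j).mono diff_subset)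
  have h0E : ∀ j, (0 : ℂ) ∈ E j := fun j => hρE j (mem_closedBall_self (hρ j).le)
  have hPF : P ∉ F := by
    intro h
    obtain ⟨j, t, ht, hte⟩ := mem_iUnion.1 h
    rcases hinj j j t ht.1 0 (h0E j) (hte.trans (hU0 j).symm) with h1 | h1
    · exact ht.2 (by rw [h1.2]; exact mem_ball_self (hρ j))
    · exact ht.2 (by rw [h1.1]; exact mem_ball_self (hρ j))
  have hnF : ∀ j, ∀ t ∈ ball (0 : ℂ) (ρ j), U j t ∉ F := by
    intro j t ht h
    obtain ⟨i, t', ht', hte⟩ := mem_iUnion.1 h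
    rcases hinj i j t' ht'.1 t (hρE j (ball_subset_closedBall ht)) hte with h1 | h1
    · obtain ⟨rfl, rfl⟩ := h1
      exact ht'.2 ht
    · exact ht'.2 (by rw [h1.1]; exact mem_ball_self (hρ i))
  refine ⟨W \ F, hW.sdiff hFc, ⟨hPW, hPF⟩, diff_subset, ?_, ?_⟩
  · ext q
    constructor
    · rintro ⟨hqG, hqW, hqF⟩
      obtain ⟨j, t, ht, hte⟩ := hcov q ⟨hqG, hqW⟩
      refine mem_iUnion.2 ⟨j, t, ?_, hte⟩
      by_contra hb
      exact hqF (mem_iUnion.2 ⟨j, t, ⟨ht, hb⟩, hte⟩)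
    · intro h
      obtain ⟨j, t, ht, rfl⟩ := mem_iUnion.1 h
      exact ⟨hUG j t (hρE j (ball_subset_closedBall ht)), hρW j t ht, hnF j t ht⟩
  · intro j K hK hKO
    set A : Set ℂ := closedBall 0 (ρ j) ∩ U j ⁻¹' K with hA
    have hAc : IsCompact A := by
      have h1 : IsClosed A :=
        ((hU j).mono (hρE j)).preimage_isClosed_of_isClosed isClosed_closedBall hK.isClosed
      exact (isCompact_closedBall (0 : ℂ) (ρ j)).of_isClosed_subset h1 inter_subset_left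
    rcases A.eq_empty_or_nonempty with hA0 | hAn
    · refine ⟨0, hρ j, fun t ht htK => ?_⟩
      have : t ∈ A := ⟨ball_subset_closedBall ht, htK⟩
      rw [hA0] at this
      exact this.elim
    · obtain ⟨t0, ht0, hmax⟩ := hAc.exists_isMaxOn hAn (continuous_norm.continuousOn)
      refine ⟨‖t0‖, ?_, fun t ht htK => hmax ⟨ball_subset_closedBall ht, htK⟩⟩
      by_contra hge
      have h1 : U j t0 ∈ F :=
        mem_iUnion.2 ⟨j, t0, ⟨hρE j ht0.1, fun hb => hge (mem_ball_zero_iff.1 hb)⟩, rfl⟩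
      exact (hKO ht0.2).2 h1

end

end Crest.Agent.R235.EndG_745
end

-- ▼ part R235/EndH_745
section

/-!
Row 235, package REG, leaf REG-END (helper745), part 8: assembly of the local form (without the
formula for the current).
-/

set_option autoImplicit false

open Complex Metric Set Filter Topology
open scoped ContDiff ComplexConjugate

namespace Crest.Agent.R235.EndH_745

open Crest.Agent.R235.NWDefs_334 Crest.Agent.R235.NWIface_334 Crest.Agent.R235.EndA_745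
open Crest.Agent.R235.Loc Crest.Agent.R235.End Crest.Agent.R235.EndD_745
open Crest.Agent.R235.EndE_745 Crest.Agent.R235.EndF_745 Crest.Agent.R235.EndG_745

noncomputable section

/-- all fields of `PLoc` except `cur`, and two additional facts. -/
structure PL0 (μ β : ℂ × ℂ → ℂ) (S : ℂ → Multiset ℂ) (P : ℂ × ℂ) (V : Set (ℂ × ℂ))
    (U : Set (ℂ × ℂ)) (n : ℕ) (u : Fin n → ℂ → ℂ × ℂ) : Prop where
  openU : IsOpen U
  mem : P ∈ U
  sub : U ⊆ V
  disc : ∀ j, PDisc μ β (u j)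
  centre : ∀ j, u j 0 = P
  disj : ∀ i j, i ≠ j → ∀ z ∈ ball (0 : ℂ) 1, ∀ w ∈ ball (0 : ℂ) 1, u i z = u j w → z = 0
  supp : {q : ℂ × ℂ | q.2 ∈ S q.1} ∩ U = ⋃ j, u j '' ball (0 : ℂ) 1
  proper : ∀ j, ∀ K : Set (ℂ × ℂ), IsCompact K → K ⊆ U →
    ∃ r < (1 : ℝ), ∀ z ∈ ball (0 : ℂ) 1, u j z ∈ K → ‖z‖ ≤ r
  ne : ∀ j, ∀ t ∈ ball (0 : ℂ) 1, t ≠ 0 → (u j t).1 ≠ P.1
  imm1 : ∀ j, ∀ t ∈ ball (0 : ℂ) 1, t ≠ 0 → ∀ v : ℂ, (fderiv ℝ (u j) t v).1 = 0 → v = 0
  nodup : ∀ q ∈ U, q.1 ≠ P.1 → (S q.1).Nodup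

/-! ### rescaling -/

theorem fderiv_scale {U : ℂ → ℂ × ℂ} {ρ : ℝ} {z : ℂ}
    (hU : DifferentiableAt ℝ U ((ρ : ℂ) * z)) (v : ℂ) :
    fderiv ℝ (fun t => U ((ρ : ℂ) * t)) z v = fderiv ℝ U ((ρ : ℂ) * z) ((ρ : ℂ) * v) := by
  have h1 : HasFDerivAt (fun t : ℂ => (ρ : ℂ) * t)
      ((ContinuousLinearMap.mul ℝ ℂ) (ρ : ℂ)) z :=
    ((ContinuousLinearMap.mul ℝ ℂ) (ρ : ℂ)).hasFDerivAt
  have h2 : HasFDerivAt (fun t => U ((ρ : ℂ) * t))
      ((fderiv ℝ U ((ρ : ℂ) * z)).comp ((ContinuousLinearMap.mul ℝ ℂ) (ρ : ℂ))) z :=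
    HasFDerivAt.comp (f := fun t : ℂ => (ρ : ℂ) * t) z hU.hasFDerivAt h1
  rw [h2.fderiv]
  rfl

theorem scale_mem {ρ : ℝ} (hρ : 0 < ρ) {z : ℂ} (hz : z ∈ ball (0 : ℂ) 1) :
    (ρ : ℂ) * z ∈ ball (0 : ℂ) ρ := by
  rw [mem_ball_zero_iff] at hz ⊢
  rw [norm_mul, Complex.norm_real, Real.norm_of_nonneg hρ.le]
  calc ρ * ‖z‖ < ρ * 1 := mul_lt_mul_of_pos_left hz hρ
    _ = ρ := mul_one ρ

theorem image_scale {X : Type*} {U : ℂ → X} {ρ : ℝ} (hρ : 0 < ρ) :
    (fun t => U ((ρ : ℂ) * t)) '' ball 0 1 = U '' ball 0 ρ := by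
  ext q
  constructor
  · rintro ⟨t, ht, rfl⟩
    exact ⟨_, scale_mem hρ ht, rfl⟩
  · rintro ⟨t, ht, rfl⟩
    have hρc : (ρ : ℂ) ≠ 0 := by exact_mod_cast hρ.ne'
    refine ⟨t / ρ, ?_, ?_⟩
    · rw [mem_ball_zero_iff] at ht ⊢
      rw [norm_div, Complex.norm_real, Real.norm_of_nonneg hρ.le, div_lt_one hρ]
      exact ht
    · simp only
      rw [mul_div_cancel₀ _ hρc]

theorem pdisc_scale {μ β : ℂ × ℂ → ℂ} {U : ℂ → ℂ × ℂ} {ρ : ℝ} (hρ : 0 < ρ)
    (hC : ContDiffOn ℝ ∞ U (ball 0 ρ))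
    (jz : ∀ z ∈ ball (0 : ℂ) ρ, ∀ v : ℂ,
      (fderiv ℝ U z (I * v)).1 + μ (U z) * conj (fderiv ℝ U z (I * v)).1 =
        I * ((fderiv ℝ U z v).1 + μ (U z) * conj (fderiv ℝ U z v).1))
    (jw : ∀ z ∈ ball (0 : ℂ) ρ, ∀ v : ℂ,
      (fderiv ℝ U z (I * v)).2 + β (U z) * conj (fderiv ℝ U z (I * v)).1 =
        I * ((fderiv ℝ U z v).2 + β (U z) * conj (fderiv ℝ U z v).1))
    (inj : InjOn U (ball 0 ρ))
    (imm : ∀ z ∈ ball (0 : ℂ) ρ, z ≠ 0 → ∀ v : ℂ, (fderiv ℝ U z v).1 = 0 → v = 0) :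
    PDisc μ β (fun t => U ((ρ : ℂ) * t)) ∧
      ∀ t ∈ ball (0 : ℂ) 1, t ≠ 0 → ∀ v : ℂ,
        (fderiv ℝ (fun t => U ((ρ : ℂ) * t)) t v).1 = 0 → v = 0 := by
  have hρc : (ρ : ℂ) ≠ 0 := by exact_mod_cast hρ.ne'
  have hd : ∀ z ∈ ball (0 : ℂ) 1, DifferentiableAt ℝ U ((ρ : ℂ) * z) := fun z hz =>
    (hC.differentiableOn (by simp)).differentiableAt (isOpen_ball.mem_nhds (scale_mem hρ hz))
  have himm1 : ∀ t ∈ ball (0 : ℂ) 1, t ≠ 0 → ∀ v : ℂ,
        (fderiv ℝ (fun t => U ((ρ : ℂ) * t)) t v).1 = 0 → v = 0 := by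
    intro t ht ht0 v hv
    rw [fderiv_scale (hd t ht)] at hv
    have := imm _ (scale_mem hρ ht) (mul_ne_zero hρc ht0) _ hv
    exact (mul_eq_zero.1 this).resolve_left hρc
  refine ⟨⟨?_, ?_, ?_, ?_, ?_⟩, himm1⟩
  · refine hC.comp ?_ (fun t ht => scale_mem hρ ht)
    exact (contDiff_const.mul contDiff_id).contDiffOn
  · intro z hz v
    rw [fderiv_scale (hd z hz), fderiv_scale (hd z hz)]
    have h1 := jz _ (scale_mem hρ hz) ((ρ : ℂ) * v)
    have h2 : I * ((ρ : ℂ) * v) = (ρ : ℂ) * (I * v) := by ring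
    rw [h2] at h1
    exact h1
  · intro z hz v
    rw [fderiv_scale (hd z hz), fderiv_scale (hd z hz)]
    have h1 := jw _ (scale_mem hρ hz) ((ρ : ℂ) * v)
    have h2 : I * ((ρ : ℂ) * v) = (ρ : ℂ) * (I * v) := by ring
    rw [h2] at h1
    exact h1
  · intro x hx y hy hxy
    have := inj (scale_mem hρ hx) (scale_mem hρ hy) hxy
    exact mul_left_cancel₀ hρc this
  · intro z hz hz0 v hv
    exact himm1 z hz hz0 v (by rw [hv]; rfl)

/-! ### the centre is in the graph -/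

theorem assemble (hBel : BelStmt) (hKP : KPStmt) (hReg : RegStmt) {μ β : ℂ × ℂ → ℂ} {κ L : ℝ}
    (hB : BoxD μ β κ L) (hμ : ContDiff ℝ ∞ μ) (hβ : ContDiff ℝ ∞ β) {c : ℂ} {R : ℝ} {k : ℕ}
    {S : ℂ → Multiset ℂ} {e : ℂ → ℝ} (hK : KG μ β c R k S e) {p : ℂ} (hp : p ∈ ball c R)
    {C b r : ℝ} (hb : 0 < b) (hr : 0 < r)
    (hold : ∀ z ∈ ball p r, ∀ z' ∈ ball p r, Close (C * dist z z' ^ b) (S z) (S z'))
    (hnd : ∀ᶠ z in 𝓝[≠] p, (S z).Nodup) {w0 : ℂ} (hw0 : w0 ∈ S p) {V : Set (ℂ × ℂ)}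
    (hV : IsOpen V) (hPV : (p, w0) ∈ V) :
    ∃ (U : Set (ℂ × ℂ)) (n : ℕ) (u : Fin n → ℂ → ℂ × ℂ), PL0 μ β S (p, w0) V U n u := by
  have hμ1 : ∀ x, ‖μ x‖ < 1 := fun x => (hB.bμ x).trans_lt hB.κ1
  set m := μ (p, w0) with hm_def
  have hm : ‖m‖ < 1 := hμ1 _
  obtain ⟨ε0, hε0, hεV⟩ := Metric.isOpen_iff.1 hV _ hPV
  obtain ⟨ε, Ry, C', k', hε, hεε0, hRy, hRG⟩ :=
    reduce hB hK hp hb hr hold hnd hw0 hε0
  rw [← hm_def] at hRy hRG
  obtain ⟨J, n, g, hn, hg0, hgc, hgm, hgall, hginj, hgH, hgpde⟩ := hRG.branches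
  have hRy0 := hRG.R0
  set r1 := min 1 Ry with hr1
  have hr10 : 0 < r1 := lt_min one_pos hRy0
  have hsub1 : ∀ j, ∀ ζ ∈ ball (0 : ℂ) r1, ‖ζ‖ ^ n j < Ry := by
    intro j ζ hζ
    rw [mem_ball_zero_iff] at hζ
    calc ‖ζ‖ ^ n j ≤ ‖ζ‖ ^ 1 :=
          pow_le_pow_of_le_one (norm_nonneg _) (hζ.le.trans (min_le_left _ _)) (hn j)
      _ = ‖ζ‖ := pow_one _
      _ < Ry := lt_of_lt_of_le hζ (min_le_right _ _)
  have hdisc := fun j => disc_of_branch hBel hKP hReg hμ1 hμ hβ (p := p) (w0 := w0) (hn j) hb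
    (hgH j) (hg0 j) hr10 (fun s hs hs0 => hgpde j s hs0 (hsub1 j s hs))
  rw [← hm_def] at hdisc
  choose K hK0 ρ0 hρ0 hUC hUz hUw hUimm using hdisc
  set U : Fin J → ℂ → ℂ × ℂ := fun j t => (p + Li m (K j t ^ n j), g j (K j t)) with hU
  set R2 := Ry / 2 with hR2
  have hR20 : 0 < R2 := by positivity
  have hR2R : R2 < Ry := by rw [hR2]; linarith
  set E : Fin J → Set ℂ := fun j => {t | ‖K j t‖ ^ n j ≤ R2} with hE
  set W : Set (ℂ × ℂ) := {q | Lb m (q.1 - p) ∈ ball (0 : ℂ) R2 ∧ dist q.2 w0 < ε} with hW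
  set G : Set (ℂ × ℂ) := {q | q.2 ∈ S q.1} with hG
  have hLbC : Continuous (fun q : ℂ × ℂ => Lb m (q.1 - p)) :=
    (contDiff_Lb m (n := 0)).continuous.comp (continuous_fst.sub continuous_const)
  have hWo : IsOpen W :=
    (isOpen_ball.preimage hLbC).inter (isOpen_lt (continuous_snd.dist continuous_const)
      continuous_const)
  have hU0 : ∀ j, U j 0 = (p, w0) := by
    intro j
    simp only [hU, hK0, zero_pow (hn j).ne', Li_zero, add_zero, hg0]
  have hPW : (p, w0) ∈ W := by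
    refine ⟨?_, ?_⟩
    · simp only [sub_self, Lb_zero]; exact mem_ball_self hR20
    · simp only [dist_self]; exact hε
  have hEc : ∀ j, IsCompact (E j) := by
    intro j
    have h1 : IsCompact {ζ : ℂ | ‖ζ‖ ^ n j ≤ R2} := by
      refine (isCompact_closedBall (0 : ℂ) (max 1 R2)).of_isClosed_subset
        (isClosed_le (by fun_prop) continuous_const) ?_
      intro ζ hζ
      rw [mem_closedBall_zero_iff]
      rcases le_total ‖ζ‖ 1 with h | h
      · exact h.trans (le_max_left _ _)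
      · refine le_trans ?_ ((hζ : ‖ζ‖ ^ n j ≤ R2).trans (le_max_right _ _))
        exact le_self_pow₀ h (hn j).ne'
    exact (K j).isCompact_preimage.2 h1
  have hUcont : ∀ j, ContinuousOn (U j) {t | ‖K j t‖ ^ n j < Ry} := by
    intro j
    have h1 : Continuous (fun t => p + Li m (K j t ^ n j)) :=
      continuous_const.add ((contDiff_Li m (n := 0)).continuous.comp ((K j).continuous.pow _))
    have h2 : ContinuousOn (fun t => g j (K j t)) {t | ‖K j t‖ ^ n j < Ry} :=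
      (hgc j).comp (K j).continuous.continuousOn (fun t ht => ht)
    exact h1.continuousOn.prodMk h2
  have hEsub : ∀ j, E j ⊆ {t | ‖K j t‖ ^ n j < Ry} := fun j t ht =>
    lt_of_le_of_lt ht hR2R
  have hTmem : ∀ j t, ‖K j t‖ ^ n j < Ry → (U j t).2 ∈ S (U j t).1 ∧ dist (U j t).2 w0 < ε := by
    intro j t ht
    have h1 := hgm j (K j t) ht
    rw [Multiset.mem_filter] at h1
    exact h1
  have hinj : ∀ i j, ∀ t t', ‖K i t‖ ^ n i < Ry → U i t = U j t' →
      (i = j ∧ t = t') ∨ (t = 0 ∧ t' = 0) := by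
    intro i j t t' ht hte
    have h1 : p + Li m (K i t ^ n i) = p + Li m (K j t' ^ n j) := congrArg Prod.fst hte
    have h2 : g i (K i t) = g j (K j t') := congrArg Prod.snd hte
    have h3 : K i t ^ n i = K j t' ^ n j := by
      rw [← Lb_Li hm (K i t ^ n i), ← Lb_Li hm (K j t' ^ n j)]
      congr 1
      exact add_left_cancel h1
    rcases hginj i j _ _ ht h3 h2 with h4 | h4
    · left
      obtain ⟨rfl, h5⟩ := h4
      exact ⟨rfl, (K i).injective h5⟩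
    · right
      exact ⟨(K i).injective (h4.1.trans (hK0 i).symm), (K j).injective (h4.2.trans (hK0 j).symm)⟩
  have hcov : ∀ q ∈ G ∩ W, ∃ j, ∃ t ∈ E j, U j t = q := by
    rintro q ⟨hqG, hqW1, hqW2⟩
    have hq1 : p + Li m (Lb m (q.1 - p)) = q.1 := by rw [Li_Lb hm]; ring
    have h1 : q.2 ∈ (S (p + Li m (Lb m (q.1 - p)))).filter (fun b => dist b w0 < ε) := by
      rw [hq1, Multiset.mem_filter]; exact ⟨hqG, hqW2⟩
    obtain ⟨j, ζ, hζ1, hζ2⟩ := hgall _ (ball_subset_ball hR2R.le hqW1) _ h1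
    refine ⟨j, (K j).symm ζ, ?_, ?_⟩
    · simp only [hE, mem_setOf_eq, Homeomorph.apply_symm_apply]
      rw [← norm_pow, hζ1]
      exact (mem_ball_zero_iff.1 hqW1).le
    · simp only [hU, Homeomorph.apply_symm_apply]
      rw [hζ1, hq1, hζ2]
  have hρex : ∀ j, ∃ ρ > 0, ρ ≤ ρ0 j ∧ closedBall (0 : ℂ) ρ ⊆ E j ∧
      ∀ t ∈ ball (0 : ℂ) ρ, U j t ∈ W := by
    intro j
    have hop : IsOpen {t : ℂ | ‖K j t‖ ^ n j < R2} :=
      isOpen_lt ((K j).continuous.norm.pow _) continuous_const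
    have h0 : (0 : ℂ) ∈ {t : ℂ | ‖K j t‖ ^ n j < R2} := by
      simp only [mem_setOf_eq, hK0, norm_zero, zero_pow (hn j).ne']; exact hR20
    have hcat : ContinuousAt (U j) 0 := by
      refine (hUcont j).continuousAt (Filter.mem_of_superset (hop.mem_nhds h0) ?_)
      exact fun t ht => lt_trans (a := ‖K j t‖ ^ n j) ht hR2R
    have h1 : ∀ᶠ t in 𝓝 (0 : ℂ), U j t ∈ W := hcat.eventually_mem (by
      rw [hU0]; exact hWo.mem_nhds hPW)
    have h2 : {t : ℂ | ‖K j t‖ ^ n j < R2} ∩ {t | U j t ∈ W} ∈ 𝓝 (0 : ℂ) :=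
      Filter.inter_mem (hop.mem_nhds h0) h1
    obtain ⟨δ, hδ, H⟩ := Metric.nhds_basis_closedBall.mem_iff.1 h2
    refine ⟨min δ (ρ0 j), lt_min hδ (hρ0 j), min_le_right _ _, ?_, ?_⟩
    · intro t ht
      have h3 : ‖K j t‖ ^ n j < R2 := (H (closedBall_subset_closedBall (min_le_left _ _) ht)).1
      exact h3.le
    · intro t ht
      exact (H (closedBall_subset_closedBall (min_le_left _ _) (ball_subset_closedBall ht))).2
  choose ρ hρ hρρ hρE hρW using hρex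
  obtain ⟨O, hO, hPO, hOW, hGO, hprop⟩ := exists_U hWo hPW U E hEc
    (fun j => (hUcont j).mono (hEsub j)) hU0 (fun j t ht => (hTmem j t (hEsub j ht)).1)
    (fun i j t ht t' _ h => hinj i j t t' (hEsub i ht) h) hcov ρ hρ hρE hρW
  have hbE : ∀ j, ∀ t ∈ ball (0 : ℂ) (ρ j), ‖K j t‖ ^ n j < Ry := fun j t ht =>
    hEsub j (hρE j (ball_subset_closedBall ht))
  have hscale := fun j => pdisc_scale (μ := μ) (β := β) (hρ j)
    ((hUC j).mono (ball_subset_ball (hρρ j)))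
    (fun z hz v => hUz j z (ball_subset_ball (hρρ j) hz) v)
    (fun z hz v => hUw j z (ball_subset_ball (hρρ j) hz) v)
    (fun x hx y hy hxy => by
      rcases hinj j j x y (hbE j x hx) hxy with h | h
      · exact h.2
      · exact h.1.trans h.2.symm)
    (fun z hz hz0 v hv => hUimm j z (ball_subset_ball (hρρ j) hz) hz0 v hv)
  have hWq : ∀ q ∈ W, q.1 = p + Li m (Lb m (q.1 - p)) := fun q _ => by rw [Li_Lb hm]; ring
  refine ⟨O, J, fun j t => U j ((ρ j : ℂ) * t), ⟨hO, hPO, ?_, fun j => (hscale j).1, ?_, ?_, ?_,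
    ?_, ?_, fun j => (hscale j).2, ?_⟩⟩
  · intro q hq
    have hqW := hOW hq
    apply hεV
    rw [mem_ball, Prod.dist_eq, max_lt_iff]
    refine ⟨?_, lt_of_lt_of_le hqW.2 hεε0⟩
    have h1 := (hRy _ (ball_subset_ball hR2R.le hqW.1)).2.1
    rwa [← hWq q hqW] at h1
  · intro j
    simp only [mul_zero]
    exact hU0 j
  · intro i j hij z hz w hw hzw
    rcases hinj i j _ _ (hbE i _ (scale_mem (hρ i) hz)) hzw with h | h
    · exact absurd h.1 hij
    · have hρc : (ρ i : ℂ) ≠ 0 := by exact_mod_cast (hρ i).ne'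
      exact (mul_eq_zero.1 h.1).resolve_left hρc
  · rw [hGO]
    refine iUnion_congr fun j => ?_
    exact (image_scale (U := U j) (hρ j)).symm
  · intro j Q hQ hQO
    obtain ⟨s, hs, H⟩ := hprop j Q hQ hQO
    refine ⟨s / ρ j, (div_lt_one (hρ j)).2 hs, fun z hz hzQ => ?_⟩
    have h1 := H _ (scale_mem (hρ j) hz) hzQ
    rw [norm_mul, Complex.norm_real, Real.norm_of_nonneg (hρ j).le] at h1
    rw [le_div_iff₀ (hρ j)]
    linarith
  · intro j t ht ht0 h1
    have hρc : (ρ j : ℂ) ≠ 0 := by exact_mod_cast (hρ j).ne'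
    have h2 : Li m (K j ((ρ j : ℂ) * t) ^ n j) = 0 := by
      have h3 : p + Li m (K j ((ρ j : ℂ) * t) ^ n j) = p := h1
      linear_combination h3
    have h4 : K j ((ρ j : ℂ) * t) ^ n j = 0 := by
      rw [← Lb_Li hm (K j ((ρ j : ℂ) * t) ^ n j), h2, Lb_zero]
    have h5 : K j ((ρ j : ℂ) * t) = 0 := (pow_eq_zero_iff (hn j).ne').1 h4
    have h6 : (ρ j : ℂ) * t = 0 := (K j).injective (h5.trans (hK0 j).symm)
    exact ht0 ((mul_eq_zero.1 h6).resolve_left hρc)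
  · intro q hq hqp
    have hqW := hOW hq
    have h1 := (hRy _ (ball_subset_ball hR2R.le hqW.1)).2.2 (by
      intro h0
      apply hqp
      rw [hWq q hqW, h0, Li_zero, add_zero])
    rwa [← hWq q hqW] at h1

end

end Crest.Agent.R235.EndH_745
end

-- ▼ part R235/EndI_745
section

/-!
Row 235, package REG, leaf REG-END (helper745), part 9: the formula for the current.
-/

set_option autoImplicit false

open Complex Metric Set Filter Topology MeasureTheory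
open scoped ContDiff ComplexConjugate

namespace Crest.Agent.R235.EndI_745

open Crest.Agent.R235.NWDefs_334 Crest.Agent.R235.NWIface_334 Crest.Agent.R235.EndA_745
open Crest.Agent.R235.Loc Crest.Agent.R235.End Crest.Agent.R235.EndD_745
open Crest.Agent.R235.EndH_745

noncomputable section

/-- change of variables with multiplicity (task 319). -/
def CHVStmt : Prop := ∀ (φ : ℂ → ℂ) (O : Set ℂ), IsOpen O → ContDiffOn ℝ 1 φ O →
  (∀ t ∈ O, (fderiv ℝ φ t).det ≠ 0) → (∀ z, (O ∩ φ ⁻¹' {z}).Finite) → ∀ F : ℂ → ℝ,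
  IntegrableOn (fun t => |(fderiv ℝ φ t).det| * F t) O →
  Integrable (fun z => ∑ᶠ t ∈ O ∩ φ ⁻¹' {z}, F t) ∧
    ∫ z, ∑ᶠ t ∈ O ∩ φ ⁻¹' {z}, F t = ∫ t in O, |(fderiv ℝ φ t).det| * F t

/-! ### algebra -/

theorem det_eq (D : ℂ →L[ℝ] ℂ) : D.det = (D 1).re * (D I).im - (D I).re * (D 1).im := by
  rw [ContinuousLinearMap.det, ← LinearMap.det_toMatrix Complex.basisOneI, Matrix.det_fin_two]
  simp only [LinearMap.toMatrix_apply, Complex.coe_basisOneI, Complex.coe_basisOneI_repr,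
    Matrix.cons_val_zero, Matrix.cons_val_one, ContinuousLinearMap.coe_coe]

theorem det_eq_dl (D : ℂ →L[ℝ] ℂ) : D.det = ‖dl D‖ ^ 2 - ‖dbl D‖ ^ 2 := by
  rw [det_eq, apply_eq D 1, apply_eq D I, ← Complex.normSq_eq_norm_sq, ← Complex.normSq_eq_norm_sq,
    Complex.normSq_apply, Complex.normSq_apply]
  simp only [map_one, Complex.conj_I, Complex.add_re, Complex.add_im, Complex.mul_re,
    Complex.mul_im, Complex.I_re, Complex.I_im, Complex.neg_re, Complex.neg_im, mul_one, mul_zero]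
  ring

theorem det_pos {D : ℂ →L[ℝ] ℂ} {m : ℂ} (hm : ‖m‖ < 1)
    (h : D I + m * conj (D I) = I * (D 1 + m * conj (D 1))) (hinj : ∀ v, D v = 0 → v = 0) :
    0 < D.det := by
  have h1 : dbl D = - m * conj (dl D) := by
    rw [apply_eq D 1, apply_eq D I] at h
    simp only [map_one, Complex.conj_I, map_add, map_mul, map_neg] at h
    linear_combination ((1 / 2) * I) * h +
      ((1 / 2) * (2 * dbl D + m * conj (dl D) + m * conj (dl D))) * Complex.I_mul_I
  rw [det_eq_dl, h1, norm_mul, norm_neg, Complex.norm_conj]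
  have hp : dl D ≠ 0 := by
    intro h0
    have h2 : D 1 = 0 := by
      rw [apply_eq, h1, h0]; simp
    exact one_ne_zero (hinj 1 h2)
  have h3 : 0 < ‖dl D‖ := norm_pos_iff.2 hp
  have h4 : ‖m‖ * ‖dl D‖ < ‖dl D‖ := by nlinarith
  have h5 : 0 ≤ ‖m‖ * ‖dl D‖ := by positivity
  nlinarith

theorem alt_det (B : ℂ × ℂ →L[ℝ] ℂ × ℂ →L[ℝ] ℝ) (hB : ∀ v, B v v = 0) (A D : ℂ →L[ℝ] ℂ) :
    B (D 1, A (D 1)) (D I, A (D I)) = D.det * B (1, A 1) (I, A I) := by
  have hx : ∀ x : ℂ, ((x, A x) : ℂ × ℂ) = x.re • ((1 : ℂ), A 1) + x.im • (I, A I) := by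
    intro x
    have h1 : x = x.re • (1 : ℂ) + x.im • I := by
      simp [Complex.re_add_im]
    have h2 : A x = x.re • A 1 + x.im • A I := by
      conv_lhs => rw [h1]
      rw [map_add, map_smul, map_smul]
    refine Prod.ext ?_ ?_
    · simp only [Prod.fst_add, Prod.smul_fst]; exact h1
    · simp only [Prod.snd_add, Prod.smul_snd]; exact h2
  have hanti : B (I, A I) ((1 : ℂ), A 1) = - B ((1 : ℂ), A 1) (I, A I) := by
    have h1 := hB (((1 : ℂ), A 1) + (I, A I))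
    simp only [map_add, _root_.add_apply, hB] at h1
    linarith
  rw [hx (D 1), hx (D I), det_eq]
  simp only [map_add, map_smul, _root_.add_apply, ContinuousLinearMap.smul_apply, hB, hanti,
    smul_eq_mul]
  ring

/-! ### sheets along a disc -/

section
variable {μ β : ℂ × ℂ → ℂ} {κ L : ℝ} {c : ℂ} {R : ℝ} {k : ℕ} {S : ℂ → Multiset ℂ} {e : ℂ → ℝ}

theorem slope_along (hB : BoxD μ β κ L) (hK : KG μ β c R k S e) {u : ℂ → ℂ × ℂ} {t : ℂ}
    (hu : DifferentiableAt ℝ u t) (hcR : (u t).1 ∈ ball c R) (hnd : (S (u t).1).Nodup)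
    (hmem : ∀ᶠ t' in 𝓝 t, (u t').2 ∈ S (u t').1) (v : ℂ) :
    fderiv ℝ u t v = ((fderiv ℝ (fun t => (u t).1) t) v,
      slope S (u t).1 (u t).2 ((fderiv ℝ (fun t => (u t).1) t) v)) := by
  obtain ⟨ρ, w, hρ, hsub, hsh, hwC, hwi, hSw, hsl⟩ :=
    (LocSel_483.sel μ β κ L hB c R k S e hK).2 _ (⟨hcR, hnd⟩ : (u t).1 ∈ Usimp c R S)
  have h1 : DifferentiableAt ℝ (fun t => (u t).1) t := hu.fst
  have h2 : DifferentiableAt ℝ (fun t => (u t).2) t := hu.snd
  have hself : (u t).1 ∈ ball (u t).1 ρ := mem_ball_self hρ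
  have hwd : ∀ i, DifferentiableAt ℝ (w i) (u t).1 := fun i =>
    ((hwC i).differentiableOn (by simp)).differentiableAt (isOpen_ball.mem_nhds hself)
  obtain ⟨i, hi⟩ := Mono_659.eventually_sheet (fun t => (u t).2) (fun i t' => w i (u t').1) t
    h2.continuousAt
    (fun i => ContinuousAt.comp (f := fun t' => (u t').1) (hwd i).continuousAt h1.continuousAt)
    (hwi _ hself)
    (by
      filter_upwards [hmem, h1.continuousAt.eventually_mem (ball_mem_nhds _ hρ)] with t' h3 h4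
      rw [hSw _ h4] at h3
      obtain ⟨i, -, hi⟩ := Multiset.mem_map.1 h3
      exact ⟨i, hi⟩)
  have hi' : (fun t => (u t).2) =ᶠ[𝓝 t] (fun t' => w i (u t').1) := hi
  have h5 : fderiv ℝ (fun t => (u t).2) t =
      (fderiv ℝ (w i) (u t).1).comp (fderiv ℝ (fun t => (u t).1) t) := by
    rw [hi'.fderiv_eq]
    exact fderiv_comp t (hwd i) h1
  have h6 : (u t).2 = w i (u t).1 := hi'.self_of_nhds
  have h7 : fderiv ℝ u t v = ((fderiv ℝ (fun t => (u t).1) t) v,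
      (fderiv ℝ (fun t => (u t).2) t) v) := by
    have h8 := (h1.hasFDerivAt.prodMk h2.hasFDerivAt).fderiv
    have h9 : fderiv ℝ u t = (fderiv ℝ (fun t => (u t).1) t).prod
        (fderiv ℝ (fun t => (u t).2) t) := h8
    rw [h9, ContinuousLinearMap.prod_apply]
  rw [h7, h5, h6, hsl _ hself i]
  rfl

/-- the value of `g` on the tangent plane of the graph. -/
def Gf (S : ℂ → Multiset ℂ) (g : ℂ × ℂ → (ℂ × ℂ →L[ℝ] ℂ × ℂ →L[ℝ] ℝ)) (q : ℂ × ℂ) : ℝ :=
  g q (1, slope S q.1 q.2 1) (I, slope S q.1 q.2 I)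

variable {P : ℂ × ℂ} {V U : Set (ℂ × ℂ)} {n : ℕ} {u : Fin n → ℂ → ℂ × ℂ}

theorem mem_graph (h : PL0 μ β S P V U n u) {j : Fin n} {t : ℂ} (ht : t ∈ ball (0 : ℂ) 1) :
    (u j t).2 ∈ S (u j t).1 ∧ u j t ∈ U := by
  have h1 : u j t ∈ {q : ℂ × ℂ | q.2 ∈ S q.1} ∩ U := by
    rw [h.supp]; exact mem_iUnion.2 ⟨j, t, ht, rfl⟩
  exact h1

theorem pl_diff (h : PL0 μ β S P V U n u) {j : Fin n} {t : ℂ} (ht : t ∈ ball (0 : ℂ) 1) :
    DifferentiableAt ℝ (u j) t :=
  ((h.disc j).smooth.differentiableOn (by simp)).differentiableAt (isOpen_ball.mem_nhds ht)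

theorem density (hB : BoxD μ β κ L) (hK : KG μ β c R k S e) (hVc : V ⊆ ball c R ×ˢ univ)
    (h : PL0 μ β S P V U n u) (g : ℂ × ℂ → (ℂ × ℂ →L[ℝ] ℂ × ℂ →L[ℝ] ℝ)) (hg : ∀ q v, g q v v = 0)
    {j : Fin n} {t : ℂ} (ht : t ∈ ball (0 : ℂ) 1) (ht0 : t ≠ 0) :
    0 < (fderiv ℝ (fun t => (u j t).1) t).det ∧
    |(fderiv ℝ (fun t => (u j t).1) t).det| * Gf S g (u j t) =
      g (u j t) (fderiv ℝ (u j) t 1) (fderiv ℝ (u j) t I) := by
  have hd := pl_diff h (j := j) ht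
  have hgr := mem_graph h (j := j) ht
  have hcR : (u j t).1 ∈ ball c R := (hVc (h.sub hgr.2)).1
  have hnd := h.nodup _ hgr.2 (h.ne j t ht ht0)
  have hsl := slope_along hB hK hd hcR hnd (by
    filter_upwards [isOpen_ball.mem_nhds ht] with t' ht'
    exact (mem_graph h (j := j) ht').1)
  have hfst : ∀ v, (fderiv ℝ (u j) t v).1 = (fderiv ℝ (fun t => (u j t).1) t) v := fun v => by
    rw [hsl v]
  have hpos : 0 < (fderiv ℝ (fun t => (u j t).1) t).det := by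
    have hm : ‖μ (u j t)‖ < 1 := (hB.bμ _).trans_lt hB.κ1
    refine det_pos hm ?_ (fun v hv => h.imm1 j t ht ht0 v (by rw [hfst]; exact hv))
    have h1 := (h.disc j).jz t ht 1
    rw [hfst, hfst, mul_one] at h1
    exact h1
  refine ⟨hpos, ?_⟩
  rw [abs_of_pos hpos, hsl 1, hsl I, alt_det (g (u j t)) (hg _)]
  rfl

theorem fibre_fin (h : PL0 μ β S P V U n u) (j : Fin n) (z : ℂ) :
    ((ball (0 : ℂ) 1 \ {0}) ∩ (fun t => (u j t).1) ⁻¹' {z}).Finite := by
  classical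
  refine Set.Finite.of_finite_image (f := fun t => (u j t).2) ?_ ?_
  · refine (S z).toFinset.finite_toSet.subset ?_
    rintro _ ⟨t, ⟨ht, htz⟩, rfl⟩
    have h1 := (mem_graph h (j := j) ht.1).1
    have htz' : (u j t).1 = z := htz
    rw [htz'] at h1
    exact Multiset.mem_toFinset.2 h1
  · rintro t ⟨ht, htz⟩ t' ⟨ht', htz'⟩ htt
    refine (h.disc j).inj ht.1 ht'.1 (Prod.ext ?_ htt)
    exact htz.trans htz'.symm

open Classical in
theorem fibre_sum (h : PL0 μ β S P V U n u) (g : ℂ × ℂ → (ℂ × ℂ →L[ℝ] ℂ × ℂ →L[ℝ] ℝ))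
    (hgU : ∀ q ∉ U, g q = 0) {z : ℂ} (hz : z ≠ P.1) :
    ∑ w ∈ (S z).toFinset, g (z, w) (1, slope S z w 1) (I, slope S z w I) =
      ∑ j, ∑ᶠ t ∈ (ball (0 : ℂ) 1 \ {0}) ∩ (fun t => (u j t).1) ⁻¹' {z}, Gf S g (u j t) := by
  have h1 : ∀ j, ∑ᶠ t ∈ (ball (0 : ℂ) 1 \ {0}) ∩ (fun t => (u j t).1) ⁻¹' {z}, Gf S g (u j t) =
      ∑ t ∈ (fibre_fin h j z).toFinset, Gf S g (u j t) := fun j =>
    finsum_mem_eq_finite_toFinset_sum _ _
  simp only [h1]
  rw [Finset.sum_sigma']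
  rw [← Finset.sum_filter_add_sum_filter_not (S z).toFinset (fun w => (z, w) ∈ U)]
  have h2 : ∑ w ∈ (S z).toFinset with (z, w) ∉ U,
      g (z, w) (1, slope S z w 1) (I, slope S z w I) = 0 := by
    refine Finset.sum_eq_zero fun w hw => ?_
    rw [hgU _ (Finset.mem_filter.1 hw).2]
    rfl
  rw [h2, add_zero]
  symm
  refine Finset.sum_bij (fun x _ => (u x.1 x.2).2) ?_ ?_ ?_ ?_
  · rintro ⟨j, t⟩ hx
    rw [Finset.mem_sigma] at hx
    obtain ⟨ht, htz⟩ := (Set.Finite.mem_toFinset _).1 hx.2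
    have htz' : (u j t).1 = z := htz
    obtain ⟨h3, h4⟩ := mem_graph h (j := j) ht.1
    rw [Finset.mem_filter, Multiset.mem_toFinset]
    have h5 : ((z, (u j t).2) : ℂ × ℂ) = u j t := Prod.ext htz'.symm rfl
    refine ⟨?_, ?_⟩
    · rw [← htz']; exact h3
    · change ((z, (u j t).2) : ℂ × ℂ) ∈ U
      rw [h5]; exact h4
  · rintro ⟨j, t⟩ hx ⟨j', t'⟩ hx' hxx
    rw [Finset.mem_sigma] at hx hx'
    obtain ⟨ht, htz⟩ := (Set.Finite.mem_toFinset _).1 hx.2
    obtain ⟨ht', htz'⟩ := (Set.Finite.mem_toFinset _).1 hx'.2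
    have h3 : u j t = u j' t' := Prod.ext ((htz : (u j t).1 = z).trans
      (htz' : (u j' t').1 = z).symm) hxx
    by_cases hj : j = j'
    · subst hj
      have h4 : t = t' := (h.disc j).inj ht.1 ht'.1 h3
      rw [h4]
    · exact absurd (h.disj j j' hj t ht.1 t' ht'.1 h3) ht.2
  · intro w hw
    rw [Finset.mem_filter, Multiset.mem_toFinset] at hw
    have h3 : ((z, w) : ℂ × ℂ) ∈ ⋃ j, u j '' ball (0 : ℂ) 1 := by
      rw [← h.supp]; exact ⟨hw.1, hw.2⟩
    obtain ⟨j, t, ht, hte⟩ := mem_iUnion.1 h3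
    have ht0 : t ≠ 0 := by
      rintro rfl
      rw [h.centre j] at hte
      exact hz (congrArg Prod.fst hte).symm
    refine ⟨⟨j, t⟩, ?_, ?_⟩
    · rw [Finset.mem_sigma]
      refine ⟨Finset.mem_univ _, (Set.Finite.mem_toFinset _).2 ⟨⟨ht, ht0⟩, ?_⟩⟩
      exact congrArg Prod.fst hte
    · exact congrArg Prod.snd hte
  · rintro ⟨j, t⟩ hx
    rw [Finset.mem_sigma] at hx
    obtain ⟨ht, htz⟩ := (Set.Finite.mem_toFinset _).1 hx.2
    have h5 : ((z, (u j t).2) : ℂ × ℂ) = u j t := Prod.ext (htz : (u j t).1 = z).symm rfl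
    change Gf S g (u j t) = Gf S g (z, (u j t).2)
    rw [h5]

theorem int_disc (h : PL0 μ β S P V U n u) (g : ℂ × ℂ → (ℂ × ℂ →L[ℝ] ℂ × ℂ →L[ℝ] ℝ))
    (hgc : Continuous g) {K : Set (ℂ × ℂ)} (hKU : K ⊆ U) (hK : IsCompact K)
    (hgK : ∀ q ∉ K, g q = 0) (j : Fin n) :
    IntegrableOn (fun t => g (u j t) (fderiv ℝ (u j) t 1) (fderiv ℝ (u j) t I)) (ball 0 1) := by
  obtain ⟨r, hr, H⟩ := h.proper j K hK hKU
  have hcd : ContinuousOn (fderiv ℝ (u j)) (ball 0 1) :=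
    (h.disc j).smooth.continuousOn_fderiv_of_isOpen isOpen_ball (by simp)
  have hcu : ContinuousOn (fun t => g (u j t)) (ball 0 1) :=
    hgc.comp_continuousOn (h.disc j).smooth.continuousOn
  have hc : ContinuousOn (fun t => g (u j t) (fderiv ℝ (u j) t 1) (fderiv ℝ (u j) t I))
      (ball 0 1) :=
    (hcu.clm_apply (hcd.clm_apply continuousOn_const)).clm_apply
      (hcd.clm_apply continuousOn_const)
  have h1 : IntegrableOn (fun t => g (u j t) (fderiv ℝ (u j) t 1) (fderiv ℝ (u j) t I))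
      (closedBall 0 r) :=
    (hc.mono (closedBall_subset_ball hr)).integrableOn_compact (isCompact_closedBall _ _)
  refine h1.of_forall_diff_eq_zero measurableSet_ball ?_
  rintro t ⟨ht, htr⟩
  have h2 : u j t ∉ K := fun h3 => htr (mem_closedBall_zero_iff.2 (H t ht h3))
  rw [hgK _ h2]
  rfl

/-- **the formula for the current** -/
theorem current (hCHV : CHVStmt) (hB : BoxD μ β κ L) (hK : KG μ β c R k S e)
    (hVc : V ⊆ ball c R ×ˢ univ) (h : PL0 μ β S P V U n u)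
    (g : ℂ × ℂ → (ℂ × ℂ →L[ℝ] ℂ × ℂ →L[ℝ] ℝ)) (hgc : Continuous g) (hg : ∀ q v, g q v v = 0)
    {K : Set (ℂ × ℂ)} (hKU : K ⊆ U) (hKc : IsCompact K) (hgK : ∀ q ∉ K, g q = 0) :
    Integrable (fun z => ∑ w ∈ (S z).toFinset,
        g (z, w) (1, slope S z w 1) (I, slope S z w I)) ∧
    (∀ j, IntegrableOn (fun t => g (u j t) (fderiv ℝ (u j) t 1) (fderiv ℝ (u j) t I))
      (ball 0 1)) ∧
    ∫ z, ∑ w ∈ (S z).toFinset, g (z, w) (1, slope S z w 1) (I, slope S z w I) =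
      ∑ j, ∫ t in ball (0 : ℂ) 1, g (u j t) (fderiv ℝ (u j) t 1) (fderiv ℝ (u j) t I) := by
  have hgU : ∀ q ∉ U, g q = 0 := fun q hq => hgK q fun h1 => hq (hKU h1)
  have hint := int_disc h g hgc hKU hKc hgK
  have hO : IsOpen (ball (0 : ℂ) 1 \ {0}) := isOpen_ball.sdiff isClosed_singleton
  have hOae : (ball (0 : ℂ) 1 \ {0} : Set ℂ) =ᵐ[volume] ball (0 : ℂ) 1 :=
    diff_null_ae_eq_self (measure_singleton 0)
  have hcongr : ∀ j, ∀ t ∈ ball (0 : ℂ) 1 \ {0},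
      |(fderiv ℝ (fun t => (u j t).1) t).det| * Gf S g (u j t) =
      g (u j t) (fderiv ℝ (u j) t 1) (fderiv ℝ (u j) t I) := fun j t ht =>
    (density hB hK hVc h g hg ht.1 ht.2).2
  have hchv := fun j => hCHV (fun t => (u j t).1) (ball (0 : ℂ) 1 \ {0}) hO
    (((h.disc j).smooth.fst.mono diff_subset).of_le (by exact_mod_cast le_top))
    (fun t ht => (density hB hK hVc h g hg ht.1 ht.2).1.ne') (fibre_fin h j)
    (fun t => Gf S g (u j t))
    (((hint j).mono_set diff_subset).congr_fun (fun t ht => (hcongr j t ht).symm)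
      hO.measurableSet)
  have hae : (fun z => ∑ w ∈ (S z).toFinset, g (z, w) (1, slope S z w 1) (I, slope S z w I))
      =ᵐ[volume] fun z => ∑ j, ∑ᶠ t ∈ (ball (0 : ℂ) 1 \ {0}) ∩ (fun t => (u j t).1) ⁻¹' {z},
        Gf S g (u j t) := by
    have h1 : ∀ᵐ z : ℂ, z ≠ P.1 := by
      have : (volume : Measure ℂ) {P.1} = 0 := measure_singleton _
      exact compl_mem_ae_iff.2 this
    filter_upwards [h1] with z hz
    exact fibre_sum h g hgU hz
  refine ⟨?_, hint, ?_⟩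
  · refine Integrable.congr ?_ hae.symm
    exact integrable_finset_sum _ fun j _ => (hchv j).1
  · rw [integral_congr_ae hae, integral_finset_sum _ fun j _ => (hchv j).1]
    refine Finset.sum_congr rfl fun j _ => ?_
    rw [(hchv j).2, ← setIntegral_congr_set hOae]
    exact setIntegral_congr_fun hO.measurableSet (hcongr j)

end

end

end Crest.Agent.R235.EndI_745
end

-- ▼ part R235/EndJ_745
section

/-!
Row 235, package REG, leaf REG-END (helper745), part 10: `END`.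
-/

set_option autoImplicit false

open Complex Metric Set Filter Topology MeasureTheory
open scoped ContDiff ComplexConjugate

namespace Crest.Agent.R235.EndJ_745

open Crest.Agent.R235.NWDefs_334 Crest.Agent.R235.NWIface_334
open Crest.Agent.R235.Loc Crest.Agent.R235.End Crest.Agent.R235.EndH_745
open Crest.Agent.R235.EndI_745

noncomputable section

/-- points off the graph. -/
theorem assemble0 {μ β : ℂ × ℂ → ℂ} {c : ℂ} {R : ℝ} {k : ℕ}
    {S : ℂ → Multiset ℂ} {e : ℂ → ℝ} (hK : KG μ β c R k S e) {p : ℂ} (hp : p ∈ ball c R)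
    (hnd : ∀ᶠ z in 𝓝[≠] p, (S z).Nodup) {w0 : ℂ} (hw0 : w0 ∉ S p) {V : Set (ℂ × ℂ)}
    (hV : IsOpen V) (hPV : (p, w0) ∈ V) :
    ∃ (U : Set (ℂ × ℂ)) (u : Fin 0 → ℂ → ℂ × ℂ), PL0 μ β S (p, w0) V U 0 u := by
  obtain ⟨δ, hδ, hgap⟩ := LocClus_305.exists_gap w0 (S p)
  have hne : ∀ b ∈ S p, b ≠ w0 := fun b hb h => hw0 (h ▸ hb)
  have h1 : ∀ᶠ z in 𝓝 p, Near (δ / 2) (S p) (S z) := hK.cont p hp _ (by positivity)
  have h2 : ∀ᶠ z in 𝓝 p, z ≠ p → (S z).Nodup := eventually_nhdsWithin_iff.1 hnd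
  obtain ⟨r, hr, H⟩ := Metric.eventually_nhds_iff_ball.1 (h1.and h2)
  refine ⟨V ∩ {q | dist q.1 p < r ∧ dist q.2 w0 < δ / 2}, fun j => j.elim0,
    ⟨?_, ?_, inter_subset_left, fun j => j.elim0, fun j => j.elim0, fun j => j.elim0, ?_,
      fun j => j.elim0, fun j => j.elim0, fun j => j.elim0, ?_⟩⟩
  · refine hV.inter ((isOpen_lt (continuous_fst.dist continuous_const) continuous_const).inter
      (isOpen_lt (continuous_snd.dist continuous_const) continuous_const))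
  · refine ⟨hPV, ?_, ?_⟩
    · simp only [dist_self]; exact hr
    · simp only [dist_self]; positivity
  · rw [iUnion_of_empty]
    refine Set.eq_empty_iff_forall_notMem.2 ?_
    rintro q ⟨hq1, -, hq2, hq3⟩
    have h3 := (H q.1 hq2).1
    obtain ⟨a, ha, hd⟩ := Multiset.exists_mem_of_rel_of_mem (Multiset.rel_flip.2 h3) hq1
    have hd' : dist a q.2 < δ / 2 := hd
    have h4 := hgap a ha (hne a ha)
    have h5 := dist_triangle a q.2 w0
    linarith
  · rintro q ⟨-, hq2, -⟩ hqp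
    exact (H q.1 hq2).2 hqp

theorem ploc_of {μ β : ℂ × ℂ → ℂ} {κ L : ℝ} (hCHV : CHVStmt) (hB : BoxD μ β κ L) {c : ℂ} {R : ℝ}
    {k : ℕ} {S : ℂ → Multiset ℂ} {e : ℂ → ℝ} (hK : KG μ β c R k S e) {P : ℂ × ℂ}
    {V : Set (ℂ × ℂ)} (hVc : V ⊆ ball c R ×ˢ univ) {U : Set (ℂ × ℂ)} {n : ℕ}
    {u : Fin n → ℂ → ℂ × ℂ} (h : PL0 μ β S P V U n u) : PLoc μ β S P V U n u where
  openU := h.openU
  mem := h.mem
  sub := h.sub
  disc := h.disc
  centre := h.centre
  disj := h.disj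
  supp := h.supp
  proper := h.proper
  cur := by
    rintro g hgc hg ⟨K, hKU, hKc, hgK⟩
    exact current hCHV hB hK hVc h g hgc hg hKU hKc hgK

/-- **END** (modulo the Beltrami coordinate, the regularity of `C¹` discs and the change of
variables). -/
theorem end_of (hBel : BelStmt) (hReg : RegStmt) (hCHV : CHVStmt) : END := by
  intro μ β κ L hB hμ hβ c R k S e hK p hp hold hnd w0 V hV hPV hVc
  obtain ⟨C, b, r, hb, hr, hold⟩ := hold
  by_cases hw0 : w0 ∈ S p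
  · obtain ⟨U, n, u, h⟩ := assemble hBel NWKP_133.kp_stmt hReg hB hμ hβ hK hp hb hr hold hnd hw0
      hV hPV
    exact ⟨U, n, u, ploc_of hCHV hB hK hVc h⟩
  · obtain ⟨U, u, h⟩ := assemble0 (β := β) hK hp hnd hw0 hV hPV
    exact ⟨U, 0, u, ploc_of hCHV hB hK hVc h⟩

end

end Crest.Agent.R235.EndJ_745
end

-- ▼ part R235/EndChv_745
section

/-!
Row 235, package REG, leaf REG-END (helper745): change of variables with multiplicity.
-/

set_option autoImplicit false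

open Set Filter Topology MeasureTheory

namespace Crest.Agent.R235.EndChv_745

noncomputable section

/-- local injectivity and a countable disjoint decomposition. -/
theorem exists_pieces {φ : ℂ → ℂ} {O : Set ℂ} (hO : IsOpen O) (hφ : ContDiffOn ℝ 1 φ O)
    (hdet : ∀ t ∈ O, (fderiv ℝ φ t).det ≠ 0) :
    ∃ P : ℕ → Set ℂ, (∀ n, MeasurableSet (P n)) ∧ Pairwise (Function.onFun Disjoint P) ∧
      (⋃ n, P n) = O ∧ ∀ n, InjOn φ (P n) := by
  have hloc : ∀ t ∈ O, ∃ N : Set ℂ, IsOpen N ∧ t ∈ N ∧ N ⊆ O ∧ InjOn φ N := by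
    intro t ht
    have h1 : ContDiffAt ℝ 1 φ t := hφ.contDiffAt (hO.mem_nhds ht)
    have h2 : HasStrictFDerivAt φ (fderiv ℝ φ t) t := h1.hasStrictFDerivAt (by norm_num)
    have h3 : HasStrictFDerivAt φ
        (((fderiv ℝ φ t).toContinuousLinearEquivOfDetNeZero (hdet t ht) : ℂ ≃L[ℝ] ℂ) :
          ℂ →L[ℝ] ℂ) t := by
      rw [ContinuousLinearMap.coe_toContinuousLinearEquivOfDetNeZero]; exact h2
    refine ⟨(h3.toOpenPartialHomeomorph φ).source ∩ O,
      (h3.toOpenPartialHomeomorph φ).open_source.inter hO,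
      ⟨h3.mem_toOpenPartialHomeomorph_source, ht⟩, inter_subset_right, ?_⟩
    exact (h3.toOpenPartialHomeomorph φ).injOn.mono inter_subset_left
  choose! N hNo hNt hNO hNi using hloc
  obtain ⟨T, hTO, hTc, hTU⟩ := TopologicalSpace.countable_cover_nhdsWithin (s := O) (f := N)
    (fun t ht => mem_nhdsWithin_of_mem_nhds ((hNo t ht).mem_nhds (hNt t ht)))
  rcases T.eq_empty_or_nonempty with hT | hT
  · refine ⟨fun _ => ∅, fun _ => MeasurableSet.empty, fun i j _ => disjoint_bot_left, ?_,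
      fun n => injOn_empty _⟩
    rw [iUnion_empty]
    rw [hT] at hTU
    simp only [mem_empty_iff_false, iUnion_of_empty, iUnion_empty] at hTU
    exact (subset_empty_iff.1 hTU).symm
  · obtain ⟨x, hx⟩ := hTc.exists_eq_range hT
    have hxO : ∀ n, x n ∈ O := fun n => hTO (by rw [hx]; exact mem_range_self n)
    refine ⟨disjointed fun n => N (x n), ?_, disjoint_disjointed _, ?_, ?_⟩
    · intro n
      exact MeasurableSet.disjointed (fun i => (hNo _ (hxO i)).measurableSet) n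
    · rw [iUnion_disjointed]
      apply Subset.antisymm
      · exact iUnion_subset fun n => hNO _ (hxO n)
      · intro t ht
        obtain ⟨y, hy, hty⟩ := mem_iUnion₂.1 (hTU ht)
        rw [hx] at hy
        obtain ⟨n, rfl⟩ := hy
        exact mem_iUnion.2 ⟨n, hty⟩
    · intro n
      exact (hNi _ (hxO n)).mono (disjointed_subset _ n)

theorem chv {φ : ℂ → ℂ} {O : Set ℂ} (hO : IsOpen O) (hφ : ContDiffOn ℝ 1 φ O)
    (hdet : ∀ t ∈ O, (fderiv ℝ φ t).det ≠ 0) (hfin : ∀ z, (O ∩ φ ⁻¹' {z}).Finite) (F : ℂ → ℝ)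
    (hF : IntegrableOn (fun t => |(fderiv ℝ φ t).det| * F t) O) :
    Integrable (fun z => ∑ᶠ t ∈ O ∩ φ ⁻¹' {z}, F t) ∧
      ∫ z, ∑ᶠ t ∈ O ∩ φ ⁻¹' {z}, F t = ∫ t in O, |(fderiv ℝ φ t).det| * F t := by
  classical
  obtain ⟨P, hPm, hPd, hPO, hPi⟩ := exists_pieces hO hφ hdet
  have hPsub : ∀ n, P n ⊆ O := fun n => by rw [← hPO]; exact subset_iUnion P n
  have hd : ∀ n, ∀ t ∈ P n, HasFDerivWithinAt φ (fderiv ℝ φ t) (P n) t := fun n t ht =>
    (((hφ.differentiableOn (by norm_num)).differentiableAt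
      (hO.mem_nhds (hPsub n ht))).hasFDerivAt).hasFDerivWithinAt
  have hIm : ∀ n, MeasurableSet (φ '' P n) := fun n =>
    measurable_image_of_fderivWithin (hPm n) (hd n) (hPi n)
  set f : ℕ → ℂ → ℝ := fun n z => F (Function.invFunOn φ (P n) z) with hf
  have hfφ : ∀ n, ∀ t ∈ P n, f n (φ t) = F t := by
    intro n t ht
    simp only [hf]
    rw [(hPi n).leftInvOn_invFunOn ht]
  set h : ℕ → ℂ → ℝ := fun n => (φ '' P n).indicator (f n) with hh
  have hFn : ∀ n, IntegrableOn (fun t => |(fderiv ℝ φ t).det| * F t) (P n) := fun n =>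
    hF.mono_set (hPsub n)
  have hfint : ∀ n, IntegrableOn (f n) (φ '' P n) := by
    intro n
    rw [integrableOn_image_iff_integrableOn_abs_det_fderiv_smul volume (hPm n) (hd n) (hPi n)]
    refine (hFn n).congr_fun (fun t ht => ?_) (hPm n)
    simp only [smul_eq_mul]
    rw [hfφ n t ht]
  have hhint : ∀ n, Integrable (h n) := fun n => (hfint n).integrable_indicator (hIm n)
  have hhI : ∀ n, ∫ z, h n z = ∫ t in P n, |(fderiv ℝ φ t).det| * F t := by
    intro n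
    rw [hh, integral_indicator (hIm n),
      integral_image_eq_integral_abs_det_fderiv_smul volume (hPm n) (hd n) (hPi n)]
    refine setIntegral_congr_fun (hPm n) (fun t ht => ?_)
    simp only [smul_eq_mul]
    rw [hfφ n t ht]
  have hhN : ∀ n, ∫ z, ‖h n z‖ = ∫ t in P n, ‖|(fderiv ℝ φ t).det| * F t‖ := by
    intro n
    have h1 : (fun z => ‖h n z‖) = (φ '' P n).indicator (fun z => ‖f n z‖) := by
      funext z
      exact norm_indicator_eq_indicator_norm _ _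
    rw [h1, integral_indicator (hIm n),
      integral_image_eq_integral_abs_det_fderiv_smul volume (hPm n) (hd n) (hPi n)]
    refine setIntegral_congr_fun (hPm n) (fun t ht => ?_)
    simp only [smul_eq_mul]
    rw [hfφ n t ht, norm_mul, Real.norm_eq_abs |_|, abs_abs]
  have hsum : Summable fun n => ∫ z, ‖h n z‖ := by
    simp only [hhN]
    have hFO : IntegrableOn (fun t => ‖|(fderiv ℝ φ t).det| * F t‖) (⋃ n, P n) := by
      rw [hPO]; exact hF.norm
    exact (hasSum_integral_iUnion hPm hPd hFO).summable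
  -- the fibre sum
  have hex : ∀ t : ℂ, ∃ n, t ∈ O → t ∈ P n := by
    intro t
    by_cases ht : t ∈ O
    · rw [← hPO] at ht
      obtain ⟨n, hn⟩ := mem_iUnion.1 ht
      exact ⟨n, fun _ => hn⟩
    · exact ⟨0, fun h => absurd h ht⟩
  choose nn hnn using hex
  have hpt : ∀ z, HasSum (fun n => h n z) (∑ᶠ t ∈ O ∩ φ ⁻¹' {z}, F t) := by
    intro z
    set A := (hfin z).toFinset with hA
    have hAm : ∀ t ∈ A, t ∈ O ∧ φ t = z := by
      intro t ht
      have h1 : t ∈ O ∩ φ ⁻¹' {z} := (hfin z).mem_toFinset.1 ht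
      exact h1
    have hinj : ∀ t ∈ A, ∀ t' ∈ A, nn t = nn t' → t = t' := by
      intro t ht t' ht' hnt
      have h1 := hnn t (hAm t ht).1
      have h2 := hnn t' (hAm t' ht').1
      rw [← hnt] at h2
      exact hPi _ h1 h2 ((hAm t ht).2.trans (hAm t' ht').2.symm)
    have hval : ∀ t ∈ A, h (nn t) z = F t := by
      intro t ht
      have h1 := hnn t (hAm t ht).1
      have h2 : z ∈ φ '' P (nn t) := ⟨t, h1, (hAm t ht).2⟩
      simp only [hh]
      rw [indicator_of_mem h2, ← (hAm t ht).2, hfφ _ t h1]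
    have hzero : ∀ n ∉ A.image nn, h n z = 0 := by
      intro n hn
      simp only [hh]
      rw [indicator_of_notMem]
      rintro ⟨t, ht, rfl⟩
      apply hn
      have htO : t ∈ O := hPsub n ht
      have htA : t ∈ A := (hfin (φ t)).mem_toFinset.2 ⟨htO, rfl⟩
      refine Finset.mem_image.2 ⟨t, htA, ?_⟩
      by_contra hne
      exact (Set.disjoint_left.1 (hPd hne)) (hnn t htO) ht
    have h1 : ∑ᶠ t ∈ O ∩ φ ⁻¹' {z}, F t = ∑ n ∈ A.image nn, h n z := by
      rw [finsum_mem_eq_finite_toFinset_sum _ (hfin z), Finset.sum_image hinj]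
      exact Finset.sum_congr rfl fun t ht => (hval t ht).symm
    rw [h1]
    exact hasSum_sum_of_ne_finset_zero hzero
  have hfun : (fun z => ∑ᶠ t ∈ O ∩ φ ⁻¹' {z}, F t) = fun z => ∑' n, h n z := by
    funext z
    exact (hpt z).tsum_eq.symm
  refine ⟨?_, ?_⟩
  · have hlt : ∑' n, ∫⁻ z, ‖h n z‖ₑ < ⊤ := by
      have h1 : ∀ n, ∫⁻ z, ‖h n z‖ₑ = ENNReal.ofReal (∫ z, ‖h n z‖) := fun n => by
        rw [ofReal_integral_norm_eq_lintegral_enorm (hhint n)]
      simp only [h1]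
      exact hsum.tsum_ofReal_lt_top
    have hms : AEStronglyMeasurable (fun z => ∑ᶠ t ∈ O ∩ φ ⁻¹' {z}, F t) volume := by
      refine aestronglyMeasurable_of_tendsto_ae atTop
        (f := fun (N : ℕ) z => ∑ n ∈ Finset.range N, h n z) ?_ ?_
      · intro N
        exact (integrable_finset_sum _ fun n _ => hhint n).aestronglyMeasurable
      · exact Eventually.of_forall fun z => (hpt z).tendsto_sum_nat
    refine ⟨hms, ?_⟩
    rw [hasFiniteIntegral_iff_enorm]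
    refine lt_of_le_of_lt ?_ hlt
    rw [← lintegral_tsum (fun n => (hhint n).aestronglyMeasurable.enorm)]
    refine lintegral_mono fun z => ?_
    rw [← (hpt z).tsum_eq]
    exact enorm_tsum_le_tsum_enorm
  · rw [hfun, ← (hasSum_integral_of_summable_integral_norm hhint hsum).tsum_eq]
    simp only [hhI]
    have hFO : IntegrableOn (fun t => |(fderiv ℝ φ t).det| * F t) (⋃ n, P n) := by
      rw [hPO]; exact hF
    rw [(hasSum_integral_iUnion hPm hPd hFO).tsum_eq, hPO]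

end

end Crest.Agent.R235.EndChv_745
end

-- ▼ part R235/NWBel_601

/-!
# Row 235, package NW, leaf BEL (helper601): the Beltrami coordinate of a small Hölder coefficient

`bel : BelStmt`: Neumann series in the Banach space `Hol a ℂ ℂ` for
`g = μ (1 + ∂ T g)`, `T g = P (κ g)`; the coordinate is `χ = id + T g`.
-/

set_option autoImplicit false

open Set Filter Metric Topology MeasureTheory
open scoped ContDiff Real

namespace Crest.Agent.R235.NWBel_601

open Crest.Agent.R235.NWDefs_334 Crest.Agent.R235.NWIface_334 Crest.Agent.R235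

noncomputable section

/-- `dl` as a continuous linear map -/
def DL : (ℂ →L[ℝ] ℂ) →L[ℝ] ℂ :=
  (2 : ℂ)⁻¹ • (ContinuousLinearMap.apply ℝ ℂ (1 : ℂ) -
    Complex.I • ContinuousLinearMap.apply ℝ ℂ Complex.I)


theorem dl_id : dl (ContinuousLinearMap.id ℝ ℂ) = 1 := by
  simp only [dl, ContinuousLinearMap.id_apply, smul_eq_mul, Complex.I_mul_I]
  norm_num

theorem dbl_id : dbl (ContinuousLinearMap.id ℝ ℂ) = 0 := by
  simp only [dbl, ContinuousLinearMap.id_apply, smul_eq_mul, Complex.I_mul_I]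
  norm_num

/-- the fixed point of `g = m + A g` -/
theorem neumann {V : Type*} [NormedAddCommGroup V] [NormedSpace ℝ V] [CompleteSpace V]
    (A : V →L[ℝ] V) (hA : ‖A‖ ≤ 1 / 2) (m : V) : ∃ g : V, g = m + A g ∧ ‖g‖ ≤ 2 * ‖m‖ := by
  have hA1 : ‖A‖ < 1 := by linarith
  let u : (V →L[ℝ] V)ˣ := Units.oneSub A hA1
  have hu : (u : V →L[ℝ] V) = 1 - A := rfl
  let g : V := (↑(u⁻¹) : V →L[ℝ] V) m
  have hg : (1 - A) g = m := by
    have h1 : ((u : V →L[ℝ] V) * (↑(u⁻¹) : V →L[ℝ] V)) m = m := by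
      rw [Units.mul_inv]; rfl
    rw [hu] at h1
    exact h1
  have hg2 : g = m + A g := by
    have h2 : g - A g = m := hg
    rw [← h2]; abel
  refine ⟨g, hg2, ?_⟩
  have h3 : ‖g‖ ≤ ‖m‖ + 1 / 2 * ‖g‖ := by
    calc ‖g‖ = ‖m + A g‖ := by rw [← hg2]
      _ ≤ ‖m‖ + ‖A g‖ := norm_add_le _ _
      _ ≤ ‖m‖ + ‖A‖ * ‖g‖ := by gcongr; exact A.le_opNorm g
      _ ≤ ‖m‖ + 1 / 2 * ‖g‖ := by gcongr
  linarith

theorem finish {a r ε : ℝ} (ha : 0 < a) (f : ℂ → ℂ) (f' : ℂ → ℂ →L[ℝ] ℂ)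
    (hd : ∀ z, HasFDerivAt f (f' z) z) (h1 : ∀ z, ‖f z‖ ≤ ε) (h2 : HB a ε f') (μ : ℂ → ℂ)
    (h3 : ∀ z ∈ ball (0 : ℂ) r, dbl (f' z) = μ z + μ z * dl (f' z)) :
    ∃ χ : ℂ → ℂ, ContDiff ℝ 1 χ ∧
    (∀ z ∈ ball (0 : ℂ) r, dzb χ z = μ z * dz χ z) ∧ (∀ z, ‖χ z - z‖ ≤ ε) ∧
    HB a ε (fun z => fderiv ℝ χ z - ContinuousLinearMap.id ℝ ℂ) := by
  have hfd : ∀ z, HasFDerivAt (fun z => z + f z) (ContinuousLinearMap.id ℝ ℂ + f' z) z := fun z =>
    (hasFDerivAt_id z).add (hd z)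
  have hfd' : ∀ z, fderiv ℝ (fun z => z + f z) z = ContinuousLinearMap.id ℝ ℂ + f' z :=
    fun z => (hfd z).fderiv
  refine ⟨fun z => z + f z, ?_, fun z hz => ?_, fun z => ?_, ?_⟩
  · rw [contDiff_one_iff_fderiv]
    refine ⟨fun z => (hfd z).differentiableAt, ?_⟩
    have : fderiv ℝ (fun z => z + f z) =
        fun z => ContinuousLinearMap.id ℝ ℂ + f' z := funext hfd'
    rw [this]
    exact continuous_const.add (NWTool_334.hb_cont ha h2)
  · rw [dzb, dz, hfd' z, NWTool_334.dbl_add, NWTool_334.dl_add, dbl_id, dl_id, zero_add, h3 z hz]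
    ring
  · have h4 : z + f z - z = f z := by ring
    rw [h4]
    exact h1 z
  · have h4 : (fun z => fderiv ℝ (fun z => z + f z) z - ContinuousLinearMap.id ℝ ℂ) = f' := by
      funext z
      rw [hfd' z]; abel
    rw [h4]
    exact h2

/-- the operators `T`, `D T` into Hölder spaces -/
theorem ops (a : ℝ) (ha : 0 < a) (ha1 : a < 1) (κ : ℂ → ℝ) (hκs : ContDiff ℝ ∞ κ)
    (hκc : HasCompactSupport κ) : ∃ (T1 : Hol a ℂ ℂ →L[ℝ] Hol a ℂ ℂ)
      (T2 : Hol a ℂ ℂ →L[ℝ] Hol a ℂ (ℂ →L[ℝ] ℂ)), ∀ g : Hol a ℂ ℂ,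
      (∀ z, HasFDerivAt (Hol.fn (T1 g)) (Hol.fn (T2 g) z) z) ∧
      (∀ z, dbl (Hol.fn (T2 g) z) = κ z • Hol.fn g z) := by
  obtain ⟨T, hT⟩ := NWKPT_133.cauchy_stmt ℂ a ha ha1 κ hκs hκc
  exact ⟨NWTool_334.valC.comp T, NWTool_334.derC.comp T, fun g =>
    ⟨fun z => NWTool_334.c1_fd (T g) z, (hT g).1⟩⟩

/-- **leaf BEL** -/
theorem bel : BelStmt := by
  intro a ha ha1 r ε hr hε
  obtain ⟨κ, hκ1, hκs, hκc⟩ : ∃ κ : ℂ → ℝ, (∀ z ∈ ball (0 : ℂ) r, κ z = 1) ∧ ContDiff ℝ ∞ κ ∧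
      HasCompactSupport κ := by
    let b : ContDiffBump (0 : ℂ) := ⟨r, 2 * r, hr, by linarith⟩
    exact ⟨b, fun z hz => b.one_of_mem_closedBall (ball_subset_closedBall hz), b.contDiff,
      b.hasCompactSupport⟩
  obtain ⟨T1, T2, hT⟩ := ops a ha ha1 κ hκs hκc
  let S : Hol a ℂ ℂ →L[ℝ] Hol a ℂ ℂ := (NWHol_952.cl DL).comp T2
  have hS : ∀ (g : Hol a ℂ ℂ) (z : ℂ), Hol.fn (S g) z = dl (Hol.fn (T2 g) z) := fun g z => rfl
  obtain ⟨CS, hS0, hSb⟩ : ∃ C : ℝ, 0 < C ∧ ∀ g, ‖S g‖ ≤ C * ‖g‖ := S.bound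
  obtain ⟨C1, hC1, hTb1⟩ : ∃ C : ℝ, 0 < C ∧ ∀ g, ‖T1 g‖ ≤ C * ‖g‖ := T1.bound
  obtain ⟨C2, hC2, hTb2⟩ : ∃ C : ℝ, 0 < C ∧ ∀ g, ‖T2 g‖ ≤ C * ‖g‖ := T2.bound
  obtain ⟨CT, hT0, hCT1, hCT2⟩ : ∃ CT : ℝ, 0 < CT ∧ C1 ≤ CT ∧ C2 ≤ CT :=
    ⟨max C1 C2, lt_max_of_lt_left hC1, le_max_left _ _, le_max_right _ _⟩
  obtain ⟨η, hη, hη1, hη2⟩ : ∃ η : ℝ, 0 < η ∧ 2 * η * CS ≤ 1 / 2 ∧ CT * (2 * η) ≤ ε := by
    refine ⟨min (1 / (4 * CS)) (ε / (2 * CT)), lt_min (by positivity) (by positivity), ?_, ?_⟩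
    · have h1 : min (1 / (4 * CS)) (ε / (2 * CT)) ≤ 1 / (4 * CS) := min_le_left _ _
      rw [le_div_iff₀ (by positivity)] at h1
      nlinarith
    · have h1 : min (1 / (4 * CS)) (ε / (2 * CT)) ≤ ε / (2 * CT) := min_le_right _ _
      rw [le_div_iff₀ (by positivity)] at h1
      nlinarith
  refine ⟨η, hη, fun μ hμ => ?_⟩
  obtain ⟨m, hmz, hm⟩ : ∃ m : Hol a ℂ ℂ, (∀ z, Hol.fn m z = μ z) ∧ ‖m‖ ≤ η :=
    ⟨NWHol_952.mk ha μ η hμ, fun _ => rfl, NWHol_952.norm_mk_le ha hμ hη.le⟩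
  let B : ℂ →L[ℝ] ℂ →L[ℝ] ℂ := ContinuousLinearMap.mul ℝ ℂ
  have hB : ‖B‖ ≤ 1 := ContinuousLinearMap.opNorm_mul_le ℝ ℂ
  let A : Hol a ℂ ℂ →L[ℝ] Hol a ℂ ℂ := (NWHol_952.bl B m).comp S
  have hAz : ∀ (g : Hol a ℂ ℂ) (z : ℂ), Hol.fn (A g) z = Hol.fn m z * Hol.fn (S g) z :=
    fun g z => rfl
  have hA : ‖A‖ ≤ 1 / 2 := by
    refine le_trans ?_ hη1
    refine ContinuousLinearMap.opNorm_le_bound _ (by positivity) fun g => ?_
    have h1 : ‖A g‖ ≤ 2 * ‖B‖ * ‖m‖ * ‖S g‖ := by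
      refine NWHol_952.norm_le (by positivity) ?_
      exact NWHol_952.hb_bl B m (S g)
    have h2 : 2 * ‖B‖ * ‖m‖ * ‖S g‖ ≤ 2 * 1 * η * (CS * ‖g‖) := by
      gcongr
      exact hSb g
    calc ‖A g‖ ≤ 2 * 1 * η * (CS * ‖g‖) := h1.trans h2
      _ = 2 * η * CS * ‖g‖ := by ring
  obtain ⟨g, hg, hgn⟩ := neumann A hA m
  have hgz : ∀ z, Hol.fn g z = μ z + μ z * dl (Hol.fn (T2 g) z) := by
    intro z
    have h1 : Hol.fn g z = Hol.fn m z + Hol.fn (A g) z := by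
      conv_lhs => rw [hg]
      rfl
    rw [h1, hAz, hS, hmz]
  have hgn' : ‖g‖ ≤ 2 * η := by linarith
  have hn1 : ‖T1 g‖ ≤ ε := by
    calc ‖T1 g‖ ≤ C1 * ‖g‖ := hTb1 g
      _ ≤ CT * (2 * η) := by gcongr
      _ ≤ ε := hη2
  have hn2 : ‖T2 g‖ ≤ ε := by
    calc ‖T2 g‖ ≤ C2 * ‖g‖ := hTb2 g
      _ ≤ CT * (2 * η) := by gcongr
      _ ≤ ε := hη2
  refine finish ha (Hol.fn (T1 g)) (Hol.fn (T2 g)) (hT g).1
    (fun z => (NWHol_952.norm_fn_le (T1 g) z).trans hn1)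
    (NWHol_952.HB.mono (NWHol_952.hb (T2 g)) hn2) μ fun z hz => ?_
  have h1 := (hT g).2 z
  rw [hκ1 z hz, one_smul] at h1
  rw [h1, hgz z]

end

end Crest.Agent.R235.NWBel_601
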