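import Crest.Agent.R235.NWSet_334
import Crest.Agent.R235.NWHol_952
import Crest.Agent.R235.NWIface_334
import Mathlib
import Crest.Agent.R235.NWKPT_133

-- ▼ part R235/NWReg2_52
section

/-!
# Row 235, PACKAGE NW (helper334), leaf REG2 (helper52): `C^{1,a}` solutions are smooth

`reg2 : CauchyStmt → NStmt → FamStmt → Reg2Stmt`: rescale at the centre, so that the coefficients are
`C²`-small; the rescaled solution is the unique solution of the cut-off equation, and `regp`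
(translation trick, helper334) gives smoothness.
Reusable: `small_family` (a smooth family with compact support vanishing at `R = 0` is `C²`-small),
`exists_w` (uniform `C^{1,a}` bound of the rescalings).
-/

set_option autoImplicit false
set_option maxSynthPendingDepth 3
set_option linter.unusedSectionVars false

open Set Filter Metric Topology MeasureTheory
open scoped ContDiff Real

namespace Crest.Agent.R235.NWReg2_52

open Crest.Agent.R235.NWDefs_334 Crest.Agent.R235.NWIface_334 Crest.Agent.R235.NWTool_334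
open Crest.Agent.R235.NWSet_334 Crest.Agent.R235.NWLoc_334

noncomputable section

open Crest.Agent.R235.NWHol_952 (HB.comp_lip HB.bilin HB.add HB.sub HB.mono HB.const HB.clm)

/-! ### small families -/

section small

variable {V Y : Type} [NormedAddCommGroup V] [NormedSpace ℝ V] [FiniteDimensional ℝ V]
  [NormedAddCommGroup Y] [NormedSpace ℝ Y]

theorem small_family {G : ℝ × V → Y} (hG : ContDiff ℝ ∞ G) (h0 : ∀ x, G (0, x) = 0) {ρ : ℝ}
    (hs : ∀ R x, ρ ≤ ‖x‖ → G (R, x) = 0) {η : ℝ} (hη : 0 < η) :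
    ∃ R0 : ℝ, 0 < R0 ∧ ∀ R : ℝ, 0 < R → R ≤ R0 →
      BD (fun x => G (R, x)) ∧ Small η (fun x => G (R, x)) := by
  have : ProperSpace V := FiniteDimensional.proper ℝ V
  have hG1 : ContDiff ℝ ∞ (fun p : ℝ × V => fderiv ℝ (fun x => G (p.1, x)) p.2) := by
    have h : ContDiff ℝ ∞ (Function.uncurry fun (p : ℝ × V) (x : V) => G (p.1, x)) := by
      change ContDiff ℝ ∞ (fun q : (ℝ × V) × V => G (q.1.1, q.2))
      exact hG.comp ((contDiff_fst.comp contDiff_fst).prodMk contDiff_snd)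
    exact h.fderiv contDiff_snd (by simp)
  have hG2 : ContDiff ℝ ∞
      (fun p : ℝ × V => fderiv ℝ (fderiv ℝ (fun x => G (p.1, x))) p.2) := by
    have h : ContDiff ℝ ∞ (Function.uncurry
        fun (p : ℝ × V) (x : V) => fderiv ℝ (fun x => G (p.1, x)) x) := by
      change ContDiff ℝ ∞ (fun q : (ℝ × V) × V =>
        (fun p : ℝ × V => fderiv ℝ (fun x => G (p.1, x)) p.2) (q.1.1, q.2))
      exact hG1.comp ((contDiff_fst.comp contDiff_fst).prodMk contDiff_snd)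
    exact h.fderiv contDiff_snd (by simp)
  have hz : (fun x => G (0, x)) = fun _ => 0 := funext h0
  have hsupp : ∀ R x, x ∉ closedBall (0 : V) ρ → (fun x => G (R, x)) =ᶠ[𝓝 x] fun _ => 0 := by
    intro R x hx
    filter_upwards [isClosed_closedBall.isOpen_compl.mem_nhds hx] with z hz
    rw [mem_compl_iff, mem_closedBall, not_le, dist_zero_right] at hz
    exact hs R z hz.le
  have hK : IsCompact (closedBall (0 : V) ρ) := isCompact_closedBall _ _
  have key : ∀ {F : Type _} [NormedAddCommGroup F] (g : ℝ × V → F), Continuous g →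
      (∀ x, g (0, x) = 0) → ∀ᶠ R in 𝓝 (0 : ℝ), ∀ x ∈ closedBall (0 : V) ρ,
        ‖g (R, x)‖ < η := by
    intro F _ g hg hg0
    refine hK.eventually_forall_of_forall_eventually (P := fun R x => ‖g (R, x)‖ < η) ?_
    intro y _
    have : Tendsto (fun p : ℝ × V => ‖g p‖) (𝓝 (0, y)) (𝓝 0) := by
      have h := (hg.norm).tendsto (0, y)
      simpa [hg0] using h
    exact this.eventually (gt_mem_nhds hη)
  have e0 := key G hG.continuous h0
  have e1 := key (fun p : ℝ × V => fderiv ℝ (fun x => G (p.1, x)) p.2) hG1.continuous (fun x => by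
    change fderiv ℝ (fun x => G (0, x)) x = 0; rw [hz]; exact fderiv_const_apply _)
  have e2 := key (fun p : ℝ × V => fderiv ℝ (fderiv ℝ (fun x => G (p.1, x))) p.2)
    hG2.continuous (fun x => by
      change fderiv ℝ (fderiv ℝ (fun x => G (0, x))) x = 0
      have : fderiv ℝ (fun x => G (0, x)) = fun _ => 0 := by
        rw [hz]; funext z; exact fderiv_const_apply _
      rw [this]; exact fderiv_const_apply _)
  obtain ⟨d, hd, hd'⟩ := Metric.mem_nhds_iff.1 (e0.and (e1.and e2))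
  refine ⟨d / 2, by positivity, fun R hR hR0 => ?_⟩
  have hRd : R ∈ ball (0 : ℝ) d := by
    rw [mem_ball, Real.dist_eq, sub_zero, abs_of_pos hR]
    exact lt_of_le_of_lt hR0 (by linarith)
  obtain ⟨f0, f1, f2⟩ := hd' hRd
  have hcs : HasCompactSupport (fun x => G (R, x)) :=
    HasCompactSupport.intro hK fun x hx => (hsupp R x hx).self_of_nhds
  have hsm : ContDiff ℝ ∞ (fun x => G (R, x)) := hG.comp (contDiff_const.prodMk contDiff_id)
  refine ⟨NWJ_130.bd_of_compact hsm hcs, fun x => ⟨?_, ?_, ?_⟩⟩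
  · by_cases hx : x ∈ closedBall (0 : V) ρ
    · exact (f0 x hx).le
    · have : G (R, x) = 0 := (hsupp R x hx).self_of_nhds
      show ‖G (R, x)‖ ≤ η
      rw [this, norm_zero]; exact hη.le
  · by_cases hx : x ∈ closedBall (0 : V) ρ
    · exact (f1 x hx).le
    · rw [(hsupp R x hx).fderiv_eq, fderiv_const_apply, norm_zero]; exact hη.le
  · by_cases hx : x ∈ closedBall (0 : V) ρ
    · exact (f2 x hx).le
    · have : fderiv ℝ (fun x => G (R, x)) =ᶠ[𝓝 x] fun _ => 0 := by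
        filter_upwards [(hsupp R x hx).fderiv (𝕜 := ℝ)] with z hz'
        rw [hz', fderiv_const_apply]
      rw [this.fderiv_eq, fderiv_const_apply, norm_zero]; exact hη.le

end small

/-! ### the antilinear map `v ↦ conj v • b₀` -/

section cj

variable {E : Type*} [NormedAddCommGroup E] [NormedSpace ℂ E]

/-- `v ↦ conj v • b₀` -/
def cj (b0 : E) : ℂ →L[ℝ] E :=
  ((ContinuousLinearMap.toSpanSingleton ℂ b0).restrictScalars ℝ).comp
    (Complex.conjCLE : ℂ →L[ℝ] ℂ)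

theorem cj_apply (b0 : E) (v : ℂ) : cj b0 v = (starRingEnd ℂ v) • b0 := rfl

theorem dl_cj (b0 : E) : dl (cj b0) = 0 := by
  rw [dl, cj_apply, cj_apply, map_one, Complex.conj_I, smul_smul]
  simp

theorem dbl_cj (b0 : E) : dbl (cj b0) = b0 := by
  rw [dbl, cj_apply, cj_apply, map_one, Complex.conj_I, smul_smul]
  have : Complex.I * -Complex.I = 1 := by simp
  rw [this, one_smul, ← two_smul ℂ b0, smul_smul]
  simp

end cj

/-! ### rescaling -/

section resc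

variable {a : ℝ} {E : Type} [NormedAddCommGroup E] [NormedSpace ℂ E]

set_option maxHeartbeats 1600000 in
theorem exists_w (ha : 0 < a) (ha1 : a < 1) (F : C1a a ℂ E) (b0 : E) (g : C1a a ℂ ℂ) :
    ∃ CW : ℝ, 0 ≤ CW ∧ ∀ R : ℝ, 0 < R → R ≤ 1 → ∃ w : C1a a ℂ E,
      (∀ z, C1f w z = R⁻¹ • (C1f F (R • C1f g z) - C1f F 0) - cj b0 (C1f g z)) ∧
      (∀ z, C1d w z = (C1d F (R • C1f g z) - cj b0).comp (C1d g z)) ∧ ‖w‖ ≤ CW := by
  have hg0 := norm_nonneg g
  have hF0 := norm_nonneg F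
  set c0 : ℝ := ‖cj b0‖ with hc0
  have hc0' : 0 ≤ c0 := norm_nonneg _
  set N1 : ℝ := max 1 (‖g‖ ^ a) * ‖F‖ + c0 with hN1
  have hm : (0 : ℝ) ≤ max 1 (‖g‖ ^ a) := zero_le_one.trans (le_max_left _ _)
  have hN1' : 0 ≤ N1 := by positivity
  set M1 : ℝ := 2 * N1 * ‖g‖ with hM1
  have hM1' : 0 ≤ M1 := by positivity
  set M0 : ℝ := 2 * ((‖F‖ + c0) * ‖g‖) + max M1 0 with hM0
  have hM0' : 0 ≤ M0 := by
    have : 0 ≤ max M1 0 := le_max_right _ _
    positivity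
  refine ⟨M0 + M1, by positivity, fun R hR hR1 => ?_⟩
  have hlipg : ∀ x y, ‖C1f g x - C1f g y‖ ≤ ‖g‖ * ‖x - y‖ := fun x y =>
    Convex.norm_image_sub_le_of_norm_hasFDerivWithin_le (s := univ) (f' := C1d g)
      (fun z _ => (c1_fd g z).hasFDerivWithinAt) (fun z _ => norm_d_le ha g z) convex_univ
      (mem_univ _) (mem_univ _)
  have hlipF : ∀ x y, ‖C1f F x - C1f F y‖ ≤ ‖F‖ * ‖x - y‖ := fun x y =>
    Convex.norm_image_sub_le_of_norm_hasFDerivWithin_le (s := univ) (f' := C1d F)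
      (fun z _ => (c1_fd F z).hasFDerivWithinAt) (fun z _ => norm_d_le ha F z) convex_univ
      (mem_univ _) (mem_univ _)
  have hlip : ∀ x y, dist (R • C1f g x) (R • C1f g y) ≤ ‖g‖ * dist x y := by
    intro x y
    rw [dist_eq_norm, dist_eq_norm, ← smul_sub, norm_smul, Real.norm_of_nonneg hR.le]
    calc R * ‖C1f g x - C1f g y‖ ≤ 1 * ‖C1f g x - C1f g y‖ := by gcongr
      _ ≤ _ := by rw [one_mul]; exact hlipg x y
  have h1 : HB a (max 1 (‖g‖ ^ a) * ‖F‖) (fun z => C1d F (R • C1f g z)) :=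
    HB.comp_lip ha.le hg0 hF0 hlip (c1_hbd ha F)
  have h2 : HB a N1 (fun z => C1d F (R • C1f g z) - cj b0) :=
    HB.sub h1 (HB.const (a := a) (X := ℂ) (cj b0))
  have h3 := HB.bilin (ContinuousLinearMap.compL ℝ ℂ ℂ E) hN1' hg0 h2 (c1_hbd ha g)
  have h4 : ‖ContinuousLinearMap.compL ℝ ℂ ℂ E‖ ≤ 1 := ContinuousLinearMap.norm_compL_le _ _ _ _
  have h5 : HB a M1 (fun z => (C1d F (R • C1f g z) - cj b0).comp (C1d g z)) := by
    refine HB.mono h3 ?_
    calc 2 * ‖ContinuousLinearMap.compL ℝ ℂ ℂ E‖ * N1 * ‖g‖ ≤ 2 * 1 * N1 * ‖g‖ := by gcongr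
      _ = M1 := by rw [hM1]; ring
  set f : ℂ → E := fun z => R⁻¹ • (C1f F (R • C1f g z) - C1f F 0) - cj b0 (C1f g z) with hf
  have hd : ∀ z, HasFDerivAt f ((C1d F (R • C1f g z) - cj b0).comp (C1d g z)) z := by
    intro z
    have e1 : HasFDerivAt (fun z => R • C1f g z) (R • C1d g z) z := (c1_fd g z).const_smul R
    have e2 : HasFDerivAt (fun z => C1f F (R • C1f g z))
        ((C1d F (R • C1f g z)).comp (R • C1d g z)) z := (c1_fd F _).comp z e1
    have e3 : HasFDerivAt (fun z => R⁻¹ • (C1f F (R • C1f g z) - C1f F 0))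
        (R⁻¹ • ((C1d F (R • C1f g z)).comp (R • C1d g z))) z :=
      (e2.sub_const (C1f F 0)).const_smul R⁻¹
    have e4 : HasFDerivAt (fun z => cj b0 (C1f g z)) ((cj b0).comp (C1d g z)) z :=
      (cj b0).hasFDerivAt.comp z (c1_fd g z)
    have e5 : R⁻¹ • ((C1d F (R • C1f g z)).comp (R • C1d g z)) =
        (C1d F (R • C1f g z)).comp (C1d g z) := by
      rw [ContinuousLinearMap.comp_smul, smul_smul, inv_mul_cancel₀ hR.ne', one_smul]
    rw [e5] at e3
    rw [ContinuousLinearMap.sub_comp]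
    exact e3.sub e4
  have hb : ∀ z, ‖f z‖ ≤ (‖F‖ + c0) * ‖g‖ := by
    intro z
    have e1 : ‖R⁻¹ • (C1f F (R • C1f g z) - C1f F 0)‖ ≤ ‖F‖ * ‖g‖ := by
      rw [norm_smul, norm_inv, Real.norm_of_nonneg hR.le]
      have e2 := hlipF (R • C1f g z) 0
      rw [sub_zero, norm_smul, Real.norm_of_nonneg hR.le] at e2
      rw [inv_mul_le_iff₀ hR]
      calc _ ≤ ‖F‖ * (R * ‖C1f g z‖) := e2
        _ ≤ ‖F‖ * (R * ‖g‖) := by gcongr; exact norm_f_le ha g z
        _ = _ := by ring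
    have e3 : ‖cj b0 (C1f g z)‖ ≤ c0 * ‖g‖ :=
      ((cj b0).le_opNorm _).trans (by gcongr; exact norm_f_le ha g z)
    calc ‖f z‖ ≤ _ := norm_sub_le _ _
      _ ≤ ‖F‖ * ‖g‖ + c0 * ‖g‖ := add_le_add e1 e3
      _ = _ := by ring
  have hl : ∀ x y, ‖f x - f y‖ ≤ M1 * dist x y := by
    intro x y
    rw [dist_eq_norm]
    exact Convex.norm_image_sub_le_of_norm_hasFDerivWithin_le (s := univ)
      (fun z _ => (hd z).hasFDerivWithinAt) (fun z _ => h5.bdd z) convex_univ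
      (mem_univ _) (mem_univ _)
  have h6 : HB a M0 f := NWHol_952.hb_lip ha ha1.le hb hl
  exact exists_c1 ha (by positivity) (HB.mono h6 (by linarith)) (HB.mono h5 (by linarith)) hd

end resc

/-! ### the main theorem -/

section main

variable {E : Type} [NormedAddCommGroup E] [NormedSpace ℂ E]

/-- the rescaled argument -/
def sc (F0 b0 : E) (p : ℝ × (ℂ × E)) : ℂ × E :=
  (p.1 • p.2.1, F0 + p.1 • (p.2.2 + cj b0 p.2.1))

theorem sc_smooth (F0 b0 : E) : ContDiff ℝ ∞ (sc F0 b0) := by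
  have h1 : ContDiff ℝ ∞ (fun p : ℝ × (ℂ × E) => p.2.1) := contDiff_fst.comp contDiff_snd
  have h2 : ContDiff ℝ ∞ (fun p : ℝ × (ℂ × E) => p.2.2) := contDiff_snd.comp contDiff_snd
  have h3 : ContDiff ℝ ∞ (fun p : ℝ × (ℂ × E) => cj b0 p.2.1) := (cj b0).contDiff.comp h1
  exact (contDiff_fst.smul h1).prodMk (contDiff_const.add (contDiff_fst.smul (h2.add h3)))

theorem sc_zero (F0 b0 : E) (x : ℂ × E) : sc F0 b0 (0, x) = (0, F0) := by
  simp [sc]

set_option maxHeartbeats 4000000 in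
/-- the core: at a small scale the rescaled solution is smooth -/
theorem core {a : ℝ} (ha : 0 < a) (ha1 : a < 1) (hFam : FamStmt) {χ : ℂ → ℝ}
    {T : Hol a ℂ E →L[ℝ] C1a a ℂ E}
    (hT : ∀ g : Hol a ℂ E, (∀ z, dbl (C1d (T g) z) = χ z • Hol.fn g z) ∧
      Tendsto (C1f (T g)) (cocompact ℂ) (𝓝 0))
    {K RN η CW : ℝ} (hη : 0 < η) {A : ℂ × E → (ℂ →L[ℝ] E) →L[ℝ] E} {b : ℂ × E → E}
    (hA : BD A) (hb : BD b) (hA1 : Small 1 A) (hb1 : Small 1 b)
    {Φ : Par a ℂ × C1a a ℂ E → C1a a ℂ E} (hΦ : ContDiffOn ℝ ∞ Φ (Dom a E ℂ K RN η))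
    (hun : ∀ k h, (k, h) ∈ Dom a E ℂ K RN η → ∀ w, ‖w‖ < 2 * RN + 1 → Sol T A b k h w →
      w = Φ (k, h)) {κ : Hol a ℂ ℝ} {q : Hol a ℂ ℂ} {Q : ℂ → ℂ} (hQ : ContDiff ℝ ∞ Q)
    (hQs : HasCompactSupport Q) (hq : ∀ z, Hol.fn q z = Q z) (hκK : ‖κ‖ < K) (hqK : ‖q‖ < K)
    (hκ : ∀ z ∈ ball (0 : ℂ) 2, Hol.fn κ z = 1 ∧ χ z = 1) {w : C1a a ℂ E} (hw : ‖w‖ ≤ CW)
    (hRN : CW + ‖T‖ * (2 * ‖κ‖ * (2 * (1 + ‖q‖ + CW) * CW + (1 + ‖q‖ + CW))) + 3 * CW < RN)
    (heq : ∀ z ∈ ball (0 : ℂ) 2, dbl (C1d w z) = A (Q z, C1f w z) (C1d w z) + b (Q z, C1f w z))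
    {z0 : ℂ} (hz0 : z0 ∈ ball (0 : ℂ) 1) : ContDiffAt ℝ ∞ (C1f w) z0 := by
  have hCW : 0 ≤ CW := (norm_nonneg w).trans hw
  have hT0 := norm_nonneg T
  have hκ0 := norm_nonneg κ
  have hq0 := norm_nonneg q
  obtain ⟨g, hg, hgn⟩ := exists_rhs ha hA.smooth hb.smooth hA1 hb1 κ q w
  have hsol : Sol T A b (κ, q, 0) (w - T g) w := by
    refine ⟨g, fun z => ?_, ?_⟩
    · rw [hg]
      exact (rhs_zero A b (Hol.fn κ z) (Hol.fn q z) (C1f w z) (C1d w z)).symm
    · rw [sub_add_cancel]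
  have hgn' : ‖g‖ ≤ 2 * ‖κ‖ * (2 * (1 + ‖q‖ + CW) * CW + (1 + ‖q‖ + CW)) :=
    hgn.trans (by gcongr)
  have hTg : ‖T g‖ ≤ ‖T‖ * (2 * ‖κ‖ * (2 * (1 + ‖q‖ + CW) * CW + (1 + ‖q‖ + CW))) :=
    (T.le_opNorm g).trans (by gcongr)
  have hh : ‖w - T g‖ < RN := by
    have := norm_sub_le w (T g)
    linarith
  have h6 : 6 * ‖w‖ < 2 * RN + 1 := by
    have : 0 ≤ ‖T‖ * (2 * ‖κ‖ * (2 * (1 + ‖q‖ + CW) * CW + (1 + ‖q‖ + CW))) := by positivity
    linarith
  have hdb : ∀ z ∈ ball (0 : ℂ) 2, dbl (C1d (w - T g) z) = 0 := by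
    intro z hz
    have h1 := sol_dbl hT hsol z
    rw [(hκ z hz).1, (hκ z hz).2, one_mul, one_smul, hq, ← heq z hz] at h1
    exact right_eq_add.1 h1
  have hsub : ball z0 1 ⊆ ball (0 : ℂ) 2 := by
    refine ball_subset_ball' ?_
    have : dist z0 0 < 1 := hz0
    linarith
  have key := regp hFam ha ha1 hT hη hΦ hun (S := ℝ) (h := fun _ => w - T g) (w := fun _ => w)
    (s0 := 0) contDiffAt_const hQ hQs hq hκK hqK hh
    (Eventually.of_forall fun _ => ⟨hsol, h6⟩) (z0 := z0) one_pos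
    (fun z hz => hκ z (hsub hz)) (Eventually.of_forall fun _ z hz => hdb z (hsub hz))
  have e1 : ContDiffAt ℝ ∞ (fun z : ℂ => ((0 : ℝ), z)) z0 := contDiffAt_const.prodMk contDiffAt_id
  exact ContDiffAt.comp (f := fun z : ℂ => ((0 : ℝ), z)) z0 key e1

end main

set_option maxHeartbeats 4000000 in
theorem reg2 (hT : CauchyStmt) (hN : NStmt) (hF : FamStmt) : Reg2Stmt := by
  intro E _ _ _ a ha ha1 B b hB hb F r hr heq hB0
  -- cut-offs
  let χ2 : ContDiffBump (0 : ℂ) := ⟨3, 4, by norm_num, by norm_num⟩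
  let χ : ContDiffBump (0 : ℂ) := ⟨2, 3, by norm_num, by norm_num⟩
  let Q : ℂ → ℂ := fun z => χ2 z • z
  have hQ : ContDiff ℝ ∞ Q := χ2.contDiff.smul contDiff_id
  have hQs : HasCompactSupport Q := χ2.hasCompactSupport.smul_right
  have hQ3 : ∀ z ∈ ball (0 : ℂ) 3, Q z = z := fun z hz => by
    show χ2 z • z = z
    rw [χ2.one_of_mem_closedBall (ball_subset_closedBall hz), one_smul]
  obtain ⟨g, hg⟩ := exists_cst hF ha ha1 (f := Q) (R := 4) hQ (fun z hz => by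
    show χ2 z • z = 0
    rw [χ2.zero_of_le_dist (by rw [dist_zero_right]; exact hz), zero_smul])
  obtain ⟨κ1, hκ1⟩ := exists_cst hF ha ha1 (f := (χ : ℂ → ℝ)) (R := 3) χ.contDiff (fun z hz => by
    rw [χ.zero_of_le_dist (by rw [dist_zero_right]; exact hz)])
  obtain ⟨T, hTT⟩ := hT E a ha ha1 χ χ.contDiff χ.hasCompactSupport
  let κ : Hol a ℂ ℝ := valC κ1
  let q : Hol a ℂ ℂ := valC g
  have hq : ∀ z, Hol.fn q z = Q z := fun z => hg z
  have hκ : ∀ z ∈ ball (0 : ℂ) 2, Hol.fn κ z = 1 ∧ χ z = 1 := by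
    intro z hz
    have h1 : χ z = 1 := χ.one_of_mem_closedBall (ball_subset_closedBall hz)
    refine ⟨?_, h1⟩
    show C1f κ1 z = 1
    rw [hκ1, h1]
  set F0 : E := C1f F 0 with hF0
  set b0 : E := b (0, F0) with hb0
  obtain ⟨CW, hCW, hw⟩ := exists_w ha ha1 F b0 g
  let K : ℝ := ‖κ‖ + ‖q‖ + 1
  have hκn := norm_nonneg κ
  have hqn := norm_nonneg q
  have hK : 0 < K := by positivity
  have hT0 := norm_nonneg T
  let RN : ℝ := CW + ‖T‖ * (2 * ‖κ‖ * (2 * (1 + ‖q‖ + CW) * CW + (1 + ‖q‖ + CW))) + 3 * CW + 1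
  have hRN : 0 < RN := by positivity
  obtain ⟨η, hη, hsolve⟩ := hN E ℂ a ha ha1 T K RN 1 hK hRN one_pos
  -- the rescaled coefficients
  let m : ℝ := max CW 3
  have hm0 : 0 < m + 1 := by
    have : (3 : ℝ) ≤ m := le_max_right _ _
    linarith
  let ρ : ContDiffBump (0 : ℂ × E) := ⟨m + 1, m + 2, hm0, by linarith⟩
  have hρ2 : ContDiff ℝ ∞ (fun p : ℝ × (ℂ × E) => ρ p.2) := ρ.contDiff.comp contDiff_snd
  let GA : ℝ × (ℂ × E) → (ℂ →L[ℝ] E) →L[ℝ] E := fun p =>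
    (ρ p.2 • B (sc F0 b0 p)).comp (dlL E)
  let Gb : ℝ × (ℂ × E) → E := fun p => ρ p.2 • (b (sc F0 b0 p) - b0)
  have hGA : ContDiff ℝ ∞ GA :=
    (hρ2.smul (hB.comp (sc_smooth F0 b0))).clm_comp contDiff_const
  have hGb : ContDiff ℝ ∞ Gb := hρ2.smul ((hb.comp (sc_smooth F0 b0)).sub contDiff_const)
  have hρ0 : ∀ x : ℂ × E, m + 2 ≤ ‖x‖ → ρ x = 0 := fun x hx =>
    ρ.zero_of_le_dist (by rw [dist_zero_right]; exact hx)
  obtain ⟨RA, hRA, hA⟩ := small_family hGA (η := min η 1) (ρ := m + 2) (fun x => by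
    show (ρ x • B (sc F0 b0 (0, x))).comp (dlL E) = 0
    rw [sc_zero, hB0, smul_zero, ContinuousLinearMap.zero_comp]) (fun R x hx => by
    show (ρ x • B (sc F0 b0 (R, x))).comp (dlL E) = 0
    rw [hρ0 x hx, zero_smul, ContinuousLinearMap.zero_comp]) (lt_min hη one_pos)
  obtain ⟨Rb, hRb, hB'⟩ := small_family hGb (η := min η 1) (ρ := m + 2) (fun x => by
    show ρ x • (b (sc F0 b0 (0, x)) - b0) = 0
    rw [sc_zero, hb0, sub_self, smul_zero]) (fun R x hx => by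
    show ρ x • (b (sc F0 b0 (R, x)) - b0) = 0
    rw [hρ0 x hx, zero_smul]) (lt_min hη one_pos)
  let R : ℝ := min (min RA Rb) (min 1 (r / 4))
  have hR : 0 < R := lt_min (lt_min hRA hRb) (lt_min one_pos (by positivity))
  have hR1 : R ≤ 1 := (min_le_right _ _).trans (min_le_left _ _)
  have hRr : R ≤ r / 4 := (min_le_right _ _).trans (min_le_right _ _)
  obtain ⟨hA1, hA2⟩ := hA R hR ((min_le_left _ _).trans (min_le_left _ _))
  obtain ⟨hb1, hb2⟩ := hB' R hR ((min_le_left _ _).trans (min_le_right _ _))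
  obtain ⟨w, hwf, hwd, hwn⟩ := hw R hR hR1
  obtain ⟨Φ, hΦ, hΦ2⟩ := hsolve (fun x => GA (R, x)) (fun x => Gb (R, x)) hA1 hb1
    (Small.mono (min_le_left _ _) hA2) (Small.mono (min_le_left _ _) hb2)
  -- the function near the centre
  have hgz : ∀ z ∈ ball (0 : ℂ) 3, C1f g z = z := fun z hz => by rw [hg, hQ3 z hz]
  have hgd : ∀ z ∈ ball (0 : ℂ) 3, C1d g z = ContinuousLinearMap.id ℝ ℂ := by
    intro z hz
    have h1 := c1_fd g z
    have h2 : HasFDerivAt (C1f g) (ContinuousLinearMap.id ℝ ℂ) z := by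
      refine (hasFDerivAt_id z).congr_of_eventuallyEq ?_
      filter_upwards [isOpen_ball.mem_nhds hz] with y hy
      exact hgz y hy
    exact h1.unique h2
  have hval : ∀ z ∈ ball (0 : ℂ) 3, F0 + R • (C1f w z + cj b0 z) = C1f F (R • z) := by
    intro z hz
    rw [hwf, hgz z hz, sub_add_cancel, smul_smul, mul_inv_cancel₀ hR.ne', one_smul,
      add_sub_cancel]
  have heq' : ∀ z ∈ ball (0 : ℂ) 2, dbl (C1d w z) =
      GA (R, (Q z, C1f w z)) (C1d w z) + Gb (R, (Q z, C1f w z)) := by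
    intro z hz
    have hz3 : z ∈ ball (0 : ℂ) 3 := ball_subset_ball (by norm_num) hz
    have hd1 : C1d w z = C1d F (R • z) - cj b0 := by
      rw [hwd, hgz z hz3, hgd z hz3, ContinuousLinearMap.comp_id]
    have hRz : R • z ∈ ball (0 : ℂ) r := by
      rw [mem_ball_zero_iff] at hz ⊢
      rw [norm_smul, Real.norm_of_nonneg hR.le]
      calc R * ‖z‖ ≤ r / 4 * ‖z‖ := by gcongr
        _ < r := by nlinarith
    have hdb : dbl (C1d w z) = dbl (C1d F (R • z)) - b0 := by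
      rw [hd1, dbl_sub, dbl_cj]
    have hdl : dl (C1d w z) = dl (C1d F (R • z)) := by
      rw [hd1, ← dlL_apply, map_sub, dlL_apply, dlL_apply, dl_cj, sub_zero]
    have hsc : sc F0 b0 (R, (Q z, C1f w z)) = (R • z, C1f F (R • z)) := by
      show (R • Q z, F0 + R • (C1f w z + cj b0 (Q z))) = _
      rw [hQ3 z hz3, hval z hz3]
    have hρ1 : ρ (Q z, C1f w z) = 1 := by
      refine ρ.one_of_mem_closedBall ?_
      rw [mem_closedBall_zero_iff]
      show ‖(Q z, C1f w z)‖ ≤ m + 1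
      rw [Prod.norm_def]
      refine max_le ?_ ?_
      · show ‖Q z‖ ≤ m + 1
        rw [hQ3 z hz3]
        rw [mem_ball_zero_iff] at hz3
        have : (3 : ℝ) ≤ m := le_max_right _ _
        linarith
      · show ‖C1f w z‖ ≤ m + 1
        have h1 := (norm_f_le ha w z).trans hwn
        have : CW ≤ m := le_max_left _ _
        linarith
    show dbl (C1d w z) = (ρ (Q z, C1f w z) • B (sc F0 b0 (R, (Q z, C1f w z)))) (dl (C1d w z)) +
      ρ (Q z, C1f w z) • (b (sc F0 b0 (R, (Q z, C1f w z))) - b0)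
    rw [hρ1, hsc, one_smul, one_smul, hdb, hdl, heq _ hRz]
    abel
  have hsm : ∀ z ∈ ball (0 : ℂ) 1, ContDiffAt ℝ ∞ (C1f w) z := fun z hz =>
    core ha ha1 hF hTT hη hA1 hb1 (Small.mono (min_le_right _ _) hA2)
      (Small.mono (min_le_right _ _) hb2) hΦ (fun k h hk => (hΦ2 k h hk).2.2.2) hQ hQs hq
      (K := K) (RN := RN) (by show ‖κ‖ < ‖κ‖ + ‖q‖ + 1; linarith)
      (by show ‖q‖ < ‖κ‖ + ‖q‖ + 1; linarith) hκ hwn
      (by
        show _ < CW + ‖T‖ * (2 * ‖κ‖ * (2 * (1 + ‖q‖ + CW) * CW + (1 + ‖q‖ + CW))) + 3 * CW + 1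
        linarith) heq' hz
  refine ⟨R, hR, fun y hy => ContDiffAt.contDiffWithinAt ?_⟩
  have hy' : R⁻¹ • y ∈ ball (0 : ℂ) 1 := by
    rw [mem_ball_zero_iff] at hy ⊢
    rw [norm_smul, norm_inv, Real.norm_of_nonneg hR.le, inv_mul_lt_iff₀ hR, mul_one]
    exact hy
  have h1 : ContDiffAt ℝ ∞ (fun y : ℂ => F0 + R • (C1f w (R⁻¹ • y) + cj b0 (R⁻¹ • y))) y := by
    have e1 : ContDiffAt ℝ ∞ (fun y : ℂ => R⁻¹ • y) y := contDiffAt_id.const_smul R⁻¹
    have e2 : ContDiffAt ℝ ∞ (fun y : ℂ => C1f w (R⁻¹ • y)) y :=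
      ContDiffAt.comp (f := fun y : ℂ => R⁻¹ • y) y (hsm _ hy') e1
    have e3 : ContDiffAt ℝ ∞ (fun y : ℂ => cj b0 (R⁻¹ • y)) y :=
      (cj b0).contDiff.contDiffAt.comp y e1
    exact contDiffAt_const.add ((e2.add e3).const_smul R)
  refine h1.congr_of_eventuallyEq ?_
  filter_upwards [isOpen_ball.mem_nhds hy] with x hx
  have hx' : R⁻¹ • x ∈ ball (0 : ℂ) 3 := by
    rw [mem_ball_zero_iff] at hx ⊢
    rw [norm_smul, norm_inv, Real.norm_of_nonneg hR.le, inv_mul_lt_iff₀ hR]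
    linarith
  rw [hval _ hx', smul_smul, mul_inv_cancel₀ hR.ne', one_smul]

end

end Crest.Agent.R235.NWReg2_52
end

-- ▼ part R235/NWSolve_334
section

/-!
# Row 235, PACKAGE NW (helper334): the solver of `J`-disc families

`Solver J R ρ M0 N0 N ε Ψ` : `Ψ` maps approximate discs `h` (in the Banach space `C1a`) to maps that
are `J(R·)`-holomorphic at each point of `ball 0 ρ` where `h` is holomorphic.
-/

set_option autoImplicit false
set_option maxSynthPendingDepth 3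

open Set Filter Metric Topology MeasureTheory
open scoped ContDiff Real

namespace Crest.Agent.R235.NWSolve_334

open Crest.Agent.R235.NWDefs_334 Crest.Agent.R235.NWIface_334 Crest.Agent.R235.NWTool_334
open Crest.Agent.R235.NWSet_334 Crest.Agent.R235.NWLoc_334

noncomputable section

/-- properties of the solution operator -/
structure Solver {E : Type} [NormedAddCommGroup E] [NormedSpace ℂ E] (J : E → E →L[ℝ] E)
    (R ρ M0 N0 N ε : ℝ) (Ψ : C1a (1/2) ℂ E → C1a (1/2) ℂ E) : Prop where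
  smooth : ContDiffOn ℝ ∞ Ψ (ball 0 N)
  close : ∀ h ∈ ball (0 : C1a (1/2) ℂ E) N, ‖Ψ h - h‖ ≤ ε
  deriv : ∀ h ∈ ball (0 : C1a (1/2) ℂ E) N, ∀ c, ‖fderiv ℝ Ψ h c - c‖ ≤ ε * ‖c‖
  jhol : ∀ h ∈ ball (0 : C1a (1/2) ℂ E) N, ∀ z ∈ ball (0 : ℂ) ρ, dbl (C1d h z) = 0 →
    ∀ v : ℂ, C1d (Ψ h) z (Complex.I * v) = J (R • C1f (Ψ h) z) (C1d (Ψ h) z v)
  joint : ∀ (S : Type) [NormedAddCommGroup S] [NormedSpace ℝ S] (h : S → C1a (1/2) ℂ E) (s0 : S),
    ContDiffAt ℝ ∞ h s0 → h s0 ∈ ball (0 : C1a (1/2) ℂ E) N → ∀ z0 ∈ ball (0 : ℂ) ρ, ∀ t > 0,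
    (∀ᶠ s in 𝓝 s0, ∀ z ∈ ball z0 t, dbl (C1d (h s) z) = 0) →
    ContDiffAt ℝ ∞ (fun p : S × ℂ => C1f (Ψ (h p.1)) p.2) (s0, z0)
  surj : ∀ u : C1a (1/2) ℂ E, ‖u‖ ≤ M0 →
    (∀ z ∈ ball (0 : ℂ) ρ, ∀ v : ℂ, C1d u z (Complex.I * v) = J (R • C1f u z) (C1d u z v)) →
    ∃ h ∈ ball (0 : C1a (1/2) ℂ E) N0, Ψ h = u ∧ ∀ z ∈ ball (0 : ℂ) ρ, dbl (C1d h z) = 0

theorem exists_solver (hT : CauchyStmt) (hN : NStmt) (hF : FamStmt) (E : Type)
    [NormedAddCommGroup E] [NormedSpace ℂ E] [FiniteDimensional ℂ E] (ρ M0 : ℝ) (hρ : 0 < ρ)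
    (hM0 : 0 ≤ M0) :
    ∃ N0 : ℝ, ∀ N : ℝ, N0 ≤ N → ∀ ε : ℝ, 0 < ε → ∀ (J : E → E →L[ℝ] E) (r : ℝ), ACS J r →
      ∃ R0 : ℝ, 0 < R0 ∧ R0 * (N + ε + 1) < r ∧ ∀ R : ℝ, 0 < R → R ≤ R0 →
        ∃ Ψ : C1a (1/2) ℂ E → C1a (1/2) ℂ E, Solver J R ρ M0 N0 N ε Ψ := by
  have ha : (0:ℝ) < 1/2 := by norm_num
  have ha1 : (1/2:ℝ) < 1 := by norm_num
  -- cut-off
  let ψ : ContDiffBump (0 : ℂ) := ⟨ρ, 2 * ρ, hρ, by linarith⟩
  have hψ1 : ∀ z ∈ ball (0 : ℂ) ρ, ψ z = 1 := fun z hz =>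
    ψ.one_of_mem_closedBall (ball_subset_closedBall hz)
  obtain ⟨T, hTT⟩ := hT E (1/2) ha ha1 ψ ψ.contDiff ψ.hasCompactSupport
  obtain ⟨κ1, hκ1⟩ := exists_cst hF ha ha1 (f := (ψ : ℂ → ℝ)) (R := 2 * ρ) ψ.contDiff
    (fun z hz => ψ.zero_of_le_dist (by rw [dist_zero_right]; exact hz))
  let κ : Hol (1/2) ℂ ℝ := valC κ1
  have hκ : ∀ z, Hol.fn κ z = ψ z := fun z => by rw [← hκ1]; rfl
  have hκψ : ∀ z ∈ ball (0 : ℂ) ρ, Hol.fn κ z = 1 ∧ ψ z = 1 := fun z hz =>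
    ⟨by rw [hκ, hψ1 z hz], hψ1 z hz⟩
  let K : ℝ := ‖κ‖ + 1
  have hK : 0 < K := by positivity
  let CM : ℝ := ‖T‖ * (2 * ‖κ‖ * (2 * (1 + M0) * M0 + (1 + M0)))
  have hCM : 0 ≤ CM := by positivity
  refine ⟨M0 + CM + 1, fun N hN0 ε hε J r hJ => ?_⟩
  have hNpos : 0 < N := by linarith
  let RN : ℝ := 3 * (N + ε) + 3
  have hRN : 0 < RN := by positivity
  obtain ⟨η, hη, hsolve⟩ := hN E ℝ (1/2) ha ha1 T K RN ε hK hRN hε
  obtain ⟨R0, hR0, hR0r, hA⟩ := jstmt E J r hJ (N + ε + 1) (min η 1) (by positivity)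
    (lt_min hη one_pos)
  refine ⟨R0, hR0, hR0r, fun R hR hRR0 => ?_⟩
  obtain ⟨A, hABD, hAs, hAJ⟩ := hA R hR hRR0
  have hÂs : Small (min η 1) (hat (P := ℝ) A) := small_hat hABD.smooth hAs
  have hÂBD : BD (hat (P := ℝ) A) := bd_hat hABD
  have hb0 : BD (fun _ : ℝ × E => (0 : E)) := bd_zero
  obtain ⟨Φ, hΦ, hΦ2⟩ := hsolve (hat A) (fun _ => 0) hÂBD hb0
    (Small.mono (min_le_left _ _) hÂs)
    (small_zero hη.le)
  let k : Par (1/2) ℝ := (κ, 0, 0)
  have hDom : ∀ h ∈ ball (0 : C1a (1/2) ℂ E) RN, (k, h) ∈ Dom (1/2) E ℝ K RN η := by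
    intro h hh
    refine ⟨?_, ?_, ?_, ?_⟩
    · show ‖κ‖ < ‖κ‖ + 1
      linarith
    · show ‖(0 : Hol (1/2) ℂ ℝ)‖ < K
      rw [norm_zero]; exact hK
    · show ‖(0 : Hol (1/2) ℂ (ℂ →L[ℝ] ℂ))‖ < η
      rw [norm_zero]; exact hη
    · show ‖h‖ < RN
      rwa [mem_ball_zero_iff] at hh
  have hNR : ball (0 : C1a (1/2) ℂ E) N ⊆ ball 0 RN := ball_subset_ball (by
    show N ≤ 3 * (N + ε) + 3
    linarith)
  -- the function
  let Ψ : C1a (1/2) ℂ E → C1a (1/2) ℂ E := fun h => Φ (k, h)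
  have hsm : ContDiffOn ℝ ∞ Ψ (ball 0 N) := by
    have h1 : ContDiffOn ℝ ∞ (fun h : C1a (1/2) ℂ E => (k, h)) (ball 0 N) :=
      (contDiff_const.prodMk contDiff_id).contDiffOn
    exact hΦ.comp h1 fun h hh => hDom h (hNR hh)
  have hnorm : ∀ h ∈ ball (0 : C1a (1/2) ℂ E) N, ‖Ψ h‖ < N + ε := by
    intro h hh
    have h1 := (hΦ2 k h (hDom h (hNR hh))).2.1
    rw [mem_ball_zero_iff] at hh
    have h2 : ‖Φ (k, h)‖ ≤ ‖Φ (k, h) - h‖ + ‖h‖ := by
      calc ‖Φ (k, h)‖ = ‖(Φ (k, h) - h) + h‖ := by rw [sub_add_cancel]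
        _ ≤ _ := norm_add_le _ _
    show ‖Φ (k, h)‖ < N + ε
    linarith
  have hder : ∀ h ∈ ball (0 : C1a (1/2) ℂ E) N, ∀ c, fderiv ℝ Ψ h c = fderiv ℝ Φ (k, h) (0, c) := by
    intro h hh c
    have h1 : DifferentiableAt ℝ Φ (k, h) :=
      (hΦ.contDiffAt ((isOpen_Dom (1/2) K RN η).mem_nhds (hDom h (hNR hh)))).differentiableAt
        (by simp)
    have h2 : HasFDerivAt (fun h : C1a (1/2) ℂ E => ((k, h) : Par (1/2) ℝ × C1a (1/2) ℂ E))
        (ContinuousLinearMap.inr ℝ (Par (1/2) ℝ) (C1a (1/2) ℂ E)) h :=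
      hasFDerivAt_prodMk_right k h
    have h3 : HasFDerivAt Ψ ((fderiv ℝ Φ (k, h)).comp
        (ContinuousLinearMap.inr ℝ (Par (1/2) ℝ) (C1a (1/2) ℂ E))) h :=
      h1.hasFDerivAt.comp h h2
    rw [h3.fderiv]; rfl
  refine ⟨Ψ, hsm, fun h hh => (hΦ2 k h (hDom h (hNR hh))).2.1, fun h hh c => ?_, ?_, ?_, ?_⟩
  · rw [hder h hh]
    exact (hΦ2 k h (hDom h (hNR hh))).2.2.1 c
  · intro h hh z hz hdz
    have hs := (hΦ2 k h (hDom h (hNR hh))).1
    have h1 := sol_dbl hTT hs z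
    have h2 : ‖C1f (Ψ h) z‖ ≤ N + ε + 1 :=
      (norm_f_le ha _ z).trans (by have := hnorm h hh; linarith)
    refine (hAJ (C1f (Ψ h) z) h2 _).1 ?_
    have h3 : dbl (C1d (Φ (k, h)) z) = (ψ z * Hol.fn κ z) •
        (hat A (Hol.fn (0 : Hol (1/2) ℂ ℝ) z, C1f (Φ (k, h)) z) (C1d (Φ (k, h)) z) + 0) := by
      rw [h1, hdz, zero_add]
    rw [(hκψ z hz).1, (hκψ z hz).2, mul_one, one_smul, add_zero] at h3
    exact h3
  · intro S _ _ h s0 hh hmem z0 hz0 t ht hdb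
    have hQ : ContDiff ℝ ∞ (fun _ : ℂ => (0 : ℝ)) := contDiff_const
    have hQs : HasCompactSupport (fun _ : ℂ => (0 : ℝ)) := HasCompactSupport.zero
    have hdist : 0 < ρ - dist z0 0 := by
      have : dist z0 0 < ρ := hz0
      linarith
    let t' := min t (ρ - dist z0 0)
    have ht' : 0 < t' := lt_min ht hdist
    have hsub : ball z0 t' ⊆ ball (0 : ℂ) ρ := by
      refine ball_subset_ball' ?_
      have : t' ≤ ρ - dist z0 0 := min_le_right _ _
      linarith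
    have hmemN : ∀ᶠ s in 𝓝 s0, h s ∈ ball (0 : C1a (1/2) ℂ E) N :=
      hh.continuousAt.preimage_mem_nhds (isOpen_ball.mem_nhds hmem)
    refine regp hF ha ha1 hTT hη hΦ (fun k h hk => (hΦ2 k h hk).2.2.2) hh hQ hQs
      (q0 := (0 : Hol (1/2) ℂ ℝ)) (κ := κ) (w := fun s => Ψ (h s)) (fun z => rfl) ?_ ?_ ?_ ?_
      ht' (fun z hz => hκψ z (hsub hz)) ?_
    · show ‖κ‖ < ‖κ‖ + 1
      linarith
    · rw [norm_zero]; exact hK
    · have := hNR hmem
      rwa [mem_ball_zero_iff] at this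
    · filter_upwards [hmemN] with s hs
      refine ⟨(hΦ2 k (h s) (hDom _ (hNR hs))).1, ?_⟩
      have := hnorm _ hs
      show 6 * ‖Ψ (h s)‖ < 2 * (3 * (N + ε) + 3) + 1
      linarith
    · filter_upwards [hdb] with s hs z hz
      exact hs z (ball_subset_ball (min_le_left _ _) hz)
  · intro u hu huJ
    have hÂ1 : Small 1 (hat (P := ℝ) A) := Small.mono (min_le_right _ _) hÂs
    obtain ⟨g, hg, hgn⟩ := exists_rhs ha hÂBD.smooth hb0.smooth hÂ1 (small_zero zero_le_one) κ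
      (0 : Hol (1/2) ℂ ℝ) u
    have hgn' : ‖T g‖ ≤ CM := by
      have hu0 := norm_nonneg u
      calc ‖T g‖ ≤ ‖T‖ * ‖g‖ := T.le_opNorm g
        _ ≤ ‖T‖ * (2 * ‖κ‖ * (2 * (1 + ‖(0 : Hol (1/2) ℂ ℝ)‖ + ‖u‖) * ‖u‖ +
            (1 + ‖(0 : Hol (1/2) ℂ ℝ)‖ + ‖u‖))) := by gcongr
        _ ≤ CM := by
          rw [norm_zero, add_zero]
          show _ ≤ ‖T‖ * (2 * ‖κ‖ * (2 * (1 + M0) * M0 + (1 + M0)))
          gcongr
    have hmem0 : u - T g ∈ ball (0 : C1a (1/2) ℂ E) (M0 + CM + 1) := by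
      rw [mem_ball_zero_iff]
      calc ‖u - T g‖ ≤ ‖u‖ + ‖T g‖ := norm_sub_le _ _
        _ < M0 + CM + 1 := by linarith
    have hmem : u - T g ∈ ball (0 : C1a (1/2) ℂ E) N := ball_subset_ball hN0 hmem0
    have hsol : Sol T (hat A) (fun _ => (0 : E)) k (u - T g) u := by
      refine ⟨g, fun z => ?_, ?_⟩
      · rw [hg]
        exact (rhs_zero (hat A) (fun _ => (0 : E)) (Hol.fn κ z) (Hol.fn (0 : Hol (1/2) ℂ ℝ) z)
          (C1f u z) (C1d u z)).symm
      · rw [sub_add_cancel]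
    refine ⟨u - T g, hmem0, ?_, fun z hz => ?_⟩
    · refine ((hΦ2 k _ (hDom _ (hNR hmem))).2.2.2 u ?_ hsol).symm
      show ‖u‖ < 2 * (3 * (N + ε) + 3) + 1
      linarith
    · have h1 := sol_dbl hTT hsol z
      have h2 : ‖C1f u z‖ ≤ N + ε + 1 := (norm_f_le ha _ z).trans (by linarith)
      have h3 : dbl (C1d u z) = A (C1f u z) (dl (C1d u z)) := (hAJ (C1f u z) h2 _).2 (huJ z hz)
      have e : ψ z * Hol.fn κ z = 1 := by rw [(hκψ z hz).1, (hκψ z hz).2, mul_one]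
      rw [e, one_smul, add_zero] at h1
      have h4 : dbl (C1d u z) = dbl (C1d (u - T g) z) + dbl (C1d u z) := by
        conv_rhs => rw [h3]
        exact h1
      exact right_eq_add.1 h4

end

end Crest.Agent.R235.NWSolve_334
end

-- ▼ part R235/NWFol_334
section

/-!
# Row 235, PACKAGE NW (helper334): local `J`-disc foliations (`FolStmt`)
-/

set_option autoImplicit false
set_option maxSynthPendingDepth 3

open Set Filter Metric Topology MeasureTheory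
open scoped ContDiff Real

namespace Crest.Agent.R235.NWFol_334

open Crest.Agent.R235.NWDefs_334 Crest.Agent.R235.NWIface_334 Crest.Agent.R235.NWTool_334
open Crest.Agent.R235.NWSet_334 Crest.Agent.R235.NWLoc_334 Crest.Agent.R235.NWSolve_334

noncomputable section

/-- families: smooth maps to `C1a` from smooth functions of two variables, with the derivative -/
theorem exists_family (hF : FamStmt) {S E : Type} [NormedAddCommGroup S] [NormedSpace ℝ S]
    [FiniteDimensional ℝ S] [NormedAddCommGroup E] [NormedSpace ℝ E] [FiniteDimensional ℝ E]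
    (ψ : ContDiffBump (0 : ℂ)) (H : S × ℂ → E) (hH : ContDiff ℝ ∞ H) :
    ∃ c : S → C1a (1/2) ℂ E, ContDiff ℝ ∞ c ∧ (∀ s z, C1f (c s) z = ψ z • H (s, z)) ∧
      (∀ s z, ∀ t > 0, ball z t ⊆ ball 0 ψ.rIn → ∀ L : ℂ →L[ℝ] E,
        HasFDerivAt (fun y => H (s, y)) L z → C1d (c s) z = L) ∧
      ∀ s v z, C1f (fderiv ℝ c s v) z = ψ z • fderiv ℝ H (s, z) (v, 0) := by
  obtain ⟨c, hc, hcf⟩ := hF S E (1/2) (by norm_num) (by norm_num)
    (fun p : S × ℂ => ψ p.2 • H p) ψ.rOut ((ψ.contDiff.comp contDiff_snd).smul hH)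
    (fun s z hz => by
      show ψ z • H (s, z) = 0
      rw [ψ.zero_of_le_dist (by rw [dist_zero_right]; exact hz), zero_smul])
  refine ⟨c, hc, hcf, fun s z t ht hsub L hL => ?_, fun s v z => ?_⟩
  · have h1 : C1f (c s) =ᶠ[𝓝 z] fun y => H (s, y) := by
      filter_upwards [isOpen_ball.mem_nhds (mem_ball_self ht)] with y hy
      rw [hcf]
      show ψ y • H (s, y) = H (s, y)
      rw [ψ.one_of_mem_closedBall (ball_subset_closedBall (hsub hy)), one_smul]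
    exact (c1_fd (c s) z).unique (hL.congr_of_eventuallyEq h1)
  · have hd : HasFDerivAt c (fderiv ℝ c s) s := (hc.differentiable (by simp) s).hasFDerivAt
    have h1 : HasFDerivAt (fun s => C1f (c s) z)
        ((ev0 (a := 1/2) (E := E) z).comp (fderiv ℝ c s)) s :=
      (ev0 (a := 1/2) (E := E) z).hasFDerivAt.comp s hd
    have h2 : HasFDerivAt (fun s => ψ z • H (s, z))
        (ψ z • (fderiv ℝ H (s, z)).comp (ContinuousLinearMap.inl ℝ S ℂ)) s := by
      have h3 : HasFDerivAt H (fderiv ℝ H (s, z)) (s, z) :=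
        (hH.differentiable (by simp) (s, z)).hasFDerivAt
      exact (h3.comp s (hasFDerivAt_prodMk_left s z)).const_smul (ψ z)
    have h4 : (fun s => C1f (c s) z) = fun s => ψ z • H (s, z) := funext fun s => hcf s z
    rw [h4] at h1
    have h5 := h1.unique h2
    have h6 := congrArg (fun L : S →L[ℝ] E => L v) h5
    exact h6

/-- **FOL** -/
theorem fol (hT : CauchyStmt) (hN : NStmt) (hF : FamStmt) : FolStmt := by
  intro J r hJ δ hδ
  obtain ⟨N0, hsolve⟩ := exists_solver hT hN hF (ℂ × ℂ) 5 0 (by norm_num) le_rfl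
  let ψ : ContDiffBump (0 : ℂ) := ⟨5, 6, by norm_num, by norm_num⟩
  obtain ⟨c, hc, hcf, hcd, hcv⟩ := exists_family hF ψ (fun p : ℂ × ℂ => p) contDiff_id
  -- bound of the family
  obtain ⟨C1, hC1⟩ : ∃ C1 : ℝ, ∀ s ∈ closedBall (0 : ℂ) 4, ‖c s‖ ≤ C1 := by
    obtain ⟨x, _, hx⟩ := (isCompact_closedBall (0 : ℂ) 4).exists_isMaxOn
      ⟨0, mem_closedBall_self (by norm_num)⟩ hc.continuous.norm.continuousOn
    exact ⟨‖c x‖, fun s hs => hx hs⟩
  -- the derivative of the family does not depend on `s`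
  have hcst : ∀ s v, fderiv ℝ c s v = fderiv ℝ c 0 v := by
    intro s v
    refine c1_ext fun z => ?_
    rw [hcv, hcv]
    congr 1
    have e : ∀ p : ℂ × ℂ, fderiv ℝ (fun p : ℂ × ℂ => p) p = ContinuousLinearMap.id ℝ _ :=
      fun p => fderiv_id
    rw [e, e]
  set C2 := ‖fderiv ℝ c 0‖ with hC2
  have hC20 : 0 ≤ C2 := norm_nonneg _
  let N : ℝ := max (max N0 (C1 + 1)) (4 * (1 + δ))
  let ε : ℝ := δ / (C2 + 1)
  have hε : 0 < ε := by positivity
  have hεδ : ε ≤ δ := div_le_self hδ.le (by linarith)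
  obtain ⟨R0, hR0, hR0r, hR⟩ := hsolve N ((le_max_left _ _).trans (le_max_left _ _)) ε hε J r hJ
  have hN1 : 4 * (1 + δ) ≤ N := le_max_right _ _
  have hN2 : C1 + 1 ≤ N := (le_max_right _ _).trans (le_max_left _ _)
  refine ⟨R0, hR0, ?_, fun R hRpos hRR0 => ?_⟩
  · have : R0 * (4 * (1 + δ)) ≤ R0 * (N + ε + 1) := by
      refine mul_le_mul_of_nonneg_left ?_ hR0.le
      linarith
    linarith
  obtain ⟨Ψ, hΨ⟩ := hR R hRpos hRR0
  have hcN : ∀ s ∈ closedBall (0 : ℂ) 4, c s ∈ ball (0 : C1a (1/2) ℂ (ℂ × ℂ)) N := by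
    intro s hs
    rw [mem_ball_zero_iff]
    have := hC1 s hs
    linarith
  have hin : ∀ z ∈ ball (0 : ℂ) 5, ∃ t > 0, ball z t ⊆ ball 0 5 := by
    intro z hz
    refine ⟨5 - dist z 0, ?_, ?_⟩
    · have : dist z 0 < 5 := hz
      linarith
    · refine ball_subset_ball' ?_
      linarith
  have hder : ∀ s : ℂ, ∀ z ∈ ball (0 : ℂ) 5, C1d (c s) z = ContinuousLinearMap.inr ℝ ℂ ℂ := by
    intro s z hz
    obtain ⟨t, ht, hsub⟩ := hin z hz
    exact hcd s z t ht hsub _ (hasFDerivAt_prodMk_right s z)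
  have hdbl : ∀ s : ℂ, ∀ z ∈ ball (0 : ℂ) 5, dbl (C1d (c s) z) = 0 := by
    intro s z hz
    rw [hder s z hz, dbl_eq_zero_iff]
    ext <;> simp
  let F : ℂ × ℂ → ℂ × ℂ := fun p => C1f (Ψ (c p.1)) p.2
  have h45 : ball (0 : ℂ) 4 ⊆ ball 0 5 := ball_subset_ball (by norm_num)
  have hFat : ∀ x ∈ ball (0 : ℂ × ℂ) 4, ContDiffAt ℝ ∞ F x := by
    intro x hx
    have hx1 : x.1 ∈ ball (0 : ℂ) 4 := by
      rw [mem_ball_zero_iff] at hx ⊢
      exact (norm_fst_le x).trans_lt hx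
    have hx2 : x.2 ∈ ball (0 : ℂ) 4 := by
      rw [mem_ball_zero_iff] at hx ⊢
      exact (norm_snd_le x).trans_lt hx
    obtain ⟨t, ht, hsub⟩ := hin x.2 (h45 hx2)
    exact hΨ.joint ℂ c x.1 hc.contDiffAt (hcN _ (ball_subset_closedBall hx1)) x.2 (h45 hx2) t ht
      (Eventually.of_forall fun s z hz => hdbl s z (hsub hz))
  refine ⟨F, fun x hx => (hFat x hx).contDiffWithinAt, fun x hx => ?_, fun s hs z hz => ?_⟩
  · have hx1 : x.1 ∈ ball (0 : ℂ) 4 := by
      rw [mem_ball_zero_iff] at hx ⊢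
      exact (norm_fst_le x).trans_lt hx
    have hx2 : x.2 ∈ ball (0 : ℂ) 5 := by
      rw [mem_ball_zero_iff] at hx ⊢
      exact (norm_snd_le x).trans_lt (hx.trans (by norm_num))
    have hmem := hcN _ (ball_subset_closedBall hx1)
    have hcx : C1f (c x.1) x.2 = x := by
      rw [hcf, ψ.one_of_mem_closedBall (ball_subset_closedBall hx2), one_smul]
    have hclose := hΨ.close _ hmem
    refine ⟨?_, ?_⟩
    · have h1 : F x - x = C1f (Ψ (c x.1) - c x.1) x.2 := by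
        rw [f_sub, hcx]
      rw [h1]
      exact (norm_f_le (by norm_num) _ _).trans (hclose.trans hεδ)
    · -- the derivative
      have hFd : DifferentiableAt ℝ F x := (hFat x hx).differentiableAt (by simp)
      refine ContinuousLinearMap.opNorm_le_bound _ hδ.le fun v => ?_
      have hv : v = (v.1, 0) + (0, v.2) := by simp
      -- derivative in `z`
      have e2 : fderiv ℝ F x (0, v.2) = C1d (Ψ (c x.1)) x.2 v.2 := by
        have h1 : HasFDerivAt (fun y => F (x.1, y))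
            ((fderiv ℝ F x).comp (ContinuousLinearMap.inr ℝ ℂ ℂ)) x.2 :=
          HasFDerivAt.comp (f := fun y : ℂ => ((x.1, y) : ℂ × ℂ)) x.2 hFd.hasFDerivAt
            (hasFDerivAt_prodMk_right x.1 x.2)
        have h2 := h1.unique (c1_fd (Ψ (c x.1)) x.2)
        exact congrArg (fun L : ℂ →L[ℝ] ℂ × ℂ => L v.2) h2
      -- derivative in `s`
      have e1 : fderiv ℝ F x (v.1, 0) = C1f (fderiv ℝ Ψ (c x.1) (fderiv ℝ c x.1 v.1)) x.2 := by
        have h1 : HasFDerivAt (fun y => F (y, x.2))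
            ((fderiv ℝ F x).comp (ContinuousLinearMap.inl ℝ ℂ ℂ)) x.1 :=
          HasFDerivAt.comp (f := fun y : ℂ => ((y, x.2) : ℂ × ℂ)) x.1 hFd.hasFDerivAt
            (hasFDerivAt_prodMk_left x.1 x.2)
        have h3 : HasFDerivAt Ψ (fderiv ℝ Ψ (c x.1)) (c x.1) :=
          ((hΨ.smooth.contDiffAt (isOpen_ball.mem_nhds hmem)).differentiableAt
            (by simp)).hasFDerivAt
        have h4 : HasFDerivAt c (fderiv ℝ c x.1) x.1 :=
          (hc.differentiable (by simp) x.1).hasFDerivAt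
        have h5 : HasFDerivAt (fun y => F (y, x.2))
            ((ev0 (a := 1/2) (E := ℂ × ℂ) x.2).comp
              ((fderiv ℝ Ψ (c x.1)).comp (fderiv ℝ c x.1))) x.1 :=
          (ev0 (a := 1/2) (E := ℂ × ℂ) x.2).hasFDerivAt.comp x.1 (h3.comp x.1 h4)
        have h6 := h1.unique h5
        exact congrArg (fun L : ℂ →L[ℝ] ℂ × ℂ => L v.1) h6
      have hcv' : C1f (fderiv ℝ c x.1 v.1) x.2 = (v.1, 0) := by
        rw [hcv, ψ.one_of_mem_closedBall (ball_subset_closedBall hx2), one_smul]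
        have : fderiv ℝ (fun p : ℂ × ℂ => p) (x.1, x.2) = ContinuousLinearMap.id ℝ _ :=
          fderiv_id
        rw [this]; rfl
      have hdx : C1d (c x.1) x.2 v.2 = (0, v.2) := by
        rw [hder x.1 x.2 hx2]; rfl
      have e3 : (fderiv ℝ F x - ContinuousLinearMap.id ℝ (ℂ × ℂ)) v =
          C1f (fderiv ℝ Ψ (c x.1) (fderiv ℝ c x.1 v.1) - fderiv ℝ c x.1 v.1) x.2 +
          C1d (Ψ (c x.1) - c x.1) x.2 v.2 := by
        rw [f_sub, d_sub, hcv', _root_.sub_apply, _root_.sub_apply, hdx, ← e1, ← e2]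
        conv_lhs => rw [hv]
        rw [map_add]
        show _ + _ - ((v.1, (0:ℂ)) + ((0:ℂ), v.2)) = _
        abel
      rw [e3]
      have n1 : ‖C1f (fderiv ℝ Ψ (c x.1) (fderiv ℝ c x.1 v.1) - fderiv ℝ c x.1 v.1) x.2‖ ≤
          ε * (C2 * ‖v‖) := by
        refine (norm_f_le (by norm_num) _ _).trans ((hΨ.deriv _ hmem _).trans ?_)
        refine mul_le_mul_of_nonneg_left ?_ hε.le
        rw [hcst]
        exact ((fderiv ℝ c 0).le_opNorm v.1).trans
          (mul_le_mul_of_nonneg_left (norm_fst_le v) hC20)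
      have n2 : ‖C1d (Ψ (c x.1) - c x.1) x.2 v.2‖ ≤ ε * ‖v‖ :=
        (ContinuousLinearMap.le_opNorm _ _).trans (mul_le_mul
          ((norm_d_le (by norm_num) _ _).trans hclose) (norm_snd_le v) (norm_nonneg _) hε.le)
      calc _ ≤ ε * (C2 * ‖v‖) + ε * ‖v‖ := (norm_add_le _ _).trans (add_le_add n1 n2)
        _ = (ε * (C2 + 1)) * ‖v‖ := by ring
        _ = δ * ‖v‖ := by
          congr 1
          show δ / (C2 + 1) * (C2 + 1) = δ
          field_simp
  · have hmem := hcN _ (ball_subset_closedBall hs)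
    have hj := hΨ.jhol _ hmem z (h45 hz) (hdbl s z (h45 hz))
    have e : fderiv ℝ (fun z => F (s, z)) z = C1d (Ψ (c s)) z := c1_fderiv (Ψ (c s)) z
    refine ⟨c1_diff (Ψ (c s)) z, fun v => ?_⟩
    rw [e]
    exact hj v

end

end Crest.Agent.R235.NWFol_334
end

-- ▼ part R235/NWOm_52
section

/-!
# Row 235, package NW, leaf H2 (helper52), part 1: functions with bounded derivatives (`BD`) and the
superposition operator `om` on `Hol a X E`

* `BD` calculus: `cN hf n` (bound of the `n`-th derivative), `fd` (`BD (fderiv ℝ f)`),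
  `of_hasCompactSupport`, `const`, `add`, `clm`, `bilin`, `comp`, `comp_clm`, ...
* pointwise estimates `lip`, `est1`, `estQ`, `estQ_sub` from bounds of `Df`, `D²f`, `D³f`;
* `om hf : Hol a X E → Hol a X F`, `fn (om hf u) x = f (fn u x)`; `norm_om_le`, `om_lip`,
  `hasFDerivAt_om`, `fderiv_om`, `contDiff_om`, and the quantitative versions
  `norm_om_le_of`, `om_lip_of` with given bounds of `f, Df, D²f`.
-/

set_option autoImplicit false
set_option linter.unusedSectionVars false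
set_option maxSynthPendingDepth 3

open Filter Topology Set
open scoped BoundedContinuousFunction ContDiff
open Crest.Agent.R235.NWDefs_334 Crest.Agent.R235.NWHol_952

namespace Crest.Agent.R235.NWOm_52

noncomputable section

universe u v w z

/-! ### `BD` functions -/

section bd

variable {E : Type*} [NormedAddCommGroup E] [NormedSpace ℝ E] {F : Type*} [NormedAddCommGroup F]
  [NormedSpace ℝ F] {G : Type*} [NormedAddCommGroup G] [NormedSpace ℝ G] {H : Type*}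
  [NormedAddCommGroup H] [NormedSpace ℝ H]

/-- a bound of the `n`-th derivative -/
def cN {f : E → F} (hf : BD f) (n : ℕ) : ℝ := max (hf.bdd n).choose 0

theorem cN_nonneg {f : E → F} (hf : BD f) (n : ℕ) : 0 ≤ cN hf n := le_max_right _ _

theorem le_cN {f : E → F} (hf : BD f) (n : ℕ) (x : E) : ‖iteratedFDeriv ℝ n f x‖ ≤ cN hf n :=
  ((hf.bdd n).choose_spec x).trans (le_max_left _ _)

theorem le_c0 {f : E → F} (hf : BD f) (x : E) : ‖f x‖ ≤ cN hf 0 := by
  have h := le_cN hf 0 x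
  rwa [norm_iteratedFDeriv_zero] at h

theorem le_c1 {f : E → F} (hf : BD f) (x : E) : ‖fderiv ℝ f x‖ ≤ cN hf 1 := by
  have h := le_cN hf 1 x
  rwa [← zero_add 1, ← norm_iteratedFDeriv_fderiv, norm_iteratedFDeriv_zero] at h

theorem le_c2 {f : E → F} (hf : BD f) (x : E) : ‖fderiv ℝ (fderiv ℝ f) x‖ ≤ cN hf 2 := by
  have h := le_cN hf 2 x
  rwa [← one_add_one_eq_two, ← norm_iteratedFDeriv_fderiv, ← zero_add 1,
    ← norm_iteratedFDeriv_fderiv, norm_iteratedFDeriv_zero] at h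

/-- the derivative of a `BD` function -/
theorem fd {f : E → F} (hf : BD f) : BD (fderiv ℝ f) := by
  refine ⟨hf.smooth.fderiv_right (by simp), fun n => ⟨cN hf (n + 1), fun x => ?_⟩⟩
  rw [norm_iteratedFDeriv_fderiv]
  exact le_cN hf (n + 1) x

theorem le_c3 {f : E → F} (hf : BD f) (x : E) :
    ‖fderiv ℝ (fderiv ℝ (fderiv ℝ f)) x‖ ≤ cN (fd hf) 2 := le_c2 (fd hf) x

theorem of_hasCompactSupport {f : E → F} (h : ContDiff ℝ ∞ f) (hc : HasCompactSupport f) :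
    BD f := by
  refine ⟨h, fun n => ?_⟩
  have h1 : HasCompactSupport (iteratedFDeriv ℝ n f) := hc.iteratedFDeriv n
  have h2 : Continuous (iteratedFDeriv ℝ n f) :=
    h.continuous_iteratedFDeriv (by exact_mod_cast le_top)
  exact h1.exists_bound_of_continuous h2

theorem const (c : F) : BD (fun _ : E => c) := by
  refine ⟨contDiff_const, fun n => ?_⟩
  rcases n with _ | n
  · exact ⟨‖c‖, fun x => by rw [norm_iteratedFDeriv_zero]⟩
  · refine ⟨0, fun x => ?_⟩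
    rw [iteratedFDeriv_const_of_ne (by omega)]
    simp

theorem add {f g : E → F} (hf : BD f) (hg : BD g) : BD (fun x => f x + g x) := by
  refine ⟨hf.smooth.add hg.smooth, fun n => ⟨cN hf n + cN hg n, fun x => ?_⟩⟩
  have h1 : iteratedFDeriv ℝ n (fun x => f x + g x) x =
      iteratedFDeriv ℝ n f x + iteratedFDeriv ℝ n g x :=
    congrFun (fun_iteratedFDeriv_add (hf.smooth.of_le (by exact_mod_cast le_top))
      (hg.smooth.of_le (by exact_mod_cast le_top))) x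
  rw [h1]
  exact (norm_add_le _ _).trans (add_le_add (le_cN hf n x) (le_cN hg n x))

/-- bilinear products -/
theorem bilin (B : E →L[ℝ] F →L[ℝ] G) {f : H → E} {g : H → F} (hf : BD f) (hg : BD g) :
    BD (fun x => B (f x) (g x)) := by
  refine ⟨B.isBoundedBilinearMap.contDiff.comp (hf.smooth.prodMk hg.smooth), fun n =>
    ⟨‖B‖ * ∑ i ∈ Finset.range (n + 1), (n.choose i : ℝ) * cN hf i * cN hg (n - i), fun x => ?_⟩⟩
  refine (B.norm_iteratedFDeriv_le_of_bilinear hf.smooth hg.smooth x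
    (by exact_mod_cast le_top)).trans ?_
  refine mul_le_mul_of_nonneg_left (Finset.sum_le_sum fun i _ => ?_) (norm_nonneg _)
  have h1 := le_cN hf i x
  have h2 := le_cN hg (n - i) x
  have h3 := cN_nonneg hf i
  gcongr

theorem clm (T : F →L[ℝ] G) {f : E → F} (hf : BD f) : BD (fun x => T (f x)) := by
  refine ⟨T.contDiff.comp hf.smooth, fun n => ⟨‖T‖ * cN hf n, fun x => ?_⟩⟩
  have h1 : iteratedFDeriv ℝ n (fun x => T (f x)) x =
      T.compContinuousMultilinearMap (iteratedFDeriv ℝ n f x) :=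
    T.iteratedFDeriv_comp_left hf.smooth.contDiffAt (by exact_mod_cast le_top)
  rw [h1]
  exact (T.norm_compContinuousMultilinearMap_le _).trans
    (mul_le_mul_of_nonneg_left (le_cN hf n x) (norm_nonneg _))

theorem neg {f : E → F} (hf : BD f) : BD (fun x => -f x) := by
  simpa using clm (-ContinuousLinearMap.id ℝ F) hf

theorem sub {f g : E → F} (hf : BD f) (hg : BD g) : BD (fun x => f x - g x) := by
  simpa only [sub_eq_add_neg] using add hf (neg hg)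

theorem prodMk {f : E → F} {g : E → G} (hf : BD f) (hg : BD g) : BD (fun x => (f x, g x)) := by
  have h1 := clm (ContinuousLinearMap.inl ℝ F G) hf
  have h2 := clm (ContinuousLinearMap.inr ℝ F G) hg
  simpa using add h1 h2

/-- multiplication by a scalar `BD` function -/
theorem smul {f : E → ℝ} {g : E → F} (hf : BD f) (hg : BD g) : BD (fun x => f x • g x) := by
  have h := bilin (ContinuousLinearMap.lsmul ℝ ℝ : ℝ →L[ℝ] F →L[ℝ] F) hf hg
  simpa using h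

end bd

/-! ### composition -/

section comp

variable {E F G : Type u} [NormedAddCommGroup E] [NormedSpace ℝ E] [NormedAddCommGroup F]
  [NormedSpace ℝ F] [NormedAddCommGroup G] [NormedSpace ℝ G]

/-- `g ∘ f` is `BD` if `g` is `BD` and `f` is smooth with `BD` derivative. -/
theorem comp' {g : F → G} {f : E → F} (hg : BD g) (hf : ContDiff ℝ ∞ f) (hf' : BD (fderiv ℝ f)) :
    BD (fun x => g (f x)) := by
  refine ⟨hg.smooth.comp hf, fun n => ?_⟩
  induction n using Nat.strong_induction_on generalizing G with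
  | _ n ih =>
    rcases n with _ | n
    · exact ⟨cN hg 0, fun x => by
        rw [norm_iteratedFDeriv_zero]
        exact le_c0 hg (f x)⟩
    · have hd : fderiv ℝ (fun x => g (f x)) = fun x =>
          (ContinuousLinearMap.compL ℝ E F G) (fderiv ℝ g (f x)) (fderiv ℝ f x) := by
        funext x
        exact fderiv_comp x (hg.smooth.differentiable (by simp) _)
          (hf.differentiable (by simp) _)
      have h1 : ContDiff ℝ ∞ (fun x => fderiv ℝ g (f x)) := (fd hg).smooth.comp hf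
      have h2 : ∀ i ≤ n, ∃ C, 0 ≤ C ∧ ∀ x, ‖iteratedFDeriv ℝ i (fun x => fderiv ℝ g (f x)) x‖ ≤ C := by
        intro i hi
        obtain ⟨C, hC⟩ := ih i (by omega) (fd hg)
        exact ⟨max C 0, le_max_right _ _, fun x => (hC x).trans (le_max_left _ _)⟩
      choose! C hC0 hC using h2
      refine ⟨‖ContinuousLinearMap.compL ℝ E F G‖ *
        ∑ i ∈ Finset.range (n + 1), (n.choose i : ℝ) * C i * cN hf' (n - i), fun x => ?_⟩
      rw [← norm_iteratedFDeriv_fderiv, hd]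
      refine ((ContinuousLinearMap.compL ℝ E F G).norm_iteratedFDeriv_le_of_bilinear h1 hf'.smooth x
        (n := n) (N := ∞) (by exact_mod_cast le_top)).trans ?_
      refine mul_le_mul_of_nonneg_left (Finset.sum_le_sum fun i hi => ?_) (norm_nonneg _)
      have hi' : i ≤ n := by have := Finset.mem_range.1 hi; omega
      have h1 := hC i hi' x
      have h2 := le_cN hf' (n - i) x
      have h3 := hC0 i hi'
      gcongr

theorem comp {g : F → G} {f : E → F} (hg : BD g) (hf : BD f) : BD (fun x => g (f x)) :=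
  comp' hg hf.smooth (fd hf)

theorem comp_clm {g : F → G} (hg : BD g) (T : E →L[ℝ] F) : BD (fun x => g (T x)) := by
  refine comp' hg T.contDiff ?_
  have h : fderiv ℝ (fun x => T x) = fun _ => T := by
    funext x; exact T.fderiv
  rw [h]
  exact const _

end comp

/-! ### pointwise estimates -/

section est

variable {E : Type*} [NormedAddCommGroup E] [NormedSpace ℝ E] {F : Type*} [NormedAddCommGroup F]
  [NormedSpace ℝ F]

theorem lip {f : E → F} (hf : Differentiable ℝ f) {C1 : ℝ} (h1 : ∀ x, ‖fderiv ℝ f x‖ ≤ C1)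
    (x y : E) : ‖f x - f y‖ ≤ C1 * ‖x - y‖ :=
  Convex.norm_image_sub_le_of_norm_fderiv_le (𝕜 := ℝ) (fun z _ => hf z) (fun z _ => h1 z)
    convex_univ (mem_univ y) (mem_univ x)

/-- unit interval mean value inequality -/
theorem mv {φ φ' : ℝ → F} {C : ℝ} (h : ∀ t, HasDerivAt φ (φ' t) t)
    (hb : ∀ t, 0 ≤ t → t ≤ 1 → ‖φ' t‖ ≤ C) : ‖φ 1 - φ 0‖ ≤ C :=
  norm_image_sub_le_of_norm_deriv_le_segment_01' (f' := φ')
    (fun t _ => (h t).hasDerivWithinAt) (fun t ht => hb t ht.1 ht.2.le)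

theorem hasDerivAt_line {f : E → F} (hf : Differentiable ℝ f) (q p : E) (t : ℝ) :
    HasDerivAt (fun t : ℝ => f (q + t • p)) (fderiv ℝ f (q + t • p) p) t := by
  have h1 : HasDerivAt (fun t : ℝ => q + t • p) p t := by
    simpa using ((hasDerivAt_id t).smul_const p).const_add q
  exact (hf (q + t • p)).hasFDerivAt.comp_hasDerivAt t h1

/-- double difference -/
theorem est1 {f : E → F} (hf : Differentiable ℝ f) (hf' : Differentiable ℝ (fderiv ℝ f))
    {C1 C2 : ℝ} (h1 : ∀ x, ‖fderiv ℝ f x‖ ≤ C1) (h2 : ∀ x, ‖fderiv ℝ (fderiv ℝ f) x‖ ≤ C2)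
    (q p q' p' : E) :
    ‖f (q + p) - f q - (f (q' + p') - f q')‖ ≤ C1 * ‖p - p'‖ + C2 * ‖q - q'‖ * ‖p‖ := by
  have a1 : ‖(f (q + (1 : ℝ) • p) - f (q' + (1 : ℝ) • p)) -
      (f (q + (0 : ℝ) • p) - f (q' + (0 : ℝ) • p))‖ ≤ C2 * ‖q - q'‖ * ‖p‖ := by
    refine mv (φ := fun t => f (q + t • p) - f (q' + t • p))
      (φ' := fun t => fderiv ℝ f (q + t • p) p - fderiv ℝ f (q' + t • p) p)
      (fun t => (hasDerivAt_line hf q p t).sub (hasDerivAt_line hf q' p t)) fun t _ _ => ?_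
    have h3 := lip hf' h2 (q + t • p) (q' + t • p)
    have h4 : q + t • p - (q' + t • p) = q - q' := by abel
    rw [h4] at h3
    have h5 : fderiv ℝ f (q + t • p) p - fderiv ℝ f (q' + t • p) p =
      (fderiv ℝ f (q + t • p) - fderiv ℝ f (q' + t • p)) p := rfl
    show ‖fderiv ℝ f (q + t • p) p - fderiv ℝ f (q' + t • p) p‖ ≤ _
    rw [h5]
    exact (ContinuousLinearMap.le_opNorm _ _).trans
      (mul_le_mul_of_nonneg_right h3 (norm_nonneg _))
  have a2 := lip hf h1 (q' + p) (q' + p')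
  have a3 : q' + p - (q' + p') = p - p' := by abel
  rw [a3] at a2
  simp only [one_smul, zero_smul, add_zero] at a1
  have e : f (q + p) - f q - (f (q' + p') - f q') =
      (f (q + p) - f (q' + p) - (f q - f q')) + (f (q' + p) - f (q' + p')) := by abel
  rw [e]
  exact (norm_add_le _ _).trans (by linarith)

/-- Taylor remainder -/
theorem estQ {f : E → F} (hf : Differentiable ℝ f) (hf' : Differentiable ℝ (fderiv ℝ f))
    {C2 : ℝ} (h2 : ∀ x, ‖fderiv ℝ (fderiv ℝ f) x‖ ≤ C2) (q p : E) :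
    ‖f (q + p) - f q - fderiv ℝ f q p‖ ≤ C2 * ‖p‖ * ‖p‖ := by
  have hC : 0 ≤ C2 := (norm_nonneg (fderiv ℝ (fderiv ℝ f) q)).trans (h2 q)
  have a1 : ‖(f (q + (1 : ℝ) • p) - (1 : ℝ) • fderiv ℝ f q p) -
      (f (q + (0 : ℝ) • p) - (0 : ℝ) • fderiv ℝ f q p)‖ ≤ C2 * ‖p‖ * ‖p‖ := by
    refine mv (φ := fun t : ℝ => f (q + t • p) - t • fderiv ℝ f q p)
      (φ' := fun t => fderiv ℝ f (q + t • p) p - fderiv ℝ f q p)
      (fun t => (hasDerivAt_line hf q p t).sub ?_) fun t ht0 ht1 => ?_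
    · simpa using (hasDerivAt_id t).smul_const (fderiv ℝ f q p)
    · have h3 := lip hf' h2 (q + t • p) q
      have h4 : q + t • p - q = t • p := by abel
      rw [h4, norm_smul, Real.norm_of_nonneg ht0] at h3
      have h5 : fderiv ℝ f (q + t • p) p - fderiv ℝ f q p =
        (fderiv ℝ f (q + t • p) - fderiv ℝ f q) p := rfl
      show ‖fderiv ℝ f (q + t • p) p - fderiv ℝ f q p‖ ≤ _
      rw [h5]
      refine (ContinuousLinearMap.le_opNorm _ _).trans
        (mul_le_mul_of_nonneg_right (h3.trans ?_) (norm_nonneg _))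
      have h6 : t * ‖p‖ ≤ ‖p‖ := mul_le_of_le_one_left (norm_nonneg _) ht1
      exact mul_le_mul_of_nonneg_left h6 hC
  simp only [one_smul, zero_smul, add_zero, sub_zero] at a1
  have e : f (q + p) - f q - fderiv ℝ f q p = f (q + p) - fderiv ℝ f q p - f q := by abel
  rw [e]
  exact a1

/-- difference of two Taylor remainders -/
theorem estQ_sub {f : E → F} (hf : Differentiable ℝ f) (hf' : Differentiable ℝ (fderiv ℝ f))
    (hf'' : Differentiable ℝ (fderiv ℝ (fderiv ℝ f)))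
    {C2 C3 : ℝ} (h2 : ∀ x, ‖fderiv ℝ (fderiv ℝ f) x‖ ≤ C2)
    (h3 : ∀ x, ‖fderiv ℝ (fderiv ℝ (fderiv ℝ f)) x‖ ≤ C3) (q p q' p' : E) :
    ‖(f (q + p) - f q - fderiv ℝ f q p) - (f (q' + p') - f q' - fderiv ℝ f q' p')‖ ≤
      (C2 * ‖p - p'‖ + C3 * ‖q - q'‖ * ‖p‖) * ‖p‖ + C2 * ‖p'‖ * ‖p - p'‖ := by
  have hC2 : 0 ≤ C2 := (norm_nonneg (fderiv ℝ (fderiv ℝ f) q)).trans (h2 q)
  have hC3 : 0 ≤ C3 := (norm_nonneg (fderiv ℝ (fderiv ℝ (fderiv ℝ f)) q)).trans (h3 q)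
  have a1 : ‖((f (q + (1 : ℝ) • p) - (1 : ℝ) • fderiv ℝ f q p) -
        (f (q' + (1 : ℝ) • p') - (1 : ℝ) • fderiv ℝ f q' p')) -
      ((f (q + (0 : ℝ) • p) - (0 : ℝ) • fderiv ℝ f q p) -
        (f (q' + (0 : ℝ) • p') - (0 : ℝ) • fderiv ℝ f q' p'))‖ ≤
      (C2 * ‖p - p'‖ + C3 * ‖q - q'‖ * ‖p‖) * ‖p‖ + C2 * ‖p'‖ * ‖p - p'‖ := by
    refine mv (φ := fun t : ℝ => (f (q + t • p) - t • fderiv ℝ f q p) -
        (f (q' + t • p') - t • fderiv ℝ f q' p'))
      (φ' := fun t => (fderiv ℝ f (q + t • p) p - fderiv ℝ f q p) -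
        (fderiv ℝ f (q' + t • p') p' - fderiv ℝ f q' p'))
      (fun t => ((hasDerivAt_line hf q p t).sub ?_).sub ((hasDerivAt_line hf q' p' t).sub ?_))
      fun t ht0 ht1 => ?_
    · simpa using (hasDerivAt_id t).smul_const (fderiv ℝ f q p)
    · simpa using (hasDerivAt_id t).smul_const (fderiv ℝ f q' p')
    · have b1 := est1 hf' hf'' h2 h3 q (t • p) q' (t • p')
      have b2 := lip hf' h2 (q' + t • p') q'
      have b3 : q' + t • p' - q' = t • p' := by abel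
      rw [b3, norm_smul, Real.norm_of_nonneg ht0] at b2
      rw [← smul_sub, norm_smul, norm_smul, Real.norm_of_nonneg ht0] at b1
      have e : (fderiv ℝ f (q + t • p) p - fderiv ℝ f q p) -
          (fderiv ℝ f (q' + t • p') p' - fderiv ℝ f q' p') =
          (fderiv ℝ f (q + t • p) - fderiv ℝ f q - (fderiv ℝ f (q' + t • p') - fderiv ℝ f q')) p +
          (fderiv ℝ f (q' + t • p') - fderiv ℝ f q') (p - p') := by
        simp only [map_sub, _root_.sub_apply]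
        abel
      show ‖(fderiv ℝ f (q + t • p) p - fderiv ℝ f q p) -
          (fderiv ℝ f (q' + t • p') p' - fderiv ℝ f q' p')‖ ≤ _
      rw [e]
      refine (norm_add_le _ _).trans (add_le_add ?_ ?_)
      · refine (ContinuousLinearMap.le_opNorm _ _).trans
          (mul_le_mul_of_nonneg_right (b1.trans ?_) (norm_nonneg _))
        have h6 : t * ‖p - p'‖ ≤ ‖p - p'‖ := mul_le_of_le_one_left (norm_nonneg _) ht1
        have h7 : t * ‖p‖ ≤ ‖p‖ := mul_le_of_le_one_left (norm_nonneg _) ht1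
        have h8 : 0 ≤ C3 * ‖q - q'‖ := by positivity
        exact add_le_add (mul_le_mul_of_nonneg_left h6 hC2) (mul_le_mul_of_nonneg_left h7 h8)
      · refine (ContinuousLinearMap.le_opNorm _ _).trans
          (mul_le_mul_of_nonneg_right (b2.trans ?_) (norm_nonneg _))
        have h7 : t * ‖p'‖ ≤ ‖p'‖ := mul_le_of_le_one_left (norm_nonneg _) ht1
        exact mul_le_mul_of_nonneg_left h7 hC2
  simp only [one_smul, zero_smul, add_zero, sub_zero] at a1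
  have e : (f (q + p) - f q - fderiv ℝ f q p) - (f (q' + p') - f q' - fderiv ℝ f q' p') =
      ((f (q + p) - fderiv ℝ f q p) - (f (q' + p') - fderiv ℝ f q' p')) - (f q - f q') := by abel
  rw [e]
  exact a1

end est

/-! ### the superposition operator on `Hol a X E` -/

section om

variable {a : ℝ} {X : Type v} [MetricSpace X] {E F : Type u} [NormedAddCommGroup E]
  [NormedSpace ℝ E] [NormedAddCommGroup F] [NormedSpace ℝ F]

theorem hb_comp {f : E → F} (hf : Differentiable ℝ f) {C0 C1 : ℝ} (h0 : ∀ x, ‖f x‖ ≤ C0)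
    (h1 : ∀ x, ‖fderiv ℝ f x‖ ≤ C1) (u : Hol a X E) :
    HB a (max C0 (C1 * ‖u‖)) (fun x => f (Hol.fn u x)) := by
  have hC1 : 0 ≤ C1 := (norm_nonneg (fderiv ℝ f 0)).trans (h1 0)
  constructor
  · intro x
    exact (h0 _).trans (le_max_left _ _)
  · intro x y
    have h2 := norm_fn_sub_le u x y
    have h3 := lip hf h1 (Hol.fn u x) (Hol.fn u y)
    have h4 := rpow_dist_nonneg (a := a) x y
    calc ‖f (Hol.fn u x) - f (Hol.fn u y)‖ ≤ C1 * (‖u‖ * dist x y ^ a) :=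
          h3.trans (mul_le_mul_of_nonneg_left h2 hC1)
      _ = C1 * ‖u‖ * dist x y ^ a := by ring
      _ ≤ _ := mul_le_mul_of_nonneg_right (le_max_right _ _) h4

/-- superposition `u ↦ f ∘ u` -/
def om {f : E → F} (hf : BD f) (u : Hol a X E) : Hol a X F :=
  mkc (fun x => f (Hol.fn u x)) (hf.smooth.continuous.comp (fn_continuous u)) _
    (hb_comp (hf.smooth.differentiable (by simp)) (le_c0 hf) (le_c1 hf) u)

@[simp] theorem fn_om {f : E → F} (hf : BD f) (u : Hol a X E) (x : X) :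
    Hol.fn (om hf u) x = f (Hol.fn u x) := rfl

theorem norm_om_le_of {f : E → F} (hf : BD f) {C0 C1 : ℝ} (h0 : ∀ x, ‖f x‖ ≤ C0)
    (h1 : ∀ x, ‖fderiv ℝ f x‖ ≤ C1) (u : Hol a X E) : ‖om hf u‖ ≤ max C0 (C1 * ‖u‖) := by
  have hC0 : 0 ≤ C0 := (norm_nonneg (f 0)).trans (h0 0)
  exact norm_le (hC0.trans (le_max_left _ _))
    (hb_comp (hf.smooth.differentiable (by simp)) h0 h1 u)


/-- smallness -/
theorem norm_om_le_eta {f : E → F} (hf : BD f) {η : ℝ} (h0 : ∀ x, ‖f x‖ ≤ η)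
    (h1 : ∀ x, ‖fderiv ℝ f x‖ ≤ η) (u : Hol a X E) : ‖om hf u‖ ≤ η * (1 + ‖u‖) := by
  have hη : 0 ≤ η := (norm_nonneg (f 0)).trans (h0 0)
  refine (norm_om_le_of hf h0 h1 u).trans (max_le ?_ ?_)
  · nlinarith [norm_nonneg u, mul_nonneg hη (norm_nonneg u)]
  · nlinarith [norm_nonneg u, mul_nonneg hη (norm_nonneg u)]

/-- Lipschitz bound with given bounds of `Df`, `D²f` -/
theorem om_lip_of {f : E → F} (hf : BD f) {C1 C2 : ℝ} (h1 : ∀ x, ‖fderiv ℝ f x‖ ≤ C1)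
    (h2 : ∀ x, ‖fderiv ℝ (fderiv ℝ f) x‖ ≤ C2) (u v : Hol a X E) :
    ‖om hf u - om hf v‖ ≤ (C1 + C2 * ‖v‖) * ‖u - v‖ := by
  have hd : Differentiable ℝ f := hf.smooth.differentiable (by simp)
  have hd' : Differentiable ℝ (fderiv ℝ f) := (fd hf).smooth.differentiable (by simp)
  have hC1 : 0 ≤ C1 := (norm_nonneg (fderiv ℝ f 0)).trans (h1 0)
  have hC2 : 0 ≤ C2 := (norm_nonneg (fderiv ℝ (fderiv ℝ f) 0)).trans (h2 0)
  have hb0 : 0 ≤ C2 * ‖v‖ * ‖u - v‖ := by positivity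
  refine norm_le (by positivity) ⟨fun x => ?_, fun x y => ?_⟩
  · have h3 := lip hd h1 (Hol.fn u x) (Hol.fn v x)
    have h4 : ‖Hol.fn u x - Hol.fn v x‖ ≤ ‖u - v‖ := norm_fn_le (u - v) x
    rw [fn_sub, fn_om, fn_om]
    calc _ ≤ C1 * ‖u - v‖ := h3.trans (mul_le_mul_of_nonneg_left h4 hC1)
      _ ≤ (C1 + C2 * ‖v‖) * ‖u - v‖ := by linarith
  · have h0 := rpow_dist_nonneg (a := a) x y
    have h3 := est1 hd hd' h1 h2 (Hol.fn v x) (Hol.fn (u - v) x) (Hol.fn v y) (Hol.fn (u - v) y)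
    have e1 : Hol.fn v x + Hol.fn (u - v) x = Hol.fn u x := by rw [fn_sub]; abel
    have e2 : Hol.fn v y + Hol.fn (u - v) y = Hol.fn u y := by rw [fn_sub]; abel
    rw [e1, e2] at h3
    rw [fn_sub, fn_sub, fn_om, fn_om, fn_om, fn_om]
    refine h3.trans ?_
    have h4 := norm_fn_sub_le (u - v) x y
    have h5 := norm_fn_sub_le v x y
    have h6 := norm_fn_le (u - v) x
    calc C1 * ‖Hol.fn (u - v) x - Hol.fn (u - v) y‖ +
          C2 * ‖Hol.fn v x - Hol.fn v y‖ * ‖Hol.fn (u - v) x‖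
        ≤ C1 * (‖u - v‖ * dist x y ^ a) + C2 * (‖v‖ * dist x y ^ a) * ‖u - v‖ := by gcongr
      _ = (C1 + C2 * ‖v‖) * ‖u - v‖ * dist x y ^ a := by ring


theorem om_lip_eta {f : E → F} (hf : BD f) {η : ℝ} (h1 : ∀ x, ‖fderiv ℝ f x‖ ≤ η)
    (h2 : ∀ x, ‖fderiv ℝ (fderiv ℝ f) x‖ ≤ η) (u v : Hol a X E) :
    ‖om hf u - om hf v‖ ≤ η * (1 + ‖v‖) * ‖u - v‖ := by
  have h := om_lip_of hf h1 h2 u v
  rwa [show η + η * ‖v‖ = η * (1 + ‖v‖) by ring] at h

/-- evaluation `(E →L F) × E → F`, pointwise -/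
def app (a : ℝ) (X : Type v) [MetricSpace X] (E F : Type u) [NormedAddCommGroup E]
    [NormedSpace ℝ E] [NormedAddCommGroup F] [NormedSpace ℝ F] :
    Hol a X (E →L[ℝ] F) →L[ℝ] Hol a X E →L[ℝ] Hol a X F :=
  bl (ContinuousLinearMap.id ℝ (E →L[ℝ] F))

@[simp] theorem fn_app (A : Hol a X (E →L[ℝ] F)) (u : Hol a X E) (x : X) :
    Hol.fn (app a X E F A u) x = Hol.fn A x (Hol.fn u x) := rfl

theorem norm_app_le (A : Hol a X (E →L[ℝ] F)) (u : Hol a X E) :
    ‖app a X E F A u‖ ≤ 2 * ‖A‖ * ‖u‖ := by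
  refine (norm_bl_le _ A u).trans ?_
  have h : ‖ContinuousLinearMap.id ℝ (E →L[ℝ] F)‖ ≤ 1 := ContinuousLinearMap.norm_id_le
  have h2 : 0 ≤ ‖A‖ * ‖u‖ := by positivity
  nlinarith

/-- quadratic remainder -/
theorem om_quad {f : E → F} (hf : BD f) (u h : Hol a X E) :
    ‖om hf (u + h) - om hf u - app a X E F (om (fd hf) u) h‖ ≤
      (2 * cN hf 2 + cN (fd hf) 2 * ‖u‖) * ‖h‖ * ‖h‖ := by
  have hd : Differentiable ℝ f := hf.smooth.differentiable (by simp)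
  have hd' : Differentiable ℝ (fderiv ℝ f) := (fd hf).smooth.differentiable (by simp)
  have hd'' : Differentiable ℝ (fderiv ℝ (fderiv ℝ f)) :=
    (fd (fd hf)).smooth.differentiable (by simp)
  have c2 := cN_nonneg hf 2
  have c3 := cN_nonneg (fd hf) 2
  refine norm_le (by positivity) ⟨fun x => ?_, fun x y => ?_⟩
  · rw [fn_sub, fn_sub, fn_om, fn_om, fn_app, fn_om, fn_add]
    refine (estQ hd hd' (le_c2 hf) (Hol.fn u x) (Hol.fn h x)).trans ?_
    have h4 := norm_fn_le h x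
    have h5 : 0 ≤ cN (fd hf) 2 * ‖u‖ * ‖h‖ * ‖h‖ := by positivity
    have h6 : 0 ≤ cN hf 2 * ‖h‖ * ‖h‖ := by positivity
    calc cN hf 2 * ‖Hol.fn h x‖ * ‖Hol.fn h x‖ ≤ cN hf 2 * ‖h‖ * ‖h‖ := by gcongr
      _ ≤ _ := by linarith
  · have h0 := rpow_dist_nonneg (a := a) x y
    rw [fn_sub, fn_sub, fn_om, fn_om, fn_app, fn_om, fn_add]
    rw [fn_sub, fn_sub, fn_om, fn_om, fn_app, fn_om, fn_add]
    refine (estQ_sub hd hd' hd'' (le_c2 hf) (le_c3 hf) (Hol.fn u x) (Hol.fn h x) (Hol.fn u y)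
      (Hol.fn h y)).trans ?_
    have h4 := norm_fn_le h x
    have h5 := norm_fn_le h y
    have h6 := norm_fn_sub_le h x y
    have h7 := norm_fn_sub_le u x y
    calc (cN hf 2 * ‖Hol.fn h x - Hol.fn h y‖ +
          cN (fd hf) 2 * ‖Hol.fn u x - Hol.fn u y‖ * ‖Hol.fn h x‖) * ‖Hol.fn h x‖ +
          cN hf 2 * ‖Hol.fn h y‖ * ‖Hol.fn h x - Hol.fn h y‖
        ≤ (cN hf 2 * (‖h‖ * dist x y ^ a) +
          cN (fd hf) 2 * (‖u‖ * dist x y ^ a) * ‖h‖) * ‖h‖ +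
          cN hf 2 * ‖h‖ * (‖h‖ * dist x y ^ a) := by gcongr
      _ = _ := by ring

theorem hasFDerivAt_om {f : E → F} (hf : BD f) (u : Hol a X E) :
    HasFDerivAt (om hf : Hol a X E → Hol a X F) (app a X E F (om (fd hf) u)) u := by
  rw [hasFDerivAt_iff_isLittleO_nhds_zero]
  have hK : (fun h : Hol a X E => om hf (u + h) - om hf u - app a X E F (om (fd hf) u) h)
      =O[𝓝 0] fun h : Hol a X E => ‖h‖ ^ 2 := by
    refine Asymptotics.IsBigO.of_bound (2 * cN hf 2 + cN (fd hf) 2 * ‖u‖)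
      (Eventually.of_forall fun h => ?_)
    rw [Real.norm_of_nonneg (by positivity), pow_two, ← mul_assoc]
    exact om_quad hf u h
  refine hK.trans_isLittleO ?_
  exact Asymptotics.isLittleO_norm_pow_id (by norm_num)

theorem fderiv_om {f : E → F} (hf : BD f) :
    fderiv ℝ (om hf : Hol a X E → Hol a X F) = fun u => app a X E F (om (fd hf) u) :=
  funext fun u => (hasFDerivAt_om hf u).fderiv

theorem contDiff_om_nat (n : ℕ) {f : E → F} (hf : BD f) :
    ContDiff ℝ n (om hf : Hol a X E → Hol a X F) := by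
  induction n generalizing F with
  | zero =>
    rw [Nat.cast_zero, contDiff_zero]
    exact continuous_iff_continuousAt.2 fun u => (hasFDerivAt_om hf u).continuousAt
  | succ n ih =>
    have : ((n + 1 : ℕ) : WithTop ℕ∞) = (n : WithTop ℕ∞) + 1 := by push_cast; rfl
    rw [this, contDiff_succ_iff_fderiv]
    refine ⟨fun u => (hasFDerivAt_om hf u).differentiableAt, ?_, ?_⟩
    · intro h; simp at h
    · rw [fderiv_om]
      exact (app a X E F).contDiff.comp (ih (fd hf))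

/-- **OMEGA on `Hol`** is smooth -/
theorem contDiff_om {f : E → F} (hf : BD f) {n : WithTop ℕ∞} (hn : n ≤ ∞) :
    ContDiff ℝ n (om hf : Hol a X E → Hol a X F) :=
  (contDiff_infty.2 fun n => contDiff_om_nat n hf).of_le hn

end om

end

end Crest.Agent.R235.NWOm_52
end

-- ▼ part R235/NWOm2_52
section

/-!
# Row 235, package NW, leaf H2 (helper52), part 2: superposition on `C1a a G E`, smooth families

* `contDiff_of_isometry` : `f : Z → P` is smooth if `ι ∘ f` is, `ι` a linear isometry, `P` complete;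
* `om1 hf : C1a a G E → C1a a G F`, `contDiff_om1`;
* `ofBD` : `BD` functions as elements of `C1a`; `cst1` : constants;
* `fam : FamStmt`.
-/

set_option autoImplicit false
set_option linter.unusedSectionVars false
set_option maxSynthPendingDepth 3

open Filter Topology Set Metric
open scoped BoundedContinuousFunction ContDiff
open Crest.Agent.R235.NWDefs_334 Crest.Agent.R235.NWHol_952 Crest.Agent.R235.NWOm_52
open Crest.Agent.R235.NWIface_334

namespace Crest.Agent.R235.NWOm2_52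

noncomputable section

universe u v

/-! ### lifting smoothness along an isometry -/

section lift

variable {Z P W : Type u} [NormedAddCommGroup Z] [NormedSpace ℝ Z] [NormedAddCommGroup P]
  [NormedSpace ℝ P] [NormedAddCommGroup W] [NormedSpace ℝ W]

/-- post-composition with an isometry -/
def postI (Z : Type u) [NormedAddCommGroup Z] [NormedSpace ℝ Z] (ι : P →ₗᵢ[ℝ] W) :
    (Z →L[ℝ] P) →ₗᵢ[ℝ] (Z →L[ℝ] W) where
  toLinearMap := (ContinuousLinearMap.compL ℝ Z P W ι.toContinuousLinearMap).toLinearMap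
  norm_map' := fun _ => ι.norm_toContinuousLinearMap_comp

theorem postI_apply (ι : P →ₗᵢ[ℝ] W) (L : Z →L[ℝ] P) (z : Z) : postI Z ι L z = ι (L z) := rfl

theorem hasFDerivAt_of_isometry (ι : P →ₗᵢ[ℝ] W) {f : Z → P} {L : Z →L[ℝ] P} {z : Z}
    (h : HasFDerivAt (fun z => ι (f z)) (postI Z ι L) z) : HasFDerivAt f L z := by
  rw [hasFDerivAt_iff_isLittleO_nhds_zero] at h ⊢
  refine (Asymptotics.isLittleO_norm_left.1 ?_)
  have h1 := Asymptotics.isLittleO_norm_left.2 h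
  refine h1.congr_left fun y => ?_
  rw [postI_apply, ← map_sub, ← map_sub, ι.norm_map]

/-- the derivative takes values in the (closed) range -/
theorem exists_der [CompleteSpace P] (ι : P →ₗᵢ[ℝ] W) {f : Z → P} {T : Z →L[ℝ] W} {z : Z}
    (h : HasFDerivAt (fun z => ι (f z)) T z) : ∃ L : Z →L[ℝ] P, postI Z ι L = T := by
  have hc : IsClosed (LinearMap.range ι.toLinearMap : Set W) := by
    have h1 : IsClosed (Set.range ι) := ι.isometry.isClosedEmbedding.isClosed_range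
    convert h1 using 1
    ext y; simp
  have hmem : ∀ v, T v ∈ LinearMap.range ι.toLinearMap := by
    intro v
    have : IsClosed (LinearMap.range ι.toLinearMap : Set W) := hc
    have h2 : HasFDerivAt (fun z => (LinearMap.range ι.toLinearMap).mkQL (ι (f z)))
        ((LinearMap.range ι.toLinearMap).mkQL.comp T) z :=
      (LinearMap.range ι.toLinearMap).mkQL.hasFDerivAt.comp z h
    have h3 : (fun z => (LinearMap.range ι.toLinearMap).mkQL (ι (f z))) = fun _ => 0 := by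
      funext y
      show (LinearMap.range ι.toLinearMap).mkQ (ι (f y)) = 0
      rw [Submodule.mkQ_apply, Submodule.Quotient.mk_eq_zero]
      exact ⟨f y, rfl⟩
    rw [h3] at h2
    have h4 := h2.unique (hasFDerivAt_const _ z)
    have h5 : (LinearMap.range ι.toLinearMap).mkQ (T v) = 0 := by
      have := congrArg (fun A : Z →L[ℝ] _ => A v) h4
      exact this
    rwa [Submodule.mkQ_apply, Submodule.Quotient.mk_eq_zero] at h5
  choose g hg using hmem
  have hg' : ∀ v, ι (g v) = T v := hg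
  refine ⟨LinearMap.mkContinuous
    { toFun := g
      map_add' := fun x y => ι.injective (by rw [hg', map_add, map_add, hg', hg'])
      map_smul' := fun c x => ι.injective (by
        rw [hg', RingHom.id_apply, map_smul, map_smul, hg']) } ‖T‖ (fun x => ?_), ?_⟩
  · show ‖g x‖ ≤ _
    rw [← ι.norm_map, hg']
    exact T.le_opNorm x
  · ext v
    exact hg' v

theorem contDiff_of_isometry_nat (n : ℕ) {P W : Type u} [NormedAddCommGroup P]
    [NormedSpace ℝ P] [NormedAddCommGroup W] [NormedSpace ℝ W] [CompleteSpace P]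
    (ι : P →ₗᵢ[ℝ] W) {f : Z → P} (h : ContDiff ℝ n (fun z => ι (f z))) : ContDiff ℝ n f := by
  induction n generalizing P W with
  | zero =>
    rw [Nat.cast_zero, contDiff_zero] at h ⊢
    exact ι.isometry.isEmbedding.continuous_iff.2 h
  | succ n ih =>
    have hn : ((n + 1 : ℕ) : WithTop ℕ∞) = (n : WithTop ℕ∞) + 1 := by push_cast; rfl
    rw [hn, contDiff_succ_iff_fderiv] at h ⊢
    obtain ⟨h1, -, h2⟩ := h
    have h3 : ∀ z, ∃ L : Z →L[ℝ] P, postI Z ι L = fderiv ℝ (fun z => ι (f z)) z := fun z =>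
      exists_der ι (h1 z).hasFDerivAt
    choose L hL using h3
    have h4 : ∀ z, HasFDerivAt f (L z) z := fun z => hasFDerivAt_of_isometry ι (by
      rw [hL]; exact (h1 z).hasFDerivAt)
    refine ⟨fun z => (h4 z).differentiableAt, ?_, ?_⟩
    · intro h; simp at h
    · have h5 : fderiv ℝ f = L := funext fun z => (h4 z).fderiv
      rw [h5]
      refine ih (postI Z ι) ?_
      have h6 : (fun z => postI Z ι (L z)) = fderiv ℝ (fun z => ι (f z)) := funext hL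
      rw [h6]
      exact h2

/-- **lifting smoothness** -/
theorem contDiff_of_isometry [CompleteSpace P] (ι : P →ₗᵢ[ℝ] W) {f : Z → P} {n : WithTop ℕ∞}
    (hn : n ≤ ∞) (h : ContDiff ℝ n (fun z => ι (f z))) : ContDiff ℝ n f := by
  induction n with
  | top => simp at hn
  | coe n =>
    induction n with
    | top =>
      exact contDiff_infty.2 fun m => contDiff_of_isometry_nat m ι
        (h.of_le (by exact_mod_cast le_top))
    | coe n => exact contDiff_of_isometry_nat n ι h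

/-- smooth maps into a closed subspace -/
theorem contDiff_of_subtype {K : Submodule ℝ W} [CompleteSpace K] {f : Z → K} {n : WithTop ℕ∞}
    (hn : n ≤ ∞) (h : ContDiff ℝ n (fun z => (f z : W))) : ContDiff ℝ n f :=
  contDiff_of_isometry K.subtypeₗᵢ hn h

theorem contDiff_of_subtype_prod {W' : Type u} [NormedAddCommGroup W'] [NormedSpace ℝ W']
    {K : Submodule ℝ (W × W')} [CompleteSpace K] {f : Z → K} {n : WithTop ℕ∞}
    (hn : n ≤ ∞) (h : ContDiff ℝ n (fun z => (f z).1.1)) (h' : ContDiff ℝ n (fun z => (f z).1.2)) :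
    ContDiff ℝ n f :=
  contDiff_of_subtype hn (h.prodMk h')

theorem contDiff_bil {Z X Y W : Type*} [NormedAddCommGroup Z] [NormedSpace ℝ Z]
    [NormedAddCommGroup X] [NormedSpace ℝ X] [NormedAddCommGroup Y] [NormedSpace ℝ Y]
    [NormedAddCommGroup W] [NormedSpace ℝ W] (B : X →L[ℝ] Y →L[ℝ] W) {n : WithTop ℕ∞}
    {f : Z → X} {g : Z → Y} (hf : ContDiff ℝ n f) (hg : ContDiff ℝ n g) :
    ContDiff ℝ n (fun z => B (f z) (g z)) :=
  B.isBoundedBilinearMap.contDiff.comp (hf.prodMk hg)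

end lift

/-! ### `C1a` -/

section c1

variable {a : ℝ} {G : Type v} {E F : Type v} [NormedAddCommGroup G] [NormedSpace ℝ G]
  [NormedAddCommGroup E] [NormedSpace ℝ E] [NormedAddCommGroup F] [NormedSpace ℝ F]

/-- value -/
def vl (a : ℝ) (G E : Type v) [NormedAddCommGroup G] [NormedSpace ℝ G] [NormedAddCommGroup E]
    [NormedSpace ℝ E] : C1a a G E →L[ℝ] Hol a G E :=
  (ContinuousLinearMap.fst ℝ _ _).comp (C1a a G E).subtypeL

/-- derivative -/
def dr (a : ℝ) (G E : Type v) [NormedAddCommGroup G] [NormedSpace ℝ G] [NormedAddCommGroup E]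
    [NormedSpace ℝ E] : C1a a G E →L[ℝ] Hol a G (G →L[ℝ] E) :=
  (ContinuousLinearMap.snd ℝ _ _).comp (C1a a G E).subtypeL

@[simp] theorem vl_apply (w : C1a a G E) : vl a G E w = w.1.1 := rfl
@[simp] theorem dr_apply (w : C1a a G E) : dr a G E w = w.1.2 := rfl


theorem hasFDerivAt_C1f (w : C1a a G E) (x : G) : HasFDerivAt (C1f w) (C1d w x) x := w.2 x

theorem ext1 {u v : C1a a G E} (h : ∀ x, C1f u x = C1f v x) : u = v := by
  apply Subtype.ext
  refine Prod.ext (ext h) (ext fun x => ?_)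
  have h1 : C1f u = C1f v := funext h
  have h2 := hasFDerivAt_C1f u x
  rw [h1] at h2
  exact h2.unique (hasFDerivAt_C1f v x)

/-- superposition on `C1a` -/
def om1 {f : E → F} (hf : BD f) (w : C1a a G E) : C1a a G F :=
  ⟨(om hf w.1.1, bl (ContinuousLinearMap.compL ℝ G E F) (om (fd hf) w.1.1) w.1.2), fun x =>
    (hf.smooth.differentiable (by simp) _).hasFDerivAt.comp x (w.2 x)⟩

@[simp] theorem C1f_om1 {f : E → F} (hf : BD f) (w : C1a a G E) (x : G) :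
    C1f (om1 hf w) x = f (C1f w x) := rfl

@[simp] theorem C1d_om1 {f : E → F} (hf : BD f) (w : C1a a G E) (x : G) :
    C1d (om1 hf w) x = (fderiv ℝ f (C1f w x)).comp (C1d w x) := rfl

@[simp] theorem vl_om1 {f : E → F} (hf : BD f) (w : C1a a G E) :
    vl a G F (om1 hf w) = om hf (vl a G E w) := rfl


/-- product `(A, w) ↦ A ∘ w` -/
def cmp (a : ℝ) (G E F : Type v) [NormedAddCommGroup G] [NormedSpace ℝ G] [NormedAddCommGroup E]
    [NormedSpace ℝ E] [NormedAddCommGroup F] [NormedSpace ℝ F] :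
    Hol a G (E →L[ℝ] F) →L[ℝ] Hol a G (G →L[ℝ] E) →L[ℝ] Hol a G (G →L[ℝ] F) :=
  bl (ContinuousLinearMap.compL ℝ G E F)

theorem contDiff_aux1 {f : E → F} (hf : BD f) {n : WithTop ℕ∞}
    (hn : n ≤ ∞) : ContDiff ℝ n (fun w : C1a a G E => om hf (vl a G E w)) :=
  (contDiff_om hf hn).comp (vl a G E).contDiff

theorem contDiff_aux2 {f : E → F} (hf : BD f) {n : WithTop ℕ∞}
    (hn : n ≤ ∞) : ContDiff ℝ n
      (fun w : C1a a G E => cmp a G E F (om (fd hf) (vl a G E w)) (dr a G E w)) :=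
  contDiff_bil (cmp a G E F) (contDiff_aux1 (fd hf) hn) (dr a G E).contDiff

/-- **OMEGA on `C1a`** is smooth -/
theorem contDiff_om1 [CompleteSpace (C1a a G F)] {f : E → F} (hf : BD f) {n : WithTop ℕ∞}
    (hn : n ≤ ∞) : ContDiff ℝ n (om1 hf : C1a a G E → C1a a G F) :=
  contDiff_of_subtype_prod hn (contDiff_aux1 hf hn) (contDiff_aux2 hf hn)

/-- constants -/
def cst1 (a : ℝ) (G E : Type v) [NormedAddCommGroup G] [NormedSpace ℝ G] [NormedAddCommGroup E]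
    [NormedSpace ℝ E] : E →L[ℝ] C1a a G E :=
  ((cst G : E →L[ℝ] Hol a G E).prod (0 : E →L[ℝ] Hol a G (G →L[ℝ] E))).codRestrict (C1a a G E)
    (fun e x => hasFDerivAt_const e x)

@[simp] theorem C1f_cst1 (e : E) (x : G) : C1f (cst1 a G E e) x = e := rfl


/-- `BD` functions as elements of `C1a` -/
def ofBD (ha : 0 < a) (ha1 : a ≤ 1) {f : G → E} (hf : BD f) : C1a a G E :=
  ⟨(mk ha f _ (hb_lip ha ha1 (le_c0 hf) (L := cN hf 1) (fun x y => by
      rw [dist_eq_norm]; exact lip (hf.smooth.differentiable (by simp)) (le_c1 hf) x y)),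
    mk ha (fderiv ℝ f) _ (hb_lip ha ha1 (le_c1 hf) (L := cN hf 2) (fun x y => by
      rw [dist_eq_norm]; exact lip ((fd hf).smooth.differentiable (by simp)) (le_c2 hf) x y))),
    fun x => (hf.smooth.differentiable (by simp) x).hasFDerivAt⟩

@[simp] theorem C1f_ofBD (ha : 0 < a) (ha1 : a ≤ 1) {f : G → E} (hf : BD f) (x : G) :
    C1f (ofBD ha ha1 hf : C1a a G E) x = f x := rfl

theorem isClosed_C1a : IsClosed (C1a a G E : Set (Hol a G E × Hol a G (G →L[ℝ] E))) := by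
  refine isClosed_of_closure_subset fun q hq => ?_
  rw [mem_closure_iff_comap_neBot] at hq
  have hl : Tendsto (fun p : C1a a G E => (p : Hol a G E × Hol a G (G →L[ℝ] E)))
      (comap Subtype.val (𝓝 q)) (𝓝 q) := tendsto_comap
  have h1 : TendstoUniformly (fun (p : C1a a G E) (x : G) => Hol.fn p.1.2 x)
      (fun x => Hol.fn q.2 x) (comap Subtype.val (𝓝 q)) := by
    rw [Metric.tendstoUniformly_iff]
    intro ε hε
    filter_upwards [hl (Metric.ball_mem_nhds q hε)] with p hp x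
    rw [dist_eq_norm]
    have h2 : ‖Hol.fn q.2 x - Hol.fn p.1.2 x‖ ≤ ‖q.2 - p.1.2‖ := norm_fn_le (q.2 - p.1.2) x
    have h3 : ‖q.2 - p.1.2‖ ≤ ‖q - p.1‖ := norm_snd_le (q - p.1)
    have h4 : ‖q - p.1‖ < ε := by
      rw [← dist_eq_norm, dist_comm]; exact hp
    exact (h2.trans h3).trans_lt h4
  have h5 : ∀ x : G, Tendsto (fun p : C1a a G E => Hol.fn p.1.1 x)
      (comap Subtype.val (𝓝 q)) (𝓝 (Hol.fn q.1 x)) := fun x =>
    ((ev x).continuous.comp continuous_fst).continuousAt.tendsto.comp hl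
  intro x
  exact hasFDerivAt_of_tendstoUniformly h1 (fun p x => p.2 x) h5 x

theorem completeSpace_C1a [CompleteSpace E] : CompleteSpace (C1a a G E) :=
  isClosed_C1a.completeSpace_coe

end c1

/-! ### smooth families -/

section fam

variable {S E : Type} [NormedAddCommGroup S] [NormedSpace ℝ S] [FiniteDimensional ℝ S]
  [NormedAddCommGroup E] [NormedSpace ℝ E] [FiniteDimensional ℝ E] {a : ℝ}

theorem contDiff_lin_add {S P Q : Type*} [NormedAddCommGroup S] [NormedSpace ℝ S]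
    [NormedAddCommGroup P] [NormedSpace ℝ P] [NormedAddCommGroup Q] [NormedSpace ℝ Q]
    (A : P →L[ℝ] Q) (L : S →L[ℝ] P) (q : Q) : ContDiff ℝ ∞ (fun s => A (L s) + q) :=
  (A.contDiff.comp L.contDiff).add contDiff_const

theorem contDiff_comp' {S P Q : Type*} [NormedAddCommGroup S] [NormedSpace ℝ S]
    [NormedAddCommGroup P] [NormedSpace ℝ P] [NormedAddCommGroup Q] [NormedSpace ℝ Q]
    {f : P → Q} {g : S → P} (hf : ContDiff ℝ ∞ f) (hg : ContDiff ℝ ∞ g) :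
    ContDiff ℝ ∞ (fun s => f (g s)) := hf.comp hg

theorem fam_aux (ha : 0 < a) (ha1 : a ≤ 1) {P : Type} [NormedAddCommGroup P] [NormedSpace ℝ P]
    {f : P → E} (hf : BD f) (L : S →L[ℝ] P) {g : ℂ → P} (hg : BD g) :
    ∃ c : S → C1a a ℂ E, ContDiff ℝ ∞ c ∧ ∀ s z, C1f (c s) z = f (L s + g z) := by
  have : CompleteSpace E := FiniteDimensional.complete ℝ E
  have : CompleteSpace (C1a a ℂ E) := completeSpace_C1a
  have h1 : ContDiff ℝ ∞ (fun s => cst1 a ℂ P (L s) + ofBD ha ha1 hg) :=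
    contDiff_lin_add (cst1 a ℂ P) L (ofBD ha ha1 hg)
  have h2 : ContDiff ℝ ∞ (om1 hf : C1a a ℂ P → C1a a ℂ E) := contDiff_om1 hf le_rfl
  have h3 := contDiff_comp' h2 h1
  exact ⟨_, h3, fun s z => rfl⟩

/-- the case of compact support in all variables -/
theorem fam_cs (ha : 0 < a) (ha1 : a ≤ 1) {H : S × ℂ → E} {R : ℝ} (hH : BD H)
    (hR : ∀ s z, R ≤ ‖z‖ → H (s, z) = 0) :
    ∃ c : S → C1a a ℂ E, ContDiff ℝ ∞ c ∧ ∀ s z, C1f (c s) z = H (s, z) := by
  set R0 : ℝ := max R 1 with hR0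
  have hR1 : 1 ≤ R0 := le_max_right _ _
  let χ : ContDiffBump (0 : ℂ) := ⟨R0, R0 + 1, by linarith, by linarith⟩
  let ρ : ContDiffBump (0 : ℂ) := ⟨R0 + 1, R0 + 2, by linarith, by linarith⟩
  let κ : ContDiffBump (1 : ℝ) := ⟨1 / 4, 1 / 2, by norm_num, by norm_num⟩
  have hκ : BD (fun t : ℝ => κ t) := of_hasCompactSupport κ.contDiff κ.hasCompactSupport
  have hχ : BD (fun z : ℂ => χ z) := of_hasCompactSupport χ.contDiff χ.hasCompactSupport
  have hρz : BD (fun z : ℂ => ρ z • z) := by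
    refine of_hasCompactSupport (ρ.contDiff.smul contDiff_id) ?_
    exact ρ.hasCompactSupport.smul_right
  let T1 : ((S × ℂ) × ℝ) →L[ℝ] S × ℂ := ContinuousLinearMap.fst ℝ _ _
  let T2 : ((S × ℂ) × ℝ) →L[ℝ] ℝ := ContinuousLinearMap.snd ℝ _ _
  have hf : BD (fun p : (S × ℂ) × ℝ => κ p.2 • H p.1) :=
    smul (comp_clm hκ T2) (comp_clm hH T1)
  have hu : BD (fun z : ℂ => (((0 : S), ρ z • z), χ z)) := prodMk (prodMk (const 0) hρz) hχ
  obtain ⟨c, hc, hc'⟩ := fam_aux (S := S) ha ha1 hf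
    ((ContinuousLinearMap.inl ℝ (S × ℂ) ℝ).comp (ContinuousLinearMap.inl ℝ S ℂ)) hu
  refine ⟨c, hc, fun s z => ?_⟩
  rw [hc']
  have e : ((ContinuousLinearMap.inl ℝ (S × ℂ) ℝ).comp (ContinuousLinearMap.inl ℝ S ℂ)) s +
      (((0 : S), ρ z • z), χ z) = ((s, ρ z • z), χ z) := by
    show ((s, (0 : ℂ)), (0 : ℝ)) + (((0 : S), ρ z • z), χ z) = _
    simp
  rw [e]
  show κ (χ z) • H (s, ρ z • z) = H (s, z)
  rcases le_or_gt ‖z‖ R0 with h | h
  · have h1 : χ z = 1 := χ.one_of_mem_closedBall (by simpa using h)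
    have h2 : ρ z = 1 := ρ.one_of_mem_closedBall (by
      rw [mem_closedBall_zero_iff]; show ‖z‖ ≤ R0 + 1; linarith)
    have h3 : κ 1 = 1 := κ.one_of_mem_closedBall (mem_closedBall_self (by norm_num))
    rw [h1, h2, h3, one_smul, one_smul]
  · have h0 : H (s, z) = 0 := hR s z ((le_max_left _ _).trans h.le)
    rcases lt_or_ge ‖z‖ (R0 + 1) with h' | h'
    · have h2 : ρ z = 1 := ρ.one_of_mem_closedBall (by
        rw [mem_closedBall_zero_iff]; show ‖z‖ ≤ R0 + 1; linarith)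
      rw [h2, one_smul, h0, smul_zero]
    · have h1 : χ z = 0 := χ.zero_of_le_dist (by
        rw [dist_zero_right]; exact h')
      have h3 : κ 0 = 0 := κ.zero_of_le_dist (by
        rw [Real.dist_eq]; show (1 / 2 : ℝ) ≤ |0 - 1|; norm_num)
      rw [h1, h3, zero_smul, h0]

end fam

/-- **leaf H2, FamStmt** -/
theorem fam : FamStmt := by
  intro S E _ _ _ _ _ _ a ha ha1 H R hH hR
  have key : ∀ s0 : S, ∃ c : S → C1a a ℂ E, ContDiff ℝ ∞ c ∧
      ∀ s ∈ closedBall s0 1, ∀ z, C1f (c s) z = H (s, z) := by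
    intro s0
    let χ : ContDiffBump s0 := ⟨1, 2, by norm_num, by norm_num⟩
    have hs : ContDiff ℝ ∞ (fun p : S × ℂ => χ p.1 • H p) :=
      (χ.contDiff.comp contDiff_fst).smul hH
    have hc : HasCompactSupport (fun p : S × ℂ => χ p.1 • H p) := by
      have : ProperSpace S := FiniteDimensional.proper ℝ S
      refine HasCompactSupport.intro
        ((isCompact_closedBall s0 2).prod (isCompact_closedBall (0 : ℂ) R)) fun p hp => ?_
      by_cases h1 : p.1 ∈ closedBall s0 2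
      · have h2 : p.2 ∉ closedBall (0 : ℂ) R := fun h => hp ⟨h1, h⟩
        rw [mem_closedBall_zero_iff, not_le] at h2
        have h3 := hR p.1 p.2 h2.le
        show χ p.1 • H (p.1, p.2) = 0
        rw [h3, smul_zero]
      · have h2 : χ p.1 = 0 := χ.zero_of_le_dist (by
          rw [mem_closedBall, not_le] at h1; exact h1.le)
        show χ p.1 • H p = 0
        rw [h2, zero_smul]
    obtain ⟨c, hc1, hc2⟩ := fam_cs ha ha1.le (of_hasCompactSupport hs hc) (R := R)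
      (fun s z hz => by show χ s • H (s, z) = 0; rw [hR s z hz, smul_zero])
    refine ⟨c, hc1, fun s hs' z => ?_⟩
    rw [hc2, χ.one_of_mem_closedBall hs', one_smul]
  choose c hc1 hc2 using key
  refine ⟨fun s => c s s, ?_, fun s z => hc2 s s (mem_closedBall_self (by norm_num)) z⟩
  refine contDiff_iff_contDiffAt.2 fun s0 => ?_
  refine (hc1 s0).contDiffAt.congr_of_eventuallyEq ?_
  filter_upwards [closedBall_mem_nhds s0 one_pos] with s hs
  exact ext1 fun z => by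
    rw [hc2 s s (mem_closedBall_self (by norm_num)) z, hc2 s0 s hs z]

end

end Crest.Agent.R235.NWOm2_52
end

-- ▼ part R235/NWPsiA_930
section

/-!
# Row 235 (S0364), package NW, leaf N (helper930), abstract part

`exists_phi` : a `C^∞` map `N (k, w)` with `‖N‖ ≤ ε`, `‖D_w N‖ ≤ ε ≤ 1/2` on `U × ball 0 R`; the
equation `w - N (k, w) = h` has a unique small solution `w = Phi (k, h)`, smooth in `(k, h)`.
-/

set_option autoImplicit false

open Set Filter Metric Topology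
open scoped ContDiff

namespace Crest.Agent.R235.NWPsiA_930

noncomputable section

variable {K X : Type*} [NormedAddCommGroup K] [NormedSpace ℝ K] [CompleteSpace K]
  [NormedAddCommGroup X] [NormedSpace ℝ X] [CompleteSpace X]

/-- data of the fixed point problem -/
structure Small (N : K × X → X) (U : Set K) (R ε : ℝ) : Prop where
  isOpen : IsOpen U
  smooth : ContDiffOn ℝ ∞ N (U ×ˢ ball (0 : X) R)
  eps0 : 0 ≤ ε
  eps : ε ≤ 1 / 2
  bdd : ∀ k ∈ U, ∀ w ∈ ball (0 : X) R, ‖N (k, w)‖ ≤ ε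
  der : ∀ k ∈ U, ∀ w ∈ ball (0 : X) R,
    ‖(fderiv ℝ N (k, w)).comp (ContinuousLinearMap.inr ℝ K X)‖ ≤ ε

variable {N : K × X → X} {U : Set K} {R R1 ε : ℝ}

omit [CompleteSpace K] [CompleteSpace X] [NormedSpace ℝ K] [NormedSpace ℝ X] in
theorem isOpen_dom (hU : IsOpen U) (R : ℝ) : IsOpen (U ×ˢ ball (0 : X) R) :=
  hU.prod isOpen_ball

omit [CompleteSpace K] [CompleteSpace X] in
theorem Small.contDiffAt (H : Small N U R ε) {k : K} {w : X} (hk : k ∈ U)
    (hw : w ∈ ball (0 : X) R) : ContDiffAt ℝ ∞ N (k, w) :=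
  H.smooth.contDiffAt ((isOpen_dom H.isOpen R).mem_nhds ⟨hk, hw⟩)

omit [CompleteSpace K] [CompleteSpace X] in
theorem Small.hasFDerivAt (H : Small N U R ε) {k : K} {w : X} (hk : k ∈ U)
    (hw : w ∈ ball (0 : X) R) : HasFDerivAt N (fderiv ℝ N (k, w)) (k, w) :=
  ((H.contDiffAt hk hw).differentiableAt (by simp)).hasFDerivAt

omit [CompleteSpace K] [CompleteSpace X] in
theorem Small.lip (H : Small N U R ε) {k : K} (hk : k ∈ U) {w w' : X}
    (hw : w ∈ ball (0 : X) R) (hw' : w' ∈ ball (0 : X) R) :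
    ‖N (k, w) - N (k, w')‖ ≤ ε * ‖w - w'‖ := by
  have h1 : ∀ x ∈ ball (0 : X) R, HasFDerivWithinAt (fun x => N (k, x))
      ((fderiv ℝ N (k, x)).comp (ContinuousLinearMap.inr ℝ K X)) (ball (0 : X) R) x := by
    intro x hx
    have h2 : HasFDerivAt (fun x : X => (k, x)) (ContinuousLinearMap.inr ℝ K X) x :=
      (hasFDerivAt_const k x).prodMk (hasFDerivAt_id x)
    exact (HasFDerivAt.comp (g := N) x (H.hasFDerivAt hk hx) h2).hasFDerivWithinAt
  exact (convex_ball (0 : X) R).norm_image_sub_le_of_norm_hasFDerivWithin_le h1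
    (fun x hx => H.der k hk x hx) hw' hw

omit [CompleteSpace K] [CompleteSpace X] in
theorem Small.uniq (H : Small N U R ε) {k : K} (hk : k ∈ U) {w w' : X}
    (hw : w ∈ ball (0 : X) R) (hw' : w' ∈ ball (0 : X) R) (h : w - N (k, w) = w' - N (k, w')) :
    w = w' := by
  have h1 := H.lip hk hw hw'
  have h2 : w - w' = N (k, w) - N (k, w') := by
    have h3 : w - w' - (N (k, w) - N (k, w')) = 0 := by
      have h4 : w - w' - (N (k, w) - N (k, w')) = (w - N (k, w)) - (w' - N (k, w')) := by abel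
      rw [h4, h, sub_self]
    exact sub_eq_zero.1 h3
  rw [← h2] at h1
  have h5 : ‖w - w'‖ = 0 := by
    have := norm_nonneg (w - w')
    have := H.eps
    nlinarith
  exact sub_eq_zero.1 (norm_eq_zero.1 h5)

omit [CompleteSpace K] in
theorem Small.exists_sol (H : Small N U R ε) (hR : R1 + ε < R) {k h : _}
    (hk : k ∈ U) (hh : h ∈ ball (0 : X) R1) :
    ∃ w ∈ ball (0 : X) R, w - N (k, w) = h ∧ ‖w - h‖ ≤ ε := by
  have hε : 0 ≤ ε := H.eps0
  have hsub : closedBall h ε ⊆ ball (0 : X) R := by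
    intro x hx
    have h1 : ‖h‖ < R1 := by simpa using hh
    have h2 : ‖x - h‖ ≤ ε := by simpa [dist_eq_norm] using hx
    have h3 : ‖x‖ ≤ ‖x - h‖ + ‖h‖ := by
      calc ‖x‖ = ‖(x - h) + h‖ := by rw [sub_add_cancel]
        _ ≤ _ := norm_add_le _ _
    simp only [mem_ball, dist_zero_right]
    linarith
  have hmaps : MapsTo (fun w => h + N (k, w)) (closedBall h ε) (closedBall h ε) := by
    intro x hx
    simp only [mem_closedBall, dist_eq_norm, add_sub_cancel_left]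
    exact H.bdd k hk x (hsub hx)
  have hc : IsComplete (closedBall h ε) := isClosed_closedBall.isComplete
  have hcon : ContractingWith (1 / 2) (hmaps.restrict _ _ _) := by
    refine ⟨by rw [← NNReal.coe_lt_coe]; norm_num, LipschitzWith.of_dist_le_mul fun x y => ?_⟩
    rw [Subtype.dist_eq, Subtype.dist_eq, MapsTo.val_restrict_apply, MapsTo.val_restrict_apply,
      dist_eq_norm, dist_eq_norm, add_sub_add_left_eq_sub]
    refine (H.lip hk (hsub x.2) (hsub y.2)).trans ?_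
    refine mul_le_mul_of_nonneg_right ?_ (norm_nonneg _)
    have := H.eps
    simpa using this
  have hx0 : h ∈ closedBall h ε := mem_closedBall_self hε
  have hedist : edist h ((fun w => h + N (k, w)) h) ≠ ⊤ := edist_ne_top _ _
  obtain ⟨w, hw, hfix, -, -⟩ := hcon.exists_fixedPoint' hc hmaps hx0 hedist
  have hfix' : h + N (k, w) = w := hfix
  refine ⟨w, hsub hw, ?_, ?_⟩
  · nth_rewrite 1 [← hfix']
    abel
  · simpa [dist_eq_norm] using hw

/-- the solution map -/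
def Phi (N : K × X → X) (R : ℝ) (p : K × X) : X :=
  haveI : Decidable (∃ w ∈ ball (0 : X) R, w - N (p.1, w) = p.2) := Classical.dec _
  if H : ∃ w ∈ ball (0 : X) R, w - N (p.1, w) = p.2 then H.choose else 0

omit [CompleteSpace K] in
theorem Small.phi_spec (H : Small N U R ε) (hR : R1 + ε < R) {k : K} {h : X}
    (hk : k ∈ U) (hh : h ∈ ball (0 : X) R1) :
    Phi N R (k, h) ∈ ball (0 : X) R ∧ Phi N R (k, h) - N (k, Phi N R (k, h)) = h ∧
      ‖Phi N R (k, h) - h‖ ≤ ε := by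
  obtain ⟨w, hw, h1, h2⟩ := H.exists_sol hR hk hh
  have hex : ∃ w ∈ ball (0 : X) R, w - N (((k, h) : K × X).1, w) = ((k, h) : K × X).2 :=
    ⟨w, hw, h1⟩
  have h3 : Phi N R (k, h) = hex.choose := dif_pos hex
  have h4 := hex.choose_spec
  rw [← h3] at h4
  have h5 : Phi N R (k, h) = w := H.uniq hk h4.1 hw (by rw [h1]; exact h4.2)
  refine ⟨h4.1, h4.2, ?_⟩
  rw [h5]; exact h2

omit [CompleteSpace K] [CompleteSpace X] in
/-- the Lipschitz bound implies the bound of the derivative. -/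
theorem Small.of_lip (hU : IsOpen U) (hN : ContDiffOn ℝ ∞ N (U ×ˢ ball (0 : X) R))
    (h0 : 0 ≤ ε) (h1 : ε ≤ 1 / 2) (hb : ∀ k ∈ U, ∀ w ∈ ball (0 : X) R, ‖N (k, w)‖ ≤ ε)
    (hl : ∀ k ∈ U, ∀ w ∈ ball (0 : X) R, ∀ w' ∈ ball (0 : X) R,
      ‖N (k, w) - N (k, w')‖ ≤ ε * ‖w - w'‖) : Small N U R ε := by
  refine ⟨hU, hN, h0, h1, hb, fun k hk w hw => ?_⟩
  have h2 : HasFDerivAt N (fderiv ℝ N (k, w)) (k, w) :=
    ((hN.contDiffAt ((hU.prod isOpen_ball).mem_nhds ⟨hk, hw⟩)).differentiableAt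
      (by simp)).hasFDerivAt
  have h3 : HasFDerivAt (fun x : X => (k, x)) (ContinuousLinearMap.inr ℝ K X) w :=
    (hasFDerivAt_const k w).prodMk (hasFDerivAt_id w)
  have h4 : HasFDerivAt (fun x => N (k, x))
      ((fderiv ℝ N (k, w)).comp (ContinuousLinearMap.inr ℝ K X)) w :=
    HasFDerivAt.comp (g := N) w h2 h3
  refine h4.le_of_lip' h0 ?_
  filter_upwards [isOpen_ball.mem_nhds hw] with x hx
  exact hl k hk x hx w hw

/-- the graph map -/
def gr (N : K × X → X) (p : K × X) : K × X := (p.1, p.2 - N p)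

omit [CompleteSpace K] in
/-- the derivative of the graph map is invertible. -/
theorem Small.gr_equiv (H : Small N U R ε) {k : K} {w : X} (hk : k ∈ U)
    (hw : w ∈ ball (0 : X) R) :
    ∃ L : (K × X) ≃L[ℝ] (K × X), HasFDerivAt (gr N) (L : K × X →L[ℝ] K × X) (k, w) := by
  set D := fderiv ℝ N (k, w) with hD
  have hN : HasFDerivAt N D (k, w) := H.hasFDerivAt hk hw
  set D2 : X →L[ℝ] X := D.comp (ContinuousLinearMap.inr ℝ K X) with hD2
  set D1 : K →L[ℝ] X := D.comp (ContinuousLinearMap.inl ℝ K X) with hD1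
  have hD2n : ‖D2‖ < 1 := lt_of_le_of_lt (H.der k hk w hw) (by have := H.eps; linarith)
  let V : (X →L[ℝ] X)ˣ := Units.oneSub D2 hD2n
  have hV1 : ∀ x, (V.inv : X →L[ℝ] X) (x - D2 x) = x := by
    intro x
    have h1 : (V.inv * V.val : X →L[ℝ] X) x = x := by
      rw [V.inv_val]; rfl
    exact h1
  have hV2 : ∀ x, (V.inv : X →L[ℝ] X) x - D2 ((V.inv : X →L[ℝ] X) x) = x := by
    intro x
    have h1 : (V.val * V.inv : X →L[ℝ] X) x = x := by
      rw [V.val_inv]; rfl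
    exact h1
  have hsplit : ∀ v : K × X, D v = D1 v.1 + D2 v.2 := by
    intro v
    have h1 : v = (v.1, 0) + (0, v.2) := by simp
    conv_lhs => rw [h1, map_add]
    rfl
  let F : K × X →L[ℝ] K × X :=
    (ContinuousLinearMap.fst ℝ K X).prod (ContinuousLinearMap.snd ℝ K X - D)
  let G : K × X →L[ℝ] K × X :=
    (ContinuousLinearMap.fst ℝ K X).prod
      ((V.inv : X →L[ℝ] X).comp (ContinuousLinearMap.snd ℝ K X +
        D1.comp (ContinuousLinearMap.fst ℝ K X)))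
  have hF : ∀ v, F v = (v.1, v.2 - D v) := fun v => rfl
  have hG : ∀ v, G v = (v.1, (V.inv : X →L[ℝ] X) (v.2 + D1 v.1)) := fun v => rfl
  refine ⟨ContinuousLinearEquiv.equivOfInverse F G ?_ ?_, ?_⟩
  · intro v
    rw [hG, hF]
    refine Prod.ext rfl ?_
    show (V.inv : X →L[ℝ] X) (v.2 - D v + D1 v.1) = v.2
    rw [hsplit]
    have h1 : v.2 - (D1 v.1 + D2 v.2) + D1 v.1 = v.2 - D2 v.2 := by abel
    rw [h1, hV1]
  · intro v
    rw [hF, hG]
    refine Prod.ext rfl ?_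
    show (V.inv : X →L[ℝ] X) (v.2 + D1 v.1) - D (v.1, (V.inv : X →L[ℝ] X) (v.2 + D1 v.1)) = v.2
    rw [hsplit]
    show (V.inv : X →L[ℝ] X) (v.2 + D1 v.1) - (D1 v.1 + D2 ((V.inv : X →L[ℝ] X) (v.2 + D1 v.1))) =
      v.2
    have h1 := hV2 (v.2 + D1 v.1)
    have h2 : (V.inv : X →L[ℝ] X) (v.2 + D1 v.1) -
        (D1 v.1 + D2 ((V.inv : X →L[ℝ] X) (v.2 + D1 v.1))) =
        ((V.inv : X →L[ℝ] X) (v.2 + D1 v.1) - D2 ((V.inv : X →L[ℝ] X) (v.2 + D1 v.1))) -
          D1 v.1 := by abel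
    rw [h2, h1]; abel
  · show HasFDerivAt (gr N) F (k, w)
    exact hasFDerivAt_fst.prodMk (hasFDerivAt_snd.sub hN)

omit [CompleteSpace K] [CompleteSpace X] in
theorem Small.contDiffAt_gr (H : Small N U R ε) {k : K} {w : X} (hk : k ∈ U)
    (hw : w ∈ ball (0 : X) R) : ContDiffAt ℝ ∞ (gr N) (k, w) :=
  contDiffAt_fst.prodMk (contDiffAt_snd.sub (H.contDiffAt hk hw))

/-- the solution map is smooth. -/
theorem Small.phi_contDiffAt (H : Small N U R ε) (hR : R1 + ε < R) {k : K} {h : X}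
    (hk : k ∈ U) (hh : h ∈ ball (0 : X) R1) :
    ContDiffAt ℝ ∞ (Phi N R) (k, h) := by
  obtain ⟨h1, h2, -⟩ := H.phi_spec hR hk hh
  obtain ⟨L, hL⟩ := H.gr_equiv hk h1
  have hgr := H.contDiffAt_gr hk h1
  have hval : gr N (k, Phi N R (k, h)) = (k, h) := Prod.ext rfl h2
  have hinf : (∞ : WithTop ℕ∞) ≠ 0 := by simp
  set g := hgr.localInverse hL hinf with hg
  have hg1 : ContDiffAt ℝ ∞ g (k, h) := by
    have := hgr.to_localInverse hL hinf
    rwa [hval] at this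
  have hg2 : g (k, h) = (k, Phi N R (k, h)) := by
    have := hgr.localInverse_apply_image hL hinf
    rwa [hval] at this
  -- the local inverse is a right inverse near the point
  have hg3 : ∀ᶠ p in 𝓝 ((k, h) : K × X), gr N (g p) = p := by
    have := (hgr.hasStrictFDerivAt' hL hinf).eventually_right_inverse
    rwa [hval] at this
  have hg4 : ∀ᶠ p in 𝓝 ((k, h) : K × X), g p ∈ U ×ˢ ball (0 : X) R := by
    refine hg1.continuousAt.eventually_mem ?_
    rw [hg2]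
    exact (isOpen_dom H.isOpen R).mem_nhds ⟨hk, h1⟩
  have hg5 : ∀ᶠ p in 𝓝 ((k, h) : K × X), p ∈ U ×ˢ ball (0 : X) R1 :=
    (isOpen_dom H.isOpen R1).mem_nhds ⟨hk, hh⟩
  have hev : Phi N R =ᶠ[𝓝 ((k, h) : K × X)] fun p => (g p).2 := by
    filter_upwards [hg3, hg4, hg5] with p h3 h4 h5
    obtain ⟨h6, h7, -⟩ := H.phi_spec hR h5.1 h5.2
    have h8 : (g p).1 = p.1 := by
      have := congrArg Prod.fst h3
      exact this
    have h9 : (g p).2 - N (g p) = p.2 := by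
      have := congrArg Prod.snd h3
      exact this
    have h10 : g p = (p.1, (g p).2) := Prod.ext h8 rfl
    refine H.uniq h5.1 h6 h4.2 ?_
    rw [h7]
    rw [h10] at h9
    exact h9.symm
  exact (contDiffAt_snd.comp (k, h) hg1).congr_of_eventuallyEq hev

theorem Small.phi_der (H : Small N U R ε) (hR : R1 + ε < R) {k : K} {h : X}
    (hk : k ∈ U) (hh : h ∈ ball (0 : X) R1) :
    ‖(fderiv ℝ (Phi N R) (k, h)).comp (ContinuousLinearMap.inr ℝ K X) -
      ContinuousLinearMap.id ℝ X‖ ≤ 2 * ε := by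
  obtain ⟨h1, h2, -⟩ := H.phi_spec hR hk hh
  have hP : HasFDerivAt (Phi N R) (fderiv ℝ (Phi N R) (k, h)) (k, h) :=
    ((H.phi_contDiffAt hR hk hh).differentiableAt (by simp)).hasFDerivAt
  have hi : HasFDerivAt (fun x : X => (k, x)) (ContinuousLinearMap.inr ℝ K X) h :=
    (hasFDerivAt_const k h).prodMk (hasFDerivAt_id h)
  set P2 := (fderiv ℝ (Phi N R) (k, h)).comp (ContinuousLinearMap.inr ℝ K X) with hP2
  have hQ : HasFDerivAt (fun x : X => Phi N R (k, x)) P2 h := HasFDerivAt.comp (g := Phi N R) h hP hi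
  set D2 := (fderiv ℝ N (k, Phi N R (k, h))).comp (ContinuousLinearMap.inr ℝ K X) with hD2
  have hN : HasFDerivAt (fun x : X => N (k, x)) D2 (Phi N R (k, h)) :=
    HasFDerivAt.comp (g := N) (Phi N R (k, h)) (H.hasFDerivAt hk h1)
      ((hasFDerivAt_const k (Phi N R (k, h))).prodMk (hasFDerivAt_id (Phi N R (k, h))))
  have hS : HasFDerivAt (fun x : X => Phi N R (k, x) - N (k, Phi N R (k, x)))
      (P2 - D2.comp P2) h := hQ.sub (HasFDerivAt.comp (g := fun x : X => N (k, x)) h hN hQ)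
  have hev : (fun x : X => Phi N R (k, x) - N (k, Phi N R (k, x))) =ᶠ[𝓝 h] fun x => x := by
    filter_upwards [isOpen_ball.mem_nhds hh] with x hx
    exact (H.phi_spec hR hk hx).2.1
  have hE : P2 - D2.comp P2 = ContinuousLinearMap.id ℝ X :=
    (hS.congr_of_eventuallyEq hev.symm).unique (hasFDerivAt_id h)
  have hD2n : ‖D2‖ ≤ ε := H.der k hk _ h1
  have hε := H.eps
  have hε0 := H.eps0
  have hE2 : P2 - ContinuousLinearMap.id ℝ X = D2.comp P2 := by
    rw [← hE]; abel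
  have hE3 : ‖D2.comp P2‖ ≤ ε * ‖P2‖ :=
    (D2.opNorm_comp_le P2).trans (mul_le_mul_of_nonneg_right hD2n (norm_nonneg _))
  have hid : ‖ContinuousLinearMap.id ℝ X‖ ≤ 1 := ContinuousLinearMap.norm_id_le
  have hP2n : ‖P2‖ ≤ 2 := by
    have h3 : P2 = ContinuousLinearMap.id ℝ X + D2.comp P2 := by
      rw [← hE2]; abel
    have h4 : ‖P2‖ ≤ 1 + ε * ‖P2‖ := by
      calc ‖P2‖ = ‖ContinuousLinearMap.id ℝ X + D2.comp P2‖ := by rw [← h3]
        _ ≤ _ := (norm_add_le _ _).trans (add_le_add hid hE3)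
    have h5 : ε * ‖P2‖ ≤ 1 / 2 * ‖P2‖ := mul_le_mul_of_nonneg_right hε (norm_nonneg _)
    linarith
  rw [hE2]
  calc ‖D2.comp P2‖ ≤ ε * ‖P2‖ := hE3
    _ ≤ ε * 2 := mul_le_mul_of_nonneg_left hP2n hε0
    _ = 2 * ε := by ring

/-- **abstract solution theorem** -/
theorem exists_phi (H : Small N U R ε) (hR : R1 + ε < R) :
    ∃ Φ : K × X → X, ContDiffOn ℝ ∞ Φ (U ×ˢ ball (0 : X) R1) ∧
      (∀ k ∈ U, ∀ h ∈ ball (0 : X) R1,
        Φ (k, h) ∈ ball (0 : X) R ∧ Φ (k, h) - N (k, Φ (k, h)) = h ∧ ‖Φ (k, h) - h‖ ≤ ε ∧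
        ‖(fderiv ℝ Φ (k, h)).comp (ContinuousLinearMap.inr ℝ K X) -
          ContinuousLinearMap.id ℝ X‖ ≤ 2 * ε) ∧
      ∀ k ∈ U, ∀ h ∈ ball (0 : X) R1, ∀ w ∈ ball (0 : X) R,
        w - N (k, w) = h → w = Φ (k, h) := by
  refine ⟨Phi N R, fun p hp => (H.phi_contDiffAt hR hp.1 hp.2).contDiffWithinAt, ?_, ?_⟩
  · intro k hk h hh
    obtain ⟨h1, h2, h3⟩ := H.phi_spec hR hk hh
    exact ⟨h1, h2, h3, H.phi_der hR hk hh⟩
  · intro k hk h hh w hw h1
    obtain ⟨h2, h3, -⟩ := H.phi_spec hR hk hh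
    exact H.uniq hk hw h2 (by rw [h1, h3])

end

end Crest.Agent.R235.NWPsiA_930
end

-- ▼ part R235/NWPsiB_930
section

/-!
# Row 235 (S0364), package NW, leaf N (helper930), abstract part 2

The right hand side `G (κ, q, M, w) = κ (A(q,w)(Dw(1+M)) + b(q,w)) - ∂̄(Dw M)` with abstract normed
spaces and bilinear maps; size, Lipschitz bound, solution operator.
-/

set_option autoImplicit false

open Set Filter Metric Topology
open scoped ContDiff

namespace Crest.Agent.R235.NWPsiB_930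

open Crest.Agent.R235.NWPsiA_930

noncomputable section

variable (A1 A2 A3 X V D Q HA Y : Type*)
  [NormedAddCommGroup A1] [NormedSpace ℝ A1] [NormedAddCommGroup A2] [NormedSpace ℝ A2]
  [NormedAddCommGroup A3] [NormedSpace ℝ A3] [NormedAddCommGroup X] [NormedSpace ℝ X]
  [NormedAddCommGroup V] [NormedSpace ℝ V] [NormedAddCommGroup D] [NormedSpace ℝ D]
  [NormedAddCommGroup Q] [NormedSpace ℝ Q] [NormedAddCommGroup HA] [NormedSpace ℝ HA]
  [NormedAddCommGroup Y] [NormedSpace ℝ Y]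

/-- the linear data -/
structure Lin where
  vl : X →L[ℝ] V
  dr : X →L[ℝ] D
  pr : (A2 × V) →L[ℝ] Q
  cp : D →L[ℝ] A3 →L[ℝ] D
  ap : HA →L[ℝ] D →L[ℝ] Y
  sm : A1 →L[ℝ] Y →L[ℝ] Y
  db : D →L[ℝ] Y
  one : A3
  n_vl : ∀ w, ‖vl w‖ ≤ ‖w‖
  n_dr : ∀ w, ‖dr w‖ ≤ ‖w‖
  n_pr : ∀ p, ‖pr p‖ ≤ ‖p‖
  n_cp : ∀ d m, ‖cp d m‖ ≤ 2 * ‖d‖ * ‖m‖
  n_ap : ∀ g d, ‖ap g d‖ ≤ 2 * ‖g‖ * ‖d‖
  n_sm : ∀ k y, ‖sm k y‖ ≤ 2 * ‖k‖ * ‖y‖
  n_db : ∀ d, ‖db d‖ ≤ ‖d‖
  n_one : ‖one‖ ≤ 1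

variable {A1 A2 A3 X V D Q HA Y}

namespace Lin

variable (S : Lin A1 A2 A3 X V D Q HA Y)

/-- the parameters -/
abbrev Pr (A1 A2 A3 : Type*) : Type _ := A1 × A2 × A3

/-- the argument of the coefficients -/
def arg (p : Pr A1 A2 A3 × X) : Q := S.pr (p.1.2.1, S.vl p.2)

/-- the right hand side -/
def G (OA : Q → HA) (OB : Q → Y) (p : Pr A1 A2 A3 × X) : Y :=
  S.sm p.1.1 (S.ap (OA (S.arg p)) (S.cp (S.dr p.2) (S.one + p.1.2.2)) + OB (S.arg p)) -
    S.db (S.cp (S.dr p.2) p.1.2.2)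

theorem contDiff_arg : ContDiff ℝ ∞ S.arg :=
  S.pr.contDiff.comp ((contDiff_fst.comp (contDiff_snd.comp contDiff_fst)).prodMk
    (S.vl.contDiff.comp contDiff_snd))

theorem contDiff_bil {Z U V W : Type*} [NormedAddCommGroup Z] [NormedSpace ℝ Z]
    [NormedAddCommGroup U] [NormedSpace ℝ U] [NormedAddCommGroup V]
    [NormedSpace ℝ V] [NormedAddCommGroup W] [NormedSpace ℝ W] (B : U →L[ℝ] V →L[ℝ] W)
    {f : Z → U} {g : Z → V} (hf : ContDiff ℝ ∞ f) (hg : ContDiff ℝ ∞ g) :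
    ContDiff ℝ ∞ (fun y => B (f y) (g y)) :=
  (B.contDiff.comp hf).clm_apply hg

theorem contDiff_G {OA : Q → HA} {OB : Q → Y} (hA : ContDiff ℝ ∞ OA) (hB : ContDiff ℝ ∞ OB) :
    ContDiff ℝ ∞ (S.G OA OB) := by
  have h1 : ContDiff ℝ ∞ (fun p : Pr A1 A2 A3 × X => S.dr p.2) := S.dr.contDiff.comp contDiff_snd
  have h2 : ContDiff ℝ ∞ (fun p : Pr A1 A2 A3 × X => p.1.1) := contDiff_fst.comp contDiff_fst
  have h3 : ContDiff ℝ ∞ (fun p : Pr A1 A2 A3 × X => p.1.2.2) :=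
    contDiff_snd.comp (contDiff_snd.comp contDiff_fst)
  have h4 : ContDiff ℝ ∞ (fun p : Pr A1 A2 A3 × X => OA (S.arg p)) := hA.comp S.contDiff_arg
  have h5 : ContDiff ℝ ∞ (fun p : Pr A1 A2 A3 × X => OB (S.arg p)) := hB.comp S.contDiff_arg
  have h6 := contDiff_bil S.cp h1 (contDiff_const (c := S.one) |>.add h3)
  have h7 := contDiff_bil S.ap h4 h6
  have h8 := contDiff_bil S.sm h2 (h7.add h5)
  have h9 := contDiff_bil S.cp h1 h3
  exact h8.sub (S.db.contDiff.comp h9)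

theorem n_bil {U V W : Type*} [NormedAddCommGroup U] [NormedSpace ℝ U] [NormedAddCommGroup V]
    [NormedSpace ℝ V] [NormedAddCommGroup W] [NormedSpace ℝ W] {B : U →L[ℝ] V →L[ℝ] W}
    (hB : ∀ u v, ‖B u v‖ ≤ 2 * ‖u‖ * ‖v‖) {u : U} {v : V} {s t : ℝ} (hu : ‖u‖ ≤ s)
    (hv : ‖v‖ ≤ t) : ‖B u v‖ ≤ 2 * s * t := by
  have hs : 0 ≤ s := (norm_nonneg u).trans hu
  exact (hB u v).trans (mul_le_mul (by linarith) hv (norm_nonneg _) (by positivity))

/-- smallness of the composition operators -/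
structure Sm (OA : Q → HA) (OB : Q → Y) (η : ℝ) : Prop where
  nA : ∀ u, ‖OA u‖ ≤ η * (1 + ‖u‖)
  nB : ∀ u, ‖OB u‖ ≤ η * (1 + ‖u‖)
  lA : ∀ u u', ‖OA u - OA u'‖ ≤ η * (1 + max ‖u‖ ‖u'‖) * ‖u - u'‖
  lB : ∀ u u', ‖OB u - OB u'‖ ≤ η * (1 + max ‖u‖ ‖u'‖) * ‖u - u'‖

variable {OA : Q → HA} {OB : Q → Y} {η K R : ℝ}

/-- the parameter domain -/
def Uset (A1 A2 A3 : Type*) [NormedAddCommGroup A1] [NormedAddCommGroup A2]
    [NormedAddCommGroup A3] (K η : ℝ) : Set (Pr A1 A2 A3) :=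
  {k | ‖k.1‖ < K ∧ ‖k.2.1‖ < K ∧ ‖k.2.2‖ < η}

theorem isOpen_Uset (K η : ℝ) : IsOpen (Uset A1 A2 A3 K η) := by
  have h1 : IsOpen {k : Pr A1 A2 A3 | ‖k.1‖ < K} :=
    isOpen_lt (continuous_norm.comp continuous_fst) continuous_const
  have h2 : IsOpen {k : Pr A1 A2 A3 | ‖k.2.1‖ < K} :=
    isOpen_lt (continuous_norm.comp (continuous_fst.comp continuous_snd)) continuous_const
  have h3 : IsOpen {k : Pr A1 A2 A3 | ‖k.2.2‖ < η} :=
    isOpen_lt (continuous_norm.comp (continuous_snd.comp continuous_snd)) continuous_const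
  exact h1.inter (h2.inter h3)

/-- the constant -/
def C0 (K R : ℝ) : ℝ := 16 * K * R * (1 + K + R) + 16 * K * (1 + K + R) + 2 * K * (1 + K + R) +
  2 * R + 2

theorem C0_pos (hK : 0 < K) (hR : 0 < R) : 0 < C0 K R := by unfold C0; positivity

theorem norm_arg_le {k : Pr A1 A2 A3} {w : X} (hk : ‖k.2.1‖ ≤ K) (hw : ‖w‖ ≤ R) (hK : 0 ≤ K)
    (hR : 0 ≤ R) : ‖S.arg (k, w)‖ ≤ K + R := by
  refine (S.n_pr _).trans ?_
  rw [Prod.norm_def]
  exact max_le (hk.trans (by linarith)) (((S.n_vl w).trans hw).trans (by linarith))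

theorem norm_arg_sub_le (k : Pr A1 A2 A3) (w w' : X) :
    ‖S.arg (k, w) - S.arg (k, w')‖ ≤ ‖w - w'‖ := by
  have h1 : S.arg (k, w) - S.arg (k, w') = S.pr (0, S.vl (w - w')) := by
    unfold arg
    rw [← map_sub]
    congr 1
    simp
  rw [h1]
  refine (S.n_pr _).trans ?_
  rw [Prod.norm_def]
  simpa using S.n_vl (w - w')

theorem norm_one_add_le {k : Pr A1 A2 A3} (hM : ‖k.2.2‖ ≤ η) (hη : η ≤ 1) :
    ‖S.one + k.2.2‖ ≤ 2 :=
  (norm_add_le _ _).trans (by linarith [S.n_one])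

theorem G_norm (H : Sm OA OB η) (hη0 : 0 ≤ η) (hη : η ≤ 1) (hK : 0 < K) (hR : 0 < R)
    {k : Pr A1 A2 A3} (hk : k ∈ Uset A1 A2 A3 K η) {w : X} (hw : w ∈ ball (0 : X) R) :
    ‖S.G OA OB (k, w)‖ ≤ η * C0 K R := by
  obtain ⟨h1, h2, h3⟩ := hk
  have hw' : ‖w‖ ≤ R := by
    have : ‖w‖ < R := by simpa using hw
    exact this.le
  have ha := S.norm_arg_le h2.le hw' hK.le hR.le
  have hdr : ‖S.dr w‖ ≤ R := (S.n_dr w).trans hw'
  have hL : 1 + ‖S.arg (k, w)‖ ≤ 1 + K + R := by linarith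
  have e1 : ‖OA (S.arg (k, w))‖ ≤ η * (1 + K + R) :=
    (H.nA _).trans (mul_le_mul_of_nonneg_left hL hη0)
  have e2 : ‖OB (S.arg (k, w))‖ ≤ η * (1 + K + R) :=
    (H.nB _).trans (mul_le_mul_of_nonneg_left hL hη0)
  have e3 : ‖S.cp (S.dr w) (S.one + k.2.2)‖ ≤ 2 * R * 2 :=
    n_bil S.n_cp hdr (S.norm_one_add_le h3.le hη)
  have e4 : ‖S.ap (OA (S.arg (k, w))) (S.cp (S.dr w) (S.one + k.2.2))‖ ≤
      2 * (η * (1 + K + R)) * (2 * R * 2) := n_bil S.n_ap e1 e3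
  have e5 : ‖S.sm k.1 (S.ap (OA (S.arg (k, w))) (S.cp (S.dr w) (S.one + k.2.2)) +
      OB (S.arg (k, w)))‖ ≤ 2 * K * (2 * (η * (1 + K + R)) * (2 * R * 2) + η * (1 + K + R)) :=
    n_bil S.n_sm h1.le ((norm_add_le _ _).trans (add_le_add e4 e2))
  have e6 : ‖S.db (S.cp (S.dr w) k.2.2)‖ ≤ 2 * R * η :=
    (S.n_db _).trans (n_bil S.n_cp hdr h3.le)
  calc ‖S.G OA OB (k, w)‖ ≤ _ := norm_sub_le _ _
    _ ≤ 2 * K * (2 * (η * (1 + K + R)) * (2 * R * 2) + η * (1 + K + R)) + 2 * R * η :=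
        add_le_add e5 e6
    _ ≤ η * C0 K R := by
        unfold C0
        have h4 : 0 ≤ η * (16 * K * (1 + K + R) + 2) := by positivity
        nlinarith

theorem G_lip (H : Sm OA OB η) (hη0 : 0 ≤ η) (hη : η ≤ 1) (hK : 0 < K) (hR : 0 < R)
    {k : Pr A1 A2 A3} (hk : k ∈ Uset A1 A2 A3 K η) {w w' : X} (hw : w ∈ ball (0 : X) R)
    (hw' : w' ∈ ball (0 : X) R) :
    ‖S.G OA OB (k, w) - S.G OA OB (k, w')‖ ≤ η * C0 K R * ‖w - w'‖ := by
  obtain ⟨h1, h2, h3⟩ := hk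
  have hn : ‖w‖ ≤ R := by
    have : ‖w‖ < R := by simpa using hw
    exact this.le
  have hn' : ‖w'‖ ≤ R := by
    have : ‖w'‖ < R := by simpa using hw'
    exact this.le
  have ha := S.norm_arg_le h2.le hn hK.le hR.le
  have ha' := S.norm_arg_le h2.le hn' hK.le hR.le
  have hs := S.norm_arg_sub_le k w w'
  set u := S.arg (k, w) with hu
  set u' := S.arg (k, w') with hu'
  set c := w - w' with hc
  have hc0 := norm_nonneg c
  have hL' : 1 + ‖u'‖ ≤ 1 + K + R := by linarith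
  have hLm : 1 + max ‖u‖ ‖u'‖ ≤ 1 + K + R := by
    have := max_le ha ha'
    linarith
  have hLp : 0 < 1 + K + R := by positivity
  have e1 : ‖OA u'‖ ≤ η * (1 + K + R) := (H.nA _).trans (mul_le_mul_of_nonneg_left hL' hη0)
  have e2 : ‖OA u - OA u'‖ ≤ η * (1 + K + R) * ‖c‖ :=
    (H.lA u u').trans (mul_le_mul (mul_le_mul_of_nonneg_left hLm hη0) hs (norm_nonneg _)
      (by positivity))
  have e3 : ‖OB u - OB u'‖ ≤ η * (1 + K + R) * ‖c‖ :=
    (H.lB u u').trans (mul_le_mul (mul_le_mul_of_nonneg_left hLm hη0) hs (norm_nonneg _)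
      (by positivity))
  have e4 : ‖S.cp (S.dr w) (S.one + k.2.2)‖ ≤ 2 * R * 2 :=
    n_bil S.n_cp ((S.n_dr w).trans hn) (S.norm_one_add_le h3.le hη)
  have e5 : ‖S.cp (S.dr c) (S.one + k.2.2)‖ ≤ 2 * ‖c‖ * 2 :=
    n_bil S.n_cp (S.n_dr c) (S.norm_one_add_le h3.le hη)
  have e6 : ‖S.ap (OA u - OA u') (S.cp (S.dr w) (S.one + k.2.2))‖ ≤
      2 * (η * (1 + K + R) * ‖c‖) * (2 * R * 2) := n_bil S.n_ap e2 e4
  have e7 : ‖S.ap (OA u') (S.cp (S.dr c) (S.one + k.2.2))‖ ≤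
      2 * (η * (1 + K + R)) * (2 * ‖c‖ * 2) := n_bil S.n_ap e1 e5
  have e8 : ‖S.db (S.cp (S.dr c) k.2.2)‖ ≤ 2 * ‖c‖ * η :=
    (S.n_db _).trans (n_bil S.n_cp (S.n_dr c) h3.le)
  have hsplit : S.G OA OB (k, w) - S.G OA OB (k, w') =
      S.sm k.1 ((S.ap (OA u - OA u') (S.cp (S.dr w) (S.one + k.2.2)) +
        S.ap (OA u') (S.cp (S.dr c) (S.one + k.2.2))) + (OB u - OB u')) -
        S.db (S.cp (S.dr c) k.2.2) := by
    have f1 : S.dr c = S.dr w - S.dr w' := by rw [hc, map_sub]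
    have f2 : S.G OA OB (k, w) = S.sm k.1 (S.ap (OA u) (S.cp (S.dr w) (S.one + k.2.2)) + OB u) -
        S.db (S.cp (S.dr w) k.2.2) := rfl
    have f3 : S.G OA OB (k, w') =
        S.sm k.1 (S.ap (OA u') (S.cp (S.dr w') (S.one + k.2.2)) + OB u') -
        S.db (S.cp (S.dr w') k.2.2) := rfl
    rw [f2, f3, f1]
    simp only [map_sub, map_add, sub_apply]
    abel
  rw [hsplit]
  calc _ ≤ _ := norm_sub_le _ _
    _ ≤ 2 * K * ((2 * (η * (1 + K + R) * ‖c‖) * (2 * R * 2) +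
          2 * (η * (1 + K + R)) * (2 * ‖c‖ * 2)) + η * (1 + K + R) * ‖c‖) + 2 * ‖c‖ * η := by
        refine add_le_add (n_bil S.n_sm h1.le ?_) e8
        exact (norm_add_le _ _).trans (add_le_add ((norm_add_le _ _).trans (add_le_add e6 e7)) e3)
    _ ≤ η * C0 K R * ‖c‖ := by
        unfold C0
        have h4 : 0 ≤ η * ‖c‖ * (2 * R) := by positivity
        nlinarith

variable [CompleteSpace A1] [CompleteSpace A2] [CompleteSpace A3] [CompleteSpace X]

/-- **abstract solution operator** -/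
theorem solve (T : Y →L[ℝ] X) (hK : 0 < K) (hR : 0 < R) {ε : ℝ} (hε : 0 < ε) :
    ∃ η : ℝ, 0 < η ∧ ∀ (OA : Q → HA) (OB : Q → Y), ContDiff ℝ ∞ OA → ContDiff ℝ ∞ OB →
      Sm OA OB η → ∃ Φ : Pr A1 A2 A3 × X → X,
        ContDiffOn ℝ ∞ Φ (Uset A1 A2 A3 K η ×ˢ ball (0 : X) R) ∧
        (∀ k ∈ Uset A1 A2 A3 K η, ∀ h ∈ ball (0 : X) R,
          Φ (k, h) = h + T (S.G OA OB (k, Φ (k, h))) ∧ ‖Φ (k, h) - h‖ ≤ ε ∧
          ∀ c, ‖fderiv ℝ Φ (k, h) (0, c) - c‖ ≤ ε * ‖c‖) ∧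
        ∀ k ∈ Uset A1 A2 A3 K η, ∀ h ∈ ball (0 : X) R, ∀ w : X, ‖w‖ < 2 * R + 1 →
          w = h + T (S.G OA OB (k, w)) → w = Φ (k, h) := by
  set R' := 2 * R + 2 with hR'
  have hR'0 : 0 < R' := by positivity
  set C := C0 K R' with hC
  have hCp : 0 < C := C0_pos hK hR'0
  set ε₁ := min (ε / 2) (1 / 2) with hε₁
  have hε₁0 : 0 < ε₁ := lt_min (by positivity) (by norm_num)
  have hTn := norm_nonneg T
  refine ⟨min 1 (ε₁ / ((‖T‖ + 1) * C)), lt_min one_pos (by positivity), ?_⟩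
  set η := min 1 (ε₁ / ((‖T‖ + 1) * C)) with hη
  have hη0 : 0 < η := lt_min one_pos (by positivity)
  have hη1 : η ≤ 1 := min_le_left _ _
  have hη2 : ‖T‖ * (η * C) ≤ ε₁ := by
    have h1 : η ≤ ε₁ / ((‖T‖ + 1) * C) := min_le_right _ _
    have h2 : η * ((‖T‖ + 1) * C) ≤ ε₁ := by
      rwa [le_div_iff₀ (by positivity)] at h1
    have h3 : 0 ≤ η * C := by positivity
    nlinarith
  intro OA OB hA hB H
  have hsm : NWPsiA_930.Small (fun p => T (S.G OA OB p)) (Uset A1 A2 A3 K η) R' ε₁ := by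
    refine Small.of_lip (isOpen_Uset K η) (T.contDiff.comp (S.contDiff_G hA hB)).contDiffOn hε₁0.le
      (min_le_right _ _) ?_ ?_
    · intro k hk w hw
      calc ‖T (S.G OA OB (k, w))‖ ≤ ‖T‖ * ‖S.G OA OB (k, w)‖ := T.le_opNorm _
        _ ≤ ‖T‖ * (η * C) :=
            mul_le_mul_of_nonneg_left (S.G_norm H hη0.le hη1 hK hR'0 hk hw) hTn
        _ ≤ ε₁ := hη2
    · intro k hk w hw w' hw'
      show ‖T (S.G OA OB (k, w)) - T (S.G OA OB (k, w'))‖ ≤ _
      rw [← map_sub]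
      calc ‖T (S.G OA OB (k, w) - S.G OA OB (k, w'))‖
          ≤ ‖T‖ * ‖S.G OA OB (k, w) - S.G OA OB (k, w')‖ := T.le_opNorm _
        _ ≤ ‖T‖ * (η * C * ‖w - w'‖) :=
            mul_le_mul_of_nonneg_left (S.G_lip H hη0.le hη1 hK hR'0 hk hw hw') hTn
        _ = ‖T‖ * (η * C) * ‖w - w'‖ := by ring
        _ ≤ ε₁ * ‖w - w'‖ := mul_le_mul_of_nonneg_right hη2 (norm_nonneg _)
  have hε₁2 : ε₁ ≤ 1 / 2 := min_le_right _ _
  have hε₁3 : 2 * ε₁ ≤ ε := by
    have : ε₁ ≤ ε / 2 := min_le_left _ _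
    linarith
  have hRR : R + ε₁ < R' := by rw [hR']; linarith
  obtain ⟨Φ, h1, h2, h3⟩ := NWPsiA_930.exists_phi hsm hRR
  refine ⟨Φ, h1, ?_, ?_⟩
  · intro k hk h hh
    obtain ⟨-, h5, h6, h7⟩ := h2 k hk h hh
    refine ⟨?_, h6.trans (by linarith), fun c => ?_⟩
    · rw [← sub_eq_iff_eq_add]; exact h5
    · have h8 := ((fderiv ℝ Φ (k, h)).comp (ContinuousLinearMap.inr ℝ (Pr A1 A2 A3) X) -
        ContinuousLinearMap.id ℝ X).le_opNorm c
      have h9 : ((fderiv ℝ Φ (k, h)).comp (ContinuousLinearMap.inr ℝ (Pr A1 A2 A3) X) -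
        ContinuousLinearMap.id ℝ X) c = fderiv ℝ Φ (k, h) (0, c) - c := rfl
      rw [h9] at h8
      exact h8.trans (mul_le_mul_of_nonneg_right (h7.trans hε₁3) (norm_nonneg _))
  · intro k hk h hh w hw h4
    refine h3 k hk h hh w ?_ (sub_eq_iff_eq_add.2 h4)
    simp only [mem_ball, dist_zero_right]
    rw [hR']; linarith

end Lin

end

end Crest.Agent.R235.NWPsiB_930
end

-- ▼ part R235/NWPsiC_930
section

/-!
# Row 235 (S0364), package NW, leaf N (helper930): the Hölder spaces as linear data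

`holLin δ` : the data of `NWPsiB_930.Lin` for `Hol`, `C1a`, real normed spaces `E`, `P`, and a
linear map `δ : (ℂ →L[ℝ] E) →L[ℝ] E` of norm `≤ 1` (later `∂̄`).
-/

set_option autoImplicit false
set_option maxSynthPendingDepth 3

open Set Filter Metric Topology
open scoped ContDiff

namespace Crest.Agent.R235.NWPsiC_930

open Crest.Agent.R235.NWDefs_334 Crest.Agent.R235.NWHol_952 Crest.Agent.R235.NWOm_52

noncomputable section

variable {a : ℝ} {E P L : Type} [NormedAddCommGroup E] [NormedSpace ℝ E] [NormedAddCommGroup P]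
  [NormedSpace ℝ P] [NormedAddCommGroup L] [NormedSpace ℝ L]

theorem bl1 {U V W : Type*} [NormedAddCommGroup U] [NormedSpace ℝ U] [NormedAddCommGroup V]
    [NormedSpace ℝ V] [NormedAddCommGroup W] [NormedSpace ℝ W] (B : U →L[ℝ] V →L[ℝ] W)
    (hB : ‖B‖ ≤ 1) (u : Hol a ℂ U) (v : Hol a ℂ V) : ‖bl B u v‖ ≤ 2 * ‖u‖ * ‖v‖ := by
  refine (norm_bl_le B u v).trans (mul_le_mul_of_nonneg_right ?_ (norm_nonneg v))
  have := mul_le_mul_of_nonneg_right hB (norm_nonneg u)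
  linarith

/-- composition -/
def cP : Hol a ℂ (ℂ →L[ℝ] E) →L[ℝ] Hol a ℂ (ℂ →L[ℝ] ℂ) →L[ℝ] Hol a ℂ (ℂ →L[ℝ] E) :=
  bl (ContinuousLinearMap.compL ℝ ℂ ℂ E)

theorem n_cP (d : Hol a ℂ (ℂ →L[ℝ] E)) (m : Hol a ℂ (ℂ →L[ℝ] ℂ)) :
    ‖cP d m‖ ≤ 2 * ‖d‖ * ‖m‖ := bl1 _ (ContinuousLinearMap.norm_compL_le ℝ ℂ ℂ E) d m


/-- multiplication -/
def lsB : ℝ →L[ℝ] E →L[ℝ] E := ContinuousLinearMap.lsmul ℝ ℝ

theorem n_lsB : ‖(lsB : ℝ →L[ℝ] E →L[ℝ] E)‖ ≤ 1 := ContinuousLinearMap.opNorm_lsmul_le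

/-- multiplication -/
def sP : Hol a ℂ ℝ →L[ℝ] Hol a ℂ E →L[ℝ] Hol a ℂ E := bl lsB

theorem n_sP (k : Hol a ℂ ℝ) (y : Hol a ℂ E) : ‖sP k y‖ ≤ 2 * ‖k‖ * ‖y‖ :=
  bl1 lsB n_lsB k y


/-- application -/
def aP : Hol a ℂ (L →L[ℝ] E) →L[ℝ] Hol a ℂ L →L[ℝ] Hol a ℂ E := app a ℂ L E

theorem n_aP (g : Hol a ℂ (L →L[ℝ] E)) (d : Hol a ℂ L) : ‖aP g d‖ ≤ 2 * ‖g‖ * ‖d‖ :=
  norm_app_le g d


/-- post-composition -/
def dP (δ : L →L[ℝ] E) : Hol a ℂ L →L[ℝ] Hol a ℂ E := cl δ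

theorem n_dP (δ : L →L[ℝ] E) (hδ : ‖δ‖ ≤ 1) (d : Hol a ℂ L) : ‖dP δ d‖ ≤ ‖d‖ :=
  (norm_cl_apply_le δ d).trans (by
    have := mul_le_mul_of_nonneg_right hδ (norm_nonneg d)
    linarith)


/-- the function -/
def vP : C1a a ℂ E →L[ℝ] Hol a ℂ E := (ContinuousLinearMap.fst ℝ _ _).comp (C1a a ℂ E).subtypeL

/-- the derivative -/
def rP : C1a a ℂ E →L[ℝ] Hol a ℂ (ℂ →L[ℝ] E) :=
  (ContinuousLinearMap.snd ℝ _ _).comp (C1a a ℂ E).subtypeL

theorem n_vP (w : C1a a ℂ E) : ‖vP w‖ ≤ ‖w‖ := norm_fst_le w.1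

theorem n_rP (w : C1a a ℂ E) : ‖rP w‖ ≤ ‖w‖ := norm_snd_le w.1

/-- the identity -/
def oP : Hol a ℂ (ℂ →L[ℝ] ℂ) := cst ℂ (ContinuousLinearMap.id ℝ ℂ)

theorem n_oP : ‖(oP : Hol a ℂ (ℂ →L[ℝ] ℂ))‖ ≤ 1 :=
  (norm_cst_le _).trans ContinuousLinearMap.norm_id_le


/-- the Hölder spaces as linear data -/
def holLin (δ : (ℂ →L[ℝ] E) →L[ℝ] E) (hδ : ‖δ‖ ≤ 1) :
    NWPsiB_930.Lin (Hol a ℂ ℝ) (Hol a ℂ P) (Hol a ℂ (ℂ →L[ℝ] ℂ)) (C1a a ℂ E)
      (Hol a ℂ E) (Hol a ℂ (ℂ →L[ℝ] E)) (Hol a ℂ (P × E))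
      (Hol a ℂ ((ℂ →L[ℝ] E) →L[ℝ] E)) (Hol a ℂ E) where
  vl := vP
  dr := rP
  pr := pair
  cp := cP
  ap := aP
  sm := sP
  db := dP δ
  one := oP
  n_vl w := n_vP w
  n_dr w := n_rP w
  n_pr p := norm_pair_le p
  n_cp d m := n_cP d m
  n_ap g d := n_aP g d
  n_sm k y := n_sP k y
  n_db d := n_dP δ hδ d
  n_one := n_oP

end

end Crest.Agent.R235.NWPsiC_930
end

-- ▼ part R235/NWPsi_930
section

/-!
# Row 235 (S0364), package NW, leaf N (helper930): `NStmt`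
-/

set_option autoImplicit false
set_option maxSynthPendingDepth 3

open Set Filter Metric Topology
open scoped ContDiff

namespace Crest.Agent.R235.NWPsi_930

open Crest.Agent.R235.NWDefs_334 Crest.Agent.R235.NWIface_334 Crest.Agent.R235.NWHol_952
  Crest.Agent.R235.NWOm_52 Crest.Agent.R235.NWPsiC_930

noncomputable section

section Real

variable {a : ℝ} {E P : Type} [NormedAddCommGroup E] [NormedSpace ℝ E] [NormedAddCommGroup P]
  [NormedSpace ℝ P]

theorem sm_om {A : P × E → (ℂ →L[ℝ] E) →L[ℝ] E} {b : P × E → E} (hA : BD A) (hb : BD b) {η : ℝ}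
    (h0 : ∀ x, ‖A x‖ ≤ η) (h1 : ∀ x, ‖fderiv ℝ A x‖ ≤ η)
    (h2 : ∀ x, ‖fderiv ℝ (fderiv ℝ A) x‖ ≤ η)
    (g0 : ∀ x, ‖b x‖ ≤ η) (g1 : ∀ x, ‖fderiv ℝ b x‖ ≤ η)
    (g2 : ∀ x, ‖fderiv ℝ (fderiv ℝ b) x‖ ≤ η) :
    NWPsiB_930.Lin.Sm (om hA : Hol a ℂ (P × E) → Hol a ℂ ((ℂ →L[ℝ] E) →L[ℝ] E))
      (om hb : Hol a ℂ (P × E) → Hol a ℂ E) η := by
  have hη : 0 ≤ η := (norm_nonneg _).trans (h0 0)
  have key : ∀ u v : Hol a ℂ (P × E), η * (1 + ‖v‖) * ‖u - v‖ ≤
      η * (1 + max ‖u‖ ‖v‖) * ‖u - v‖ := fun u v =>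
    mul_le_mul_of_nonneg_right (mul_le_mul_of_nonneg_left (by linarith [le_max_right ‖u‖ ‖v‖]) hη)
      (norm_nonneg _)
  exact ⟨norm_om_le_eta hA h0 h1, norm_om_le_eta hb g0 g1,
    fun u v => (om_lip_eta hA h1 h2 u v).trans (key u v),
    fun u v => (om_lip_eta hb g1 g2 u v).trans (key u v)⟩

theorem fn_G (δ : (ℂ →L[ℝ] E) →L[ℝ] E) (hδ : ‖δ‖ ≤ 1) {A : P × E → (ℂ →L[ℝ] E) →L[ℝ] E}
    {b : P × E → E} (hA : BD A) (hb : BD b) (k : Hol a ℂ ℝ × Hol a ℂ P × Hol a ℂ (ℂ →L[ℝ] ℂ))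
    (w : C1a a ℂ E) (z : ℂ) :
    Hol.fn ((holLin (a := a) (P := P) δ hδ).G (om hA) (om hb) (k, w)) z =
      Hol.fn k.1 z • (A (Hol.fn k.2.1 z, Hol.fn w.1.1 z)
        ((Hol.fn w.1.2 z).comp (ContinuousLinearMap.id ℝ ℂ + Hol.fn k.2.2 z)) +
          b (Hol.fn k.2.1 z, Hol.fn w.1.1 z)) - δ ((Hol.fn w.1.2 z).comp (Hol.fn k.2.2 z)) := by
  rfl

end Real

variable {a : ℝ} {E P : Type} [NormedAddCommGroup E] [NormedSpace ℂ E] [NormedAddCommGroup P]
  [NormedSpace ℝ P]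

/-- `L ↦ ∂̄L` as a continuous linear map -/
def dblL : (ℂ →L[ℝ] E) →L[ℝ] E :=
  LinearMap.mkContinuous
    { toFun := fun L => dbl L
      map_add' := fun L L' => by
        simp only [dbl, add_apply, smul_add]; abel
      map_smul' := fun c L => by
        simp only [dbl, smul_apply, RingHom.id_apply]
        rw [smul_comm Complex.I c, ← smul_add, smul_comm] }
    1 (fun L => by
      show ‖(2 : ℂ)⁻¹ • (L 1 + Complex.I • L Complex.I)‖ ≤ 1 * ‖L‖
      have h1 : ‖L 1‖ ≤ ‖L‖ := by simpa using L.le_opNorm 1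
      have h2 : ‖L Complex.I‖ ≤ ‖L‖ := by simpa using L.le_opNorm Complex.I
      rw [norm_smul]
      have h3 : ‖L 1 + Complex.I • L Complex.I‖ ≤ ‖L‖ + ‖L‖ := by
        refine (norm_add_le _ _).trans (add_le_add h1 ?_)
        rw [norm_smul]; simpa using h2
      have h4 : ‖(2 : ℂ)⁻¹‖ = 1 / 2 := by simp
      rw [h4]; linarith)


theorem norm_dblL_le : ‖(dblL : (ℂ →L[ℝ] E) →L[ℝ] E)‖ ≤ 1 :=
  LinearMap.mkContinuous_norm_le _ zero_le_one _

/-- the linear data over a complex space -/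
def cLin (a : ℝ) (E P : Type) [NormedAddCommGroup E] [NormedSpace ℂ E] [NormedAddCommGroup P]
    [NormedSpace ℝ P] : NWPsiB_930.Lin (Hol a ℂ ℝ) (Hol a ℂ P) (Hol a ℂ (ℂ →L[ℝ] ℂ)) (C1a a ℂ E)
      (Hol a ℂ E) (Hol a ℂ (ℂ →L[ℝ] E)) (Hol a ℂ (P × E))
      (Hol a ℂ ((ℂ →L[ℝ] E) →L[ℝ] E)) (Hol a ℂ E) := holLin dblL norm_dblL_le

theorem sol_iff {T : Hol a ℂ E →L[ℝ] C1a a ℂ E} {A : P × E → (ℂ →L[ℝ] E) →L[ℝ] E}
    {b : P × E → E} (hA : BD A) (hb : BD b) (k : Par a P) (h w : C1a a ℂ E) :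
    Sol T A b k h w ↔ w = h + T ((cLin a E P).G (om hA) (om hb) (k, w)) := by
  constructor
  · rintro ⟨g, h1, h2⟩
    have h3 : g = (cLin a E P).G (om hA) (om hb) (k, w) := by
      refine NWHol_952.ext fun z => ?_
      rw [h1 z]
      exact (fn_G dblL norm_dblL_le hA hb k w z).symm
    rw [← h3]; exact h2
  · intro h1
    exact ⟨_, fun z => fn_G dblL norm_dblL_le hA hb k w z, h1⟩

/-- `C1a` is complete -/
theorem complete_C1a (E : Type) [NormedAddCommGroup E] [NormedSpace ℝ E] [CompleteSpace E]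
    (a : ℝ) : CompleteSpace (C1a a ℂ E) := by
  have hcl : IsClosed (C1a a ℂ E : Set (Hol a ℂ E × Hol a ℂ (ℂ →L[ℝ] E))) := by
    refine isSeqClosed_iff_isClosed.1 ?_
    intro q q0 hq hlim
    have l1 : Tendsto (fun n => (q n).1) atTop (𝓝 q0.1) :=
      (continuous_fst.tendsto q0).comp hlim
    have l2 : Tendsto (fun n => (q n).2) atTop (𝓝 q0.2) :=
      (continuous_snd.tendsto q0).comp hlim
    have k2 : TendstoUniformly (fun n => Hol.fn (q n).2) (Hol.fn q0.2) atTop := by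
      have h1 : Tendsto (fun n => NWHol_952.toB (q n).2) atTop (𝓝 (NWHol_952.toB q0.2)) :=
        (NWHol_952.toB.continuous.tendsto q0.2).comp l2
      exact BoundedContinuousFunction.tendsto_iff_tendstoUniformly.1 h1
    exact hasFDerivAt_of_tendstoUniformly k2 (fun n x => hq n x)
      fun x => ((NWHol_952.ev x).continuous.tendsto q0.1).comp l1
  exact hcl.completeSpace_coe

set_option maxHeartbeats 1000000 in
/-- **leaf N**, with the completeness of `C1a` as an instance argument -/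
theorem nstmt_of (hcomp : ∀ (E : Type) [NormedAddCommGroup E] [NormedSpace ℝ E] [CompleteSpace E]
    (a : ℝ), 0 < a → CompleteSpace (C1a a ℂ E)) : NStmt := by
  intro E P _ _ _ _ _ _ a ha _ T K R ε hK hR hε
  have : CompleteSpace E := FiniteDimensional.complete ℂ E
  have : CompleteSpace P := FiniteDimensional.complete ℝ P
  have : CompleteSpace (C1a a ℂ E) := hcomp E a ha
  obtain ⟨η, hη, hS⟩ := (cLin a E P).solve T hK hR hε
  refine ⟨η, hη, fun A b hA hb hsA hsb => ?_⟩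
  have hSm := sm_om (a := a) hA hb (fun x => (hsA x).1) (fun x => (hsA x).2.1)
    (fun x => (hsA x).2.2) (fun x => (hsb x).1) (fun x => (hsb x).2.1) (fun x => (hsb x).2.2)
  obtain ⟨Φ, h1, h2, h3⟩ := hS (om hA) (om hb) (contDiff_om hA le_rfl) (contDiff_om hb le_rfl) hSm
  have hdom : ∀ (k : Par a P) (h : C1a a ℂ E), (k, h) ∈ Dom a E P K R η →
      k ∈ NWPsiB_930.Lin.Uset (Hol a ℂ ℝ) (Hol a ℂ P) (Hol a ℂ (ℂ →L[ℝ] ℂ)) K η ∧
        h ∈ ball (0 : C1a a ℂ E) R := by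
    rintro k h ⟨e1, e2, e3, e4⟩
    exact ⟨⟨e1, e2, e3⟩, by simpa using e4⟩
  refine ⟨Φ, h1.mono fun p hp => hdom p.1 p.2 hp, fun k h hkh => ?_⟩
  obtain ⟨hk, hh⟩ := hdom k h hkh
  obtain ⟨h4, h5, h6⟩ := h2 k hk h hh
  exact ⟨(sol_iff hA hb k h _).2 h4, h5, h6, fun w hw hsol =>
    h3 k hk h hh w hw ((sol_iff hA hb k h w).1 hsol)⟩

/-- **leaf N** -/
theorem nstmt : NStmt := nstmt_of fun E _ _ _ a _ => complete_C1a E a

end

end Crest.Agent.R235.NWPsi_930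
end

-- ▼ part R235/NWFin_334

/-!
# Row 235, PACKAGE NW (helper334): unconditional theorems
-/

set_option autoImplicit false

open Set Filter Metric Topology MeasureTheory
open scoped ContDiff Real

namespace Crest.Agent.R235.NWFin_334

open Crest.Agent.R235.NWDefs_334 Crest.Agent.R235.NWIface_334

theorem cauchy : CauchyStmt := NWKPT_133.cauchy_stmt
theorem kp : KPStmt := NWKP_133.kp_stmt
theorem fam : FamStmt := NWOm2_52.fam
theorem nst : NStmt := NWPsi_930.nstmt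

/-- local `J`-disc foliations -/
theorem fol_stmt : FolStmt := NWFol_334.fol cauchy nst fam


end Crest.Agent.R235.NWFin_334
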