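import Crest.Agent.R235.RCInf_843_Mg
import Crest.Agent.R235.Clif4_723
import Crest.Agent.R235.Fs4_546
import Crest.Agent.R249.Tof_352
import Crest.Agent.R249.Vf2_281
import Crest.Agent.R249.DicB_129
import Crest.Agent.R249.Ker57a_57

-- ▼ part R235/RC_746
section

/-!
Row 235, block FAM/RC (helper746): **THE RESOLVENT-CHERN FORMULA** `RC : RCDefs_746.RC`
(`STK` helper746, `INF` helper843), and the passage to the trace `trB e` of `FamDefs_307`
and to real orthonormal bases.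
-/

set_option autoImplicit false

open scoped InnerProductSpace Topology ContDiff
open Filter Set MeasureTheory Crest.Agent.R235.RCTr_746 Crest.Agent.R235.RCDefs_746
open Crest.Agent.R235.FamDefs_307 (pdθ sg ch4 trB)

namespace Crest.Agent.R235.RC_746

noncomputable section

/-- **RC**. -/
theorem rc : RC := rc_of RCStk_746.stk RCInf_843.inf

variable {H : Type*} [NormedAddCommGroup H] [InnerProductSpace ℂ H] [CompleteSpace H]

local notation "⟪" x ", " y "⟫" => inner ℂ x y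



end

end Crest.Agent.R235.RC_746
end

-- ▼ part R235/La4_291
section

/-!
Row 235 (S0364), block FAM / RC, leaf LA4 (helper291; text by helper820): the alternating sum of four
Clifford multiplications of an abstract rank-four Clifford module is a multiple of the projection.
-/

set_option autoImplicit false
set_option linter.unusedSectionVars false

open Matrix

namespace Crest.Agent.R235.La4_291

section core

variable {κ : Type*} [Fintype κ] [DecidableEq κ]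

theorem dot_mv (M : Matrix κ κ ℝ) (a b : κ → ℝ) : (M *ᵥ a) ⬝ᵥ b = a ⬝ᵥ (Mᵀ *ᵥ b) := by
  rw [Matrix.dotProduct_mulVec, Matrix.vecMul_transpose]

theorem dot_skew {M : Matrix κ κ ℝ} (h : Mᵀ = -M) (u : κ → ℝ) : u ⬝ᵥ (M *ᵥ u) = 0 := by
  have h1 : (M *ᵥ u) ⬝ᵥ u = u ⬝ᵥ (Mᵀ *ᵥ u) := dot_mv M u u
  rw [h, Matrix.neg_mulVec, dotProduct_neg, dotProduct_comm] at h1
  linarith

theorem exists_unit {P : Matrix κ κ ℝ} (hPP : P * P = P) (h0 : P ≠ 0) :
    ∃ u : κ → ℝ, P *ᵥ u = u ∧ u ⬝ᵥ u = 1 := by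
  have h1 : ∃ v, P *ᵥ v ≠ 0 := by
    by_contra hc
    push Not at hc
    apply h0
    apply Matrix.ext_of_mulVec_single
    intro i
    rw [hc, Matrix.zero_mulVec]
  obtain ⟨v, hv⟩ := h1
  set w := P *ᵥ v with hw
  have h2 : 0 < w ⬝ᵥ w := by
    rcases (show 0 ≤ w ⬝ᵥ w from Finset.sum_nonneg fun i _ => mul_self_nonneg (w i)).lt_or_eq with
      h | h
    · exact h
    · exact absurd (dotProduct_self_eq_zero.1 h.symm) hv
  refine ⟨(Real.sqrt (w ⬝ᵥ w))⁻¹ • w, ?_, ?_⟩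
  · rw [Matrix.mulVec_smul, hw, Matrix.mulVec_mulVec, hPP]
  · rw [smul_dotProduct, dotProduct_smul, smul_eq_mul, smul_eq_mul, ← mul_assoc,
      ← mul_inv, Real.mul_self_sqrt h2.le, inv_mul_cancel₀ h2.ne']

theorem proj_zero {R : Matrix κ κ ℝ} (hT : Rᵀ = R) (hR : R * R = R) (ht : R.trace = 0) : R = 0 := by
  have h : (Rᴴ * R).trace = 0 := by
    rw [Matrix.conjTranspose_eq_transpose_of_trivial, hT, hR, ht]
  exact Matrix.trace_conjTranspose_mul_self_eq_zero_iff.1 h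

/-- the projection to the span of an orthonormal family. -/
def qq (v : Fin 4 → κ → ℝ) : Matrix κ κ ℝ := ∑ k, Matrix.vecMulVec (v k) (v k)

theorem qq_T (v : Fin 4 → κ → ℝ) : (qq v)ᵀ = qq v := by
  unfold qq
  rw [Matrix.transpose_sum]
  exact Finset.sum_congr rfl fun k _ => by rw [Matrix.transpose_vecMulVec]

theorem qq_mul (v : Fin 4 → κ → ℝ) (hv : ∀ k l, v k ⬝ᵥ v l = if k = l then 1 else 0) :
    qq v * qq v = qq v := by
  unfold qq
  rw [Finset.sum_mul]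
  refine Finset.sum_congr rfl fun k _ => ?_
  rw [Finset.mul_sum, Finset.sum_eq_single k]
  · rw [Matrix.vecMulVec_mul_vecMulVec, hv, if_pos rfl, one_smul]
  · intro l _ hl
    rw [Matrix.vecMulVec_mul_vecMulVec, hv, if_neg (Ne.symm hl), zero_smul]
    simp
  · intro h
    exact absurd (Finset.mem_univ _) h

theorem qq_trace (v : Fin 4 → κ → ℝ) (hv : ∀ k l, v k ⬝ᵥ v l = if k = l then 1 else 0) :
    (qq v).trace = 4 := by
  unfold qq
  rw [Matrix.trace_sum]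
  rw [Finset.sum_congr rfl fun k _ => by rw [Matrix.trace_vecMulVec, hv, if_pos rfl]]
  simp

theorem qq_left (M : Matrix κ κ ℝ) (v : Fin 4 → κ → ℝ) (c : ℝ) (h : ∀ k, M *ᵥ v k = c • v k) :
    M * qq v = c • qq v := by
  unfold qq
  rw [Finset.mul_sum, Finset.smul_sum]
  refine Finset.sum_congr rfl fun k _ => ?_
  rw [Matrix.mul_vecMulVec, h, Matrix.smul_vecMulVec]

theorem qq_mv (v : Fin 4 → κ → ℝ) (x : κ → ℝ) : qq v *ᵥ x = ∑ k, (v k ⬝ᵥ x) • v k := by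
  unfold qq
  rw [Matrix.sum_mulVec]
  refine Finset.sum_congr rfl fun k _ => ?_
  rw [Matrix.vecMulVec_mulVec]
  simp

/-- the quaternionic core: a rank four projection, three anticommuting complex structures. -/
theorem quat {P I J K : Matrix κ κ ℝ} (hPT : Pᵀ = P) (hPP : P * P = P) (ht : P.trace = 4)
    (IT : Iᵀ = -I) (JT : Jᵀ = -J) (KT : Kᵀ = -K) (II : I * I = -P) (JJ : J * J = -P)
    (KK : K * K = -P) (IP : I * P = I) (PI : P * I = I) (JP : J * P = J) (PJ : P * J = J)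
    (KP : K * P = K) (PK : P * K = K) (IJ : I * J = -(J * I)) (JK : J * K = -(K * J))
    (IK : I * K = -(K * I)) : ∃ r : ℝ, I * J * K = r • P := by
  have P0 : P ≠ 0 := by
    intro h
    rw [h, Matrix.trace_zero] at ht
    norm_num at ht
  obtain ⟨u, hu, huu⟩ := exists_unit hPP P0
  have JI : J * I = -(I * J) := by rw [IJ, neg_neg]
  have KJ : K * J = -(J * K) := by rw [JK, neg_neg]
  have KI : K * I = -(I * K) := by rw [IK, neg_neg]
  -- the volume element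
  set ω : Matrix κ κ ℝ := I * J * K with hω
  have ωT : ωᵀ = ω := by
    rw [hω, Matrix.transpose_mul, Matrix.transpose_mul, IT, JT, KT]
    calc -K * (-J * -I) = -(K * J * I) := by
          simp only [Matrix.neg_mul, Matrix.mul_neg, neg_neg, Matrix.mul_assoc]
      _ = I * J * K := by
          rw [KJ, Matrix.neg_mul, neg_neg, Matrix.mul_assoc, KI, Matrix.mul_neg, ← Matrix.mul_assoc,
            JI, Matrix.neg_mul, neg_neg]
  have ωI : ω * I = I * ω := by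
    calc ω * I = I * J * (K * I) := by rw [hω, Matrix.mul_assoc]
      _ = -(I * (J * I) * K) := by
          rw [KI, Matrix.mul_neg]
          simp only [Matrix.mul_assoc]
      _ = I * ω := by
          rw [JI, Matrix.mul_neg, Matrix.neg_mul, neg_neg, hω]
          simp only [Matrix.mul_assoc]
  have ωJ : ω * J = J * ω := by
    calc ω * J = I * J * (K * J) := by rw [hω, Matrix.mul_assoc]
      _ = -(I * J * J * K) := by
          rw [KJ, Matrix.mul_neg]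
          simp only [Matrix.mul_assoc]
      _ = J * ω := by
          rw [IJ, Matrix.neg_mul, Matrix.neg_mul, neg_neg, hω]
          simp only [Matrix.mul_assoc]
  have ωK : ω * K = K * ω := by
    calc ω * K = I * J * K * K := by rw [hω]
      _ = K * ω := by
          rw [hω, ← Matrix.mul_assoc, ← Matrix.mul_assoc, KI, Matrix.neg_mul, Matrix.neg_mul,
            Matrix.mul_assoc I K J, KJ, Matrix.mul_neg, Matrix.neg_mul, neg_neg]
          simp only [Matrix.mul_assoc]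
  have ωP : ω * P = ω := by rw [hω, Matrix.mul_assoc, KP]
  have Pω : P * ω = ω := by
    rw [hω, ← Matrix.mul_assoc, ← Matrix.mul_assoc, PI]
  -- skew products
  have sIJ : (I * J)ᵀ = -(I * J) := by
    rw [Matrix.transpose_mul, IT, JT, Matrix.neg_mul, Matrix.mul_neg, neg_neg, JI]
  have sIK : (I * K)ᵀ = -(I * K) := by
    rw [Matrix.transpose_mul, IT, KT, Matrix.neg_mul, Matrix.mul_neg, neg_neg, KI]
  have sJK : (J * K)ᵀ = -(J * K) := by
    rw [Matrix.transpose_mul, JT, KT, Matrix.neg_mul, Matrix.mul_neg, neg_neg, KJ]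
  have sIω : (I * ω)ᵀ = -(I * ω) := by
    rw [Matrix.transpose_mul, IT, ωT, Matrix.mul_neg, ωI]
  have sJω : (J * ω)ᵀ = -(J * ω) := by
    rw [Matrix.transpose_mul, JT, ωT, Matrix.mul_neg, ωJ]
  have sKω : (K * ω)ᵀ = -(K * ω) := by
    rw [Matrix.transpose_mul, KT, ωT, Matrix.mul_neg, ωK]
  -- dot products
  have key : ∀ {A B : Matrix κ κ ℝ}, Aᵀ = -A → (A *ᵥ u) ⬝ᵥ (B *ᵥ u) = -(u ⬝ᵥ ((A * B) *ᵥ u)) := by
    intro A B hA
    rw [dot_mv, hA, Matrix.neg_mulVec, dotProduct_neg, Matrix.mulVec_mulVec]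
  have uI : u ⬝ᵥ (I *ᵥ u) = 0 := dot_skew IT u
  have uJ : u ⬝ᵥ (J *ᵥ u) = 0 := dot_skew JT u
  have uK : u ⬝ᵥ (K *ᵥ u) = 0 := dot_skew KT u
  have dII : (I *ᵥ u) ⬝ᵥ (I *ᵥ u) = 1 := by
    rw [key IT, II, Matrix.neg_mulVec, dotProduct_neg, neg_neg, hu, huu]
  have dJJ : (J *ᵥ u) ⬝ᵥ (J *ᵥ u) = 1 := by
    rw [key JT, JJ, Matrix.neg_mulVec, dotProduct_neg, neg_neg, hu, huu]
  have dKK : (K *ᵥ u) ⬝ᵥ (K *ᵥ u) = 1 := by
    rw [key KT, KK, Matrix.neg_mulVec, dotProduct_neg, neg_neg, hu, huu]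
  have dIJ : (I *ᵥ u) ⬝ᵥ (J *ᵥ u) = 0 := by rw [key IT, dot_skew sIJ, neg_zero]
  have dIK : (I *ᵥ u) ⬝ᵥ (K *ᵥ u) = 0 := by rw [key IT, dot_skew sIK, neg_zero]
  have dJK : (J *ᵥ u) ⬝ᵥ (K *ᵥ u) = 0 := by rw [key JT, dot_skew sJK, neg_zero]
  set v : Fin 4 → κ → ℝ := ![u, I *ᵥ u, J *ᵥ u, K *ᵥ u] with hv
  have hon : ∀ k l, v k ⬝ᵥ v l = if k = l then 1 else 0 := by
    intro k l
    fin_cases k <;> fin_cases l
    · simpa [hv] using huu
    · simpa [hv] using uI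
    · simpa [hv] using uJ
    · simpa [hv] using uK
    · simpa [hv, dotProduct_comm] using uI
    · simpa [hv] using dII
    · simpa [hv] using dIJ
    · simpa [hv] using dIK
    · simpa [hv, dotProduct_comm] using uJ
    · simpa [hv, dotProduct_comm] using dIJ
    · simpa [hv] using dJJ
    · simpa [hv] using dJK
    · simpa [hv, dotProduct_comm] using uK
    · simpa [hv, dotProduct_comm] using dIK
    · simpa [hv, dotProduct_comm] using dJK
    · simpa [hv] using dKK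
  have hPv : ∀ k, P *ᵥ v k = (1 : ℝ) • v k := by
    intro k
    rw [one_smul]
    fin_cases k
    · simpa [hv] using hu
    · simp [hv, Matrix.mulVec_mulVec, PI]
    · simp [hv, Matrix.mulVec_mulVec, PJ]
    · simp [hv, Matrix.mulVec_mulVec, PK]
  have Pq : P * qq v = qq v := by rw [qq_left P v 1 hPv, one_smul]
  have qP : qq v * P = qq v := by
    have := congrArg Matrix.transpose Pq
    rwa [Matrix.transpose_mul, qq_T, hPT] at this
  have hq : P = qq v := by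
    have hz : P - qq v = 0 := by
      apply proj_zero
      · rw [Matrix.transpose_sub, hPT, qq_T]
      · rw [Matrix.sub_mul, Matrix.mul_sub, Matrix.mul_sub, hPP, Pq, qP, qq_mul v hon, sub_self,
          sub_zero]
      · rw [Matrix.trace_sub, ht, qq_trace v hon, sub_self]
    exact sub_eq_zero.1 hz
  -- ω u = λ u
  set r : ℝ := u ⬝ᵥ (ω *ᵥ u) with hr
  have hωu : ω *ᵥ u = r • u := by
    have h1 : ω *ᵥ u = qq v *ᵥ (ω *ᵥ u) := by
      rw [← hq, Matrix.mulVec_mulVec, Pω]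
    rw [h1, qq_mv, Fin.sum_univ_four]
    have e1 : v 1 ⬝ᵥ (ω *ᵥ u) = 0 := by
      have : v 1 = I *ᵥ u := by simp [hv]
      rw [this, key IT, dot_skew sIω, neg_zero]
    have e2 : v 2 ⬝ᵥ (ω *ᵥ u) = 0 := by
      have : v 2 = J *ᵥ u := by simp [hv]
      rw [this, key JT, dot_skew sJω, neg_zero]
    have e3 : v 3 ⬝ᵥ (ω *ᵥ u) = 0 := by
      have : v 3 = K *ᵥ u := by simp [hv]
      rw [this, key KT, dot_skew sKω, neg_zero]
    have e0 : v 0 = u := by simp [hv]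
    rw [e1, e2, e3, e0]
    simp [hr]
  have hωv : ∀ k, ω *ᵥ v k = r • v k := by
    intro k
    fin_cases k
    · simpa [hv] using hωu
    · have : ω *ᵥ (I *ᵥ u) = r • (I *ᵥ u) := by
        rw [Matrix.mulVec_mulVec, ωI, ← Matrix.mulVec_mulVec, hωu, Matrix.mulVec_smul]
      simpa [hv] using this
    · have : ω *ᵥ (J *ᵥ u) = r • (J *ᵥ u) := by
        rw [Matrix.mulVec_mulVec, ωJ, ← Matrix.mulVec_mulVec, hωu, Matrix.mulVec_smul]
      simpa [hv] using this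
    · have : ω *ᵥ (K *ᵥ u) = r • (K *ᵥ u) := by
        rw [Matrix.mulVec_mulVec, ωK, ← Matrix.mulVec_mulVec, hωu, Matrix.mulVec_smul]
      simpa [hv] using this
  refine ⟨r, ?_⟩
  calc ω = ω * P := ωP.symm
    _ = ω * qq v := by rw [← hq]
    _ = r • qq v := qq_left ω v r hωv
    _ = r • P := by rw [← hq]

end core

section cliff

variable {κ0 κ1 : Type*} [Fintype κ0] [DecidableEq κ0] [Fintype κ1] [DecidableEq κ1]

theorem vol {C : Fin 4 → Matrix κ1 κ0 ℝ} {p0 : Matrix κ0 κ0 ℝ} {p1 : Matrix κ1 κ1 ℝ}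
    (s0 : p0ᵀ = p0) (s1 : p1ᵀ = p1) (i0 : p0 * p0 = p0) (cp : ∀ i, C i * p0 = C i)
    (pc : ∀ i, p1 * C i = C i) (h0 : ∀ i, (C i)ᵀ * C i = p0) (h1 : ∀ i, C i * (C i)ᵀ = p1)
    (a0 : ∀ i j, i ≠ j → (C i)ᵀ * C j = -((C j)ᵀ * C i))
    (a1 : ∀ i j, i ≠ j → C i * (C j)ᵀ = -(C j * (C i)ᵀ)) (t0 : p0.trace = 4) :
    ∃ r : ℝ, (C 0)ᵀ * C 1 * (C 2)ᵀ * C 3 = r • p0 ∧ C 0 * (C 1)ᵀ * C 2 * (C 3)ᵀ = (-r) • p1 := by
  have pD : ∀ i, p0 * (C i)ᵀ = (C i)ᵀ := by
    intro i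
    have := congrArg Matrix.transpose (cp i)
    rwa [Matrix.transpose_mul, s0] at this
  have Dp : ∀ i, (C i)ᵀ * p1 = (C i)ᵀ := by
    intro i
    have := congrArg Matrix.transpose (pc i)
    rwa [Matrix.transpose_mul, s1] at this
  have AT : ∀ i, i ≠ 0 → ((C 0)ᵀ * C i)ᵀ = -((C 0)ᵀ * C i) := by
    intro i hi
    rw [Matrix.transpose_mul, Matrix.transpose_transpose, a0 i 0 hi]
  have AB : ∀ i j, i ≠ 0 → ((C 0)ᵀ * C i) * ((C 0)ᵀ * C j) = -((C i)ᵀ * C j) := by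
    intro i j hi
    calc ((C 0)ᵀ * C i) * ((C 0)ᵀ * C j) = (C 0)ᵀ * (C i * (C 0)ᵀ) * C j := by
          simp only [Matrix.mul_assoc]
      _ = -((C 0)ᵀ * C 0 * (C i)ᵀ * C j) := by
          rw [a1 i 0 hi]
          simp only [Matrix.mul_assoc, Matrix.mul_neg, Matrix.neg_mul]
      _ = -((C i)ᵀ * C j) := by rw [h0, pD]
  have AA : ∀ i, i ≠ 0 → ((C 0)ᵀ * C i) * ((C 0)ᵀ * C i) = -p0 := by
    intro i hi
    rw [AB i i hi, h0]
  have AN : ∀ i j, i ≠ 0 → j ≠ 0 → i ≠ j → ((C 0)ᵀ * C i) * ((C 0)ᵀ * C j) =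
      -(((C 0)ᵀ * C j) * ((C 0)ᵀ * C i)) := by
    intro i j hi hj hij
    rw [AB i j hi, AB j i hj, a0 i j hij]
  obtain ⟨r, hr⟩ := quat (P := p0) (I := (C 0)ᵀ * C 1) (J := (C 0)ᵀ * C 2) (K := (C 0)ᵀ * C 3)
    s0 i0 t0 (AT 1 (by decide)) (AT 2 (by decide)) (AT 3 (by decide)) (AA 1 (by decide))
    (AA 2 (by decide)) (AA 3 (by decide)) (by rw [Matrix.mul_assoc, cp])
    (by rw [← Matrix.mul_assoc, pD]) (by rw [Matrix.mul_assoc, cp])
    (by rw [← Matrix.mul_assoc, pD]) (by rw [Matrix.mul_assoc, cp])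
    (by rw [← Matrix.mul_assoc, pD]) (AN 1 2 (by decide) (by decide) (by decide))
    (AN 2 3 (by decide) (by decide) (by decide)) (AN 1 3 (by decide) (by decide) (by decide))
  have hω : (C 0)ᵀ * C 1 * (C 2)ᵀ * C 3 = (-r) • p0 := by
    rw [neg_smul, ← hr, Matrix.mul_assoc ((C 0)ᵀ * C 1) ((C 0)ᵀ * C 2), AB 2 3 (by decide),
      Matrix.mul_neg, neg_neg]
    simp only [Matrix.mul_assoc]
  refine ⟨-r, hω, ?_⟩
  -- `C 3 * ω = - ω₁ * C 3`
  have e : C 3 * ((C 0)ᵀ * C 1 * (C 2)ᵀ * C 3) = -(C 0 * (C 1)ᵀ * C 2 * (C 3)ᵀ * C 3) := by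
    calc C 3 * ((C 0)ᵀ * C 1 * (C 2)ᵀ * C 3) = C 3 * (C 0)ᵀ * C 1 * (C 2)ᵀ * C 3 := by
          simp only [Matrix.mul_assoc]
      _ = -(C 0 * ((C 3)ᵀ * C 1) * (C 2)ᵀ * C 3) := by
          rw [a1 3 0 (by decide)]
          simp only [Matrix.mul_assoc, Matrix.neg_mul]
      _ = C 0 * (C 1)ᵀ * (C 3 * (C 2)ᵀ) * C 3 := by
          rw [a0 3 1 (by decide)]
          simp only [Matrix.mul_assoc, Matrix.neg_mul, Matrix.mul_neg, neg_neg]
      _ = -(C 0 * (C 1)ᵀ * C 2 * (C 3)ᵀ * C 3) := by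
          rw [a1 3 2 (by decide)]
          simp only [Matrix.mul_assoc, Matrix.neg_mul, Matrix.mul_neg]
  rw [hω, Matrix.mul_smul, cp] at e
  have e2 := congrArg (fun X => X * (C 3)ᵀ) e
  simp only [Matrix.smul_mul, Matrix.neg_mul] at e2
  rw [h1, Matrix.mul_assoc (C 0 * (C 1)ᵀ * C 2 * (C 3)ᵀ), h1,
    Matrix.mul_assoc (C 0 * (C 1)ᵀ * C 2) (C 3)ᵀ p1, Dp] at e2
  rw [neg_smul, e2, neg_neg]

end cliff

section main

open Crest.Agent.R235.RC7_723

variable {κ0 κ1 : Type*} [Fintype κ0] [DecidableEq κ0] [Fintype κ1] [DecidableEq κ1]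

/-- **LA4** (text by helper820). -/
theorem la4 (c : EuclideanSpace ℝ (Fin 4) →ₗ[ℝ] Matrix κ1 κ0 ℝ)
    (p0 : Matrix κ0 κ0 ℝ) (p1 : Matrix κ1 κ1 ℝ) (s0 : p0ᵀ = p0) (s1 : p1ᵀ = p1)
    (i0 : p0 * p0 = p0) (i1 : p1 * p1 = p1) (cp : ∀ X, c X * p0 = c X)
    (pc : ∀ X, p1 * c X = c X)
    (cl0 : ∀ X Y, (c X)ᵀ * c Y + (c Y)ᵀ * c X = (2 * inner ℝ X Y) • p0)
    (cl1 : ∀ X Y, c X * (c Y)ᵀ + c Y * (c X)ᵀ = (2 * inner ℝ X Y) • p1)
    (t0 : p0.trace = 4) (X : Fin 4 → EuclideanSpace ℝ (Fin 4)) :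
    ∃ r : ℝ, (∑ σ : Equiv.Perm (Fin 4), ((Equiv.Perm.sign σ : ℤ) : ℝ) •
        ((c (X (σ 0)))ᵀ * c (X (σ 1)) * (c (X (σ 2)))ᵀ * c (X (σ 3)))) = r • p0 ∧
      (∑ σ : Equiv.Perm (Fin 4), ((Equiv.Perm.sign σ : ℤ) : ℝ) •
        (c (X (σ 0)) * (c (X (σ 1)))ᵀ * c (X (σ 2)) * (c (X (σ 3)))ᵀ)) = (-r) • p1 := by
  set C : Fin 4 → Matrix κ1 κ0 ℝ := fun i => c (EuclideanSpace.single i (1 : ℝ)) with hC
  have hin : ∀ i j : Fin 4, inner ℝ (EuclideanSpace.single i (1 : ℝ) : EuclideanSpace ℝ (Fin 4))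
      (EuclideanSpace.single j (1 : ℝ)) = if i = j then 1 else 0 := by
    intro i j
    simp [EuclideanSpace.inner_single_left, Pi.single_apply]
  have hX : ∀ i, c (X i) = dd C (fun k => X i k) := by
    intro i
    have : X i = ∑ k, X i k • (EuclideanSpace.single k (1 : ℝ) : EuclideanSpace ℝ (Fin 4)) := by
      ext l
      simp [Pi.single_apply]
    conv_lhs => rw [this]
    rw [map_sum]
    unfold dd
    exact Finset.sum_congr rfl fun k _ => by rw [map_smul]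
  have hXT : ∀ i, (c (X i))ᵀ = dd (fun i => (C i)ᵀ) (fun k => X i k) := by
    intro i
    rw [hX]
    unfold dd
    rw [Matrix.transpose_sum]
    exact Finset.sum_congr rfl fun k _ => by rw [Matrix.transpose_smul]
  have h0 : ∀ i, (C i)ᵀ * C i = p0 := by
    intro i
    have := cl0 (EuclideanSpace.single i (1 : ℝ)) (EuclideanSpace.single i (1 : ℝ))
    rw [hin, if_pos rfl, ← two_smul ℝ, mul_one] at this
    exact smul_right_injective _ (two_ne_zero' ℝ) this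
  have h1 : ∀ i, C i * (C i)ᵀ = p1 := by
    intro i
    have := cl1 (EuclideanSpace.single i (1 : ℝ)) (EuclideanSpace.single i (1 : ℝ))
    rw [hin, if_pos rfl, ← two_smul ℝ, mul_one] at this
    exact smul_right_injective _ (two_ne_zero' ℝ) this
  have a0 : ∀ i j, i ≠ j → (C i)ᵀ * C j = -((C j)ᵀ * C i) := by
    intro i j hij
    have := cl0 (EuclideanSpace.single i (1 : ℝ)) (EuclideanSpace.single j (1 : ℝ))
    rw [hin, if_neg hij, mul_zero, zero_smul] at this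
    exact eq_neg_of_add_eq_zero_left this
  have a1 : ∀ i j, i ≠ j → C i * (C j)ᵀ = -(C j * (C i)ᵀ) := by
    intro i j hij
    have := cl1 (EuclideanSpace.single i (1 : ℝ)) (EuclideanSpace.single j (1 : ℝ))
    rw [hin, if_neg hij, mul_zero, zero_smul] at this
    exact eq_neg_of_add_eq_zero_left this
  have hv : ∀ σ : Equiv.Perm (Fin 4), ∃ r : ℝ,
      (C (σ 0))ᵀ * C (σ 1) * (C (σ 2))ᵀ * C (σ 3) = r • p0 ∧
      C (σ 0) * (C (σ 1))ᵀ * C (σ 2) * (C (σ 3))ᵀ = (-r) • p1 := fun σ =>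
    vol (C := fun i => C (σ i)) s0 s1 i0 (fun i => cp _) (fun i => pc _) (fun i => h0 _)
      (fun i => h1 _) (fun i j hij => a0 _ _ fun h => hij (σ.injective h))
      (fun i j hij => a1 _ _ fun h => hij (σ.injective h)) t0
  choose r hr0 hr1 using hv
  refine ⟨(Matrix.of fun i k => X i k).det * ∑ σ : Equiv.Perm (Fin 4),
    ((Equiv.Perm.sign σ : ℤ) : ℝ) * r σ, ?_, ?_⟩
  · have e := alt4_dd (fun i => (C i)ᵀ) C (fun i k => X i k)
    simp only [← hX, ← hXT] at e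
    unfold alt4 at e
    refine e.trans ?_
    rw [mul_smul]
    congr 1
    rw [Finset.sum_smul]
    refine Finset.sum_congr rfl fun σ _ => ?_
    rw [mul_smul, ← hr0]
  · have e := alt4_dd C (fun i => (C i)ᵀ) (fun i k => X i k)
    simp only [← hX, ← hXT] at e
    unfold alt4 at e
    refine e.trans ?_
    rw [← mul_neg, mul_smul]
    congr 1
    rw [← Finset.sum_neg_distrib, Finset.sum_smul]
    refine Finset.sum_congr rfl fun σ _ => ?_
    rw [← mul_neg, mul_smul, ← hr1]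

end main

end Crest.Agent.R235.La4_291
end

-- ▼ part R235/RcQ_215
section

/-!
Row 235 (S0364), PACKAGE FAM, RCMAN, piece (P2) (helper215): commutator estimate.

`D0, D1 : Dat 4 M _`, `P : OpPair D0 D1`, `β : κ1 → κ0 → M → ℝ` a smooth bundle map,
`b u = β u`, `bᵀ w = βᵀ w`:

`|⟨A*(b u), A* w⟩ - ⟨A u, A(bᵀ w)⟩| ≤ K ‖u‖_W ‖w‖` and `≤ K ‖u‖ ‖w‖_W`.
-/

set_option autoImplicit false
set_option maxSynthPendingDepth 3
set_option linter.unusedSectionVars false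

open scoped ContDiff ENNReal NNReal Topology Manifold Bundle RealInnerProductSpace
open MeasureTheory Set Filter Metric Bundle

universe v

namespace Crest.Agent.R235.RcQ_215

open Crest.Agent.R249.Tv57 Crest.Agent.R247.Ms322 Crest.Agent.R247.Dir593
open Crest.Agent.R247.Frd657 Crest.Agent.R235.Fs4_546
open Crest.GeometryTopology.CoordMetric Crest.GeometryTopology.ChartCurvature
open Crest.Agent.R249.Vf281 (VSm vCh mDiv)
open Crest.Agent.R249.Tof352

noncomputable section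

variable {n : ℕ} {M : Type v} [MetricSpace M] [ChartedSpace (EuclideanSpace ℝ (Fin n)) M]
  [IsManifold (𝓡 n) ∞ M]
  [RiemannianBundle (fun p : M => TangentSpace (𝓡 n) p)]
  [IsContMDiffRiemannianBundle (𝓡 n) ∞ (EuclideanSpace ℝ (Fin n)) (fun p : M => TangentSpace (𝓡 n) p)]
  [IsRiemannianManifold (𝓡 n) M] [MeasurableSpace M] [BorelSpace M]
  [SecondCountableTopology M] [Nonempty M]

local notation "𝔼" => EuclideanSpace ℝ (Fin n)

/-- smooth frame fields are smooth vector fields. -/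
theorem vsm_ofF {N : M → EuclideanSpace ℝ (Fin n)} (hN : SmF N) (z : M) :
    VSm n ∞ (fun q => ((toF n q).symm (N q) : TangentSpace (𝓡 n) q)) z := by
  have hz := mem_chart_source 𝔼 z
  have hb := (chartAt 𝔼 z).map_source hz
  have hg := isRiemannianOn_chartMetric (n := n) z
  have h1 : ∀ i : Fin n, ContDiffOn ℝ ∞ (fun b => ∑ j, cf z j N b *
      inverseField (chartMetric n M z) b i j) (chartAt 𝔼 z).target := fun i =>
    ContDiffOn.sum fun j _ => (hN z j).mul (Crest.Agent.R202.Tens.contDiffOn_inv_entry hg i j)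
  have h2 : ∀ i : Fin n, ∀ b ∈ (chartAt 𝔼 z).target,
      (vCh n z (fun q => ((toF n q).symm (N q) : TangentSpace (𝓡 n) q)) b) i =
        ∑ j, cf z j N b * inverseField (chartMetric n M z) b i j := by
    intro i b hb
    unfold vCh
    rw [← inner_dxf_toF z ((chartAt 𝔼 z).map_target hb), LinearIsometryEquiv.apply_symm_apply,
      expand_cf z N hb, inner_sum]
    refine Finset.sum_congr rfl fun j _ => ?_
    rw [real_inner_smul_right, inner_dxf' z hb]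
  have h3 : ContDiffOn ℝ ∞ (vCh n z (fun q => ((toF n q).symm (N q) : TangentSpace (𝓡 n) q)))
      (chartAt 𝔼 z).target := by
    rw [contDiffOn_euclidean]
    intro i
    exact (h1 i).congr fun b hb => h2 i b hb
  exact h3.contDiffAt ((chartAt 𝔼 z).open_target.mem_nhds hb)

variable [CompactSpace M]

/-- integration by parts against a smooth frame field. -/
theorem ibp {N : M → EuclideanSpace ℝ (Fin n)} (hN : SmF N) : ∃ dN : M → ℝ, Continuous dN ∧
    ∀ f : M → ℝ, ContMDiff (𝓡 n) 𝓘(ℝ, ℝ) ∞ f →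
      ∫ z, (⟪N z, Gr (n := n) f z⟫ : ℝ) ∂(μHE[n] : Measure M) =
        - ∫ z, dN z * f z ∂(μHE[n] : Measure M) := by
  refine ⟨mDiv n (fun q => ((toF n q).symm (N q) : TangentSpace (𝓡 n) q)),
    (Crest.Agent.R249.Sg129.contMDiff_mDiv fun q => vsm_ofF hN q).continuous, fun f hf => ?_⟩
  have h1 := Crest.Agent.R249.Vf281.ibp_mDiv (n := n) isOpen_univ
    (X := fun q => ((toF n q).symm (N q) : TangentSpace (𝓡 n) q))
    (fun z _ => (vsm_ofF hN z).of_le (by simp)) (locLip_of_contMDiff (n := n) (hf.of_le (by simp)))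
    (HasCompactSupport.of_compactSpace f) (subset_univ _)
  rw [show (fun z => mDiv n (fun q => ((toF n q).symm (N q) : TangentSpace (𝓡 n) q)) z * f z) =
    fun z => f z * mDiv n (fun q => ((toF n q).symm (N q) : TangentSpace (𝓡 n) q)) z from
      funext fun z => mul_comm _ _, ← h1]
  refine integral_congr_ae (Eventually.of_forall fun z => ?_)
  show (⟪N z, Gr (n := n) f z⟫ : ℝ) = Crest.Agent.R247.Bo84.dM n f z ((toF n z).symm (N z))
  rw [← Crest.Agent.R247.Bo84.inner_mgrad', ← inner_toF, LinearIsometryEquiv.apply_symm_apply,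
    real_inner_comm, toF_mgrad]

/-! ### Cauchy-Schwarz -/

variable [IsFiniteMeasureOnCompacts (μHE[n] : Measure M)]

theorem intg {f : M → ℝ} (hf : Continuous f) : Integrable f (μHE[n] : Measure M) :=
  hf.integrable_of_hasCompactSupport (HasCompactSupport.of_compactSpace f)

/-- `∫ |f| ≤ C √a √b` if `|f|² ≤ C² A B` pointwise. -/
theorem cs_int {f A B : M → ℝ} (hf : Continuous f) (hA : Continuous A) (hB : Continuous B)
    (hA0 : ∀ z, 0 ≤ A z) (hB0 : ∀ z, 0 ≤ B z) {C : ℝ} (hC : 0 ≤ C)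
    (h : ∀ z, |f z| ≤ C * (√(A z) * √(B z))) :
    |∫ z, f z ∂(μHE[n] : Measure M)| ≤ C * (√(∫ z, A z ∂(μHE[n] : Measure M)) *
      √(∫ z, B z ∂(μHE[n] : Measure M))) := by
  set a := ∫ z, A z ∂(μHE[n] : Measure M) with ha
  set b := ∫ z, B z ∂(μHE[n] : Measure M) with hb
  have ha0 : 0 ≤ a := integral_nonneg hA0
  have hb0 : 0 ≤ b := integral_nonneg hB0
  -- for every `s > 0`
  have key : ∀ s : ℝ, 0 < s → |∫ z, f z ∂(μHE[n] : Measure M)| ≤ C * ((s * a + s⁻¹ * b) / 2) := by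
    intro s hs
    have h1 : |∫ z, f z ∂(μHE[n] : Measure M)| ≤ ∫ z, |f z| ∂(μHE[n] : Measure M) :=
      abs_integral_le_integral_abs
    refine h1.trans ?_
    have h2 : C * ((s * a + s⁻¹ * b) / 2) =
        ∫ z, C * ((s * A z + s⁻¹ * B z) / 2) ∂(μHE[n] : Measure M) := by
      rw [integral_const_mul, integral_div, integral_add ((intg hA).const_mul s)
        ((intg hB).const_mul s⁻¹), integral_const_mul, integral_const_mul]
    rw [h2]
    refine integral_mono (intg hf.abs) (intg (continuous_const.mul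
      (((continuous_const.mul hA).add (continuous_const.mul hB)).div_const 2))) fun z => ?_
    refine (h z).trans (mul_le_mul_of_nonneg_left ?_ hC)
    have h3 := Real.sq_sqrt (hA0 z)
    have h4 := Real.sq_sqrt (hB0 z)
    have h5 : s * s⁻¹ = 1 := mul_inv_cancel₀ hs.ne'
    have h6 : 0 ≤ s * (√(A z) - s⁻¹ * √(B z)) ^ 2 := by positivity
    have h7 : s * (√(A z) - s⁻¹ * √(B z)) ^ 2 =
        s * √(A z) ^ 2 - 2 * (s * s⁻¹) * (√(A z) * √(B z)) + (s * s⁻¹) * s⁻¹ * √(B z) ^ 2 := by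
      ring
    rw [h7, h5, h3, h4] at h6
    linarith
  rcases hC.eq_or_lt with hC0 | hC0
  · have := key 1 one_pos
    rw [← hC0] at this ⊢
    simpa using this
  set t := |∫ z, f z ∂(μHE[n] : Measure M)| / C with ht
  have ht0 : 0 ≤ t := div_nonneg (abs_nonneg _) hC
  have key' : ∀ s : ℝ, 0 < s → t ≤ (s * a + s⁻¹ * b) / 2 := by
    intro s hs
    rw [ht, div_le_iff₀ hC0, mul_comm]
    exact key s hs
  have hgoal : t ≤ √a * √b := by
    have hsq : t ^ 2 ≤ a * b := by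
      by_contra hcon
      rw [not_le] at hcon
      have ht1 : 0 < t := by
        rcases ht0.eq_or_lt with h0 | h0
        · rw [← h0] at hcon
          have := mul_nonneg ha0 hb0
          linarith
        · exact h0
      rcases ha0.eq_or_lt with h0 | h0
      · -- `a = 0` : let `s → ∞`
        have := key' ((b + 1) / t) (by positivity)
        rw [← h0, mul_zero, zero_add, inv_div] at this
        have h8 : t / (b + 1) * b ≤ t := by
          rw [div_mul_eq_mul_div, div_le_iff₀ (by positivity)]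
          nlinarith
        linarith
      · have := key' (t / a) (by positivity)
        rw [inv_div, div_mul_cancel₀ _ h0.ne'] at this
        have h9 : a / t * b < t := by
          rw [div_mul_eq_mul_div, div_lt_iff₀ ht1]
          nlinarith
        linarith
    rw [← Real.sqrt_mul ha0]
    exact Real.le_sqrt_of_sq_le hsq
  have : |∫ z, f z ∂(μHE[n] : Measure M)| = C * t := by
    rw [ht]
    field_simp
  rw [this]
  exact mul_le_mul_of_nonneg_left hgoal hC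

/-! ### the two maps -/

variable {κ κ' : Type} [Fintype κ] [Fintype κ']

/-- `b u`. -/
def bU (β : κ' → κ → M → ℝ) (u : κ → M → ℝ) : κ' → M → ℝ := fun x z => ∑ y, β x y z * u y z

/-- `bᵀ w`. -/
def bT (β : κ' → κ → M → ℝ) (w : κ' → M → ℝ) : κ → M → ℝ := fun y z => ∑ x, β x y z * w x z

/-- the covariant derivative of `β`. -/
def NN (D0 : Dat n M κ) (D1 : Dat n M κ') (β : κ' → κ → M → ℝ) (x : κ') (y : κ) (z : M) :
    EuclideanSpace ℝ (Fin n) :=
  Gr (n := n) (β x y) z + ∑ x', β x' y z • D1.X x x' z - ∑ y', β x y' z • D0.X y' y z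

variable {D0 : Dat n M κ} {D1 : Dat n M κ'} {β : κ' → κ → M → ℝ}

section
omit [CompactSpace M] [IsFiniteMeasureOnCompacts (μHE[n] : Measure M)]

theorem sm_bU (hβ : ∀ x y, ContMDiff (𝓡 n) 𝓘(ℝ, ℝ) ∞ (β x y)) {u : κ → M → ℝ}
    (hu : SmV (n := n) u) : SmV (n := n) (bU β u) := fun x =>
  contMDiff_finsetSum fun y _ => (hβ x y).mul (hu y)

theorem sm_bT (hβ : ∀ x y, ContMDiff (𝓡 n) 𝓘(ℝ, ℝ) ∞ (β x y)) {w : κ' → M → ℝ}
    (hw : SmV (n := n) w) : SmV (n := n) (bT β w) := fun y =>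
  contMDiff_finsetSum fun x _ => (hβ x y).mul (hw x)

theorem smF_NN (hβ : ∀ x y, ContMDiff (𝓡 n) 𝓘(ℝ, ℝ) ∞ (β x y)) (x : κ') (y : κ) :
    SmF (NN D0 D1 β x y) :=
  ((smF_Gr (hβ x y)).add (SmF.sum _ fun x' _ => SmF.smul (hβ x' y) (D1.smX x x'))).sub
    (SmF.sum _ fun y' _ => SmF.smul (hβ x y') (D0.smX y' y))

theorem cv_bU (hβ : ∀ x y, ContMDiff (𝓡 n) 𝓘(ℝ, ℝ) ∞ (β x y)) {u : κ → M → ℝ}
    (hu : SmV (n := n) u) (x : κ') (z : M) : D1.cv (bU β u) x z =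
      ∑ y, β x y z • D0.cv u y z + ∑ y, u y z • NN D0 D1 β x y z := by
  have h1 : Gr (n := n) (bU β u x) z =
      ∑ y, (β x y z • Gr (n := n) (u y) z + u y z • Gr (n := n) (β x y) z) := by
    have := Crest.Agent.R249.Ker57.Gr_sum' (n := n) Finset.univ
      (f := fun y q => β x y q * u y q) (fun y _ => (hβ x y).mul (hu y)) z
    refine this.trans (Finset.sum_congr rfl fun y _ => ?_)
    exact Gr_mul ((hβ x y z).mdifferentiableAt (by simp)) ((hu y z).mdifferentiableAt (by simp))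
  unfold Dat.cv NN
  rw [h1]
  have h2 : ∑ y, β x y z • ∑ y', u y' z • D0.X y y' z =
      ∑ y, u y z • ∑ y', β x y' z • D0.X y' y z := by
    simp only [Finset.smul_sum]
    rw [Finset.sum_comm]
    refine Finset.sum_congr rfl fun y _ => Finset.sum_congr rfl fun y' _ => ?_
    rw [smul_smul, smul_smul, mul_comm]
  have h3 : ∑ x', bU β u x' z • D1.X x x' z = ∑ y, u y z • ∑ x', β x' y z • D1.X x x' z := by
    simp only [bU, Finset.sum_smul, Finset.smul_sum]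
    rw [Finset.sum_comm]
    refine Finset.sum_congr rfl fun y _ => Finset.sum_congr rfl fun x' _ => ?_
    rw [smul_smul, mul_comm]
  simp only [smul_add, smul_sub, Finset.sum_add_distrib, Finset.sum_sub_distrib]
  rw [h2, h3]
  abel

theorem cv_bT (hβ : ∀ x y, ContMDiff (𝓡 n) 𝓘(ℝ, ℝ) ∞ (β x y)) {w : κ' → M → ℝ}
    (hw : SmV (n := n) w) (y : κ) (z : M) : D0.cv (bT β w) y z =
      ∑ x, β x y z • D1.cv w x z + ∑ x, w x z • NN D0 D1 β x y z := by
  have h1 : Gr (n := n) (bT β w y) z =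
      ∑ x, (β x y z • Gr (n := n) (w x) z + w x z • Gr (n := n) (β x y) z) := by
    have := Crest.Agent.R249.Ker57.Gr_sum' (n := n) Finset.univ
      (f := fun x q => β x y q * w x q) (fun x _ => (hβ x y).mul (hw x)) z
    refine this.trans (Finset.sum_congr rfl fun x _ => ?_)
    exact Gr_mul ((hβ x y z).mdifferentiableAt (by simp)) ((hw x z).mdifferentiableAt (by simp))
  unfold Dat.cv NN
  rw [h1]
  have h2 : ∑ x, β x y z • ∑ x', w x' z • D1.X x x' z =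
      - ∑ x, w x z • ∑ x', β x' y z • D1.X x x' z := by
    simp only [Finset.smul_sum]
    rw [Finset.sum_comm, ← Finset.sum_neg_distrib]
    refine Finset.sum_congr rfl fun x _ => ?_
    rw [← Finset.sum_neg_distrib]
    refine Finset.sum_congr rfl fun x' _ => ?_
    rw [D1.skew x' x z, smul_smul, smul_smul, smul_neg, mul_comm]
  have h3 : ∑ y', bT β w y' z • D0.X y y' z =
      - ∑ x, w x z • ∑ y', β x y' z • D0.X y' y z := by
    simp only [bT, Finset.sum_smul, Finset.smul_sum]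
    rw [Finset.sum_comm, ← Finset.sum_neg_distrib]
    refine Finset.sum_congr rfl fun x _ => ?_
    rw [← Finset.sum_neg_distrib]
    refine Finset.sum_congr rfl fun y' _ => ?_
    rw [D0.skew y y' z, smul_smul, smul_neg, mul_comm]
  simp only [smul_add, smul_sub, Finset.sum_add_distrib, Finset.sum_sub_distrib]
  rw [h2, h3]
  abel

end

/-- `∑ u_y ⟨N_xy, V_x⟩`. -/
def R1 (N : κ' → κ → M → EuclideanSpace ℝ (Fin n)) (u : κ → M → ℝ)
    (V : κ' → M → EuclideanSpace ℝ (Fin n)) (z : M) : ℝ :=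
  ∑ x, ∑ y, u y z * (⟪N x y z, V x z⟫ : ℝ)

/-- `∑ w_x ⟨N_xy, V_y⟩`. -/
def R2 (N : κ' → κ → M → EuclideanSpace ℝ (Fin n)) (w : κ' → M → ℝ)
    (V : κ → M → EuclideanSpace ℝ (Fin n)) (z : M) : ℝ :=
  ∑ x, ∑ y, w x z * (⟪N x y z, V y z⟫ : ℝ)

/-- `∑ c_xy u_y w_x`. -/
def Z0 (c : κ' → κ → M → ℝ) (u : κ → M → ℝ) (w : κ' → M → ℝ) (z : M) : ℝ :=
  ∑ x, ∑ y, c x y z * (u y z * w x z)

/-- the coefficients of order zero. -/
def c1 (D0 : Dat n M κ) (D1 : Dat n M κ') (β : κ' → κ → M → ℝ) (x : κ') (y : κ) (z : M) : ℝ :=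
  ∑ x', D1.Q x x' z * β x' y z - ∑ y', D0.Q y' y z * β x y' z

theorem ed_diff (hβ : ∀ x y, ContMDiff (𝓡 n) 𝓘(ℝ, ℝ) ∞ (β x y)) {u : κ → M → ℝ}
    (hu : SmV (n := n) u) {w : κ' → M → ℝ} (hw : SmV (n := n) w) (z : M) :
    D1.ed (bU β u) w z - D0.ed u (bT β w) z =
      R1 (NN D0 D1 β) u (D1.cv w) z - R2 (NN D0 D1 β) w (D0.cv u) z +
        Z0 (c1 D0 D1 β) u w z := by
  have e1 : ∑ x, (⟪D1.cv (bU β u) x z, D1.cv w x z⟫ : ℝ) =
      ∑ x, ∑ y, β x y z * (⟪D0.cv u y z, D1.cv w x z⟫ : ℝ) +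
        R1 (NN D0 D1 β) u (D1.cv w) z := by
    unfold R1
    rw [← Finset.sum_add_distrib]
    refine Finset.sum_congr rfl fun x _ => ?_
    rw [cv_bU (D0 := D0) hβ hu, inner_add_left, sum_inner, sum_inner]
    simp only [real_inner_smul_left]
  have e2 : ∑ y, (⟪D0.cv u y z, D0.cv (bT β w) y z⟫ : ℝ) =
      ∑ x, ∑ y, β x y z * (⟪D0.cv u y z, D1.cv w x z⟫ : ℝ) +
        R2 (NN D0 D1 β) w (D0.cv u) z := by
    unfold R2
    rw [Finset.sum_comm (f := fun x y => β x y z * (⟪D0.cv u y z, D1.cv w x z⟫ : ℝ)),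
      Finset.sum_comm (f := fun x y => w x z * (⟪NN D0 D1 β x y z, D0.cv u y z⟫ : ℝ)),
      ← Finset.sum_add_distrib]
    refine Finset.sum_congr rfl fun y _ => ?_
    rw [cv_bT (D1 := D1) hβ hw, inner_add_right, inner_sum, inner_sum]
    simp only [real_inner_smul_right]
    congr 1
    exact Finset.sum_congr rfl fun x _ => by rw [real_inner_comm]
  have e3 : ∑ x, ∑ x', D1.Q x x' z * bU β u x' z * w x z -
      ∑ y, ∑ y', D0.Q y y' z * u y' z * bT β w y z = Z0 (c1 D0 D1 β) u w z := by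
    have f1 : ∑ x, ∑ x', D1.Q x x' z * bU β u x' z * w x z =
        ∑ x, ∑ y, (∑ x', D1.Q x x' z * β x' y z) * (u y z * w x z) := by
      refine Finset.sum_congr rfl fun x _ => ?_
      simp only [bU, Finset.mul_sum, Finset.sum_mul]
      rw [Finset.sum_comm]
      exact Finset.sum_congr rfl fun y _ => Finset.sum_congr rfl fun x' _ => by ring
    have f2 : ∑ y, ∑ y', D0.Q y y' z * u y' z * bT β w y z =
        ∑ x, ∑ y, (∑ y', D0.Q y' y z * β x y' z) * (u y z * w x z) := by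
      simp only [bT, Finset.mul_sum, Finset.sum_mul]
      rw [Finset.sum_comm]
      rw [Finset.sum_comm (f := fun x y => ∑ y', D0.Q y' y z * β x y' z * (u y z * w x z))]
      refine Finset.sum_congr rfl fun y _ => ?_
      rw [Finset.sum_comm]
      exact Finset.sum_congr rfl fun x _ => Finset.sum_congr rfl fun y' _ => by ring
    rw [f1, f2]
    unfold Z0 c1
    simp only [sub_mul, Finset.sum_sub_distrib]
  unfold Dat.ed
  rw [e1, e2, ← e3]
  ring

/-- `R1 + R2` is a divergence up to order zero. -/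
def c2 (D0 : Dat n M κ) (D1 : Dat n M κ') (N : κ' → κ → M → EuclideanSpace ℝ (Fin n)) (x : κ')
    (y : κ) (z : M) : ℝ :=
  ∑ x', (⟪N x' y z, D1.X x' x z⟫ : ℝ) + ∑ y', (⟪N x y' z, D0.X y' y z⟫ : ℝ)

theorem R_add {N : κ' → κ → M → EuclideanSpace ℝ (Fin n)} {u : κ → M → ℝ}
    (hu : SmV (n := n) u) {w : κ' → M → ℝ} (hw : SmV (n := n) w) (z : M) :
    R1 N u (D1.cv w) z + R2 N w (D0.cv u) z =
      ∑ x, ∑ y, (⟪N x y z, Gr (n := n) (fun q => u y q * w x q) z⟫ : ℝ) +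
        Z0 (c2 D0 D1 N) u w z := by
  have e0 : ∀ x y, (⟪N x y z, Gr (n := n) (fun q => u y q * w x q) z⟫ : ℝ) =
      u y z * (⟪N x y z, Gr (n := n) (w x) z⟫ : ℝ) +
        w x z * (⟪N x y z, Gr (n := n) (u y) z⟫ : ℝ) := by
    intro x y
    rw [Gr_mul ((hu y z).mdifferentiableAt (by simp)) ((hw x z).mdifferentiableAt (by simp)),
      inner_add_right, real_inner_smul_right, real_inner_smul_right]
  have e1 : R1 N u (D1.cv w) z = ∑ x, ∑ y, u y z * (⟪N x y z, Gr (n := n) (w x) z⟫ : ℝ) +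
      ∑ x, ∑ y, (∑ x', (⟪N x' y z, D1.X x' x z⟫ : ℝ)) * (u y z * w x z) := by
    unfold R1 Dat.cv
    have f1 : ∑ x, ∑ y, (∑ x', (⟪N x' y z, D1.X x' x z⟫ : ℝ)) * (u y z * w x z) =
        ∑ x, ∑ y, u y z * (⟪N x y z, ∑ x', w x' z • D1.X x x' z⟫ : ℝ) := by
      simp only [inner_sum, real_inner_smul_right, Finset.mul_sum, Finset.sum_mul]
      rw [Finset.sum_comm]
      rw [Finset.sum_comm (f := fun x y => ∑ x', u y z * (w x' z * (⟪N x y z, D1.X x x' z⟫ : ℝ)))]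
      refine Finset.sum_congr rfl fun y _ => ?_
      rw [Finset.sum_comm]
      exact Finset.sum_congr rfl fun x _ => Finset.sum_congr rfl fun x' _ => by ring
    rw [f1, ← Finset.sum_add_distrib]
    refine Finset.sum_congr rfl fun x _ => ?_
    rw [← Finset.sum_add_distrib]
    refine Finset.sum_congr rfl fun y _ => ?_
    rw [inner_add_right, mul_add]
  have e2 : R2 N w (D0.cv u) z = ∑ x, ∑ y, w x z * (⟪N x y z, Gr (n := n) (u y) z⟫ : ℝ) +
      ∑ x, ∑ y, (∑ y', (⟪N x y' z, D0.X y' y z⟫ : ℝ)) * (u y z * w x z) := by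
    unfold R2 Dat.cv
    have f1 : ∑ x, ∑ y, (∑ y', (⟪N x y' z, D0.X y' y z⟫ : ℝ)) * (u y z * w x z) =
        ∑ x, ∑ y, w x z * (⟪N x y z, ∑ y', u y' z • D0.X y y' z⟫ : ℝ) := by
      simp only [inner_sum, real_inner_smul_right, Finset.mul_sum, Finset.sum_mul]
      refine Finset.sum_congr rfl fun x _ => ?_
      rw [Finset.sum_comm]
      exact Finset.sum_congr rfl fun y _ => Finset.sum_congr rfl fun y' _ => by ring
    rw [f1, ← Finset.sum_add_distrib]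
    refine Finset.sum_congr rfl fun x _ => ?_
    rw [← Finset.sum_add_distrib]
    refine Finset.sum_congr rfl fun y _ => ?_
    rw [inner_add_right, mul_add]
  rw [e1, e2]
  simp only [e0]
  unfold Z0 c2
  simp only [add_mul, Finset.sum_add_distrib]
  ring

/-! ### bounds -/

section bd

variable {u : κ → M → ℝ} {w : κ' → M → ℝ}

theorem cont_sq {ι : Type} [Fintype ι] {v : ι → M → ℝ} (hv : SmV (n := n) v) :
    Continuous fun z => ∑ y, v y z ^ 2 :=
  continuous_finsetSum _ fun y _ => (hv y).continuous.pow 2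

theorem cont_nsq {ι : Type} [Fintype ι] {V : ι → M → EuclideanSpace ℝ (Fin n)}
    (hV : ∀ x, SmF (V x)) : Continuous fun z => ∑ x, ‖V x z‖ ^ 2 := by
  refine continuous_finsetSum _ fun x _ => ?_
  have := ((hV x).inner (hV x)).continuous
  simpa only [real_inner_self_eq_norm_sq] using this

theorem abs_le_sq {ι : Type} [Fintype ι] (v : ι → ℝ) (y : ι) : |v y| ≤ √(∑ y, v y ^ 2) := by
  refine Real.abs_le_sqrt ?_
  exact Finset.single_le_sum (f := fun y => v y ^ 2) (fun y _ => sq_nonneg _) (Finset.mem_univ y)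

theorem norm_le_sq {ι : Type} [Fintype ι] (V : ι → EuclideanSpace ℝ (Fin n)) (x : ι) :
    ‖V x‖ ≤ √(∑ x, ‖V x‖ ^ 2) := by
  refine Real.le_sqrt_of_sq_le ?_
  exact Finset.single_le_sum (f := fun x => ‖V x‖ ^ 2) (fun y _ => sq_nonneg _)
    (Finset.mem_univ x)

/-- a uniform bound for finitely many continuous functions. -/
theorem exists_bd {ι ι' : Type} [Fintype ι] [Fintype ι'] {c : ι → ι' → M → ℝ}
    (hc : ∀ x y, Continuous (c x y)) : ∃ B : ℝ, 0 ≤ B ∧ ∀ x y z, |c x y z| ≤ B := by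
  have h1 : ∀ x y, ∃ B : ℝ, 0 ≤ B ∧ ∀ z, |c x y z| ≤ B := by
    intro x y
    obtain ⟨B, hB⟩ := isCompact_univ.exists_bound_of_continuousOn (hc x y).continuousOn
    exact ⟨max B 0, le_max_right _ _, fun z => (hB z (mem_univ z)).trans (le_max_left _ _)⟩
  choose B hB0 hB using h1
  refine ⟨∑ x, ∑ y, B x y, Finset.sum_nonneg fun x _ => Finset.sum_nonneg fun y _ => hB0 x y,
    fun x y z => (hB x y z).trans ?_⟩
  refine (Finset.single_le_sum (f := fun y => B x y) (fun y _ => hB0 x y)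
    (Finset.mem_univ y)).trans ?_
  exact Finset.single_le_sum (f := fun x => ∑ y, B x y)
    (fun x _ => Finset.sum_nonneg fun y _ => hB0 x y) (Finset.mem_univ x)

theorem exists_bdF {ι ι' : Type} [Fintype ι] [Fintype ι']
    {N : ι → ι' → M → EuclideanSpace ℝ (Fin n)} (hN : ∀ x y, SmF (N x y)) :
    ∃ B : ℝ, 0 ≤ B ∧ ∀ x y z, ‖N x y z‖ ≤ B := by
  obtain ⟨B, hB0, hB⟩ := exists_bd (c := fun x y z => (⟪N x y z, N x y z⟫ : ℝ))
    fun x y => ((hN x y).inner (hN x y)).continuous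
  refine ⟨√B, Real.sqrt_nonneg _, fun x y z => Real.le_sqrt_of_sq_le ?_⟩
  have := hB x y z
  rw [real_inner_self_eq_norm_sq, abs_of_nonneg (sq_nonneg _)] at this
  exact this

variable (κ κ') in
/-- number of entries. -/
def crd : ℝ := (Fintype.card κ' : ℝ) * (Fintype.card κ : ℝ)

theorem sum_sum_const (a : ℝ) : ∑ _x : κ', ∑ _y : κ, a = crd κ κ' * a := by
  simp only [Finset.sum_const, Finset.card_univ, nsmul_eq_mul, crd]
  ring

theorem bd_Z0 {c : κ' → κ → M → ℝ} (hc : ∀ x y, Continuous (c x y)) : ∃ K : ℝ, 0 ≤ K ∧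
    ∀ (u : κ → M → ℝ) (w : κ' → M → ℝ), SmV (n := n) u → SmV (n := n) w →
      |∫ z, Z0 c u w z ∂(μHE[n] : Measure M)| ≤
        K * (√(∫ z, ∑ y, u y z ^ 2 ∂(μHE[n] : Measure M)) *
          √(∫ z, ∑ x, w x z ^ 2 ∂(μHE[n] : Measure M))) := by
  obtain ⟨B, hB0, hB⟩ := exists_bd hc
  have hcrd : 0 ≤ crd κ κ' := by unfold crd; positivity
  refine ⟨crd κ κ' * B, by positivity, fun u w hu hw => ?_⟩
  refine cs_int ?_ (cont_sq hu) (cont_sq hw) (fun z => Finset.sum_nonneg fun y _ => sq_nonneg _)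
    (fun z => Finset.sum_nonneg fun y _ => sq_nonneg _) (by positivity) fun z => ?_
  · exact continuous_finsetSum _ fun x _ => continuous_finsetSum _ fun y _ =>
      (hc x y).mul ((hu y).continuous.mul (hw x).continuous)
  · unfold Z0
    refine (Finset.abs_sum_le_sum_abs _ _).trans ?_
    refine (Finset.sum_le_sum fun x _ => Finset.abs_sum_le_sum_abs _ _).trans ?_
    rw [mul_assoc, ← sum_sum_const]
    refine Finset.sum_le_sum fun x _ => Finset.sum_le_sum fun y _ => ?_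
    rw [abs_mul, abs_mul]
    exact mul_le_mul (hB x y z) (mul_le_mul (abs_le_sq (fun y => u y z) y)
      (abs_le_sq (fun x => w x z) x) (abs_nonneg _) (Real.sqrt_nonneg _)) (by positivity) hB0

theorem cont_R1 {N : κ' → κ → M → EuclideanSpace ℝ (Fin n)} (hN : ∀ x y, SmF (N x y))
    (hu : SmV (n := n) u) {V : κ' → M → EuclideanSpace ℝ (Fin n)} (hV : ∀ x, SmF (V x)) :
    Continuous (R1 N u V) :=
  continuous_finsetSum _ fun x _ => continuous_finsetSum _ fun y _ =>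
    (hu y).continuous.mul ((hN x y).inner (hV x)).continuous

theorem cont_R2 {N : κ' → κ → M → EuclideanSpace ℝ (Fin n)} (hN : ∀ x y, SmF (N x y))
    (hw : SmV (n := n) w) {V : κ → M → EuclideanSpace ℝ (Fin n)} (hV : ∀ x, SmF (V x)) :
    Continuous (R2 N w V) :=
  continuous_finsetSum _ fun x _ => continuous_finsetSum _ fun y _ =>
    (hw x).continuous.mul ((hN x y).inner (hV y)).continuous

theorem bd_R1 {N : κ' → κ → M → EuclideanSpace ℝ (Fin n)} (hN : ∀ x y, SmF (N x y)) :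
    ∃ K : ℝ, 0 ≤ K ∧ ∀ (u : κ → M → ℝ) (V : κ' → M → EuclideanSpace ℝ (Fin n)),
      SmV (n := n) u → (∀ x, SmF (V x)) → |∫ z, R1 N u V z ∂(μHE[n] : Measure M)| ≤
        K * (√(∫ z, ∑ y, u y z ^ 2 ∂(μHE[n] : Measure M)) *
          √(∫ z, ∑ x, ‖V x z‖ ^ 2 ∂(μHE[n] : Measure M))) := by
  obtain ⟨B, hB0, hB⟩ := exists_bdF hN
  have hcrd : 0 ≤ crd κ κ' := by unfold crd; positivity
  refine ⟨crd κ κ' * B, by positivity, fun u V hu hV => ?_⟩
  refine cs_int (cont_R1 hN hu hV) (cont_sq hu) (cont_nsq hV)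
    (fun z => Finset.sum_nonneg fun y _ => sq_nonneg _)
    (fun z => Finset.sum_nonneg fun y _ => sq_nonneg _) (by positivity) fun z => ?_
  unfold R1
  refine (Finset.abs_sum_le_sum_abs _ _).trans ?_
  refine (Finset.sum_le_sum fun x _ => Finset.abs_sum_le_sum_abs _ _).trans ?_
  rw [mul_assoc, ← sum_sum_const]
  refine Finset.sum_le_sum fun x _ => Finset.sum_le_sum fun y _ => ?_
  rw [abs_mul]
  have h1 := abs_le_sq (fun y => u y z) y
  have h2 := (abs_real_inner_le_norm (N x y z) (V x z)).trans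
    (mul_le_mul (hB x y z) (norm_le_sq (fun x => V x z) x) (norm_nonneg _) hB0)
  refine (mul_le_mul h1 h2 (abs_nonneg _) (Real.sqrt_nonneg _)).trans (le_of_eq ?_)
  ring

theorem bd_R2 {N : κ' → κ → M → EuclideanSpace ℝ (Fin n)} (hN : ∀ x y, SmF (N x y)) :
    ∃ K : ℝ, 0 ≤ K ∧ ∀ (w : κ' → M → ℝ) (V : κ → M → EuclideanSpace ℝ (Fin n)),
      SmV (n := n) w → (∀ x, SmF (V x)) → |∫ z, R2 N w V z ∂(μHE[n] : Measure M)| ≤
        K * (√(∫ z, ∑ x, w x z ^ 2 ∂(μHE[n] : Measure M)) *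
          √(∫ z, ∑ y, ‖V y z‖ ^ 2 ∂(μHE[n] : Measure M))) := by
  obtain ⟨B, hB0, hB⟩ := exists_bdF hN
  have hcrd : 0 ≤ crd κ κ' := by unfold crd; positivity
  refine ⟨crd κ κ' * B, by positivity, fun w V hw hV => ?_⟩
  refine cs_int (cont_R2 hN hw hV) (cont_sq hw) (cont_nsq hV)
    (fun z => Finset.sum_nonneg fun y _ => sq_nonneg _)
    (fun z => Finset.sum_nonneg fun y _ => sq_nonneg _) (by positivity) fun z => ?_
  unfold R2
  refine (Finset.abs_sum_le_sum_abs _ _).trans ?_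
  refine (Finset.sum_le_sum fun x _ => Finset.abs_sum_le_sum_abs _ _).trans ?_
  rw [mul_assoc, ← sum_sum_const]
  refine Finset.sum_le_sum fun x _ => Finset.sum_le_sum fun y _ => ?_
  rw [abs_mul]
  have h1 := abs_le_sq (fun x => w x z) x
  have h2 := (abs_real_inner_le_norm (N x y z) (V y z)).trans
    (mul_le_mul (hB x y z) (norm_le_sq (fun y => V y z) y) (norm_nonneg _) hB0)
  refine (mul_le_mul h1 h2 (abs_nonneg _) (Real.sqrt_nonneg _)).trans (le_of_eq ?_)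
  ring

/-- `∫ R1 + ∫ R2 = ∫ (c2 - dN) u w`. -/
theorem int_R {N : κ' → κ → M → EuclideanSpace ℝ (Fin n)} (hN : ∀ x y, SmF (N x y)) :
    ∃ c : κ' → κ → M → ℝ, (∀ x y, Continuous (c x y)) ∧ ∀ (u : κ → M → ℝ) (w : κ' → M → ℝ),
      SmV (n := n) u → SmV (n := n) w →
      ∫ z, R1 N u (D1.cv w) z ∂(μHE[n] : Measure M) +
        ∫ z, R2 N w (D0.cv u) z ∂(μHE[n] : Measure M) =
          ∫ z, Z0 c u w z ∂(μHE[n] : Measure M) := by
  choose dN hdN hibp using fun x y => ibp (hN x y)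
  have hc2 : ∀ x y, Continuous (c2 D0 D1 N x y) := fun x y =>
    (continuous_finsetSum _ fun x' _ => ((hN x' y).inner (D1.smX x' x)).continuous).add
      (continuous_finsetSum _ fun y' _ => ((hN x y').inner (D0.smX y' y)).continuous)
  refine ⟨fun x y z => c2 D0 D1 N x y z - dN x y z, fun x y => (hc2 x y).sub (hdN x y),
    fun u w hu hw => ?_⟩
  have cz : ∀ c : κ' → κ → M → ℝ, (∀ x y, Continuous (c x y)) → Continuous (Z0 c u w) :=
    fun c hc => continuous_finsetSum _ fun x _ => continuous_finsetSum _ fun y _ =>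
      (hc x y).mul ((hu y).continuous.mul (hw x).continuous)
  have csm : ∀ x y, ContMDiff (𝓡 n) 𝓘(ℝ, ℝ) ∞ fun q => u y q * w x q := fun x y =>
    (hu y).mul (hw x)
  have cin : ∀ x y, Continuous fun z =>
      (⟪N x y z, Gr (n := n) (fun q => u y q * w x q) z⟫ : ℝ) := fun x y =>
    ((hN x y).inner (smF_Gr (csm x y))).continuous
  rw [← integral_add (intg (cont_R1 hN hu fun x => smF_cv D1 hw x))
    (intg (cont_R2 hN hw fun y => smF_cv D0 hu y))]
  simp only [R_add (D0 := D0) (D1 := D1) (N := N) hu hw]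
  rw [integral_add (intg (continuous_finsetSum _ fun x _ => continuous_finsetSum _ fun y _ =>
    cin x y)) (intg (cz _ hc2))]
  have h1 : ∫ z, ∑ x, ∑ y, (⟪N x y z, Gr (n := n) (fun q => u y q * w x q) z⟫ : ℝ)
      ∂(μHE[n] : Measure M) = - ∫ z, Z0 dN u w z ∂(μHE[n] : Measure M) := by
    unfold Z0
    have cdu : ∀ x y, Continuous fun z => dN x y z * (u y z * w x z) := fun x y =>
      (hdN x y).mul ((hu y).continuous.mul (hw x).continuous)
    rw [integral_finsetSum _ fun x _ => intg (continuous_finsetSum _ fun y _ => cin x y)]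
    rw [integral_finsetSum _ fun x _ => intg (continuous_finsetSum _ fun y _ => cdu x y)]
    rw [← Finset.sum_neg_distrib]
    refine Finset.sum_congr rfl fun x _ => ?_
    rw [integral_finsetSum _ fun y _ => intg (cin x y)]
    rw [integral_finsetSum _ fun y _ => intg (cdu x y)]
    rw [← Finset.sum_neg_distrib]
    exact Finset.sum_congr rfl fun y _ => hibp x y _ (csm x y)
  rw [h1]
  have h2 : ∫ z, Z0 (fun x y z => c2 D0 D1 N x y z - dN x y z) u w z ∂(μHE[n] : Measure M) =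
      ∫ z, Z0 (c2 D0 D1 N) u w z ∂(μHE[n] : Measure M) -
        ∫ z, Z0 dN u w z ∂(μHE[n] : Measure M) := by
    rw [← integral_sub (intg (cz _ hc2)) (intg (cz _ hdN))]
    refine integral_congr_ae (Eventually.of_forall fun z => ?_)
    show Z0 (fun x y z => c2 D0 D1 N x y z - dN x y z) u w z =
      Z0 (c2 D0 D1 N) u w z - Z0 dN u w z
    unfold Z0
    simp only [sub_mul, Finset.sum_sub_distrib]
  rw [h2]
  ring

end bd

end

end Crest.Agent.R235.RcQ_215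
end

-- ▼ part R235/RcQb_215
section

/-!
Row 235 (S0364), PACKAGE FAM, RCMAN, piece (P2), part 2 (helper215): norms, bounded operators,
the commutator estimate on `W^{1,2}`.
-/

set_option autoImplicit false
set_option maxSynthPendingDepth 3
set_option linter.unusedSectionVars false

open scoped ContDiff ENNReal NNReal Topology Manifold Bundle RealInnerProductSpace
open MeasureTheory Set Filter Metric Bundle

universe v

namespace Crest.Agent.R235.RcQ_215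

open Crest.Agent.R249.Tv57 Crest.Agent.R247.Ms322 Crest.Agent.R247.Dir593
open Crest.Agent.R247.Frd657 Crest.Agent.R235.Fs4_546

noncomputable section

variable {n : ℕ} {M : Type v} [MetricSpace M] [ChartedSpace (EuclideanSpace ℝ (Fin n)) M]
  [IsManifold (𝓡 n) ∞ M]
  [RiemannianBundle (fun p : M => TangentSpace (𝓡 n) p)]
  [IsContMDiffRiemannianBundle (𝓡 n) ∞ (EuclideanSpace ℝ (Fin n)) (fun p : M => TangentSpace (𝓡 n) p)]
  [IsRiemannianManifold (𝓡 n) M] [MeasurableSpace M] [BorelSpace M]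
  [SecondCountableTopology M] [Nonempty M] [CompactSpace M]
  [IsFiniteMeasureOnCompacts (μHE[n] : Measure M)]
  {κ κ' : Type} [Fintype κ] [Fintype κ']
  {D0 : Dat n M κ} {D1 : Dat n M κ'} {β : κ' → κ → M → ℝ}

/-! ### norms -/

theorem ar1 {K c2 e X fa s F W J : ℝ} (hK : 0 ≤ K) (h1 : -(K * c2) ≤ e - X) (h2 : fa = e + s)
    (h3 : fa ≤ F * W) (h5 : c2 ≤ J * W) (h6 : 0 ≤ s) : X ≤ (F + K * J) * W := by
  have h7 := mul_le_mul_of_nonneg_left h5 hK
  have h8 : (F + K * J) * W = F * W + K * (J * W) := by ring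
  rw [h8]
  linarith

theorem ar2 {K c2 e X fa s c W : ℝ} (hK : 0 ≤ K) (hs : 0 ≤ s) (hX : 0 ≤ X)
    (h1 : e - X ≤ K * c2) (h2 : fa = e + s * c2) (h8 : c * W ≤ fa + c2) :
    c * W ≤ (K + s + 1) * (X + c2) := by
  have h9 := mul_nonneg hK hX
  have h10 := mul_nonneg hs hX
  have h11 : (K + s + 1) * (X + c2) = K * X + s * X + X + K * c2 + s * c2 + c2 := by ring
  rw [h11]
  linarith

theorem norm_cH_sq {ι : Type} [Fintype ι] (D : Dat n M ι) (u : SmS D) :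
    ‖cH D u‖ ^ 2 = ∫ z, ∑ a, u.1 a z ^ 2 ∂(μHE[n] : Measure M) := by
  rw [← real_inner_self_eq_norm_sq, inner_cH]
  unfold ip
  exact integral_congr_ae (Eventually.of_forall fun z => Finset.sum_congr rfl fun a _ => by
    show u.1 a z * u.1 a z = _
    ring)

theorem norm_cH_eq {ι : Type} [Fintype ι] (D : Dat n M ι) (u : SmS D) :
    ‖cH D u‖ = √(∫ z, ∑ a, u.1 a z ^ 2 ∂(μHE[n] : Measure M)) := by
  rw [← norm_cH_sq, Real.sqrt_sq (norm_nonneg _)]

/-- `∫ ed u u = ∫ |cv u|² + O(|u|²)`. -/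
theorem ed_cmp {ι : Type} [Fintype ι] (D : Dat n M ι) : ∃ K : ℝ, 0 ≤ K ∧ ∀ u : SmS D,
    |∫ z, D.ed u.1 u.1 z ∂(μHE[n] : Measure M) -
      ∫ z, ∑ a, ‖D.cv u.1 a z‖ ^ 2 ∂(μHE[n] : Measure M)| ≤ K * ‖cH D u‖ ^ 2 := by
  obtain ⟨K, hK0, hK⟩ := bd_Z0 (n := n) (κ := ι) (κ' := ι) (c := D.Q)
    fun a b => (D.smQ a b).continuous
  refine ⟨K, hK0, fun u => ?_⟩
  have h1 : Continuous (D.ed u.1 u.1) := (smooth_ed D u.2.1 u.2.1).continuous
  have h2 : Continuous fun z => ∑ a, ‖D.cv u.1 a z‖ ^ 2 :=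
    cont_nsq fun a => smF_cv D u.2.1 a
  rw [← integral_sub (intg h1) (intg h2)]
  have e : (fun z => D.ed u.1 u.1 z - ∑ a, ‖D.cv u.1 a z‖ ^ 2) = Z0 D.Q u.1 u.1 := by
    funext z
    unfold Dat.ed Z0
    simp only [real_inner_self_eq_norm_sq, add_sub_cancel_left]
    exact Finset.sum_congr rfl fun a _ => Finset.sum_congr rfl fun b _ => by ring
  have h3 := hK u.1 u.1 u.2.1 u.2.1
  rw [← e, ← norm_cH_eq] at h3
  refine h3.trans (le_of_eq ?_)
  ring

theorem en_le {ι : Type} [Fintype ι] (D : Dat n M ι) : ∃ K : ℝ, 0 ≤ K ∧ ∀ u : SmS D,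
    √(∫ z, ∑ a, ‖D.cv u.1 a z‖ ^ 2 ∂(μHE[n] : Measure M)) ≤ K * ‖cW D u‖ := by
  obtain ⟨K, hK0, hK⟩ := ed_cmp D
  set Q : ℝ := ‖D.toAD.form.a‖ + K * ‖D.toAD.jj‖ ^ 2 with hQ
  have hQ0 : 0 ≤ Q := by positivity
  refine ⟨√Q, Real.sqrt_nonneg _, fun u => ?_⟩
  have h1 := (abs_le.1 (hK u)).1
  have h2 := form_cW D u u
  have h3 : D.toAD.form.a (cW D u) (cW D u) ≤ ‖D.toAD.form.a‖ * ‖cW D u‖ ^ 2 := by
    refine (le_abs_self _).trans ?_
    refine ((D.toAD.form.a (cW D u)).le_opNorm (cW D u)).trans ?_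
    have h := mul_le_mul_of_nonneg_right (D.toAD.form.a.le_opNorm (cW D u))
      (norm_nonneg (cW D u))
    refine h.trans (le_of_eq ?_)
    ring
  have h4 : ‖cH D u‖ ≤ ‖D.toAD.jj‖ * ‖cW D u‖ := by
    rw [← jj_cW]
    exact D.toAD.jj.le_opNorm _
  have h5 : ‖cH D u‖ ^ 2 ≤ ‖D.toAD.jj‖ ^ 2 * ‖cW D u‖ ^ 2 := by
    rw [← mul_pow]
    exact pow_le_pow_left₀ (norm_nonneg _) h4 2
  have h6 : 0 ≤ D.toAD.shift * ip n u.1 u.1 := by
    rw [← inner_cH, real_inner_self_eq_norm_sq]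
    exact mul_nonneg D.toAD.shift_nonneg (sq_nonneg _)
  have h7 : ∫ z, ∑ a, ‖D.cv u.1 a z‖ ^ 2 ∂(μHE[n] : Measure M) ≤ Q * ‖cW D u‖ ^ 2 :=
    ar1 hK0 h1 h2 h3 h5 h6
  have h9 : √Q * ‖cW D u‖ = √(Q * ‖cW D u‖ ^ 2) := by
    rw [Real.sqrt_mul hQ0, Real.sqrt_sq (norm_nonneg _)]
  rw [h9]
  exact Real.sqrt_le_sqrt h7

theorem le_en {ι : Type} [Fintype ι] (D : Dat n M ι) : ∃ K : ℝ, 0 ≤ K ∧ ∀ u : SmS D,
    ‖cW D u‖ ^ 2 ≤ K * (∫ z, ∑ a, ‖D.cv u.1 a z‖ ^ 2 ∂(μHE[n] : Measure M) +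
      ∫ z, ∑ a, u.1 a z ^ 2 ∂(μHE[n] : Measure M)) := by
  obtain ⟨K, hK0, hK⟩ := ed_cmp D
  have hc := D.toAD.form.c_pos
  have hs := D.toAD.shift_nonneg
  refine ⟨(K + D.toAD.shift + 1) / D.toAD.form.c, by positivity, fun u => ?_⟩
  have h1 := (abs_le.1 (hK u)).2
  have h2 := form_cW D u u
  have h3 := D.toAD.form.coer (cW D u)
  have h4 : ip n u.1 u.1 = ‖cH D u‖ ^ 2 := by rw [← inner_cH, real_inner_self_eq_norm_sq]
  have h5 : ‖D.toAD.jj (cW D u)‖ ^ 2 = ‖cH D u‖ ^ 2 := by rw [jj_cW]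
  have h6 : 0 ≤ ∫ z, ∑ a, ‖D.cv u.1 a z‖ ^ 2 ∂(μHE[n] : Measure M) :=
    integral_nonneg fun z => Finset.sum_nonneg fun a _ => sq_nonneg _
  rw [← norm_cH_sq, div_mul_eq_mul_div, le_div_iff₀ hc]
  have h8 : D.toAD.form.c * ‖cW D u‖ ^ 2 ≤
      D.toAD.form.a (cW D u) (cW D u) + ‖D.toAD.jj (cW D u)‖ ^ 2 := h3
  rw [h5] at h8
  rw [h4] at h2
  rw [mul_comm]
  exact ar2 hK0 hs h6 h1 h2 h8

end

end Crest.Agent.R235.RcQ_215
end

-- ▼ part R235/RcQc_215

/-!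
Row 235 (S0364), PACKAGE FAM, RCMAN, piece (P2), part 3 (helper215): the bounded operators
`W^{1,2}(D0) → W^{1,2}(D1)`, `W^{1,2}(D1) → W^{1,2}(D0)` and the commutator estimate.
-/

set_option autoImplicit false
set_option maxSynthPendingDepth 3
set_option linter.unusedSectionVars false

open scoped ContDiff ENNReal NNReal Topology Manifold Bundle RealInnerProductSpace
open MeasureTheory Set Filter Metric Bundle

universe v

namespace Crest.Agent.R235.RcQ_215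

open Crest.Agent.R249.Tv57 Crest.Agent.R247.Ms322 Crest.Agent.R247.Dir593
open Crest.Agent.R247.Frd657 Crest.Agent.R235.Fs4_546

noncomputable section

variable {n : ℕ} {M : Type v} [MetricSpace M] [ChartedSpace (EuclideanSpace ℝ (Fin n)) M]
  [IsManifold (𝓡 n) ∞ M]
  [RiemannianBundle (fun p : M => TangentSpace (𝓡 n) p)]
  [IsContMDiffRiemannianBundle (𝓡 n) ∞ (EuclideanSpace ℝ (Fin n)) (fun p : M => TangentSpace (𝓡 n) p)]
  [IsRiemannianManifold (𝓡 n) M] [MeasurableSpace M] [BorelSpace M]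
  [SecondCountableTopology M] [Nonempty M] [CompactSpace M]
  [IsFiniteMeasureOnCompacts (μHE[n] : Measure M)]
  {κ κ' : Type} [Fintype κ] [Fintype κ']
  {D0 : Dat n M κ} {D1 : Dat n M κ'} {β : κ' → κ → M → ℝ}

/-- a smooth bundle map `D0 → D1`. -/
structure BMap (D0 : Dat n M κ) (D1 : Dat n M κ') (β : κ' → κ → M → ℝ) : Prop where
  sm : ∀ x y, ContMDiff (𝓡 n) 𝓘(ℝ, ℝ) ∞ (β x y)
  p1 : ∀ x y z, ∑ x', D1.p x x' z * β x' y z = β x y z
  p0 : ∀ x y z, ∑ y', β x y' z * D0.p y' y z = β x y z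

/-- the transposed map. -/
def tr (β : κ' → κ → M → ℝ) : κ → κ' → M → ℝ := fun y x z => β x y z

theorem BMap.tr (h : BMap D0 D1 β) : BMap D1 D0 (tr β) where
  sm y x := h.sm x y
  p1 y x z := by
    show ∑ y', D0.p y y' z * β x y' z = β x y z
    rw [← h.p0 x y z]
    exact Finset.sum_congr rfl fun y' _ => by rw [D0.symmp y y' z, mul_comm]
  p0 y x z := by
    show ∑ x', β x' y z * D1.p x' x z = β x y z
    rw [← h.p1 x y z]
    exact Finset.sum_congr rfl fun x' _ => by rw [D1.symmp x' x z, mul_comm]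


/-- the map on smooth sections. -/
def bS (h : BMap D0 D1 β) : SmS D0 →ₗ[ℝ] SmS D1 where
  toFun u := ⟨bU β u.1, sm_bU h.sm u.2.1, fun x z => by
    show ∑ x', D1.p x x' z * ∑ y, β x' y z * u.1 y z = ∑ y, β x y z * u.1 y z
    simp only [Finset.mul_sum]
    rw [Finset.sum_comm]
    refine Finset.sum_congr rfl fun y _ => ?_
    rw [← h.p1 x y z, Finset.sum_mul]
    exact Finset.sum_congr rfl fun x' _ => by ring⟩
  map_add' u v := Subtype.ext (by
    funext x z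
    show ∑ y, β x y z * (u.1 y z + v.1 y z) = ∑ y, β x y z * u.1 y z + ∑ y, β x y z * v.1 y z
    rw [← Finset.sum_add_distrib]
    exact Finset.sum_congr rfl fun y _ => by ring)
  map_smul' c u := Subtype.ext (by
    funext x z
    show ∑ y, β x y z * (c * u.1 y z) = c * ∑ y, β x y z * u.1 y z
    rw [Finset.mul_sum]
    exact Finset.sum_congr rfl fun y _ => by ring)


/-- the map is bounded on `W^{1,2}`. -/
theorem exists_bd_bS (h : BMap D0 D1 β) : ∃ K : ℝ, ∀ u : SmS D0,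
    ‖((cW D1).comp (bS h)) u‖ ≤ K * ‖cW D0 u‖ := by
  obtain ⟨K1, hK1, hE1⟩ := le_en (n := n) D1
  obtain ⟨K0, hK0, hE0⟩ := en_le (n := n) D0
  obtain ⟨B, hB0, hB⟩ := exists_bd (c := β) fun x y => (h.sm x y).continuous
  obtain ⟨B', hB0', hB'⟩ := exists_bdF (N := NN D0 D1 β) fun x y => smF_NN h.sm x y
  set c0 : ℝ := (Fintype.card κ' : ℝ) with hc0
  set c1' : ℝ := (Fintype.card κ : ℝ) with hc1
  have hc0' : 0 ≤ c0 := by positivity
  have hc1' : 0 ≤ c1' := by positivity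
  -- pointwise
  have p1 : ∀ (u : SmS D0) (x : κ') (z : M), ‖D1.cv (bU β u.1) x z‖ ^ 2 ≤
      2 * (c1' * B) ^ 2 * (∑ y, ‖D0.cv u.1 y z‖ ^ 2) +
        2 * (c1' * B') ^ 2 * ∑ y, u.1 y z ^ 2 := by
    intro u x z
    rw [cv_bU (D0 := D0) h.sm u.2.1]
    have h1 : ‖∑ y, β x y z • D0.cv u.1 y z‖ ≤ c1' * B * √(∑ y, ‖D0.cv u.1 y z‖ ^ 2) := by
      refine (norm_sum_le _ _).trans ?_
      have : c1' * B * √(∑ y, ‖D0.cv u.1 y z‖ ^ 2) =
          ∑ _y : κ, B * √(∑ y, ‖D0.cv u.1 y z‖ ^ 2) := by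
        rw [Finset.sum_const, Finset.card_univ, nsmul_eq_mul]
        ring
      rw [this]
      refine Finset.sum_le_sum fun y _ => ?_
      rw [norm_smul, Real.norm_eq_abs]
      exact mul_le_mul (hB x y z) (norm_le_sq (fun y => D0.cv u.1 y z) y) (norm_nonneg _) hB0
    have h2 : ‖∑ y, u.1 y z • NN D0 D1 β x y z‖ ≤ c1' * B' * √(∑ y, u.1 y z ^ 2) := by
      refine (norm_sum_le _ _).trans ?_
      have : c1' * B' * √(∑ y, u.1 y z ^ 2) = ∑ _y : κ, √(∑ y, u.1 y z ^ 2) * B' := by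
        rw [Finset.sum_const, Finset.card_univ, nsmul_eq_mul]
        ring
      rw [this]
      refine Finset.sum_le_sum fun y _ => ?_
      rw [norm_smul, Real.norm_eq_abs]
      exact mul_le_mul (abs_le_sq (fun y => u.1 y z) y) (hB' x y z) (norm_nonneg _)
        (Real.sqrt_nonneg _)
    have h3 := (norm_add_le (∑ y, β x y z • D0.cv u.1 y z)
      (∑ y, u.1 y z • NN D0 D1 β x y z)).trans (add_le_add h1 h2)
    have h4 := pow_le_pow_left₀ (norm_nonneg _) h3 2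
    refine h4.trans ?_
    have e1 : 0 ≤ ∑ y, ‖D0.cv u.1 y z‖ ^ 2 := Finset.sum_nonneg fun y _ => sq_nonneg _
    have e2 : 0 ≤ ∑ y, u.1 y z ^ 2 := Finset.sum_nonneg fun y _ => sq_nonneg _
    have e3 := Real.sq_sqrt e1
    have e4 := Real.sq_sqrt e2
    generalize √(∑ y, ‖D0.cv u.1 y z‖ ^ 2) = s1 at *
    generalize √(∑ y, u.1 y z ^ 2) = s2 at *
    rw [← e3, ← e4]
    nlinarith [sq_nonneg (c1' * B * s1 - c1' * B' * s2)]
  have p2 : ∀ (u : SmS D0) (x : κ') (z : M), bU β u.1 x z ^ 2 ≤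
      (c1' * B) ^ 2 * ∑ y, u.1 y z ^ 2 := by
    intro u x z
    have h1 : |bU β u.1 x z| ≤ c1' * B * √(∑ y, u.1 y z ^ 2) := by
      unfold bU
      refine (Finset.abs_sum_le_sum_abs _ _).trans ?_
      have : c1' * B * √(∑ y, u.1 y z ^ 2) = ∑ _y : κ, B * √(∑ y, u.1 y z ^ 2) := by
        rw [Finset.sum_const, Finset.card_univ, nsmul_eq_mul]
        ring
      rw [this]
      refine Finset.sum_le_sum fun y _ => ?_
      rw [abs_mul]
      exact mul_le_mul (hB x y z) (abs_le_sq (fun y => u.1 y z) y) (abs_nonneg _) hB0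
    have h2 := pow_le_pow_left₀ (abs_nonneg _) h1 2
    rw [sq_abs, mul_pow, Real.sq_sqrt (Finset.sum_nonneg fun y _ => sq_nonneg _)] at h2
    exact h2
  -- integrals
  set Q1 : ℝ := c0 * (2 * (c1' * B) ^ 2) with hQ1
  set Q2 : ℝ := c0 * (2 * (c1' * B') ^ 2) + c0 * (c1' * B) ^ 2 with hQ2
  have hQ10 : 0 ≤ Q1 := by positivity
  have hQ20 : 0 ≤ Q2 := by positivity
  refine ⟨√(K1 * (Q1 * K0 ^ 2 + Q2 * ‖D0.toAD.jj‖ ^ 2)), fun u => ?_⟩
  have i1 : ∫ z, ∑ x, ‖D1.cv (bU β u.1) x z‖ ^ 2 ∂(μHE[n] : Measure M) +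
      ∫ z, ∑ x, bU β u.1 x z ^ 2 ∂(μHE[n] : Measure M) ≤
      Q1 * ∫ z, ∑ y, ‖D0.cv u.1 y z‖ ^ 2 ∂(μHE[n] : Measure M) +
        Q2 * ∫ z, ∑ y, u.1 y z ^ 2 ∂(μHE[n] : Measure M) := by
    have cA : Continuous fun z => ∑ x, ‖D1.cv (bU β u.1) x z‖ ^ 2 :=
      cont_nsq fun x => smF_cv D1 (sm_bU h.sm u.2.1) x
    have cB : Continuous fun z => ∑ x, bU β u.1 x z ^ 2 := cont_sq (sm_bU h.sm u.2.1)
    have cC : Continuous fun z => ∑ y, ‖D0.cv u.1 y z‖ ^ 2 :=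
      cont_nsq fun x => smF_cv D0 u.2.1 x
    have cD : Continuous fun z => ∑ y, u.1 y z ^ 2 := cont_sq u.2.1
    rw [← integral_const_mul, ← integral_const_mul, ← integral_add (intg cA) (intg cB),
      ← integral_add ((intg cC).const_mul _) ((intg cD).const_mul _)]
    refine integral_mono ((intg cA).add (intg cB)) (((intg cC).const_mul _).add
      ((intg cD).const_mul _)) fun z => ?_
    show ∑ x, ‖D1.cv (bU β u.1) x z‖ ^ 2 + ∑ x, bU β u.1 x z ^ 2 ≤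
      Q1 * ∑ y, ‖D0.cv u.1 y z‖ ^ 2 + Q2 * ∑ y, u.1 y z ^ 2
    have s1 := Finset.sum_le_sum fun (x : κ') (_ : x ∈ Finset.univ) => p1 u x z
    have s2 := Finset.sum_le_sum fun (x : κ') (_ : x ∈ Finset.univ) => p2 u x z
    simp only [Finset.sum_const, Finset.card_univ, nsmul_eq_mul, ← hc0] at s1 s2
    refine (add_le_add s1 s2).trans (le_of_eq ?_)
    rw [hQ1, hQ2]
    ring
  have i2 : √(∫ z, ∑ y, ‖D0.cv u.1 y z‖ ^ 2 ∂(μHE[n] : Measure M)) ≤ K0 * ‖cW D0 u‖ := hE0 u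
  have i3 : ∫ z, ∑ y, ‖D0.cv u.1 y z‖ ^ 2 ∂(μHE[n] : Measure M) ≤ K0 ^ 2 * ‖cW D0 u‖ ^ 2 := by
    have h1 := pow_le_pow_left₀ (Real.sqrt_nonneg _) i2 2
    rw [Real.sq_sqrt (integral_nonneg fun z => Finset.sum_nonneg fun y _ => sq_nonneg _),
      mul_pow] at h1
    exact h1
  have i4 : ∫ z, ∑ y, u.1 y z ^ 2 ∂(μHE[n] : Measure M) ≤
      ‖D0.toAD.jj‖ ^ 2 * ‖cW D0 u‖ ^ 2 := by
    rw [← norm_cH_sq, ← mul_pow, ← jj_cW]
    exact pow_le_pow_left₀ (norm_nonneg _) (D0.toAD.jj.le_opNorm _) 2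
  have i5 : ‖cW D1 (bS h u)‖ ^ 2 ≤
      K1 * (Q1 * K0 ^ 2 + Q2 * ‖D0.toAD.jj‖ ^ 2) * ‖cW D0 u‖ ^ 2 := by
    refine (hE1 (bS h u)).trans ?_
    refine (mul_le_mul_of_nonneg_left i1 hK1).trans ?_
    have e2 := add_le_add (mul_le_mul_of_nonneg_left i3 hQ10)
      (mul_le_mul_of_nonneg_left i4 hQ20)
    refine (mul_le_mul_of_nonneg_left e2 hK1).trans (le_of_eq ?_)
    ring
  have hQ : 0 ≤ K1 * (Q1 * K0 ^ 2 + Q2 * ‖D0.toAD.jj‖ ^ 2) := by positivity
  have e1 : √(K1 * (Q1 * K0 ^ 2 + Q2 * ‖D0.toAD.jj‖ ^ 2)) * ‖cW D0 u‖ =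
      √(K1 * (Q1 * K0 ^ 2 + Q2 * ‖D0.toAD.jj‖ ^ 2) * ‖cW D0 u‖ ^ 2) := by
    rw [Real.sqrt_mul hQ, Real.sqrt_sq (norm_nonneg _)]
  rw [e1]
  exact Real.le_sqrt_of_sq_le i5

/-- the bounded operator. -/
def BW (h : BMap D0 D1 β) : D0.toAD.WE →L[ℝ] D1.toAD.WE :=
  ((cW D1).comp (bS h)).extendOfNorm (cW D0)

theorem BW_cW (hd : Dns D0) (h : BMap D0 D1 β) (u : SmS D0) :
    BW h (cW D0 u) = cW D1 (bS h u) :=
  LinearMap.extendOfNorm_eq hd (exists_bd_bS h) u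

theorem jj_BW (hd : Dns D0) (h : BMap D0 D1 β) {CB : D0.toAD.HE →L[ℝ] D1.toAD.HE}
    (hC : ∀ u : SmS D0, CB (cH D0 u) = cH D1 (bS h u)) (v : D0.toAD.WE) :
    D1.toAD.jj (BW h v) = CB (D0.toAD.jj v) := by
  have h1 : Continuous fun v => D1.toAD.jj (BW h v) := by fun_prop
  have h2 : Continuous fun v => CB (D0.toAD.jj v) := by fun_prop
  refine congrFun (hd.equalizer h1 h2 ?_) v
  funext u
  show D1.toAD.jj (BW h (cW D0 u)) = CB (D0.toAD.jj (cW D0 u))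
  rw [BW_cW hd, jj_cW, jj_cW, hC]

/-! ### the commutator -/

variable {P : OpPair D0 D1}

/-- the commutator on smooth sections. -/
def TT (P : OpPair D0 D1) (h : BMap D0 D1 β) (u : SmS D0) (w : SmS D1) : ℝ :=
  ⟪cH D0 (lA P.swap (bS h u)), cH D0 (lA P.swap w)⟫ -
    ⟪cH D1 (lA P u), cH D1 (lA P (bS h.tr w))⟫

theorem TT_eq (h : BMap D0 D1 β) (u : SmS D0) (w : SmS D1) : TT P h u w =
    ∫ z, (R1 (NN D0 D1 β) u.1 (D1.cv w.1) z - R2 (NN D0 D1 β) w.1 (D0.cv u.1) z +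
        Z0 (c1 D0 D1 β) u.1 w.1 z) ∂(μHE[n] : Measure M) := by
  have e1 : ⟪cH D0 (lA P.swap (bS h u)), cH D0 (lA P.swap w)⟫ =
      ∫ z, D1.ed (bU β u.1) w.1 z ∂(μHE[n] : Measure M) := by
    rw [inner_cH]
    exact (P.enB _ _ (bS h u).2.1 (bS h u).2.2 w.2.1 w.2.2).symm
  have e2 : ⟪cH D1 (lA P u), cH D1 (lA P (bS h.tr w))⟫ =
      ∫ z, D0.ed u.1 (bT β w.1) z ∂(μHE[n] : Measure M) := by
    rw [inner_cH]
    exact (P.enA _ _ u.2.1 u.2.2 (bS h.tr w).2.1 (bS h.tr w).2.2).symm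
  unfold TT
  rw [e1, e2, ← integral_sub
    (intg (smooth_ed D1 (sm_bU h.sm u.2.1) w.2.1).continuous)
    (intg (smooth_ed D0 u.2.1 (sm_bT h.sm w.2.1)).continuous)]
  exact integral_congr_ae (Eventually.of_forall fun z => ed_diff h.sm u.2.1 w.2.1 z)

theorem TT_split (h : BMap D0 D1 β) (u : SmS D0) (w : SmS D1) : TT P h u w =
    ∫ z, R1 (NN D0 D1 β) u.1 (D1.cv w.1) z ∂(μHE[n] : Measure M) -
      ∫ z, R2 (NN D0 D1 β) w.1 (D0.cv u.1) z ∂(μHE[n] : Measure M) +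
      ∫ z, Z0 (c1 D0 D1 β) u.1 w.1 z ∂(μHE[n] : Measure M) := by
  have hN : ∀ x y, SmF (NN D0 D1 β x y) := fun x y => smF_NN h.sm x y
  have cc1 : ∀ x y, Continuous (c1 D0 D1 β x y) := fun x y =>
    (continuous_finsetSum _ fun x' _ => (D1.smQ x x').continuous.mul (h.sm x' y).continuous).sub
      (continuous_finsetSum _ fun y' _ => (D0.smQ y' y).continuous.mul (h.sm x y').continuous)
  have cR1 := cont_R1 hN u.2.1 fun x => smF_cv D1 w.2.1 x
  have cR2 := cont_R2 hN w.2.1 fun x => smF_cv D0 u.2.1 x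
  have cZ : Continuous (Z0 (c1 D0 D1 β) u.1 w.1) :=
    continuous_finsetSum _ fun x _ => continuous_finsetSum _ fun y _ =>
      (cc1 x y).mul ((u.2.1 y).continuous.mul (w.2.1 x).continuous)
  have k1 : Integrable (fun z => R1 (NN D0 D1 β) u.1 (D1.cv w.1) z) (μHE[n] : Measure M) :=
    intg cR1
  have k2 : Integrable (fun z => R2 (NN D0 D1 β) w.1 (D0.cv u.1) z) (μHE[n] : Measure M) :=
    intg cR2
  have k3 : Integrable (fun z => Z0 (c1 D0 D1 β) u.1 w.1 z) (μHE[n] : Measure M) := intg cZ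
  have k4 : Integrable (fun z => R1 (NN D0 D1 β) u.1 (D1.cv w.1) z -
    R2 (NN D0 D1 β) w.1 (D0.cv u.1) z) (μHE[n] : Measure M) := k1.sub k2
  rw [TT_eq, integral_add k4 k3, integral_sub k1 k2]

theorem arith1 {t r1 r2 z1 z2 K1 K2 K3 K4 E0 E1 h0 h1 w0 j0 j1 : ℝ} (hT : t = r1 - r2 + z1)
    (hI : r1 + r2 = z2) (hK1 : 0 ≤ K1) (hK3 : 0 ≤ K3) (hK4 : 0 ≤ K4) (hE1 : 0 ≤ E1)
    (a1 : 0 ≤ h1) (a2 : 0 ≤ w0) (a5 : 0 ≤ j1) (n0 : h0 ≤ j0 * w0)
    (b2' : |r2| ≤ K2 * (h1 * (E0 * w0))) (b3 : |z2| ≤ K3 * (h0 * h1))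
    (b4 : |z1| ≤ K4 * (h0 * h1)) :
    |t| ≤ (2 * K1 * E1 + 2 * K2 * E0 + (K3 + K4) * (j0 + j1)) * (w0 * h1) := by
  have e : t = -2 * r2 + z2 + z1 := by linarith
  have f1 : |t| ≤ 2 * |r2| + |z2| + |z1| := by
    rw [e]
    refine (abs_add_le _ _).trans (add_le_add ((abs_add_le _ _).trans (add_le_add ?_ le_rfl))
      le_rfl)
    rw [abs_mul]
    norm_num
  have g1 : h0 * h1 ≤ j0 * (w0 * h1) := by
    calc h0 * h1 ≤ (j0 * w0) * h1 := mul_le_mul_of_nonneg_right n0 a1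
      _ = j0 * (w0 * h1) := by ring
  have g2 : 0 ≤ w0 * h1 := mul_nonneg a2 a1
  have g3 := mul_le_mul_of_nonneg_left g1 hK3
  have g4 := mul_le_mul_of_nonneg_left g1 hK4
  have g5 : 0 ≤ K1 * E1 * (w0 * h1) := mul_nonneg (mul_nonneg hK1 hE1) g2
  have g6 : 0 ≤ (K3 + K4) * j1 * (w0 * h1) :=
    mul_nonneg (mul_nonneg (add_nonneg hK3 hK4) a5) g2
  have g7 : (2 * K1 * E1 + 2 * K2 * E0 + (K3 + K4) * (j0 + j1)) * (w0 * h1) =
      2 * (K1 * E1 * (w0 * h1)) + 2 * (K2 * (h1 * (E0 * w0))) + K3 * (j0 * (w0 * h1)) +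
        K4 * (j0 * (w0 * h1)) + (K3 + K4) * j1 * (w0 * h1) := by ring
  rw [g7]
  linarith

theorem bd_TT (P : OpPair D0 D1) (h : BMap D0 D1 β) : ∃ K : ℝ, 0 ≤ K ∧
    ∀ (u : SmS D0) (w : SmS D1), |TT P h u w| ≤ K * (‖cW D0 u‖ * ‖cH D1 w‖) ∧
      |TT P h u w| ≤ K * (‖cH D0 u‖ * ‖cW D1 w‖) := by
  have hN : ∀ x y, SmF (NN D0 D1 β x y) := fun x y => smF_NN h.sm x y
  obtain ⟨c, hc, hint⟩ := int_R (D0 := D0) (D1 := D1) hN
  have cc1 : ∀ x y, Continuous (c1 D0 D1 β x y) := fun x y =>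
    (continuous_finsetSum _ fun x' _ => (D1.smQ x x').continuous.mul (h.sm x' y).continuous).sub
      (continuous_finsetSum _ fun y' _ => (D0.smQ y' y).continuous.mul (h.sm x y').continuous)
  obtain ⟨K1, hK1, hB1⟩ := bd_R1 hN
  obtain ⟨K2, hK2, hB2⟩ := bd_R2 hN
  obtain ⟨K3, hK3, hB3⟩ := bd_Z0 (n := n) hc
  obtain ⟨K4, hK4, hB4⟩ := bd_Z0 (n := n) cc1
  obtain ⟨E0, hE0, hEn0⟩ := en_le (n := n) D0
  obtain ⟨E1, hE1, hEn1⟩ := en_le (n := n) D1
  refine ⟨2 * K1 * E1 + 2 * K2 * E0 + (K3 + K4) * (‖D0.toAD.jj‖ + ‖D1.toAD.jj‖), by positivity,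
    fun u w => ?_⟩
  have hT := TT_split (P := P) h u w
  have hI := hint u.1 w.1 u.2.1 w.2.1
  have b1 := hB1 u.1 (D1.cv w.1) u.2.1 fun x => smF_cv D1 w.2.1 x
  have b2 := hB2 w.1 (D0.cv u.1) w.2.1 fun x => smF_cv D0 u.2.1 x
  have b3 := hB3 u.1 w.1 u.2.1 w.2.1
  have b4 := hB4 u.1 w.1 u.2.1 w.2.1
  rw [← norm_cH_eq D0 u, ← norm_cH_eq D1 w] at b3 b4
  rw [← norm_cH_eq D0 u] at b1
  rw [← norm_cH_eq D1 w] at b2
  have n0 : ‖cH D0 u‖ ≤ ‖D0.toAD.jj‖ * ‖cW D0 u‖ := by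
    rw [← jj_cW]
    exact D0.toAD.jj.le_opNorm _
  have n1 : ‖cH D1 w‖ ≤ ‖D1.toAD.jj‖ * ‖cW D1 w‖ := by
    rw [← jj_cW]
    exact D1.toAD.jj.le_opNorm _
  have b1' := b1.trans (mul_le_mul_of_nonneg_left (mul_le_mul_of_nonneg_left (hEn1 w)
    (norm_nonneg (cH D0 u))) hK1)
  have b2' := b2.trans (mul_le_mul_of_nonneg_left (mul_le_mul_of_nonneg_left (hEn0 u)
    (norm_nonneg (cH D1 w))) hK2)
  have a0 : 0 ≤ ‖cH D0 u‖ := norm_nonneg _
  have a1 : 0 ≤ ‖cH D1 w‖ := norm_nonneg _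
  have a2 : 0 ≤ ‖cW D0 u‖ := norm_nonneg _
  have a3 : 0 ≤ ‖cW D1 w‖ := norm_nonneg _
  have a4 : 0 ≤ ‖D0.toAD.jj‖ := norm_nonneg _
  have a5 : 0 ≤ ‖D1.toAD.jj‖ := norm_nonneg _
  refine ⟨arith1 hT hI hK1 hK3 hK4 hE1 a1 a2 a5 n0 b2' b3 b4, ?_⟩
  have hT' : -TT P h u w = ∫ z, R2 (NN D0 D1 β) w.1 (D0.cv u.1) z ∂(μHE[n] : Measure M) -
      ∫ z, R1 (NN D0 D1 β) u.1 (D1.cv w.1) z ∂(μHE[n] : Measure M) +
      -∫ z, Z0 (c1 D0 D1 β) u.1 w.1 z ∂(μHE[n] : Measure M) := by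
    rw [hT]; ring
  rw [add_comm] at hI
  rw [mul_comm ‖cH D0 u‖ ‖cH D1 w‖] at b3 b4
  rw [← abs_neg] at b4
  have := arith1 hT' hI hK2 hK3 hK4 hE0 a0 a3 a4 n1 b1' b3 b4
  rw [abs_neg] at this
  refine this.trans (le_of_eq ?_)
  ring

end

end Crest.Agent.R235.RcQ_215
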