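import Crest.Agent.R235.NWRegA_847
import Crest.Agent.R235.NWHol_952
import Crest.Agent.R235.NWKPT_133

-- ▼ part R235/NWRegB_847
section

/-!
Row 235, PACKAGE NW (helper847), leaf R1, part B: scaling and localisation of the weak derivative
data `WD`.
-/

set_option autoImplicit false
set_option linter.unusedSectionVars false

namespace Crest.Agent.R235.NWRegB_847

open Set Metric MeasureTheory Filter Topology
open scoped ContDiff NNReal ENNReal Real ComplexConjugate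
open Crest.Agent.R235.NWDefs_334 Crest.Agent.R235.NWIface_334 Crest.Agent.R235.NWRegA_847

noncomputable section

variable {E : Type} [NormedAddCommGroup E] [NormedSpace ℂ E]

lemma preim_ball {ρ : ℝ} (hρ : 0 < ρ) (r : ℝ) :
    (fun z : ℂ => ρ • z) ⁻¹' ball 0 r = ball 0 (r / ρ) := by
  ext z
  rw [mem_preimage, mem_ball_zero_iff, mem_ball_zero_iff, norm_smul, Real.norm_of_nonneg hρ.le,
    lt_div_iff₀ hρ, mul_comm]

lemma map_restrict {ρ : ℝ} (hρ : 0 < ρ) (r : ℝ) :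
    Measure.map (fun z : ℂ => ρ • z) (volume.restrict (ball 0 (r / ρ))) =
      ENNReal.ofReal |(ρ ^ Module.finrank ℝ ℂ)⁻¹| • volume.restrict (ball (0:ℂ) r) := by
  have hm : Measurable fun z : ℂ => ρ • z := measurable_const_smul ρ
  rw [← preim_ball hρ r, ← Measure.restrict_map hm isOpen_ball.measurableSet,
    Measure.map_addHaar_smul (volume : Measure ℂ) hρ.ne', Measure.restrict_smul]

lemma memLp_scale {p : ℂ → E} {r : ℝ} (h : MemLp p 2 (volume.restrict (ball 0 r))) {ρ : ℝ}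
    (hρ : 0 < ρ) : MemLp (fun z => ρ • p (ρ • z)) 2 (volume.restrict (ball 0 (r / ρ))) := by
  have hm : Measurable fun z : ℂ => ρ • z := measurable_const_smul ρ
  have h1 : MemLp p 2 (Measure.map (fun z : ℂ => ρ • z) (volume.restrict (ball 0 (r / ρ)))) := by
    rw [map_restrict hρ]
    exact h.smul_measure ENNReal.ofReal_ne_top
  exact (h1.comp_of_map hm.aemeasurable).const_smul ρ

lemma fderiv_scale {φ : ℂ → ℂ} (hφ : Differentiable ℝ φ) (ρ : ℝ) (z v : ℂ) :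
    fderiv ℝ (fun y => φ (ρ • y)) z v = (ρ : ℂ) * fderiv ℝ φ (ρ • z) v := by
  have h1 : HasFDerivAt (fun y : ℂ => φ (ρ • y)) ((fderiv ℝ φ (ρ • z)).comp
      (ρ • ContinuousLinearMap.id ℝ ℂ)) z :=
    ((hφ _).hasFDerivAt).comp z ((ρ • ContinuousLinearMap.id ℝ ℂ).hasFDerivAt)
  rw [h1.fderiv]
  simp

lemma dz_scale {φ : ℂ → ℂ} (hφ : Differentiable ℝ φ) (ρ : ℝ) (z : ℂ) :
    dz (fun y => φ (ρ • y)) z = (ρ : ℂ) * dz φ (ρ • z) := by
  rw [dz_apply, dz_apply, fderiv_scale hφ, fderiv_scale hφ]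
  simp only [smul_eq_mul]
  ring

lemma dzb_scale {φ : ℂ → ℂ} (hφ : Differentiable ℝ φ) (ρ : ℝ) (z : ℂ) :
    dzb (fun y => φ (ρ • y)) z = (ρ : ℂ) * dzb φ (ρ • z) := by
  rw [dzb_apply, dzb_apply, fderiv_scale hφ, fderiv_scale hφ]
  simp only [smul_eq_mul]
  ring

/-- scaling of `WD` -/
theorem scale {f p q : ℂ → E} {r : ℝ} (h : WD f p q r) {ρ : ℝ} (hρ : 0 < ρ) :
    WD (fun z => f (ρ • z)) (fun z => ρ • p (ρ • z)) (fun z => ρ • q (ρ • z)) (r / ρ) := by
  refine ⟨?_, memLp_scale h.memp hρ, memLp_scale h.memq hρ, fun φ hφ hφc hφs => ?_⟩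
  · refine h.cont.comp (continuous_const_smul ρ).continuousOn fun z hz => ?_
    rw [← preim_ball hρ r] at hz
    exact hz
  · set Ψ : ℂ → ℂ := fun y => φ (ρ⁻¹ • y) with hΨ
    have hφd : Differentiable ℝ φ := hφ.differentiable (by simp)
    have hΨs : ContDiff ℝ ∞ Ψ := hφ.comp (contDiff_const_smul _)
    have hΨt : tsupport Ψ ⊆ ball 0 r := by
      have h1 : tsupport Ψ ⊆ (fun y : ℂ => ρ⁻¹ • y) ⁻¹' tsupport φ :=
        tsupport_comp_subset_preimage φ (continuous_const_smul ρ⁻¹)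
      refine h1.trans fun y hy => ?_
      have h2 : ρ⁻¹ • y ∈ ball (0:ℂ) (r / ρ) := hφs hy
      rw [← preim_ball hρ r, mem_preimage, smul_smul, mul_inv_cancel₀ hρ.ne', one_smul] at h2
      exact h2
    have hΨc : HasCompactSupport Ψ :=
      Metric.isCompact_of_isClosed_isBounded (isClosed_tsupport _) (isBounded_ball.subset hΨt)
    obtain ⟨w1, w2⟩ := h.weak Ψ hΨs hΨc hΨt
    have hρρ : ∀ z : ℂ, ρ⁻¹ • ρ • z = z := fun z => by
      rw [smul_smul, inv_mul_cancel₀ hρ.ne', one_smul]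
    have hc : ((ρ⁻¹ : ℝ) : ℂ) * (ρ : ℂ) = 1 := by
      rw [← Complex.ofReal_mul, inv_mul_cancel₀ hρ.ne', Complex.ofReal_one]
    have s1 := Measure.integral_comp_smul (volume : Measure ℂ) (fun y => dz Ψ y • f y) ρ
    have s2 := Measure.integral_comp_smul (volume : Measure ℂ) (fun y => dzb Ψ y • f y) ρ
    have s3 := Measure.integral_comp_smul (volume : Measure ℂ) (fun y => Ψ y • p y) ρ
    have s4 := Measure.integral_comp_smul (volume : Measure ℂ) (fun y => Ψ y • q y) ρ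
    have t1 : ∀ z : ℂ, dz Ψ (ρ • z) = ((ρ⁻¹ : ℝ) : ℂ) * dz φ z := fun z => by
      rw [hΨ, dz_scale hφd, hρρ]
    have t2 : ∀ z : ℂ, dzb Ψ (ρ • z) = ((ρ⁻¹ : ℝ) : ℂ) * dzb φ z := fun z => by
      rw [hΨ, dzb_scale hφd, hρρ]
    have t3 : ∀ z : ℂ, Ψ (ρ • z) = φ z := fun z => by rw [hΨ]; simp only; rw [hρρ]
    have e1 : ∀ z : ℂ, dz φ z • f (ρ • z) = (ρ : ℂ) • (dz Ψ (ρ • z) • f (ρ • z)) := by
      intro z
      rw [t1, smul_smul, ← mul_assoc, mul_comm (ρ : ℂ), hc, one_mul]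
    have e2 : ∀ z : ℂ, dzb φ z • f (ρ • z) = (ρ : ℂ) • (dzb Ψ (ρ • z) • f (ρ • z)) := by
      intro z
      rw [t2, smul_smul, ← mul_assoc, mul_comm (ρ : ℂ), hc, one_mul]
    have e3 : ∀ z : ℂ, φ z • (ρ • p (ρ • z)) = (ρ : ℂ) • (Ψ (ρ • z) • p (ρ • z)) := by
      intro z
      rw [t3, smul_comm (ρ : ℂ), Complex.coe_smul]
    have e4 : ∀ z : ℂ, φ z • (ρ • q (ρ • z)) = (ρ : ℂ) • (Ψ (ρ • z) • q (ρ • z)) := by
      intro z
      rw [t3, smul_comm (ρ : ℂ), Complex.coe_smul]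
    simp_rw [e1, e2, e3, e4]
    rw [integral_smul, integral_smul, integral_smul, integral_smul, s1, s2, s3, s4, w1, w2]
    constructor <;> simp

/-- continuity of a product supported in the ball -/
lemma cont_smul_of {F : ℂ → E} {R : ℝ} (hF : ContinuousOn F (ball 0 R)) {ψ : ℂ → ℂ}
    (hψ : Continuous ψ) (hs : tsupport ψ ⊆ ball 0 R) : Continuous fun z => ψ z • F z := by
  rw [continuous_iff_continuousAt]
  intro z
  by_cases hz : z ∈ ball (0:ℂ) R
  · exact hψ.continuousAt.smul (hF.continuousAt (isOpen_ball.mem_nhds hz))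
  · have h1 : z ∉ tsupport ψ := fun h => hz (hs h)
    have h2 : (fun z => ψ z • F z) =ᶠ[𝓝 z] fun _ => (0:E) := by
      filter_upwards [(isClosed_tsupport ψ).isOpen_compl.mem_nhds h1] with y hy
      rw [image_eq_zero_of_notMem_tsupport hy, zero_smul]
    exact (continuousAt_const (y := (0:E))).congr h2.symm

lemma tsup_dz (χ : ℂ → ℂ) : tsupport (dz χ) ⊆ tsupport χ := by
  refine closure_minimal (fun z hz => ?_) (isClosed_tsupport _)
  by_contra h
  refine hz ?_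
  rw [dz_apply, fderiv_of_notMem_tsupport ℝ h]
  simp

lemma tsup_dzb (χ : ℂ → ℂ) : tsupport (dzb χ) ⊆ tsupport χ := by
  refine closure_minimal (fun z hz => ?_) (isClosed_tsupport _)
  by_contra h
  refine hz ?_
  rw [dzb_apply, fderiv_of_notMem_tsupport ℝ h]
  simp

lemma memLp_glob {p : ℂ → E} {R : ℝ} (hp : MemLp p 2 (volume.restrict (ball 0 R))) {χ : ℂ → ℂ}
    (hχ : Continuous χ) (hs : tsupport χ ⊆ ball 0 R) : MemLp (fun z => χ z • p z) 2 volume := by
  have h3 : (ball (0:ℂ) R).indicator (fun z => χ z • p z) = fun z => χ z • p z := by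
    refine indicator_eq_self.2 fun z hz => ?_
    refine hs (subset_tsupport χ fun h => hz ?_)
    simp only
    rw [h, zero_smul]
  rw [← h3]
  exact (memLp_indicator_iff_restrict isOpen_ball.measurableSet).2 (memLp_smul hχ hp)

/-- localisation -/
theorem loc {F p q : ℂ → E} {R : ℝ} (h : WD F p q R) {χ : ℂ → ℂ} (hχ : ContDiff ℝ ∞ χ)
    (hs : tsupport χ ⊆ ball 0 R) :
    WC (fun z => χ z • F z) (fun z => χ z • p z + dz χ z • F z)
      (fun z => χ z • q z + dzb χ z • F z) := by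
  have hχd : Differentiable ℝ χ := hχ.differentiable (by simp)
  have c0 : Continuous fun z => χ z • F z := cont_smul_of h.cont hχ.continuous hs
  have c1 : Continuous fun z => dz χ z • F z :=
    cont_smul_of h.cont (cd_dz hχ).continuous ((tsup_dz χ).trans hs)
  have c2 : Continuous fun z => dzb χ z • F z :=
    cont_smul_of h.cont (cd_dzb hχ).continuous ((tsup_dzb χ).trans hs)
  have gp := memLp_glob h.memp hχ.continuous hs
  have gq := memLp_glob h.memq hχ.continuous hs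
  refine ⟨c0, fun R' => (gp.restrict _).add (memLp_cont c1 R'),
    fun R' => (gq.restrict _).add (memLp_cont c2 R'), fun φ hφ hφc => ?_⟩
  have hφd : Differentiable ℝ φ := hφ.differentiable (by simp)
  have hφχ : ContDiff ℝ ∞ fun y => φ y * χ y := hφ.mul hχ
  have hφχc : HasCompactSupport fun y => φ y * χ y := hφc.mul_right
  have hφχs : tsupport (fun y => φ y * χ y) ⊆ ball 0 R :=
    (tsupport_mul_subset_right (f := φ) (g := χ)).trans hs
  obtain ⟨w1, w2⟩ := h.weak _ hφχ hφχc hφχs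
  have lp : LocallyIntegrable fun z => χ z • p z := locInt fun R' => gp.restrict _
  have lq : LocallyIntegrable fun z => χ z • q z := locInt fun R' => gq.restrict _
  constructor
  · have e1 : ∀ z, dz φ z • (χ z • F z) =
        dz (fun y => φ y * χ y) z • F z - φ z • (dz χ z • F z) := by
      intro z
      rw [dz_mul (hφd z) (hχd z), add_smul, mul_smul, mul_smul]
      abel
    have i1 : Integrable fun z => dz (fun y => φ y * χ y) z • F z :=
      (cont_smul_of h.cont (cd_dz hφχ).continuous ((tsup_dz _).trans hφχs)).integrable_of_hasCompactSupport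
        ((hcs_dz hφχc).smul_right)
    have i2 : Integrable fun z => φ z • (dz χ z • F z) :=
      int_smul hφ.continuous hφc c1.locallyIntegrable
    have i3 : Integrable fun z => φ z • (χ z • p z) := int_smul hφ.continuous hφc lp
    simp_rw [e1]
    rw [integral_sub i1 i2, w1]
    simp_rw [smul_add, mul_smul]
    rw [integral_add i3 i2]
    abel
  · have e1 : ∀ z, dzb φ z • (χ z • F z) =
        dzb (fun y => φ y * χ y) z • F z - φ z • (dzb χ z • F z) := by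
      intro z
      rw [dzb_mul (hφd z) (hχd z), add_smul, mul_smul, mul_smul]
      abel
    have i1 : Integrable fun z => dzb (fun y => φ y * χ y) z • F z :=
      (cont_smul_of h.cont (cd_dzb hφχ).continuous ((tsup_dzb _).trans hφχs)).integrable_of_hasCompactSupport
        ((hcs_dzb hφχc).smul_right)
    have i2 : Integrable fun z => φ z • (dzb χ z • F z) :=
      int_smul hφ.continuous hφc c2.locallyIntegrable
    have i3 : Integrable fun z => φ z • (χ z • q z) := int_smul hφ.continuous hφc lq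
    simp_rw [e1]
    rw [integral_sub i1 i2, w2]
    simp_rw [smul_add, mul_smul]
    rw [integral_add i3 i2]
    abel

end

end Crest.Agent.R235.NWRegB_847
end

-- ▼ part R235/NWReg1_847
section

/-!
Row 235, PACKAGE NW (helper847), leaf R1: Hölder `W^{1,2}` solutions of
`∂̄f = B(z,f)(∂f) + b(z,f)` are `C^{1,a}` near the centre if `B(0,f 0) = 0`.
Output `reg1_of : CauchyStmt → Reg1Stmt`.
-/

set_option autoImplicit false
set_option linter.unusedSectionVars false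

namespace Crest.Agent.R235.NWReg1_847

open Set Metric MeasureTheory Filter Topology
open scoped ContDiff NNReal ENNReal Real ComplexConjugate
open Crest.Agent.R235.NWDefs_334 Crest.Agent.R235.NWIface_334 Crest.Agent.R235.NWRegA_847

noncomputable section

variable {E : Type} [NormedAddCommGroup E] [NormedSpace ℂ E]

lemma norm_dl_le (L : ℂ →L[ℝ] E) : ‖dl L‖ ≤ 1 * ‖L‖ := by
  rw [one_mul]
  unfold dl
  rw [norm_smul, norm_inv, Complex.norm_two]
  have h1 : ‖L 1‖ ≤ ‖L‖ := by simpa using L.le_opNorm 1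
  have h2 : ‖Complex.I • L Complex.I‖ ≤ ‖L‖ := by
    rw [norm_smul, Complex.norm_I, one_mul]
    simpa using L.le_opNorm Complex.I
  have h3 := norm_sub_le (L 1) (Complex.I • L Complex.I)
  linarith

/-- `dl` as a continuous linear map -/
def dlL (E : Type) [NormedAddCommGroup E] [NormedSpace ℂ E] : (ℂ →L[ℝ] E) →L[ℝ] E :=
  LinearMap.mkContinuous
    { toFun := dl
      map_add' := NWTool_334.dl_add
      map_smul' := fun c L => by
        simp only [dl, _root_.smul_apply, RingHom.id_apply]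
        rw [smul_comm Complex.I c, ← smul_sub, smul_comm (2:ℂ)⁻¹ c] }
    1 norm_dl_le

@[simp] lemma dlL_apply (L : ℂ →L[ℝ] E) : dlL E L = dl L := rfl

/-- fixed points of affine contractions -/
lemma fix_aff {X : Type*} [NormedAddCommGroup X] [NormedSpace ℝ X] [CompleteSpace X] (L : X →L[ℝ] X)
    (hL : ∀ x, ‖L x‖ ≤ (1 / 2) * ‖x‖) (h : X) : ∃ g, g = L g + h := by
  have hc : ContractingWith (1 / 2 : ℝ≥0) (fun x => L x + h) := by
    refine ⟨by rw [← NNReal.coe_lt_coe]; norm_num, LipschitzWith.of_dist_le_mul fun x y => ?_⟩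
    rw [dist_add_right, dist_eq_norm, dist_eq_norm, ← map_sub]
    simpa using hL (x - y)
  exact ⟨_, hc.fixedPoint_isFixedPt.symm⟩

lemma clm_bound {X Y : Type*} [NormedAddCommGroup X] [NormedSpace ℝ X] [NormedAddCommGroup Y]
    [NormedSpace ℝ Y] (S : X →L[ℝ] Y) : ∃ K : ℝ, 0 ≤ K ∧ ∀ x, ‖S x‖ ≤ K * ‖x‖ :=
  ⟨‖S‖, norm_nonneg S, S.le_opNorm⟩

/-- the Hölder contraction -/
theorem solve [FiniteDimensional ℂ E] {a : ℝ} (T : Hol a ℂ E →L[ℝ] C1a a ℂ E) :
    ∃ ε : ℝ, 0 < ε ∧ ∀ β : Hol a ℂ (E →L[ℝ] E), ‖β‖ ≤ ε → ∀ h : Hol a ℂ E, ∃ g : Hol a ℂ E,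
      ∀ z, Hol.fn g z = Hol.fn β z (dl (C1d (T g) z)) + Hol.fn h z := by
  have hcE : CompleteSpace E := FiniteDimensional.complete ℂ E
  obtain ⟨K, hK0, hK⟩ := clm_bound
    ((NWHol_952.cl (dlL E)).comp (NWTool_334.derC.comp T) : Hol a ℂ E →L[ℝ] Hol a ℂ E)
  refine ⟨(4 * (K + 1))⁻¹, by positivity, fun β hβ h => ?_⟩
  have hLb : ∀ x : Hol a ℂ E, ‖((NWHol_952.bl (ContinuousLinearMap.id ℝ (E →L[ℝ] E)) β).comp
      ((NWHol_952.cl (dlL E)).comp (NWTool_334.derC.comp T))) x‖ ≤ (1 / 2) * ‖x‖ := by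
    intro x
    refine (NWHol_952.norm_bl_le _ _ _).trans ?_
    have h2 : ‖ContinuousLinearMap.id ℝ (E →L[ℝ] E)‖ ≤ 1 := ContinuousLinearMap.norm_id_le
    have h3 := hK x
    have h4 : 0 ≤ ‖β‖ := norm_nonneg _
    have h5 : 0 ≤ ‖x‖ := norm_nonneg _
    have h6 : (4 * (K + 1))⁻¹ * K ≤ 1 / 4 := by
      rw [inv_mul_le_iff₀ (by positivity)]
      linarith
    have h7 : ‖β‖ * K ≤ 1 / 4 := (mul_le_mul_of_nonneg_right hβ hK0).trans h6
    calc 2 * ‖ContinuousLinearMap.id ℝ (E →L[ℝ] E)‖ * ‖β‖ *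
          ‖((NWHol_952.cl (dlL E)).comp (NWTool_334.derC.comp T)) x‖
        ≤ 2 * 1 * ‖β‖ * (K * ‖x‖) := by
          refine mul_le_mul ?_ h3 (norm_nonneg _) (by positivity)
          refine mul_le_mul_of_nonneg_right ?_ h4
          linarith
      _ = 2 * (‖β‖ * K) * ‖x‖ := by ring
      _ ≤ 2 * (1 / 4) * ‖x‖ := by
          refine mul_le_mul_of_nonneg_right ?_ h5
          linarith
      _ = (1 / 2) * ‖x‖ := by ring
  obtain ⟨g, hg⟩ := fix_aff (X := Hol a ℂ E) _ hLb h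
  refine ⟨g, fun z => ?_⟩
  have h1 := congrArg (fun u => Hol.fn u z) hg
  exact h1

/-! ### Hölder bounds of the coefficients -/

/-- `C¹` maps are Lipschitz on balls -/
lemma lip_ball {X Y : Type*} [NormedAddCommGroup X] [NormedSpace ℝ X] [FiniteDimensional ℝ X]
    [NormedAddCommGroup Y] [NormedSpace ℝ Y] {G : X → Y} (hG : ContDiff ℝ 1 G) (c : X) (R : ℝ) :
    ∃ L : ℝ, 0 ≤ L ∧ ∀ x ∈ closedBall c R, ∀ y ∈ closedBall c R, ‖G x - G y‖ ≤ L * ‖x - y‖ := by
  have hpr : ProperSpace X := FiniteDimensional.proper_real X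
  obtain ⟨L, hL⟩ := (isCompact_closedBall c R).exists_bound_of_continuousOn
    (hG.continuous_fderiv (by norm_num)).continuousOn
  refine ⟨max L 0, le_max_right _ _, fun x hx y hy => ?_⟩
  exact (convex_closedBall c R).norm_image_sub_le_of_norm_fderiv_le (𝕜 := ℝ)
    (fun z _ => hG.differentiable (by norm_num) z) (fun z hz => (hL z hz).trans (le_max_left _ _))
    hy hx

/-- the smooth retraction: identity on the disc of radius 2, zero outside the disc of radius 4 -/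
def sg (z : ℂ) : ℂ := et 2 z * z

lemma sg_id {z : ℂ} (hz : ‖z‖ ≤ 2) : sg z = z := by rw [sg, et_one two_pos hz, one_mul]

lemma sg_zero {z : ℂ} (hz : 4 ≤ ‖z‖) : sg z = 0 := by
  rw [sg, et_zero two_pos (by linarith), zero_mul]

lemma sg_norm (z : ℂ) : ‖sg z‖ ≤ 4 := by
  rcases le_total ‖z‖ 4 with h | h
  · rw [sg, norm_mul]
    calc ‖et 2 z‖ * ‖z‖ ≤ 1 * 4 := mul_le_mul (et_norm _ _) h (norm_nonneg _) zero_le_one
      _ = 4 := one_mul _
  · rw [sg_zero h, norm_zero]; norm_num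

lemma sg_lip : ∃ S : ℝ, 0 ≤ S ∧ ∀ x y, ‖sg x - sg y‖ ≤ S * dist x y := by
  have h1 : ContDiff ℝ ∞ sg := (et_smooth 2).mul contDiff_id
  have h2 : HasCompactSupport sg := (et_hcs two_pos).mul_right
  obtain ⟨S, hS⟩ := h1.lipschitzWith_of_hasCompactSupport h2 (by simp)
  refine ⟨S, S.2, fun x y => ?_⟩
  rw [← dist_eq_norm]
  exact hS.dist_le_mul x y

/-- test functions are Hölder -/
lemma hb_tst {φ : ℂ → ℂ} (hφ : ContDiff ℝ ∞ φ) (hφc : HasCompactSupport φ) {a : ℝ} (ha : 0 < a)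
    (ha1 : a ≤ 1) : ∃ M : ℝ, HB a M φ := by
  obtain ⟨M, hM⟩ := hφc.exists_bound_of_continuous hφ.continuous
  obtain ⟨S, hS⟩ := hφ.lipschitzWith_of_hasCompactSupport hφc (by simp)
  refine ⟨_, NWHol_952.hb_lip ha ha1 hM (L := S) fun x y => ?_⟩
  rw [← dist_eq_norm]
  exact hS.dist_le_mul x y

/-- the argument of the coefficients -/
def arg (f : ℂ → E) (ρ : ℝ) (z : ℂ) : ℂ × E := (ρ • sg z, f (ρ • sg z))

lemma hb_arg {f : ℂ → E} {r C a : ℝ} (ha : 0 < a) (ha1 : a < 1) (hr : 0 < r)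
    (hf : ∀ x ∈ ball (0 : ℂ) r, ∀ y ∈ ball (0 : ℂ) r, ‖f x - f y‖ ≤ C * dist x y ^ a) :
    ∃ c : ℝ, 0 ≤ c ∧ ∀ ρ : ℝ, 0 < ρ → ρ ≤ 1 → 4 * ρ < r →
      HB a (c * ρ ^ a) (fun z => arg f ρ z - (0, f 0)) := by
  obtain ⟨S, hS0, hS⟩ := sg_lip
  refine ⟨(8 + S) + |C| * (4 ^ a + S ^ a), by positivity, fun ρ hρ hρ1 hρr => ?_⟩
  have hρa : ρ ≤ ρ ^ a := by
    calc ρ = ρ ^ (1:ℝ) := (Real.rpow_one _).symm
      _ ≤ ρ ^ a := Real.rpow_le_rpow_of_exponent_ge hρ hρ1 ha1.le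
  have hρa0 : 0 ≤ ρ ^ a := Real.rpow_nonneg hρ.le a
  have hn : ∀ x : ℂ, ‖ρ • x‖ = ρ * ‖x‖ := fun x => by rw [norm_smul, Real.norm_of_nonneg hρ.le]
  have h1 : HB a ((8 + S) * ρ ^ a) (fun z => ρ • sg z) := by
    have h2 := NWHol_952.hb_lip ha ha1.le (f := fun z => ρ • sg z) (M := 4 * ρ) (L := ρ * S)
      (fun x => by rw [hn]; nlinarith [sg_norm x])
      (fun x y => by
        rw [← smul_sub, hn, mul_assoc]
        exact mul_le_mul_of_nonneg_left (hS x y) hρ.le)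
    refine NWHol_952.HB.mono h2 ?_
    rw [max_eq_left (by positivity)]
    nlinarith
  have hmem : ∀ z, ρ • sg z ∈ ball (0:ℂ) r := fun z => by
    rw [mem_ball_zero_iff, hn]
    nlinarith [sg_norm z]
  have h2 : HB a (|C| * (4 ^ a + S ^ a) * ρ ^ a) (fun z => f (ρ • sg z) - f 0) := by
    constructor
    · intro z
      refine (hf _ (hmem z) 0 (by rw [mem_ball_zero_iff, norm_zero]; exact hr)).trans ?_
      rw [dist_zero_right, hn, Real.mul_rpow hρ.le (norm_nonneg _)]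
      have h3 : ‖sg z‖ ^ a ≤ 4 ^ a := Real.rpow_le_rpow (norm_nonneg _) (sg_norm z) ha.le
      have h4 : 0 ≤ S ^ a := Real.rpow_nonneg hS0 a
      have h5 : 0 ≤ ‖sg z‖ ^ a := Real.rpow_nonneg (norm_nonneg _) a
      calc C * (ρ ^ a * ‖sg z‖ ^ a) ≤ |C| * (ρ ^ a * ‖sg z‖ ^ a) :=
            mul_le_mul_of_nonneg_right (le_abs_self C) (by positivity)
        _ ≤ |C| * (ρ ^ a * (4 ^ a + S ^ a)) := by
            refine mul_le_mul_of_nonneg_left (mul_le_mul_of_nonneg_left ?_ hρa0) (abs_nonneg _)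
            linarith
        _ = _ := by ring
    · intro x y
      rw [sub_sub_sub_cancel_right]
      refine (hf _ (hmem x) _ (hmem y)).trans ?_
      have h3 : dist (ρ • sg x) (ρ • sg y) ≤ ρ * (S * dist x y) := by
        rw [dist_eq_norm, ← smul_sub, hn]
        exact mul_le_mul_of_nonneg_left (hS x y) hρ.le
      have h4 : dist (ρ • sg x) (ρ • sg y) ^ a ≤ ρ ^ a * (S ^ a * dist x y ^ a) := by
        rw [← Real.mul_rpow hS0 dist_nonneg, ← Real.mul_rpow hρ.le (by positivity)]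
        exact Real.rpow_le_rpow dist_nonneg h3 ha.le
      have h5 : 0 ≤ S ^ a := Real.rpow_nonneg hS0 a
      have h6 : (0:ℝ) ≤ 4 ^ a := by positivity
      have h7 : 0 ≤ dist x y ^ a := Real.rpow_nonneg dist_nonneg a
      have h8 : 0 ≤ dist (ρ • sg x) (ρ • sg y) ^ a := Real.rpow_nonneg dist_nonneg a
      calc C * dist (ρ • sg x) (ρ • sg y) ^ a ≤ |C| * dist (ρ • sg x) (ρ • sg y) ^ a :=
            mul_le_mul_of_nonneg_right (le_abs_self C) h8
        _ ≤ |C| * (ρ ^ a * (S ^ a * dist x y ^ a)) := mul_le_mul_of_nonneg_left h4 (abs_nonneg _)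
        _ ≤ |C| * (ρ ^ a * ((4 ^ a + S ^ a) * dist x y ^ a)) := by
            refine mul_le_mul_of_nonneg_left (mul_le_mul_of_nonneg_left ?_ hρa0) (abs_nonneg _)
            exact mul_le_mul_of_nonneg_right (by linarith) h7
        _ = _ := by ring
  have c1 : (8 + S) * ρ ^ a ≤ ((8 + S) + |C| * (4 ^ a + S ^ a)) * ρ ^ a := by
    refine mul_le_mul_of_nonneg_right ?_ hρa0
    have : 0 ≤ |C| * (4 ^ a + S ^ a) := by positivity
    linarith
  have c2 : |C| * (4 ^ a + S ^ a) * ρ ^ a ≤ ((8 + S) + |C| * (4 ^ a + S ^ a)) * ρ ^ a := by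
    refine mul_le_mul_of_nonneg_right ?_ hρa0
    linarith
  have h3 := NWHol_952.HB.prodMk (NWHol_952.HB.mono h1 c1) (NWHol_952.HB.mono h2 c2)
  refine ⟨fun z => ?_, fun x y => ?_⟩
  · have := h3.bdd z
    simpa [arg] using this
  · have := h3.hol x y
    simpa [arg] using this

/-- composition with a `C¹` map -/
lemma hb_comp [FiniteDimensional ℂ E] {Y : Type*} [NormedAddCommGroup Y] [NormedSpace ℝ Y]
    {G : ℂ × E → Y} (hG : ContDiff ℝ 1 G) {f : ℂ → E} {r a c : ℝ}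
    (ha : 0 < a) (hc : 0 ≤ c)
    (h : ∀ ρ : ℝ, 0 < ρ → ρ ≤ 1 → 4 * ρ < r → HB a (c * ρ ^ a) (fun z => arg f ρ z - (0, f 0))) :
    ∃ L : ℝ, 0 ≤ L ∧ ∀ ρ : ℝ, 0 < ρ → ρ ≤ 1 → 4 * ρ < r →
      HB a (L * ρ ^ a) (fun z => G (arg f ρ z) - G (0, f 0)) := by
  have hfd : FiniteDimensional ℝ E := FiniteDimensional.complexToReal E
  obtain ⟨L, hL0, hL⟩ := lip_ball hG ((0 : ℂ), f 0) c
  refine ⟨L * c, by positivity, fun ρ hρ hρ1 hρr => ?_⟩
  have h1 := h ρ hρ hρ1 hρr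
  have hρa : ρ ^ a ≤ 1 := Real.rpow_le_one hρ.le hρ1 ha.le
  have hmem : ∀ z, arg f ρ z ∈ closedBall ((0 : ℂ), f 0) c := fun z => by
    rw [mem_closedBall, dist_eq_norm]
    exact (h1.bdd z).trans (mul_le_of_le_one_right hc hρa)
  refine ⟨fun z => ?_, fun x y => ?_⟩
  · refine (hL _ (hmem z) _ (mem_closedBall_self hc)).trans ?_
    rw [mul_assoc]
    exact mul_le_mul_of_nonneg_left (h1.bdd z) hL0
  · rw [sub_sub_sub_cancel_right]
    refine (hL _ (hmem x) _ (hmem y)).trans ?_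
    rw [mul_assoc, mul_assoc]
    refine mul_le_mul_of_nonneg_left ?_ hL0
    have := h1.hol x y
    rw [sub_sub_sub_cancel_right, mul_assoc] at this
    exact this

/-- the cut-off used in the Cauchy operator: one on the disc of radius 4 -/
def k4 (z : ℂ) : ℝ := bmp ((4:ℝ)⁻¹ • z)

lemma k4_smooth : ContDiff ℝ ∞ k4 := bmp.contDiff.comp (contDiff_const_smul _)

lemma k4_one {z : ℂ} (hz : ‖z‖ ≤ 4) : k4 z = 1 := by
  refine bmp.one_of_mem_closedBall ?_
  rw [mem_closedBall_zero_iff, norm_smul, Real.norm_of_nonneg (by norm_num)]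
  show _ ≤ (1:ℝ)
  linarith

lemma k4_hcs : HasCompactSupport k4 := by
  refine HasCompactSupport.intro (isCompact_closedBall (0:ℂ) 8) (fun z hz => ?_)
  rw [mem_closedBall_zero_iff, not_le] at hz
  refine bmp.zero_of_le_dist ?_
  rw [dist_zero_right, norm_smul, Real.norm_of_nonneg (by norm_num)]
  show (2:ℝ) ≤ _
  linarith

lemma tsup_et1 : tsupport (et 1) ⊆ closedBall 0 2 := by
  refine closure_minimal (fun z hz => ?_) isClosed_closedBall
  rw [mem_closedBall_zero_iff]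
  by_contra h
  exact hz (et_zero one_pos (by linarith))

set_option maxHeartbeats 2000000 in
/-- **R1** -/
theorem reg1_of (hK : CauchyStmt) : Reg1Stmt := by
  intro E _ _ _ a ha ha1 B b hB hb f p q r C hr hWD hf hq hB0
  have hcE : CompleteSpace E := FiniteDimensional.complete ℂ E
  obtain ⟨T, hT⟩ := hK E a ha ha1 k4 k4_smooth k4_hcs
  obtain ⟨ε1, hε1, hsolve⟩ := solve T
  obtain ⟨ε2, hε2, huniq⟩ := uniq E
  obtain ⟨c, hc0, hc⟩ := hb_arg ha ha1 hr hf
  obtain ⟨L, hL0, hL⟩ := hb_comp hB ha hc0 hc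
  obtain ⟨L', hL0', hL'⟩ := hb_comp hb ha hc0 hc
  -- the scale
  obtain ⟨ρ, hρ, hρ1, hρr, hρε⟩ : ∃ ρ : ℝ, 0 < ρ ∧ ρ ≤ 1 ∧ 4 * ρ < r ∧ L * ρ ^ a ≤ min ε1 ε2 := by
    have h1 : Tendsto (fun ρ : ℝ => L * ρ ^ a) (𝓝[>] 0) (𝓝 0) := by
      have h2 : ContinuousAt (fun ρ : ℝ => L * ρ ^ a) 0 :=
        (Real.continuousAt_rpow_const 0 a (Or.inr ha.le)).const_mul L
      have h3 : Tendsto (fun ρ : ℝ => L * ρ ^ a) (𝓝 0) (𝓝 (L * 0 ^ a)) := h2
      rw [Real.zero_rpow ha.ne', mul_zero] at h3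
      exact h3.mono_left nhdsWithin_le_nhds
    have h2 : ∀ᶠ ρ in 𝓝[>] (0:ℝ), L * ρ ^ a < min ε1 ε2 :=
      h1.eventually (gt_mem_nhds (lt_min hε1 hε2))
    have h3 : ∀ᶠ ρ in 𝓝[>] (0:ℝ), ρ ∈ Ioo (0:ℝ) (min 1 (r / 4)) :=
      Ioo_mem_nhdsGT (by positivity)
    obtain ⟨ρ, h4, h5⟩ := (h2.and h3).exists
    exact ⟨ρ, h5.1, (h5.2.le.trans (min_le_left _ _)), by
      have := h5.2.trans_le (min_le_right _ _); linarith, h4.le⟩
  have hρa0 : 0 ≤ ρ ^ a := Real.rpow_nonneg hρ.le a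
  have hn : ∀ x : ℂ, ‖ρ • x‖ = ρ * ‖x‖ := fun x => by rw [norm_smul, Real.norm_of_nonneg hρ.le]
  -- the coefficients
  have hβ : HB a (L * ρ ^ a) (fun z => B (arg f ρ z)) := by
    have := hL ρ hρ hρ1 hρr
    simpa [hB0] using this
  have hbH : HB a (L' * ρ ^ a + ‖b (0, f 0)‖) (fun z => b (arg f ρ z)) := by
    have h1 := NWHol_952.HB.add (hL' ρ hρ hρ1 hρr) (NWHol_952.HB.const (X := ℂ) (a := a) (b (0, f 0)))
    simpa using h1
  have hfH : HB a (c * ρ ^ a + ‖f 0‖) (fun z => f (ρ • sg z)) := by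
    have h0 := hc ρ hρ hρ1 hρr
    have h1 : HB a (c * ρ ^ a) (fun z => f (ρ • sg z) - f 0) := by
      refine ⟨fun z => ?_, fun x y => ?_⟩
      · exact le_trans (norm_snd_le (arg f ρ z - (0, f 0))) (h0.bdd z)
      · refine le_trans (le_of_eq ?_) (le_trans
          (norm_snd_le ((arg f ρ x - (0, f 0)) - (arg f ρ y - (0, f 0)))) (h0.hol x y))
        rfl
    have h2 := NWHol_952.HB.add h1 (NWHol_952.HB.const (X := ℂ) (a := a) (f 0))
    simpa using h2
  obtain ⟨M1, hM1⟩ := hb_tst (et_smooth 1) (et_hcs one_pos) ha ha1.le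
  obtain ⟨M2, hM2⟩ := hb_tst (cd_dz (et_smooth 1)) (hcs_dz (et_hcs one_pos)) ha ha1.le
  obtain ⟨M3, hM3⟩ := hb_tst (cd_dzb (et_smooth 1)) (hcs_dzb (et_hcs one_pos)) ha ha1.le
  set βH : Hol a ℂ (E →L[ℝ] E) := NWHol_952.mk ha _ _ hβ with hβH
  have hβn : ‖βH‖ ≤ ε1 :=
    (NWHol_952.norm_mk_le ha hβ (by positivity)).trans (hρε.trans (min_le_left _ _))
  set bH : Hol a ℂ E := NWHol_952.mk ha _ _ hbH with hbHdef
  set fH : Hol a ℂ E := NWHol_952.mk ha _ _ hfH with hfHdef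
  set χ0 : Hol a ℂ ℂ := NWHol_952.mk ha _ _ hM1 with hχ0
  set χ1 : Hol a ℂ ℂ := NWHol_952.mk ha _ _ hM2 with hχ1
  set χ2 : Hol a ℂ ℂ := NWHol_952.mk ha _ _ hM3 with hχ2
  set ls : ℂ →L[ℝ] E →L[ℝ] E := ContinuousLinearMap.lsmul ℝ ℂ with hls
  set h : Hol a ℂ E := ρ • NWHol_952.bl ls χ0 bH + NWHol_952.bl ls χ2 fH -
    NWHol_952.bl (ContinuousLinearMap.id ℝ (E →L[ℝ] E)) βH (NWHol_952.bl ls χ1 fH) with hh
  have hhz : ∀ z, Hol.fn h z = ρ • (et 1 z • b (arg f ρ z)) + dzb (et 1) z • f (ρ • sg z) -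
      B (arg f ρ z) (dz (et 1) z • f (ρ • sg z)) := fun z => rfl
  obtain ⟨g, hg⟩ := hsolve βH hβn h
  have hgz : ∀ z, Hol.fn g z = B (arg f ρ z) (dl (C1d (T g) z)) + Hol.fn h z := hg
  obtain ⟨hTd, hT0⟩ := hT g
  set w : C1a a ℂ E := T g with hw
  -- derivatives of the cut-off far away
  have far1 : ∀ z : ℂ, 2 < ‖z‖ → et 1 z = 0 := fun z hz => et_zero one_pos (by linarith)
  have far2 : ∀ z : ℂ, 2 < ‖z‖ → dz (et 1) z = 0 := fun z hz => by
    rw [dz_apply, et_fd0 one_pos (Or.inr (by linarith))]; simp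
  have far3 : ∀ z : ℂ, 2 < ‖z‖ → dzb (et 1) z = 0 := fun z hz => by
    rw [dzb_apply, et_fd0 one_pos (Or.inr (by linarith))]; simp
  have hfar : ∀ z : ℂ, 2 < ‖z‖ → Hol.fn h z = 0 := fun z hz => by
    rw [hhz, far1 z hz, far2 z hz, far3 z hz]; simp
  have hgfar : ∀ z : ℂ, 4 < ‖z‖ → Hol.fn g z = 0 := fun z hz => by
    have h1 : arg f ρ z = (0, f 0) := by rw [arg, sg_zero hz.le, smul_zero]
    rw [hgz, hfar z (by linarith), h1, hB0]; simp
  have hdb : ∀ z, dbl (C1d w z) = Hol.fn g z := by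
    intro z
    rw [hTd z]
    by_cases hz : ‖z‖ ≤ 4
    · rw [k4_one hz, one_smul]
    · rw [hgfar z (not_le.1 hz), smul_zero]
  have hwdz : ∀ z, dz (C1f w) z = dl (C1d w z) := fun z => by
    rw [dz, NWTool_334.c1_fderiv]
  have hwdzb : ∀ z, dzb (C1f w) z = B (arg f ρ z) (dz (C1f w) z) + Hol.fn h z := fun z => by
    rw [dzb, NWTool_334.c1_fderiv, hdb, hgz, hwdz]
  have hwc1 : ContDiff ℝ 1 (C1f w) := by
    rw [contDiff_one_iff_fderiv]
    refine ⟨NWTool_334.c1_diff w, ?_⟩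
    have : fderiv ℝ (C1f w) = C1d w := funext fun z => NWTool_334.c1_fderiv w z
    rw [this]
    exact NWTool_334.hb_cont ha (NWTool_334.c1_hbd ha w)
  -- the localised solution
  have hWρ := NWRegB_847.scale hWD hρ
  have hsupp : tsupport (et 1) ⊆ ball 0 (r / ρ) := by
    refine tsup_et1.trans (closedBall_subset_ball ?_)
    rw [lt_div_iff₀ hρ]; linarith
  have hWC := (NWRegB_847.loc hWρ (et_smooth 1) hsupp).sub (WC.of_c1 hwc1)
  -- the difference solves the homogeneous equation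
  have hae : ∀ᵐ z : ℂ, ρ • z ∈ ball (0:ℂ) r →
      q (ρ • z) = B (ρ • z, f (ρ • z)) (p (ρ • z)) + b (ρ • z, f (ρ • z)) :=
    (Measure.quasiMeasurePreserving_smul (volume : Measure ℂ) hρ.ne').ae hq
  have hQP : ∀ᵐ z : ℂ, ‖et 1 z • (ρ • q (ρ • z)) + dzb (et 1) z • f (ρ • z) - dzb (C1f w) z‖ ≤
      ε2 * ‖et 1 z • (ρ • p (ρ • z)) + dz (et 1) z • f (ρ • z) - dz (C1f w) z‖ := by
    filter_upwards [hae] with z hz
    have key : et 1 z • (ρ • q (ρ • z)) + dzb (et 1) z • f (ρ • z) - dzb (C1f w) z =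
        B (arg f ρ z) (et 1 z • (ρ • p (ρ • z)) + dz (et 1) z • f (ρ • z) - dz (C1f w) z) := by
      rw [hwdzb]
      by_cases h2 : ‖z‖ ≤ 2
      · have hs : sg z = z := sg_id h2
        have ha1 : arg f ρ z = (ρ • z, f (ρ • z)) := by rw [arg, hs]
        have hzb : ρ • z ∈ ball (0:ℂ) r := by
          rw [mem_ball_zero_iff, hn]; nlinarith
        rw [hz hzb, hhz, ha1, hs]
        have hre : ∀ x : E, et 1 z • x = (bmp ((1:ℝ)⁻¹ • z) : ℝ) • x := fun x => by
          rw [et, Complex.coe_smul]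
        simp only [hre, map_sub, map_add, map_smul, smul_add]
        rw [smul_comm ρ (bmp ((1:ℝ)⁻¹ • z) : ℝ)]
        abel
      · rw [not_le] at h2
        rw [far1 z h2, far2 z h2, far3 z h2, hfar z h2]
        simp
    rw [key]
    refine (ContinuousLinearMap.le_opNorm _ _).trans ?_
    exact mul_le_mul_of_nonneg_right
      ((hβ.bdd z).trans (hρε.trans (min_le_right _ _))) (norm_nonneg _)
  have hV0 : Tendsto (fun z => et 1 z • f (ρ • z) - C1f w z) (cocompact ℂ) (𝓝 0) := by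
    have h1 : Tendsto (fun z => et 1 z • f (ρ • z)) (cocompact ℂ) (𝓝 0) := by
      refine tendsto_const_nhds.congr' ?_
      have h2 : ∀ᶠ z : ℂ in cocompact ℂ, 2 < ‖z‖ :=
        (tendsto_norm_cocompact_atTop (E := ℂ)).eventually (eventually_gt_atTop 2)
      filter_upwards [h2] with z hz
      rw [far1 z hz, zero_smul]
    simpa using h1.sub hT0
  have hzero := huniq _ _ _ hWC hV0 hQP
  have heq : ∀ z : ℂ, ‖z‖ ≤ 1 → f (ρ • z) = C1f w z := by
    intro z hz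
    have h1 := hzero z
    rw [et_one one_pos hz, one_smul, sub_eq_zero] at h1
    exact h1
  -- back to the original scale
  have hlip : ∀ y y' : ℂ, dist (ρ⁻¹ • y) (ρ⁻¹ • y') ≤ ρ⁻¹ * dist y y' := fun y y' => by
    rw [dist_eq_norm, ← smul_sub, norm_smul, Real.norm_of_nonneg (inv_pos.2 hρ).le, dist_eq_norm]
  have H1 := NWHol_952.HB.comp_lip ha.le (inv_pos.2 hρ).le (norm_nonneg w) hlip
    (NWTool_334.c1_hb ha w)
  have H2 := NWHol_952.HB.const_smul ρ⁻¹ (NWHol_952.HB.comp_lip ha.le (inv_pos.2 hρ).le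
    (norm_nonneg w) hlip (NWTool_334.c1_hbd ha w))
  obtain ⟨F, hF, -⟩ := NWTool_334.exists_c1 ha (M := max (max 1 (ρ⁻¹ ^ a) * ‖w‖)
    (|ρ⁻¹| * (max 1 (ρ⁻¹ ^ a) * ‖w‖))) (by positivity)
    (f := fun z => C1f w (ρ⁻¹ • z)) (f' := fun z => ρ⁻¹ • C1d w (ρ⁻¹ • z))
    (NWHol_952.HB.mono H1 (le_max_left _ _)) (NWHol_952.HB.mono H2 (le_max_right _ _))
    (fun z => by
      have h1 := (NWTool_334.c1_fd w (ρ⁻¹ • z)).comp z
        ((ρ⁻¹ • ContinuousLinearMap.id ℝ ℂ).hasFDerivAt (x := z))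
      refine h1.congr_fderiv ?_
      ext
      simp)
  refine ⟨ρ, hρ, F, fun z hz => ?_⟩
  rw [mem_ball_zero_iff] at hz
  rw [hF z]
  have h1 : ‖ρ⁻¹ • z‖ ≤ 1 := by
    rw [norm_smul, Real.norm_of_nonneg (inv_pos.2 hρ).le, inv_mul_le_iff₀ hρ]
    linarith
  have h2 := heq _ h1
  rw [smul_smul, mul_inv_cancel₀ hρ.ne', one_smul] at h2
  exact h2.symm

end

end Crest.Agent.R235.NWReg1_847
end

-- ▼ part R235/NWReg1F_847

/-!
Row 235, PACKAGE NW (helper847): leaf R1, unconditional.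
-/

set_option autoImplicit false

namespace Crest.Agent.R235.NWReg1F_847

open Crest.Agent.R235.NWIface_334

/-- **R1**, unconditional -/
theorem reg1 : Reg1Stmt := NWReg1_847.reg1_of NWKPT_133.cauchy_stmt

end Crest.Agent.R235.NWReg1F_847
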