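import Mathlib
import Crest.Agent.R235.LocDef_607

-- ▼ part R235/LocAsm_437
section

/-!
Row 235 (S0364), PACKAGE REG, sub-block LOC, helper437 (task 214):
`offz : CLUS → OFFZ` and the assembly
`loc_of : CLUS → OFFZ → CUT → FLUX → WIND → NONZ → SUPER → (∃ χ, Chi χ) → LOC`,
plus `exists_chi : ∃ χ, Chi χ`.
-/

set_option autoImplicit false

open MeasureTheory Metric Set Filter Complex
open scoped ContDiff Topology

namespace Crest.Agent.R235.LocAsm_437

open Crest.Agent.R235.Loc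

/-- restriction of a `k`-valued graph to a smaller ball. -/
theorem KG.restrict {μ β : ℂ × ℂ → ℂ} {c : ℂ} {R : ℝ} {k : ℕ} {S : ℂ → Multiset ℂ} {e : ℂ → ℝ}
    (h : KG μ β c R k S e) {c' : ℂ} {R' : ℝ} (hb : ball c' R' ⊆ ball c R) :
    KG μ β c' R' k S e where
  card z hz := h.card z (hb hz)
  cont z hz := h.cont z (hb hz)
  null := by
    refine measure_mono_null ?_ h.null
    rintro z ⟨hz1, hz2⟩
    exact ⟨hb hz1, hz2⟩
  smooth V w hV hw := h.smooth V w (hV.trans hb) hw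
  pde V w hV hw := h.pde V w (hV.trans hb) hw
  e0 := h.e0
  eint := h.eint.mono_set hb
  ebd V w hV hw := h.ebd V w (hV.trans hb) hw
  morrey p hp := by
    obtain ⟨C, a, r₀, hC, ha, hr, hs, hm⟩ := h.morrey p (hb hp)
    obtain ⟨δ, hδ, hδ'⟩ := Metric.isOpen_iff.1 isOpen_ball p hp
    refine ⟨C, a, min r₀ δ, hC, ha, lt_min hr hδ,
      (ball_subset_ball (min_le_right _ _)).trans hδ', fun r h0 h1 => ?_⟩
    exact hm r h0 (h1.trans (min_le_left _ _))
  hold p hp := by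
    obtain ⟨C, a, r₀, hC, ha, hr, hs, hm⟩ := h.hold p (hb hp)
    obtain ⟨δ, hδ, hδ'⟩ := Metric.isOpen_iff.1 isOpen_ball p hp
    refine ⟨C, a, min r₀ δ, hC, ha, lt_min hr hδ,
      (ball_subset_ball (min_le_right _ _)).trans hδ', fun z hz => ?_⟩
    exact hm z (ball_subset_ball (min_le_left _ _) hz)

/-- a positive lower bound for finitely many positive numbers. -/
theorem exists_pos_le {α : Type*} (s : Finset α) (f : α → ℝ) (hf : ∀ a ∈ s, 0 < f a) :
    ∃ ε > 0, ∀ a ∈ s, ε ≤ f a := by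
  classical
  induction s using Finset.induction_on with
  | empty => exact ⟨1, one_pos, by simp⟩
  | insert a s ha ih =>
    obtain ⟨ε, hε, h⟩ := ih fun b hb => hf b (Finset.mem_insert_of_mem hb)
    refine ⟨min ε (f a), lt_min hε (hf a (Finset.mem_insert_self a s)), fun b hb => ?_⟩
    rcases Finset.mem_insert.1 hb with rfl | hb
    · exact min_le_right _ _
    · exact (min_le_left _ _).trans (h b hb)

/-- **LOC-2b.** -/
theorem offz (hC : CLUS) : OFFZ := by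
  intro μ β κ L hB c R k S e hK IH p hp hne
  have hcard : (S p).card = k := hK.card p hp
  have hcount : ∀ a ∈ S p, (S p).count a < k := by
    intro a _
    rw [← hcard]
    refine lt_of_le_of_ne (Multiset.count_le_card a (S p)) fun h => hne ?_
    have h1 := Multiset.count_eq_card.1 h
    intro x hx y hy
    rw [← h1 x hx, ← h1 y hy]
  have key : ∀ a ∈ (S p).toFinset, ∃ ε : ℝ, 0 < ε ∧
      ∀ᶠ z in 𝓝[≠] p, ((S z).filter (fun b => dist b a < ε)).Nodup := by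
    intro a ha
    rw [Multiset.mem_toFinset] at ha
    obtain ⟨ε, r, hε, -, hr, -, hKG, -⟩ := hC μ β κ L hB c R k S e hK p hp a ha 1 one_pos
    exact ⟨ε, hε, IH p r _ _ e (hcount a ha) hKG p (mem_ball_self hr)⟩
  choose! ε hε hev using key
  obtain ⟨ε', hε', hle⟩ := exists_pos_le (S p).toFinset ε hε
  have h1 : ∀ᶠ z in 𝓝[≠] p, Near ε' (S p) (S z) :=
    (hK.cont p hp ε' hε').filter_mono nhdsWithin_le_nhds
  have h2 : ∀ᶠ z in 𝓝[≠] p, ∀ a ∈ (S p).toFinset,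
      ((S z).filter (fun b => dist b a < ε a)).Nodup :=
    (Finset.eventually_all _).2 hev
  filter_upwards [h1, h2] with z hz hz'
  rw [Multiset.nodup_iff_count_le_one]
  intro b
  by_cases hb : b ∈ S z
  · obtain ⟨a, ha, hab⟩ := Multiset.exists_mem_of_rel_of_mem (Multiset.rel_flip.2 hz) hb
    have ha' : a ∈ (S p).toFinset := Multiset.mem_toFinset.2 ha
    have hd : dist b a < ε a := by
      rw [dist_comm]
      exact lt_of_lt_of_le hab (hle a ha')
    have h3 := Multiset.nodup_iff_count_le_one.1 (hz' a ha') b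
    rwa [Multiset.count_filter_of_pos (p := fun b => dist b a < ε a) hd] at h3
  · rw [Multiset.count_eq_zero_of_notMem hb]
    exact Nat.zero_le _

/-- existence of the fixed truncation. -/
theorem exists_chi : ∃ χ : ℝ → ℝ, Chi χ := by
  refine ⟨fun t => Real.smoothTransition (2 - t), ?_, ?_, ?_, ?_⟩
  · exact Real.smoothTransition.contDiff.comp (contDiff_const.sub contDiff_id)
  · intro t ht
    exact Real.smoothTransition.one_of_one_le (by linarith)
  · intro t ht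
    exact Real.smoothTransition.zero_of_nonpos (by linarith)
  · intro s t hst
    exact Real.smoothTransition.monotone (by linarith)

theorem loc_aux (h1 : CLUS) (h2 : OFFZ) (h3 : CUT) (h4 : FLUX) (h5 : WIND) (h6 : NONZ)
    (h7 : SUPER) {χ : ℝ → ℝ} (hχ : Chi χ) {μ β : ℂ × ℂ → ℂ} {κ L : ℝ} (hB : BoxD μ β κ L)
    (k : ℕ)
    (IH : ∀ k' < k, ∀ (c' : ℂ) (R' : ℝ) (S' : ℂ → Multiset ℂ) (e' : ℂ → ℝ),
      KG μ β c' R' k' S' e' → ∀ p ∈ ball c' R', ∀ᶠ z in 𝓝[≠] p, (S' z).Nodup)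
    (c : ℂ) (R : ℝ) (S : ℂ → Multiset ℂ) (e : ℂ → ℝ) (hK : KG μ β c R k S e)
    (p : ℂ) (hp : p ∈ ball c R) : ∀ᶠ z in 𝓝[≠] p, (S z).Nodup := by
  -- `DiscOff` for every graph with at most `k` sheets
  have hoff : ∀ k' ≤ k, ∀ (c' : ℂ) (R' : ℝ) (S' : ℂ → Multiset ℂ) (e' : ℂ → ℝ),
      KG μ β c' R' k' S' e' → DiscOff c' R' S' := fun k' hk' c' R' S' e' hK' =>
    h2 μ β κ L hB c' R' k' S' e' hK' fun c'' R'' k'' S'' e'' hk'' hK'' =>
      IH k'' (hk''.trans_le hk') c'' R'' S'' e'' hK''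
  by_cases hall : AllEq S p
  swap
  · exact hoff k le_rfl c R S e hK p hp hall
  have hcard : (S p).card = k := hK.card p hp
  have hnhds : ball c R ∈ 𝓝 p := isOpen_ball.mem_nhds hp
  rcases lt_or_ge k 2 with hk | hk
  · have : ∀ᶠ z in 𝓝[≠] p, z ∈ ball c R := mem_nhdsWithin_of_mem_nhds hnhds
    filter_upwards [this] with z hz
    rw [Multiset.nodup_iff_count_le_one]
    intro a
    have := Multiset.count_le_card a (S z)
    rw [hK.card z hz] at this
    omega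
  -- all `k ≥ 2` sheets coincide at `p`
  obtain ⟨a, ha⟩ : ∃ a, a ∈ S p := by
    refine Multiset.card_pos_iff_exists_mem.1 ?_
    omega
  have hcnt : (S p).count a = k := by
    rw [← hcard]
    exact Multiset.count_eq_card.2 fun x hx => hall a ha x hx
  have hexp : 0 < Real.exp (-1) / 2 := by positivity
  obtain ⟨ε, r, hε, hε₀, hr, hsub, hKG, -, -, -, hfull⟩ :=
    h1 μ β κ L hB c R k S e hK p hp a ha _ hexp
  have hfull' := hfull hcnt
  rw [hcnt] at hKG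
  set S' : ℂ → Multiset ℂ := fun z => (S z).filter (fun b => dist b a < ε) with hS'
  have hD' : DiscOff p r S' := hoff k le_rfl p r S' e hKG
  -- distances
  have hdist : ∀ (T : ℂ → Multiset ℂ) (x : ℂ) (δ : ℝ), δ ≤ Real.exp (-1) / 2 → ∀ z,
      ∀ b ∈ (T z).filter (fun b => dist b x < δ), ∀ b' ∈ (T z).filter (fun b => dist b x < δ),
        ‖b - b'‖ ≤ Real.exp (-1) := by
    intro T x δ hδ z b hb b' hb'
    have hb1 := (Multiset.mem_filter.1 hb).2
    have hb2 := (Multiset.mem_filter.1 hb').2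
    rw [← dist_eq_norm]
    have := dist_triangle_right b b' x
    linarith
  obtain ⟨R₁, R₂, η, hR₂, hcut⟩ := h3 μ β κ L hB p r k S' e hKG hD'
    (fun z _ => hdist S a ε hε₀ z) r hr le_rfl
  -- finiteness in the inner disc
  have hfin : (Del p r S' ∩ ball p R₁).Finite := by
    refine h7 μ β κ L hB p r k S' e hKG hD' R₁ R₂ η hcut ?_
    rintro q ⟨hq, hqn⟩ - r₀ hr₀
    obtain ⟨a', ha'⟩ : ∃ a', 2 ≤ (S' q).count a' := by
      by_contra hcon
      push Not at hcon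
      exact hqn (Multiset.nodup_iff_count_le_one.2 fun x => by
        have := hcon x
        omega)
    have ha'm : a' ∈ S' q := Multiset.count_pos.1 (by omega)
    have hk'k : (S' q).count a' ≤ k := by
      rw [← hKG.card q hq]
      exact Multiset.count_le_card a' (S' q)
    obtain ⟨ε', r', hε', hε₀', hr', hsub', hKG', hrep, -, hslope, -⟩ :=
      h1 μ β κ L hB p r k S' e hKG q hq a' ha'm _ hexp
    set S'' : ℂ → Multiset ℂ := fun z => (S' z).filter (fun b => dist b a' < ε') with hS''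
    set r'' : ℝ := min r' (r₀ / 2) with hr''
    have hr''0 : 0 < r'' := lt_min hr' (by positivity)
    have hbb : ball q r'' ⊆ ball q r' := ball_subset_ball (min_le_left _ _)
    have hKG'' : KG μ β q r'' ((S' q).count a') S'' e := KG.restrict hKG' hbb
    have hD'' : DiscOff q r'' S'' := hoff _ hk'k q r'' S'' e hKG''
    obtain ⟨R₁', R₂', η', hR₂', hcut'⟩ := h3 μ β κ L hB q r'' _ S'' e hKG'' hD''
      (fun z _ => hdist S' a' ε' hε₀' z) r'' hr''0 le_rfl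
    have hAll : AllEq S'' q := by
      intro x hx y hy
      have e1 : S'' q = Multiset.replicate ((S' q).count a') a' := hrep
      rw [e1] at hx hy
      rw [Multiset.eq_of_mem_replicate hx, Multiset.eq_of_mem_replicate hy]
    have hflux0 : 0 ≤ flux S'' η' :=
      (h4 χ hχ μ β κ L hB q r'' _ S'' e hKG'' hD'' R₁' R₂' η' hcut').2.2
    have hfluxne : flux S'' η' ≠ 0 :=
      h6 μ β κ L hB q r'' _ S'' e hKG'' hD'' hr''0 hAll ha' R₁' R₂' η' hcut'
    obtain ⟨N, hN⟩ := h5 μ β κ L hB q r'' _ S'' e hKG'' R₁' R₂' η' hcut'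
    have hpos : 0 < flux S'' η' := lt_of_le_of_ne hflux0 (Ne.symm hfluxne)
    have hN1 : (1 : ℝ) ≤ N := by
      rw [hN] at hpos
      have : (0 : ℝ) < N := by
        by_contra hcon
        push Not at hcon
        have := mul_nonpos_of_nonneg_of_nonpos (by positivity : (0 : ℝ) ≤ 2 * Real.pi) hcon
        linarith
      exact_mod_cast this
    refine ⟨a', ε', r'', R₁', R₂', (S' q).count a', η', hε', hr''0, ?_, hbb.trans hsub', hKG'',
      hD'', fun z hz hn b hb => hslope z (hbb hz) hn b hb, hcut', ?_⟩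
    · exact (min_le_right _ _).trans_lt (by linarith)
    · change 2 * Real.pi ≤ flux S'' η'
      rw [hN]
      have := mul_le_mul_of_nonneg_left hN1 (by positivity : (0 : ℝ) ≤ 2 * Real.pi)
      linarith
  -- conclusion
  have hcl : IsClosed ((Del p r S' ∩ ball p R₁) \ {p}) := (hfin.subset sdiff_subset).isClosed
  have hnot : ((Del p r S' ∩ ball p R₁) \ {p})ᶜ ∈ 𝓝 p :=
    hcl.isOpen_compl.mem_nhds (by simp)
  have hb1 : ball p r ∈ 𝓝 p := ball_mem_nhds p hr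
  have hb2 : ball p R₁ ∈ 𝓝 p := ball_mem_nhds p hcut.pos
  filter_upwards [mem_nhdsWithin_of_mem_nhds hnot, mem_nhdsWithin_of_mem_nhds hb1,
    mem_nhdsWithin_of_mem_nhds hb2, self_mem_nhdsWithin] with z hz1 hz2 hz3 hz4
  have hz5 : (S' z).Nodup := by
    by_contra hcon
    exact hz1 ⟨⟨⟨hz2, hcon⟩, hz3⟩, hz4⟩
  have hz6 : S' z = S z := hfull' z hz2
  rwa [hz6] at hz5

/-- **assembly of THEOREM LOC.** -/
theorem loc_of (h1 : CLUS) (h2 : OFFZ) (h3 : CUT) (h4 : FLUX) (h5 : WIND) (h6 : NONZ)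
    (h7 : SUPER) (hχ : ∃ χ : ℝ → ℝ, Chi χ) : LOC := by
  obtain ⟨χ, hχ⟩ := hχ
  intro μ β κ L hB c R k
  induction k using Nat.strong_induction_on generalizing c R with
  | _ k IH =>
    intro S e hK p hp
    exact loc_aux h1 h2 h3 h4 h5 h6 h7 hχ hB k
      (fun k' hk' c' R' S' e' hK' => IH k' hk' c' R' S' e' hK') c R S e hK p hp

end Crest.Agent.R235.LocAsm_437
end

-- ▼ part R235/LocAlg_895
section

/-!
Row 235 (S0364), PACKAGE REG, LOC-4 (task 217): the pointwise algebra of a pair of sheets.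
Main result `jalg : JALG`.  Exports: `apply_eq` (`A u = lz A * u + lzb A * conj u`), linearity of
`lz`, `lzb` (`lz_add`, `lz_sub`, `lz_smul`, ...), norms (`norm_lz_le`, `norm_lzb_le`, `norm_le`),
the formula `pJ_eq`, and the bound `abs_wth_le`.
-/

set_option autoImplicit false

open Complex
open Crest.Agent.R235.Loc

namespace Crest.Agent.R235.LocAlg_895

/-- `A u = lz A * u + lzb A * conj u`. -/
theorem apply_eq (A : ℂ →L[ℝ] ℂ) (u : ℂ) :
    A u = lz A * u + lzb A * (starRingEnd ℂ) u := by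
  have h1 : A u = (u.re : ℂ) * A 1 + (u.im : ℂ) * A I := by
    have hu : u = u.re • (1 : ℂ) + u.im • I := by
      simp [Complex.real_smul, Complex.re_add_im]
    conv_lhs => rw [hu]
    rw [map_add, map_smul, map_smul]
    simp [Complex.real_smul]
  have h2 : u = (u.re : ℂ) + (u.im : ℂ) * I := (Complex.re_add_im u).symm
  have h3 : (starRingEnd ℂ) u = (u.re : ℂ) - (u.im : ℂ) * I := by
    apply Complex.ext <;> simp
  rw [h1, h3]
  conv_rhs => rw [show lz A * u = lz A * ((u.re : ℂ) + (u.im : ℂ) * I) by rw [← h2]]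
  unfold lz lzb
  have hI : I * I = -1 := Complex.I_mul_I
  linear_combination ((u.im : ℂ) * A I) * hI



theorem lz_sub (A B : ℂ →L[ℝ] ℂ) : lz (A - B) = lz A - lz B := by
  unfold lz; simp only [sub_apply]; ring

theorem lzb_sub (A B : ℂ →L[ℝ] ℂ) : lzb (A - B) = lzb A - lzb B := by
  unfold lzb; simp only [sub_apply]; ring

theorem lz_smul (s : ℂ) (A : ℂ →L[ℝ] ℂ) : lz (s • A) = s * lz A := by
  unfold lz; simp only [smul_apply, smul_eq_mul]; ring

theorem lzb_smul (s : ℂ) (A : ℂ →L[ℝ] ℂ) : lzb (s • A) = s * lzb A := by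
  unfold lzb; simp only [smul_apply, smul_eq_mul]; ring



theorem norm_apply_one_le (A : ℂ →L[ℝ] ℂ) : ‖A 1‖ ≤ ‖A‖ := by
  simpa using A.le_opNorm 1

theorem norm_apply_I_le (A : ℂ →L[ℝ] ℂ) : ‖A I‖ ≤ ‖A‖ := by
  simpa using A.le_opNorm I

theorem norm_lz_le (A : ℂ →L[ℝ] ℂ) : ‖lz A‖ ≤ ‖A‖ := by
  unfold lz
  rw [norm_div, Complex.norm_two]
  have h := norm_sub_le (A 1) (I * A I)
  rw [norm_mul, Complex.norm_I, one_mul] at h
  have h1 := norm_apply_one_le A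
  have h2 := norm_apply_I_le A
  linarith

theorem norm_lzb_le (A : ℂ →L[ℝ] ℂ) : ‖lzb A‖ ≤ ‖A‖ := by
  unfold lzb
  rw [norm_div, Complex.norm_two]
  have h := norm_add_le (A 1) (I * A I)
  rw [norm_mul, Complex.norm_I, one_mul] at h
  have h1 := norm_apply_one_le A
  have h2 := norm_apply_I_le A
  linarith

theorem norm_le (A : ℂ →L[ℝ] ℂ) : ‖A‖ ≤ ‖lz A‖ + ‖lzb A‖ := by
  refine A.opNorm_le_bound (by positivity) (fun u => ?_)
  rw [apply_eq A u]
  refine (norm_add_le _ _).trans ?_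
  rw [norm_mul, norm_mul, Complex.norm_conj]
  apply le_of_eq
  ring

theorem norm_sq_le (A : ℂ →L[ℝ] ℂ) : ‖A‖ ^ 2 ≤ 2 * ‖lz A‖ ^ 2 + 2 * ‖lzb A‖ ^ 2 := by
  have h := norm_le A
  have h0 := norm_nonneg A
  have h1 : ‖A‖ ^ 2 ≤ (‖lz A‖ + ‖lzb A‖) ^ 2 := by gcongr
  nlinarith [sq_nonneg (‖lz A‖ - ‖lzb A‖)]

theorem lz_pdL (a b : ℂ) (A B : ℂ →L[ℝ] ℂ) :
    lz (pdL a b A B) = (a - b)⁻¹ * (lz A - lz B) := by
  rw [pdL, lz_smul, lz_sub]

theorem lzb_pdL (a b : ℂ) (A B : ℂ →L[ℝ] ℂ) :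
    lzb (pdL a b A B) = (a - b)⁻¹ * (lzb A - lzb B) := by
  rw [pdL, lzb_smul, lzb_sub]


/-- `|J| ≤ |dL|²`. -/
theorem abs_pJ_le (a b : ℂ) (A B : ℂ →L[ℝ] ℂ) : |pJ a b A B| ≤ ‖pdL a b A B‖ ^ 2 := by
  unfold pJ
  have h1 : ‖lz (pdL a b A B)‖ ^ 2 ≤ ‖pdL a b A B‖ ^ 2 := by
    have := norm_lz_le (pdL a b A B); gcongr
  have h2 : ‖lzb (pdL a b A B)‖ ^ 2 ≤ ‖pdL a b A B‖ ^ 2 := by
    have := norm_lzb_le (pdL a b A B); gcongr
  rw [abs_le]
  constructor
  · nlinarith [sq_nonneg ‖lz (pdL a b A B)‖]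
  · nlinarith [sq_nonneg ‖lzb (pdL a b A B)‖]


/-- the perturbed Beltrami equation of a logarithmic difference. -/
theorem norm_beltrami_le {μ β : ℂ × ℂ → ℂ} {κ L : ℝ} (hD : BoxD μ β κ L) (z : ℂ) {a b : ℂ}
    {A B : ℂ →L[ℝ] ℂ} (hab : a ≠ b)
    (hA : lzb A = μ (z, a) * lz A - β (z, a)) (hB : lzb B = μ (z, b) * lz B - β (z, b)) :
    ‖lzb (pdL a b A B) - μ (z, a) * lz (pdL a b A B)‖ ≤ L * (1 + ‖B‖) := by
  have hab' : a - b ≠ 0 := sub_ne_zero.mpr hab
  have hn : 0 < ‖a - b‖ := norm_pos_iff.mpr hab'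
  have hz : ‖((z, a) : ℂ × ℂ) - (z, b)‖ = ‖a - b‖ := by
    simp [Prod.norm_def]
  have key : lzb (pdL a b A B) - μ (z, a) * lz (pdL a b A B)
      = (a - b)⁻¹ * ((μ (z, a) - μ (z, b)) * lz B - (β (z, a) - β (z, b))) := by
    rw [lz_pdL, lzb_pdL, hA, hB]; ring
  rw [key, norm_mul, norm_inv]
  have h1 : ‖(μ (z, a) - μ (z, b)) * lz B - (β (z, a) - β (z, b))‖
      ≤ L * ‖a - b‖ * ‖B‖ + L * ‖a - b‖ := by
    refine (norm_sub_le _ _).trans ?_
    rw [norm_mul]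
    have hm := hD.lipμ (z, a) (z, b)
    have hb := hD.lipβ (z, a) (z, b)
    rw [hz] at hm hb
    have hl := norm_lz_le B
    have hL := hD.L0
    gcongr
  calc ‖a - b‖⁻¹ * ‖(μ (z, a) - μ (z, b)) * lz B - (β (z, a) - β (z, b))‖
      ≤ ‖a - b‖⁻¹ * (L * ‖a - b‖ * ‖B‖ + L * ‖a - b‖) := by gcongr
    _ = L * (1 + ‖B‖) := by field_simp; ring

/-- LOC-4: the pointwise inequality for `J`. -/
theorem jalg : JALG := by
  intro κ L hκ0 hκ1 hL
  have hκ2 : 0 < 1 - κ ^ 2 := by nlinarith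
  set δ : ℝ := 1 - κ ^ 2 with hδ
  set C₁ : ℝ := 2 * κ ^ 2 / δ + 1 with hC₁
  have hC₁pos : 1 ≤ C₁ := by
    have : 0 ≤ 2 * κ ^ 2 / δ := by positivity
    linarith
  refine ⟨δ / 8, 1 + L + 5 / 2 * C₁ * L ^ 2, by positivity, by positivity, ?_⟩
  intro μ β hD z a b A B hab hA hB
  have hg := norm_beltrami_le hD z hab hA hB
  set p := lz (pdL a b A B) with hp
  set q := lzb (pdL a b A B) with hq
  set g := q - μ (z, a) * p with hgdef
  have hB0 := norm_nonneg B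
  have hCL : 0 ≤ C₁ * L ^ 2 := by positivity
  refine ⟨?_, ?_, ?_⟩
  · have hqle : ‖q‖ ≤ κ * ‖p‖ + ‖g‖ := by
      have : q = μ (z, a) * p + g := by rw [hgdef]; ring
      calc ‖q‖ = ‖μ (z, a) * p + g‖ := by rw [← this]
        _ ≤ ‖μ (z, a)‖ * ‖p‖ + ‖g‖ := by
            refine (norm_add_le _ _).trans ?_
            rw [norm_mul]
        _ ≤ κ * ‖p‖ + ‖g‖ := by
            have := hD.bμ (z, a)
            gcongr
    have hq2 : ‖q‖ ^ 2 ≤ (1 + κ ^ 2) / 2 * ‖p‖ ^ 2 + C₁ * ‖g‖ ^ 2 := by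
      have h1 : ‖q‖ ^ 2 ≤ (κ * ‖p‖ + ‖g‖) ^ 2 := by gcongr
      have h2 : 2 * κ * ‖p‖ * ‖g‖ ≤ δ / 2 * ‖p‖ ^ 2 + 2 * κ ^ 2 / δ * ‖g‖ ^ 2 := by
        have h3 : 0 ≤ (δ * ‖p‖ - 2 * κ * ‖g‖) ^ 2 / (2 * δ) := by positivity
        have h4 : (δ * ‖p‖ - 2 * κ * ‖g‖) ^ 2 / (2 * δ)
            = δ / 2 * ‖p‖ ^ 2 + 2 * κ ^ 2 / δ * ‖g‖ ^ 2 - 2 * κ * ‖p‖ * ‖g‖ := by
          field_simp; ring
        linarith
      have h5 : (1 + κ ^ 2) / 2 = κ ^ 2 + δ / 2 := by rw [hδ]; ring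
      rw [h5, hC₁]
      nlinarith
    have hn2 := norm_sq_le (pdL a b A B)
    rw [← hp, ← hq] at hn2
    have hg2 : ‖g‖ ^ 2 ≤ L ^ 2 * (2 * (1 + ‖B‖ ^ 2)) := by
      have h1 : ‖g‖ ^ 2 ≤ (L * (1 + ‖B‖)) ^ 2 := by gcongr
      have h2 : (1 + ‖B‖) ^ 2 ≤ 2 * (1 + ‖B‖ ^ 2) := by nlinarith [sq_nonneg (1 - ‖B‖)]
      calc ‖g‖ ^ 2 ≤ (L * (1 + ‖B‖)) ^ 2 := h1
        _ = L ^ 2 * (1 + ‖B‖) ^ 2 := by ring
        _ ≤ L ^ 2 * (2 * (1 + ‖B‖ ^ 2)) := by gcongr
    have hδ1 : δ ≤ 1 := by rw [hδ]; nlinarith [sq_nonneg κ]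
    have hpJ : pJ a b A B = ‖p‖ ^ 2 - ‖q‖ ^ 2 := rfl
    rw [hpJ]
    have hp2 : 0 ≤ ‖p‖ ^ 2 := by positivity
    have hgg : 0 ≤ C₁ * ‖g‖ ^ 2 := by positivity
    -- `‖dL‖² ≤ 4 |p|² + 2 C₁ |g|²`
    have hdL : ‖pdL a b A B‖ ^ 2 ≤ 4 * ‖p‖ ^ 2 + 2 * (C₁ * ‖g‖ ^ 2) := by
      have hk : (1 + κ ^ 2) / 2 * ‖p‖ ^ 2 ≤ ‖p‖ ^ 2 := by
        have : (1 + κ ^ 2) / 2 ≤ 1 := by nlinarith
        nlinarith
      linarith
    have hstep : δ / 8 * ‖pdL a b A B‖ ^ 2 ≤ δ / 2 * ‖p‖ ^ 2 + 1 / 4 * (C₁ * ‖g‖ ^ 2) := by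
      have h1 : δ / 8 * ‖pdL a b A B‖ ^ 2 ≤ δ / 8 * (4 * ‖p‖ ^ 2 + 2 * (C₁ * ‖g‖ ^ 2)) := by
        gcongr
      have h2 : δ * (C₁ * ‖g‖ ^ 2) ≤ C₁ * ‖g‖ ^ 2 := by nlinarith
      nlinarith
    have hδeq : ‖p‖ ^ 2 - (1 + κ ^ 2) / 2 * ‖p‖ ^ 2 = δ / 2 * ‖p‖ ^ 2 := by rw [hδ]; ring
    have hfin : 5 / 4 * (C₁ * ‖g‖ ^ 2) ≤ 5 / 2 * C₁ * L ^ 2 * (1 + ‖B‖ ^ 2) := by
      have : C₁ * ‖g‖ ^ 2 ≤ C₁ * (L ^ 2 * (2 * (1 + ‖B‖ ^ 2))) := by gcongr
      nlinarith
    have hrest : 0 ≤ (1 + L) * (1 + ‖B‖ ^ 2) := by positivity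
    nlinarith
  · refine (abs_pJ_le a b A B).trans ?_
    have h1 : 1 ≤ 1 + L + 5 / 2 * C₁ * L ^ 2 := by nlinarith
    nlinarith [sq_nonneg ‖pdL a b A B‖]
  · refine hg.trans ?_
    have h1 : L ≤ 1 + L + 5 / 2 * C₁ * L ^ 2 := by nlinarith
    gcongr

end Crest.Agent.R235.LocAlg_895
end

-- ▼ part R235/LocStar_936

/-!
Row 235 (S0364), package REG, block LOC, task 218 (helper936): `STAR`, the basic identity.
-/

set_option autoImplicit false

open MeasureTheory Metric Set Filter Complex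
open scoped ContDiff Topology
open Crest.Agent.R235.Loc

namespace Crest.Agent.R235.LocStar_936

noncomputable section

/-! ### pair sums with values in any monoid -/

open Classical in
/-- vector valued pair sum -/
def psV {E : Type*} [AddCommMonoid E] (S : ℂ → Multiset ℂ)
    (G : ℂ → ℂ → ℂ → (ℂ →L[ℝ] ℂ) → (ℂ →L[ℝ] ℂ) → E) (z : ℂ) : E :=
  if (S z).Nodup then
    ∑ q ∈ (S z).toFinset.offDiag, G z q.1 q.2 (slope S z q.1) (slope S z q.2) else 0

theorem psum_eq (S : ℂ → Multiset ℂ) (G : ℂ → ℂ → ℂ → (ℂ →L[ℝ] ℂ) → (ℂ →L[ℝ] ℂ) → ℝ) (z : ℂ) :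
    psum S G z = psV S G z := rfl

theorem psV_local {E : Type*} [AddCommMonoid E] {k : ℕ} {S : ℂ → Multiset ℂ}
    {w : Fin k → ℂ → ℂ} {z : ℂ} (hinj : Function.Injective fun i => w i z)
    (hS : S z = Multiset.map (fun i => w i z) Finset.univ.val)
    (hsl : ∀ i, slope S z (w i z) = fderiv ℝ (w i) z)
    (G : ℂ → ℂ → ℂ → (ℂ →L[ℝ] ℂ) → (ℂ →L[ℝ] ℂ) → E) :
    psV S G z = ∑ q ∈ (Finset.univ : Finset (Fin k)).offDiag,
      G z (w q.1 z) (w q.2 z) (fderiv ℝ (w q.1) z) (fderiv ℝ (w q.2) z) := by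
  have hnd : (S z).Nodup := by
    rw [hS]
    exact Finset.univ.nodup.map hinj
  have hm : ∀ i, w i z ∈ S z := fun i => by
    rw [hS]
    exact Multiset.mem_map.2 ⟨i, by simp, rfl⟩
  unfold psV
  rw [if_pos hnd]
  symm
  refine Finset.sum_nbij (fun q => (w q.1 z, w q.2 z)) ?_ ?_ ?_ ?_
  · intro q hq
    rw [Finset.mem_offDiag] at hq ⊢
    exact ⟨Multiset.mem_toFinset.2 (hm _), Multiset.mem_toFinset.2 (hm _),
      fun h => hq.2.2 (hinj h)⟩
  · intro q _ q' _ h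
    simp only [Prod.mk.injEq] at h
    exact Prod.ext (hinj h.1) (hinj h.2)
  · rintro ⟨a, b⟩ hq
    rw [Finset.mem_coe, Finset.mem_offDiag, Multiset.mem_toFinset, Multiset.mem_toFinset, hS] at hq
    obtain ⟨h1, h2, h3⟩ := hq
    obtain ⟨i, -, rfl⟩ := Multiset.mem_map.1 h1
    obtain ⟨j, -, rfl⟩ := Multiset.mem_map.1 h2
    refine ⟨(i, j), ?_, rfl⟩
    rw [Finset.mem_coe, Finset.mem_offDiag]
    refine ⟨Finset.mem_univ _, Finset.mem_univ _, fun hij => h3 ?_⟩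
    have hij' : i = j := hij
    rw [hij']
  · intro q _
    simp only [hsl]

theorem norm_psV_le {E : Type*} [NormedAddCommGroup E] {S : ℂ → Multiset ℂ}
    {G : ℂ → ℂ → ℂ → (ℂ →L[ℝ] ℂ) → (ℂ →L[ℝ] ℂ) → E} {z : ℂ} {B : ℝ} (hB : 0 ≤ B) {k : ℕ}
    (hk : (S z).card = k)
    (h : (S z).Nodup → ∀ a ∈ S z, ∀ b ∈ S z, a ≠ b → ‖G z a b (slope S z a) (slope S z b)‖ ≤ B) :
    ‖psV S G z‖ ≤ (k : ℝ) ^ 2 * B := by
  classical
  unfold psV
  split_ifs with hnd
  · refine (norm_sum_le _ _).trans ?_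
    refine (Finset.sum_le_card_nsmul _ _ B fun q hq => ?_).trans ?_
    · rw [Finset.mem_offDiag, Multiset.mem_toFinset, Multiset.mem_toFinset] at hq
      exact h hnd _ hq.1 _ hq.2.1 hq.2.2
    · rw [nsmul_eq_mul]
      refine mul_le_mul_of_nonneg_right ?_ hB
      rw [Finset.offDiag_card]
      have h1 : (S z).toFinset.card ≤ k := hk ▸ Multiset.toFinset_card_le _
      have h2 : (S z).toFinset.card * (S z).toFinset.card - (S z).toFinset.card ≤ k ^ 2 := by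
        refine (Nat.sub_le _ _).trans ?_
        rw [sq]
        exact Nat.mul_le_mul h1 h1
      exact_mod_cast h2
  · rw [norm_zero]
    positivity

theorem psV_zero {E : Type*} [AddCommMonoid E] {S : ℂ → Multiset ℂ}
    {G : ℂ → ℂ → ℂ → (ℂ →L[ℝ] ℂ) → (ℂ →L[ℝ] ℂ) → E} {z : ℂ}
    (h : (S z).Nodup → ∀ a ∈ S z, ∀ b ∈ S z, a ≠ b → G z a b (slope S z a) (slope S z b) = 0) :
    psV S G z = 0 := by
  classical
  unfold psV
  split_ifs with hnd
  · refine Finset.sum_eq_zero fun q hq => ?_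
    rw [Finset.mem_offDiag, Multiset.mem_toFinset, Multiset.mem_toFinset] at hq
    exact h hnd _ hq.1 _ hq.2.1 hq.2.2
  · rfl

/-! ### pointwise bounds -/

theorem norm_lz_le (A : ℂ →L[ℝ] ℂ) : ‖lz A‖ ≤ ‖A‖ := by
  have h1 : ‖A 1‖ ≤ ‖A‖ := by simpa using A.le_opNorm 1
  have h2 : ‖A I‖ ≤ ‖A‖ := by simpa using A.le_opNorm I
  unfold lz
  rw [norm_div]
  have h3 : ‖A 1 - I * A I‖ ≤ ‖A 1‖ + ‖A I‖ := by
    refine (norm_sub_le _ _).trans ?_
    rw [norm_mul, norm_I, one_mul]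
  have h4 : ‖(2 : ℂ)‖ = 2 := by simp
  rw [h4, div_le_iff₀ (by norm_num)]
  linarith

theorem norm_lzb_le (A : ℂ →L[ℝ] ℂ) : ‖lzb A‖ ≤ ‖A‖ := by
  have h1 : ‖A 1‖ ≤ ‖A‖ := by simpa using A.le_opNorm 1
  have h2 : ‖A I‖ ≤ ‖A‖ := by simpa using A.le_opNorm I
  unfold lzb
  rw [norm_div]
  have h3 : ‖A 1 + I * A I‖ ≤ ‖A 1‖ + ‖A I‖ := by
    refine (norm_add_le _ _).trans ?_
    rw [norm_mul, norm_I, one_mul]
  have h4 : ‖(2 : ℂ)‖ = 2 := by simp
  rw [h4, div_le_iff₀ (by norm_num)]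
  linarith

theorem abs_pJ_le (a b : ℂ) (A B : ℂ →L[ℝ] ℂ) : |pJ a b A B| ≤ ‖pdL a b A B‖ ^ 2 := by
  have h1 := pow_le_pow_left₀ (norm_nonneg _) (norm_lz_le (pdL a b A B)) 2
  have h2 := pow_le_pow_left₀ (norm_nonneg _) (norm_lzb_le (pdL a b A B)) 2
  have h3 : 0 ≤ ‖lz (pdL a b A B)‖ ^ 2 := by positivity
  have h4 : 0 ≤ ‖lzb (pdL a b A B)‖ ^ 2 := by positivity
  unfold pJ
  rw [abs_le]
  constructor <;> linarith

theorem abs_wth_le (α : ℂ →L[ℝ] ℝ) (a b : ℂ) (A B : ℂ →L[ℝ] ℂ) :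
    |wth α a b A B| ≤ 2 * ‖α‖ * ‖pdL a b A B‖ := by
  have h1 : |α 1| ≤ ‖α‖ := by simpa using α.le_opNorm 1
  have h2 : |α I| ≤ ‖α‖ := by simpa using α.le_opNorm I
  have h3 : |(pdL a b A B 1).im| ≤ ‖pdL a b A B‖ :=
    (abs_im_le_norm _).trans (by simpa using (pdL a b A B).le_opNorm 1)
  have h4 : |(pdL a b A B I).im| ≤ ‖pdL a b A B‖ :=
    (abs_im_le_norm _).trans (by simpa using (pdL a b A B).le_opNorm I)
  unfold wth
  have h5 : |α 1 * (pdL a b A B I).im| ≤ ‖α‖ * ‖pdL a b A B‖ := by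
    rw [abs_mul]
    exact mul_le_mul h1 h4 (abs_nonneg _) (norm_nonneg _)
  have h6 : |α I * (pdL a b A B 1).im| ≤ ‖α‖ * ‖pdL a b A B‖ := by
    rw [abs_mul]
    exact mul_le_mul h2 h3 (abs_nonneg _) (norm_nonneg _)
  calc |α 1 * (pdL a b A B I).im - α I * (pdL a b A B 1).im|
      ≤ |α 1 * (pdL a b A B I).im| + |α I * (pdL a b A B 1).im| := abs_sub _ _
    _ ≤ 2 * ‖α‖ * ‖pdL a b A B‖ := by linarith

/-! ### calculus -/

/-- `curl` of a product -/
theorem curl_smul {h : ℂ → ℝ} {α : ℂ → ℂ →L[ℝ] ℝ} {z : ℂ} (hh : DifferentiableAt ℝ h z)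
    (hα : DifferentiableAt ℝ α z) :
    fderiv ℝ (fun x => h x • α x) z 1 I - fderiv ℝ (fun x => h x • α x) z I 1 =
      h z * (fderiv ℝ α z 1 I - fderiv ℝ α z I 1) +
        (fderiv ℝ h z 1 * α z I - fderiv ℝ h z I * α z 1) := by
  rw [fderiv_fun_smul hh hα]
  simp only [add_apply, smul_apply,
    ContinuousLinearMap.smulRight_apply, smul_eq_mul]
  ring

/-- `f⁻¹ df` is closed -/
theorem curl_dlog {f : ℂ → ℂ} {z : ℂ} (hf : ContDiffAt ℝ 2 f z) (h0 : f z ≠ 0) :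
    DifferentiableAt ℝ (fun x => (f x)⁻¹ • fderiv ℝ f x) z ∧
      fderiv ℝ (fun x => (f x)⁻¹ • fderiv ℝ f x) z 1 I =
        fderiv ℝ (fun x => (f x)⁻¹ • fderiv ℝ f x) z I 1 := by
  have hd : DifferentiableAt ℝ f z := hf.differentiableAt (by norm_num)
  have hdd : DifferentiableAt ℝ (fderiv ℝ f) z :=
    (hf.fderiv_right (m := 1) (by norm_num)).differentiableAt (by norm_num)
  have hinv : HasFDerivAt (fun x => (f x)⁻¹)
      ((((1 : ℂ →L[ℂ] ℂ).smulRight (-(f z ^ 2)⁻¹)).restrictScalars ℝ).comp (fderiv ℝ f z)) z :=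
    ((hasDerivAt_inv h0).hasFDerivAt.restrictScalars ℝ).comp z hd.hasFDerivAt
  have hprod := hinv.smul hdd.hasFDerivAt
  refine ⟨hprod.differentiableAt, ?_⟩
  have hsymm := hf.isSymmSndFDerivAt (by simp)
  have h1 : fderiv ℝ (fderiv ℝ f) z 1 I = fderiv ℝ (fderiv ℝ f) z I 1 := hsymm 1 I
  rw [show fderiv ℝ (fun x => (f x)⁻¹ • fderiv ℝ f x) z = _ from hprod.fderiv]
  simp only [add_apply, smul_apply,
    ContinuousLinearMap.smulRight_apply, smul_eq_mul, ContinuousLinearMap.comp_apply,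
    ContinuousLinearMap.coe_restrictScalars', one_apply_eq_self, h1]
  ring

theorem hasFDerivAt_pv {f g : ℂ → ℂ} {z : ℂ} (hf : DifferentiableAt ℝ f z)
    (hg : DifferentiableAt ℝ g z) (h0 : f z ≠ g z) :
    HasFDerivAt (fun x => pv (f x) (g x))
      (-(Complex.reCLM.comp (pdL (f z) (g z) (fderiv ℝ f z) (fderiv ℝ g z)))) z := by
  have h1 : f z - g z ≠ 0 := sub_ne_zero.2 h0
  have h2 := (hf.hasFDerivAt.sub hg.hasFDerivAt).norm_sq
  have h3 : ‖f z - g z‖ ^ 2 ≠ 0 := by positivity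
  have h4 := (h2.log h3).const_mul (-(1 / 2 : ℝ))
  have h5 : (fun x => pv (f x) (g x)) = fun x => -(1 / 2 : ℝ) * Real.log (‖(f - g) x‖ ^ 2) := by
    funext x
    unfold pv
    rw [Real.log_pow, Pi.sub_apply]
    push_cast
    ring
  rw [h5]
  refine h4.congr_fderiv ?_
  ext u
  simp only [smul_apply, ContinuousLinearMap.comp_apply,
    neg_apply, smul_eq_mul, sub_apply, Pi.sub_apply,
    innerSL_apply_apply, Complex.inner, Complex.reCLM_apply, pdL]
  rw [Complex.inv_def]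
  have h6 : Complex.normSq (f z - g z) = ‖f z - g z‖ ^ 2 := Complex.normSq_eq_norm_sq _
  rw [h6]
  have h7 : ((starRingEnd ℂ) (f z - g z) * (((‖f z - g z‖ ^ 2)⁻¹ : ℝ) : ℂ) *
      (fderiv ℝ f z u - fderiv ℝ g z u)).re =
      (‖f z - g z‖ ^ 2)⁻¹ * ((fderiv ℝ f z u - fderiv ℝ g z u) *
        (starRingEnd ℂ) (f z - g z)).re := by
    rw [← Complex.re_ofReal_mul]
    congr 1
    ring
  rw [h7]
  simp only [nsmul_eq_mul]
  push_cast
  ring

/-- the one-form `η psum (φ(v) dθ)` -/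
def GV (φ : ℝ → ℝ) (_ a b : ℂ) (A B : ℂ →L[ℝ] ℂ) : ℂ →L[ℝ] ℝ :=
  φ (pv a b) • Complex.imCLM.comp (pdL a b A B)

/-- the term of a pair near a simple point -/
theorem curl_term {φ : ℝ → ℝ} (hφ : ContDiff ℝ 1 φ) {η : ℂ → ℝ} {f g : ℂ → ℂ} {z : ℂ}
    (hη : ContDiffAt ℝ 1 η z) (hf : ContDiffAt ℝ ∞ f z) (hg : ContDiffAt ℝ ∞ g z)
    (h0 : f z ≠ g z) :
    ContDiffAt ℝ 1 (fun x => η x • GV φ x (f x) (g x) (fderiv ℝ f x) (fderiv ℝ g x)) z ∧
      fderiv ℝ (fun x => η x • GV φ x (f x) (g x) (fderiv ℝ f x) (fderiv ℝ g x)) z 1 I -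
        fderiv ℝ (fun x => η x • GV φ x (f x) (g x) (fderiv ℝ f x) (fderiv ℝ g x)) z I 1 =
      φ (pv (f z) (g z)) * wth (fderiv ℝ η z) (f z) (g z) (fderiv ℝ f z) (fderiv ℝ g z) -
        η z * (deriv φ (pv (f z) (g z)) * pJ (f z) (g z) (fderiv ℝ f z) (fderiv ℝ g z)) := by
  have hfg : ContDiffAt ℝ ∞ (f - g) z := hf.sub hg
  have h0' : (f - g) z ≠ 0 := sub_ne_zero.2 h0
  have i1 : (1 : ℕ∞ω) ≤ ∞ := by exact_mod_cast (le_top : (1 : ℕ∞) ≤ ⊤)
  have i2 : (2 : ℕ∞ω) ≤ ∞ := ENat.LEInfty.out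
  have i3 : (1 : ℕ∞ω) + 1 ≤ ∞ := by rw [one_add_one_eq_two]; exact i2
  have hfd : ∀ᶠ x in 𝓝 z, DifferentiableAt ℝ f x :=
    ((hf.of_le i1).eventually (by simp)).mono fun x hx => hx.differentiableAt (by simp)
  have hgd : ∀ᶠ x in 𝓝 z, DifferentiableAt ℝ g x :=
    ((hg.of_le i1).eventually (by simp)).mono fun x hx => hx.differentiableAt (by simp)
  -- the closed form
  let ℓ : ℂ → ℂ →L[ℝ] ℂ := fun x => ((f - g) x)⁻¹ • fderiv ℝ (f - g) x
  have hℓeq : (fun x => pdL (f x) (g x) (fderiv ℝ f x) (fderiv ℝ g x)) =ᶠ[𝓝 z] ℓ := by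
    filter_upwards [hfd, hgd] with x hx hx'
    change (f x - g x)⁻¹ • (fderiv ℝ f x - fderiv ℝ g x) = (f x - g x)⁻¹ • fderiv ℝ (f - g) x
    rw [fderiv_sub hx hx']
  obtain ⟨hℓd, hℓc⟩ := curl_dlog (hfg.of_le i2) h0'
  have hℓC : ContDiffAt ℝ 1 ℓ z :=
    ((hfg.of_le i1).inv h0').smul (hfg.fderiv_right (m := 1) i3)
  let α : ℂ → ℂ →L[ℝ] ℝ := fun x => Complex.imCLM.comp (ℓ x)
  have hαC : ContDiffAt ℝ 1 α z := contDiffAt_const.clm_comp hℓC
  have hαd : fderiv ℝ α z = (ContinuousLinearMap.compL ℝ ℂ ℂ ℝ Complex.imCLM).comp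
      (fderiv ℝ ℓ z) :=
    ((ContinuousLinearMap.compL ℝ ℂ ℂ ℝ Complex.imCLM).hasFDerivAt.comp z
      hℓd.hasFDerivAt).fderiv
  -- the function
  let h : ℂ → ℝ := fun x => η x * φ (pv (f x) (g x))
  have hpv := hasFDerivAt_pv (hfd.self_of_nhds) (hgd.self_of_nhds) h0
  have hpvC : ContDiffAt ℝ 1 (fun x => pv (f x) (g x)) z := by
    unfold pv
    refine ContDiffAt.neg (ContDiffAt.log ?_ (norm_ne_zero_iff.2 h0'))
    exact ContDiffAt.norm ℝ (hfg.of_le i1) h0'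
  have hhC : ContDiffAt ℝ 1 h z := hη.mul (hφ.contDiffAt.comp z hpvC)
  have heq : (fun x => η x • GV φ x (f x) (g x) (fderiv ℝ f x) (fderiv ℝ g x)) =ᶠ[𝓝 z]
      fun x => h x • α x := by
    filter_upwards [hℓeq] with x hx
    change η x • (φ (pv (f x) (g x)) •
      Complex.imCLM.comp (pdL (f x) (g x) (fderiv ℝ f x) (fderiv ℝ g x))) = _
    rw [hx, smul_smul]
  refine ⟨(hhC.smul hαC).congr_of_eventuallyEq heq, ?_⟩
  rw [heq.fderiv_eq, curl_smul (hhC.differentiableAt (by simp)) (hαC.differentiableAt (by simp)),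
    hαd]
  have e1 : ((ContinuousLinearMap.compL ℝ ℂ ℂ ℝ Complex.imCLM).comp (fderiv ℝ ℓ z)) 1 I =
      (fderiv ℝ ℓ z 1 I).im := rfl
  have e2 : ((ContinuousLinearMap.compL ℝ ℂ ℂ ℝ Complex.imCLM).comp (fderiv ℝ ℓ z)) I 1 =
      (fderiv ℝ ℓ z I 1).im := rfl
  have hℓc' : fderiv ℝ ℓ z 1 I = fderiv ℝ ℓ z I 1 := hℓc
  rw [e1, e2, hℓc', sub_self, mul_zero, zero_add]
  have hh : HasFDerivAt h (η z • (deriv φ (pv (f z) (g z)) •
      (-(Complex.reCLM.comp (pdL (f z) (g z) (fderiv ℝ f z) (fderiv ℝ g z))))) +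
      φ (pv (f z) (g z)) • fderiv ℝ η z) z :=
    (hη.differentiableAt (by simp)).hasFDerivAt.mul
      (((hφ.differentiable (by simp)) _).hasDerivAt.comp_hasFDerivAt z hpv)
  rw [hh.fderiv]
  have hαz : α z = Complex.imCLM.comp (pdL (f z) (g z) (fderiv ℝ f z) (fderiv ℝ g z)) := by
    change Complex.imCLM.comp (ℓ z) = _
    rw [← hℓeq.self_of_nhds]
  rw [hαz]
  set D := pdL (f z) (g z) (fderiv ℝ f z) (fderiv ℝ g z) with hD
  have hJ : pJ (f z) (g z) (fderiv ℝ f z) (fderiv ℝ g z) =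
      (D 1).re * (D I).im - (D I).re * (D 1).im := by
    unfold pJ lz lzb
    rw [← hD]
    rw [← Complex.normSq_eq_norm_sq, ← Complex.normSq_eq_norm_sq]
    simp only [map_div₀, Complex.normSq_apply, Complex.sub_re, Complex.sub_im, Complex.add_re,
      Complex.add_im, Complex.mul_re, Complex.mul_im, Complex.I_re, Complex.I_im, Complex.re_ofNat,
      Complex.im_ofNat]
    ring
  rw [hJ]
  unfold wth
  rw [← hD]
  simp only [add_apply, smul_apply, neg_apply, ContinuousLinearMap.comp_apply, smul_eq_mul,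
    Complex.reCLM_apply, Complex.imCLM_apply]
  ring

/-! ### topology of the graph -/

section Top

variable {μ β : ℂ × ℂ → ℂ} {κ L : ℝ} {c : ℂ} {R : ℝ} {k : ℕ} {S : ℂ → Multiset ℂ} {e : ℂ → ℝ}

theorem exists_near {z z' : ℂ} {δ : ℝ} (h : Near δ (S z) (S z')) {b : ℂ} (hb : b ∈ S z') :
    ∃ a ∈ S z, dist a b < δ := by
  obtain ⟨a, ha, hab⟩ := Multiset.exists_mem_of_rel_of_mem (Multiset.rel_flip.2 h) hb
  exact ⟨a, ha, hab⟩

/-- the points where all sheets are at distance `< exp (-n)`. -/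
def Oset (c : ℂ) (R n : ℝ) (S : ℂ → Multiset ℂ) : Set ℂ :=
  {z ∈ ball c R | ∀ a ∈ S z, ∀ b ∈ S z, ‖a - b‖ < Real.exp (-n)}

theorem isOpen_Oset (hK : KG μ β c R k S e) (n : ℝ) : IsOpen (Oset c R n S) := by
  rw [isOpen_iff_mem_nhds]
  rintro z ⟨hz, hz'⟩
  obtain ⟨δ, hδ, hδ'⟩ : ∃ δ > 0, ∀ a ∈ S z, ∀ b ∈ S z, ‖a - b‖ + 2 * δ < Real.exp (-n) := by
    classical
    have h1 : ∀ q ∈ (S z).toFinset ×ˢ (S z).toFinset, ∀ᶠ δ in 𝓝[>] (0 : ℝ),
        ‖q.1 - q.2‖ + 2 * δ < Real.exp (-n) := by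
      intro q hq
      rw [Finset.mem_product, Multiset.mem_toFinset, Multiset.mem_toFinset] at hq
      have h2 : Tendsto (fun δ : ℝ => ‖q.1 - q.2‖ + 2 * δ) (𝓝[>] 0) (𝓝 (‖q.1 - q.2‖ + 2 * 0)) :=
        ((continuous_const.add (continuous_const.mul continuous_id)).tendsto _).mono_left
          nhdsWithin_le_nhds
      rw [mul_zero, add_zero] at h2
      exact h2.eventually_lt_const (hz' _ hq.1 _ hq.2)
    have h2 := (Filter.eventually_all_finset _).2 h1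
    obtain ⟨δ, hδ1, hδ2⟩ := (h2.and self_mem_nhdsWithin).exists
    exact ⟨δ, hδ2, fun a ha b hb => hδ1 (a, b)
      (Finset.mem_product.2 ⟨Multiset.mem_toFinset.2 ha, Multiset.mem_toFinset.2 hb⟩)⟩
  filter_upwards [isOpen_ball.mem_nhds hz, hK.cont z hz δ hδ] with z' h1 h2
  refine ⟨h1, fun a' ha' b' hb' => ?_⟩
  obtain ⟨a, ha, haa⟩ := exists_near h2 ha'
  obtain ⟨b, hb, hbb⟩ := exists_near h2 hb'
  have h3 := hδ' a ha b hb
  have h4 : dist a' b' ≤ dist a' a + dist a b + dist b b' := dist_triangle4 _ _ _ _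
  rw [dist_comm a' a, dist_eq_norm a' b', dist_eq_norm a b] at h4
  linarith

theorem exists_bd (hK : KG μ β c R k S e) {T : Set ℂ} (hT : IsCompact T) (hTB : T ⊆ ball c R) :
    ∃ B : ℝ, 0 ≤ B ∧ ∀ z ∈ T, ∀ a ∈ S z, ‖a‖ ≤ B := by
  classical
  refine hT.induction_on (p := fun s => ∃ B : ℝ, 0 ≤ B ∧ ∀ z ∈ s, ∀ a ∈ S z, ‖a‖ ≤ B)
    ⟨0, le_rfl, fun z hz => hz.elim⟩ ?_ ?_ ?_
  · rintro s t hst ⟨B, hB, h⟩
    exact ⟨B, hB, fun z hz => h z (hst hz)⟩
  · rintro s t ⟨B, hB, h⟩ ⟨B', hB', h'⟩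
    refine ⟨max B B', hB.trans (le_max_left _ _), fun z hz a ha => ?_⟩
    rcases hz with hz | hz
    · exact (h z hz a ha).trans (le_max_left _ _)
    · exact (h' z hz a ha).trans (le_max_right _ _)
  · intro z hz
    obtain ⟨b, hb⟩ := ((S z).toFinset.image fun a => ‖a‖).exists_le
    have h1 := hK.cont z (hTB hz) 1 one_pos
    refine ⟨{z' | Near 1 (S z) (S z')}, mem_nhdsWithin_of_mem_nhds h1, max b 0 + 1,
      by positivity, fun z' hz' a' ha' => ?_⟩
    obtain ⟨a, ha, haa⟩ := exists_near hz' ha'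
    have h2 : ‖a‖ ≤ b := hb _ (Finset.mem_image.2 ⟨a, Multiset.mem_toFinset.2 ha, rfl⟩)
    have h3 : ‖a'‖ ≤ ‖a‖ + ‖a' - a‖ := by
      have := norm_add_le a (a' - a)
      rwa [add_sub_cancel] at this
    rw [dist_comm, dist_eq_norm] at haa
    have h4 := le_max_left b 0
    linarith

theorem finite_bad (hd : DiscOff c R S) {T : Set ℂ} (hT : IsCompact T)
    (hTB : ∀ p ∈ T, p ∈ ball c R ∧ ¬ AllEq S p) : {z ∈ T | ¬ (S z).Nodup}.Finite := by
  have h1 : ∀ p ∈ T, {z | z ≠ p → (S z).Nodup} ∈ 𝓝 p := fun p hp => by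
    have := hd p (hTB p hp).1 (hTB p hp).2
    rw [eventually_nhdsWithin_iff] at this
    exact this
  obtain ⟨t, ht, htc⟩ := hT.elim_nhds_subcover (fun p => {z | z ≠ p → (S z).Nodup}) h1
  refine t.finite_toSet.subset ?_
  rintro z ⟨hz, hzn⟩
  obtain ⟨p, hp, hzp⟩ := mem_iUnion₂.1 (htc hz)
  by_contra hcon
  exact hzn (hzp fun h => hcon (h ▸ hp))

theorem slope_le (h1 : SEL) (hB : BoxD μ β κ L) (hK : KG μ β c R k S e) {z : ℂ}
    (hz : z ∈ Usimp c R S) {a : ℂ} (ha : a ∈ S z) : ‖Loc.slope S z a‖ ^ 2 ≤ e z := by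
  obtain ⟨r, w, hr, hsub, hsh, hsm, hinj, hS, hsl⟩ := (h1 μ β κ L hB c R k S e hK).2 z hz
  have hzb : z ∈ ball z r := mem_ball_self hr
  rw [hS z hzb] at ha
  obtain ⟨i, -, rfl⟩ := Multiset.mem_map.1 ha
  rw [hsl z hzb i]
  exact hK.ebd _ (w i) (hsub.trans fun x hx => hx.1) (hsh i) z hzb

end Top

/-! ### the function `φ` -/

theorem deriv_zero {φ : ℝ → ℝ} {n : ℝ} (hφ : ContDiff ℝ 1 φ) (h : ∀ t, n ≤ t → φ t = 0) :
    ∀ t, n ≤ t → deriv φ t = 0 := by
  have h1 : ∀ t ∈ Ioi n, deriv φ t = 0 := fun t ht => by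
    have h2 : φ =ᶠ[𝓝 t] fun _ => 0 := by
      filter_upwards [Ioi_mem_nhds ht] with s hs using h s (le_of_lt hs)
    rw [h2.deriv_eq]
    simp
  have h2 : Set.EqOn (deriv φ) (fun _ => 0) (closure (Ioi n)) :=
    Set.EqOn.closure (fun t ht => h1 t ht) (hφ.continuous_deriv le_rfl) continuous_const
  rw [closure_Ioi] at h2
  exact fun t ht => h2 ht

theorem exists_phi_bd {φ : ℝ → ℝ} {n : ℝ} (hφ : ContDiff ℝ 1 φ) (h : ∀ t, n ≤ t → φ t = 0)
    (v0 : ℝ) : ∃ M, 0 ≤ M ∧ ∀ t, v0 ≤ t → |φ t| ≤ M ∧ |deriv φ t| ≤ M := by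
  obtain ⟨C1, hC1⟩ := (isCompact_Icc (a := v0) (b := n)).exists_bound_of_continuousOn
    hφ.continuous.continuousOn
  obtain ⟨C2, hC2⟩ := (isCompact_Icc (a := v0) (b := n)).exists_bound_of_continuousOn
    (hφ.continuous_deriv le_rfl).continuousOn
  refine ⟨max (max C1 C2) 0, le_max_right _ _, fun t ht => ?_⟩
  rcases le_total t n with htn | htn
  · exact ⟨(hC1 t ⟨ht, htn⟩).trans (le_max_of_le_left (le_max_left _ _)),
      (hC2 t ⟨ht, htn⟩).trans (le_max_of_le_left (le_max_right _ _))⟩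
  · rw [h t htn, deriv_zero hφ h t htn]
    simp

theorem key {φ : ℝ → ℝ} {n M v0 E : ℝ} {a b : ℂ} {A B : ℂ →L[ℝ] ℂ}
    (hφ0 : ∀ t, n ≤ t → φ t = 0) (hφ' : ∀ t, n ≤ t → deriv φ t = 0)
    (hM : ∀ t, v0 ≤ t → |φ t| ≤ M ∧ |deriv φ t| ≤ M) (hM0 : 0 ≤ M) (hab : a ≠ b)
    (hv : v0 ≤ pv a b) (hE : 0 ≤ E) (hA : ‖A‖ ≤ E) (hB : ‖B‖ ≤ E) :
    |φ (pv a b)| * ‖pdL a b A B‖ ≤ M * (2 * Real.exp n) * E ∧
      |deriv φ (pv a b)| * ‖pdL a b A B‖ ^ 2 ≤ M * (2 * Real.exp n) ^ 2 * E ^ 2 := by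
  rcases le_or_gt n (pv a b) with h | h
  · rw [hφ0 _ h, hφ' _ h, abs_zero, zero_mul, zero_mul]
    constructor <;> positivity
  · have hab' : 0 < ‖a - b‖ := norm_pos_iff.2 (sub_ne_zero.2 hab)
    have h1 : ‖a - b‖⁻¹ ≤ Real.exp n := by
      unfold pv at h
      have h2 : Real.exp (-n) < ‖a - b‖ := by
        rw [← Real.lt_log_iff_exp_lt hab']
        linarith
      rw [inv_le_comm₀ hab' (Real.exp_pos n), ← Real.exp_neg]
      exact h2.le
    have h2 : ‖pdL a b A B‖ ≤ 2 * Real.exp n * E := by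
      unfold pdL
      rw [norm_smul, norm_inv]
      have h3 : ‖A - B‖ ≤ 2 * E := (norm_sub_le _ _).trans (by linarith)
      calc ‖a - b‖⁻¹ * ‖A - B‖ ≤ Real.exp n * (2 * E) :=
            mul_le_mul h1 h3 (norm_nonneg _) (Real.exp_pos n).le
        _ = 2 * Real.exp n * E := by ring
    obtain ⟨h3, h4⟩ := hM _ hv
    constructor
    · calc |φ (pv a b)| * ‖pdL a b A B‖ ≤ M * (2 * Real.exp n * E) :=
            mul_le_mul h3 h2 (norm_nonneg _) hM0
        _ = M * (2 * Real.exp n) * E := by ring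
    · calc |deriv φ (pv a b)| * ‖pdL a b A B‖ ^ 2 ≤ M * (2 * Real.exp n * E) ^ 2 :=
            mul_le_mul h4 (pow_le_pow_left₀ (norm_nonneg _) h2 2) (by positivity) hM0
        _ = M * (2 * Real.exp n) ^ 2 * E ^ 2 := by ring

/-! ### continuity of the integrands -/

theorem continuousOn_pv {X : Type*} [TopologicalSpace X] {f g : X → ℂ} {s : Set X}
    (hf : ContinuousOn f s) (hg : ContinuousOn g s) (h : ∀ x ∈ s, f x ≠ g x) :
    ContinuousOn (fun x => pv (f x) (g x)) s := by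
  unfold pv
  exact ((hf.sub hg).norm.log fun x hx => norm_ne_zero_iff.2 (sub_ne_zero.2 (h x hx))).neg

theorem continuousOn_pdL {X : Type*} [TopologicalSpace X] {f g : X → ℂ} {A B : X → ℂ →L[ℝ] ℂ}
    {s : Set X} (hf : ContinuousOn f s) (hg : ContinuousOn g s) (hA : ContinuousOn A s)
    (hB : ContinuousOn B s) (h : ∀ x ∈ s, f x ≠ g x) :
    ContinuousOn (fun x => pdL (f x) (g x) (A x) (B x)) s := by
  unfold pdL
  exact ((hf.sub hg).inv₀ fun x hx => sub_ne_zero.2 (h x hx)).smul (hA.sub hB)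

theorem continuous_lz : Continuous lz := by
  unfold lz
  fun_prop

theorem continuous_lzb : Continuous lzb := by
  unfold lzb
  fun_prop

/-! ### the identity -/

theorem star (h1 : SEL) (h3 : STOKES) (h6 : PSC) : STAR := by
  intro μ β κ L hB c R k S e hK hd φ n hφ hφ0 η hη hηc hηs
  obtain ⟨hUo, hloc⟩ := h1 μ β κ L hB c R k S e hK
  have hφ' := deriv_zero hφ hφ0
  have hTc : IsCompact (tsupport η) := hηc
  have hO : IsOpen (Oset c R n S) := isOpen_Oset hK n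
  have hfin : {z ∈ tsupport η \ Oset c R n S | ¬ (S z).Nodup}.Finite :=
    finite_bad hd (hTc.diff hO) fun p hp => ⟨hηs hp.1, fun hall => hp.2 ⟨hηs hp.1,
      fun a ha b hb => by rw [hall a ha b hb, sub_self, norm_zero]; exact Real.exp_pos _⟩⟩
  obtain ⟨Bd, hBd0, hBd⟩ := exists_bd hK hTc hηs
  obtain ⟨M, hM0, hM⟩ := exists_phi_bd hφ hφ0 (-Real.log (2 * Bd + 1))
  obtain ⟨Mη, hMη⟩ := hηc.exists_bound_of_continuous hη.continuous
  obtain ⟨Mη', hMη'⟩ := (hηc.fderiv (𝕜 := ℝ)).exists_bound_of_continuous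
    (hη.continuous_fderiv one_ne_zero)
  have hMη0 : 0 ≤ Mη := (norm_nonneg _).trans (hMη 0)
  have hMη'0 : 0 ≤ Mη' := (norm_nonneg _).trans (hMη' 0)
  -- pointwise bounds
  have hpt : ∀ z ∈ tsupport η, (S z).Nodup → ∀ a ∈ S z, ∀ b ∈ S z, a ≠ b →
      |φ (pv a b)| * ‖pdL a b (Loc.slope S z a) (Loc.slope S z b)‖ ≤
        M * (2 * Real.exp n) * √(e z) ∧
      |deriv φ (pv a b)| * ‖pdL a b (Loc.slope S z a) (Loc.slope S z b)‖ ^ 2 ≤
        M * (2 * Real.exp n) ^ 2 * e z := by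
    intro z hz hnd a ha b hb hab
    have hU : z ∈ Usimp c R S := ⟨hηs hz, hnd⟩
    have hsl : ∀ a ∈ S z, ‖Loc.slope S z a‖ ≤ √(e z) := fun a ha => by
      have := Real.abs_le_sqrt (slope_le h1 hB hK hU ha)
      rwa [abs_of_nonneg (norm_nonneg _)] at this
    have hv : -Real.log (2 * Bd + 1) ≤ pv a b := by
      unfold pv
      refine neg_le_neg (Real.log_le_log (norm_pos_iff.2 (sub_ne_zero.2 hab)) ?_)
      have := norm_sub_le a b
      have h2 := hBd z hz a ha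
      have h3 := hBd z hz b hb
      linarith
    have h2 := key hφ0 hφ' hM hM0 hab hv (Real.sqrt_nonneg (e z)) (hsl a ha) (hsl b hb)
    rwa [Real.sq_sqrt (hK.e0 z)] at h2
  -- points of `O`
  have hOz : ∀ z ∈ Oset c R n S, ∀ a ∈ S z, ∀ b ∈ S z, a ≠ b → n ≤ pv a b := by
    intro z hz a ha b hb hab
    have h2 := hz.2 a ha b hb
    have h4 : Real.log ‖a - b‖ < -n :=
      (Real.log_lt_iff_lt_exp (norm_pos_iff.2 (sub_ne_zero.2 hab))).2 h2
    unfold pv
    linarith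
  have hη0 : ∀ z, z ∉ tsupport η → η z = 0 := fun z hz => image_eq_zero_of_notMem_tsupport hz
  have hη0' : ∀ z, z ∉ tsupport η → fderiv ℝ η z = 0 := fun z hz =>
    image_eq_zero_of_notMem_tsupport fun h => hz (tsupport_fderiv_subset ℝ h)
  -- the two integrands
  set G1 : ℂ → ℂ → ℂ → (ℂ →L[ℝ] ℂ) → (ℂ →L[ℝ] ℂ) → ℝ :=
    fun _ a b A B => deriv φ (pv a b) * pJ a b A B with hG1
  set G2 : ℂ → ℂ → ℂ → (ℂ →L[ℝ] ℂ) → (ℂ →L[ℝ] ℂ) → ℝ :=
    fun z a b A B => φ (pv a b) * wth (fderiv ℝ η z) a b A B with hG2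
  let bb : ℂ → ℂ →L[ℝ] ℝ := fun z => η z • psV S (GV φ) z
  -- bounds
  have hb1 : ∀ z ∈ tsupport η, ‖η z * psum S G1 z‖ ≤
      Mη * ((k : ℝ) ^ 2 * (M * (2 * Real.exp n) ^ 2)) * e z := by
    intro z hz
    rw [norm_mul, psum_eq]
    have h2 : ‖psV S G1 z‖ ≤ (k : ℝ) ^ 2 * (M * (2 * Real.exp n) ^ 2 * e z) :=
      norm_psV_le (mul_nonneg (by positivity) (hK.e0 z)) (hK.card z (hηs hz))
        fun hnd a ha b hb hab => by
        rw [hG1, norm_mul, Real.norm_eq_abs, Real.norm_eq_abs]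
        exact (mul_le_mul_of_nonneg_left (abs_pJ_le _ _ _ _) (abs_nonneg _)).trans
          (hpt z hz hnd a ha b hb hab).2
    calc ‖η z‖ * ‖psV S G1 z‖ ≤ Mη * ((k : ℝ) ^ 2 * (M * (2 * Real.exp n) ^ 2 * e z)) :=
          mul_le_mul (hMη z) h2 (norm_nonneg _) hMη0
      _ = _ := by ring
  have hb2 : ∀ z ∈ tsupport η, ‖psum S G2 z‖ ≤
      (k : ℝ) ^ 2 * (2 * Mη' * (M * (2 * Real.exp n))) * (1 + e z) := by
    intro z hz
    rw [psum_eq]
    have h2 : ‖psV S G2 z‖ ≤ (k : ℝ) ^ 2 * (2 * Mη' * (M * (2 * Real.exp n) * √(e z))) :=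
      norm_psV_le (by positivity) (hK.card z (hηs hz)) fun hnd a ha b hb hab => by
        rw [hG2, norm_mul, Real.norm_eq_abs, Real.norm_eq_abs]
        have h4 := abs_wth_le (fderiv ℝ η z) a b (Loc.slope S z a) (Loc.slope S z b)
        have h5 := (hpt z hz hnd a ha b hb hab).1
        calc |φ (pv a b)| * |wth (fderiv ℝ η z) a b (Loc.slope S z a) (Loc.slope S z b)|
            ≤ |φ (pv a b)| * (2 * ‖fderiv ℝ η z‖ *
              ‖pdL a b (Loc.slope S z a) (Loc.slope S z b)‖) :=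
              mul_le_mul_of_nonneg_left h4 (abs_nonneg _)
          _ = 2 * ‖fderiv ℝ η z‖ *
              (|φ (pv a b)| * ‖pdL a b (Loc.slope S z a) (Loc.slope S z b)‖) := by ring
          _ ≤ 2 * Mη' * (M * (2 * Real.exp n) * √(e z)) :=
              mul_le_mul (by have := hMη' z; linarith) h5 (by positivity) (by positivity)
    have h3 : √(e z) ≤ 1 + e z := by
      have h4 := Real.sq_sqrt (hK.e0 z)
      nlinarith [Real.sqrt_nonneg (e z), sq_nonneg (√(e z) - 1)]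
    refine h2.trans ?_
    calc (k : ℝ) ^ 2 * (2 * Mη' * (M * (2 * Real.exp n) * √(e z)))
        = (k : ℝ) ^ 2 * (2 * Mη' * (M * (2 * Real.exp n))) * √(e z) := by ring
      _ ≤ _ := mul_le_mul_of_nonneg_left h3 (by positivity)
  have hb3 : ∀ z ∈ tsupport η, ‖bb z‖ ^ 2 ≤
      (Mη * ((k : ℝ) ^ 2 * (M * (2 * Real.exp n)))) ^ 2 * e z := by
    intro z hz
    have h2 : ‖psV S (GV φ) z‖ ≤ (k : ℝ) ^ 2 * (M * (2 * Real.exp n) * √(e z)) :=
      norm_psV_le (by positivity) (hK.card z (hηs hz)) fun hnd a ha b hb hab => by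
        unfold GV
        rw [norm_smul, Real.norm_eq_abs]
        refine (mul_le_mul_of_nonneg_left ?_ (abs_nonneg _)).trans
          (hpt z hz hnd a ha b hb hab).1
        refine (ContinuousLinearMap.opNorm_comp_le _ _).trans ?_
        rw [Complex.imCLM_norm, one_mul]
    have h3 : ‖bb z‖ ≤ Mη * ((k : ℝ) ^ 2 * (M * (2 * Real.exp n))) * √(e z) := by
      change ‖η z • psV S (GV φ) z‖ ≤ _
      rw [norm_smul]
      calc ‖η z‖ * ‖psV S (GV φ) z‖ ≤ Mη * ((k : ℝ) ^ 2 * (M * (2 * Real.exp n) * √(e z))) :=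
            mul_le_mul (hMη z) h2 (norm_nonneg _) hMη0
        _ = _ := by ring
    calc ‖bb z‖ ^ 2 ≤ (Mη * ((k : ℝ) ^ 2 * (M * (2 * Real.exp n))) * √(e z)) ^ 2 :=
          pow_le_pow_left₀ (norm_nonneg _) h3 2
      _ = (Mη * ((k : ℝ) ^ 2 * (M * (2 * Real.exp n)))) ^ 2 * (√(e z)) ^ 2 := by ring
      _ = _ := by rw [Real.sq_sqrt (hK.e0 z)]
  -- continuity on the simple points
  have hc1 : ContinuousOn (psum S G1) (Usimp c R S) := by
    refine h6 μ β κ L hB c R k S e hK G1 ?_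
    have hp : ContinuousOn (fun q : ℂ × ℂ × ℂ × (ℂ →L[ℝ] ℂ) × (ℂ →L[ℝ] ℂ) =>
        pdL q.2.1 q.2.2.1 q.2.2.2.1 q.2.2.2.2) {q | q.1 ∈ ball c R ∧ q.2.1 ≠ q.2.2.1} :=
      continuousOn_pdL (by fun_prop) (by fun_prop) (by fun_prop) (by fun_prop) fun q hq => hq.2
    refine ContinuousOn.mul ((hφ.continuous_deriv le_rfl).comp_continuousOn
      (continuousOn_pv (by fun_prop) (by fun_prop) fun q hq => hq.2)) ?_
    exact ((continuous_lz.comp_continuousOn hp).norm.pow 2).sub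
      ((continuous_lzb.comp_continuousOn hp).norm.pow 2)
  have hc2 : ContinuousOn (psum S G2) (Usimp c R S) := by
    refine h6 μ β κ L hB c R k S e hK G2 ?_
    have hp : ContinuousOn (fun q : ℂ × ℂ × ℂ × (ℂ →L[ℝ] ℂ) × (ℂ →L[ℝ] ℂ) =>
        pdL q.2.1 q.2.2.1 q.2.2.2.1 q.2.2.2.2) {q | q.1 ∈ ball c R ∧ q.2.1 ≠ q.2.2.1} :=
      continuousOn_pdL (by fun_prop) (by fun_prop) (by fun_prop) (by fun_prop) fun q hq => hq.2
    have hf : Continuous (fun q : ℂ × ℂ × ℂ × (ℂ →L[ℝ] ℂ) × (ℂ →L[ℝ] ℂ) => fderiv ℝ η q.1) :=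
      (hη.continuous_fderiv one_ne_zero).comp continuous_fst
    refine ContinuousOn.mul (hφ.continuous.comp_continuousOn
      (continuousOn_pv (by fun_prop) (by fun_prop) fun q hq => hq.2)) ?_
    exact ((hf.clm_apply continuous_const).continuousOn.mul
      (Complex.continuous_im.comp_continuousOn (hp.clm_apply continuousOn_const))).sub
      ((hf.clm_apply continuous_const).continuousOn.mul
      (Complex.continuous_im.comp_continuousOn (hp.clm_apply continuousOn_const)))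
  have hz1 : ∀ z ∉ Usimp c R S, η z * psum S G1 z = 0 := by
    intro z hz
    by_cases hzT : z ∈ tsupport η
    · rw [psum_eq, psV_zero fun hnd => (hz ⟨hηs hzT, hnd⟩).elim, mul_zero]
    · rw [hη0 z hzT, zero_mul]
  have hz2' : ∀ z ∉ tsupport η, psum S G2 z = 0 := by
    intro z hz
    rw [psum_eq]
    refine psV_zero fun _ a _ b _ _ => ?_
    rw [hG2]
    simp only [hη0' z hz, wth, zero_apply, zero_mul, sub_self, mul_zero]
  have hz2 : ∀ z ∉ Usimp c R S, psum S G2 z = 0 := by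
    intro z hz
    by_cases hzT : z ∈ tsupport η
    · rw [psum_eq, psV_zero fun hnd => (hz ⟨hηs hzT, hnd⟩).elim]
    · exact hz2' z hzT
  have hi1 : Integrable (fun z => η z * psum S G1 z) := by
    have hm : AEStronglyMeasurable (fun z => η z * psum S G1 z) volume := by
      have h2 : (fun z => η z * psum S G1 z) =
          (Usimp c R S).indicator (fun z => η z * psum S G1 z) := by
        funext z
        by_cases hz : z ∈ Usimp c R S
        · rw [indicator_of_mem hz]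
        · rw [indicator_of_notMem hz, hz1 z hz]
      rw [h2, aestronglyMeasurable_indicator_iff hUo.measurableSet]
      exact (hη.continuous.continuousOn.mul hc1).aestronglyMeasurable hUo.measurableSet
    refine Integrable.mono' (((integrable_indicator_iff measurableSet_ball).2 hK.eint).const_mul
      (Mη * ((k : ℝ) ^ 2 * (M * (2 * Real.exp n) ^ 2)))) hm (Eventually.of_forall fun z => ?_)
    by_cases hz : z ∈ tsupport η
    · rw [indicator_of_mem (hηs hz)]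
      exact hb1 z hz
    · rw [hη0 z hz, zero_mul, norm_zero]
      refine mul_nonneg (by positivity) (indicator_nonneg (fun x _ => hK.e0 x) z)
  have hi2 : Integrable (psum S G2) := by
    have hm : AEStronglyMeasurable (psum S G2) volume := by
      have h2 : psum S G2 = (Usimp c R S).indicator (psum S G2) := by
        funext z
        by_cases hz : z ∈ Usimp c R S
        · rw [indicator_of_mem hz]
        · rw [indicator_of_notMem hz, hz2 z hz]
      rw [h2, aestronglyMeasurable_indicator_iff hUo.measurableSet]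
      exact hc2.aestronglyMeasurable hUo.measurableSet
    have h5 : Integrable ((ball c R).indicator fun z => 1 + e z) :=
      (integrable_indicator_iff measurableSet_ball).2
        ((integrableOn_const (by finiteness) (by finiteness)).add hK.eint)
    refine Integrable.mono' (h5.const_mul ((k : ℝ) ^ 2 * (2 * Mη' * (M * (2 * Real.exp n))))) hm
      (Eventually.of_forall fun z => ?_)
    by_cases hz : z ∈ tsupport η
    · rw [indicator_of_mem (hηs hz)]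
      exact hb2 z hz
    · rw [hz2' z hz, norm_zero]
      refine mul_nonneg (by positivity) (indicator_nonneg (fun x _ => ?_) z)
      have := hK.e0 x
      linarith
  -- the curl
  have hcurl : ∀ z ∉ hfin.toFinset, ContDiffAt ℝ 1 bb z ∧
      psum S G2 z - η z * psum S G1 z = fderiv ℝ bb z 1 I - fderiv ℝ bb z I 1 := by
    intro z hz
    have hzero : ∀ V : Set ℂ, IsOpen V → z ∈ V → (∀ x ∈ V, bb x = 0) →
        ContDiffAt ℝ 1 bb z ∧ fderiv ℝ bb z 1 I - fderiv ℝ bb z I 1 = 0 := by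
      intro V hV hzV hbV
      have h2 : bb =ᶠ[𝓝 z] fun _ => 0 := by
        filter_upwards [hV.mem_nhds hzV] with x hx using hbV x hx
      refine ⟨contDiffAt_const.congr_of_eventuallyEq h2, ?_⟩
      rw [h2.fderiv_eq]
      simp
    by_cases hzT : z ∈ tsupport η
    · by_cases hzO : z ∈ Oset c R n S
      · have h2 := hzero _ hO hzO fun x hx => by
          change η x • psV S (GV φ) x = 0
          rw [psV_zero fun _ a ha b hb hab => ?_, smul_zero]
          unfold GV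
          rw [hφ0 _ (hOz x hx a ha b hb hab), zero_smul]
        refine ⟨h2.1, ?_⟩
        rw [h2.2, psum_eq, psum_eq, psV_zero fun _ a ha b hb hab => ?_,
          psV_zero fun _ a ha b hb hab => ?_, mul_zero, sub_zero]
        · rw [hG1]
          simp only [hφ' _ (hOz z hzO a ha b hb hab), zero_mul]
        · rw [hG2]
          simp only [hφ0 _ (hOz z hzO a ha b hb hab), zero_mul]
      · have hnd : (S z).Nodup := by
          by_contra hcon
          exact hz (hfin.mem_toFinset.2 ⟨⟨hzT, hzO⟩, hcon⟩)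
        obtain ⟨r, w, hr, hsub, hsh, hsm, hinj, hS, hsl⟩ := hloc z ⟨hηs hzT, hnd⟩
        have hzb : z ∈ ball z r := mem_ball_self hr
        have hwz : ∀ i, ContDiffAt ℝ ∞ (w i) z := fun i =>
          (hsm i).contDiffAt (isOpen_ball.mem_nhds hzb)
        have hterm : ∀ q ∈ (Finset.univ : Finset (Fin k)).offDiag, _ := fun q hq =>
          curl_term (η := η) hφ hη.contDiffAt (hwz q.1) (hwz q.2)
            (fun h => (Finset.mem_offDiag.1 hq).2.2 (hinj z hzb h))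
        have heq : bb =ᶠ[𝓝 z] fun x => ∑ q ∈ (Finset.univ : Finset (Fin k)).offDiag,
            η x • GV φ x (w q.1 x) (w q.2 x) (fderiv ℝ (w q.1) x) (fderiv ℝ (w q.2) x) := by
          filter_upwards [isOpen_ball.mem_nhds hzb] with x hx
          change η x • psV S (GV φ) x = _
          rw [psV_local (hinj x hx) (hS x hx) (hsl x hx), Finset.smul_sum]
        refine ⟨(ContDiffAt.sum fun q hq => (hterm q hq).1).congr_of_eventuallyEq heq, ?_⟩
        rw [heq.fderiv_eq, fderiv_fun_sum fun q hq => (hterm q hq).1.differentiableAt (by simp)]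
        rw [psum_eq, psum_eq, psV_local (hinj z hzb) (hS z hzb) (hsl z hzb),
          psV_local (hinj z hzb) (hS z hzb) (hsl z hzb), Finset.mul_sum,
          ← Finset.sum_sub_distrib]
        simp only [sum_apply]
        rw [← Finset.sum_sub_distrib]
        exact Finset.sum_congr rfl fun q hq => ((hterm q hq).2).symm
    · have h2 := hzero _ (isClosed_tsupport η).isOpen_compl hzT fun x hx => by
        change η x • psV S (GV φ) x = 0
        rw [hη0 x hx, zero_smul]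
      refine ⟨h2.1, ?_⟩
      rw [h2.2, hz2' z hzT, hη0 z hzT, zero_mul, sub_zero]
  have hCD : ContDiffOn ℝ 1 bb ((hfin.toFinset : Finset ℂ) : Set ℂ)ᶜ := fun z hz =>
    (hcurl z hz).1.contDiffWithinAt
  have hsupp : HasCompactSupport bb := by
    refine hηc.mono fun z hz => ?_
    rw [Function.mem_support] at hz ⊢
    intro h
    refine hz ?_
    change η z • psV S (GV φ) z = 0
    rw [h, zero_smul]
  have hL2 : MemLp bb 2 volume := by
    have hm : AEStronglyMeasurable bb volume := by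
      have hopen : IsOpen (((hfin.toFinset : Finset ℂ) : Set ℂ)ᶜ) :=
        (Finset.finite_toSet _).isClosed.isOpen_compl
      have h2 : volume.restrict (((hfin.toFinset : Finset ℂ) : Set ℂ)ᶜ) = volume := by
        refine Measure.restrict_eq_self_of_ae_mem ?_
        exact (Finset.finite_toSet hfin.toFinset).countable.ae_notMem volume
      rw [← h2]
      exact hCD.continuousOn.aestronglyMeasurable hopen.measurableSet
    rw [memLp_two_iff_integrable_sq_norm hm]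
    refine Integrable.mono' (((integrable_indicator_iff measurableSet_ball).2 hK.eint).const_mul
      ((Mη * ((k : ℝ) ^ 2 * (M * (2 * Real.exp n)))) ^ 2)) (hm.norm.pow 2)
      (Eventually.of_forall fun z => ?_)
    rw [norm_pow, norm_norm]
    by_cases hz : z ∈ tsupport η
    · rw [indicator_of_mem (hηs hz)]
      exact hb3 z hz
    · have h2 : bb z = 0 := by
        change η z • psV S (GV φ) z = 0
        rw [hη0 z hz, zero_smul]
      rw [h2, norm_zero, zero_pow two_ne_zero]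
      refine mul_nonneg (by positivity) (indicator_nonneg (fun x _ => hK.e0 x) z)
  have hfinal := h3 bb hfin.toFinset (fun z => psum S G2 z - η z * psum S G1 z) hsupp hCD hL2
    (hi2.sub hi1) fun z hz => (hcurl z hz).2
  refine ⟨hi1, hi2, ?_⟩
  rw [integral_sub hi2 hi1] at hfinal
  linarith


end

end Crest.Agent.R235.LocStar_936
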