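import Crest.Agent.R235.LocDef_607
import Crest.Agent.R235.KGL1_168
import Crest.Agent.R235.LocStar_936_Mg
import Crest.Agent.R235.LocSel_483
import Crest.Agent.R235.LocClus_305

-- ▼ part R235/LocStokes_326
section

/-!
Row 235, REG-LOC leaf 3 (task 215): planar Stokes for a one-form which is `C¹` off a finite set and
square integrable; from helper168's `KGL1_168.l1`.
-/

set_option autoImplicit false

open MeasureTheory Metric Set Filter Complex
open scoped ContDiff Topology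

namespace Crest.Agent.R235.LocStokes_326

open Crest.Agent.R235.Loc

noncomputable section

theorem stokes : STOKES := by
  intro b F g hb hC hL hg hgb
  have happ : ∀ v : ℂ, ∀ z ∉ F, DifferentiableAt ℝ b z ∧
      fderiv ℝ (fun y => b y v) z = (ContinuousLinearMap.apply ℝ ℝ v).comp (fderiv ℝ b z) := by
    intro v z hz
    have hz' : z ∈ ((F : Set ℂ)ᶜ) := by simpa using hz
    have hop : IsOpen ((F : Set ℂ)ᶜ) := F.finite_toSet.isClosed.isOpen_compl
    have hd : DifferentiableAt ℝ b z :=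
      ((hC.contDiffAt (hop.mem_nhds hz')).differentiableAt (by norm_num))
    refine ⟨hd, ?_⟩
    exact ((ContinuousLinearMap.apply ℝ ℝ v).hasFDerivAt.comp z hd.hasFDerivAt).fderiv
  have hCv : ∀ v : ℂ, ∀ z ∉ F, ContDiffAt ℝ 1 (fun y => b y v) z := by
    intro v z hz
    have hz' : z ∈ ((F : Set ℂ)ᶜ) := by simpa using hz
    have hop : IsOpen ((F : Set ℂ)ᶜ) := F.finite_toSet.isClosed.isOpen_compl
    have h1 := hC.contDiffAt (hop.mem_nhds hz')
    exact h1.clm_apply contDiffAt_const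
  have hae : ∀ᵐ z : ℂ, z ∉ F := by
    have : volume (F : Set ℂ) = 0 := F.finite_toSet.measure_zero _
    have h2 := measure_eq_zero_iff_ae_notMem.1 this
    filter_upwards [h2] with z hz using by simpa using hz
  have key : ∀ z ∉ F, g z = fderiv ℝ (fun y => b y I) z 1 - fderiv ℝ (fun y => b y 1) z I := by
    intro z hz
    rw [hgb z hz, (happ I z hz).2, (happ 1 z hz).2]
    simp
  have hsup : ∀ v : ℂ, HasCompactSupport (fun y => b y v) := by
    intro v
    refine hb.comp_left (g := fun L : ℂ →L[ℝ] ℝ => L v) ?_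
    simp
  have hint2 : Integrable (fun z => (b z 1) ^ 2 + (b z I) ^ 2) := by
    have hn : Integrable (fun z => ‖b z‖ ^ 2) := hL.integrable_norm_pow (by norm_num)
    refine Integrable.mono' (hn.const_mul 2) ?_ ?_
    · have h0 : AEStronglyMeasurable b volume := hL.aestronglyMeasurable
      have h1 : AEStronglyMeasurable (fun z => b z 1) volume :=
        (ContinuousLinearMap.apply ℝ ℝ (1 : ℂ)).continuous.comp_aestronglyMeasurable h0
      have h2 : AEStronglyMeasurable (fun z => b z I) volume :=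
        (ContinuousLinearMap.apply ℝ ℝ (I : ℂ)).continuous.comp_aestronglyMeasurable h0
      exact (h1.pow 2).add (h2.pow 2)
    · filter_upwards with z
      have e1 : |b z 1| ≤ ‖b z‖ := by
        have := (b z).le_opNorm 1
        simpa using this
      have e2 : |b z I| ≤ ‖b z‖ := by
        have := (b z).le_opNorm I
        simpa using this
      have e3 : (b z 1) ^ 2 ≤ ‖b z‖ ^ 2 := by
        rw [← sq_abs]; exact pow_le_pow_left₀ (abs_nonneg _) e1 2
      have e4 : (b z I) ^ 2 ≤ ‖b z‖ ^ 2 := by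
        rw [← sq_abs]; exact pow_le_pow_left₀ (abs_nonneg _) e2 2
      rw [Real.norm_eq_abs, abs_of_nonneg (by positivity)]
      linarith
  have hg2 : Integrable (fun z => fderiv ℝ (fun y => b y I) z 1 - fderiv ℝ (fun y => b y 1) z I) :=
    hg.congr (by filter_upwards [hae] with z hz using key z hz)
  have := KGL1_168.l1 F (fun z => b z 1) (fun z => b z I) (hsup 1) (hsup I) (hCv 1) (hCv I)
    hint2 hg2
  rw [← this]
  refine integral_congr_ae ?_
  filter_upwards [hae] with z hz using key z hz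

end

end Crest.Agent.R235.LocStokes_326
end

-- ▼ part R235/LocPsc_792
section

/-!
Row 235 (S0364), PACKAGE REG, sub-block LOC, leaf 6 (helper792):
`PSC` : pair sums of continuous functions are continuous on the simple points, plus the elementary
calculus of `psum` (local formula, additivity, monotonicity, bounds, measurability).
-/

set_option autoImplicit false

open MeasureTheory Metric Set Filter Complex
open scoped ContDiff Topology

namespace Crest.Agent.R235.Loc.Psc792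

noncomputable section

/-! ### elementary calculus of `psum` -/

section elem

variable {S : ℂ → Multiset ℂ}

theorem psum_of_nodup {G : ℂ → ℂ → ℂ → (ℂ →L[ℝ] ℂ) → (ℂ →L[ℝ] ℂ) → ℝ} {z : ℂ}
    (h : (S z).Nodup) :
    psum S G z = ∑ q ∈ (S z).toFinset.offDiag,
      G z q.1 q.2 (slope S z q.1) (slope S z q.2) := by
  unfold psum
  rw [if_pos h]


theorem mem_offDiag_iff {z : ℂ} {q : ℂ × ℂ} :
    q ∈ (S z).toFinset.offDiag ↔ q.1 ∈ S z ∧ q.2 ∈ S z ∧ q.1 ≠ q.2 := by
  simp [Finset.mem_offDiag]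

















end elem

/-! ### the local formula -/

/-- the local formula for the pair sum at a point with a simple enumeration of the sheets -/
theorem psum_enum {S : ℂ → Multiset ℂ}
    (G : ℂ → ℂ → ℂ → (ℂ →L[ℝ] ℂ) → (ℂ →L[ℝ] ℂ) → ℝ) {k : ℕ} {z : ℂ}
    (w : Fin k → ℂ → ℂ) (hn : (S z).Nodup)
    (hinj : Function.Injective (fun i => w i z))
    (hS : S z = Multiset.map (fun i => w i z) Finset.univ.val)
    (hsl : ∀ i, slope S z (w i z) = fderiv ℝ (w i) z) :
    psum S G z = ∑ p ∈ (Finset.univ : Finset (Fin k)).offDiag,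
      G z (w p.1 z) (w p.2 z) (fderiv ℝ (w p.1) z) (fderiv ℝ (w p.2) z) := by
  classical
  rw [psum_of_nodup hn]
  symm
  refine Finset.sum_bij (fun p _ => (w p.1 z, w p.2 z)) ?_ ?_ ?_ ?_
  · intro p hp
    rw [Finset.mem_offDiag] at hp
    rw [mem_offDiag_iff]
    refine ⟨?_, ?_, fun h => hp.2.2 (hinj h)⟩
    · rw [hS]; exact Multiset.mem_map.2 ⟨p.1, Finset.mem_univ_val _, rfl⟩
    · rw [hS]; exact Multiset.mem_map.2 ⟨p.2, Finset.mem_univ_val _, rfl⟩
  · intro p _ q _ h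
    rw [Prod.mk.injEq] at h
    exact Prod.ext (hinj h.1) (hinj h.2)
  · intro q hq
    obtain ⟨h1, h2, h3⟩ := mem_offDiag_iff.1 hq
    rw [hS] at h1 h2
    obtain ⟨i, -, hi⟩ := Multiset.mem_map.1 h1
    obtain ⟨j, -, hj⟩ := Multiset.mem_map.1 h2
    refine ⟨(i, j), ?_, ?_⟩
    · rw [Finset.mem_offDiag]
      refine ⟨Finset.mem_univ _, Finset.mem_univ _, ?_⟩
      intro hij
      have hij' : i = j := hij
      subst hij'
      exact h3 (hi.symm.trans hj)
    · exact Prod.ext hi hj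
  · intro p _
    rw [hsl, hsl]

/-- near a simple point the pair sum is a fixed finite sum over the local sheets -/
theorem psum_local (h1 : SEL) {μ β : ℂ × ℂ → ℂ} {κ L : ℝ} (hB : BoxD μ β κ L)
    {c : ℂ} {R : ℝ} {k : ℕ} {S : ℂ → Multiset ℂ} {e : ℂ → ℝ} (hK : KG μ β c R k S e)
    {z₀ : ℂ} (hz : z₀ ∈ Usimp c R S) :
    ∃ (r : ℝ) (w : Fin k → ℂ → ℂ), 0 < r ∧ ball z₀ r ⊆ Usimp c R S ∧
      (∀ i, Sheet S (ball z₀ r) (w i)) ∧ (∀ i, ContDiffOn ℝ ∞ (w i) (ball z₀ r)) ∧
      (∀ z ∈ ball z₀ r, Function.Injective (fun i => w i z)) ∧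
      (∀ z ∈ ball z₀ r, S z = Multiset.map (fun i => w i z) Finset.univ.val) ∧
      (∀ z ∈ ball z₀ r, ∀ i, slope S z (w i z) = fderiv ℝ (w i) z) ∧
      ∀ G : ℂ → ℂ → ℂ → (ℂ →L[ℝ] ℂ) → (ℂ →L[ℝ] ℂ) → ℝ, ∀ z ∈ ball z₀ r,
        psum S G z = ∑ p ∈ (Finset.univ : Finset (Fin k)).offDiag,
          G z (w p.1 z) (w p.2 z) (fderiv ℝ (w p.1) z) (fderiv ℝ (w p.2) z) := by
  obtain ⟨r, w, hr, hsub, hsh, hcd, hinj, hS, hsl⟩ := (h1 μ β κ L hB c R k S e hK).2 z₀ hz
  exact ⟨r, w, hr, hsub, hsh, hcd, hinj, hS, hsl, fun G z hz =>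
    psum_enum G w (hsub hz).2 (hinj z hz) (hS z hz) (hsl z hz)⟩

/-- the derivative of a sheet is continuous -/
theorem contOn_fderiv {w : ℂ → ℂ} {V : Set ℂ} (hV : IsOpen V) (h : ContDiffOn ℝ ∞ w V) :
    ContinuousOn (fun z => fderiv ℝ w z) V :=
  h.continuousOn_fderiv_of_isOpen hV (by simp)

/-- **LOC-6.** -/
theorem psc_of (h1 : SEL) : PSC := by
  intro μ β κ L hB c R k S e hK G hG z₀ hz₀
  obtain ⟨r, w, hr, hsub, hsh, hcd, hinj, hS, hsl, hloc⟩ := psum_local h1 hB hK hz₀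
  refine ContinuousAt.continuousWithinAt ?_
  have hev : (fun z => ∑ p ∈ (Finset.univ : Finset (Fin k)).offDiag,
      G z (w p.1 z) (w p.2 z) (fderiv ℝ (w p.1) z) (fderiv ℝ (w p.2) z)) =ᶠ[𝓝 z₀] psum S G := by
    filter_upwards [ball_mem_nhds z₀ hr] with z hz
    exact (hloc G z hz).symm
  refine ContinuousAt.congr ?_ hev
  refine ContinuousOn.continuousAt ?_ (ball_mem_nhds z₀ hr)
  refine continuousOn_finsetSum _ fun p hp => ?_
  rw [Finset.mem_offDiag] at hp
  have hc1 := (hcd p.1).continuousOn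
  have hc2 := (hcd p.2).continuousOn
  have hd1 := contOn_fderiv isOpen_ball (hcd p.1)
  have hd2 := contOn_fderiv isOpen_ball (hcd p.2)
  have hmap : ContinuousOn (fun z : ℂ =>
      ((z, w p.1 z, w p.2 z, fderiv ℝ (w p.1) z, fderiv ℝ (w p.2) z) :
        ℂ × ℂ × ℂ × (ℂ →L[ℝ] ℂ) × (ℂ →L[ℝ] ℂ))) (ball z₀ r) :=
    continuousOn_id.prodMk (hc1.prodMk (hc2.prodMk (hd1.prodMk hd2)))
  refine (hG.comp hmap ?_ : _)
  intro z hz
  exact ⟨(hsub hz).1, fun h => hp.2.2 (hinj z hz h)⟩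




end

end Crest.Agent.R235.Loc.Psc792
end

-- ▼ part R235/LocLogv_800
section

/-!
Row 235 (S0364), REG-LOC 7 (LOGV): the energy of `log v` is finite.
Truncation: `w n t = (1/t² - 1/n²)₊`, `φ n t = ∫_t^n w n = (n-t)₊²/(n² t)` for `t ≥ 1`, so
`φ² ≤ w ≤ 1/t²`, and `STAR` with the cut-off `η²` gives a bound of `∫ η² psum (w |dL|²)` which
does not depend on `n`.
-/

set_option autoImplicit false

open MeasureTheory Metric Set Filter Complex
open scoped ContDiff Topology

namespace Crest.Agent.R235.LocLogv_800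

open Crest.Agent.R235.Loc

noncomputable section

/-- the truncated weight. -/
def wt (n t : ℝ) : ℝ := max 0 (1 / (max t 1) ^ 2 - 1 / n ^ 2)

/-- its primitive. -/
def ph (n t : ℝ) : ℝ := ∫ s in t..n, wt n s

lemma max_pos (t : ℝ) : 0 < max t 1 := lt_of_lt_of_le one_pos (le_max_right _ _)

lemma continuous_inv_max : Continuous fun t : ℝ => 1 / (max t 1) ^ 2 := by
  refine continuous_const.div ((continuous_id.max continuous_const).pow 2) fun t => ?_
  exact (pow_pos (max_pos t) 2).ne'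

lemma wt_continuous (n : ℝ) : Continuous (wt n) :=
  continuous_const.max (continuous_inv_max.sub continuous_const)

lemma wt_nonneg (n t : ℝ) : 0 ≤ wt n t := le_max_left _ _

lemma wt_le (n t : ℝ) : wt n t ≤ 1 / (max t 1) ^ 2 := by
  refine max_le (by positivity) ?_
  have : 0 ≤ 1 / n ^ 2 := by positivity
  linarith

lemma inv_max_le_one (t : ℝ) : 1 / (max t 1) ^ 2 ≤ 1 := by
  have h : 1 ≤ max t 1 := le_max_right _ _
  rw [div_le_one (by positivity)]
  nlinarith

lemma wt_le_one (n t : ℝ) : wt n t ≤ 1 := (wt_le n t).trans (inv_max_le_one t)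

lemma wt_zero {n t : ℝ} (hn : 1 ≤ n) (h : n ≤ t) : wt n t = 0 := by
  have h1 : max t 1 = t := max_eq_left (hn.trans h)
  unfold wt
  rw [h1]
  refine max_eq_left ?_
  have : 1 / t ^ 2 ≤ 1 / n ^ 2 := by
    apply one_div_le_one_div_of_le (by positivity)
    exact pow_le_pow_left₀ (by linarith) h 2
  linarith

lemma hasDerivAt_ph (n t : ℝ) : HasDerivAt (ph n) (-(wt n t)) t := by
  have : ph n = fun t => -(∫ s in n..t, wt n s) := by
    funext t
    unfold ph
    rw [intervalIntegral.integral_symm]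
  rw [this]
  exact ((wt_continuous n).integral_hasStrictDerivAt n t).hasDerivAt.neg

lemma deriv_ph (n : ℝ) : deriv (ph n) = fun t => -(wt n t) := by
  funext t
  exact (hasDerivAt_ph n t).deriv

lemma contDiff_ph (n : ℝ) : ContDiff ℝ 1 (ph n) := by
  rw [contDiff_one_iff_deriv]
  refine ⟨fun t => (hasDerivAt_ph n t).differentiableAt, ?_⟩
  rw [deriv_ph]
  exact (wt_continuous n).neg

lemma ph_zero {n : ℝ} (hn : 1 ≤ n) (t : ℝ) (h : n ≤ t) : ph n t = 0 := by
  unfold ph
  rw [intervalIntegral.integral_symm, neg_eq_zero]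
  have : ∀ s ∈ uIcc n t, wt n s = (fun _ => (0 : ℝ)) s := by
    intro s hs
    rw [uIcc_of_le h] at hs
    exact wt_zero hn hs.1
  rw [intervalIntegral.integral_congr this]
  simp

lemma ph_formula {n t : ℝ} (ht : 1 ≤ t) (h : t ≤ n) : ph n t = (n - t) ^ 2 / (n ^ 2 * t) := by
  have hn0 : 0 < n := by linarith
  have ht0 : 0 < t := by linarith
  unfold ph
  have h1 : ∀ s ∈ uIcc t n, wt n s = (fun s => 1 / s ^ 2 - 1 / n ^ 2) s := by
    intro s hs
    rw [uIcc_of_le h] at hs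
    have hs1 : 1 ≤ s := ht.trans hs.1
    have : max s 1 = s := max_eq_left hs1
    simp only [wt, this]
    refine max_eq_right ?_
    have : 1 / n ^ 2 ≤ 1 / s ^ 2 := by
      apply one_div_le_one_div_of_le (by positivity)
      exact pow_le_pow_left₀ (by linarith) hs.2 2
    linarith
  rw [intervalIntegral.integral_congr h1]
  have hd : ∀ s ∈ uIcc t n, HasDerivAt (fun s : ℝ => -s⁻¹ - s / n ^ 2) (1 / s ^ 2 - 1 / n ^ 2) s := by
    intro s hs
    rw [uIcc_of_le h] at hs
    have hs0 : s ≠ 0 := (lt_of_lt_of_le ht0 hs.1).ne'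
    have h2 := (hasDerivAt_inv hs0).neg.sub ((hasDerivAt_id s).div_const (n ^ 2))
    have e : 1 / s ^ 2 - 1 / n ^ 2 = - -(s ^ 2)⁻¹ - 1 / n ^ 2 := by rw [neg_neg, one_div, one_div]
    rw [e]
    exact h2
  have hc : IntervalIntegrable (fun s : ℝ => 1 / s ^ 2 - 1 / n ^ 2) volume t n := by
    apply ContinuousOn.intervalIntegrable
    rw [uIcc_of_le h]
    intro s hs
    have hs0 : s ≠ 0 := (lt_of_lt_of_le ht0 hs.1).ne'
    apply ContinuousAt.continuousWithinAt
    fun_prop (disch := exact pow_ne_zero 2 hs0)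
  rw [intervalIntegral.integral_eq_sub_of_hasDerivAt hd hc]
  field_simp
  ring

lemma ph_nonneg {n t : ℝ} (hn : 1 ≤ n) (ht : 1 ≤ t) : 0 ≤ ph n t := by
  rcases le_total t n with h | h
  · rw [ph_formula ht h]
    have : 0 < t := by linarith
    positivity
  · rw [ph_zero hn t h]

lemma ph_sq_le {n t : ℝ} (hn : 1 ≤ n) (ht : 1 ≤ t) : ph n t ^ 2 ≤ wt n t := by
  rcases le_total t n with h | h
  · rw [ph_formula ht h]
    have ht0 : 0 < t := by linarith
    have hn0 : 0 < n := by linarith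
    have h1 : max t 1 = t := max_eq_left ht
    refine le_trans ?_ (le_max_right _ _)
    rw [h1]
    have e1 : 1 / t ^ 2 - 1 / n ^ 2 = (n ^ 2 * (n ^ 2 - t ^ 2)) / (n ^ 2 * t) ^ 2 := by
      field_simp
    rw [e1, div_pow]
    apply div_le_div_of_nonneg_right _ (by positivity)
    have h2 : 0 ≤ n - t := by linarith
    have h3 : (n - t) ^ 2 ≤ n ^ 2 := pow_le_pow_left₀ h2 (by linarith) 2
    have h4 : (n - t) ^ 2 ≤ n ^ 2 - t ^ 2 := by nlinarith
    calc ((n - t) ^ 2) ^ 2 = (n - t) ^ 2 * (n - t) ^ 2 := by ring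
      _ ≤ n ^ 2 * (n ^ 2 - t ^ 2) := mul_le_mul h3 h4 (by positivity) (by positivity)
  · rw [ph_zero hn t h]
    simpa using wt_nonneg n t

lemma wt_tendsto (t : ℝ) :
    Tendsto (fun m : ℕ => wt ((m : ℝ) + 1) t) atTop (𝓝 (1 / (max t 1) ^ 2)) := by
  have h1 : Tendsto (fun m : ℕ => 1 / ((m : ℝ) + 1) ^ 2) atTop (𝓝 0) := by
    have h := (tendsto_one_div_add_atTop_nhds_zero_nat (𝕜 := ℝ)).pow 2
    simpa [div_pow] using h
  have h2 : Tendsto (fun m : ℕ => 1 / (max t 1) ^ 2 - 1 / ((m : ℝ) + 1) ^ 2) atTop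
      (𝓝 (1 / (max t 1) ^ 2 - 0)) := tendsto_const_nhds.sub h1
  rw [sub_zero] at h2
  have h3 := (tendsto_const_nhds (x := (0 : ℝ)) (f := (atTop : Filter ℕ))).max h2
  have h4 : max 0 (1 / (max t 1) ^ 2) = 1 / (max t 1) ^ 2 := max_eq_right (by positivity)
  rw [h4] at h3
  exact h3

/-! ### pair sums -/

lemma psum_of_not {S : ℂ → Multiset ℂ} {G : ℂ → ℂ → ℂ → (ℂ →L[ℝ] ℂ) → (ℂ →L[ℝ] ℂ) → ℝ} {z : ℂ}
    (h : ¬ (S z).Nodup) : psum S G z = 0 := by
  unfold psum
  rw [if_neg h]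

lemma psum_neg {S : ℂ → Multiset ℂ} {G : ℂ → ℂ → ℂ → (ℂ →L[ℝ] ℂ) → (ℂ →L[ℝ] ℂ) → ℝ} {z : ℂ} :
    psum S (fun z a b A B => - G z a b A B) z = - psum S G z := by
  unfold psum
  split_ifs <;> simp

lemma psum_nonneg {S : ℂ → Multiset ℂ} {G : ℂ → ℂ → ℂ → (ℂ →L[ℝ] ℂ) → (ℂ →L[ℝ] ℂ) → ℝ} {z : ℂ}
    (h : ∀ a b A B, 0 ≤ G z a b A B) : 0 ≤ psum S G z := by
  unfold psum
  split_ifs
  · exact Finset.sum_nonneg fun q _ => h _ _ _ _
  · exact le_rfl

lemma abs_wth_le (α : ℂ →L[ℝ] ℝ) (a b : ℂ) (A B : ℂ →L[ℝ] ℂ) :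
    |wth α a b A B| ≤ 2 * ‖α‖ * ‖pdL a b A B‖ := by
  unfold wth
  have h1 : |α 1| ≤ ‖α‖ := by
    have := α.le_opNorm 1
    simpa using this
  have h2 : |α I| ≤ ‖α‖ := by
    have := α.le_opNorm I
    simpa using this
  have h3 : |(pdL a b A B I).im| ≤ ‖pdL a b A B‖ := by
    refine (Complex.abs_im_le_norm _).trans ?_
    have := (pdL a b A B).le_opNorm I
    simpa using this
  have h4 : |(pdL a b A B 1).im| ≤ ‖pdL a b A B‖ := by
    refine (Complex.abs_im_le_norm _).trans ?_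
    have := (pdL a b A B).le_opNorm 1
    simpa using this
  calc |α 1 * (pdL a b A B I).im - α I * (pdL a b A B 1).im|
      ≤ |α 1 * (pdL a b A B I).im| + |α I * (pdL a b A B 1).im| := abs_sub _ _
    _ = |α 1| * |(pdL a b A B I).im| + |α I| * |(pdL a b A B 1).im| := by rw [abs_mul, abs_mul]
    _ ≤ ‖α‖ * ‖pdL a b A B‖ + ‖α‖ * ‖pdL a b A B‖ := by gcongr
    _ = 2 * ‖α‖ * ‖pdL a b A B‖ := by ring

lemma wth_smul (t : ℝ) (α : ℂ →L[ℝ] ℝ) (a b : ℂ) (A B : ℂ →L[ℝ] ℂ) :
    wth (t • α) a b A B = t * wth α a b A B := by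
  unfold wth
  simp only [smul_apply, smul_eq_mul]
  ring

/-- the data of a simple point. -/
lemma slopes (h1 : SEL) {μ β : ℂ × ℂ → ℂ} {κ L : ℝ} (hB : BoxD μ β κ L) {c : ℂ} {R : ℝ} {k : ℕ}
    {S : ℂ → Multiset ℂ} {e : ℂ → ℝ} (hS : KG μ β c R k S e) {z : ℂ} (hz : z ∈ Usimp c R S)
    {a : ℂ} (ha : a ∈ S z) :
    lzb (slope S z a) = μ (z, a) * lz (slope S z a) - β (z, a) ∧ ‖slope S z a‖ ^ 2 ≤ e z := by
  obtain ⟨_, hloc⟩ := h1 μ β κ L hB c R k S e hS
  obtain ⟨r, w, hr, hball, hsheet, _, _, hmap, hslope⟩ := hloc z hz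
  have hzr : z ∈ ball z r := mem_ball_self hr
  have hsub : ball z r ⊆ ball c R := fun x hx => (hball hx).1
  rw [hmap z hzr, Multiset.mem_map] at ha
  obtain ⟨i, _, hi⟩ := ha
  rw [← hi, hslope z hzr i]
  exact ⟨hS.pde _ _ hsub (hsheet i) z hzr, hS.ebd _ _ hsub (hsheet i) z hzr⟩

lemma card_offDiag_le {s : Multiset ℂ} {k : ℕ} (h : s.card = k) :
    (s.toFinset.offDiag.card : ℝ) ≤ (k : ℝ) ^ 2 := by
  have h1 : s.toFinset.card ≤ k := h ▸ Multiset.toFinset_card_le s
  have h2 : s.toFinset.offDiag.card ≤ k * k := by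
    rw [Finset.offDiag_card]
    exact (Nat.sub_le _ _).trans (Nat.mul_le_mul h1 h1)
  calc (s.toFinset.offDiag.card : ℝ) ≤ ((k * k : ℕ) : ℝ) := by exact_mod_cast h2
    _ = (k : ℝ) ^ 2 := by push_cast; ring

lemma one_le_pv {a b : ℂ} (hab : a ≠ b) (h : ‖a - b‖ ≤ Real.exp (-1)) : 1 ≤ pv a b := by
  unfold pv
  have h0 : 0 < ‖a - b‖ := norm_pos_iff.2 (sub_ne_zero.2 hab)
  have := (Real.log_le_iff_le_exp h0).2 h
  linarith

/-- pointwise inequality (a). -/
lemma ineqA (h1 : SEL) {μ β : ℂ × ℂ → ℂ} {κ L : ℝ} (hB : BoxD μ β κ L) {c : ℂ} {R : ℝ} {k : ℕ}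
    {S : ℂ → Multiset ℂ} {e : ℂ → ℝ} (hS : KG μ β c R k S e) {c₀ C₀ : ℝ} (hC₀ : 0 ≤ C₀)
    (hJ : ∀ (z a b : ℂ) (A B : ℂ →L[ℝ] ℂ), a ≠ b →
      lzb A = μ (z, a) * lz A - β (z, a) → lzb B = μ (z, b) * lz B - β (z, b) →
      c₀ * ‖pdL a b A B‖ ^ 2 - C₀ * (1 + ‖B‖ ^ 2) ≤ pJ a b A B)
    {z : ℂ} (hz : z ∈ Usimp c R S) (n : ℝ) :
    c₀ * psum S (fun _ a b A B => wt n (pv a b) * ‖pdL a b A B‖ ^ 2) z ≤
      psum S (fun _ a b A B => wt n (pv a b) * pJ a b A B) z + C₀ * ((k : ℝ) ^ 2 * (1 + e z)) := by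
  classical
  have hN := hz.2
  have he : 0 ≤ e z := hS.e0 z
  unfold psum
  rw [if_pos hN, if_pos hN, Finset.mul_sum]
  have hc : C₀ * ((S z).toFinset.offDiag.card * (1 + e z)) ≤ C₀ * ((k : ℝ) ^ 2 * (1 + e z)) := by
    have := card_offDiag_le (hS.card z hz.1)
    gcongr
  refine le_trans ?_ (add_le_add le_rfl hc)
  have e1 : C₀ * ((S z).toFinset.offDiag.card * (1 + e z)) =
      ∑ _q ∈ (S z).toFinset.offDiag, C₀ * (1 + e z) := by
    rw [Finset.sum_const, nsmul_eq_mul]
    ring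
  rw [e1, ← Finset.sum_add_distrib]
  refine Finset.sum_le_sum fun q hq => ?_
  rw [Finset.mem_offDiag] at hq
  obtain ⟨hq1, hq2, hq3⟩ := hq
  obtain ⟨hA1, hA2⟩ := slopes h1 hB hS hz (Multiset.mem_toFinset.1 hq1)
  obtain ⟨hB1, hB2⟩ := slopes h1 hB hS hz (Multiset.mem_toFinset.1 hq2)
  have hj := hJ z q.1 q.2 _ _ hq3 hA1 hB1
  have hw := wt_nonneg n (pv q.1 q.2)
  have hw1 := wt_le_one n (pv q.1 q.2)
  have h3 : wt n (pv q.1 q.2) * (c₀ * ‖pdL q.1 q.2 (slope S z q.1) (slope S z q.2)‖ ^ 2 -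
      C₀ * (1 + ‖slope S z q.2‖ ^ 2)) ≤
      wt n (pv q.1 q.2) * pJ q.1 q.2 (slope S z q.1) (slope S z q.2) :=
    mul_le_mul_of_nonneg_left hj hw
  have h4 : wt n (pv q.1 q.2) * (C₀ * (1 + ‖slope S z q.2‖ ^ 2)) ≤ 1 * (C₀ * (1 + e z)) := by
    apply mul_le_mul hw1 _ (by positivity) one_pos.le
    gcongr
  nlinarith [h3, h4]

/-- pointwise inequality (b). -/
lemma ineqB {c : ℂ} {R : ℝ} {k : ℕ} {S : ℂ → Multiset ℂ} (hcard : ∀ z ∈ ball c R, (S z).card = k)
    (hsm : ∀ z ∈ ball c R, ∀ a ∈ S z, ∀ b ∈ S z, ‖a - b‖ ≤ Real.exp (-1))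
    {c₀ : ℝ} (hc₀ : 0 < c₀) {z : ℂ} (hz : z ∈ Usimp c R S) {n : ℝ} (hn : 1 ≤ n) (t : ℝ)
    (α : ℂ →L[ℝ] ℝ) :
    - psum S (fun _ a b A B => ph n (pv a b) * wth ((2 * t) • α) a b A B) z ≤
      c₀ / 2 * (t ^ 2 * psum S (fun _ a b A B => wt n (pv a b) * ‖pdL a b A B‖ ^ 2) z) +
        8 / c₀ * ((k : ℝ) ^ 2 * ‖α‖ ^ 2) := by
  classical
  have hN := hz.2
  unfold psum
  rw [if_pos hN, if_pos hN, ← Finset.sum_neg_distrib, Finset.mul_sum, Finset.mul_sum]
  have hc : 8 / c₀ * ((S z).toFinset.offDiag.card * ‖α‖ ^ 2) ≤ 8 / c₀ * ((k : ℝ) ^ 2 * ‖α‖ ^ 2) := by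
    have := card_offDiag_le (hcard z hz.1)
    gcongr
  refine le_trans ?_ (add_le_add le_rfl hc)
  have e1 : 8 / c₀ * ((S z).toFinset.offDiag.card * ‖α‖ ^ 2) =
      ∑ _q ∈ (S z).toFinset.offDiag, 8 / c₀ * ‖α‖ ^ 2 := by
    rw [Finset.sum_const, nsmul_eq_mul]
    ring
  rw [e1, ← Finset.sum_add_distrib]
  refine Finset.sum_le_sum fun q hq => ?_
  rw [Finset.mem_offDiag] at hq
  obtain ⟨hq1, hq2, hq3⟩ := hq
  beta_reduce
  have hv : 1 ≤ pv q.1 q.2 := one_le_pv hq3
    (hsm z hz.1 _ (Multiset.mem_toFinset.1 hq1) _ (Multiset.mem_toFinset.1 hq2))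
  set X := ‖pdL q.1 q.2 (slope S z q.1) (slope S z q.2)‖ with hX
  have hX0 : 0 ≤ X := norm_nonneg _
  have hp0 := ph_nonneg hn hv
  have hp2 := ph_sq_le hn hv
  set p := ph n (pv q.1 q.2) with hp
  set w := wt n (pv q.1 q.2) with hw
  have hwth := abs_wth_le α q.1 q.2 (slope S z q.1) (slope S z q.2)
  rw [wth_smul]
  have h1 : -(p * (2 * t * wth α q.1 q.2 (slope S z q.1) (slope S z q.2))) ≤
      4 * (|t| * p * X) * ‖α‖ := by
    have h2 : -(p * (2 * t * wth α q.1 q.2 (slope S z q.1) (slope S z q.2))) ≤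
        |p * (2 * t * wth α q.1 q.2 (slope S z q.1) (slope S z q.2))| := neg_le_abs _
    refine h2.trans ?_
    rw [abs_mul, abs_mul, abs_mul, abs_of_nonneg hp0, abs_two]
    calc p * (2 * |t| * |wth α q.1 q.2 (slope S z q.1) (slope S z q.2)|)
        ≤ p * (2 * |t| * (2 * ‖α‖ * X)) := by gcongr
      _ = 4 * (|t| * p * X) * ‖α‖ := by ring
  refine h1.trans ?_
  have h3 : (|t| * p * X) ^ 2 ≤ t ^ 2 * (w * X ^ 2) := by
    have : (|t| * p * X) ^ 2 = t ^ 2 * (p ^ 2 * X ^ 2) := by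
      rw [mul_pow, mul_pow, sq_abs]
      ring
    rw [this]
    gcongr
  have h4 : 4 * (|t| * p * X) * ‖α‖ ≤ c₀ / 2 * (|t| * p * X) ^ 2 + 8 / c₀ * ‖α‖ ^ 2 := by
    have h5 : 0 ≤ (c₀ / 2) * ((|t| * p * X) - 4 / c₀ * ‖α‖) ^ 2 := by positivity
    have h6 : (c₀ / 2) * ((|t| * p * X) - 4 / c₀ * ‖α‖) ^ 2 =
        c₀ / 2 * (|t| * p * X) ^ 2 - 4 * (|t| * p * X) * ‖α‖ + 8 / c₀ * ‖α‖ ^ 2 := by
      field_simp
      ring
    linarith
  refine h4.trans ?_
  have h7 : c₀ / 2 * (|t| * p * X) ^ 2 ≤ c₀ / 2 * (t ^ 2 * (w * X ^ 2)) :=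
    mul_le_mul_of_nonneg_left h3 (by positivity)
  linarith

lemma fderiv_sq {η : ℂ → ℝ} (hη : ContDiff ℝ 1 η) (z : ℂ) :
    fderiv ℝ (fun z => η z ^ 2) z = (2 * η z) • fderiv ℝ η z := by
  have h := (hη.differentiable (by norm_num) z).hasFDerivAt.pow 2
  rw [h.fderiv]
  simp

lemma continuousOn_term (f : ℝ → ℝ) (hf : Continuous f) (c : ℂ) (R : ℝ) :
    ContinuousOn (fun q : ℂ × ℂ × ℂ × (ℂ →L[ℝ] ℂ) × (ℂ →L[ℝ] ℂ) =>
      f (pv q.2.1 q.2.2.1) * ‖pdL q.2.1 q.2.2.1 q.2.2.2.1 q.2.2.2.2‖ ^ 2)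
      {q | q.1 ∈ ball c R ∧ q.2.1 ≠ q.2.2.1} := by
  intro q hq
  apply ContinuousAt.continuousWithinAt
  have h0 : q.2.1 - q.2.2.1 ≠ 0 := sub_ne_zero.2 hq.2
  have h1 : ContinuousAt (fun q : ℂ × ℂ × ℂ × (ℂ →L[ℝ] ℂ) × (ℂ →L[ℝ] ℂ) => q.2.1 - q.2.2.1) q := by
    fun_prop
  have h2 : ContinuousAt (fun q : ℂ × ℂ × ℂ × (ℂ →L[ℝ] ℂ) × (ℂ →L[ℝ] ℂ) =>
      pv q.2.1 q.2.2.1) q := by
    unfold pv
    exact (h1.norm.log (norm_ne_zero_iff.2 h0)).neg
  have h3 : ContinuousAt (fun q : ℂ × ℂ × ℂ × (ℂ →L[ℝ] ℂ) × (ℂ →L[ℝ] ℂ) =>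
      pdL q.2.1 q.2.2.1 q.2.2.2.1 q.2.2.2.2) q := by
    unfold pdL
    refine (h1.inv₀ h0).smul ?_
    fun_prop
  exact (hf.continuousAt.comp h2).mul (h3.norm.pow 2)

theorem logv_of (h : STAR) (h4 : JALG) (h6 : PSC) (h1 : SEL) : LOGV := by
  classical
  intro μ β κ L hB c R k S e hS hD hsm R' hR'
  rcases le_or_gt R' 0 with hR0 | hR0
  · rw [ball_eq_empty.2 hR0]
    exact integrableOn_empty
  obtain ⟨c₀, C₀, hc₀, hC₀, hJ'⟩ := h4 κ L hB.κ0 hB.κ1 hB.L0
  have hJ : ∀ (z a b : ℂ) (A B : ℂ →L[ℝ] ℂ), a ≠ b →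
      lzb A = μ (z, a) * lz A - β (z, a) → lzb B = μ (z, b) * lz B - β (z, b) →
      c₀ * ‖pdL a b A B‖ ^ 2 - C₀ * (1 + ‖B‖ ^ 2) ≤ pJ a b A B :=
    fun z a b A B hab hA hBB => (hJ' μ β hB z a b A B hab hA hBB).1
  -- the cut-off
  obtain ⟨η, hη, hη0, hη1, hηc, hηs, hηone⟩ : ∃ η : ℂ → ℝ, ContDiff ℝ 1 η ∧ (∀ z, 0 ≤ η z) ∧
      (∀ z, η z ≤ 1) ∧ HasCompactSupport η ∧ tsupport η ⊆ ball c R ∧
      (∀ z ∈ ball c R', η z = 1) := by
    let bmp : ContDiffBump c := ⟨R', (R' + R) / 2, hR0, by linarith⟩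
    refine ⟨bmp, bmp.contDiff, fun z => bmp.nonneg, fun z => bmp.le_one, bmp.hasCompactSupport,
      ?_, fun z hz => bmp.one_of_mem_closedBall (ball_subset_closedBall hz)⟩
    rw [bmp.tsupport_eq]
    exact closedBall_subset_ball (show (R' + R) / 2 < R by linarith)
  have hηz : ∀ z ∉ ball c R, η z = 0 := fun z hz =>
    image_eq_zero_of_notMem_tsupport (fun h => hz (hηs h))
  obtain ⟨hopen, _⟩ := h1 μ β κ L hB c R k S e hS
  have hUm : MeasurableSet (Usimp c R S) := hopen.measurableSet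
  have hmeas : ∀ f : ℝ → ℝ, Continuous f → AEStronglyMeasurable
      (fun z => η z ^ 2 * psum S (fun _ a b A B => f (pv a b) * ‖pdL a b A B‖ ^ 2) z) volume := by
    intro f hf
    have hcont : ContinuousOn (fun z => η z ^ 2 *
        psum S (fun _ a b A B => f (pv a b) * ‖pdL a b A B‖ ^ 2) z) (Usimp c R S) :=
      (hη.continuous.pow 2).continuousOn.mul
        (h6 μ β κ L hB c R k S e hS (fun _ a b A B => f (pv a b) * ‖pdL a b A B‖ ^ 2)
          (continuousOn_term f hf c R))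
    have e1 : (fun z => η z ^ 2 * psum S (fun _ a b A B => f (pv a b) * ‖pdL a b A B‖ ^ 2) z) =
        (Usimp c R S).indicator (fun z => η z ^ 2 *
          psum S (fun _ a b A B => f (pv a b) * ‖pdL a b A B‖ ^ 2) z) := by
      funext z
      by_cases hz : z ∈ Usimp c R S
      · rw [indicator_of_mem hz]
      · rw [indicator_of_notMem hz]
        by_cases hz' : z ∈ ball c R
        · rw [psum_of_not (fun hN => hz ⟨hz', hN⟩), mul_zero]
        · rw [hηz z hz']
          simp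
    rw [e1, aestronglyMeasurable_indicator_iff hUm]
    exact hcont.aestronglyMeasurable hUm
  -- the comparison functions
  set E : ℂ → ℝ := (ball c R).indicator (fun z => (k : ℝ) ^ 2 * (1 + e z)) with hE
  have hEint : Integrable E volume := by
    rw [hE, integrable_indicator_iff measurableSet_ball]
    refine Integrable.const_mul ?_ _
    exact (integrableOn_const (measure_ball_lt_top).ne).add hS.eint
  have hE0 : ∀ z, 0 ≤ E z := by
    intro z
    rw [hE]
    refine indicator_nonneg (fun x _ => ?_) z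
    have := hS.e0 x
    positivity
  set D : ℂ → ℝ := fun z => (k : ℝ) ^ 2 * ‖fderiv ℝ η z‖ ^ 2 with hDdef
  have hDint : Integrable D volume := by
    have hc1 : Continuous D := continuous_const.mul ((hη.continuous_fderiv one_ne_zero).norm.pow 2)
    refine hc1.integrable_of_hasCompactSupport ?_
    have h2 : HasCompactSupport (fderiv ℝ η) := hηc.fderiv (𝕜 := ℝ)
    exact h2.comp_left (g := fun A : ℂ →L[ℝ] ℝ => (k : ℝ) ^ 2 * ‖A‖ ^ 2) (by simp)
  set M : ℝ := 2 / c₀ * (8 / c₀ * (∫ z, D z) + C₀ * ∫ z, E z) with hM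
  -- the uniform bound
  have key : ∀ n : ℝ, 1 ≤ n →
      Integrable (fun z => η z ^ 2 *
        psum S (fun _ a b A B => wt n (pv a b) * ‖pdL a b A B‖ ^ 2) z) volume ∧
      ∫ z, η z ^ 2 * psum S (fun _ a b A B => wt n (pv a b) * ‖pdL a b A B‖ ^ 2) z ≤ M := by
    intro n hn
    have hcs : HasCompactSupport (fun z => η z ^ 2) :=
      hηc.comp_left (g := fun x : ℝ => x ^ 2) (by simp)
    have hts : tsupport (fun z => η z ^ 2) ⊆ ball c R := by
      refine (closure_mono ?_).trans hηs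
      intro z hz hz'
      exact hz (by simp only [hz']; norm_num)
    obtain ⟨hX, hY, hXY⟩ := h μ β κ L hB c R k S e hS hD (ph n) n (contDiff_ph n) (ph_zero hn)
      (fun z => η z ^ 2) (hη.pow 2) hcs hts
    set P : ℂ → ℝ := fun z => η z ^ 2 *
        psum S (fun _ a b A B => wt n (pv a b) * ‖pdL a b A B‖ ^ 2) z with hP
    set X : ℂ → ℝ := fun z => η z ^ 2 *
      psum S (fun _ a b A B => deriv (ph n) (pv a b) * pJ a b A B) z with hXdef
    set Y : ℂ → ℝ := fun z => psum S (fun z a b A B => ph n (pv a b) *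
      wth (fderiv ℝ (fun z => η z ^ 2) z) a b A B) z with hYdef
    have hP0 : ∀ z, 0 ≤ P z := fun z => mul_nonneg (sq_nonneg _)
      (psum_nonneg fun a b A B => mul_nonneg (wt_nonneg _ _) (sq_nonneg _))
    have hXeq : ∀ z, X z = - (η z ^ 2 * psum S (fun _ a b A B => wt n (pv a b) * pJ a b A B) z) := by
      intro z
      rw [hXdef]
      simp only [deriv_ph]
      have : (fun (_ : ℂ) a b A B => -wt n (pv a b) * pJ a b A B) =
          fun (_ : ℂ) a b A B => -(wt n (pv a b) * pJ a b A B) := by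
        funext _ a b A B
        ring
      rw [this, psum_neg (G := fun (_ : ℂ) a b A B => wt n (pv a b) * pJ a b A B)]
      ring
    have hA : ∀ z, c₀ * P z ≤ - X z + C₀ * E z := by
      intro z
      by_cases hz : z ∈ Usimp c R S
      · have h2 := ineqA h1 hB hS hC₀ hJ hz n
        have h3 : E z = (k : ℝ) ^ 2 * (1 + e z) := by rw [hE, indicator_of_mem hz.1]
        rw [hXeq, h3, hP, neg_neg]
        have h4 := mul_le_mul_of_nonneg_left h2 (sq_nonneg (η z))
        have h5 : η z ^ 2 ≤ 1 := pow_le_one₀ (hη0 z) (hη1 z)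
        have h6 : 0 ≤ C₀ * ((k : ℝ) ^ 2 * (1 + e z)) := by
          have := hS.e0 z
          positivity
        have h7 := mul_le_mul_of_nonneg_right h5 h6
        simp only
        nlinarith [h4, h7]
      · have h2 : P z = 0 ∧ X z = 0 := by
          by_cases hz' : z ∈ ball c R
          · have hN : ¬ (S z).Nodup := fun hN => hz ⟨hz', hN⟩
            simp only [hP, hXdef]
            rw [psum_of_not hN, psum_of_not hN]
            simp
          · simp only [hP, hXdef]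
            rw [hηz z hz']
            simp
        rw [h2.1, h2.2]
        have := mul_nonneg hC₀ (hE0 z)
        linarith
    have hBp : ∀ z, - Y z ≤ c₀ / 2 * P z + 8 / c₀ * D z := by
      intro z
      have hD0 : 0 ≤ 8 / c₀ * D z := by rw [hDdef]; positivity
      have hPz := hP0 z
      by_cases hz : z ∈ Usimp c R S
      · have h2 := ineqB hS.card hsm hc₀ hz hn (η z) (fderiv ℝ η z)
        rw [← fderiv_sq hη z] at h2
        exact h2
      · have h2 : Y z = 0 := by
          by_cases hz' : z ∈ ball c R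
          · exact psum_of_not (fun hN => hz ⟨hz', hN⟩)
          · simp only [hYdef]
            unfold psum
            simp only [fderiv_sq hη z, hηz z hz', wth_smul]
            simp
        rw [h2]
        have : 0 ≤ c₀ / 2 * P z := by positivity
        linarith
    have hPm : AEStronglyMeasurable P volume := hmeas (wt n) (wt_continuous n)
    have hXn : Integrable (fun z => - X z) volume := hX.neg
    have hYn : Integrable (fun z => - Y z) volume := hY.neg
    have hint1 : Integrable (fun z => - X z + C₀ * E z) volume := hXn.add (hEint.const_mul C₀)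
    have hPint : Integrable P volume := by
      refine Integrable.mono' (hint1.const_mul (1 / c₀)) hPm (Eventually.of_forall fun z => ?_)
      rw [Real.norm_eq_abs, abs_of_nonneg (hP0 z)]
      have := hA z
      rw [one_div, ← div_eq_inv_mul, le_div_iff₀ hc₀]
      linarith
    refine ⟨hPint, ?_⟩
    have i1 : ∫ z, c₀ * P z ≤ ∫ z, (- X z + C₀ * E z) :=
      integral_mono (hPint.const_mul c₀) hint1 hA
    have i2 : ∫ z, - Y z ≤ ∫ z, (c₀ / 2 * P z + 8 / c₀ * D z) :=
      integral_mono hYn ((hPint.const_mul _).add (hDint.const_mul _)) hBp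
    have i3 : ∫ z, (- X z + C₀ * E z) = - (∫ z, X z) + C₀ * ∫ z, E z := by
      rw [integral_add hXn (hEint.const_mul C₀), integral_neg, integral_const_mul]
    have i4 : ∫ z, (c₀ / 2 * P z + 8 / c₀ * D z) = c₀ / 2 * (∫ z, P z) + 8 / c₀ * ∫ z, D z := by
      rw [integral_add (hPint.const_mul _) (hDint.const_mul _), integral_const_mul,
        integral_const_mul]
    rw [integral_const_mul, i3] at i1
    rw [integral_neg, i4] at i2
    have i5 : ∫ z, X z = ∫ z, Y z := hXY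
    rw [i5] at i1
    have i6 : c₀ / 2 * (∫ z, P z) ≤ 8 / c₀ * (∫ z, D z) + C₀ * ∫ z, E z := by linarith
    rw [hM]
    have i7 : ∫ z, P z = 2 / c₀ * (c₀ / 2 * ∫ z, P z) := by
      field_simp
    rw [i7]
    exact mul_le_mul_of_nonneg_left i6 (by positivity)
  -- the limit
  set Q : ℂ → ℝ := fun z => η z ^ 2 *
    psum S (fun _ a b A B => 1 / (max (pv a b) 1) ^ 2 * ‖pdL a b A B‖ ^ 2) z with hQ
  have hQm : AEStronglyMeasurable Q volume :=
    hmeas (fun t => 1 / (max t 1) ^ 2) continuous_inv_max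
  have hQint : Integrable Q volume := by
    refine ⟨hQm, ?_⟩
    set Pn : ℕ → ℂ → ℝ := fun m z => η z ^ 2 *
      psum S (fun _ a b A B => wt ((m : ℝ) + 1) (pv a b) * ‖pdL a b A B‖ ^ 2) z with hPn
    have hPn0 : ∀ m z, 0 ≤ Pn m z := fun m z => mul_nonneg (sq_nonneg _)
      (psum_nonneg fun a b A B => mul_nonneg (wt_nonneg _ _) (sq_nonneg _))
    have hlim : ∀ z, Tendsto (fun m => Pn m z) atTop (𝓝 (Q z)) := by
      intro z
      refine Tendsto.const_mul _ ?_
      unfold psum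
      split_ifs
      · refine tendsto_finsetSum _ fun q _ => ?_
        exact (wt_tendsto _).mul_const _
      · exact tendsto_const_nhds
    have hb : ∀ m, ∫⁻ z, ‖Pn m z‖ₑ ≤ ENNReal.ofReal M := by
      intro m
      have hk := key ((m : ℝ) + 1) (by have : (0 : ℝ) ≤ m := Nat.cast_nonneg m; linarith)
      have h2 : ∫⁻ z, ‖Pn m z‖ₑ = ENNReal.ofReal (∫ z, Pn m z) := by
        rw [ofReal_integral_eq_lintegral_ofReal hk.1 (Eventually.of_forall (hPn0 m))]
        refine lintegral_congr fun z => ?_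
        rw [Real.enorm_eq_ofReal (hPn0 m z)]
      rw [h2]
      exact ENNReal.ofReal_le_ofReal hk.2
    have h3 : ∫⁻ z, ‖Q z‖ₑ ≤ ENNReal.ofReal M := by
      have e1 : ∀ z, ‖Q z‖ₑ = liminf (fun m => ‖Pn m z‖ₑ) atTop := fun z =>
        ((hlim z).enorm.liminf_eq).symm
      calc ∫⁻ z, ‖Q z‖ₑ = ∫⁻ z, liminf (fun m => ‖Pn m z‖ₑ) atTop :=
            lintegral_congr e1
        _ ≤ liminf (fun m => ∫⁻ z, ‖Pn m z‖ₑ) atTop := by
            refine lintegral_liminf_le' fun m => ?_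
            exact (hmeas _ (wt_continuous _)).enorm
        _ ≤ ENNReal.ofReal M := by
            refine liminf_le_of_le (by isBoundedDefault) ?_
            intro b hbb
            obtain ⟨m, hm⟩ := hbb.exists
            exact hm.trans (hb m)
    exact lt_of_le_of_lt h3 ENNReal.ofReal_lt_top
  refine hQint.integrableOn.congr_fun (fun z hz => ?_) measurableSet_ball
  have hzR : z ∈ ball c R := ball_subset_ball hR'.le hz
  simp only [hQ]
  rw [hηone z hz, one_pow, one_mul]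
  unfold psum
  split_ifs with hN
  · refine Finset.sum_congr rfl fun q hq => ?_
    rw [Finset.mem_offDiag] at hq
    have hv : 1 ≤ pv q.1 q.2 := one_le_pv hq.2.2
      (hsm z hzR _ (Multiset.mem_toFinset.1 hq.1) _ (Multiset.mem_toFinset.1 hq.2.1))
    beta_reduce
    rw [max_eq_left hv]
    ring
  · rfl

end

end Crest.Agent.R235.LocLogv_800
end

-- ▼ part R235/LocCirc_891
section

/-!
Row 235 (S0364), PACKAGE REG, LOC-8 (CIRC): almost every circle avoids the non-simple points.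
-/

set_option autoImplicit false

open MeasureTheory Metric Set Filter Complex
open scoped ContDiff Topology ENNReal

namespace Crest.Agent.R235.LocCirc_891

open Crest.Agent.R235.Loc

noncomputable section

/-- a pair sum in terms of a selection. -/
theorem psum_sel {k : ℕ} {S : ℂ → Multiset ℂ} {z : ℂ} (w : Fin k → ℂ)
    (hinj : Function.Injective w) (hS : S z = Multiset.map w Finset.univ.val)
    (A : Fin k → (ℂ →L[ℝ] ℂ)) (hA : ∀ i, slope S z (w i) = A i)
    (G : ℂ → ℂ → ℂ → (ℂ →L[ℝ] ℂ) → (ℂ →L[ℝ] ℂ) → ℝ) :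
    psum S G z = ∑ q ∈ (Finset.univ : Finset (Fin k)).offDiag,
      G z (w q.1) (w q.2) (A q.1) (A q.2) := by
  classical
  have hnd : (S z).Nodup := by rw [hS]; exact Multiset.Nodup.map hinj Finset.univ.nodup
  unfold psum
  rw [if_pos hnd]
  symm
  refine Finset.sum_nbij (fun q => (w q.1, w q.2)) ?_ ?_ ?_ ?_
  · intro q hq
    simp only [Finset.mem_offDiag, Finset.mem_univ, true_and] at hq
    simp only [Finset.mem_offDiag, Multiset.mem_toFinset, hS, Multiset.mem_map]
    exact ⟨⟨q.1, Finset.mem_univ_val _, rfl⟩, ⟨q.2, Finset.mem_univ_val _, rfl⟩,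
      fun h => hq (hinj h)⟩
  · rintro ⟨a, b⟩ _ ⟨a', b'⟩ _ h
    simp only [Prod.mk.injEq] at h
    exact Prod.ext (hinj h.1) (hinj h.2)
  · rintro ⟨a, b⟩ h
    simp only [Finset.mem_coe, Finset.mem_offDiag, Multiset.mem_toFinset, hS,
      Multiset.mem_map] at h
    obtain ⟨⟨i, _, hi⟩, ⟨j, _, hj⟩, hab⟩ := h
    refine ⟨(i, j), ?_, ?_⟩
    · simp only [Finset.mem_coe, Finset.mem_offDiag, Finset.mem_univ, true_and]
      rintro rfl
      exact hab (hi.symm.trans hj)
    · simp only [hi, hj]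
  · intro q _
    simp only [hA]

theorem exists_deriv_logpv {u : ℝ → ℂ} {u' : ℂ} {t : ℝ} (hu : HasDerivAt u u' t) (h0 : u t ≠ 0)
    (hv : 0 < -Real.log ‖u t‖) :
    ∃ d : ℝ, HasDerivAt (fun s => Real.log (-Real.log ‖u s‖)) d t ∧
      d ≤ (‖u'‖ / ‖u t‖) / (-Real.log ‖u t‖) := by
  have hn : 0 < ‖u t‖ := norm_pos_iff.mpr h0
  have h1 : HasDerivAt (fun s => ‖u s‖ ^ 2) (2 * inner ℝ (u t) u') t := hu.norm_sq
  have h2 := (h1.log (by positivity)).const_mul (1/2 : ℝ)
  have h3 : HasDerivAt (fun s => -Real.log ‖u s‖)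
      (-(1/2 * (2 * inner ℝ (u t) u' / ‖u t‖ ^ 2))) t := by
    refine h2.neg.congr_of_eventuallyEq (Eventually.of_forall fun s => ?_)
    simp [Real.log_pow]
  refine ⟨_, h3.log hv.ne', ?_⟩
  refine div_le_div_of_nonneg_right ?_ hv.le
  have h4 : -inner ℝ (u t) u' ≤ ‖u t‖ * ‖u'‖ :=
    (neg_le_abs _).trans (abs_real_inner_le_norm _ _)
  have h5 : -(1/2 * (2 * inner ℝ (u t) u' / ‖u t‖ ^ 2)) = (-inner ℝ (u t) u') / ‖u t‖ ^ 2 := by
    ring
  rw [h5, div_le_div_iff₀ (by positivity) hn]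
  nlinarith [mul_le_mul_of_nonneg_right h4 hn.le]

/-- the derivative of `Σ log v` along a curve. -/
theorem deriv_h {k : ℕ} {S : ℂ → Multiset ℂ} {γ : ℝ → ℂ} {g' : ℂ} {t ρ : ℝ}
    (hγ : HasDerivAt γ g' t) (hρ : ‖g'‖ ≤ ρ)
    (hsel : ∃ (r : ℝ) (w : Fin k → ℂ → ℂ), 0 < r ∧
      (∀ i, ContDiffOn ℝ ∞ (w i) (ball (γ t) r)) ∧
      (∀ z ∈ ball (γ t) r, Function.Injective (fun i => w i z)) ∧
      (∀ z ∈ ball (γ t) r, S z = Multiset.map (fun i => w i z) Finset.univ.val) ∧
      (∀ z ∈ ball (γ t) r, ∀ i, slope S z (w i z) = fderiv ℝ (w i) z))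
    (hbd : ∀ a ∈ S (γ t), ∀ b ∈ S (γ t), ‖a - b‖ ≤ Real.exp (-1)) :
    ∃ d : ℝ, HasDerivAt (fun s => psum S (fun _ a b _ _ => Real.log (pv a b)) (γ s)) d t ∧
      d ≤ ρ * ((k : ℝ) ^ 2 + psum S (fun _ a b A B => ‖pdL a b A B‖ ^ 2 / pv a b ^ 2) (γ t)) := by
  classical
  obtain ⟨r, w, hr, hcd, hinj, hS, hsl⟩ := hsel
  have hc : γ t ∈ ball (γ t) r := mem_ball_self hr
  have hρ0 : 0 ≤ ρ := (norm_nonneg _).trans hρ
  have hd : ∀ i, HasDerivAt (fun s => w i (γ s)) (fderiv ℝ (w i) (γ t) g') t := by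
    intro i
    have h1 : DifferentiableAt ℝ (w i) (γ t) :=
      ((hcd i).contDiffAt (isOpen_ball.mem_nhds hc)).differentiableAt (by simp)
    exact h1.hasFDerivAt.comp_hasDerivAt t hγ
  have hmem : ∀ i, w i (γ t) ∈ S (γ t) := by
    intro i
    rw [hS _ hc]
    exact Multiset.mem_map.mpr ⟨i, Finset.mem_univ_val _, rfl⟩
  have hne : ∀ q ∈ (Finset.univ : Finset (Fin k)).offDiag, w q.1 (γ t) - w q.2 (γ t) ≠ 0 := by
    intro q hq h
    simp only [Finset.mem_offDiag, Finset.mem_univ, true_and] at hq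
    exact hq (hinj _ hc (sub_eq_zero.mp h))
  have hpv : ∀ q ∈ (Finset.univ : Finset (Fin k)).offDiag,
      1 ≤ -Real.log ‖w q.1 (γ t) - w q.2 (γ t)‖ := by
    intro q hq
    have h1 := hbd _ (hmem q.1) _ (hmem q.2)
    have h2 : 0 < ‖w q.1 (γ t) - w q.2 (γ t)‖ := norm_pos_iff.mpr (hne q hq)
    have h3 := Real.log_le_log h2 h1
    rw [Real.log_exp] at h3
    linarith
  have key : ∀ q ∈ (Finset.univ : Finset (Fin k)).offDiag, ∃ d : ℝ,
      HasDerivAt (fun s => Real.log (-Real.log ‖w q.1 (γ s) - w q.2 (γ s)‖)) d t ∧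
      d ≤ (‖fderiv ℝ (w q.1) (γ t) g' - fderiv ℝ (w q.2) (γ t) g'‖ /
        ‖w q.1 (γ t) - w q.2 (γ t)‖) / (-Real.log ‖w q.1 (γ t) - w q.2 (γ t)‖) := by
    intro q hq
    exact exists_deriv_logpv ((hd q.1).fun_sub (hd q.2)) (hne q hq)
      (lt_of_lt_of_le one_pos (hpv q hq))
  choose! d hd1 hd2 using key
  refine ⟨∑ q ∈ (Finset.univ : Finset (Fin k)).offDiag, d q, ?_, ?_⟩
  · have h1 : HasDerivAt (fun s => ∑ q ∈ (Finset.univ : Finset (Fin k)).offDiag,
        Real.log (-Real.log ‖w q.1 (γ s) - w q.2 (γ s)‖))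
        (∑ q ∈ (Finset.univ : Finset (Fin k)).offDiag, d q) t :=
      HasDerivAt.fun_sum fun q hq => hd1 q hq
    refine h1.congr_of_eventuallyEq ?_
    have h2 : ∀ᶠ s in 𝓝 t, γ s ∈ ball (γ t) r :=
      hγ.continuousAt (isOpen_ball.mem_nhds hc)
    filter_upwards [h2] with s hs
    exact psum_sel (fun i => w i (γ s)) (hinj _ hs) (hS _ hs) _ (hsl _ hs) _
  · rw [psum_sel (fun i => w i (γ t)) (hinj _ hc) (hS _ hc) _ (hsl _ hc) _]
    have h1 : ∀ q ∈ (Finset.univ : Finset (Fin k)).offDiag, d q ≤ ρ * (1 +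
        ‖pdL (w q.1 (γ t)) (w q.2 (γ t)) (fderiv ℝ (w q.1) (γ t)) (fderiv ℝ (w q.2) (γ t))‖ ^ 2 /
          pv (w q.1 (γ t)) (w q.2 (γ t)) ^ 2) := by
      intro q hq
      refine (hd2 q hq).trans ?_
      have h2 := hpv q hq
      have h3 : 0 < ‖w q.1 (γ t) - w q.2 (γ t)‖ := norm_pos_iff.mpr (hne q hq)
      have h4 : ‖fderiv ℝ (w q.1) (γ t) g' - fderiv ℝ (w q.2) (γ t) g'‖ /
          ‖w q.1 (γ t) - w q.2 (γ t)‖ ≤
          ‖pdL (w q.1 (γ t)) (w q.2 (γ t)) (fderiv ℝ (w q.1) (γ t))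
            (fderiv ℝ (w q.2) (γ t))‖ * ρ := by
        unfold pdL
        rw [norm_smul, norm_inv, div_eq_inv_mul, mul_assoc]
        refine mul_le_mul_of_nonneg_left ?_ (by positivity)
        rw [← sub_apply]
        refine (ContinuousLinearMap.le_opNorm _ _).trans ?_
        exact mul_le_mul_of_nonneg_left hρ (norm_nonneg _)
      set P := ‖pdL (w q.1 (γ t)) (w q.2 (γ t)) (fderiv ℝ (w q.1) (γ t))
            (fderiv ℝ (w q.2) (γ t))‖ with hP
      have hP0 : 0 ≤ P := norm_nonneg _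
      have h5 : -Real.log ‖w q.1 (γ t) - w q.2 (γ t)‖ = pv (w q.1 (γ t)) (w q.2 (γ t)) := rfl
      rw [h5] at h2 ⊢
      set V := pv (w q.1 (γ t)) (w q.2 (γ t))
      have hV : 0 < V := lt_of_lt_of_le one_pos h2
      calc _ ≤ (P * ρ) / V := div_le_div_of_nonneg_right h4 hV.le
        _ = ρ * (P / V) := by ring
        _ ≤ ρ * (1 + P ^ 2 / V ^ 2) := by
          refine mul_le_mul_of_nonneg_left ?_ hρ0
          rw [← div_pow]
          nlinarith [sq_nonneg (P / V - 1), sq_nonneg (P / V)]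
    calc ∑ q ∈ (Finset.univ : Finset (Fin k)).offDiag, d q
        ≤ _ := Finset.sum_le_sum h1
      _ = ρ * (((Finset.univ : Finset (Fin k)).offDiag.card : ℝ) + _) := by
          rw [← Finset.mul_sum, Finset.sum_add_distrib, Finset.sum_const, nsmul_eq_mul, mul_one]
      _ ≤ _ := by
          refine mul_le_mul_of_nonneg_left ?_ hρ0
          refine add_le_add_left ?_ _
          rw [Finset.offDiag_card, Finset.card_univ, Fintype.card_fin]
          have : k * k - k ≤ k ^ 2 := by rw [sq]; exact Nat.sub_le _ _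
          exact_mod_cast this

/-- polar coordinates: almost every circle has finite integral. -/
theorem polar_ae (c : ℂ) (f : ℂ → ℝ≥0∞) (hf : Measurable f) (hfin : ∫⁻ z, f z ≠ ⊤) :
    ∀ᵐ r : ℝ, 0 < r → ∫⁻ θ in Ioo (-Real.pi) Real.pi, f (circleMap c r θ) < ⊤ := by
  have h1 : ∫⁻ z, f (c + z) = ∫⁻ z, f z := lintegral_add_left_eq_self f c
  have h2 := Complex.lintegral_comp_polarCoord_symm (fun z => f (c + z))
  have hcm : ∀ p : ℝ × ℝ, c + Complex.polarCoord.symm p = circleMap c p.1 p.2 := by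
    intro p
    rw [Complex.polarCoord_symm_apply, circleMap, Complex.exp_mul_I]
    push_cast
    rfl
  simp only [hcm] at h2
  have hm : Measurable (fun p : ℝ × ℝ => f (circleMap c p.1 p.2)) := by
    refine hf.comp (Continuous.measurable ?_)
    unfold circleMap
    fun_prop
  have hm2 : Measurable (fun p : ℝ × ℝ =>
      ENNReal.ofReal p.1 • f (circleMap c p.1 p.2)) :=
    (measurable_fst.ennreal_ofReal).smul hm
  rw [polarCoord_target, Measure.volume_eq_prod, ← Measure.prod_restrict,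
    lintegral_prod _ hm2.aemeasurable] at h2
  have h3 := ae_lt_top' (μ := volume.restrict (Ioi (0:ℝ)))
    (hm2.lintegral_prod_right' (ν := volume.restrict (Ioo (-Real.pi) Real.pi))).aemeasurable
    (by rw [h2, h1]; exact hfin)
  rw [ae_restrict_iff' measurableSet_Ioi] at h3
  filter_upwards [h3] with r hr h0
  have h4 := hr h0
  simp only [smul_eq_mul] at h4
  rw [lintegral_const_mul' _ _ ENNReal.ofReal_ne_top] at h4
  have h5 : ENNReal.ofReal r ≠ 0 := by simpa using h0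
  by_contra hcon
  rw [not_lt, top_le_iff] at hcon
  rw [hcon, ENNReal.mul_top h5] at h4
  exact lt_irrefl _ h4

/-- the one-dimensional argument on a fixed circle. -/
theorem circle_arg {c : ℂ} {R : ℝ} {k : ℕ} {S : ℂ → Multiset ℂ} (hk : 2 ≤ k)
    (card : ∀ z ∈ ball c R, (S z).card = k)
    (cont : ∀ z ∈ ball c R, ∀ ε > 0, ∀ᶠ z' in 𝓝 z, Near ε (S z) (S z'))
    (hopen : IsOpen (Usimp c R S))
    (hsel : ∀ z₀ ∈ Usimp c R S, ∃ (r : ℝ) (w : Fin k → ℂ → ℂ), 0 < r ∧
      (∀ i, ContDiffOn ℝ ∞ (w i) (ball z₀ r)) ∧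
      (∀ z ∈ ball z₀ r, Function.Injective (fun i => w i z)) ∧
      (∀ z ∈ ball z₀ r, S z = Multiset.map (fun i => w i z) Finset.univ.val) ∧
      (∀ z ∈ ball z₀ r, ∀ i, slope S z (w i z) = fderiv ℝ (w i) z))
    (hbd : ∀ z ∈ ball c R, ∀ a ∈ S z, ∀ b ∈ S z, ‖a - b‖ ≤ Real.exp (-1))
    (r : ℝ) (hr0 : 0 < r) (hrR : r < R)
    (hZ : ∀ z, dist z c = r → ¬ (S z).Nodup → AllEq S z)
    (hint : IntervalIntegrable (fun t => psum S (fun _ a b A B => ‖pdL a b A B‖ ^ 2 / pv a b ^ 2)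
      (circleMap c r t)) volume (-Real.pi) Real.pi)
    (hone : ∃ t, (S (circleMap c r t)).Nodup) :
    ∀ z, dist z c = r → (S z).Nodup := by
  classical
  intro z₁ hz₁
  by_contra hnd
  have hdist : ∀ t, dist (circleMap c r t) c = r := by
    intro t
    rw [dist_eq_norm]
    simp [circleMap, abs_of_pos hr0]
  have hball : ∀ t, circleMap c r t ∈ ball c R := by
    intro t
    rw [mem_ball, hdist]
    exact hrR
  let T : Set ℝ := {t | circleMap c r t ∉ Usimp c R S}
  have hTc : IsClosed T := (hopen.preimage (continuous_circleMap c r)).isClosed_compl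
  obtain ⟨t1, ht1⟩ := hone
  have ht1T : t1 ∉ T := fun h => h ⟨hball t1, ht1⟩
  obtain ⟨θ, hθ⟩ : ∃ θ, circleMap c r θ = z₁ := by
    have : z₁ ∈ range (circleMap c r) := by
      rw [range_circleMap, abs_of_pos hr0]
      exact hz₁
    exact this
  have hπ : 0 < 2 * Real.pi := by positivity
  obtain ⟨θ', hθ', hge⟩ : ∃ θ', circleMap c r θ' = z₁ ∧ t1 ≤ θ' := by
    obtain ⟨n, hn⟩ := exists_nat_ge ((t1 - θ) / (2 * Real.pi))
    refine ⟨θ + n * (2 * Real.pi), ?_, ?_⟩
    · rw [(periodic_circleMap c r).nat_mul n θ]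
      exact hθ
    · rw [div_le_iff₀ hπ] at hn
      linarith
  have hne : (T ∩ Ici t1).Nonempty := by
    refine ⟨θ', ?_, hge⟩
    intro h
    rw [hθ'] at h
    exact hnd h.2
  have hbdd : BddBelow (T ∩ Ici t1) := ⟨t1, fun x hx => hx.2⟩
  set t2 := sInf (T ∩ Ici t1) with ht2def
  have ht2 : t2 ∈ T ∩ Ici t1 := (hTc.inter isClosed_Ici).csInf_mem hne hbdd
  have h12 : t1 < t2 := lt_of_le_of_ne ht2.2 (fun h => ht1T (h ▸ ht2.1))
  have hno : ∀ t ∈ Ico t1 t2, circleMap c r t ∈ Usimp c R S := by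
    intro t ht
    by_contra hT
    exact absurd (csInf_le hbdd ⟨hT, ht.1⟩) (not_le.mpr ht.2)
  set φ : ℝ → ℝ := fun s => r * ((k : ℝ) ^ 2 +
    psum S (fun _ a b A B => ‖pdL a b A B‖ ^ 2 / pv a b ^ 2) (circleMap c r s)) with hφ
  set h : ℝ → ℝ := fun s => psum S (fun _ a b _ _ => Real.log (pv a b)) (circleMap c r s) with hh
  have hψint : ∀ a b : ℝ, IntervalIntegrable (fun t => psum S
      (fun _ a b A B => ‖pdL a b A B‖ ^ 2 / pv a b ^ 2) (circleMap c r t)) volume a b := by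
    intro a b
    have hper : Function.Periodic (fun t => psum S
      (fun _ a b A B => ‖pdL a b A B‖ ^ 2 / pv a b ^ 2) (circleMap c r t)) (2 * Real.pi) := by
      intro t
      simp only [(periodic_circleMap c r) t]
    refine hper.intervalIntegrable hπ.ne' (t := -Real.pi) ?_ a b
    have : -Real.pi + 2 * Real.pi = Real.pi := by ring
    rw [this]
    exact hint
  have hφint : ∀ a b : ℝ, IntervalIntegrable φ volume a b := fun a b =>
    (intervalIntegrable_const.add (hψint a b)).const_mul r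
  have hψ0 : ∀ z, 0 ≤ psum S (fun _ a b A B => ‖pdL a b A B‖ ^ 2 / pv a b ^ 2) z := by
    intro z
    unfold psum
    split_ifs
    · exact Finset.sum_nonneg fun q _ => by positivity
    · exact le_rfl
  have hφ0 : ∀ s, 0 ≤ φ s := by
    intro s
    have := hψ0 (circleMap c r s)
    simp only [hφ]
    positivity
  have hder : ∀ x ∈ Ico t1 t2, ∃ d, HasDerivAt h d x ∧ d ≤ φ x := by
    intro x hx
    refine deriv_h (hasDerivAt_circleMap c r x) ?_ (hsel _ (hno x hx)) (hbd _ (hball x))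
    simp [abs_of_pos hr0]
  choose! d hd1 hd2 using hder
  have hbound : ∀ t ∈ Ioo t1 t2, h t ≤ h t1 + ∫ s in t1..t2, φ s := by
    intro t ht
    have h1 := intervalIntegral.sub_le_integral_of_hasDeriv_right_of_le (g := h) (g' := d) (φ := φ)
      ht.1.le
      (fun x hx => (hd1 x ⟨hx.1, hx.2.trans_lt ht.2⟩).continuousAt.continuousWithinAt)
      (fun x hx => (hd1 x ⟨hx.1.le, hx.2.trans ht.2⟩).hasDerivWithinAt)
      ((intervalIntegrable_iff_integrableOn_Icc_of_le ht.1.le).mp (hφint _ _))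
      (fun x hx => hd2 x ⟨hx.1.le, hx.2.trans ht.2⟩)
    have h2 : ∫ s in t1..t, φ s ≤ ∫ s in t1..t2, φ s := by
      refine intervalIntegral.integral_mono_interval le_rfl ht.1.le ht.2.le ?_ (hφint _ _)
      exact Eventually.of_forall hφ0
    linarith
  set M := h t1 + ∫ s in t1..t2, φ s with hM
  -- all sheets merge at `t2`
  have hall : AllEq S (circleMap c r t2) := by
    refine hZ _ (hdist t2) fun hn => ht2.1 ⟨hball t2, hn⟩
  have hev : ∀ᶠ t in 𝓝 t2, Near (Real.exp (-Real.exp M) / 2) (S (circleMap c r t2))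
      (S (circleMap c r t)) :=
    (continuous_circleMap c r).continuousAt.eventually
      (cont _ (hball t2) (Real.exp (-Real.exp M) / 2) (by positivity))
  obtain ⟨t, ht, hnear⟩ := ((eventually_of_mem (Ioo_mem_nhdsLT h12) fun _ h => h).and
    (hev.filter_mono nhdsWithin_le_nhds)).exists
  have hUt : circleMap c r t ∈ Usimp c R S := hno t ⟨ht.1.le, ht.2⟩
  have hclose : ∀ b ∈ S (circleMap c r t), ∀ b' ∈ S (circleMap c r t),
      ‖b - b'‖ < Real.exp (-Real.exp M) := by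
    intro b hb b' hb'
    have hfl := Multiset.rel_flip.mpr hnear
    obtain ⟨a, ha, hab⟩ := Multiset.exists_mem_of_rel_of_mem hfl hb
    obtain ⟨a', ha', hab'⟩ := Multiset.exists_mem_of_rel_of_mem hfl hb'
    have : a = a' := hall a ha a' ha'
    subst this
    simp only [flip] at hab hab'
    rw [← dist_eq_norm]
    calc dist b b' ≤ dist a b + dist a b' := dist_triangle_left _ _ _
      _ < _ := by linarith
  have hcard := card _ (hball t)
  have hcard2 : 1 < (S (circleMap c r t)).toFinset.card := by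
    rw [Multiset.toFinset_card_of_nodup hUt.2, hcard]
    exact hk
  obtain ⟨b, hb, b', hb', hbb⟩ := Finset.one_lt_card.mp hcard2
  have hlog : ∀ q ∈ (S (circleMap c r t)).toFinset.offDiag, M < Real.log (pv q.1 q.2) := by
    intro q hq
    simp only [Finset.mem_offDiag, Multiset.mem_toFinset] at hq
    have h1 := hclose _ hq.1 _ hq.2.1
    have h2 : 0 < ‖q.1 - q.2‖ := norm_pos_iff.mpr (sub_ne_zero.mpr hq.2.2)
    have h3 := Real.log_lt_log h2 h1
    rw [Real.log_exp] at h3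
    have h4 : Real.exp M < pv q.1 q.2 := by
      unfold pv
      linarith
    exact (Real.lt_log_iff_exp_lt ((Real.exp_pos M).trans h4)).mpr h4
  have hlog0 : ∀ q ∈ (S (circleMap c r t)).toFinset.offDiag, 0 ≤ Real.log (pv q.1 q.2) := by
    intro q hq
    simp only [Finset.mem_offDiag, Multiset.mem_toFinset] at hq
    have h1 := hbd _ (hball t) _ hq.1 _ hq.2.1
    have h2 : 0 < ‖q.1 - q.2‖ := norm_pos_iff.mpr (sub_ne_zero.mpr hq.2.2)
    have h3 := Real.log_le_log h2 h1
    rw [Real.log_exp] at h3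
    refine Real.log_nonneg ?_
    unfold pv
    linarith
  have hfin : M < h t := by
    have h1 : h t = ∑ q ∈ (S (circleMap c r t)).toFinset.offDiag, Real.log (pv q.1 q.2) := by
      simp only [hh, psum]
      rw [if_pos hUt.2]
    rw [h1]
    have hmem : (b, b') ∈ (S (circleMap c r t)).toFinset.offDiag :=
      Finset.mem_offDiag.mpr ⟨hb, hb', hbb⟩
    exact (hlog _ hmem).trans_le (Finset.single_le_sum
      (f := fun q : ℂ × ℂ => Real.log (pv q.1 q.2)) hlog0 hmem)
  exact absurd (hbound t ht) (not_le.mpr hfin)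

/-- `psum` of the energy density is continuous on the simple points. -/
theorem psum_cont (h6 : PSC) {μ β : ℂ × ℂ → ℂ} {κ L : ℝ} (hB : BoxD μ β κ L)
    {c : ℂ} {R : ℝ} {k : ℕ} {S : ℂ → Multiset ℂ} {e : ℂ → ℝ} (hK : KG μ β c R k S e)
    (hbd : ∀ z ∈ ball c R, ∀ a ∈ S z, ∀ b ∈ S z, ‖a - b‖ ≤ Real.exp (-1)) :
    ContinuousOn (psum S (fun _ a b A B => ‖pdL a b A B‖ ^ 2 / pv a b ^ 2)) (Usimp c R S) := by
  have h1 := h6 μ β κ L hB c R k S e hK
    (fun _ a b A B => ‖pdL a b A B‖ ^ 2 / (max (pv a b) 1) ^ 2) ?_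
  · refine h1.congr fun z hz => ?_
    unfold psum
    rw [if_pos hz.2, if_pos hz.2]
    refine Finset.sum_congr rfl fun q hq => ?_
    simp only [Finset.mem_offDiag, Multiset.mem_toFinset] at hq
    have h1 := hbd _ hz.1 _ hq.1 _ hq.2.1
    have h2 : 0 < ‖q.1 - q.2‖ := norm_pos_iff.mpr (sub_ne_zero.mpr hq.2.2)
    have h3 := Real.log_le_log h2 h1
    rw [Real.log_exp] at h3
    have h4 : 1 ≤ pv q.1 q.2 := by
      unfold pv
      linarith
    simp only [max_eq_left h4]
  · unfold pdL pv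
    intro q hq
    have hq' : q.2.1 - q.2.2.1 ≠ 0 := sub_ne_zero.mpr hq.2
    refine ContinuousAt.continuousWithinAt ?_
    have ha : ContinuousAt (fun q : ℂ × ℂ × ℂ × (ℂ →L[ℝ] ℂ) × (ℂ →L[ℝ] ℂ) => q.2.1 - q.2.2.1) q := by
      fun_prop
    have hA : ContinuousAt (fun q : ℂ × ℂ × ℂ × (ℂ →L[ℝ] ℂ) × (ℂ →L[ℝ] ℂ) =>
        q.2.2.2.1 - q.2.2.2.2) q := by
      fun_prop
    refine ContinuousAt.div (((ha.inv₀ hq').smul hA).norm.pow 2) ?_ ?_
    · exact (((ha.norm.log (norm_ne_zero_iff.mpr hq')).neg).max continuousAt_const).pow 2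
    · have : (0:ℝ) < max (-Real.log ‖q.2.1 - q.2.2.1‖) 1 := lt_max_of_lt_right one_pos
      positivity

/-- **LOC-8.** -/
theorem circ_of (h : LOGV) (h1 : SEL) (h6 : PSC) : CIRC := by
  classical
  intro μ β κ L hB c R k S e hK hD hbd
  rcases Nat.lt_or_ge k 2 with hk | hk
  · refine Eventually.of_forall fun r _ hrR z hz => ?_
    have hz' : z ∈ ball c R := by
      rw [mem_ball, hz]
      exact hrR
    have hc := hK.card z hz'
    have : (S z).card ≤ 1 := by omega
    rcases Nat.le_one_iff_eq_zero_or_eq_one.mp this with h0 | h0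
    · rw [Multiset.card_eq_zero.mp h0]
      exact Multiset.nodup_zero
    · obtain ⟨a, ha⟩ := Multiset.card_eq_one.mp h0
      rw [ha]
      exact Multiset.nodup_singleton a
  obtain ⟨hopen, hsel⟩ := h1 μ β κ L hB c R k S e hK
  -- the countable part
  let D : Set ℂ := {z | z ∈ ball c R ∧ ¬ (S z).Nodup ∧ ¬ AllEq S z}
  have hDc : D.Countable := by
    have hdisc : DiscreteTopology D := by
      rw [discreteTopology_subtype_iff]
      intro x hx
      have h2 : ∀ᶠ z in 𝓝[≠] x, (S z).Nodup := hD x hx.1 hx.2.2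
      rw [← Filter.empty_mem_iff_bot]
      have h3 : {z | (S z).Nodup} ∩ D ∈ 𝓝[≠] x ⊓ 𝓟 D :=
        inter_mem_inf h2 (mem_principal_self D)
      have h4 : {z | (S z).Nodup} ∩ D = ∅ := by
        ext z
        simp only [mem_inter_iff, mem_ofPred_eq, mem_empty_iff_false, iff_false]
        rintro ⟨h5, h6⟩
        exact h6.2.1 h5
      rwa [h4] at h3
    exact Set.countable_coe_iff.mp (TopologicalSpace.separableSpace_iff_countable.mp inferInstance)
  have ae1 : ∀ᵐ r : ℝ, r ∉ (fun z => dist z c) '' D := (hDc.image _).ae_notMem volume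
  -- the energy
  set ψ : ℂ → ℝ := psum S (fun _ a b A B => ‖pdL a b A B‖ ^ 2 / pv a b ^ 2) with hψ
  have hψc : ContinuousOn ψ (Usimp c R S) := psum_cont h6 hB hK hbd
  have hψm : Measurable ((Usimp c R S).indicator ψ) := by
    rw [← Set.piecewise_eq_indicator]
    exact hψc.measurable_piecewise continuousOn_const hopen.measurableSet
  have hψe : ∀ z ∈ ball c R, (Usimp c R S).indicator ψ z = ψ z := by
    intro z hz
    by_cases hn : (S z).Nodup
    · exact indicator_of_mem (show z ∈ Usimp c R S from ⟨hz, hn⟩) _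
    · rw [indicator_of_notMem (fun h => hn h.2)]
      simp only [hψ, psum, if_neg hn]
  have ae2 : ∀ᵐ r : ℝ, ∀ n : ℕ, 0 < r → ∫⁻ θ in Ioo (-Real.pi) Real.pi,
      (ball c (R - 1 / ((n:ℝ) + 1))).indicator (fun z => ‖(Usimp c R S).indicator ψ z‖ₑ)
        (circleMap c r θ) < ⊤ := by
    rw [ae_all_iff]
    intro n
    refine polar_ae c _ (hψm.enorm.indicator measurableSet_ball) ?_
    rw [lintegral_indicator measurableSet_ball]
    have hlt : R - 1 / ((n:ℝ) + 1) < R := by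
      have : 0 < 1 / ((n:ℝ) + 1) := by positivity
      linarith
    have hi := h μ β κ L hB c R k S e hK hD hbd _ hlt
    have h2 := hi.hasFiniteIntegral
    refine ne_of_lt (lt_of_le_of_lt (le_of_eq ?_) h2)
    refine setLIntegral_congr_fun measurableSet_ball fun z hz => ?_
    rw [hψe z (ball_subset_ball hlt.le hz)]
  -- simple points on almost every circle
  have hDm : MeasurableSet (Del c R S) := by
    have : Del c R S = ball c R \ Usimp c R S := by
      ext z
      simp only [Del, Usimp, Set.mem_sdiff, mem_ofPred_eq]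
      tauto
    rw [this]
    exact measurableSet_ball.diff hopen.measurableSet
  have ae3 : ∀ᵐ r : ℝ, 0 < r → ∫⁻ θ in Ioo (-Real.pi) Real.pi,
      (Del c R S).indicator (fun _ => (⊤ : ℝ≥0∞)) (circleMap c r θ) < ⊤ := by
    refine polar_ae c _ (measurable_const.indicator hDm) ?_
    rw [lintegral_indicator hDm, setLIntegral_const]
    have : volume (Del c R S) = 0 := hK.null
    rw [this]
    simp
  filter_upwards [ae1, ae2, ae3] with r hr1 hr2 hr3 hr0 hrR
  have hdist : ∀ t, dist (circleMap c r t) c = r := by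
    intro t
    rw [dist_eq_norm]
    simp [circleMap, abs_of_pos hr0]
  have hball : ∀ t, circleMap c r t ∈ ball c R := by
    intro t
    rw [mem_ball, hdist]
    exact hrR
  refine circle_arg hk hK.card hK.cont hopen ?_ hbd r hr0 hrR ?_ ?_ ?_
  · intro z₀ hz₀
    obtain ⟨ρ, w, hρ, _, _, h2, h3, h4, h5⟩ := hsel z₀ hz₀
    exact ⟨ρ, w, hρ, h2, h3, h4, h5⟩
  · intro z hz hn
    by_contra hall
    refine hr1 ⟨z, ⟨?_, hn, hall⟩, hz⟩
    rw [mem_ball, hz]
    exact hrR
  · obtain ⟨n, hn⟩ := exists_nat_one_div_lt (sub_pos.mpr hrR)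
    have hlt : r < R - 1 / ((n:ℝ) + 1) := by linarith
    have h2 := hr2 n hr0
    rw [intervalIntegrable_iff_integrableOn_Ioo_of_le (by linarith [Real.pi_pos])]
    have h3 : (fun t => ψ (circleMap c r t)) =
        fun t => (Usimp c R S).indicator ψ (circleMap c r t) := by
      funext t
      exact (hψe _ (hball t)).symm
    refine ⟨?_, ?_⟩
    · rw [h3]
      exact (hψm.comp (continuous_circleMap c r).measurable).aestronglyMeasurable
    · refine lt_of_le_of_lt (le_of_eq ?_) h2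
      refine lintegral_congr fun θ => ?_
      rw [indicator_of_mem (by rw [mem_ball, hdist]; exact hlt), hψe _ (hball θ)]
  · by_contra hno
    push Not at hno
    have h2 := hr3 hr0
    have h3 : ∀ θ, (Del c R S).indicator (fun _ => (⊤ : ℝ≥0∞)) (circleMap c r θ) = ⊤ :=
      fun θ => indicator_of_mem (show circleMap c r θ ∈ Del c R S from ⟨hball θ, hno θ⟩) _
    simp only [h3] at h2
    rw [setLIntegral_const, Real.volume_Ioo] at h2
    have h4 : ENNReal.ofReal (Real.pi - -Real.pi) ≠ 0 := by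
      simp only [ne_eq, ENNReal.ofReal_eq_zero, not_le]
      linarith [Real.pi_pos]
    rw [ENNReal.top_mul h4] at h2
    exact lt_irrefl _ h2

end

end Crest.Agent.R235.LocCirc_891
end

-- ▼ part R235/LocCut_872
section

/-!
Row 235 (S0364), PACKAGE REG, LOC-9a: radial cut-offs with a simple annulus at every scale
(`cut_of : CIRC → CUT`), and existence of a smooth truncation `Chi`.
-/

set_option autoImplicit false

open MeasureTheory Metric Set Filter Complex
open scoped ContDiff Topology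

namespace Crest.Agent.R235.Loc

/-- a smooth truncation exists. -/
theorem exists_chi : ∃ χ : ℝ → ℝ, Chi χ := by
  refine ⟨fun t => Real.smoothTransition (2 - t), ?_, ?_, ?_, ?_⟩
  · exact Real.smoothTransition.contDiff.comp (contDiff_const.sub contDiff_id)
  · intro t ht
    exact Real.smoothTransition.one_of_one_le (by linarith)
  · intro t ht
    exact Real.smoothTransition.zero_of_nonpos (by linarith)
  · intro s t hst
    exact Real.smoothTransition.monotone (by linarith)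

/-- multisets near a simple multiset are simple. -/
theorem nodup_of_near {ε : ℝ} {s t : Multiset ℂ} (h : Near ε s t) (hs : s.Nodup)
    (hε : ∀ a ∈ s, ∀ b ∈ s, a ≠ b → 2 * ε ≤ dist a b) : t.Nodup := by
  unfold Near at h
  induction h with
  | zero => exact Multiset.nodup_zero
  | @cons a b as bs hab hrel ih =>
    rw [Multiset.nodup_cons] at hs ⊢
    refine ⟨?_, ih hs.2 (fun x hx y hy hxy => hε x (Multiset.mem_cons_of_mem hx) y
      (Multiset.mem_cons_of_mem hy) hxy)⟩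
    intro hb
    obtain ⟨a', ha', hr⟩ := Multiset.exists_mem_of_rel_of_mem (Multiset.rel_flip.2 hrel) hb
    have hr' : dist a' b < ε := hr
    have hne : a ≠ a' := by
      rintro rfl
      exact hs.1 ha'
    have h1 := hε a (Multiset.mem_cons_self a as) a' (Multiset.mem_cons_of_mem ha') hne
    have h2 : dist a a' ≤ dist a b + dist a' b := dist_triangle_right a a' b
    linarith

/-- the distinct elements of a multiset are uniformly separated. -/
theorem exists_sep (s : Multiset ℂ) :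
    ∃ ε : ℝ, 0 < ε ∧ ∀ a ∈ s, ∀ b ∈ s, a ≠ b → 2 * ε ≤ dist a b := by
  classical
  rcases (s.toFinset.offDiag).eq_empty_or_nonempty with h0 | h0
  · refine ⟨1, one_pos, fun a ha b hb hab => ?_⟩
    have : (a, b) ∈ s.toFinset.offDiag := by simp [ha, hb, hab]
    rw [h0] at this
    simp at this
  · obtain ⟨q, hq, hmin⟩ := Finset.exists_min_image s.toFinset.offDiag
      (fun q => dist q.1 q.2) h0
    have hq' : q.1 ≠ q.2 := (Finset.mem_offDiag.1 hq).2.2
    refine ⟨dist q.1 q.2 / 2, half_pos (dist_pos.2 hq'), fun a ha b hb hab => ?_⟩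
    have h1 := hmin (a, b) (by simp [ha, hb, hab])
    simp only at h1
    linarith

/-- the simple points are open. -/
theorem isOpen_Usimp {c : ℂ} {R : ℝ} {S : ℂ → Multiset ℂ}
    (hc : ∀ z ∈ ball c R, ∀ ε > 0, ∀ᶠ z' in 𝓝 z, Near ε (S z) (S z')) :
    IsOpen (Usimp c R S) := by
  rw [isOpen_iff_mem_nhds]
  rintro z ⟨hz, hn⟩
  obtain ⟨ε, hε, hsep⟩ := exists_sep (S z)
  filter_upwards [isOpen_ball.mem_nhds hz, hc z hz ε hε] with z' h1 h2
  exact ⟨h1, nodup_of_near h2 hn hsep⟩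

/-- **LOC-9a.** -/
theorem cut_of (h : CIRC) : CUT := by
  intro μ β κ L hB c R k S e hKG hD hexp r hr hrR
  have hopen : IsOpen (Usimp c R S) := isOpen_Usimp hKG.cont
  -- a good radius
  obtain ⟨ρ, hρ, hgood⟩ : ∃ ρ ∈ Ioo (0:ℝ) r, 0 < ρ → ρ < R → ∀ z, dist z c = ρ → (S z).Nodup := by
    have hae := h μ β κ L hB c R k S e hKG hD hexp
    by_contra hcon
    push Not at hcon
    have hsub : Ioo (0:ℝ) r ⊆ {ρ : ℝ | ¬ (0 < ρ → ρ < R → ∀ z, dist z c = ρ → (S z).Nodup)} := by
      intro ρ hρ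
      simp only [mem_ofPred_eq]
      push Not
      exact hcon ρ hρ
    have h0 : volume (Ioo (0:ℝ) r) = 0 :=
      measure_mono_null hsub (ae_iff.1 hae)
    rw [Real.volume_Ioo] at h0
    simp at h0
    linarith
  have hρR : ρ < R := lt_of_lt_of_le hρ.2 hrR
  have hsph : sphere c ρ ⊆ Usimp c R S := by
    intro z hz
    have hz' : dist z c = ρ := hz
    exact ⟨by rw [mem_ball, hz']; exact hρR, hgood hρ.1 hρR z hz'⟩
  obtain ⟨δ, hδ, hth⟩ := (isCompact_sphere c ρ).exists_thickening_subset_open hopen hsph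
  -- the half-width of the annulus
  set d : ℝ := min (δ / 2) (min (ρ / 2) ((r - ρ) / 2)) with hd
  have hrρ : 0 < r - ρ := by linarith [hρ.2]
  have hd0 : 0 < d := by
    simp only [hd, lt_min_iff]
    refine ⟨by linarith, by linarith [hρ.1], by linarith⟩
  have hd1 : d ≤ δ / 2 := min_le_left _ _
  have hd2 : d ≤ ρ / 2 := (min_le_right _ _).trans (min_le_left _ _)
  have hd3 : d ≤ (r - ρ) / 2 := (min_le_right _ _).trans (min_le_right _ _)
  have hR1 : 0 < ρ - d := by linarith [hρ.1]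
  have hlt : ρ - d < ρ + d := by linarith
  have hsq : 0 < (ρ + d) ^ 2 - (ρ - d) ^ 2 := by nlinarith [hρ.1]
  have hsimple : ∀ z, ρ - d ≤ dist z c → dist z c ≤ ρ + d → (S z).Nodup := by
    intro z h1 h2
    have hn : 0 < dist z c := lt_of_lt_of_le hR1 h1
    have hn' : 0 < ‖z - c‖ := by rwa [← dist_eq_norm]
    refine (hth ?_ : z ∈ Usimp c R S).2
    rw [mem_thickening_iff]
    refine ⟨c + ((ρ / ‖z - c‖ : ℝ) : ℂ) * (z - c), ?_, ?_⟩
    · rw [mem_sphere, dist_eq_norm, add_sub_cancel_left, norm_mul, Complex.norm_real,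
        Real.norm_of_nonneg (div_nonneg hρ.1.le hn'.le), div_mul_cancel₀ _ hn'.ne']
    · have e1 : z - (c + ((ρ / ‖z - c‖ : ℝ) : ℂ) * (z - c))
          = ((1 - ρ / ‖z - c‖ : ℝ) : ℂ) * (z - c) := by
        push_cast
        ring
      rw [dist_eq_norm, e1, norm_mul, Complex.norm_real, Real.norm_eq_abs]
      have e2 : |1 - ρ / ‖z - c‖| * ‖z - c‖ = |‖z - c‖ - ρ| := by
        rw [← abs_of_pos hn', ← abs_mul, abs_of_pos hn']
        congr 1
        field_simp
      rw [e2, ← dist_eq_norm, abs_lt]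
      constructor <;> linarith
  refine ⟨ρ - d, ρ + d, fun z => Real.smoothTransition (((ρ + d) ^ 2 - ‖z - c‖ ^ 2) /
    ((ρ + d) ^ 2 - (ρ - d) ^ 2)), by linarith, ?_⟩
  refine ⟨hR1, hlt, by linarith, ?_, ?_, ?_, ?_, ?_, ?_, hsimple⟩
  · have h1 : ContDiff ℝ ∞ (fun z : ℂ => ‖z - c‖ ^ 2) :=
      (contDiff_id.sub contDiff_const).norm_sq ℝ
    exact Real.smoothTransition.contDiff.comp ((contDiff_const.sub h1).div_const _)
  · intro z hz
    have hz' : ‖z - c‖ ≤ ρ - d := by rwa [mem_closedBall, dist_eq_norm] at hz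
    apply Real.smoothTransition.one_of_one_le
    rw [le_div_iff₀ hsq]
    nlinarith [norm_nonneg (z - c)]
  · intro z hz
    have hz' : ρ + d ≤ ‖z - c‖ := by
      rw [mem_ball, dist_eq_norm, not_lt] at hz
      exact hz
    apply Real.smoothTransition.zero_of_nonpos
    apply div_nonpos_of_nonpos_of_nonneg _ hsq.le
    nlinarith [norm_nonneg (z - c), hρ.1]
  · intro z
    exact Real.smoothTransition.nonneg _
  · intro z
    exact Real.smoothTransition.le_one _
  · refine ⟨fun t => Real.smoothTransition (((ρ + d) ^ 2 - t) /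
      ((ρ + d) ^ 2 - (ρ - d) ^ 2)), ?_, fun z => rfl⟩
    exact Real.smoothTransition.contDiff.comp ((contDiff_const.sub contDiff_id).div_const _)

end Crest.Agent.R235.Loc
end

-- ▼ part R235/LocFlux_366
section

/-!
Row 235 (S0364), REG-LOC, task 223: LOC-9b (B), the flux identities.
-/

set_option autoImplicit false

open MeasureTheory Metric Set Filter Complex
open scoped ContDiff Topology

namespace Crest.Agent.R235.LocFlux

open Crest.Agent.R235.Loc

noncomputable section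

section psum

variable {S : ℂ → Multiset ℂ}
variable {G H : ℂ → ℂ → ℂ → (ℂ →L[ℝ] ℂ) → (ℂ →L[ℝ] ℂ) → ℝ} {z : ℂ}

theorem psum_neg : psum S (fun z a b A B => - G z a b A B) z = - psum S G z := by
  unfold psum
  split_ifs
  · rw [Finset.sum_neg_distrib]
  · simp

theorem psum_sub : psum S (fun z a b A B => G z a b A B - H z a b A B) z =
    psum S G z - psum S H z := by
  unfold psum
  split_ifs
  · rw [Finset.sum_sub_distrib]
  · simp

theorem psum_mul (r : ℝ) : psum S (fun z a b A B => r * G z a b A B) z = r * psum S G z := by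
  unfold psum
  split_ifs
  · rw [Finset.mul_sum]
  · simp

/-- two pair functions which agree on the distinct pairs of sheets have the same sums. -/
theorem psum_congr (h : (S z).Nodup → ∀ a ∈ S z, ∀ b ∈ S z, a ≠ b →
      G z a b (slope S z a) (slope S z b) = H z a b (slope S z a) (slope S z b)) :
    psum S G z = psum S H z := by
  classical
  unfold psum
  split_ifs with hN
  · refine Finset.sum_congr rfl fun q hq => ?_
    rw [Finset.mem_offDiag] at hq
    exact h hN _ (Multiset.mem_toFinset.1 hq.1) _ (Multiset.mem_toFinset.1 hq.2.1) hq.2.2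
  · rfl

theorem psum_eq_zero (h : ∀ a b A B, G z a b A B = 0) : psum S G z = 0 := by
  unfold psum
  split_ifs
  · exact Finset.sum_eq_zero fun q _ => h _ _ _ _
  · rfl

/-- one term is bounded by the pair sum. -/
theorem le_psum (h0 : ∀ a b A B, 0 ≤ G z a b A B) (hN : (S z).Nodup) {a b : ℂ} (ha : a ∈ S z)
    (hb : b ∈ S z) (hab : a ≠ b) : G z a b (slope S z a) (slope S z b) ≤ psum S G z := by
  classical
  unfold psum
  rw [if_pos hN]
  have hq : (a, b) ∈ (S z).toFinset.offDiag :=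
    Finset.mem_offDiag.2 ⟨Multiset.mem_toFinset.2 ha, Multiset.mem_toFinset.2 hb, hab⟩
  exact Finset.single_le_sum
    (f := fun q : ℂ × ℂ => G z q.1 q.2 (slope S z q.1) (slope S z q.2))
    (fun q _ => h0 _ _ _ _) hq

/-- lower bound of a pair sum. -/
theorem psum_ge {k : ℕ} {C : ℝ} (hC : 0 ≤ C) (hk : (S z).card = k)
    (h : (S z).Nodup → ∀ a ∈ S z, ∀ b ∈ S z, a ≠ b →
      - C ≤ G z a b (slope S z a) (slope S z b)) : - (C * (k : ℝ) ^ 2) ≤ psum S G z := by
  classical
  unfold psum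
  split_ifs with hN
  · have h1 : ∑ _q ∈ (S z).toFinset.offDiag, (- C) ≤
        ∑ q ∈ (S z).toFinset.offDiag, G z q.1 q.2 (slope S z q.1) (slope S z q.2) := by
      refine Finset.sum_le_sum fun q hq => ?_
      rw [Finset.mem_offDiag] at hq
      exact h hN _ (Multiset.mem_toFinset.1 hq.1) _ (Multiset.mem_toFinset.1 hq.2.1) hq.2.2
    refine le_trans ?_ h1
    rw [Finset.sum_const, nsmul_eq_mul]
    have h2 : ((S z).toFinset.offDiag.card : ℝ) ≤ (k : ℝ) ^ 2 := by
      have h3 : (S z).toFinset.card = k := by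
        rw [Multiset.toFinset_card_of_nodup hN, hk]
      have h4 : (S z).toFinset.offDiag.card ≤ k ^ 2 := by
        rw [Finset.offDiag_card, h3, sq]
        exact Nat.sub_le _ _
      exact_mod_cast h4
    nlinarith
  · have : 0 ≤ C * (k : ℝ) ^ 2 := mul_nonneg hC (sq_nonneg _)
    linarith

end psum

section cut

variable {c : ℂ} {R R₁ R₂ : ℝ} {S : ℂ → Multiset ℂ} {η : ℂ → ℝ}

/-- the closed annulus -/
def ann (c : ℂ) (R₁ R₂ : ℝ) : Set ℂ := {z | R₁ ≤ dist z c ∧ dist z c ≤ R₂}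

theorem isCompact_ann : IsCompact (ann c R₁ R₂) := by
  refine (isCompact_closedBall c R₂).of_isClosed_subset ?_ fun z hz => ?_
  · exact (isClosed_le continuous_const (continuous_id.dist continuous_const)).inter
      (isClosed_le (continuous_id.dist continuous_const) continuous_const)
  · exact mem_closedBall.2 hz.2

theorem ann_subset (h : Cut c R S R₁ R₂ η) : ann c R₁ R₂ ⊆ Usimp c R S := fun z hz =>
  ⟨mem_ball.2 (hz.2.trans_lt h.lt'), h.simple z hz.1 hz.2⟩

theorem fderiv_eq_zero (h : Cut c R S R₁ R₂ η) {z : ℂ} (hz : z ∉ ann c R₁ R₂) :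
    fderiv ℝ η z = 0 := by
  by_cases h1 : dist z c < R₁
  · have h2 : η =ᶠ[𝓝 z] fun _ => (1 : ℝ) := by
      filter_upwards [isOpen_ball.mem_nhds (mem_ball.2 h1)] with y hy
      exact h.one y (ball_subset_closedBall hy)
    rw [h2.fderiv_eq]
    simp
  · have h3 : R₂ < dist z c := by
      by_contra h4
      exact hz ⟨not_lt.1 h1, not_lt.1 h4⟩
    have h2 : η =ᶠ[𝓝 z] fun _ => (0 : ℝ) := by
      have h5 : IsOpen {y : ℂ | R₂ < dist y c} :=
        isOpen_lt continuous_const (continuous_id.dist continuous_const)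
      filter_upwards [h5.mem_nhds h3] with y hy
      exact h.zero y fun hy' => absurd (mem_ball.1 hy') (not_lt.2 (le_of_lt hy))
    rw [h2.fderiv_eq]
    simp

theorem tsupport_subset (h : Cut c R S R₁ R₂ η) : tsupport η ⊆ closedBall c R₂ := by
  refine closure_minimal (fun z hz => ?_) isClosed_closedBall
  by_contra h1
  exact hz (h.zero z fun h2 => h1 (ball_subset_closedBall h2))

theorem hasCompactSupport (h : Cut c R S R₁ R₂ η) : HasCompactSupport η :=
  (isCompact_closedBall c R₂).of_isClosed_subset (isClosed_tsupport η) (tsupport_subset h)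

/-- a function which is continuous on the open set of simple points and vanishes off the compact
simple annulus is integrable. -/
theorem integrable_of_ann (h : Cut c R S R₁ R₂ η) (ho : IsOpen (Usimp c R S)) {f : ℂ → ℝ}
    (hf : ContinuousOn f (Usimp c R S)) (h0 : ∀ z ∉ ann c R₁ R₂, f z = 0) : Integrable f := by
  have hc : Continuous f := by
    rw [continuous_iff_continuousAt]
    intro z
    by_cases hz : z ∈ ann c R₁ R₂
    · exact hf.continuousAt (ho.mem_nhds (ann_subset h hz))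
    · have h1 : f =ᶠ[𝓝 z] fun _ => (0 : ℝ) := by
        filter_upwards [isCompact_ann.isClosed.isOpen_compl.mem_nhds hz] with y hy
        exact h0 y hy
      exact (continuousAt_const (y := (0 : ℝ))).congr h1.symm
  refine hc.integrable_of_hasCompactSupport ?_
  refine (isCompact_ann (c := c) (R₁ := R₁) (R₂ := R₂)).of_isClosed_subset (isClosed_tsupport f)
    (closure_minimal (fun z hz => ?_) (isCompact_ann (c := c) (R₁ := R₁) (R₂ := R₂)).isClosed)
  by_contra h1
  exact hz (h0 z h1)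

end cut

section chi

variable {χ : ℝ → ℝ}

theorem chi_nonneg (h : Chi χ) (t : ℝ) : 0 ≤ χ t := by
  rcases le_total t 2 with h1 | h1
  · calc (0 : ℝ) = χ 2 := (h.zero 2 le_rfl).symm
      _ ≤ χ t := h.anti h1
  · rw [h.zero t h1]

theorem chi_le_one (h : Chi χ) (t : ℝ) : χ t ≤ 1 := by
  rcases le_total t 1 with h1 | h1
  · rw [h.one t h1]
  · calc χ t ≤ χ 1 := h.anti h1
      _ = 1 := h.one 1 le_rfl

theorem chi_integral (h : Chi χ) : 1 ≤ ∫ t in (0:ℝ)..2, χ t := by
  have hc : Continuous χ := h.smooth.continuous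
  have h1 : ∫ t in (0:ℝ)..2, χ t = (∫ t in (0:ℝ)..1, χ t) + ∫ t in (1:ℝ)..2, χ t :=
    (intervalIntegral.integral_add_adjacent_intervals (hc.intervalIntegrable _ _)
      (hc.intervalIntegrable _ _)).symm
  have h2 : ∫ t in (0:ℝ)..1, χ t = 1 := by
    have : ∫ t in (0:ℝ)..1, χ t = ∫ _t in (0:ℝ)..1, (1 : ℝ) := by
      refine intervalIntegral.integral_congr fun t ht => ?_
      rw [uIcc_of_le zero_le_one] at ht
      exact h.one t ht.2
    rw [this]
    simp
  have h3 : 0 ≤ ∫ t in (1:ℝ)..2, χ t :=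
    intervalIntegral.integral_nonneg (by norm_num) fun t _ => chi_nonneg h t
  linarith

/-- the primitive -/
def prim (χ : ℝ → ℝ) (n : ℝ) (t : ℝ) : ℝ := ∫ s in (2 * n)..t, χ (s / n)

theorem prim_hasDerivAt (h : Chi χ) (n t : ℝ) : HasDerivAt (prim χ n) (χ (t / n)) t := by
  have hc : Continuous fun s : ℝ => χ (s / n) := h.smooth.continuous.comp (continuous_id.div_const n)
  exact intervalIntegral.integral_hasDerivAt_right (hc.intervalIntegrable _ _)
    hc.aestronglyMeasurable.stronglyMeasurableAtFilter hc.continuousAt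

theorem prim_deriv (h : Chi χ) (n : ℝ) : deriv (prim χ n) = fun t => χ (t / n) :=
  funext fun t => (prim_hasDerivAt h n t).deriv

theorem prim_contDiff (h : Chi χ) (n : ℝ) : ContDiff ℝ 1 (prim χ n) := by
  rw [contDiff_one_iff_deriv]
  refine ⟨fun t => (prim_hasDerivAt h n t).differentiableAt, ?_⟩
  rw [prim_deriv h]
  exact h.smooth.continuous.comp (continuous_id.div_const n)

theorem prim_zero (h : Chi χ) {n : ℝ} (hn : 0 < n) {t : ℝ} (ht : 2 * n ≤ t) : prim χ n t = 0 := by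
  unfold prim
  have : ∫ s in (2 * n)..t, χ (s / n) = ∫ _s in (2 * n)..t, (0 : ℝ) := by
    refine intervalIntegral.integral_congr fun s hs => ?_
    rw [uIcc_of_le ht] at hs
    refine h.zero _ ?_
    rw [le_div_iff₀ hn]
    exact hs.1
  rw [this]
  simp

theorem prim_eq (h : Chi χ) {n : ℝ} (hn : 0 < n) {t : ℝ} (ht : t ≤ n) :
    prim χ n t = t - n * ∫ s in (0:ℝ)..2, χ s := by
  have hc : Continuous fun s : ℝ => χ (s / n) := h.smooth.continuous.comp (continuous_id.div_const n)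
  have h1 : prim χ n t = (∫ s in (0:ℝ)..t, χ (s / n)) - ∫ s in (0:ℝ)..(2 * n), χ (s / n) := by
    unfold prim
    rw [intervalIntegral.integral_interval_sub_left (hc.intervalIntegrable _ _)
      (hc.intervalIntegrable _ _)]
  have h2 : ∫ s in (0:ℝ)..t, χ (s / n) = t := by
    have h3 : ∫ s in (0:ℝ)..t, χ (s / n) = ∫ _s in (0:ℝ)..t, (1 : ℝ) := by
      refine intervalIntegral.integral_congr fun s hs => ?_
      refine h.one _ ?_
      rw [div_le_one hn]
      rcases le_total 0 t with h4 | h4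
      · rw [uIcc_of_le h4] at hs
        exact hs.2.trans ht
      · rw [uIcc_of_ge h4] at hs
        exact hs.2.trans hn.le
    rw [h3]
    simp
  have h5 : ∫ s in (0:ℝ)..(2 * n), χ (s / n) = n * ∫ s in (0:ℝ)..2, χ s := by
    rw [intervalIntegral.integral_comp_div (fun s => χ s) hn.ne']
    rw [zero_div, mul_div_assoc, div_self hn.ne', mul_one, smul_eq_mul]
  rw [h1, h2, h5]

end chi

section cont

/-- the domain of the pair functions -/
abbrev Dom (c : ℂ) (R : ℝ) : Set (ℂ × ℂ × ℂ × (ℂ →L[ℝ] ℂ) × (ℂ →L[ℝ] ℂ)) :=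
  {q | q.1 ∈ ball c R ∧ q.2.1 ≠ q.2.2.1}

theorem pv_cont {c : ℂ} {R : ℝ} : ContinuousOn
    (fun q : ℂ × ℂ × ℂ × (ℂ →L[ℝ] ℂ) × (ℂ →L[ℝ] ℂ) => pv q.2.1 q.2.2.1) (Dom c R) := by
  unfold pv
  refine ContinuousOn.neg (ContinuousOn.log (Continuous.continuousOn (by fun_prop)) ?_)
  intro q hq
  exact norm_ne_zero_iff.2 (sub_ne_zero.2 hq.2)

theorem pdL_cont {c : ℂ} {R : ℝ} : ContinuousOn
    (fun q : ℂ × ℂ × ℂ × (ℂ →L[ℝ] ℂ) × (ℂ →L[ℝ] ℂ) => pdL q.2.1 q.2.2.1 q.2.2.2.1 q.2.2.2.2)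
    (Dom c R) := by
  unfold pdL
  have h1 : Continuous (fun q : ℂ × ℂ × ℂ × (ℂ →L[ℝ] ℂ) × (ℂ →L[ℝ] ℂ) => q.2.1 - q.2.2.1) := by
    fun_prop
  have h2 : Continuous
      (fun q : ℂ × ℂ × ℂ × (ℂ →L[ℝ] ℂ) × (ℂ →L[ℝ] ℂ) => q.2.2.2.1 - q.2.2.2.2) := by
    fun_prop
  exact (h1.continuousOn.inv₀ fun q hq => sub_ne_zero.2 hq.2).smul h2.continuousOn

theorem wth_cont {c : ℂ} {R : ℝ} {α : ℂ → (ℂ →L[ℝ] ℝ)} (hα : Continuous α) : ContinuousOn
    (fun q : ℂ × ℂ × ℂ × (ℂ →L[ℝ] ℂ) × (ℂ →L[ℝ] ℂ) =>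
      wth (α q.1) q.2.1 q.2.2.1 q.2.2.2.1 q.2.2.2.2) (Dom c R) := by
  unfold wth
  have h1 : ∀ v : ℂ, Continuous
      (fun q : ℂ × ℂ × ℂ × (ℂ →L[ℝ] ℂ) × (ℂ →L[ℝ] ℂ) => α q.1 v) := fun v =>
    (hα.comp continuous_fst).clm_apply continuous_const
  have h2 : ∀ v : ℂ, ContinuousOn
      (fun q : ℂ × ℂ × ℂ × (ℂ →L[ℝ] ℂ) × (ℂ →L[ℝ] ℂ) =>
        (pdL q.2.1 q.2.2.1 q.2.2.2.1 q.2.2.2.2 v).im) (Dom c R) := fun v =>
    continuous_im.comp_continuousOn (pdL_cont.clm_apply continuousOn_const)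
  exact ((h1 1).continuousOn.mul (h2 I)).sub ((h1 I).continuousOn.mul (h2 1))

end cont

theorem wth_zero (a b : ℂ) (A B : ℂ →L[ℝ] ℂ) : wth 0 a b A B = 0 := by
  simp [wth]

/-- the identity behind the second and third clause of `FLUX`, with the integral sign closed
before the subtraction: `∫ η Σ χ(v/n) J - n (∫χ) flux` does not depend on `n ≥ max m 1`. -/
theorem energy (hS : STAR) (h1 : SEL) (h6 : PSC) {χ : ℝ → ℝ} (hχ : Chi χ)
    {μ β : ℂ × ℂ → ℂ} {κ L : ℝ} (hB : BoxD μ β κ L) {c : ℂ} {R : ℝ} {k : ℕ}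
    {S : ℂ → Multiset ℂ} {e : ℂ → ℝ} (hK : KG μ β c R k S e) (hD : DiscOff c R S)
    {R₁ R₂ : ℝ} {η : ℂ → ℝ} (hC : Cut c R S R₁ R₂ η) :
    ∃ m : ℝ, (∀ z ∈ ann c R₁ R₂, ∀ a ∈ S z, ∀ b ∈ S z, a ≠ b → pv a b ≤ m) ∧
      ∀ n : ℝ, max m 1 ≤ n →
      Integrable (fun z => η z * psum S (fun _ a b A B => χ (pv a b / n) * pJ a b A B) z) ∧
      (∫ z, η z * psum S (fun _ a b A B => χ (pv a b / n) * pJ a b A B) z)
        - n * (∫ t in (0:ℝ)..2, χ t) * flux S η =
      ∫ z, psum S (fun z a b A B => pv a b * wth (fderiv ℝ η z) a b A B) z := by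
  obtain ⟨ho, -⟩ := h1 μ β κ L hB c R k S e hK
  have hη1 : ContDiff ℝ 1 η := hC.smooth.of_le (by exact_mod_cast le_top)
  have hdη : Continuous (fderiv ℝ η) := hη1.continuous_fderiv one_ne_zero
  have hsup : tsupport η ⊆ ball c R :=
    (tsupport_subset hC).trans (closedBall_subset_ball hC.lt')
  have hcs := hasCompactSupport hC
  -- bound for `v` on the annulus
  obtain ⟨m, hm⟩ : ∃ m : ℝ, ∀ z ∈ ann c R₁ R₂, ∀ a ∈ S z, ∀ b ∈ S z, a ≠ b → pv a b ≤ m := by
    have h5 : ContinuousOn (psum S fun _ a b _ _ => |pv a b|) (ann c R₁ R₂) :=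
      (h6 μ β κ L hB c R k S e hK _ pv_cont.abs).mono (ann_subset hC)
    obtain ⟨m, hm⟩ := (isCompact_ann.image_of_continuousOn h5).bddAbove
    refine ⟨m, fun z hz a ha b hb hab => (le_abs_self _).trans ?_⟩
    refine le_trans ?_ (hm (mem_image_of_mem _ hz))
    exact le_psum (G := fun _ a b _ _ => |pv a b|) (fun _ _ _ _ => abs_nonneg _)
      (ann_subset hC hz).2 ha hb hab
  -- integrability on the annulus
  have hI1 : Integrable (fun z => psum S (fun z a b A B => wth (fderiv ℝ η z) a b A B) z) := by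
    refine integrable_of_ann hC ho (h6 μ β κ L hB c R k S e hK _ (wth_cont hdη)) fun z hz => ?_
    refine psum_eq_zero fun a b A B => ?_
    rw [fderiv_eq_zero hC hz, wth_zero]
  have hI2 : Integrable
      (fun z => psum S (fun z a b A B => pv a b * wth (fderiv ℝ η z) a b A B) z) := by
    refine integrable_of_ann hC ho
      (h6 μ β κ L hB c R k S e hK _ (pv_cont.mul (wth_cont hdη))) fun z hz => ?_
    refine psum_eq_zero fun a b A B => ?_
    rw [fderiv_eq_zero hC hz, wth_zero, mul_zero]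
  -- the second identity
  refine ⟨m, hm, ?_⟩
  intro n hn
  have hn0 : 0 < n := lt_of_lt_of_le one_pos ((le_max_right _ _).trans hn)
  have hnm : m ≤ n := (le_max_left _ _).trans hn
  obtain ⟨i1, -, i3⟩ := hS μ β κ L hB c R k S e hK hD (prim χ n) (2 * n) (prim_contDiff hχ n)
    (fun t ht => prim_zero hχ hn0 ht) η hη1 hcs hsup
  rw [prim_deriv hχ] at i1 i3
  beta_reduce at i1 i3
  refine ⟨i1, ?_⟩
  rw [i3]
  have h7 : ∀ z, psum S (fun z a b A B => prim χ n (pv a b) * wth (fderiv ℝ η z) a b A B) z =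
      psum S (fun z a b A B => pv a b * wth (fderiv ℝ η z) a b A B) z
        - (n * ∫ t in (0:ℝ)..2, χ t) *
          psum S (fun z a b A B => wth (fderiv ℝ η z) a b A B) z := by
    intro z
    rw [← psum_mul, ← psum_sub]
    refine psum_congr fun _ a ha b hb hab => ?_
    by_cases hz : z ∈ ann c R₁ R₂
    · rw [prim_eq hχ hn0 ((hm z hz a ha b hb hab).trans hnm)]
      ring
    · simp only [fderiv_eq_zero hC hz, wth_zero]
      ring
  rw [integral_congr_ae (Eventually.of_forall h7), integral_sub hI2 (hI1.const_mul _),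
    integral_const_mul]
  unfold flux
  ring

/-- **LOC-9b.** -/
theorem flux_of (hS : STAR) (h1 : SEL) (h4 : JALG) (h6 : PSC) : FLUX := by
  intro χ hχ μ β κ L hB c R k S e hK hD R₁ R₂ η hC
  obtain ⟨m, hm, key2⟩ := energy hS h1 h6 hχ hB hK hD hC
  obtain ⟨ho, hsel⟩ := h1 μ β κ L hB c R k S e hK
  have hη1 : ContDiff ℝ 1 η := hC.smooth.of_le (by exact_mod_cast le_top)
  have hdη : Continuous (fderiv ℝ η) := hη1.continuous_fderiv one_ne_zero
  have hsup : tsupport η ⊆ ball c R :=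
    (tsupport_subset hC).trans (closedBall_subset_ball hC.lt')
  have hcs := hasCompactSupport hC
  refine ⟨⟨max m 1, fun n hn => ?_⟩, ⟨max m 1,
    |∫ z, psum S (fun z a b A B => pv a b * wth (fderiv ℝ η z) a b A B) z|, fun n hn => ?_⟩, ?_⟩
  · -- first identity
    have hn0 : 0 < n := lt_of_lt_of_le one_pos ((le_max_right _ _).trans hn)
    have hnm : m ≤ n := (le_max_left _ _).trans hn
    have hφ : ContDiff ℝ 1 fun t : ℝ => χ (t / n) :=
      (hχ.smooth.comp (contDiff_id.div_const n)).of_le (by exact_mod_cast le_top)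
    obtain ⟨-, -, i3⟩ := hS μ β κ L hB c R k S e hK hD (fun t => χ (t / n)) (2 * n) hφ
      (fun t ht => hχ.zero _ (by rw [le_div_iff₀ hn0]; exact ht)) η hη1 hcs hsup
    have hd : deriv (fun t : ℝ => χ (t / n)) = fun t => deriv χ (t / n) / n := by
      funext t
      have h8 : HasDerivAt χ (deriv χ (t / n)) (t / n) :=
        (hχ.smooth.differentiable (by simp) _).hasDerivAt
      have h9 : HasDerivAt (fun t : ℝ => t / n) (1 / n) t := (hasDerivAt_id t).div_const n
      have h10 := h8.comp t h9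
      rw [mul_one_div] at h10
      exact h10.deriv
    rw [hd] at i3
    have h7 : ∀ z, η z * psum S (fun _ a b A B => (- deriv χ (pv a b / n) / n) * pJ a b A B) z =
        - (η z * psum S (fun _ a b A B => (deriv χ (pv a b / n) / n) * pJ a b A B) z) := by
      intro z
      rw [← mul_neg, ← psum_neg]
      congr 2
      funext z a b A B
      ring
    rw [integral_congr_ae (Eventually.of_forall h7), integral_neg, i3]
    unfold flux
    congr 1
    refine integral_congr_ae (Eventually.of_forall fun z => ?_)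
    refine psum_congr fun _ a ha b hb hab => ?_
    by_cases hz : z ∈ ann c R₁ R₂
    · have h11 : pv a b / n ≤ 1 := by
        rw [div_le_one hn0]
        exact (hm z hz a ha b hb hab).trans hnm
      rw [hχ.one _ h11, one_mul]
    · simp only [fderiv_eq_zero hC hz, wth_zero, mul_zero]
  · -- second identity: NB the integral sign of `FLUX` extends over the subtracted constant
    have hn0 : 0 < n := lt_of_lt_of_le one_pos ((le_max_right _ _).trans hn)
    by_cases hfl : flux S η = 0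
    · have h33 := (key2 n hn).2
      rw [hfl, mul_zero, sub_zero] at h33
      simp only [hfl, mul_zero, sub_zero]
      rw [h33]
    · have h34 : ¬ Integrable (fun z => η z *
          psum S (fun _ a b A B => χ (pv a b / n) * pJ a b A B) z
          - n * (∫ t in (0:ℝ)..2, χ t) * flux S η) := by
        intro h35
        have h36 := (key2 n hn).1.sub h35
        have h37 : Integrable (fun _ : ℂ => n * (∫ t in (0:ℝ)..2, χ t) * flux S η) := by
          refine h36.congr (Eventually.of_forall fun z => ?_)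
          simp
        rw [integrable_const_iff] at h37
        rcases h37 with h38 | h38
        · have h39 : 0 < ∫ t in (0:ℝ)..2, χ t := lt_of_lt_of_le one_pos (chi_integral hχ)
          exact mul_ne_zero (mul_ne_zero hn0.ne' h39.ne') hfl h38
        · have h40 : (volume : Measure ℂ) univ = ⊤ :=
            measure_univ_of_isAddLeftInvariant _
          exact (measure_ne_top (volume : Measure ℂ) univ) h40
      rw [integral_undef h34, abs_zero]
      exact abs_nonneg _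
  · -- positivity
    obtain ⟨c₀, C₀, hc₀, hC₀, hJ⟩ := h4 κ L hB.κ0 hB.κ1 hB.L0
    -- the slopes
    have hsl : ∀ z ∈ Usimp c R S, ∀ a ∈ S z,
        lzb (slope S z a) = μ (z, a) * lz (slope S z a) - β (z, a) ∧
        ‖slope S z a‖ ^ 2 ≤ e z := by
      intro z hz a ha
      obtain ⟨r, w, hr, hsub, hsh, -, -, hmap, hslope⟩ := hsel z hz
      have hzr : z ∈ ball z r := mem_ball_self hr
      rw [hmap z hzr] at ha
      obtain ⟨i, -, rfl⟩ := Multiset.mem_map.1 ha
      have hsub' : ball z r ⊆ ball c R := hsub.trans fun y hy => hy.1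
      have h12 := hslope z hzr i
      rw [h12]
      exact ⟨hK.pde _ _ hsub' (hsh i) z hzr, hK.ebd _ _ hsub' (hsh i) z hzr⟩
    let g : ℂ → ℝ := (ball c R).indicator fun z => - (C₀ * (1 + e z) * (k : ℝ) ^ 2)
    have hg : Integrable g := by
      rw [integrable_indicator_iff measurableSet_ball]
      refine Integrable.neg (Integrable.mul_const (Integrable.const_mul ?_ _) _)
      exact Integrable.add (integrableOn_const (by
        exact measure_ball_lt_top.ne)) hK.eint
    have hlow : ∀ n : ℝ, max m 1 ≤ n →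
        ∫ z, g z ≤ ∫ z, η z * psum S (fun _ a b A B => χ (pv a b / n) * pJ a b A B) z := by
      intro n hn
      refine integral_mono hg (key2 n hn).1 fun z => ?_
      by_cases hz : z ∈ ball c R
      · have hgz : g z = - (C₀ * (1 + e z) * (k : ℝ) ^ 2) := indicator_of_mem hz _
        rw [hgz]
        have hCe : 0 ≤ C₀ * (1 + e z) := mul_nonneg hC₀ (by linarith [hK.e0 z])
        have h13 : - (C₀ * (1 + e z) * (k : ℝ) ^ 2) ≤
            psum S (fun _ a b A B => χ (pv a b / n) * pJ a b A B) z := by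
          refine psum_ge hCe (hK.card z hz) fun hN a ha b hb hab => ?_
          have h14 := hsl z ⟨hz, hN⟩ a ha
          have h15 := hsl z ⟨hz, hN⟩ b hb
          have h16 := (hJ μ β hB z a b _ _ hab h14.1 h15.1).1
          have h17 : - (C₀ * (1 + e z)) ≤ pJ a b (slope S z a) (slope S z b) := by
            have h18 : C₀ * (1 + ‖slope S z b‖ ^ 2) ≤ C₀ * (1 + e z) :=
              mul_le_mul_of_nonneg_left (by linarith [h15.2]) hC₀
            have h19 : 0 ≤ c₀ * ‖pdL a b (slope S z a) (slope S z b)‖ ^ 2 := by positivity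
            linarith
          have h20 := chi_nonneg hχ (pv a b / n)
          have h21 := chi_le_one hχ (pv a b / n)
          rcases le_total 0 (pJ a b (slope S z a) (slope S z b)) with h22 | h22
          · have : 0 ≤ χ (pv a b / n) * pJ a b (slope S z a) (slope S z b) := mul_nonneg h20 h22
            linarith
          · nlinarith
        have h23 := hC.nonneg z
        have h24 := hC.le_one z
        have h25 : 0 ≤ C₀ * (1 + e z) * (k : ℝ) ^ 2 := mul_nonneg hCe (sq_nonneg _)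
        rcases le_total 0 (psum S (fun _ a b A B => χ (pv a b / n) * pJ a b A B) z) with h26 | h26
        · have : 0 ≤ η z * psum S (fun _ a b A B => χ (pv a b / n) * pJ a b A B) z :=
            mul_nonneg h23 h26
          linarith
        · nlinarith
      · have hgz : g z = 0 := indicator_of_notMem hz _
        have hez : η z = 0 := hC.zero z fun h' => hz (ball_subset_ball hC.lt'.le h')
        rw [hgz, hez, zero_mul]
    -- let `n → ∞`
    by_contra hneg
    rw [not_le] at hneg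
    set C2 := ∫ z, g z
    set C1 := ∫ z, psum S (fun z a b A B => pv a b * wth (fderiv ℝ η z) a b A B) z
    have hmain : ∀ n : ℝ, max m 1 ≤ n → C2 - C1 ≤ n * flux S η := by
      intro n hn
      have h27 := hlow n hn
      have h28 := (key2 n hn).2
      have hn0 : 0 < n := lt_of_lt_of_le one_pos ((le_max_right _ _).trans hn)
      have h29 := chi_integral hχ
      have h30 : n * (∫ t in (0:ℝ)..2, χ t) * flux S η ≤ n * flux S η := by
        have : n * 1 ≤ n * ∫ t in (0:ℝ)..2, χ t := mul_le_mul_of_nonneg_left h29 hn0.le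
        nlinarith
      linarith
    obtain ⟨n, hn⟩ : ∃ n : ℝ, max m 1 ≤ n ∧ n * flux S η < C2 - C1 := by
      refine ⟨max (max m 1) ((C2 - C1 - 1) / flux S η), le_max_left _ _, ?_⟩
      have h31 : (C2 - C1 - 1) / flux S η ≤ max (max m 1) ((C2 - C1 - 1) / flux S η) :=
        le_max_right _ _
      have h32 : max (max m 1) ((C2 - C1 - 1) / flux S η) * flux S η ≤
          (C2 - C1 - 1) / flux S η * flux S η := mul_le_mul_of_nonpos_right h31 hneg.le
      rw [div_mul_cancel₀ _ hneg.ne] at h32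
      linarith
    exact absurd (hmain n hn.1) (not_le.2 hn.2)

end

end Crest.Agent.R235.LocFlux
end

-- ▼ part R235/LocWind_601
section

/-!
Row 235 (S0364), PACKAGE REG, REG-LOC 10 (helper601): the flux through a simple annulus is `2π`
times an integer.
-/

set_option autoImplicit false

open MeasureTheory Metric Set Filter Complex
open scoped ContDiff Topology

namespace Crest.Agent.R235.LocWind_601

open Crest.Agent.R235.Loc

noncomputable section

/-! ### pair sums and pair products through an embedding -/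

@[to_additive]
theorem prod_offDiag_map {ι α β : Type*} [CommMonoid β] (s : Finset ι) (f : ι ↪ α)
    (φ : α × α → β) :
    ∏ q ∈ (s.map f).offDiag, φ q = ∏ p ∈ s.offDiag, φ (f p.1, f p.2) := by
  classical
  have h : (s.map f).offDiag = s.offDiag.map ⟨Prod.map f f, f.injective.prodMap f.injective⟩ := by
    ext q
    simp only [Finset.mem_offDiag, Finset.mem_map, Function.Embedding.coeFn_mk, Prod.exists,
      Prod.map_apply]
    constructor
    · rintro ⟨⟨a, ha, h1⟩, ⟨b, hb, h2⟩, h3⟩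
      refine ⟨a, b, ⟨ha, hb, ?_⟩, Prod.ext h1 h2⟩
      rintro rfl
      exact h3 (h1.symm.trans h2)
    · rintro ⟨a, b, ⟨ha, hb, hab⟩, rfl⟩
      exact ⟨⟨a, ha, rfl⟩, ⟨b, hb, rfl⟩, fun h => hab (f.injective h)⟩
  rw [h, Finset.prod_map]
  rfl

open Classical in
/-- the discriminant: product over ordered pairs of distinct sheets. -/
def Dsc (S : ℂ → Multiset ℂ) (z : ℂ) : ℂ := ∏ q ∈ (S z).toFinset.offDiag, (q.1 - q.2)

open Classical in
/-- logarithmic differential of the discriminant. -/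
def Lam (S : ℂ → Multiset ℂ) (z : ℂ) : ℂ →L[ℝ] ℂ :=
  ∑ q ∈ (S z).toFinset.offDiag, pdL q.1 q.2 (slope S z q.1) (slope S z q.2)

theorem Dsc_ne_zero (S : ℂ → Multiset ℂ) (z : ℂ) : Dsc S z ≠ 0 := by
  classical
  refine Finset.prod_ne_zero_iff.2 fun q hq => ?_
  rw [Finset.mem_offDiag] at hq
  exact sub_ne_zero.2 hq.2.2

theorem psum_wth (S : ℂ → Multiset ℂ) (α : ℂ → ℂ →L[ℝ] ℝ) {z : ℂ} (hz : (S z).Nodup) :
    psum S (fun z a b A B => wth (α z) a b A B) z =
      α z 1 * (Lam S z I).im - α z I * (Lam S z 1).im := by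
  classical
  unfold psum
  rw [if_pos hz]
  simp only [wth, Lam, _root_.sum_apply, Complex.im_sum, Finset.mul_sum,
    ← Finset.sum_sub_distrib]

section Local

variable {μ β : ℂ × ℂ → ℂ} {κ L : ℝ} {c : ℂ} {R : ℝ} {k : ℕ} {S : ℂ → Multiset ℂ} {e : ℂ → ℝ}

theorem hasFDerivAt_prod_sub {w : Fin k → ℂ → ℂ} {z : ℂ}
    (hw : ∀ i, HasFDerivAt (w i) (fderiv ℝ (w i) z) z)
    (hi : Function.Injective (fun i => w i z)) :
    HasFDerivAt (fun y => ∏ p ∈ (Finset.univ : Finset (Fin k)).offDiag, (w p.1 y - w p.2 y))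
      ((∏ p ∈ (Finset.univ : Finset (Fin k)).offDiag, (w p.1 z - w p.2 z)) •
        ∑ p ∈ (Finset.univ : Finset (Fin k)).offDiag,
          pdL (w p.1 z) (w p.2 z) (fderiv ℝ (w p.1) z) (fderiv ℝ (w p.2) z)) z := by
  classical
  have h := HasFDerivAt.finsetProd (𝕜 := ℝ) (u := (Finset.univ : Finset (Fin k)).offDiag)
    (g := fun (p : Fin k × Fin k) y => w p.1 y - w p.2 y)
    (g' := fun p => fderiv ℝ (w p.1) z - fderiv ℝ (w p.2) z) (x := z)
    (fun p _ => (hw p.1).sub (hw p.2))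
  refine h.congr_fderiv ?_
  rw [Finset.smul_sum]
  refine Finset.sum_congr rfl fun p hp => ?_
  have hne : w p.1 z - w p.2 z ≠ 0 := by
    rw [Finset.mem_offDiag] at hp
    exact sub_ne_zero.2 fun h' => hp.2.2 (hi h')
  rw [pdL, smul_smul, ← Finset.mul_prod_erase _ _ hp]
  congr 1
  field_simp

theorem local_form (hB : BoxD μ β κ L) (hK : KG μ β c R k S e) (h1 : SEL) {z₀ : ℂ}
    (hz₀ : z₀ ∈ Usimp c R S) :
    ∃ (r : ℝ) (w : Fin k → ℂ → ℂ), 0 < r ∧ (∀ i, ContDiffOn ℝ ∞ (w i) (ball z₀ r)) ∧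
      (∀ z ∈ ball z₀ r, Function.Injective (fun i => w i z)) ∧
      (∀ z ∈ ball z₀ r, Dsc S z =
        ∏ p ∈ (Finset.univ : Finset (Fin k)).offDiag, (w p.1 z - w p.2 z)) ∧
      (∀ z ∈ ball z₀ r, Lam S z = ∑ p ∈ (Finset.univ : Finset (Fin k)).offDiag,
          pdL (w p.1 z) (w p.2 z) (fderiv ℝ (w p.1) z) (fderiv ℝ (w p.2) z)) := by
  classical
  obtain ⟨-, h2⟩ := h1 μ β κ L hB c R k S e hK
  obtain ⟨r, w, hr, -, -, hs, hi, hS, hsl⟩ := h2 z₀ hz₀
  have hfs : ∀ z (hz : z ∈ ball z₀ r), (S z).toFinset =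
      Finset.univ.map ⟨fun i => w i z, hi z hz⟩ := by
    intro z hz
    rw [Finset.map_eq_image]
    ext a
    simp [hS z hz]
  refine ⟨r, w, hr, hs, hi, fun z hz => ?_, fun z hz => ?_⟩
  · unfold Dsc
    have := hfs z hz
    rw [show (S z).toFinset = Finset.univ.map ⟨fun i => w i z, hi z hz⟩ from this,
      prod_offDiag_map]
    rfl
  · unfold Lam
    rw [show (S z).toFinset = Finset.univ.map ⟨fun i => w i z, hi z hz⟩ from hfs z hz,
      sum_offDiag_map]
    refine Finset.sum_congr rfl fun p _ => ?_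
    simp only [Function.Embedding.coeFn_mk, hsl z hz]

theorem hasFDerivAt_Dsc (hB : BoxD μ β κ L) (hK : KG μ β c R k S e) (h1 : SEL) {z₀ : ℂ}
    (hz₀ : z₀ ∈ Usimp c R S) : HasFDerivAt (Dsc S) (Dsc S z₀ • Lam S z₀) z₀ := by
  obtain ⟨r, w, hr, hs, hi, hD, hL⟩ := local_form hB hK h1 hz₀
  have hm : z₀ ∈ ball z₀ r := mem_ball_self hr
  have hn : ball z₀ r ∈ 𝓝 z₀ := ball_mem_nhds z₀ hr
  have h := hasFDerivAt_prod_sub (w := w) (z := z₀)
    (fun i => (((hs i).contDiffAt hn).differentiableAt (by simp)).hasFDerivAt) (hi z₀ hm)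
  rw [← hD z₀ hm, ← hL z₀ hm] at h
  refine h.congr_of_eventuallyEq ?_
  filter_upwards [hn] with z hz
  exact hD z hz

theorem continuousAt_Lam (hB : BoxD μ β κ L) (hK : KG μ β c R k S e) (h1 : SEL) {z₀ : ℂ}
    (hz₀ : z₀ ∈ Usimp c R S) : ContinuousAt (Lam S) z₀ := by
  obtain ⟨r, w, hr, hs, hi, hD, hL⟩ := local_form hB hK h1 hz₀
  have hm : z₀ ∈ ball z₀ r := mem_ball_self hr
  have hn : ball z₀ r ∈ 𝓝 z₀ := ball_mem_nhds z₀ hr
  have hc : ∀ i, ContinuousAt (w i) z₀ := fun i => ((hs i).continuousOn).continuousAt hn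
  have hc' : ∀ i, ContinuousAt (fun z => fderiv ℝ (w i) z) z₀ := fun i =>
    ((hs i).continuousOn_fderiv_of_isOpen isOpen_ball (by simp)).continuousAt hn
  have h : ContinuousAt (fun z => ∑ p ∈ (Finset.univ : Finset (Fin k)).offDiag,
      pdL (w p.1 z) (w p.2 z) (fderiv ℝ (w p.1) z) (fderiv ℝ (w p.2) z)) z₀ := by
    refine tendsto_finsetSum _ fun p hp => ?_
    unfold pdL
    have hne : w p.1 z₀ - w p.2 z₀ ≠ 0 := by
      rw [Finset.mem_offDiag] at hp
      exact sub_ne_zero.2 fun h' => hp.2.2 (hi z₀ hm h')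
    exact (((hc p.1).sub (hc p.2)).inv₀ hne).smul ((hc' p.1).sub (hc' p.2))
  refine h.congr ?_
  filter_upwards [hn] with z hz
  exact (hL z hz).symm

end Local

/-! ### the winding number of a loop -/

theorem exp_integral {g φ : ℝ → ℂ} (hφ : Continuous φ) (hg : ∀ t, HasDerivAt g (g t * φ t) t)
    (a b : ℝ) : g b = g a * exp (∫ t in a..b, φ t) := by
  have hΦ : ∀ t, HasDerivAt (fun u => ∫ s in a..u, φ s) (φ t) t := fun t =>
    intervalIntegral.integral_hasDerivAt_right (hφ.intervalIntegrable _ _)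
      (hφ.stronglyMeasurableAtFilter _ _) hφ.continuousAt
  have hF : ∀ t, HasDerivAt (fun u => g u * exp (-∫ s in a..u, φ s)) 0 t := by
    intro t
    have h := (hg t).mul ((hΦ t).neg.cexp)
    refine h.congr_deriv ?_
    ring
  have hc := is_const_of_deriv_eq_zero (fun t => (hF t).differentiableAt) (fun t => (hF t).deriv)
    b a
  simp only [intervalIntegral.integral_same, neg_zero, exp_zero, mul_one] at hc
  rw [← hc, mul_assoc, ← Complex.exp_add]
  simp

/-- points in polar coordinates around `c`. -/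
def pt (c : ℂ) (ρ t : ℝ) : ℂ := c + ρ * (Real.cos t + Real.sin t * I)

theorem norm_pt_sub (c : ℂ) (ρ t : ℝ) : ‖pt c ρ t - c‖ = |ρ| := by
  have h : (Real.cos t + Real.sin t * I : ℂ) = exp (t * I) := by
    rw [Complex.exp_mul_I]
    push_cast
    rfl
  rw [pt, add_sub_cancel_left, h, norm_mul, Complex.norm_exp_ofReal_mul_I, mul_one,
    Complex.norm_real, Real.norm_eq_abs]

theorem continuous_pt (c : ℂ) : Continuous fun p : ℝ × ℝ => pt c p.1 p.2 := by
  unfold pt
  fun_prop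

theorem hasDerivAt_pt (c : ℂ) (ρ t : ℝ) : HasDerivAt (pt c ρ) (I * (pt c ρ t - c)) t := by
  unfold pt
  have h1 : HasDerivAt (fun t : ℝ => ((Real.cos t : ℝ) : ℂ)) ((-Real.sin t : ℝ) : ℂ) t :=
    (Real.hasDerivAt_cos t).ofReal_comp
  have h2 : HasDerivAt (fun t : ℝ => ((Real.sin t : ℝ) : ℂ)) ((Real.cos t : ℝ) : ℂ) t :=
    (Real.hasDerivAt_sin t).ofReal_comp
  refine (((h1.add (h2.mul_const I)).const_mul (ρ : ℂ)).const_add c).congr_deriv ?_
  rw [add_sub_cancel_left]
  push_cast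
  linear_combination (-(ρ : ℂ) * Complex.sin t) * Complex.I_mul_I

/-- clamp to `[R₁,R₂]`. -/
def cl (R₁ R₂ ρ : ℝ) : ℝ := max R₁ (min R₂ ρ)

theorem continuous_cl (R₁ R₂ : ℝ) : Continuous (cl R₁ R₂) := by
  unfold cl
  fun_prop

theorem cl_mem {R₁ R₂ : ℝ} (h : R₁ ≤ R₂) (ρ : ℝ) : R₁ ≤ cl R₁ R₂ ρ ∧ cl R₁ R₂ ρ ≤ R₂ :=
  ⟨le_max_left _ _, max_le h (min_le_left _ _)⟩

theorem cl_of_mem {R₁ R₂ ρ : ℝ} (h1 : R₁ ≤ ρ) (h2 : ρ ≤ R₂) : cl R₁ R₂ ρ = ρ := by
  rw [cl, min_eq_right h2, max_eq_right h1]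

/-- the logarithmic derivative of the discriminant along circles. -/
def Psi (S : ℂ → Multiset ℂ) (c : ℂ) (ρ t : ℝ) : ℂ := Lam S (pt c ρ t) (I * (pt c ρ t - c))

section Main

variable {μ β : ℂ × ℂ → ℂ} {κ L : ℝ} {c : ℂ} {R : ℝ} {k : ℕ} {S : ℂ → Multiset ℂ} {e : ℂ → ℝ}
  {R₁ R₂ : ℝ} {η : ℂ → ℝ}

theorem pt_mem (hC : Cut c R S R₁ R₂ η) {ρ : ℝ} (h : R₁ ≤ ρ ∧ ρ ≤ R₂) (t : ℝ) :
    pt c ρ t ∈ Usimp c R S := by
  have h0 : 0 ≤ ρ := hC.pos.le.trans h.1
  have hd : dist (pt c ρ t) c = ρ := by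
    rw [dist_eq_norm, norm_pt_sub, abs_of_nonneg h0]
  exact ⟨by rw [mem_ball, hd]; exact h.2.trans_lt hC.lt', hC.simple _ (by rw [hd]; exact h.1)
    (by rw [hd]; exact h.2)⟩

theorem continuous_Psi (hB : BoxD μ β κ L) (hK : KG μ β c R k S e) (h1 : SEL)
    (hC : Cut c R S R₁ R₂ η) : Continuous fun p : ℝ × ℝ => Psi S c (cl R₁ R₂ p.1) p.2 := by
  have hcl : Continuous fun p : ℝ × ℝ => pt c (cl R₁ R₂ p.1) p.2 :=
    (continuous_pt c).comp (((continuous_cl R₁ R₂).comp continuous_fst).prodMk continuous_snd)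
  rw [continuous_iff_continuousAt]
  intro p
  have h2 : ContinuousAt (fun p : ℝ × ℝ => Lam S (pt c (cl R₁ R₂ p.1) p.2)) p :=
    ContinuousAt.comp (g := Lam S) (f := fun p : ℝ × ℝ => pt c (cl R₁ R₂ p.1) p.2)
      (continuousAt_Lam hB hK h1 (pt_mem hC (cl_mem hC.lt.le p.1) p.2)) hcl.continuousAt
  exact h2.clm_apply ((continuous_const.mul (hcl.sub continuous_const)).continuousAt)

theorem exists_int (hB : BoxD μ β κ L) (hK : KG μ β c R k S e) (h1 : SEL)
    (hC : Cut c R S R₁ R₂ η) {ρ : ℝ} (h : R₁ ≤ ρ ∧ ρ ≤ R₂) :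
    ∃ N : ℤ, ∫ t in (-Real.pi)..Real.pi, (Psi S c ρ t).im = 2 * Real.pi * N := by
  have hφ : Continuous fun t => Psi S c ρ t := by
    have := (continuous_Psi hB hK h1 hC).comp (continuous_const.prodMk continuous_id :
      Continuous fun t : ℝ => (ρ, t))
    refine this.congr fun t => ?_
    simp only [Function.comp_apply, cl_of_mem h.1 h.2]
  have hg : ∀ t, HasDerivAt (fun t => Dsc S (pt c ρ t)) (Dsc S (pt c ρ t) * Psi S c ρ t) t := by
    intro t
    have h2 := (hasFDerivAt_Dsc hB hK h1 (pt_mem hC h t)).comp_hasDerivAt t (hasDerivAt_pt c ρ t)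
    exact h2
  have h2 := exp_integral hφ hg (-Real.pi) Real.pi
  have h3 : pt c ρ Real.pi = pt c ρ (-Real.pi) := by
    simp [pt]
  rw [h3] at h2
  have h4 : exp (∫ t in (-Real.pi)..Real.pi, Psi S c ρ t) = 1 :=
    (mul_right_eq_self₀.1 h2.symm).resolve_right (Dsc_ne_zero S _)
  obtain ⟨N, hN⟩ := Complex.exp_eq_one_iff.1 h4
  refine ⟨N, ?_⟩
  have h5 := Complex.imCLM.intervalIntegral_comp_comm (μ := volume)
    (hφ.intervalIntegrable (-Real.pi) Real.pi)
  simp only [Complex.imCLM_apply] at h5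
  rw [h5, hN]
  simp
  ring

theorem exists_int_const (hB : BoxD μ β κ L) (hK : KG μ β c R k S e) (h1 : SEL)
    (hC : Cut c R S R₁ R₂ η) :
    ∃ N : ℤ, ∀ ρ, ∫ t in (-Real.pi)..Real.pi, (Psi S c (cl R₁ R₂ ρ) t).im =
      2 * Real.pi * N := by
  have h2 : ∀ ρ, ∃ N : ℤ, ∫ t in (-Real.pi)..Real.pi, (Psi S c (cl R₁ R₂ ρ) t).im =
      2 * Real.pi * N := fun ρ => exists_int hB hK h1 hC (cl_mem hC.lt.le ρ)
  choose N hN using h2
  have h3 : Continuous fun ρ => ∫ t in (-Real.pi)..Real.pi, (Psi S c (cl R₁ R₂ ρ) t).im :=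
    intervalIntegral.continuous_parametric_intervalIntegral_of_continuous'
      (f := fun ρ t => (Psi S c (cl R₁ R₂ ρ) t).im)
      (Complex.continuous_im.comp (continuous_Psi hB hK h1 hC)) _ _
  have h4 : Continuous fun ρ => ((N ρ : ℤ) : ℝ) := by
    have h5 : (fun ρ => ((N ρ : ℤ) : ℝ)) = fun ρ =>
        (∫ t in (-Real.pi)..Real.pi, (Psi S c (cl R₁ R₂ ρ) t).im) / (2 * Real.pi) := by
      funext ρ
      rw [hN ρ]
      field_simp
    rw [h5]
    exact h3.div_const _
  have h5 : Continuous N := Int.isClosedEmbedding_coe_real.isInducing.continuous_iff.2 h4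
  refine ⟨N 0, fun ρ => ?_⟩
  rw [hN ρ, PreconnectedSpace.constant (inferInstance : PreconnectedSpace ℝ) h5 (x := ρ) (y := 0)]

/-- derivative of `ρ ↦ h(ρ²)`. -/
def Hr (h : ℝ → ℝ) (ρ : ℝ) : ℝ := deriv h (ρ ^ 2) * (2 * ρ)

theorem fderiv_radial {h : ℝ → ℝ} (hh : ContDiff ℝ ∞ h) (hη : ∀ z, η z = h (‖z - c‖ ^ 2))
    (z u : ℂ) : fderiv ℝ η z u =
      deriv h (‖z - c‖ ^ 2) * (2 * ((z - c).re * u.re + (z - c).im * u.im)) := by
  have h1 : HasFDerivAt (fun z : ℂ => ‖z - c‖ ^ 2)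
      (2 • (innerSL ℝ (z - c)).comp (ContinuousLinearMap.id ℝ ℂ)) z :=
    ((hasFDerivAt_id z).sub_const c).norm_sq
  have h2 : HasDerivAt h (deriv h (‖z - c‖ ^ 2)) (‖z - c‖ ^ 2) :=
    (hh.differentiable (by simp) _).hasDerivAt
  have h3 : HasFDerivAt η (deriv h (‖z - c‖ ^ 2) •
      (2 • (innerSL ℝ (z - c)).comp (ContinuousLinearMap.id ℝ ℂ))) z := by
    have h4 := h2.comp_hasFDerivAt z h1
    refine h4.congr_of_eventuallyEq (Eventually.of_forall fun y => ?_)
    rw [hη y]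
    rfl
  rw [h3.fderiv]
  simp only [ContinuousLinearMap.comp_id, _root_.smul_apply, coe_innerSL_apply,
    Complex.inner, nsmul_eq_mul, smul_eq_mul]
  simp
  left
  ring

theorem integrand_eq {h : ℝ → ℝ} (hh : ContDiff ℝ ∞ h) (hη : ∀ z, η z = h (‖z - c‖ ^ 2))
    {z : ℂ} (hz : (S z).Nodup) :
    psum S (fun z a b A B => wth (fderiv ℝ η z) a b A B) z =
      2 * deriv h (‖z - c‖ ^ 2) * (Lam S z (I * (z - c))).im := by
  rw [psum_wth S _ hz, fderiv_radial hh hη, fderiv_radial hh hη]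
  have h1 : I * (z - c) = (-(z - c).im : ℝ) • (1 : ℂ) + ((z - c).re : ℝ) • I := by
    apply Complex.ext <;> simp
  rw [h1, map_add, map_smul, map_smul]
  simp
  ring

theorem integrand_zero {h : ℝ → ℝ} (hh : ContDiff ℝ ∞ h) (hη : ∀ z, η z = h (‖z - c‖ ^ 2))
    {z : ℂ} (hz : deriv h (‖z - c‖ ^ 2) = 0) :
    psum S (fun z a b A B => wth (fderiv ℝ η z) a b A B) z = 0 := by
  classical
  by_cases hn : (S z).Nodup
  · rw [integrand_eq hh hη hn, hz]
    ring
  · exact if_neg hn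

theorem deriv_zero {h : ℝ → ℝ} (hC : Cut c R S R₁ R₂ η) (hη : ∀ z, η z = h (‖z - c‖ ^ 2))
    {ρ : ℝ} (hρ : 0 < ρ) (hm : ¬ (R₁ ≤ ρ ∧ ρ ≤ R₂)) : deriv h (ρ ^ 2) = 0 := by
  have hval : ∀ s : ℝ, 0 ≤ s → h s = η (c + Real.sqrt s) := by
    intro s hs
    rw [hη, add_sub_cancel_left, Complex.norm_real, Real.norm_eq_abs,
      abs_of_nonneg (Real.sqrt_nonneg s), Real.sq_sqrt hs]
  have hd : ∀ s : ℝ, dist (c + Real.sqrt s) c = Real.sqrt s := by
    intro s
    rw [dist_eq_norm, add_sub_cancel_left, Complex.norm_real, Real.norm_eq_abs,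
      abs_of_nonneg (Real.sqrt_nonneg s)]
  have hR1 := hC.pos
  rcases lt_or_ge ρ R₁ with h1 | h1
  · have h2 : h =ᶠ[𝓝 (ρ ^ 2)] fun _ => 1 := by
      have h3 : Ioo (0 : ℝ) (R₁ ^ 2) ∈ 𝓝 (ρ ^ 2) :=
        Ioo_mem_nhds (by positivity) (by nlinarith)
      filter_upwards [h3] with s hs
      rw [hval s hs.1.le]
      refine hC.one _ ?_
      rw [mem_closedBall, hd]
      exact Real.sqrt_le_iff.2 ⟨hR1.le, hs.2.le⟩
    rw [h2.deriv_eq]
    simp
  · have h2 : R₂ < ρ := not_le.1 fun h' => hm ⟨h1, h'⟩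
    have hR2 : 0 < R₂ := hC.pos.trans hC.lt
    have h3 : h =ᶠ[𝓝 (ρ ^ 2)] fun _ => 0 := by
      have h4 : Ioi (R₂ ^ 2) ∈ 𝓝 (ρ ^ 2) := Ioi_mem_nhds (by nlinarith)
      filter_upwards [h4] with s hs
      have hs' : R₂ ^ 2 < s := hs
      rw [hval s ((sq_nonneg _).trans hs'.le)]
      refine hC.zero _ ?_
      rw [mem_ball, hd, not_lt]
      exact Real.le_sqrt_of_sq_le hs'.le
    rw [h3.deriv_eq]
    simp

theorem h_ends {h : ℝ → ℝ} (hC : Cut c R S R₁ R₂ η) (hη : ∀ z, η z = h (‖z - c‖ ^ 2)) :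
    h (R₁ ^ 2) = 1 ∧ h (R₂ ^ 2) = 0 := by
  have hR1 := hC.pos
  have hR2 : 0 < R₂ := hC.pos.trans hC.lt
  have hd : ∀ s : ℝ, 0 < s → ‖(c + (s : ℂ)) - c‖ = s := by
    intro s hs
    rw [add_sub_cancel_left, Complex.norm_real, Real.norm_eq_abs, abs_of_pos hs]
  constructor
  · rw [← hC.one (c + (R₁ : ℂ)) (by rw [mem_closedBall, dist_eq_norm, hd _ hR1]), hη, hd _ hR1]
  · rw [← hC.zero (c + (R₂ : ℂ)) (by rw [mem_ball, dist_eq_norm, hd _ hR2]; exact lt_irrefl _),
      hη, hd _ hR2]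

theorem wind_of (h1 : SEL) (_h6 : PSC) : WIND := by
  intro μ β κ L hB c R k S e hK R₁ R₂ η hC
  obtain ⟨h, hh, hη⟩ := hC.radial
  obtain ⟨N, hN⟩ := exists_int_const hB hK h1 hC
  refine ⟨N, ?_⟩
  set f : ℂ → ℝ := fun z => psum S (fun z a b A B => wth (fderiv ℝ η z) a b A B) z with hf
  -- the integrand in polar coordinates
  let F : ℝ × ℝ → ℝ := fun p => Hr h p.1 * (Psi S c (cl R₁ R₂ p.1) p.2).im
  have hFc : Continuous F := by
    have h2 : Continuous fun ρ => Hr h ρ := by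
      have h3 : Continuous (deriv h) := hh.continuous_deriv (by simp)
      exact (h3.comp (continuous_id.pow 2)).mul (continuous_const.mul continuous_id)
    exact (h2.comp continuous_fst).mul (Complex.continuous_im.comp (continuous_Psi hB hK h1 hC))
  have hH0 : ∀ ρ : ℝ, 0 < ρ → ¬ (R₁ ≤ ρ ∧ ρ ≤ R₂) → Hr h ρ = 0 := by
    intro ρ hρ hm
    rw [Hr, deriv_zero hC hη hρ hm, zero_mul]
  have hpol : ∀ p ∈ polarCoord.target, p.1 • f (c + Complex.polarCoord.symm p) = F p := by
    rintro ⟨ρ, t⟩ hp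
    have hρ : 0 < ρ := hp.1
    have h2 : c + Complex.polarCoord.symm (ρ, t) = pt c ρ t := by
      rw [Complex.polarCoord_symm_apply, pt]
    have h3 : ‖pt c ρ t - c‖ ^ 2 = ρ ^ 2 := by
      rw [norm_pt_sub, abs_of_pos hρ]
    rw [h2]
    by_cases hm : R₁ ≤ ρ ∧ ρ ≤ R₂
    · have h4 : f (pt c ρ t) = 2 * deriv h (ρ ^ 2) * (Psi S c ρ t).im := by
        rw [hf]
        have h5 := integrand_eq (η := η) hh hη (pt_mem hC hm t).2
        rw [h3] at h5
        exact h5
      simp only [F, h4, cl_of_mem hm.1 hm.2, Hr, smul_eq_mul]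
      ring
    · have h4 : f (pt c ρ t) = 0 := by
        rw [hf]
        refine integrand_zero hh hη ?_
        rw [h3]
        exact deriv_zero hC hη hρ hm
      simp only [F, h4, hH0 ρ hρ hm, smul_zero, zero_mul]
  have hint : ∫ z, f z = ∫ p in polarCoord.target, F p := by
    rw [← integral_add_left_eq_self f c, ← Complex.integral_comp_polarCoord_symm]
    exact setIntegral_congr_fun polarCoord.open_target.measurableSet hpol
  have hsub : Icc R₁ R₂ ×ˢ Ioo (-Real.pi) Real.pi ⊆ polarCoord.target := by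
    rintro ⟨ρ, t⟩ ⟨hρ, ht⟩
    exact ⟨hC.pos.trans_le hρ.1, ht⟩
  have hint2 : ∫ p in polarCoord.target, F p =
      ∫ p in Icc R₁ R₂ ×ˢ Ioo (-Real.pi) Real.pi, F p := by
    refine setIntegral_eq_of_subset_of_forall_sdiff_eq_zero
      polarCoord.open_target.measurableSet hsub ?_
    rintro ⟨ρ, t⟩ ⟨hp, hp'⟩
    have hρ : 0 < ρ := hp.1
    have hm : ¬ (R₁ ≤ ρ ∧ ρ ≤ R₂) := fun hm => hp' ⟨hm, hp.2⟩
    simp only [F, hH0 ρ hρ hm, zero_mul]
  have hio : IntegrableOn F (Icc R₁ R₂ ×ˢ Ioo (-Real.pi) Real.pi) := by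
    refine IntegrableOn.mono_set (t := Icc R₁ R₂ ×ˢ Icc (-Real.pi) Real.pi) ?_
      (prod_mono le_rfl Ioo_subset_Icc_self)
    exact hFc.continuousOn.integrableOn_compact (isCompact_Icc.prod isCompact_Icc)
  have hint3 : ∫ p in Icc R₁ R₂ ×ˢ Ioo (-Real.pi) Real.pi, F p =
      ∫ ρ in Icc R₁ R₂, Hr h ρ * (2 * Real.pi * N) := by
    rw [Measure.volume_eq_prod] at hio ⊢
    rw [setIntegral_prod F hio]
    refine setIntegral_congr_fun measurableSet_Icc fun ρ _ => ?_
    simp only [F]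
    rw [integral_const_mul, ← hN ρ, intervalIntegral.integral_of_le (by linarith [Real.pi_pos]),
      integral_Ioc_eq_integral_Ioo]
  have hint4 : ∫ ρ in Icc R₁ R₂, Hr h ρ * (2 * Real.pi * N) = - (2 * Real.pi * N) := by
    rw [integral_mul_const, integral_Icc_eq_integral_Ioc,
      ← intervalIntegral.integral_of_le hC.lt.le]
    have h2 : ∀ ρ : ℝ, HasDerivAt (fun ρ : ℝ => h (ρ ^ 2)) (Hr h ρ) ρ := by
      intro ρ
      have h3 : HasDerivAt (fun ρ : ℝ => ρ ^ 2) (2 * ρ) ρ := by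
        simpa using hasDerivAt_pow 2 ρ
      exact ((hh.differentiable (by simp) (ρ ^ 2)).hasDerivAt).comp ρ h3
    have h3 : Continuous fun ρ => Hr h ρ := by
      have h4 : Continuous (deriv h) := hh.continuous_deriv (by simp)
      exact (h4.comp (continuous_id.pow 2)).mul (continuous_const.mul continuous_id)
    rw [intervalIntegral.integral_eq_sub_of_hasDerivAt (fun ρ _ => h2 ρ)
      (h3.intervalIntegrable _ _), (h_ends hC hη).1, (h_ends hC hη).2]
    ring
  have hfl : flux S η = - ∫ z, f z := rfl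
  rw [hfl, hint, hint2, hint3, hint4, neg_neg]

end Main

end

end Crest.Agent.R235.LocWind_601
end

-- ▼ part R235/LocSuper_347
section

/-!
Row 235 (S0364), PACKAGE REG, sub-block LOC, leaf LOC-12 (task 226, helper347):
finiteness of the non-simple points from superadditivity of the flux.
-/

set_option autoImplicit false

open MeasureTheory Metric Set Filter Complex
open scoped ContDiff Topology

namespace Crest.Agent.R235.LocSuper_347

open Crest.Agent.R235.Loc

noncomputable section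

/-! ### the truncation -/

lemma chi_deriv_bound {χ : ℝ → ℝ} (h : Chi χ) :
    ∃ C : ℝ, 0 ≤ C ∧ ∀ t, 0 ≤ - deriv χ t ∧ - deriv χ t ≤ C := by
  have hd : Continuous (deriv χ) := h.smooth.continuous_deriv (by simp)
  obtain ⟨C, hC⟩ := (isCompact_Icc (a := (1:ℝ)) (b := 2)).exists_bound_of_continuousOn
    hd.continuousOn
  have hC0 : 0 ≤ C := le_trans (norm_nonneg _) (hC 1 (by constructor <;> norm_num))
  refine ⟨C, hC0, fun t => ⟨?_, ?_⟩⟩
  · have := h.anti.deriv_nonpos (x := t)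
    linarith
  · by_cases h1 : t < 1
    · have h3 : χ =ᶠ[𝓝 t] fun _ => 1 := by
        filter_upwards [Iio_mem_nhds h1] with s hs using h.one s (le_of_lt hs)
      rw [h3.deriv_eq]
      simpa using hC0
    · by_cases h2 : 2 < t
      · have h3 : χ =ᶠ[𝓝 t] fun _ => 0 := by
          filter_upwards [Ioi_mem_nhds h2] with s hs using h.zero s (le_of_lt hs)
        rw [h3.deriv_eq]
        simpa using hC0
      · exact le_trans (neg_le_abs _) (hC t ⟨not_lt.mp h1, not_lt.mp h2⟩)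

lemma deriv_chi_div (χ : ℝ → ℝ) (n t : ℝ) :
    deriv (fun s => χ (s / n)) t = deriv χ (t / n) / n := by
  have h := deriv_comp_mul_left n⁻¹ χ t
  have e1 : (fun s => χ (s / n)) = fun s => χ (n⁻¹ * s) := by
    funext s
    rw [div_eq_inv_mul]
  rw [e1, h, smul_eq_mul, div_eq_inv_mul, div_eq_inv_mul]

/-! ### pair sums -/

lemma psum_neg (S : ℂ → Multiset ℂ) (G : ℂ → ℂ → ℂ → (ℂ →L[ℝ] ℂ) → (ℂ →L[ℝ] ℂ) → ℝ) (z : ℂ) :
    psum S (fun z a b A B => - G z a b A B) z = - psum S G z := by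
  unfold psum
  split_ifs <;> simp

/-- the slopes of a `k`-valued graph at a simple point solve the equation and are bounded by the
energy density. -/
lemma slope_facts (h1 : SEL) {μ β : ℂ × ℂ → ℂ} {κ L : ℝ} (hbd : BoxD μ β κ L) {c : ℂ} {R : ℝ}
    {k : ℕ} {S : ℂ → Multiset ℂ} {e : ℂ → ℝ} (hK : KG μ β c R k S e) {z : ℂ}
    (hz : z ∈ ball c R) (hn : (S z).Nodup) {a : ℂ} (ha : a ∈ S z) :
    lzb (slope S z a) = μ (z, a) * lz (slope S z a) - β (z, a) ∧ ‖slope S z a‖ ^ 2 ≤ e z := by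
  obtain ⟨-, h⟩ := h1 μ β κ L hbd c R k S e hK
  obtain ⟨r, w, hr, hsub, hsh, -, -, hS, hsl⟩ := h z ⟨hz, hn⟩
  have hzb : z ∈ ball z r := mem_ball_self hr
  rw [hS z hzb] at ha
  obtain ⟨i, -, hi⟩ := Multiset.mem_map.mp ha
  have hV : ball z r ⊆ ball c R := fun x hx => (hsub hx).1
  rw [← hi]
  rw [hsl z hzb i]
  exact ⟨hK.pde _ _ hV (hsh i) z hzb, hK.ebd _ _ hV (hsh i) z hzb⟩

/-- comparison of the pair sums of a cluster and of the whole graph at a simple point. -/
lemma psum_cluster {S T : ℂ → Multiset ℂ} {z : ℂ} (hn : (S z).Nodup) (hsub : T z ≤ S z)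
    (hsl : ∀ b ∈ T z, slope T z b = slope S z b)
    (G : ℂ → ℂ → ℂ → (ℂ →L[ℝ] ℂ) → (ℂ →L[ℝ] ℂ) → ℝ) {δ : ℝ} (hδ : 0 ≤ δ)
    (hG : ∀ a ∈ S z, ∀ b ∈ S z, a ≠ b → -δ ≤ G z a b (slope S z a) (slope S z b))
    {η : ℝ} (h0 : 0 ≤ η) (h1 : η ≤ 1) :
    η * psum T G z - ((S z).card : ℝ) ^ 2 * δ ≤ psum S G z := by
  classical
  have hnT : (T z).Nodup := Multiset.nodup_of_le hsub hn
  set P := (S z).toFinset.offDiag with hP
  set P' := (T z).toFinset.offDiag with hP'
  have hPP : P' ⊆ P := by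
    apply Finset.offDiag_mono
    intro x hx
    rw [Multiset.mem_toFinset] at hx ⊢
    exact Multiset.mem_of_le hsub hx
  set x : ℂ × ℂ → ℝ := fun q => G z q.1 q.2 (slope S z q.1) (slope S z q.2) with hx
  have eS : psum S G z = ∑ q ∈ P, x q := by
    unfold psum
    rw [if_pos hn]
  have eT : psum T G z = ∑ q ∈ P', x q := by
    unfold psum
    rw [if_pos hnT]
    refine Finset.sum_congr (by rw [hP']) fun q hq => ?_
    have hq' := Finset.mem_offDiag.mp hq
    rw [Multiset.mem_toFinset, Multiset.mem_toFinset] at hq'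
    simp only [hx]
    rw [hsl _ hq'.1, hsl _ hq'.2.1]
  have hxδ : ∀ q ∈ P, 0 ≤ x q + δ := by
    intro q hq
    have hq' := Finset.mem_offDiag.mp hq
    rw [Multiset.mem_toFinset, Multiset.mem_toFinset] at hq'
    have := hG q.1 hq'.1 q.2 hq'.2.1 hq'.2.2
    linarith
  have e1 : ∑ q ∈ P', (x q + δ) ≤ ∑ q ∈ P, (x q + δ) :=
    Finset.sum_le_sum_of_subset_of_nonneg hPP fun q hq _ => hxδ q hq
  have e2 : 0 ≤ ∑ q ∈ P', (x q + δ) := Finset.sum_nonneg fun q hq => hxδ q (hPP hq)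
  have e3 : η * ∑ q ∈ P', (x q + δ) ≤ ∑ q ∈ P', (x q + δ) := by
    nlinarith
  rw [Finset.sum_add_distrib, Finset.sum_const, nsmul_eq_mul] at e1 e3
  rw [Finset.sum_add_distrib, Finset.sum_const, nsmul_eq_mul] at e1
  have e4 : (P.card : ℝ) ≤ ((S z).card : ℝ) ^ 2 := by
    have h5 : P.card ≤ (S z).card ^ 2 := by
      rw [hP, Finset.offDiag_card]
      have h6 : (S z).toFinset.card ≤ (S z).card := Multiset.toFinset_card_le _
      calc (S z).toFinset.card * (S z).toFinset.card - (S z).toFinset.card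
          ≤ (S z).toFinset.card * (S z).toFinset.card := Nat.sub_le _ _
        _ ≤ (S z).card * (S z).card := Nat.mul_le_mul h6 h6
        _ = (S z).card ^ 2 := (sq _).symm
    exact_mod_cast h5
  have e5 : (P.card : ℝ) * δ ≤ ((S z).card : ℝ) ^ 2 * δ := mul_le_mul_of_nonneg_right e4 hδ
  have e6 : 0 ≤ (P'.card : ℝ) * δ := by positivity
  have e7 : 0 ≤ η * ((P'.card : ℝ) * δ) := mul_nonneg h0 e6
  rw [eS, eT]
  nlinarith

/-- the lower bound for one term. -/
lemma term_lb (h1 : SEL) {μ β : ℂ × ℂ → ℂ} {κ L : ℝ} (hbd : BoxD μ β κ L) {c : ℂ} {R : ℝ}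
    {k : ℕ} {S : ℂ → Multiset ℂ} {e : ℂ → ℝ} (hK : KG μ β c R k S e)
    {c₀ C₀ : ℝ} (hc₀ : 0 < c₀) (hC₀ : 0 ≤ C₀)
    (hJ : ∀ (z a b : ℂ) (A B : ℂ →L[ℝ] ℂ), a ≠ b →
      lzb A = μ (z, a) * lz A - β (z, a) → lzb B = μ (z, b) * lz B - β (z, b) →
      c₀ * ‖pdL a b A B‖ ^ 2 - C₀ * (1 + ‖B‖ ^ 2) ≤ pJ a b A B)
    {z : ℂ} (hz : z ∈ ball c R) (hn : (S z).Nodup) {C t : ℝ} (ht0 : 0 ≤ t)
    (htC : t ≤ C) {a b : ℂ} (ha : a ∈ S z) (hb : b ∈ S z) (hab : a ≠ b) :
    -(C * C₀ * (1 + e z)) ≤ t * pJ a b (slope S z a) (slope S z b) := by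
  obtain ⟨pa, -⟩ := slope_facts h1 hbd hK hz hn ha
  obtain ⟨pb, eb⟩ := slope_facts h1 hbd hK hz hn hb
  have h := hJ z a b _ _ hab pa pb
  have he := hK.e0 z
  have h2 : -(C₀ * (1 + e z)) ≤ pJ a b (slope S z a) (slope S z b) := by
    have h3 : 0 ≤ c₀ * ‖pdL a b (slope S z a) (slope S z b)‖ ^ 2 := by positivity
    have h4 : C₀ * (1 + ‖slope S z b‖ ^ 2) ≤ C₀ * (1 + e z) :=
      mul_le_mul_of_nonneg_left (by linarith) hC₀
    linarith
  have h5 : t * (-(C₀ * (1 + e z))) ≤ t * pJ a b (slope S z a) (slope S z b) :=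
    mul_le_mul_of_nonneg_left h2 ht0
  have h6 : t * (C₀ * (1 + e z)) ≤ C * (C₀ * (1 + e z)) :=
    mul_le_mul_of_nonneg_right htC (by positivity)
  nlinarith

/-! ### small disjoint discs -/

lemma exists_radius {c : ℂ} {R₁ : ℝ} (F : Finset ℂ) (hF : ∀ q ∈ F, q ∈ ball c R₁) :
    ∃ r : ℝ, 0 < r ∧ (∀ q ∈ F, ball q r ⊆ ball c R₁) ∧
      ∀ q ∈ F, ∀ q' ∈ F, q ≠ q' → Disjoint (ball q r) (ball q' r) := by
  have e1 : ∀ q ∈ F, ∀ᶠ r : ℝ in 𝓝[>] 0, ball q r ⊆ ball c R₁ := by
    intro q hq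
    have h : 0 < R₁ - dist q c := by
      have := mem_ball.mp (hF q hq)
      linarith
    filter_upwards [Ioo_mem_nhdsGT h] with r hr
    exact ball_subset_ball' (by linarith [hr.2])
  have e2 : ∀ q ∈ F, ∀ q' ∈ F, ∀ᶠ r : ℝ in 𝓝[>] 0,
      (q ≠ q' → Disjoint (ball q r) (ball q' r)) := by
    intro q _ q' _
    by_cases hqq : q = q'
    · exact Eventually.of_forall fun r hne => absurd hqq hne
    · have h : 0 < dist q q' / 2 := by
        have := dist_pos.mpr hqq
        linarith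
      filter_upwards [Ioo_mem_nhdsGT h] with r hr _
      exact ball_disjoint_ball (by linarith [hr.2])
  have e3 : ∀ᶠ r : ℝ in 𝓝[>] 0, ∀ q ∈ F, ball q r ⊆ ball c R₁ :=
    (Finset.eventually_all F).mpr e1
  have e4 : ∀ᶠ r : ℝ in 𝓝[>] 0, ∀ q ∈ F, ∀ q' ∈ F, (q ≠ q' → Disjoint (ball q r) (ball q' r)) :=
    (Finset.eventually_all F).mpr fun q hq => (Finset.eventually_all F).mpr fun q' hq' =>
      e2 q hq q' hq'
  obtain ⟨r, ⟨h3, h4⟩, h5⟩ := ((e3.and e4).and self_mem_nhdsWithin).exists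
  exact ⟨r, h5, h3, h4⟩

/-! ### integrability of the flux density -/

lemma cut_tsupport {c : ℂ} {R : ℝ} {S : ℂ → Multiset ℂ} {R₁ R₂ : ℝ} {η : ℂ → ℝ}
    (h : Cut c R S R₁ R₂ η) : tsupport η ⊆ closedBall c R₂ := by
  apply closure_minimal _ isClosed_closedBall
  intro z hz
  by_contra hz'
  exact hz (h.zero z fun h' => hz' (ball_subset_closedBall h'))

lemma flux_integrable (hS : STAR) {χ : ℝ → ℝ} (hχ : Chi χ) {μ β : ℂ × ℂ → ℂ} {κ L : ℝ}
    (hbd : BoxD μ β κ L) {c : ℂ} {R : ℝ} {k : ℕ} {S : ℂ → Multiset ℂ} {e : ℂ → ℝ}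
    (hK : KG μ β c R k S e) (hD : DiscOff c R S) {R₁ R₂ : ℝ} {η : ℂ → ℝ}
    (hc : Cut c R S R₁ R₂ η) {n : ℝ} (hn : 0 < n) :
    Integrable (fun z => η z *
      psum S (fun _ a b A B => (- deriv χ (pv a b / n) / n) * pJ a b A B) z) := by
  have h := hS μ β κ L hbd c R k S e hK hD (fun s => χ (s / n)) (2 * n)
    ((hχ.smooth.of_le (by simp)).comp (contDiff_id.div_const n)) (fun t ht => by
      apply hχ.zero
      rw [le_div_iff₀ hn]
      exact ht) η (hc.smooth.of_le (by simp))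
    (HasCompactSupport.of_support_subset_isCompact (isCompact_closedBall c R₂)
      ((subset_tsupport η).trans (cut_tsupport hc)))
    ((cut_tsupport hc).trans (closedBall_subset_ball hc.lt'))
  have h2 := h.1.neg
  refine h2.congr (Eventually.of_forall fun z => ?_)
  simp only [Pi.neg_apply]
  have e1 : (fun (_ : ℂ) (a b : ℂ) (A B : ℂ →L[ℝ] ℂ) =>
      (- deriv χ (pv a b / n) / n) * pJ a b A B) =
      fun (z : ℂ) (a b : ℂ) (A B : ℂ →L[ℝ] ℂ) =>
        - ((fun (_ : ℂ) (a b : ℂ) (A B : ℂ →L[ℝ] ℂ) =>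
          deriv (fun s => χ (s / n)) (pv a b) * pJ a b A B) z a b A B) := by
    funext _ a b A B
    simp only [deriv_chi_div]
    ring
  rw [e1, psum_neg]
  ring

/-! ### LOC-12 -/

theorem super_of (hS : STAR) (hF : FLUX) (h1 : SEL) (h4 : JALG) (hχ' : ∃ χ, Chi χ) : SUPER := by
  intro μ β κ L hbd c R k S e hK hD R₁ R₂ η hcut hdat
  obtain ⟨χ, hχ⟩ := hχ'
  obtain ⟨C, hC0, hC⟩ := chi_deriv_bound hχ
  obtain ⟨c₀, C₀, hc₀, hC₀, hJ'⟩ := h4 κ L hbd.κ0 hbd.κ1 hbd.L0
  have hJ := fun z a b A B hab h h' => (hJ' μ β hbd z a b A B hab h h').1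
  -- the error
  set E : ℂ → ℝ := fun z => (k : ℝ) ^ 2 * (C * C₀ * (1 + e z)) with hE
  have hEint : IntegrableOn E (ball c R) := by
    have h2 : IntegrableOn (fun z => 1 + e z) (ball c R) :=
      (integrableOn_const (measure_ball_lt_top.ne)).add hK.eint
    exact (h2.const_mul _).const_mul _
  have hbR : ball c R₂ ⊆ ball c R := ball_subset_ball hcut.lt'.le
  have h12 : ball c R₁ ⊆ ball c R := ball_subset_ball (hcut.lt.le.trans hcut.lt'.le)
  have claim : ∀ F : Finset ℂ, (F : Set ℂ) ⊆ Del c R S ∩ ball c R₁ →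
      2 * Real.pi * F.card ≤ flux S η := by
    intro F hFs
    obtain ⟨r, hr, hrb, hrd⟩ := exists_radius (c := c) (R₁ := R₁) F fun q hq => (hFs hq).2
    have hdat' := fun (q : ℂ) (hq : q ∈ F) => hdat q (hFs hq).1 (hFs hq).2 r hr
    choose! a ε r' R₁' R₂' k' η' hε hr' hr'r hball hKq hDq hsl hcq hfl using hdat'
    -- densities
    set f : ℝ → ℂ → ℝ := fun n z => η z *
      psum S (fun _ a b A B => (- deriv χ (pv a b / n) / n) * pJ a b A B) z with hf
    set g : ℂ → ℝ → ℂ → ℝ := fun q n z => η' q z *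
      psum (fun z => (S z).filter (fun b => dist b (a q) < ε q))
        (fun _ a b A B => (- deriv χ (pv a b / n) / n) * pJ a b A B) z with hg
    have hfint : ∀ n : ℝ, 0 < n → Integrable (f n) := fun n hn =>
      flux_integrable hS hχ hbd hK hD hcut hn
    have hgint : ∀ q ∈ F, ∀ n : ℝ, 0 < n → Integrable (g q n) := fun q hq n hn =>
      flux_integrable hS hχ hbd (hKq q hq) (hDq q hq) (hcq q hq) hn
    have hfe : ∀ᶠ n : ℝ in atTop, ∫ z, f n z = flux S η := by
      obtain ⟨⟨n₀, hn₀⟩, -, -⟩ := hF χ hχ μ β κ L hbd c R k S e hK hD R₁ R₂ η hcut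
      filter_upwards [eventually_ge_atTop n₀] with n hn using hn₀ n hn
    have hge : ∀ᶠ n : ℝ in atTop, ∀ q ∈ F, 2 * Real.pi ≤ ∫ z, g q n z := by
      refine (Finset.eventually_all F).mpr fun q hq => ?_
      obtain ⟨⟨n₀, hn₀⟩, -, -⟩ := hF χ hχ μ β κ L hbd q (r' q) (k' q) _ e (hKq q hq)
        (hDq q hq) (R₁' q) (R₂' q) (η' q) (hcq q hq)
      filter_upwards [eventually_ge_atTop n₀] with n hn
      rw [hg]
      simp only
      rw [hn₀ n hn]
      exact hfl q hq
    -- supports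
    have hη'0 : ∀ q ∈ F, ∀ z, z ∉ ball q (r' q) → η' q z = 0 := by
      intro q hq z hz
      exact (hcq q hq).zero z fun h => hz (ball_subset_ball (hcq q hq).lt'.le h)
    -- pointwise comparison
    have hpt : ∀ n : ℝ, 0 < n → ∀ᵐ z, ∑ q ∈ F, g q n z - (ball c R).indicator (fun z => n⁻¹ * E z) z
        ≤ f n z := by
      intro n hn
      have hnull : ∀ᵐ z, z ∈ ball c R → (S z).Nodup := by
        rw [ae_iff]
        convert hK.null using 2
        ext z
        simp
      filter_upwards [hnull] with z hz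
      by_cases hzR : z ∈ ball c R
      · have hn' := hz hzR
        rw [indicator_of_mem hzR]
        have hcard := hK.card z hzR
        set δ : ℝ := n⁻¹ * (C * C₀ * (1 + e z)) with hδ
        have he := hK.e0 z
        have hδ0 : 0 ≤ δ := by positivity
        have hEδ : n⁻¹ * E z = ((S z).card : ℝ) ^ 2 * δ := by
          rw [hcard, hδ, hE]
          ring
        rw [hEδ]
        have hG : ∀ a ∈ S z, ∀ b ∈ S z, a ≠ b → -δ ≤
            (fun (_ : ℂ) (a b : ℂ) (A B : ℂ →L[ℝ] ℂ) =>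
              (- deriv χ (pv a b / n) / n) * pJ a b A B) z a b (slope S z a) (slope S z b) := by
          intro a ha b hb hab
          obtain ⟨t1, t2⟩ := hC (pv a b / n)
          have h3 := term_lb h1 hbd hK hc₀ hC₀ hJ hzR hn' (C := C / n)
            (t := - deriv χ (pv a b / n) / n) (by positivity)
            (by gcongr) ha hb hab
          simp only
          refine le_trans (le_of_eq ?_) h3
          rw [hδ]
          field_simp
        by_cases hq : ∃ q ∈ F, z ∈ ball q (r' q)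
        · obtain ⟨q, hqF, hzq⟩ := hq
          have hsum : ∑ q ∈ F, g q n z = g q n z := by
            apply Finset.sum_eq_single_of_mem q hqF
            intro q' hq' hne
            have h5 : z ∉ ball q' (r' q') := by
              intro h6
              have hd := hrd q' hq' q hqF hne
              exact (Set.disjoint_left.mp hd) (ball_subset_ball (hr'r q' hq').le h6)
                (ball_subset_ball (hr'r q hqF).le hzq)
            rw [hg]
            simp only
            rw [hη'0 q' hq' z h5, zero_mul]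
          rw [hsum]
          have hη1 : η z = 1 := by
            apply hcut.one
            exact ball_subset_closedBall (hrb q hqF (ball_subset_ball (hr'r q hqF).le hzq))
          have h6 := psum_cluster (S := S)
            (T := fun z => (S z).filter (fun b => dist b (a q) < ε q)) (z := z) hn'
            (Multiset.filter_le _ _) (hsl q hqF z hzq hn')
            (fun _ a b A B => (- deriv χ (pv a b / n) / n) * pJ a b A B) hδ0 hG
            ((hcq q hqF).nonneg z) ((hcq q hqF).le_one z)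
          simp only [hf, hg, hη1, one_mul]
          exact h6
        · push Not at hq
          have hsum : ∑ q ∈ F, g q n z = 0 := by
            apply Finset.sum_eq_zero
            intro q hqF
            rw [hg]
            simp only
            rw [hη'0 q hqF z (hq q hqF), zero_mul]
          rw [hsum]
          have h6 := psum_cluster (S := S) (T := S) (z := z) hn' le_rfl (fun _ _ => rfl)
            (fun _ a b A B => (- deriv χ (pv a b / n) / n) * pJ a b A B) hδ0 hG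
            (η := 0) le_rfl zero_le_one
          rw [zero_mul, zero_sub] at h6
          have h7 := hcut.nonneg z
          have h8 := hcut.le_one z
          have h9 : 0 ≤ ((S z).card : ℝ) ^ 2 * δ := by positivity
          simp only [hf]
          nlinarith
      · rw [indicator_of_notMem hzR]
        have hsum : ∑ q ∈ F, g q n z = 0 := by
          apply Finset.sum_eq_zero
          intro q hqF
          rw [hg]
          simp only
          rw [hη'0 q hqF z (fun h => hzR (hball q hqF h)), zero_mul]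
        rw [hsum]
        have hη0 : η z = 0 := hcut.zero z fun h => hzR (hbR h)
        simp only [hf, hη0, zero_mul]
        simp
    -- integrate
    set K : ℝ := ∫ z in ball c R, E z with hKdef
    have hfin : ∀ᶠ n : ℝ in atTop, 2 * Real.pi * F.card - n⁻¹ * K ≤ flux S η := by
      filter_upwards [hfe, hge, eventually_gt_atTop 0] with n h5 h6 hn
      have hindint : Integrable ((ball c R).indicator (fun z => n⁻¹ * E z)) :=
        (integrable_indicator_iff measurableSet_ball).mpr (hEint.const_mul _)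
      have hsumint : Integrable (fun z => ∑ q ∈ F, g q n z) :=
        integrable_finsetSum F fun q hq => hgint q hq n hn
      have h7 : ∫ z, (∑ q ∈ F, g q n z - (ball c R).indicator (fun z => n⁻¹ * E z) z)
          ≤ ∫ z, f n z :=
        integral_mono_ae (hsumint.sub hindint) (hfint n hn) (hpt n hn)
      rw [integral_sub hsumint hindint, integral_finsetSum F fun q hq => hgint q hq n hn,
        integral_indicator measurableSet_ball, integral_const_mul, h5] at h7
      have h8 : ∑ q ∈ F, 2 * Real.pi ≤ ∑ q ∈ F, ∫ z, g q n z :=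
        Finset.sum_le_sum fun q hq => h6 q hq
      rw [Finset.sum_const, nsmul_eq_mul] at h8
      linarith
    have hlim : Tendsto (fun n : ℝ => 2 * Real.pi * F.card - n⁻¹ * K) atTop
        (𝓝 (2 * Real.pi * F.card - 0 * K)) :=
      tendsto_const_nhds.sub (tendsto_inv_atTop_zero.mul_const K)
    have := le_of_tendsto hlim hfin
    simpa using this
  by_contra hinf
  obtain ⟨N, hN⟩ := exists_nat_gt (flux S η / (2 * Real.pi))
  obtain ⟨F, hFs, hFc⟩ := Set.Infinite.exists_subset_card_eq hinf N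
  have h2 := claim F hFs
  rw [hFc] at h2
  have h3 := (div_lt_iff₀ Real.two_pi_pos).mp hN
  linarith

end

end Crest.Agent.R235.LocSuper_347
end

-- ▼ part R235/LocFin_607

/-!
Row 235, package REG, REG-LOC: final assembly. All leaves except `NONZ`.
-/

set_option autoImplicit false

namespace Crest.Agent.R235.LocFin_607

open Crest.Agent.R235.Loc

theorem sel : SEL := LocSel_483.sel
theorem stokes : STOKES := LocStokes_326.stokes
theorem jalg : JALG := LocAlg_895.jalg
theorem psc : PSC := Loc.Psc792.psc_of sel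
theorem star : STAR := LocStar_936.star sel stokes psc
theorem logv : LOGV := LocLogv_800.logv_of star jalg psc sel
theorem circ : CIRC := LocCirc_891.circ_of logv sel psc
theorem cut : CUT := cut_of circ
theorem flux : FLUX := LocFlux.flux_of star sel jalg psc
theorem wind : WIND := LocWind_601.wind_of sel psc
theorem clus : CLUS := LocClus_305.clus
theorem offz : OFFZ := LocAsm_437.offz clus
theorem super : SUPER := LocSuper_347.super_of star flux sel jalg exists_chi

theorem loc_of_nonz (h : NONZ) : LOC :=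
  LocAsm_437.loc_of clus offz cut flux wind h super exists_chi

end Crest.Agent.R235.LocFin_607
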