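import Crest.Agent.R235.LocDef_607

-- ▼ part R235/LocNonzA_774
section

/-!
Row 235, REG-LOC 11 (NONZ), part A: pointwise tools.

* `psum` algebra, the truncation `Phi`
* the linear forms `x dy - y dx` around the centre, the pointwise identity
-/

set_option autoImplicit false

open MeasureTheory Metric Set Filter Complex
open scoped ContDiff Topology

namespace Crest.Agent.R235.LocNonzA_774

open Crest.Agent.R235.Loc

noncomputable section

/-! ### `psum` -/

section psum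

variable {S : ℂ → Multiset ℂ} {G H : ℂ → ℂ → ℂ → (ℂ →L[ℝ] ℂ) → (ℂ →L[ℝ] ℂ) → ℝ} {z : ℂ}

open Classical in
theorem psum_of (hz : (S z).Nodup) : psum S G z =
    ∑ q ∈ (S z).toFinset.offDiag, G z q.1 q.2 (slope S z q.1) (slope S z q.2) := by
  rw [psum, if_pos hz]

theorem psum_not (hz : ¬ (S z).Nodup) : psum S G z = 0 := by
  rw [psum, if_neg hz]

theorem psum_le (h : (S z).Nodup → ∀ a ∈ S z, ∀ b ∈ S z, a ≠ b →
      G z a b (slope S z a) (slope S z b) ≤ H z a b (slope S z a) (slope S z b)) :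
    psum S G z ≤ psum S H z := by
  classical
  by_cases hz : (S z).Nodup
  · rw [psum_of hz, psum_of hz]
    apply Finset.sum_le_sum
    intro q hq
    rw [Finset.mem_offDiag, Multiset.mem_toFinset, Multiset.mem_toFinset] at hq
    exact h hz _ hq.1 _ hq.2.1 hq.2.2
  · rw [psum_not hz, psum_not hz]

theorem psum_congr (h : (S z).Nodup → ∀ a ∈ S z, ∀ b ∈ S z, a ≠ b →
      G z a b (slope S z a) (slope S z b) = H z a b (slope S z a) (slope S z b)) :
    psum S G z = psum S H z :=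
  le_antisymm (psum_le fun hz a ha b hb hab => (h hz a ha b hb hab).le)
    (psum_le fun hz a ha b hb hab => (h hz a ha b hb hab).ge)

theorem psum_nonneg (h : (S z).Nodup → ∀ a ∈ S z, ∀ b ∈ S z, a ≠ b →
      0 ≤ G z a b (slope S z a) (slope S z b)) : 0 ≤ psum S G z := by
  classical
  by_cases hz : (S z).Nodup
  · rw [psum_of hz]
    apply Finset.sum_nonneg
    intro q hq
    rw [Finset.mem_offDiag, Multiset.mem_toFinset, Multiset.mem_toFinset] at hq
    exact h hz _ hq.1 _ hq.2.1 hq.2.2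
  · rw [psum_not hz]

theorem psum_add : psum S (fun z a b A B => G z a b A B + H z a b A B) z =
    psum S G z + psum S H z := by
  classical
  by_cases hz : (S z).Nodup
  · rw [psum_of hz, psum_of hz, psum_of hz, Finset.sum_add_distrib]
  · rw [psum_not hz, psum_not hz, psum_not hz, add_zero]

theorem psum_sub : psum S (fun z a b A B => G z a b A B - H z a b A B) z =
    psum S G z - psum S H z := by
  classical
  by_cases hz : (S z).Nodup
  · rw [psum_of hz, psum_of hz, psum_of hz, Finset.sum_sub_distrib]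
  · rw [psum_not hz, psum_not hz, psum_not hz, sub_zero]

theorem psum_mul (t : ℂ → ℝ) : psum S (fun z a b A B => t z * G z a b A B) z =
    t z * psum S G z := by
  classical
  by_cases hz : (S z).Nodup
  · rw [psum_of hz, psum_of hz, Finset.mul_sum]
  · rw [psum_not hz, psum_not hz, mul_zero]

theorem abs_psum_le_psum : |psum S G z| ≤ psum S (fun z a b A B => |G z a b A B|) z := by
  classical
  by_cases hz : (S z).Nodup
  · rw [psum_of hz, psum_of hz]
    exact Finset.abs_sum_le_sum_abs _ _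
  · rw [psum_not hz, psum_not hz, abs_zero]

theorem psum_le_const {k : ℕ} (hk : (S z).card = k) {C : ℝ} (hC : 0 ≤ C)
    (h : (S z).Nodup → ∀ a ∈ S z, ∀ b ∈ S z, a ≠ b →
      G z a b (slope S z a) (slope S z b) ≤ C) : psum S G z ≤ (k : ℝ) ^ 2 * C := by
  classical
  by_cases hz : (S z).Nodup
  · rw [psum_of hz]
    have h1 : ∑ q ∈ (S z).toFinset.offDiag, G z q.1 q.2 (slope S z q.1) (slope S z q.2) ≤
        ∑ q ∈ (S z).toFinset.offDiag, C := by
      apply Finset.sum_le_sum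
      intro q hq
      rw [Finset.mem_offDiag, Multiset.mem_toFinset, Multiset.mem_toFinset] at hq
      exact h hz _ hq.1 _ hq.2.1 hq.2.2
    refine h1.trans ?_
    rw [Finset.sum_const, nsmul_eq_mul]
    apply mul_le_mul_of_nonneg_right _ hC
    have h2 : (S z).toFinset.offDiag.card ≤ k ^ 2 := by
      rw [Finset.offDiag_card, Multiset.toFinset_card_of_nodup hz, hk, sq]
      exact Nat.sub_le _ _
    exact_mod_cast h2
  · rw [psum_not hz]; positivity

theorem le_psum_const {k : ℕ} (hk : (S z).card = k) (h2 : 2 ≤ k) (hz : (S z).Nodup) {C : ℝ}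
    (hC : 0 ≤ C) (h : ∀ a ∈ S z, ∀ b ∈ S z, a ≠ b →
      C ≤ G z a b (slope S z a) (slope S z b)) : C ≤ psum S G z := by
  classical
  rw [psum_of hz]
  have h1 : ∑ q ∈ (S z).toFinset.offDiag, C ≤
      ∑ q ∈ (S z).toFinset.offDiag, G z q.1 q.2 (slope S z q.1) (slope S z q.2) := by
    apply Finset.sum_le_sum
    intro q hq
    rw [Finset.mem_offDiag, Multiset.mem_toFinset, Multiset.mem_toFinset] at hq
    exact h _ hq.1 _ hq.2.1 hq.2.2
  refine le_trans ?_ h1
  rw [Finset.sum_const, nsmul_eq_mul]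
  have h3 : 1 ≤ (S z).toFinset.offDiag.card := by
    rw [Finset.offDiag_card, Multiset.toFinset_card_of_nodup hz, hk]
    have : k + 1 ≤ k * k := by nlinarith
    omega
  have h4 : (1 : ℝ) ≤ ((S z).toFinset.offDiag.card : ℝ) := by exact_mod_cast h3
  nlinarith

theorem psum_const_eq {k : ℕ} (hk : (S z).card = k) (hz : (S z).Nodup) {C : ℝ}
    (h : ∀ a ∈ S z, ∀ b ∈ S z, a ≠ b → G z a b (slope S z a) (slope S z b) = C) :
    psum S G z = ((k * k - k : ℕ) : ℝ) * C := by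
  classical
  rw [psum_of hz]
  have h1 : ∑ q ∈ (S z).toFinset.offDiag, G z q.1 q.2 (slope S z q.1) (slope S z q.2) =
      ∑ q ∈ (S z).toFinset.offDiag, C := by
    apply Finset.sum_congr rfl
    intro q hq
    rw [Finset.mem_offDiag, Multiset.mem_toFinset, Multiset.mem_toFinset] at hq
    exact h _ hq.1 _ hq.2.1 hq.2.2
  rw [h1, Finset.sum_const, nsmul_eq_mul, Finset.offDiag_card,
    Multiset.toFinset_card_of_nodup hz, hk]

/-- local representation -/
theorem psum_rep {k : ℕ} {w : Fin k → ℂ → ℂ} (hinj : Function.Injective (fun i => w i z))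
    (hS : S z = Multiset.map (fun i => w i z) Finset.univ.val)
    (hsl : ∀ i, slope S z (w i z) = fderiv ℝ (w i) z) :
    psum S G z = ∑ p ∈ (Finset.univ : Finset (Fin k)).offDiag,
      G z (w p.1 z) (w p.2 z) (fderiv ℝ (w p.1) z) (fderiv ℝ (w p.2) z) := by
  classical
  have hnd : (S z).Nodup := by
    rw [hS]
    exact Multiset.Nodup.map hinj Finset.univ.nodup
  rw [psum_of hnd]
  symm
  have hmem : ∀ x, x ∈ S z ↔ ∃ i, w i z = x := by
    intro x
    rw [hS]; simp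
  refine Finset.sum_nbij (fun p => (w p.1 z, w p.2 z)) ?_ ?_ ?_ ?_
  · rintro ⟨i, j⟩ hp
    rw [Finset.mem_offDiag] at hp ⊢
    rw [Multiset.mem_toFinset, Multiset.mem_toFinset, hmem, hmem]
    exact ⟨⟨i, rfl⟩, ⟨j, rfl⟩, fun h => hp.2.2 (hinj h)⟩
  · rintro ⟨i, j⟩ _ ⟨i', j'⟩ _ h
    rw [Prod.mk.injEq] at h
    exact Prod.ext (hinj h.1) (hinj h.2)
  · rintro ⟨x, y⟩ hq
    rw [Finset.mem_coe, Finset.mem_offDiag, Multiset.mem_toFinset, Multiset.mem_toFinset, hmem,
      hmem] at hq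
    obtain ⟨⟨i, hi⟩, ⟨j, hj⟩, hne⟩ := hq
    refine ⟨(i, j), ?_, ?_⟩
    · rw [Finset.mem_coe, Finset.mem_offDiag]
      refine ⟨Finset.mem_univ _, Finset.mem_univ _, fun h => hne ?_⟩
      simp only at h
      rw [← hi, ← hj, h]
    · simp only [Prod.mk.injEq]; exact ⟨hi, hj⟩
  · rintro ⟨i, j⟩ _
    rw [hsl, hsl]

end psum

/-! ### `χ` and its primitive -/

theorem exists_chi : ∃ χ : ℝ → ℝ, Chi χ := by
  refine ⟨fun t => Real.smoothTransition (2 - t), ⟨?_, ?_, ?_, ?_⟩⟩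
  · exact Real.smoothTransition.contDiff.comp (contDiff_const.sub contDiff_id)
  · intro t ht
    exact Real.smoothTransition.one_of_one_le (by linarith)
  · intro t ht
    exact Real.smoothTransition.zero_of_nonpos (by linarith)
  · intro s t hst
    exact Real.smoothTransition.monotone (by linarith)

section chi

variable {χ : ℝ → ℝ} (hχ : Chi χ)

include hχ

theorem chi_nonneg (t : ℝ) : 0 ≤ χ t := by
  rw [← hχ.zero (max t 2) (le_max_right _ _)]
  exact hχ.anti (le_max_left _ _)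

theorem chi_le_one (t : ℝ) : χ t ≤ 1 := by
  rw [← hχ.one (min t 1) (min_le_right _ _)]
  exact hχ.anti (min_le_left _ _)

theorem chi_cont : Continuous χ := hχ.smooth.continuous

theorem chi_deriv_bdd : ∃ C : ℝ, 0 ≤ C ∧ ∀ t, |deriv χ t| ≤ C := by
  have hc : Continuous (deriv χ) := hχ.smooth.continuous_deriv (by simp)
  obtain ⟨C, hC⟩ := (isCompact_Icc (a := (1:ℝ)) (b := 2)).exists_bound_of_continuousOn
    hc.continuousOn
  have hC0 : 0 ≤ C := (norm_nonneg _).trans (hC 1 ⟨le_rfl, by norm_num⟩)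
  refine ⟨C, hC0, fun t => ?_⟩
  rcases lt_or_ge t 1 with h | h
  · have : χ =ᶠ[𝓝 t] fun _ => 1 := by
      filter_upwards [Iio_mem_nhds h] with s hs
      exact hχ.one s (le_of_lt hs)
    rw [this.deriv_eq]; simpa using hC0
  · rcases le_or_gt t 2 with h' | h'
    · exact hC t ⟨h, h'⟩
    · have : χ =ᶠ[𝓝 t] fun _ => 0 := by
        filter_upwards [Ioi_mem_nhds h'] with s hs
        exact hχ.zero s (le_of_lt hs)
      rw [this.deriv_eq]; simpa using hC0

omit hχ in
/-- `Φ_n(t) = ∫_0^t χ(s/n) ds` -/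
def Phi (χ : ℝ → ℝ) (n t : ℝ) : ℝ := ∫ s in (0:ℝ)..t, χ (s / n)

theorem hasDerivAt_Phi (n t : ℝ) : HasDerivAt (Phi χ n) (χ (t / n)) t := by
  have hc : Continuous fun s => χ (s / n) := (chi_cont hχ).comp (continuous_id.div_const n)
  exact intervalIntegral.integral_hasDerivAt_right (hc.intervalIntegrable _ _)
    (hc.stronglyMeasurableAtFilter _ _) hc.continuousAt

theorem contDiff_Phi (n : ℝ) : ContDiff ℝ 1 (Phi χ n) := by
  rw [contDiff_one_iff_deriv]
  refine ⟨fun t => (hasDerivAt_Phi hχ n t).differentiableAt, ?_⟩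
  have : deriv (Phi χ n) = fun t => χ (t / n) := by
    ext t; exact (hasDerivAt_Phi hχ n t).deriv
  rw [this]
  exact (chi_cont hχ).comp (continuous_id.div_const n)

theorem Phi_mono (n : ℝ) : Monotone (Phi χ n) := by
  apply monotone_of_deriv_nonneg
  · exact fun t => (hasDerivAt_Phi hχ n t).differentiableAt
  · intro t
    rw [(hasDerivAt_Phi hχ n t).deriv]
    exact chi_nonneg hχ _


theorem Phi_eq {n : ℝ} (hn : 0 < n) {t : ℝ} (ht : t ≤ n) : Phi χ n t = t := by
  unfold Phi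
  rw [intervalIntegral.integral_congr (g := fun _ => 1)]
  · simp
  · intro s hs
    have : s ≤ n := by
      rcases hs with ⟨_, h2⟩
      exact h2.trans (max_le hn.le ht)
    exact hχ.one _ (by rw [div_le_one hn]; exact this)

theorem Phi_const {n : ℝ} (hn : 0 < n) {t : ℝ} (ht : 2 * n ≤ t) :
    Phi χ n t = Phi χ n (2 * n) := by
  have hc : Continuous fun s => χ (s / n) := (chi_cont hχ).comp (continuous_id.div_const n)
  have h := intervalIntegral.integral_add_adjacent_intervals (hc.intervalIntegrable (μ := volume) 0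
    (2 * n)) (hc.intervalIntegrable (2 * n) t)
  unfold Phi
  rw [← h]
  have h2 : ∫ s in (2 * n)..t, χ (s / n) = 0 := by
    rw [intervalIntegral.integral_congr (g := fun _ => 0)]
    · simp
    · intro s hs
      rw [uIcc_of_le ht] at hs
      exact hχ.zero _ (by rw [le_div_iff₀ hn]; exact hs.1)
  rw [h2, add_zero]

theorem abs_Phi_le (n t : ℝ) : |Phi χ n t| ≤ |t| := by
  have h := intervalIntegral.norm_integral_le_of_norm_le_const (a := 0) (b := t) (C := 1)
    (f := fun s => χ (s / n)) (by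
      intro s _
      rw [Real.norm_eq_abs, abs_of_nonneg (chi_nonneg hχ _)]
      exact chi_le_one hχ _)
  simpa [Phi] using h

end chi

end

end Crest.Agent.R235.LocNonzA_774
end

-- ▼ part R235/LocNonzB_774
section

/-!
Row 235, REG-LOC 11 (NONZ), part B: the forms `γ = (x dy - y dx)/N`, `l = log N / 2` where
`x + i y = (z - c) + m conj (z - c)`, `N = x² + y² + ε²`.
-/

set_option autoImplicit false

open MeasureTheory Metric Set Filter Complex
open scoped ContDiff Topology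

namespace Crest.Agent.R235.LocNonzB_774

open Crest.Agent.R235.Loc

noncomputable section

/-- `u ↦ u + m conj u` -/
def AL (m : ℂ) : ℂ →L[ℝ] ℂ :=
  ContinuousLinearMap.id ℝ ℂ + m • (conjCLE : ℂ →L[ℝ] ℂ)

theorem AL_apply (m u : ℂ) : AL m u = u + m * (starRingEnd ℂ) u := by
  simp [AL]

theorem norm_AL_le (m u : ℂ) : ‖AL m u‖ ≤ (1 + ‖m‖) * ‖u‖ := by
  rw [AL_apply]
  refine (norm_add_le _ _).trans ?_
  rw [norm_mul, Complex.norm_conj]; linarith

theorem le_norm_AL (m u : ℂ) : (1 - ‖m‖) * ‖u‖ ≤ ‖AL m u‖ := by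
  rw [AL_apply]
  have h := norm_sub_norm_le u (-(m * (starRingEnd ℂ) u))
  rw [norm_neg, norm_mul, Complex.norm_conj, sub_neg_eq_add] at h
  linarith

/-- first coordinate -/
def dx (m : ℂ) : ℂ →L[ℝ] ℝ := reCLM.comp (AL m)

/-- second coordinate -/
def dy (m : ℂ) : ℂ →L[ℝ] ℝ := imCLM.comp (AL m)

theorem dx_apply (m u : ℂ) : dx m u = (AL m u).re := rfl
theorem dy_apply (m u : ℂ) : dy m u = (AL m u).im := rfl

/-- determinant -/
theorem det_eq (m : ℂ) : dx m 1 * dy m I - dx m I * dy m 1 = 1 - ‖m‖ ^ 2 := by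
  rw [dx_apply, dx_apply, dy_apply, dy_apply, AL_apply, AL_apply, ← Complex.normSq_eq_norm_sq,
    Complex.normSq_apply]
  simp
  ring

section
variable (m c : ℂ) (ε : ℝ)

/-- `x² + y² + ε²` -/
def NN (z : ℂ) : ℝ := (dx m (z - c)) ^ 2 + (dy m (z - c)) ^ 2 + ε ^ 2

theorem NN_eq (z : ℂ) : NN m c ε z = ‖AL m (z - c)‖ ^ 2 + ε ^ 2 := by
  rw [NN, dx_apply, dy_apply, ← Complex.normSq_eq_norm_sq, Complex.normSq_apply]; ring

theorem NN_pos (hε : 0 < ε) (z : ℂ) : 0 < NN m c ε z := by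
  rw [NN_eq]; positivity

theorem contDiff_NN : ContDiff ℝ ∞ (NN m c ε) := by
  unfold NN; fun_prop

/-- `l = log N / 2` -/
def ll (z : ℂ) : ℝ := Real.log (NN m c ε z) / 2

theorem contDiff_ll (hε : 0 < ε) : ContDiff ℝ ∞ (ll m c ε) := by
  unfold ll
  exact ((contDiff_NN m c ε).log fun z => (NN_pos m c ε hε z).ne').div_const _

/-- `γ = (x dy - y dx) / N` -/
def gam (z : ℂ) : ℂ →L[ℝ] ℝ :=
  (NN m c ε z)⁻¹ • (dx m (z - c) • dy m - dy m (z - c) • dx m)

theorem gam_apply (z u : ℂ) : gam m c ε z u =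
    (NN m c ε z)⁻¹ * (dx m (z - c) * dy m u - dy m (z - c) * dx m u) := by
  simp [gam]

theorem contDiff_gam (hε : 0 < ε) : ContDiff ℝ ∞ (gam m c ε) := by
  have h1 : ContDiff ℝ ∞ fun z => (NN m c ε z)⁻¹ :=
    (contDiff_NN m c ε).inv fun z => (NN_pos m c ε hε z).ne'
  have h2 : ContDiff ℝ ∞ fun z => (dx m (z - c) • dy m - dy m (z - c) • dx m) := by
    fun_prop
  exact h1.smul h2

theorem hasFDerivAt_dx (z : ℂ) : HasFDerivAt (fun z : ℂ => dx m (z - c)) (dx m) z := by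
  have h0 : HasFDerivAt (fun z : ℂ => z - c) (ContinuousLinearMap.id ℝ ℂ) z :=
    (hasFDerivAt_id z).sub_const c
  have := (dx m).hasFDerivAt.comp z h0
  rw [ContinuousLinearMap.comp_id] at this
  exact this

theorem hasFDerivAt_dy (z : ℂ) : HasFDerivAt (fun z : ℂ => dy m (z - c)) (dy m) z := by
  have h0 : HasFDerivAt (fun z : ℂ => z - c) (ContinuousLinearMap.id ℝ ℂ) z :=
    (hasFDerivAt_id z).sub_const c
  have := (dy m).hasFDerivAt.comp z h0
  rw [ContinuousLinearMap.comp_id] at this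
  exact this

theorem hasFDerivAt_NN (z : ℂ) : HasFDerivAt (NN m c ε)
    ((2 * dx m (z - c)) • dx m + (2 * dy m (z - c)) • dy m) z := by
  have h1 := hasFDerivAt_dx m c z
  have h2 := hasFDerivAt_dy m c z
  have h3 := ((h1.pow 2).add (h2.pow 2)).add_const (ε ^ 2)
  refine h3.congr_fderiv ?_
  ext u; simp

theorem fderiv_ll (hε : 0 < ε) (z u : ℂ) : fderiv ℝ (ll m c ε) z u =
    (NN m c ε z)⁻¹ * (dx m (z - c) * dx m u + dy m (z - c) * dy m u) := by
  have h := ((hasFDerivAt_NN m c ε z).log (NN_pos m c ε hε z).ne').mul_const (2⁻¹ : ℝ)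
  have h' : HasFDerivAt (ll m c ε) _ z := h
  rw [h'.fderiv]
  simp
  ring

/-- `curl γ = 2 D ε² / N²` -/
theorem curl_gam (hε : 0 < ε) (z : ℂ) :
    fderiv ℝ (gam m c ε) z 1 I - fderiv ℝ (gam m c ε) z I 1 =
      2 * (1 - ‖m‖ ^ 2) * ε ^ 2 / (NN m c ε z) ^ 2 := by
  have h1 := hasFDerivAt_dx m c z
  have h2 := hasFDerivAt_dy m c z
  have hN := (NN_pos m c ε hε z).ne'
  have key : ∀ h u : ℂ, fderiv ℝ (gam m c ε) z h u =
      (NN m c ε z)⁻¹ * (dx m h * dy m u - dy m h * dx m u)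
      - (NN m c ε z ^ 2)⁻¹ * (2 * dx m (z - c) * dx m h + 2 * dy m (z - c) * dy m h)
        * (dx m (z - c) * dy m u - dy m (z - c) * dx m u) := by
    intro h u
    have h3 : HasFDerivAt (fun z => gam m c ε z u)
        ((gam m c ε z).comp (0 : ℂ →L[ℝ] ℂ) + (fderiv ℝ (gam m c ε) z).flip u) z :=
      (((contDiff_gam m c ε hε).differentiable (by simp) z).hasFDerivAt.clm_apply
        (hasFDerivAt_const u z))
    have h5 := ((hasDerivAt_inv hN).comp_hasFDerivAt z (hasFDerivAt_NN m c ε z)).mul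
        ((h1.mul_const (dy m u)).sub (h2.mul_const (dx m u)))
    have h4 := h5.congr_of_eventuallyEq (f₁ := fun z => gam m c ε z u)
      (Filter.Eventually.of_forall fun z => gam_apply m c ε z u)
    have h7 := congrArg (fun T : ℂ →L[ℝ] ℝ => T h) (h3.unique h4)
    simp at h7
    rw [h7]
    simp only [map_sub]
    ring
  rw [key, key, ← det_eq m, NN_eq] at *
  have hN' : ‖AL m (z - c)‖ ^ 2 + ε ^ 2 ≠ 0 := hN
  have hn : ‖AL m (z - c)‖ ^ 2 = dx m (z - c) ^ 2 + dy m (z - c) ^ 2 := by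
    rw [dx_apply, dy_apply, ← Complex.normSq_eq_norm_sq, Complex.normSq_apply]; ring
  rw [hn] at hN' ⊢
  field_simp
  ring

/-- the pointwise identity: `-Re T ∧ γ = - dl ∧ Im T - 2 Re (k g)` -/
theorem ident (hε : 0 < ε) (z : ℂ) (T : ℂ →L[ℝ] ℂ) :
    |(-(T 1).re * gam m c ε z I + (T I).re * gam m c ε z 1)
      + (fderiv ℝ (ll m c ε) z 1 * (T I).im - fderiv ℝ (ll m c ε) z I * (T 1).im)| ≤
      2 * ‖lzb T - m * lz T‖ * (‖AL m (z - c)‖ / NN m c ε z) := by
  set k : ℂ := (starRingEnd ℂ) (AL m (z - c)) * ((NN m c ε z)⁻¹ : ℝ) with hk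
  have h1 : (-(T 1).re * gam m c ε z I + (T I).re * gam m c ε z 1)
      + (fderiv ℝ (ll m c ε) z 1 * (T I).im - fderiv ℝ (ll m c ε) z I * (T 1).im) =
      -2 * (k * (lzb T - m * lz T)).re := by
    rw [fderiv_ll m c ε hε, fderiv_ll m c ε hε, gam_apply, gam_apply, hk]
    simp only [lz, lzb, dx_apply, dy_apply, AL_apply]
    generalize (NN m c ε z)⁻¹ = t
    generalize z - c = v
    simp only [mul_re, mul_im, add_re, add_im, sub_re, sub_im, conj_re, conj_im, ofReal_re,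
      ofReal_im, I_re, I_im, one_re, one_im, div_ofNat_re, div_ofNat_im, map_one, conj_I, neg_re,
      neg_im]
    ring
  rw [h1, abs_mul]
  have h2 : |(k * (lzb T - m * lz T)).re| ≤ ‖k‖ * ‖lzb T - m * lz T‖ := by
    rw [← norm_mul]; exact Complex.abs_re_le_norm _
  have h3 : ‖k‖ = ‖AL m (z - c)‖ / NN m c ε z := by
    rw [hk, norm_mul, Complex.norm_conj, Complex.norm_real, Real.norm_eq_abs,
      abs_of_pos (inv_pos.2 (NN_pos m c ε hε z))]
    rfl
  rw [h3] at h2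
  have : |(-2:ℝ)| = 2 := by norm_num
  rw [this]
  nlinarith

end

end

end Crest.Agent.R235.LocNonzB_774
end

-- ▼ part R235/LocNonzC_774
section

/-!
Row 235, REG-LOC 11 (NONZ), part C: measurability and integrability of pair sums.
-/

set_option autoImplicit false

open MeasureTheory Metric Set Filter Complex
open scoped ContDiff Topology

namespace Crest.Agent.R235.LocNonzC_774

open Crest.Agent.R235.Loc Crest.Agent.R235.LocNonzA_774

noncomputable section

variable {μ β : ℂ × ℂ → ℂ} {κ L : ℝ} {c : ℂ} {R : ℝ} {k : ℕ} {S : ℂ → Multiset ℂ} {e : ℂ → ℝ}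

theorem slope_props (h1 : SEL) (hB : BoxD μ β κ L) (hK : KG μ β c R k S e) {z : ℂ}
    (hz : z ∈ Usimp c R S) {a : ℂ} (ha : a ∈ S z) :
    lzb (slope S z a) = μ (z, a) * lz (slope S z a) - β (z, a) ∧ ‖slope S z a‖ ^ 2 ≤ e z := by
  obtain ⟨r, w, hr, hsub, hsh, hsm, hinj, hS, hsl⟩ := (h1 μ β κ L hB c R k S e hK).2 z hz
  have hzz : z ∈ ball z r := mem_ball_self hr
  have : ∃ i, w i z = a := by
    rw [hS z hzz] at ha; simpa using ha
  obtain ⟨i, rfl⟩ := this
  rw [hsl z hzz i]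
  have hV : ball z r ⊆ ball c R := hsub.trans fun y hy => hy.1
  exact ⟨hK.pde _ _ hV (hsh i) z hzz, hK.ebd _ _ hV (hsh i) z hzz⟩

theorem usimp_ae (hK : KG μ β c R k S e) :
    (Usimp c R S : Set ℂ) =ᵐ[volume] (ball c R : Set ℂ) := by
  rw [ae_eq_set]
  constructor
  · have : Usimp c R S \ ball c R = ∅ := by
      ext z; simp [Usimp]
      intro h _; exact h
    rw [this]; simp
  · refine measure_mono_null ?_ hK.null
    rintro z ⟨hz, hz'⟩
    exact ⟨hz, fun h => hz' ⟨hz, h⟩⟩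

/-- domain of the coefficient functions -/
def DD (c : ℂ) (R : ℝ) : Set (ℂ × ℂ × ℂ × (ℂ →L[ℝ] ℂ) × (ℂ →L[ℝ] ℂ)) :=
  {q | q.1 ∈ ball c R ∧ q.2.1 ≠ q.2.2.1}

/-- continuity of a coefficient function -/
def CG (c : ℂ) (R : ℝ) (G : ℂ → ℂ → ℂ → (ℂ →L[ℝ] ℂ) → (ℂ →L[ℝ] ℂ) → ℝ) : Prop :=
  ContinuousOn (fun q : ℂ × ℂ × ℂ × (ℂ →L[ℝ] ℂ) × (ℂ →L[ℝ] ℂ) =>
      G q.1 q.2.1 q.2.2.1 q.2.2.2.1 q.2.2.2.2) (DD c R)

theorem aesm (h1 : SEL) (h6 : PSC) (hB : BoxD μ β κ L) (hK : KG μ β c R k S e)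
    {G : ℂ → ℂ → ℂ → (ℂ →L[ℝ] ℂ) → (ℂ →L[ℝ] ℂ) → ℝ} (hG : CG c R G) :
    AEStronglyMeasurable (psum S G) (volume.restrict (ball c R)) := by
  rw [← Measure.restrict_congr_set (usimp_ae hK)]
  exact (h6 μ β κ L hB c R k S e hK G hG).aestronglyMeasurable
    (h1 μ β κ L hB c R k S e hK).1.measurableSet

theorem ae_simple (hK : KG μ β c R k S e) :
    ∀ᵐ z ∂(volume.restrict (ball c R)), z ∈ Usimp c R S := by
  rw [ae_restrict_iff' measurableSet_ball, ae_iff]
  refine measure_mono_null ?_ hK.null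
  intro z hz
  simp only [mem_ofPred_eq, Classical.not_imp] at hz
  exact ⟨hz.1, fun h => hz.2 ⟨hz.1, h⟩⟩

/-! ### continuity of the basic coefficient functions -/


theorem cPv (c : ℂ) (R : ℝ) : ContinuousOn
    (fun q : ℂ × ℂ × ℂ × (ℂ →L[ℝ] ℂ) × (ℂ →L[ℝ] ℂ) => pv q.2.1 q.2.2.1) (DD c R) := by
  unfold pv
  apply ContinuousOn.neg
  apply ContinuousOn.log
  · fun_prop
  · intro q hq
    exact norm_ne_zero_iff.2 (sub_ne_zero.2 hq.2)

theorem cPdL (c : ℂ) (R : ℝ) : ContinuousOn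
    (fun q : ℂ × ℂ × ℂ × (ℂ →L[ℝ] ℂ) × (ℂ →L[ℝ] ℂ) =>
      pdL q.2.1 q.2.2.1 q.2.2.2.1 q.2.2.2.2) (DD c R) := by
  unfold pdL
  have h1 : ContinuousOn (fun q : ℂ × ℂ × ℂ × (ℂ →L[ℝ] ℂ) × (ℂ →L[ℝ] ℂ) =>
      (q.2.1 - q.2.2.1)⁻¹) (DD c R) := by
    apply ContinuousOn.inv₀
    · fun_prop
    · intro q hq
      exact sub_ne_zero.2 hq.2
  have h2 : ContinuousOn (fun q : ℂ × ℂ × ℂ × (ℂ →L[ℝ] ℂ) × (ℂ →L[ℝ] ℂ) =>
      (q.2.2.2.1 - q.2.2.2.2)) (DD c R) := by
    fun_prop
  exact h1.smul h2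

theorem cPdLu (c : ℂ) (R : ℝ) (u : ℂ) : ContinuousOn
    (fun q : ℂ × ℂ × ℂ × (ℂ →L[ℝ] ℂ) × (ℂ →L[ℝ] ℂ) =>
      pdL q.2.1 q.2.2.1 q.2.2.2.1 q.2.2.2.2 u) (DD c R) :=
  (cPdL c R).clm_apply continuousOn_const

theorem cPJ (c : ℂ) (R : ℝ) : CG c R (fun _ a b A B => pJ a b A B) := by
  unfold CG pJ lz lzb
  have h1 := cPdLu c R 1
  have h2 := cPdLu c R I
  fun_prop

theorem cWth (c : ℂ) (R : ℝ) {α : ℂ → (ℂ →L[ℝ] ℝ)} (hα : ContinuousOn α (ball c R)) :
    CG c R (fun z a b A B => wth (α z) a b A B) := by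
  unfold CG wth
  have h1 := cPdLu c R 1
  have h2 := cPdLu c R I
  have h3 : ContinuousOn (fun q : ℂ × ℂ × ℂ × (ℂ →L[ℝ] ℂ) × (ℂ →L[ℝ] ℂ) => α q.1) (DD c R) :=
    hα.comp continuousOn_fst fun q hq => hq.1
  have h4 := h3.clm_apply (g := fun _ => (1:ℂ)) continuousOn_const
  have h5 := h3.clm_apply (g := fun _ => I) continuousOn_const
  exact (h4.mul (Complex.continuous_im.comp_continuousOn h2)).sub
    (h5.mul (Complex.continuous_im.comp_continuousOn h1))

theorem CG.mul {G H : ℂ → ℂ → ℂ → (ℂ →L[ℝ] ℂ) → (ℂ →L[ℝ] ℂ) → ℝ} (hG : CG c R G)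
    (hH : CG c R H) : CG c R (fun z a b A B => G z a b A B * H z a b A B) :=
  ContinuousOn.mul hG hH

theorem CG.add {G H : ℂ → ℂ → ℂ → (ℂ →L[ℝ] ℂ) → (ℂ →L[ℝ] ℂ) → ℝ} (hG : CG c R G)
    (hH : CG c R H) : CG c R (fun z a b A B => G z a b A B + H z a b A B) :=
  ContinuousOn.add hG hH

theorem CG.sub {G H : ℂ → ℂ → ℂ → (ℂ →L[ℝ] ℂ) → (ℂ →L[ℝ] ℂ) → ℝ} (hG : CG c R G)
    (hH : CG c R H) : CG c R (fun z a b A B => G z a b A B - H z a b A B) :=
  ContinuousOn.sub hG hH

theorem CG.abs {G : ℂ → ℂ → ℂ → (ℂ →L[ℝ] ℂ) → (ℂ →L[ℝ] ℂ) → ℝ} (hG : CG c R G) :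
    CG c R (fun z a b A B => |G z a b A B|) :=
  ContinuousOn.abs hG


theorem cPvf {f : ℝ → ℝ} (hf : Continuous f) : CG c R (fun _ a b _ _ => f (pv a b)) :=
  hf.comp_continuousOn (cPv c R)


/-! ### integrability -/

theorem int_one_add (hK : KG μ β c R k S e) : IntegrableOn (fun z => 1 + e z) (ball c R) := by
  apply Integrable.add
  · exact integrableOn_const measure_ball_lt_top.ne
  · exact hK.eint

theorem intOn (h1 : SEL) (h6 : PSC) (hB : BoxD μ β κ L) (hK : KG μ β c R k S e)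
    {G : ℂ → ℂ → ℂ → (ℂ →L[ℝ] ℂ) → (ℂ →L[ℝ] ℂ) → ℝ} (hG : CG c R G) {C : ℝ}
    (hb : ∀ z ∈ Usimp c R S, ∀ a ∈ S z, ∀ b ∈ S z, a ≠ b →
      |G z a b (slope S z a) (slope S z b)| ≤ C * (1 + e z)) :
    IntegrableOn (psum S G) (ball c R) := by
  have hi := ((int_one_add hK).const_mul ((k:ℝ) ^ 2 * |C|))
  refine Integrable.mono' hi (aesm h1 h6 hB hK hG) ?_
  filter_upwards [ae_simple hK] with z hz
  have he : 0 ≤ 1 + e z := by linarith [hK.e0 z]
  rw [Real.norm_eq_abs]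
  refine abs_psum_le_psum.trans ?_
  have h := psum_le_const (S := S) (z := z) (G := fun z a b A B => |G z a b A B|)
    (hK.card z hz.1) (C := |C| * (1 + e z)) (by positivity) (by
      intro _ a ha b hb' hab
      exact (hb z hz a ha b hb' hab).trans
        (mul_le_mul_of_nonneg_right (le_abs_self _) he))
  refine h.trans (le_of_eq (by ring))

theorem int_of_ball {F : ℂ → ℝ} (hF : IntegrableOn F (ball c R)) (h0 : ∀ z ∉ ball c R, F z = 0) :
    Integrable F := by
  rw [← integrableOn_univ]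
  have h2 : IntegrableOn F (ball c R)ᶜ := by
    have h3 : IntegrableOn (fun _ : ℂ => (0:ℝ)) (ball c R)ᶜ := integrableOn_zero
    exact h3.congr_fun (fun z hz => (h0 z hz).symm) measurableSet_ball.compl
  have := hF.union h2
  rwa [union_compl_self] at this

theorem int_mul {η : ℂ → ℝ} (hη : Continuous η) {C : ℝ} (hb : ∀ z, |η z| ≤ C)
    (h0 : ∀ z ∉ ball c R, η z = 0) {F : ℂ → ℝ} (hF : IntegrableOn F (ball c R)) :
    Integrable (fun z => η z * F z) := by
  apply int_of_ball (c := c) (R := R)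
  · exact hF.bdd_mul hη.aestronglyMeasurable (Eventually.of_forall fun z => by
      simpa using hb z)
  · intro z hz
    rw [h0 z hz, zero_mul]

/-- bound of `dL` where `v ≤ N` -/
theorem pdL_le (h1 : SEL) (hB : BoxD μ β κ L) (hK : KG μ β c R k S e) {z : ℂ}
    (hz : z ∈ Usimp c R S) {a b : ℂ} (ha : a ∈ S z) (hb : b ∈ S z) (hab : a ≠ b) {N : ℝ}
    (hN : pv a b ≤ N) : ‖pdL a b (slope S z a) (slope S z b)‖ ^ 2 ≤
      4 * Real.exp (2 * N) * e z := by
  have hpos : 0 < ‖a - b‖ := norm_pos_iff.2 (sub_ne_zero.2 hab)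
  have h2 : Real.exp (-N) ≤ ‖a - b‖ := by
    rw [← Real.le_log_iff_exp_le hpos]
    unfold pv at hN; linarith
  have h3 := (slope_props h1 hB hK hz ha).2
  have h4 := (slope_props h1 hB hK hz hb).2
  set A := slope S z a
  set B := slope S z b
  have h5 : ‖pdL a b A B‖ = ‖A - B‖ / ‖a - b‖ := by
    unfold pdL
    rw [norm_smul, norm_inv]; field_simp
  have h6 : ‖A - B‖ ^ 2 ≤ 4 * e z := by
    have h7 : ‖A - B‖ ≤ ‖A‖ + ‖B‖ := norm_sub_le _ _
    have h8 : ‖A - B‖ ^ 2 ≤ (‖A‖ + ‖B‖) ^ 2 := by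
      apply pow_le_pow_left₀ (norm_nonneg _) h7
    nlinarith [sq_nonneg (‖A‖ - ‖B‖)]
  rw [h5, div_pow, div_le_iff₀ (by positivity)]
  have h9 : 1 ≤ Real.exp (2 * N) * ‖a - b‖ ^ 2 := by
    have h10 : Real.exp (2 * N) * Real.exp (-N) ^ 2 = 1 := by
      rw [← Real.exp_nat_mul, ← Real.exp_add]
      norm_num
    rw [← h10]
    apply mul_le_mul_of_nonneg_left _ (Real.exp_pos _).le
    exact pow_le_pow_left₀ (Real.exp_pos _).le h2 2
  have he := hK.e0 z
  nlinarith [mul_le_mul_of_nonneg_left h9 (by positivity : 0 ≤ 4 * e z)]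

end

end Crest.Agent.R235.LocNonzC_774
end

-- ▼ part R235/LocNonzD_774
section

/-!
Row 235, REG-LOC 11 (NONZ), part D: Stokes for `V η γ`.
-/

set_option autoImplicit false

open MeasureTheory Metric Set Filter Complex
open scoped ContDiff Topology

namespace Crest.Agent.R235.LocNonzD_774

open Crest.Agent.R235.Loc Crest.Agent.R235.LocNonzA_774 Crest.Agent.R235.LocNonzB_774
  Crest.Agent.R235.LocNonzC_774

noncomputable section

variable {μ β : ℂ × ℂ → ℂ} {κ L : ℝ} {c : ℂ} {R : ℝ} {k : ℕ} {S : ℂ → Multiset ℂ} {e : ℂ → ℝ}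

theorem near_right {ε : ℝ} {s t : Multiset ℂ} (h : Near ε s t) {b : ℂ} (hb : b ∈ t) :
    ∃ a ∈ s, dist a b < ε :=
  Multiset.exists_mem_of_rel_of_mem (Multiset.rel_flip.2 h) hb

theorem bdd_sheets (hK : KG μ β c R k S e) {K : Set ℂ} (hKc : IsCompact K)
    (hKs : K ⊆ ball c R) : ∃ B : ℝ, 0 < B ∧ ∀ z ∈ K, ∀ a ∈ S z, ‖a‖ ≤ B := by
  classical
  refine hKc.induction_on (p := fun s => ∃ B : ℝ, 0 < B ∧ ∀ z ∈ s, ∀ a ∈ S z, ‖a‖ ≤ B)
    ⟨1, one_pos, by simp⟩ ?_ ?_ ?_
  · rintro s t hst ⟨B, hB, h⟩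
    exact ⟨B, hB, fun z hz => h z (hst hz)⟩
  · rintro s t ⟨B, hB, h⟩ ⟨B', hB', h'⟩
    refine ⟨max B B', lt_max_of_lt_left hB, ?_⟩
    rintro z (hz | hz) a ha
    · exact (h z hz a ha).trans (le_max_left _ _)
    · exact (h' z hz a ha).trans (le_max_right _ _)
  · intro z hz
    have h := hK.cont z (hKs hz) 1 one_pos
    refine ⟨{z' | Near 1 (S z) (S z')}, mem_nhdsWithin_of_mem_nhds h,
      (∑ a ∈ (S z).toFinset, ‖a‖) + 1, ?_, ?_⟩
    · have : 0 ≤ ∑ a ∈ (S z).toFinset, ‖a‖ := Finset.sum_nonneg fun _ _ => norm_nonneg _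
      linarith
    · intro z' hz' a ha
      obtain ⟨b, hb, hba⟩ := near_right hz' ha
      have h1 : ‖b‖ ≤ ∑ a ∈ (S z).toFinset, ‖a‖ :=
        Finset.single_le_sum (f := fun a => ‖a‖) (fun _ _ => norm_nonneg _)
          (Multiset.mem_toFinset.2 hb)
      have h2 : ‖a‖ ≤ ‖b‖ + dist b a := by
        rw [dist_eq_norm]
        have := norm_sub_norm_le a b
        rw [norm_sub_rev] at this
        linarith
      linarith

/-- all sheets `exp (-2n)`-close -/
def OO (n : ℝ) (S : ℂ → Multiset ℂ) (z : ℂ) : Prop :=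
  ∀ a ∈ S z, ∀ b ∈ S z, ‖a - b‖ < Real.exp (-(2 * n))

theorem OO_open (hK : KG μ β c R k S e) {n : ℝ} {z : ℂ} (hz : z ∈ ball c R) (h : OO n S z) :
    ∀ᶠ z' in 𝓝 z, OO n S z' := by
  classical
  have h1 : ∀ᶠ ε in 𝓝[>] (0:ℝ), ∀ p ∈ (S z).toFinset ×ˢ (S z).toFinset,
      ‖p.1 - p.2‖ + 2 * ε < Real.exp (-(2 * n)) := by
    rw [Finset.eventually_all]
    intro p hp
    rw [Finset.mem_product, Multiset.mem_toFinset, Multiset.mem_toFinset] at hp
    have h2 : Tendsto (fun ε : ℝ => ‖p.1 - p.2‖ + 2 * ε) (𝓝[>] 0) (𝓝 (‖p.1 - p.2‖ + 2 * 0)) := by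
      apply Tendsto.mono_left _ nhdsWithin_le_nhds
      exact (continuous_const.add (continuous_const.mul continuous_id)).tendsto 0
    apply h2.eventually_lt_const
    rw [mul_zero, add_zero]
    exact h _ hp.1 _ hp.2
  obtain ⟨ε, hε, hε0⟩ := (h1.and self_mem_nhdsWithin).exists
  filter_upwards [hK.cont z hz ε hε0] with z' hz' a ha b hb
  obtain ⟨a', ha', h3⟩ := near_right hz' ha
  obtain ⟨b', hb', h4⟩ := near_right hz' hb
  have h5 := hε (a', b') (by
    rw [Finset.mem_product, Multiset.mem_toFinset, Multiset.mem_toFinset]; exact ⟨ha', hb'⟩)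
  simp only at h5
  have h6 : ‖a - b‖ ≤ dist a' a + ‖a' - b'‖ + dist b' b := by
    rw [dist_eq_norm, dist_eq_norm]
    calc ‖a - b‖ = ‖-(a' - a) + (a' - b') + (b' - b)‖ := by congr 1; ring
      _ ≤ ‖-(a' - a) + (a' - b')‖ + ‖b' - b‖ := norm_add_le _ _
      _ ≤ ‖-(a' - a)‖ + ‖a' - b'‖ + ‖b' - b‖ := by gcongr; exact norm_add_le _ _
      _ = _ := by rw [norm_neg]
  linarith

theorem finite_F (hK : KG μ β c R k S e) (hD : DiscOff c R S) {K : Set ℂ} (hKc : IsCompact K)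
    (hKs : K ⊆ ball c R) (n : ℝ) : {z ∈ K | ¬ OO n S z ∧ ¬ (S z).Nodup}.Finite := by
  have hU : IsOpen {z ∈ ball c R | OO n S z} := by
    rw [isOpen_iff_mem_nhds]
    rintro z ⟨hz, hz'⟩
    filter_upwards [isOpen_ball.mem_nhds hz, OO_open hK hz hz'] with y h1 h2
    exact ⟨h1, h2⟩
  have h1 : {z ∈ K \ {z ∈ ball c R | OO n S z} | ¬ (S z).Nodup}.Finite := by
    refine (hKc.diff hU).induction_on (p := fun s => {z ∈ s | ¬ (S z).Nodup}.Finite) ?_ ?_ ?_ ?_
    · simp
    · intro s t hst h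
      exact h.subset fun z hz => ⟨hst hz.1, hz.2⟩
    · intro s t hs ht
      refine (hs.union ht).subset ?_
      rintro z ⟨hz | hz, hz'⟩
      · exact Or.inl ⟨hz, hz'⟩
      · exact Or.inr ⟨hz, hz'⟩
    · rintro p ⟨hp, hp'⟩
      have hA : ¬ AllEq S p := by
        intro hA
        apply hp'
        refine ⟨hKs hp, fun a ha b hb => ?_⟩
        rw [hA a ha b hb, sub_self, norm_zero]
        exact Real.exp_pos _
      have h2 := hD p (hKs hp) hA
      rw [eventually_nhdsWithin_iff] at h2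
      refine ⟨_, mem_nhdsWithin_of_mem_nhds h2, (finite_singleton p).subset ?_⟩
      rintro z ⟨hz, hz'⟩
      by_contra hne
      exact hz' (hz hne)
  refine h1.subset ?_
  rintro z ⟨hz, hz', hz''⟩
  exact ⟨⟨hz, fun h => hz' h.2⟩, hz''⟩

/-! ### the function `V` -/

open Classical in
/-- `K + Σ Φ(v)`, extended -/
def VV (χ : ℝ → ℝ) (n K : ℝ) (k : ℕ) (S : ℂ → Multiset ℂ) (z : ℂ) : ℝ :=
  K + if OO n S z then ((k * k - k : ℕ) : ℝ) * Phi χ n (2 * n)
    else psum S (fun _ a b _ _ => Phi χ n (pv a b)) z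

theorem pv_ge_of {a b : ℂ} (hab : a ≠ b) {t : ℝ} (h : ‖a - b‖ ≤ Real.exp (-t)) : t ≤ pv a b := by
  have hpos : 0 < ‖a - b‖ := norm_pos_iff.2 (sub_ne_zero.2 hab)
  unfold pv
  have := Real.log_le_log hpos h
  rw [Real.log_exp] at this
  linarith

section

variable {χ : ℝ → ℝ} (hχ : Chi χ) {n : ℝ} (hn : 0 < n) (K : ℝ)

include hχ hn

theorem VV_simple (hK : KG μ β c R k S e) {z : ℂ} (hz : z ∈ Usimp c R S) :
    VV χ n K k S z = K + psum S (fun _ a b _ _ => Phi χ n (pv a b)) z := by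
  unfold VV
  split_ifs with h
  · rw [psum_const_eq (hK.card z hz.1) hz.2 (C := Phi χ n (2 * n))]
    intro a ha b hb hab
    exact Phi_const hχ hn (pv_ge_of hab (h a ha b hb).le)
  · rfl

omit hχ hn in
theorem hasFDerivAt_pv {f g : ℂ → ℂ} {z : ℂ} {f' g' : ℂ →L[ℝ] ℂ} (hf : HasFDerivAt f f' z)
    (hg : HasFDerivAt g g' z) (h : f z ≠ g z) :
    HasFDerivAt (fun y => pv (f y) (g y)) (-(reCLM.comp (pdL (f z) (g z) f' g'))) z := by
  have h1 := ((hf.sub hg).norm_sq)
  have hne : ‖f z - g z‖ ^ 2 ≠ 0 := pow_ne_zero _ (norm_ne_zero_iff.2 (sub_ne_zero.2 h))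
  have h2 := ((h1.log (by simpa using hne)).mul_const (2⁻¹ : ℝ)).neg
  have h3 : (fun y => pv (f y) (g y)) =
      fun y => -(Real.log (‖f y - g y‖ ^ 2) * 2⁻¹) := by
    ext y
    rw [Real.log_pow]; unfold pv; push_cast; ring
  rw [h3]
  refine HasFDerivAt.congr_fderiv h2 ?_
  ext u
  have hne' : f z - g z ≠ 0 := sub_ne_zero.2 h
  simp only [pdL, neg_apply, smul_apply,
    ContinuousLinearMap.comp_apply, sub_apply, reCLM_apply, smul_eq_mul,
    Pi.sub_apply, innerSL_apply_apply, Complex.inner]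
  rw [Complex.inv_def, ← Complex.normSq_eq_norm_sq]
  have h4 : normSq (f z - g z) ≠ 0 := by simpa using hne'
  simp only [mul_re, mul_im, conj_re, conj_im, ofReal_re, ofReal_im, sub_re, sub_im]
  field_simp
  simp
  ring

theorem VV_deriv (h1 : SEL) (hB : BoxD μ β κ L) (hK : KG μ β c R k S e) {z : ℂ}
    (hz : z ∈ Usimp c R S) : ContDiffAt ℝ 1 (VV χ n K k S) z ∧
      ∀ u, fderiv ℝ (VV χ n K k S) z u =
        psum S (fun _ a b A B => χ (pv a b / n) * (-(pdL a b A B u).re)) z := by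
  obtain ⟨r, w, hr, hsub, hsh, hsm, hinj, hS, hsl⟩ := (h1 μ β κ L hB c R k S e hK).2 z hz
  have hzz : z ∈ ball z r := mem_ball_self hr
  have hev : VV χ n K k S =ᶠ[𝓝 z] fun y => K +
      ∑ p ∈ (Finset.univ : Finset (Fin k)).offDiag, Phi χ n (pv (w p.1 y) (w p.2 y)) := by
    filter_upwards [isOpen_ball.mem_nhds hzz] with y hy
    rw [VV_simple hχ hn K hK (hsub hy), psum_rep (hinj y hy) (hS y hy) (hsl y hy)]
  have hc : ∀ i, ContDiffAt ℝ ∞ (w i) z := fun i =>
    (hsm i).contDiffAt (isOpen_ball.mem_nhds hzz)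
  have hd : ∀ i, HasFDerivAt (w i) (fderiv ℝ (w i) z) z := fun i =>
    ((hc i).differentiableAt (by simp)).hasFDerivAt
  have hne : ∀ p ∈ (Finset.univ : Finset (Fin k)).offDiag, w p.1 z ≠ w p.2 z := by
    intro p hp h
    rw [Finset.mem_offDiag] at hp
    exact hp.2.2 (hinj z hzz h)
  constructor
  · refine ContDiffAt.congr_of_eventuallyEq ?_ hev
    apply contDiffAt_const.add
    apply ContDiffAt.sum
    intro p hp
    have h2 : ContDiffAt ℝ 1 (fun y => pv (w p.1 y) (w p.2 y)) z := by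
      unfold pv
      have h3 : ContDiffAt ℝ 1 (fun y => w p.1 y - w p.2 y) z :=
        ((hc p.1).sub (hc p.2)).of_le (by simp)
      exact ((h3.norm ℝ (sub_ne_zero.2 (hne p hp))).log
        (norm_ne_zero_iff.2 (sub_ne_zero.2 (hne p hp)))).neg
    exact (contDiff_Phi hχ n).contDiffAt.comp z h2
  · intro u
    have h2 : HasFDerivAt (fun y => K + ∑ p ∈ (Finset.univ : Finset (Fin k)).offDiag,
        Phi χ n (pv (w p.1 y) (w p.2 y)))
        (∑ p ∈ (Finset.univ : Finset (Fin k)).offDiag, χ (pv (w p.1 z) (w p.2 z) / n) •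
          (-(reCLM.comp (pdL (w p.1 z) (w p.2 z) (fderiv ℝ (w p.1) z)
            (fderiv ℝ (w p.2) z))))) z := by
      apply HasFDerivAt.const_add
      apply HasFDerivAt.fun_sum
      intro p hp
      exact (hasDerivAt_Phi hχ n _).comp_hasFDerivAt z
        (hasFDerivAt_pv (hd p.1) (hd p.2) (hne p hp))
    rw [hev.fderiv_eq, h2.fderiv, psum_rep (hinj z hzz) (hS z hzz) (hsl z hzz)]
    simp

omit hχ hn in
theorem VV_OO (hK : KG μ β c R k S e) {z : ℂ} (hz : z ∈ ball c R) (h : OO n S z) :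
    VV χ n K k S =ᶠ[𝓝 z] fun _ => K + ((k * k - k : ℕ) : ℝ) * Phi χ n (2 * n) := by
  filter_upwards [OO_open hK hz h] with y hy
  unfold VV
  rw [if_pos hy]

theorem VV_deriv' (h1 : SEL) (hB : BoxD μ β κ L) (hK : KG μ β c R k S e) {z : ℂ}
    (hz : z ∈ ball c R) (h : OO n S z ∨ (S z).Nodup) : ContDiffAt ℝ 1 (VV χ n K k S) z ∧
      ∀ u, fderiv ℝ (VV χ n K k S) z u =
        psum S (fun _ a b A B => χ (pv a b / n) * (-(pdL a b A B u).re)) z := by
  by_cases hnd : (S z).Nodup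
  · exact VV_deriv hχ hn K h1 hB hK ⟨hz, hnd⟩
  · have hO : OO n S z := h.resolve_right hnd
    have hev := VV_OO (χ := χ) K hK hz hO
    refine ⟨contDiffAt_const.congr_of_eventuallyEq hev, fun u => ?_⟩
    rw [hev.fderiv_eq, psum_not hnd]
    simp

theorem abs_Phi_pv_le {B : ℝ} {a b : ℂ} (hab : a ≠ b) (h : ‖a - b‖ ≤ B) :
    |Phi χ n (pv a b)| ≤ |Real.log B| + 2 * n := by
  have hpos : 0 < ‖a - b‖ := norm_pos_iff.2 (sub_ne_zero.2 hab)
  have h1 : -|Real.log B| ≤ pv a b := by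
    unfold pv
    have := Real.log_le_log hpos h
    linarith [le_abs_self (Real.log B)]
  rcases le_or_gt (pv a b) (2 * n) with h2 | h2
  · refine (abs_Phi_le hχ n _).trans ?_
    rw [abs_le]
    constructor
    · linarith
    · linarith [abs_nonneg (Real.log B)]
  · rw [Phi_const hχ hn h2.le]
    refine (abs_Phi_le hχ n _).trans ?_
    rw [abs_of_pos (by linarith)]
    linarith [abs_nonneg (Real.log B)]

theorem VV_bdd (hK : KG μ β c R k S e) {Z : Set ℂ} (hZc : IsCompact Z) (hZs : Z ⊆ ball c R) :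
    ∃ C : ℝ, 0 ≤ C ∧ ∀ z ∈ Z, |VV χ n K k S z| ≤ C := by
  obtain ⟨B, hB0, hB⟩ := bdd_sheets hK hZc hZs
  refine ⟨|K| + (|((k * k - k : ℕ) : ℝ) * Phi χ n (2 * n)| +
    (k : ℝ) ^ 2 * (|Real.log (2 * B)| + 2 * n)), by positivity, fun z hz => ?_⟩
  have h2 : ∀ a ∈ S z, ∀ b ∈ S z, ‖a - b‖ ≤ 2 * B := fun a ha b hb => by
    have := norm_sub_le a b
    linarith [hB z hz a ha, hB z hz b hb]
  have h3 : |psum S (fun _ a b _ _ => Phi χ n (pv a b)) z| ≤
      (k : ℝ) ^ 2 * (|Real.log (2 * B)| + 2 * n) := by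
    refine abs_psum_le_psum.trans (psum_le_const (hK.card z (hZs hz)) (by positivity) ?_)
    intro _ a ha b hb hab
    exact abs_Phi_pv_le hχ hn hab (h2 a ha b hb)
  unfold VV
  refine (abs_add_le _ _).trans ?_
  gcongr
  split_ifs
  · have : 0 ≤ (k : ℝ) ^ 2 * (|Real.log (2 * B)| + 2 * n) := by positivity
    linarith
  · have := abs_nonneg (((k * k - k : ℕ) : ℝ) * Phi χ n (2 * n))
    linarith

theorem VV_meas (h1 : SEL) (h6 : PSC) (hB : BoxD μ β κ L) (hK : KG μ β c R k S e) :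
    AEStronglyMeasurable (VV χ n K k S) (volume.restrict (ball c R)) := by
  have hm := aesm h1 h6 hB hK (G := fun _ a b _ _ => Phi χ n (pv a b))
    (cPvf (contDiff_Phi hχ n).continuous)
  refine (hm.const_add K).congr ?_
  filter_upwards [ae_simple hK] with z hz
  exact (VV_simple hχ hn K hK hz).symm

theorem VV_int (h1 : SEL) (h6 : PSC) (hB : BoxD μ β κ L) (hK : KG μ β c R k S e)
    {R₂ : ℝ} (hR : R₂ < R) {q : ℂ → ℝ} (hq : Continuous q)
    (h0 : ∀ z ∉ closedBall c R₂, q z = 0) :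
    Integrable (fun z => VV χ n K k S z * q z) := by
  have hsub : closedBall c R₂ ⊆ ball c R := closedBall_subset_ball hR
  obtain ⟨C, hC0, hC⟩ := VV_bdd hχ hn K hK (isCompact_closedBall c R₂) hsub
  obtain ⟨Cq, hCq⟩ := (isCompact_closedBall c R₂).exists_bound_of_continuousOn hq.continuousOn
  apply int_of_ball (c := c) (R := R)
  · have hi : IntegrableOn (fun _ : ℂ => C * |Cq|) (ball c R) :=
      integrableOn_const measure_ball_lt_top.ne
    refine Integrable.mono' hi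
      ((VV_meas hχ hn K h1 h6 hB hK).mul hq.aestronglyMeasurable) ?_
    refine Eventually.of_forall fun z => ?_
    by_cases hz : z ∈ closedBall c R₂
    · rw [norm_mul]
      exact mul_le_mul (hC z hz) ((hCq z hz).trans (le_abs_self _)) (norm_nonneg _) hC0
    · rw [h0 z hz, mul_zero, norm_zero]; positivity
  · intro z hz
    rw [h0 z (fun h => hz (hsub h)), mul_zero]


/-- the coefficient of `dV ∧ γ` -/
def G1 (χ : ℝ → ℝ) (n : ℝ) (m c : ℂ) (ε : ℝ) :
    ℂ → ℂ → ℂ → (ℂ →L[ℝ] ℂ) → (ℂ →L[ℝ] ℂ) → ℝ := fun z a b A B =>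
  χ (pv a b / n) * (-(pdL a b A B 1).re * gam m c ε z I + (pdL a b A B I).re * gam m c ε z 1)

/-- `curl (V η γ)` -/
def gg (χ : ℝ → ℝ) (n K : ℝ) (k : ℕ) (S : ℂ → Multiset ℂ) (η : ℂ → ℝ) (m c : ℂ) (ε : ℝ)
    (z : ℂ) : ℝ :=
  η z * psum S (G1 χ n m c ε) z +
    VV χ n K k S z * (fderiv ℝ η z 1 * gam m c ε z I - fderiv ℝ η z I * gam m c ε z 1) +
    VV χ n K k S z * (η z * (2 * (1 - ‖m‖ ^ 2) * ε ^ 2 / (NN m c ε z) ^ 2))

/-- `V η γ` -/
def bb (χ : ℝ → ℝ) (n K : ℝ) (k : ℕ) (S : ℂ → Multiset ℂ) (η : ℂ → ℝ) (m c : ℂ) (ε : ℝ)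
    (z : ℂ) : ℂ →L[ℝ] ℝ := (VV χ n K k S z * η z) • gam m c ε z

omit hχ hn in
theorem curl_bb {η : ℂ → ℝ} (m : ℂ) {ε : ℝ} (hε : 0 < ε) {z : ℂ}
    (hV : DifferentiableAt ℝ (VV χ n K k S) z) (hη : DifferentiableAt ℝ η z)
    (hd : ∀ u, fderiv ℝ (VV χ n K k S) z u =
        psum S (fun _ a b A B => χ (pv a b / n) * (-(pdL a b A B u).re)) z) :
    gg χ n K k S η m c ε z =
      fderiv ℝ (bb χ n K k S η m c ε) z 1 I - fderiv ℝ (bb χ n K k S η m c ε) z I 1 := by
  have h1 : HasFDerivAt (bb χ n K k S η m c ε) _ z :=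
    (hV.hasFDerivAt.mul hη.hasFDerivAt).smul
      (((contDiff_gam m c ε hε).differentiable (by simp) z).hasFDerivAt)
  have h2 := curl_gam m c ε hε z
  have h3 : psum S (G1 χ n m c ε) z =
      fderiv ℝ (VV χ n K k S) z 1 * gam m c ε z I
        - fderiv ℝ (VV χ n K k S) z I * gam m c ε z 1 := by
    rw [hd, hd, mul_comm _ (gam m c ε z I), mul_comm _ (gam m c ε z 1),
      ← psum_mul (fun z => gam m c ε z I), ← psum_mul (fun z => gam m c ε z 1), ← psum_sub]
    apply psum_congr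
    intro _ a _ b _ _
    unfold G1
    ring
  rw [h1.fderiv]
  unfold gg
  rw [h3, ← h2]
  simp
  ring

theorem stokes_VV (h1 : SEL) (h3 : STOKES) (h6 : PSC) (hB : BoxD μ β κ L)
    (hK : KG μ β c R k S e) (hD : DiscOff c R S) {η : ℂ → ℝ} (hη : ContDiff ℝ 1 η) {R₂ : ℝ}
    (hR : R₂ < R) (h0 : ∀ z ∉ closedBall c R₂, η z = 0) (m : ℂ) {ε : ℝ} (hε : 0 < ε)
    (hg : Integrable (gg χ n K k S η m c ε)) :
    ∫ z, gg χ n K k S η m c ε z = 0 := by
  have hsub : closedBall c R₂ ⊆ ball c R := closedBall_subset_ball hR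
  have hts : tsupport η ⊆ closedBall c R₂ := by
    apply closure_minimal _ isClosed_closedBall
    intro z hz
    by_contra h
    exact hz (h0 z h)
  have hF := finite_F hK hD (isCompact_closedBall c R₂) hsub n
  have key : ∀ z ∉ hF.toFinset, z ∈ tsupport η → ContDiffAt ℝ 1 (VV χ n K k S) z ∧
      ∀ u, fderiv ℝ (VV χ n K k S) z u =
        psum S (fun _ a b A B => χ (pv a b / n) * (-(pdL a b A B u).re)) z := by
    intro z hz hzt
    apply VV_deriv' hχ hn K h1 hB hK (hsub (hts hzt))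
    by_contra h
    rw [not_or] at h
    apply hz
    rw [Set.Finite.mem_toFinset]
    exact ⟨hts hzt, h.1, h.2⟩
  have hbz : ∀ z, z ∉ tsupport η → bb χ n K k S η m c ε =ᶠ[𝓝 z] fun _ => 0 := by
    intro z hz
    have : η =ᶠ[𝓝 z] 0 := notMem_tsupport_iff_eventuallyEq.1 hz
    filter_upwards [this] with y hy
    unfold bb
    rw [hy]; simp
  obtain ⟨C, hC0, hC⟩ := VV_bdd hχ hn K hK (isCompact_closedBall c R₂) hsub
  refine h3 (bb χ n K k S η m c ε) hF.toFinset (gg χ n K k S η m c ε) ?_ ?_ ?_ hg ?_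
  · apply HasCompactSupport.intro (isCompact_closedBall c R₂)
    intro z hz
    unfold bb
    rw [h0 z hz]; simp
  · intro z hz
    apply ContDiffAt.contDiffWithinAt
    by_cases hzt : z ∈ tsupport η
    · unfold bb
      exact ((key z (by simpa using hz) hzt).1.mul hη.contDiffAt).smul
        ((contDiff_gam m c ε hε).of_le (by simp)).contDiffAt
    · exact contDiffAt_const.congr_of_eventuallyEq (hbz z hzt)
  · have hcont : Continuous fun z => ‖η z • gam m c ε z‖ :=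
      (hη.continuous.smul (contDiff_gam m c ε hε).continuous).norm
    obtain ⟨Cq, hCq⟩ := (isCompact_closedBall c R₂).exists_bound_of_continuousOn hcont.continuousOn
    have hind : bb χ n K k S η m c ε = indicator (ball c R) (bb χ n K k S η m c ε) := by
      ext1 z
      by_cases hz : z ∈ ball c R
      · rw [indicator_of_mem hz]
      · rw [indicator_of_notMem hz]
        unfold bb
        rw [h0 z (fun h => hz (hsub h))]; simp
    have hb0 : MeasurableSet (ball c R) := measurableSet_ball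
    suffices hm : MemLp (bb χ n K k S η m c ε) 2 (volume.restrict (ball c R)) by
      have h9 := (memLp_indicator_iff_restrict (f := bb χ n K k S η m c ε) (p := 2) hb0).2 hm
      rw [hind]
      exact h9
    have : IsFiniteMeasure (volume.restrict (ball c R)) :=
      ⟨by rw [Measure.restrict_apply_univ]; exact measure_ball_lt_top⟩
    refine MemLp.of_bound ?_ (C * |Cq|) ?_
    · unfold bb
      exact ((VV_meas hχ hn K h1 h6 hB hK).mul hη.continuous.aestronglyMeasurable).smul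
        (contDiff_gam m c ε hε).continuous.aestronglyMeasurable
    · refine Eventually.of_forall fun z => ?_
      by_cases hz : z ∈ closedBall c R₂
      · unfold bb
        rw [mul_smul, norm_smul]
        refine mul_le_mul (hC z hz) ?_ (norm_nonneg _) hC0
        have := hCq z hz
        rw [norm_norm] at this
        exact this.trans (le_abs_self _)
      · unfold bb
        rw [h0 z hz]; simp; positivity
  · intro z hz
    by_cases hzt : z ∈ tsupport η
    · obtain ⟨k1, k2⟩ := key z hz hzt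
      exact curl_bb K m hε (k1.differentiableAt (by simp)) (hη.differentiable (by simp) z) k2
    · rw [(hbz z hzt).fderiv_eq]
      unfold gg
      rw [image_eq_zero_of_notMem_tsupport hzt, fderiv_of_notMem_tsupport ℝ hzt]
      simp

end

end

end Crest.Agent.R235.LocNonzD_774
end

-- ▼ part R235/LocNonzE_774
section

/-!
Row 235, REG-LOC 11 (NONZ), part E: the energy bound and singular integrals.
-/

set_option autoImplicit false

open MeasureTheory Metric Set Filter Complex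
open scoped ContDiff Topology

namespace Crest.Agent.R235.LocNonzE_774

open Crest.Agent.R235.Loc Crest.Agent.R235.LocNonzA_774 Crest.Agent.R235.LocNonzB_774
  Crest.Agent.R235.LocNonzC_774 Crest.Agent.R235.LocNonzD_774

noncomputable section

variable {μ β : ℂ × ℂ → ℂ} {κ L : ℝ} {c : ℂ} {R : ℝ} {k : ℕ} {S : ℂ → Multiset ℂ} {e : ℂ → ℝ}

/-- the energy of the pairs -/
def EE (S : ℂ → Multiset ℂ) (z : ℂ) : ℝ := psum S (fun _ a b A B => ‖pdL a b A B‖ ^ 2) z

theorem chi_pdL_sq {χ : ℝ → ℝ} (hχ : Chi χ) {n : ℝ} (hn : 0 < n) (h1 : SEL)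
    (hB : BoxD μ β κ L) (hK : KG μ β c R k S e) {z : ℂ}
    (hz : z ∈ Usimp c R S) {a b : ℂ} (ha : a ∈ S z) (hb : b ∈ S z) (hab : a ≠ b) :
    χ (pv a b / n) * ‖pdL a b (slope S z a) (slope S z b)‖ ^ 2 ≤
      4 * Real.exp (4 * n) * e z := by
  have he := hK.e0 z
  rcases le_or_gt (pv a b) (2 * n) with h | h
  · have h2 := pdL_le h1 hB hK hz ha hb hab h
    have h3 : 2 * (2 * n) = 4 * n := by ring
    rw [h3] at h2
    calc _ ≤ 1 * ‖pdL a b (slope S z a) (slope S z b)‖ ^ 2 := by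
          apply mul_le_mul_of_nonneg_right (chi_le_one hχ _) (by positivity)
      _ ≤ _ := by rw [one_mul]; exact h2
  · rw [hχ.zero _ (by rw [le_div_iff₀ hn]; exact h.le), zero_mul]
    positivity

theorem cut_ball {R₁ R₂ : ℝ} {η : ℂ → ℝ} (hη : Cut c R S R₁ R₂ η) {z : ℂ} (hz : z ∉ ball c R) :
    η z = 0 :=
  hη.zero z fun h => hz (ball_subset_ball hη.lt'.le h)

theorem cut_abs {R₁ R₂ : ℝ} {η : ℂ → ℝ} (hη : Cut c R S R₁ R₂ η) (z : ℂ) : |η z| ≤ 1 := by
  rw [abs_of_nonneg (hη.nonneg z)]; exact hη.le_one z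

theorem energy (h1 : SEL) (h4 : JALG) (h6 : PSC) (hF : FLUX) (hB : BoxD μ β κ L)
    (hK : KG μ β c R k S e) (hD : DiscOff c R S) {R₁ R₂ : ℝ} {η : ℂ → ℝ}
    (hη : Cut c R S R₁ R₂ η) (h0 : flux S η = 0) :
    Integrable (fun z => η z * EE S z) := by
  obtain ⟨χ, hχ⟩ := exists_chi
  obtain ⟨c₀, C₀, hc₀, hC₀, hJ⟩ := h4 κ L hB.κ0 hB.κ1 hB.L0
  obtain ⟨n₀, C₁, hC₁⟩ := (hF χ hχ μ β κ L hB c R k S e hK hD R₁ R₂ η hη).2.1
  have hηc : Continuous η := hη.smooth.continuous
  set ν : Measure ℂ := volume.restrict (ball c R) with hν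
  -- the approximations
  let hn : ℕ → ℂ → ℝ := fun n z =>
    η z * psum S (fun _ a b A B => χ (pv a b / ((n:ℝ) + 1)) * ‖pdL a b A B‖ ^ 2) z
  have hG : ∀ n : ℕ, CG c R (fun _ a b A B => χ (pv a b / ((n:ℝ) + 1)) * ‖pdL a b A B‖ ^ 2) :=
    fun n => (cPvf (f := fun t => χ (t / ((n:ℝ) + 1)))
      ((chi_cont hχ).comp (continuous_id.div_const _))).mul ((cPdL c R).norm.pow 2)
  have hGJ : ∀ n : ℕ, CG c R (fun _ a b A B => χ (pv a b / ((n:ℝ) + 1)) * pJ a b A B) :=
    fun n => (cPvf (f := fun t => χ (t / ((n:ℝ) + 1)))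
      ((chi_cont hχ).comp (continuous_id.div_const _))).mul (cPJ c R)
  have hnpos : ∀ n : ℕ, (0:ℝ) < (n:ℝ) + 1 := fun n => by positivity
  have hint : ∀ n : ℕ, Integrable (hn n) := by
    intro n
    apply int_mul hηc (cut_abs hη) (fun z hz => cut_ball hη hz)
    refine intOn h1 h6 hB hK (hG n) (C := 4 * Real.exp (4 * ((n:ℝ) + 1))) ?_
    intro z hz a ha b hb hab
    rw [abs_of_nonneg (mul_nonneg (chi_nonneg hχ _) (by positivity))]
    refine (chi_pdL_sq hχ (hnpos n) h1 hB hK hz ha hb hab).trans ?_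
    have := Real.exp_pos (4 * ((n:ℝ) + 1))
    nlinarith
  have hJ3 : ∀ z ∈ Usimp c R S, ∀ a ∈ S z, ∀ b ∈ S z, a ≠ b →
      c₀ * ‖pdL a b (slope S z a) (slope S z b)‖ ^ 2 - C₀ * (1 + e z) ≤
        pJ a b (slope S z a) (slope S z b) ∧
      |pJ a b (slope S z a) (slope S z b)| ≤
        C₀ * ‖pdL a b (slope S z a) (slope S z b)‖ ^ 2 := by
    intro z hz a ha b hb hab
    have hpa := slope_props h1 hB hK hz ha
    have hpb := slope_props h1 hB hK hz hb
    obtain ⟨j1, j2, _⟩ := hJ μ β hB z a b _ _ hab hpa.1 hpb.1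
    refine ⟨?_, j2⟩
    have : C₀ * (1 + ‖slope S z b‖ ^ 2) ≤ C₀ * (1 + e z) := by
      apply mul_le_mul_of_nonneg_left _ hC₀
      linarith [hpb.2]
    linarith
  have hintJ : ∀ n : ℕ, Integrable (fun z => η z *
      psum S (fun _ a b A B => χ (pv a b / ((n:ℝ) + 1)) * pJ a b A B) z) := by
    intro n
    apply int_mul hηc (cut_abs hη) (fun z hz => cut_ball hη hz)
    refine intOn h1 h6 hB hK (hGJ n) (C := C₀ * (4 * Real.exp (4 * ((n:ℝ) + 1)))) ?_
    intro z hz a ha b hb hab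
    rw [abs_mul, abs_of_nonneg (chi_nonneg hχ _)]
    have h2 := chi_pdL_sq hχ (hnpos n) h1 hB hK hz ha hb hab
    have h3 := (hJ3 z hz a ha b hb hab).2
    have h4 := mul_le_mul_of_nonneg_left h3 (chi_nonneg hχ (pv a b / ((n:ℝ) + 1)))
    have h5 := mul_le_mul_of_nonneg_left h2 hC₀
    have he := Real.exp_pos (4 * ((n:ℝ) + 1))
    have h6 : 0 ≤ C₀ * (4 * Real.exp (4 * ((n:ℝ) + 1))) := by positivity
    nlinarith
  have hi1 : Integrable (fun z => η z * (1 + e z)) :=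
    int_mul hηc (cut_abs hη) (fun z hz => cut_ball hη hz) (int_one_add hK)
  -- the bound
  have hpt : ∀ n : ℕ, ∀ᵐ z, c₀ * hn n z ≤ η z *
      psum S (fun _ a b A B => χ (pv a b / ((n:ℝ) + 1)) * pJ a b A B) z +
      (k:ℝ) ^ 2 * C₀ * (η z * (1 + e z)) := by
    intro n
    have h2 := ae_simple hK
    rw [ae_restrict_iff' measurableSet_ball] at h2
    filter_upwards [h2] with z hz
    by_cases hzb : z ∈ ball c R
    · have hz' := hz hzb
      have h3 : psum S (fun _ a b A B => c₀ * (χ (pv a b / ((n:ℝ) + 1)) *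
          ‖pdL a b A B‖ ^ 2)) z ≤ psum S (fun z a b A B =>
            χ (pv a b / ((n:ℝ) + 1)) * pJ a b A B + C₀ * (1 + e z)) z := by
        apply psum_le
        intro _ a ha b hb hab
        have h4 := (hJ3 z hz' a ha b hb hab).1
        have h5 := mul_le_mul_of_nonneg_left h4 (chi_nonneg hχ (pv a b / ((n:ℝ) + 1)))
        have h6 : χ (pv a b / ((n:ℝ) + 1)) * (C₀ * (1 + e z)) ≤ 1 * (C₀ * (1 + e z)) := by
          apply mul_le_mul_of_nonneg_right (chi_le_one hχ _)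
          have := hK.e0 z
          positivity
        linarith
      rw [psum_mul (fun _ => c₀), psum_add] at h3
      have h4 : psum S (fun z _ _ _ _ => C₀ * (1 + e z)) z ≤ (k:ℝ) ^ 2 * (C₀ * (1 + e z)) := by
        have := hK.e0 z
        exact psum_le_const (hK.card z hzb) (by positivity) fun _ a _ b _ _ => le_rfl
      have h5 := mul_le_mul_of_nonneg_left (h3.trans (add_le_add_right h4 _)) (hη.nonneg z)
      simp only [hn]
      linarith
    · simp only [hn]
      rw [cut_ball hη hzb]; simp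
  have hbd : ∀ n : ℕ, n₀ ≤ (n:ℝ) + 1 → ∫ z, hn n z ≤
      (C₁ + (k:ℝ) ^ 2 * C₀ * ∫ z, η z * (1 + e z)) / c₀ := by
    intro n hnn
    rw [le_div_iff₀ hc₀, mul_comm, ← integral_const_mul]
    refine (integral_mono_ae ((hint n).const_mul _)
      ((hintJ n).add (hi1.const_mul _)) (hpt n)).trans ?_
    rw [integral_add' (hintJ n) (hi1.const_mul _), integral_const_mul]
    have h2 := hC₁ _ hnn
    simp only [h0, mul_zero, sub_zero] at h2
    exact add_le_add_left ((le_abs_self _).trans h2) _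
  have hn0 : ∀ n z, 0 ≤ hn n z := fun n z => mul_nonneg (hη.nonneg z)
    (psum_nonneg fun _ a _ b _ _ => mul_nonneg (chi_nonneg hχ _) (by positivity))
  have hlim : ∀ z, Tendsto (fun n : ℕ => hn n z) atTop (𝓝 (η z * EE S z)) := by
    intro z
    apply Tendsto.const_mul
    apply tendsto_const_nhds.congr'
    by_cases hz : (S z).Nodup
    · classical
      have h2 : ∀ᶠ n : ℕ in atTop, ∀ q ∈ (S z).toFinset.offDiag, pv q.1 q.2 ≤ (n:ℝ) + 1 := by
        rw [Finset.eventually_all]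
        intro q _
        filter_upwards [eventually_ge_atTop ⌈pv q.1 q.2⌉₊] with n hnq
        have := Nat.le_of_ceil_le hnq
        linarith
      filter_upwards [h2] with n h3
      unfold EE
      rw [psum_of hz, psum_of hz]
      apply Finset.sum_congr rfl
      intro q hq
      rw [hχ.one _ (by rw [div_le_one (hnpos n)]; exact h3 q hq), one_mul]
    · filter_upwards with n
      unfold EE
      rw [psum_not hz, psum_not hz]
  set C₂ := (C₁ + (k:ℝ) ^ 2 * C₀ * ∫ z, η z * (1 + e z)) / c₀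
  have hmeas : AEStronglyMeasurable (fun z => η z * EE S z) volume :=
    aestronglyMeasurable_of_tendsto_ae atTop (fun n => (hint n).aestronglyMeasurable)
      (Eventually.of_forall hlim)
  rw [← memLp_one_iff_integrable]
  refine ⟨hmeas, ?_⟩
  refine lt_of_le_of_lt (Lp.eLpNorm_lim_le_liminf_eLpNorm
    (fun n => (hint n).aestronglyMeasurable) _ (Eventually.of_forall hlim)) ?_
  refine lt_of_le_of_lt (b := ENNReal.ofReal C₂) ?_ ENNReal.ofReal_lt_top
  apply liminf_le_of_frequently_le'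
  apply Eventually.frequently
  filter_upwards [eventually_ge_atTop ⌈n₀⌉₊] with n hnn
  have h2 : n₀ ≤ (n:ℝ) + 1 := by
    have := Nat.le_of_ceil_le hnn
    linarith
  rw [eLpNorm_one_eq_lintegral_enorm, ← ofReal_integral_norm_eq_lintegral_enorm (hint n)]
  apply ENNReal.ofReal_le_ofReal
  refine le_trans (le_of_eq ?_) (hbd n h2)
  apply integral_congr_ae
  filter_upwards with z
  rw [Real.norm_eq_abs, abs_of_nonneg (hn0 n z)]

/-! ### singular integrals -/

theorem int_rpow (c : ℂ) (R : ℝ) {p : ℝ} (hp : -2 < p) :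
    IntegrableOn (fun z : ℂ => ‖z - c‖ ^ p) (ball c R) := by
  have h0 : IntegrableOn (fun z : ℂ => ‖z‖ ^ p) (ball 0 R) := by
    rw [integrableOn_fun_norm_addHaar (volume : Measure ℂ) (f := fun y : ℝ => y ^ p) (r := R),
      Complex.finrank_real_complex]
    rcases le_or_gt R 0 with hR | hR
    · rw [Ioo_eq_empty (by linarith)]; exact integrableOn_empty
    · have h1 : IntegrableOn (fun y : ℝ => y ^ (p + 1)) (Ioo 0 R) := by
        have := (intervalIntegral.intervalIntegrable_rpow' (a := 0) (b := R) (r := p + 1)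
          (by linarith))
        rw [intervalIntegrable_iff_integrableOn_Ioo_of_le hR.le] at this
        exact this
      refine h1.congr_fun ?_ measurableSet_Ioo
      intro y hy
      simp only [Nat.add_one_sub_one, pow_one, smul_eq_mul]
      rw [Real.rpow_add hy.1, Real.rpow_one, mul_comm]
  have hpre : (fun z : ℂ => z - c) ⁻¹' (ball 0 R) = ball c R := by
    ext z; simp [dist_eq_norm]
  have h2 := (measurePreserving_sub_right (volume : Measure ℂ) c).integrableOn_comp_preimage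
    (MeasurableEquiv.subRight c).measurableEmbedding (s := ball 0 R)
    (f := fun z : ℂ => ‖z‖ ^ p)
  rw [hpre] at h2
  exact h2.2 h0

/-- Morrey: `e |z - c|^{-s}` is integrable. -/
theorem int_morrey {c : ℂ} {R : ℝ} {e : ℂ → ℝ} (he0 : ∀ z, 0 ≤ e z)
    (he : IntegrableOn e (ball c R)) {C s r₀ : ℝ} (hs : 0 < s) (hr₀ : 0 < r₀)
    (hsub : ball c r₀ ⊆ ball c R)
    (hM : ∀ r : ℝ, 0 < r → r ≤ r₀ → ∫ z in ball c r, e z ≤ C * r ^ (2 * s)) :
    IntegrableOn (fun z => e z * ‖z - c‖ ^ (-s)) (ball c R) := by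
  have hmeas : Measurable fun z : ℂ => ‖z - c‖ ^ (-s) := by fun_prop
  -- a general piece
  have piece : ∀ (A : Set ℂ) (ρ : ℝ), MeasurableSet A → 0 < ρ → A ⊆ ball c R →
      (∀ z ∈ A, ρ ≤ ‖z - c‖) → IntegrableOn (fun z => e z * ‖z - c‖ ^ (-s)) A ∧
        ∫ z in A, ‖e z * ‖z - c‖ ^ (-s)‖ ≤ ρ ^ (-s) * ∫ z in A, e z := by
    intro A ρ hA hρ hAs hAρ
    have hb : ∀ z ∈ A, ‖z - c‖ ^ (-s) ≤ ρ ^ (-s) := fun z hz =>
      Real.rpow_le_rpow_of_nonpos hρ (hAρ z hz) (by linarith)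
    have hi : IntegrableOn (fun z => e z * ‖z - c‖ ^ (-s)) A := by
      have h1 := (he.mono_set hAs)
      refine Integrable.mono' (h1.const_mul (ρ ^ (-s)))
        (h1.aestronglyMeasurable.mul hmeas.aestronglyMeasurable) ?_
      rw [ae_restrict_iff' hA]
      refine Eventually.of_forall fun z hz => ?_
      rw [Real.norm_eq_abs, abs_of_nonneg (mul_nonneg (he0 z) (by positivity)), mul_comm]
      exact mul_le_mul_of_nonneg_right (hb z hz) (he0 z)
    refine ⟨hi, ?_⟩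
    rw [← integral_const_mul]
    apply setIntegral_mono_on hi.norm ((he.mono_set hAs).const_mul _) hA
    intro z hz
    rw [Real.norm_eq_abs, abs_of_nonneg (mul_nonneg (he0 z) (by positivity)), mul_comm]
    exact mul_le_mul_of_nonneg_right (hb z hz) (he0 z)
  -- the dyadic annuli
  let ρ : ℕ → ℝ := fun j => r₀ * (1 / 2) ^ j
  have hρ0 : ∀ j, 0 < ρ j := fun j => by positivity
  let A : ℕ → Set ℂ := fun j => ball c (ρ j) \ ball c (ρ (j + 1))
  have hAm : ∀ j, MeasurableSet (A j) := fun j => measurableSet_ball.diff measurableSet_ball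
  have hρr : ∀ j, ρ j ≤ r₀ := fun j => by
    have : (1 / 2 : ℝ) ^ j ≤ 1 := pow_le_one₀ (by norm_num) (by norm_num)
    simp only [ρ]; nlinarith
  have hAs : ∀ j, A j ⊆ ball c R := fun j z hz =>
    hsub (ball_subset_ball (hρr j) hz.1)
  have hAp : ∀ j, IntegrableOn (fun z => e z * ‖z - c‖ ^ (-s)) (A j) ∧
      ∫ z in A j, ‖e z * ‖z - c‖ ^ (-s)‖ ≤ ρ (j + 1) ^ (-s) * ∫ z in A j, e z := by
    intro j
    apply piece (A j) (ρ (j + 1)) (hAm j) (hρ0 _) (hAs j)
    intro z hz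
    have := hz.2
    rw [mem_ball, not_lt, dist_eq_norm] at this
    exact this
  have hgeo : ∀ j, ∫ z in A j, ‖e z * ‖z - c‖ ^ (-s)‖ ≤
      (|C| * r₀ ^ s * 2 ^ s) * ((1 / 2 : ℝ) ^ s) ^ j := by
    intro j
    refine (hAp j).2.trans ?_
    have h1 : ∫ z in A j, e z ≤ |C| * ρ j ^ (2 * s) := by
      refine (setIntegral_mono_set (he.mono_set ((ball_subset_ball (hρr j)).trans hsub))
        (Eventually.of_forall he0) (Eventually.of_forall fun z hz => hz.1)).trans ?_
      refine (hM _ (hρ0 j) (hρr j)).trans ?_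
      exact mul_le_mul_of_nonneg_right (le_abs_self _) (Real.rpow_nonneg (hρ0 j).le _)
    refine (mul_le_mul_of_nonneg_left h1 (Real.rpow_nonneg (hρ0 _).le _)).trans (le_of_eq ?_)
    have h2 : ρ (j + 1) = ρ j * 2⁻¹ := by simp only [ρ]; ring
    have h3 : ρ j ^ (2 * s) = ρ j ^ s * ρ j ^ s := by
      rw [← Real.rpow_add (hρ0 j)]; congr 1; ring
    have h4 : ρ (j + 1) ^ (-s) = (ρ j ^ s)⁻¹ * 2 ^ s := by
      rw [h2, Real.mul_rpow (hρ0 j).le (by norm_num), Real.rpow_neg (hρ0 j).le,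
        Real.inv_rpow (by norm_num), Real.rpow_neg (by norm_num), inv_inv]
    have h5 : ρ j ^ s = r₀ ^ s * ((1 / 2 : ℝ) ^ s) ^ j := by
      simp only [ρ]
      rw [Real.mul_rpow hr₀.le (by positivity), ← Real.rpow_natCast, ← Real.rpow_mul (by norm_num),
        ← Real.rpow_natCast ((1 / 2 : ℝ) ^ s), ← Real.rpow_mul (by norm_num), mul_comm (j:ℝ) s]
    have h6 : ρ j ^ s ≠ 0 := (Real.rpow_pos_of_pos (hρ0 j) _).ne'
    rw [h3, h4]
    have h7 : (ρ j ^ s)⁻¹ * 2 ^ s * (|C| * (ρ j ^ s * ρ j ^ s)) = |C| * 2 ^ s * ρ j ^ s := by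
      field_simp
    rw [h7, h5]; ring
  have hsum : Summable fun j => ∫ z in A j, ‖e z * ‖z - c‖ ^ (-s)‖ := by
    refine Summable.of_nonneg_of_le (fun j => integral_nonneg fun z => norm_nonneg _) hgeo ?_
    apply Summable.mul_left
    apply summable_geometric_of_lt_one (by positivity)
    exact Real.rpow_lt_one (by norm_num) (by norm_num) hs
  have hU := integrableOn_iUnion_of_summable_integral_norm (fun j => (hAp j).1) hsum
  have hout := (piece (ball c R \ ball c r₀) r₀ (measurableSet_ball.diff measurableSet_ball) hr₀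
    sdiff_subset (fun z hz => by
      have := hz.2
      rw [mem_ball, not_lt, dist_eq_norm] at this
      exact this)).1
  have hsing : IntegrableOn (fun z => e z * ‖z - c‖ ^ (-s)) {c} := by
    rw [IntegrableOn, Measure.restrict_eq_zero.2 (measure_singleton c)]
    exact integrable_zero_measure
  refine ((hU.union hout).union hsing).mono_set ?_
  intro z hz
  by_cases hzc : z = c
  · right; exact hzc
  left
  by_cases hz0 : z ∈ ball c r₀
  · left
    have hpos : 0 < ‖z - c‖ := norm_pos_iff.2 (sub_ne_zero.2 hzc)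
    -- the first `j` with `ρ (j+1) ≤ |z - c|`
    have hex : ∃ j, ρ (j + 1) ≤ ‖z - c‖ := by
      obtain ⟨N, hN⟩ := exists_pow_lt_of_lt_one (y := (1/2:ℝ)) (div_pos hpos hr₀) (by norm_num)
      refine ⟨N, ?_⟩
      rw [lt_div_iff₀ hr₀] at hN
      have h1 : ρ (N + 1) ≤ ρ N := by
        simp only [ρ]
        have : (0:ℝ) < (1/2) ^ N := by positivity
        rw [pow_succ]; nlinarith
      have h2 : ρ N = (1 / 2) ^ N * r₀ := by simp only [ρ]; ring
      linarith
    classical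
    let j := Nat.find hex
    have hj : ρ (j + 1) ≤ ‖z - c‖ := Nat.find_spec hex
    rw [mem_iUnion]
    refine ⟨j, ?_, ?_⟩
    · rw [mem_ball, dist_eq_norm]
      rcases Nat.eq_zero_or_pos j with h | h
      · rw [h]
        simp only [ρ, pow_zero, mul_one]
        rw [mem_ball, dist_eq_norm] at hz0; exact hz0
      · have h2 := Nat.find_min hex (m := j - 1) (by omega)
        rw [not_le, Nat.sub_add_cancel h] at h2
        exact h2
    · rw [mem_ball, not_lt, dist_eq_norm]; exact hj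
  · right; exact ⟨hz, hz0⟩

end

end Crest.Agent.R235.LocNonzE_774
end

-- ▼ part R235/LocNonzF_774
section

/-!
Row 235, REG-LOC 11 (NONZ), part F: pointwise estimates.
-/

set_option autoImplicit false

open MeasureTheory Metric Set Filter Complex
open scoped ContDiff Topology

namespace Crest.Agent.R235.LocNonzF_774

open Crest.Agent.R235.Loc Crest.Agent.R235.LocNonzA_774 Crest.Agent.R235.LocNonzB_774
  Crest.Agent.R235.LocNonzC_774 Crest.Agent.R235.LocNonzD_774 Crest.Agent.R235.LocNonzE_774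

noncomputable section

variable {μ β : ℂ × ℂ → ℂ} {κ L : ℝ} {c : ℂ} {R : ℝ} {k : ℕ} {S : ℂ → Multiset ℂ} {e : ℂ → ℝ}

theorem c_not_simple (hK : KG μ β c R k S e) (hA : AllEq S c) (hk : 2 ≤ k) {z : ℂ}
    (hz : z ∈ Usimp c R S) : z ≠ c := by
  classical
  rintro rfl
  have h1 : 1 < (S z).toFinset.card := by
    rw [Multiset.toFinset_card_of_nodup hz.2, hK.card z hz.1]; omega
  obtain ⟨a, ha, b, hb, hab⟩ := Finset.one_lt_card.1 h1
  exact hab (hA a (Multiset.mem_toFinset.1 ha) b (Multiset.mem_toFinset.1 hb))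

theorem lz_le (T : ℂ →L[ℝ] ℂ) : ‖lz T‖ ≤ ‖T‖ := by
  unfold lz
  rw [norm_div]
  have h1 : ‖T 1‖ ≤ ‖T‖ := by simpa using T.le_opNorm 1
  have h2 : ‖T I‖ ≤ ‖T‖ := by simpa using T.le_opNorm I
  have h3 : ‖T 1 - I * T I‖ ≤ ‖T 1‖ + ‖T I‖ := by
    refine (norm_sub_le _ _).trans ?_
    rw [norm_mul, Complex.norm_I, one_mul]
  have h4 : ‖(2:ℂ)‖ = 2 := by simp
  rw [h4]
  linarith

theorem data (hB : BoxD μ β κ L) (hK : KG μ β c R k S e) (hR : 0 < R) (hA : AllEq S c)
    (hk : 2 ≤ k) : ∃ (m : ℂ) (s C₈ : ℝ), ‖m‖ ≤ κ ∧ 0 < s ∧ s ≤ 1 ∧ 0 ≤ C₈ ∧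
      (∀ z ∈ ball c R, ∀ a ∈ S z, ‖μ (z, a) - m‖ ≤ C₈ * ‖z - c‖ ^ s) ∧
      IntegrableOn (fun z => e z * ‖z - c‖ ^ (-s)) (ball c R) := by
  have hc : c ∈ ball c R := mem_ball_self hR
  obtain ⟨CM, aM, rM, hCM, haM, hrM, hsM, hM⟩ := hK.morrey c hc
  obtain ⟨CH, aH, rH, hCH, haH, hrH, hsH, hH⟩ := hK.hold c hc
  obtain ⟨a₀, ha₀⟩ : ∃ a₀, a₀ ∈ S c := by
    apply Multiset.card_pos_iff_exists_mem.1
    rw [hK.card c hc]; omega
  set s : ℝ := min (min aM aH) 1 with hs
  have hs0 : 0 < s := by rw [hs]; positivity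
  have hs1 : s ≤ 1 := min_le_right _ _
  have hsa : s ≤ aM := (min_le_left _ _).trans (min_le_left _ _)
  have hsb : s ≤ aH := (min_le_left _ _).trans (min_le_right _ _)
  set r₁ : ℝ := min rH 1 with hr₁
  have hr₁0 : 0 < r₁ := by rw [hr₁]; positivity
  refine ⟨μ (c, a₀), s, L * (1 + CH) + 2 / r₁ ^ s, hB.bμ _, hs0, hs1, ?_, ?_, ?_⟩
  · have := hB.L0
    positivity
  · intro z hz a ha
    have hL := hB.L0
    rcases lt_or_ge ‖z - c‖ r₁ with h | h
    · have h1 : z ∈ ball c rH := by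
        rw [mem_ball, dist_eq_norm]; exact h.trans_le (min_le_left _ _)
      obtain ⟨a', ha', h2⟩ := Multiset.exists_mem_of_rel_of_mem (Multiset.rel_flip.2 (hH z h1)) ha
      rw [hA a' ha' a₀ ha₀] at h2
      have hz1 : ‖z - c‖ ≤ 1 := h.le.trans (min_le_right _ _)
      have h3 : ‖z - c‖ ≤ ‖z - c‖ ^ s := by
        have := Real.rpow_le_rpow_of_exponent_ge' (norm_nonneg (z - c)) hz1 hs0.le hs1
        rwa [Real.rpow_one] at this
      have h4 : ‖z - c‖ ^ aH ≤ ‖z - c‖ ^ s :=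
        Real.rpow_le_rpow_of_exponent_ge' (norm_nonneg (z - c)) hz1 hs0.le hsb
      have h5 : ‖((z, a) : ℂ × ℂ) - (c, a₀)‖ ≤ (1 + CH) * ‖z - c‖ ^ s := by
        rw [Prod.mk_sub_mk, Prod.norm_mk]
        apply max_le
        · have : 0 ≤ CH * ‖z - c‖ ^ s := by positivity
          linarith
        · have h6 : ‖a - a₀‖ ≤ CH * ‖z - c‖ ^ aH := by
            have h2' : dist a₀ a ≤ CH * dist z c ^ aH := h2
            rw [← dist_eq_norm, dist_comm, ← dist_eq_norm]
            exact h2'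
          have h7 := mul_le_mul_of_nonneg_left h4 hCH
          have h8 : 0 ≤ ‖z - c‖ ^ s := by positivity
          linarith
      have h6 := hB.lipμ (z, a) (c, a₀)
      have h7 := mul_le_mul_of_nonneg_left h5 hL
      have h8 : 0 ≤ 2 / r₁ ^ s * ‖z - c‖ ^ s := by positivity
      linarith
    · have h1 : ‖μ (z, a) - μ (c, a₀)‖ ≤ 2 := by
        have := norm_sub_le (μ (z, a)) (μ (c, a₀))
        have h2 := hB.bμ (z, a)
        have h3 := hB.bμ (c, a₀)
        linarith [hB.κ1]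
      have h2 : r₁ ^ s ≤ ‖z - c‖ ^ s := Real.rpow_le_rpow hr₁0.le h hs0.le
      have h3 : 0 < r₁ ^ s := Real.rpow_pos_of_pos hr₁0 _
      have h4 : 2 ≤ 2 / r₁ ^ s * ‖z - c‖ ^ s := by
        rw [div_mul_eq_mul_div, le_div_iff₀ h3]
        linarith
      have h5 : 0 ≤ L * (1 + CH) * ‖z - c‖ ^ s := by positivity
      linarith
  · refine int_morrey hK.e0 hK.eint (C := CM) (s := s) (r₀ := min rM 1) hs0 (by positivity)
      ((ball_subset_ball (min_le_left _ _)).trans hsM) ?_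
    intro r hr hr'
    refine (hM r hr (hr'.trans (min_le_left _ _))).trans ?_
    apply mul_le_mul_of_nonneg_left _ hCM
    exact Real.rpow_le_rpow_of_exponent_ge' hr.le (hr'.trans (min_le_right _ _)) (by positivity)
      (by linarith)

/-- the majorant density -/
def HH (κ C₀ C₈ s : ℝ) (c z : ℂ) (ez t : ℝ) : ℝ :=
  2 / (1 - κ) * (C₀ * (‖z - c‖ ^ (-1:ℝ) + (ez * ‖z - c‖ ^ (-s) + ‖z - c‖ ^ (s - 2)) / 2) +
    C₈ * ((t + ‖z - c‖ ^ (2 * s - 2)) / 2))

theorem ptwise {κ C₀ C₈ s : ℝ} {c z m : ℂ} {ez : ℝ} (hκ : κ < 1) (hm : ‖m‖ ≤ κ)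
    (hC₀ : 0 ≤ C₀) (hC₈ : 0 ≤ C₈) (hz : z ≠ c) {x : ℝ} (hx0 : 0 ≤ x) (hx1 : x ≤ 1)
    {η : ℂ → ℝ} (hη0 : 0 ≤ η z) (hηd : DifferentiableAt ℝ η z) {ε : ℝ} (hε : 0 < ε)
    {a b : ℂ} {A B : ℂ →L[ℝ] ℂ} {mu : ℂ}
    (h1 : ‖lzb (pdL a b A B) - mu * lz (pdL a b A B)‖ ≤ C₀ * (1 + ‖B‖))
    (h2 : ‖mu - m‖ ≤ C₈ * ‖z - c‖ ^ s) (h3 : ‖B‖ ^ 2 ≤ ez) :
    |η z * (x * (-(pdL a b A B 1).re * gam m c ε z I + (pdL a b A B I).re * gam m c ε z 1))
      + x * wth (fderiv ℝ (fun y => η y * ll m c ε y) z) a b A B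
      - ll m c ε z * (x * wth (fderiv ℝ η z) a b A B)| ≤
      η z * HH κ C₀ C₈ s c z ez (‖pdL a b A B‖ ^ 2) := by
  set T := pdL a b A B with hT
  have hρ : 0 < ‖z - c‖ := norm_pos_iff.2 (sub_ne_zero.2 hz)
  have hid := ident m c ε hε z T
  have hfd : ∀ u, fderiv ℝ (fun y => η y * ll m c ε y) z u =
      η z * fderiv ℝ (ll m c ε) z u + ll m c ε z * fderiv ℝ η z u := by
    intro u
    rw [fderiv_fun_mul hηd ((contDiff_ll m c ε hε).differentiable (by simp) z)]
    simp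
  have heq : η z * (x * (-(T 1).re * gam m c ε z I + (T I).re * gam m c ε z 1))
      + x * wth (fderiv ℝ (fun y => η y * ll m c ε y) z) a b A B
      - ll m c ε z * (x * wth (fderiv ℝ η z) a b A B) =
      η z * (x * ((-(T 1).re * gam m c ε z I + (T I).re * gam m c ε z 1)
      + (fderiv ℝ (ll m c ε) z 1 * (T I).im - fderiv ℝ (ll m c ε) z I * (T 1).im))) := by
    unfold wth
    rw [hfd, hfd, ← hT]
    ring
  rw [heq, abs_mul, abs_mul, abs_of_nonneg hη0, abs_of_nonneg hx0]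
  apply mul_le_mul_of_nonneg_left _ hη0
  refine (mul_le_mul hx1 hid (abs_nonneg _) zero_le_one).trans ?_
  rw [one_mul]
  -- the factor
  have hA1 : (1 - κ) * ‖z - c‖ ≤ ‖AL m (z - c)‖ := by
    refine le_trans ?_ (le_norm_AL m (z - c))
    apply mul_le_mul_of_nonneg_right _ hρ.le
    linarith
  have hκ' : 0 < 1 - κ := by linarith
  have hA0 : 0 < ‖AL m (z - c)‖ := lt_of_lt_of_le (by positivity) hA1
  have hfac : ‖AL m (z - c)‖ / NN m c ε z ≤ 1 / ((1 - κ) * ‖z - c‖) := by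
    rw [NN_eq, div_le_div_iff₀ (by positivity) (by positivity)]
    nlinarith [sq_nonneg ε]
  have hg : ‖lzb T - m * lz T‖ ≤ C₀ * (1 + ‖B‖) + C₈ * ‖z - c‖ ^ s * ‖T‖ := by
    have h4 : lzb T - m * lz T = (lzb T - mu * lz T) + (mu - m) * lz T := by ring
    rw [h4]
    refine (norm_add_le _ _).trans (add_le_add h1 ?_)
    rw [norm_mul]
    exact mul_le_mul h2 (lz_le T) (norm_nonneg _) (by positivity)
  have hg0 : 0 ≤ C₀ * (1 + ‖B‖) + C₈ * ‖z - c‖ ^ s * ‖T‖ := by positivity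
  have h5 : 2 * ‖lzb T - m * lz T‖ * (‖AL m (z - c)‖ / NN m c ε z) ≤
      2 * (C₀ * (1 + ‖B‖) + C₈ * ‖z - c‖ ^ s * ‖T‖) * (1 / ((1 - κ) * ‖z - c‖)) := by
    apply mul_le_mul _ hfac
    · exact div_nonneg (norm_nonneg _) (NN_pos m c ε hε z).le
    · positivity
    · linarith
  refine h5.trans ?_
  -- powers
  set ρ := ‖z - c‖ with hρd
  have p1 : ρ ^ (-1:ℝ) = 1 / ρ := by rw [Real.rpow_neg_one, one_div]
  have p2 : ‖B‖ / ρ ≤ (ez * ρ ^ (-s) + ρ ^ (s - 2)) / 2 := by
    have q1 : (ρ ^ (-s / 2)) ^ 2 = ρ ^ (-s) := by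
      rw [← Real.rpow_natCast, ← Real.rpow_mul hρ.le]; congr 1; push_cast; ring
    have q2 : (ρ ^ (s / 2 - 1)) ^ 2 = ρ ^ (s - 2) := by
      rw [← Real.rpow_natCast, ← Real.rpow_mul hρ.le]; congr 1; push_cast; ring
    have q3 : ρ ^ (-s / 2) * ρ ^ (s / 2 - 1) = 1 / ρ := by
      rw [← Real.rpow_add hρ, ← p1]; congr 1; ring
    have q4 := sq_nonneg (‖B‖ * ρ ^ (-s / 2) - ρ ^ (s / 2 - 1))
    have q5 : ‖B‖ / ρ = ‖B‖ * (ρ ^ (-s / 2) * ρ ^ (s / 2 - 1)) := by rw [q3]; ring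
    have q6 : ‖B‖ ^ 2 * ρ ^ (-s) ≤ ez * ρ ^ (-s) :=
      mul_le_mul_of_nonneg_right h3 (by positivity)
    rw [q5]
    nlinarith
  have p3 : ρ ^ s * ‖T‖ / ρ ≤ (‖T‖ ^ 2 + ρ ^ (2 * s - 2)) / 2 := by
    have q1 : (ρ ^ (s - 1)) ^ 2 = ρ ^ (2 * s - 2) := by
      rw [← Real.rpow_natCast, ← Real.rpow_mul hρ.le]; congr 1; push_cast; ring
    have q2 : ρ ^ s / ρ = ρ ^ (s - 1) := by rw [Real.rpow_sub hρ, Real.rpow_one]
    have q3 : ρ ^ s * ‖T‖ / ρ = ρ ^ (s - 1) * ‖T‖ := by rw [← q2]; ring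
    rw [q3]
    nlinarith [sq_nonneg (‖T‖ - ρ ^ (s - 1))]
  have p4 : 2 * (C₀ * (1 + ‖B‖) + C₈ * ρ ^ s * ‖T‖) * (1 / ((1 - κ) * ρ)) =
      2 / (1 - κ) * (C₀ * (1 / ρ + ‖B‖ / ρ) + C₈ * (ρ ^ s * ‖T‖ / ρ)) := by
    field_simp
  rw [p4]
  unfold HH
  rw [← hρd, p1]
  apply mul_le_mul_of_nonneg_left _ (by positivity)
  apply add_le_add
  · apply mul_le_mul_of_nonneg_left _ hC₀
    linarith
  · exact mul_le_mul_of_nonneg_left p3 hC₈

end

end Crest.Agent.R235.LocNonzF_774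
end

-- ▼ part R235/LocNonz_774

/-!
Row 235, REG-LOC 11: NONZ, the flux at a point where all sheets coincide is not zero.
-/

set_option autoImplicit false

open MeasureTheory Metric Set Filter Complex
open scoped ContDiff Topology

namespace Crest.Agent.R235.LocNonz_774

open Crest.Agent.R235.Loc Crest.Agent.R235.LocNonzA_774 Crest.Agent.R235.LocNonzB_774
  Crest.Agent.R235.LocNonzC_774 Crest.Agent.R235.LocNonzD_774 Crest.Agent.R235.LocNonzE_774
  Crest.Agent.R235.LocNonzF_774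

noncomputable section

variable {μ β : ℂ × ℂ → ℂ} {κ L : ℝ} {c : ℂ} {R : ℝ} {k : ℕ} {S : ℂ → Multiset ℂ} {e : ℂ → ℝ}

theorem abs_int_le {F G : ℂ → ℝ} (hG : Integrable G) (h : ∀ᵐ z, |F z| ≤ G z) :
    |∫ z, F z| ≤ ∫ z, G z := by
  rw [← Real.norm_eq_abs]
  exact norm_integral_le_of_norm_le hG h

theorem G1_bound {χ : ℝ → ℝ} (hχ : Chi χ) {n : ℝ} {m c z a b : ℂ} {A B : ℂ →L[ℝ] ℂ}
    {ε Cg X ez : ℝ} (g0 : ‖gam m c ε z‖ ≤ Cg) (hX : 1 ≤ X)
    (hq : χ (pv a b / n) * ‖pdL a b A B‖ ^ 2 ≤ X * ez) :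
    |G1 χ n m c ε z a b A B| ≤ Cg * X * (1 + ez) := by
  have hCg0 : 0 ≤ Cg := (norm_nonneg _).trans g0
  unfold G1
  generalize pdL a b A B = T at hq ⊢
  have t1 : |(T 1).re| ≤ ‖T‖ := (Complex.abs_re_le_norm _).trans (by simpa using T.le_opNorm 1)
  have t2 : |(T I).re| ≤ ‖T‖ := (Complex.abs_re_le_norm _).trans (by simpa using T.le_opNorm I)
  have g1 : |gam m c ε z 1| ≤ Cg := by
    have := (gam m c ε z).le_opNorm 1
    rw [norm_one, mul_one] at this
    exact this.trans g0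
  have g2 : |gam m c ε z I| ≤ Cg := by
    have := (gam m c ε z).le_opNorm I
    rw [Complex.norm_I, mul_one] at this
    exact this.trans g0
  have hx0 := chi_nonneg hχ (pv a b / n)
  have hx1 := chi_le_one hχ (pv a b / n)
  generalize χ (pv a b / n) = x at hq hx0 hx1 ⊢
  rw [abs_mul, abs_of_nonneg hx0]
  have h8 : |(-(T 1).re * gam m c ε z I + (T I).re * gam m c ε z 1)| ≤
      Cg * (1 + ‖T‖ ^ 2) := by
    refine (abs_add_le _ _).trans ?_
    rw [abs_mul, abs_mul, abs_neg]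
    have h9 := mul_le_mul t1 g2 (abs_nonneg _) (norm_nonneg _)
    have h10 := mul_le_mul t2 g1 (abs_nonneg _) (norm_nonneg _)
    have h11 : 2 * ‖T‖ ≤ 1 + ‖T‖ ^ 2 := by nlinarith [sq_nonneg (‖T‖ - 1)]
    have h12 := mul_le_mul_of_nonneg_left h11 hCg0
    linarith
  have h11 := mul_le_mul_of_nonneg_left h8 hx0
  have h13 := mul_le_mul_of_nonneg_left hq hCg0
  have h14 : x * Cg ≤ Cg * X := by nlinarith
  have h15 : x * (Cg * (1 + ‖T‖ ^ 2)) = x * Cg + Cg * (x * ‖T‖ ^ 2) := by ring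
  rw [h15] at h11
  have h16 : Cg * X * (1 + ez) = Cg * X + Cg * (X * ez) := by ring
  rw [h16]
  linarith

theorem gam_le {m c z u : ℂ} {ε κ R₁ : ℝ} (hm : ‖m‖ ≤ κ) (hκ : κ < 1) (hR₁ : 0 < R₁)
    (hε : 0 < ε) (hz : R₁ ≤ ‖z - c‖) (hu : ‖u‖ = 1) :
    |gam m c ε z u| ≤ 4 / ((1 - κ) * R₁) := by
  have hκ' : 0 < 1 - κ := by linarith
  have l1 : (1 - κ) * R₁ ≤ ‖AL m (z - c)‖ := by
    refine le_trans ?_ (le_norm_AL m (z - c))
    exact mul_le_mul (by linarith) hz hR₁.le (by linarith)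
  have l0 : 0 < (1 - κ) * R₁ := by positivity
  have l2 : ‖AL m u‖ ≤ 2 := by
    refine (norm_AL_le m u).trans ?_
    rw [hu]; linarith
  have hN := NN_pos m c ε hε z
  have hA : 0 < ‖AL m (z - c)‖ := l0.trans_le l1
  rw [gam_apply, abs_mul, abs_of_pos (inv_pos.2 hN)]
  have h1 : |dx m (z - c) * dy m u - dy m (z - c) * dx m u| ≤ 4 * ‖AL m (z - c)‖ := by
    have a1 : |dx m (z - c)| ≤ ‖AL m (z - c)‖ := Complex.abs_re_le_norm _
    have a2 : |dy m (z - c)| ≤ ‖AL m (z - c)‖ := Complex.abs_im_le_norm _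
    have a3 : |dx m u| ≤ 2 := (Complex.abs_re_le_norm _).trans l2
    have a4 : |dy m u| ≤ 2 := (Complex.abs_im_le_norm _).trans l2
    have a5 := abs_sub (dx m (z - c) * dy m u) (dy m (z - c) * dx m u)
    rw [abs_mul, abs_mul] at a5
    have a6 := mul_le_mul a1 a4 (abs_nonneg _) (norm_nonneg _)
    have a7 := mul_le_mul a2 a3 (abs_nonneg _) (norm_nonneg _)
    linarith
  have h2 : (NN m c ε z)⁻¹ * (4 * ‖AL m (z - c)‖) ≤ 4 / ((1 - κ) * R₁) := by
    rw [inv_mul_eq_div, div_le_div_iff₀ hN l0, NN_eq]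
    have := mul_le_mul_of_nonneg_left l1 hA.le
    nlinarith [sq_nonneg ε]
  exact (mul_le_mul_of_nonneg_left h1 (inv_nonneg.2 hN.le)).trans h2

/-- the closed annulus -/
def K0 (c : ℂ) (R₁ R₂ : ℝ) : Set ℂ := {z | R₁ ≤ dist z c ∧ dist z c ≤ R₂}

section cut
variable {R₁ R₂ : ℝ} {η : ℂ → ℝ} (hη : Cut c R S R₁ R₂ η)
include hη

theorem fd0 {z : ℂ} (hz : z ∉ K0 c R₁ R₂) : fderiv ℝ η z = 0 := by
  rcases lt_or_ge (dist z c) R₁ with h | h
  · have : η =ᶠ[𝓝 z] fun _ => 1 := by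
      filter_upwards [isOpen_ball.mem_nhds (mem_ball.2 h)] with y hy
      exact hη.one y (ball_subset_closedBall hy)
    rw [this.fderiv_eq]; simp
  · have h2 : R₂ < dist z c := by
      by_contra h3
      exact hz ⟨h, not_lt.1 h3⟩
    have : η =ᶠ[𝓝 z] fun _ => 0 := by
      have ho : IsOpen {y : ℂ | R₂ < dist y c} :=
        isOpen_lt continuous_const (continuous_id.dist continuous_const)
      filter_upwards [ho.mem_nhds h2] with y hy
      exact hη.zero y (by rw [mem_ball, not_lt]; exact le_of_lt hy)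
    rw [this.fderiv_eq]; simp

omit hη in
theorem K0_compact : IsCompact (K0 c R₁ R₂) := by
  have h1 : IsClosed (K0 c R₁ R₂) :=
    (isClosed_le continuous_const (continuous_id.dist continuous_const)).inter
      (isClosed_le (continuous_id.dist continuous_const) continuous_const)
  exact (isCompact_closedBall c R₂).of_isClosed_subset h1 fun z hz => hz.2

theorem K0_simple : K0 c R₁ R₂ ⊆ Usimp c R S := fun z hz =>
  ⟨mem_ball.2 (hz.2.trans_lt hη.lt'), hη.simple z hz.1 hz.2⟩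

theorem int_K0 {F : ℂ → ℝ} (hF : ContinuousOn F (Usimp c R S))
    (h0 : ∀ z ∉ K0 c R₁ R₂, F z = 0) : Integrable F := by
  have h1 : IntegrableOn F (K0 c R₁ R₂) :=
    (hF.mono (K0_simple hη)).integrableOn_compact K0_compact
  rw [← integrableOn_univ, ← union_compl_self (K0 c R₁ R₂)]
  refine h1.union ?_
  have h3 : IntegrableOn (fun _ : ℂ => (0:ℝ)) (K0 c R₁ R₂)ᶜ := integrableOn_zero
  exact h3.congr_fun (fun z hz => (h0 z hz).symm) K0_compact.measurableSet.compl

end cut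

set_option maxHeartbeats 1600000 in
theorem nonz_core (h : STAR) (h3 : STOKES) (hF : FLUX) (h1 : SEL) (h4 : JALG) (h6 : PSC)
    (hB : BoxD μ β κ L) (hK : KG μ β c R k S e) (hD : DiscOff c R S) (hR : 0 < R)
    (hA : AllEq S c) (hk : 2 ≤ k) {R₁ R₂ : ℝ} {η : ℂ → ℝ} (hη : Cut c R S R₁ R₂ η)
    (h0 : flux S η = 0) : False := by
  obtain ⟨χ, hχ⟩ := exists_chi
  obtain ⟨c₀, C₀, hc₀, hC₀, hJ⟩ := h4 κ L hB.κ0 hB.κ1 hB.L0
  obtain ⟨m, s, C₈, hm, hs0, hs1, hC₈, hmu, hMor⟩ := data hB hK hR hA hk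
  obtain ⟨Cχ, hCχ0, hCχ⟩ := chi_deriv_bdd hχ
  have hE := energy h1 h4 h6 hF hB hK hD hη h0
  have hκ := hB.κ1
  have hκ0 := hB.κ0
  have hκ' : 0 < 1 - κ := by linarith
  have hηc : Continuous η := hη.smooth.continuous
  have hηd : Differentiable ℝ η := hη.smooth.differentiable (by simp)
  have hsub : closedBall c R₂ ⊆ ball c R := closedBall_subset_ball hη.lt'
  have hz0 : ∀ z ∉ closedBall c R₂, η z = 0 := fun z hz =>
    hη.zero z fun h => hz (ball_subset_closedBall h)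
  have hfc : Continuous (fderiv ℝ η) := hη.smooth.continuous_fderiv (by simp)
  have hR₁ := hη.pos
  have hR₂ : 0 < R₂ := hR₁.trans hη.lt
  have hfd0 : ∀ z ∉ closedBall c R₂, fderiv ℝ η z = 0 := fun z hz =>
    fd0 hη fun h => hz h.2
  -- `a.e.` simple
  have hae : ∀ᵐ z, z ∈ ball c R → z ∈ Usimp c R S := by
    have h2 := ae_simple hK
    rwa [ae_restrict_iff' measurableSet_ball] at h2
  -- slopes
  have hpair : ∀ z ∈ Usimp c R S, ∀ a ∈ S z, ∀ b ∈ S z, a ≠ b →
      |pJ a b (slope S z a) (slope S z b)| ≤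
        C₀ * ‖pdL a b (slope S z a) (slope S z b)‖ ^ 2 ∧
      ‖lzb (pdL a b (slope S z a) (slope S z b)) -
        μ (z, a) * lz (pdL a b (slope S z a) (slope S z b))‖ ≤ C₀ * (1 + ‖slope S z b‖) ∧
      ‖slope S z b‖ ^ 2 ≤ e z := by
    intro z hz a ha b hb hab
    have hpa := slope_props h1 hB hK hz ha
    have hpb := slope_props h1 hB hK hz hb
    obtain ⟨_, j2, j3⟩ := hJ μ β hB z a b _ _ hab hpa.1 hpb.1
    exact ⟨j2, j3, hpb.2⟩
  -- the majorant `Hf`
  set Hf : ℂ → ℝ := fun z => η z * ((k:ℝ) ^ 2 * (2 / (1 - κ) * (C₀ * (‖z - c‖ ^ (-1:ℝ) +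
    (e z * ‖z - c‖ ^ (-s) + ‖z - c‖ ^ (s - 2)) / 2) + C₈ * (‖z - c‖ ^ (2 * s - 2) / 2)))) +
    2 / (1 - κ) * (C₈ / 2) * (η z * EE S z) with hHf
  have hHfi : Integrable Hf := by
    apply Integrable.add
    · apply int_mul hηc (cut_abs hη) (fun z hz => cut_ball hη hz)
      apply Integrable.const_mul
      apply Integrable.const_mul
      apply Integrable.add
      · apply Integrable.const_mul
        apply Integrable.add (int_rpow c R (by norm_num))
        apply Integrable.div_const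
        exact hMor.add (int_rpow c R (by linarith))
      · apply Integrable.const_mul
        apply Integrable.div_const
        exact int_rpow c R (by linarith)
    · exact hE.const_mul _
  -- lower bound for `v`
  obtain ⟨B, hB0, hBb⟩ := bdd_sheets hK (isCompact_closedBall c R₂) hsub
  set Kv : ℝ := |Real.log (2 * B)| with hKv
  have hKv0 : 0 ≤ Kv := abs_nonneg _
  set K : ℝ := (k:ℝ) ^ 2 * Kv with hKdef
  have hpvl : ∀ z ∈ closedBall c R₂, ∀ a ∈ S z, ∀ b ∈ S z, a ≠ b → -Kv ≤ pv a b := by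
    intro z hz a ha b hb hab
    have hpos : 0 < ‖a - b‖ := norm_pos_iff.2 (sub_ne_zero.2 hab)
    have h2 : ‖a - b‖ ≤ 2 * B := by
      have := norm_sub_le a b
      linarith [hBb z hz a ha, hBb z hz b hb]
    unfold pv
    have := Real.log_le_log hpos h2
    linarith [le_abs_self (Real.log (2 * B))]
  -- the annulus integrals
  have hi_pv : Integrable (fun z => (|K| + psum S (fun _ a b _ _ => |pv a b|) z) *
      ‖fderiv ℝ η z‖ * (8 / ((1 - κ) * R₁))) := by
    apply int_K0 hη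
    · apply ContinuousOn.mul_const
      apply ContinuousOn.mul _ hfc.norm.continuousOn
      apply continuousOn_const.add
      exact h6 μ β κ L hB c R k S e hK _ (cPv c R).abs
    · intro z hz
      rw [fd0 hη hz]; simp
  have hcw : CG c R (fun z a b A B => |wth (fderiv ℝ η z) a b A B|) :=
    (cWth c R hfc.continuousOn).abs
  have hi_w : Integrable (fun z => psum S (fun z a b A B => |wth (fderiv ℝ η z) a b A B|) z) := by
    apply int_K0 hη
    · exact h6 μ β κ L hB c R k S e hK _ hcw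
    · intro z hz
      have : psum S (fun z a b A B => |wth (fderiv ℝ η z) a b A B|) z =
          psum S (fun z a b A B => (0:ℝ) * (0:ℝ)) z := by
        apply psum_congr
        intro _ a _ b _ _
        rw [fd0 hη hz]; simp [wth]
      rw [this, psum_mul (fun _ => (0:ℝ)), zero_mul]
  set Cll : ℝ := (|Real.log (((1 - κ) * R₁) ^ 2)| + |Real.log ((2 * R₂) ^ 2 + 1)|) / 2 with hCll
  set Tot : ℝ := (∫ z, (|K| + psum S (fun _ a b _ _ => |pv a b|) z) *
      ‖fderiv ℝ η z‖ * (8 / ((1 - κ) * R₁))) +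
    Cll * (∫ z, psum S (fun z a b A B => |wth (fderiv ℝ η z) a b A B|) z) + ∫ z, Hf z with hTot
  have hc7 : 0 < 2 * Real.pi * (1 - κ ^ 2) / 25 := by
    have : 0 < 1 - κ ^ 2 := by nlinarith
    positivity
  set c₇ : ℝ := 2 * Real.pi * (1 - κ ^ 2) / 25 with hc₇
  set M : ℝ := (|Tot| + 2) / c₇ with hM
  have hM0 : 0 < M := by rw [hM]; positivity
  -- the scale
  obtain ⟨δ, hδ0, hδ⟩ := Metric.eventually_nhds_iff_ball.1
    (hK.cont c (mem_ball_self hR) (Real.exp (-M) / 2) (by positivity))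
  set ε : ℝ := min δ (min 1 R₁) with hε
  have hε0 : 0 < ε := by rw [hε]; positivity
  have hεδ : ε ≤ δ := min_le_left _ _
  have hε1 : ε ≤ 1 := (min_le_right _ _).trans (min_le_left _ _)
  have hεR : ε ≤ R₁ := (min_le_right _ _).trans (min_le_right _ _)
  have hpvM : ∀ z ∈ ball c ε, ∀ a ∈ S z, ∀ b ∈ S z, a ≠ b → M ≤ pv a b := by
    intro z hz a ha b hb hab
    have hN := hδ z (ball_subset_ball hεδ hz)
    obtain ⟨a', ha', h5⟩ := near_right hN ha
    obtain ⟨b', hb', h7⟩ := near_right hN hb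
    rw [hA a' ha' b' hb', dist_comm] at h5
    apply pv_ge_of hab
    rw [← dist_eq_norm]
    have := dist_triangle a b' b
    linarith
  -- the bound of `ll` and `n`
  obtain ⟨Cl, hCl⟩ := (isCompact_closedBall c R₂).exists_bound_of_continuousOn
    (contDiff_ll m c ε hε0).continuous.continuousOn
  have hCl0 : 0 ≤ Cl := (norm_nonneg _).trans (hCl c (mem_closedBall_self hR₂.le))
  set IE : ℝ := ∫ z, η z * EE S z with hIE
  have hEE0 : ∀ z, 0 ≤ EE S z := fun z => psum_nonneg fun _ a _ b _ _ => by positivity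
  have hIE0 : 0 ≤ IE := integral_nonneg fun z => mul_nonneg (hη.nonneg z) (hEE0 z)
  set n : ℝ := max (max M 1) (Cl * Cχ * C₀ * IE) with hn
  have hnM : M ≤ n := (le_max_left _ _).trans (le_max_left _ _)
  have hn0 : 0 < n := hM0.trans_le hnM
  have hnC : Cl * Cχ * C₀ * IE ≤ n := le_max_right _ _
  -- the functions
  set P1 : ℂ → ℝ := fun z => η z * psum S (G1 χ n m c ε) z with hP1
  set P2 : ℂ → ℝ := fun z => VV χ n K k S z *
    (fderiv ℝ η z 1 * gam m c ε z I - fderiv ℝ η z I * gam m c ε z 1) with hP2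
  set P3 : ℂ → ℝ := fun z => VV χ n K k S z *
    (η z * (2 * (1 - ‖m‖ ^ 2) * ε ^ 2 / (NN m c ε z) ^ 2)) with hP3
  set f : ℂ → ℝ := fun y => η y * ll m c ε y with hf
  set φ : ℝ → ℝ := fun t => χ (t / n) with hφ
  set Q1 : ℂ → ℝ := fun z => psum S (fun z a b A B => φ (pv a b) * wth (fderiv ℝ f z) a b A B) z
    with hQ1
  set Q0 : ℂ → ℝ := fun z => f z * psum S (fun _ a b A B => deriv φ (pv a b) * pJ a b A B) z
    with hQ0
  set Q2 : ℂ → ℝ := fun z => ll m c ε z *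
    psum S (fun z a b A B => φ (pv a b) * wth (fderiv ℝ η z) a b A B) z with hQ2
  have hgc := (contDiff_gam m c ε hε0).continuous
  have hgI : Continuous fun z => gam m c ε z I := hgc.clm_apply continuous_const
  have hg1 : Continuous fun z => gam m c ε z 1 := hgc.clm_apply continuous_const
  have hφc : Continuous φ := (chi_cont hχ).comp (continuous_id.div_const n)
  -- integrability
  have iP1 : Integrable P1 := by
    obtain ⟨Cg, hCg⟩ := (isCompact_closedBall c R).exists_bound_of_continuousOn hgc.continuousOn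
    have hCg0 : 0 ≤ Cg := (norm_nonneg _).trans (hCg c (mem_closedBall_self hR.le))
    apply int_mul hηc (cut_abs hη) (fun z hz => cut_ball hη hz)
    refine intOn h1 h6 hB hK (C := Cg * (4 * Real.exp (4 * n))) ?_ ?_
    · unfold CG G1
      have k1 := cPdLu c R 1
      have k2 := cPdLu c R I
      have k3 : ContinuousOn (fun q : ℂ × ℂ × ℂ × (ℂ →L[ℝ] ℂ) × (ℂ →L[ℝ] ℂ) =>
        χ (pv q.2.1 q.2.2.1 / n)) (DD c R) := hφc.comp_continuousOn (cPv c R)
      have k4 : Continuous (fun q : ℂ × ℂ × ℂ × (ℂ →L[ℝ] ℂ) × (ℂ →L[ℝ] ℂ) =>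
        gam m c ε q.1 I) := hgI.comp continuous_fst
      have k5 : Continuous (fun q : ℂ × ℂ × ℂ × (ℂ →L[ℝ] ℂ) × (ℂ →L[ℝ] ℂ) =>
        gam m c ε q.1 1) := hg1.comp continuous_fst
      exact k3.mul (((Complex.continuous_re.comp_continuousOn k1).neg.mul k4.continuousOn).add
        ((Complex.continuous_re.comp_continuousOn k2).mul k5.continuousOn))
    · intro z hz a ha b hb hab
      have hq := chi_pdL_sq hχ hn0 h1 hB hK hz ha hb hab
      have h15 : 1 ≤ 4 * Real.exp (4 * n) := by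
        have := Real.add_one_le_exp (4 * n)
        linarith
      exact G1_bound hχ (hCg z (ball_subset_closedBall hz.1)) h15 hq
  have iP2 : Integrable P2 := by
    apply VV_int hχ hn0 K h1 h6 hB hK hη.lt'
    · exact ((hfc.clm_apply continuous_const).mul hgI).sub
        ((hfc.clm_apply continuous_const).mul hg1)
    · intro z hz
      rw [hfd0 z hz]; simp
  have hXc : Continuous fun z => 2 * (1 - ‖m‖ ^ 2) * ε ^ 2 / (NN m c ε z) ^ 2 := by
    apply continuous_const.div ((contDiff_NN m c ε).continuous.pow 2)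
    intro z
    exact pow_ne_zero _ (NN_pos m c ε hε0 z).ne'
  have iP3 : Integrable P3 := by
    apply VV_int hχ hn0 K h1 h6 hB hK hη.lt'
    · exact hηc.mul hXc
    · intro z hz
      rw [hz0 z hz, zero_mul]
  have hgg : gg χ n K k S η m c ε = fun z => P1 z + P2 z + P3 z := rfl
  have igg : Integrable (gg χ n K k S η m c ε) := by
    rw [hgg]; exact (iP1.add iP2).add iP3
  have hst := stokes_VV hχ hn0 K h1 h3 h6 hB hK hD (hη.smooth.of_le (by simp)) hη.lt' hz0 m hε0 igg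
  -- STAR
  have hφC : ContDiff ℝ 1 φ := (hχ.smooth.of_le (by simp)).comp (contDiff_id.div_const n)
  have hφ0 : ∀ t, 2 * n ≤ t → φ t = 0 := fun t ht => hχ.zero _ (by rwa [le_div_iff₀ hn0])
  have hfC : ContDiff ℝ 1 f :=
    (hη.smooth.mul (contDiff_ll m c ε hε0)).of_le (by simp)
  have hf0 : ∀ z ∉ closedBall c R₂, f z = 0 := fun z hz => by
    simp only [hf]; rw [hz0 z hz, zero_mul]
  have hfsupp : HasCompactSupport f := HasCompactSupport.intro (isCompact_closedBall c R₂) hf0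
  have hfts : tsupport f ⊆ ball c R := by
    refine Subset.trans (closure_minimal ?_ isClosed_closedBall) hsub
    intro z hz
    by_contra hh
    exact hz (hf0 z hh)
  obtain ⟨iQ0, iQ1, hstar⟩ := h μ β κ L hB c R k S e hK hD φ (2 * n) hφC hφ0 f hfC hfsupp hfts
  -- Q2
  have hllK : ∀ z ∈ K0 c R₁ R₂, |ll m c ε z| ≤ Cll := by
    intro z hz
    have hzd : dist z c = ‖z - c‖ := dist_eq_norm _ _
    have l1 : (1 - κ) * R₁ ≤ ‖AL m (z - c)‖ := by
      refine le_trans ?_ (le_norm_AL m (z - c))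
      have h7 : R₁ ≤ ‖z - c‖ := by rw [← hzd]; exact hz.1
      have h8 : 1 - κ ≤ 1 - ‖m‖ := by linarith
      exact mul_le_mul h8 h7 hR₁.le (by linarith)
    have l2 : ‖AL m (z - c)‖ ≤ 2 * R₂ := by
      refine (norm_AL_le m (z - c)).trans ?_
      have h7 : ‖z - c‖ ≤ R₂ := by rw [← hzd]; exact hz.2
      have h8 : 1 + ‖m‖ ≤ 2 := by linarith
      exact mul_le_mul h8 h7 (norm_nonneg _) (by norm_num)
    have l0 : 0 < (1 - κ) * R₁ := by positivity
    have l3 : ((1 - κ) * R₁) ^ 2 ≤ NN m c ε z := by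
      rw [NN_eq]
      have := pow_le_pow_left₀ l0.le l1 2
      nlinarith [sq_nonneg ε]
    have l4 : NN m c ε z ≤ (2 * R₂) ^ 2 + 1 := by
      rw [NN_eq]
      have h7 := pow_le_pow_left₀ (norm_nonneg _) l2 2
      have h8 := pow_le_pow_left₀ hε0.le hε1 2
      linarith
    have l5 := Real.log_le_log (by positivity) l3
    have l6 := Real.log_le_log (NN_pos m c ε hε0 z) l4
    unfold ll
    rw [abs_div, abs_of_pos (two_pos : (0:ℝ) < 2), hCll]
    apply div_le_div_of_nonneg_right _ (by norm_num : (0:ℝ) ≤ 2)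
    rw [abs_le]
    constructor
    · linarith [neg_abs_le (Real.log (((1 - κ) * R₁) ^ 2)), abs_nonneg (Real.log ((2 * R₂) ^ 2 + 1))]
    · linarith [le_abs_self (Real.log ((2 * R₂) ^ 2 + 1)), abs_nonneg (Real.log (((1 - κ) * R₁) ^ 2))]
  have hCll0 : 0 ≤ Cll := by rw [hCll]; positivity
  have hw0 : ∀ z ∉ K0 c R₁ R₂, psum S (fun z a b A B => φ (pv a b) *
      wth (fderiv ℝ η z) a b A B) z = 0 := by
    intro z hz
    have : psum S (fun z a b A B => φ (pv a b) * wth (fderiv ℝ η z) a b A B) z =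
          psum S (fun z a b A B => (0:ℝ) * (0:ℝ)) z := by
      apply psum_congr
      intro _ a _ b _ _
      rw [fd0 hη hz]; simp [wth]
    rw [this, psum_mul (fun _ => (0:ℝ)), zero_mul]
  have iQ2 : Integrable Q2 := by
    apply int_K0 hη
    · apply (contDiff_ll m c ε hε0).continuous.continuousOn.mul
      exact h6 μ β κ L hB c R k S e hK _ ((cPvf hφc).mul (cWth c R hfc.continuousOn))
    · intro z hz
      simp only [hQ2]
      rw [hw0 z hz, mul_zero]
  have bQ2 : |∫ z, Q2 z| ≤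
      Cll * ∫ z, psum S (fun z a b A B => |wth (fderiv ℝ η z) a b A B|) z := by
    rw [← integral_const_mul]
    apply abs_int_le (hi_w.const_mul _)
    refine Eventually.of_forall fun z => ?_
    have hnn : 0 ≤ psum S (fun z a b A B => |wth (fderiv ℝ η z) a b A B|) z :=
      psum_nonneg fun _ a _ b _ _ => abs_nonneg _
    by_cases hz : z ∈ K0 c R₁ R₂
    · simp only [hQ2]
      rw [abs_mul]
      apply mul_le_mul (hllK z hz) _ (abs_nonneg _) hCll0
      refine abs_psum_le_psum.trans (psum_le ?_)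
      intro _ a _ b _ _
      rw [abs_mul, abs_of_nonneg (chi_nonneg hχ _)]
      calc _ ≤ 1 * |wth (fderiv ℝ η z) a b (slope S z a) (slope S z b)| :=
            mul_le_mul_of_nonneg_right (chi_le_one hχ _) (abs_nonneg _)
        _ = _ := one_mul _
    · simp only [hQ2]
      rw [hw0 z hz, mul_zero, abs_zero]
      positivity
  -- Q0
  have hdφ : ∀ t, |deriv φ t| ≤ Cχ / n := by
    intro t
    have h8 : HasDerivAt φ (deriv χ (t / n) * (1 / n)) t :=
      HasDerivAt.comp t ((hχ.smooth.differentiable (by simp) (t / n)).hasDerivAt)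
        ((hasDerivAt_id t).div_const n)
    rw [h8.deriv, abs_mul, abs_of_pos (one_div_pos.2 hn0), mul_one_div]
    exact div_le_div_of_nonneg_right (hCχ _) hn0.le
  have bQ0 : |∫ z, Q0 z| ≤ 1 := by
    have h8 : |∫ z, Q0 z| ≤ ∫ z, (Cl * (Cχ / n * C₀)) * (η z * EE S z) := by
      apply abs_int_le (hE.const_mul _)
      filter_upwards [hae] with z hz
      by_cases hzb : z ∈ closedBall c R₂
      · have hz' := hz (hsub hzb)
        have k1 : |f z| ≤ Cl * η z := by
          simp only [hf]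
          rw [abs_mul, abs_of_nonneg (hη.nonneg z), mul_comm]
          exact mul_le_mul_of_nonneg_right (hCl z hzb) (hη.nonneg z)
        have k2 : |psum S (fun _ a b A B => deriv φ (pv a b) * pJ a b A B) z| ≤
            Cχ / n * C₀ * EE S z := by
          refine abs_psum_le_psum.trans ?_
          unfold EE
          rw [← psum_mul (fun _ => Cχ / n * C₀)]
          apply psum_le
          intro _ a ha b hb hab
          rw [abs_mul, mul_assoc]
          exact mul_le_mul (hdφ _) (hpair z hz' a ha b hb hab).1 (abs_nonneg _) (by positivity)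
        simp only [hQ0]
        rw [abs_mul]
        refine (mul_le_mul k1 k2 (abs_nonneg _) (mul_nonneg hCl0 (hη.nonneg z))).trans
          (le_of_eq (by ring))
      · simp only [hQ0]
        rw [hf0 z hzb, zero_mul, abs_zero]
        have := hEE0 z
        have := hη.nonneg z
        positivity
    rw [integral_const_mul] at h8
    refine h8.trans ?_
    have h9 : Cl * (Cχ / n * C₀) * IE = (Cl * Cχ * C₀ * IE) / n := by ring
    rw [← hIE, h9, div_le_one hn0]
    exact hnC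
  -- the error term
  have bErr : |∫ z, (P1 z + Q1 z - Q2 z)| ≤ ∫ z, Hf z := by
    apply abs_int_le hHfi
    filter_upwards [hae] with z hz
    by_cases hzb : z ∈ ball c R
    · have hz' := hz hzb
      have hzc := c_not_simple hK hA hk hz'
      have e1 : P1 z + Q1 z - Q2 z = psum S (fun z a b A B => η z * G1 χ n m c ε z a b A B +
          φ (pv a b) * wth (fderiv ℝ f z) a b A B -
          ll m c ε z * (φ (pv a b) * wth (fderiv ℝ η z) a b A B)) z := by
        rw [psum_sub, psum_add, psum_mul η, psum_mul (ll m c ε)]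
      rw [e1]
      refine abs_psum_le_psum.trans ?_
      have e2 : psum S (fun z a b A B => |η z * G1 χ n m c ε z a b A B +
          φ (pv a b) * wth (fderiv ℝ f z) a b A B -
          ll m c ε z * (φ (pv a b) * wth (fderiv ℝ η z) a b A B)|) z ≤
          psum S (fun z a b A B => η z * (HH κ C₀ C₈ s c z (e z) 0 +
            (2 / (1 - κ) * (C₈ / 2)) * ‖pdL a b A B‖ ^ 2)) z := by
        apply psum_le
        intro _ a ha b hb hab
        obtain ⟨_, j2, j3⟩ := hpair z hz' a ha b hb hab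
        have hp := ptwise (x := χ (pv a b / n)) hκ hm hC₀ hC₈ hzc (chi_nonneg hχ _)
          (chi_le_one hχ _) (hη.nonneg z) (hηd z) hε0 j2 (hmu z hzb a ha) j3
        refine hp.trans (le_of_eq ?_)
        unfold HH
        ring
      refine e2.trans ?_
      rw [psum_mul η, psum_add, psum_mul (fun _ => 2 / (1 - κ) * (C₈ / 2))]
      have hHH0 : 0 ≤ HH κ C₀ C₈ s c z (e z) 0 := by
        have := hK.e0 z
        unfold HH
        positivity
      have e3 : psum S (fun z _ _ _ _ => HH κ C₀ C₈ s c z (e z) 0) z ≤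
          (k:ℝ) ^ 2 * HH κ C₀ C₈ s c z (e z) 0 :=
        psum_le_const (hK.card z hzb) hHH0 fun _ a _ b _ _ => le_rfl
      have e4 := mul_le_mul_of_nonneg_left e3 (hη.nonneg z)
      have e5 : η z * ((k:ℝ) ^ 2 * HH κ C₀ C₈ s c z (e z) 0) +
          2 / (1 - κ) * (C₈ / 2) * (η z * EE S z) = Hf z := by
        simp only [hHf]
        unfold HH
        ring
      rw [← e5, mul_add]
      have e6 : η z * (2 / (1 - κ) * (C₈ / 2) * psum S (fun z a b A B => ‖pdL a b A B‖ ^ 2) z) =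
          2 / (1 - κ) * (C₈ / 2) * (η z * EE S z) := by
        unfold EE; ring
      rw [e6]
      linarith
    · have hzc : z ∉ closedBall c R₂ := fun hh => hzb (hsub hh)
      have e1 : P1 z = 0 := by simp only [hP1]; rw [hz0 z hzc, zero_mul]
      have e2 : Q2 z = 0 := by
        simp only [hQ2]
        rw [hw0 z (fun hh => hzc hh.2), mul_zero]
      have e3 : Q1 z = 0 := by
        have hfz : fderiv ℝ f z = 0 := fderiv_of_notMem_tsupport ℝ fun hh => hzb (hfts hh)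
        have : Q1 z = psum S (fun z a b A B => (0:ℝ) * (0:ℝ)) z := by
          simp only [hQ1]
          apply psum_congr
          intro _ a _ b _ _
          rw [hfz]; simp [wth]
        rw [this, psum_mul (fun _ => (0:ℝ)), zero_mul]
      rw [e1, e2, e3]
      have e5 : Hf z = 0 := by simp only [hHf]; rw [hz0 z hzc]; simp
      rw [e5]; simp
  -- P2
  have bP2 : |∫ z, P2 z| ≤ ∫ z, (|K| + psum S (fun _ a b _ _ => |pv a b|) z) *
      ‖fderiv ℝ η z‖ * (8 / ((1 - κ) * R₁)) := by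
    apply abs_int_le hi_pv
    refine Eventually.of_forall fun z => ?_
    have hnn : 0 ≤ psum S (fun _ a b _ _ => |pv a b|) z :=
      psum_nonneg fun _ a _ b _ _ => abs_nonneg _
    by_cases hz : z ∈ K0 c R₁ R₂
    · have hz' := K0_simple hη hz
      have hzR : R₁ ≤ ‖z - c‖ := by rw [← dist_eq_norm]; exact hz.1
      simp only [hP2]
      rw [VV_simple hχ hn0 K hK hz', abs_mul, mul_assoc]
      apply mul_le_mul
      · refine (abs_add_le _ _).trans (add_le_add le_rfl ?_)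
        exact abs_psum_le_psum.trans (psum_le fun _ a _ b _ _ => abs_Phi_le hχ n _)
      · have g1 := gam_le (ε := ε) (u := 1) hm hκ hR₁ hε0 hzR (by simp)
        have g2 := gam_le (ε := ε) (u := I) hm hκ hR₁ hε0 hzR (by simp)
        have d1 : |fderiv ℝ η z 1| ≤ ‖fderiv ℝ η z‖ := by
          simpa using (fderiv ℝ η z).le_opNorm 1
        have d2 : |fderiv ℝ η z I| ≤ ‖fderiv ℝ η z‖ := by
          simpa using (fderiv ℝ η z).le_opNorm I
        have d3 := abs_sub (fderiv ℝ η z 1 * gam m c ε z I) (fderiv ℝ η z I * gam m c ε z 1)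
        rw [abs_mul, abs_mul] at d3
        have d4 := mul_le_mul d1 g2 (abs_nonneg _) (norm_nonneg _)
        have d5 := mul_le_mul d2 g1 (abs_nonneg _) (norm_nonneg _)
        have d6 : ‖fderiv ℝ η z‖ * (8 / ((1 - κ) * R₁)) =
            ‖fderiv ℝ η z‖ * (4 / ((1 - κ) * R₁)) + ‖fderiv ℝ η z‖ * (4 / ((1 - κ) * R₁)) := by
          ring
        rw [d6]
        linarith
      · exact abs_nonneg _
      · positivity
    · simp only [hP2]
      rw [fd0 hη hz]; simp
  -- P3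
  have hκm : 1 - κ ^ 2 ≤ 1 - ‖m‖ ^ 2 := by
    have := pow_le_pow_left₀ (norm_nonneg m) hm 2
    linarith
  have hκ2 : 0 < 1 - κ ^ 2 := by nlinarith
  have bP3 : c₇ * M ≤ ∫ z, P3 z := by
    have hVV0 : ∀ z ∈ Usimp c R S, z ∈ closedBall c R₂ → 0 ≤ VV χ n K k S z := by
      intro z hz hzc
      rw [VV_simple hχ hn0 K hK hz]
      have h8 : psum S (fun z a b A B => (-1:ℝ) * Phi χ n (pv a b)) z ≤ (k:ℝ) ^ 2 * Kv := by
        apply psum_le_const (hK.card z hz.1) hKv0
        intro _ a ha b hb hab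
        have h9 := Phi_mono hχ n (hpvl z hzc a ha b hb hab)
        rw [Phi_eq hχ hn0 (by linarith : -Kv ≤ n)] at h9
        linarith
      rw [psum_mul (fun _ => (-1:ℝ))] at h8
      linarith
    have hX0 : ∀ z, 0 ≤ 2 * (1 - ‖m‖ ^ 2) * ε ^ 2 / (NN m c ε z) ^ 2 := by
      intro z
      have : 0 ≤ 1 - ‖m‖ ^ 2 := by linarith
      positivity
    have nn : 0 ≤ᵐ[volume] P3 := by
      filter_upwards [hae] with z hz
      by_cases hzc : z ∈ closedBall c R₂
      · exact mul_nonneg (hVV0 z (hz (hsub hzc)) hzc) (mul_nonneg (hη.nonneg z) (hX0 z))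
      · simp only [hP3]
        rw [hz0 z hzc]; simp
    have h8 : ∫ z in ball c ε, P3 z ≤ ∫ z, P3 z := setIntegral_le_integral iP3 nn
    refine le_trans ?_ h8
    have h9 : ∫ z in ball c ε, (M * (2 * (1 - κ ^ 2) / (25 * ε ^ 2))) ≤
        ∫ z in ball c ε, P3 z := by
      have hic : IntegrableOn (fun _ : ℂ => M * (2 * (1 - κ ^ 2) / (25 * ε ^ 2))) (ball c ε) :=
        integrableOn_const measure_ball_lt_top.ne
      refine integral_mono_ae hic iP3.integrableOn ?_
      rw [EventuallyLE, ae_restrict_iff' measurableSet_ball]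
      filter_upwards [hae] with z hz hzε
      have hzR1 : z ∈ closedBall c R₁ := ball_subset_closedBall (ball_subset_ball hεR hzε)
      have hzR2 : z ∈ closedBall c R₂ := closedBall_subset_closedBall hη.lt.le hzR1
      have hz' := hz (hsub hzR2)
      have v1 : M ≤ VV χ n K k S z := by
        rw [VV_simple hχ hn0 K hK hz']
        have h10 : M ≤ psum S (fun _ a b _ _ => Phi χ n (pv a b)) z := by
          apply le_psum_const (hK.card z hz'.1) hk hz'.2 hM0.le
          intro a ha b hb hab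
          have h11 := Phi_mono hχ n (hpvM z hzε a ha b hb hab)
          rwa [Phi_eq hχ hn0 hnM] at h11
        have h12 : 0 ≤ K := by rw [hKdef]; positivity
        linarith
      have v2 : 2 * (1 - κ ^ 2) / (25 * ε ^ 2) ≤
          2 * (1 - ‖m‖ ^ 2) * ε ^ 2 / (NN m c ε z) ^ 2 := by
        have w1 : ‖AL m (z - c)‖ ≤ 2 * ε := by
          refine (norm_AL_le m (z - c)).trans ?_
          have w2 : ‖z - c‖ ≤ ε := by
            rw [← dist_eq_norm]; exact (mem_ball.1 hzε).le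
          exact mul_le_mul (by linarith) w2 (norm_nonneg _) (by norm_num)
        have w3 : NN m c ε z ≤ 5 * ε ^ 2 := by
          rw [NN_eq]
          have := pow_le_pow_left₀ (norm_nonneg _) w1 2
          nlinarith
        have w4 : (NN m c ε z) ^ 2 ≤ 25 * ε ^ 4 := by
          have := pow_le_pow_left₀ (NN_pos m c ε hε0 z).le w3 2
          nlinarith
        have w5 : 0 < (NN m c ε z) ^ 2 := pow_pos (NN_pos m c ε hε0 z) 2
        have w6 : 2 * (1 - κ ^ 2) / (25 * ε ^ 2) = 2 * (1 - κ ^ 2) * ε ^ 2 / (25 * ε ^ 4) := by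
          field_simp
        rw [w6]
        apply div_le_div₀ _ _ w5 w4
        · have : 0 ≤ 1 - ‖m‖ ^ 2 := by linarith
          positivity
        · apply mul_le_mul_of_nonneg_right _ (by positivity)
          linarith
      have v3 : P3 z = VV χ n K k S z * (2 * (1 - ‖m‖ ^ 2) * ε ^ 2 / (NN m c ε z) ^ 2) := by
        simp only [hP3]
        rw [hη.one z hzR1, one_mul]
      rw [v3]
      exact mul_le_mul v1 v2 (by positivity) (hM0.le.trans v1)
    refine le_trans (le_of_eq ?_) h9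
    rw [setIntegral_const, Measure.real, Complex.volume_ball, ENNReal.toReal_mul,
      ENNReal.toReal_pow, ENNReal.toReal_ofReal hε0.le, smul_eq_mul, hc₇]
    have : (NNReal.pi : ENNReal).toReal = Real.pi := by simp
    rw [this]
    field_simp
  -- conclusion
  have hsum : (∫ z, P1 z) + (∫ z, P2 z) + ∫ z, P3 z = 0 := by
    have e1 : ∫ z, (P1 z + P2 z + P3 z) = (∫ z, (P1 z + P2 z)) + ∫ z, P3 z :=
      integral_add (iP1.add iP2) iP3
    have e2 : ∫ z, (P1 z + P2 z) = (∫ z, P1 z) + ∫ z, P2 z := integral_add iP1 iP2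
    rw [← e2, ← e1]
    exact hst
  have hErr : ∫ z, (P1 z + Q1 z - Q2 z) = (∫ z, P1 z) + (∫ z, Q1 z) - ∫ z, Q2 z := by
    have e1 : ∫ z, (P1 z + Q1 z - Q2 z) = (∫ z, (P1 z + Q1 z)) - ∫ z, Q2 z :=
      integral_sub (iP1.add iQ1) iQ2
    have e2 : ∫ z, (P1 z + Q1 z) = (∫ z, P1 z) + ∫ z, Q1 z := integral_add iP1 iQ1
    rw [← e2, ← e1]
  have hst2 : ∫ z, Q0 z = ∫ z, Q1 z := hstar
  have hcM : c₇ * M = |Tot| + 2 := by rw [hM]; field_simp
  rw [abs_le] at bQ2 bQ0 bErr bP2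
  rw [hErr] at bErr
  have := le_abs_self Tot
  linarith [bQ2.1, bQ2.2, bQ0.1, bQ0.2, bErr.1, bErr.2, bP2.1, bP2.2]

/-- **LOC-11** -/
theorem nonz_of (h : STAR) (h3 : STOKES) (hF : FLUX) (h1 : SEL) (h4 : JALG) (h6 : PSC) :
    NONZ := by
  intro μ β κ L hB c R k S e hK hD hR hA hk R₁ R₂ η hη h0
  exact nonz_core h h3 hF h1 h4 h6 hB hK hD hR hA hk hη h0

end

end Crest.Agent.R235.LocNonz_774
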