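import Crest.Agent.R235.CurDefs_132

/-!
Row 235 (S0364), PACKAGE REG, block FLATW (helper607): frozen statements.
A closed positive `J`-current of density exactly one (`CurDefs_132.LC`) is carried by a measurable
field of `J`-planes and its blow-ups converge to these planes with multiplicity one.

`z = y - x`, `L_x = ker φ_x`.
-/

set_option autoImplicit false
set_option maxSynthPendingDepth 3

open Set Function Filter MeasureTheory Metric Complex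
open scoped ContDiff ENNReal Manifold Topology

namespace Crest.Agent.R235.Flat

open Crest.Agent.R240 Crest.Agent.R240.En Crest.Agent.R240.Pot
open Crest.Agent.R235.CurDefs_132

noncomputable section

/-- density exactly one at `x`. -/
def Den1 (D : LC) (x : E4) : Prop := IsDenE (D.G x) D.s x 1

/-- density exactly one almost everywhere. -/
def AE1 (D : LC) : Prop := ∀ᵐ x ∂D.s, x ∈ ball D.x0 (2 * D.R) → Den1 D x

/-- `x` is a Lebesgue point of `φ` (with the two-dimensional normalisation). -/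
def LebPt (D : LC) (x : E4) : Prop :=
  Tendsto (fun r : ℝ => (r ^ 2)⁻¹ * ∫ y in closedBall x r, ‖D.φ y - D.φ x‖ ∂D.s) (𝓝[>] 0) (𝓝 0)

/-- the frozen deficit tends to zero. -/
def DefPt (D : LC) (x : E4) : Prop :=
  Tendsto (fun r : ℝ => (r ^ 4)⁻¹ * ∫ y in closedBall x r, D.φ x (y - x) (D.J x (y - x)) ∂D.s)
    (𝓝[>] 0) (𝓝 0)

/-- `X` spans (with `J X`) the kernel of `φ_x`. -/
structure IsKer (J : E4 →L[ℝ] E4) (φ : Bil) (X : E4) : Prop where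
  one : ‖X‖ = 1
  ker : φ X (J X) = 0

/-- the point `s X + t J X`, `ζ = s + i t`. -/
def pt (J : E4 →L[ℝ] E4) (X : E4) (ζ : ℂ) : E4 := ζ.re • X + ζ.im • J X

/-! ### the leaves -/

/-- FLAT-1: almost every point is a Lebesgue point. -/
def LEBP : Prop := ∀ D : LC, ∀ᵐ x ∂D.s, LebPt D x

/-- FLAT-2: the frozen deficit. -/
def DEFZ : Prop := ∀ D : LC, ∀ x ∈ ball D.x0 (3 * D.R), LebPt D x → DefPt D x


/-- FLAT-4: linear algebra of a simple `φ`. -/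
def LINK : Prop := ∀ (J : E4 →L[ℝ] E4) (F : Bil) (m M : ℝ), Bd J F m M → ∀ φ : Bil, Pos J φ →
  q F φ F = 1 → ∀ X : E4, IsKer J φ X →
    (∀ b : Bil, Alt b → q F φ b = b X (J X) / F X (J X)) ∧
    ∃ (P : E4 →L[ℝ] ℂ) (C : ℝ), 0 < C ∧ (∀ ζ, P (pt J X ζ) = ζ) ∧
      (∀ z, ‖z - pt J X (P z)‖ ^ 2 ≤ C * φ z (J z)) ∧
      ∀ z, F z (J z) = F X (J X) * ‖P z‖ ^ 2 + F (z - pt J X (P z)) (J (z - pt J X (P z)))

/-- FLAT-5: the derivatives along the kernel tend to zero. -/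
def TRANS : Prop := ∀ D : LC, ∀ x ∈ ball D.x0 (2 * D.R), LebPt D x → ∀ X,
  IsKer (D.J x) (D.φ x) X → ∀ f : E4 → ℝ, ContDiff ℝ ∞ f → HasCompactSupport f → ∀ ζ : ℂ,
    Tendsto (fun r : ℝ => (r ^ 2)⁻¹ * ∫ y, fderiv ℝ f (r⁻¹ • (y - x)) (pt (D.J x) X ζ) ∂D.s)
      (𝓝[>] 0) (𝓝 0)

/-- FLAT-6: radial functions. -/
def RADI : Prop := ∀ D : LC, ∀ x, Den1 D x → ∀ Ψ : ℝ → ℝ, ContDiff ℝ 1 Ψ → HasCompactSupport Ψ →
    Tendsto (fun r : ℝ => (r ^ 2)⁻¹ * ∫ y, Ψ ((r ^ 2)⁻¹ * D.G x (y - x) (y - x)) ∂D.s)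
      (𝓝[>] 0) (𝓝 (Real.pi * ∫ u in Ioi (0 : ℝ), Ψ u))

/-- FLAT-7 (planar): a family of measures, asymptotically translation invariant, with the right
values on radial functions. -/
def PLANE : Prop := ∀ (μ : ℝ → Measure ℂ) (ρ C a : ℝ), 0 < ρ →
  (∀ᶠ r in 𝓝[>] (0 : ℝ), μ r (closedBall 0 ρ) ≤ ENNReal.ofReal C) →
  (∀ h : ℂ → ℝ, ContDiff ℝ ∞ h → HasCompactSupport h → tsupport h ⊆ ball 0 ρ → ∀ e : ℂ,
    Tendsto (fun r => ∫ ζ, fderiv ℝ h ζ e ∂(μ r)) (𝓝[>] 0) (𝓝 0)) →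
  (∀ Ψ : ℝ → ℝ, ContDiff ℝ ∞ Ψ → HasCompactSupport Ψ → (∀ u, ρ ^ 2 / 4 ≤ u → Ψ u = 0) →
    Tendsto (fun r => ∫ ζ, Ψ (‖ζ‖ ^ 2) ∂(μ r)) (𝓝[>] 0)
      (𝓝 (a * (Real.pi * ∫ u in Ioi (0 : ℝ), Ψ u)))) →
  ∀ h : ℂ → ℝ, Continuous h → tsupport h ⊆ ball 0 (ρ / 2) →
    Tendsto (fun r => ∫ ζ, h ζ ∂(μ r)) (𝓝[>] 0) (𝓝 (a * ∫ ζ, h ζ))

/-- the blow-ups of the current at `x` converge to the plane of `X` with multiplicity one. -/
def FlatE (D : LC) (X : E4) (x : E4) : Prop :=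
  ∀ g : E4 → Bil, Continuous g → HasCompactSupport g → (∀ z, Alt (g z)) →
    Tendsto (fun r : ℝ => (r ^ 2)⁻¹ * ∫ y, q (D.F y) (D.φ y) (g (r⁻¹ • (y - x))) ∂D.s) (𝓝[>] 0)
      (𝓝 (∫ ζ : ℂ, g (pt (D.J x) X ζ) X (D.J x X)))

/-- FLAT-8: the limit of the blow-ups at one point. -/
def FLP : Prop := ∀ D : LC, ∀ x ∈ ball D.x0 (2 * D.R), LebPt D x → DefPt D x → Den1 D x → ∀ X,
  IsKer (D.J x) (D.φ x) X → FlatE D X x



/-- **FLATW**: the output. -/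
def FLATW : Prop := ∀ D : LC, AE1 D → ∃ X : E4 → E4, Measurable X ∧ (∀ x, ‖X x‖ = 1) ∧
  ∀ᵐ x ∂D.s, x ∈ ball D.x0 (2 * D.R) →
    (∀ b : Bil, Alt b → q (D.F x) (D.φ x) b = b (X x) (D.J x (X x)) / D.F x (X x) (D.J x (X x))) ∧
    FlatE D (X x) x

end

end Crest.Agent.R235.Flat
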