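import Crest.Agent.R235.CylDef2_522
import Crest.Agent.R240.Loc5A
import Crest.Agent.R235.CurGeo1_679_Mg
import Crest.Agent.R240.Lin5
import Crest.Agent.R235.FlatDef_607

-- ▼ part R235/Reg_FLATW_843
section

/-!
Row 235, PACKAGE REG, A1.0 (helper522): assembly of FLATW (helper843):
density one ⟹ flat current.
-/

set_option autoImplicit false
set_option maxSynthPendingDepth 3

open MeasureTheory Metric Set Filter
open scoped ContDiff Topology Manifold ENNReal NNReal

namespace Crest.Agent.R235.Reg_FLATW_843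

open Crest.Agent.R240 Crest.Agent.R235.CurDefs_132 Crest.Agent.R235.Reg_522

noncomputable section

/-! ### pointwise algebra -/

section Alg

variable {J : E4 →L[ℝ] E4} {F φ : Bil}

lemma line_diag (hJ : ∀ v, J (J v) = -v) {b : Bil} (hb : Alt b) (X : E4) (s t : ℝ) :
    b (s • X + t • J X) (J (s • X + t • J X)) = (s ^ 2 + t ^ 2) * b X (J X) := by
  have h1 := hb X
  have h2 := hb (J X)
  have h3 := hb.swap (J X) X
  have e : J (s • X + t • J X) = s • J X - t • X := by
    rw [map_add, map_smul, map_smul, hJ]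
    simp [sub_eq_add_neg]
  rw [e]
  simp only [map_add, map_smul, map_sub, add_apply, smul_apply, smul_eq_mul]
  rw [h1, h2, h3]
  ring

lemma wv_apply (θ : E4 →L[ℝ] ℝ) (j : Fin 4) : (wv F φ θ) j = q F φ (wed (pr j) θ) := by
  unfold wv
  fin_cases j <;> simp [Fin.sum_univ_four]

/-- the vector `wv` lies in the line. -/
lemma wv_eq {X : E4} (h : ∀ b : Bil, Alt b → q F φ b * F X (J X) = b X (J X)) (i : Fin 4) :
    F X (J X) • wv F φ (pr i) = (J X) i • X - X i • J X := by
  ext j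
  have h1 := h (wed (pr j) (pr i)) (wed_alt _ _)
  have e1 : (F X (J X) • wv F φ (pr i)) j = F X (J X) * (wv F φ (pr i)) j := rfl
  have e2 : ((J X) i • X - X i • J X) j = (J X) i * X j - X i * (J X) j := rfl
  rw [e1, e2, wv_apply, mul_comm, h1, wed_apply]
  simp only [pr_apply]
  ring

lemma exists_wv_ne {X : E4} (hF : Alt F) (hX : 0 < F X (J X))
    (h : ∀ b : Bil, Alt b → q F φ b * F X (J X) = b X (J X)) : ∃ i, wv F φ (pr i) ≠ 0 := by
  by_contra hc
  push Not at hc
  have hX0 : X ≠ 0 := by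
    rintro rfl
    simp at hX
  have h1 : ∃ i, X i ≠ 0 := by
    by_contra h2
    push Not at h2
    apply hX0
    ext i
    simpa using h2 i
  obtain ⟨i, hi⟩ := h1
  have h2 := wv_eq h i
  rw [hc i, smul_zero] at h2
  have h3 : J X = ((J X) i / X i) • X := by
    have h4 : X i • J X = (J X) i • X := by
      rw [eq_comm, sub_eq_zero] at h2
      exact h2.symm
    rw [div_eq_inv_mul, mul_smul, ← h4, smul_smul, inv_mul_cancel₀ hi, one_smul]
  have h5 : F X (J X) = 0 := by
    rw [h3, map_smul, hF X, smul_zero]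
  linarith

/-- all the data of a degenerate form, for one vector `X`. -/
structure Deg (J : E4 →L[ℝ] E4) (F φ : Bil) (X : E4) : Prop where
  form : ∀ b : Bil, Alt b → q F φ b * F X (J X) = b X (J X)
  zero : φ X (J X) = 0

lemma deg_of_line (hJ : ∀ v, J (J v) = -v) (hF : Alt F) (hφ : Alt φ) {X : E4}
    (h : Deg J F φ X) (s t : ℝ) : Deg J F φ (s • X + t • J X) where
  form b hb := by
    rw [line_diag hJ hF, line_diag hJ hb, ← h.form b hb]; ring
  zero := by rw [line_diag hJ hφ, h.zero, mul_zero]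

end Alg

/-! ### the measurable choice of `X` -/

section Choice

variable (D : LC)

/-- candidates. -/
def wi (i : Fin 4) (x : E4) : E4 := wv (D.F x) (D.φ x) (pr i)

/-- the set where the `i`-th candidate is good. -/
def Sg (i : Fin 4) : Set E4 := {x | wi D i x ≠ 0 ∧ D.φ x (wi D i x) (D.J x (wi D i x)) = 0}

open Classical in
/-- the vector field. -/
def XX (x : E4) : E4 :=
  if x ∈ Sg D 0 then ‖wi D 0 x‖⁻¹ • wi D 0 x
  else if x ∈ Sg D 1 then ‖wi D 1 x‖⁻¹ • wi D 1 x
  else if x ∈ Sg D 2 then ‖wi D 2 x‖⁻¹ • wi D 2 x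
  else if x ∈ Sg D 3 then ‖wi D 3 x‖⁻¹ • wi D 3 x
  else ee 0

lemma norm_normalize {v : E4} (hv : v ≠ 0) : ‖‖v‖⁻¹ • v‖ = 1 := by
  rw [norm_smul, norm_inv, norm_norm, inv_mul_cancel₀ (norm_ne_zero_iff.2 hv)]

lemma norm_XX (x : E4) : ‖XX D x‖ = 1 := by
  unfold XX
  split_ifs with h0 h1 h2 h3
  · exact norm_normalize h0.1
  · exact norm_normalize h1.1
  · exact norm_normalize h2.1
  · exact norm_normalize h3.1
  · exact norm_ee 0

lemma zero_XX {x : E4} (h : ∃ i, x ∈ Sg D i) : D.φ x (XX D x) (D.J x (XX D x)) = 0 := by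
  have hz : ∀ i, x ∈ Sg D i →
      D.φ x (‖wi D i x‖⁻¹ • wi D i x) (D.J x (‖wi D i x‖⁻¹ • wi D i x)) = 0 := by
    intro i hi
    simp only [map_smul, smul_apply, smul_eq_mul]
    rw [hi.2]; ring
  obtain ⟨i, hi⟩ := h
  unfold XX
  split_ifs with h0 h1 h2 h3
  · exact hz 0 h0
  · exact hz 1 h1
  · exact hz 2 h2
  · exact hz 3 h3
  · exfalso
    fin_cases i
    · exact h0 hi
    · exact h1 hi
    · exact h2 hi
    · exact h3 hi

/-- at a degenerate point `XX` is in the line. -/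
lemma deg_XX (hA : FWALG) {x : E4} (hd : ∃ v, v ≠ 0 ∧ D.φ x v (D.J x v) = 0) :
    Deg (D.J x) (D.F x) (D.φ x) (XX D x) := by
  have hb := D.bd x
  obtain ⟨X, -, hX, hf, hl⟩ := hA _ _ _ _ hb _ (D.pos x) (D.nrm x) hd
  have hX0 : Deg (D.J x) (D.F x) (D.φ x) X := ⟨hf, (hl X).2 ⟨1, 0, by simp⟩⟩
  obtain ⟨i, hi⟩ := exists_wv_ne hb.spos.alt hX hf
  have h1 : x ∈ Sg D i := by
    refine ⟨hi, ?_⟩
    rw [hl]
    refine ⟨(D.F x X (D.J x X))⁻¹ * (D.J x X) i, (D.F x X (D.J x X))⁻¹ * -(X i), ?_⟩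
    have h2 := wv_eq hf i
    have h3 : wi D i x = (D.F x X (D.J x X))⁻¹ • ((D.J x X) i • X - X i • D.J x X) := by
      rw [← h2, smul_smul, inv_mul_cancel₀ hX.ne', one_smul]; rfl
    rw [h3, smul_sub, smul_smul, smul_smul, sub_eq_add_neg, ← neg_smul]
    congr 2
    ring
  obtain ⟨s, t, hst⟩ := (hl (XX D x)).1 (zero_XX D ⟨i, h1⟩)
  rw [hst]
  exact deg_of_line hb.sq hb.spos.alt (D.pos x).alt hX0 s t

/-! measurability -/

lemma meas_clm {X G : Type*} [MeasurableSpace X] [NormedAddCommGroup G] [NormedSpace ℝ G]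
    [MeasurableSpace G] [BorelSpace G] {A : X → E4 →L[ℝ] G} {v : X → E4} (hA : Measurable A)
    (hv : Measurable v) : Measurable fun x => A x (v x) := by
  have h : Continuous fun p : (E4 →L[ℝ] G) × E4 => p.1 p.2 :=
    isBoundedBilinearMap_apply.continuous
  exact h.measurable.comp (hA.prodMk hv)

lemma meas_J : Measurable D.J := D.smJ.continuous.measurable
lemma meas_F : Measurable D.F := D.smF.continuous.measurable

lemma meas_q {b : E4 → Bil} (hb : Measurable b) :
    Measurable fun x => q (D.F x) (D.φ x) (b x) :=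
  (Loc5.measurable_W D.meas hb).div (Loc5.measurable_W (meas_F D) (meas_F D))

lemma meas_wi (i : Fin 4) : Measurable (wi D i) := by
  have h : (wi D i) = fun x => ∑ j : Fin 4, q (D.F x) (D.φ x) (wed (pr j) (pr i)) • ee j := rfl
  rw [h]
  refine Finset.measurable_sum _ fun j _ => ?_
  exact (meas_q D measurable_const).smul_const _

lemma meas_Sg (i : Fin 4) : MeasurableSet (Sg D i) := by
  have h1 : MeasurableSet {x | wi D i x ≠ 0} := by
    have := (measurableSet_eq_fun (meas_wi D i) measurable_const (g := fun _ => (0 : E4)))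
    exact this.compl
  have h2 : Measurable fun x => D.φ x (wi D i x) (D.J x (wi D i x)) :=
    meas_clm (meas_clm D.meas (meas_wi D i)) (meas_clm (meas_J D) (meas_wi D i))
  exact h1.inter (measurableSet_eq_fun h2 measurable_const)

lemma meas_XX : Measurable (XX D) := by
  have h : ∀ i, Measurable fun x => ‖wi D i x‖⁻¹ • wi D i x := fun i =>
    ((meas_wi D i).norm.inv).smul (meas_wi D i)
  unfold XX
  exact Measurable.ite (meas_Sg D 0) (h 0) (Measurable.ite (meas_Sg D 1) (h 1)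
    (Measurable.ite (meas_Sg D 2) (h 2) (Measurable.ite (meas_Sg D 3) (h 3) measurable_const)))

/-- the normalising factor. -/
def fx (x : E4) : ℝ := D.F x (XX D x) (D.J x (XX D x))

lemma fx_lo (x : E4) : D.m ≤ fx D x := by
  have := (D.bd x).lo (XX D x)
  rw [norm_XX, one_pow, mul_one] at this
  exact this

lemma fx_hi (x : E4) : fx D x ≤ D.M := by
  have := (D.bd x).hi (XX D x)
  rw [norm_XX, one_pow, mul_one] at this
  exact this

lemma m_pos : 0 < D.m := (D.bd 0).m_pos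
lemma M_pos : 0 < D.M := (D.bd 0).M_pos

lemma fx_pos (x : E4) : 0 < fx D x := (m_pos D).trans_le (fx_lo D x)

lemma meas_fx : Measurable (fx D) :=
  meas_clm (meas_clm (meas_F D) (meas_XX D)) (meas_clm (meas_J D) (meas_XX D))

end Choice


/-! ### the measure -/

section Meas

variable (D : LC)

/-- the ball. -/
def B2 : Set E4 := ball D.x0 (2 * D.R)

lemma isOpen_B2 : IsOpen (B2 D) := isOpen_ball
lemma meas_B2 : MeasurableSet (B2 D) := measurableSet_ball

/-- the density. -/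
def dn (x : E4) : ℝ≥0 := Real.toNNReal (fx D x)⁻¹

lemma meas_dn : Measurable (dn D) := (meas_fx D).inv.real_toNNReal

lemma coe_dn (x : E4) : (dn D x : ℝ) = (fx D x)⁻¹ :=
  Real.coe_toNNReal _ (inv_nonneg.2 (fx_pos D x).le)

/-- the measure. -/
def mm : Measure E4 := (D.s.restrict (B2 D)).withDensity (fun x => (dn D x : ℝ≥0∞))

lemma mm_le {A : Set E4} (hA : MeasurableSet A) : mm D A ≤ ENNReal.ofReal D.m⁻¹ * D.s A := by
  unfold mm
  rw [withDensity_apply _ hA]
  calc ∫⁻ x in A, (dn D x : ℝ≥0∞) ∂(D.s.restrict (B2 D))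
      ≤ ∫⁻ _ in A, ENNReal.ofReal D.m⁻¹ ∂(D.s.restrict (B2 D)) := by
        refine lintegral_mono fun x => ?_
        change ENNReal.ofReal (fx D x)⁻¹ ≤ _
        exact ENNReal.ofReal_le_ofReal (inv_anti₀ (m_pos D) (fx_lo D x))
    _ = ENNReal.ofReal D.m⁻¹ * (D.s.restrict (B2 D)) A := by
        rw [lintegral_const, Measure.restrict_apply_univ]
    _ ≤ ENNReal.ofReal D.m⁻¹ * D.s A := by
        gcongr
        exact Measure.restrict_le_self

lemma mm_ge {A : Set E4} (hA : MeasurableSet A) :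
    ENNReal.ofReal D.M⁻¹ * D.s (A ∩ B2 D) ≤ mm D A := by
  unfold mm
  rw [withDensity_apply _ hA]
  calc ENNReal.ofReal D.M⁻¹ * D.s (A ∩ B2 D)
      = ∫⁻ _ in A, ENNReal.ofReal D.M⁻¹ ∂(D.s.restrict (B2 D)) := by
        rw [lintegral_const, Measure.restrict_apply_univ, Measure.restrict_apply hA]
    _ ≤ ∫⁻ x in A, (dn D x : ℝ≥0∞) ∂(D.s.restrict (B2 D)) := by
        refine lintegral_mono fun x => ?_
        change _ ≤ ENNReal.ofReal (fx D x)⁻¹
        exact ENNReal.ofReal_le_ofReal (inv_anti₀ (fx_pos D x) (fx_hi D x))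

instance fin_s : IsFiniteMeasure D.s := D.fin

instance fin_mm : IsFiniteMeasure (mm D) where
  measure_univ_lt_top := (mm_le D MeasurableSet.univ).trans_lt
    (ENNReal.mul_lt_top ENNReal.ofReal_lt_top (measure_lt_top _ _))

lemma mm_real_le {A : Set E4} (hA : MeasurableSet A) : (mm D).real A ≤ D.m⁻¹ * D.s.real A := by
  have h := ENNReal.toReal_mono (ENNReal.mul_lt_top ENNReal.ofReal_lt_top
    (measure_lt_top D.s A)).ne (mm_le D hA)
  rw [ENNReal.toReal_mul, ENNReal.toReal_ofReal (inv_nonneg.2 (m_pos D).le)] at h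
  exact h

lemma mm_real_ge {A : Set E4} (hA : MeasurableSet A) :
    D.M⁻¹ * D.s.real (A ∩ B2 D) ≤ (mm D).real A := by
  have h := ENNReal.toReal_mono (measure_lt_top (mm D) A).ne (mm_ge D hA)
  rw [ENNReal.toReal_mul, ENNReal.toReal_ofReal (inv_nonneg.2 (M_pos D).le)] at h
  exact h

lemma ae_mm {P : E4 → Prop} (h : ∀ᵐ x ∂D.s, x ∈ B2 D → P x) : ∀ᵐ x ∂(mm D), P x := by
  have h1 : ∀ᵐ x ∂(D.s.restrict (B2 D)), P x := (ae_restrict_iff' (meas_B2 D)).2 h
  exact (withDensity_absolutelyContinuous _ _).ae_le h1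

lemma ae_mem : ∀ᵐ x ∂(mm D), x ∈ B2 D := ae_mm D (Eventually.of_forall fun _ h => h)

/-- the basic formula. -/
lemma integral_mm (hd : ∀ᵐ x ∂D.s, x ∈ B2 D → Deg (D.J x) (D.F x) (D.φ x) (XX D x))
    {β : E4 → Bil} (hβ : ∀ x, Alt (β x)) :
    ∫ x, β x (XX D x) (D.J x (XX D x)) ∂(mm D) = ∫ x in B2 D, q (D.F x) (D.φ x) (β x) ∂D.s := by
  unfold mm
  rw [integral_withDensity_eq_integral_smul (meas_dn D)]
  refine setIntegral_congr_ae (meas_B2 D) ?_
  filter_upwards [hd] with x hx hxB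
  have h1 := (hx hxB).form (β x) (hβ x)
  rw [NNReal.smul_def, coe_dn, ← h1]
  change (fx D x)⁻¹ • (q (D.F x) (D.φ x) (β x) * fx D x) = _
  rw [smul_eq_mul, mul_comm, mul_assoc, mul_inv_cancel₀ (fx_pos D x).ne', mul_one]

lemma q_zero (F b : Bil) : q F b 0 = 0 := by
  unfold q W
  simp [ent_zero]

lemma integral_mm' (hd : ∀ᵐ x ∂D.s, x ∈ B2 D → Deg (D.J x) (D.F x) (D.φ x) (XX D x))
    {β : E4 → Bil} (hβ : ∀ x, Alt (β x)) (h0 : ∀ x, x ∉ B2 D → β x = 0) :
    ∫ x, β x (XX D x) (D.J x (XX D x)) ∂(mm D) = ∫ x, q (D.F x) (D.φ x) (β x) ∂D.s := by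
  rw [integral_mm D hd hβ]
  refine setIntegral_eq_integral_of_forall_compl_eq_zero fun x hx => ?_
  rw [h0 x hx, q_zero]

lemma suppE_of_mm {x : E4} (h : SuppE (mm D) x) : SuppE D.s x := by
  intro r hr
  by_contra hc
  have h0 : D.s (ball x r) = 0 := by simpa using hc
  have h1 := mm_le D (A := ball x r) measurableSet_ball
  rw [h0, mul_zero] at h1
  exact absurd (h r hr) (not_lt.2 h1)

lemma exists_ball_sub {x : E4} (hx : x ∈ B2 D) : ∃ δ > 0, ball x δ ⊆ B2 D :=
  Metric.isOpen_iff.1 (isOpen_B2 D) x hx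

lemma suppE_mm {x : E4} (hx : x ∈ B2 D) (h : SuppE D.s x) : SuppE (mm D) x := by
  intro r hr
  obtain ⟨δ, hδ, hsub⟩ := exists_ball_sub D hx
  have h1 := mm_ge D (A := ball x r) measurableSet_ball
  refine lt_of_lt_of_le ?_ h1
  refine ENNReal.mul_pos ?_ ?_
  · simpa using M_pos D
  · have h2 : ball x (min r δ) ⊆ ball x r ∩ B2 D :=
      subset_inter (ball_subset_ball (min_le_left _ _))
        ((ball_subset_ball (min_le_right _ _)).trans hsub)
    exact ((h (min r δ) (lt_min hr hδ)).trans_le (measure_mono h2)).ne'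

/-- all the fields except flatness. -/
lemma low_mm (h : ∃ c₀ > 0, ∃ r₀ > 0, ∀ x ∈ ball D.x0 (3 * D.R), SuppE D.s x → ∀ r, 0 < r →
    r ≤ r₀ → c₀ * r ^ 2 ≤ D.s.real (ball x r)) :
    ∀ Q ⊆ B2 D, IsCompact Q → ∃ c₀ > 0, ∃ r₀ > 0, ∀ p ∈ Q, SuppE (mm D) p →
    ∀ r, 0 < r → r ≤ r₀ → c₀ * r ^ 2 ≤ (mm D).real (ball p r) := by
  intro Q hQ hQc
  obtain ⟨c, hc, r0, hr0, hlow⟩ := h
  obtain ⟨δ, hδ, hsub⟩ := hQc.exists_thickening_subset_open (isOpen_B2 D) hQ
  refine ⟨D.M⁻¹ * c, mul_pos (inv_pos.2 (M_pos D)) hc, min r0 δ, lt_min hr0 hδ, ?_⟩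
  intro p hp hs r hr hrl
  have h1 : ball p r ⊆ B2 D := by
    refine Subset.trans ?_ hsub
    intro y hy
    rw [mem_thickening_iff]
    exact ⟨p, hp, (mem_ball.1 hy).trans_le (hrl.trans (min_le_right _ _))⟩
  have hp3 : p ∈ ball D.x0 (3 * D.R) := by
    have : B2 D ⊆ ball D.x0 (3 * D.R) := ball_subset_ball (by linarith [D.R_pos])
    exact this (hQ hp)
  have h2 := hlow p hp3 (suppE_of_mm D hs) r hr (hrl.trans (min_le_left _ _))
  have h3 := mm_real_ge D (A := ball p r) measurableSet_ball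
  rw [inter_eq_left.2 h1] at h3
  calc D.M⁻¹ * c * r ^ 2 = D.M⁻¹ * (c * r ^ 2) := by ring
    _ ≤ D.M⁻¹ * D.s.real (ball p r) := by
        have := inv_nonneg.2 (M_pos D).le
        gcongr
    _ ≤ _ := h3

lemma up_mm (p : E4) (r : ℝ) (hr : 0 < r) :
    (mm D).real (closedBall p r) ≤ (4 * D.C / D.m) * r ^ 2 := by
  have h1 := mm_real_le D (A := closedBall p r) measurableSet_closedBall
  have h2 : D.s.real (closedBall p r) ≤ D.s.real (ball p (2 * r)) :=
    measureReal_mono (closedBall_subset_ball (by linarith))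
  have h3 := D.gr p (2 * r) (by linarith)
  have h4 := inv_nonneg.2 (m_pos D).le
  calc (mm D).real (closedBall p r) ≤ D.m⁻¹ * D.s.real (closedBall p r) := h1
    _ ≤ D.m⁻¹ * (D.C * (2 * r) ^ 2) := by gcongr; exact h2.trans h3
    _ = _ := by ring

lemma closed_mm (hd : ∀ᵐ x ∂D.s, x ∈ B2 D → Deg (D.J x) (D.F x) (D.φ x) (XX D x))
    (l : E4 → (E4 →L[ℝ] ℝ)) (hl : ContDiff ℝ ∞ l) (hc : HasCompactSupport l)
    (ht : tsupport l ⊆ B2 D) :
    ∫ p, (fderiv ℝ l p (XX D p) (D.J p (XX D p)) -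
      fderiv ℝ l p (D.J p (XX D p)) (XX D p)) ∂(mm D) = 0 := by
  have h1 : ∀ p, fderiv ℝ l p (XX D p) (D.J p (XX D p)) -
      fderiv ℝ l p (D.J p (XX D p)) (XX D p) = En.d1 l p (XX D p) (D.J p (XX D p)) := by
    intro p; rw [En.d1_apply]
  simp only [h1]
  have h2 : ∀ x, Alt (En.d1 l x) := by
    intro x v; rw [En.d1_apply]; ring
  have h3 : ∀ x, x ∉ B2 D → En.d1 l x = 0 := by
    intro x hx
    have h4 : fderiv ℝ l x = 0 := fderiv_of_notMem_tsupport ℝ (fun h => hx (ht h))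
    ext u v
    rw [En.d1_apply, h4]
    simp
  rw [integral_mm' D hd h2 h3]
  refine D.closed l hl hc (ht.trans ?_)
  exact ball_subset_ball (by linarith [D.R_pos])

end Meas

/-! ### flatness -/

section Flat

variable (D : LC)

lemma norm_φ_le (y : E4) : ‖D.φ y‖ ≤ 2 * D.M := by
  have h := (D.bd y).norm_le_q (D.pos y)
  rw [D.nrm y, mul_one] at h
  exact h

lemma W_ne (y : E4) : W (D.F y) (D.F y) ≠ 0 := (D.bd y).W_ne

lemma cont_iW : Continuous fun y => (W (D.F y) (D.F y))⁻¹ := by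
  refine Continuous.inv₀ ?_ (W_ne D)
  have h : ∀ i j, Continuous fun x => ent (D.F x) i j := fun i j =>
    (Loc5.continuous_ent i j).comp D.smF.continuous
  unfold W
  exact (((((h 0 1).mul (h 2 3)).sub ((h 0 2).mul (h 1 3))).add ((h 0 3).mul (h 1 2))).add
    ((h 1 2).mul (h 0 3))).sub ((h 1 3).mul (h 0 2)) |>.add ((h 2 3).mul (h 0 1))

lemma diff_q (y p : E4) {β : Bil} (hβ : Alt β) :
    |q (D.F y) (D.φ y) β - q (D.F p) (D.φ p) β| ≤
      3 / D.m ^ 2 * (‖D.φ y - D.φ p‖ * ‖β‖) +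
        6 * (‖D.φ p‖ * ‖β‖) * |(W (D.F y) (D.F y))⁻¹ - (W (D.F p) (D.F p))⁻¹| := by
  have hs : Alt (D.φ y - D.φ p) := by
    intro v
    have h1 := (D.pos y).alt v
    have h2 := (D.pos p).alt v
    simp [h1, h2]
  have e : q (D.F y) (D.φ y) β - q (D.F p) (D.φ p) β = q (D.F y) (D.φ y - D.φ p) β +
      W (D.φ p) β * ((W (D.F y) (D.F y))⁻¹ - (W (D.F p) (D.F p))⁻¹) := by
    unfold q
    rw [W_sub_left]
    simp only [div_eq_mul_inv]
    ring
  rw [e]
  refine (abs_add_le _ _).trans (add_le_add ((D.bd y).abs_q_le hs hβ) ?_)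
  rw [abs_mul]
  exact mul_le_mul_of_nonneg_right (Loc5.abs_W_le _ _) (abs_nonneg _)

variable {p : E4} {g : E4 → Bil} {K1 G : ℝ}

lemma meas_g (hg : Continuous g) (p : E4) (r : ℝ) : Measurable fun y => g (r⁻¹ • (y - p)) := by
  have : Continuous fun y => g (r⁻¹ • (y - p)) := by fun_prop
  exact this.measurable

lemma int_q1 (hg : Continuous g) (hG : ∀ z, ‖g z‖ ≤ G) (ha : ∀ z, Alt (g z)) (p : E4) (r : ℝ) :
    Integrable (fun y => q (D.F y) (D.φ y) (g (r⁻¹ • (y - p)))) D.s := by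
  have hM := M_pos D
  refine Integrable.of_bound (meas_q D (meas_g hg p r)).aestronglyMeasurable
    (3 / D.m ^ 2 * (2 * D.M * G)) (Eventually.of_forall fun y => ?_)
  rw [Real.norm_eq_abs]
  refine ((D.bd y).abs_q_le (D.pos y).alt (ha _)).trans ?_
  have h1 := norm_φ_le D y
  have h2 := hG (r⁻¹ • (y - p))
  gcongr

lemma int_q2 (hg : Continuous g) (hG : ∀ z, ‖g z‖ ≤ G) (ha : ∀ z, Alt (g z)) (p : E4) (r : ℝ) :
    Integrable (fun y => q (D.F p) (D.φ p) (g (r⁻¹ • (y - p)))) D.s := by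
  have hM := M_pos D
  have hm : Measurable fun y => q (D.F p) (D.φ p) (g (r⁻¹ • (y - p))) :=
    (Loc5.measurable_W measurable_const (meas_g hg p r)).div measurable_const
  refine Integrable.of_bound hm.aestronglyMeasurable
    (3 / D.m ^ 2 * (2 * D.M * G)) (Eventually.of_forall fun y => ?_)
  rw [Real.norm_eq_abs]
  refine ((D.bd p).abs_q_le (D.pos p).alt (ha _)).trans ?_
  have h1 := norm_φ_le D p
  have h2 := hG (r⁻¹ • (y - p))
  gcongr

lemma int_φ (p : E4) : Integrable (fun y => ‖D.φ y - D.φ p‖) D.s := by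
  refine Integrable.of_bound (D.meas.sub_const _).norm.aestronglyMeasurable
    (4 * D.M) (Eventually.of_forall fun y => ?_)
  rw [norm_norm]
  refine (norm_sub_le _ _).trans ?_
  linarith [norm_φ_le D y, norm_φ_le D p]

lemma flat_diff (hp : ∀ K : ℝ, Tendsto (fun r : ℝ => (r ^ 2)⁻¹ *
      ∫ y in ball p (K * r), ‖D.φ y - D.φ p‖ ∂D.s) (𝓝[>] 0) (𝓝 0))
    (hg : Continuous g) (hG : ∀ z, ‖g z‖ ≤ G) (ha : ∀ z, Alt (g z)) (hK1 : 0 < K1)
    (hK : ∀ z, K1 ≤ ‖z‖ → g z = 0) :
    Tendsto (fun r : ℝ => (r ^ 2)⁻¹ * (∫ y, q (D.F y) (D.φ y) (g (r⁻¹ • (y - p))) ∂D.s) -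
      (r ^ 2)⁻¹ * ∫ y, q (D.F p) (D.φ p) (g (r⁻¹ • (y - p))) ∂D.s) (𝓝[>] 0) (𝓝 0) := by
  have hG0 : 0 ≤ G := (norm_nonneg _).trans (hG 0)
  have hM := M_pos D
  have hm := m_pos D
  set A : ℝ := 3 / D.m ^ 2 * G with hA
  set B : ℝ := 6 * (2 * D.M * G) with hB
  have hA0 : 0 ≤ A := by positivity
  have hB0 : 0 ≤ B := by positivity
  have key : ∀ ε > 0, ∀ᶠ r : ℝ in 𝓝[>] 0,
      |(r ^ 2)⁻¹ * (∫ y, q (D.F y) (D.φ y) (g (r⁻¹ • (y - p))) ∂D.s) -
      (r ^ 2)⁻¹ * ∫ y, q (D.F p) (D.φ p) (g (r⁻¹ • (y - p))) ∂D.s| ≤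
      A * ((r ^ 2)⁻¹ * ∫ y in ball p (K1 * r), ‖D.φ y - D.φ p‖ ∂D.s) +
        B * (D.C * K1 ^ 2) * ε := by
    intro ε hε
    obtain ⟨δ, hδ, hw⟩ := Metric.continuousAt_iff.1 ((cont_iW D).continuousAt (x := p)) ε hε
    have h1 : ∀ᶠ r : ℝ in 𝓝[>] 0, r < δ / K1 :=
      (eventually_lt_nhds (div_pos hδ hK1)).filter_mono nhdsWithin_le_nhds
    filter_upwards [h1, self_mem_nhdsWithin] with r hr hr0
    have hr0' : 0 < r := hr0
    have hrK : K1 * r < δ := by
      rw [lt_div_iff₀ hK1] at hr; linarith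
    rw [← mul_sub, ← integral_sub (int_q1 D hg hG ha p r) (int_q2 D hg hG ha p r), abs_mul,
      abs_of_nonneg (by positivity : 0 ≤ (r ^ 2)⁻¹)]
    have h2 : |∫ y, (q (D.F y) (D.φ y) (g (r⁻¹ • (y - p))) -
        q (D.F p) (D.φ p) (g (r⁻¹ • (y - p)))) ∂D.s| ≤
        ∫ y, (ball p (K1 * r)).indicator (fun y => A * ‖D.φ y - D.φ p‖ + B * ε) y ∂D.s := by
      rw [← Real.norm_eq_abs]
      refine norm_integral_le_of_norm_le ?_ (Eventually.of_forall fun y => ?_)
      · exact (((int_φ D p).const_mul A).add (integrable_const _)).indicator measurableSet_ball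
      · by_cases hy : y ∈ ball p (K1 * r)
        · rw [indicator_of_mem hy, Real.norm_eq_abs]
          refine (diff_q D y p (ha _)).trans ?_
          have h3 := hG (r⁻¹ • (y - p))
          have h4 := norm_φ_le D p
          have h5 : |(W (D.F y) (D.F y))⁻¹ - (W (D.F p) (D.F p))⁻¹| ≤ ε := by
            have := hw ((mem_ball.1 hy).trans hrK)
            rw [Real.dist_eq] at this
            exact this.le
          refine add_le_add ?_ ?_
          · calc 3 / D.m ^ 2 * (‖D.φ y - D.φ p‖ * ‖g (r⁻¹ • (y - p))‖)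
                ≤ 3 / D.m ^ 2 * (‖D.φ y - D.φ p‖ * G) := by gcongr
              _ = _ := by rw [hA]; ring
          · rw [hB]; gcongr
        · rw [indicator_of_notMem hy]
          have h3 : g (r⁻¹ • (y - p)) = 0 := by
            apply hK
            rw [mem_ball, not_lt, dist_eq_norm] at hy
            rw [norm_smul, norm_inv, Real.norm_eq_abs, abs_of_pos hr0', ← div_eq_inv_mul,
              le_div_iff₀ hr0']
            exact hy
          rw [h3, q_zero, q_zero]; simp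
    have h3 : ∫ y, (ball p (K1 * r)).indicator (fun y => A * ‖D.φ y - D.φ p‖ + B * ε) y ∂D.s =
        A * (∫ y in ball p (K1 * r), ‖D.φ y - D.φ p‖ ∂D.s) +
          B * ε * D.s.real (ball p (K1 * r)) := by
      rw [integral_indicator measurableSet_ball, integral_add
        ((int_φ D p).const_mul A).integrableOn (integrable_const _), integral_const_mul,
        setIntegral_const, smul_eq_mul, mul_comm (D.s.real _)]
    rw [h3] at h2
    have h4 := D.gr p (K1 * r) (by positivity)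
    calc (r ^ 2)⁻¹ * |∫ y, (q (D.F y) (D.φ y) (g (r⁻¹ • (y - p))) -
          q (D.F p) (D.φ p) (g (r⁻¹ • (y - p)))) ∂D.s|
        ≤ (r ^ 2)⁻¹ * (A * (∫ y in ball p (K1 * r), ‖D.φ y - D.φ p‖ ∂D.s) +
          B * ε * (D.C * (K1 * r) ^ 2)) := by
          refine mul_le_mul_of_nonneg_left (h2.trans ?_) (by positivity)
          gcongr
      _ = _ := by
          field_simp
  rw [Metric.tendsto_nhds]
  intro ε hε
  set c : ℝ := B * (D.C * K1 ^ 2) with hc
  have hc0 : 0 ≤ c := mul_nonneg hB0 (mul_nonneg D.C_nn (sq_nonneg _))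
  have h1 := key (ε / (2 * (c + 1))) (by positivity)
  have h2 : Tendsto (fun r : ℝ => A * ((r ^ 2)⁻¹ * ∫ y in ball p (K1 * r), ‖D.φ y - D.φ p‖ ∂D.s))
      (𝓝[>] 0) (𝓝 0) := by
    simpa using (hp K1).const_mul A
  have h3 := (Metric.tendsto_nhds.1 h2) (ε / 2) (by positivity)
  filter_upwards [h1, h3] with r h4 h5
  rw [Real.dist_eq, sub_zero] at h5 ⊢
  have h6 : c * (ε / (2 * (c + 1))) ≤ ε / 2 := by
    rw [mul_div_assoc', div_le_div_iff₀ (by positivity) (by norm_num)]
    nlinarith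
  have h7 := (abs_lt.1 h5).2
  linarith

lemma exists_ne_zero (hφ : ∀ p, Pos (D.J p) (D.φ p)) (p : E4) : ∃ v, D.φ p v (D.J p v) ≠ 0 := by
  by_contra hc
  push Not at hc
  have hJ := (D.bd p).sq
  have hP := hφ p
  have h1 : ∀ u v, D.φ p u (D.J p v) = 0 := by
    intro u v
    have h2 := hc (u + v)
    have h3 := hc u
    have h4 := hc v
    simp only [map_add, add_apply] at h2
    have h5 := hP.inv v (D.J p u)
    rw [hJ, map_neg] at h5
    have h6 := hP.alt.swap u (D.J p v)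
    linarith
  have h2 : D.φ p = 0 := by
    ext u v
    have h3 := h1 u (D.J p v)
    rw [hJ, map_neg] at h3
    simp only [zero_apply]
    linarith
  have h3 := D.nrm p
  rw [h2] at h3
  unfold q W at h3
  simp [ent_zero] at h3

/-- flatness at a good point. -/
lemma flatE (hL : FWLIM) (hd : ∀ᵐ x ∂D.s, x ∈ B2 D → Deg (D.J x) (D.F x) (D.φ x) (XX D x))
    (hp : p ∈ B2 D) (hgd : Good D p) (hden : IsDenE (D.G p) D.s p 1)
    (hdeg : Deg (D.J p) (D.F p) (D.φ p) (XX D p)) :
    FlatE (mm D) (XX D) (fun q => D.J q (XX D q)) p := by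
  intro g hg hgc ha
  have hX0 : XX D p ≠ 0 := by
    intro h
    have := norm_XX D p
    rw [h, norm_zero] at this
    exact zero_ne_one this
  have hp4 : p ∈ ball D.x0 (4 * D.R) := ball_subset_ball (by linarith [D.R_pos]) hp
  -- the limit for the frozen form
  have hfc : Continuous fun z => q (D.F p) (D.φ p) (g z) := by
    have : (fun z => q (D.F p) (D.φ p) (g z)) =
        fun z => Loc5.WL (D.φ p) (g z) / W (D.F p) (D.F p) := by
      funext z
      rw [Loc5.WL_apply, W_comm]; rfl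
    rw [this]
    fun_prop
  have hfs : HasCompactSupport fun z => q (D.F p) (D.φ p) (g z) :=
    hgc.comp_left (g := fun b => q (D.F p) (D.φ p) b) (q_zero _ _)
  have h1 := hL D p hp4 hgd hden (XX D p) hX0 hdeg.zero (exists_ne_zero D D.pos p) _ hfc hfs
  have h2 : (∫ ζ : ℂ, q (D.F p) (D.φ p) (g (ζ.re • XX D p + ζ.im • D.J p (XX D p)))) *
      D.F p (XX D p) (D.J p (XX D p)) =
      ∫ ζ : ℂ, g (ζ.re • XX D p + ζ.im • D.J p (XX D p)) (XX D p) (D.J p (XX D p)) := by
    rw [← integral_mul_const]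
    congr 1
    funext ζ
    exact hdeg.form _ (ha _)
  rw [h2] at h1
  obtain ⟨G, hG⟩ := hg.bounded_above_of_compact_support hgc
  obtain ⟨K0, hK0⟩ := hgc.isCompact.isBounded.subset_ball (0 : E4)
  have hK : ∀ z, max K0 1 ≤ ‖z‖ → g z = 0 := by
    intro z hz
    by_contra hne
    have h3 := hK0 (subset_tsupport g hne)
    rw [mem_ball_zero_iff] at h3
    linarith [le_max_left K0 1]
  have hK1 : (0 : ℝ) < max K0 1 := lt_of_lt_of_le one_pos (le_max_right _ _)
  have h3 := (flat_diff D hgd.leb hg hG ha hK1 hK).add h1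
  rw [zero_add] at h3
  refine h3.congr' ?_
  obtain ⟨δ, hδ, hsub⟩ := exists_ball_sub D hp
  have h4 : ∀ᶠ r : ℝ in 𝓝[>] 0, r < δ / max K0 1 :=
    (eventually_lt_nhds (div_pos hδ hK1)).filter_mono nhdsWithin_le_nhds
  filter_upwards [h4, self_mem_nhdsWithin] with r hr hr0
  have hr0' : 0 < r := hr0
  rw [sub_add_cancel]
  congr 1
  symm
  refine integral_mm' D hd (β := fun y => g (r⁻¹ • (y - p))) (fun y => ha _) fun y hy => ?_
  apply hK
  have h5 : δ ≤ dist y p := by
    by_contra h6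
    exact hy (hsub (mem_ball.2 (not_le.1 h6)))
  rw [dist_eq_norm] at h5
  rw [norm_smul, norm_inv, Real.norm_eq_abs, abs_of_pos hr0', ← div_eq_inv_mul,
    le_div_iff₀ hr0']
  rw [lt_div_iff₀ hK1] at hr
  linarith

end Flat

/-! ### assembly -/

/-- (A1.0) density one ⟹ flat current. -/
theorem flatw : FWALG → FWGOOD → FWDEG → FWLIM → FWLOW → FLATW := by
  intro hAlg hGood hDeg hLim hLow hMon D hden
  have hR := D.R_pos
  have h23 : B2 D ⊆ ball D.x0 (3 * D.R) := ball_subset_ball (by linarith)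
  have h24 : B2 D ⊆ ball D.x0 (4 * D.R) := ball_subset_ball (by linarith)
  have hall : ∀ᵐ x ∂D.s, x ∈ B2 D → Good D x ∧ IsDenE (D.G x) D.s x 1 ∧
      Deg (D.J x) (D.F x) (D.φ x) (XX D x) := by
    filter_upwards [hGood hMon D, hden] with x h1 h2 hx
    have h3 := h1 (h23 hx)
    have h4 := h2 (h23 hx)
    exact ⟨h3, h4, deg_XX D hAlg (hDeg D x (h24 hx) h3 h4)⟩
  have hd : ∀ᵐ x ∂D.s, x ∈ B2 D → Deg (D.J x) (D.F x) (D.φ x) (XX D x) := by
    filter_upwards [hall] with x hx hxB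
    exact (hx hxB).2.2
  refine ⟨mm D, XX D, 4 * D.C / D.m, ?_, ?_, ?_⟩
  · exact
      { openU := isOpen_ball
        smJ := D.smJ.contDiffOn
        sqJ := fun x _ => (D.bd x).sq
        fin := fin_mm D
        mX := meas_XX D
        nX := norm_XX D
        supp := ae_mem D
        closed := closed_mm D hd
        up := up_mm D
        low := low_mm D (hLow hMon D hden)
        flat := by
          refine ae_mm D ?_
          filter_upwards [hall] with x hx hxB
          exact flatE D hLim hd hxB (hx hxB).1 (hx hxB).2.1 (hx hxB).2.2 }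
  · intro x hx
    exact ⟨suppE_of_mm D, suppE_mm D hx⟩
  · intro b _ hb hQ
    obtain ⟨Q, hQs, -, hQ0⟩ := hQ
    symm
    exact integral_mm' D hd hb fun x hx => hQ0 x fun h => hx (hQs h)

end

end Crest.Agent.R235.Reg_FLATW_843
end

-- ▼ part R235/Reg_FWDEG_83
section

/-!
Row 235, REG A1.0c (helper83): at a good point of density one the form is degenerate.
-/

set_option autoImplicit false
set_option maxSynthPendingDepth 3

open MeasureTheory Metric Set Filter
open scoped ContDiff Topology Manifold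

namespace Crest.Agent.R235.RegFWDEG_83

open Crest.Agent.R240 Crest.Agent.R240.Pot
open Crest.Agent.R235.CurDefs_132 Crest.Agent.R235.Reg_522

noncomputable section

/-- a definite form is bounded below. -/
theorem exists_lower {J : E4 →L[ℝ] E4} {φ : Bil} (h : ∀ v, v ≠ 0 → 0 < φ v (J v)) :
    ∃ c > 0, ∀ v, c * ‖v‖ ^ 2 ≤ φ v (J v) := by
  have hcont : Continuous fun v : E4 => φ v (J v) := by fun_prop
  have hne : (sphere (0 : E4) 1).Nonempty := NormedSpace.sphere_nonempty.2 zero_le_one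
  obtain ⟨v0, hv0, hmin⟩ := (isCompact_sphere (0 : E4) 1).exists_isMinOn hne hcont.continuousOn
  have hv0n : v0 ≠ 0 := by
    rintro rfl
    simp at hv0
  refine ⟨φ v0 (J v0), h v0 hv0n, fun v => ?_⟩
  by_cases hv : v = 0
  · subst hv; simp
  · have hn : 0 < ‖v‖ := norm_pos_iff.2 hv
    have h1 : ‖v‖⁻¹ • v ∈ sphere (0 : E4) 1 := by
      rw [mem_sphere_zero_iff_norm, norm_smul, norm_inv, norm_norm, inv_mul_cancel₀ hn.ne']
    have h2 : φ v0 (J v0) ≤ φ (‖v‖⁻¹ • v) (J (‖v‖⁻¹ • v)) := hmin h1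
    have h3 : φ (‖v‖⁻¹ • v) (J (‖v‖⁻¹ • v)) = (‖v‖ ^ 2)⁻¹ * φ v (J v) := by
      simp only [map_smul, smul_apply, smul_eq_mul]
      field_simp
    rw [h3, inv_mul_eq_div, le_div_iff₀ (by positivity)] at h2
    exact h2

/-- **FWDEG**. -/
theorem fwdeg : FWDEG := by
  intro D x hx hG hden
  by_contra hcon
  have hpos : ∀ v, v ≠ 0 → 0 < D.φ x v (D.J x v) := fun v hv =>
    lt_of_le_of_ne ((D.pos x).nonneg v) fun h => hcon ⟨v, hv, h.symm⟩
  obtain ⟨c, hc, hcl⟩ := exists_lower hpos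
  have := D.fin
  have hbd := D.bd x
  have hm := hbd.m_pos
  have hM := hbd.M_pos
  have hlo : ∀ v, D.m * ‖v‖ ^ 2 ≤ D.G x v v := fun v => hbd.lo v
  have hhi : ∀ v, D.G x v v ≤ D.M * ‖v‖ ^ 2 := fun v => hbd.hi v
  set K : ℝ := 1 / √D.m with hK
  set ε : ℝ := 1 / (2 * √D.M) with hε
  have hKp : 0 < K := by positivity
  have hεp : 0 < ε := by positivity
  set g : ℝ → ℝ := fun r => D.s.real {y | D.G x (y - x) (y - x) < r ^ 2} with hg
  have hGc : Continuous fun y : E4 => D.G x (y - x) (y - x) := by fun_prop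
  have hms : ∀ r : ℝ, MeasurableSet {y | D.G x (y - x) (y - x) < r ^ 2} := fun r =>
    (isOpen_lt hGc continuous_const).measurableSet
  have h1 : Tendsto (fun r : ℝ => g r / (Real.pi * r ^ 2)) (𝓝[>] 0) (𝓝 1) := hden
  have hhalf : Tendsto (fun r : ℝ => r / 2) (𝓝[>] 0) (𝓝[>] 0) := by
    refine tendsto_nhdsWithin_of_tendsto_nhds_of_eventually_within _ ?_ ?_
    · have : Tendsto (fun r : ℝ => r / 2) (𝓝 0) (𝓝 (0 / 2)) := tendsto_id.div_const 2
      rw [zero_div] at this
      exact this.mono_left nhdsWithin_le_nhds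
    · filter_upwards [self_mem_nhdsWithin] with r hr
      exact half_pos (mem_Ioi.1 hr)
  have h2 : Tendsto (fun r : ℝ => g (r / 2) / (Real.pi * (r / 2) ^ 2)) (𝓝[>] 0) (𝓝 1) :=
    h1.comp hhalf
  have h3 : Tendsto (fun r : ℝ => (r ^ 2)⁻¹ * (g r - g (r / 2))) (𝓝[>] 0)
      (𝓝 (Real.pi * 1 - Real.pi / 4 * 1)) := by
    refine ((h1.const_mul Real.pi).sub (h2.const_mul (Real.pi / 4))).congr' ?_
    filter_upwards [self_mem_nhdsWithin] with r hr
    have hr' : r ≠ 0 := (mem_Ioi.1 hr).ne'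
    have hpi := Real.pi_ne_zero
    field_simp
    ring
  have hfc : Continuous fun y : E4 => D.φ x (y - x) (D.J x (y - x)) := by fun_prop
  have h4 : ∀ r : ℝ, 0 < r → c * ε ^ 2 * ((r ^ 2)⁻¹ * (g r - g (r / 2))) ≤
      (r ^ 4)⁻¹ * ∫ y in ball x (K * r), D.φ x (y - x) (D.J x (y - x)) ∂D.s := by
    intro r hr
    set A : Set E4 := {y | D.G x (y - x) (y - x) < r ^ 2} \
      {y | D.G x (y - x) (y - x) < (r / 2) ^ 2} with hA
    have hAm : MeasurableSet A := (hms r).diff (hms (r / 2))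
    have hsub : {y | D.G x (y - x) (y - x) < (r / 2) ^ 2} ⊆
        {y | D.G x (y - x) (y - x) < r ^ 2} := by
      intro y hy
      have hy' : D.G x (y - x) (y - x) < (r / 2) ^ 2 := hy
      show D.G x (y - x) (y - x) < r ^ 2
      nlinarith
    have hdiff : g r - g (r / 2) = D.s.real A := by
      rw [hA, measureReal_sdiff hsub (hms _)]
    have hAb : A ⊆ ball x (K * r) := by
      intro y hy
      have hy1 : D.G x (y - x) (y - x) < r ^ 2 := hy.1
      rw [mem_ball, dist_eq_norm]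
      have h5 := hlo (y - x)
      have h6 : ‖y - x‖ ^ 2 < (K * r) ^ 2 := by
        have h7 : (K * r) ^ 2 = r ^ 2 / D.m := by
          rw [hK, mul_pow, div_pow, Real.sq_sqrt hm.le]; ring
        rw [h7, lt_div_iff₀ hm]
        linarith
      exact lt_of_pow_lt_pow_left₀ 2 (by positivity) h6
    have hAl : ∀ y ∈ A, c * ε ^ 2 * r ^ 2 ≤ D.φ x (y - x) (D.J x (y - x)) := by
      intro y hy
      have hy2 : (r / 2) ^ 2 ≤ D.G x (y - x) (y - x) := not_lt.1 hy.2
      have h5 := hhi (y - x)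
      have h6 : ε ^ 2 * r ^ 2 ≤ ‖y - x‖ ^ 2 := by
        have h7 : ε ^ 2 * r ^ 2 = (r / 2) ^ 2 / D.M := by
          rw [hε, div_pow, mul_pow, Real.sq_sqrt hM.le]; field_simp
        rw [h7, div_le_iff₀ hM]
        linarith
      calc c * ε ^ 2 * r ^ 2 = c * (ε ^ 2 * r ^ 2) := by ring
        _ ≤ c * ‖y - x‖ ^ 2 := by gcongr
        _ ≤ _ := hcl _
    have hint : IntegrableOn (fun y : E4 => D.φ x (y - x) (D.J x (y - x))) (ball x (K * r)) D.s :=
      (hfc.continuousOn.integrableOn_compact (isCompact_closedBall x (K * r))).mono_set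
        ball_subset_closedBall
    have h5 : c * ε ^ 2 * r ^ 2 * D.s.real A ≤ ∫ y in A, D.φ x (y - x) (D.J x (y - x)) ∂D.s :=
      setIntegral_ge_of_const_le_real hAm (measure_ne_top _ _) hAl (hint.mono_set hAb)
    have h6 : ∫ y in A, D.φ x (y - x) (D.J x (y - x)) ∂D.s ≤
        ∫ y in ball x (K * r), D.φ x (y - x) (D.J x (y - x)) ∂D.s :=
      setIntegral_mono_set hint (Eventually.of_forall fun y => (D.pos x).nonneg _)
        (LE.le.eventuallyLE hAb)
    rw [hdiff]
    have h7 : c * ε ^ 2 * ((r ^ 2)⁻¹ * D.s.real A) = (r ^ 4)⁻¹ * (c * ε ^ 2 * r ^ 2 * D.s.real A) := by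
      field_simp
    rw [h7]
    exact mul_le_mul_of_nonneg_left (h5.trans h6) (by positivity)
  have h5 : c * ε ^ 2 * (Real.pi * 1 - Real.pi / 4 * 1) ≤ 0 := by
    refine le_of_tendsto_of_tendsto (h3.const_mul (c * ε ^ 2)) (hG.conc K) ?_
    filter_upwards [self_mem_nhdsWithin] with r hr using h4 r hr
  have h6 : 0 < c * ε ^ 2 * (Real.pi * 1 - Real.pi / 4 * 1) := by
    have := Real.pi_pos
    have h7 : Real.pi * 1 - Real.pi / 4 * 1 = 3 / 4 * Real.pi := by ring
    rw [h7]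
    positivity
  linarith

end

end Crest.Agent.R235.RegFWDEG_83
end

-- ▼ part R235/Reg_FWLOW_356
section

/-!
Row 235, PACKAGE REG, (A1.0e) FWLOW (helper356): lower mass bound at the points of the support of a
closed positive current of density one.
-/

set_option autoImplicit false
set_option maxSynthPendingDepth 3

open MeasureTheory Metric Set Filter
open scoped ContDiff Topology Manifold

namespace Crest.Agent.R235.Reg_FWLOW_356

open Crest.Agent.R240 Crest.Agent.R240.En Crest.Agent.R240.Pot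
open Crest.Agent.R235.CurDefs_132 Crest.Agent.R235.CurMon_956 Crest.Agent.R235.Reg_522

noncomputable section

theorem exists_cut : ∃ K : ℝ → ℝ, Cut 1 K := by
  refine ⟨fun t => Real.smoothTransition (2 - t), ?_, ?_, ?_, ?_⟩
  · exact Real.smoothTransition.contDiff.comp (contDiff_const.sub contDiff_id)
  · intro s t hst
    exact Real.smoothTransition.monotone (by linarith)
  · intro t ht
    exact Real.smoothTransition.one_of_one_le (by linarith)
  · intro t ht
    exact Real.smoothTransition.zero_of_nonpos (by linarith)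

/-- the mollified ratio dominates the mass of a small ball -/
theorem nuR_lo (D : LC) {K : ℝ → ℝ} (hK : Cut 1 K) (x : E4) {r : ℝ} (hr : 0 < r) {A : Set E4}
    (hA : ∀ y ∈ A, D.rho2 x y ≤ r ^ 2) : (r ^ 2)⁻¹ * D.s.real A ≤ D.nuR K r x := by
  have := D.fin
  have hG := CurGeo1_679.geo1
  have hcont : Continuous fun y => K (D.rho2 x y / r ^ 2) :=
    hK.smooth.continuous.comp ((sm_rho D hG x).continuous.div_const _)
  have hint : Integrable (fun y => K (D.rho2 x y / r ^ 2)) D.s := by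
    refine Integrable.of_bound hcont.aestronglyMeasurable 1 (Eventually.of_forall fun y => ?_)
    rw [Real.norm_of_nonneg (cut_nonneg hK _)]
    exact cut_le_one hK _
  refine mul_le_mul_of_nonneg_left ?_ (by positivity)
  have h1 : D.s.real A ≤ D.s.real {y | D.rho2 x y ≤ r ^ 2} :=
    measureReal_mono (fun y hy => hA y hy)
  refine h1.trans ?_
  have hm : MeasurableSet {y | D.rho2 x y ≤ r ^ 2} :=
    measurableSet_le (sm_rho D hG x).continuous.measurable measurable_const
  have h2 : ∫ y, ({y | D.rho2 x y ≤ r ^ 2}).indicator (fun _ => (1 : ℝ)) y ∂D.s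
      ≤ ∫ y, K (D.rho2 x y / r ^ 2) ∂D.s := by
    refine integral_mono ((integrable_const (1 : ℝ)).indicator hm) hint fun y => ?_
    by_cases hy : y ∈ {y | D.rho2 x y ≤ r ^ 2}
    · rw [indicator_of_mem hy]
      have : D.rho2 x y / r ^ 2 ≤ 1 := by
        rw [div_le_one (by positivity)]; exact hy
      rw [hK.one _ this]
    · rw [indicator_of_notMem hy]; exact cut_nonneg hK _
  rwa [integral_indicator hm, integral_const, smul_eq_mul, mul_one,
    measureReal_restrict_apply_univ] at h2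

/-- the mollified ratio is dominated by the mass of a ball -/
theorem nuR_hi (D : LC) {K : ℝ → ℝ} (hK : Cut 1 K) (x : E4) {r : ℝ} (hr : 0 < r) :
    D.nuR K r x ≤ (r ^ 2)⁻¹ * D.s.real (ball x (ra D * r)) := by
  have := D.fin
  have hG := CurGeo1_679.geo1
  refine mul_le_mul_of_nonneg_left ?_ (by positivity)
  have h2 : ∫ y, K (D.rho2 x y / r ^ 2) ∂D.s ≤
      ∫ y, (ball x (ra D * r)).indicator (fun _ => (1:ℝ)) y ∂D.s := by
    refine integral_mono_of_nonneg (Eventually.of_forall fun y => cut_nonneg hK _)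
      ((integrable_const (1:ℝ)).indicator measurableSet_ball) (Eventually.of_forall fun y => ?_)
    simp only
    by_cases hy : y ∈ ball x (ra D * r)
    · rw [indicator_of_mem hy]
      exact cut_le_one hK _
    · rw [indicator_of_notMem hy, hK.zero _ ?_]
      rw [mem_ball, dist_eq_norm, not_lt] at hy
      have h3 : 2 * r ^ 2 ≤ D.rho2 x y := by
        by_contra hc
        exact absurd (lt_of_rho2 D hG hr (not_le.1 hc)) (not_lt.2 hy)
      rw [le_div_iff₀ (by positivity)]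
      nlinarith [sq_nonneg r]
  rwa [integral_indicator measurableSet_ball, integral_const, smul_eq_mul, mul_one,
    measureReal_restrict_apply_univ] at h2

/-- at a point of density one, `nuR ≥ (π/2)(m/M)` for small radii -/
theorem nuR_den (D : LC) {K : ℝ → ℝ} (hK : Cut 1 K) (x : E4) (hx : IsDenE (D.G x) D.s x 1) :
    ∀ᶠ r in 𝓝[>] (0 : ℝ), Real.pi / 2 * (D.m / D.M) ≤ D.nuR K r x := by
  have hG := CurGeo1_679.geo1
  have hm := m_pos D
  have hM := M_pos D
  have hmM : 0 < D.m / D.M := div_pos hm hM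
  have h1 : ∀ᶠ ρ in 𝓝[>] (0 : ℝ), (1 : ℝ) / 2 <
      D.s.real {y | D.G x (y - x) (y - x) < ρ ^ 2} / (Real.pi * ρ ^ 2) :=
    hx.eventually (lt_mem_nhds (by norm_num))
  have hs : Tendsto (fun r : ℝ => √(D.m / D.M) * r) (𝓝[>] 0) (𝓝[>] 0) := by
    refine tendsto_nhdsWithin_iff.2 ⟨?_, ?_⟩
    · have : Tendsto (fun r : ℝ => √(D.m / D.M) * r) (𝓝 0) (𝓝 (√(D.m / D.M) * 0)) :=
        tendsto_id.const_mul _
      rw [mul_zero] at this
      exact this.mono_left nhdsWithin_le_nhds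
    · filter_upwards [self_mem_nhdsWithin] with r hr
      exact mul_pos (Real.sqrt_pos.2 hmM) hr
  filter_upwards [hs.eventually h1, self_mem_nhdsWithin] with r hr hr0
  have hr0' : 0 < r := hr0
  have hsq : (√(D.m / D.M) * r) ^ 2 = (D.m / D.M) * r ^ 2 := by
    rw [mul_pow, Real.sq_sqrt hmM.le]
  rw [hsq] at hr
  have hpos : 0 < Real.pi * (D.m / D.M * r ^ 2) :=
    mul_pos Real.pi_pos (mul_pos hmM (by positivity))
  rw [lt_div_iff₀ hpos] at hr
  refine le_trans ?_ (nuR_lo D hK x hr0' (A := {y | D.G x (y - x) (y - x) < D.m / D.M * r ^ 2}) ?_)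
  · rw [inv_mul_eq_div, le_div_iff₀ (by positivity)]
    nlinarith
  · intro y hy
    have hy' : D.G x (y - x) (y - x) < D.m / D.M * r ^ 2 := hy
    have h2 : D.m * ‖y - x‖ ^ 2 ≤ D.G x (y - x) (y - x) := (D.bd x).lo (y - x)
    have h3 := ((hG D).2.1 x y).2
    have h4 : D.m * ‖y - x‖ ^ 2 < D.m / D.M * r ^ 2 := lt_of_le_of_lt h2 hy'
    have h5 : D.M * ‖y - x‖ ^ 2 < r ^ 2 := by
      have e : D.m / D.M * r ^ 2 = D.m * (r ^ 2 / D.M) := by ring
      rw [e] at h4
      have h6 := lt_of_mul_lt_mul_left h4 hm.le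
      rw [lt_div_iff₀ hM] at h6
      linarith
    linarith

theorem fwlow : FWLOW := by
  intro hMON D hden
  have := D.fin
  have hG := CurGeo1_679.geo1
  have hm := m_pos D
  have hM := M_pos D
  obtain ⟨K, hK⟩ := exists_cut
  obtain ⟨C, r1, hC, hr1, hmono, -, -⟩ := hMON D 1 K one_pos le_rfl hK
  set c1 : ℝ := Real.pi / 2 * (D.m / D.M) with hc1
  have hc1p : 0 < c1 := mul_pos (by positivity) (div_pos hm hM)
  have hra := ra_pos D
  -- radius for nuR
  set r2 : ℝ := min r1 (c1 / (2 * C + 1)) with hr2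
  have hr2p : 0 < r2 := lt_min hr1 (div_pos hc1p (by linarith))
  have hCr : C * r2 ≤ c1 / 2 := by
    have h1 : r2 ≤ c1 / (2 * C + 1) := min_le_right _ _
    have h2 : C * r2 ≤ C * (c1 / (2 * C + 1)) := mul_le_mul_of_nonneg_left h1 hC
    refine h2.trans ?_
    rw [mul_div_assoc', div_le_div_iff₀ (by linarith) two_pos]
    nlinarith
  -- good points
  have hgood : ∀ x ∈ ball D.x0 (3 * D.R), IsDenE (D.G x) D.s x 1 → ∀ r, 0 < r → r ≤ r2 →
      c1 / 2 ≤ D.nuR K r x := by
    intro x hx hd r hr hrr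
    obtain ⟨r', h1, h2, h3⟩ : ∃ r', 0 < r' ∧ r' < r ∧ c1 ≤ D.nuR K r' x := by
      have h4 : ∀ᶠ r' in 𝓝[>] (0 : ℝ), r' ∈ Ioo 0 r := Ioo_mem_nhdsGT hr
      obtain ⟨r', h5, h6⟩ := (h4.and (nuR_den D hK x hd)).exists
      exact ⟨r', h5.1, h5.2, h6⟩
    have h4 := hmono x hx r' r h1 h2 (hrr.trans (min_le_left _ _))
    have h5 : C * r ≤ C * r2 := mul_le_mul_of_nonneg_left hrr hC
    linarith
  have hgood2 : ∀ x ∈ ball D.x0 (3 * D.R), IsDenE (D.G x) D.s x 1 → ∀ r, 0 < r →
      r ≤ ra D * r2 → c1 / 2 / ra D ^ 2 * r ^ 2 ≤ D.s.real (ball x r) := by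
    intro x hx hd r hr hrr
    have h1 : 0 < r / ra D := div_pos hr hra
    have h2 : r / ra D ≤ r2 := by rw [div_le_iff₀ hra]; linarith
    have h3 := hgood x hx hd _ h1 h2
    have h4 := nuR_hi D hK x h1
    have e : ra D * (r / ra D) = r := by field_simp
    rw [e] at h4
    have h5 : c1 / 2 ≤ ((r / ra D) ^ 2)⁻¹ * D.s.real (ball x r) := h3.trans h4
    rw [inv_mul_eq_div, le_div_iff₀ (by positivity)] at h5
    calc c1 / 2 / ra D ^ 2 * r ^ 2 = c1 / 2 * (r / ra D) ^ 2 := by rw [div_pow]; ring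
      _ ≤ _ := h5
  refine ⟨c1 / 2 / ra D ^ 2 / 4, by positivity, ra D * r2, by positivity, ?_⟩
  intro x hx hsupp r hr hrr
  -- a good point near x
  obtain ⟨ε, hε, hεb⟩ : ∃ ε > 0, ball x ε ⊆ ball D.x0 (3 * D.R) :=
    Metric.isOpen_iff.1 isOpen_ball x hx
  have hε2 : 0 < min ε (r / 2) := lt_min hε (half_pos hr)
  have hpos := hsupp _ hε2
  obtain ⟨x', hx'1, hx'2⟩ : ∃ x' ∈ ball x (min ε (r / 2)),
      (x' ∈ ball D.x0 (3 * D.R) → IsDenE (D.G x') D.s x' 1) := by
    by_contra hcon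
    push Not at hcon
    have h1 : ball x (min ε (r / 2)) ⊆
        {x' | ¬ (x' ∈ ball D.x0 (3 * D.R) → IsDenE (D.G x') D.s x' 1)} := by
      intro y hy
      obtain ⟨h2, h3⟩ := hcon y hy
      exact fun h4 => h3 (h4 h2)
    have h2 := measure_mono (μ := D.s) h1
    have h3 : D.s {x' | ¬ (x' ∈ ball D.x0 (3 * D.R) → IsDenE (D.G x') D.s x' 1)} = 0 := hden
    rw [h3] at h2
    exact absurd hpos (not_lt.2 h2)
  have hx'b : x' ∈ ball D.x0 (3 * D.R) :=
    hεb (ball_subset_ball (min_le_left _ _) hx'1)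
  have h1 := hgood2 x' hx'b (hx'2 hx'b) (r / 2) (half_pos hr) (by linarith)
  have h2 : ball x' (r / 2) ⊆ ball x r := by
    refine ball_subset_ball' ?_
    have h3 : dist x' x < r / 2 := lt_of_lt_of_le hx'1 (min_le_right _ _)
    linarith
  have h3 : D.s.real (ball x' (r / 2)) ≤ D.s.real (ball x r) := measureReal_mono h2
  calc c1 / 2 / ra D ^ 2 / 4 * r ^ 2 = c1 / 2 / ra D ^ 2 * (r / 2) ^ 2 := by ring
    _ ≤ _ := h1.trans h3

end

end Crest.Agent.R235.Reg_FWLOW_356
end

-- ▼ part R235/Reg_FWALG_347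
section

/-!
Row 235 (S0364), PACKAGE REG, A1.0a (task 397, helper347): degenerate positive `(1,1)`-forms.
-/

set_option autoImplicit false
set_option maxSynthPendingDepth 3

open MeasureTheory Metric Set Filter

namespace Crest.Agent.R235.RegFWALG_347

open Crest.Agent.R240
open Crest.Agent.R235.Reg_522

noncomputable section

/-- a unitary frame whose first vector is a given vector of length one. -/
theorem exists_frame_at {J : E4 →L[ℝ] E4} (hJ : ∀ v, J (J v) = -v) {F : Bil} (hF : SPos J F)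
    {a : E4} (ha : F a (J a) = 1) :
    ∃ A : E4 ≃L[ℝ] E4, IsFrame J F A ∧ ∀ v, A v = v 0 • a + v 1 • J a + v 2 • A (ee 2) +
      v 3 • J (A (ee 2)) := by
  obtain ⟨c, hc, hc1, hc2⟩ : ∃ c : E4, F c (J c) = 1 ∧ F a (J c) = 0 ∧ F a c = 0 := by
    let L : E4 →ₗ[ℝ] (Fin 2 → ℝ) := LinearMap.pi ![((F a).comp J).toLinearMap, (F a).toLinearMap]
    have hk : LinearMap.ker L ≠ ⊥ := by
      apply LinearMap.ker_ne_bot_of_finrank_lt
      simp
    obtain ⟨c, hc, hc0⟩ := Submodule.exists_mem_ne_zero_of_ne_bot hk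
    have h1 : F a (J c) = 0 := by
      have := congrFun (LinearMap.mem_ker.1 hc) 0
      simpa [L] using this
    have h2 : F a c = 0 := by
      have := congrFun (LinearMap.mem_ker.1 hc) 1
      simpa [L] using this
    have hp := hF.pos _ hc0
    refine ⟨(Real.sqrt (F c (J c)))⁻¹ • c, ?_, ?_, ?_⟩
    · rw [map_smul, map_smul, map_smul, smul_apply, smul_eq_mul, smul_eq_mul, ← mul_assoc,
        ← mul_inv, Real.mul_self_sqrt hp.le]
      exact inv_mul_cancel₀ hp.ne'
    · rw [map_smul, map_smul, h1, smul_zero]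
    · rw [map_smul, h2, smul_zero]
  have hJac : F (J a) (J c) = 0 := by rw [hF.inv, hc2]
  have hJa_c : F (J a) c = 0 := by
    have := hF.inv (J a) c
    rw [hJ] at this
    rw [← this, map_neg, neg_apply, hc1, neg_zero]
  have hca : F c a = 0 := by rw [hF.alt.swap, hc2, neg_zero]
  have hJca : F (J c) a = 0 := by rw [hF.alt.swap, hc1, neg_zero]
  have hJcJa : F (J c) (J a) = 0 := by rw [hF.alt.swap, hJac, neg_zero]
  have hcJa : F c (J a) = 0 := by rw [hF.alt.swap, hJa_c, neg_zero]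
  have hJaa : F (J a) a = -1 := by rw [hF.alt.swap, ha]
  have hJcc : F (J c) c = -1 := by rw [hF.alt.swap, hc]
  let A0 : E4 →ₗ[ℝ] E4 :=
    { toFun := fun v => v 0 • a + v 1 • J a + v 2 • c + v 3 • J c
      map_add' := by
        intro u v
        simp only [PiLp.add_apply, add_smul]
        abel
      map_smul' := by
        intro r v
        simp only [PiLp.smul_apply, smul_eq_mul, mul_smul, smul_add, RingHom.id_apply] }
  have hA0 : ∀ v, A0 v = v 0 • a + v 1 • J a + v 2 • c + v 3 • J c := fun v => rfl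
  have hform : ∀ u v, F (A0 u) (A0 v) = om0 u v := by
    intro u v
    rw [hA0, hA0, om0_apply]
    simp only [map_add, map_smul, add_apply, smul_apply, smul_eq_mul, ha, hc, hc1, hc2, hJac,
      hJa_c, hca, hJca, hJcJa, hcJa, hJaa, hJcc, hF.alt a, hF.alt c, hF.alt (J a), hF.alt (J c)]
    ring
  have hcplx : ∀ v, J (A0 v) = A0 (J0 v) := by
    intro v
    rw [hA0, hA0]
    simp only [map_add, map_smul, hJ, J0_0, J0_1, J0_2, J0_3, smul_neg, neg_smul]
    abel
  have hinj : Function.Injective A0 := by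
    rw [← LinearMap.ker_eq_bot, LinearMap.ker_eq_bot']
    intro v hv
    have h1 : om0 v (J0 v) = 0 := by
      rw [← hform, hv, map_zero, zero_apply]
    rw [om0_J0] at h1
    have : ‖v‖ = 0 := by
      rcases pow_eq_zero_iff (n := 2) (by norm_num) |>.1 h1 with h
      exact h
    exact norm_eq_zero.1 this
  refine ⟨(LinearEquiv.ofInjectiveEndo A0 hinj).toContinuousLinearEquiv, ⟨?_, ?_⟩, ?_⟩
  · intro u v; exact hform u v
  · intro v; exact hcplx v
  · intro v
    have h2 : (LinearEquiv.ofInjectiveEndo A0 hinj).toContinuousLinearEquiv (ee 2) = c := by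
      change A0 (ee 2) = c
      rw [hA0]
      simp
    rw [h2]
    exact hA0 v

/-- the values of a degenerate normalised positive form. -/
theorem degenerate {J : E4 →L[ℝ] E4} {F : Bil} {m M : ℝ} (h : Bd J F m M) {φ : Bil}
    (hφ : Pos J φ) (hn : q F φ F = 1) {a : E4} (ha : F a (J a) = 1) (h0 : φ a (J a) = 0) :
    (∀ b : Bil, Alt b → q F φ b = b a (J a)) ∧
      ∀ v, φ v (J v) = 0 ↔ ∃ s t : ℝ, v = s • a + t • J a := by
  obtain ⟨A, hA, hAv⟩ := exists_frame_at h.sq h.spos ha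
  have hAlt := h.spos.alt
  -- the form vanishes on `a` and `J a`
  have ka : ∀ u, φ a u = 0 := by
    intro u
    have h1 := hφ.cs h.sq a u
    rw [h0, zero_mul] at h1
    nlinarith [sq_nonneg (φ a u)]
  have kJa : ∀ u, φ (J a) u = 0 := by
    intro u
    have h1 := hφ.inv (J a) u
    rw [h.sq a, map_neg, neg_apply, ka, neg_zero] at h1
    exact h1.symm
  have e0 : A (ee 0) = a := by
    rw [hAv]
    simp
  have e1 : A (ee 1) = J a := by
    rw [hAv]
    simp
  have hp : ∀ (b : Bil) (i j : Fin 4), ent (pull (A : E4 →L[ℝ] E4) b) i j =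
      b (A (ee i)) (A (ee j)) := by
    intro b i j
    unfold ent
    rw [pull_apply]
    rfl
  have hW : ∀ b : Bil, W (pull (A : E4 →L[ℝ] E4) φ) (pull (A : E4 →L[ℝ] E4) b) =
      ent (pull (A : E4 →L[ℝ] E4) φ) 2 3 * b a (J a) := by
    intro b
    unfold W
    rw [hp φ 0 1, hp φ 0 2, hp φ 0 3, hp φ 1 2, hp φ 1 3, hp b 0 1, e0, e1, ka, ka, ka, kJa, kJa]
    ring
  have h23 : ent (pull (A : E4 →L[ℝ] E4) φ) 2 3 = 2 := by
    have h1 := hA.q_eq hAlt hφ.alt hAlt
    rw [hn, hW, ha] at h1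
    linarith
  refine ⟨fun b hb => ?_, fun v => ⟨fun hv => ?_, ?_⟩⟩
  · rw [hA.q_eq hAlt hφ.alt hb, hW, h23]
    ring
  · set y := A.symm v with hy
    have hvy : v = A y := by rw [hy]; simp
    have hJc : A (ee 3) = J (A (ee 2)) := by
      rw [hAv (ee 3)]
      simp
    have h1 : φ v (J v) = 2 * (y 2 ^ 2 + y 3 ^ 2) := by
      have h2 : φ (A (ee 2)) (J (A (ee 2))) = 2 := by
        rw [← h23, hp, hJc]
      have h3 : φ v (J v) = pull (A : E4 →L[ℝ] E4) φ y (J0 y) := by
        rw [pull_apply]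
        change φ v (J v) = φ (A y) (A (J0 y))
        rw [← hA.cplx, ← hvy]
      rw [h3, alt_expand (hφ.alt.pull _), h23, hp, hp, hp, hp, hp, e0, e1, ka, ka, ka, kJa, kJa]
      simp
      ring
    rw [hv] at h1
    have h2 : y 2 = 0 := by nlinarith [sq_nonneg (y 2), sq_nonneg (y 3)]
    have h3 : y 3 = 0 := by nlinarith [sq_nonneg (y 2), sq_nonneg (y 3)]
    refine ⟨y 0, y 1, ?_⟩
    rw [hvy, hAv y, h2, h3]
    simp
  · rintro ⟨s, t, rfl⟩
    have h1 : φ (s • a + t • J a) = 0 := by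
      ext u
      rw [map_add, map_smul, map_smul, add_apply, smul_apply, smul_apply, ka, kJa]
      simp
    rw [h1, zero_apply]

theorem fwalg : FWALG := by
  intro J F m M h φ hφ hn ⟨v, hv0, hv⟩
  have hFv : 0 < F v (J v) := h.spos.pos v hv0
  have hnv : 0 < ‖v‖ := norm_pos_iff.mpr hv0
  have sq2 : ∀ (b : Bil) (c : ℝ) (w : E4), b (c • w) (J (c • w)) = c ^ 2 * b w (J w) := by
    intro b c w
    rw [map_smul, map_smul, map_smul, smul_apply, smul_eq_mul, smul_eq_mul]
    ring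
  set c : ℝ := (Real.sqrt (F v (J v)))⁻¹ with hc
  have hsq : 0 < Real.sqrt (F v (J v)) := Real.sqrt_pos.mpr hFv
  have hc0 : 0 < c := inv_pos.mpr hsq
  have hc2 : c ^ 2 * F v (J v) = 1 := by
    rw [hc, inv_pow, Real.sq_sqrt hFv.le]
    exact inv_mul_cancel₀ hFv.ne'
  have ha : F (c • v) (J (c • v)) = 1 := by rw [sq2, hc2]
  have h0 : φ (c • v) (J (c • v)) = 0 := by rw [sq2, hv, mul_zero]
  obtain ⟨hb, hk⟩ := degenerate h hφ hn ha h0
  refine ⟨‖v‖⁻¹ • v, ?_, ?_, fun b hbalt => ?_, fun w => ?_⟩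
  · rw [norm_smul, norm_inv, norm_norm]
    exact inv_mul_cancel₀ hnv.ne'
  · rw [sq2]
    positivity
  · rw [hb b hbalt, sq2, sq2, sq2]
    have : c ^ 2 * b v (J v) * ((‖v‖⁻¹) ^ 2 * F v (J v)) =
        (‖v‖⁻¹) ^ 2 * b v (J v) * (c ^ 2 * F v (J v)) := by ring
    rw [this, hc2, mul_one]
  · rw [hk w]
    constructor
    · rintro ⟨s, t, rfl⟩
      refine ⟨s * c * ‖v‖, t * c * ‖v‖, ?_⟩
      rw [map_smul, map_smul, smul_smul, smul_smul, smul_smul, smul_smul,
        mul_assoc (s * c), mul_inv_cancel₀ hnv.ne', mul_one, mul_assoc (t * c),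
        mul_inv_cancel₀ hnv.ne', mul_one]
    · rintro ⟨s, t, rfl⟩
      refine ⟨s * ‖v‖⁻¹ * c⁻¹, t * ‖v‖⁻¹ * c⁻¹, ?_⟩
      rw [map_smul, map_smul, smul_smul, smul_smul, smul_smul, smul_smul,
        mul_assoc (s * ‖v‖⁻¹), inv_mul_cancel₀ hc0.ne', mul_one, mul_assoc (t * ‖v‖⁻¹),
        inv_mul_cancel₀ hc0.ne', mul_one]

end

end Crest.Agent.R235.RegFWALG_347
end

-- ▼ part R235/FlatTrans_82
section

/-!
Row 235 (S0364), block FLATW, FLAT-5 (helper82): at a Lebesgue point the derivatives along the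
kernel of `φ_x` tend to zero.
-/

set_option autoImplicit false
set_option maxSynthPendingDepth 3

open Set Function Filter MeasureTheory Metric Complex
open scoped ContDiff ENNReal Manifold Topology

namespace Crest.Agent.R235.FlatTrans_82

open Crest.Agent.R240 Crest.Agent.R240.En Crest.Agent.R240.Pot
open Crest.Agent.R235.CurDefs_132 Crest.Agent.R235.Flat

noncomputable section

theorem norm_phi (D : LC) (y : E4) : ‖D.φ y‖ ≤ 2 * D.M := by
  have h := (D.bd y).norm_le_q (D.pos y)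
  rw [D.nrm y, mul_one] at h
  exact h

theorem norm_pr (i : Fin 4) : ‖pr i‖ ≤ 1 :=
  ContinuousLinearMap.opNorm_le_bound _ zero_le_one fun v => by
    rw [pr_apply, one_mul]; exact PiLp.norm_apply_le v i

theorem norm_wed_pr (i j : Fin 4) : ‖wed (pr i) (pr j)‖ ≤ 2 := by
  refine (norm_wed_le _ _).trans ?_
  have h1 := norm_pr i
  have h2 := norm_pr j
  calc 2 * ‖pr i‖ * ‖pr j‖ ≤ 2 * 1 * 1 := by gcongr
    _ = 2 := by norm_num

/-- lower bound of `|W F F|`. -/
theorem W_inv_le {J : E4 →L[ℝ] E4} {F : Bil} {m M : ℝ} (h : Bd J F m M) :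
    |(W F F)⁻¹| ≤ 12 / m ^ 2 := by
  have h1 := h.abs_q_le (wed_alt (pr 0) (pr 1)) (wed_alt (pr 2) (pr 3))
  have e : q F (wed (pr 0) (pr 1)) (wed (pr 2) (pr 3)) = (W F F)⁻¹ := by
    have : W (wed (pr 0) (pr 1)) (wed (pr 2) (pr 3)) = 1 := by
      unfold W ent; simp
    unfold q
    rw [this, one_div]
  rw [e] at h1
  have h2 := norm_wed_pr 0 1
  have h3 := norm_wed_pr 2 3
  have hm := h.m_pos
  calc |(W F F)⁻¹| ≤ 3 / m ^ 2 * (‖wed (pr 0) (pr 1)‖ * ‖wed (pr 2) (pr 3)‖) := h1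
    _ ≤ 3 / m ^ 2 * (2 * 2) := by gcongr
    _ = 12 / m ^ 2 := by ring

theorem F_lip (D : LC) (x y : E4) : ‖D.F y - D.F x‖ ≤ D.L * ‖y - x‖ :=
  Convex.norm_image_sub_le_of_norm_fderiv_le (s := univ)
    (fun z _ => (D.smF.differentiable (by simp)).differentiableAt) (fun z _ => D.bF1 z)
    convex_univ (mem_univ _) (mem_univ _)

theorem q_diff (D : LC) : ∃ C : ℝ, 0 ≤ C ∧ ∀ (x y : E4) (b : Bil),
    |q (D.F y) (D.φ y) b - q (D.F x) (D.φ x) b| ≤ C * ‖b‖ * (‖D.φ y - D.φ x‖ + ‖y - x‖) := by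
  have hm := (D.bd 0).m_pos
  have hM := (D.bd 0).M_pos
  have hL : 0 ≤ D.L := by have := D.L_ge; linarith
  set K : ℝ := 12 / D.m ^ 2 with hK
  have hK0 : 0 ≤ K := by positivity
  refine ⟨6 * K + 144 * D.M * K ^ 2 * D.L ^ 2, by positivity, fun x y b => ?_⟩
  have ha := W_inv_le (D.bd y)
  have ha' := W_inv_le (D.bd x)
  have hy := (D.bd y).W_ne
  have hx := (D.bd x).W_ne
  have e1 : (W (D.F y) (D.F y))⁻¹ - (W (D.F x) (D.F x))⁻¹ =
      (W (D.F y) (D.F y))⁻¹ * (W (D.F x) (D.F x))⁻¹ *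
        (W (D.F x - D.F y) (D.F x) + W (D.F y) (D.F x - D.F y)) := by
    rw [W_sub_left, W_sub_right, W_comm (D.F y) (D.F x)]
    field_simp
    ring
  have e2 : q (D.F y) (D.φ y) b - q (D.F x) (D.φ x) b =
      W (D.φ y - D.φ x) b * (W (D.F y) (D.F y))⁻¹ +
        W (D.φ x) b * ((W (D.F y) (D.F y))⁻¹ - (W (D.F x) (D.F x))⁻¹) := by
    unfold q
    rw [W_sub_left]
    ring
  have h1 := Loc5.abs_W_le (D.φ y - D.φ x) b
  have h2 := Loc5.abs_W_le (D.φ x) b
  have h3 := Loc5.abs_W_le (D.F x - D.F y) (D.F x)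
  have h4 := Loc5.abs_W_le (D.F y) (D.F x - D.F y)
  have h5 := F_lip D y x
  rw [norm_sub_rev x y] at h5
  have h6 := D.bF x
  have h7 := D.bF y
  have h8 := norm_phi D x
  have e3 : |W (D.F x - D.F y) (D.F x) + W (D.F y) (D.F x - D.F y)| ≤
      12 * D.L ^ 2 * ‖y - x‖ := by
    refine (abs_add_le _ _).trans ?_
    have k1 : 6 * (‖D.F x - D.F y‖ * ‖D.F x‖) ≤ 6 * ((D.L * ‖y - x‖) * D.L) := by gcongr
    have k2 : 6 * (‖D.F y‖ * ‖D.F x - D.F y‖) ≤ 6 * (D.L * (D.L * ‖y - x‖)) := by gcongr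
    nlinarith
  have e4 : |(W (D.F y) (D.F y))⁻¹ - (W (D.F x) (D.F x))⁻¹| ≤ K * K * (12 * D.L ^ 2 * ‖y - x‖) := by
    rw [e1, abs_mul, abs_mul]
    gcongr
  rw [e2]
  refine (abs_add_le _ _).trans ?_
  rw [abs_mul, abs_mul]
  have k1 : |W (D.φ y - D.φ x) b| * |(W (D.F y) (D.F y))⁻¹| ≤
      (6 * (‖D.φ y - D.φ x‖ * ‖b‖)) * K := by gcongr
  have k2 : |W (D.φ x) b| * |(W (D.F y) (D.F y))⁻¹ - (W (D.F x) (D.F x))⁻¹| ≤
      (6 * (2 * D.M * ‖b‖)) * (K * K * (12 * D.L ^ 2 * ‖y - x‖)) := by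
    refine mul_le_mul (h2.trans ?_) e4 (abs_nonneg _) (by positivity)
    gcongr
  have n1 : 0 ≤ K * ‖b‖ * ‖y - x‖ := by positivity
  have n2 : 0 ≤ D.M * K ^ 2 * D.L ^ 2 * ‖b‖ * ‖D.φ y - D.φ x‖ := by positivity
  nlinarith

/-! ### the test form -/

theorem d1_scaled {f : E4 → ℝ} (hf : ContDiff ℝ ∞ f) (α : Cov) (x : E4) (r : ℝ) (y : E4) :
    d1 (fun y => f (r⁻¹ • (y - x)) • α) y = r⁻¹ • wed (fderiv ℝ f (r⁻¹ • (y - x))) α := by
  have hg : HasFDerivAt (fun y : E4 => r⁻¹ • (y - x)) (r⁻¹ • ContinuousLinearMap.id ℝ E4) y :=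
    ((hasFDerivAt_id y).sub_const x).const_smul r⁻¹
  have hf' : HasFDerivAt f (fderiv ℝ f (r⁻¹ • (y - x))) (r⁻¹ • (y - x)) :=
    ((hf.differentiable (by simp)) _).hasFDerivAt
  have hS := (hf'.comp y hg).smul_const α
  have e : fderiv ℝ (fun y => f (r⁻¹ • (y - x)) • α) y = _ := hS.fderiv
  ext u v
  rw [d1_apply, e]
  simp only [ContinuousLinearMap.smulRight_apply, ContinuousLinearMap.comp_apply,
    _root_.smul_apply, ContinuousLinearMap.id_apply, map_smul, smul_eq_mul, wed_apply]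
  ring

theorem trans (hL : LINK) (_h4 : LIN4) : TRANS := by
  intro D x hx hLeb X hX f hf hc ζ
  have := D.fin
  obtain ⟨h1, P, -, -, hP, -, -⟩ := hL (D.J x) (D.F x) D.m D.M (D.bd x) (D.φ x) (D.pos x)
    (D.nrm x) X hX
  -- the covector
  set α : Cov := ζ.re • (Complex.imCLM.comp P) - ζ.im • (Complex.reCLM.comp P) with hα
  have hPX : P X = 1 := by
    have := hP 1
    simpa [pt] using this
  have hPJ : P (D.J x X) = Complex.I := by
    have := hP Complex.I
    simpa [pt] using this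
  have hαX : α X = - ζ.im := by simp [hα, hPX]
  have hαJ : α (D.J x X) = ζ.re := by simp [hα, hPJ]
  have hFpos : 0 < D.F x X (D.J x X) := by
    have := (D.bd x).lo X
    rw [hX.one] at this
    have hm := (D.bd x).m_pos
    linarith
  have key : ∀ ξ : Cov, ξ (pt (D.J x) X ζ) = D.F x X (D.J x X) * q (D.F x) (D.φ x) (wed ξ α) := by
    intro ξ
    rw [h1 _ (wed_alt ξ α), wed_apply, hαX, hαJ, mul_div_cancel₀ _ hFpos.ne']
    simp only [pt, map_add, map_smul, smul_eq_mul]
    ring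
  -- support and bound
  obtain ⟨A, hA, hsupp⟩ : ∃ A : ℝ, 0 < A ∧ tsupport f ⊆ closedBall 0 A := by
    obtain ⟨A, hA⟩ := (hc.isCompact.isBounded).subset_closedBall (0 : E4)
    exact ⟨max A 1, by positivity, hA.trans (closedBall_subset_closedBall (le_max_left _ _))⟩
  have hf1 : Continuous (fderiv ℝ f) := hf.continuous_fderiv (by simp)
  obtain ⟨B, hB0, hB⟩ : ∃ B : ℝ, 0 ≤ B ∧ ∀ z, ‖fderiv ℝ f z‖ ≤ B := by
    obtain ⟨B, hB⟩ := hf1.bounded_above_of_compact_support (hc.fderiv (𝕜 := ℝ))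
    exact ⟨B, (norm_nonneg _).trans (hB 0), hB⟩
  obtain ⟨C, hC0, hC⟩ := q_diff D
  set b : ℝ → E4 → Bil := fun r y => wed (fderiv ℝ f (r⁻¹ • (y - x))) α with hb
  have hb_le : ∀ r y, ‖b r y‖ ≤ 2 * B * ‖α‖ := by
    intro r y
    refine (norm_wed_le _ _).trans ?_
    have := hB (r⁻¹ • (y - x))
    gcongr
  have hb_zero : ∀ r, 0 < r → ∀ y, y ∉ closedBall x (A * r) → b r y = 0 := by
    intro r hr y hy
    have h0 : fderiv ℝ f (r⁻¹ • (y - x)) = 0 := by
      by_contra hne
      have h2 : r⁻¹ • (y - x) ∈ tsupport f := by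
        have h3 : r⁻¹ • (y - x) ∈ tsupport (fderiv ℝ f) := subset_tsupport _ hne
        exact tsupport_fderiv_subset ℝ h3
      have h4 := hsupp h2
      rw [mem_closedBall_zero_iff, norm_smul, norm_inv, Real.norm_of_nonneg hr.le,
        inv_mul_le_iff₀ hr] at h4
      exact hy (by rw [mem_closedBall, dist_eq_norm]; linarith)
    simp only [hb, h0]
    ext u v
    simp
  have hwcont : ∀ r, Continuous (b r) := by
    intro r
    have h2 : Continuous fun y : E4 => fderiv ℝ f (r⁻¹ • (y - x)) :=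
      hf1.comp (by fun_prop)
    simp only [hb]
    unfold wed
    exact ((ContinuousLinearMap.smulRightL ℝ E4 Cov).continuous₂.comp
      (h2.prodMk continuous_const)).sub
        ((ContinuousLinearMap.smulRightL ℝ E4 Cov).continuous₂.comp (continuous_const.prodMk h2))
  have hmq : ∀ r, Measurable fun y => q (D.F y) (D.φ y) (b r y) := by
    intro r
    unfold q
    exact (Loc5.measurable_W D.meas (hwcont r).measurable).div
      (Loc5.measurable_W D.smF.continuous.measurable D.smF.continuous.measurable)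
  have hmq' : ∀ r, Measurable fun y => q (D.F x) (D.φ x) (b r y) := by
    intro r
    unfold q
    exact (Loc5.measurable_W measurable_const (hwcont r).measurable).div_const _
  have hm := (D.bd 0).m_pos
  have hM := (D.bd 0).M_pos
  have hqb : ∀ r y z, ‖q (D.F z) (D.φ z) (b r y)‖ ≤ 3 / D.m ^ 2 * (2 * D.M * (2 * B * ‖α‖)) := by
    intro r y z
    rw [Real.norm_eq_abs]
    refine ((D.bd z).abs_q_le (D.pos z).alt (wed_alt _ _)).trans ?_
    have h2 := norm_phi D z
    have h3 := hb_le r y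
    gcongr
  have hi1 : ∀ r, Integrable (fun y => q (D.F y) (D.φ y) (b r y)) D.s := fun r =>
    Integrable.of_bound (hmq r).aestronglyMeasurable _ (ae_of_all _ fun y => hqb r y y)
  have hi2 : ∀ r, Integrable (fun y => q (D.F x) (D.φ x) (b r y)) D.s := fun r =>
    Integrable.of_bound (hmq' r).aestronglyMeasurable _ (ae_of_all _ fun y => hqb r y x)
  have hiφ : Integrable (fun y => ‖D.φ y - D.φ x‖) D.s := by
    refine Integrable.of_bound (D.meas.sub_const _).norm.aestronglyMeasurable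
      (2 * D.M + 2 * D.M) (ae_of_all _ fun y => ?_)
    rw [norm_norm]
    exact (norm_sub_le _ _).trans (add_le_add (norm_phi D y) (norm_phi D x))
  -- closedness
  have hx4 : dist x D.x0 < 2 * D.R := hx
  have hRpos := D.R_pos
  have hzero : ∀ r, 0 < r → A * r < 2 * D.R → ∫ y, q (D.F y) (D.φ y) (b r y) ∂D.s = 0 := by
    intro r hr hrA
    have hsub : tsupport (fun y => f (r⁻¹ • (y - x)) • α) ⊆ closedBall x (A * r) := by
      refine closure_minimal ?_ isClosed_closedBall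
      intro y hy
      have h2 : f (r⁻¹ • (y - x)) ≠ 0 := by
        intro h0
        exact hy (by simp [h0])
      have h4 := hsupp (subset_tsupport _ h2)
      rw [mem_closedBall_zero_iff, norm_smul, norm_inv, Real.norm_of_nonneg hr.le,
        inv_mul_le_iff₀ hr] at h4
      rw [mem_closedBall, dist_eq_norm]; linarith
    have hS : ContDiff ℝ ∞ (fun y : E4 => f (r⁻¹ • (y - x)) • α) := by
      have hg : ContDiff ℝ ∞ (fun y : E4 => r⁻¹ • (y - x)) := by fun_prop
      have hfg : ContDiff ℝ ∞ (fun y : E4 => f (r⁻¹ • (y - x))) := hf.comp hg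
      exact hfg.smul contDiff_const
    have h2 := D.closed _ hS
      (HasCompactSupport.of_support_subset_isCompact (isCompact_closedBall x (A * r))
        ((subset_tsupport _).trans hsub))
      (hsub.trans fun y hy => by
        rw [mem_closedBall] at hy
        rw [mem_ball]
        have := dist_triangle y x D.x0
        linarith)
    have h3 : (fun y => q (D.F y) (D.φ y) (d1 (fun y => f (r⁻¹ • (y - x)) • α) y)) =
        fun y => r⁻¹ * q (D.F y) (D.φ y) (b r y) := by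
      funext y
      rw [d1_scaled hf, q_smul_right]
    rw [h3, integral_const_mul] at h2
    exact (mul_eq_zero.1 h2).resolve_left (inv_ne_zero hr.ne')
  -- the estimate
  set E : ℝ := C * (2 * B * ‖α‖) with hE
  have hE0 : 0 ≤ E := by positivity
  have hest : ∀ r, 0 < r → A * r < 2 * D.R → |∫ y, q (D.F x) (D.φ x) (b r y) ∂D.s| ≤
      E * (∫ y in closedBall x (A * r), ‖D.φ y - D.φ x‖ ∂D.s) +
        E * (A * r) * (D.C * (2 * (A * r)) ^ 2) := by
    intro r hr hrA
    have hAr : 0 < A * r := mul_pos hA hr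
    have h2 : ∫ y, q (D.F x) (D.φ x) (b r y) ∂D.s =
        ∫ y, (q (D.F x) (D.φ x) (b r y) - q (D.F y) (D.φ y) (b r y)) ∂D.s := by
      rw [integral_sub (hi2 r) (hi1 r), hzero r hr hrA, sub_zero]
    have h3 : ∫ y, (q (D.F x) (D.φ x) (b r y) - q (D.F y) (D.φ y) (b r y)) ∂D.s =
        ∫ y in closedBall x (A * r),
          (q (D.F x) (D.φ x) (b r y) - q (D.F y) (D.φ y) (b r y)) ∂D.s := by
      symm
      apply setIntegral_eq_integral_of_forall_compl_eq_zero
      intro y hy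
      rw [hb_zero r hr y hy]
      simp [q, W, ent_zero]
    rw [h2, h3, ← Real.norm_eq_abs]
    refine (norm_integral_le_integral_norm _).trans ?_
    have h4 : ∀ y ∈ closedBall x (A * r),
        ‖q (D.F x) (D.φ x) (b r y) - q (D.F y) (D.φ y) (b r y)‖ ≤
          E * ‖D.φ y - D.φ x‖ + E * (A * r) := by
      intro y hy
      rw [Real.norm_eq_abs, abs_sub_comm]
      refine (hC x y (b r y)).trans ?_
      have h5 := hb_le r y
      have h6 : ‖y - x‖ ≤ A * r := by rwa [mem_closedBall, dist_eq_norm] at hy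
      calc C * ‖b r y‖ * (‖D.φ y - D.φ x‖ + ‖y - x‖) ≤
          C * (2 * B * ‖α‖) * (‖D.φ y - D.φ x‖ + A * r) := by gcongr
        _ = _ := by rw [← hE]; ring
    have h5 : ∫ y in closedBall x (A * r),
        ‖q (D.F x) (D.φ x) (b r y) - q (D.F y) (D.φ y) (b r y)‖ ∂D.s ≤
        ∫ y in closedBall x (A * r), (E * ‖D.φ y - D.φ x‖ + E * (A * r)) ∂D.s := by
      refine setIntegral_mono_on ((hi2 r).sub (hi1 r)).norm.integrableOn
        (((hiφ.const_mul E).add (integrable_const _)).integrableOn) measurableSet_closedBall h4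
    refine h5.trans ?_
    rw [integral_add (hiφ.const_mul E).integrableOn (integrable_const _), integral_const_mul,
      setIntegral_const, smul_eq_mul]
    have h6 : D.s.real (closedBall x (A * r)) ≤ D.C * (2 * (A * r)) ^ 2 := by
      refine le_trans (measureReal_mono (closedBall_subset_ball (by linarith))) (D.gr x _ ?_)
      positivity
    have h7 : 0 ≤ E * (A * r) := by positivity
    nlinarith
  -- the limit
  have hlim : Tendsto (fun r : ℝ => (r ^ 2)⁻¹ * ∫ y, q (D.F x) (D.φ x) (b r y) ∂D.s)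
      (𝓝[>] 0) (𝓝 0) := by
    have hAr : Tendsto (fun r : ℝ => A * r) (𝓝[>] 0) (𝓝[>] 0) := by
      refine tendsto_nhdsWithin_iff.2 ⟨?_, ?_⟩
      · have : Tendsto (fun r : ℝ => A * r) (𝓝 0) (𝓝 (A * 0)) :=
          (continuous_const.mul continuous_id).tendsto 0
        rw [mul_zero] at this
        exact this.mono_left nhdsWithin_le_nhds
      · filter_upwards [self_mem_nhdsWithin] with r hr
        exact mul_pos hA hr
    have hL1 := (hLeb.comp hAr).const_mul (E * A ^ 2)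
    have hL2 : Tendsto (fun r : ℝ => E * A * (D.C * (2 * A) ^ 2) * r) (𝓝[>] 0) (𝓝 0) := by
      have : Tendsto (fun r : ℝ => E * A * (D.C * (2 * A) ^ 2) * r) (𝓝 0)
          (𝓝 (E * A * (D.C * (2 * A) ^ 2) * 0)) := (continuous_const.mul continuous_id).tendsto 0
      rw [mul_zero] at this
      exact this.mono_left nhdsWithin_le_nhds
    have hL3 := hL1.add hL2
    rw [mul_zero, add_zero] at hL3
    refine squeeze_zero_norm' ?_ hL3
    have hsmall : ∀ᶠ r : ℝ in 𝓝[>] 0, A * r < 2 * D.R := by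
      have : Tendsto (fun r : ℝ => A * r) (𝓝[>] 0) (𝓝 0) := hAr.mono_right nhdsWithin_le_nhds
      exact this.eventually (gt_mem_nhds (by positivity))
    filter_upwards [self_mem_nhdsWithin, hsmall] with r hr hrA
    have hr' : (0 : ℝ) < r := hr
    rw [norm_mul, Real.norm_of_nonneg (by positivity : (0 : ℝ) ≤ (r ^ 2)⁻¹), Real.norm_eq_abs]
    have h2 := hest r hr' hrA
    calc (r ^ 2)⁻¹ * |∫ y, q (D.F x) (D.φ x) (b r y) ∂D.s| ≤
        (r ^ 2)⁻¹ * (E * (∫ y in closedBall x (A * r), ‖D.φ y - D.φ x‖ ∂D.s) +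
        E * (A * r) * (D.C * (2 * (A * r)) ^ 2)) := by gcongr
      _ = _ := by
        simp only [comp_apply]
        field_simp
  have hfin := hlim.const_mul (D.F x X (D.J x X))
  rw [mul_zero] at hfin
  refine hfin.congr fun r => ?_
  have h2 : (fun y => fderiv ℝ f (r⁻¹ • (y - x)) (pt (D.J x) X ζ)) =
      fun y => D.F x X (D.J x X) * q (D.F x) (D.φ x) (b r y) := by
    funext y
    exact key _
  rw [h2, integral_const_mul]
  ring

end

end Crest.Agent.R235.FlatTrans_82
end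

-- ▼ part R235/FlatPt_856
section

/-!
Row 235 (S0364), block FLATW, FLAT-8 (helper856): the limit of the blow-ups at one point.
-/

set_option autoImplicit false
set_option maxSynthPendingDepth 3

open Set Function Filter MeasureTheory Metric Complex
open scoped ContDiff ENNReal Manifold Topology

namespace Crest.Agent.R235.FlatPt_856

open Crest.Agent.R240 Crest.Agent.R240.En Crest.Agent.R240.Pot
open Crest.Agent.R235.CurDefs_132 Crest.Agent.R235.Flat
open Crest.Agent.R235.FlatTrans_82 (q_diff norm_phi)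

noncomputable section

/-- the blow up measure at `x`, scale `r`. -/
def lam (D : LC) (x : E4) (r : ℝ) : Measure E4 :=
  ENNReal.ofReal ((r ^ 2)⁻¹) • (D.s.map (fun y => r⁻¹ • (y - x)))

section lam

variable (D : LC) (x : E4)

theorem lam_fin (r : ℝ) : IsFiniteMeasure (lam D x r) := by
  have := D.fin
  unfold lam
  exact Measure.smul_finite _ ENNReal.ofReal_ne_top

theorem lam_integral (r : ℝ) {f : E4 → ℝ} (hf : Measurable f) :
    ∫ z, f z ∂(lam D x r) = (r ^ 2)⁻¹ * ∫ y, f (r⁻¹ • (y - x)) ∂D.s := by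
  unfold lam
  have hT : Measurable (fun y : E4 => r⁻¹ • (y - x)) := by fun_prop
  rw [integral_smul_measure, ENNReal.toReal_ofReal (by positivity),
    integral_map hT.aemeasurable hf.aestronglyMeasurable, smul_eq_mul]

theorem mem_iff {r : ℝ} (hr : 0 < r) (A : ℝ) (y : E4) :
    r⁻¹ • (y - x) ∈ closedBall (0 : E4) A ↔ y ∈ closedBall x (A * r) := by
  rw [mem_closedBall_zero_iff, norm_smul, norm_inv, Real.norm_of_nonneg hr.le,
    inv_mul_le_iff₀ hr, mem_closedBall, dist_eq_norm, mul_comm]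

theorem lam_set {r : ℝ} (hr : 0 < r) (A : ℝ) {f : E4 → ℝ} (hf : Measurable f) :
    ∫ z in closedBall (0 : E4) A, f z ∂(lam D x r) =
      (r ^ 2)⁻¹ * ∫ y in closedBall x (A * r), f (r⁻¹ • (y - x)) ∂D.s := by
  rw [← integral_indicator measurableSet_closedBall,
    lam_integral D x r (hf.indicator measurableSet_closedBall),
    ← integral_indicator measurableSet_closedBall]
  congr 1
  refine integral_congr_ae (ae_of_all _ fun y => ?_)
  by_cases h : y ∈ closedBall x (A * r)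
  · simp only [indicator]
    rw [if_pos h, if_pos ((mem_iff x hr A y).2 h)]
  · simp only [indicator]
    rw [if_neg h, if_neg (fun h' => h ((mem_iff x hr A y).1 h'))]

theorem lam_real {r A : ℝ} (hr : 0 < r) (hA : 0 < A) :
    (lam D x r).real (closedBall (0 : E4) A) ≤ 4 * D.C * A ^ 2 := by
  have := D.fin
  have := lam_fin D x r
  have h := lam_set D x hr A (f := fun _ => (1 : ℝ)) measurable_const
  rw [setIntegral_const, setIntegral_const, smul_eq_mul, smul_eq_mul, mul_one, mul_one] at h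
  rw [h]
  have h6 : D.s.real (closedBall x (A * r)) ≤ D.C * (2 * (A * r)) ^ 2 := by
    have hAr : 0 < A * r := mul_pos hA hr
    exact le_trans (measureReal_mono (closedBall_subset_ball (by linarith)))
      (D.gr x _ (by positivity))
  calc (r ^ 2)⁻¹ * D.s.real (closedBall x (A * r)) ≤ (r ^ 2)⁻¹ * (D.C * (2 * (A * r)) ^ 2) := by
        gcongr
    _ = 4 * D.C * A ^ 2 := by field_simp; ring

theorem tendsto_mul_pos {A : ℝ} (hA : 0 < A) : Tendsto (fun r : ℝ => A * r) (𝓝[>] 0) (𝓝[>] 0) := by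
  refine tendsto_nhdsWithin_iff.2 ⟨?_, ?_⟩
  · have : Tendsto (fun r : ℝ => A * r) (𝓝 0) (𝓝 (A * 0)) :=
      (continuous_const.mul continuous_id).tendsto 0
    rw [mul_zero] at this
    exact this.mono_left nhdsWithin_le_nhds
  · filter_upwards [self_mem_nhdsWithin] with r hr
    exact mul_pos hA hr

/-- the normal part tends to zero in `L²`. -/
theorem norm_tendsto (hDef : DefPt D x) (N : E4 →L[ℝ] E4) {C A : ℝ} (hA : 0 < A)
    (hN : ∀ z, ‖N z‖ ^ 2 ≤ C * D.φ x z (D.J x z)) :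
    Tendsto (fun r => ∫ z in closedBall (0 : E4) A, ‖N z‖ ^ 2 ∂(lam D x r)) (𝓝[>] 0) (𝓝 0) := by
  have := D.fin
  have h1 := (hDef.comp (tendsto_mul_pos hA)).const_mul (C * A ^ 4)
  rw [mul_zero] at h1
  refine squeeze_zero' (Eventually.of_forall fun r => ?_) ?_ h1
  · exact integral_nonneg fun z => by positivity
  filter_upwards [self_mem_nhdsWithin] with r hr
  have hr' : (0 : ℝ) < r := hr
  rw [lam_set D x hr' A (by fun_prop : Measurable fun z : E4 => ‖N z‖ ^ 2)]
  have e1 : ∀ y, ‖N (r⁻¹ • (y - x))‖ ^ 2 = (r ^ 2)⁻¹ * ‖N (y - x)‖ ^ 2 := fun y => by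
    rw [map_smul, norm_smul, mul_pow, norm_inv, Real.norm_of_nonneg hr'.le, inv_pow]
  simp only [e1]
  rw [integral_const_mul]
  have c1 : Continuous fun y : E4 => ‖N (y - x)‖ ^ 2 := by fun_prop
  have c2 : Continuous fun y : E4 => C * D.φ x (y - x) (D.J x (y - x)) := by fun_prop
  have h2 : ∫ y in closedBall x (A * r), ‖N (y - x)‖ ^ 2 ∂D.s ≤
      ∫ y in closedBall x (A * r), C * D.φ x (y - x) (D.J x (y - x)) ∂D.s :=
    setIntegral_mono_on (c1.continuousOn.integrableOn_compact (isCompact_closedBall _ _))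
      (c2.continuousOn.integrableOn_compact (isCompact_closedBall _ _)) measurableSet_closedBall
      fun y _ => hN (y - x)
  rw [integral_const_mul] at h2
  simp only [Function.comp]
  calc (r ^ 2)⁻¹ * ((r ^ 2)⁻¹ * ∫ y in closedBall x (A * r), ‖N (y - x)‖ ^ 2 ∂D.s) ≤
      (r ^ 2)⁻¹ * ((r ^ 2)⁻¹ * (C * ∫ y in closedBall x (A * r),
        D.φ x (y - x) (D.J x (y - x)) ∂D.s)) := by gcongr
    _ = _ := by
      field_simp

theorem err (N : E4 →L[ℝ] E4) {A : ℝ} (hA : 0 < A)
    (hN : Tendsto (fun r => ∫ z in closedBall (0 : E4) A, ‖N z‖ ^ 2 ∂(lam D x r)) (𝓝[>] 0) (𝓝 0))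
    (e : E4 → ℝ) (he : ∀ ε > 0, ∃ K : ℝ, ∀ z ∈ closedBall (0 : E4) A, |e z| ≤ ε + K * ‖N z‖ ^ 2) :
    Tendsto (fun r => ∫ z in closedBall (0 : E4) A, e z ∂(lam D x r)) (𝓝[>] 0) (𝓝 0) := by
  rw [Metric.tendsto_nhds]
  intro ε hε
  have hC := D.C_nn
  set G : ℝ := 4 * D.C * A ^ 2 + 1 with hG
  have hG0 : 0 < G := by positivity
  obtain ⟨K, hK⟩ := he (ε / (2 * G)) (by positivity)
  have h1 : Tendsto (fun r => K * ∫ z in closedBall (0 : E4) A, ‖N z‖ ^ 2 ∂(lam D x r))
      (𝓝[>] 0) (𝓝 0) := by simpa using hN.const_mul K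
  filter_upwards [h1.eventually (gt_mem_nhds (half_pos hε)), self_mem_nhdsWithin] with r hr hr0
  have hr0' : 0 < r := hr0
  have := lam_fin D x r
  rw [dist_zero_right]
  have hi : IntegrableOn (fun z => ‖N z‖ ^ 2) (closedBall (0 : E4) A) (lam D x r) :=
    (by fun_prop : Continuous fun z : E4 => ‖N z‖ ^ 2).continuousOn.integrableOn_compact
      (isCompact_closedBall _ _)
  have h3 : ‖∫ z in closedBall (0 : E4) A, e z ∂(lam D x r)‖ ≤
      ∫ z in closedBall (0 : E4) A, (ε / (2 * G) + K * ‖N z‖ ^ 2) ∂(lam D x r) := by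
    refine norm_integral_le_of_norm_le ((integrable_const _).add (hi.const_mul K)) ?_
    exact (ae_restrict_iff' measurableSet_closedBall).2 (ae_of_all _ fun z hz => hK z hz)
  have h4 : ∫ z in closedBall (0 : E4) A, (ε / (2 * G) + K * ‖N z‖ ^ 2) ∂(lam D x r) =
      ε / (2 * G) * (lam D x r).real (closedBall (0 : E4) A) +
        K * ∫ z in closedBall (0 : E4) A, ‖N z‖ ^ 2 ∂(lam D x r) := by
    rw [integral_add (integrable_const _) (hi.const_mul K), setIntegral_const, integral_const_mul,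
      smul_eq_mul, mul_comm]
  have h5 := lam_real D x hr0' hA
  have h6 : ε / (2 * G) * (lam D x r).real (closedBall (0 : E4) A) ≤ ε / 2 := by
    calc ε / (2 * G) * (lam D x r).real (closedBall (0 : E4) A) ≤ ε / (2 * G) * G := by
          gcongr; linarith
      _ = ε / 2 := by field_simp
  linarith

end lam

/-! ### pure lemmas -/

theorem two (P : E4 →L[ℝ] ℂ) (Q : ℂ →L[ℝ] E4) (hPQ : ∀ ζ, P (Q ζ) = ζ) {A ρ : ℝ} (hA0 : 0 < A)
    (hA2 : 1 + ‖Q‖ * ρ ≤ A / 2) (u : ℂ → ℝ) (hu : ContDiff ℝ ∞ u)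
    (hus : tsupport u ⊆ ball 0 ρ) (e : ℂ) :
    ∃ (v : E4 → ℝ) (K : ℝ), ContDiff ℝ ∞ v ∧ HasCompactSupport v ∧ 0 ≤ K ∧
      (∀ z, z ∉ closedBall (0 : E4) A → fderiv ℝ v z = 0) ∧
      ∀ z ∈ closedBall (0 : E4) A,
        |fderiv ℝ u (P z) e - fderiv ℝ v z (Q e)| ≤ K * ‖z - Q (P z)‖ ^ 2 := by
  let κ : ContDiffBump (0 : E4) := ⟨A / 2, A, by positivity, by linarith⟩
  have hκ : ContDiff ℝ ∞ κ := κ.contDiff
  set v : E4 → ℝ := fun z => u (P z) * κ z with hv
  have huP : ContDiff ℝ ∞ fun z => u (P z) := hu.comp P.contDiff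
  have hvs : ContDiff ℝ ∞ v := huP.mul hκ
  have hvt : tsupport v ⊆ closedBall (0 : E4) A := by
    refine (tsupport_mul_subset_right (f := fun z => u (P z)) (g := κ)).trans ?_
    rw [κ.tsupport_eq]
  have hvc : HasCompactSupport v :=
    HasCompactSupport.of_support_subset_isCompact (isCompact_closedBall (0 : E4) A)
      ((subset_tsupport _).trans hvt)
  have hd : ∀ z, fderiv ℝ v z (Q e) = fderiv ℝ u (P z) e * κ z + u (P z) * fderiv ℝ κ z (Q e) := by
    intro z
    have h1 : HasFDerivAt (fun z => u (P z)) ((fderiv ℝ u (P z)).comp P) z :=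
      ((hu.differentiable (by simp)) _).hasFDerivAt.comp z P.hasFDerivAt
    have h2 : HasFDerivAt κ (fderiv ℝ κ z) z := ((hκ.differentiable (by simp)) z).hasFDerivAt
    have h3 := h1.mul h2
    have h4 : fderiv ℝ v z = _ := h3.fderiv
    rw [h4]
    simp only [_root_.add_apply, _root_.smul_apply, ContinuousLinearMap.comp_apply, hPQ,
      smul_eq_mul]
    ring
  have hc1 : Continuous fun z => fderiv ℝ u (P z) e - fderiv ℝ v z (Q e) := by
    have k1 : Continuous fun z => fderiv ℝ u (P z) e :=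
      ((hu.continuous_fderiv (by simp)).comp P.continuous).clm_apply continuous_const
    have k2 : Continuous fun z => fderiv ℝ v z (Q e) :=
      (hvs.continuous_fderiv (by simp)).clm_apply continuous_const
    exact k1.sub k2
  obtain ⟨K, hK⟩ := (isCompact_closedBall (0 : E4) A).exists_bound_of_continuousOn hc1.continuousOn
  have hK0 : 0 ≤ K := (norm_nonneg _).trans (hK 0 (mem_closedBall_self hA0.le))
  refine ⟨v, K, hvs, hvc, hK0, fun z hz => ?_, fun z hz => ?_⟩
  · exact (HasFDerivAt.of_notMem_tsupport ℝ fun h => hz (hvt h)).fderiv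
  · by_cases h1 : P z ∈ tsupport u
    · by_cases h2 : ‖z‖ < A / 2
      · have h3 : κ z = 1 := κ.one_of_mem_closedBall (by
          rw [mem_closedBall_zero_iff]; exact h2.le)
        have h4 : fderiv ℝ κ z = 0 := by
          have h5 : (κ : E4 → ℝ) =ᶠ[𝓝 z] fun _ => (1 : ℝ) := by
            have h6 : ball (0 : E4) (A / 2) ∈ 𝓝 z := isOpen_ball.mem_nhds (by
              rw [mem_ball_zero_iff]; exact h2)
            filter_upwards [h6] with y hy
            exact κ.one_of_mem_closedBall (ball_subset_closedBall hy)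
          rw [h5.fderiv_eq]
          simp
        rw [hd, h3, h4]
        simp only [_root_.zero_apply, mul_zero, add_zero, mul_one, sub_self, abs_zero]
        positivity
      · have h3 : ‖P z‖ < ρ := by simpa using hus h1
        have h4 : ‖Q (P z)‖ ≤ ‖Q‖ * ρ := (Q.le_opNorm _).trans (by gcongr)
        have h5 : ‖z‖ ≤ ‖z - Q (P z)‖ + ‖Q (P z)‖ := by
          calc ‖z‖ = ‖(z - Q (P z)) + Q (P z)‖ := by rw [sub_add_cancel]
            _ ≤ _ := norm_add_le _ _
        have h6 : 1 ≤ ‖z - Q (P z)‖ := by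
          push Not at h2
          linarith
        have h7 : 1 ≤ ‖z - Q (P z)‖ ^ 2 := by nlinarith
        have h8 := hK z hz
        rw [Real.norm_eq_abs] at h8
        nlinarith
    · have h2 : fderiv ℝ u (P z) = 0 := (HasFDerivAt.of_notMem_tsupport ℝ h1).fderiv
      have h3 : u (P z) = 0 := by
        by_contra hne
        exact h1 (subset_tsupport _ hne)
      rw [hd, h2, h3]
      simp only [_root_.zero_apply, zero_mul, add_zero, sub_self, abs_zero]
      positivity

theorem unif {f : E4 → ℝ} (hf : Continuous f) (hfc : HasCompactSupport f) (ε : ℝ) (hε : 0 < ε) :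
    ∃ K : ℝ, ∀ y z : E4, |f z - f y| ≤ ε + K * ‖z - y‖ ^ 2 := by
  have hu : UniformContinuous f := hf.uniformContinuous_of_tendsto_cocompact hfc.is_zero_at_infty
  obtain ⟨δ, hδ, h⟩ := Metric.uniformContinuous_iff.1 hu ε hε
  obtain ⟨B, hB⟩ := hf.bounded_above_of_compact_support hfc
  have hB0 : 0 ≤ B := (norm_nonneg _).trans (hB 0)
  refine ⟨2 * B / δ ^ 2, fun y z => ?_⟩
  by_cases h1 : dist z y < δ
  · have h2 := h h1
    rw [Real.dist_eq] at h2
    have : 0 ≤ 2 * B / δ ^ 2 * ‖z - y‖ ^ 2 := by positivity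
    linarith
  · push Not at h1
    rw [dist_eq_norm] at h1
    have h2 : |f z - f y| ≤ 2 * B := by
      have h3 := hB z
      have h4 := hB y
      rw [Real.norm_eq_abs] at h3 h4
      exact (abs_sub _ _).trans (by linarith)
    have h3 : 2 * B ≤ 2 * B / δ ^ 2 * ‖z - y‖ ^ 2 := by
      rw [div_mul_eq_mul_div, le_div_iff₀ (by positivity)]
      gcongr
    linarith


theorem flp (hL : LINK) (hT : TRANS) (hR : RADI) (hP : PLANE) : FLP := by
  intro D x hx hLeb hDef hDen X hX g hg hgc hga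
  have := D.fin
  obtain ⟨h1, P, C, hC, hPp, hPn, hPF⟩ := hL (D.J x) (D.F x) D.m D.M (D.bd x) (D.φ x) (D.pos x)
    (D.nrm x) X hX
  have hm := (D.bd x).m_pos
  have hM := (D.bd x).M_pos
  have hCD := D.C_nn
  set a : ℝ := D.F x X (D.J x X) with ha
  have ha0 : 0 < a := by
    have := (D.bd x).lo X
    rw [hX.one] at this
    linarith
  -- the linear maps
  set Q : ℂ →L[ℝ] E4 := Complex.reCLM.smulRight X + Complex.imCLM.smulRight (D.J x X) with hQd
  have hQ : ∀ ζ, Q ζ = pt (D.J x) X ζ := fun ζ => by simp [hQd, pt]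
  set N : E4 →L[ℝ] E4 := ContinuousLinearMap.id ℝ E4 - Q.comp P with hNd
  have hN : ∀ z, N z = z - pt (D.J x) X (P z) := fun z => by simp [hNd, hQ]
  have hN2 : ∀ z, ‖N z‖ ^ 2 ≤ C * D.φ x z (D.J x z) := fun z => by rw [hN]; exact hPn z
  have hPQ : ∀ ζ, P (Q ζ) = ζ := fun ζ => by rw [hQ]; exact hPp ζ
  -- the functions
  set f : E4 → ℝ := fun z => g z X (D.J x X) / a with hf
  have hfc : Continuous f := by
    have : Continuous fun z => g z X (D.J x X) := (hg.clm_apply continuous_const).clm_apply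
      continuous_const
    exact this.div_const _
  have hqf : ∀ z, q (D.F x) (D.φ x) (g z) = f z := fun z => h1 (g z) (hga z)
  set h : ℂ → ℝ := fun ζ => f (Q ζ) with hh
  have hhc : Continuous h := hfc.comp Q.continuous
  obtain ⟨A₀, hA₀, hsg⟩ : ∃ A₀ : ℝ, 0 < A₀ ∧ tsupport g ⊆ closedBall 0 A₀ := by
    obtain ⟨A, hA⟩ := (hgc.isCompact.isBounded).subset_closedBall (0 : E4)
    exact ⟨max A 1, by positivity, hA.trans (closedBall_subset_closedBall (le_max_left _ _))⟩
  have hg0 : ∀ z, z ∉ closedBall (0 : E4) A₀ → g z = 0 := fun z hz => by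
    by_contra hne
    exact hz (hsg (subset_tsupport _ hne))
  have hf0 : ∀ z, z ∉ closedBall (0 : E4) A₀ → f z = 0 := fun z hz => by
    simp [hf, hg0 z hz]
  set ρ : ℝ := 2 * (‖P‖ * A₀ + 1) with hρ
  have hρ0 : 0 < ρ := by positivity
  have hhs : tsupport h ⊆ ball 0 (ρ / 2) := by
    have h2 : tsupport h ⊆ closedBall 0 (‖P‖ * A₀) := by
      refine closure_minimal ?_ isClosed_closedBall
      intro ζ hζ
      by_contra hne
      refine hζ (hf0 _ fun h3 => hne ?_)
      rw [mem_closedBall_zero_iff] at h3 ⊢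
      calc ‖ζ‖ = ‖P (Q ζ)‖ := by rw [hPQ]
        _ ≤ ‖P‖ * ‖Q ζ‖ := P.le_opNorm _
        _ ≤ ‖P‖ * A₀ := by gcongr
    refine h2.trans (closedBall_subset_ball ?_)
    rw [hρ]; linarith
  set A : ℝ := A₀ + 2 * (1 + ‖Q‖ * ρ) + (a / D.m + 1) * ρ with hA
  have hA0 : 0 < A := by positivity
  have hA1 : A₀ ≤ A := by
    have h2 : 0 ≤ 2 * (1 + ‖Q‖ * ρ) := by positivity
    have h3 : 0 ≤ (a / D.m + 1) * ρ := by positivity
    rw [hA]; linarith
  have hA2 : 1 + ‖Q‖ * ρ ≤ A / 2 := by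
    have h3 : 0 ≤ (a / D.m + 1) * ρ := by positivity
    rw [hA]; linarith
  have hA3 : a * ρ ^ 2 / 4 ≤ D.m * A ^ 2 := by
    have h2 : (a / D.m + 1) * ρ ≤ A := by
      have h2 : 0 ≤ 2 * (1 + ‖Q‖ * ρ) := by positivity
      rw [hA]; linarith
    have h3 : ((a / D.m + 1) * ρ) ^ 2 ≤ A ^ 2 := by gcongr
    have h4 : a / D.m ≤ (a / D.m + 1) ^ 2 := by
      have : 0 < a / D.m := by positivity
      nlinarith
    have h5 : a / D.m * ρ ^ 2 ≤ A ^ 2 := by
      refine le_trans ?_ h3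
      have e9 : ((a / D.m + 1) * ρ) ^ 2 = (a / D.m + 1) ^ 2 * ρ ^ 2 := by ring
      rw [e9]
      exact mul_le_mul_of_nonneg_right h4 (sq_nonneg ρ)
    have h6 : a * ρ ^ 2 = D.m * (a / D.m * ρ ^ 2) := by field_simp
    have h7 : D.m * (a / D.m * ρ ^ 2) ≤ D.m * A ^ 2 := by gcongr
    have h8 : 0 ≤ a * ρ ^ 2 := by positivity
    linarith
  have hNt := norm_tendsto D x hDef N hA0 hN2
  have hlf : ∀ r, IsFiniteMeasure (lam D x r) := lam_fin D x
  -- integrals of continuous functions over the ball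
  have hci : ∀ r (u : E4 → ℝ), Continuous u → IntegrableOn u (closedBall (0 : E4) A) (lam D x r) :=
    fun r u hu => by
      have := hlf r
      exact hu.continuousOn.integrableOn_compact (isCompact_closedBall _ _)
  -- the planar measures
  set μ : ℝ → Measure ℂ := fun r => ((lam D x r).restrict (closedBall 0 A)).map P with hμ
  have hμi : ∀ r (u : ℂ → ℝ), Continuous u →
      ∫ ζ, u ζ ∂(μ r) = ∫ z in closedBall (0 : E4) A, u (P z) ∂(lam D x r) := fun r u hu => by
    rw [hμ]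
    exact integral_map P.continuous.measurable.aemeasurable hu.aestronglyMeasurable
  have hlim : Tendsto (fun r => ∫ ζ, h ζ ∂(μ r)) (𝓝[>] 0) (𝓝 (a * ∫ ζ, h ζ)) := by
    refine hP μ ρ (4 * D.C * A ^ 2) a hρ0 ?_ ?_ ?_ h hhc hhs
    · filter_upwards [self_mem_nhdsWithin] with r hr
      have hr' : (0 : ℝ) < r := hr
      have := hlf r
      have h2 : μ r (closedBall 0 ρ) ≤ lam D x r (closedBall 0 A) := by
        rw [hμ]
        refine (measure_mono (subset_univ _)).trans ?_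
        rw [Measure.map_apply P.continuous.measurable MeasurableSet.univ, preimage_univ,
          Measure.restrict_apply_univ]
      refine h2.trans ?_
      rw [← ofReal_measureReal]
      exact ENNReal.ofReal_le_ofReal (lam_real D x hr' hA0)
    · intro u hu huc hus e
      obtain ⟨v, K, hv, hvc, hK, hv0, hvK⟩ := two P Q hPQ hA0 hA2 u hu hus e
      have k1 := hT D x hx hLeb X hX v hv hvc e
      have k2 : Tendsto (fun r => ∫ z in closedBall (0 : E4) A,
          (fderiv ℝ u (P z) e - fderiv ℝ v z (Q e)) ∂(lam D x r)) (𝓝[>] 0) (𝓝 0) := by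
        refine err D x N hA0 hNt _ fun ε hε => ⟨K, fun z hz => ?_⟩
        have k3 := hvK z hz
        rw [hN, ← hQ]
        linarith
      have c1 : Continuous fun ζ => fderiv ℝ u ζ e :=
        (hu.continuous_fderiv (by simp)).clm_apply continuous_const
      have c2 : Continuous fun z => fderiv ℝ v z (Q e) :=
        (hv.continuous_fderiv (by simp)).clm_apply continuous_const
      have k4 := k2.add k1
      rw [add_zero] at k4
      refine k4.congr fun r => ?_
      rw [hμi r _ c1]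
      have k5 : IntegrableOn (fun z => fderiv ℝ u (P z) e) (closedBall (0 : E4) A) (lam D x r) :=
        hci r _ (c1.comp P.continuous)
      have k6 := hci r _ c2
      have k7 : (r ^ 2)⁻¹ * ∫ y, fderiv ℝ v (r⁻¹ • (y - x)) (pt (D.J x) X e) ∂D.s =
          ∫ z in closedBall (0 : E4) A, fderiv ℝ v z (Q e) ∂(lam D x r) := by
        rw [setIntegral_eq_integral_of_forall_compl_eq_zero
          (fun z hz => by rw [hv0 z hz]; rfl), lam_integral D x r c2.measurable, hQ]
      rw [k7, integral_sub k5 k6, sub_add_cancel]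
    · intro Ψ hΨ hΨc hΨ0
      have hΨ1 : ContDiff ℝ 1 (fun u : ℝ => Ψ (a⁻¹ * u)) :=
        (hΨ.of_le (by simp)).comp (contDiff_const.mul contDiff_id)
      have hΨ2 : HasCompactSupport (fun u : ℝ => Ψ (a⁻¹ * u)) :=
        hΨc.comp_homeomorph (Homeomorph.mulLeft₀ a⁻¹ (inv_ne_zero ha0.ne'))
      have k1 := hR D x hDen _ hΨ1 hΨ2
      rw [integral_comp_mul_left_Ioi Ψ 0 (inv_pos.2 ha0), mul_zero, inv_inv, smul_eq_mul] at k1
      have k1' : Real.pi * (a * ∫ u in Ioi (0 : ℝ), Ψ u) =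
          a * (Real.pi * ∫ u in Ioi (0 : ℝ), Ψ u) := by ring
      rw [k1'] at k1
      set w : E4 → ℝ := fun z => Ψ (a⁻¹ * D.F x z (D.J x z)) with hw
      have hwc : Continuous w := by
        have : Continuous fun z : E4 => a⁻¹ * D.F x z (D.J x z) := by fun_prop
        exact hΨ.continuous.comp this
      have hpc : Continuous fun ζ : ℂ => Ψ (‖ζ‖ ^ 2) := hΨ.continuous.comp (by fun_prop)
      have hw0 : ∀ z, z ∉ closedBall (0 : E4) A → w z = 0 := by
        intro z hz
        rw [mem_closedBall_zero_iff, not_le] at hz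
        refine hΨ0 _ ?_
        have k3 := (D.bd x).lo z
        have k4 : D.m * A ^ 2 ≤ D.m * ‖z‖ ^ 2 := by gcongr
        have k5 : a * ρ ^ 2 / 4 ≤ D.F x z (D.J x z) := hA3.trans (k4.trans k3)
        calc ρ ^ 2 / 4 = a⁻¹ * (a * ρ ^ 2 / 4) := by field_simp
          _ ≤ a⁻¹ * D.F x z (D.J x z) := by gcongr
      obtain ⟨K, hK⟩ := hΨ.lipschitzWith_of_hasCompactSupport hΨc (by simp)
      have k2 : Tendsto (fun r => ∫ z in closedBall (0 : E4) A,
          (Ψ (‖P z‖ ^ 2) - w z) ∂(lam D x r)) (𝓝[>] 0) (𝓝 0) := by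
        refine err D x N hA0 hNt _ fun ε hε => ⟨K * (D.M / a), fun z hz => ?_⟩
        have k3 := hK.dist_le_mul (‖P z‖ ^ 2) (a⁻¹ * D.F x z (D.J x z))
        rw [Real.dist_eq, Real.dist_eq] at k3
        have k4 : ‖P z‖ ^ 2 - a⁻¹ * D.F x z (D.J x z) = - (a⁻¹ * D.F x (N z) (D.J x (N z))) := by
          rw [hPF z, ← hN]
          field_simp
          ring
        have k5 := (D.bd x).hi (N z)
        have k6 : 0 ≤ D.F x (N z) (D.J x (N z)) := by
          have := (D.bd x).lo (N z)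
          exact le_trans (mul_nonneg hm.le (sq_nonneg _)) this
        have k8 : 0 ≤ a⁻¹ * D.F x (N z) (D.J x (N z)) := mul_nonneg (inv_nonneg.2 ha0.le) k6
        rw [k4, abs_neg, abs_of_nonneg k8] at k3
        have k7 : (K : ℝ) * (a⁻¹ * D.F x (N z) (D.J x (N z))) ≤ K * (D.M / a) * ‖N z‖ ^ 2 := by
          calc (K : ℝ) * (a⁻¹ * D.F x (N z) (D.J x (N z))) ≤ K * (a⁻¹ * (D.M * ‖N z‖ ^ 2)) := by
                gcongr
            _ = _ := by ring
        have k9 : |Ψ (‖P z‖ ^ 2) - w z| ≤ (K : ℝ) * (a⁻¹ * D.F x (N z) (D.J x (N z))) := k3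
        linarith
      have k4 := k2.add k1
      rw [zero_add] at k4
      refine k4.congr fun r => ?_
      rw [hμi r _ hpc]
      have k5 : IntegrableOn (fun z => Ψ (‖P z‖ ^ 2)) (closedBall (0 : E4) A) (lam D x r) :=
        hci r _ (hpc.comp P.continuous)
      have k6 := hci r _ hwc
      have k7 : (r ^ 2)⁻¹ * ∫ y, Ψ (a⁻¹ * ((r ^ 2)⁻¹ * D.G x (y - x) (y - x))) ∂D.s =
          ∫ z in closedBall (0 : E4) A, w z ∂(lam D x r) := by
        rw [setIntegral_eq_integral_of_forall_compl_eq_zero (fun z hz => hw0 z hz),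
          lam_integral D x r hwc.measurable]
        congr 1
        refine integral_congr_ae (ae_of_all _ fun y => ?_)
        simp only [hw, LC.G, gm_apply, map_smul, _root_.smul_apply, smul_eq_mul]
        congr 2
        rw [← inv_pow]
        ring
      rw [k7, integral_sub k5 k6, sub_add_cancel]
  -- comparison of f and h
  have h4b : Tendsto (fun r => ∫ z in closedBall (0 : E4) A, (f z - h (P z)) ∂(lam D x r))
      (𝓝[>] 0) (𝓝 0) := by
    refine err D x N hA0 hNt _ fun ε hε => ?_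
    have hfs : HasCompactSupport f := HasCompactSupport.of_support_subset_isCompact
      (isCompact_closedBall (0 : E4) A₀) fun z hz => by
        by_contra hne
        exact hz (hf0 z hne)
    obtain ⟨K, hK⟩ := unif hfc hfs ε hε
    refine ⟨K, fun z _ => ?_⟩
    have k1 := hK (Q (P z)) z
    rw [hN, ← hQ]
    exact k1
  have h4b' : Tendsto (fun r => (r ^ 2)⁻¹ * ∫ y, f (r⁻¹ • (y - x)) ∂D.s) (𝓝[>] 0)
      (𝓝 (a * ∫ ζ, h ζ)) := by
    have h2 := h4b.add hlim
    rw [zero_add] at h2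
    refine h2.congr fun r => ?_
    have k1 := hci r f hfc
    have k2 : IntegrableOn (fun z => h (P z)) (closedBall (0 : E4) A) (lam D x r) :=
      hci r _ (hhc.comp P.continuous)
    rw [hμi r h hhc, integral_sub k1 k2, sub_add_cancel]
    rw [← lam_integral D x r hfc.measurable]
    refine setIntegral_eq_integral_of_forall_compl_eq_zero fun z hz => hf0 z fun h3 => hz ?_
    exact closedBall_subset_closedBall hA1 h3
  -- the frozen form
  obtain ⟨Kq, hKq0, hKq⟩ := q_diff D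
  obtain ⟨B, hB0, hB⟩ : ∃ B : ℝ, 0 ≤ B ∧ ∀ z, ‖g z‖ ≤ B := by
    obtain ⟨B, hB⟩ := hg.bounded_above_of_compact_support hgc
    exact ⟨B, (norm_nonneg _).trans (hB 0), hB⟩
  have hgr : ∀ r : ℝ, Measurable fun y : E4 => g (r⁻¹ • (y - x)) := fun r =>
    (hg.comp (by fun_prop)).measurable
  have hmq : ∀ r : ℝ, Measurable fun y => q (D.F y) (D.φ y) (g (r⁻¹ • (y - x))) := by
    intro r
    unfold q
    exact (Loc5.measurable_W D.meas (hgr r)).div
      (Loc5.measurable_W D.smF.continuous.measurable D.smF.continuous.measurable)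
  have hqb : ∀ (r : ℝ) y z, ‖q (D.F z) (D.φ z) (g (r⁻¹ • (y - x)))‖ ≤
      3 / D.m ^ 2 * (2 * D.M * B) := by
    intro r y z
    rw [Real.norm_eq_abs]
    refine ((D.bd z).abs_q_le (D.pos z).alt (hga _)).trans ?_
    have h2 := norm_phi D z
    have h3 := hB (r⁻¹ • (y - x))
    gcongr
  have hi1 : ∀ r : ℝ, Integrable (fun y => q (D.F y) (D.φ y) (g (r⁻¹ • (y - x)))) D.s := fun r =>
    Integrable.of_bound (hmq r).aestronglyMeasurable _ (ae_of_all _ fun y => hqb r y y)
  have hi2 : ∀ r : ℝ, Integrable (fun y => f (r⁻¹ • (y - x))) D.s := fun r =>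
    Integrable.of_bound ((hfc.comp (by fun_prop)).measurable).aestronglyMeasurable _
      (ae_of_all _ fun y => by rw [← hqf]; exact hqb r y x)
  have hiφ : Integrable (fun y => ‖D.φ y - D.φ x‖) D.s := by
    refine Integrable.of_bound (D.meas.sub_const _).norm.aestronglyMeasurable
      (2 * D.M + 2 * D.M) (ae_of_all _ fun y => ?_)
    rw [norm_norm]
    exact (norm_sub_le _ _).trans (add_le_add (norm_phi D y) (norm_phi D x))
  have h4a : Tendsto (fun r : ℝ => (r ^ 2)⁻¹ * ∫ y, (q (D.F y) (D.φ y) (g (r⁻¹ • (y - x))) -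
      f (r⁻¹ • (y - x))) ∂D.s) (𝓝[>] 0) (𝓝 0) := by
    have hE0 : 0 ≤ Kq * B := by positivity
    have hL1 := (hLeb.comp (tendsto_mul_pos hA₀)).const_mul (Kq * B * A₀ ^ 2)
    have hL2 : Tendsto (fun r : ℝ => Kq * B * A₀ * (D.C * (2 * A₀) ^ 2) * r) (𝓝[>] 0) (𝓝 0) := by
      have : Tendsto (fun r : ℝ => Kq * B * A₀ * (D.C * (2 * A₀) ^ 2) * r) (𝓝 0)
          (𝓝 (Kq * B * A₀ * (D.C * (2 * A₀) ^ 2) * 0)) :=
        (continuous_const.mul continuous_id).tendsto 0
      rw [mul_zero] at this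
      exact this.mono_left nhdsWithin_le_nhds
    have hL3 := hL1.add hL2
    rw [mul_zero, add_zero] at hL3
    refine squeeze_zero_norm' ?_ hL3
    filter_upwards [self_mem_nhdsWithin] with r hr
    have hr' : (0 : ℝ) < r := hr
    rw [norm_mul, Real.norm_of_nonneg (by positivity : (0 : ℝ) ≤ (r ^ 2)⁻¹)]
    have h3 : ∫ y, (q (D.F y) (D.φ y) (g (r⁻¹ • (y - x))) - f (r⁻¹ • (y - x))) ∂D.s =
        ∫ y in closedBall x (A₀ * r),
          (q (D.F y) (D.φ y) (g (r⁻¹ • (y - x))) - f (r⁻¹ • (y - x))) ∂D.s := by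
      symm
      apply setIntegral_eq_integral_of_forall_compl_eq_zero
      intro y hy
      have h4 : r⁻¹ • (y - x) ∉ closedBall (0 : E4) A₀ := fun h5 => hy ((mem_iff x hr' A₀ y).1 h5)
      rw [hg0 _ h4, hf0 _ h4]
      simp [q, W, ent_zero]
    have h4 : ∀ y ∈ closedBall x (A₀ * r),
        ‖q (D.F y) (D.φ y) (g (r⁻¹ • (y - x))) - f (r⁻¹ • (y - x))‖ ≤
          Kq * B * ‖D.φ y - D.φ x‖ + Kq * B * (A₀ * r) := by
      intro y hy
      rw [Real.norm_eq_abs, ← hqf]
      refine (hKq x y _).trans ?_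
      have h5 := hB (r⁻¹ • (y - x))
      have h6 : ‖y - x‖ ≤ A₀ * r := by rwa [mem_closedBall, dist_eq_norm] at hy
      calc Kq * ‖g (r⁻¹ • (y - x))‖ * (‖D.φ y - D.φ x‖ + ‖y - x‖) ≤
          Kq * B * (‖D.φ y - D.φ x‖ + A₀ * r) := by gcongr
        _ = _ := by ring
    have h5 : ‖∫ y in closedBall x (A₀ * r),
          (q (D.F y) (D.φ y) (g (r⁻¹ • (y - x))) - f (r⁻¹ • (y - x))) ∂D.s‖ ≤
        ∫ y in closedBall x (A₀ * r), (Kq * B * ‖D.φ y - D.φ x‖ + Kq * B * (A₀ * r)) ∂D.s := by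
      refine norm_integral_le_of_norm_le
        (((hiφ.const_mul (Kq * B)).add (integrable_const _)).integrableOn) ?_
      exact (ae_restrict_iff' measurableSet_closedBall).2 (ae_of_all _ h4)
    rw [integral_add (hiφ.const_mul (Kq * B)).integrableOn (integrable_const _),
      integral_const_mul, setIntegral_const, smul_eq_mul] at h5
    have h6 : D.s.real (closedBall x (A₀ * r)) ≤ D.C * (2 * (A₀ * r)) ^ 2 := by
      have hAr : 0 < A₀ * r := mul_pos hA₀ hr'
      exact le_trans (measureReal_mono (closedBall_subset_ball (by linarith)))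
        (D.gr x _ (by positivity))
    have h7 : D.s.real (closedBall x (A₀ * r)) * (Kq * B * (A₀ * r)) ≤
        D.C * (2 * (A₀ * r)) ^ 2 * (Kq * B * (A₀ * r)) := by gcongr
    rw [h3]
    calc (r ^ 2)⁻¹ * ‖∫ y in closedBall x (A₀ * r),
          (q (D.F y) (D.φ y) (g (r⁻¹ • (y - x))) - f (r⁻¹ • (y - x))) ∂D.s‖ ≤
        (r ^ 2)⁻¹ * (Kq * B * (∫ y in closedBall x (A₀ * r), ‖D.φ y - D.φ x‖ ∂D.s) +
          D.C * (2 * (A₀ * r)) ^ 2 * (Kq * B * (A₀ * r))) := by
          refine mul_le_mul_of_nonneg_left ?_ (by positivity)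
          linarith
      _ = _ := by
          simp only [Function.comp]
          field_simp
  have h5 := h4a.add h4b'
  rw [zero_add] at h5
  have h6 : a * ∫ ζ, h ζ = ∫ ζ : ℂ, g (pt (D.J x) X ζ) X (D.J x X) := by
    rw [← integral_const_mul]
    refine integral_congr_ae (ae_of_all _ fun ζ => ?_)
    simp only [hh, hf, hQ]
    field_simp
  rw [h6] at h5
  refine h5.congr fun r => ?_
  rw [integral_sub (hi1 r) (hi2 r)]
  ring

end

end Crest.Agent.R235.FlatPt_856
end

-- ▼ part R235/FlatRadi_125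
section

/-!
Row 235, PACKAGE REG, block FLATW, leaf FLAT-6 RADI (helper125): radial functions at a point of
density one (layer cake + dominated convergence).
-/

set_option autoImplicit false
set_option maxSynthPendingDepth 3

open Set Function Filter MeasureTheory Metric Complex
open scoped ContDiff ENNReal Manifold Topology

namespace Crest.Agent.R235.FlatRadi_125

open Crest.Agent.R240 Crest.Agent.R240.En Crest.Agent.R240.Pot
open Crest.Agent.R235.CurDefs_132 Crest.Agent.R235.Flat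

/-- layer cake for a compactly supported `C¹` profile. -/
lemma layer {Ψ : ℝ → ℝ} (hΨ : ContDiff ℝ 1 Ψ) (hc : HasCompactSupport Ψ) {a : ℝ} (ha : 0 ≤ a) :
    Ψ a = - ∫ t in Ioi (0 : ℝ), (Ioi a).indicator (deriv Ψ) t := by
  have hd : Continuous (deriv Ψ) := hΨ.continuous_deriv le_rfl
  have hdc : HasCompactSupport (deriv Ψ) := hc.deriv
  have hi : Integrable (deriv Ψ) := hd.integrable_of_hasCompactSupport hdc
  have hlim : Tendsto Ψ atTop (𝓝 0) := by
    have h := hc.isCompact.isBounded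
    obtain ⟨B, hB⟩ := h.subset_closedBall 0
    refine tendsto_const_nhds.congr' ?_
    filter_upwards [eventually_gt_atTop B] with t ht
    by_contra hne
    have h1 : t ∈ closedBall (0 : ℝ) B := hB (subset_tsupport _ (Ne.symm hne))
    rw [mem_closedBall_zero_iff, Real.norm_eq_abs] at h1
    exact absurd (le_abs_self t) (by linarith)
  have h1 : ∫ t in Ioi a, deriv Ψ t = 0 - Ψ a :=
    integral_Ioi_of_hasDerivAt_of_tendsto hΨ.continuous.continuousWithinAt
      (fun t _ => (hΨ.differentiable one_ne_zero).differentiableAt.hasDerivAt) hi.integrableOn hlim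
  rw [setIntegral_indicator measurableSet_Ioi, Ioi_inter_Ioi, sup_eq_right.2 ha, h1]
  ring

lemma parts {Ψ : ℝ → ℝ} (hΨ : ContDiff ℝ 1 Ψ) (hc : HasCompactSupport Ψ) :
    ∫ t in Ioi (0 : ℝ), deriv Ψ t * t = - ∫ t in Ioi (0 : ℝ), Ψ t := by
  have hd : Continuous (deriv Ψ) := hΨ.continuous_deriv le_rfl
  have hdc : HasCompactSupport (deriv Ψ) := hc.deriv
  have hi : Integrable (fun t => deriv Ψ t * t) :=
    (hd.mul continuous_id).integrable_of_hasCompactSupport hdc.mul_right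
  have hi2 : Integrable Ψ := hΨ.continuous.integrable_of_hasCompactSupport hc
  have hlim : Tendsto (fun t => Ψ t * t) atTop (𝓝 0) := by
    have h := hc.isCompact.isBounded
    obtain ⟨B, hB⟩ := h.subset_closedBall 0
    refine tendsto_const_nhds.congr' ?_
    filter_upwards [eventually_gt_atTop B] with t ht
    have : Ψ t = 0 := by
      by_contra hne
      have h1 : t ∈ closedBall (0 : ℝ) B := hB (subset_tsupport _ hne)
      rw [mem_closedBall_zero_iff, Real.norm_eq_abs] at h1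
      exact absurd (le_abs_self t) (by linarith)
    rw [this, zero_mul]
  have hder : ∀ t : ℝ, HasDerivAt (fun t => Ψ t * t) (deriv Ψ t * t + Ψ t) t := by
    intro t
    have h1 := ((hΨ.differentiable one_ne_zero).differentiableAt (x := t)).hasDerivAt.mul
      (hasDerivAt_id t)
    have e : deriv Ψ t * id t + Ψ t * 1 = deriv Ψ t * t + Ψ t := by simp
    rw [e] at h1
    exact h1
  have h1 : ∫ t in Ioi (0 : ℝ), (deriv Ψ t * t + Ψ t) = 0 - Ψ 0 * 0 :=
    integral_Ioi_of_hasDerivAt_of_tendsto (f := fun t => Ψ t * t)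
      (hΨ.continuous.mul continuous_id).continuousWithinAt
      (fun t _ => hder t) (hi.add hi2).integrableOn hlim
  rw [integral_add hi.integrableOn hi2.integrableOn] at h1
  linarith

theorem radi : RADI := by
  intro D x hx Ψ hΨ hΨc
  have hfin : IsFiniteMeasure D.s := D.fin
  set ρ : E4 → ℝ := fun y => D.G x (y - x) (y - x) with hρ
  have hρ0 : ∀ y, 0 ≤ ρ y := fun y => gm_nonneg (D.bd x).spos _
  have hρm : ∀ y, D.m * ‖y - x‖ ^ 2 ≤ ρ y := fun y => (D.bd x).lo _
  have hρc : Continuous ρ := by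
    have h1 : Continuous fun y : E4 => y - x := continuous_id.sub continuous_const
    exact ((D.G x).continuous.comp h1).clm_apply h1
  have hm := (D.bd x).m_pos
  have hd : Continuous (deriv Ψ) := hΨ.continuous_deriv le_rfl
  have hdc : HasCompactSupport (deriv Ψ) := hΨc.deriv
  have hi : Integrable (deriv Ψ) := hd.integrable_of_hasCompactSupport hdc
  -- Fubini
  have key : ∀ r : ℝ, 0 < r → (r ^ 2)⁻¹ * ∫ y, Ψ ((r ^ 2)⁻¹ * ρ y) ∂D.s =
      - ∫ t in Ioi (0 : ℝ), deriv Ψ t * ((r ^ 2)⁻¹ * D.s.real {y | ρ y < t * r ^ 2}) := by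
    intro r hr
    have hr2 : 0 < r ^ 2 := by positivity
    have e1 : ∫ y, Ψ ((r ^ 2)⁻¹ * ρ y) ∂D.s =
        ∫ y, (- ∫ t in Ioi (0 : ℝ), (Ioi ((r ^ 2)⁻¹ * ρ y)).indicator (deriv Ψ) t) ∂D.s := by
      refine integral_congr_ae (Eventually.of_forall fun y => ?_)
      exact layer hΨ hΨc (mul_nonneg (inv_nonneg.2 hr2.le) (hρ0 y))
    rw [e1, integral_neg]
    have hms : MeasurableSet {p : E4 × ℝ | (r ^ 2)⁻¹ * ρ p.1 < p.2} :=
      measurableSet_lt ((hρc.comp continuous_fst).const_smul ((r ^ 2)⁻¹)).measurable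
        measurable_snd
    have hint : Integrable (uncurry fun (y : E4) (t : ℝ) =>
        (Ioi ((r ^ 2)⁻¹ * ρ y)).indicator (deriv Ψ) t)
        (D.s.prod (volume.restrict (Ioi 0))) := by
      have h1 : Integrable (fun p : E4 × ℝ => deriv Ψ p.2) (D.s.prod (volume.restrict (Ioi 0))) :=
        (hi.integrableOn (s := Ioi 0)).comp_snd D.s
      have h2 := h1.indicator hms
      refine h2.congr (Eventually.of_forall fun p => ?_)
      simp only [uncurry, indicator, mem_setOf_eq, mem_Ioi]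
    rw [integral_integral_swap hint, mul_neg, ← integral_const_mul]
    congr 1
    refine integral_congr_ae (Eventually.of_forall fun t => ?_)
    have e2 : ∀ y, (Ioi ((r ^ 2)⁻¹ * ρ y)).indicator (deriv Ψ) t =
        {y | ρ y < t * r ^ 2}.indicator (fun _ => deriv Ψ t) y := by
      intro y
      have : ((r ^ 2)⁻¹ * ρ y < t) ↔ (ρ y < t * r ^ 2) := by
        rw [inv_mul_lt_iff₀ hr2, mul_comm]
      simp only [indicator, mem_setOf_eq, mem_Ioi, this]
    simp only [e2]
    rw [integral_indicator (measurableSet_lt hρc.measurable measurable_const), setIntegral_const,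
      smul_eq_mul]
    ring
  have hgr : ∀ r : ℝ, 0 < r → ∀ t : ℝ, 0 < t →
      (r ^ 2)⁻¹ * D.s.real {y | ρ y < t * r ^ 2} ≤ D.C / D.m * t := by
    intro r hr t ht
    have hr2 : 0 < r ^ 2 := by positivity
    have h1 : {y | ρ y < t * r ^ 2} ⊆ ball x (Real.sqrt (t / D.m) * r) := by
      intro y hy
      rw [mem_ball, dist_eq_norm]
      have h2 : D.m * ‖y - x‖ ^ 2 < t * r ^ 2 := (hρm y).trans_lt hy
      have h3 : ‖y - x‖ ^ 2 < (Real.sqrt (t / D.m) * r) ^ 2 := by
        rw [mul_pow, Real.sq_sqrt (by positivity), div_mul_eq_mul_div, lt_div_iff₀ hm]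
        linarith
      exact lt_of_pow_lt_pow_left₀ 2 (by positivity) h3
    have h4 : D.s.real {y | ρ y < t * r ^ 2} ≤ D.C * (Real.sqrt (t / D.m) * r) ^ 2 :=
      (measureReal_mono h1 (measure_ne_top _ _)).trans (D.gr x _ (by positivity))
    rw [mul_pow, Real.sq_sqrt (by positivity)] at h4
    rw [inv_mul_le_iff₀ hr2]
    refine h4.trans (le_of_eq ?_)
    field_simp
  have hlim : ∀ t : ℝ, 0 < t → Tendsto (fun r : ℝ =>
      (r ^ 2)⁻¹ * D.s.real {y | ρ y < t * r ^ 2}) (𝓝[>] 0) (𝓝 (Real.pi * t)) := by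
    intro t ht
    have hst : 0 < Real.sqrt t := Real.sqrt_pos.2 ht
    have h1 : Tendsto (fun r : ℝ => Real.sqrt t * r) (𝓝[>] 0) (𝓝[>] 0) := by
      refine tendsto_nhdsWithin_iff.2 ⟨?_, ?_⟩
      · have : Tendsto (fun r : ℝ => Real.sqrt t * r) (𝓝 0) (𝓝 (Real.sqrt t * 0)) :=
          tendsto_const_nhds.mul tendsto_id
        rw [mul_zero] at this
        exact this.mono_left nhdsWithin_le_nhds
      · filter_upwards [self_mem_nhdsWithin] with r hr
        exact mul_pos hst hr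
    have h2 := (hx.comp h1).mul_const (Real.pi * t)
    rw [one_mul] at h2
    refine h2.congr' ?_
    filter_upwards [self_mem_nhdsWithin] with r hr
    have hr' : (0 : ℝ) < r := hr
    simp only [Function.comp]
    have e : (Real.sqrt t * r) ^ 2 = t * r ^ 2 := by
      rw [mul_pow, Real.sq_sqrt ht.le]
    rw [e]
    show D.s.real {y | ρ y < t * r ^ 2} / (Real.pi * (t * r ^ 2)) * (Real.pi * t) =
      (r ^ 2)⁻¹ * D.s.real {y | ρ y < t * r ^ 2}
    field_simp
  -- dominated convergence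
  have hconv : Tendsto (fun r : ℝ => ∫ t in Ioi (0 : ℝ),
      deriv Ψ t * ((r ^ 2)⁻¹ * D.s.real {y | ρ y < t * r ^ 2})) (𝓝[>] 0)
      (𝓝 (∫ t in Ioi (0 : ℝ), deriv Ψ t * (Real.pi * t))) := by
    refine tendsto_integral_filter_of_dominated_convergence
      (fun t => |deriv Ψ t| * (D.C / D.m * |t|)) ?_ ?_ ?_ ?_
    · filter_upwards [self_mem_nhdsWithin] with r hr
      refine AEStronglyMeasurable.mul hd.aestronglyMeasurable ?_
      refine AEStronglyMeasurable.const_mul ?_ _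
      have hmono : Monotone fun t : ℝ => D.s.real {y | ρ y < t * r ^ 2} := by
        intro t t' h
        refine measureReal_mono ?_ (measure_ne_top _ _)
        intro y hy
        exact lt_of_lt_of_le hy (mul_le_mul_of_nonneg_right h (sq_nonneg r))
      exact hmono.measurable.aestronglyMeasurable
    · filter_upwards [self_mem_nhdsWithin] with r hr
      filter_upwards [ae_restrict_mem measurableSet_Ioi] with t ht
      rw [norm_mul, Real.norm_eq_abs, Real.norm_eq_abs]
      gcongr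
      rw [abs_of_nonneg (mul_nonneg (inv_nonneg.2 (sq_nonneg r)) measureReal_nonneg),
        abs_of_pos ht]
      exact hgr r hr t ht
    · refine Integrable.integrableOn ?_
      refine (hd.abs.mul (continuous_const.mul continuous_abs)).integrable_of_hasCompactSupport ?_
      exact (hdc.comp_left (g := fun z : ℝ => |z|) abs_zero).mul_right
    · filter_upwards [ae_restrict_mem measurableSet_Ioi] with t ht
      exact (hlim t ht).const_mul _
  have hfinal : Real.pi * ∫ u in Ioi (0 : ℝ), Ψ u =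
      - ∫ t in Ioi (0 : ℝ), deriv Ψ t * (Real.pi * t) := by
    have e : ∀ t, deriv Ψ t * (Real.pi * t) = Real.pi * (deriv Ψ t * t) := fun t => by ring
    simp only [e]
    rw [integral_const_mul, parts hΨ hΨc]
    ring
  rw [hfinal]
  refine (hconv.neg).congr' ?_
  filter_upwards [self_mem_nhdsWithin] with r hr
  exact (key r hr).symm

end Crest.Agent.R235.FlatRadi_125
end

-- ▼ part R235/FlatPlane_291

/-!
Row 235, package REG, block FLATW (helper607), leaf 7 PLANE (helper291): asymptotically translation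
invariant planar measures with the right values on radial functions converge to `a • volume`.
-/

set_option autoImplicit false
set_option maxSynthPendingDepth 3

open Set Function Filter MeasureTheory Metric Complex
open scoped ContDiff ENNReal Topology

namespace Crest.Agent.R235.FlatPlane_291

noncomputable section

/-- radial integrals in the plane. -/
theorem radial (Ψ : ℝ → ℝ) : ∫ ζ : ℂ, Ψ (‖ζ‖ ^ 2) = Real.pi * ∫ u in Ioi (0 : ℝ), Ψ u := by
  have h1 := integral_fun_norm_addHaar (volume : Measure ℂ) (fun y => Ψ (y ^ 2))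
  have h2 := integral_comp_rpow_Ioi_of_pos (g := Ψ) (p := 2) (by norm_num)
  have h3 : (volume : Measure ℂ).real (ball 0 1) = Real.pi := by
    rw [Measure.real, Complex.volume_ball]
    simp
  rw [h1, h3, Complex.finrank_real_complex, ← h2]
  have h4 : ∫ x in Ioi (0 : ℝ), (2 * x ^ ((2 : ℝ) - 1)) • Ψ (x ^ (2 : ℝ)) =
      2 * ∫ y in Ioi (0 : ℝ), y ^ (2 - 1) • Ψ (y ^ 2) := by
    rw [← integral_const_mul]
    refine setIntegral_congr_fun measurableSet_Ioi fun x _ => ?_
    have e1 : x ^ ((2 : ℝ) - 1) = x := by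
      rw [show (2 : ℝ) - 1 = 1 by norm_num, Real.rpow_one]
    have e2 : x ^ (2 : ℝ) = x ^ 2 := by
      rw [← Real.rpow_natCast]; norm_num
    simp only [e1, e2, smul_eq_mul]
    norm_num
    ring
  rw [h4]
  simp only [smul_eq_mul, nsmul_eq_mul]
  push_cast
  ring

/-- hypotheses for finite measures. -/
structure H (ν : ℝ → Measure ℂ) (ρ C a : ℝ) : Prop where
  pos : 0 < ρ
  C0 : 0 ≤ C
  fin : ∀ r, IsFiniteMeasure (ν r)
  mass : ∀ r, (ν r).real univ ≤ C
  tr : ∀ h : ℂ → ℝ, ContDiff ℝ ∞ h → HasCompactSupport h → tsupport h ⊆ ball 0 ρ → ∀ e : ℂ,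
    Tendsto (fun r => ∫ ζ, fderiv ℝ h ζ e ∂(ν r)) (𝓝[>] 0) (𝓝 0)
  rad : ∀ Ψ : ℝ → ℝ, ContDiff ℝ ∞ Ψ → HasCompactSupport Ψ → (∀ u, ρ ^ 2 / 4 ≤ u → Ψ u = 0) →
    Tendsto (fun r => ∫ ζ, Ψ (‖ζ‖ ^ 2) ∂(ν r)) (𝓝[>] 0)
      (𝓝 (a * (Real.pi * ∫ u in Ioi (0 : ℝ), Ψ u)))

theorem tsupport_trans {ψ : ℂ → ℝ} {δ : ℝ} (h : tsupport ψ ⊆ closedBall 0 δ) (c : ℂ) :
    tsupport (fun ζ => ψ (ζ - c)) ⊆ closedBall c δ := by
  refine closure_minimal (fun ζ hζ => ?_) isClosed_closedBall
  have h1 : ζ - c ∈ tsupport ψ := subset_tsupport ψ hζ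
  have h2 := h h1
  rw [mem_closedBall, dist_zero_right] at h2
  rwa [mem_closedBall, dist_eq_norm]

theorem fd_trans {ψ : ℂ → ℝ} (hψ : ContDiff ℝ ∞ ψ) (c ζ e : ℂ) :
    fderiv ℝ (fun z => ψ (z - c)) ζ e = fderiv ℝ ψ (ζ - c) e := by
  have h1 : HasFDerivAt (fun z => ψ (z - c)) (fderiv ℝ ψ (ζ - c)) ζ := by
    have h2 := ((hψ.differentiable (by simp)) (ζ - c)).hasFDerivAt
    have h3 : HasFDerivAt (fun z : ℂ => z - c) (ContinuousLinearMap.id ℝ ℂ) ζ :=
      (hasFDerivAt_id ζ).sub_const c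
    exact h2.comp ζ h3
  rw [h1.fderiv]

/-- asymptotic translation invariance. -/
theorem trans {ν : ℝ → Measure ℂ} {ρ C a : ℝ} (h : H ν ρ C a) {ψ : ℂ → ℝ} {δ : ℝ}
    (hψ : ContDiff ℝ ∞ ψ) (hc : HasCompactSupport ψ) (hs : tsupport ψ ⊆ closedBall 0 δ)
    (hδ : δ < ρ / 2) {w : ℂ} (hw : ‖w‖ ≤ ρ / 2) :
    Tendsto (fun r => ∫ ζ, ψ (ζ - w) ∂(ν r) - ∫ ζ, ψ ζ ∂(ν r)) (𝓝[>] 0) (𝓝 0) := by
  have hfin := h.fin
  have hcd : Continuous (fderiv ℝ ψ) := hψ.continuous_fderiv (by simp)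
  obtain ⟨K, hK⟩ := hc.fderiv (𝕜 := ℝ) |>.exists_bound_of_continuous hcd
  have hψc := hψ.continuous
  obtain ⟨K0, hK0⟩ := hc.exists_bound_of_continuous hψc
  have hint0 : ∀ (r : ℝ) (c : ℂ), Integrable (fun ζ => ψ (ζ - c)) (ν r) := fun r c =>
    Integrable.of_bound (hψc.comp (continuous_id.sub continuous_const)).aestronglyMeasurable K0
      (ae_of_all _ fun ζ => hK0 _)
  have hbd : ∀ (t : ℝ) (ζ : ℂ), ‖fderiv ℝ ψ (ζ - t • w) (-w)‖ ≤ K * ‖w‖ := by
    intro t ζ
    calc ‖fderiv ℝ ψ (ζ - t • w) (-w)‖ ≤ ‖fderiv ℝ ψ (ζ - t • w)‖ * ‖-w‖ :=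
          ContinuousLinearMap.le_opNorm _ _
      _ ≤ K * ‖w‖ := by
          rw [norm_neg]
          exact mul_le_mul_of_nonneg_right (hK _) (norm_nonneg _)
  have hcont : Continuous (fun p : ℝ × ℂ => fderiv ℝ ψ (p.2 - p.1 • w) (-w)) :=
    (hcd.comp (by fun_prop)).clm_apply continuous_const
  have hprod : ∀ r, Integrable (uncurry fun (t : ℝ) (ζ : ℂ) => fderiv ℝ ψ (ζ - t • w) (-w))
      ((volume.restrict (uIoc (0 : ℝ) 1)).prod (ν r)) := by
    intro r
    have : IsFiniteMeasure (volume.restrict (uIoc (0 : ℝ) 1)) := by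
      rw [uIoc_of_le zero_le_one]; infer_instance
    exact Integrable.of_bound hcont.aestronglyMeasurable (K * ‖w‖)
      (ae_of_all _ fun p => hbd p.1 p.2)
  have key : ∀ r, ∫ ζ, ψ (ζ - w) ∂(ν r) - ∫ ζ, ψ ζ ∂(ν r) =
      ∫ t in (0 : ℝ)..1, ∫ ζ, fderiv ℝ ψ (ζ - t • w) (-w) ∂(ν r) := by
    intro r
    rw [intervalIntegral_integral_swap (hprod r)]
    have e1 : ∀ ζ : ℂ, (∫ t in (0 : ℝ)..1, fderiv ℝ ψ (ζ - t • w) (-w)) = ψ (ζ - w) - ψ ζ := by
      intro ζ
      have h1 : ∀ t ∈ uIcc (0 : ℝ) 1, HasDerivAt (fun t : ℝ => ψ (ζ - t • w))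
          (fderiv ℝ ψ (ζ - t • w) (-w)) t := by
        intro t _
        have h2 : HasDerivAt (fun t : ℝ => ζ - t • w) (-w) t := by
          simpa using ((hasDerivAt_id t).smul_const w).const_sub ζ
        exact ((hψ.differentiable (by simp)) (ζ - t • w)).hasFDerivAt.comp_hasDerivAt t h2
      rw [intervalIntegral.integral_eq_sub_of_hasDerivAt h1
        ((hcont.comp (by fun_prop : Continuous fun t : ℝ => (t, ζ))).intervalIntegrable _ _)]
      simp
    simp only [e1]
    rw [integral_sub (hint0 r w) (by simpa using hint0 r 0)]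
  simp only [key]
  have main : Tendsto (fun r => ∫ t in (0 : ℝ)..1, ∫ ζ, fderiv ℝ ψ (ζ - t • w) (-w) ∂(ν r))
      (𝓝[>] 0) (𝓝 (∫ _ in (0 : ℝ)..1, (0 : ℝ))) := ?_
  · simpa using main
  refine intervalIntegral.tendsto_integral_filter_of_dominated_convergence
    (fun _ => K * ‖w‖ * C) ?_ ?_ intervalIntegrable_const ?_
  · exact Eventually.of_forall fun r => (hprod r).integral_prod_left.aestronglyMeasurable
  · refine Eventually.of_forall fun r => ae_of_all _ fun t _ => ?_
    have hK0' : 0 ≤ K * ‖w‖ := (norm_nonneg _).trans (hbd 0 0)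
    calc ‖∫ ζ, fderiv ℝ ψ (ζ - t • w) (-w) ∂(ν r)‖ ≤ K * ‖w‖ * (ν r).real univ :=
          norm_integral_le_of_norm_le_const (ae_of_all _ fun ζ => hbd t ζ)
      _ ≤ K * ‖w‖ * C := mul_le_mul_of_nonneg_left (h.mass r) hK0'
  · refine ae_of_all _ fun t ht => ?_
    rw [uIoc_of_le zero_le_one] at ht
    have h1 : Tendsto (fun r => ∫ ζ, fderiv ℝ (fun ζ => ψ (ζ - t • w)) ζ (-w) ∂(ν r)) (𝓝[>] 0)
        (𝓝 0) := h.tr (fun ζ => ψ (ζ - t • w)) (hψ.comp (contDiff_id.sub contDiff_const)) (by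
        refine HasCompactSupport.of_support_subset_isCompact (isCompact_closedBall (t • w) δ) ?_
        exact (subset_tsupport _).trans (tsupport_trans hs _))
      ((tsupport_trans hs _).trans fun ζ hζ => by
        rw [mem_closedBall, dist_eq_norm] at hζ
        rw [mem_ball, dist_zero_right]
        have h2 : ‖t • w‖ ≤ ρ / 2 := by
          rw [norm_smul, Real.norm_eq_abs, abs_of_pos ht.1]
          calc t * ‖w‖ ≤ 1 * ‖w‖ := mul_le_mul_of_nonneg_right ht.2 (norm_nonneg _)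
            _ ≤ ρ / 2 := by rw [one_mul]; exact hw
        calc ‖ζ‖ = ‖(ζ - t • w) + t • w‖ := by rw [sub_add_cancel]
          _ ≤ ‖ζ - t • w‖ + ‖t • w‖ := norm_add_le _ _
          _ < ρ := by linarith) (-w)
    refine h1.congr fun r => ?_
    exact integral_congr_ae (ae_of_all _ fun ζ => fd_trans hψ _ _ _)

/-- the conclusion for finite measures. -/
theorem core {ν : ℝ → Measure ℂ} {ρ C a : ℝ} (H0 : H ν ρ C a) {h : ℂ → ℝ} (hh : Continuous h)
    (hs : tsupport h ⊆ ball 0 (ρ / 2)) :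
    Tendsto (fun r => ∫ ζ, h ζ ∂(ν r)) (𝓝[>] 0) (𝓝 (a * ∫ ζ, h ζ)) := by
  have hfin := H0.fin
  have hρ := H0.pos
  have hhc : HasCompactSupport h :=
    HasCompactSupport.of_support_subset_isCompact (isCompact_closedBall 0 (ρ / 2))
      ((subset_tsupport h).trans (hs.trans ball_subset_closedBall))
  obtain ⟨Kh, hKh⟩ := hhc.exists_bound_of_continuous hh
  have hhi : Integrable h (volume : Measure ℂ) := hh.integrable_of_hasCompactSupport hhc
  have hhν : ∀ r, Integrable h (ν r) := fun r =>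
    Integrable.of_bound hh.aestronglyMeasurable Kh (ae_of_all _ hKh)
  have huc : UniformContinuous h := hhc.uniformContinuous_of_continuous hh
  rw [Metric.tendsto_nhds]
  intro ε' hε'
  set ε : ℝ := ε' / (2 * (C + 1)) with hε
  have hC := H0.C0
  have hε0 : 0 < ε := by positivity
  obtain ⟨δ₀, hδ₀, huc'⟩ := Metric.uniformContinuous_iff.1 huc ε hε0
  set δ : ℝ := min δ₀ (ρ / 4) / 2 with hδ
  have hδ0 : 0 < δ := by positivity
  have hδ1 : δ < δ₀ := by
    have := min_le_left δ₀ (ρ / 4)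
    have h2 : 0 < min δ₀ (ρ / 4) := by positivity
    linarith
  have hδ2 : δ < ρ / 2 := by
    have := min_le_right δ₀ (ρ / 4)
    linarith
  -- the bump
  let f : ContDiffBump (0 : ℝ) := ⟨δ ^ 2 / 2, δ ^ 2, by positivity, by
    have : 0 < δ ^ 2 := by positivity
    linarith⟩
  have hf0 : ∀ u, δ ^ 2 ≤ u → f u = 0 := fun u hu => f.zero_of_le_dist (by
    rw [dist_zero_right, Real.norm_eq_abs]
    exact hu.trans (le_abs_self u))
  set ψ : ℂ → ℝ := fun ζ => f (‖ζ‖ ^ 2) with hψdef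
  have hψ : ContDiff ℝ ∞ ψ := f.contDiff.comp (contDiff_norm_sq ℝ)
  have hψ0 : ∀ ζ, 0 ≤ ψ ζ := fun ζ => f.nonneg
  have hψz : ∀ ζ, δ ≤ ‖ζ‖ → ψ ζ = 0 := fun ζ hζ => hf0 _ (by gcongr)
  have hψs : tsupport ψ ⊆ closedBall 0 δ := by
    refine closure_minimal (fun ζ hζ => ?_) isClosed_closedBall
    rw [mem_closedBall, dist_zero_right]
    by_contra h1
    exact hζ (hψz ζ (not_le.1 h1).le)
  have hψc : HasCompactSupport ψ :=
    HasCompactSupport.of_support_subset_isCompact (isCompact_closedBall 0 δ)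
      ((subset_tsupport ψ).trans hψs)
  have hψcont := hψ.continuous
  obtain ⟨K, hK⟩ := hψc.exists_bound_of_continuous hψcont
  have hψi : Integrable ψ (volume : Measure ℂ) := hψcont.integrable_of_hasCompactSupport hψc
  set c : ℝ := ∫ ζ, ψ ζ with hc
  have hcpos : 0 < c := by
    refine hψcont.integral_pos_of_hasCompactSupport_nonneg_nonzero hψc hψ0 (x := 0) ?_
    show f (‖(0 : ℂ)‖ ^ 2) ≠ 0
    rw [norm_zero, zero_pow two_ne_zero]
    have : f 0 = 1 := f.one_of_mem_closedBall (mem_closedBall_self f.rIn_pos.le)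
    rw [this]; exact one_ne_zero
  -- `I_r(w) → a c`
  have hI0 : Tendsto (fun r => ∫ ζ, ψ ζ ∂(ν r)) (𝓝[>] 0) (𝓝 (a * c)) := by
    have h1 := H0.rad f f.contDiff f.hasCompactSupport (fun u hu => hf0 u (by
      have : δ ^ 2 ≤ (ρ / 2) ^ 2 := by gcongr
      linarith [this, show (ρ / 2) ^ 2 = ρ ^ 2 / 4 by ring]))
    rw [← radial] at h1
    exact h1
  have hIw : ∀ w : ℂ, ‖w‖ ≤ ρ / 2 →
      Tendsto (fun r => ∫ ζ, ψ (ζ - w) ∂(ν r)) (𝓝[>] 0) (𝓝 (a * c)) := by
    intro w hw
    have h1 := (trans H0 hψ hψc hψs hδ2 hw).add hI0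
    simpa using h1
  -- the convolution
  have hprod : ∀ r, Integrable (uncurry fun (ζ w : ℂ) => h w * ψ (ζ - w))
      ((ν r).prod (volume : Measure ℂ)) := by
    intro r
    have h1 : Integrable (fun z : ℂ × ℂ => K * ‖h z.2‖) ((ν r).prod (volume : Measure ℂ)) :=
      (integrable_const K).mul_prod hhi.norm
    refine h1.mono' (Continuous.aestronglyMeasurable ?_) (ae_of_all _ fun z => ?_)
    · exact (hh.comp continuous_snd).mul (hψcont.comp (continuous_fst.sub continuous_snd))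
    · show ‖h z.2 * ψ (z.1 - z.2)‖ ≤ K * ‖h z.2‖
      rw [norm_mul, mul_comm]
      exact mul_le_mul_of_nonneg_right (hK _) (norm_nonneg _)
  set cv : ℂ → ℝ := fun ζ => ∫ w, h w * ψ (ζ - w) with hcv
  have hcvi : ∀ r, Integrable cv (ν r) := fun r => (hprod r).integral_prod_left
  have hA : Tendsto (fun r => ∫ ζ, cv ζ ∂(ν r)) (𝓝[>] 0) (𝓝 (∫ w, h w * (a * c))) := by
    have e1 : ∀ r, ∫ ζ, cv ζ ∂(ν r) = ∫ w, h w * ∫ ζ, ψ (ζ - w) ∂(ν r) := by
      intro r
      rw [hcv, integral_integral_swap (hprod r)]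
      simp only [integral_const_mul]
    simp only [e1]
    refine tendsto_integral_filter_of_dominated_convergence (fun w => ‖h w‖ * (K * C)) ?_ ?_
      (hhi.norm.mul_const _) ?_
    · refine Eventually.of_forall fun r => ?_
      have h1 := (hprod r).integral_prod_right.aestronglyMeasurable
      simp only [uncurry_apply_pair, integral_const_mul] at h1
      exact h1
    · refine Eventually.of_forall fun r => ae_of_all _ fun w => ?_
      rw [norm_mul]
      refine mul_le_mul_of_nonneg_left ?_ (norm_nonneg _)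
      have hK0 : 0 ≤ K := (norm_nonneg _).trans (hK 0)
      calc ‖∫ ζ, ψ (ζ - w) ∂(ν r)‖ ≤ K * (ν r).real univ :=
            norm_integral_le_of_norm_le_const (ae_of_all _ fun ζ => hK _)
        _ ≤ K * C := mul_le_mul_of_nonneg_left (H0.mass r) hK0
    · refine ae_of_all _ fun w => ?_
      by_cases hw : ‖w‖ ≤ ρ / 2
      · exact (hIw w hw).const_mul _
      · have : h w = 0 := by
          by_contra h1
          have := hs (subset_tsupport h h1)
          rw [mem_ball, dist_zero_right] at this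
          exact hw this.le
        simp [this]
  -- uniform approximation
  have hint2 : ∀ ζ : ℂ, ∫ w, ψ (ζ - w) = c := fun ζ => integral_sub_left_eq_self ψ volume ζ
  have hψi2 : ∀ ζ : ℂ, Integrable (fun w => ψ (ζ - w)) (volume : Measure ℂ) := fun ζ =>
    hψi.comp_sub_left ζ
  have hB : ∀ ζ : ℂ, |c * h ζ - cv ζ| ≤ ε * c := by
    intro ζ
    have hi1 : Integrable (fun w => h ζ * ψ (ζ - w)) (volume : Measure ℂ) := (hψi2 ζ).const_mul _
    have hi2 : Integrable (fun w => h w * ψ (ζ - w)) (volume : Measure ℂ) :=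
      (hh.mul (hψcont.comp (continuous_const.sub continuous_id))).integrable_of_hasCompactSupport
        hhc.mul_right
    have e1 : c * h ζ - cv ζ = ∫ w, (h ζ * ψ (ζ - w) - h w * ψ (ζ - w)) := by
      rw [integral_sub hi1 hi2, integral_const_mul, hint2, mul_comm]
    rw [e1]
    calc |∫ w, (h ζ * ψ (ζ - w) - h w * ψ (ζ - w))|
        ≤ ∫ w, ε * ψ (ζ - w) := by
          rw [← Real.norm_eq_abs]
          refine norm_integral_le_of_norm_le ((hψi2 ζ).const_mul _) (ae_of_all _ fun w => ?_)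
          rw [← sub_mul, norm_mul, Real.norm_of_nonneg (hψ0 _)]
          by_cases hw : δ ≤ ‖ζ - w‖
          · rw [hψz _ hw, mul_zero, mul_zero]
          · refine mul_le_mul_of_nonneg_right ?_ (hψ0 _)
            have h1 : dist ζ w < δ₀ := by
              rw [dist_eq_norm]
              exact (not_le.1 hw).trans hδ1
            exact (huc' h1).le
      _ = ε * c := by rw [integral_const_mul, hint2]
  have hA' : ∀ᶠ r in 𝓝[>] (0 : ℝ), dist (∫ ζ, cv ζ ∂(ν r)) (∫ w, h w * (a * c)) < c * (ε' / 2) :=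
    Metric.tendsto_nhds.1 hA _ (by positivity)
  filter_upwards [hA'] with r hr
  rw [Real.dist_eq] at hr ⊢
  rw [integral_mul_const] at hr
  have h1 : |c * ∫ ζ, h ζ ∂(ν r) - ∫ ζ, cv ζ ∂(ν r)| ≤ ε * c * C := by
    rw [← integral_const_mul, ← integral_sub ((hhν r).const_mul c) (hcvi r), ← Real.norm_eq_abs]
    calc ‖∫ ζ, (c * h ζ - cv ζ) ∂(ν r)‖ ≤ ε * c * (ν r).real univ :=
          norm_integral_le_of_norm_le_const (ae_of_all _ fun ζ => hB ζ)
      _ ≤ ε * c * C := mul_le_mul_of_nonneg_left (H0.mass r) (by positivity)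
  have h2 : c * |∫ ζ, h ζ ∂(ν r) - a * ∫ ζ, h ζ| < c * ε' := by
    rw [← abs_of_pos hcpos, ← abs_mul, abs_of_pos hcpos]
    have e1 : c * (∫ ζ, h ζ ∂(ν r) - a * ∫ ζ, h ζ) =
        (c * ∫ ζ, h ζ ∂(ν r) - ∫ ζ, cv ζ ∂(ν r)) +
          (∫ ζ, cv ζ ∂(ν r) - (∫ ζ, h ζ) * (a * c)) := by ring
    rw [e1]
    have h3 : ε * c * C < c * (ε' / 2) := by
      have h4 : ε * C < ε' / 2 := by
        have h5 : ε * (C + 1) = ε' / 2 := by
          rw [hε]; field_simp
        nlinarith
      nlinarith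
    calc |_ + _| ≤ _ := abs_add_le _ _
      _ < c * ε' := by linarith
  exact lt_of_mul_lt_mul_left h2 hcpos.le

/-- **leaf PLANE**. -/
theorem plane : Flat.PLANE := by
  intro μ ρ C a hρ hC htr hrad h hh hs
  classical
  let ν : ℝ → Measure ℂ := fun r => if μ r (closedBall 0 ρ) ≤ ENNReal.ofReal C then
    (μ r).restrict (closedBall 0 ρ) else 0
  have hν : ∀ f : ℂ → ℝ, (∀ ζ, ζ ∉ closedBall (0 : ℂ) ρ → f ζ = 0) →
      (fun r => ∫ ζ, f ζ ∂(μ r)) =ᶠ[𝓝[>] 0] fun r => ∫ ζ, f ζ ∂(ν r) := by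
    intro f hf
    filter_upwards [hC] with r hr
    show _ = ∫ ζ, f ζ ∂(if μ r (closedBall 0 ρ) ≤ ENNReal.ofReal C then
      (μ r).restrict (closedBall 0 ρ) else 0)
    rw [if_pos hr]
    exact (setIntegral_eq_integral_of_forall_compl_eq_zero hf).symm
  have H0 : H ν ρ (max C 0) a :=
    { pos := hρ
      C0 := le_max_right _ _
      fin := fun r => by
        show IsFiniteMeasure (if μ r (closedBall 0 ρ) ≤ ENNReal.ofReal C then
          (μ r).restrict (closedBall 0 ρ) else 0)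
        split_ifs with h1
        · exact ⟨by
            rw [Measure.restrict_apply_univ]
            exact h1.trans_lt ENNReal.ofReal_lt_top⟩
        · infer_instance
      mass := fun r => by
        show (if μ r (closedBall 0 ρ) ≤ ENNReal.ofReal C then
          (μ r).restrict (closedBall 0 ρ) else 0 : Measure ℂ).real univ ≤ _
        split_ifs with h1
        · rw [Measure.real, Measure.restrict_apply_univ]
          calc (μ r (closedBall 0 ρ)).toReal ≤ (ENNReal.ofReal C).toReal :=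
                ENNReal.toReal_mono ENNReal.ofReal_ne_top h1
            _ = max C 0 := ENNReal.toReal_ofReal'
        · simp
      tr := fun g hg hgc hgs e => by
        refine (htr g hg hgc hgs e).congr' (hν _ fun ζ hζ => ?_)
        have h1 : ζ ∉ tsupport g := fun h2 => hζ (ball_subset_closedBall (hgs h2))
        have h3 : g =ᶠ[𝓝 ζ] 0 := notMem_tsupport_iff_eventuallyEq.1 h1
        rw [h3.fderiv_eq]
        simp
      rad := fun Ψ h1 h2 h3 => by
        refine (hrad Ψ h1 h2 h3).congr' (hν _ fun ζ hζ => h3 _ ?_)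
        rw [mem_closedBall, dist_zero_right, not_le] at hζ
        have : ρ ^ 2 ≤ ‖ζ‖ ^ 2 := by gcongr
        nlinarith [sq_nonneg ρ] }
  refine (core H0 hh hs).congr' (hν h fun ζ hζ => ?_).symm
  by_contra h1
  apply hζ
  have h2 := hs (subset_tsupport h h1)
  rw [mem_ball, dist_zero_right] at h2
  rw [mem_closedBall, dist_zero_right]
  linarith

end

end Crest.Agent.R235.FlatPlane_291
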