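import Crest.Agent.R235.NWTool_334
import Crest.Agent.R235.NWHol_952
import Crest.Agent.R235.NWJ_130

-- ▼ part R235/NWLoc_334
section

/-!
# Row 235, PACKAGE NW (helper334): local smoothness of families (`regp`)
-/

set_option autoImplicit false
set_option maxSynthPendingDepth 3

open Set Filter Metric Topology MeasureTheory
open scoped ContDiff Real

namespace Crest.Agent.R235.NWLoc_334

open Crest.Agent.R235.NWDefs_334 Crest.Agent.R235.NWIface_334 Crest.Agent.R235.NWTool_334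

noncomputable section

open Crest.Agent.R235.NWHol_952 (HB.comp_lip HB.bilin HB.add HB.mono HB.const)

section comp

variable {a : ℝ} {E : Type*} [NormedAddCommGroup E] [NormedSpace ℝ E]

/-- composition with a `C^{1,a}` change of variables close to the identity -/
theorem exists_comp (ha : 0 < a) (ha1 : a < 1) (w : C1a a ℂ E) (φ : ℂ → ℂ)
    (D : ℂ → ℂ →L[ℝ] ℂ) (hφ : ∀ z, HasFDerivAt φ (D z) z)
    (hL : ∀ x y, dist (φ x) (φ y) ≤ 2 * dist x y) (hD : HB a (3/2) D) :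
    ∃ u : C1a a ℂ E, (∀ z, C1f u z = C1f w (φ z)) ∧ (∀ z, C1d u z = (C1d w (φ z)).comp (D z)) ∧
      ‖u‖ ≤ 6 * ‖w‖ := by
  have h2 : max 1 ((2:ℝ) ^ a) ≤ 2 := by
    refine max_le one_le_two ?_
    calc (2:ℝ) ^ a ≤ 2 ^ (1:ℝ) := Real.rpow_le_rpow_of_exponent_le one_le_two ha1.le
      _ = 2 := Real.rpow_one 2
  have hw := norm_nonneg w
  have h1 : HB a (2 * ‖w‖) (fun z => C1f w (φ z)) :=
    HB.mono (HB.comp_lip ha.le zero_le_two hw hL (c1_hb ha w))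
      (mul_le_mul_of_nonneg_right h2 hw)
  have h3 : HB a (2 * ‖w‖) (fun z => C1d w (φ z)) :=
    HB.mono (HB.comp_lip ha.le zero_le_two hw hL (c1_hbd ha w))
      (mul_le_mul_of_nonneg_right h2 hw)
  have h4 := HB.bilin (ContinuousLinearMap.compL ℝ ℂ ℂ E) (by positivity : 0 ≤ 2 * ‖w‖)
    (by norm_num : (0:ℝ) ≤ 3/2) h3 hD
  have h5 : ‖ContinuousLinearMap.compL ℝ ℂ ℂ E‖ ≤ 1 := ContinuousLinearMap.norm_compL_le _ _ _ _
  refine exists_c1 ha (by positivity : 0 ≤ 6 * ‖w‖) (HB.mono h1 (by linarith)) (HB.mono h4 ?_)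
    fun z => ?_
  · calc 2 * ‖ContinuousLinearMap.compL ℝ ℂ ℂ E‖ * (2 * ‖w‖) * (3/2)
        ≤ 2 * 1 * (2 * ‖w‖) * (3/2) := by gcongr
      _ = 6 * ‖w‖ := by ring
  · exact (c1_fd w (φ z)).comp z (hφ z)

end comp

section fam

theorem exists_cst (hFam : FamStmt) {a : ℝ} (ha : 0 < a) (ha1 : a < 1) {F : Type}
    [NormedAddCommGroup F] [NormedSpace ℝ F] [FiniteDimensional ℝ F] {f : ℂ → F} {R : ℝ}
    (hf : ContDiff ℝ ∞ f) (h0 : ∀ z, R ≤ ‖z‖ → f z = 0) :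
    ∃ c : C1a a ℂ F, ∀ z, C1f c z = f z := by
  obtain ⟨c, _, hc⟩ := hFam ℂ F a ha ha1 (fun p : ℂ × ℂ => f p.2) R (hf.comp contDiff_snd)
    (fun _ z hz => h0 z hz)
  exact ⟨c 0, fun z => hc 0 z⟩

theorem exists_fam (hFam : FamStmt) {a : ℝ} (ha : 0 < a) (ha1 : a < 1) {P : Type}
    [NormedAddCommGroup P] [NormedSpace ℝ P] [FiniteDimensional ℝ P] (z0 : ℂ) {ρ : ℝ}
    (hρ : 0 < ρ) {Q : ℂ → P} (hQ : ContDiff ℝ ∞ Q) (hQs : HasCompactSupport Q) :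
    ∃ (t : ℝ) (φ : ℂ → ℂ → ℂ) (D : ℂ → ℂ → ℂ →L[ℝ] ℂ) (M : ℂ → Hol a ℂ (ℂ →L[ℝ] ℂ))
      (q : ℂ → Hol a ℂ P), 0 < t ∧ ContDiff ℝ ∞ M ∧ ContDiff ℝ ∞ q ∧ M 0 = 0 ∧
      (∀ z, φ 0 z = z) ∧ (∀ τ ∈ ball (0 : ℂ) t, φ τ z0 = z0 + τ) ∧
      (∀ τ z, HasFDerivAt (φ τ) (D τ z) z) ∧
      (∀ τ x y, dist (φ τ x) (φ τ y) ≤ 2 * dist x y) ∧ (∀ τ, HB a (3/2) (D τ)) ∧
      (∀ τ z, (D τ z).comp (ContinuousLinearMap.id ℝ ℂ + Hol.fn (M τ) z) =
        ContinuousLinearMap.id ℝ ℂ) ∧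
      (∀ τ, ∀ z ∈ ball z0 ρ, φ τ z ∈ ball z0 ρ) ∧
      (∀ τ z, z ∉ ball z0 ρ → φ τ z = z ∧ Hol.fn (M τ) z = 0) ∧
      ∀ τ z, Hol.fn (q τ) z = Q (φ τ z) := by
  let β : ContDiffBump z0 := ⟨ρ / 4, ρ / 2, by positivity, by linarith⟩
  have hβ : ContDiff ℝ ∞ (β : ℂ → ℝ) := β.contDiff
  have hβ' : ContDiff ℝ ∞ (fderiv ℝ (β : ℂ → ℝ)) := hβ.fderiv_right (by simp)
  have hβout : ∀ z, z ∉ ball z0 ρ → (β : ℂ → ℝ) =ᶠ[𝓝 z] fun _ => 0 := by
    intro z hz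
    have hz' : z ∈ (closedBall z0 (ρ / 2))ᶜ := by
      rw [mem_compl_iff, mem_closedBall]
      rw [mem_ball] at hz
      intro h; exact hz (lt_of_le_of_lt h (by linarith))
    filter_upwards [isClosed_closedBall.isOpen_compl.mem_nhds hz'] with y hy
    rw [mem_compl_iff, mem_closedBall, not_le] at hy
    exact β.zero_of_le_dist hy.le
  have hβ0 : ∀ z, z ∉ ball z0 ρ → β z = 0 := fun z hz => (hβout z hz).self_of_nhds
  have hβ0' : ∀ z, z ∉ ball z0 ρ → fderiv ℝ (β : ℂ → ℝ) z = 0 := fun z hz => by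
    rw [(hβout z hz).fderiv_eq, fderiv_const_apply]
  have hfar : ∀ z, ‖z0‖ + ρ ≤ ‖z‖ → z ∉ ball z0 ρ := by
    intro z hz h
    rw [mem_ball, dist_eq_norm] at h
    have : ‖z‖ ≤ ‖z0‖ + ‖z - z0‖ := by
      calc ‖z‖ = ‖z0 + (z - z0)‖ := by congr 1; abel
        _ ≤ _ := norm_add_le _ _
    linarith
  obtain ⟨cβ, hcβ⟩ := exists_cst hFam ha ha1 hβ' (R := ‖z0‖ + ρ) fun z hz => hβ0' z (hfar z hz)
  have hcβ' : C1f cβ = fderiv ℝ (β : ℂ → ℝ) := funext hcβ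
  have hB : HB a ‖cβ‖ (fderiv ℝ (β : ℂ → ℝ)) := hcβ' ▸ c1_hb ha cβ
  have hC0 : 0 ≤ ‖cβ‖ := norm_nonneg _
  set C := ‖cβ‖ with hC
  let t0 : ℝ := min (ρ / 4) (1 / (2 * (C + 1)))
  have ht0 : 0 < t0 := lt_min (by positivity) (by positivity)
  have ht1 : t0 ≤ ρ / 4 := min_le_left _ _
  have ht2 : C * t0 ≤ 1 / 2 := by
    have h1 : t0 ≤ 1 / (2 * (C + 1)) := min_le_right _ _
    calc C * t0 ≤ C * (1 / (2 * (C + 1))) := mul_le_mul_of_nonneg_left h1 hC0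
      _ ≤ 1 / 2 := by
        rw [mul_one_div, div_le_div_iff₀ (by positivity) (by positivity)]
        nlinarith
  let lam : ContDiffBump (0 : ℂ) := ⟨t0 / 2, t0, by positivity, by linarith⟩
  let σ : ℂ → ℂ := fun τ => lam τ • τ
  have hσs : ContDiff ℝ ∞ σ := lam.contDiff.smul contDiff_id
  have hσn : ∀ τ, ‖σ τ‖ ≤ t0 := by
    intro τ
    show ‖lam τ • τ‖ ≤ t0
    by_cases h : ‖τ‖ ≤ t0
    · rw [norm_smul, Real.norm_of_nonneg lam.nonneg]
      calc lam τ * ‖τ‖ ≤ 1 * t0 := mul_le_mul lam.le_one h (norm_nonneg _) zero_le_one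
        _ = t0 := one_mul _
    · rw [lam.zero_of_le_dist (by rw [dist_zero_right]; exact (not_le.1 h).le), zero_smul,
        norm_zero]
      exact ht0.le
  have hσ0 : σ 0 = 0 := by show lam 0 • (0 : ℂ) = 0; rw [smul_zero]
  have hσ1 : ∀ τ ∈ ball (0 : ℂ) (t0 / 2), σ τ = τ := by
    intro τ hτ
    show lam τ • τ = τ
    rw [lam.one_of_mem_closedBall (ball_subset_closedBall hτ), one_smul]
  let φ : ℂ → ℂ → ℂ := fun τ z => z + β z • σ τ
  let X : ℂ → ℂ → ℂ →L[ℝ] ℂ := fun τ z => (fderiv ℝ (β : ℂ → ℝ) z).smulRight (σ τ)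
  let D : ℂ → ℂ → ℂ →L[ℝ] ℂ := fun τ z => 1 + X τ z
  have hXn : ∀ τ z, ‖X τ z‖ ≤ 1 / 2 := by
    intro τ z
    show ‖(fderiv ℝ (β : ℂ → ℝ) z).smulRight (σ τ)‖ ≤ 1 / 2
    rw [ContinuousLinearMap.norm_smulRight_apply]
    calc _ ≤ C * t0 := mul_le_mul (hB.bdd z) (hσn τ) (norm_nonneg _) hC0
      _ ≤ _ := ht2
  have hXh : ∀ τ, HB a (1/2) (X τ) := by
    intro τ
    refine ⟨hXn τ, fun x y => ?_⟩
    have e : X τ x - X τ y =
        (fderiv ℝ (β : ℂ → ℝ) x - fderiv ℝ (β : ℂ → ℝ) y).smulRight (σ τ) := by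
      ext v
      simp only [X, sub_apply, ContinuousLinearMap.smulRight_apply, sub_smul]
    rw [e, ContinuousLinearMap.norm_smulRight_apply]
    have h0 : 0 ≤ dist x y ^ a := Real.rpow_nonneg dist_nonneg a
    calc _ ≤ (C * dist x y ^ a) * t0 :=
          mul_le_mul (hB.hol x y) (hσn τ) (norm_nonneg _) (by positivity)
      _ = (C * t0) * dist x y ^ a := by ring
      _ ≤ _ := mul_le_mul_of_nonneg_right ht2 h0
  have hDh : ∀ τ, HB a (3/2) (D τ) := by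
    intro τ
    have h1 := HB.add (HB.const (a := a) (X := ℂ) (1 : ℂ →L[ℝ] ℂ)) (hXh τ)
    refine HB.mono h1 ?_
    have : ‖(1 : ℂ →L[ℝ] ℂ)‖ ≤ 1 := ContinuousLinearMap.norm_id_le
    linarith
  have hφd : ∀ τ z, HasFDerivAt (φ τ) (D τ z) z := by
    intro τ z
    have h1 : HasFDerivAt (β : ℂ → ℝ) (fderiv ℝ (β : ℂ → ℝ) z) z :=
      (hβ.differentiable (by simp) z).hasFDerivAt
    exact (hasFDerivAt_id z).add (h1.smul_const (σ τ))
  have hlip : ∀ τ x y, dist (φ τ x) (φ τ y) ≤ 2 * dist x y := by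
    intro τ x y
    rw [dist_eq_norm, dist_eq_norm]
    refine Convex.norm_image_sub_le_of_norm_hasFDerivWithin_le (s := univ) (f' := D τ)
      (fun z _ => (hφd τ z).hasFDerivWithinAt) (fun z _ => ?_) convex_univ (mem_univ _)
      (mem_univ _)
    exact ((hDh τ).bdd z).trans (by norm_num)
  have hunit : ∀ τ z, IsUnit (D τ z) := by
    intro τ z
    have h1 : ‖-X τ z‖ < 1 := by
      rw [norm_neg]; exact (hXn τ z).trans_lt (by norm_num)
    have h2 := isUnit_one_sub_of_norm_lt_one h1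
    rwa [sub_neg_eq_add] at h2
  -- the family `M`
  let H : ℂ × ℂ → ℂ →L[ℝ] ℂ := fun p => Ring.inverse (D p.1 p.2) - 1
  have hDs : ContDiff ℝ ∞ (fun p : ℂ × ℂ => D p.1 p.2) := by
    refine contDiff_const.add ?_
    exact (hβ'.comp contDiff_snd).smulRight (hσs.comp contDiff_fst)
  have hHs : ContDiff ℝ ∞ H := by
    rw [contDiff_iff_contDiffAt]
    intro p
    refine ContDiffAt.sub ?_ contDiffAt_const
    obtain ⟨u, hu⟩ := hunit p.1 p.2
    have h3 : ContDiffAt ℝ ∞ (Ring.inverse : (ℂ →L[ℝ] ℂ) → (ℂ →L[ℝ] ℂ)) (D p.1 p.2) := by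
      rw [← hu]; exact contDiffAt_ringInverse ℝ u
    exact ContDiffAt.comp (f := fun p : ℂ × ℂ => D p.1 p.2) p h3 hDs.contDiffAt
  have hX0 : ∀ τ z, z ∉ ball z0 ρ → X τ z = 0 := by
    intro τ z hz
    show (fderiv ℝ (β : ℂ → ℝ) z).smulRight (σ τ) = 0
    rw [hβ0' z hz]; ext v; simp
  have hHout : ∀ τ z, z ∉ ball z0 ρ → H (τ, z) = 0 := by
    intro τ z hz
    show Ring.inverse (1 + X τ z) - 1 = 0
    rw [hX0 τ z hz, add_zero, Ring.inverse_one, sub_self]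
  obtain ⟨c, hcs, hc⟩ := hFam ℂ (ℂ →L[ℝ] ℂ) a ha ha1 H (‖z0‖ + ρ) hHs
    (fun τ z hz => hHout τ z (hfar z hz))
  -- the family `q`
  have hφs : ContDiff ℝ ∞ (fun p : ℂ × ℂ => φ p.1 p.2) :=
    contDiff_snd.add ((hβ.comp contDiff_snd).smul (hσs.comp contDiff_fst))
  obtain ⟨RQ, hRQ⟩ : ∃ RQ : ℝ, ∀ z, RQ ≤ ‖z‖ → Q z = 0 := by
    obtain ⟨r, hr⟩ := hQs.isCompact.isBounded.subset_closedBall (0 : ℂ)
    refine ⟨r + 1, fun z hz => ?_⟩
    by_contra h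
    have h1 := hr (subset_tsupport Q h)
    rw [mem_closedBall, dist_zero_right] at h1
    linarith
  have hQout : ∀ τ z, max RQ (‖z0‖ + ρ) ≤ ‖z‖ → Q (φ τ z) = 0 := by
    intro τ z hz
    have h1 : φ τ z = z := by
      show z + β z • σ τ = z
      rw [hβ0 z (hfar z ((le_max_right _ _).trans hz)), zero_smul, add_zero]
    rw [h1]; exact hRQ z ((le_max_left _ _).trans hz)
  obtain ⟨cq, hcqs, hcq⟩ := hFam ℂ P a ha ha1 (fun p : ℂ × ℂ => Q (φ p.1 p.2)) _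
    (hQ.comp hφs) hQout
  have hMs : ContDiff ℝ ∞ (fun τ => valC (a := a) (G := ℂ) (E := ℂ →L[ℝ] ℂ) (c τ)) :=
    (valC (a := a) (G := ℂ) (E := ℂ →L[ℝ] ℂ)).contDiff.comp hcs
  have hqs : ContDiff ℝ ∞ (fun τ => valC (a := a) (G := ℂ) (E := P) (cq τ)) :=
    (valC (a := a) (G := ℂ) (E := P)).contDiff.comp hcqs
  refine ⟨t0 / 2, φ, D, fun τ => valC (c τ), fun τ => valC (cq τ), by positivity,
    hMs, hqs, ?_, ?_, ?_, hφd, hlip, hDh, ?_, ?_, ?_, ?_⟩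
  · refine hol_ext fun z => ?_
    rw [fn_valC, hc, fn_zero]
    show Ring.inverse (1 + X 0 z) - 1 = 0
    have : X 0 z = 0 := by
      show (fderiv ℝ (β : ℂ → ℝ) z).smulRight (σ 0) = 0
      rw [hσ0]; ext v; simp
    rw [this, add_zero, Ring.inverse_one, sub_self]
  · intro z
    show z + β z • σ 0 = z
    rw [hσ0, smul_zero, add_zero]
  · intro τ hτ
    show z0 + β z0 • σ τ = z0 + τ
    rw [hσ1 τ hτ, β.one_of_mem_closedBall (mem_closedBall_self (by positivity)), one_smul]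
  · intro τ z
    rw [fn_valC, hc]
    show D τ z * (1 + (Ring.inverse (D τ z) - 1)) = 1
    rw [add_sub_cancel, Ring.mul_inverse_cancel _ (hunit τ z)]
  · intro τ z hz
    by_cases h : z ∈ closedBall z0 (ρ / 2)
    · rw [mem_ball, dist_eq_norm]
      rw [mem_closedBall, dist_eq_norm] at h
      have e : φ τ z - z0 = (z - z0) + β z • σ τ := by
        show z + β z • σ τ - z0 = _
        abel
      rw [e]
      have h1 : ‖β z • σ τ‖ ≤ t0 := by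
        rw [norm_smul, Real.norm_of_nonneg β.nonneg]
        calc β z * ‖σ τ‖ ≤ 1 * t0 := mul_le_mul β.le_one (hσn τ) (norm_nonneg _) zero_le_one
          _ = t0 := one_mul _
      calc _ ≤ ‖z - z0‖ + ‖β z • σ τ‖ := norm_add_le _ _
        _ < ρ := by linarith
    · have : β z = 0 := by
        rw [mem_closedBall, not_le] at h
        exact β.zero_of_le_dist h.le
      show z + β z • σ τ ∈ _
      rw [this, zero_smul, add_zero]; exact hz
  · intro τ z hz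
    refine ⟨?_, ?_⟩
    · show z + β z • σ τ = z
      rw [hβ0 z hz, zero_smul, add_zero]
    · rw [fn_valC, hc]; exact hHout τ z hz
  · intro τ z
    rw [fn_valC, hcq]

end fam

section main

variable {E P : Type} [NormedAddCommGroup E] [NormedSpace ℂ E]
  [NormedAddCommGroup P] [NormedSpace ℝ P]

theorem isOpen_Dom (a K R η : ℝ) : IsOpen (Dom a E P K R η) := by
  have h1 : Continuous fun p : Par a P × C1a a ℂ E => ‖p.1.1‖ :=
    (continuous_fst.comp continuous_fst).norm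
  have h2 : Continuous fun p : Par a P × C1a a ℂ E => ‖p.1.2.1‖ :=
    (continuous_fst.comp (continuous_snd.comp continuous_fst)).norm
  have h3 : Continuous fun p : Par a P × C1a a ℂ E => ‖p.1.2.2‖ :=
    (continuous_snd.comp (continuous_snd.comp continuous_fst)).norm
  have h4 : Continuous fun p : Par a P × C1a a ℂ E => ‖p.2‖ := continuous_snd.norm
  exact (isOpen_lt h1 continuous_const).and ((isOpen_lt h2 continuous_const).and
    ((isOpen_lt h3 continuous_const).and (isOpen_lt h4 continuous_const)))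

/-- the change of variables `φ` transforms solutions to solutions -/
theorem sol_comp {a : ℝ} (ha : 0 < a) (ha1 : a < 1) {χ : ℂ → ℝ}
    {T : Hol a ℂ E →L[ℝ] C1a a ℂ E}
    (hT : ∀ g : Hol a ℂ E, (∀ z, dbl (C1d (T g) z) = χ z • Hol.fn g z) ∧
      Tendsto (C1f (T g)) (cocompact ℂ) (𝓝 0))
    {A : P × E → (ℂ →L[ℝ] E) →L[ℝ] E} {b : P × E → E} {κ : Hol a ℂ ℝ} {q0 q : Hol a ℂ P}
    {Q : ℂ → P} (hq0 : ∀ z, Hol.fn q0 z = Q z) {h w : C1a a ℂ E}
    (hw : Sol T A b (κ, q0, 0) h w) {z0 : ℂ} {ρ : ℝ}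
    (h1 : ∀ z ∈ ball z0 ρ, Hol.fn κ z = 1 ∧ χ z = 1)
    (h2 : ∀ z ∈ ball z0 ρ, dbl (C1d h z) = 0) {φ : ℂ → ℂ} {D : ℂ → ℂ →L[ℝ] ℂ}
    {M : Hol a ℂ (ℂ →L[ℝ] ℂ)} (hφ : ∀ z, HasFDerivAt φ (D z) z)
    (hL : ∀ x y, dist (φ x) (φ y) ≤ 2 * dist x y) (hD : HB a (3/2) D)
    (hDM : ∀ z, (D z).comp (ContinuousLinearMap.id ℝ ℂ + Hol.fn M z) =
      ContinuousLinearMap.id ℝ ℂ)
    (hin : ∀ z ∈ ball z0 ρ, φ z ∈ ball z0 ρ)
    (hout : ∀ z, z ∉ ball z0 ρ → φ z = z ∧ Hol.fn M z = 0)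
    (hq : ∀ z, Hol.fn q z = Q (φ z)) :
    ∃ u : C1a a ℂ E, (∀ z, C1f u z = C1f w (φ z)) ∧ ‖u‖ ≤ 6 * ‖w‖ ∧
      Sol T A b (κ, q, M) h u := by
  obtain ⟨u, hu, hud, hun⟩ := exists_comp ha ha1 w φ D hφ hL hD
  refine ⟨u, hu, hun, ?_⟩
  obtain ⟨g0, hg0, hwg⟩ := hw
  have hg0' : ∀ z, Hol.fn g0 z = Hol.fn κ z • (A (Q z, C1f w z) (C1d w z) +
      b (Q z, C1f w z)) := by
    intro z
    rw [hg0]
    show rhs A b (Hol.fn κ z) (Hol.fn q0 z) (0 : ℂ →L[ℝ] ℂ) (C1f w z) (C1d w z) = _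
    rw [rhs, hq0, add_zero, ContinuousLinearMap.comp_id, ContinuousLinearMap.comp_zero]
    have : dbl (0 : ℂ →L[ℝ] E) = 0 := by simp [dbl]
    rw [this, sub_zero]
  -- `g0 ∘ φ`
  let g1 : Hol a ℂ E := NWHol_952.rst ha.le zero_le_two hL g0
  have hg1 : ∀ z, Hol.fn g1 z = Hol.fn g0 (φ z) := fun z => rfl
  -- `∂̄ (Du M)`
  let B1 : (ℂ →L[ℝ] E) →L[ℝ] (ℂ →L[ℝ] ℂ) →L[ℝ] (ℂ →L[ℝ] E) := ContinuousLinearMap.compL ℝ ℂ ℂ E
  let dblL : (ℂ →L[ℝ] E) →L[ℝ] E :=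
    LinearMap.mkContinuous
      { toFun := dbl
        map_add' := dbl_add
        map_smul' := fun c L => by
          simp only [dbl, _root_.smul_apply, RingHom.id_apply]
          rw [smul_comm Complex.I c, ← smul_add, smul_comm] } 1 (fun L => by
        show ‖(2 : ℂ)⁻¹ • (L 1 + Complex.I • L Complex.I)‖ ≤ 1 * ‖L‖
        rw [norm_smul, norm_inv]
        have e1 : ‖L 1‖ ≤ ‖L‖ := by simpa using L.le_opNorm 1
        have e2 : ‖Complex.I • L Complex.I‖ ≤ ‖L‖ := by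
          rw [norm_smul, Complex.norm_I, one_mul]; simpa using L.le_opNorm Complex.I
        have e3 : ‖L 1 + Complex.I • L Complex.I‖ ≤ ‖L‖ + ‖L‖ :=
          (norm_add_le _ _).trans (add_le_add e1 e2)
        rw [Complex.norm_ofNat]
        linarith)
  let g2 : Hol a ℂ E := NWHol_952.cl dblL (NWHol_952.bl B1 (derC u) M)
  have hg2 : ∀ z, Hol.fn g2 z = dbl ((C1d u z).comp (Hol.fn M z)) := fun z => rfl
  have hcomp : ∀ z, (C1d u z).comp (ContinuousLinearMap.id ℝ ℂ + Hol.fn M z) =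
      C1d w (φ z) := by
    intro z
    rw [hud, ContinuousLinearMap.comp_assoc, hDM, ContinuousLinearMap.comp_id]
  have hκ : ∀ z, Hol.fn κ (φ z) = Hol.fn κ z := by
    intro z
    by_cases hz : z ∈ ball z0 ρ
    · rw [(h1 z hz).1, (h1 _ (hin z hz)).1]
    · rw [(hout z hz).1]
  refine ⟨g1 - g2, fun z => ?_, ?_⟩
  · show Hol.fn g1 z - Hol.fn g2 z = rhs A b (Hol.fn κ z) (Hol.fn q z) (Hol.fn M z) (C1f u z)
      (C1d u z)
    rw [hg1, hg2, rhs, hcomp, hq, hu, hg0', hκ]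
  · -- both sides have the same `∂̄`
    have hdu : ∀ z, dbl (C1d u z) = dbl (C1d w (φ z)) - dbl ((C1d u z).comp (Hol.fn M z)) := by
      intro z
      have e := hcomp z
      rw [ContinuousLinearMap.comp_add, ContinuousLinearMap.comp_id] at e
      rw [← e, dbl_add, add_sub_cancel_right]
    refine eq_of_dbl (fun z => ?_) ?_
    · rw [d_add, dbl_add, (hT (g1 - g2)).1, hdu]
      show _ = dbl (C1d h z) + χ z • (Hol.fn g1 z - Hol.fn g2 z)
      rw [hg1, hg2]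
      have e1 : ∀ y, dbl (C1d w y) = dbl (C1d h y) + χ y • Hol.fn g0 y := by
        intro y
        rw [hwg, d_add, dbl_add, (hT g0).1]
      rw [e1]
      by_cases hz : z ∈ ball z0 ρ
      · rw [h2 z hz, h2 _ (hin z hz), (h1 z hz).2, (h1 _ (hin z hz)).2, one_smul, one_smul]
        abel
      · obtain ⟨e2, e3⟩ := hout z hz
        rw [e2, e3, ContinuousLinearMap.comp_zero]
        have : dbl (0 : ℂ →L[ℝ] E) = 0 := by simp [dbl]
        rw [this, sub_zero, sub_zero]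
    · -- behaviour at infinity
      have e1 : Tendsto (fun z => C1f (T g0) z - C1f (T (g1 - g2)) z) (cocompact ℂ) (𝓝 0) := by
        simpa using (hT g0).2.sub (hT (g1 - g2)).2
      refine e1.congr' ?_
      have h3 : ∀ᶠ z in cocompact ℂ, z ∉ closedBall z0 ρ :=
        (isCompact_closedBall z0 ρ).compl_mem_cocompact
      filter_upwards [h3] with z hz
      have hz' : z ∉ ball z0 ρ := fun h => hz (ball_subset_closedBall h)
      rw [hu, (hout z hz').1, f_add]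
      have : C1f w z = C1f h z + C1f (T g0) z := by rw [hwg]; rfl
      rw [this]; abel

/-- **REGP**: joint smoothness of families of solutions -/
theorem regp (hFam : FamStmt) [FiniteDimensional ℝ P] {a : ℝ} (ha : 0 < a) (ha1 : a < 1)
    {χ : ℂ → ℝ} {T : Hol a ℂ E →L[ℝ] C1a a ℂ E}
    (hT : ∀ g : Hol a ℂ E, (∀ z, dbl (C1d (T g) z) = χ z • Hol.fn g z) ∧
      Tendsto (C1f (T g)) (cocompact ℂ) (𝓝 0))
    {K R η : ℝ} (hη : 0 < η) {A : P × E → (ℂ →L[ℝ] E) →L[ℝ] E} {b : P × E → E}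
    {Φ : Par a P × C1a a ℂ E → C1a a ℂ E} (hΦ : ContDiffOn ℝ ∞ Φ (Dom a E P K R η))
    (hun : ∀ k h, (k, h) ∈ Dom a E P K R η → ∀ w, ‖w‖ < 2 * R + 1 → Sol T A b k h w →
      w = Φ (k, h))
    {S : Type} [NormedAddCommGroup S] [NormedSpace ℝ S] {h w : S → C1a a ℂ E} {s0 : S}
    (hh : ContDiffAt ℝ ∞ h s0) {κ : Hol a ℂ ℝ} {q0 : Hol a ℂ P} {Q : ℂ → P}
    (hQ : ContDiff ℝ ∞ Q) (hQs : HasCompactSupport Q) (hq0 : ∀ z, Hol.fn q0 z = Q z)
    (hκ : ‖κ‖ < K) (hqK : ‖q0‖ < K) (hhR : ‖h s0‖ < R)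
    (hw : ∀ᶠ s in 𝓝 s0, Sol T A b (κ, q0, 0) (h s) (w s) ∧ 6 * ‖w s‖ < 2 * R + 1)
    {z0 : ℂ} {ρ : ℝ} (hρ : 0 < ρ) (h1 : ∀ z ∈ ball z0 ρ, Hol.fn κ z = 1 ∧ χ z = 1)
    (h2 : ∀ᶠ s in 𝓝 s0, ∀ z ∈ ball z0 ρ, dbl (C1d (h s) z) = 0) :
    ContDiffAt ℝ ∞ (fun p : S × ℂ => C1f (w p.1) p.2) (s0, z0) := by
  obtain ⟨t, φ, D, M, q, ht, hM, hqs, hM0, hφ0, hφt, hφd, hlip, hDh, hDM, hin, hout, hq⟩ :=
    exists_fam hFam ha ha1 z0 hρ hQ hQs
  have hq00 : q 0 = q0 := hol_ext fun z => by rw [hq, hφ0, hq0]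
  -- the smooth family of parameters
  let Λ : S × ℂ → Par a P × C1a a ℂ E := fun p => ((κ, q (p.2 - z0), M (p.2 - z0)), h p.1)
  have hsub : ContDiff ℝ ∞ (fun p : S × ℂ => p.2 - z0) := contDiff_snd.sub contDiff_const
  have hh' : ContDiffAt ℝ ∞ (fun p : S × ℂ => h p.1) (s0, z0) :=
    ContDiffAt.comp (f := fun p : S × ℂ => p.1) (s0, z0) hh contDiffAt_fst
  have hΛ : ContDiffAt ℝ ∞ Λ (s0, z0) := by
    have e1 : ContDiff ℝ ∞ (fun p : S × ℂ => q (p.2 - z0)) := hqs.comp hsub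
    have e2 : ContDiff ℝ ∞ (fun p : S × ℂ => M (p.2 - z0)) := hM.comp hsub
    exact (contDiffAt_const.prodMk (e1.contDiffAt.prodMk e2.contDiffAt)).prodMk hh'
  have hmem0 : Λ (s0, z0) ∈ Dom a E P K R η := by
    refine ⟨hκ, ?_, ?_, hhR⟩
    · show ‖q (z0 - z0)‖ < K
      rw [sub_self, hq00]; exact hqK
    · show ‖M (z0 - z0)‖ < η
      rw [sub_self, hM0, norm_zero]; exact hη
  have hmem : ∀ᶠ p in 𝓝 (s0, z0), Λ p ∈ Dom a E P K R η :=
    hΛ.continuousAt.preimage_mem_nhds ((isOpen_Dom a K R η).mem_nhds hmem0)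
  have hΦ0 : ContDiffAt ℝ ∞ Φ (Λ (s0, z0)) :=
    hΦ.contDiffAt ((isOpen_Dom a K R η).mem_nhds hmem0)
  have hcomp : ContDiffAt ℝ ∞ (fun p => ev0 (a := a) (E := E) z0 (Φ (Λ p))) (s0, z0) :=
    (ev0 (a := a) (E := E) z0).contDiff.contDiffAt.comp _
      (ContDiffAt.comp (f := Λ) (s0, z0) hΦ0 hΛ)
  refine hcomp.congr_of_eventuallyEq ?_
  have hfst : ∀ᶠ p in 𝓝 (s0, z0), (Sol T A b (κ, q0, 0) (h p.1) (w p.1) ∧
      6 * ‖w p.1‖ < 2 * R + 1) ∧ ∀ z ∈ ball z0 ρ, dbl (C1d (h p.1) z) = 0 :=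
    (continuous_fst.tendsto (s0, z0)).eventually (hw.and h2)
  have hsnd : ∀ᶠ p in 𝓝 (s0, z0), p.2 - z0 ∈ ball (0 : ℂ) t := by
    have : ContinuousAt (fun p : S × ℂ => p.2 - z0) (s0, z0) := hsub.continuous.continuousAt
    refine this.preimage_mem_nhds (isOpen_ball.mem_nhds ?_)
    show z0 - z0 ∈ ball (0 : ℂ) t
    rw [sub_self]; exact mem_ball_self ht
  filter_upwards [hmem, hfst, hsnd] with p hp1 hp2 hp3
  obtain ⟨⟨hsol, hn⟩, hdb⟩ := hp2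
  obtain ⟨u, hu, hun', hus⟩ := sol_comp ha ha1 hT hq0 hsol h1 hdb (hφd (p.2 - z0))
    (hlip (p.2 - z0)) (hDh (p.2 - z0)) (hDM (p.2 - z0)) (hin (p.2 - z0)) (hout (p.2 - z0))
    (hq (p.2 - z0))
  have hfin := hun _ _ hp1 u (hun'.trans_lt hn) hus
  show C1f (w p.1) p.2 = C1f (Φ (Λ p)) z0
  rw [← hfin, hu, hφt _ hp3, add_sub_cancel]

end main

end

end Crest.Agent.R235.NWLoc_334
end

-- ▼ part R235/NWSet_334

/-!
# Row 235, PACKAGE NW (helper334): set-up tools for the applications FOL, VAR, REG2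
-/

set_option autoImplicit false
set_option maxSynthPendingDepth 3
set_option linter.unusedSectionVars false

open Set Filter Metric Topology MeasureTheory
open scoped ContDiff Real

namespace Crest.Agent.R235.NWSet_334

open Crest.Agent.R235.NWDefs_334 Crest.Agent.R235.NWIface_334 Crest.Agent.R235.NWTool_334

noncomputable section

open Crest.Agent.R235.NWHol_952 (HB.comp_lip HB.bilin HB.add HB.mono HB.const HB.clm)

/-- leaf J -/
theorem jstmt : JStmt := by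
  intro E _ _ _ J r hJ B η _ hη
  obtain ⟨R0, h0, h1, h2⟩ := NWJ_130.exists_A hJ B η hη
  refine ⟨R0, h0, h1, fun R hR hR0 => ?_⟩
  obtain ⟨A, hA, _, _, ha0, ha1, ha2, _, h3⟩ := h2 R hR hR0
  exact ⟨A, hA, fun x => ⟨ha0 x, ha1 x, ha2 x⟩, fun x hx => (h3 x hx).2⟩

section lin

variable {E : Type*} [NormedAddCommGroup E] [NormedSpace ℂ E]

/-- `dl` as a continuous linear map -/
def dlL (E : Type*) [NormedAddCommGroup E] [NormedSpace ℂ E] : (ℂ →L[ℝ] E) →L[ℝ] E :=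
  LinearMap.mkContinuous
    { toFun := dl
      map_add' := fun L M => by
        simp only [dl, _root_.add_apply, smul_add, smul_sub]; abel
      map_smul' := fun c L => by
        simp only [dl, _root_.smul_apply, RingHom.id_apply]
        rw [smul_comm Complex.I c, ← smul_sub, smul_comm] } 1 (fun L => by
      show ‖(2 : ℂ)⁻¹ • (L 1 - Complex.I • L Complex.I)‖ ≤ 1 * ‖L‖
      rw [norm_smul, norm_inv]
      have e1 : ‖L 1‖ ≤ ‖L‖ := by simpa using L.le_opNorm 1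
      have e2 : ‖Complex.I • L Complex.I‖ ≤ ‖L‖ := by
        rw [norm_smul, Complex.norm_I, one_mul]; simpa using L.le_opNorm Complex.I
      have e3 : ‖L 1 - Complex.I • L Complex.I‖ ≤ ‖L‖ + ‖L‖ :=
        (norm_sub_le _ _).trans (add_le_add e1 e2)
      rw [Complex.norm_ofNat]
      linarith)

@[simp] theorem dlL_apply (L : ℂ →L[ℝ] E) : dlL E L = dl L := rfl

theorem norm_dlL_le : ‖dlL E‖ ≤ 1 := LinearMap.mkContinuous_norm_le _ zero_le_one _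

/-- `dbl` as a continuous linear map -/
def dblL (E : Type*) [NormedAddCommGroup E] [NormedSpace ℂ E] : (ℂ →L[ℝ] E) →L[ℝ] E :=
  LinearMap.mkContinuous
    { toFun := dbl
      map_add' := fun L M => by
        simp only [dbl, _root_.add_apply, smul_add]; abel
      map_smul' := fun c L => by
        simp only [dbl, _root_.smul_apply, RingHom.id_apply]
        rw [smul_comm Complex.I c, ← smul_add, smul_comm] } 1 (fun L => by
      show ‖(2 : ℂ)⁻¹ • (L 1 + Complex.I • L Complex.I)‖ ≤ 1 * ‖L‖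
      rw [norm_smul, norm_inv]
      have e1 : ‖L 1‖ ≤ ‖L‖ := by simpa using L.le_opNorm 1
      have e2 : ‖Complex.I • L Complex.I‖ ≤ ‖L‖ := by
        rw [norm_smul, Complex.norm_I, one_mul]; simpa using L.le_opNorm Complex.I
      have e3 : ‖L 1 + Complex.I • L Complex.I‖ ≤ ‖L‖ + ‖L‖ :=
        (norm_add_le _ _).trans (add_le_add e1 e2)
      rw [Complex.norm_ofNat]
      linarith)

@[simp] theorem dblL_apply (L : ℂ →L[ℝ] E) : dblL E L = dbl L := rfl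

end lin

section bd

variable {X Y X' Y' : Type*} [NormedAddCommGroup X] [NormedSpace ℝ X] [NormedAddCommGroup Y]
  [NormedSpace ℝ Y] [NormedAddCommGroup X'] [NormedSpace ℝ X'] [NormedAddCommGroup Y']
  [NormedSpace ℝ Y']

theorem norm_it_lin (L : Y →L[ℝ] Y') (L' : X' →L[ℝ] X) (hL : ‖L‖ ≤ 1) (hL' : ‖L'‖ ≤ 1)
    {f : X → Y} {n : ℕ} (hf : ContDiff ℝ n f) (x : X') :
    ‖iteratedFDeriv ℝ n (fun x => L (f (L' x))) x‖ ≤ ‖iteratedFDeriv ℝ n f (L' x)‖ := by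
  have h1 : iteratedFDeriv ℝ n (fun x => L (f (L' x))) x =
      L.compContinuousMultilinearMap (iteratedFDeriv ℝ n (f ∘ L') x) :=
    L.iteratedFDeriv_comp_left (hf.comp L'.contDiff).contDiffAt le_rfl
  rw [h1]
  refine (L.norm_compContinuousMultilinearMap_le _).trans ?_
  rw [L'.iteratedFDeriv_comp_right hf x le_rfl]
  have h2 := (iteratedFDeriv ℝ n f (L' x)).norm_compContinuousLinearMap_le (fun _ => L')
  have h3 : ∏ _i : Fin n, ‖L'‖ ≤ 1 := by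
    rw [Finset.prod_const]; exact pow_le_one₀ (norm_nonneg _) hL'
  calc _ ≤ 1 * (‖iteratedFDeriv ℝ n f (L' x)‖ * ∏ _i : Fin n, ‖L'‖) :=
        mul_le_mul hL h2 (norm_nonneg _) zero_le_one
    _ ≤ 1 * (‖iteratedFDeriv ℝ n f (L' x)‖ * 1) := by gcongr
    _ = _ := by ring

theorem bd_lin (L : Y →L[ℝ] Y') (L' : X' →L[ℝ] X) (hL : ‖L‖ ≤ 1) (hL' : ‖L'‖ ≤ 1)
    {f : X → Y} (hf : BD f) : BD (fun x => L (f (L' x))) := by
  refine ⟨L.contDiff.comp (hf.smooth.comp L'.contDiff), fun n => ?_⟩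
  obtain ⟨C, hC⟩ := hf.bdd n
  exact ⟨C, fun x => (norm_it_lin L L' hL hL'
    (hf.smooth.of_le (by exact_mod_cast le_top)) x).trans (hC _)⟩

theorem small_iff {η : ℝ} {f : X → Y} :
    Small η f ↔ ∀ x, ∀ n : ℕ, n ≤ 2 → ‖iteratedFDeriv ℝ n f x‖ ≤ η := by
  have e2 : ∀ x, ‖fderiv ℝ (fderiv ℝ f) x‖ = ‖iteratedFDeriv ℝ 2 f x‖ := by
    intro x
    rw [← norm_iteratedFDeriv_fderiv (n := 1), norm_iteratedFDeriv_one]
  constructor
  · intro h x n hn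
    interval_cases n
    · rw [norm_iteratedFDeriv_zero]; exact (h x).1
    · rw [norm_iteratedFDeriv_one]; exact (h x).2.1
    · rw [← e2]; exact (h x).2.2
  · intro h x
    refine ⟨?_, ?_, ?_⟩
    · rw [← norm_iteratedFDeriv_zero (𝕜 := ℝ)]; exact h x 0 (by norm_num)
    · rw [← norm_iteratedFDeriv_one]; exact h x 1 (by norm_num)
    · rw [e2]; exact h x 2 le_rfl

theorem small_lin (L : Y →L[ℝ] Y') (L' : X' →L[ℝ] X) (hL : ‖L‖ ≤ 1) (hL' : ‖L'‖ ≤ 1)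
    {f : X → Y} (hf : ContDiff ℝ ∞ f) {η : ℝ} (h : Small η f) :
    Small η (fun x => L (f (L' x))) := by
  rw [small_iff] at h ⊢
  intro x n hn
  exact (norm_it_lin L L' hL hL' (hf.of_le (by exact_mod_cast le_top)) x).trans (h _ n hn)

theorem bd_zero : BD (fun _ : X => (0 : Y)) :=
  ⟨contDiff_const, fun n => ⟨0, fun x => by
    rw [show (fun _ : X => (0 : Y)) = 0 from rfl, iteratedFDeriv_zero]; simp⟩⟩

theorem small_zero {η : ℝ} (hη : 0 ≤ η) : Small η (fun _ : X => (0 : Y)) := by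
  rw [small_iff]
  intro x n _
  rw [show (fun _ : X => (0 : Y)) = 0 from rfl, iteratedFDeriv_zero]
  simpa using hη

theorem Small.mono {η η' : ℝ} (h : η ≤ η') {f : X → Y} (hf : Small η f) : Small η' f :=
  fun x => ⟨(hf x).1.trans h, (hf x).2.1.trans h, (hf x).2.2.trans h⟩

theorem small_lip {η : ℝ} {f : X → Y} (hd : Differentiable ℝ f) (h : Small η f) (x y : X) :
    ‖f x - f y‖ ≤ η * ‖x - y‖ :=
  Convex.norm_image_sub_le_of_norm_fderiv_le (s := univ) (fun z _ => hd z)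
    (fun z _ => (h z).2.1) convex_univ (mem_univ _) (mem_univ _)

end bd

section hat

variable {E : Type*} [NormedAddCommGroup E] [NormedSpace ℂ E] {P : Type*} [NormedAddCommGroup P]
  [NormedSpace ℝ P]

/-- `(q, x) ↦ A x ∘ dl` -/
def hat (A : E → E →L[ℝ] E) : P × E → (ℂ →L[ℝ] E) →L[ℝ] E := fun p => (A p.2).comp (dlL E)

theorem hat_apply (A : E → E →L[ℝ] E) (p : P × E) (L : ℂ →L[ℝ] E) :
    hat A p L = A p.2 (dl L) := rfl

theorem norm_pre_le : ‖(ContinuousLinearMap.compL ℝ (ℂ →L[ℝ] E) E E).flip (dlL E)‖ ≤ 1 := by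
  refine ContinuousLinearMap.opNorm_le_bound _ zero_le_one fun A => ?_
  show ‖A.comp (dlL E)‖ ≤ _
  refine (ContinuousLinearMap.opNorm_comp_le _ _).trans ?_
  rw [one_mul]
  exact mul_le_of_le_one_right (norm_nonneg _) norm_dlL_le

theorem bd_hat {A : E → E →L[ℝ] E} (h : BD A) : BD (hat (P := P) A) :=
  bd_lin ((ContinuousLinearMap.compL ℝ (ℂ →L[ℝ] E) E E).flip (dlL E))
    (ContinuousLinearMap.snd ℝ P E) norm_pre_le (ContinuousLinearMap.norm_snd_le _ _ _) h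

theorem small_hat {A : E → E →L[ℝ] E} (hA : ContDiff ℝ ∞ A) {η : ℝ} (h : Small η A) :
    Small η (hat (P := P) A) :=
  small_lin ((ContinuousLinearMap.compL ℝ (ℂ →L[ℝ] E) E E).flip (dlL E))
    (ContinuousLinearMap.snd ℝ P E) norm_pre_le (ContinuousLinearMap.norm_snd_le _ _ _) hA h

end hat

section sol

variable {E P : Type} [NormedAddCommGroup E] [NormedSpace ℂ E]
  [NormedAddCommGroup P] [NormedSpace ℝ P]

theorem rhs_zero (A : P × E → (ℂ →L[ℝ] E) →L[ℝ] E) (b : P × E → E) (κ : ℝ) (q : P) (x : E)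
    (L : ℂ →L[ℝ] E) : rhs A b κ q 0 x L = κ • (A (q, x) L + b (q, x)) := by
  have : dbl (0 : ℂ →L[ℝ] E) = 0 := by simp [dbl]
  rw [rhs, add_zero, ContinuousLinearMap.comp_id, ContinuousLinearMap.comp_zero, this, sub_zero]

/-- the equation satisfied by a solution at one point -/
theorem sol_dbl {a : ℝ} {χ : ℂ → ℝ} {T : Hol a ℂ E →L[ℝ] C1a a ℂ E}
    (hT : ∀ g : Hol a ℂ E, (∀ z, dbl (C1d (T g) z) = χ z • Hol.fn g z) ∧
      Tendsto (C1f (T g)) (cocompact ℂ) (𝓝 0))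
    {A : P × E → (ℂ →L[ℝ] E) →L[ℝ] E} {b : P × E → E} {κ : Hol a ℂ ℝ} {q : Hol a ℂ P}
    {h w : C1a a ℂ E} (hs : Sol T A b (κ, q, 0) h w) (z : ℂ) :
    dbl (C1d w z) = dbl (C1d h z) + (χ z * Hol.fn κ z) •
      (A (Hol.fn q z, C1f w z) (C1d w z) + b (Hol.fn q z, C1f w z)) := by
  obtain ⟨g, hg, hw⟩ := hs
  have h1 : C1d w z = C1d h z + C1d (T g) z := by
    conv_lhs => rw [hw]
    rfl
  rw [h1, dbl_add, (hT g).1, ← h1, hg, mul_smul]
  congr 2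
  exact rhs_zero A b _ _ _ _

/-- the right hand side is an element of `Hol`, with a bound -/
theorem exists_rhs {a : ℝ} (ha : 0 < a) {A : P × E → (ℂ →L[ℝ] E) →L[ℝ] E} {b : P × E → E}
    (hA : ContDiff ℝ ∞ A) (hb : ContDiff ℝ ∞ b) (hA1 : Small 1 A) (hb1 : Small 1 b)
    (κ : Hol a ℂ ℝ) (q : Hol a ℂ P) (w : C1a a ℂ E) :
    ∃ g : Hol a ℂ E, (∀ z, Hol.fn g z = Hol.fn κ z •
      (A (Hol.fn q z, C1f w z) (C1d w z) + b (Hol.fn q z, C1f w z))) ∧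
      ‖g‖ ≤ 2 * ‖κ‖ * (2 * (1 + ‖q‖ + ‖w‖) * ‖w‖ + (1 + ‖q‖ + ‖w‖)) := by
  have hq0 := norm_nonneg q
  have hw0 := norm_nonneg w
  have hκ0 := norm_nonneg κ
  set N := 1 + ‖q‖ + ‖w‖ with hN
  have hN0 : 0 ≤ N := by positivity
  have hp : HB a (‖q‖ + ‖w‖) (fun z => (Hol.fn q z, C1f w z)) :=
    NWHol_952.HB.prodMk (HB.mono (hb_of ha q) (by linarith)) (HB.mono (c1_hb ha w) (by linarith))
  have hAh : HB a N (fun z => A (Hol.fn q z, C1f w z)) := by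
    refine ⟨fun z => ((hA1 _).1).trans (by linarith), fun x y => ?_⟩
    have h0 : 0 ≤ dist x y ^ a := Real.rpow_nonneg dist_nonneg a
    have h1 := small_lip (hA.differentiable (by simp)) hA1 (Hol.fn q x, C1f w x)
      (Hol.fn q y, C1f w y)
    rw [one_mul] at h1
    calc _ ≤ _ := h1
      _ ≤ (‖q‖ + ‖w‖) * dist x y ^ a := hp.hol x y
      _ ≤ N * dist x y ^ a := by gcongr; linarith
  have hbh : HB a N (fun z => b (Hol.fn q z, C1f w z)) := by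
    refine ⟨fun z => ((hb1 _).1).trans (by linarith), fun x y => ?_⟩
    have h0 : 0 ≤ dist x y ^ a := Real.rpow_nonneg dist_nonneg a
    have h1 := small_lip (hb.differentiable (by simp)) hb1 (Hol.fn q x, C1f w x)
      (Hol.fn q y, C1f w y)
    rw [one_mul] at h1
    calc _ ≤ _ := h1
      _ ≤ (‖q‖ + ‖w‖) * dist x y ^ a := hp.hol x y
      _ ≤ N * dist x y ^ a := by gcongr; linarith
  have h3 := HB.bilin (ContinuousLinearMap.id ℝ ((ℂ →L[ℝ] E) →L[ℝ] E)) hN0 hw0 hAh (c1_hbd ha w)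
  have h4 : HB a (2 * N * ‖w‖) (fun z => A (Hol.fn q z, C1f w z) (C1d w z)) := by
    refine HB.mono h3 ?_
    have : ‖ContinuousLinearMap.id ℝ ((ℂ →L[ℝ] E) →L[ℝ] E)‖ ≤ 1 :=
      ContinuousLinearMap.norm_id_le
    calc _ ≤ 2 * 1 * N * ‖w‖ := by gcongr
      _ = _ := by ring
  have h5 := HB.add h4 hbh
  have h6 := HB.bilin (ContinuousLinearMap.lsmul ℝ ℝ : ℝ →L[ℝ] E →L[ℝ] E) hκ0
    (by positivity : 0 ≤ 2 * N * ‖w‖ + N) (hb_of ha κ) h5
  have h7 : ‖(ContinuousLinearMap.lsmul ℝ ℝ : ℝ →L[ℝ] E →L[ℝ] E)‖ ≤ 1 :=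
    ContinuousLinearMap.opNorm_lsmul_le
  have h8 := HB.mono h6 (M' := 2 * ‖κ‖ * (2 * N * ‖w‖ + N)) (by
    calc _ ≤ 2 * 1 * ‖κ‖ * (2 * N * ‖w‖ + N) := by gcongr
      _ = _ := by ring)
  obtain ⟨g, hg, hgn⟩ := exists_hol ha (by positivity) h8
  exact ⟨g, hg, hgn⟩

end sol

section c2

variable {F : Type*} [NormedAddCommGroup F] [NormedSpace ℝ F]

/-- `C²` functions with bounded derivatives -/
theorem exists_c1_of_c2 {a : ℝ} (ha : 0 < a) (ha1 : a ≤ 1) {f : ℂ → F} {C : ℝ}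
    (hf : ContDiff ℝ 2 f) (h0 : ∀ z, ‖f z‖ ≤ C) (h1 : ∀ z, ‖fderiv ℝ f z‖ ≤ C)
    (h2 : ∀ z, ‖fderiv ℝ (fderiv ℝ f) z‖ ≤ C) :
    ∃ u : C1a a ℂ F, (∀ z, C1f u z = f z) ∧ ‖u‖ ≤ 3 * C := by
  have hC : 0 ≤ C := (norm_nonneg _).trans (h0 0)
  have hd : Differentiable ℝ f := hf.differentiable (by simp)
  have hd' : Differentiable ℝ (fderiv ℝ f) :=
    (hf.fderiv_right (m := 1) (by norm_num)).differentiable (by simp)
  have e1 : ∀ x y, ‖f x - f y‖ ≤ C * dist x y := fun x y => by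
    rw [dist_eq_norm]
    exact Convex.norm_image_sub_le_of_norm_fderiv_le (s := univ) (fun z _ => hd z)
      (fun z _ => h1 z) convex_univ (mem_univ _) (mem_univ _)
  have e2 : ∀ x y, ‖fderiv ℝ f x - fderiv ℝ f y‖ ≤ C * dist x y := fun x y => by
    rw [dist_eq_norm]
    exact Convex.norm_image_sub_le_of_norm_fderiv_le (s := univ) (fun z _ => hd' z)
      (fun z _ => h2 z) convex_univ (mem_univ _) (mem_univ _)
  have hm : 2 * C + max C 0 ≤ 3 * C := by rw [max_eq_left hC]; linarith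
  obtain ⟨u, hu, _, hn⟩ := exists_c1 ha (by positivity : 0 ≤ 3 * C)
    (HB.mono (NWHol_952.hb_lip ha ha1 h0 e1) hm) (HB.mono (NWHol_952.hb_lip ha ha1 h1 e2) hm)
    (fun x => (hd x).hasFDerivAt)
  exact ⟨u, hu, hn⟩

end c2

end

end Crest.Agent.R235.NWSet_334
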