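import Crest.Agent.R235.FlatDef_607
import Crest.Agent.R235.CylDef2_522
import Crest.Agent.R235.FlatPlane_291_Mg
import Crest.Agent.R235.CurLin4_253_Mg
import Crest.Agent.R235.NWSet_334
import Mathlib

-- ▼ part R235/FlatLeb_504
section

/-!
Row 235 (S0364), block FLATW, leaf FLAT-1 LEBP (helper504): Lebesgue points of `φ` with the
two-dimensional normalisation.
-/

set_option autoImplicit false
set_option maxSynthPendingDepth 3

open Set Function Filter MeasureTheory Metric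
open scoped ContDiff ENNReal Manifold Topology

namespace Crest.Agent.R235.FlatLeb_504

open Crest.Agent.R240 Crest.Agent.R240.En Crest.Agent.R240.Pot
open Crest.Agent.R235.CurDefs_132 Crest.Agent.R235.Flat

/-- `φ` is bounded. -/
theorem norm_phi_le (D : LC) (y : E4) : ‖D.φ y‖ ≤ 2 * D.M := by
  have h := (D.bd y).norm_le_q (D.pos y)
  rwa [D.nrm y, mul_one] at h

theorem integrable_phi (D : LC) : Integrable D.φ D.s := by
  have := D.fin
  exact Integrable.of_bound D.meas.aestronglyMeasurable (2 * D.M)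
    (Eventually.of_forall (norm_phi_le D))

theorem locInt (D : LC) : LocallyIntegrable D.φ D.s := by
  exact (integrable_phi D).locallyIntegrable

/-- growth of closed balls. -/
theorem mass (D : LC) (x : E4) {r : ℝ} (hr : 0 < r) :
    (r ^ 2)⁻¹ * D.s.real (closedBall x r) ≤ 4 * D.C := by
  have := D.fin
  have h1 : D.s.real (closedBall x r) ≤ D.s.real (ball x (2 * r)) :=
    measureReal_mono (closedBall_subset_ball (by linarith)) (measure_ne_top _ _)
  have h2 := D.gr x (2 * r) (by linarith)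
  have h3 : 0 < r ^ 2 := by positivity
  rw [inv_mul_le_iff₀ h3]
  nlinarith

/-- FLAT-1. -/
theorem lebp : LEBP := by
  intro D
  have := D.fin
  filter_upwards [(Besicovitch.vitaliFamily D.s).ae_tendsto_average_norm_sub (locInt D)] with x hx
  have h1 : Tendsto (fun r => ⨍ y in closedBall x r, ‖D.φ y - D.φ x‖ ∂D.s) (𝓝[>] 0) (𝓝 0) :=
    hx.comp (Besicovitch.tendsto_filterAt D.s x)
  have h2 : Tendsto (fun r => 4 * D.C * ⨍ y in closedBall x r, ‖D.φ y - D.φ x‖ ∂D.s) (𝓝[>] 0)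
      (𝓝 0) := by
    have := h1.const_mul (4 * D.C)
    rwa [mul_zero] at this
  refine squeeze_zero' ?_ ?_ h2
  · filter_upwards [self_mem_nhdsWithin] with r hr
    exact mul_nonneg (by positivity) (integral_nonneg fun _ => norm_nonneg _)
  · filter_upwards [self_mem_nhdsWithin] with r hr
    have h3 := measure_smul_setAverage (μ := D.s) (fun y => ‖D.φ y - D.φ x‖)
      (measure_ne_top D.s (closedBall x r))
    rw [← h3, smul_eq_mul, ← mul_assoc]
    refine mul_le_mul_of_nonneg_right (mass D x hr) ?_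
    rw [setAverage_eq]
    exact mul_nonneg (by positivity) (integral_nonneg fun _ => norm_nonneg _)

end Crest.Agent.R235.FlatLeb_504
end

-- ▼ part R235/Reg_FWGOOD_504
section

/-!
Row 235 (S0364), REG A1.0b FWGOOD (helper504): almost every point is good.  Reduction to
`Flat.LEBP` (`FlatLeb_504`) and `Flat.DEFZ`.
-/

set_option autoImplicit false
set_option maxSynthPendingDepth 3

open Set Function Filter MeasureTheory Metric
open scoped ContDiff ENNReal Manifold Topology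

namespace Crest.Agent.R235.Reg_FWGOOD_504

open Crest.Agent.R240 Crest.Agent.R240.En Crest.Agent.R240.Pot
open Crest.Agent.R235.CurDefs_132 Crest.Agent.R235.Flat

/-- change of the radius. -/
theorem scale {h : E4 → ℝ} {s : Measure E4} {x : E4} {p : ℕ} (h0 : ∀ y, 0 ≤ h y)
    (hi : ∀ r, IntegrableOn h (closedBall x r) s)
    (ht : Tendsto (fun r : ℝ => (r ^ p)⁻¹ * ∫ y in closedBall x r, h y ∂s) (𝓝[>] 0) (𝓝 0))
    (K : ℝ) :
    Tendsto (fun r : ℝ => (r ^ p)⁻¹ * ∫ y in ball x (K * r), h y ∂s) (𝓝[>] 0) (𝓝 0) := by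
  rcases le_or_gt K 0 with hK | hK
  · refine tendsto_const_nhds.congr' ?_
    filter_upwards [self_mem_nhdsWithin] with r hr
    have h1 : ball x (K * r) = ∅ := by
      rw [ball_eq_empty]
      exact mul_nonpos_of_nonpos_of_nonneg hK (le_of_lt hr)
    rw [h1, Measure.restrict_empty, integral_zero_measure, mul_zero]
  · have h1 : Tendsto (fun r : ℝ => K * r) (𝓝[>] 0) (𝓝[>] 0) := by
      refine tendsto_nhdsWithin_iff.2 ⟨?_, ?_⟩
      · have h2 : Tendsto (fun r : ℝ => K * r) (𝓝 0) (𝓝 (K * 0)) := tendsto_id.const_mul K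
        rw [mul_zero] at h2
        exact h2.mono_left nhdsWithin_le_nhds
      · filter_upwards [self_mem_nhdsWithin] with r hr
        exact mul_pos hK hr
    have h2 := (ht.comp h1).const_mul (K ^ p)
    rw [mul_zero] at h2
    refine squeeze_zero' ?_ ?_ h2
    · filter_upwards [self_mem_nhdsWithin] with r hr
      have hr' : (0 : ℝ) < r := hr
      exact mul_nonneg (by positivity) (integral_nonneg h0)
    · filter_upwards [self_mem_nhdsWithin] with r hr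
      have hr' : (0 : ℝ) < r := hr
      have h3 : ∫ y in ball x (K * r), h y ∂s ≤ ∫ y in closedBall x (K * r), h y ∂s :=
        setIntegral_mono_set (hi _) (Eventually.of_forall h0)
          (LE.le.eventuallyLE ball_subset_closedBall)
      have h4 : K ^ p * (((K * r) ^ p)⁻¹ * ∫ y in closedBall x (K * r), h y ∂s) =
          (r ^ p)⁻¹ * ∫ y in closedBall x (K * r), h y ∂s := by
        rw [mul_pow]
        have h5 : K ^ p ≠ 0 := by positivity
        have h6 : r ^ p ≠ 0 := by positivity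
        field_simp
      simp only [comp_apply]
      rw [h4]
      exact mul_le_mul_of_nonneg_left h3 (by positivity)

theorem fwgood_of (h : MON → DEFZ) : Reg_522.FWGOOD := by
  intro hM D
  have := D.fin
  filter_upwards [FlatLeb_504.lebp D] with x hx hx3
  have hd := h hM D x hx3 hx
  refine ⟨fun K => ?_, fun K => ?_⟩
  · exact scale (fun _ => norm_nonneg _)
      (fun r => ((FlatLeb_504.integrable_phi D).sub (integrable_const _)).norm.integrableOn) hx K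
  · refine scale (fun y => (D.pos x).nonneg _) (fun r => ?_) hd K
    have hc : Continuous fun y => D.φ x (y - x) (D.J x (y - x)) := by fun_prop
    exact hc.continuousOn.integrableOn_compact (isCompact_closedBall x r)

end Crest.Agent.R235.Reg_FWGOOD_504
end

-- ▼ part R235/FlatLink_181
section

/-!
# R235, REG-FLAT 4: `Flat.LINK`

Linear algebra of a simple positive form: if `φ X (J X) = 0` and `q F φ F = 1` then
`q F φ b = b X (J X) / F X (J X)`, and `φ` is (twice) the area of the orthogonal complement of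
the complex line spanned by `X`.
-/

set_option autoImplicit false
set_option maxSynthPendingDepth 3

open Set Function Filter MeasureTheory Metric Complex
open scoped ContDiff ENNReal Manifold Topology

namespace Crest.Agent.R235.FlatLink_181

open Crest.Agent.R240 Crest.Agent.R240.En Crest.Agent.R240.Pot
open Crest.Agent.R235.CurDefs_132 Crest.Agent.R235.Flat

noncomputable section

theorem W_om0_right (b : Bil) : W b om0 = ent b 0 1 + ent b 2 3 := by
  have h3 : ∀ i j, ent om0 i j = om0 (ee i) (ee j) := fun i j => rfl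
  unfold W
  simp only [h3, om0_apply, ee_apply]
  simp

/-- entries of a simple form in a unitary frame -/
theorem ents {P : Bil} (hP : Pos J0 P) (hW : W P om0 = 2) {x : E4} (hk : P x (J0 x) = 0) :
    ‖x‖ ^ 2 * ent P 0 1 = 2 * (x 2 ^ 2 + x 3 ^ 2) ∧ ‖x‖ ^ 2 * ent P 2 3 = 2 * (x 0 ^ 2 + x 1 ^ 2) ∧
    ‖x‖ ^ 2 * ent P 0 2 = 2 * (x 0 * x 3 - x 1 * x 2) ∧
    ‖x‖ ^ 2 * ent P 0 3 = - 2 * (x 0 * x 2 + x 1 * x 3) ∧
    ent P 1 3 = ent P 0 2 ∧ ent P 1 2 = - ent P 0 3 := by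
  obtain ⟨h13, h12⟩ := inv0_ent hP.inv
  have hz : ∀ u, P x u = 0 := by
    intro u
    have := hP.cs J0_J0 x u
    rw [hk, zero_mul] at this
    exact pow_eq_zero_iff (two_ne_zero) |>.1 (le_antisymm this (sq_nonneg _))
  rw [W_om0_right] at hW
  have e0 := hz (ee 0)
  have e1 := hz (ee 1)
  have e2 := hz (ee 2)
  have e3 := hz (ee 3)
  rw [alt_expand hP.alt, h13, h12] at e0 e1 e2 e3
  simp at e0 e1 e2 e3
  rw [norm_sq_E4]
  generalize ent P 0 1 = a at *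
  generalize ent P 2 3 = c at *
  generalize ent P 0 2 = f at *
  generalize ent P 0 3 = g at *
  generalize x 0 = x0 at *
  generalize x 1 = x1 at *
  generalize x 2 = x2 at *
  generalize x 3 = x3 at *
  have hc : c = 2 - a := by linarith
  subst hc
  refine ⟨?_, ?_, ?_, ?_, h13, h12⟩
  · linear_combination x0 * e1 - x1 * e0 - x2 * e3 + x3 * e2
  · linear_combination -x0 * e1 + x1 * e0 + x2 * e3 - x3 * e2
  · linear_combination x0 * e2 + x1 * e3 - x3 * e1 - x2 * e0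
  · linear_combination x0 * e3 - x1 * e2 + x2 * e1 - x3 * e0

/-- the pairing with a simple form, in a unitary frame -/
theorem W_simple {P : Bil} (hP : Pos J0 P) (hW : W P om0 = 2) {x : E4} (hk : P x (J0 x) = 0)
    {b : Bil} (hb : Alt b) : ‖x‖ ^ 2 * W P b = 2 * b x (J0 x) := by
  obtain ⟨h1, h2, h3, h4, h5, h6⟩ := ents hP hW hk
  unfold W
  rw [alt_expand hb, h5, h6]
  simp only [J0_0, J0_1, J0_2, J0_3]
  linear_combination (ent b 2 3) * h1 + (ent b 0 1) * h2 - (ent b 1 3 + ent b 0 2) * h3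
    + (ent b 1 2 - ent b 0 3) * h4

/-- the diagonal of a simple form, in a unitary frame -/
theorem diag_simple {P : Bil} (hP : Pos J0 P) (hW : W P om0 = 2) {x : E4} (hk : P x (J0 x) = 0)
    (v : E4) : ‖x‖ ^ 2 * P v (J0 v) = 2 * (‖x‖ ^ 2 * ‖v‖ ^ 2 - om0 v (J0 x) ^ 2 - om0 v x ^ 2) := by
  obtain ⟨h1, h2, h3, h4, h5, h6⟩ := ents hP hW hk
  rw [alt_expand hP.alt, h5, h6, om0_apply, om0_apply, norm_sq_E4 v]
  rw [norm_sq_E4] at *
  simp only [J0_0, J0_1, J0_2, J0_3]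
  linear_combination (v 0 ^ 2 + v 1 ^ 2) * h1 + (v 2 ^ 2 + v 3 ^ 2) * h2
    + 2 * (- v 0 * v 3 + v 1 * v 2) * h3 + 2 * (v 0 * v 2 + v 1 * v 3) * h4

/-- `q F φ b` for a simple `φ`. -/
theorem q_simple {J : E4 →L[ℝ] E4} {F : Bil} {m M : ℝ} (h : Bd J F m M) {φ : Bil} (hφ : Pos J φ)
    (hn : q F φ F = 1) {X : E4} (hX : IsKer J φ X) {b : Bil} (hb : Alt b) :
    q F φ b = b X (J X) / F X (J X) := by
  obtain ⟨A, hA, -, -⟩ := h.frame
  set x : E4 := A.symm X with hx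
  have hAx : A x = X := A.apply_symm_apply X
  have hX0 : X ≠ 0 := by
    intro h0
    have := hX.one
    rw [h0, norm_zero] at this
    exact zero_ne_one this
  have hx0 : x ≠ 0 := by
    intro h0
    apply hX0
    rw [← hAx, h0, map_zero]
  have hP : Pos J0 (pull (A : E4 →L[ℝ] E4) φ) :=
    { alt := hφ.alt.pull _
      inv := hA.pull_inv hφ.inv
      nonneg := fun v => by
        rw [pull_apply]
        simp only [ContinuousLinearEquiv.coe_coe]
        rw [← hA.cplx]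
        exact hφ.nonneg _ }
  have hW : W (pull (A : E4 →L[ℝ] E4) φ) om0 = 2 := by
    have := hA.q_eq h.spos.alt hφ.alt h.spos.alt
    rw [hA.pull_form, hn] at this
    linarith
  have hk : pull (A : E4 →L[ℝ] E4) φ x (J0 x) = 0 := by
    rw [pull_apply]
    simp only [ContinuousLinearEquiv.coe_coe]
    rw [← hA.cplx, hAx]
    exact hX.ker
  have key := W_simple hP hW hk (hb.pull (A : E4 →L[ℝ] E4))
  have e1 : pull (A : E4 →L[ℝ] E4) b x (J0 x) = b X (J X) := by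
    rw [pull_apply]
    simp only [ContinuousLinearEquiv.coe_coe]
    rw [← hA.cplx, hAx]
  have e2 : F X (J X) = ‖x‖ ^ 2 := by
    rw [← hAx, hA.normsq]
  rw [hA.q_eq h.spos.alt hφ.alt hb, e2]
  rw [e1] at key
  have hx2 : ‖x‖ ^ 2 ≠ 0 := by positivity
  rw [eq_div_iff hx2]
  linarith

/-- diagonal of a simple `φ`. -/
theorem diag {J : E4 →L[ℝ] E4} {F : Bil} {m M : ℝ} (h : Bd J F m M) {φ : Bil} (hφ : Pos J φ)
    (hn : q F φ F = 1) {X : E4} (hX : IsKer J φ X) (z : E4) :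
    F X (J X) * φ z (J z) = 2 * (F X (J X) * F z (J z) - F z (J X) ^ 2 - F z X ^ 2) := by
  obtain ⟨A, hA, -, -⟩ := h.frame
  set x : E4 := A.symm X with hx
  have hAx : A x = X := A.apply_symm_apply X
  set v : E4 := A.symm z with hv
  have hAv : A v = z := A.apply_symm_apply z
  have hP : Pos J0 (pull (A : E4 →L[ℝ] E4) φ) :=
    { alt := hφ.alt.pull _
      inv := hA.pull_inv hφ.inv
      nonneg := fun v => by
        rw [pull_apply]
        simp only [ContinuousLinearEquiv.coe_coe]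
        rw [← hA.cplx]
        exact hφ.nonneg _ }
  have hW : W (pull (A : E4 →L[ℝ] E4) φ) om0 = 2 := by
    have := hA.q_eq h.spos.alt hφ.alt h.spos.alt
    rw [hA.pull_form, hn] at this
    linarith
  have hk : pull (A : E4 →L[ℝ] E4) φ x (J0 x) = 0 := by
    rw [pull_apply]
    simp only [ContinuousLinearEquiv.coe_coe]
    rw [← hA.cplx, hAx]
    exact hX.ker
  have key := diag_simple hP hW hk v
  have e2 : F X (J X) = ‖x‖ ^ 2 := by rw [← hAx, hA.normsq]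
  have e3 : F z (J z) = ‖v‖ ^ 2 := by rw [← hAv, hA.normsq]
  have e4 : F z (J X) = om0 v (J0 x) := by rw [← hAv, ← hAx, hA.cplx, hA.form]
  have e5 : F z X = om0 v x := by rw [← hAv, ← hAx, hA.form]
  have e6 : pull (A : E4 →L[ℝ] E4) φ v (J0 v) = φ z (J z) := by
    rw [pull_apply]
    simp only [ContinuousLinearEquiv.coe_coe]
    rw [← hA.cplx, hAv]
  rw [e2, e3, e4, e5, ← e6]
  exact key

/-- the complex coordinate along `X` -/
def cp (J : E4 →L[ℝ] E4) (F : Bil) (X : E4) : E4 →L[ℝ] ℂ :=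
  (Complex.equivRealProdCLM.symm : (ℝ × ℝ) →L[ℝ] ℂ).comp
    (((F X (J X))⁻¹ • ((F X).comp J)).prod ((F X (J X))⁻¹ • (F X)))

theorem cp_re (J : E4 →L[ℝ] E4) (F : Bil) (X z : E4) :
    (cp J F X z).re = F X (J z) / F X (J X) := by
  rw [div_eq_inv_mul]
  rfl

theorem cp_im (J : E4 →L[ℝ] E4) (F : Bil) (X z : E4) :
    (cp J F X z).im = F X z / F X (J X) := by
  rw [div_eq_inv_mul]
  rfl

theorem link : LINK := by
  intro J F m M h φ hφ hn X hX
  have hX0 : X ≠ 0 := by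
    intro h0
    have := hX.one
    rw [h0, norm_zero] at this
    exact zero_ne_one this
  have hg : 0 < F X (J X) := h.spos.pos X hX0
  have hm := h.m_pos
  have alt := h.spos.alt
  have hFXX : F X X = 0 := alt X
  have hJX : F (J X) X = - F X (J X) := alt.swap _ _
  have hz : ∀ u, φ X u = 0 := by
    intro u
    have := hφ.cs h.sq X u
    rw [hX.ker, zero_mul] at this
    exact pow_eq_zero_iff (two_ne_zero) |>.1 (le_antisymm this (sq_nonneg _))
  have hzJ : ∀ u, φ (J X) u = 0 := by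
    intro u
    have h1 := hφ.inv X (-(J u))
    rw [map_neg, h.sq, neg_neg, hz] at h1
    exact h1
  have hz' : ∀ u, φ u X = 0 := fun u => by rw [hφ.alt.swap, hz, neg_zero]
  have hzJ' : ∀ u, φ u (J X) = 0 := fun u => by rw [hφ.alt.swap, hzJ, neg_zero]
  refine ⟨fun b hb => q_simple h hφ hn hX hb, cp J F X, 1 / (2 * m), by positivity, ?_, ?_, ?_⟩
  · intro ζ
    apply Complex.ext
    · rw [cp_re, pt, map_add, map_smul, map_smul, h.sq, map_add, map_smul, map_smul, map_neg, hFXX]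
      simp only [smul_eq_mul]
      field_simp
      ring
    · rw [cp_im, pt, map_add, map_smul, map_smul, hFXX]
      simp only [smul_eq_mul]
      field_simp
      ring
  · intro z
    set n := z - pt J X (cp J F X z) with hnn
    have hp : F X (J z) = (cp J F X z).re * F X (J X) := by
      rw [cp_re]
      field_simp
    have hr : F X z = (cp J F X z).im * F X (J X) := by
      rw [cp_im]
      field_simp
    have h1 : F n X = 0 := by
      rw [hnn, pt]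
      simp only [map_sub, map_add, map_smul, sub_apply, add_apply, smul_apply, smul_eq_mul]
      rw [hFXX, hJX, alt.swap z X, hr]
      ring
    have h2 : F n (J X) = 0 := by
      rw [hnn, pt]
      simp only [map_sub, map_add, map_smul, sub_apply, add_apply, smul_apply, smul_eq_mul]
      rw [SPos.symm h.sq alt h.spos.inv z X, h.spos.inv X X, hFXX, hp]
      ring
    have h3 : φ n (J n) = φ z (J z) := by
      rw [hnn, pt]
      simp only [map_sub, map_add, map_smul, sub_apply, add_apply, smul_apply, smul_eq_mul, h.sq,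
        map_neg, hz, hzJ, hz', hzJ']
      ring
    have h4 := diag h hφ hn hX n
    rw [h1, h2, h3] at h4
    have h5 : φ z (J z) = 2 * F n (J n) := by
      have h6 : F X (J X) * φ z (J z) = F X (J X) * (2 * F n (J n)) := by rw [h4]; ring
      exact mul_left_cancel₀ hg.ne' h6
    have h7 := h.lo n
    rw [h5]
    calc ‖n‖ ^ 2 = 1 / (2 * m) * (2 * (m * ‖n‖ ^ 2)) := by field_simp
      _ ≤ 1 / (2 * m) * (2 * F n (J n)) := by gcongr
  · intro z
    set n := z - pt J X (cp J F X z) with hnn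
    have hp : F X (J z) = (cp J F X z).re * F X (J X) := by
      rw [cp_re]
      field_simp
    have hr : F X z = (cp J F X z).im * F X (J X) := by
      rw [cp_im]
      field_simp
    have e : ‖cp J F X z‖ ^ 2 = (cp J F X z).re ^ 2 + (cp J F X z).im ^ 2 := by
      rw [← Complex.normSq_eq_norm_sq, Complex.normSq_apply]
      ring
    rw [e, hnn, pt]
    simp only [map_sub, map_add, map_smul, sub_apply, add_apply, smul_apply, smul_eq_mul, h.sq,
      map_neg]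
    rw [hFXX, hJX, SPos.symm h.sq alt h.spos.inv z X, alt.swap z X, h.spos.inv X z,
      h.spos.inv X X, hFXX, hp, hr]
    ring

end

end Crest.Agent.R235.FlatLink_181
end

-- ▼ part R235/FlatDefz_463
section

/-!
Row 235 (S0364), PACKAGE REG, leaf FLAT-2 (task 380, helper463): the frozen deficit tends to zero.
-/

set_option autoImplicit false
set_option maxSynthPendingDepth 3

open Set Function Filter MeasureTheory Metric
open scoped ContDiff ENNReal Manifold Topology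

namespace Crest.Agent.R235.FlatDefz_463

open Crest.Agent.R240 Crest.Agent.R240.En Crest.Agent.R240.Pot
open Crest.Agent.R235.CurDefs_132 Crest.Agent.R235.Flat

noncomputable section

/-! ### pointwise algebra -/

theorem ker_zero {J : E4 →L[ℝ] E4} {F : Bil} {m M : ℝ} (h : Bd J F m M) {v : E4}
    (hv : F v (J v) = 0) : v = 0 := by
  have h1 := h.lo v
  rw [hv] at h1
  have h2 : ‖v‖ ^ 2 ≤ 0 := by
    by_contra hc
    have := mul_pos h.m_pos (not_le.1 hc)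
    linarith
  have h3 : ‖v‖ = 0 := by
    have := sq_nonneg ‖v‖
    exact pow_eq_zero_iff (two_ne_zero) |>.1 (le_antisymm h2 this)
  exact norm_eq_zero.1 h3

/-- comparison of the deficit of a covector with the frozen value. -/
theorem alg (h1 : LIN1) {J : E4 →L[ℝ] E4} {F : Bil} {m M : ℝ} (h : Bd J F m M) {φ : Bil}
    (hφ : Pos J φ) (hn : q F φ F = 1) (α : Cov) (z : E4) (β : Cov)
    (hβ : ∀ u, β u = 2 * F z (J u)) :
    φ z (J z) ≤ defi J F φ α + defi J F φ (β - α) := by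
  obtain ⟨Z, hZ, hZ2, -⟩ := h1 J F m M h φ hφ hn α
  obtain ⟨Z', hZ', hZ2', -⟩ := h1 J F m M h φ hφ hn (β - α)
  have hs : (2 : ℝ) • z = Z + Z' := by
    have h0 : ((2 : ℝ) • z - (Z + Z')) = 0 := by
      apply ker_zero h
      rw [map_sub, map_smul, map_add, sub_apply, add_apply,
        smul_apply, hZ, hZ', sub_apply, hβ, smul_eq_mul]
      ring
    exact sub_eq_zero.1 h0
  have h2 : φ ((2 : ℝ) • z) (J ((2 : ℝ) • z)) = 4 * φ z (J z) := by
    rw [map_smul, map_smul, map_smul, smul_apply, smul_eq_mul, smul_eq_mul]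
    ring
  have h3 := hφ.nonneg (Z - Z')
  rw [hs] at h2
  simp only [map_add, map_sub, add_apply, sub_apply]
    at h2 h3
  rw [hZ2, hZ2']
  linarith

theorem defi_nonneg (h1 : LIN1) {J : E4 →L[ℝ] E4} {F : Bil} {m M : ℝ} (h : Bd J F m M) {φ : Bil}
    (hφ : Pos J φ) (hn : q F φ F = 1) (α : Cov) : 0 ≤ defi J F φ α := by
  obtain ⟨Z, hZ, hZ2, -⟩ := h1 J F m M h φ hφ hn α
  rw [hZ2]
  have := hφ.nonneg Z
  linarith

/-! ### the differential of `rho2` -/

section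
variable (D : LC)

theorem lipF (x y : E4) : ‖D.F x - D.F y‖ ≤ D.L * ‖y - x‖ := by
  have h := convex_univ.norm_image_sub_le_of_norm_fderiv_le (f := D.F) (C := D.L) (x := y) (y := x)
    (fun z _ => (D.smF.differentiable (by simp)).differentiableAt)
    (fun z _ => D.bF1 z) (mem_univ _) (mem_univ _)
  rwa [norm_sub_rev x y] at h

theorem lipJ (x y : E4) : ‖D.J x - D.J y‖ ≤ D.L * ‖y - x‖ := by
  have h := convex_univ.norm_image_sub_le_of_norm_fderiv_le (f := D.J) (C := D.L) (x := y) (y := x)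
    (fun z _ => (D.smJ.differentiable (by simp)).differentiableAt)
    (fun z _ => D.bJ1 z) (mem_univ _) (mem_univ _)
  rwa [norm_sub_rev x y] at h

/-- the differential of `rho2` in the second variable. -/
theorem dy_apply (x y u : E4) : D.dy x y u =
    D.F x (y - x) (D.J x u) + D.F y (y - x) (D.J y u) +
      (fderiv ℝ D.F y u (y - x) (D.J y (y - x)) + D.F y (y - x) (fderiv ℝ D.J y u (y - x))) / 2 := by
  have hz : HasFDerivAt (fun y' : E4 => y' - x) (ContinuousLinearMap.id ℝ E4) y :=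
    (hasFDerivAt_id y).sub_const x
  have hF : HasFDerivAt D.F (fderiv ℝ D.F y) y :=
    (D.smF.differentiable (by simp)).differentiableAt.hasFDerivAt
  have hJ : HasFDerivAt D.J (fderiv ℝ D.J y) y :=
    (D.smJ.differentiable (by simp)).differentiableAt.hasFDerivAt
  have e1 := (hF.clm_apply hz).clm_apply (hJ.clm_apply hz)
  have hFx : HasFDerivAt (fun y' : E4 => D.F x (y' - x))
      ((D.F x).comp (ContinuousLinearMap.id ℝ E4)) y := (D.F x).hasFDerivAt.comp y hz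
  have hJx : HasFDerivAt (fun y' : E4 => D.J x (y' - x))
      ((D.J x).comp (ContinuousLinearMap.id ℝ E4)) y := (D.J x).hasFDerivAt.comp y hz
  have e2 := hFx.clm_apply hJx
  have e0 := (e2.add e1).mul_const (2⁻¹ : ℝ)
  have e3 := e0.congr_of_eventuallyEq (f₁ := fun y' : E4 => D.rho2 x y')
    (Eventually.of_forall fun y' => by
      simp [LC.rho2, LC.G, gm_apply, div_eq_mul_inv])
  have hsx : D.F x u (D.J x (y - x)) = D.F x (y - x) (D.J x u) := by
    have := gm_symm (D.bd x).sq (D.bd x).spos u (y - x)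
    simpa using this
  have hsy : D.F y u (D.J y (y - x)) = D.F y (y - x) (D.J y u) := by
    have := gm_symm (D.bd y).sq (D.bd y).spos u (y - x)
    simpa using this
  rw [LC.dy, e3.fderiv]
  simp
  simp at hsx hsy
  linarith

theorem L_nonneg : 0 ≤ D.L := zero_le_one.trans D.L_ge

theorem dy_close (x y : E4) :
    ‖(2 : ℝ) • (D.F y (y - x)).comp (D.J y) - D.dy x y‖ ≤ 3 * D.L ^ 2 * ‖y - x‖ ^ 2 := by
  have hL := L_nonneg D
  refine ContinuousLinearMap.opNorm_le_bound _ (by positivity) fun u => ?_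
  set z := y - x with hz
  have e : ((2 : ℝ) • (D.F y z).comp (D.J y) - D.dy x y) u =
      (D.F y - D.F x) z (D.J y u) + D.F x z ((D.J y - D.J x) u) -
        (fderiv ℝ D.F y u z (D.J y z) + D.F y z (fderiv ℝ D.J y u z)) / 2 := by
    rw [sub_apply, dy_apply]
    simp only [smul_apply, sub_apply, ContinuousLinearMap.comp_apply, smul_eq_mul, map_sub, ← hz]
    ring
  rw [e]
  have nF : ‖D.F y - D.F x‖ ≤ D.L * ‖z‖ := by
    rw [norm_sub_rev]; exact lipF D x y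
  have nJ : ‖D.J y - D.J x‖ ≤ D.L * ‖z‖ := by
    rw [norm_sub_rev]; exact lipJ D x y
  have nu := norm_nonneg u
  have nz := norm_nonneg z
  have b1 : ‖(D.F y - D.F x) z (D.J y u)‖ ≤ D.L * ‖z‖ * ‖z‖ * (D.L * ‖u‖) := by
    refine (((D.F y - D.F x) z).le_opNorm _).trans ?_
    refine mul_le_mul (((D.F y - D.F x).le_opNorm _).trans
      (mul_le_mul_of_nonneg_right nF nz)) (((D.J y).le_opNorm _).trans
      (mul_le_mul_of_nonneg_right (D.bJ y) nu)) (norm_nonneg _) (by positivity)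
  have b2 : ‖D.F x z ((D.J y - D.J x) u)‖ ≤ D.L * ‖z‖ * (D.L * ‖z‖ * ‖u‖) := by
    refine ((D.F x z).le_opNorm _).trans ?_
    refine mul_le_mul (((D.F x).le_opNorm _).trans
      (mul_le_mul_of_nonneg_right (D.bF x) nz)) (((D.J y - D.J x).le_opNorm _).trans
      (mul_le_mul_of_nonneg_right nJ nu)) (norm_nonneg _) (by positivity)
  have b3 : ‖fderiv ℝ D.F y u z (D.J y z)‖ ≤ D.L * ‖u‖ * ‖z‖ * (D.L * ‖z‖) := by
    refine ((fderiv ℝ D.F y u z).le_opNorm _).trans ?_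
    refine mul_le_mul (((fderiv ℝ D.F y u).le_opNorm _).trans
      (mul_le_mul_of_nonneg_right (((fderiv ℝ D.F y).le_opNorm _).trans
        (mul_le_mul_of_nonneg_right (D.bF1 y) nu)) nz)) (((D.J y).le_opNorm _).trans
      (mul_le_mul_of_nonneg_right (D.bJ y) nz)) (norm_nonneg _) (by positivity)
  have b4 : ‖D.F y z (fderiv ℝ D.J y u z)‖ ≤ D.L * ‖z‖ * (D.L * ‖u‖ * ‖z‖) := by
    refine ((D.F y z).le_opNorm _).trans ?_
    refine mul_le_mul (((D.F y).le_opNorm _).trans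
      (mul_le_mul_of_nonneg_right (D.bF y) nz)) (((fderiv ℝ D.J y u).le_opNorm _).trans
      (mul_le_mul_of_nonneg_right (((fderiv ℝ D.J y).le_opNorm _).trans
        (mul_le_mul_of_nonneg_right (D.bJ1 y) nu)) nz)) (norm_nonneg _) (by positivity)
  rw [Real.norm_eq_abs] at b1 b2 b3 b4 ⊢
  have c1 := abs_le.1 b1
  have c2 := abs_le.1 b2
  have c3 := abs_le.1 b3
  have c4 := abs_le.1 b4
  rw [abs_le]
  constructor <;> nlinarith

/-- the pointwise inequality. -/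
theorem ptwise (h1 : LIN1) (h4 : LIN4) : ∃ C : ℝ, 0 ≤ C ∧ ∀ x y : E4, ‖y - x‖ ≤ 1 →
    D.φ x (y - x) (D.J x (y - x)) ≤
      D.De x y + (C * ‖y - x‖ ^ 3 + D.L * ‖y - x‖ ^ 2 * ‖D.φ y - D.φ x‖) := by
  obtain ⟨C, hC, hC4⟩ := h4 D.m D.M D.L
  have hL := L_nonneg D
  refine ⟨9 * C * D.L ^ 4 + C * D.L, by positivity, fun x y hz1 => ?_⟩
  obtain ⟨n1, -, -, n4, -⟩ := hC4 (D.J y) (D.F y) (D.bd y) (D.bJ y) (D.φ y) (D.pos y) (D.nrm y)
  set z := y - x with hz
  have nz := norm_nonneg z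
  have a1 := alg h1 (D.bd y) (D.pos y) (D.nrm y) (D.dy x y) z
    ((2 : ℝ) • (D.F y z).comp (D.J y)) (fun u => by
      simp only [smul_apply, ContinuousLinearMap.comp_apply, smul_eq_mul])
  have a2 : defi (D.J y) (D.F y) (D.φ y) ((2 : ℝ) • (D.F y z).comp (D.J y) - D.dy x y) ≤
      9 * C * D.L ^ 4 * ‖z‖ ^ 3 := by
    refine (n4 _).trans ?_
    have h := dy_close D x y
    rw [← hz] at h
    have h2 : ‖(2 : ℝ) • (D.F y z).comp (D.J y) - D.dy x y‖ ^ 2 ≤
        (3 * D.L ^ 2 * ‖z‖ ^ 2) ^ 2 := by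
      gcongr
    have h3 : ‖z‖ ^ 4 ≤ ‖z‖ ^ 3 := pow_le_pow_of_le_one nz hz1 (by norm_num)
    calc C * ‖(2 : ℝ) • (D.F y z).comp (D.J y) - D.dy x y‖ ^ 2
        ≤ C * (3 * D.L ^ 2 * ‖z‖ ^ 2) ^ 2 := mul_le_mul_of_nonneg_left h2 hC
      _ = 9 * C * D.L ^ 4 * ‖z‖ ^ 4 := by ring
      _ ≤ 9 * C * D.L ^ 4 * ‖z‖ ^ 3 := mul_le_mul_of_nonneg_left h3 (by positivity)
  have a3 : D.φ x z (D.J x z) = D.φ y z (D.J y z) + (D.φ x - D.φ y) z (D.J x z) +
      D.φ y z ((D.J x - D.J y) z) := by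
    simp only [sub_apply, map_sub]
    ring
  have a4 : ‖(D.φ x - D.φ y) z (D.J x z)‖ ≤ ‖D.φ y - D.φ x‖ * ‖z‖ * (D.L * ‖z‖) := by
    rw [norm_sub_rev (D.φ y)]
    refine (((D.φ x - D.φ y) z).le_opNorm _).trans ?_
    exact mul_le_mul ((D.φ x - D.φ y).le_opNorm _) (((D.J x).le_opNorm _).trans
      (mul_le_mul_of_nonneg_right (D.bJ x) nz)) (norm_nonneg _) (by positivity)
  have a5 : ‖D.φ y z ((D.J x - D.J y) z)‖ ≤ C * ‖z‖ * (D.L * ‖z‖ * ‖z‖) := by
    refine ((D.φ y z).le_opNorm _).trans ?_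
    exact mul_le_mul (((D.φ y).le_opNorm _).trans (mul_le_mul_of_nonneg_right n1 nz))
      (((D.J x - D.J y).le_opNorm _).trans (mul_le_mul_of_nonneg_right (lipJ D x y) nz))
      (norm_nonneg _) (by positivity)
  rw [Real.norm_eq_abs] at a4 a5
  have c4 := (abs_le.1 a4).2
  have c5 := (abs_le.1 a5).2
  have e6 : D.De x y = defi (D.J y) (D.F y) (D.φ y) (D.dy x y) := rfl
  rw [a3, e6]
  nlinarith

end

/-! ### integration -/

theorem defz (h1 : LIN1) (h4 : LIN4) (hM : MON) : DEFZ := by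
  intro D x hx hLeb
  obtain ⟨C, hC, hpt⟩ := ptwise D h1 h4
  have hL := L_nonneg D
  have := D.fin
  obtain ⟨K, hK⟩ : ∃ K, Cut 1 K := by
    refine ⟨fun t => Real.smoothTransition (2 - t), ?_, ?_, ?_, ?_⟩
    · exact Real.smoothTransition.contDiff.comp (contDiff_const.sub contDiff_id)
    · intro a b hab
      exact Real.smoothTransition.monotone (by linarith)
    · intro t ht
      exact Real.smoothTransition.one_of_one_le (by linarith)
    · intro t ht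
      exact Real.smoothTransition.zero_of_nonpos (by linarith)
  obtain ⟨C1, r1, hC1, hr1, -, -, hint⟩ := hM D 1 K one_pos le_rfl hK
  have hint := hint x hx
  set h : E4 → ℝ≥0∞ := fun y => ENNReal.ofReal (D.De x y / ‖y - x‖ ^ 4) with hh
  have hfin : ∫⁻ y, h y ∂(D.s.restrict (ball x r1)) ≠ ⊤ := ne_top_of_le_ne_top ENNReal.ofReal_ne_top hint
  -- growth of closed balls
  have hgr : ∀ r, 0 < r → D.s.real (closedBall x r) ≤ 4 * D.C * r ^ 2 := by
    intro r hr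
    have h2 : closedBall x r ⊆ ball x (2 * r) := closedBall_subset_ball (by linarith)
    refine (measureReal_mono h2).trans ((D.gr x (2 * r) (by linarith)).trans_eq ?_)
    ring
  have hs0 : Tendsto (fun r : ℝ => D.s (closedBall x r)) (𝓝[>] 0) (𝓝 0) := by
    have h2 : Tendsto (fun r : ℝ => ENNReal.ofReal (4 * D.C * r ^ 2)) (𝓝[>] 0) (𝓝 0) := by
      have h3 : Tendsto (fun r : ℝ => 4 * D.C * r ^ 2) (𝓝[>] 0) (𝓝 0) := by
        have : Tendsto (fun r : ℝ => 4 * D.C * r ^ 2) (𝓝 0) (𝓝 (4 * D.C * 0 ^ 2)) :=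
          (continuous_const.mul (continuous_id.pow 2)).tendsto 0
        rw [zero_pow two_ne_zero, mul_zero] at this
        exact this.mono_left nhdsWithin_le_nhds
      have := ENNReal.tendsto_ofReal h3
      rwa [ENNReal.ofReal_zero] at this
    refine tendsto_of_tendsto_of_tendsto_of_le_of_le' tendsto_const_nhds h2
      (Eventually.of_forall fun _ => zero_le) ?_
    filter_upwards [self_mem_nhdsWithin] with r hr
    rw [← ENNReal.ofReal_toReal (measure_ne_top D.s (closedBall x r))]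
    exact ENNReal.ofReal_le_ofReal (hgr r hr)
  -- the first term
  have hT : Tendsto (fun r : ℝ => (∫⁻ y in closedBall x r, h y ∂D.s).toReal) (𝓝[>] 0) (𝓝 0) := by
    have h2 : Tendsto (fun r : ℝ => ∫⁻ y in closedBall x r, h y ∂(D.s.restrict (ball x r1)))
        (𝓝[>] 0) (𝓝 0) := by
      refine tendsto_setLIntegral_zero hfin ?_
      refine tendsto_of_tendsto_of_tendsto_of_le_of_le tendsto_const_nhds hs0
        (fun _ => zero_le) fun r => ?_
      exact Measure.restrict_apply_le _ _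
    have h3 := (ENNReal.tendsto_toReal (ENNReal.zero_ne_top)).comp h2
    rw [ENNReal.toReal_zero] at h3
    refine h3.congr' ?_
    filter_upwards [Ioo_mem_nhdsGT hr1] with r hr
    simp only [Function.comp_apply]
    rw [Measure.restrict_restrict_of_subset (closedBall_subset_ball hr.2)]
  -- the main inequality
  have hφm : Measurable fun y => ‖D.φ y - D.φ x‖ := (D.meas.sub_const _).norm
  obtain ⟨C4, hC4, hb4⟩ := h4 D.m D.M D.L
  have hφb : ∀ y, ‖D.φ y‖ ≤ C4 := fun y =>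
    (hb4 (D.J y) (D.F y) (D.bd y) (D.bJ y) (D.φ y) (D.pos y) (D.nrm y)).1
  have hφi : ∀ r, IntegrableOn (fun y => ‖D.φ y - D.φ x‖) (closedBall x r) D.s := by
    intro r
    refine Measure.integrableOn_of_bounded (M := 2 * C4) (measure_ne_top _ _)
      hφm.aestronglyMeasurable (Eventually.of_forall fun y => ?_)
    rw [norm_norm]
    refine (norm_sub_le _ _).trans ?_
    have := hφb x
    have := hφb y
    linarith
  have hmain : ∀ r, 0 < r → r < r1 → r ≤ 1 →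
      (r ^ 4)⁻¹ * ∫ y in closedBall x r, D.φ x (y - x) (D.J x (y - x)) ∂D.s ≤
        (∫⁻ y in closedBall x r, h y ∂D.s).toReal + (4 * C * D.C * r +
          D.L * ((r ^ 2)⁻¹ * ∫ y in closedBall x r, ‖D.φ y - D.φ x‖ ∂D.s)) := by
    intro r hr hr1' hr2
    have hr4 : 0 < r ^ 4 := by positivity
    have hTfin : ∫⁻ y in closedBall x r, h y ∂D.s ≠ ⊤ :=
      ne_top_of_le_ne_top hfin (lintegral_mono' (Measure.restrict_mono
        (closedBall_subset_ball hr1') le_rfl) le_rfl)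
    have hc : Continuous fun y => D.φ x (y - x) (D.J x (y - x)) := by fun_prop
    have hi0 : IntegrableOn (fun y => D.φ x (y - x) (D.J x (y - x))) (closedBall x r) D.s :=
      hc.continuousOn.integrableOn_compact (isCompact_closedBall x r)
    set G : E4 → ℝ := fun y => C * r ^ 3 + D.L * r ^ 2 * ‖D.φ y - D.φ x‖ with hG
    have hGi : IntegrableOn G (closedBall x r) D.s :=
      (integrableOn_const (measure_ne_top _ _)).add ((hφi r).const_mul _)
    have hG0 : ∀ y, 0 ≤ G y := fun y => by rw [hG]; positivity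
    have hle : ∫⁻ y in closedBall x r, ENNReal.ofReal (D.φ x (y - x) (D.J x (y - x))) ∂D.s ≤
        ∫⁻ y in closedBall x r, (ENNReal.ofReal (r ^ 4) * h y + ENNReal.ofReal (G y)) ∂D.s := by
      refine setLIntegral_mono' measurableSet_closedBall fun y hy => ?_
      rw [mem_closedBall, dist_eq_norm] at hy
      have nz := norm_nonneg (y - x)
      have hd0 : 0 ≤ D.De x y := defi_nonneg h1 (D.bd y) (D.pos y) (D.nrm y) _
      rw [hh]
      simp only
      rw [← ENNReal.ofReal_mul hr4.le, ← ENNReal.ofReal_add (by positivity) (hG0 y)]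
      refine ENNReal.ofReal_le_ofReal ?_
      by_cases h0 : ‖y - x‖ = 0
      · have h00 : y - x = 0 := norm_eq_zero.1 h0
        rw [h00]
        simp only [map_zero, norm_zero]
        have := hG0 y
        simpa using this
      · have hpos : 0 < ‖y - x‖ := lt_of_le_of_ne nz (Ne.symm h0)
        have hp := hpt x y (hy.trans hr2)
        have e1 : D.De x y ≤ r ^ 4 * (D.De x y / ‖y - x‖ ^ 4) := by
          rw [mul_div_assoc', le_div_iff₀ (by positivity)]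
          rw [mul_comm (r ^ 4)]
          exact mul_le_mul_of_nonneg_left (pow_le_pow_left₀ nz hy 4) hd0
        have e2 : C * ‖y - x‖ ^ 3 ≤ C * r ^ 3 :=
          mul_le_mul_of_nonneg_left (pow_le_pow_left₀ nz hy 3) hC
        have e3 : D.L * ‖y - x‖ ^ 2 * ‖D.φ y - D.φ x‖ ≤ D.L * r ^ 2 * ‖D.φ y - D.φ x‖ :=
          mul_le_mul_of_nonneg_right (mul_le_mul_of_nonneg_left (pow_le_pow_left₀ nz hy 2) hL)
            (norm_nonneg _)
        rw [hG]
        simp only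
        linarith
    rw [lintegral_add_right', lintegral_const_mul' _ _ ENNReal.ofReal_ne_top,
      ← ofReal_integral_eq_lintegral_ofReal hi0, ← ofReal_integral_eq_lintegral_ofReal hGi] at hle
    rotate_left
    · exact Eventually.of_forall hG0
    · exact Eventually.of_forall fun y => (D.pos x).nonneg _
    · exact hGi.aestronglyMeasurable.aemeasurable.ennreal_ofReal
    have hGv : ∫ y in closedBall x r, G y ∂D.s = C * r ^ 3 * D.s.real (closedBall x r) +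
        D.L * r ^ 2 * ∫ y in closedBall x r, ‖D.φ y - D.φ x‖ ∂D.s := by
      have i1 : Integrable (fun _ : E4 => C * r ^ 3) (D.s.restrict (closedBall x r)) :=
        integrable_const _
      have i2 : Integrable (fun y : E4 => D.L * r ^ 2 * ‖D.φ y - D.φ x‖)
        (D.s.restrict (closedBall x r)) := (hφi r).const_mul _
      rw [hG, integral_add i1 i2, setIntegral_const, integral_const_mul, smul_eq_mul]
      ring
    have hGn : 0 ≤ ∫ y in closedBall x r, G y ∂D.s := integral_nonneg hG0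
    rw [← ENNReal.ofReal_toReal hTfin, ← ENNReal.ofReal_mul hr4.le,
      ← ENNReal.ofReal_add (by positivity) hGn,
      ENNReal.ofReal_le_ofReal_iff (by positivity)] at hle
    rw [hGv] at hle
    have hsr := hgr r hr
    have e5 : C * r ^ 3 * D.s.real (closedBall x r) ≤ C * r ^ 3 * (4 * D.C * r ^ 2) :=
      mul_le_mul_of_nonneg_left hsr (by positivity)
    rw [inv_mul_le_iff₀ hr4]
    refine hle.trans ?_
    have e6 : r ^ 4 * (D.L * ((r ^ 2)⁻¹ * ∫ y in closedBall x r, ‖D.φ y - D.φ x‖ ∂D.s)) =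
        D.L * r ^ 2 * ∫ y in closedBall x r, ‖D.φ y - D.φ x‖ ∂D.s := by
      field_simp
    rw [mul_add, mul_add, e6]
    nlinarith
  -- conclusion
  have hlim : Tendsto (fun r : ℝ => (∫⁻ y in closedBall x r, h y ∂D.s).toReal + (4 * C * D.C * r +
      D.L * ((r ^ 2)⁻¹ * ∫ y in closedBall x r, ‖D.φ y - D.φ x‖ ∂D.s))) (𝓝[>] 0) (𝓝 0) := by
    have h3 : Tendsto (fun r : ℝ => 4 * C * D.C * r) (𝓝[>] 0) (𝓝 0) := by
      have : Tendsto (fun r : ℝ => 4 * C * D.C * r) (𝓝 0) (𝓝 (4 * C * D.C * 0)) :=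
        (continuous_const.mul continuous_id).tendsto 0
      rw [mul_zero] at this
      exact this.mono_left nhdsWithin_le_nhds
    have := hT.add (h3.add (hLeb.const_mul D.L))
    simpa using this
  refine tendsto_of_tendsto_of_tendsto_of_le_of_le' tendsto_const_nhds hlim ?_ ?_
  · filter_upwards [self_mem_nhdsWithin] with r hr
    have hr' : 0 < r := hr
    refine mul_nonneg (by positivity) (integral_nonneg fun y => (D.pos x).nonneg _)
  · filter_upwards [Ioo_mem_nhdsGT hr1, Ioo_mem_nhdsGT one_pos] with r hr hr'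
    exact hmain r hr.1 hr.2 hr'.2.le

end

end Crest.Agent.R235.FlatDefz_463
end

-- ▼ part R235/RegFlat_460
section

/-!
Row 235, PACKAGE REG, A1.0 (helper460): `Reg_522.FLATW`, unconditional, from the leaves FLAT of
helper607's block and the assembly of helper843.
-/

set_option autoImplicit false
set_option maxSynthPendingDepth 3

open MeasureTheory Metric Set Filter
open scoped ContDiff Topology Manifold ENNReal NNReal

namespace Crest.Agent.R235.RegFlat_460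

open Crest.Agent.R240 Crest.Agent.R235.CurDefs_132 Crest.Agent.R235.Reg_522
open Crest.Agent.R235.Reg_FLATW_843

noncomputable section

theorem flp : Flat.FLP :=
  FlatPt_856.flp FlatLink_181.link (FlatTrans_82.trans FlatLink_181.link CurLin4_253.LIN4_proof)
    FlatRadi_125.radi FlatPlane_291.plane

/-- flatness at a good point. -/
theorem flatE2 (D : LC) {p : E4}
    (hd : ∀ᵐ x ∂D.s, x ∈ Reg_FLATW_843.B2 D → Deg (D.J x) (D.F x) (D.φ x) (XX D x))
    (hp : p ∈ Reg_FLATW_843.B2 D) (hleb : Flat.LebPt D p) (hdef : Flat.DefPt D p)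
    (hden : IsDenE (D.G p) D.s p 1) (hdeg : Deg (D.J p) (D.F p) (D.φ p) (XX D p)) :
    FlatE (mm D) (XX D) (fun q => D.J q (XX D q)) p := by
  intro g hg hgc ha
  have h1 := flp D p hp hleb hdef hden (XX D p) ⟨norm_XX D p, hdeg.zero⟩ g hg hgc
    (fun z v => ha z v)
  obtain ⟨K0, hK0⟩ := hgc.isCompact.isBounded.subset_ball (0 : E4)
  have hK : ∀ z, max K0 1 ≤ ‖z‖ → g z = 0 := by
    intro z hz
    by_contra hne
    have h3 := hK0 (subset_tsupport g hne)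
    rw [mem_ball_zero_iff] at h3
    linarith [le_max_left K0 1]
  have hK1 : (0 : ℝ) < max K0 1 := lt_of_lt_of_le one_pos (le_max_right _ _)
  refine h1.congr' ?_
  obtain ⟨δ, hδ, hsub⟩ := exists_ball_sub D hp
  have h4 : ∀ᶠ r : ℝ in 𝓝[>] 0, r < δ / max K0 1 :=
    (eventually_lt_nhds (div_pos hδ hK1)).filter_mono nhdsWithin_le_nhds
  filter_upwards [h4, self_mem_nhdsWithin] with r hr hr0
  have hr0' : 0 < r := hr0
  congr 1
  symm
  refine integral_mm' D hd (β := fun y => g (r⁻¹ • (y - p))) (fun y => ha _) fun y hy => ?_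
  apply hK
  have h5 : δ ≤ dist y p := by
    by_contra h6
    exact hy (hsub (mem_ball.2 (not_le.1 h6)))
  rw [dist_eq_norm] at h5
  rw [norm_smul, norm_inv, Real.norm_eq_abs, abs_of_pos hr0', ← div_eq_inv_mul,
    le_div_iff₀ hr0']
  rw [lt_div_iff₀ hK1] at hr
  linarith

/-- (A1.0) density one ⟹ flat current. -/
theorem flatw : FLATW := by
  intro hMon D hden
  have hR := D.R_pos
  have h23 : Reg_FLATW_843.B2 D ⊆ ball D.x0 (3 * D.R) := ball_subset_ball (by linarith)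
  have h24 : Reg_FLATW_843.B2 D ⊆ ball D.x0 (4 * D.R) := ball_subset_ball (by linarith)
  have hdefz : Flat.DEFZ := FlatDefz_463.defz CurLin1_785.lin1 CurLin4_253.LIN4_proof hMon
  have hGood : FWGOOD := Reg_FWGOOD_504.fwgood_of fun _ => hdefz
  have hall : ∀ᵐ x ∂D.s, x ∈ Reg_FLATW_843.B2 D → (Flat.LebPt D x ∧ Flat.DefPt D x) ∧
      IsDenE (D.G x) D.s x 1 ∧ Deg (D.J x) (D.F x) (D.φ x) (XX D x) := by
    filter_upwards [hGood hMon D, hden, FlatLeb_504.lebp D] with x h1 h2 hl hx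
    have h3 := h1 (h23 hx)
    have h4 := h2 (h23 hx)
    exact ⟨⟨hl, hdefz D x (h23 hx) hl⟩, h4,
      deg_XX D RegFWALG_347.fwalg (RegFWDEG_83.fwdeg D x (h24 hx) h3 h4)⟩
  have hd : ∀ᵐ x ∂D.s, x ∈ Reg_FLATW_843.B2 D → Deg (D.J x) (D.F x) (D.φ x) (XX D x) := by
    filter_upwards [hall] with x hx hxB
    exact (hx hxB).2.2
  refine ⟨mm D, XX D, 4 * D.C / D.m, ?_, ?_, ?_⟩
  · exact
      { openU := isOpen_ball
        smJ := D.smJ.contDiffOn
        sqJ := fun x _ => (D.bd x).sq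
        fin := fin_mm D
        mX := meas_XX D
        nX := norm_XX D
        supp := ae_mem D
        closed := closed_mm D hd
        up := up_mm D
        low := low_mm D (Reg_FWLOW_356.fwlow hMon D hden)
        flat := by
          refine ae_mm D ?_
          filter_upwards [hall] with x hx hxB
          exact flatE2 D hd hxB (hx hxB).1.1 (hx hxB).1.2 (hx hxB).2.1 (hx hxB).2.2 }
  · intro x hx
    exact ⟨suppE_of_mm D, suppE_mm D hx⟩
  · intro b _ hb hQ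
    obtain ⟨Q, hQs, -, hQ0⟩ := hQ
    symm
    exact integral_mm' D hd hb fun x hx => hQ0 x fun h => hx (hQs h)

end

end Crest.Agent.R235.RegFlat_460
end

-- ▼ part R235/NWVar_428
section

/-!
# Row 235, PACKAGE NW, leaf VAR (helper428): `CauchyStmt → NStmt → FamStmt → VarStmt`
-/

set_option autoImplicit false
set_option maxSynthPendingDepth 3

open Set Filter Metric Topology MeasureTheory
open scoped ContDiff Real

namespace Crest.Agent.R235.NWVar_428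

open Crest.Agent.R235.NWDefs_334 Crest.Agent.R235.NWIface_334 Crest.Agent.R235.NWTool_334
open Crest.Agent.R235.NWLoc_334 Crest.Agent.R235.NWSet_334

noncomputable section

section aux

variable {E : Type*} [NormedAddCommGroup E] [NormedSpace ℝ E]

/-- cut-off of a function smooth on a ball -/
theorem exists_cut {u : ℂ → E} {r1 : ℝ} (hr1 : 0 < r1) (hu : ContDiffOn ℝ ∞ u (ball 0 r1)) :
    ∃ v : ℂ → E, ContDiff ℝ ∞ v ∧ HasCompactSupport v ∧ ∀ z ∈ ball (0 : ℂ) (r1 / 2), v z = u z := by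
  let θ : ContDiffBump (0 : ℂ) := ⟨r1 / 2, 3 * r1 / 4, by positivity, by linarith⟩
  have hθ : ContDiff ℝ ∞ (θ : ℂ → ℝ) := θ.contDiff
  refine ⟨fun z => θ z • u z, ?_, ?_, fun z hz => ?_⟩
  · rw [contDiff_iff_contDiffAt]
    intro z
    by_cases hz : z ∈ ball (0 : ℂ) r1
    · exact hθ.contDiffAt.smul (hu.contDiffAt (isOpen_ball.mem_nhds hz))
    · have hz' : z ∈ (closedBall (0 : ℂ) (3 * r1 / 4))ᶜ := by
        rw [mem_compl_iff, mem_closedBall]
        rw [mem_ball] at hz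
        intro h; exact hz (lt_of_le_of_lt h (by linarith))
      refine (contDiffAt_const (c := (0 : E))).congr_of_eventuallyEq ?_
      filter_upwards [isClosed_closedBall.isOpen_compl.mem_nhds hz'] with y hy
      rw [mem_compl_iff, mem_closedBall, not_le] at hy
      rw [θ.zero_of_le_dist hy.le, zero_smul]
  · exact θ.hasCompactSupport.smul_right
  · show θ z • u z = u z
    rw [θ.one_of_mem_closedBall (ball_subset_closedBall hz), one_smul]

/-- bounds for the derivatives of a compactly supported smooth function -/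
theorem exists_bd {v : ℂ → E} (hv : ContDiff ℝ ∞ v) (hs : HasCompactSupport v) :
    ∃ C : ℝ, 0 ≤ C ∧ ∀ n : ℕ, n ≤ 2 → ∀ z, ‖iteratedFDeriv ℝ n v z‖ ≤ C := by
  have h : ∀ n : ℕ, ∃ C : ℝ, ∀ z, ‖iteratedFDeriv ℝ n v z‖ ≤ C := fun n =>
    (hv.continuous_iteratedFDeriv (m := n) (by exact_mod_cast le_top)).bounded_above_of_compact_support
      (hs.iteratedFDeriv n)
  obtain ⟨C0, h0⟩ := h 0
  obtain ⟨C1, h1⟩ := h 1
  obtain ⟨C2, h2⟩ := h 2
  refine ⟨max C0 (max C1 C2), ?_, fun n hn z => ?_⟩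
  · exact (norm_nonneg _).trans ((h0 0).trans (le_max_left _ _))
  · interval_cases n
    · exact (h0 z).trans (le_max_left _ _)
    · exact (h1 z).trans ((le_max_left _ _).trans (le_max_right _ _))
    · exact (h2 z).trans ((le_max_right _ _).trans (le_max_right _ _))

/-- derivatives of `z ↦ R⁻¹ v (R z)` -/
theorem scale_bd {v : ℂ → E} (hv : ContDiff ℝ ∞ v) (hv0 : v 0 = 0) {C : ℝ} (hC0 : 0 ≤ C)
    (hC : ∀ n : ℕ, n ≤ 2 → ∀ z, ‖iteratedFDeriv ℝ n v z‖ ≤ C) {R : ℝ} (hR : 0 < R) (hR1 : R ≤ 1)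
    (n : ℕ) (hn : n ≤ 2) (z : ℂ) (hz : ‖z‖ ≤ 3) :
    ‖iteratedFDeriv ℝ n (fun z => R⁻¹ • v (R • z)) z‖ ≤ 3 * C := by
  rcases Nat.eq_zero_or_pos n with h0 | h0
  · subst h0
    rw [norm_iteratedFDeriv_zero, norm_smul, norm_inv, Real.norm_of_nonneg hR.le]
    have h1 : ‖v (R • z) - v 0‖ ≤ C * ‖R • z - 0‖ :=
      Convex.norm_image_sub_le_of_norm_fderiv_le (s := univ)
        (fun y _ => hv.differentiable (by simp) y)
        (fun y _ => by rw [← norm_iteratedFDeriv_one]; exact hC 1 (by norm_num) y) convex_univ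
        (mem_univ _) (mem_univ _)
    rw [hv0, sub_zero, sub_zero, norm_smul, Real.norm_of_nonneg hR.le] at h1
    rw [inv_mul_le_iff₀ hR]
    calc ‖v (R • z)‖ ≤ C * (R * ‖z‖) := h1
      _ ≤ C * (R * 3) := by gcongr
      _ = R * (3 * C) := by ring
  · let L : ℂ →L[ℝ] ℂ := R • ContinuousLinearMap.id ℝ ℂ
    have hL : ‖L‖ ≤ R := by
      show ‖R • ContinuousLinearMap.id ℝ ℂ‖ ≤ R
      rw [norm_smul, Real.norm_of_nonneg hR.le]
      exact mul_le_of_le_one_right hR.le ContinuousLinearMap.norm_id_le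
    have e1 : (fun z => R⁻¹ • v (R • z)) = fun z => R⁻¹ • (v ∘ L) z := rfl
    have hvn : ContDiff ℝ n v := hv.of_le (by exact_mod_cast le_top)
    rw [e1, iteratedFDeriv_const_smul_apply' (hvn.comp L.contDiff).contDiffAt, norm_smul,
      L.iteratedFDeriv_comp_right hvn z le_rfl, norm_inv, Real.norm_of_nonneg hR.le,
      inv_mul_le_iff₀ hR]
    refine ((iteratedFDeriv ℝ n v (L z)).norm_compContinuousLinearMap_le (fun _ => L)).trans ?_
    rw [Finset.prod_const, Finset.card_univ, Fintype.card_fin]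
    have h3 : ‖L‖ ^ n ≤ R := by
      calc ‖L‖ ^ n ≤ R ^ n := pow_le_pow_left₀ (norm_nonneg _) hL n
        _ ≤ R ^ 1 := pow_le_pow_of_le_one hR.le hR1 h0
        _ = R := pow_one R
    calc _ ≤ C * R := mul_le_mul (hC n hn _) h3 (by positivity) hC0
      _ ≤ R * (3 * C) := by nlinarith

/-- the scaled and cut off function in `C1a` -/
theorem exists_scaled {a : ℝ} (ha : 0 < a) (ha1 : a ≤ 1) {ψ : ℂ → ℝ} (hψ : ContDiff ℝ ∞ ψ)
    (hψ0 : ∀ z, 3 ≤ ‖z‖ → ψ z = 0) {v : ℂ → E} (hv : ContDiff ℝ ∞ v) (hs : HasCompactSupport v)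
    (hv0 : v 0 = 0) : ∃ C : ℝ, 0 ≤ C ∧ ∀ R : ℝ, 0 < R → R ≤ 1 →
      ∃ w : C1a a ℂ E, (∀ z, C1f w z = ψ z • R⁻¹ • v (R • z)) ∧ ‖w‖ ≤ C := by
  obtain ⟨C, hC0, hC⟩ := exists_bd hv hs
  have hψs : HasCompactSupport ψ := by
    refine HasCompactSupport.intro (isCompact_closedBall (0 : ℂ) 3) fun z hz => hψ0 z ?_
    rw [mem_closedBall, dist_zero_right, not_le] at hz
    exact hz.le
  have hb : ∀ n : ℕ, ∃ X : ℝ, ∀ z, ‖iteratedFDeriv ℝ n ψ z‖ ≤ X := fun n =>
    (hψ.continuous_iteratedFDeriv (m := n) (by exact_mod_cast le_top)).bounded_above_of_compact_support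
      (hψs.iteratedFDeriv n)
  choose X hX using hb
  have hX0 : ∀ n, 0 ≤ X n := fun n => (norm_nonneg _).trans (hX n 0)
  set Y : ℝ := X 0 + X 1 + X 2 with hY
  have hXY : ∀ n ≤ 2, X n ≤ Y := by
    intro n hn
    have h0 := hX0 0
    have h1 := hX0 1
    have h2 := hX0 2
    interval_cases n <;> simp only [hY] <;> linarith
  have hY0 : 0 ≤ Y := (hX0 0).trans (hXY 0 (by norm_num))
  -- derivatives of `ψ` vanish outside the open ball of radius `3`
  have hout : ∀ n : ℕ, ∀ z, 3 < ‖z‖ → iteratedFDeriv ℝ n ψ z = 0 := by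
    intro n z hz
    have h1 : ψ =ᶠ[𝓝 z] fun _ => 0 := by
      have h2 : {y : ℂ | 3 < ‖y‖} ∈ 𝓝 z := (isOpen_lt continuous_const continuous_norm).mem_nhds hz
      filter_upwards [h2] with y hy
      exact hψ0 y (le_of_lt hy)
    have h3 := h1.iteratedFDeriv ℝ n
    rw [h3.self_of_nhds]
    exact congrFun (iteratedFDeriv_fun_zero (𝕜 := ℝ) (E := ℂ) (F := ℝ) (n := n)) z
  refine ⟨3 * (4 * (Y * (3 * C))), by positivity, fun R hR hR1 => ?_⟩
  have hws : ContDiff ℝ ∞ (fun z : ℂ => R⁻¹ • v (R • z)) :=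
    contDiff_const.smul (hv.comp (contDiff_id.const_smul R))
  have hfs : ContDiff ℝ ∞ (fun z : ℂ => ψ z • R⁻¹ • v (R • z)) := hψ.smul hws
  have key : Small (4 * (Y * (3 * C))) (fun z : ℂ => ψ z • R⁻¹ • v (R • z)) := by
    rw [NWSet_334.small_iff]
    intro z n hn
    have h1 := norm_iteratedFDeriv_smul_le (𝕜 := ℝ) (n := n) (N := ∞) hψ hws z
      (by exact_mod_cast le_top)
    refine h1.trans ?_
    have h2 : ∀ i ∈ Finset.range (n + 1), (n.choose i : ℝ) * ‖iteratedFDeriv ℝ i ψ z‖ *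
        ‖iteratedFDeriv ℝ (n - i) (fun z : ℂ => R⁻¹ • v (R • z)) z‖ ≤
        (n.choose i : ℝ) * (Y * (3 * C)) := by
      intro i hi
      rw [Finset.mem_range] at hi
      rw [mul_assoc]
      refine mul_le_mul_of_nonneg_left ?_ (Nat.cast_nonneg _)
      by_cases hz : ‖z‖ ≤ 3
      · exact mul_le_mul ((hX i z).trans (hXY i (by omega)))
          (scale_bd hv hv0 hC0 hC hR hR1 (n - i) (by omega) z hz) (norm_nonneg _) hY0
      · rw [hout i z (not_le.1 hz), norm_zero, zero_mul]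
        positivity
    refine (Finset.sum_le_sum h2).trans ?_
    rw [← Finset.sum_mul]
    refine mul_le_mul_of_nonneg_right ?_ (by positivity)
    have h3 : ∑ i ∈ Finset.range (n + 1), (n.choose i : ℝ) = 2 ^ n := by
      exact_mod_cast Nat.sum_range_choose n
    rw [h3]
    calc (2 : ℝ) ^ n ≤ 2 ^ 2 := pow_le_pow_right₀ one_le_two hn
      _ = 4 := by norm_num
  have hfs2 : ContDiff ℝ 2 (fun z : ℂ => ψ z • R⁻¹ • v (R • z)) := contDiff_infty.1 hfs 2
  obtain ⟨w, hw, hwn⟩ := exists_c1_of_c2 ha ha1 hfs2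
    (fun z => (key z).1) (fun z => (key z).2.1) (fun z => (key z).2.2)
  exact ⟨w, hw, hwn⟩

end aux

section main

variable {E : Type} [NormedAddCommGroup E] [NormedSpace ℂ E]

theorem dbl_of_diffC {f : ℂ → E} {z : ℂ} (h : DifferentiableAt ℂ f z) :
    dbl (fderiv ℝ f z) = 0 := by
  rw [dbl_eq_zero_iff]
  have h1 : fderiv ℝ f z = (fderiv ℂ f z).restrictScalars ℝ :=
    (h.hasFDerivAt.restrictScalars ℝ).fderiv
  rw [h1]
  show fderiv ℂ f z Complex.I = Complex.I • fderiv ℂ f z 1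
  rw [← map_smul, smul_eq_mul, mul_one]

/-- the polynomial perturbations -/
theorem exists_poly [FiniteDimensional ℂ E] (hF : FamStmt) {a : ℝ} (ha : 0 < a) (ha1 : a < 1)
    {ψ : ℂ → ℝ} (hψ : ContDiff ℝ ∞ ψ) (hψ0 : ∀ z, 3 ≤ ‖z‖ → ψ z = 0) (N : ℕ) :
    ∃ p : (Fin N → E) →L[ℝ] C1a a ℂ E, ∀ c z, C1f (p c) z =
      ψ z • ∑ k : Fin N, z ^ (k : ℕ) • c k := by
  obtain ⟨p, hp, hpf⟩ := hF (Fin N → E) E a ha ha1
    (fun q => ψ q.2 • ∑ k : Fin N, q.2 ^ (k : ℕ) • q.1 k) 3 (by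
      refine (hψ.comp contDiff_snd).smul ?_
      refine ContDiff.sum fun k _ => ?_
      have h1 : ContDiff ℝ ∞ (fun q : (Fin N → E) × ℂ => q.2 ^ (k : ℕ)) := contDiff_snd.pow _
      have h2 : ContDiff ℝ ∞ (fun q : (Fin N → E) × ℂ => q.1 k) :=
        (contDiff_apply ℝ E k).comp contDiff_fst
      exact h1.smul h2) (fun s z hz => by
      show ψ z • _ = (0 : E)
      rw [hψ0 z hz, zero_smul])
  have hcont : Continuous p := hp.continuous
  let L : (Fin N → E) →ₗ[ℝ] C1a a ℂ E :=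
    { toFun := p
      map_add' := by
        intro c c'
        refine c1_ext fun z => ?_
        rw [f_add, hpf, hpf, hpf]
        simp only [Pi.add_apply, smul_add, Finset.sum_add_distrib]
      map_smul' := by
        intro t c
        refine c1_ext fun z => ?_
        have h1 : ∑ k : Fin N, z ^ (k : ℕ) • (t • c) k = t • ∑ k : Fin N, z ^ (k : ℕ) • c k := by
          rw [Finset.smul_sum]
          exact Finset.sum_congr rfl fun k _ => smul_comm _ _ _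
        rw [RingHom.id_apply, f_smul, hpf, hpf, h1]
        exact smul_comm _ _ _ }
  exact ⟨⟨L, hcont⟩, hpf⟩

theorem dbl_poly {a : ℝ} {ψ : ℂ → ℝ} (hψ1 : ∀ z, ‖z‖ ≤ 2 → ψ z = 1) {N : ℕ}
    {p : C1a a ℂ E} {c : Fin N → E} (hp : ∀ z, C1f p z = ψ z • ∑ k : Fin N, z ^ (k : ℕ) • c k)
    (z : ℂ) (hz : ‖z‖ < 2) : dbl (C1d p z) = 0 := by
  rw [← c1_fderiv]
  have h1 : C1f p =ᶠ[𝓝 z] fun z => ∑ k : Fin N, z ^ (k : ℕ) • c k := by
    have h2 : {y : ℂ | ‖y‖ < 2} ∈ 𝓝 z := (isOpen_lt continuous_norm continuous_const).mem_nhds hz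
    filter_upwards [h2] with y hy
    rw [hp, hψ1 y (le_of_lt hy), one_smul]
  rw [h1.fderiv_eq]
  refine dbl_of_diffC ?_
  fun_prop

set_option maxHeartbeats 2000000 in
/-- **start**: the base solution -/
theorem exists_start {a : ℝ} (ha : 0 < a) {ψ : ℂ → ℝ} {T : Hol a ℂ E →L[ℝ] C1a a ℂ E}
    (hT : ∀ g : Hol a ℂ E, (∀ z, dbl (C1d (T g) z) = ψ z • Hol.fn g z) ∧
      Tendsto (C1f (T g)) (cocompact ℂ) (𝓝 0)) {κ : Hol a ℂ ℝ}
    (hκ : ∀ z, ‖z‖ < 2 → ψ z = 1 ∧ Hol.fn κ z = 1) {C1 : ℝ} {A : E → E →L[ℝ] E} (hA : BD A)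
    (hAS : Small 1 A) (ut : C1a a ℂ E) (hut : ‖ut‖ ≤ C1)
    (hJ : ∀ z, ‖z‖ < 2 → dbl (C1d ut z) = A (C1f ut z) (dl (C1d ut z))) :
    ∃ h0 : C1a a ℂ E, Sol T (hat (P := ℝ) A) (fun _ => 0) (κ, 0, 0) h0 ut ∧
      (∀ z, ‖z‖ < 2 → dbl (C1d h0 z) = 0) ∧
      ‖h0‖ ≤ C1 + ‖T‖ * (2 * ‖κ‖ * (2 * (1 + C1) * C1 + (1 + C1))) := by
  have hC1 : 0 ≤ C1 := (norm_nonneg _).trans hut
  have hu0 := norm_nonneg ut
  have hκ0 := norm_nonneg κ
  have hAb : BD (hat (P := ℝ) A) := bd_hat hA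
  have hA1 : Small 1 (hat (P := ℝ) A) := small_hat hA.smooth hAS
  have hb0 : BD (fun _ : ℝ × E => (0 : E)) := bd_zero
  have hb1 : Small 1 (fun _ : ℝ × E => (0 : E)) := small_zero zero_le_one
  obtain ⟨g0, hg0, hg0n⟩ := exists_rhs ha hAb.smooth hb0.smooth hA1 hb1 κ (0 : Hol a ℂ ℝ) ut
  have hn0 : ‖(0 : Hol a ℂ ℝ)‖ = 0 := norm_zero
  rw [hn0, add_zero] at hg0n
  have hs : Sol T (hat (P := ℝ) A) (fun _ => 0) (κ, 0, 0) (ut - T g0) ut := by
    refine ⟨g0, fun z => ?_, (sub_add_cancel _ _).symm⟩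
    have h5 : Hol.fn (0 : Hol a ℂ (ℂ →L[ℝ] ℂ)) z = 0 := rfl
    have h6 := rhs_zero (P := ℝ) (hat A) (fun _ => (0 : E)) (Hol.fn κ z)
      (Hol.fn (0 : Hol a ℂ ℝ) z) (C1f ut z) (C1d ut z)
    rw [hg0, ← h6, ← h5]
  obtain ⟨h0, hh0⟩ : ∃ h0 : C1a a ℂ E, h0 = ut - T g0 := ⟨_, rfl⟩
  rw [← hh0] at hs
  refine ⟨h0, hs, fun z hz => ?_, ?_⟩
  · have h1 := sol_dbl (P := ℝ) (A := hat A) (b := fun _ => 0) (κ := κ) (q := 0) (w := ut)
      (h := h0) hT hs z
    rw [(hκ z hz).1, (hκ z hz).2, one_mul, one_smul, add_zero, hat_apply, hJ z hz] at h1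
    exact add_eq_right.1 h1.symm
  · have h2 : ‖T g0‖ ≤ ‖T‖ * (2 * ‖κ‖ * (2 * (1 + C1) * C1 + (1 + C1))) := by
      refine (T.le_opNorm g0).trans (mul_le_mul_of_nonneg_left (hg0n.trans ?_) (norm_nonneg T))
      gcongr
    have h3 : ‖h0‖ ≤ ‖ut‖ + ‖T g0‖ := by rw [hh0]; exact norm_sub_le _ _
    linarith

set_option maxHeartbeats 4000000 in
/-- the family of solutions -/
theorem exists_W (hF : FamStmt) {a : ℝ} (ha : 0 < a) (ha1 : a < 1) {ψ : ℂ → ℝ}
    {T : Hol a ℂ E →L[ℝ] C1a a ℂ E}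
    (hT : ∀ g : Hol a ℂ E, (∀ z, dbl (C1d (T g) z) = ψ z • Hol.fn g z) ∧
      Tendsto (C1f (T g)) (cocompact ℂ) (𝓝 0)) {κ : Hol a ℂ ℝ}
    (hκ : ∀ z, ‖z‖ < 2 → ψ z = 1 ∧ Hol.fn κ z = 1) {K RN ε η : ℝ} (hη : 0 < η) (hK : ‖κ‖ < K)
    (hε : ε ≤ 1) {A : E → E →L[ℝ] E} {Φ : Par a ℝ × C1a a ℂ E → C1a a ℂ E}
    (hΦ : ContDiffOn ℝ ∞ Φ (Dom a E ℝ K RN η))
    (hΦp : ∀ k h, (k, h) ∈ Dom a E ℝ K RN η →
        Sol T (hat A) (fun _ => 0) k h (Φ (k, h)) ∧ ‖Φ (k, h) - h‖ ≤ ε ∧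
        (∀ c, ‖fderiv ℝ Φ (k, h) (0, c) - c‖ ≤ ε * ‖c‖) ∧
        ∀ w, ‖w‖ < 2 * RN + 1 → Sol T (hat A) (fun _ => 0) k h w → w = Φ (k, h))
    {S : Type} [NormedAddCommGroup S] [NormedSpace ℝ S] (p : S →L[ℝ] C1a a ℂ E)
    (h0 : C1a a ℂ E) (hd0 : ∀ z, ‖z‖ < 2 → dbl (C1d h0 z) = 0)
    (hdp : ∀ c z, ‖z‖ < 2 → dbl (C1d (p c) z) = 0) (hRN : 3 * (‖h0‖ + ‖p‖) + 3 ≤ RN) :
    ∃ W : S → C1a a ℂ E, (∀ b ∈ ball (0 : S) 1,
      Sol T (hat (P := ℝ) A) (fun _ => 0) (κ, 0, 0) (h0 + p b) (W b) ∧ ‖W b‖ ≤ RN ∧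
      ∃ W' : S →L[ℝ] C1a a ℂ E, HasFDerivAt W W' b ∧ ∀ c, ‖W' c - p c‖ ≤ ε * ‖p c‖) ∧
      (∀ b ∈ ball (0 : S) 1, ∀ z ∈ ball (0 : ℂ) 1,
        ContDiffAt ℝ ∞ (fun q : S × ℂ => C1f (W q.1) q.2) (b, z)) ∧
      ∀ w, ‖w‖ ≤ RN → Sol T (hat (P := ℝ) A) (fun _ => 0) (κ, 0, 0) h0 w → w = W 0 := by
  have hκ0 := norm_nonneg κ
  have hp0 := norm_nonneg p
  have hh0 := norm_nonneg h0
  have hK0 : 0 < K := hκ0.trans_lt hK
  have hRN0 : 0 < RN := by linarith
  have hhb : ∀ b ∈ ball (0 : S) 1, ‖h0 + p b‖ ≤ ‖h0‖ + ‖p‖ := by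
    intro b hb
    rw [mem_ball, dist_zero_right] at hb
    have h1 : ‖p b‖ ≤ ‖p‖ * ‖b‖ := p.le_opNorm b
    have h2 : ‖p‖ * ‖b‖ ≤ ‖p‖ * 1 := mul_le_mul_of_nonneg_left hb.le hp0
    have h3 := norm_add_le h0 (p b)
    linarith
  have hD : ∀ b ∈ ball (0 : S) 1,
      (((κ, 0, 0) : Par a ℝ), h0 + p b) ∈ Dom a E ℝ K RN η := by
    intro b hb
    have h1 := hhb b hb
    refine ⟨hK, ?_, ?_, ?_⟩
    · show ‖(0 : Hol a ℂ ℝ)‖ < K
      rw [norm_zero]; exact hK0
    · show ‖(0 : Hol a ℂ (ℂ →L[ℝ] ℂ))‖ < η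
      rw [norm_zero]; exact hη
    · show ‖h0 + p b‖ < RN
      linarith
  let Λ : S → Par a ℝ × C1a a ℂ E := fun b => ((κ, 0, 0), h0 + p b)
  let W : S → C1a a ℂ E := fun b => Φ (Λ b)
  have hWn : ∀ b ∈ ball (0 : S) 1, ‖W b‖ ≤ ‖h0‖ + ‖p‖ + 1 := by
    intro b hb
    have h1 := (hΦp _ _ (hD b hb)).2.1
    have h2 := hhb b hb
    have h3 : ‖W b‖ ≤ ‖W b - (h0 + p b)‖ + ‖h0 + p b‖ := by
      conv_lhs => rw [← sub_add_cancel (W b) (h0 + p b)]
      exact norm_add_le _ _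
    have h4 : ‖W b - (h0 + p b)‖ ≤ ε := h1
    linarith
  refine ⟨W, fun b hb => ⟨(hΦp _ _ (hD b hb)).1, ?_, ?_⟩, fun b hb z hz => ?_, fun w hw hs => ?_⟩
  · have := hWn b hb
    linarith
  · have h1 : DifferentiableAt ℝ Φ (Λ b) :=
      (hΦ.contDiffAt ((isOpen_Dom a K RN η).mem_nhds (hD b hb))).differentiableAt (by simp)
    have h2 : HasFDerivAt Λ (ContinuousLinearMap.prod 0 p) b :=
      (hasFDerivAt_const _ b).prodMk ((p.hasFDerivAt).const_add h0)
    refine ⟨_, h1.hasFDerivAt.comp b h2, fun c => ?_⟩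
    exact (hΦp _ _ (hD b hb)).2.2.1 (p c)
  · have hw : ∀ᶠ s in 𝓝 b, Sol T (hat (P := ℝ) A) (fun _ => 0) (κ, 0, 0) (h0 + p s) (W s) ∧
        6 * ‖W s‖ < 2 * RN + 1 := by
      filter_upwards [isOpen_ball.mem_nhds hb] with s hs
      refine ⟨(hΦp _ _ (hD s hs)).1, ?_⟩
      have := hWn s hs
      linarith
    have hin : ∀ y ∈ ball z 1, ‖y‖ < 2 := by
      intro y hy
      rw [mem_ball, dist_zero_right] at hz
      rw [mem_ball, dist_eq_norm] at hy
      calc ‖y‖ = ‖(y - z) + z‖ := by rw [sub_add_cancel]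
        _ ≤ ‖y - z‖ + ‖z‖ := norm_add_le _ _
        _ < 2 := by linarith
    refine regp (P := ℝ) hF ha ha1 hT hη hΦ (fun k h hk => (hΦp k h hk).2.2.2)
      (h := fun s => h0 + p s) (w := W) (κ := κ) (q0 := 0) (Q := fun _ => 0) ?_ contDiff_const
      (HasCompactSupport.zero) (fun z => rfl) hK ?_ ?_ hw one_pos
      (fun y hy => ⟨(hκ y (hin y hy)).2, (hκ y (hin y hy)).1⟩) ?_
    · exact (contDiff_const.add p.contDiff).contDiffAt
    · show ‖(0 : Hol a ℂ ℝ)‖ < K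
      rw [norm_zero]; exact hK0
    · show ‖h0 + p b‖ < RN
      have := hhb b hb
      linarith
    · refine Eventually.of_forall fun s y hy => ?_
      show dbl (C1d (h0 + p s) y) = 0
      rw [d_add, dbl_add, hd0 y (hin y hy), hdp s y (hin y hy), add_zero]
  · have h1 : h0 + p 0 = h0 := by rw [map_zero, add_zero]
    have h2 := (hΦp _ _ (hD 0 (mem_ball_self one_pos))).2.2.2 w (by linarith)
    rw [h1] at h2
    have h3 := h2 hs
    show w = Φ ((κ, 0, 0), h0 + p 0)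
    rw [h1]; exact h3

/-- the equation of a scaled `J`-disc -/
theorem eq_of_disc {a : ℝ} {J : E → E →L[ℝ] E} {u v : ℂ → E} {r1 R RN : ℝ} (hr1 : 0 < r1)
    (hR : 0 < R) (hR8 : R ≤ r1 / 8) (huJ : JHol J u (ball 0 r1))
    (hvu : ∀ z ∈ ball (0 : ℂ) (r1 / 2), v z = u z) {ψ : ℂ → ℝ} (hψ1 : ∀ z, ‖z‖ ≤ 2 → ψ z = 1)
    {A : E → E →L[ℝ] E}
    (hAJ : ∀ x : E, ‖x‖ ≤ RN → ∀ L : ℂ →L[ℝ] E,
      (dbl L = A x (dl L) ↔ ∀ v : ℂ, L (Complex.I * v) = J (R • x) (L v)))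
    (w : C1a a ℂ E) (hw : ∀ z, C1f w z = ψ z • R⁻¹ • v (R • z)) (z : ℂ) (hz : ‖z‖ < 2)
    (hwn : ‖C1f w z‖ ≤ RN) : dbl (C1d w z) = A (C1f w z) (dl (C1d w z)) := by
  have hin : ∀ y : ℂ, ‖y‖ < 2 → R • y ∈ ball (0 : ℂ) (r1 / 2) := by
    intro y hy
    rw [mem_ball, dist_zero_right, norm_smul, Real.norm_of_nonneg hR.le]
    calc R * ‖y‖ ≤ (r1 / 8) * 2 := by gcongr
      _ < r1 / 2 := by linarith
  have h1 : C1f w =ᶠ[𝓝 z] fun y => R⁻¹ • u (R • y) := by
    have h2 : {y : ℂ | ‖y‖ < 2} ∈ 𝓝 z := (isOpen_lt continuous_norm continuous_const).mem_nhds hz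
    filter_upwards [h2] with y hy
    rw [hw, hψ1 y (le_of_lt hy), one_smul, hvu _ (hin y hy)]
  have hmem : R • z ∈ ball (0 : ℂ) r1 := ball_subset_ball (by linarith) (hin z hz)
  obtain ⟨hd, hh⟩ := huJ (R • z) hmem
  have h3 : C1d w z = fderiv ℝ u (R • z) := by
    rw [← c1_fderiv, h1.fderiv_eq]
    have h4 : HasFDerivAt (fun y : ℂ => R • y) (R • ContinuousLinearMap.id ℝ ℂ) z :=
      (hasFDerivAt_id z).const_smul R
    have h5 : HasFDerivAt (fun y : ℂ => R⁻¹ • u (R • y))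
        (R⁻¹ • (fderiv ℝ u (R • z)).comp (R • ContinuousLinearMap.id ℝ ℂ)) z :=
      (hd.hasFDerivAt.comp z h4).const_smul R⁻¹
    rw [h5.fderiv, ContinuousLinearMap.comp_smul, smul_smul, inv_mul_cancel₀ hR.ne', one_smul,
      ContinuousLinearMap.comp_id]
  have h6 : R • C1f w z = u (R • z) := by
    rw [h1.self_of_nhds, smul_smul, mul_inv_cancel₀ hR.ne', one_smul]
  rw [hAJ _ hwn, h3, h6]
  exact hh

set_option maxHeartbeats 4000000 in
/-- general form of `VarStmt` -/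
theorem var_gen (hT : CauchyStmt) (hN : NStmt) (hF : FamStmt) [FiniteDimensional ℂ E]
    (J : E → E →L[ℝ] E) (r : ℝ) (hJ : ACS J r) (u : ℂ → E) (r1 : ℝ) (hr1 : 0 < r1)
    (hu : ContDiffOn ℝ ∞ u (ball 0 r1)) (hu0 : u 0 = 0) (huJ : JHol J u (ball 0 r1))
    (N : ℕ) (δ : ℝ) (hδ : 0 < δ) : ∃ R0 : ℝ, 0 < R0 ∧ R0 < r1 ∧ ∀ R : ℝ, 0 < R → R ≤ R0 →
    ∃ U : (Fin N → E) × ℂ → E,
      ContDiffOn ℝ ∞ U (ball (0 : Fin N → E) 1 ×ˢ ball (0 : ℂ) 1) ∧
      (∀ z ∈ ball (0 : ℂ) 1, U (0, z) = R⁻¹ • u (R • z)) ∧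
      (∀ p ∈ ball (0 : Fin N → E) 1 ×ˢ ball (0 : ℂ) 1, R • U p ∈ ball (0 : E) r) ∧
      (∀ b ∈ ball (0 : Fin N → E) 1,
        JHol (fun y => J (R • y)) (fun z => U (b, z)) (ball 0 1)) ∧
      ∀ b ∈ ball (0 : Fin N → E) 1, ∀ c : Fin N → E, ∀ z ∈ ball (0 : ℂ) 1,
        ‖fderiv ℝ U (b, z) (c, 0) - ∑ k : Fin N, z ^ (k : ℕ) • c k‖ ≤ δ * ‖c‖ ∧
        ‖fderiv ℝ (fun y => fderiv ℝ U (b, y) (c, 0) - ∑ k : Fin N, y ^ (k : ℕ) • c k) z‖
          ≤ δ * ‖c‖ := by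
  have ha : (0 : ℝ) < 1 / 2 := by norm_num
  have ha1 : (1 / 2 : ℝ) < 1 := by norm_num
  obtain ⟨a, haa⟩ : ∃ a : ℝ, a = 1 / 2 := ⟨_, rfl⟩
  rw [← haa] at ha ha1
  let β : ContDiffBump (0 : ℂ) := ⟨2, 3, by norm_num, by norm_num⟩
  obtain ⟨ψ, hβψ⟩ : ∃ ψ : ℂ → ℝ, ψ = β := ⟨_, rfl⟩
  have hψ : ContDiff ℝ ∞ ψ := hβψ ▸ β.contDiff
  have hψs : HasCompactSupport ψ := hβψ ▸ β.hasCompactSupport
  have hψ0 : ∀ z, 3 ≤ ‖z‖ → ψ z = 0 := fun z hz => by
    rw [hβψ]; exact β.zero_of_le_dist (by rw [dist_zero_right]; exact hz)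
  have hψ1 : ∀ z, ‖z‖ ≤ 2 → ψ z = 1 := fun z hz => by
    rw [hβψ]; exact β.one_of_mem_closedBall (by rw [mem_closedBall, dist_zero_right]; exact hz)
  obtain ⟨T, hT⟩ := hT E a ha ha1 ψ hψ hψs
  obtain ⟨κ1, hκ1⟩ := exists_cst hF ha ha1 hψ hψ0
  obtain ⟨κ, hκ'⟩ : ∃ κ : Hol a ℂ ℝ, ∀ z, Hol.fn κ z = ψ z := ⟨valC κ1, hκ1⟩
  have hκ : ∀ z : ℂ, ‖z‖ < 2 → ψ z = 1 ∧ Hol.fn κ z = 1 := fun z hz =>
    ⟨hψ1 z hz.le, by rw [hκ', hψ1 z hz.le]⟩
  obtain ⟨p, hp⟩ := exists_poly (E := E) hF ha ha1 hψ hψ0 N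
  obtain ⟨v, hv, hvs, hvu⟩ := exists_cut hr1 hu
  have hv0 : v 0 = 0 := by rw [hvu 0 (mem_ball_self (by positivity)), hu0]
  obtain ⟨C1, hC1, hsc⟩ := exists_scaled ha ha1.le hψ hψ0 hv hvs hv0
  -- constants
  have hκ0 := norm_nonneg κ
  have hT0 := norm_nonneg T
  have hp0 := norm_nonneg p
  obtain ⟨C2, hC2⟩ : ∃ C2 : ℝ, C2 = 2 * ‖κ‖ * (2 * (1 + C1) * C1 + (1 + C1)) := ⟨_, rfl⟩
  have hC20 : 0 ≤ C2 := by rw [hC2]; positivity
  obtain ⟨H0, hH0⟩ : ∃ H0 : ℝ, H0 = C1 + ‖T‖ * C2 := ⟨_, rfl⟩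
  have hH00 : C1 ≤ H0 := by rw [hH0]; linarith [mul_nonneg hT0 hC20]
  obtain ⟨RN, hRN⟩ : ∃ RN : ℝ, RN = 3 * (H0 + ‖p‖) + 3 := ⟨_, rfl⟩
  have hRN0 : 0 < RN := by rw [hRN]; linarith
  obtain ⟨ε, hε⟩ : ∃ ε : ℝ, ε = min 1 (δ / (‖p‖ + 1)) := ⟨_, rfl⟩
  have hε0 : 0 < ε := by rw [hε]; positivity
  have hε1 : ε ≤ 1 := by rw [hε]; exact min_le_left _ _
  have hε2 : ε * ‖p‖ ≤ δ := by
    have h1 : ε ≤ δ / (‖p‖ + 1) := by rw [hε]; exact min_le_right _ _
    calc ε * ‖p‖ ≤ δ / (‖p‖ + 1) * (‖p‖ + 1) := by gcongr; linarith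
      _ = δ := by field_simp
  obtain ⟨η, hη, hN⟩ := hN E ℝ a ha ha1 T (‖κ‖ + 1) RN ε (by positivity) hRN0 hε0
  obtain ⟨R0', hR0', hR0B, hJS⟩ := jstmt E J r hJ RN (min η 1) hRN0 (lt_min hη one_pos)
  refine ⟨min R0' (min 1 (r1 / 8)), by positivity, ?_, fun R hR hRR => ?_⟩
  · calc min R0' (min 1 (r1 / 8)) ≤ r1 / 8 := (min_le_right _ _).trans (min_le_right _ _)
      _ < r1 := by linarith
  have hRa : R ≤ R0' := hRR.trans (min_le_left _ _)
  have hRb : R ≤ 1 := hRR.trans ((min_le_right _ _).trans (min_le_left _ _))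
  have hRc : R ≤ r1 / 8 := hRR.trans ((min_le_right _ _).trans (min_le_right _ _))
  obtain ⟨A, hAB, hAS, hAJ⟩ := hJS R hR hRa
  obtain ⟨ut, hut, hutn⟩ := hsc R hR hRb
  have hAη : Small η (hat (P := ℝ) A) :=
    Small.mono (min_le_left _ _) (small_hat hAB.smooth hAS)
  have hAb : BD (hat (P := ℝ) A) := bd_hat hAB
  have hb0 : BD (fun _ : ℝ × E => (0 : E)) := bd_zero
  have hb1 : Small η (fun _ : ℝ × E => (0 : E)) := small_zero hη.le
  obtain ⟨Φ, hΦ, hΦp⟩ := hN (hat A) (fun _ => 0) hAb hb0 hAη hb1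
  have hutRN : ‖ut‖ ≤ RN := by rw [hRN]; linarith
  obtain ⟨h0, hs0, hd0, hn0⟩ := exists_start ha hT hκ hAB (Small.mono (min_le_right _ _) hAS) ut
    hutn fun z hz => eq_of_disc hr1 hR hRc huJ hvu hψ1 hAJ ut hut z hz
      ((norm_f_le ha ut z).trans hutRN)
  rw [← hC2, ← hH0] at hn0
  obtain ⟨W, hW, hWs, hW0⟩ := exists_W hF ha ha1 hT hκ hη (lt_add_one ‖κ‖) hε1 hΦ hΦp p h0 hd0
    (fun c z hz => dbl_poly hψ1 (hp c) z hz) (by rw [hRN]; linarith)
  have hnorm : ∀ b ∈ ball (0 : Fin N → E) 1, ∀ z, ‖C1f (W b) z‖ ≤ RN := fun b hb z =>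
    (norm_f_le ha (W b) z).trans (hW b hb).2.1
  refine ⟨fun q => C1f (W q.1) q.2, fun q hq => (hWs q.1 hq.1 q.2 hq.2).contDiffWithinAt,
    fun z hz => ?_, fun q hq => ?_, fun b hb z hz => ⟨c1_diff (W b) z, ?_⟩,
    fun b hb c z hz => ?_⟩
  · rw [mem_ball, dist_zero_right] at hz
    show C1f (W 0) z = _
    rw [← hW0 ut hutRN hs0, hut, hψ1 z (by linarith), one_smul, hvu]
    rw [mem_ball, dist_zero_right, norm_smul, Real.norm_of_nonneg hR.le]
    calc R * ‖z‖ ≤ r1 / 8 * 1 := by gcongr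
      _ < r1 / 2 := by linarith
  · rw [mem_ball, dist_zero_right, norm_smul, Real.norm_of_nonneg hR.le]
    calc R * ‖C1f (W q.1) q.2‖ ≤ R0' * RN := by
          gcongr
          exact hnorm q.1 hq.1 q.2
      _ < r := hR0B
  · rw [mem_ball, dist_zero_right] at hz
    have hz2 : ‖z‖ < 2 := by linarith
    have h1 := sol_dbl (P := ℝ) (A := hat A) (b := fun _ => 0) (κ := κ) (q := 0) (w := W b)
      (h := h0 + p b) hT (hW b hb).1 z
    rw [(hκ z hz2).1, (hκ z hz2).2, one_mul, one_smul, add_zero, hat_apply, d_add, dbl_add,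
      hd0 z hz2, dbl_poly hψ1 (hp b) z hz2, add_zero, zero_add] at h1
    show ∀ v : ℂ, fderiv ℝ (C1f (W b)) z (Complex.I * v) =
      J (R • C1f (W b) z) (fderiv ℝ (C1f (W b)) z v)
    rw [c1_fderiv]
    exact (hAJ _ (hnorm b hb z) _).1 h1
  · obtain ⟨-, -, W', hW', hWe⟩ := hW b hb
    have key : ∀ y ∈ ball (0 : ℂ) 1,
        fderiv ℝ (fun q : (Fin N → E) × ℂ => C1f (W q.1) q.2) (b, y) (c, 0) -
          ∑ k : Fin N, y ^ (k : ℕ) • c k = C1f (W' c - p c) y := by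
      intro y hy
      have h1 : DifferentiableAt ℝ (fun q : (Fin N → E) × ℂ => C1f (W q.1) q.2) (b, y) :=
        (hWs b hb y hy).differentiableAt (by simp)
      have h2 : HasFDerivAt (fun s : Fin N → E => C1f (W s) y)
          ((fderiv ℝ (fun q : (Fin N → E) × ℂ => C1f (W q.1) q.2) (b, y)).comp
            (ContinuousLinearMap.prod (ContinuousLinearMap.id ℝ _) 0)) b :=
        HasFDerivAt.comp (f := fun s : Fin N → E => (s, y)) b h1.hasFDerivAt
          ((hasFDerivAt_id b).prodMk (hasFDerivAt_const y b))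
      have h3 : HasFDerivAt (fun s : Fin N → E => C1f (W s) y)
          ((ev0 (a := a) (E := E) y).comp W') b :=
        (ev0 (a := a) (E := E) y).hasFDerivAt.comp b hW'
      have h4 := DFunLike.congr_fun (h2.unique h3) c
      have h5 : fderiv ℝ (fun q : (Fin N → E) × ℂ => C1f (W q.1) q.2) (b, y) (c, 0) =
          C1f (W' c) y := h4
      rw [mem_ball, dist_zero_right] at hy
      rw [h5, f_sub, hp, hψ1 y (by linarith), one_smul]
    have hce : ‖W' c - p c‖ ≤ δ * ‖c‖ := by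
      calc ‖W' c - p c‖ ≤ ε * ‖p c‖ := hWe c
        _ ≤ ε * (‖p‖ * ‖c‖) := by gcongr; exact p.le_opNorm c
        _ = (ε * ‖p‖) * ‖c‖ := by ring
        _ ≤ δ * ‖c‖ := by gcongr
    refine ⟨?_, ?_⟩
    · rw [key z hz]
      exact (norm_f_le ha _ z).trans hce
    · have h6 : (fun y => fderiv ℝ (fun q : (Fin N → E) × ℂ => C1f (W q.1) q.2) (b, y) (c, 0) -
          ∑ k : Fin N, y ^ (k : ℕ) • c k) =ᶠ[𝓝 z] C1f (W' c - p c) := by
        filter_upwards [isOpen_ball.mem_nhds hz] with y hy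
        exact key y hy
      rw [h6.fderiv_eq, c1_fderiv]
      exact (norm_d_le ha _ z).trans hce

/-- **VAR** -/
theorem var (hT : CauchyStmt) (hN : NStmt) (hF : FamStmt) : VarStmt := by
  intro J r hJ u r1 hr1 hu hu0 _ huJ N δ hδ
  exact var_gen hT hN hF J r hJ u r1 hr1 hu hu0 huJ N δ hδ

end main

end

end Crest.Agent.R235.NWVar_428
end

-- ▼ part R235/Reg_POLFOL_659
section

/-!
Row 235 (S0364), PACKAGE REG, leaf A1.2a POLFOL (helper659): discs in all directions near the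
vertical one, each with a transversal foliation.
-/

set_option autoImplicit false
set_option maxSynthPendingDepth 3

open MeasureTheory Metric Set Filter
open scoped ContDiff Topology

namespace Crest.Agent.R235.Reg_POLFOL_659

open Crest.Agent.R235.NWDefs_334 Crest.Agent.R235.Reg_522 Crest.Agent.R235.Cyl

noncomputable section

/-! ### fixed points -/

section Fix

variable {E : Type*} [NormedAddCommGroup E] [CompleteSpace E]

theorem fix {T : E → E} {a : ℝ} (ha : 0 ≤ a)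
    (hT : ∀ x ∈ closedBall (0 : E) a, T x ∈ closedBall (0 : E) a)
    (hl : ∀ x ∈ closedBall (0 : E) a, ∀ y ∈ closedBall (0 : E) a,
      dist (T x) (T y) ≤ 1 / 2 * dist x y) : ∃ x ∈ closedBall (0 : E) a, T x = x := by
  have hm : MapsTo T (closedBall (0 : E) a) (closedBall (0 : E) a) := hT
  have hc : ContractingWith (1 / 2 : NNReal) (hm.restrict T _ _) := by
    refine ⟨by norm_num, LipschitzWith.of_dist_le_mul fun x y => ?_⟩
    have e : ((1 / 2 : NNReal) : ℝ) = 1 / 2 := by norm_num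
    rw [e]
    exact hl x.1 x.2 y.1 y.2
  obtain ⟨y, hy, hfy, -⟩ := hc.exists_fixedPoint' isClosed_closedBall.isComplete hm
    (x := 0) (mem_closedBall_self ha) (edist_ne_top _ _)
  exact ⟨y, hy, hfy⟩

variable [NormedSpace ℝ E]

/-- a map close to the identity has a zero. -/
theorem exists_zero {F : E → E} {δ R : ℝ} (hδ : 0 ≤ δ) (hδ1 : δ ≤ 1 / 2) (hR : δ < R)
    (hd : ∀ x ∈ ball (0 : E) R, DifferentiableAt ℝ F x)
    (h1 : ∀ x ∈ ball (0 : E) R, ‖F x - x‖ ≤ δ)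
    (h2 : ∀ x ∈ ball (0 : E) R, ‖fderiv ℝ F x - ContinuousLinearMap.id ℝ E‖ ≤ δ) :
    ∃ x : E, ‖x‖ ≤ δ ∧ F x = 0 := by
  have hsub : closedBall (0 : E) δ ⊆ ball (0 : E) R := closedBall_subset_ball hR
  obtain ⟨x, hx, hfx⟩ := fix (T := fun x => x - F x) hδ (fun x hx => by
      rw [mem_closedBall_zero_iff, norm_sub_rev]
      exact h1 x (hsub hx)) (fun x hx y hy => by
      have h3 := (convex_ball (0 : E) R).norm_image_sub_le_of_norm_fderiv_le' hd h2 (hsub hy)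
        (hsub hx)
      rw [dist_eq_norm, dist_eq_norm]
      have e : x - F x - (y - F y) = -(F x - F y - (ContinuousLinearMap.id ℝ E) (x - y)) := by
        simp only [ContinuousLinearMap.id_apply]; abel
      rw [e, norm_neg]
      exact h3.trans (mul_le_mul_of_nonneg_right hδ1 (norm_nonneg _)))
  refine ⟨x, mem_closedBall_zero_iff.1 hx, ?_⟩
  have h4 : x - F x = x := hfx
  have h5 : F x = x - (x - F x) := by abel
  rw [h5, h4, sub_self]

end Fix

/-! ### a quantitative implicit function theorem -/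

section Impl

variable {E P : Type*} [NormedAddCommGroup E] [NormedSpace ℝ E] [CompleteSpace E]
  [NormedAddCommGroup P] [NormedSpace ℝ P] [CompleteSpace P]

omit [CompleteSpace E] [CompleteSpace P] in
theorem impl_lip {G : E × P → E} {δ : ℝ}
    (hG : ∀ p ∈ ball (0 : E × P) 1, DifferentiableAt ℝ G p)
    (hd : ∀ p ∈ ball (0 : E × P) 1, ∀ v, ‖fderiv ℝ G p v - v.1‖ ≤ δ * ‖v‖) (hδ : 0 ≤ δ)
    {p q : E × P} (hp : p ∈ ball (0 : E × P) 1) (hq : q ∈ ball (0 : E × P) 1) :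
    ‖G p - G q - (p.1 - q.1)‖ ≤ δ * ‖p - q‖ :=
  (convex_ball (0 : E × P) 1).norm_image_sub_le_of_norm_fderiv_le'
    (φ := ContinuousLinearMap.fst ℝ E P) hG
    (fun x hx => ContinuousLinearMap.opNorm_le_bound _ hδ fun v => hd x hx v) hq hp

theorem implicit {G : E × P → E} {δ : ℝ} (hδ : 0 ≤ δ) (hδ1 : δ ≤ 1 / 4)
    (hG : ContDiffOn ℝ ∞ G (ball 0 1)) (h0 : G 0 = 0)
    (hd : ∀ p ∈ ball (0 : E × P) 1, ∀ v, ‖fderiv ℝ G p v - v.1‖ ≤ δ * ‖v‖) :
    ∃ c : P → E, ContDiffOn ℝ ∞ c (ball 0 (1 / 4)) ∧ c 0 = 0 ∧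
      (∀ t ∈ ball (0 : P) (1 / 4), ‖c t‖ ≤ 1 / 4 ∧ G (c t, t) = 0) ∧
      ∀ t ∈ ball (0 : P) (1 / 4), ∀ v, ‖fderiv ℝ c t v‖ ≤ δ * ‖v‖ := by
  have hGd : ∀ p ∈ ball (0 : E × P) 1, ContDiffAt ℝ ∞ G p := fun p hp =>
    hG.contDiffAt (isOpen_ball.mem_nhds hp)
  have hGd' : ∀ p ∈ ball (0 : E × P) 1, DifferentiableAt ℝ G p := fun p hp =>
    (hGd p hp).differentiableAt (by simp)
  have hmem : ∀ (x : E) (t : P), ‖x‖ < 1 → ‖t‖ < 1 → (x, t) ∈ ball (0 : E × P) 1 := by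
    intro x t hx ht
    rw [mem_ball_zero_iff, Prod.norm_def]
    exact max_lt hx ht
  have h01 : (0 : E × P) ∈ ball (0 : E × P) 1 := mem_ball_self one_pos
  -- existence
  have hex : ∀ t : P, t ∈ ball (0 : P) (1 / 4) → ∃ x : E, ‖x‖ ≤ 1 / 4 ∧ G (x, t) = 0 := by
    intro t ht
    rw [mem_ball_zero_iff] at ht
    obtain ⟨x, hx, hfx⟩ := fix (E := E) (T := fun x => x - G (x, t)) (a := 1 / 4) (by norm_num)
      (fun x hx => by
        rw [mem_closedBall_zero_iff] at hx ⊢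
        have h1 := impl_lip hGd' hd hδ (hmem x t (by linarith) (by linarith)) h01
        rw [h0, sub_zero, sub_zero, Prod.fst_zero, sub_zero] at h1
        have h2 : ‖((x, t) : E × P)‖ ≤ 1 / 4 := by
          rw [Prod.norm_def]; exact max_le hx ht.le
        have h3 : δ * ‖((x, t) : E × P)‖ ≤ 1 / 4 * (1 / 4) :=
          mul_le_mul hδ1 h2 (norm_nonneg _) (by norm_num)
        rw [norm_sub_rev]
        have h4 : ‖G (x, t) - x‖ ≤ δ * ‖((x, t) : E × P)‖ := h1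
        linarith)
      (fun x hx y hy => by
        rw [mem_closedBall_zero_iff] at hx hy
        have h1 := impl_lip hGd' hd hδ (hmem x t (by linarith) (by linarith))
          (hmem y t (by linarith) (by linarith))
        have h2 : ‖((x, t) : E × P) - (y, t)‖ = ‖x - y‖ := by
          rw [Prod.mk_sub_mk, sub_self, Prod.norm_def]
          simp
        rw [h2] at h1
        rw [dist_eq_norm, dist_eq_norm]
        have e : x - G (x, t) - (y - G (y, t)) = -(G (x, t) - G (y, t) - (x - y)) := by abel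
        rw [e, norm_neg]
        have h3 : ‖G (x, t) - G (y, t) - (x - y)‖ ≤ δ * ‖x - y‖ := h1
        nlinarith [norm_nonneg (x - y)])
    refine ⟨x, mem_closedBall_zero_iff.1 hx, ?_⟩
    have h4 : x - G (x, t) = x := hfx
    have h5 : G (x, t) = x - (x - G (x, t)) := by abel
    rw [h5, h4, sub_self]
  -- uniqueness
  have huniq : ∀ (t : P) (x y : E), ‖t‖ < 1 → ‖x‖ < 1 → ‖y‖ < 1 → G (x, t) = 0 → G (y, t) = 0 →
      x = y := by
    intro t x y ht hx hy h1 h2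
    have h3 := impl_lip hGd' hd hδ (hmem x t hx ht) (hmem y t hy ht)
    have h4 : ‖((x, t) : E × P) - (y, t)‖ = ‖x - y‖ := by
      rw [Prod.mk_sub_mk, sub_self, Prod.norm_def]
      simp
    rw [h4, h1, h2, sub_self, zero_sub, norm_neg] at h3
    have h5 : ‖x - y‖ ≤ δ * ‖x - y‖ := h3
    have h6 : ‖x - y‖ ≤ 0 := by nlinarith [norm_nonneg (x - y)]
    exact sub_eq_zero.1 (norm_le_zero_iff.1 h6)
  choose! c hc using hex
  have hcs : ∀ t ∈ ball (0 : P) (1 / 4), ContDiffAt ℝ ∞ c t := by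
    intro t ht
    have ht' := mem_ball_zero_iff.1 ht
    obtain ⟨hc1, hc2⟩ := hc t ht
    set p : E × P := (c t, t) with hp
    have hpm : p ∈ ball (0 : E × P) 1 := hmem _ _ (by linarith) (by linarith)
    set H : E × P → E × P := fun q => (G q, q.2) with hH
    have hHs : ContDiffAt ℝ ∞ H p := (hGd p hpm).prodMk contDiffAt_snd
    set A : E × P →L[ℝ] E × P := (fderiv ℝ G p).prod (ContinuousLinearMap.snd ℝ E P) with hA
    have hHd : HasFDerivAt H A p := (hGd' p hpm).hasFDerivAt.prodMk hasFDerivAt_snd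
    have hsmall : ‖ContinuousLinearMap.id ℝ (E × P) - A‖ < 1 := by
      refine lt_of_le_of_lt (ContinuousLinearMap.opNorm_le_bound _ hδ fun v => ?_)
        (show δ < 1 by linarith)
      have e : (ContinuousLinearMap.id ℝ (E × P) - A) v = (v.1 - fderiv ℝ G p v, 0) := by
        rw [hA]
        simp [Prod.ext_iff]
      rw [e, Prod.norm_def]
      simp only [norm_zero, sup_le_iff]
      refine ⟨?_, by positivity⟩
      rw [norm_sub_rev]
      exact hd p hpm v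
    have hunit : IsUnit A := by
      have h1 := (Units.oneSub (1 - A) hsmall).isUnit
      have h2 : ((Units.oneSub (1 - A) hsmall : (E × P →L[ℝ] E × P)ˣ) : E × P →L[ℝ] E × P) = A := by
        simp
      rwa [h2] at h1
    obtain ⟨uA, huA⟩ := hunit
    set L : (E × P) ≃L[ℝ] (E × P) := ContinuousLinearEquiv.ofUnit uA with hL
    have hLA : ((L : (E × P) ≃L[ℝ] (E × P)) : E × P →L[ℝ] E × P) = A := by
      rw [← huA]
      exact ContinuousLinearMap.ext fun v => rfl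
    have hHd' : HasFDerivAt H (L : E × P →L[ℝ] E × P) p := by rw [hLA]; exact hHd
    have hinf : (∞ : WithTop ℕ∞) ≠ 0 := by simp
    have hinv := hHs.to_localInverse hHd' hinf
    set g := hHs.localInverse hHd' hinf with hg
    have hHp : H p = (0, t) := by
      show (G p, t) = (0, t)
      rw [hc2]
    rw [hHp] at hinv
    have hri : ∀ᶠ y in 𝓝 ((0 : E), t), H (g y) = y := by
      have := (hHs.hasStrictFDerivAt' hHd' hinf).eventually_right_inverse
      rw [hHp] at this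
      exact this
    have hgp : g (0, t) = p := by
      have := hHs.localInverse_apply_image hHd' hinf
      rw [hHp] at this
      exact this
    have hgc : ContinuousAt g ((0 : E), t) := hinv.continuousAt
    have hι : ContDiff ℝ ∞ fun s : P => ((0 : E), s) := contDiff_const.prodMk contDiff_id
    have hιc : Tendsto (fun s : P => ((0 : E), s)) (𝓝 t) (𝓝 ((0 : E), t)) :=
      hι.continuous.tendsto t
    have hnear : ∀ᶠ s in 𝓝 t, (g (0, s)).1 ∈ ball (0 : E) 1 := by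
      have h1 : Tendsto (fun s : P => (g (0, s)).1) (𝓝 t) (𝓝 (g (0, t)).1) :=
        (continuous_fst.tendsto _).comp (hgc.tendsto.comp hιc)
      refine h1.eventually (isOpen_ball.mem_nhds ?_)
      rw [hgp, mem_ball_zero_iff]
      show ‖c t‖ < 1
      linarith
    have heq : c =ᶠ[𝓝 t] fun s => (g (0, s)).1 := by
      filter_upwards [hnear, hιc.eventually hri, isOpen_ball.mem_nhds ht] with s h1 h2 h3
      have h3' := mem_ball_zero_iff.1 h3
      obtain ⟨hs1, hs2⟩ := hc s h3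
      have h4 : (g (0, s)).2 = s := congrArg Prod.snd h2
      have h5 : G (g (0, s)) = 0 := congrArg Prod.fst h2
      have h6 : g (0, s) = ((g (0, s)).1, s) := by
        conv_lhs => rw [← Prod.mk.eta (p := g (0, s)), h4]
      rw [h6] at h5
      exact huniq s _ _ (by linarith) (by linarith) (mem_ball_zero_iff.1 h1) hs2 h5
    exact (contDiffAt_fst.comp t (ContDiffAt.comp t hinv hι.contDiffAt)).congr_of_eventuallyEq heq
  have hzero : c 0 = 0 := by
    have h1 : (0 : P) ∈ ball (0 : P) (1 / 4) := mem_ball_self (by norm_num)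
    obtain ⟨h2, h3⟩ := hc 0 h1
    exact huniq 0 _ _ (by simp) (by linarith) (by simp) h3 h0
  refine ⟨c, fun t ht => (hcs t ht).contDiffWithinAt, hzero, hc, fun t ht v => ?_⟩
  have ht' := mem_ball_zero_iff.1 ht
  obtain ⟨hc1, hc2⟩ := hc t ht
  have hpm : ((c t, t) : E × P) ∈ ball (0 : E × P) 1 := hmem _ _ (by linarith) (by linarith)
  have hcd : HasFDerivAt c (fderiv ℝ c t) t := ((hcs t ht).differentiableAt (by simp)).hasFDerivAt
  have h1 : HasFDerivAt (fun s => G (c s, s))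
      ((fderiv ℝ G (c t, t)).comp ((fderiv ℝ c t).prod (ContinuousLinearMap.id ℝ P))) t :=
    HasFDerivAt.comp t (hGd' _ hpm).hasFDerivAt (hcd.prodMk (hasFDerivAt_id t))
  have h2 : (fun s => G (c s, s)) =ᶠ[𝓝 t] fun _ => 0 := by
    filter_upwards [isOpen_ball.mem_nhds ht] with s hs
    exact (hc s hs).2
  have h3 := h1.unique ((hasFDerivAt_const (0 : E) t).congr_of_eventuallyEq h2)
  have h4 : fderiv ℝ G (c t, t) (fderiv ℝ c t v, v) = 0 := by
    have := DFunLike.congr_fun h3 v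
    simpa using this
  have h5 := hd _ hpm (fderiv ℝ c t v, v)
  rw [h4, zero_sub, norm_neg] at h5
  have h6 : ‖fderiv ℝ c t v‖ ≤ δ * max ‖fderiv ℝ c t v‖ ‖v‖ := by
    rw [Prod.norm_def] at h5
    exact h5
  rcases le_total ‖fderiv ℝ c t v‖ ‖v‖ with h7 | h7
  · rwa [max_eq_right h7] at h6
  · rw [max_eq_left h7] at h6
    have h8 : ‖fderiv ℝ c t v‖ ≤ 0 := by nlinarith [norm_nonneg (fderiv ℝ c t v)]
    exact h8.trans (by positivity)

end Impl

/-! ### exchange of derivatives -/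

theorem symm_est {B : Type*} [NormedAddCommGroup B] [NormedSpace ℝ B] {E : Type*}
    [NormedAddCommGroup E] [NormedSpace ℝ E] {U : B × ℂ → E}
    (hU : ContDiffOn ℝ ∞ U (ball 0 1 ×ˢ ball 0 1)) {b : B} (hb : b ∈ ball (0 : B) 1) {z : ℂ}
    (hz : z ∈ ball (0 : ℂ) 1) (w : ℂ) {P : ℂ → E} {M : ℝ} (hP : DifferentiableAt ℝ P z)
    (hd : ∀ t ∈ Icc (0 : ℝ) 1,
      ‖fderiv ℝ (fun y => fderiv ℝ U (t • b, y) (b, 0) - P y) z w‖ ≤ M) :
    ‖fderiv ℝ U (b, z) (0, w) - fderiv ℝ U (0, z) (0, w) - fderiv ℝ P z w‖ ≤ M := by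
  have hO : IsOpen (ball (0 : B) 1 ×ˢ ball (0 : ℂ) 1) := isOpen_ball.prod isOpen_ball
  have hmem : ∀ t ∈ Icc (0 : ℝ) 1, ((t • b, z) : B × ℂ) ∈ ball (0 : B) 1 ×ˢ ball (0 : ℂ) 1 := by
    intro t ht
    refine ⟨?_, hz⟩
    rw [mem_ball_zero_iff] at hb ⊢
    rw [norm_smul, Real.norm_of_nonneg ht.1]
    nlinarith [norm_nonneg b, ht.2, ht.1]
  have hD : ∀ t ∈ Icc (0 : ℝ) 1, HasFDerivAt (fderiv ℝ U) (fderiv ℝ (fderiv ℝ U) (t • b, z))
      (t • b, z) := fun t ht =>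
    (((hU.contDiffAt (hO.mem_nhds (hmem t ht))).fderiv_right (m := ∞) (by simp)).differentiableAt
      (by simp)).hasFDerivAt
  have hsymm : ∀ t ∈ Icc (0 : ℝ) 1, ∀ v v' : B × ℂ,
      fderiv ℝ (fderiv ℝ U) (t • b, z) v v' = fderiv ℝ (fderiv ℝ U) (t • b, z) v' v := by
    intro t ht v v'
    exact (hU.contDiffAt (hO.mem_nhds (hmem t ht))).isSymmSndFDerivAt
      (by rw [minSmoothness_of_isRCLikeNormedField]; exact ENat.LEInfty.out) v v'
  -- the function of `t`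
  have h1 : ∀ t ∈ Icc (0 : ℝ) 1, HasDerivWithinAt
      (fun t : ℝ => fderiv ℝ U (t • b, z) (0, w) - t • fderiv ℝ P z w)
      (fderiv ℝ (fderiv ℝ U) (t • b, z) (b, 0) (0, w) - fderiv ℝ P z w) (Icc 0 1) t := by
    intro t ht
    have h2 : HasDerivAt (fun t : ℝ => ((t • b, z) : B × ℂ)) (b, 0) t := by
      have h3 : HasDerivAt (fun t : ℝ => t • b) b t := by
        simpa using (hasDerivAt_id t).smul_const b
      exact h3.prodMk (hasDerivAt_const t z)
    have h4 : HasDerivAt (fun t : ℝ => fderiv ℝ U (t • b, z))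
        (fderiv ℝ (fderiv ℝ U) (t • b, z) (b, 0)) t := (hD t ht).comp_hasDerivAt t h2
    have h5 : HasDerivAt (fun t : ℝ => fderiv ℝ U (t • b, z) (0, w))
        (fderiv ℝ (fderiv ℝ U) (t • b, z) (b, 0) (0, w)) t := by
      simpa using h4.clm_apply (hasDerivAt_const t ((0, w) : B × ℂ))
    have h6 : HasDerivAt (fun t : ℝ => t • fderiv ℝ P z w) (fderiv ℝ P z w) t := by
      simpa using (hasDerivAt_id t).smul_const (fderiv ℝ P z w)
    exact (h5.sub h6).hasDerivWithinAt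
  have h2 : ∀ t ∈ Icc (0 : ℝ) 1,
      ‖fderiv ℝ (fderiv ℝ U) (t • b, z) (b, 0) (0, w) - fderiv ℝ P z w‖ ≤ M := by
    intro t ht
    have h3 : HasFDerivAt (fun y : ℂ => ((t • b, y) : B × ℂ))
        (ContinuousLinearMap.inr ℝ B ℂ) z := hasFDerivAt_prodMk_right (t • b) z
    have h4 : HasFDerivAt (fun y : ℂ => fderiv ℝ U (t • b, y))
        ((fderiv ℝ (fderiv ℝ U) (t • b, z)).comp (ContinuousLinearMap.inr ℝ B ℂ)) z :=
      HasFDerivAt.comp z (hD t ht) h3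
    have h5 : HasFDerivAt (fun y : ℂ => fderiv ℝ U (t • b, y) (b, 0))
        (((ContinuousLinearMap.apply ℝ E ((b, 0) : B × ℂ))).comp
          ((fderiv ℝ (fderiv ℝ U) (t • b, z)).comp (ContinuousLinearMap.inr ℝ B ℂ))) z :=
      (ContinuousLinearMap.apply ℝ E ((b, 0) : B × ℂ)).hasFDerivAt.comp z h4
    have h6 := (h5.fun_sub hP.hasFDerivAt).fderiv
    have h7 := hd t ht
    rw [h6] at h7
    have h8 : fderiv ℝ (fderiv ℝ U) (t • b, z) (b, 0) (0, w) =
        fderiv ℝ (fderiv ℝ U) (t • b, z) (0, w) (b, 0) := hsymm t ht _ _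
    rw [h8]
    exact h7
  have h3 := norm_image_sub_le_of_norm_deriv_le_segment_01' h1
    fun t ht => h2 t (Ico_subset_Icc_self ht)
  simp only [one_smul, zero_smul, sub_zero] at h3
  have e : fderiv ℝ U (b, z) (0, w) - fderiv ℝ U (0, z) (0, w) - fderiv ℝ P z w =
      fderiv ℝ U (b, z) (0, w) - fderiv ℝ P z w - fderiv ℝ U (0, z) (0, w) := by abel
  rw [e]
  exact h3

/-! ### the base disc -/

theorem base (hF : FolStmt) {J : CC → CC →L[ℝ] CC} {r : ℝ} (hJ : ACS J r) {δ : ℝ} (hδ : 0 < δ)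
    (hδ1 : δ ≤ 1 / 2) : ∃ (r1 : ℝ) (u : ℂ → CC), 0 < r1 ∧ ContDiffOn ℝ ∞ u (ball 0 r1) ∧ u 0 = 0 ∧
      (∀ z ∈ ball (0 : ℂ) r1, u z ∈ ball (0 : CC) r) ∧ JHol J u (ball 0 r1) ∧
      ∀ z ∈ ball (0 : ℂ) r1, ∀ v : ℂ, ‖fderiv ℝ u z v - (0, v)‖ ≤ δ * ‖v‖ := by
  obtain ⟨R, hR, hRr, h⟩ := hF J r hJ δ hδ
  obtain ⟨F, hFs, hFe, hFJ⟩ := h R hR le_rfl
  have hFc : ∀ x ∈ ball (0 : CC) 4, ContDiffAt ℝ ∞ F x := fun x hx =>
    hFs.contDiffAt (isOpen_ball.mem_nhds hx)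
  have hFd : ∀ x ∈ ball (0 : CC) 4, DifferentiableAt ℝ F x := fun x hx =>
    (hFc x hx).differentiableAt (by simp)
  obtain ⟨⟨s0, z0⟩, hx0, hF0⟩ := exists_zero hδ.le hδ1 (R := 4) (by linarith) hFd
    (fun x hx => (hFe x hx).1) (fun x hx => (hFe x hx).2)
  rw [Prod.norm_def, max_le_iff] at hx0
  obtain ⟨hs0, hz0⟩ := hx0
  simp only at hs0 hz0
  have hs4 : s0 ∈ ball (0 : ℂ) 4 := by rw [mem_ball_zero_iff]; linarith
  set m : ℂ → ℂ := fun z => z0 + R⁻¹ • z with hm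
  have hm4 : ∀ z ∈ ball (0 : ℂ) R, m z ∈ ball (0 : ℂ) 4 := by
    intro z hz
    rw [mem_ball_zero_iff] at hz ⊢
    have h1 : ‖R⁻¹ • z‖ < 1 := by
      rw [norm_smul, norm_inv, Real.norm_of_nonneg hR.le, inv_mul_lt_iff₀ hR, mul_one]
      exact hz
    calc ‖m z‖ ≤ ‖z0‖ + ‖R⁻¹ • z‖ := norm_add_le _ _
      _ < 4 := by linarith
  have hmm : ∀ z ∈ ball (0 : ℂ) R, ((s0, m z) : CC) ∈ ball (0 : CC) 4 := by
    intro z hz
    rw [mem_ball_zero_iff, Prod.norm_def]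
    exact max_lt (mem_ball_zero_iff.1 hs4) (mem_ball_zero_iff.1 (hm4 z hz))
  have hms : ContDiff ℝ ∞ fun z : ℂ => ((s0, m z) : CC) :=
    contDiff_const.prodMk (contDiff_const.add (contDiff_id.const_smul R⁻¹))
  have hFv : ∀ w ∈ ball (0 : ℂ) 4, ∀ v : ℂ, fderiv ℝ (fun z => F (s0, z)) w v =
      fderiv ℝ F (s0, w) (0, v) := by
    intro w hw v
    have hmem : ((s0, w) : CC) ∈ ball (0 : CC) 4 := by
      rw [mem_ball_zero_iff, Prod.norm_def]
      exact max_lt (mem_ball_zero_iff.1 hs4) (mem_ball_zero_iff.1 hw)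
    have h1 : HasFDerivAt (fun z => F (s0, z))
        ((fderiv ℝ F (s0, w)).comp (ContinuousLinearMap.inr ℝ ℂ ℂ)) w :=
      HasFDerivAt.comp w (hFd _ hmem).hasFDerivAt (hasFDerivAt_prodMk_right s0 w)
    rw [h1.fderiv]
    rfl
  have hud : ∀ z ∈ ball (0 : ℂ) R, HasFDerivAt (fun z => R • F (s0, m z))
      ((fderiv ℝ F (s0, m z)).comp (ContinuousLinearMap.inr ℝ ℂ ℂ)) z := by
    intro z hz
    have h1 : HasFDerivAt m (R⁻¹ • ContinuousLinearMap.id ℝ ℂ) z :=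
      (((hasFDerivAt_id z : HasFDerivAt (fun y : ℂ => y) (ContinuousLinearMap.id ℝ ℂ) z).const_smul
        R⁻¹).const_add z0)
    have h2 : HasFDerivAt (fun z : ℂ => ((s0, m z) : CC))
        ((ContinuousLinearMap.inr ℝ ℂ ℂ).comp (R⁻¹ • ContinuousLinearMap.id ℝ ℂ)) z :=
      HasFDerivAt.comp z (hasFDerivAt_prodMk_right s0 (m z)) h1
    have h3 := (HasFDerivAt.comp z (hFd _ (hmm z hz)).hasFDerivAt h2).const_smul R
    refine h3.congr_fderiv ?_
    ext v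
    all_goals
      simp only [ContinuousLinearMap.comp_apply, smul_apply, map_smul,
        ContinuousLinearMap.id_apply]
      rw [smul_smul, mul_inv_cancel₀ hR.ne', one_smul]
  refine ⟨R, fun z => R • F (s0, m z), hR, ?_, ?_, ?_, ?_, ?_⟩
  · intro z hz
    exact (((hFc _ (hmm z hz)).comp z hms.contDiffAt).const_smul R).contDiffWithinAt
  · show R • F (s0, z0 + R⁻¹ • (0 : ℂ)) = 0
    rw [smul_zero, add_zero, hF0, smul_zero]
  · intro z hz
    rw [mem_ball_zero_iff, norm_smul, Real.norm_of_nonneg hR.le]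
    have h1 := (hFe _ (hmm z hz)).1
    have h2 := mem_ball_zero_iff.1 (hmm z hz)
    have h3 : ‖F (s0, m z)‖ < 4 * (1 + δ) := by
      calc ‖F (s0, m z)‖ = ‖(F (s0, m z) - (s0, m z)) + (s0, m z)‖ := by rw [sub_add_cancel]
        _ ≤ ‖F (s0, m z) - (s0, m z)‖ + ‖((s0, m z) : CC)‖ := norm_add_le _ _
        _ < 4 * (1 + δ) := by linarith
    calc R * ‖F (s0, m z)‖ ≤ R * (4 * (1 + δ)) := by gcongr
      _ < r := hRr
  · intro z hz
    refine ⟨(hud z hz).differentiableAt, fun v => ?_⟩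
    obtain ⟨-, h1⟩ := hFJ s0 hs4 (m z) (hm4 z hz)
    have h2 := h1 v
    rw [hFv _ (hm4 z hz), hFv _ (hm4 z hz)] at h2
    rw [(hud z hz).fderiv]
    exact h2
  · intro z hz v
    rw [(hud z hz).fderiv]
    have h1 := (hFe _ (hmm z hz)).2
    have h2 := (fderiv ℝ F (s0, m z) - ContinuousLinearMap.id ℝ _).le_of_opNorm_le h1 (0, v)
    have h3 : ‖((0, v) : CC)‖ = ‖v‖ := by
      rw [Prod.norm_def]; simp
    rw [h3] at h2
    exact h2

/-! ### the family -/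

/-- the coefficients `(x, (θ, 0))`. -/
def KL : CC × ℂ →L[ℝ] (Fin 2 → CC) :=
  ContinuousLinearMap.pi ![ContinuousLinearMap.fst ℝ CC ℂ,
    (ContinuousLinearMap.inl ℝ ℂ ℂ).comp (ContinuousLinearMap.snd ℝ CC ℂ)]

theorem KL_zero (p : CC × ℂ) : KL p 0 = p.1 := rfl

theorem KL_one (p : CC × ℂ) : KL p 1 = (p.2, 0) := rfl

theorem KL_norm (p : CC × ℂ) : ‖KL p‖ ≤ ‖p‖ := by
  rw [pi_norm_le_iff_of_nonneg (norm_nonneg _), Fin.forall_fin_two, KL_zero, KL_one]
  refine ⟨norm_fst_le p, ?_⟩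
  rw [Prod.norm_def]
  simp only [norm_zero, sup_le_iff, norm_nonneg, and_true]
  exact norm_snd_le p

theorem KL_sum (z : ℂ) (b : Fin 2 → CC) : ∑ k : Fin 2, z ^ (k : ℕ) • b k = b 0 + z • b 1 := by
  rw [Fin.sum_univ_two]
  simp

theorem polfol (hF : FolStmt) (hV : VarStmt) : POLFOL := by
  intro J r hJ δ hδ
  set ε : ℝ := min (δ / 8) (1 / 8) with hε
  have hε0 : 0 < ε := lt_min (by linarith) (by norm_num)
  have hε1 : ε ≤ δ / 8 := min_le_left _ _
  have hε2 : ε ≤ 1 / 8 := min_le_right _ _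
  obtain ⟨r1, u, hr1, hus, hu0, hur, huJ, hud⟩ := base hF hJ hε0 (by linarith)
  obtain ⟨R0, hR0, hR01, hV'⟩ := hV J r hJ u r1 hr1 hus hu0 hur huJ 2 ε hε0
  -- continuity of `J` at `0`
  obtain ⟨ρ, hρ, hρJ⟩ : ∃ ρ > 0, ∀ x ∈ ball (0 : CC) ρ, ‖J x - J 0‖ < δ := by
    have h1 : ContinuousAt J 0 :=
      (hJ.smooth.contDiffAt (isOpen_ball.mem_nhds (mem_ball_self hJ.pos))).continuousAt
    obtain ⟨ρ, hρ, h⟩ := Metric.continuousAt_iff.1 h1 δ hδ
    exact ⟨ρ, hρ, fun x hx => by rw [← dist_eq_norm]; exact h hx⟩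
  set R : ℝ := min R0 (min δ (ρ / 4)) with hRdef
  have hR : 0 < R := lt_min hR0 (lt_min hδ (by linarith))
  have hRR : R ≤ R0 := min_le_left _ _
  have hRδ : R ≤ δ := (min_le_right _ _).trans (min_le_left _ _)
  have hRρ : R ≤ ρ / 4 := (min_le_right _ _).trans (min_le_right _ _)
  obtain ⟨U, hUs, hU0, hUr, hUJ, hUd⟩ := hV' R hR hRR
  have hO : IsOpen (ball (0 : Fin 2 → CC) 1 ×ˢ ball (0 : ℂ) 1) := isOpen_ball.prod isOpen_ball
  have hUc : ∀ b ∈ ball (0 : Fin 2 → CC) 1, ∀ z ∈ ball (0 : ℂ) 1, ContDiffAt ℝ ∞ U (b, z) :=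
    fun b hb z hz => hUs.contDiffAt (hO.mem_nhds ⟨hb, hz⟩)
  have hUdd : ∀ b ∈ ball (0 : Fin 2 → CC) 1, ∀ z ∈ ball (0 : ℂ) 1, DifferentiableAt ℝ U (b, z) :=
    fun b hb z hz => (hUc b hb z hz).differentiableAt (by simp)
  have h01 : (0 : ℂ) ∈ ball (0 : ℂ) 1 := mem_ball_self one_pos
  have h0B : (0 : Fin 2 → CC) ∈ ball (0 : Fin 2 → CC) 1 := mem_ball_self one_pos
  have hKm : ∀ p ∈ ball (0 : CC × ℂ) 1, KL p ∈ ball (0 : Fin 2 → CC) 1 := fun p hp => by
    rw [mem_ball_zero_iff] at hp ⊢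
    exact (KL_norm p).trans_lt hp
  -- the implicit function
  set G : CC × ℂ → CC := fun p => U (KL p, 0) with hG
  have hιs : ContDiff ℝ ∞ fun p : CC × ℂ => ((KL p, 0) : (Fin 2 → CC) × ℂ) :=
    KL.contDiff.prodMk contDiff_const
  have hGs : ContDiffOn ℝ ∞ G (ball 0 1) := fun p hp =>
    ((hUc _ (hKm p hp) 0 h01).comp p hιs.contDiffAt).contDiffWithinAt
  have hG0 : G 0 = 0 := by
    show U (KL 0, 0) = 0
    rw [map_zero, hU0 0 h01, smul_zero, hu0, smul_zero]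
  have hGd : ∀ p ∈ ball (0 : CC × ℂ) 1, ∀ v, ‖fderiv ℝ G p v - v.1‖ ≤ ε * ‖v‖ := by
    intro p hp v
    have h1 : HasFDerivAt (fun p : CC × ℂ => ((KL p, 0) : (Fin 2 → CC) × ℂ))
        (KL.prod (0 : CC × ℂ →L[ℝ] ℂ)) p := KL.hasFDerivAt.prodMk (hasFDerivAt_const 0 p)
    have h2 : HasFDerivAt G ((fderiv ℝ U (KL p, 0)).comp (KL.prod (0 : CC × ℂ →L[ℝ] ℂ))) p :=
      HasFDerivAt.comp p (hUdd _ (hKm p hp) 0 h01).hasFDerivAt h1
    rw [h2.fderiv]
    have h3 := (hUd _ (hKm p hp) (KL v) 0 h01).1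
    rw [KL_sum, zero_smul, add_zero, KL_zero] at h3
    exact h3.trans (mul_le_mul_of_nonneg_left (KL_norm v) hε0.le)
  obtain ⟨c, hcs, hc0, hc1, hcd⟩ := implicit hε0.le (by linarith) hGs hG0 hGd
  -- the coefficients
  set bb : ℂ × ℂ × ℂ → (Fin 2 → CC) := fun q => KL (c q.1 + (q.2.1, 0), q.1) with hbb
  set Ω : Set (ℂ × ℂ × ℂ) := ball 0 (1 / 4) ×ˢ (ball 0 (1 / 4) ×ˢ ball 0 1) with hΩ
  have hΩo : IsOpen Ω := isOpen_ball.prod (isOpen_ball.prod isOpen_ball)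
  have hΩc : Convex ℝ Ω :=
    (convex_ball _ _).prod ((convex_ball _ _).prod (convex_ball _ _))
  have hbm : ∀ q ∈ Ω, bb q ∈ ball (0 : Fin 2 → CC) 1 := by
    intro q hq
    refine hKm _ ?_
    obtain ⟨h1, h2, -⟩ := hq
    have h3 := (hc1 q.1 h1).1
    rw [mem_ball_zero_iff] at h1 h2
    rw [mem_ball_zero_iff, Prod.norm_def]
    have h4 : ‖((q.2.1, 0) : CC)‖ = ‖q.2.1‖ := by rw [Prod.norm_def]; simp
    refine max_lt ?_ (by simp only; linarith)
    refine (norm_add_le _ _).trans_lt ?_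
    rw [h4]
    linarith
  set Ψ : ℂ × ℂ × ℂ → CC := fun q => U (bb q, q.2.2) with hΨ
  have hbd : ∀ q ∈ Ω, HasFDerivAt (fun q : ℂ × ℂ × ℂ => ((bb q, q.2.2) : (Fin 2 → CC) × ℂ))
      ((KL.comp (((fderiv ℝ c q.1).comp (ContinuousLinearMap.fst ℝ ℂ (ℂ × ℂ)) +
        (ContinuousLinearMap.inl ℝ ℂ ℂ).comp ((ContinuousLinearMap.fst ℝ ℂ ℂ).comp
          (ContinuousLinearMap.snd ℝ ℂ (ℂ × ℂ)))).prod (ContinuousLinearMap.fst ℝ ℂ (ℂ × ℂ)))).prod
        ((ContinuousLinearMap.snd ℝ ℂ ℂ).comp (ContinuousLinearMap.snd ℝ ℂ (ℂ × ℂ)))) q := by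
    intro q hq
    have h1 : HasFDerivAt c (fderiv ℝ c q.1) q.1 :=
      ((hcs.contDiffAt (isOpen_ball.mem_nhds hq.1)).differentiableAt (by simp)).hasFDerivAt
    have h2 : HasFDerivAt (fun q : ℂ × ℂ × ℂ => c q.1)
        ((fderiv ℝ c q.1).comp (ContinuousLinearMap.fst ℝ ℂ (ℂ × ℂ))) q :=
      h1.comp q hasFDerivAt_fst
    have h3 : HasFDerivAt (fun q : ℂ × ℂ × ℂ => ((q.2.1, 0) : CC))
        ((ContinuousLinearMap.inl ℝ ℂ ℂ).comp ((ContinuousLinearMap.fst ℝ ℂ ℂ).comp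
          (ContinuousLinearMap.snd ℝ ℂ (ℂ × ℂ)))) q :=
      ((ContinuousLinearMap.inl ℝ ℂ ℂ).comp ((ContinuousLinearMap.fst ℝ ℂ ℂ).comp
          (ContinuousLinearMap.snd ℝ ℂ (ℂ × ℂ)))).hasFDerivAt
    have h4 : HasFDerivAt (fun q : ℂ × ℂ × ℂ => ((c q.1 + (q.2.1, 0), q.1) : CC × ℂ)) _ q :=
      (h2.add h3).prodMk hasFDerivAt_fst
    have h5 := KL.hasFDerivAt.comp q h4
    exact h5.prodMk ((ContinuousLinearMap.snd ℝ ℂ ℂ).comp
      (ContinuousLinearMap.snd ℝ ℂ (ℂ × ℂ))).hasFDerivAt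
  have hΨd : ∀ q ∈ Ω, ∀ a, fderiv ℝ Ψ q a = fderiv ℝ U (bb q, q.2.2)
      (KL (fderiv ℝ c q.1 a.1 + (a.2.1, 0), a.1), a.2.2) ∧ DifferentiableAt ℝ Ψ q := by
    intro q hq a
    have h1 : HasFDerivAt Ψ _ q :=
      HasFDerivAt.comp q (hUdd _ (hbm q hq) _ hq.2.2).hasFDerivAt (hbd q hq)
    refine ⟨?_, h1.differentiableAt⟩
    rw [h1.fderiv]
    rfl
  have hmain : ∀ q ∈ Ω, ∀ a : ℂ × ℂ × ℂ,
      ‖fderiv ℝ Ψ q a - (q.2.2 * a.1 + a.2.1 + q.1 * a.2.2, a.2.2)‖ ≤ 5 * ε * ‖a‖ := by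
    intro q hq a
    rw [(hΨd q hq a).1]
    have hb := hbm q hq
    have hz := hq.2.2
    set b := bb q with hbdef
    set z := q.2.2 with hzdef
    set w := a.2.2 with hwdef
    set v := fderiv ℝ c q.1 a.1 with hvdef
    set C := KL (v + (a.2.1, 0), a.1) with hC
    have hv : ‖v‖ ≤ ε * ‖a.1‖ := hcd q.1 hq.1 a.1
    have ha1 : ‖a.1‖ ≤ ‖a‖ := norm_fst_le a
    have ha2 : ‖a.2‖ ≤ ‖a‖ := norm_snd_le a
    have ha3 : ‖a.2.1‖ ≤ ‖a‖ := (norm_fst_le a.2).trans ha2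
    have ha4 : ‖w‖ ≤ ‖a‖ := (norm_snd_le a.2).trans ha2
    have hCn : ‖C‖ ≤ 2 * ‖a‖ := by
      refine (KL_norm _).trans ?_
      rw [Prod.norm_def]
      refine max_le ?_ (by simp only; linarith [norm_nonneg a])
      refine (norm_add_le _ _).trans ?_
      have h4 : ‖((a.2.1, 0) : CC)‖ = ‖a.2.1‖ := by rw [Prod.norm_def]; simp
      rw [h4]
      nlinarith [norm_nonneg a, norm_nonneg a.1]
    -- E1
    have e1 := (hUd b hb C z hz).1
    rw [KL_sum] at e1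
    -- E2
    set P : ℂ → CC := fun y => ∑ k : Fin 2, y ^ (k : ℕ) • b k with hP
    have hPe : P = fun y => b 0 + y • b 1 := funext fun y => KL_sum y b
    have hPd : HasFDerivAt P ((ContinuousLinearMap.id ℝ ℂ).smulRight (b 1)) z := by
      rw [hPe]
      exact ((hasFDerivAt_id z).smul_const (b 1)).const_add (b 0)
    have e2 := symm_est hUs hb hz w hPd.differentiableAt (M := ε * ‖b‖ * ‖w‖) (by
      intro t ht
      have ht' : t • b ∈ ball (0 : Fin 2 → CC) 1 := by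
        rw [mem_ball_zero_iff] at hb ⊢
        rw [norm_smul, Real.norm_of_nonneg ht.1]
        nlinarith [norm_nonneg b, ht.2, ht.1]
      exact ContinuousLinearMap.le_of_opNorm_le _ (hUd (t • b) ht' b z hz).2 w)
    have hb1 : b 1 = (q.1, 0) := rfl
    have hPw : fderiv ℝ P z w = (w * q.1, 0) := by
      rw [hPd.fderiv, ContinuousLinearMap.smulRight_apply, ContinuousLinearMap.id_apply, hb1]
      ext <;> simp
    rw [hPw] at e2
    -- E3
    have hRz : R • z ∈ ball (0 : ℂ) r1 := by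
      rw [mem_ball_zero_iff] at hz ⊢
      rw [norm_smul, Real.norm_of_nonneg hR.le]
      nlinarith [norm_nonneg z]
    have e3 : fderiv ℝ U (0, z) (0, w) = fderiv ℝ u (R • z) w := by
      have h1 : HasFDerivAt (fun y : ℂ => U (0, y))
          ((fderiv ℝ U (0, z)).comp (ContinuousLinearMap.inr ℝ (Fin 2 → CC) ℂ)) z :=
        HasFDerivAt.comp z (hUdd 0 h0B z hz).hasFDerivAt (hasFDerivAt_prodMk_right 0 z)
      have h2 : HasFDerivAt (fun y : ℂ => R⁻¹ • u (R • y))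
          (R⁻¹ • (fderiv ℝ u (R • z)).comp (R • ContinuousLinearMap.id ℝ ℂ)) z := by
        have h3 : HasFDerivAt (fun y : ℂ => R • y) (R • ContinuousLinearMap.id ℝ ℂ) z :=
          (hasFDerivAt_id z).const_smul R
        have h4 : HasFDerivAt u (fderiv ℝ u (R • z)) (R • z) :=
          ((hus.contDiffAt (isOpen_ball.mem_nhds hRz)).differentiableAt (by simp)).hasFDerivAt
        exact (HasFDerivAt.comp z h4 h3).const_smul R⁻¹
      have h3 : (fun y : ℂ => U (0, y)) =ᶠ[𝓝 z] fun y => R⁻¹ • u (R • y) := by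
        filter_upwards [isOpen_ball.mem_nhds hz] with y hy
        exact hU0 y hy
      have h4 := h1.unique (h2.congr_of_eventuallyEq h3)
      have h5 := DFunLike.congr_fun h4 w
      have h6 : (R⁻¹ • (fderiv ℝ u (R • z)).comp (R • ContinuousLinearMap.id ℝ ℂ)) w =
          fderiv ℝ u (R • z) w := by
        simp only [smul_apply, ContinuousLinearMap.comp_apply,
          ContinuousLinearMap.id_apply, map_smul]
        rw [smul_smul, inv_mul_cancel₀ hR.ne', one_smul]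
      rw [h6] at h5
      exact h5
    have e3' : ‖fderiv ℝ U (0, z) (0, w) - (0, w)‖ ≤ ε * ‖w‖ := by
      rw [e3]
      exact hud _ hRz w
    -- sum
    have hC0 : C 0 = v + (a.2.1, 0) := rfl
    have hC1 : C 1 = (a.1, 0) := rfl
    rw [hC0, hC1] at e1
    have hsplit : fderiv ℝ U (b, z) (C, w) = fderiv ℝ U (b, z) (C, 0) +
        fderiv ℝ U (b, z) (0, w) := by
      rw [← map_add]
      congr 1
      ext <;> simp
    have hid : fderiv ℝ U (b, z) (C, w) - (z * a.1 + a.2.1 + q.1 * w, w) =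
        (fderiv ℝ U (b, z) (C, 0) - (v + (a.2.1, 0) + z • ((a.1, 0) : CC))) + v +
        (fderiv ℝ U (b, z) (0, w) - fderiv ℝ U (0, z) (0, w) - (w * q.1, 0)) +
        (fderiv ℝ U (0, z) (0, w) - (0, w)) := by
      rw [hsplit]
      have : ((z * a.1 + a.2.1 + q.1 * w, w) : CC) =
          (a.2.1, 0) + z • ((a.1, 0) : CC) + (w * q.1, 0) + (0, w) := by
        ext
        · simp; ring
        · simp
      rw [this]
      abel
    have hb1' : ‖b‖ ≤ 1 := (mem_ball_zero_iff.1 hb).le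
    rw [hid]
    calc _ ≤ ε * ‖C‖ + ‖v‖ + ε * ‖b‖ * ‖w‖ + ε * ‖w‖ := by
          refine (norm_add_le _ _).trans (add_le_add ((norm_add_le _ _).trans
            (add_le_add ((norm_add_le _ _).trans (add_le_add e1 le_rfl)) e2)) e3')
      _ ≤ ε * (2 * ‖a‖) + ε * ‖a‖ + ε * 1 * ‖a‖ + ε * ‖a‖ := by
          gcongr
          exact hv.trans (by gcongr)
      _ = 5 * ε * ‖a‖ := by ring
  have hbound : ∀ q ∈ Ω, ‖Ψ q‖ ≤ 3 := by
    intro q hq
    have h0Ω : (0 : ℂ × ℂ × ℂ) ∈ Ω :=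
      ⟨mem_ball_self (by norm_num), mem_ball_self (by norm_num), mem_ball_self one_pos⟩
    have h1 := hΩc.norm_image_sub_le_of_norm_fderiv_le (f := Ψ) (C := 3)
      (fun x hx => (hΨd x hx 0).2) (fun x hx => ?_) h0Ω hq
    · have h2 : Ψ 0 = 0 := by
        show U (KL (c 0 + (0, 0), 0), 0) = 0
        have := (hc1 0 (mem_ball_self (by norm_num))).2
        have e : c 0 + ((0, 0) : CC) = c 0 := by
          rw [show ((0, 0) : CC) = 0 from rfl, add_zero]
        rw [e]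
        exact this
      rw [h2, sub_zero, sub_zero] at h1
      have h3 : ‖q‖ ≤ 1 := by
        obtain ⟨h4, h5, h6⟩ := hq
        rw [mem_ball_zero_iff] at h4 h5 h6
        rw [Prod.norm_def, Prod.norm_def]
        exact max_le (by linarith) (max_le (by linarith) h6.le)
      linarith
    · refine ContinuousLinearMap.opNorm_le_bound _ (by norm_num) fun a => ?_
      have h2 := hmain x hx a
      obtain ⟨h4, h5, h6⟩ := hx
      rw [mem_ball_zero_iff] at h4 h5 h6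
      have ha1 : ‖a.1‖ ≤ ‖a‖ := norm_fst_le a
      have ha2 : ‖a.2‖ ≤ ‖a‖ := norm_snd_le a
      have ha3 : ‖a.2.1‖ ≤ ‖a‖ := (norm_fst_le a.2).trans ha2
      have ha4 : ‖a.2.2‖ ≤ ‖a‖ := (norm_snd_le a.2).trans ha2
      have h3 : ‖((x.2.2 * a.1 + a.2.1 + x.1 * a.2.2, a.2.2) : CC)‖ ≤ (9 / 4) * ‖a‖ := by
        rw [Prod.norm_def]
        refine max_le ?_ (by simp only; linarith [norm_nonneg a])
        calc ‖x.2.2 * a.1 + a.2.1 + x.1 * a.2.2‖ ≤ ‖x.2.2‖ * ‖a.1‖ + ‖a.2.1‖ + ‖x.1‖ * ‖a.2.2‖ := by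
              refine (norm_add_le _ _).trans (add_le_add ((norm_add_le _ _).trans
                (add_le_add (norm_mul_le _ _) le_rfl)) (norm_mul_le _ _))
          _ ≤ 1 * ‖a‖ + ‖a‖ + 1 / 4 * ‖a‖ := by gcongr
          _ = 9 / 4 * ‖a‖ := by ring
      calc ‖fderiv ℝ Ψ x a‖ = ‖(fderiv ℝ Ψ x a - (x.2.2 * a.1 + a.2.1 + x.1 * a.2.2, a.2.2)) +
            (x.2.2 * a.1 + a.2.1 + x.1 * a.2.2, a.2.2)‖ := by rw [sub_add_cancel]
        _ ≤ 5 * ε * ‖a‖ + 9 / 4 * ‖a‖ := (norm_add_le _ _).trans (add_le_add h2 h3)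
        _ ≤ 3 * ‖a‖ := by nlinarith [norm_nonneg a]
  refine ⟨R, hR, hRδ, Ψ, ?_, ?_, ?_, ?_⟩
  · intro q hq
    have h1 : ContDiffAt ℝ ∞ (fun q : ℂ × ℂ × ℂ => ((bb q, q.2.2) : (Fin 2 → CC) × ℂ)) q := by
      have h2 : ContDiffAt ℝ ∞ (fun q : ℂ × ℂ × ℂ => c q.1) q :=
        (hcs.contDiffAt (isOpen_ball.mem_nhds hq.1)).comp q contDiffAt_fst
      have h3 : ContDiffAt ℝ ∞ (fun q : ℂ × ℂ × ℂ => ((q.2.1, 0) : CC)) q :=
        (contDiff_snd.fst.prodMk contDiff_const).contDiffAt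
      exact ((KL.contDiff.contDiffAt).comp q ((h2.add h3).prodMk contDiffAt_fst)).prodMk
        contDiff_snd.snd.contDiffAt
    exact ((hUc _ (hbm q hq) _ hq.2.2).comp q h1).contDiffWithinAt
  · intro θ hθ
    show U (KL (c θ + (0, 0), θ), 0) = 0
    have e : c θ + ((0, 0) : CC) = c θ := by
      rw [show ((0, 0) : CC) = 0 from rfl, add_zero]
    rw [e]
    exact (hc1 θ hθ).2
  · intro θ hθ s hs
    have h1 : bb (θ, s, 0) ∈ ball (0 : Fin 2 → CC) 1 := hbm (θ, s, 0) ⟨hθ, hs, h01⟩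
    exact hUJ _ h1
  · intro θ hθ s hs z hz
    have hq : ((θ, s, z) : ℂ × ℂ × ℂ) ∈ Ω := ⟨hθ, hs, hz⟩
    refine ⟨hUr _ ⟨hbm _ hq, hz⟩, fun v => ?_, fun a => ?_⟩
    · have h1 : R • Ψ (θ, s, z) ∈ ball (0 : CC) ρ := by
        rw [mem_ball_zero_iff, norm_smul, Real.norm_of_nonneg hR.le]
        have := hbound _ hq
        nlinarith
      have h2 := hρJ _ h1
      rw [← hJ.zero v]
      exact (J (R • Ψ (θ, s, z)) - J 0).le_of_opNorm_le h2.le v
    · refine (hmain _ hq a).trans ?_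
      gcongr
      linarith

end

end Crest.Agent.R235.Reg_POLFOL_659
end

-- ▼ part R235/Reg_CYLEX_464
section

/-!
Row 235, PACKAGE REG, A1.2c (helper464): a `J`-cylinder at `0` whose vertical boundary misses the
support: `cylex : POLFOL → GOODDIR → CYLEX`.
-/

set_option autoImplicit false
set_option maxSynthPendingDepth 3

open MeasureTheory Metric Set Filter
open scoped ContDiff Topology NNReal

namespace Crest.Agent.R235.Reg_CYLEX_464

open Crest.Agent.R235.Cyl Crest.Agent.R235.NWDefs_334 Crest.Agent.R235.Reg_522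

noncomputable section

/-! ### the model `(θ, s, z) ↦ (s + θ z, z)` -/

/-- the model -/
def P (x : ℂ × ℂ × ℂ) : ℂ × ℂ := (x.2.1 + x.1 * x.2.2, x.2.2)

/-- the derivative of the model -/
def DP (x : ℂ × ℂ × ℂ) : ℂ × ℂ × ℂ →L[ℝ] ℂ × ℂ :=
  ((ContinuousLinearMap.fst ℝ ℂ ℂ).comp (ContinuousLinearMap.snd ℝ ℂ (ℂ × ℂ)) +
    (x.1 • (ContinuousLinearMap.snd ℝ ℂ ℂ).comp (ContinuousLinearMap.snd ℝ ℂ (ℂ × ℂ)) +
      x.2.2 • ContinuousLinearMap.fst ℝ ℂ (ℂ × ℂ))).prod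
    ((ContinuousLinearMap.snd ℝ ℂ ℂ).comp (ContinuousLinearMap.snd ℝ ℂ (ℂ × ℂ)))

theorem DP_apply (x a : ℂ × ℂ × ℂ) :
    DP x a = (x.2.2 * a.1 + a.2.1 + x.1 * a.2.2, a.2.2) := by
  simp only [DP, ContinuousLinearMap.prod_apply, add_apply, ContinuousLinearMap.comp_apply,
    ContinuousLinearMap.coe_fst', ContinuousLinearMap.coe_snd', smul_apply, smul_eq_mul]
  congr 1
  ring

theorem hasFDerivAt_P (x : ℂ × ℂ × ℂ) : HasFDerivAt P (DP x) x := by
  have h1 : HasFDerivAt (fun x : ℂ × ℂ × ℂ => x.1) (ContinuousLinearMap.fst ℝ ℂ (ℂ × ℂ)) x :=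
    hasFDerivAt_fst
  have h2 : HasFDerivAt (fun x : ℂ × ℂ × ℂ => x.2.1)
      ((ContinuousLinearMap.fst ℝ ℂ ℂ).comp (ContinuousLinearMap.snd ℝ ℂ (ℂ × ℂ))) x :=
    ((ContinuousLinearMap.fst ℝ ℂ ℂ).comp (ContinuousLinearMap.snd ℝ ℂ (ℂ × ℂ))).hasFDerivAt
  have h3 : HasFDerivAt (fun x : ℂ × ℂ × ℂ => x.2.2)
      ((ContinuousLinearMap.snd ℝ ℂ ℂ).comp (ContinuousLinearMap.snd ℝ ℂ (ℂ × ℂ))) x :=
    ((ContinuousLinearMap.snd ℝ ℂ ℂ).comp (ContinuousLinearMap.snd ℝ ℂ (ℂ × ℂ))).hasFDerivAt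
  exact (h2.add (h1.mul h3)).prodMk h3

/-- the domain -/
def Dm : Set (ℂ × ℂ × ℂ) := ball 0 (1 / 4) ×ˢ (ball 0 (1 / 4) ×ˢ ball 0 1)

theorem isOpen_Dm : IsOpen Dm := isOpen_ball.prod (isOpen_ball.prod isOpen_ball)

theorem convex_Dm : Convex ℝ Dm :=
  (convex_ball _ _).prod ((convex_ball _ _).prod (convex_ball _ _))

/-- the Lipschitz estimate -/
theorem lip {Ψ : ℂ × ℂ × ℂ → ℂ × ℂ} {δ : ℝ} (hδ : 0 ≤ δ) (hΨ : ContDiffOn ℝ ∞ Ψ Dm)
    (hd : ∀ x ∈ Dm, ∀ a : ℂ × ℂ × ℂ,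
      ‖fderiv ℝ Ψ x a - (x.2.2 * a.1 + a.2.1 + x.1 * a.2.2, a.2.2)‖ ≤ δ * ‖a‖)
    {x y : ℂ × ℂ × ℂ} (hx : x ∈ Dm) (hy : y ∈ Dm) :
    ‖Ψ x - Ψ y - (P x - P y)‖ ≤ δ * ‖x - y‖ := by
  have hdΨ : ∀ x ∈ Dm, DifferentiableAt ℝ Ψ x := fun x hx =>
    (hΨ.contDiffAt (isOpen_Dm.mem_nhds hx)).differentiableAt (by simp)
  have h1 : ∀ x ∈ Dm, HasFDerivWithinAt (fun x => Ψ x - P x) (fderiv ℝ Ψ x - DP x) Dm x :=
    fun x hx => ((hdΨ x hx).hasFDerivAt.sub (hasFDerivAt_P x)).hasFDerivWithinAt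
  have h2 : ∀ x ∈ Dm, ‖fderiv ℝ Ψ x - DP x‖ ≤ δ := fun x hx =>
    ContinuousLinearMap.opNorm_le_bound _ hδ fun a => by
      rw [sub_apply, DP_apply]
      exact hd x hx a
  have h3 := convex_Dm.norm_image_sub_le_of_norm_hasFDerivWithin_le h1 h2 hy hx
  have e : Ψ x - Ψ y - (P x - P y) = (Ψ x - P x) - (Ψ y - P y) := by abel
  rw [e]
  exact h3

/-! ### the linear isomorphism `(s, z) ↦ (s + θ z, z)` -/

/-- the linear isomorphism -/
def T (θ : ℂ) : (ℂ × ℂ) ≃L[ℝ] (ℂ × ℂ) :=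
  ContinuousLinearEquiv.equivOfInverse
    ((ContinuousLinearMap.fst ℝ ℂ ℂ + θ • ContinuousLinearMap.snd ℝ ℂ ℂ).prod
      (ContinuousLinearMap.snd ℝ ℂ ℂ))
    ((ContinuousLinearMap.fst ℝ ℂ ℂ - θ • ContinuousLinearMap.snd ℝ ℂ ℂ).prod
      (ContinuousLinearMap.snd ℝ ℂ ℂ))
    (fun x => by ext <;> simp) (fun x => by ext <;> simp)

@[simp] theorem T_apply (θ : ℂ) (x : ℂ × ℂ) : T θ x = (x.1 + θ * x.2, x.2) := rfl

@[simp] theorem T_symm_apply (θ : ℂ) (x : ℂ × ℂ) : (T θ).symm x = (x.1 - θ * x.2, x.2) := rfl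

theorem norm_pair_le {a b : ℂ} {C : ℝ} (h1 : ‖a‖ ≤ C) (h2 : ‖b‖ ≤ C) : ‖((a, b) : ℂ × ℂ)‖ ≤ C :=
  max_le h1 h2

theorem T_le {θ : ℂ} (hθ : ‖θ‖ ≤ 1 / 4) (x : ℂ × ℂ) : ‖T θ x‖ ≤ 5 / 4 * ‖x‖ := by
  have h1 : ‖x.1‖ ≤ ‖x‖ := norm_fst_le x
  have h2 : ‖x.2‖ ≤ ‖x‖ := norm_snd_le x
  have h3 : 0 ≤ ‖x‖ := norm_nonneg x
  refine norm_pair_le ?_ (by show ‖x.2‖ ≤ _; linarith)
  calc ‖x.1 + θ * x.2‖ ≤ ‖x.1‖ + ‖θ‖ * ‖x.2‖ := (norm_add_le _ _).trans (by rw [norm_mul])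
    _ ≤ ‖x‖ + 1 / 4 * ‖x‖ := by gcongr
    _ = _ := by ring

theorem T_symm_le {θ : ℂ} (hθ : ‖θ‖ ≤ 1 / 4) (x : ℂ × ℂ) : ‖(T θ).symm x‖ ≤ 5 / 4 * ‖x‖ := by
  have h1 : ‖x.1‖ ≤ ‖x‖ := norm_fst_le x
  have h2 : ‖x.2‖ ≤ ‖x‖ := norm_snd_le x
  have h3 : 0 ≤ ‖x‖ := norm_nonneg x
  refine norm_pair_le ?_ (by show ‖x.2‖ ≤ _; linarith)
  calc ‖x.1 - θ * x.2‖ ≤ ‖x.1‖ + ‖θ‖ * ‖x.2‖ := (norm_sub_le _ _).trans (by rw [norm_mul])
    _ ≤ ‖x‖ + 1 / 4 * ‖x‖ := by gcongr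
    _ = _ := by ring

theorem T_ge {θ : ℂ} (hθ : ‖θ‖ ≤ 1 / 4) (x : ℂ × ℂ) : 4 / 5 * ‖x‖ ≤ ‖T θ x‖ := by
  have h := T_symm_le hθ (T θ x)
  rw [ContinuousLinearEquiv.symm_apply_apply] at h
  linarith


/-- the lower bound for `GOODDIR` -/
theorem P_ge {θ θ' z z' : ℂ} (hθ' : ‖θ'‖ ≤ 1 / 4) (hz : 1 / 2 ≤ ‖z‖) :
    1 / 4 * max ‖θ - θ'‖ ‖z - z'‖ ≤ max ‖θ * z - θ' * z'‖ ‖z - z'‖ := by
  have h1 : θ * z - θ' * z' = (θ - θ') * z + θ' * (z - z') := by ring
  have h2 : ‖θ - θ'‖ * ‖z‖ - ‖θ'‖ * ‖z - z'‖ ≤ ‖θ * z - θ' * z'‖ := by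
    rw [h1, ← norm_mul, ← norm_mul]
    have := norm_sub_norm_le ((θ - θ') * z) (-(θ' * (z - z')))
    rw [norm_neg, sub_neg_eq_add] at this
    exact this
  have h3 : ‖θ - θ'‖ * (1 / 2) ≤ ‖θ - θ'‖ * ‖z‖ := by gcongr
  have h4 : ‖θ'‖ * ‖z - z'‖ ≤ 1 / 4 * ‖z - z'‖ := by gcongr
  have hA := norm_nonneg (θ - θ')
  have hB := norm_nonneg (z - z')
  rcases le_total (‖θ - θ'‖ / 4) ‖z - z'‖ with h | h
  · refine le_trans ?_ (le_max_right _ _)
    rcases max_choice ‖θ - θ'‖ ‖z - z'‖ with e | e <;> rw [e] <;> linarith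
  · refine le_trans ?_ (le_max_left _ _)
    rcases max_choice ‖θ - θ'‖ ‖z - z'‖ with e | e <;> rw [e] <;> linarith

/-- the set of points outside the support is open. -/
theorem isOpen_notSupp (m : Measure CC) : IsOpen {p : CC | ¬ SuppE m p} := by
  rw [Metric.isOpen_iff]
  intro p hp
  simp only [SuppE, mem_setOf_eq, not_forall, not_lt, nonpos_iff_eq_zero] at hp
  obtain ⟨r, hr, h0⟩ := hp
  refine ⟨r, hr, fun q hq h => ?_⟩
  have h1 := h (r - dist q p) (sub_pos.2 hq)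
  have h2 : ball q (r - dist q p) ⊆ ball p r := ball_subset_ball' (by linarith)
  exact (h1.trans_le (measure_mono h2)).ne' h0

/-- a bounded below endomorphism as an equivalence. -/
theorem exists_equiv (A : CC →L[ℝ] CC) {c : ℝ} (hc : 0 < c) (hA : ∀ v, c * ‖v‖ ≤ ‖A v‖) :
    ∃ B : CC ≃L[ℝ] CC, (B : CC →L[ℝ] CC) = A := by
  have hinj : Function.Injective (A : CC →ₗ[ℝ] CC) := by
    rw [← LinearMap.ker_eq_bot, LinearMap.ker_eq_bot']
    intro v hv
    have h1 := hA v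
    have h2 : A v = 0 := hv
    rw [h2, norm_zero] at h1
    have h3 : ‖v‖ ≤ 0 := by
      by_contra h
      push Not at h
      have := mul_pos hc h
      linarith
    exact norm_le_zero_iff.1 h3
  refine ⟨(LinearEquiv.ofInjectiveEndo (A : CC →ₗ[ℝ] CC) hinj).toContinuousLinearEquiv, ?_⟩
  ext v <;> rfl

/-- `R • T` -/
def TR (θ : ℂ) {R : ℝ} (hR : R ≠ 0) : CC ≃L[ℝ] CC :=
  ContinuousLinearEquiv.equivOfInverse (R • (T θ : CC →L[ℝ] CC))
    (R⁻¹ • ((T θ).symm : CC →L[ℝ] CC))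
    (fun x => by
      show R⁻¹ • (T θ).symm (R • T θ x) = x
      rw [map_smul, ContinuousLinearEquiv.symm_apply_apply, smul_smul, inv_mul_cancel₀ hR,
        one_smul])
    (fun x => by
      show R • T θ (R⁻¹ • (T θ).symm x) = x
      rw [map_smul, ContinuousLinearEquiv.apply_symm_apply, smul_smul, mul_inv_cancel₀ hR,
        one_smul])


theorem TR_symm_norm {θ : ℂ} (hθ : ‖θ‖ ≤ 1 / 4) {R : ℝ} (hR : 0 < R) :
    ‖((TR θ hR.ne').symm : CC →L[ℝ] CC)‖ ≤ 5 / (4 * R) := by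
  refine ContinuousLinearMap.opNorm_le_bound _ (by positivity) fun x => ?_
  have h : ((TR θ hR.ne').symm : CC →L[ℝ] CC) x = R⁻¹ • (T θ).symm x := rfl
  rw [h, norm_smul, Real.norm_of_nonneg (inv_nonneg.2 hR.le)]
  calc R⁻¹ * ‖(T θ).symm x‖ ≤ R⁻¹ * (5 / 4 * ‖x‖) := by gcongr; exact T_symm_le hθ x
    _ = 5 / (4 * R) * ‖x‖ := by field_simp

theorem cylex (hP : POLFOL) (hG : GOODDIR) : CYLEX := by
  intro J r hJ m X K hm
  have hr := hJ.pos
  obtain ⟨δ, hδ, hδ1, hδ2⟩ : ∃ δ : ℝ, 0 < δ ∧ δ ≤ 1 / 100 ∧ δ ≤ r / 20 :=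
    ⟨min (1 / 100) (r / 20), lt_min (by norm_num) (by positivity), min_le_left _ _,
      min_le_right _ _⟩
  obtain ⟨R, hR, hRδ, Ψ, hΨ, hΨ0, hΨJ, hΨb⟩ := hP J r hJ δ hδ
  have hR2 : 2 * R < r := by linarith
  have hL : ∀ {x y : ℂ × ℂ × ℂ}, x ∈ Dm → y ∈ Dm →
      ‖Ψ x - Ψ y - (P x - P y)‖ ≤ δ * ‖x - y‖ := fun {x y} hx hy =>
    lip hδ.le hΨ (fun x hx a => (hΨb x.1 hx.1 x.2.1 hx.2.1 x.2.2 hx.2.2).2.2 a) hx hy
  -- the sup bound
  have hbd : ∀ x ∈ Dm, ‖Ψ x‖ ≤ 2 := by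
    rintro ⟨θ, s, z⟩ ⟨hθ, hs, hz⟩
    have h1 := hL (x := (θ, s, z)) (y := (θ, 0, 0)) ⟨hθ, hs, hz⟩
      ⟨hθ, mem_ball_self (by norm_num), mem_ball_self one_pos⟩
    rw [mem_ball_zero_iff] at hθ hs hz
    rw [hΨ0 θ (mem_ball_zero_iff.2 hθ)] at h1
    have h2 : P (θ, 0, 0) = 0 := by simp [P]
    rw [h2, sub_zero, sub_zero] at h1
    have h3 : ‖((θ, s, z) : ℂ × ℂ × ℂ) - (θ, 0, 0)‖ ≤ 1 := by
      have e : ((θ, s, z) : ℂ × ℂ × ℂ) - (θ, 0, 0) = (0, s, z) := by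
        simp
      rw [e]
      refine max_le (by simp) (max_le ?_ ?_)
      · show ‖s‖ ≤ 1
        linarith
      · show ‖z‖ ≤ 1
        linarith
    have h4 : ‖P (θ, s, z)‖ ≤ 1 := by
      refine norm_pair_le ?_ hz.le
      calc ‖s + θ * z‖ ≤ ‖s‖ + ‖θ‖ * ‖z‖ := (norm_add_le _ _).trans (by rw [norm_mul])
        _ ≤ 1 / 4 + 1 / 4 * 1 := by gcongr
        _ ≤ 1 := by norm_num
    have h5 : ‖Ψ (θ, s, z)‖ ≤ ‖Ψ (θ, s, z) - P (θ, s, z)‖ + ‖P (θ, s, z)‖ := by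
      have := norm_add_le (Ψ (θ, s, z) - P (θ, s, z)) (P (θ, s, z))
      rwa [sub_add_cancel] at this
    have h6 : δ * ‖((θ, s, z) : ℂ × ℂ × ℂ) - (θ, 0, 0)‖ ≤ δ * 1 := by gcongr
    linarith
  -- a good direction
  set Q : Set CC := closedBall 0 (2 * R) with hQ
  have hQsub : Q ⊆ ball 0 r := closedBall_subset_ball hR2
  obtain ⟨c₀, hc₀, r₀, hr₀, hlow⟩ := hm.low Q hQsub (isCompact_closedBall _ _)
  have hQm : ∀ x ∈ Dm, R • Ψ x ∈ Q := by
    intro x hx
    rw [hQ, mem_closedBall_zero_iff, norm_smul, Real.norm_of_nonneg hR.le]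
    have := hbd x hx
    nlinarith
  obtain ⟨θ, hθ, ρ, hρ, hmiss⟩ := hG m c₀ r₀ {p | p ∈ Q ∧ SuppE m p} hm.fin hc₀ hr₀
    (fun p hp r hr hr' => hlow p hp.1 hp.2 r hr hr') (fun q => R • Ψ (q.1, 0, q.2)) (1 / 4) (1 / 2)
    (3 / 4) (R / 8) (by norm_num) (by norm_num) (by norm_num) (by positivity) (by
      rintro ⟨θ, z⟩ ⟨hθ, hz⟩ ⟨θ', z'⟩ ⟨hθ', hz'⟩
      have h1 := hL (x := (θ, 0, z)) (y := (θ', 0, z'))
        ⟨hθ, mem_ball_self (by norm_num), mem_ball_zero_iff.2 (by have := hz.2; simp at this; linarith)⟩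
        ⟨hθ', mem_ball_self (by norm_num), mem_ball_zero_iff.2 (by have := hz'.2; simp at this; linarith)⟩
      have e1 : ‖((θ, 0, z) : ℂ × ℂ × ℂ) - (θ', 0, z')‖ = max ‖θ - θ'‖ ‖z - z'‖ := by
        simp [Prod.norm_def]
      have e2 : ‖P (θ, 0, z) - P (θ', 0, z')‖ = max ‖θ * z - θ' * z'‖ ‖z - z'‖ := by
        simp [P, Prod.norm_def]
      have h2 := P_ge (θ := θ) (z' := z') (mem_ball_zero_iff.1 hθ').le hz.1.le
      rw [e1] at h1
      rw [← e2] at h2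
      have h3 : dist ((θ, z) : ℂ × ℂ) (θ', z') = max ‖θ - θ'‖ ‖z - z'‖ := by
        simp [dist_eq_norm]
      rw [h3, dist_eq_norm, ← smul_sub, norm_smul, Real.norm_of_nonneg hR.le]
      have h4 : ‖P (θ, 0, z) - P (θ', 0, z')‖ ≤ ‖Ψ (θ, 0, z) - Ψ (θ', 0, z')‖
          + ‖Ψ (θ, 0, z) - Ψ (θ', 0, z') - (P (θ, 0, z) - P (θ', 0, z'))‖ := by
        have := norm_sub_le (Ψ (θ, 0, z) - Ψ (θ', 0, z'))
          (Ψ (θ, 0, z) - Ψ (θ', 0, z') - (P (θ, 0, z) - P (θ', 0, z')))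
        rwa [sub_sub_cancel] at this
      set A := max ‖θ - θ'‖ ‖z - z'‖ with hA
      have hA0 : 0 ≤ A := (norm_nonneg _).trans (le_max_left _ _)
      have h5 : δ * A ≤ 1 / 100 * A := by gcongr
      have h6 : 1 / 8 * A ≤ ‖Ψ (θ, 0, z) - Ψ (θ', 0, z')‖ := by linarith
      calc R / 8 * A = R * (1 / 8 * A) := by ring
        _ ≤ _ := by gcongr)
  have hθn : ‖θ‖ ≤ 1 / 4 := (mem_ball_zero_iff.1 hθ).le
  -- the map
  set V : Set CC := ball 0 (1 / 4) ×ˢ ball 0 1 with hV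
  have hVo : IsOpen V := isOpen_ball.prod isOpen_ball
  have hVD : ∀ p ∈ V, (θ, p) ∈ Dm := fun p hp => ⟨hθ, hp.1, hp.2⟩
  set H : CC → CC := fun p => R • Ψ (θ, p) with hH
  have hHc : ContDiffOn ℝ ∞ H V := by
    refine ContDiffOn.const_smul R ?_
    exact hΨ.comp (contDiff_const.prodMk contDiff_id).contDiffOn hVD
  have hΨd : ∀ p ∈ V, HasFDerivAt Ψ (fderiv ℝ Ψ (θ, p)) (θ, p) := fun p hp =>
    ((hΨ.contDiffAt (isOpen_Dm.mem_nhds (hVD p hp))).differentiableAt (by simp)).hasFDerivAt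
  set A : CC → CC →L[ℝ] CC := fun p =>
    R • (fderiv ℝ Ψ (θ, p)).comp (ContinuousLinearMap.inr ℝ ℂ (ℂ × ℂ)) with hA
  have hHd : ∀ p ∈ V, HasFDerivAt H (A p) p := by
    intro p hp
    have h1 : HasFDerivAt (fun p : CC => ((θ, p) : ℂ × ℂ × ℂ))
        (ContinuousLinearMap.inr ℝ ℂ (ℂ × ℂ)) p :=
      (hasFDerivAt_const θ p).prodMk (hasFDerivAt_id p)
    exact ((hΨd p hp).comp p h1).const_smul R
  have hE : ∀ p ∈ V, ∀ v : CC, ‖A p v - R • T θ v‖ ≤ R * (δ * ‖v‖) := by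
    intro p hp v
    have h1 := (hΨb θ hθ p.1 hp.1 p.2 hp.2).2.2 (0, v)
    have e1 : A p v - R • T θ v
        = R • (fderiv ℝ Ψ (θ, p.1, p.2) (0, v) - (p.2 * 0 + v.1 + θ * v.2, v.2)) := by
      rw [smul_sub]
      simp only [mul_zero, zero_add]
      rfl
    have e2 : ‖((0, v) : ℂ × ℂ × ℂ)‖ = ‖v‖ := by simp [Prod.norm_def]
    rw [e1, norm_smul, Real.norm_of_nonneg hR.le]
    rw [e2] at h1
    exact mul_le_mul_of_nonneg_left h1 hR.le
  have hTle := T_le hθn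
  have hTge := T_ge hθn
  have hAge : ∀ p ∈ V, ∀ v : CC, R / 2 * ‖v‖ ≤ ‖A p v‖ := by
    intro p hp v
    have h1 := hE p hp v
    have h2 : ‖R • T θ v‖ ≤ ‖A p v‖ + ‖A p v - R • T θ v‖ := by
      have := norm_sub_le (A p v) (A p v - R • T θ v)
      rwa [sub_sub_cancel] at this
    rw [norm_smul, Real.norm_of_nonneg hR.le] at h2
    have h3 : R * (4 / 5 * ‖v‖) ≤ R * ‖T θ v‖ := by gcongr; exact hTge v
    have h4 : R * (δ * ‖v‖) ≤ R * (1 / 100 * ‖v‖) := by gcongr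
    have h5 : 0 ≤ R * ‖v‖ := by positivity
    nlinarith
  have hAle : ∀ p ∈ V, ∀ v : CC, ‖A p v‖ ≤ R * (2 * ‖v‖) := by
    intro p hp v
    have h1 := hE p hp v
    have h2 : ‖A p v‖ ≤ ‖A p v - R • T θ v‖ + ‖R • T θ v‖ := by
      have := norm_add_le (A p v - R • T θ v) (R • T θ v)
      rwa [sub_add_cancel] at this
    rw [norm_smul, Real.norm_of_nonneg hR.le] at h2
    have h3 : R * ‖T θ v‖ ≤ R * (5 / 4 * ‖v‖) := by gcongr; exact hTle v
    have h4 : R * (δ * ‖v‖) ≤ R * (1 / 100 * ‖v‖) := by gcongr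
    have h5 : 0 ≤ R * ‖v‖ := by positivity
    nlinarith
  -- the width
  set W : Set CC := V ∩ H ⁻¹' {p : CC | ¬ SuppE m p} with hW
  have hWo : IsOpen W := hHc.continuousOn.isOpen_inter_preimage hVo (isOpen_notSupp m)
  have hρ1 : 1 / 2 < ρ := hρ.1
  have hρ2 : ρ < 3 / 4 := hρ.2
  have hCW : ({0} : Set ℂ) ×ˢ sphere (0 : ℂ) ρ ⊆ W := by
    rintro ⟨s, z⟩ ⟨hs, hz⟩
    rw [mem_singleton_iff] at hs
    subst hs
    have hz' : ‖z‖ = ρ := mem_sphere_zero_iff_norm.1 hz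
    have hzV : ((0, z) : ℂ × ℂ) ∈ V :=
      ⟨mem_ball_self (by norm_num), mem_ball_zero_iff.2 (by rw [hz']; linarith)⟩
    refine ⟨hzV, fun h => hmiss z hz' ⟨hQm _ (hVD _ hzV), h⟩⟩
  obtain ⟨ε₁, hε₁, hth⟩ := (isCompact_singleton.prod (isCompact_sphere (0 : ℂ)
    ρ)).exists_thickening_subset_open hWo hCW
  obtain ⟨ε, hε, hε1, hε2⟩ : ∃ ε : ℝ, 0 < ε ∧ ε ≤ ε₁ ∧ ε ≤ 1 / 8 :=
    ⟨min ε₁ (1 / 8), lt_min hε₁ (by norm_num), min_le_left _ _, min_le_right _ _⟩
  set V' : Set CC := ball 0 ε ×ˢ ball 0 (ρ + ε) with hV'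
  have hV'o : IsOpen V' := isOpen_ball.prod isOpen_ball
  have hV'V : V' ⊆ V := prod_mono (ball_subset_ball (by linarith)) (ball_subset_ball (by linarith))
  have hmiss2 : ∀ p ∈ V', ρ < ‖p.2‖ → ¬ SuppE m (H p) := by
    rintro ⟨s, z⟩ ⟨hs, hz⟩ hz2
    rw [mem_ball_zero_iff] at hs hz
    have hz0 : 0 < ‖z‖ := by
      have : ρ < ‖z‖ := hz2
      linarith
    have hmem : ((s, z) : CC) ∈ thickening ε₁ (({0} : Set ℂ) ×ˢ sphere (0 : ℂ) ρ) := by
      rw [mem_thickening_iff]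
      refine ⟨(0, ((ρ / ‖z‖ : ℝ) : ℂ) * z), ⟨rfl, ?_⟩, ?_⟩
      · rw [mem_sphere_zero_iff_norm, norm_mul, Complex.norm_real, Real.norm_of_nonneg
          (by positivity)]
        field_simp
      · rw [Prod.dist_eq]
        refine max_lt ?_ ?_
        · rw [dist_zero_right]
          show ‖s‖ < ε₁
          linarith
        · show dist z (((ρ / ‖z‖ : ℝ) : ℂ) * z) < ε₁
          have e : z - ((ρ / ‖z‖ : ℝ) : ℂ) * z = ((1 - ρ / ‖z‖ : ℝ) : ℂ) * z := by
            push_cast; ring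
          rw [dist_eq_norm, e, norm_mul, Complex.norm_real, Real.norm_of_nonneg (by
            rw [sub_nonneg, div_le_one hz0]; exact hz2.le), sub_mul, one_mul,
            div_mul_cancel₀ _ hz0.ne']
          have : ‖z‖ < ρ + ε := hz
          linarith
    exact (hth hmem).2
  -- the homeomorphism
  obtain ⟨cc, hcc⟩ : ∃ cc : ℝ≥0, (cc : ℝ) = R * δ := ⟨⟨R * δ, by positivity⟩, rfl⟩
  have happ : ApproximatesLinearOn H (TR θ hR.ne' : CC →L[ℝ] CC) V' cc := by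
    intro x hx y hy
    have h1 := hL (hVD x (hV'V hx)) (hVD y (hV'V hy))
    have e1 : H x - H y - (TR θ hR.ne' : CC →L[ℝ] CC) (x - y)
        = R • (Ψ (θ, x) - Ψ (θ, y) - (P (θ, x) - P (θ, y))) := by
      show R • Ψ (θ, x) - R • Ψ (θ, y) - R • T θ (x - y) = _
      rw [← smul_sub, ← smul_sub]
      congr 2
      simp only [P, T_apply, Prod.fst_sub, Prod.snd_sub, Prod.mk_sub_mk]
      congr 1
      ring
    have e2 : ‖((θ, x) : ℂ × ℂ × ℂ) - (θ, y)‖ = ‖x - y‖ := by simp [Prod.norm_def]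
    rw [e2] at h1
    rw [e1, norm_smul, Real.norm_of_nonneg hR.le]
    rw [hcc, mul_assoc]
    gcongr
  have hc : cc < ‖((TR θ hR.ne').symm : CC →L[ℝ] CC)‖₊⁻¹ := by
    have hpos := (TR θ hR.ne').norm_symm_pos
    have h1 := TR_symm_norm hθn hR
    rw [← NNReal.coe_lt_coe, hcc]
    show R * δ < ‖((TR θ hR.ne').symm : CC →L[ℝ] CC)‖⁻¹
    have h2 : (5 / (4 * R))⁻¹ ≤ ‖((TR θ hR.ne').symm : CC →L[ℝ] CC)‖⁻¹ := inv_anti₀ hpos h1
    refine lt_of_lt_of_le ?_ h2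
    rw [inv_div]
    have : R * δ ≤ R * (1 / 100) := by gcongr
    linarith
  set e0 := happ.toOpenPartialHomeomorph H V' (Or.inr hc) hV'o with he0
  have he0c : ∀ p, e0 p = H p := fun p => rfl
  have he0s : e0.source = V' := rfl
  have he0t : e0.target = H '' V' := rfl
  have hHV : ∀ p ∈ V', e0.symm (H p) = p := fun p hp => e0.left_inv hp
  have hder : ∀ p ∈ V', ∃ B : CC ≃L[ℝ] CC, (B : CC →L[ℝ] CC) = A p := fun p hp =>
    exists_equiv (A p) (by positivity) (hAge p (hV'V hp))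
  have h0V' : (0 : CC) ∈ V' := ⟨mem_ball_self hε, mem_ball_self (by linarith)⟩
  have hH0 : H 0 = 0 := by
    show R • Ψ (θ, 0, 0) = 0
    rw [hΨ0 θ hθ, smul_zero]
  refine ⟨e0.symm, ε, ρ, ρ + ε, hε, by linarith, by linarith, ?_, rfl, ?_, ?_, ?_, ?_, ?_, ?_, ?_⟩
  · -- source
    show H '' V' ⊆ _
    rintro _ ⟨p, hp, rfl⟩
    exact (hΨb θ hθ p.1 (hV'V hp).1 p.2 (hV'V hp).2).1
  · exact ⟨0, h0V', hH0⟩
  · have := hHV 0 h0V'
    rwa [hH0] at this
  · -- smoothness of the chart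
    show ContDiffOn ℝ ∞ e0.symm (H '' V')
    rintro _ ⟨p, hp, rfl⟩
    obtain ⟨B, hB⟩ := hder p hp
    refine (e0.contDiffAt_symm (f₀' := B) ⟨p, hp, rfl⟩ ?_ ?_).contDiffWithinAt
    · rw [hHV p hp, hB]
      exact hHd p (hV'V hp)
    · rw [hHV p hp]
      exact hHc.contDiffAt (hVo.mem_nhds (hV'V hp))
  · show ContDiffOn ℝ ∞ H V'
    exact hHc.mono hV'V
  · -- vertical lines
    intro p hp v
    show fderiv ℝ H p (0, Complex.I * v) = J (H p) (fderiv ℝ H p (0, v))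
    have hpV := hV'V hp
    have hj := hΨJ θ hθ p.1 hpV.1 p.2 hpV.2
    have h1 : HasFDerivAt (fun z => Ψ (θ, p.1, z))
        ((fderiv ℝ Ψ (θ, p)).comp ((ContinuousLinearMap.inr ℝ ℂ (ℂ × ℂ)).comp
          (ContinuousLinearMap.inr ℝ ℂ ℂ))) p.2 := by
      have h2 : HasFDerivAt (fun z : ℂ => ((θ, p.1, z) : ℂ × ℂ × ℂ))
          ((ContinuousLinearMap.inr ℝ ℂ (ℂ × ℂ)).comp (ContinuousLinearMap.inr ℝ ℂ ℂ)) p.2 := by
        refine ((hasFDerivAt_const θ p.2).prodMk ((hasFDerivAt_const p.1 p.2).prodMk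
          (hasFDerivAt_id p.2))).congr_fderiv ?_
        ext <;> simp
      exact (hΨd p hpV).comp p.2 h2
    have h3 := hj.2 v
    rw [h1.fderiv] at h3
    rw [(hHd p hpV).fderiv]
    show R • fderiv ℝ Ψ (θ, p) (0, 0, Complex.I * v) =
      J (R • Ψ (θ, p)) (R • fderiv ℝ Ψ (θ, p) (0, 0, v))
    rw [map_smul]
    congr 1
  · -- the estimate
    intro p hp v
    have hpV := hV'V hp
    obtain ⟨B, hB⟩ := hder p hp
    have hd1 : fderiv ℝ e0.symm (H p) = (B.symm : CC →L[ℝ] CC) := by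
      refine (e0.hasFDerivAt_symm (f' := B) ⟨p, hp, rfl⟩ ?_).fderiv
      rw [hHV p hp, hB]
      exact hHd p hpV
    show ‖fderiv ℝ e0.symm (H p) (J (H p) (fderiv ℝ H p v)) - Complex.I • v‖ ≤ _
    rw [hd1, (hHd p hpV).fderiv]
    set u := A p v with hu
    set w : CC := B.symm (J (H p) u) - Complex.I • v with hw
    have hBA : ∀ x, B x = A p x := fun x => by rw [← hB]; rfl
    have h1 : A p w = (J (H p) u - Complex.I • u) + (Complex.I • u - A p (Complex.I • v)) := by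
      rw [hw, map_sub, ← hBA, ContinuousLinearEquiv.apply_symm_apply]
      abel
    have h2 : ‖J (H p) u - Complex.I • u‖ ≤ δ * ‖u‖ :=
      (hΨb θ hθ p.1 hpV.1 p.2 hpV.2).2.1 u
    have h3 : Complex.I • u - A p (Complex.I • v) =
        Complex.I • (A p v - R • T θ v) - (A p (Complex.I • v) - R • T θ (Complex.I • v)) := by
      have e : T θ (Complex.I • v) = Complex.I • T θ v := by
        simp only [T_apply, Prod.smul_fst, Prod.smul_snd, Prod.smul_mk, smul_eq_mul]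
        congr 1
        ring
      rw [e, smul_sub, smul_comm Complex.I R, hu]
      abel
    have hI : ∀ x : CC, ‖Complex.I • x‖ = ‖x‖ := fun x => by rw [norm_smul, Complex.norm_I, one_mul]
    have h4 : ‖Complex.I • u - A p (Complex.I • v)‖ ≤ R * (δ * ‖v‖) + R * (δ * ‖v‖) := by
      rw [h3]
      refine (norm_sub_le _ _).trans (add_le_add ?_ ?_)
      · rw [hI]; exact hE p hpV v
      · have := hE p hpV (Complex.I • v)
        rwa [hI] at this
    have h5 : ‖A p w‖ ≤ δ * ‖u‖ + (R * (δ * ‖v‖) + R * (δ * ‖v‖)) := by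
      rw [h1]
      exact (norm_add_le _ _).trans (add_le_add h2 h4)
    have h6 := hAle p hpV v
    have h7 := hAge p hpV w
    have h8 : δ * ‖u‖ ≤ 1 / 100 * (R * (2 * ‖v‖)) := by gcongr
    have h9 : R * (δ * ‖v‖) ≤ R * (1 / 100 * ‖v‖) := by gcongr
    have h10 : R / 2 * ‖w‖ ≤ R * (4 / 100 * ‖v‖) := by linarith
    have h11 : ‖w‖ ≤ 8 / 100 * ‖v‖ := by
      have : R * (‖w‖ / 2) ≤ R * (4 / 100 * ‖v‖) := by linarith
      have := le_of_mul_le_mul_left this hR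
      linarith
    show ‖w‖ ≤ 1 / 4 * ‖v‖
    have := norm_nonneg v
    linarith
  · -- the support
    intro p hp hs
    by_contra hcon
    push Not at hcon
    exact hmiss2 p hp hcon hs

end

end Crest.Agent.R235.Reg_CYLEX_464
end

-- ▼ part R235/Reg_MUBETA_369

/-!
Row 235 (S0364), PACKAGE REG, part A1.2d (MUBETA): the coefficients of an almost complex structure
with holomorphic vertical lines.  (helper369)
-/

set_option autoImplicit false

open MeasureTheory Metric Set Filter Complex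
open scoped ContDiff Topology ComplexConjugate Manifold

namespace Crest.Agent.R235.Reg_MUBETA_369

open Crest.Agent.R235.Loc Crest.Agent.R235.Cyl Crest.Agent.R235.Reg_522

noncomputable section

/-- decomposition of a real-linear map of `ℂ`. -/
theorem lz_lzb (A : ℂ →L[ℝ] ℂ) (u : ℂ) : A u = lz A * u + lzb A * conj u := by
  have h : u = u.re • (1 : ℂ) + u.im • I := by
    apply Complex.ext <;> simp
  have h1 : A u = u.re * A 1 + u.im * A I := by
    conv_lhs => rw [h]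
    rw [map_add, map_smul, map_smul]
    simp
  have h2 : u = (u.re : ℂ) + u.im * I := (re_add_im u).symm
  have h3 : conj u = (u.re : ℂ) - u.im * I := by
    apply Complex.ext <;> simp
  have h4 : lz A * u + lzb A * conj u =
      lz A * ((u.re : ℂ) + u.im * I) + lzb A * ((u.re : ℂ) - u.im * I) := by
    rw [← h2, ← h3]
  rw [h4, h1]
  simp only [lz, lzb]
  linear_combination ((u.im : ℂ) * A I) * I_sq

/-- `a X + b X̄ = 0` for all `X` only if `a = b = 0`. -/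
theorem coef_zero {a b : ℂ} (h : ∀ u : ℂ, a * u + b * conj u = 0) : a = 0 ∧ b = 0 := by
  have h1 := h 1
  have h2 := h I
  simp only [map_one, mul_one] at h1
  rw [conj_I] at h2
  have h3 : (a - b) * I = 0 := by linear_combination h2
  have h4 : a - b = 0 := by
    rcases mul_eq_zero.1 h3 with h | h
    · exact h
    · exact absurd h I_ne_zero
  constructor
  · linear_combination (h1 + h4) / 2
  · linear_combination (h1 - h4) / 2

/-- the pointwise algebra. -/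
theorem alg {al ga b b' : ℂ} (h1 : ‖al - I‖ ≤ 1 / 4)
    (hsq : ∀ u : ℂ, al * (al * u + ga * conj u) + ga * conj (al * u + ga * conj u) = -u)
    (hba : ∀ u : ℂ, b * (al * u + ga * conj u) + b' * conj (al * u + ga * conj u) +
      I * (b * u + b' * conj u) = 0) :
    I - conj al ≠ 0 ∧ 7 / 4 ≤ ‖I - conj al‖ ∧
    (∀ u : ℂ, (al * u + ga * conj u) + ga / (I - conj al) * conj (al * u + ga * conj u) =
      I * (u + ga / (I - conj al) * conj u)) ∧
    ∀ u : ℂ, (b * u + b' * conj u) + b' / (I - conj al) * conj (al * u + ga * conj u) =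
      I * (b' / (I - conj al) * conj u) := by
  have hn : 7 / 4 ≤ ‖I - conj al‖ := by
    have e1 : I - conj al = 2 * I + -conj (al - I) := by
      rw [map_sub, conj_I]; ring
    have e2 : ‖(2 * I : ℂ)‖ = 2 := by simp
    have e3 := norm_sub_norm_le (2 * I) (conj (al - I))
    rw [e2, norm_conj] at e3
    rw [e1, ← sub_eq_add_neg]
    linarith
  have hne : I - conj al ≠ 0 := by
    intro h0
    rw [h0, norm_zero] at hn
    norm_num at hn
  -- coefficients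
  have c1 : al * al + ga * conj ga + 1 = 0 ∧ al * ga + ga * conj al = 0 := by
    apply coef_zero
    intro u
    have := hsq u
    simp only [map_add, map_mul, conj_conj] at this
    linear_combination this
  have c2 : b * al + b' * conj ga + I * b = 0 ∧ b * ga + b' * conj al + I * b' = 0 := by
    apply coef_zero
    intro u
    have := hba u
    simp only [map_add, map_mul, conj_conj] at this
    linear_combination this
  -- `al` is purely imaginary
  have him : 3 / 4 ≤ al.im := by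
    have h2 := (abs_im_le_norm (al - I)).trans h1
    rw [sub_im, I_im, abs_le] at h2
    linarith [h2.1]
  have hre : al.re = 0 := by
    have h3 : (al * al).im = 0 := by
      have h4 : al * al = -((normSq ga : ℝ) : ℂ) - 1 := by
        rw [← mul_conj]
        linear_combination c1.1
      rw [h4]
      simp
    rw [mul_im] at h3
    have h5 : al.re * al.im = 0 := by linarith
    rcases mul_eq_zero.1 h5 with h | h
    · exact h
    · rw [h] at him; norm_num at him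
  have hconj : conj al = -al := by
    apply Complex.ext
    · simp [hre]
    · simp
  have hne' : I + al ≠ 0 := by
    intro h0
    apply hne
    rw [hconj]
    linear_combination h0
  refine ⟨hne, hn, fun u => ?_, fun u => ?_⟩
  · simp only [map_add, map_mul, conj_conj]
    rw [hconj, sub_neg_eq_add]
    have h6 := c1.1
    field_simp
    linear_combination u * h6 - u * I_sq
  · simp only [map_add, map_mul, conj_conj]
    rw [hconj, sub_neg_eq_add]
    have h6 := c2.1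
    field_simp
    linear_combination u * h6

/-! ### the coefficients of `J` -/

/-- `X ↦ (J p (X, 0)).1`. -/
def cA (J : CC → CC →L[ℝ] CC) (p : CC) : ℂ →L[ℝ] ℂ :=
  (ContinuousLinearMap.fst ℝ ℂ ℂ).comp ((J p).comp (ContinuousLinearMap.inl ℝ ℂ ℂ))

/-- `X ↦ (J p (X, 0)).2`. -/
def cB (J : CC → CC →L[ℝ] CC) (p : CC) : ℂ →L[ℝ] ℂ :=
  (ContinuousLinearMap.snd ℝ ℂ ℂ).comp ((J p).comp (ContinuousLinearMap.inl ℝ ℂ ℂ))

/-- the coefficient `μ`. -/
def mu0 (J : CC → CC →L[ℝ] CC) (p : CC) : ℂ := lzb (cA J p) / (I - conj (lz (cA J p)))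

/-- the coefficient `β`. -/
def be0 (J : CC → CC →L[ℝ] CC) (p : CC) : ℂ := lzb (cB J p) / (I - conj (lz (cA J p)))

theorem J_apply {J : CC → CC →L[ℝ] CC} {p : CC} (h : ∀ v : ℂ, J p (0, v) = (0, I * v)) (v : CC) :
    J p v = (cA J p v.1, cB J p v.1 + I * v.2) := by
  have h1 : v = (v.1, (0 : ℂ)) + ((0 : ℂ), v.2) := by
    ext <;> simp
  conv_lhs => rw [h1, map_add, h]
  ext <;> simp [cA, cB]

theorem norm_lz_le {A : ℂ →L[ℝ] ℂ} {ε : ℝ} (h : ∀ u, ‖A u‖ ≤ ε * ‖u‖) : ‖lz A‖ ≤ ε ∧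
    ‖lzb A‖ ≤ ε := by
  have h1 := h 1
  have h2 := h I
  rw [norm_one, mul_one] at h1
  rw [norm_I, mul_one] at h2
  have h3 : ‖I * A I‖ ≤ ε := by rw [norm_mul, norm_I, one_mul]; exact h2
  constructor
  · rw [lz, norm_div, Complex.norm_two]
    have := norm_sub_le (A 1) (I * A I)
    linarith
  · rw [lzb, norm_div, Complex.norm_two]
    have := norm_add_le (A 1) (I * A I)
    linarith

theorem near {J : CC → CC →L[ℝ] CC} {p : CC} (h : ∀ v, ‖J p v - I • v‖ ≤ 1 / 4 * ‖v‖) :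
    ‖lz (cA J p) - I‖ ≤ 1 / 4 ∧ ‖lzb (cA J p)‖ ≤ 1 / 4 := by
  set D : ℂ →L[ℝ] ℂ := cA J p - (I • ContinuousLinearMap.id ℝ ℂ) with hD
  have hDu : ∀ u, D u = cA J p u - I * u := fun u => by simp [hD]
  have h1 : ∀ u, ‖D u‖ ≤ 1 / 4 * ‖u‖ := by
    intro u
    have h2 := h (u, 0)
    have h3 : ‖((u, 0) : CC)‖ = ‖u‖ := by simp [Prod.norm_def]
    rw [h3] at h2
    refine le_trans ?_ h2
    have h4 : D u = (J p (u, 0) - I • ((u, 0) : CC)).1 := by
      rw [hDu]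
      simp [cA]
    rw [h4]
    exact norm_fst_le _
  obtain ⟨h5, h6⟩ := norm_lz_le h1
  have h7 : lz D = lz (cA J p) - I := by
    simp only [lz, hDu]
    linear_combination (1 / 2 * I) * I_sq
  have h8 : lzb D = lzb (cA J p) := by
    simp only [lzb, hDu]
    linear_combination (-1 / 2 * I) * I_sq
  rw [h7] at h5
  rw [h8] at h6
  exact ⟨h5, h6⟩

theorem point {J : CC → CC →L[ℝ] CC} {p : CC} (hsq : ∀ v, J p (J p v) = -v)
    (hv : ∀ v : ℂ, J p (0, v) = (0, I * v)) (hn : ∀ v, ‖J p v - I • v‖ ≤ 1 / 4 * ‖v‖) :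
    I - conj (lz (cA J p)) ≠ 0 ∧ ‖mu0 J p‖ ≤ 1 / 7 ∧ ∀ v : CC,
      (J p v).1 + mu0 J p * conj (J p v).1 = I * (v.1 + mu0 J p * conj v.1) ∧
      (J p v).2 + be0 J p * conj (J p v).1 = I * (v.2 + be0 J p * conj v.1) := by
  obtain ⟨n1, n2⟩ := near hn
  have hA : ∀ u, cA J p u = lz (cA J p) * u + lzb (cA J p) * conj u := lz_lzb _
  have hB : ∀ u, cB J p u = lz (cB J p) * u + lzb (cB J p) * conj u := lz_lzb _
  have hJJ : ∀ u : ℂ, cA J p (cA J p u) = -u ∧ cB J p (cA J p u) + I * cB J p u = 0 := by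
    intro u
    have h1 := hsq (u, 0)
    rw [J_apply hv (u, 0), J_apply hv] at h1
    simp only [mul_zero, add_zero] at h1
    exact ⟨congrArg Prod.fst h1, by simpa using congrArg Prod.snd h1⟩
  obtain ⟨a1, a2, a3, a4⟩ := alg (al := lz (cA J p)) (ga := lzb (cA J p)) (b := lz (cB J p))
    (b' := lzb (cB J p)) n1
    (fun u => by rw [← hA u, ← hA]; exact (hJJ u).1)
    (fun u => by rw [← hA u, ← hB u, ← hB]; exact (hJJ u).2)
  refine ⟨a1, ?_, fun v => ?_⟩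
  · rw [mu0, norm_div, div_le_iff₀ (by linarith)]
    linarith
  · rw [J_apply hv v]
    simp only
    constructor
    · rw [hA v.1]
      exact a3 v.1
    · have := a4 v.1
      rw [hA v.1, hB v.1, be0]
      linear_combination this

/-! ### the cut-off -/

theorem lz_smooth {J : CC → CC →L[ℝ] CC} {O : Set CC} (h : ContDiffOn ℝ ∞ J O) :
    ContDiffOn ℝ ∞ (fun p => lz (cA J p)) O ∧ ContDiffOn ℝ ∞ (fun p => lzb (cA J p)) O ∧
      ContDiffOn ℝ ∞ (fun p => lzb (cB J p)) O := by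
  have h1 : ContDiffOn ℝ ∞ (fun p => J p (1, 0)) O := h.clm_apply contDiffOn_const
  have h2 : ContDiffOn ℝ ∞ (fun p => J p (I, 0)) O := h.clm_apply contDiffOn_const
  have f1 := h1.fst
  have f2 := h2.fst
  have s1 := h1.snd
  have s2 := h2.snd
  refine ⟨?_, ?_, ?_⟩
  · exact ((f1.sub (contDiffOn_const.mul f2)).div_const 2 :
      ContDiffOn ℝ ∞ (fun p => ((J p (1, 0)).1 - I * (J p (I, 0)).1) / 2) O)
  · exact ((f1.add (contDiffOn_const.mul f2)).div_const 2 :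
      ContDiffOn ℝ ∞ (fun p => ((J p (1, 0)).1 + I * (J p (I, 0)).1) / 2) O)
  · exact ((s1.add (contDiffOn_const.mul s2)).div_const 2 :
      ContDiffOn ℝ ∞ (fun p => ((J p (1, 0)).2 + I * (J p (I, 0)).2) / 2) O)

/-- a smooth function on an open set times a cut-off. -/
theorem smooth_cut {χ : CC → ℝ} {f : CC → ℂ} {O : Set CC} (hO : IsOpen O)
    (hχ : ContDiff ℝ ∞ χ) (hs : tsupport χ ⊆ O) (hf : ContDiffOn ℝ ∞ f O) :
    ContDiff ℝ ∞ (fun p => (χ p : ℂ) * f p) := by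
  rw [contDiff_iff_contDiffAt]
  intro p
  by_cases hp : p ∈ O
  · have h1 : ContDiffAt ℝ ∞ f p := hf.contDiffAt (hO.mem_nhds hp)
    have h2 : ContDiffAt ℝ ∞ (fun p => (χ p : ℂ)) p :=
      (ofRealCLM.contDiff.comp hχ).contDiffAt
    exact h2.mul h1
  · have h3 : (tsupport χ)ᶜ ∈ 𝓝 p :=
      (isClosed_tsupport χ).isOpen_compl.mem_nhds (fun h => hp (hs h))
    refine (contDiffAt_const (c := (0 : ℂ))).congr_of_eventuallyEq ?_
    filter_upwards [h3] with q hq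
    rw [image_eq_zero_of_notMem_tsupport hq]
    simp

theorem mubeta : MUBETA := by
  intro J O hO hJ hsq hv hn Q hQ hQO
  have hpt : ∀ p ∈ O, _ := fun p hp => point (hsq p hp) (hv p hp) (hn p hp)
  obtain ⟨Q', hQ', hQQ', hQ'O⟩ := exists_compact_between hQ hO hQO
  obtain ⟨χ, hχ1, hχ0, hχI⟩ := exists_contMDiffMap_one_nhds_of_subset_interior (n := (⊤ : ℕ∞))
    𝓘(ℝ, CC) hQ.isClosed hQQ'
  have hχs : ContDiff ℝ ∞ χ := χ.contMDiff.contDiff
  have hts : tsupport χ ⊆ Q' := by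
    refine closure_minimal (fun x hx => ?_) hQ'.isClosed
    by_contra hxQ
    exact hx (hχ0 x hxQ)
  obtain ⟨s1, s2, s3⟩ := lz_smooth hJ
  have hden : ContDiffOn ℝ ∞ (fun p => I - conj (lz (cA J p))) O :=
    contDiffOn_const.sub (conjCLE.contDiff.comp_contDiffOn s1)
  have hmu : ContDiffOn ℝ ∞ (mu0 J) O := by
    have hinv := hden.inv fun p hp => (hpt p hp).1
    exact (s2.mul hinv).congr fun p _ => div_eq_mul_inv _ _
  have hbe : ContDiffOn ℝ ∞ (be0 J) O := by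
    have hinv := hden.inv fun p hp => (hpt p hp).1
    exact (s3.mul hinv).congr fun p _ => div_eq_mul_inv _ _
  set μ : CC → ℂ := fun p => (χ p : ℂ) * mu0 J p with hμ
  set β : CC → ℂ := fun p => (χ p : ℂ) * be0 J p with hβ
  have hμs : ContDiff ℝ ∞ μ := smooth_cut hO hχs (hts.trans hQ'O) hmu
  have hβs : ContDiff ℝ ∞ β := smooth_cut hO hχs (hts.trans hQ'O) hbe
  have hμc : HasCompactSupport μ := by
    refine HasCompactSupport.intro hQ' fun p hp => ?_
    simp [hμ, hχ0 p hp]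
  have hβc : HasCompactSupport β := by
    refine HasCompactSupport.intro hQ' fun p hp => ?_
    simp [hβ, hχ0 p hp]
  obtain ⟨L₁, hL₁⟩ := ContDiff.lipschitzWith_of_hasCompactSupport hμc hμs (by simp)
  obtain ⟨L₂, hL₂⟩ := ContDiff.lipschitzWith_of_hasCompactSupport hβc hβs (by simp)
  obtain ⟨L₃, hL₃⟩ := hβs.continuous.bounded_above_of_compact_support hβc
  have hL₃0 : 0 ≤ L₃ := (norm_nonneg _).trans (hL₃ 0)
  refine ⟨μ, β, 1 / 7, L₁ + L₂ + L₃, ⟨⟨by norm_num, by norm_num, by positivity, ?_, ?_, ?_⟩, hμs,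
    hβs, ?_⟩, ?_⟩
  · intro p
    by_cases hp : p ∈ O
    · rw [hμ]
      simp only
      rw [norm_mul, Complex.norm_real, Real.norm_eq_abs, abs_of_nonneg (hχI p).1]
      calc χ p * ‖mu0 J p‖ ≤ 1 * (1 / 7) :=
            mul_le_mul (hχI p).2 (hpt p hp).2.1 (norm_nonneg _) zero_le_one
        _ = 1 / 7 := one_mul _
    · have h0 : χ p = 0 := hχ0 p fun h => hp (hQ'O h)
      simp [hμ, h0]
  · intro p q
    have h1 := hL₁.dist_le_mul p q
    rw [dist_eq_norm, dist_eq_norm] at h1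
    refine h1.trans (mul_le_mul_of_nonneg_right ?_ (norm_nonneg _))
    have := L₂.coe_nonneg
    linarith
  · intro p q
    have h1 := hL₂.dist_le_mul p q
    rw [dist_eq_norm, dist_eq_norm] at h1
    refine h1.trans (mul_le_mul_of_nonneg_right ?_ (norm_nonneg _))
    have := L₁.coe_nonneg
    linarith
  · intro p
    have h1 := L₁.coe_nonneg
    have h2 := L₂.coe_nonneg
    exact (hL₃ p).trans (by linarith)
  · intro p hp v
    have h1 : χ p = 1 := by
      have := hχ1.self_of_nhdsSet p hp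
      exact this
    have h2 : μ p = mu0 J p := by simp [hμ, h1]
    have h3 : β p = be0 J p := by simp [hβ, h1]
    have h4 := (hpt p (hQO hp)).2.2 v
    simp only [thz, thw, h2, h3]
    exact h4

end

end Crest.Agent.R235.Reg_MUBETA_369
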