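import Crest.Agent.R235.CylF_437_Mg
import Crest.Agent.R235.LocFin_607
import Crest.Agent.R235.LocNonz_774
import Crest.Agent.R235.NWReg1F_847
import Crest.Agent.R235.NWBel_601_Mg
import Crest.Agent.R235.CylDef2_522
import Mathlib
import Crest.Agent.R235.NWJ2_130
import Crest.Agent.R240.DensM
import Crest.Agent.R235.Pull_129
import Crest.Agent.R235.Reg_MUBETA_369_Mg
import Crest.Agent.R235.NWFin_334_Mg
import Crest.Agent.R235.CurGeo1_679_Mg
import Crest.Agent.R235.CurMon0_311
import Crest.Agent.R235.CurGeo3_52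

-- ▼ part R235/CylFin_460
section

/-! # REG-CYL, assembly: `CYL` and `CYLF` from the planar regularity leaves and `NONZ`. -/

set_option autoImplicit false

namespace Crest.Agent.R235.CylFin_460

open Crest.Agent.R235.Loc Crest.Agent.R235.Cyl Crest.Agent.R235.WKFin_460
open Crest.Agent.R235.NWIface_334 (Reg1Stmt Reg2Stmt)

theorem sheets (hR1 : Reg1Stmt) (hR2 : Reg2Stmt) : SHEETS :=
  CylSheets_848.sheets alg0 goodz weak hR1 hR2

theorem cyl (hR1 : Reg1Stmt) (hR2 : Reg2Stmt) : CYL :=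
  CylAsm_437.cyl_of weak decay repr supps (sheets hR1 hR2)

theorem cylf (hR1 : Reg1Stmt) (hR2 : Reg2Stmt) (hN : NONZ) : CYLF :=
  CylF_437.cylf_of (cyl hR1 hR2) (LocFin_607.loc_of_nonz hN) alg0 cone decay disi
    (sheets hR1 hR2)

end Crest.Agent.R235.CylFin_460
end

-- ▼ part R235/LocMain_774
section

/-!
Row 235, package REG, REG-LOC: THEOREM LOC (the non-simple points of a `k`-valued graph are
isolated).
-/

set_option autoImplicit false

namespace Crest.Agent.R235.LocMain_774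

open Crest.Agent.R235.Loc

theorem nonz : NONZ := LocNonz_774.nonz_of LocFin_607.star LocFin_607.stokes LocFin_607.flux
  LocFin_607.sel LocFin_607.jalg LocFin_607.psc


end Crest.Agent.R235.LocMain_774
end

-- ▼ part R235/CylFin2_460
section

/-! # REG-CYL, assembly: `CYL` and `CYLF` from `Reg2Stmt` only. -/

set_option autoImplicit false

namespace Crest.Agent.R235.CylFin_460

open Crest.Agent.R235.Loc Crest.Agent.R235.Cyl
open Crest.Agent.R235.NWIface_334 (Reg1Stmt Reg2Stmt)


theorem cylf2 (hR2 : Reg2Stmt) : CYLF := cylf NWReg1F_847.reg1 hR2 LocMain_774.nonz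

end Crest.Agent.R235.CylFin_460
end

-- ▼ part R235/End_745
section

/-!
Row 235, package REG, leaf REG-END (helper745): `END` from the regularity of `C¹` discs.
-/

set_option autoImplicit false

namespace Crest.Agent.R235.End_745

open Crest.Agent.R235.NWDefs_334 Crest.Agent.R235.End

theorem chv_stmt : EndI_745.CHVStmt := fun _ _ hO hφ hdet hfin F hF =>
  EndChv_745.chv hO hφ hdet hfin F hF

/-- **END** -/
theorem end_of_reg (hReg : RegStmt) : END :=
  EndJ_745.end_of NWBel_601.bel hReg chv_stmt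

end Crest.Agent.R235.End_745
end

-- ▼ part R235/Reg_GOODDIR_936
section

/-!
Row 235 (S0364), package REG, part A1.2b (task 405), helper936: a good direction and a good radius
(pure counting argument).
-/

set_option autoImplicit false

open MeasureTheory Metric Set Filter
open scoped Topology

namespace Crest.Agent.R235.Reg_GOODDIR_936

open Crest.Agent.R235.Loc Crest.Agent.R235.Cyl Crest.Agent.R235.Reg_522

noncomputable section

/-- the grid of directions. -/
def th (η : ℝ) (n : ℕ) (j k : Fin n) : ℂ :=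
  ((η / 2 * ((j : ℕ) / (n : ℝ)) : ℝ) : ℂ) + ((η / 2 * ((k : ℕ) / (n : ℝ)) : ℝ) : ℂ) * Complex.I

theorem th_re (η : ℝ) (n : ℕ) (j k : Fin n) : (th η n j k).re = η / 2 * ((j : ℕ) / (n : ℝ)) := by
  simp [th]

theorem th_im (η : ℝ) (n : ℕ) (j k : Fin n) : (th η n j k).im = η / 2 * ((k : ℕ) / (n : ℝ)) := by
  simp [th]

/-- the grid of radii. -/
def rh (a b : ℝ) (n : ℕ) (l : Fin n) : ℝ := a + (b - a) * (((l : ℕ) + 1) / ((n : ℝ) + 1))

theorem frac_lt {n : ℕ} (j : Fin n) : ((j : ℕ) : ℝ) / (n : ℝ) < 1 := by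
  have h1 : ((j : ℕ) : ℝ) < (n : ℝ) := by exact_mod_cast j.2
  have h0 : (0 : ℝ) ≤ ((j : ℕ) : ℝ) := Nat.cast_nonneg _
  rw [div_lt_one (by linarith)]
  exact h1

theorem frac_nonneg {n : ℕ} (j : Fin n) : 0 ≤ ((j : ℕ) : ℝ) / (n : ℝ) := by positivity

theorem th_mem {η : ℝ} (hη : 0 < η) {n : ℕ} (j k : Fin n) : th η n j k ∈ ball (0 : ℂ) η := by
  rw [mem_ball_zero_iff]
  have h1 := Complex.norm_le_abs_re_add_abs_im (th η n j k)
  rw [th_re, th_im, abs_of_nonneg (mul_nonneg (by linarith) (frac_nonneg j)),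
    abs_of_nonneg (mul_nonneg (by linarith) (frac_nonneg k))] at h1
  have h2 := mul_lt_mul_of_pos_left (frac_lt j) (half_pos hη)
  have h3 := mul_lt_mul_of_pos_left (frac_lt k) (half_pos hη)
  linarith

theorem rh_mem {a b : ℝ} (hab : a < b) {n : ℕ} (l : Fin n) : rh a b n l ∈ Ioo a b := by
  have h1 : ((l : ℕ) : ℝ) < (n : ℝ) := by exact_mod_cast l.2
  have h0 : (0 : ℝ) ≤ ((l : ℕ) : ℝ) := Nat.cast_nonneg _
  have h2 : 0 < (((l : ℕ) : ℝ) + 1) / ((n : ℝ) + 1) := by positivity
  have h3 : (((l : ℕ) : ℝ) + 1) / ((n : ℝ) + 1) < 1 := by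
    rw [div_lt_one (by linarith)]
    linarith
  have hb : 0 < b - a := by linarith
  constructor
  · have := mul_pos hb h2
    unfold rh
    linarith
  · have := mul_lt_mul_of_pos_left h3 hb
    unfold rh
    linarith

/-- different integers differ by at least one. -/
theorem one_le_abs {i j : ℕ} (h : i ≠ j) : (1 : ℝ) ≤ |(i : ℝ) - j| := by
  have h1 : (1 : ℤ) ≤ |(i : ℤ) - j| := Int.one_le_abs (sub_ne_zero.2 (by exact_mod_cast h))
  exact_mod_cast h1

theorem sep {η a b : ℝ} (hη : 0 < η) (hab : a < b) {n : ℕ} (hn : 0 < n)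
    {p p' : Fin n × Fin n × Fin n} (hp : p ≠ p') {z z' : ℂ} (hz : ‖z‖ = rh a b n p.2.2)
    (hz' : ‖z'‖ = rh a b n p'.2.2) :
    min (η / 2) ((b - a) / 2) / n ≤ dist (th η n p.1 p.2.1, z) (th η n p'.1 p'.2.1, z') := by
  have hn' : (0 : ℝ) < n := by exact_mod_cast hn
  have hn1 : (1 : ℝ) ≤ n := by exact_mod_cast hn
  rw [Prod.dist_eq]
  have hcase : p.1 ≠ p'.1 ∨ p.2.1 ≠ p'.2.1 ∨ p.2.2 ≠ p'.2.2 := by
    by_contra hcon
    push Not at hcon
    exact hp (Prod.ext hcon.1 (Prod.ext hcon.2.1 hcon.2.2))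
  have key : ∀ i j : Fin n, i ≠ j → η / 2 / n ≤ |η / 2 * ((i : ℕ) / (n : ℝ)) - η / 2 * ((j : ℕ) / (n : ℝ))| := by
    intro i j hij
    have h1 : (1 : ℝ) ≤ |((i : ℕ) : ℝ) - (j : ℕ)| := one_le_abs fun h => hij (Fin.ext h)
    have e : η / 2 * ((i : ℕ) / (n : ℝ)) - η / 2 * ((j : ℕ) / (n : ℝ)) =
        η / 2 / n * (((i : ℕ) : ℝ) - (j : ℕ)) := by
      field_simp
    rw [e, abs_mul, abs_of_pos (by positivity)]
    exact le_mul_of_one_le_right (by positivity) h1
  rcases hcase with h | h | h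
  · refine le_trans (div_le_div_of_nonneg_right (min_le_left _ _) hn'.le) (le_trans (key _ _ h) ?_)
    refine le_max_of_le_left ?_
    rw [dist_eq_norm]
    have h2 := Complex.abs_re_le_norm (th η n p.1 p.2.1 - th η n p'.1 p'.2.1)
    rwa [Complex.sub_re, th_re, th_re] at h2
  · refine le_trans (div_le_div_of_nonneg_right (min_le_left _ _) hn'.le) (le_trans (key _ _ h) ?_)
    refine le_max_of_le_left ?_
    rw [dist_eq_norm]
    have h2 := Complex.abs_im_le_norm (th η n p.1 p.2.1 - th η n p'.1 p'.2.1)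
    rwa [Complex.sub_im, th_im, th_im] at h2
  · refine le_max_of_le_right ?_
    rw [dist_eq_norm]
    have h2 := abs_norm_sub_norm_le z z'
    rw [hz, hz'] at h2
    refine le_trans ?_ h2
    have h1 : (1 : ℝ) ≤ |((p.2.2 : ℕ) : ℝ) - (p'.2.2 : ℕ)| := one_le_abs fun h' => h (Fin.ext h')
    have e : rh a b n p.2.2 - rh a b n p'.2.2 =
        (b - a) / (n + 1) * (((p.2.2 : ℕ) : ℝ) - (p'.2.2 : ℕ)) := by
      unfold rh
      field_simp
      ring
    have hba : 0 < b - a := by linarith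
    rw [e, abs_mul, abs_of_pos (by positivity)]
    have h3 : (b - a) / 2 / n ≤ (b - a) / (n + 1) := by
      rw [div_div]
      exact div_le_div_of_nonneg_left hba.le (by positivity) (by linarith)
    calc min (η / 2) ((b - a) / 2) / n ≤ (b - a) / 2 / n :=
          div_le_div_of_nonneg_right (min_le_right _ _) hn'.le
      _ ≤ (b - a) / (n + 1) := h3
      _ ≤ _ := le_mul_of_one_le_right (by positivity) h1

/-- **GOODDIR**. -/
theorem gooddir : GOODDIR := by
  intro m c₀ r₀ T hm hc₀ hr₀ hlow G η a b c hη ha hab hc hG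
  by_contra hcon
  push Not at hcon
  have hba : 0 < b - a := by linarith
  set σ : ℝ := min (η / 2) ((b - a) / 2) with hσ
  have hσ0 : 0 < σ := lt_min (by linarith) (by linarith)
  -- the scale
  let C : ℝ := c * σ / 2
  have hC : 0 < C := by positivity
  obtain ⟨n, hn⟩ := exists_nat_gt (max (C / r₀) (m.real univ / (c₀ * C ^ 2)))
  have hn1 : C / r₀ < n := lt_of_le_of_lt (le_max_left _ _) hn
  have hn2 : m.real univ / (c₀ * C ^ 2) < n := lt_of_le_of_lt (le_max_right _ _) hn
  have hn0 : (0 : ℝ) < n := lt_trans (by positivity) hn1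
  have hnN : 0 < n := by exact_mod_cast hn0
  have hr : C / n ≤ r₀ := by
    rw [div_le_iff₀ hn0]
    rw [div_lt_iff₀ hr₀] at hn1
    linarith
  -- the points
  have hz : ∀ p : Fin n × Fin n × Fin n, ∃ z : ℂ, ‖z‖ = rh a b n p.2.2 ∧
      G (th η n p.1 p.2.1, z) ∈ T := fun p =>
    hcon _ (th_mem hη p.1 p.2.1) _ (rh_mem hab p.2.2)
  choose z hz hzT using hz
  let P : Fin n × Fin n × Fin n → CC := fun p => G (th η n p.1 p.2.1, z p)
  have hmem : ∀ p, (th η n p.1 p.2.1, z p) ∈ ball (0 : ℂ) η ×ˢ {z : ℂ | a < ‖z‖ ∧ ‖z‖ < b} := by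
    intro p
    refine ⟨th_mem hη _ _, ?_⟩
    show a < ‖z p‖ ∧ ‖z p‖ < b
    rw [hz]
    exact rh_mem hab _
  have hdisj : Pairwise (Function.onFun Disjoint fun p => ball (P p) (C / n)) := by
    intro p p' hpp
    refine ball_disjoint_ball ?_
    have h1 := sep hη hab hnN hpp (hz p) (hz p')
    have h2 := hG _ (hmem p) _ (hmem p')
    have h3 := mul_le_mul_of_nonneg_left h1 hc.le
    have e : C / n + C / n = c * (σ / n) := by
      show c * σ / 2 / n + c * σ / 2 / n = c * (σ / n)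
      ring
    rw [e]
    exact h3.trans h2
  have hsum : ∑ p : Fin n × Fin n × Fin n, m.real (ball (P p) (C / n)) ≤ m.real univ := by
    rw [← measureReal_biUnion_finset (fun p _ p' _ h => hdisj h) (fun p _ => measurableSet_ball)]
    exact measureReal_mono (subset_univ _)
  have hle : (n : ℝ) ^ 3 * (c₀ * (C / n) ^ 2) ≤
      ∑ p : Fin n × Fin n × Fin n, m.real (ball (P p) (C / n)) := by
    have h1 : ∑ p : Fin n × Fin n × Fin n, c₀ * (C / n) ^ 2 = (n : ℝ) ^ 3 * (c₀ * (C / n) ^ 2) := by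
      rw [Finset.sum_const, Finset.card_univ, Fintype.card_prod, Fintype.card_prod,
        Fintype.card_fin, nsmul_eq_mul]
      push_cast
      ring
    rw [← h1]
    exact Finset.sum_le_sum fun p _ => hlow _ (hzT p) _ (by positivity) hr
  have e : (n : ℝ) ^ 3 * (c₀ * (C / n) ^ 2) = n * (c₀ * C ^ 2) := by
    field_simp
  rw [e] at hle
  rw [div_lt_iff₀ (by positivity)] at hn2
  linarith

end

end Crest.Agent.R235.Reg_GOODDIR_936
end

-- ▼ part R235/RegPushA_952
section

/-!
# Row 235, REG A1.1 (helper952), part A: push-forward of a measure by a partial homeomorphism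
-/

set_option autoImplicit false
set_option linter.unusedSectionVars false

open MeasureTheory Metric Set Filter Topology
open scoped ContDiff ENNReal NNReal

namespace Crest.Agent.R235.RegPush_952

noncomputable section

section meas

variable {E E' : Type*} [TopologicalSpace E] [MeasurableSpace E] [BorelSpace E]
  [TopologicalSpace E'] [MeasurableSpace E'] [BorelSpace E']

theorem isOpenEmbedding_on (e : OpenPartialHomeomorph E E') {O : Set E} (hO : IsOpen O)
    (hs : O ⊆ e.source) : IsOpenEmbedding (fun x : O => e x) := by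
  refine IsOpenEmbedding.of_continuous_injective_isOpenMap ?_ ?_ ?_
  · exact continuousOn_iff_continuous_domRestrict.1 (e.continuousOn.mono hs)
  · intro x y h
    exact Subtype.ext (e.injOn (hs x.2) (hs y.2) h)
  · intro W hW
    have h1 : (fun x : O => e x) '' W = e '' (Subtype.val '' W) := by
      rw [image_image]
    rw [h1]
    refine e.isOpen_image_of_subset_source (hO.isOpenMap_subtype_val W hW) ?_
    rintro _ ⟨x, _, rfl⟩
    exact hs x.2

theorem me_on (e : OpenPartialHomeomorph E E') {O : Set E} (hO : IsOpen O)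
    (hs : O ⊆ e.source) : MeasurableEmbedding (fun x : O => e x) :=
  (isOpenEmbedding_on e hO hs).measurableEmbedding

/-- `e_* (N · m|_O)` -/
def pm (e : OpenPartialHomeomorph E E') (O : Set E) (N : E → ℝ≥0) (m : Measure E) : Measure E' :=
  ((Measure.comap (Subtype.val : O → E) m).withDensity fun x : O => (N x : ℝ≥0∞)).map
    (fun x : O => e x)

variable {e : OpenPartialHomeomorph E E'} {O : Set E} {N : E → ℝ≥0} {m : Measure E}

theorem integral_pm (hO : IsOpen O) (hs : O ⊆ e.source) (hN : Measurable N) (f : E' → ℝ) :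
    ∫ y, f y ∂(pm e O N m) = ∫ x in O, (N x : ℝ) * f (e x) ∂m := by
  have h1 : Measurable (fun x : O => N x) := hN.comp measurable_subtype_coe
  rw [pm, (me_on e hO hs).integral_map, integral_withDensity_eq_integral_smul h1,
    ← integral_subtype_comap hO.measurableSet]
  rfl

theorem ae_pm (hO : IsOpen O) (hs : O ⊆ e.source) {p : E' → Prop}
    (h : ∀ᵐ x ∂m, x ∈ O → p (e x)) : ∀ᵐ y ∂(pm e O N m), p y := by
  rw [pm, (me_on e hO hs).ae_map_iff]
  refine (withDensity_absolutelyContinuous _ _).ae_le ?_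
  have h1 : ∀ᵐ x ∂(m.restrict O), p (e x) := (ae_restrict_iff' hO.measurableSet).2 h
  rw [← map_comap_subtype_coe hO.measurableSet,
    (MeasurableEmbedding.subtype_coe hO.measurableSet).ae_map_iff] at h1
  exact h1

theorem pm_apply (hO : IsOpen O) (hs : O ⊆ e.source) {B : Set E'} (hB : MeasurableSet B) :
    pm e O N m B = ∫⁻ x in (fun x : O => e x) ⁻¹' B, N x
      ∂(Measure.comap (Subtype.val : O → E) m) := by
  rw [pm, (me_on e hO hs).map_apply, withDensity_apply _ ((me_on e hO hs).measurable hB)]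

theorem comap_preimage (hO : IsOpen O) (B : Set E') :
    Measure.comap (Subtype.val : O → E) m ((fun x : O => e x) ⁻¹' B) = m (O ∩ e ⁻¹' B) := by
  rw [(MeasurableEmbedding.subtype_coe hO.measurableSet).comap_apply]
  congr 1
  ext x
  simp only [mem_image, mem_preimage, Subtype.exists, exists_and_left, exists_prop,
    exists_eq_right_right, mem_inter_iff]
  tauto

theorem pm_apply_le (hO : IsOpen O) (hs : O ⊆ e.source) {C : ℝ≥0} (hN : ∀ x ∈ O, N x ≤ C)
    {B : Set E'} (hB : MeasurableSet B) : pm e O N m B ≤ C * m (O ∩ e ⁻¹' B) := by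
  rw [pm_apply hO hs hB, ← comap_preimage hO, ← setLIntegral_const]
  exact lintegral_mono fun x => ENNReal.coe_le_coe.2 (hN x x.2)

theorem le_pm_apply (hO : IsOpen O) (hs : O ⊆ e.source) {c : ℝ≥0} (hN : ∀ x ∈ O, c ≤ N x)
    {B : Set E'} (hB : MeasurableSet B) : c * m (O ∩ e ⁻¹' B) ≤ pm e O N m B := by
  rw [pm_apply hO hs hB, ← comap_preimage hO, ← setLIntegral_const]
  exact lintegral_mono fun x => ENNReal.coe_le_coe.2 (hN x x.2)

end meas

end

end Crest.Agent.R235.RegPush_952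
end

-- ▼ part R235/RegPushB_952
section

/-!
# Row 235, REG A1.1 (helper952), part B: constants of the change of coordinates
-/

set_option autoImplicit false
set_option linter.unusedSectionVars false
set_option maxSynthPendingDepth 3

open MeasureTheory Metric Set Filter Topology
open scoped ContDiff ENNReal NNReal
open Crest.Agent.R235.Reg_522

namespace Crest.Agent.R235.RegPush_952

noncomputable section

variable {E E' : Type} [NormedAddCommGroup E] [NormedSpace ℝ E]
  [FiniteDimensional ℝ E] [MeasurableSpace E] [BorelSpace E]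
  [NormedAddCommGroup E'] [NormedSpace ℝ E'] [FiniteDimensional ℝ E'] [MeasurableSpace E']
  [BorelSpace E']

/-- the data of `PUSH` -/
structure PD (J : E → E →L[ℝ] E) (U : Set E) (m : Measure E) (X : E → E) (K : ℝ)
    (e : OpenPartialHomeomorph E E') (J' : E' → E' →L[ℝ] E') (V : Set E') : Prop where
  fc : FCur J U m X K
  src : e.source ⊆ U
  sm : ContDiffOn ℝ ∞ e e.source
  sms : ContDiffOn ℝ ∞ e.symm e.target
  cj : ∀ x ∈ e.source, ∀ v, J' (e x) (fderiv ℝ e x v) = fderiv ℝ e x (J x v)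
  opV : IsOpen V
  cpV : IsCompact (closure V)
  subV : closure V ⊆ e.target

/-- the open set corresponding to `V` -/
def OO (e : OpenPartialHomeomorph E E') (V : Set E') : Set E := e.source ∩ e ⁻¹' V

/-- the length of the transported vector -/
def NN (e : OpenPartialHomeomorph E E') (X : E → E) (x : E) : ℝ := ‖fderiv ℝ e x (X x)‖

variable {J : E → E →L[ℝ] E} {U : Set E} {m : Measure E} {X : E → E} {K : ℝ}
  {e : OpenPartialHomeomorph E E'} {J' : E' → E' →L[ℝ] E'} {V : Set E'}

/-- a `C¹` map is Lipschitz on compact subsets of its domain -/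
theorem exists_lip {F F' : Type*} [NormedAddCommGroup F] [NormedSpace ℝ F]
    [NormedAddCommGroup F'] [NormedSpace ℝ F'] {f : F → F'} {Ω Q : Set F} (hΩ : IsOpen Ω)
    (hf : ContDiffOn ℝ 1 f Ω) (hQ : IsCompact Q) (hQΩ : Q ⊆ Ω) :
    ∃ L : ℝ, 0 ≤ L ∧ ∀ x ∈ Q, ∀ y ∈ Q, ‖f x - f y‖ ≤ L * ‖x - y‖ := by
  have h1 : LocallyLipschitzOn Q f := by
    intro x hx
    obtain ⟨C, t, ht, h⟩ := (hf.contDiffAt (hΩ.mem_nhds (hQΩ hx))).exists_lipschitzOnWith
    exact ⟨C, t, mem_nhdsWithin_of_mem_nhds ht, h⟩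
  obtain ⟨C, hC⟩ := h1.exists_lipschitzOnWith_of_compact hQ
  refine ⟨C, C.2, fun x hx y hy => ?_⟩
  have := hC.dist_le_mul x hx y hy
  rwa [dist_eq_norm, dist_eq_norm] at this

namespace PD

variable (H : PD J U m X K e J' V)
include H

theorem open_O : IsOpen (OO e V) := e.isOpen_inter_preimage H.opV

theorem sub_src : OO e V ⊆ e.source := inter_subset_left

theorem V_tgt : V ⊆ e.target := subset_closure.trans H.subV

theorem hasD {x : E} (hx : x ∈ e.source) : HasFDerivAt e (fderiv ℝ e x) x :=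
  ((H.sm.contDiffAt (e.open_source.mem_nhds hx)).differentiableAt (by simp)).hasFDerivAt

theorem hasDs {y : E'} (hy : y ∈ e.target) : HasFDerivAt e.symm (fderiv ℝ e.symm y) y :=
  ((H.sms.contDiffAt (e.open_target.mem_nhds hy)).differentiableAt (by simp)).hasFDerivAt

theorem inv1 {x : E} (hx : x ∈ e.source) (v : E) :
    fderiv ℝ e.symm (e x) (fderiv ℝ e x v) = v := by
  have h1 := (H.hasDs (e.map_source hx)).comp x (H.hasD hx)
  have h2 : HasFDerivAt (e.symm ∘ e) (ContinuousLinearMap.id ℝ E) x := by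
    refine (hasFDerivAt_id x).congr_of_eventuallyEq ?_
    filter_upwards [e.open_source.mem_nhds hx] with z hz
    exact e.left_inv hz
  exact DFunLike.congr_fun (h1.unique h2) v

theorem inv2 {y : E'} (hy : y ∈ e.target) (v : E') :
    fderiv ℝ e (e.symm y) (fderiv ℝ e.symm y v) = v := by
  have h1 := (H.hasD (e.map_target hy)).comp y (H.hasDs hy)
  have h2 : HasFDerivAt (e ∘ e.symm) (ContinuousLinearMap.id ℝ E') y := by
    refine (hasFDerivAt_id y).congr_of_eventuallyEq ?_
    filter_upwards [e.open_target.mem_nhds hy] with z hz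
    exact e.right_inv hz
  exact DFunLike.congr_fun (h1.unique h2) v

theorem cont_fderiv : ContinuousOn (fderiv ℝ e) e.source :=
  H.sm.continuousOn_fderiv_of_isOpen e.open_source (by simp)

theorem cont_fderivs : ContinuousOn (fderiv ℝ e.symm) e.target :=
  H.sms.continuousOn_fderiv_of_isOpen e.open_target (by simp)

theorem compact_K : IsCompact (e.symm '' closure V) :=
  H.cpV.image_of_continuousOn (e.continuousOn_symm.mono H.subV)

theorem K_src : e.symm '' closure V ⊆ e.source := by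
  rintro _ ⟨y, hy, rfl⟩
  exact e.map_target (H.subV hy)

theorem O_K : OO e V ⊆ e.symm '' closure V := fun x hx =>
  ⟨e x, subset_closure hx.2, e.left_inv hx.1⟩

theorem exists_const : ∃ A : ℝ, 1 ≤ A ∧ (∀ x ∈ e.symm '' closure V, ‖fderiv ℝ e x‖ ≤ A) ∧
    (∀ y ∈ closure V, ‖fderiv ℝ e.symm y‖ ≤ A) ∧
    (∀ x ∈ e.symm '' closure V, ‖J x‖ ≤ A) ∧
    (∀ x ∈ e.symm '' closure V, ∀ x' ∈ e.symm '' closure V, ‖e x - e x'‖ ≤ A * ‖x - x'‖) ∧
    ∀ y ∈ closure V, ∀ y' ∈ closure V, ‖e.symm y - e.symm y'‖ ≤ A * ‖y - y'‖ := by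
  obtain ⟨A1, h1⟩ := H.compact_K.exists_bound_of_continuousOn (H.cont_fderiv.mono H.K_src)
  obtain ⟨A2, h2⟩ := H.cpV.exists_bound_of_continuousOn (H.cont_fderivs.mono H.subV)
  obtain ⟨A3, h3⟩ := H.compact_K.exists_bound_of_continuousOn
    (H.fc.smJ.continuousOn.mono (H.K_src.trans H.src))
  obtain ⟨A4, _, h4⟩ := exists_lip e.open_source (H.sm.of_le (by simp)) H.compact_K H.K_src
  obtain ⟨A5, _, h5⟩ := exists_lip e.open_target (H.sms.of_le (by simp)) H.cpV H.subV
  refine ⟨max 1 (max A1 (max A2 (max A3 (max A4 A5)))), le_max_left _ _, ?_, ?_, ?_, ?_, ?_⟩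
  · intro x hx
    exact (h1 x hx).trans ((le_max_left _ _).trans (le_max_right _ _))
  · intro y hy
    exact (h2 y hy).trans ((le_max_left _ _).trans ((le_max_right _ _).trans (le_max_right _ _)))
  · intro x hx
    exact (h3 x hx).trans ((le_max_left _ _).trans ((le_max_right _ _).trans
      ((le_max_right _ _).trans (le_max_right _ _))))
  · intro x hx x' hx'
    refine (h4 x hx x' hx').trans (mul_le_mul_of_nonneg_right ?_ (norm_nonneg _))
    exact (le_max_left _ _).trans ((le_max_right _ _).trans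
      ((le_max_right _ _).trans ((le_max_right _ _).trans (le_max_right _ _))))
  · intro y hy y' hy'
    refine (h5 y hy y' hy').trans (mul_le_mul_of_nonneg_right ?_ (norm_nonneg _))
    exact (le_max_right _ _).trans ((le_max_right _ _).trans
      ((le_max_right _ _).trans ((le_max_right _ _).trans (le_max_right _ _))))

theorem NN_pos {x : E} (hx : x ∈ e.source) : 0 < NN e X x := by
  rw [NN, norm_pos_iff]
  intro h
  have h1 := H.inv1 hx (X x)
  rw [h, map_zero] at h1
  have h2 := H.fc.nX x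
  rw [← h1, norm_zero] at h2
  exact zero_ne_one h2

theorem K_nonneg : 0 ≤ K := by
  have h1 := H.fc.up 0 1 one_pos
  have h2 : 0 ≤ m.real (closedBall (0 : E) 1) := measureReal_nonneg
  have h3 := h2.trans h1
  simpa using h3

end PD

omit [FiniteDimensional ℝ E] [FiniteDimensional ℝ E'] in
theorem measurable_clm_app {F G : Type*} [NormedAddCommGroup F] [NormedSpace ℝ F]
    [FiniteDimensional ℝ F] [MeasurableSpace F] [BorelSpace F] [NormedAddCommGroup G]
    [NormedSpace ℝ G] [FiniteDimensional ℝ G] [MeasurableSpace G] [BorelSpace G]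
    {A : E → F →L[ℝ] G} {v : E → F} (hA : Measurable A) (hv : Measurable v) :
    Measurable (fun x => A x (v x)) := by
  have h1 : Continuous fun p : (F →L[ℝ] G) × F => p.1 p.2 := isBoundedBilinearMap_apply.continuous
  exact h1.measurable.comp (hA.prodMk hv)

theorem measurable_NN (hX : Measurable X) : Measurable (NN e X) :=
  (measurable_clm_app (measurable_fderiv ℝ e) hX).norm

end

end Crest.Agent.R235.RegPush_952
end

-- ▼ part R235/RegPushC_952
section

/-!
# Row 235, REG A1.1 (helper952), part C: the pushed measure and vector field, easy fields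
-/

set_option autoImplicit false
set_option linter.unusedSectionVars false
set_option maxSynthPendingDepth 3

open MeasureTheory Metric Set Filter Topology
open scoped ContDiff ENNReal NNReal
open Crest.Agent.R235.Reg_522

namespace Crest.Agent.R235.RegPush_952

noncomputable section

variable {E E' : Type} [NormedAddCommGroup E] [NormedSpace ℝ E]
  [FiniteDimensional ℝ E] [MeasurableSpace E] [BorelSpace E]
  [NormedAddCommGroup E'] [NormedSpace ℝ E'] [FiniteDimensional ℝ E'] [MeasurableSpace E']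
  [BorelSpace E']

/-- the density -/
def dn (e : OpenPartialHomeomorph E E') (X : E → E) (x : E) : ℝ≥0 := Real.toNNReal (NN e X x ^ 2)

theorem coe_dn (e : OpenPartialHomeomorph E E') (X : E → E) (x : E) :
    (dn e X x : ℝ) = NN e X x ^ 2 := Real.coe_toNNReal _ (sq_nonneg _)

theorem measurable_dn {e : OpenPartialHomeomorph E E'} {X : E → E} (hX : Measurable X) :
    Measurable (dn e X) := ((measurable_NN hX).pow_const 2).real_toNNReal

/-- the pushed measure -/
def pmm (e : OpenPartialHomeomorph E E') (V : Set E') (X : E → E) (m : Measure E) : Measure E' :=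
  pm e (OO e V) (dn e X) m

open Classical in
/-- the pushed vector field -/
def pX (e : OpenPartialHomeomorph E E') (V : Set E') (X : E → E) (v0 : E') (y : E') : E' :=
  if y ∈ V then (NN e X (e.symm y))⁻¹ • fderiv ℝ e (e.symm y) (X (e.symm y)) else v0

variable {J : E → E →L[ℝ] E} {U : Set E} {m : Measure E} {X : E → E} {K : ℝ}
  {e : OpenPartialHomeomorph E E'} {J' : E' → E' →L[ℝ] E'} {V : Set E'} {v0 : E'}

theorem pX_of_mem {y : E'} (hy : y ∈ V) : pX e V X v0 y =
    (NN e X (e.symm y))⁻¹ • fderiv ℝ e (e.symm y) (X (e.symm y)) := if_pos hy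

theorem pX_of_notMem {y : E'} (hy : y ∉ V) : pX e V X v0 y = v0 := if_neg hy

theorem pX_e {x : E} (hx : x ∈ OO e V) :
    pX e V X v0 (e x) = (NN e X x)⁻¹ • fderiv ℝ e x (X x) := by
  rw [pX_of_mem (show e x ∈ V from hx.2), e.left_inv hx.1]

namespace PD

variable (H : PD J U m X K e J' V)
include H

theorem mem_O {y : E'} (hy : y ∈ V) : e.symm y ∈ OO e V :=
  ⟨e.map_target (H.V_tgt hy), by
    show e (e.symm y) ∈ V
    rwa [e.right_inv (H.V_tgt hy)]⟩

theorem measurable_pX : Measurable (pX e V X v0) := by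
  classical
  have h1 : Measurable (V.piecewise e.symm (fun _ => (0 : E))) :=
    ContinuousOn.measurable_piecewise (e.continuousOn_symm.mono H.V_tgt) continuousOn_const
      H.opV.measurableSet
  have h2 : Measurable fun x => (NN e X x)⁻¹ • fderiv ℝ e x (X x) :=
    (measurable_NN H.fc.mX).inv.smul (measurable_clm_app (measurable_fderiv ℝ e) H.fc.mX)
  have h3 : pX e V X v0 = V.piecewise
      ((fun x => (NN e X x)⁻¹ • fderiv ℝ e x (X x)) ∘ (V.piecewise e.symm (fun _ => (0 : E))))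
      (fun _ => v0) := by
    funext y
    by_cases hy : y ∈ V
    · rw [pX_of_mem hy, piecewise_eq_of_mem _ _ _ hy, Function.comp_apply,
        piecewise_eq_of_mem _ _ _ hy]
    · rw [pX_of_notMem hy, piecewise_eq_of_notMem _ _ _ hy]
  rw [h3]
  exact (h2.comp h1).piecewise H.opV.measurableSet measurable_const

theorem norm_pX (hv : ‖v0‖ = 1) (y : E') : ‖pX e V X v0 y‖ = 1 := by
  by_cases hy : y ∈ V
  · have h1 := H.NN_pos (H.mem_O hy).1
    rw [pX_of_mem hy, norm_smul, norm_inv, Real.norm_of_nonneg h1.le]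
    exact inv_mul_cancel₀ h1.ne'
  · rw [pX_of_notMem hy, hv]

theorem J_pX {x : E} (hx : x ∈ OO e V) :
    J' (e x) (pX e V X v0 (e x)) = (NN e X x)⁻¹ • fderiv ℝ e x (J x (X x)) := by
  rw [pX_e hx, map_smul, H.cj x hx.1]

theorem star {x : E} (hx : x ∈ OO e V) (B : E' →L[ℝ] E' →L[ℝ] ℝ) :
    NN e X x ^ 2 * B (pX e V X v0 (e x)) (J' (e x) (pX e V X v0 (e x))) =
      B (fderiv ℝ e x (X x)) (fderiv ℝ e x (J x (X x))) := by
  have h1 := (H.NN_pos hx.1).ne'
  rw [H.J_pX hx, pX_e hx]
  simp only [map_smul, _root_.smul_apply, smul_eq_mul]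
  field_simp

theorem int_star (B : E' → E' →L[ℝ] E' →L[ℝ] ℝ) :
    ∫ y, B y (pX e V X v0 y) (J' y (pX e V X v0 y)) ∂(pmm e V X m) =
      ∫ x in OO e V, B (e x) (fderiv ℝ e x (X x)) (fderiv ℝ e x (J x (X x))) ∂m := by
  rw [pmm, integral_pm H.open_O H.sub_src (measurable_dn H.fc.mX)]
  refine setIntegral_congr_fun H.open_O.measurableSet fun x hx => ?_
  simp only [coe_dn]
  exact H.star hx (B (e x))

theorem int_b {b : E' → E' →L[ℝ] E' →L[ℝ] ℝ} (hb : ∃ Q ⊆ V, IsCompact Q ∧ ∀ y ∉ Q, b y = 0) :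
    ∫ x in e.source, b (e x) (fderiv ℝ e x (X x)) (fderiv ℝ e x (J x (X x))) ∂m =
      ∫ y, b y (pX e V X v0 y) (J' y (pX e V X v0 y)) ∂(pmm e V X m) := by
  rw [H.int_star]
  obtain ⟨Q, hQ, -, h0⟩ := hb
  refine setIntegral_eq_of_subset_of_forall_sdiff_eq_zero e.open_source.measurableSet H.sub_src ?_
  intro x hx
  have h1 : e x ∉ Q := fun h => hx.2 ⟨hx.1, hQ h⟩
  rw [h0 _ h1]
  simp

/-- J' on V -/
theorem J'_eq {y : E'} (hy : y ∈ e.target) : J' y =
    (fderiv ℝ e (e.symm y)).comp ((J (e.symm y)).comp (fderiv ℝ e.symm y)) := by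
  ext v
  have h1 := H.cj (e.symm y) (e.map_target hy) (fderiv ℝ e.symm y v)
  rw [e.right_inv hy, H.inv2 hy] at h1
  exact h1

theorem smJ' : ContDiffOn ℝ ∞ J' V := by
  have h1 : ContDiffOn ℝ ∞ (fun y => (fderiv ℝ e (e.symm y)).comp
      ((J (e.symm y)).comp (fderiv ℝ e.symm y))) e.target := by
    have h2 : ContDiffOn ℝ ∞ (fun y => fderiv ℝ e (e.symm y)) e.target :=
      (H.sm.fderiv_of_isOpen e.open_source (by simp)).comp H.sms fun y hy => e.map_target hy
    have h3 : ContDiffOn ℝ ∞ (fun y => J (e.symm y)) e.target :=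
      H.fc.smJ.comp H.sms fun y hy => H.src (e.map_target hy)
    have h4 : ContDiffOn ℝ ∞ (fun y => fderiv ℝ e.symm y) e.target :=
      H.sms.fderiv_of_isOpen e.open_target (by simp)
    exact h2.clm_comp (h3.clm_comp h4)
  exact (h1.congr fun y hy => H.J'_eq hy).mono H.V_tgt

theorem sqJ' : ∀ y ∈ V, ∀ v, J' y (J' y v) = -v := by
  intro y hy v
  have hy' := H.V_tgt hy
  have h1 := H.cj (e.symm y) (e.map_target hy') (fderiv ℝ e.symm y v)
  rw [e.right_inv hy', H.inv2 hy'] at h1
  have h2 := H.cj (e.symm y) (e.map_target hy') (J (e.symm y) (fderiv ℝ e.symm y v))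
  rw [e.right_inv hy'] at h2
  rw [h1, h2, H.fc.sqJ _ (H.src (e.map_target hy')), map_neg, H.inv2 hy']

theorem supp' : ∀ᵐ y ∂(pmm e V X m), y ∈ V :=
  ae_pm H.open_O H.sub_src (Eventually.of_forall fun _ hx => hx.2)

/-- bounds of the density -/
theorem dn_le {A : ℝ} (_ : 0 ≤ A) (hA : ∀ x ∈ e.symm '' closure V, ‖fderiv ℝ e x‖ ≤ A) :
    ∀ x ∈ OO e V, dn e X x ≤ Real.toNNReal (A ^ 2) := by
  intro x hx
  refine Real.toNNReal_le_toNNReal ?_
  have h1 : NN e X x ≤ A := by
    have h2 := (fderiv ℝ e x).le_opNorm (X x)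
    rw [H.fc.nX, mul_one] at h2
    exact h2.trans (hA x (H.O_K hx))
  exact pow_le_pow_left₀ (norm_nonneg _) h1 2

theorem le_dn {A : ℝ} (hA0 : 0 < A) (hA : ∀ y ∈ closure V, ‖fderiv ℝ e.symm y‖ ≤ A) :
    ∀ x ∈ OO e V, Real.toNNReal ((A⁻¹) ^ 2) ≤ dn e X x := by
  intro x hx
  refine Real.toNNReal_le_toNNReal ?_
  have h1 : A⁻¹ ≤ NN e X x := by
    have h2 := (fderiv ℝ e.symm (e x)).le_opNorm (fderiv ℝ e x (X x))
    rw [H.inv1 hx.1, H.fc.nX] at h2
    have h3 : 1 ≤ A * NN e X x :=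
      h2.trans (mul_le_mul_of_nonneg_right (hA _ (subset_closure hx.2)) (norm_nonneg _))
    rwa [inv_le_iff_one_le_mul₀' hA0]
  exact pow_le_pow_left₀ (inv_nonneg.2 hA0.le) h1 2

theorem fin' : IsFiniteMeasure (pmm e V X m) := by
  have := H.fc.fin
  obtain ⟨A, hA1, hA, -⟩ := H.exists_const
  refine ⟨?_⟩
  refine (pm_apply_le H.open_O H.sub_src (H.dn_le (by linarith) hA) MeasurableSet.univ).trans_lt ?_
  exact ENNReal.mul_lt_top ENNReal.coe_lt_top (measure_lt_top m _)

theorem real_le {A : ℝ} (hA0 : 0 ≤ A) (hA : ∀ x ∈ e.symm '' closure V, ‖fderiv ℝ e x‖ ≤ A)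
    {B : Set E'} (hB : MeasurableSet B) :
    (pmm e V X m).real B ≤ A ^ 2 * m.real (OO e V ∩ e ⁻¹' B) := by
  have := H.fc.fin
  have h1 := pm_apply_le (m := m) H.open_O H.sub_src (H.dn_le hA0 hA) hB
  have h2 := ENNReal.toReal_mono
    (ENNReal.mul_ne_top ENNReal.coe_ne_top (measure_ne_top m _)) h1
  rw [ENNReal.toReal_mul, ENNReal.coe_toReal, Real.coe_toNNReal _ (sq_nonneg A)] at h2
  exact h2

theorem le_real {A : ℝ} (hA0 : 0 < A) (hA : ∀ y ∈ closure V, ‖fderiv ℝ e.symm y‖ ≤ A)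
    {B : Set E'} (hB : MeasurableSet B) :
    (A⁻¹) ^ 2 * m.real (OO e V ∩ e ⁻¹' B) ≤ (pmm e V X m).real B := by
  have := H.fin'
  have h1 := le_pm_apply (m := m) H.open_O H.sub_src (H.le_dn hA0 hA) hB
  have h2 := ENNReal.toReal_mono (measure_ne_top (pmm e V X m) _) h1
  rw [ENNReal.toReal_mul, ENNReal.coe_toReal, Real.coe_toNNReal _ (sq_nonneg _)] at h2
  exact h2

theorem up' {A : ℝ} (hA1 : 1 ≤ A) (hA : ∀ x ∈ e.symm '' closure V, ‖fderiv ℝ e x‖ ≤ A)
    (hL : ∀ y ∈ closure V, ∀ y' ∈ closure V, ‖e.symm y - e.symm y'‖ ≤ A * ‖y - y'‖)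
    (p : E') (r : ℝ) (hr : 0 < r) :
    (pmm e V X m).real (closedBall p r) ≤ (A ^ 2 * (K * (2 * A) ^ 2)) * r ^ 2 := by
  have := H.fc.fin
  refine (H.real_le (by linarith) hA isClosed_closedBall.measurableSet).trans ?_
  have hA2 : 0 ≤ A ^ 2 := sq_nonneg A
  rw [mul_assoc]
  refine mul_le_mul_of_nonneg_left ?_ hA2
  by_cases hne : (OO e V ∩ e ⁻¹' closedBall p r).Nonempty
  · obtain ⟨x0, hx0, hx0'⟩ := hne
    have h1 : OO e V ∩ e ⁻¹' closedBall p r ⊆ closedBall x0 (2 * A * r) := by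
      rintro x ⟨hx, hx'⟩
      have h2 := hL (e x) (subset_closure hx.2) (e x0) (subset_closure hx0.2)
      rw [e.left_inv hx.1, e.left_inv hx0.1] at h2
      rw [mem_preimage, mem_closedBall] at hx' hx0'
      have h3 : ‖e x - e x0‖ ≤ 2 * r := by
        rw [← dist_eq_norm]
        calc dist (e x) (e x0) ≤ dist (e x) p + dist p (e x0) := dist_triangle _ _ _
          _ ≤ r + r := add_le_add hx' (by rw [dist_comm]; exact hx0')
          _ = 2 * r := by ring
      rw [mem_closedBall, dist_eq_norm]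
      calc ‖x - x0‖ ≤ A * ‖e x - e x0‖ := h2
        _ ≤ A * (2 * r) := mul_le_mul_of_nonneg_left h3 (by linarith)
        _ = 2 * A * r := by ring
    have h4 := H.fc.up x0 (2 * A * r) (by positivity)
    calc m.real (OO e V ∩ e ⁻¹' closedBall p r) ≤ m.real (closedBall x0 (2 * A * r)) :=
          measureReal_mono h1
      _ ≤ K * (2 * A * r) ^ 2 := h4
      _ = K * (2 * A) ^ 2 * r ^ 2 := by ring
  · rw [not_nonempty_iff_eq_empty] at hne
    rw [hne, measureReal_empty]
    have := H.K_nonneg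
    positivity

theorem supp_iff {y : E'} (hy : y ∈ V) : SuppE (pmm e V X m) y ↔ SuppE m (e.symm y) := by
  obtain ⟨A, hA1, hA, hA', -, hL, hL'⟩ := H.exists_const
  have hA0 : 0 < A := by linarith
  have hx := H.mem_O hy
  have hyt := H.V_tgt hy
  constructor
  · intro h r hr
    have h1 : e.symm ⁻¹' ball (e.symm y) r ∈ 𝓝 y :=
      (e.continuousAt_symm hyt).preimage_mem_nhds (ball_mem_nhds _ hr)
    obtain ⟨r', hr', h2⟩ := Metric.mem_nhds_iff.1 h1
    have h3 := h r' hr'
    have h4 := pm_apply_le (m := m) H.open_O H.sub_src (H.dn_le hA0.le hA)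
      (measurableSet_ball (x := y) (ε := r'))
    have h5 := h3.trans_le h4
    have h6 : 0 < m (OO e V ∩ e ⁻¹' ball y r') := by
      rw [pos_iff_ne_zero]
      intro h0
      rw [h0, mul_zero] at h5
      exact lt_irrefl _ h5
    refine h6.trans_le (measure_mono ?_)
    rintro x ⟨hxO, hxb⟩
    have h7 := h2 hxb
    rwa [mem_preimage, e.left_inv hxO.1] at h7
  · intro h r hr
    have h1 : OO e V ∩ e ⁻¹' ball y r ∈ 𝓝 (e.symm y) := by
      refine inter_mem (H.open_O.mem_nhds hx) ?_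
      refine (e.continuousAt hx.1).preimage_mem_nhds ?_
      rw [e.right_inv hyt]
      exact ball_mem_nhds _ hr
    obtain ⟨r', hr', h2⟩ := Metric.mem_nhds_iff.1 h1
    have h3 := (h r' hr').trans_le (measure_mono h2)
    have h4 := le_pm_apply (m := m) H.open_O H.sub_src (H.le_dn hA0 hA')
      (measurableSet_ball (x := y) (ε := r))
    refine lt_of_lt_of_le ?_ h4
    refine ENNReal.mul_pos ?_ h3.ne'
    rw [Ne, ENNReal.coe_eq_zero, Real.toNNReal_eq_zero, not_le]
    positivity

theorem low' : ∀ Q ⊆ V, IsCompact Q → ∃ c₀ > 0, ∃ r₀ > 0, ∀ p ∈ Q, SuppE (pmm e V X m) p →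
    ∀ r, 0 < r → r ≤ r₀ → c₀ * r ^ 2 ≤ (pmm e V X m).real (ball p r) := by
  intro Q hQV hQ
  have := H.fc.fin
  obtain ⟨A, hA1, hA, hA', -, hL, hL'⟩ := H.exists_const
  have hA0 : 0 < A := by linarith
  have hQc : IsCompact (e.symm '' Q) :=
    hQ.image_of_continuousOn (e.continuousOn_symm.mono (hQV.trans H.V_tgt))
  have hQO : e.symm '' Q ⊆ OO e V := by
    rintro _ ⟨y, hy, rfl⟩
    exact H.mem_O (hQV hy)
  obtain ⟨δ, hδ, hδO⟩ := hQc.exists_cthickening_subset_open H.open_O hQO
  obtain ⟨c, hc, r1, hr1, hlow⟩ := H.fc.low (e.symm '' Q) (hQO.trans (H.sub_src.trans H.src)) hQc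
  refine ⟨(A⁻¹) ^ 2 * (c * (A⁻¹) ^ 2), by positivity, min r1 δ, lt_min hr1 hδ, ?_⟩
  intro p hp hsp r hr hrr
  have hpV := hQV hp
  have hs := (H.supp_iff hpV).1 hsp
  have hr' : 0 < r * A⁻¹ := by positivity
  have hrA : r * A⁻¹ ≤ r := mul_le_of_le_one_right hr.le (inv_le_one_of_one_le₀ hA1)
  have h1 := hlow (e.symm p) (mem_image_of_mem _ hp) hs (r * A⁻¹) hr'
    (hrA.trans (hrr.trans (min_le_left _ _)))
  have h2 : ball (e.symm p) (r * A⁻¹) ⊆ OO e V ∩ e ⁻¹' ball p r := by
    intro x hx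
    rw [mem_ball] at hx
    have hxO : x ∈ OO e V := by
      refine hδO (mem_cthickening_of_dist_le x (e.symm p) δ _ (mem_image_of_mem _ hp) ?_)
      exact hx.le.trans (hrA.trans (hrr.trans (min_le_right _ _)))
    refine ⟨hxO, ?_⟩
    have h3 := hL x (H.O_K hxO) (e.symm p) (H.O_K (H.mem_O hpV))
    rw [e.right_inv (H.V_tgt hpV), ← dist_eq_norm, ← dist_eq_norm] at h3
    rw [mem_preimage, mem_ball]
    calc dist (e x) p ≤ A * dist x (e.symm p) := h3
      _ < A * (r * A⁻¹) := mul_lt_mul_of_pos_left hx hA0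
      _ = r := by field_simp
  calc (A⁻¹) ^ 2 * (c * (A⁻¹) ^ 2) * r ^ 2 = (A⁻¹) ^ 2 * (c * (r * A⁻¹) ^ 2) := by ring
    _ ≤ (A⁻¹) ^ 2 * m.real (ball (e.symm p) (r * A⁻¹)) := by gcongr
    _ ≤ (A⁻¹) ^ 2 * m.real (OO e V ∩ e ⁻¹' ball p r) :=
        mul_le_mul_of_nonneg_left (measureReal_mono h2) (sq_nonneg _)
    _ ≤ _ := H.le_real hA0 hA' measurableSet_ball

end PD

end

end Crest.Agent.R235.RegPush_952
end

-- ▼ part R235/RegPushD_952
section

/-!
# Row 235, REG A1.1 (helper952), part D: the pushed current is closed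
-/

set_option autoImplicit false
set_option linter.unusedSectionVars false
set_option maxSynthPendingDepth 3

open MeasureTheory Metric Set Filter Topology
open scoped ContDiff ENNReal NNReal
open Crest.Agent.R235.Reg_522

namespace Crest.Agent.R235.RegPush_952

noncomputable section

variable {E E' : Type} [NormedAddCommGroup E] [NormedSpace ℝ E]
  [FiniteDimensional ℝ E] [MeasurableSpace E] [BorelSpace E]
  [NormedAddCommGroup E'] [NormedSpace ℝ E'] [FiniteDimensional ℝ E'] [MeasurableSpace E']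
  [BorelSpace E']

open Classical in
/-- the pulled back one-form -/
def pl (e : OpenPartialHomeomorph E E') (l' : E' → E' →L[ℝ] ℝ) (x : E) : E →L[ℝ] ℝ :=
  if x ∈ e.source then (l' (e x)).comp (fderiv ℝ e x) else 0

variable {J : E → E →L[ℝ] E} {U : Set E} {m : Measure E} {X : E → E} {K : ℝ}
  {e : OpenPartialHomeomorph E E'} {J' : E' → E' →L[ℝ] E'} {V : Set E'} {v0 : E'}
  {l' : E' → E' →L[ℝ] ℝ}

theorem pl_of_mem {x : E} (hx : x ∈ e.source) : pl e l' x = (l' (e x)).comp (fderiv ℝ e x) :=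
  if_pos hx

namespace PD

variable (H : PD J U m X K e J' V)
include H

theorem pl_zero {x : E} (hx : x ∉ e.symm '' tsupport l') : pl e l' x = 0 := by
  by_cases h : x ∈ e.source
  · rw [pl_of_mem h]
    have h1 : e x ∉ tsupport l' := fun h2 => hx ⟨e x, h2, e.left_inv h⟩
    rw [image_eq_zero_of_notMem_tsupport h1, ContinuousLinearMap.zero_comp]
  · exact if_neg h

theorem compact_Q (hc : HasCompactSupport l') (ht : tsupport l' ⊆ V) :
    IsCompact (e.symm '' tsupport l') :=
  hc.isCompact.image_of_continuousOn (e.continuousOn_symm.mono (ht.trans H.V_tgt))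

theorem Q_O (ht : tsupport l' ⊆ V) : e.symm '' tsupport l' ⊆ OO e V := by
  rintro _ ⟨y, hy, rfl⟩
  exact H.mem_O (ht hy)

theorem pl_supp (hc : HasCompactSupport l') (ht : tsupport l' ⊆ V) :
    tsupport (pl e l') ⊆ e.symm '' tsupport l' := by
  refine closure_minimal ?_ (H.compact_Q hc ht).isClosed
  intro x hx
  by_contra h
  exact hx (H.pl_zero h)

theorem pl_cs (hc : HasCompactSupport l') (ht : tsupport l' ⊆ V) :
    HasCompactSupport (pl e l') :=
  HasCompactSupport.intro (H.compact_Q hc ht) fun _ hx => H.pl_zero hx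

theorem pl_ev {x : E} (hx : x ∈ e.source) :
    pl e l' =ᶠ[𝓝 x] fun z => (l' (e z)).comp (fderiv ℝ e z) := by
  filter_upwards [e.open_source.mem_nhds hx] with z hz
  exact pl_of_mem hz

theorem pl_smooth (hl : ContDiff ℝ ∞ l') (hc : HasCompactSupport l') (ht : tsupport l' ⊆ V) :
    ContDiff ℝ ∞ (pl e l') := by
  rw [contDiff_iff_contDiffAt]
  intro x
  by_cases hx : x ∈ e.source
  · have h1 : ContDiffAt ℝ ∞ (fun z => (l' (e z)).comp (fderiv ℝ e z)) x := by
      have h2 : ContDiffAt ℝ ∞ e x := H.sm.contDiffAt (e.open_source.mem_nhds hx)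
      have h3 : ContDiffAt ℝ ∞ (fderiv ℝ e) x :=
        (H.sm.fderiv_of_isOpen e.open_source (by simp)).contDiffAt (e.open_source.mem_nhds hx)
      exact (hl.contDiffAt.comp x h2).clm_comp h3
    exact h1.congr_of_eventuallyEq (H.pl_ev hx)
  · have h1 : x ∉ e.symm '' tsupport l' := fun h => hx (H.Q_O ht h).1
    have h2 : pl e l' =ᶠ[𝓝 x] fun _ => 0 := by
      filter_upwards [(H.compact_Q hc ht).isClosed.isOpen_compl.mem_nhds h1] with z hz
      exact H.pl_zero hz
    exact contDiffAt_const.congr_of_eventuallyEq h2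

theorem fderiv_pl (hl : ContDiff ℝ ∞ l') {x : E} (hx : x ∈ e.source) (v w : E) :
    fderiv ℝ (pl e l') x v w = fderiv ℝ l' (e x) (fderiv ℝ e x v) (fderiv ℝ e x w) +
      l' (e x) (fderiv ℝ (fderiv ℝ e) x v w) := by
  have h1 : HasFDerivAt (fun z => l' (e z)) ((fderiv ℝ l' (e x)).comp (fderiv ℝ e x)) x :=
    ((hl.differentiable (by simp)) (e x)).hasFDerivAt.comp x (H.hasD hx)
  have h3 : ContDiffAt ℝ ∞ (fderiv ℝ e) x :=
    (H.sm.fderiv_of_isOpen e.open_source (by simp)).contDiffAt (e.open_source.mem_nhds hx)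
  have h2 : HasFDerivAt (fderiv ℝ e) (fderiv ℝ (fderiv ℝ e) x) x :=
    (h3.differentiableAt (by simp)).hasFDerivAt
  have h4 := (h1.clm_comp h2).congr_of_eventuallyEq (H.pl_ev hx)
  rw [h4.fderiv]
  simp [add_comm]

theorem symm_fderiv {x : E} (hx : x ∈ e.source) (v w : E) :
    fderiv ℝ (fderiv ℝ e) x v w = fderiv ℝ (fderiv ℝ e) x w v := by
  have h1 : ContDiffAt ℝ ∞ e x := H.sm.contDiffAt (e.open_source.mem_nhds hx)
  have h2 : IsSymmSndFDerivAt ℝ e x := h1.isSymmSndFDerivAt (by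
    simp only [minSmoothness_of_isRCLikeNormedField]
    exact ENat.LEInfty.out)
  exact h2 v w

theorem closed' (hl : ContDiff ℝ ∞ l') (hc : HasCompactSupport l') (ht : tsupport l' ⊆ V) :
    ∫ y, (fderiv ℝ l' y (pX e V X v0 y) (J' y (pX e V X v0 y)) -
      fderiv ℝ l' y (J' y (pX e V X v0 y)) (pX e V X v0 y)) ∂(pmm e V X m) = 0 := by
  have h1 := H.int_star (v0 := v0) (fun y => fderiv ℝ l' y - (fderiv ℝ l' y).flip)
  simp only [_root_.sub_apply, ContinuousLinearMap.flip_apply] at h1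
  rw [h1]
  have h2 : ∀ x ∈ OO e V, fderiv ℝ l' (e x) (fderiv ℝ e x (X x)) (fderiv ℝ e x (J x (X x))) -
      fderiv ℝ l' (e x) (fderiv ℝ e x (J x (X x))) (fderiv ℝ e x (X x)) =
      fderiv ℝ (pl e l') x (X x) (J x (X x)) - fderiv ℝ (pl e l') x (J x (X x)) (X x) := by
    intro x hx
    rw [H.fderiv_pl hl hx.1, H.fderiv_pl hl hx.1, H.symm_fderiv hx.1 (X x)]
    ring
  rw [setIntegral_congr_fun H.open_O.measurableSet h2,
    setIntegral_eq_integral_of_forall_compl_eq_zero]
  · exact H.fc.closed (pl e l') (H.pl_smooth hl hc ht) (H.pl_cs hc ht)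
      ((H.pl_supp hc ht).trans ((H.Q_O ht).trans (H.sub_src.trans H.src)))
  · intro x hx
    have h3 : x ∉ tsupport (pl e l') := fun h => hx (H.Q_O ht (H.pl_supp hc ht h))
    have h4 : fderiv ℝ (pl e l') x = 0 := by
      have h5 : pl e l' =ᶠ[𝓝 x] fun _ => 0 := notMem_tsupport_iff_eventuallyEq.1 h3
      rw [h5.fderiv_eq]
      simp
    rw [h4]
    simp

end PD

end

end Crest.Agent.R235.RegPush_952
end

-- ▼ part R235/RegPushE_952
section

/-!
# Row 235, REG A1.1 (helper952), part E: the pushed current is flat; `push : PUSH`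
-/

set_option autoImplicit false
set_option linter.unusedSectionVars false
set_option maxSynthPendingDepth 3

open MeasureTheory Metric Set Filter Topology
open scoped ContDiff ENNReal NNReal
open Crest.Agent.R235.Reg_522

namespace Crest.Agent.R235.RegPush_952

noncomputable section

variable {E E' : Type} [NormedAddCommGroup E] [NormedSpace ℝ E]
  [FiniteDimensional ℝ E] [MeasurableSpace E] [BorelSpace E]
  [NormedAddCommGroup E'] [NormedSpace ℝ E'] [FiniteDimensional ℝ E'] [MeasurableSpace E']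
  [BorelSpace E']

theorem aesm_app {α F G : Type*} [MeasurableSpace α] [NormedAddCommGroup F] [NormedSpace ℝ F]
    [NormedAddCommGroup G] [NormedSpace ℝ G] {μ : Measure α} {A : α → F →L[ℝ] G} {v : α → F}
    (hA : AEStronglyMeasurable A μ) (hv : AEStronglyMeasurable v μ) :
    AEStronglyMeasurable (fun q => A q (v q)) μ :=
  (ContinuousLinearMap.id ℝ (F →L[ℝ] G)).aestronglyMeasurable_comp₂ hA hv

variable {J : E → E →L[ℝ] E} {U : Set E} {m : Measure E} {X : E → E} {K : ℝ}
  {e : OpenPartialHomeomorph E E'} {J' : E' → E' →L[ℝ] E'} {V : Set E'} {v0 : E'}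

/-- the pushed integrand -/
def GG (e : OpenPartialHomeomorph E E') (J : E → E →L[ℝ] E) (X : E → E)
    (g' : E' → E' →L[ℝ] E' →L[ℝ] ℝ) (x : E) (r : ℝ) (q : E) : ℝ :=
  g' (r⁻¹ • (e q - e x)) (fderiv ℝ e q (X q)) (fderiv ℝ e q (J q (X q)))

/-- the frozen integrand -/
def G0 (D : E →L[ℝ] E') (J : E → E →L[ℝ] E) (X : E → E)
    (g' : E' → E' →L[ℝ] E' →L[ℝ] ℝ) (x : E) (r : ℝ) (q : E) : ℝ :=
  g' (D (r⁻¹ • (q - x))) (D (X q)) (D (J q (X q)))

/-- the frozen test form -/
def fz (D : E →L[ℝ] E') (g' : E' → E' →L[ℝ] E' →L[ℝ] ℝ) (z : E) : E →L[ℝ] E →L[ℝ] ℝ :=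
  ((ContinuousLinearMap.compL ℝ E E' ℝ).flip D).comp ((g' (D z)).comp D)

theorem fz_apply (D : E →L[ℝ] E') (g' : E' → E' →L[ℝ] E' →L[ℝ] ℝ) (z v w : E) :
    fz D g' z v w = g' (D z) (D v) (D w) := rfl

theorem fz_cont (D : E →L[ℝ] E') {g' : E' → E' →L[ℝ] E' →L[ℝ] ℝ} (hg : Continuous g') :
    Continuous (fz D g') :=
  continuous_const.clm_comp ((hg.comp D.continuous).clm_comp continuous_const)

theorem norm_tri {B B' : E' →L[ℝ] E' →L[ℝ] ℝ} {T1 T2 S1 S2 : E'} {ε1 M η A : ℝ} (hA : 1 ≤ A)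
    (hM : 0 ≤ M) (hB : ‖B - B'‖ ≤ ε1) (hB' : ‖B'‖ ≤ M) (h1 : ‖T1‖ ≤ A) (h2 : ‖T2‖ ≤ A * A)
    (h3 : ‖S1‖ ≤ A) (h4 : ‖T1 - S1‖ ≤ η) (h5 : ‖T2 - S2‖ ≤ η * A) (hη : 0 ≤ η) (hε : 0 ≤ ε1) :
    ‖B T1 T2 - B' S1 S2‖ ≤ ε1 * A ^ 3 + 2 * M * η * A ^ 2 := by
  have e1 : B T1 T2 - B' S1 S2 = (B - B') T1 T2 + B' (T1 - S1) T2 + B' S1 (T2 - S2) := by
    simp only [_root_.sub_apply, map_sub]; ring
  have hA0 : 0 ≤ A := by linarith
  have b1 : ‖(B - B') T1 T2‖ ≤ ε1 * A * (A * A) :=
    ((B - B').le_opNorm₂ T1 T2).trans (by gcongr)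
  have b2 : ‖B' (T1 - S1) T2‖ ≤ M * η * (A * A) :=
    (B'.le_opNorm₂ _ T2).trans (by gcongr)
  have b3 : ‖B' S1 (T2 - S2)‖ ≤ M * A * (η * A) :=
    (B'.le_opNorm₂ _ _).trans (by gcongr)
  rw [e1]
  calc _ ≤ ‖(B - B') T1 T2‖ + ‖B' (T1 - S1) T2‖ + ‖B' S1 (T2 - S2)‖ :=
        (norm_add_le _ _).trans (add_le_add (norm_add_le _ _) le_rfl)
    _ ≤ ε1 * A * (A * A) + M * η * (A * A) + M * A * (η * A) := by linarith
    _ = _ := by ring

namespace PD

variable (H : PD J U m X K e J' V)
include H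

theorem lim_eq {x : E} (hx : x ∈ OO e V) (g' : E' → E' →L[ℝ] E' →L[ℝ] ℝ) :
    ∫ ζ : ℂ, fz (fderiv ℝ e x) g' (ζ.re • X x + ζ.im • J x (X x)) (X x) (J x (X x)) =
      ∫ ζ : ℂ, g' (ζ.re • pX e V X v0 (e x) + ζ.im • J' (e x) (pX e V X v0 (e x)))
        (pX e V X v0 (e x)) (J' (e x) (pX e V X v0 (e x))) := by
  have hN := H.NN_pos hx.1
  set N := NN e X x with hNdef
  set P := pX e V X v0 (e x) with hP
  set Q := J' (e x) P with hQ
  have e1 : fderiv ℝ e x (X x) = N • P := by
    rw [hP, pX_e hx, smul_smul, mul_inv_cancel₀ hN.ne', one_smul]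
  have e2 : fderiv ℝ e x (J x (X x)) = N • Q := by
    rw [hQ, hP, H.J_pX hx, smul_smul, mul_inv_cancel₀ hN.ne', one_smul]
  have h1 : ∀ ζ : ℂ, fz (fderiv ℝ e x) g' (ζ.re • X x + ζ.im • J x (X x)) (X x) (J x (X x)) =
      N ^ 2 * (fun ξ : ℂ => g' (ξ.re • P + ξ.im • Q) P Q) (N • ζ) := by
    intro ζ
    rw [fz_apply, map_add, map_smul, map_smul, e1, e2]
    simp only [map_smul, _root_.smul_apply, smul_eq_mul, Complex.smul_re, Complex.smul_im,
      smul_smul]
    rw [mul_comm ζ.re N, mul_comm ζ.im N]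
    ring
  have h2 := Measure.integral_comp_smul (volume : Measure ℂ)
    (fun ξ : ℂ => g' (ξ.re • P + ξ.im • Q) P Q) N
  rw [Complex.finrank_real_complex, abs_of_pos (by positivity), smul_eq_mul] at h2
  rw [integral_congr_ae (Eventually.of_forall h1), integral_const_mul, h2, ← mul_assoc,
    mul_inv_cancel₀ (by positivity), one_mul]

theorem fz_cs {x : E} (hx : x ∈ e.source) {A ρ : ℝ} (hA : ‖fderiv ℝ e.symm (e x)‖ ≤ A)
    {g' : E' → E' →L[ℝ] E' →L[ℝ] ℝ} (hρ : ∀ z, ρ < ‖z‖ → g' z = 0) :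
    HasCompactSupport (fz (fderiv ℝ e x) g') := by
  refine HasCompactSupport.intro (isCompact_closedBall (0 : E) (A * ρ)) fun z hz => ?_
  rw [mem_closedBall, dist_zero_right, not_le] at hz
  have h1 : ‖z‖ ≤ A * ‖fderiv ℝ e x z‖ := by
    have h2 := (fderiv ℝ e.symm (e x)).le_opNorm (fderiv ℝ e x z)
    rw [H.inv1 hx] at h2
    exact h2.trans (mul_le_mul_of_nonneg_right hA (norm_nonneg _))
  have h3 : ρ < ‖fderiv ℝ e x z‖ := by
    by_contra h
    rw [not_lt] at h
    have hA0 : 0 ≤ A := (norm_nonneg _).trans hA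
    have := h1.trans (mul_le_mul_of_nonneg_left h hA0)
    linarith
  ext v w
  rw [fz_apply, hρ _ h3]
  simp

/-- integrability of the two integrands on small balls -/
theorem intG {x : E} {A δ0 C r M : ℝ} (hA1 : 1 ≤ A)
    (hA : ∀ x ∈ e.symm '' closure V, ‖fderiv ℝ e x‖ ≤ A)
    (hAJ : ∀ x ∈ e.symm '' closure V, ‖J x‖ ≤ A) (hδ : closedBall x δ0 ⊆ OO e V)
    (hr : C * r ≤ δ0) {g' : E' → E' →L[ℝ] E' →L[ℝ] ℝ} (hg : Continuous g') (hM0 : 0 ≤ M)
    (hM : ∀ z, ‖g' z‖ ≤ M) (D : E →L[ℝ] E') (hD : ‖D‖ ≤ A) :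
    IntegrableOn (GG e J X g' x r) (closedBall x (C * r)) m ∧
      IntegrableOn (G0 D J X g' x r) (closedBall x (C * r)) m := by
  have hfin := H.fc.fin
  have hsO : closedBall x (C * r) ⊆ OO e V := (closedBall_subset_closedBall hr).trans hδ
  have hms : MeasurableSet (closedBall x (C * r)) := isClosed_closedBall.measurableSet
  have hsU := hsO.trans (H.sub_src.trans H.src)
  have mJ : AEStronglyMeasurable J (m.restrict (closedBall x (C * r))) :=
    (H.fc.smJ.continuousOn.mono hsU).aestronglyMeasurable hms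
  have mX : AEStronglyMeasurable X (m.restrict (closedBall x (C * r))) :=
    H.fc.mX.aestronglyMeasurable
  have mJX := aesm_app mJ mX
  have mD : AEStronglyMeasurable (fderiv ℝ e) (m.restrict (closedBall x (C * r))) :=
    (measurable_fderiv ℝ e).aestronglyMeasurable
  have hA0 : 0 ≤ A := by linarith
  have nJX : ∀ q ∈ closedBall x (C * r), ‖J q (X q)‖ ≤ A := by
    intro q hq
    have h1 := (J q).le_opNorm (X q)
    rw [H.fc.nX, mul_one] at h1
    exact h1.trans (hAJ q (H.O_K (hsO hq)))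
  constructor
  · have m1 : AEStronglyMeasurable (fun q => g' (r⁻¹ • (e q - e x)))
        (m.restrict (closedBall x (C * r))) := by
      refine ContinuousOn.aestronglyMeasurable ?_ hms
      refine hg.comp_continuousOn ?_
      exact ((e.continuousOn.mono (hsO.trans H.sub_src)).sub continuousOn_const).const_smul _
    have m2 : AEStronglyMeasurable (GG e J X g' x r) (m.restrict (closedBall x (C * r))) :=
      aesm_app (aesm_app m1 (aesm_app mD mX)) (aesm_app mD mJX)
    refine Integrable.of_bound m2 (M * A * (A * A)) ?_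
    refine (ae_restrict_iff' hms).2 (Eventually.of_forall fun q hq => ?_)
    refine ((g' (r⁻¹ • (e q - e x))).le_opNorm₂ _ _).trans ?_
    have h1 : ‖fderiv ℝ e q (X q)‖ ≤ A := by
      have h1 := (fderiv ℝ e q).le_opNorm (X q)
      rw [H.fc.nX, mul_one] at h1
      exact h1.trans (hA q (H.O_K (hsO hq)))
    have h2 : ‖fderiv ℝ e q (J q (X q))‖ ≤ A * A :=
      ((fderiv ℝ e q).le_opNorm _).trans
        (mul_le_mul (hA q (H.O_K (hsO hq))) (nJX q hq) (norm_nonneg _) hA0)
    have h3 := hM (r⁻¹ • (e q - e x))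
    gcongr
  · have m1 : AEStronglyMeasurable (fun q => g' (D (r⁻¹ • (q - x))))
        (m.restrict (closedBall x (C * r))) := by
      refine Continuous.aestronglyMeasurable ?_
      exact hg.comp (D.continuous.comp ((continuous_id.sub continuous_const).const_smul _))
    have m2 : AEStronglyMeasurable (G0 D J X g' x r) (m.restrict (closedBall x (C * r))) :=
      aesm_app (aesm_app m1 (D.continuous.comp_aestronglyMeasurable mX))
        (D.continuous.comp_aestronglyMeasurable mJX)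
    refine Integrable.of_bound m2 (M * A * (A * A)) ?_
    refine (ae_restrict_iff' hms).2 (Eventually.of_forall fun q hq => ?_)
    refine ((g' (D (r⁻¹ • (q - x)))).le_opNorm₂ _ _).trans ?_
    have h1 : ‖D (X q)‖ ≤ A := by
      have h1 := D.le_opNorm (X q)
      rw [H.fc.nX, mul_one] at h1
      exact h1.trans hD
    have h2 : ‖D (J q (X q))‖ ≤ A * A :=
      (D.le_opNorm _).trans (mul_le_mul hD (nJX q hq) (norm_nonneg _) hA0)
    have h3 := hM (D (r⁻¹ • (q - x)))
    gcongr

end PD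

end

end Crest.Agent.R235.RegPush_952
end

-- ▼ part R235/Reg_PUSH_952
section

/-!
# Row 235, REG A1.1 (helper952): `push : Reg_522.PUSH`

Push-forward of a flat current of density one by a diffeomorphism.
-/

set_option autoImplicit false
set_option linter.unusedSectionVars false
set_option maxSynthPendingDepth 3

open MeasureTheory Metric Set Filter Topology
open scoped ContDiff ENNReal NNReal
open Crest.Agent.R235.Reg_522

namespace Crest.Agent.R235.RegPush_952

noncomputable section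

variable {E E' : Type} [NormedAddCommGroup E] [NormedSpace ℝ E]
  [FiniteDimensional ℝ E] [MeasurableSpace E] [BorelSpace E]
  [NormedAddCommGroup E'] [NormedSpace ℝ E'] [FiniteDimensional ℝ E'] [MeasurableSpace E']
  [BorelSpace E']

variable {J : E → E →L[ℝ] E} {U : Set E} {m : Measure E} {X : E → E} {K : ℝ}
  {e : OpenPartialHomeomorph E E'} {J' : E' → E' →L[ℝ] E'} {V : Set E'} {v0 : E'}

/-- a compactly supported function vanishes outside a ball -/
theorem exists_rad {g' : E' → E' →L[ℝ] E' →L[ℝ] ℝ} (hgc : HasCompactSupport g') :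
    ∃ ρ : ℝ, 0 ≤ ρ ∧ ∀ z, ρ < ‖z‖ → g' z = 0 := by
  obtain ⟨ρ, hρ⟩ := hgc.isCompact.isBounded.exists_norm_le
  refine ⟨max ρ 0, le_max_right _ _, fun z hz => ?_⟩
  refine image_eq_zero_of_notMem_tsupport fun h => ?_
  have := hρ z h
  have := le_max_left ρ 0
  linarith

namespace PD

variable (H : PD J U m X K e J' V)
include H

theorem flat_at {x : E} (hx : x ∈ OO e V) (hf : FlatE m X (fun q => J q (X q)) x) :
    FlatE (pmm e V X m) (pX e V X v0) (fun q => J' q (pX e V X v0 q)) (e x) := by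
  intro g' hg' hgc hga
  have hfin := H.fc.fin
  obtain ⟨A, hA1, hA, hA', hAJ, hL, hL'⟩ := H.exists_const
  have hA0 : 0 < A := by linarith
  obtain ⟨ρ, hρ0, hρ⟩ := exists_rad hgc
  obtain ⟨M0, hM0⟩ := hgc.exists_bound_of_continuous hg'
  set M := max M0 0 with hMdef
  have hM : ∀ z, ‖g' z‖ ≤ M := fun z => (hM0 z).trans (le_max_left _ _)
  have hMn : 0 ≤ M := le_max_right _ _
  set D := fderiv ℝ e x with hD
  have hDA : ‖D‖ ≤ A := hA x (H.O_K hx)
  have hDs : ∀ z : E, ‖z‖ ≤ A * ‖D z‖ := by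
    intro z
    have h2 := (fderiv ℝ e.symm (e x)).le_opNorm (fderiv ℝ e x z)
    rw [H.inv1 hx.1] at h2
    exact h2.trans (mul_le_mul_of_nonneg_right (hA' _ (subset_closure hx.2)) (norm_nonneg _))
  have e1 : ∀ r : ℝ, ∫ q, g' (r⁻¹ • (q - e x)) (pX e V X v0 q) (J' q (pX e V X v0 q))
      ∂(pmm e V X m) = ∫ q in OO e V, GG e J X g' x r q ∂m :=
    fun r => H.int_star (fun q => g' (r⁻¹ • (q - e x)))
  have e2 := hf (fz D g') (fz_cont D hg') (H.fz_cs hx.1 (hA' _ (subset_closure hx.2)) hρ)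
    (fun z v => by rw [fz_apply]; exact hga _ _)
  have key : Tendsto (fun r : ℝ => (r ^ 2)⁻¹ * (∫ q in OO e V, GG e J X g' x r q ∂m -
      ∫ q, G0 D J X g' x r q ∂m)) (𝓝[>] 0) (𝓝 0) := by
    have hK := H.K_nonneg
    set C := A * ρ + 1 with hC
    have hC0 : 0 < C := by positivity
    obtain ⟨δ0, hδ0, hδO⟩ : ∃ δ0 > 0, closedBall x δ0 ⊆ OO e V :=
      Metric.nhds_basis_closedBall.mem_iff.1 (H.open_O.mem_nhds hx)
    rw [Metric.tendsto_nhds]
    intro ε hε
    set ε' := ε / (K * C ^ 2 + 1) with hε'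
    have hε'0 : 0 < ε' := by positivity
    set ε1 := ε' / (4 * A ^ 3) with hε1
    have hε10 : 0 < ε1 := by positivity
    set η := ε' / (4 * (M + 1) * A ^ 2) with hη
    have hη0 : 0 < η := by positivity
    obtain ⟨δ1, hδ1, hu⟩ := Metric.uniformContinuous_iff.1
      (hgc.uniformContinuous_of_continuous hg') ε1 hε10
    have hη' : 0 < δ1 / (2 * C) := by positivity
    have d1 : ∀ᶠ q in 𝓝 x, ‖e q - e x - D (q - x)‖ ≤ δ1 / (2 * C) * ‖q - x‖ :=
      (hasFDerivAt_iff_isLittleO.1 (H.hasD hx.1)).def hη'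
    have d2 : ∀ᶠ q in 𝓝 x, ‖fderiv ℝ e q - D‖ < η := by
      have h1 : ContinuousAt (fderiv ℝ e) x :=
        H.cont_fderiv.continuousAt (e.open_source.mem_nhds hx.1)
      have h2 := Metric.tendsto_nhds.1 h1 η hη0
      filter_upwards [h2] with q hq
      rwa [dist_eq_norm] at hq
    obtain ⟨δ2, hδ2, hball⟩ := Metric.nhds_basis_closedBall.mem_iff.1 (d1.and d2)
    have hmin : 0 < min δ0 δ2 / C := div_pos (lt_min hδ0 hδ2) hC0
    filter_upwards [Ioo_mem_nhdsGT hmin] with r hr
    have hr0 : 0 < r := hr.1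
    have hCr : C * r ≤ min δ0 δ2 := by
      have := hr.2.le
      rwa [le_div_iff₀ hC0, mul_comm] at this
    have hCr0 : C * r ≤ δ0 := hCr.trans (min_le_left _ _)
    have hCr2 : C * r ≤ δ2 := hCr.trans (min_le_right _ _)
    have hsO : closedBall x (C * r) ⊆ OO e V := (closedBall_subset_closedBall hCr0).trans hδO
    have hms : MeasurableSet (closedBall x (C * r)) := isClosed_closedBall.measurableSet
    have far : ∀ q, q ∉ closedBall x (C * r) → C * r < ‖q - x‖ := by
      intro q hq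
      rwa [mem_closedBall, dist_eq_norm, not_le] at hq
    have hCρ : A * (ρ * r) < C * r := by rw [hC]; nlinarith
    have i1 : ∫ q in OO e V, GG e J X g' x r q ∂m =
        ∫ q in closedBall x (C * r), GG e J X g' x r q ∂m := by
      refine setIntegral_eq_of_subset_of_forall_sdiff_eq_zero H.open_O.measurableSet hsO ?_
      rintro q ⟨hqO, hq⟩
      have h1 := far q hq
      have h2 := hL' (e q) (subset_closure hqO.2) (e x) (subset_closure hx.2)
      rw [e.left_inv hqO.1, e.left_inv hx.1] at h2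
      have h3 : ρ < ‖r⁻¹ • (e q - e x)‖ := by
        rw [norm_smul, norm_inv, Real.norm_of_nonneg hr0.le, ← div_eq_inv_mul, lt_div_iff₀ hr0]
        by_contra h
        rw [not_lt] at h
        have := mul_le_mul_of_nonneg_left h hA0.le
        linarith
      rw [GG, hρ _ h3]
      simp
    have i2 : ∫ q, G0 D J X g' x r q ∂m =
        ∫ q in closedBall x (C * r), G0 D J X g' x r q ∂m := by
      refine (setIntegral_eq_integral_of_forall_compl_eq_zero fun q hq => ?_).symm
      have h1 := far q hq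
      have h2 := hDs (q - x)
      have h3 : ρ < ‖D (r⁻¹ • (q - x))‖ := by
        rw [map_smul, norm_smul, norm_inv, Real.norm_of_nonneg hr0.le, ← div_eq_inv_mul,
          lt_div_iff₀ hr0]
        by_contra h
        rw [not_lt] at h
        have := mul_le_mul_of_nonneg_left h hA0.le
        linarith
      rw [G0, hρ _ h3]
      simp
    obtain ⟨j1, j2⟩ := H.intG (x := x) hA1 hA hAJ hδO hCr0 hg' hMn hM D hDA
    have pt : ∀ q ∈ closedBall x (C * r), ‖GG e J X g' x r q - G0 D J X g' x r q‖ ≤ ε' := by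
      intro q hq
      have hqO := hsO hq
      have hqb := hball (closedBall_subset_closedBall hCr2 hq)
      obtain ⟨b1, b2⟩ := hqb
      rw [mem_closedBall, dist_eq_norm] at hq
      have w1 : ‖g' (r⁻¹ • (e q - e x)) - g' (D (r⁻¹ • (q - x)))‖ ≤ ε1 := by
        rw [← dist_eq_norm]
        refine (hu ?_).le
        rw [dist_eq_norm, map_smul, ← smul_sub, norm_smul, norm_inv, Real.norm_of_nonneg hr0.le,
          ← div_eq_inv_mul, div_lt_iff₀ hr0]
        calc ‖e q - e x - D (q - x)‖ ≤ δ1 / (2 * C) * ‖q - x‖ := b1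
          _ ≤ δ1 / (2 * C) * (C * r) := by gcongr
          _ = δ1 / 2 * r := by field_simp
          _ < δ1 * r := by gcongr; linarith
      have n1 : ‖fderiv ℝ e q (X q)‖ ≤ A := by
        have h1 := (fderiv ℝ e q).le_opNorm (X q)
        rw [H.fc.nX, mul_one] at h1
        exact h1.trans (hA q (H.O_K hqO))
      have n0 : ‖J q (X q)‖ ≤ A := by
        have h1 := (J q).le_opNorm (X q)
        rw [H.fc.nX, mul_one] at h1
        exact h1.trans (hAJ q (H.O_K hqO))
      have n2 : ‖fderiv ℝ e q (J q (X q))‖ ≤ A * A :=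
        ((fderiv ℝ e q).le_opNorm _).trans
          (mul_le_mul (hA q (H.O_K hqO)) n0 (norm_nonneg _) hA0.le)
      have n3 : ‖D (X q)‖ ≤ A := by
        have h1 := D.le_opNorm (X q)
        rw [H.fc.nX, mul_one] at h1
        exact h1.trans hDA
      have n4 : ‖fderiv ℝ e q (X q) - D (X q)‖ ≤ η := by
        have h1 := (fderiv ℝ e q - D).le_opNorm (X q)
        rw [H.fc.nX, mul_one] at h1
        exact h1.trans b2.le
      have n5 : ‖fderiv ℝ e q (J q (X q)) - D (J q (X q))‖ ≤ η * A :=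
        ((fderiv ℝ e q - D).le_opNorm _).trans
          (mul_le_mul b2.le n0 (norm_nonneg _) hη0.le)
      have h9 := norm_tri hA1 hMn w1 (hM _) n1 n2 n3 n4 n5 hη0.le hε10.le
      refine h9.trans ?_
      have c1 : ε1 * A ^ 3 = ε' / 4 := by rw [hε1]; field_simp
      have c2 : 2 * M * η * A ^ 2 ≤ ε' / 2 := by
        have : 2 * M * η * A ^ 2 = (M / (M + 1)) * (ε' / 2) := by
          rw [hη]; field_simp; ring
        rw [this]
        have h10 : M / (M + 1) ≤ 1 := by
          rw [div_le_one (by positivity)]; linarith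
        exact mul_le_of_le_one_left (by positivity) h10
      rw [c1]
      linarith
    rw [i1, i2, ← integral_sub j1 j2, dist_zero_right, norm_mul, norm_inv, norm_pow,
      Real.norm_of_nonneg hr0.le]
    have h1 := norm_setIntegral_le_of_norm_le_const (measure_lt_top m (closedBall x (C * r))) pt
    have h2 := H.fc.up x (C * r) (by positivity)
    have hr2 : 0 < r ^ 2 := by positivity
    rw [inv_mul_lt_iff₀ hr2]
    calc _ ≤ ε' * m.real (closedBall x (C * r)) := h1
      _ ≤ ε' * (K * (C * r) ^ 2) := mul_le_mul_of_nonneg_left h2 hε'0.le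
      _ = ε' * (K * C ^ 2) * r ^ 2 := by ring
      _ < ε' * (K * C ^ 2 + 1) * r ^ 2 := by
          refine mul_lt_mul_of_pos_right ?_ hr2
          exact mul_lt_mul_of_pos_left (lt_add_one _) hε'0
      _ = r ^ 2 * ε := by
          rw [hε']; field_simp
  have h3 := key.add e2
  rw [zero_add, H.lim_eq (v0 := v0) hx g'] at h3
  refine h3.congr fun r => ?_
  rw [e1 r, mul_sub]
  exact sub_add_cancel _ _

theorem fcur' (hv : ‖v0‖ = 1) : ∃ K' : ℝ, FCur J' V (pmm e V X m) (pX e V X v0) K' := by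
  obtain ⟨A, hA1, hA, hA', hAJ, hL, hL'⟩ := H.exists_const
  refine ⟨A ^ 2 * (K * (2 * A) ^ 2), ?_⟩
  exact
    { openU := H.opV
      smJ := H.smJ'
      sqJ := H.sqJ'
      fin := H.fin'
      mX := H.measurable_pX
      nX := H.norm_pX hv
      supp := H.supp'
      closed := fun l hl hc ht => H.closed' hl hc ht
      up := H.up' hA1 hA hL'
      low := H.low'
      flat := by
        refine ae_pm H.open_O H.sub_src ?_
        filter_upwards [H.fc.flat] with x hx hxO
        exact H.flat_at hxO hx }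

end PD

/-- **PUSH**: push-forward of a flat current by a diffeomorphism. -/
theorem push : PUSH := by
  intro E E' _ _ _ _ _ _ _ _ _ _ _ J U m X K hF e hs hsm hsms J' hJ' V hV hVc hVt
  obtain ⟨v0, hv0⟩ := exists_norm_eq E' zero_le_one
  have H : PD J U m X K e J' V := ⟨hF, hs, hsm, hsms, hJ', hV, hVc, hVt⟩
  obtain ⟨K', hK'⟩ := H.fcur' hv0
  exact ⟨pmm e V X m, pX e V X v0, K', hK', fun y hy => H.supp_iff hy,
    fun b _ _ hb => H.int_b hb⟩

end

end Crest.Agent.R235.RegPush_952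
end

-- ▼ part R235/Reg_BOXOF_679
section

/-!
Row 235 (S0364), PACKAGE REG, A1.2e (helper679): a flat current in a cylinder is a `BoxCur`.
-/

set_option autoImplicit false
set_option maxSynthPendingDepth 3

open MeasureTheory Metric Set Filter
open scoped ContDiff Topology

namespace Crest.Agent.R235.Reg_BOXOF_679

open Crest.Agent.R235.Loc Crest.Agent.R235.Cyl Crest.Agent.R235.Reg_522

noncomputable section

/-- the first component of `J X`. -/
def y1 (μ : CC → ℂ) (X : CC → CC) (p : CC) : ℂ :=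
  (Complex.I * thz μ p (X p) - μ p * (starRingEnd ℂ) (Complex.I * thz μ p (X p))) /
    (((1 - ‖μ p‖ ^ 2 : ℝ)) : ℂ)

/-- `J X`, defined everywhere. -/
def Yp (μ β : CC → ℂ) (X : CC → CC) (p : CC) : CC :=
  (y1 μ X p, Complex.I * thw β p (X p) - β p * (starRingEnd ℂ) (y1 μ X p))

theorem uniq {m Z : ℂ} (h : ‖m‖ < 1) (hz : Z + m * (starRingEnd ℂ) Z = 0) : Z = 0 := by
  have h1 : ‖Z‖ = ‖m‖ * ‖Z‖ := by
    have h2 : Z = - (m * (starRingEnd ℂ) Z) := eq_neg_of_add_eq_zero_left hz
    calc ‖Z‖ = ‖-(m * (starRingEnd ℂ) Z)‖ := by rw [← h2]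
      _ = ‖m‖ * ‖Z‖ := by rw [norm_neg, norm_mul, RCLike.norm_conj]
  have h2 : (1 - ‖m‖) * ‖Z‖ = 0 := by linarith
  rcases mul_eq_zero.1 h2 with h3 | h3
  · linarith
  · exact norm_eq_zero.1 h3

theorem y1_eq {μ : CC → ℂ} {X : CC → CC} {p : CC} (h : ‖μ p‖ < 1) :
    y1 μ X p + μ p * (starRingEnd ℂ) (y1 μ X p) = Complex.I * thz μ p (X p) := by
  have hr : (1 - ‖μ p‖ ^ 2 : ℝ) ≠ 0 := by
    have := norm_nonneg (μ p)
    nlinarith
  have hD : (((1 - ‖μ p‖ ^ 2 : ℝ)) : ℂ) ≠ 0 := by exact_mod_cast hr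
  have hm : μ p * (starRingEnd ℂ) (μ p) = ((‖μ p‖ ^ 2 : ℝ) : ℂ) := by
    rw [Complex.mul_conj, Complex.normSq_eq_norm_sq]
  unfold y1
  generalize Complex.I * thz μ p (X p) = a
  rw [map_div₀, map_sub, map_mul, Complex.conj_ofReal, Complex.conj_conj]
  rw [mul_div_assoc', ← add_div, div_eq_iff hD]
  have e1 : a - μ p * (starRingEnd ℂ) a + μ p * ((starRingEnd ℂ) a - (starRingEnd ℂ) (μ p) * a) =
      a * (1 - μ p * (starRingEnd ℂ) (μ p)) := by ring
  rw [e1, hm]
  push_cast
  ring

theorem jz' {μ : CC → ℂ} (β : CC → ℂ) {X : CC → CC} {p : CC} (h : ‖μ p‖ < 1) :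
    thz μ p (Yp μ β X p) = Complex.I * thz μ p (X p) := y1_eq h

theorem jw' {μ β : CC → ℂ} {X : CC → CC} {p : CC} :
    thw β p (Yp μ β X p) = Complex.I * thw β p (X p) := by
  change Complex.I * thw β p (X p) - β p * (starRingEnd ℂ) (y1 μ X p) +
    β p * (starRingEnd ℂ) (y1 μ X p) = _
  ring

theorem eq_of {μ β : CC → ℂ} {X : CC → CC} {p Y : CC} (h : ‖μ p‖ < 1)
    (h1 : thz μ p Y = Complex.I * thz μ p (X p)) (h2 : thw β p Y = Complex.I * thw β p (X p)) :
    Yp μ β X p = Y := by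
  have e1 : y1 μ X p = Y.1 := by
    have h3 := y1_eq (X := X) h
    rw [← h1] at h3
    unfold thz at h3
    have h4 : (y1 μ X p - Y.1) + μ p * (starRingEnd ℂ) (y1 μ X p - Y.1) = 0 := by
      rw [map_sub]
      linear_combination h3
    exact sub_eq_zero.1 (uniq h h4)
  have e2 : Complex.I * thw β p (X p) - β p * (starRingEnd ℂ) (y1 μ X p) = Y.2 := by
    rw [e1, ← h2]
    unfold thw
    ring
  exact Prod.ext e1 e2

theorem measurable_Yp {μ β : CC → ℂ} {X : CC → CC} (hμ : Measurable μ) (hβ : Measurable β)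
    (hX : Measurable X) : Measurable (Yp μ β X) := by
  have hc : Measurable (starRingEnd ℂ) := Complex.continuous_conj.measurable
  have ha : Measurable fun p => Complex.I * thz μ p (X p) := by
    unfold thz
    exact measurable_const.mul (hX.fst.add (hμ.mul (hc.comp hX.fst)))
  have hb : Measurable fun p => Complex.I * thw β p (X p) := by
    unfold thw
    exact measurable_const.mul (hX.snd.add (hβ.mul (hc.comp hX.fst)))
  have h1 : Measurable (y1 μ X) := by
    unfold y1
    exact (ha.sub (hμ.mul (hc.comp ha))).div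
      (Complex.measurable_ofReal.comp (measurable_const.sub (hμ.norm.pow_const 2)))
  exact h1.prodMk (hb.sub (hβ.mul (hc.comp h1)))

theorem norm_y1_le {μ : CC → ℂ} {X : CC → CC} {p : CC} {κ : ℝ} (h : ‖μ p‖ ≤ κ) (hκ : κ < 1)
    (hX : ‖X p‖ = 1) : ‖y1 μ X p‖ ≤ 2 / (1 - κ) := by
  have h0 := norm_nonneg (μ p)
  have h1 := y1_eq (X := X) (h.trans_lt hκ)
  have hX1 : ‖(X p).1‖ ≤ 1 := (norm_fst_le (X p)).trans hX.le
  have h2 : ‖Complex.I * thz μ p (X p)‖ ≤ 2 := by
    rw [norm_mul, Complex.norm_I, one_mul]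
    unfold thz
    calc ‖(X p).1 + μ p * (starRingEnd ℂ) (X p).1‖ ≤ ‖(X p).1‖ + ‖μ p‖ * ‖(X p).1‖ := by
          refine (norm_add_le _ _).trans ?_
          rw [norm_mul, RCLike.norm_conj]
      _ ≤ 1 + 1 * 1 := by gcongr; linarith
      _ = 2 := by norm_num
  have h3 : ‖y1 μ X p‖ - κ * ‖y1 μ X p‖ ≤ 2 := by
    have h4 : ‖y1 μ X p‖ ≤ ‖Complex.I * thz μ p (X p)‖ + ‖μ p * (starRingEnd ℂ) (y1 μ X p)‖ := by
      have h5 : y1 μ X p = Complex.I * thz μ p (X p) - μ p * (starRingEnd ℂ) (y1 μ X p) := by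
        rw [← h1]; ring
      calc ‖y1 μ X p‖ = ‖Complex.I * thz μ p (X p) - μ p * (starRingEnd ℂ) (y1 μ X p)‖ := by
            rw [← h5]
        _ ≤ _ := norm_sub_le _ _
    rw [norm_mul (μ p), RCLike.norm_conj] at h4
    have h6 : ‖μ p‖ * ‖y1 μ X p‖ ≤ κ * ‖y1 μ X p‖ := by gcongr
    linarith
  rw [le_div_iff₀ (by linarith)]
  linarith

theorem norm_Yp_le {μ β : CC → ℂ} {X : CC → CC} {p : CC} {κ L : ℝ} (h : ‖μ p‖ ≤ κ) (hκ : κ < 1)
    (hL : 0 ≤ L) (hβ : ‖β p‖ ≤ L) (hX : ‖X p‖ = 1) :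
    ‖Yp μ β X p‖ ≤ (1 + L) * (1 + 2 / (1 - κ)) := by
  have hk : 0 ≤ 2 / (1 - κ) := div_nonneg (by norm_num) (by linarith)
  have h1 := norm_y1_le h hκ hX
  have hX1 : ‖(X p).1‖ ≤ 1 := (norm_fst_le (X p)).trans hX.le
  have hX2 : ‖(X p).2‖ ≤ 1 := (norm_snd_le (X p)).trans hX.le
  have h2 : ‖Complex.I * thw β p (X p) - β p * (starRingEnd ℂ) (y1 μ X p)‖ ≤
      (1 + L) + L * (2 / (1 - κ)) := by
    refine (norm_sub_le _ _).trans (add_le_add ?_ ?_)
    · rw [norm_mul, Complex.norm_I, one_mul]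
      unfold thw
      calc ‖(X p).2 + β p * (starRingEnd ℂ) (X p).1‖ ≤ ‖(X p).2‖ + ‖β p‖ * ‖(X p).1‖ := by
            refine (norm_add_le _ _).trans ?_
            rw [norm_mul, RCLike.norm_conj]
        _ ≤ 1 + L * 1 := by gcongr
        _ = 1 + L := by ring
    · rw [norm_mul, RCLike.norm_conj]
      gcongr
  rw [Yp, Prod.norm_def]
  refine max_le ?_ ?_
  · dsimp only
    nlinarith [mul_nonneg hL hk]
  · dsimp only
    nlinarith [mul_nonneg hL hk]

theorem ae_supp (m : Measure CC) : ∀ᵐ p ∂m, SuppE m p := by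
  have h1 : m {p | ¬ SuppE m p} = 0 := by
    refine measure_null_of_locally_null _ fun p hp => ?_
    have hp' : ∃ r > 0, ¬ 0 < m (ball p r) := by
      by_contra hcon
      push Not at hcon
      exact hp fun r hr => hcon r hr
    obtain ⟨r, hr, h⟩ := hp'
    exact ⟨ball p r, mem_nhdsWithin_of_mem_nhds (ball_mem_nhds p hr), by simpa using h⟩
  exact h1

/-- **(A1.2e)**. -/
theorem boxof : BOXOF := by
  intro μ β κ L hb J R ρ₀ ρ₁ hR hρ₀ hρ hJ m X K hF hsupp
  have hκ0 := hb.box.κ0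
  have hκ1 := hb.box.κ1
  have hL0 := hb.box.L0
  have hm1 : ∀ p, ‖μ p‖ < 1 := fun p => (hb.box.bμ p).trans_lt hκ1
  have hfin := hF.fin
  have hY : ∀ p ∈ ball (0 : ℂ) R ×ˢ ball (0 : ℂ) ρ₁, Yp μ β X p = J p (X p) := fun p hp =>
    eq_of (hm1 p) (hJ p hp (X p)).1 (hJ p hp (X p)).2
  set K' : ℝ := max K ((1 + L) * (1 + 2 / (1 - κ))) with hK'
  have hae : ∀ᵐ p ∂m, p ∈ ball (0 : ℂ) R ×ˢ ball (0 : ℂ) ρ₁ ∧ ‖p.2‖ ≤ ρ₀ := by
    filter_upwards [hF.supp, ae_supp m] with p h1 h2
    exact ⟨h1, hsupp p h1 h2⟩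
  refine ⟨X, Yp μ β X, K', ?_, fun p hp => ⟨rfl, hY p hp⟩⟩
  refine
    { fin := hfin
      mX := hF.mX
      mY := measurable_Yp hb.smμ.continuous.measurable hb.smβ.continuous.measurable hF.mX
      nX := hF.nX
      nY := fun p => (norm_Yp_le (hb.box.bμ p) hκ1 hL0 (hb.bβ p) (hF.nX p)).trans (le_max_right _ _)
      jz := fun p => jz' β (hm1 p)
      jw := fun p => jw'
      supp := ?_
      closed := ?_
      up := ?_
      low := ?_
      flat := ?_ }
  · filter_upwards [hae] with p hp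
    exact ⟨hp.1.1, hp.2⟩
  · intro l hl hlc hls
    let χ : ContDiffBump (0 : ℂ) :=
      { rIn := (2 * ρ₀ + ρ₁) / 3
        rOut := (ρ₀ + 2 * ρ₁) / 3
        rIn_pos := by linarith
        rIn_lt_rOut := by linarith }
    have hχ : ContDiff ℝ ∞ (fun p : CC => χ p.2) := χ.contDiff.comp contDiff_snd
    set l' : CC → (CC →L[ℝ] ℝ) := fun p => χ p.2 • l p with hl'
    have h1 : ContDiff ℝ ∞ l' := hχ.smul hl
    have hs1 : Function.support l' ⊆ Function.support l := by
      intro p hp h0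
      exact hp (by change χ p.2 • l p = 0; rw [h0, smul_zero])
    have hs2 : Function.support l' ⊆ {q : CC | q.2 ∈ closedBall (0 : ℂ) ((ρ₀ + 2 * ρ₁) / 3)} := by
      intro p hp
      by_contra hcon
      refine hp ?_
      have h0 : χ p.2 = 0 := by
        by_contra h00
        have hq' : p.2 ∈ Function.support χ := h00
        rw [χ.support_eq] at hq'
        exact hcon (ball_subset_closedBall hq')
      change χ p.2 • l p = 0
      rw [h0, zero_smul]
    have h2 : HasCompactSupport l' := hlc.mono hs1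
    have h3 : tsupport l' ⊆ ball (0 : ℂ) R ×ˢ ball (0 : ℂ) ρ₁ := by
      intro p hp
      have a1 : p ∈ tsupport l := closure_mono hs1 hp
      have a3 : p.2 ∈ closedBall (0 : ℂ) ((ρ₀ + 2 * ρ₁) / 3) := by
        have hcl : IsClosed {q : CC | q.2 ∈ closedBall (0 : ℂ) ((ρ₀ + 2 * ρ₁) / 3)} :=
          isClosed_closedBall.preimage continuous_snd
        exact closure_minimal hs2 hcl hp
      refine ⟨(hls a1).1, ?_⟩
      rw [mem_closedBall] at a3
      rw [mem_ball]
      linarith
    have h4 := hF.closed l' h1 h2 h3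
    rw [← h4]
    refine integral_congr_ae ?_
    filter_upwards [hae] with p hp
    have e : l' =ᶠ[𝓝 p] l := by
      have e1 : p.2 ∈ ball (0 : ℂ) χ.rIn := by
        rw [mem_ball_zero_iff]
        change ‖p.2‖ < (2 * ρ₀ + ρ₁) / 3
        linarith [hp.2]
      have e2 : ∀ᶠ q : CC in 𝓝 p, q.2 ∈ ball (0 : ℂ) χ.rIn :=
        continuous_snd.continuousAt.eventually_mem (isOpen_ball.mem_nhds e1)
      filter_upwards [e2] with q hq
      have e3 : χ q.2 = 1 := χ.one_of_mem_closedBall (ball_subset_closedBall hq)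
      simp only [hl', e3, one_smul]
    rw [e.fderiv_eq, hY p hp.1]
  · intro p r hr
    refine (hF.up p r hr).trans ?_
    gcongr
    exact le_max_left _ _
  · intro R' hR'
    obtain ⟨c₀, hc₀, r₀, hr₀, h⟩ := hF.low (closedBall 0 R' ×ˢ closedBall 0 ρ₀) (by
      refine Set.prod_mono (closedBall_subset_ball hR') (closedBall_subset_ball hρ))
      ((isCompact_closedBall _ _).prod (isCompact_closedBall _ _))
    refine ⟨c₀, hc₀, r₀, hr₀, fun p hp hps r hr hrr => h p ⟨hp, ?_⟩ hps r hr hrr⟩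
    rw [mem_closedBall_zero_iff]
    by_contra hcon
    push Not at hcon
    have hz : m (ball p (‖p.2‖ - ρ₀)) = 0 := by
      refine measure_mono_null (t := {q | ¬ (q ∈ ball (0 : ℂ) R ×ˢ ball (0 : ℂ) ρ₁ ∧ ‖q.2‖ ≤ ρ₀)})
        (fun q hq hq2 => ?_) hae
      rw [mem_ball, dist_eq_norm] at hq
      have h5 : ‖p.2‖ ≤ ‖q.2‖ + ‖q - p‖ := by
        calc ‖p.2‖ = ‖q.2 - (q - p).2‖ := by rw [Prod.snd_sub]; congr 1; ring
          _ ≤ ‖q.2‖ + ‖(q - p).2‖ := norm_sub_le _ _
          _ ≤ ‖q.2‖ + ‖q - p‖ := by gcongr; exact norm_snd_le _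
      linarith [hq2.2]
    exact (hps (‖p.2‖ - ρ₀) (by linarith)).ne' hz
  · filter_upwards [hF.flat, hF.supp] with p hp hps
    intro g hg hgc hga
    have h1 := hp g hg hgc hga
    rw [hY p hps]
    refine h1.congr fun r => ?_
    congr 1
    refine integral_congr_ae ?_
    filter_upwards [hF.supp] with q hq
    rw [hY q hq]

end

end Crest.Agent.R235.Reg_BOXOF_679
end

-- ▼ part R235/Reg_BOXEX_52
section

/-!
Row 235, PACKAGE REG (helper522), leaf A1.2 BOXEX (helper52): assembly cylinder + box current.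
Reusable: `fd_symm_fd`, `fd_fd_symm` (derivatives of a smooth `OpenPartialHomeomorph`), `pushJ`
(the push-forward structure), `exists_restr` (restriction to an open subset of the target).
-/

set_option autoImplicit false
set_option maxSynthPendingDepth 3
set_option linter.unusedSectionVars false

open MeasureTheory Metric Set Filter
open scoped ContDiff Topology Manifold

namespace Crest.Agent.R235.Reg_BOXEX_52

open Crest.Agent.R240 Crest.Agent.R240.Ch
open Crest.Agent.R235.Loc Crest.Agent.R235.Cyl Crest.Agent.R235.CurDefs_132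
open Crest.Agent.R235.NWDefs_334 Crest.Agent.R235.Reg_522

noncomputable section

section gen

variable {E E' : Type*} [NormedAddCommGroup E] [NormedSpace ℝ E] [NormedAddCommGroup E']
  [NormedSpace ℝ E']

/-- restriction to an open subset of the target -/
theorem exists_restr (e : OpenPartialHomeomorph E E') {V : Set E'} (hV : IsOpen V)
    (hVt : V ⊆ e.target) : ∃ e' : OpenPartialHomeomorph E E', (e' : E → E') = e ∧
      (e'.symm : E' → E) = e.symm ∧ e'.target = V ∧ e'.source = e.source ∩ e ⁻¹' V := by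
  refine ⟨(e.symm.restrOpen V hV).symm, rfl, rfl, ?_, ?_⟩
  · show e.target ∩ V = V
    exact inter_eq_self_of_subset_right hVt
  · show (e.symm.restrOpen V hV).target = e.source ∩ e ⁻¹' V
    rfl

theorem fd_symm_fd {e : OpenPartialHomeomorph E E'} (h1 : ContDiffOn ℝ ∞ e e.source)
    (h2 : ContDiffOn ℝ ∞ e.symm e.target) {x : E} (hx : x ∈ e.source) (v : E) :
    fderiv ℝ e.symm (e x) (fderiv ℝ e x v) = v := by
  have a1 : DifferentiableAt ℝ e x :=
    (h1.contDiffAt (e.open_source.mem_nhds hx)).differentiableAt (by simp)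
  have a2 : DifferentiableAt ℝ e.symm (e x) :=
    (h2.contDiffAt (e.open_target.mem_nhds (e.map_source hx))).differentiableAt (by simp)
  have a3 := (a2.hasFDerivAt.comp x a1.hasFDerivAt)
  have a4 : HasFDerivAt (e.symm ∘ e) (ContinuousLinearMap.id ℝ E) x := by
    refine (hasFDerivAt_id x).congr_of_eventuallyEq ?_
    filter_upwards [e.open_source.mem_nhds hx] with y hy
    exact e.left_inv hy
  have a5 := a3.unique a4
  exact congrArg (fun A : E →L[ℝ] E => A v) a5

theorem fd_fd_symm {e : OpenPartialHomeomorph E E'} (h1 : ContDiffOn ℝ ∞ e e.source)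
    (h2 : ContDiffOn ℝ ∞ e.symm e.target) {y : E'} (hy : y ∈ e.target) (v : E') :
    fderiv ℝ e (e.symm y) (fderiv ℝ e.symm y v) = v :=
  fd_symm_fd (e := e.symm) h2 h1 hy v

/-- the push-forward of the structure `J` -/
def pushJ (e : OpenPartialHomeomorph E E') (J : E → E →L[ℝ] E) (p : E') : E' →L[ℝ] E' :=
  (fderiv ℝ e (e.symm p)).comp ((J (e.symm p)).comp (fderiv ℝ e.symm p))

theorem pushJ_apply (e : OpenPartialHomeomorph E E') (J : E → E →L[ℝ] E) (p v : E') :
    pushJ e J p v = fderiv ℝ e (e.symm p) (J (e.symm p) (fderiv ℝ e.symm p v)) := rfl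

theorem pushJ_smooth {e : OpenPartialHomeomorph E E'} (h1 : ContDiffOn ℝ ∞ e e.source)
    (h2 : ContDiffOn ℝ ∞ e.symm e.target) {J : E → E →L[ℝ] E} (hJ : ContDiffOn ℝ ∞ J e.source) :
    ContDiffOn ℝ ∞ (pushJ e J) e.target := by
  have m1 : MapsTo e.symm e.target e.source := fun y hy => e.map_target hy
  have a1 : ContDiffOn ℝ ∞ (fun p => fderiv ℝ e (e.symm p)) e.target :=
    (h1.fderiv_of_isOpen e.open_source (m := ∞) (by simp)).comp h2 m1
  have a2 : ContDiffOn ℝ ∞ (fun p => J (e.symm p)) e.target := hJ.comp h2 m1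
  have a3 : ContDiffOn ℝ ∞ (fun p => fderiv ℝ e.symm p) e.target :=
    h2.fderiv_of_isOpen e.open_target (m := ∞) (by simp)
  exact a1.clm_comp (a2.clm_comp a3)

theorem pushJ_sq {e : OpenPartialHomeomorph E E'} (h1 : ContDiffOn ℝ ∞ e e.source)
    (h2 : ContDiffOn ℝ ∞ e.symm e.target) {J : E → E →L[ℝ] E}
    (hJ : ∀ x ∈ e.source, ∀ v, J x (J x v) = -v) {p : E'} (hp : p ∈ e.target) (v : E') :
    pushJ e J p (pushJ e J p v) = -v := by
  have hx : e.symm p ∈ e.source := e.map_target hp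
  have h3 := fd_symm_fd h1 h2 hx (J (e.symm p) (fderiv ℝ e.symm p v))
  rw [e.right_inv hp] at h3
  rw [pushJ_apply, pushJ_apply, h3, hJ _ hx, map_neg, fd_fd_symm h1 h2 hp]

theorem pushJ_fd {e : OpenPartialHomeomorph E E'} (h1 : ContDiffOn ℝ ∞ e e.source)
    (h2 : ContDiffOn ℝ ∞ e.symm e.target) (J : E → E →L[ℝ] E) {x : E} (hx : x ∈ e.source)
    (v : E) : pushJ e J (e x) (fderiv ℝ e x v) = fderiv ℝ e x (J x v) := by
  rw [pushJ_apply, e.left_inv hx, fd_symm_fd h1 h2 hx]

end gen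

theorem boxex : CYLEX → MUBETA → PUSH → BOXOF → BOXEX := by
  intro hC hM hP hB J r hJ m X K hF
  obtain ⟨e, R, ρ₀, ρ₁, hR, hρ₀, hρ, hs, ht, h0, he0, hsm, hsm', hv, hq, hsupp⟩ :=
    hC J r hJ m X K hF
  set R' : ℝ := R / 2 with hR'
  set ρ' : ℝ := (ρ₀ + ρ₁) / 2 with hρ'
  have hR'0 : 0 < R' := by positivity
  have hR'R : R' < R := by rw [hR']; linarith
  have hρ0' : ρ₀ < ρ' := by rw [hρ']; linarith
  have hρ1' : ρ' < ρ₁ := by rw [hρ']; linarith
  set V : Set CC := ball (0 : ℂ) R' ×ˢ ball (0 : ℂ) ρ' with hVd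
  set Q : Set CC := closedBall (0 : ℂ) R' ×ˢ closedBall (0 : ℂ) ρ' with hQd
  have hVo : IsOpen V := isOpen_ball.prod isOpen_ball
  have hQc : IsCompact Q := (isCompact_closedBall _ _).prod (isCompact_closedBall _ _)
  have hVQ : V ⊆ Q := prod_mono ball_subset_closedBall ball_subset_closedBall
  have hQt : Q ⊆ e.target := by
    rw [ht]
    exact prod_mono (closedBall_subset_ball hR'R) (closedBall_subset_ball hρ1')
  have hVt : V ⊆ e.target := hVQ.trans hQt
  have hclV : closure V ⊆ Q := closure_minimal hVQ hQc.isClosed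
  have hclc : IsCompact (closure V) := hQc.of_isClosed_subset isClosed_closure hclV
  have hsmJ : ContDiffOn ℝ ∞ J e.source := hF.smJ.mono hs
  have hsqJ : ∀ x ∈ e.source, ∀ v, J x (J x v) = -v := fun x hx => hF.sqJ x (hs hx)
  have hJ2s : ContDiffOn ℝ ∞ (pushJ e J) e.target := pushJ_smooth hsm hsm' hsmJ
  obtain ⟨μ, β, κ, L, hS, hrel⟩ := hM (pushJ e J) e.target e.open_target hJ2s
    (fun p hp v => pushJ_sq hsm hsm' hsqJ hp v)
    (fun p hp v => by
      rw [pushJ_apply, ← hv p hp v, fd_fd_symm hsm hsm' hp])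
    (fun p hp v => hq p hp v) Q hQc hQt
  obtain ⟨m', X', K', hF', hsup', hform⟩ := hP CC CC J (ball 0 r) m X K hF e hs hsm hsm'
    (pushJ e J) (fun x hx v => pushJ_fd hsm hsm' J hx v) V hVo hclc (hclV.trans hQt)
  obtain ⟨X'', Y'', K'', hBox, hXY⟩ := hB μ β κ L hS (pushJ e J) R' ρ₀ ρ' hR'0 hρ₀ hρ0'
    (fun p hp v => hrel p (hVQ hp) v) m' X' K' hF'
    (fun p hp hp' => hsupp p (hVt hp) ((hsup' p hp).1 hp'))
  obtain ⟨e', he1, he2, he3, he4⟩ := exists_restr e hVo hVt
  have hsub : e'.source ⊆ e.source := by rw [he4]; exact inter_subset_left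
  have h00 : (0 : CC) ∈ V := ⟨mem_ball_self hR'0, mem_ball_self (hρ₀.trans hρ0')⟩
  refine ⟨μ, β, κ, L, R', ρ₀, ρ', K'', m', X'', Y'', e', hS, hR'0, hρ₀, hρ0', hBox,
    hsub.trans hs, he3, ?_, ?_, ?_, ?_, ?_, ?_, ?_⟩
  · rw [he4]
    refine ⟨h0, ?_⟩
    show e 0 ∈ V
    rw [he0]; exact h00
  · rw [he1]; exact he0
  · rw [he1]; exact hsm.mono hsub
  · rw [he2, he3]; exact hsm'.mono hVt
  · intro x hx v
    rw [he4] at hx
    have h1 := hrel (e x) (hVQ hx.2) (fderiv ℝ e x v)
    rw [pushJ_fd hsm hsm' J hx.1] at h1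
    rw [he1]
    exact h1
  · intro y hy
    rw [he3] at hy
    rw [he2]
    exact hsup' y hy
  · intro b hb hb' hbQ
    rw [he3] at hbQ
    obtain ⟨T, hTV, hTc, hT0⟩ := hbQ
    have h1 := hform b hb hb' ⟨T, hTV, hTc, hT0⟩
    have h2 : ∫ x in e'.source, b (e' x) (fderiv ℝ e' x (X x)) (fderiv ℝ e' x (J x (X x))) ∂m =
        ∫ x in e.source, b (e x) (fderiv ℝ e x (X x)) (fderiv ℝ e x (J x (X x))) ∂m := by
      rw [he1]
      refine (setIntegral_eq_of_subset_of_forall_sdiff_eq_zero e.open_source.measurableSet hsub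
        ?_).symm
      intro x hx
      have h3 : e x ∉ V := fun h => hx.2 (by rw [he4]; exact ⟨hx.1, h⟩)
      rw [hT0 _ (fun h => h3 (hTV h))]
      rfl
    rw [h2, h1]
    refine integral_congr_ae (Eventually.of_forall fun y => ?_)
    by_cases hy : y ∈ V
    · have h4 := hXY y hy
      show b y (X' y) (pushJ e J y (X' y)) = b y (X'' y) (Y'' y)
      rw [h4.1, h4.2]
    · show b y (X' y) (pushJ e J y (X' y)) = b y (X'' y) (Y'' y)
      rw [hT0 y (fun h => hy (hTV h))]
      rfl

end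

end Crest.Agent.R235.Reg_BOXEX_52
end

-- ▼ part R235/Reg_BOXLF_437
section

/-!
Row 235 (S0364), PACKAGE REG, A7a (helper437, task 410): `CYLF → END → BOXLF`.
-/

set_option autoImplicit false
set_option maxSynthPendingDepth 3

open MeasureTheory Metric Set Filter
open scoped ContDiff Topology Manifold

namespace Crest.Agent.R235.Reg_BOXLF_437

open Crest.Agent.R235.Loc Crest.Agent.R235.Cyl Crest.Agent.R235.Reg_522

noncomputable section

/-- **BOXLF.** -/
theorem boxlf (hC : CYLF) (hE : End.END) : BOXLF := by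
  intro μ β κ L hB R ρ K m X Y hR hm p O hO hp hOs
  obtain ⟨k, S, e, hKG, hDec, -, hS, hnd, hform⟩ := hC μ β κ L hB 0 R ρ K m X Y hm hR
  have hp1 : p.1 ∈ ball (0 : ℂ) R := (hOs hp).1
  have hcl : ∃ C b r : ℝ, 0 < b ∧ 0 < r ∧ ∀ z ∈ ball p.1 r, ∀ z' ∈ ball p.1 r,
      Close (C * dist z z' ^ b) (S z) (S z') := by
    have h1 := mem_ball.1 hp1
    obtain ⟨C, b, r₀, -, hb, -, -, -, -, h⟩ := hDec ((dist p.1 0 + R) / 2) (by linarith)
    refine ⟨C, b, (R - dist p.1 0) / 2, hb, by linarith, fun z hz z' hz' => h z ?_ z' ?_⟩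
    · have h2 := mem_ball.1 hz
      have h3 := dist_triangle z p.1 0
      rw [mem_closedBall]; linarith
    · have h2 := mem_ball.1 hz'
      have h3 := dist_triangle z' p.1 0
      rw [mem_closedBall]; linarith
  obtain ⟨U, n, u, hP⟩ := hE μ β κ L hB.box hB.smμ hB.smβ 0 R k S e hKG p.1 hp1 hcl
    (hnd p.1 hp1) p.2 O hO hp hOs
  refine ⟨U, n, u, hP.sub, ?_, ?_⟩
  · refine ⟨hP.openU, hP.mem, fun j => (hP.disc j).smooth, fun j z hz v =>
      ⟨(hP.disc j).jz z hz v, (hP.disc j).jw z hz v⟩, fun j => (hP.disc j).inj,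
      fun j => (hP.disc j).imm, hP.centre, hP.disj, ?_, hP.proper⟩
    rw [← hP.supp]
    ext q
    constructor
    · rintro ⟨h1, h2⟩
      exact ⟨(hS q.1 (hOs (hP.sub h2)).1 q.2).2 h1, h2⟩
    · rintro ⟨h1, h2⟩
      exact ⟨(hS q.1 (hOs (hP.sub h2)).1 q.2).1 h1, h2⟩
  · intro b hb hb0 hQ
    obtain ⟨Q, hQU, hQc, hQ0⟩ := hQ
    have hQ0' : ∀ q : CC, q.1 ∉ Prod.fst '' Q → b q = 0 := fun q hq =>
      hQ0 q fun h => hq ⟨q, h, rfl⟩
    have hTs : Prod.fst '' Q ⊆ ball (0 : ℂ) R := by
      rintro _ ⟨q, hq, rfl⟩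
      exact (hOs (hP.sub (hQU hq))).1
    obtain ⟨-, h1⟩ := hform b hb ⟨Prod.fst '' Q, hTs, hQc.image continuous_fst, hQ0'⟩ hb0
    obtain ⟨-, -, h2⟩ := hP.cur b hb hb0 ⟨Q, hQU, hQc, hQ0⟩
    change ∫ q, b q (X q) (Y q) ∂m = _
    rw [h1, ← h2]
    refine setIntegral_eq_integral_of_forall_compl_eq_zero fun z hz => ?_
    refine Finset.sum_eq_zero fun w _ => ?_
    rw [hQ0' (z, w) fun h => hz (hTs h)]
    simp

end

end Crest.Agent.R235.Reg_BOXLF_437
end

-- ▼ part R235/Reg_LFPULL_133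
section

/-!
Row 235 (S0364), package REG, leaf A7b LFPULL (helper133): transport of a local form by a
diffeomorphism.
-/

set_option autoImplicit false
set_option maxSynthPendingDepth 3

open MeasureTheory Metric Set Filter
open scoped ContDiff Topology Manifold

namespace Crest.Agent.R235.Reg_LFPULL_133

open Crest.Agent.R235.Reg_522

noncomputable section

section aux

variable {E E' : Type*} [NormedAddCommGroup E] [NormedSpace ℝ E] [NormedAddCommGroup E']
  [NormedSpace ℝ E'] (e : OpenPartialHomeomorph E E') (h1 : ContDiffOn ℝ ∞ e e.source)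
  (h2 : ContDiffOn ℝ ∞ e.symm e.target)

include h1 in
theorem e_diff {x : E} (hx : x ∈ e.source) : HasFDerivAt e (fderiv ℝ e x) x :=
  ((h1.contDiffAt (e.open_source.mem_nhds hx)).differentiableAt (by simp)).hasFDerivAt

include h2 in
theorem es_diff {y : E'} (hy : y ∈ e.target) : HasFDerivAt e.symm (fderiv ℝ e.symm y) y :=
  ((h2.contDiffAt (e.open_target.mem_nhds hy)).differentiableAt (by simp)).hasFDerivAt

include h1 h2 in
theorem ses {x : E} (hx : x ∈ e.source) (v : E) :
    fderiv ℝ e.symm (e x) (fderiv ℝ e x v) = v := by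
  have a := e_diff e h1 hx
  have b := es_diff e h2 (e.map_source hx)
  have c := b.comp x a
  have d : (e.symm ∘ e) =ᶠ[𝓝 x] id := by
    filter_upwards [e.open_source.mem_nhds hx] with z hz
    exact e.left_inv hz
  have f := (c.congr_of_eventuallyEq d.symm).unique (hasFDerivAt_id x)
  have g := congrArg (fun L : E →L[ℝ] E => L v) f
  simpa using g

include h1 h2 in
theorem ess {y : E'} (hy : y ∈ e.target) (v : E') :
    fderiv ℝ e (e.symm y) (fderiv ℝ e.symm y v) = v := by
  have a := es_diff e h2 hy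
  have b := e_diff e h1 (e.map_target hy)
  have c := b.comp y a
  have d : (e ∘ e.symm) =ᶠ[𝓝 y] id := by
    filter_upwards [e.open_target.mem_nhds hy] with z hz
    exact e.right_inv hz
  have f := (c.congr_of_eventuallyEq d.symm).unique (hasFDerivAt_id y)
  have g := congrArg (fun L : E' →L[ℝ] E' => L v) f
  simpa using g

end aux

theorem lfpull : LFPULL := by
  intro E E' _ _ _ _ _ _ R R' S S' e h1 h2 hR hS T T' hT p U' n u' hp hU' H HC
  -- the discs stay in `U'`
  have hu : ∀ j, ∀ z ∈ ball (0 : ℂ) 1, u' j z ∈ U' := by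
    intro j z hz
    have : u' j z ∈ S' ∩ U' := by
      rw [H.supp]; exact mem_iUnion.2 ⟨j, mem_image_of_mem _ hz⟩
    exact this.2
  have hut : ∀ j, ∀ z ∈ ball (0 : ℂ) 1, u' j z ∈ e.target := fun j z hz => hU' (hu j z hz)
  have hd' : ∀ j, ∀ z ∈ ball (0 : ℂ) 1, HasFDerivAt (u' j) (fderiv ℝ (u' j) z) z :=
    fun j z hz => (((H.smooth j).contDiffAt (isOpen_ball.mem_nhds hz)).differentiableAt
      (by simp)).hasFDerivAt
  have hd : ∀ j, ∀ z ∈ ball (0 : ℂ) 1, ∀ v : ℂ, fderiv ℝ (fun z => e.symm (u' j z)) z v =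
      fderiv ℝ e.symm (u' j z) (fderiv ℝ (u' j) z v) := by
    intro j z hz v
    have a := (es_diff e h2 (hut j z hz)).comp z (hd' j z hz)
    have b : fderiv ℝ (fun z => e.symm (u' j z)) z
        = (fderiv ℝ e.symm (u' j z)).comp (fderiv ℝ (u' j) z) := a.fderiv
    rw [b]; rfl
  have hed : ∀ j, ∀ z ∈ ball (0 : ℂ) 1, ∀ v : ℂ, fderiv ℝ e (e.symm (u' j z))
      (fderiv ℝ (fun z => e.symm (u' j z)) z v) = fderiv ℝ (u' j) z v := by
    intro j z hz v
    rw [hd j z hz, ess e h1 h2 (hut j z hz)]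
  have hinj : ∀ {a b : E'}, a ∈ e.target → b ∈ e.target → e.symm a = e.symm b → a = b :=
    fun {a b} ha hb h => e.symm.injOn ha hb h
  refine ⟨⟨?_, ?_, ?_, ?_, ?_, ?_, ?_, ?_, ?_, ?_⟩, ?_⟩
  · exact e.symm.isOpen_image_of_subset_source H.openU hU'
  · exact ⟨e p, H.mem, e.left_inv hp⟩
  · intro j
    exact h2.comp (H.smooth j) (fun z hz => hut j z hz)
  · intro j z hz v
    apply hR _ (e.map_target (hut j z hz))
    rw [hed j z hz, hed j z hz, e.right_inv (hut j z hz)]
    exact H.jhol j z hz v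
  · intro j z hz w hw h
    exact H.inj j hz hw (hinj (hut j z hz) (hut j w hw) h)
  · intro j z hz hz0 v hv
    apply H.imm j z hz hz0 v
    rw [← hed j z hz, hv, map_zero]
  · intro j
    change e.symm (u' j 0) = p
    rw [H.centre j, e.left_inv hp]
  · intro i j hij z hz w hw h
    exact H.disj i j hij z hz w hw (hinj (hut i z hz) (hut j w hw) h)
  · ext x
    constructor
    · rintro ⟨hxS, y, hy, rfl⟩
      have hyS : y ∈ S' ∩ U' := ⟨(hS y (hU' hy)).2 hxS, hy⟩
      rw [H.supp] at hyS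
      obtain ⟨j, z, hz, rfl⟩ := mem_iUnion.1 hyS
      exact mem_iUnion.2 ⟨j, z, hz, rfl⟩
    · intro hx
      obtain ⟨j, z, hz, rfl⟩ := mem_iUnion.1 hx
      have : u' j z ∈ S' ∩ U' := by
        rw [H.supp]; exact mem_iUnion.2 ⟨j, mem_image_of_mem _ hz⟩
      exact ⟨(hS _ (hut j z hz)).1 this.1, u' j z, this.2, rfl⟩
  · intro j Q hQ hQU
    have hQs : Q ⊆ e.source := by
      intro x hx
      obtain ⟨y, hy, rfl⟩ := hQU hx
      exact e.map_target (hU' hy)
    have hQ' : IsCompact (e '' Q) := hQ.image_of_continuousOn (e.continuousOn.mono hQs)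
    have hQU' : e '' Q ⊆ U' := by
      rintro _ ⟨x, hx, rfl⟩
      obtain ⟨y, hy, rfl⟩ := hQU hx
      rwa [e.right_inv (hU' hy)]
    obtain ⟨r, hr, h⟩ := H.proper j (e '' Q) hQ' hQU'
    refine ⟨r, hr, fun z hz hzQ => h z hz ⟨e.symm (u' j z), hzQ, e.right_inv (hut j z hz)⟩⟩
  · -- the current
    rintro b hb hba ⟨Q0, hQ0, hQ0c, hb0⟩
    classical
    have hQs : Q0 ⊆ e.source := by
      intro x hx
      obtain ⟨y, hy, rfl⟩ := hQ0 hx
      exact e.map_target (hU' hy)
    have hQc : IsCompact (e '' Q0) := hQ0c.image_of_continuousOn (e.continuousOn.mono hQs)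
    have hQU : e '' Q0 ⊆ U' := by
      rintro _ ⟨x, hx, rfl⟩
      obtain ⟨y, hy, rfl⟩ := hQ0 hx
      rwa [e.right_inv (hU' hy)]
    have hQt : e '' Q0 ⊆ e.target := hQU.trans hU'
    set c : E' → (E' →L[ℝ] E' →L[ℝ] ℝ) := fun y =>
      (b (e.symm y)).bilinearComp (fderiv ℝ e.symm y) (fderiv ℝ e.symm y) with hc
    set b' : E' → (E' →L[ℝ] E' →L[ℝ] ℝ) := fun y => if y ∈ e.target then c y else 0 with hb'
    have hb't : ∀ y ∈ e.target, b' y = c y := fun y hy => if_pos hy
    have hb'0 : ∀ y ∉ e '' Q0, b' y = 0 := by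
      intro y hy
      by_cases hyt : y ∈ e.target
      · rw [hb't y hyt]
        have : b (e.symm y) = 0 := by
          apply hb0
          intro h
          exact hy ⟨e.symm y, h, e.right_inv hyt⟩
        simp only [hc, this]
        ext v w
        simp
      · exact if_neg hyt
    have hcc : ContinuousOn c e.target := by
      have k1 : ContinuousOn (fun y => b (e.symm y)) e.target :=
        hb.comp_continuousOn e.symm.continuousOn
      have k2 : ContinuousOn (fun y => fderiv ℝ e.symm y) e.target :=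
        h2.continuousOn_fderiv_of_isOpen e.open_target (by simp)
      have k3 : c = fun y => ((ContinuousLinearMap.compL ℝ E' E ℝ).flip
          (fderiv ℝ e.symm y)).comp ((b (e.symm y)).comp (fderiv ℝ e.symm y)) := by
        funext y
        ext v w
        simp [hc]
      rw [k3]
      exact ((ContinuousLinearMap.continuous _).comp_continuousOn k2).clm_comp (k1.clm_comp k2)
    have hb'c : Continuous b' := by
      rw [continuous_iff_continuousAt]
      intro y
      by_cases hy : y ∈ e.target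
      · have : b' =ᶠ[𝓝 y] c := by
          filter_upwards [e.open_target.mem_nhds hy] with z hz
          exact hb't z hz
        exact (hcc.continuousAt (e.open_target.mem_nhds hy)).congr this.symm
      · have hyQ : y ∈ (e '' Q0)ᶜ := fun h => hy (hQt h)
        have : b' =ᶠ[𝓝 y] fun _ => 0 := by
          filter_upwards [hQc.isClosed.isOpen_compl.mem_nhds hyQ] with z hz
          exact hb'0 z hz
        exact continuousAt_const.congr this.symm
    have hb'a : ∀ q v, b' q v v = 0 := by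
      intro q v
      by_cases hq : q ∈ e.target
      · rw [hb't q hq]
        simp [hc, hba]
      · have : b' q = 0 := if_neg hq
        rw [this]; rfl
    have hcv : ∀ y ∈ e.target, ∀ v w, b' y v w =
        b (e.symm y) (fderiv ℝ e.symm y v) (fderiv ℝ e.symm y w) := by
      intro y hy v w
      rw [hb't y hy]
      simp [hc]
    have hse : e.symm '' (e '' Q0) = Q0 := by
      rw [image_image]
      ext x
      constructor
      · rintro ⟨z, hz, rfl⟩
        change e.symm (e z) ∈ Q0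
        rwa [e.left_inv (hQs hz)]
      · intro hx
        exact ⟨x, hx, e.left_inv (hQs hx)⟩
    have hTT : T b = T' b' := by
      apply hT b b' hb hb'c hba hb'a
      · refine ⟨e '' Q0, hQt, hQc, hb'0, ?_⟩
        rw [hse]
        exact hb0
      · intro x hx v w
        rw [hcv _ (e.map_source hx), e.left_inv hx, ses e h1 h2 hx, ses e h1 h2 hx]
    rw [hTT, HC b' hb'c hb'a ⟨e '' Q0, hQU, hQc, hb'0⟩]
    refine Finset.sum_congr rfl fun j _ => ?_
    refine setIntegral_congr_fun measurableSet_ball fun z hz => ?_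
    change b' (u' j z) (fderiv ℝ (u' j) z 1) (fderiv ℝ (u' j) z Complex.I) =
      b (e.symm (u' j z)) (fderiv ℝ (fun z => e.symm (u' j z)) z 1)
        (fderiv ℝ (fun z => e.symm (u' j z)) z Complex.I)
    rw [hcv _ (hut j z hz), hd j z hz, hd j z hz]

end

end Crest.Agent.R235.Reg_LFPULL_133
end

-- ▼ part R235/Reg_REGE_956
section

/-!
Row 235, PACKAGE REG, node A7c REGE (helper956): local form at every point in a chart of `E4`,
assembled from PUSH, BOXEX, BOXLF, LFPULL.
-/

set_option autoImplicit false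
set_option maxSynthPendingDepth 3

open MeasureTheory Metric Set Filter
open scoped ContDiff Topology

namespace Crest.Agent.R235.Reg_REGE_956

open Crest.Agent.R240
open Crest.Agent.R235.Loc Crest.Agent.R235.Cyl Crest.Agent.R235.Reg_522
open Crest.Agent.R235.NWDefs_334

noncomputable section

/-! ### the affine chart -/

/-- `x ↦ T (x - p)`. -/
def af (T : E4 ≃L[ℝ] CC) (p : E4) : E4 ≃ₜ CC := (Homeomorph.subRight p).trans T.toHomeomorph

lemma af_apply (T : E4 ≃L[ℝ] CC) (p x : E4) : af T p x = T (x - p) := rfl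

lemma af_symm_apply (T : E4 ≃L[ℝ] CC) (p : E4) (y : CC) : (af T p).symm y = T.symm y + p := by
  rw [Homeomorph.symm_apply_eq, af_apply, add_sub_cancel_right, ContinuousLinearEquiv.apply_symm_apply]

/-- the affine chart with target `ball 0 r`. -/
def ac (T : E4 ≃L[ℝ] CC) (p : E4) (r : ℝ) : OpenPartialHomeomorph E4 CC where
  toFun := af T p
  invFun := (af T p).symm
  source := af T p ⁻¹' ball 0 r
  target := ball 0 r
  map_source' x hx := hx
  map_target' y hy := by
    show af T p ((af T p).symm y) ∈ ball 0 r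
    rwa [Homeomorph.apply_symm_apply]
  left_inv' x _ := (af T p).symm_apply_apply x
  right_inv' y _ := (af T p).apply_symm_apply y
  open_source := isOpen_ball.preimage (af T p).continuous
  open_target := isOpen_ball
  continuousOn_toFun := (af T p).continuous.continuousOn
  continuousOn_invFun := (af T p).symm.continuous.continuousOn

variable (T : E4 ≃L[ℝ] CC) (p : E4) (r : ℝ)

lemma ac_coe : (ac T p r : E4 → CC) = fun x => T (x - p) := rfl

lemma ac_symm_coe : ((ac T p r).symm : CC → E4) = fun y => T.symm y + p := by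
  funext y
  exact af_symm_apply T p y

lemma ac_target : (ac T p r).target = ball 0 r := rfl

lemma mem_ac_source (x : E4) : x ∈ (ac T p r).source ↔ T (x - p) ∈ ball (0 : CC) r := Iff.rfl

lemma fderiv_ac (x : E4) : fderiv ℝ (ac T p r) x = (T : E4 →L[ℝ] CC) := by
  rw [ac_coe]
  have h1 : HasFDerivAt (fun x : E4 => T (x - p)) (T : E4 →L[ℝ] CC) x := by
    have h2 : HasFDerivAt (fun x : E4 => x - p) (ContinuousLinearMap.id ℝ E4) x :=
      (hasFDerivAt_id x).sub_const p
    exact ((T : E4 →L[ℝ] CC).hasFDerivAt (x := x - p)).comp x h2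
  exact h1.fderiv

lemma sm_ac (s : Set E4) : ContDiffOn ℝ ∞ (ac T p r) s := by
  rw [ac_coe]
  exact (T.contDiff.comp (contDiff_id.sub contDiff_const)).contDiffOn

lemma sm_ac_symm (s : Set CC) : ContDiffOn ℝ ∞ (ac T p r).symm s := by
  rw [ac_symm_coe]
  exact (T.symm.contDiff.add contDiff_const).contDiffOn

/-- the structure in the affine chart -/
def J1 (J : E4 → E4 →L[ℝ] E4) (y : CC) : CC →L[ℝ] CC :=
  (T : E4 →L[ℝ] CC).comp ((J (T.symm y + p)).comp (T.symm : CC →L[ℝ] E4))

lemma J1_apply (J : E4 → E4 →L[ℝ] E4) (y v : CC) :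
    J1 T p J y v = T (J (T.symm y + p) (T.symm v)) := rfl

/-! ### the structure of a box determines `J v` -/

lemma box_ext {μ β : CC → ℂ} {κ L : ℝ} (h : BoxD μ β κ L) (p v w : CC)
    (h1 : thz μ p v = thz μ p w) (h2 : thw β p v = thw β p w) : v = w := by
  unfold thz at h1
  unfold thw at h2
  have e1 : (v.1 - w.1) + μ p * (starRingEnd ℂ) (v.1 - w.1) = 0 := by
    rw [map_sub]
    linear_combination h1
  have e2 : v.1 - w.1 = 0 := by
    by_contra hne
    have hpos : 0 < ‖v.1 - w.1‖ := norm_pos_iff.2 hne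
    have e3 : v.1 - w.1 = -(μ p * (starRingEnd ℂ) (v.1 - w.1)) := eq_neg_of_add_eq_zero_left e1
    have e4 : ‖v.1 - w.1‖ = ‖μ p‖ * ‖v.1 - w.1‖ := by
      conv_lhs => rw [e3, norm_neg, norm_mul, RCLike.norm_conj]
    have e5 := h.bμ p
    have e6 := h.κ1
    nlinarith
  have e3 : v.1 = w.1 := sub_eq_zero.1 e2
  have e4 : v.2 = w.2 := by
    rw [e3] at h2
    exact add_right_cancel h2
  exact Prod.ext e3 e4

/-- the differential of a local diffeomorphism is injective -/
lemma fderiv_inj {e : OpenPartialHomeomorph CC CC} (h1 : ContDiffOn ℝ ∞ e e.source)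
    (h2 : ContDiffOn ℝ ∞ e.symm e.target) {x : CC} (hx : x ∈ e.source) {v w : CC}
    (h : fderiv ℝ e x v = fderiv ℝ e x w) : v = w := by
  have d1 : DifferentiableAt ℝ e x :=
    (h1.contDiffAt (e.open_source.mem_nhds hx)).differentiableAt (by simp)
  have d2 : DifferentiableAt ℝ e.symm (e x) :=
    (h2.contDiffAt (e.open_target.mem_nhds (e.map_source hx))).differentiableAt (by simp)
  have h3 : HasFDerivAt (e.symm ∘ e) ((fderiv ℝ e.symm (e x)).comp (fderiv ℝ e x)) x :=
    d2.hasFDerivAt.comp x d1.hasFDerivAt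
  have h4 : HasFDerivAt (e.symm ∘ e) (ContinuousLinearMap.id ℝ CC) x := by
    refine (hasFDerivAt_id x).congr_of_eventuallyEq ?_
    filter_upwards [e.open_source.mem_nhds hx] with y hy
    exact e.left_inv hy
  have h5 := h3.unique h4
  have h6 : ∀ u, fderiv ℝ e.symm (e x) (fderiv ℝ e x u) = u := fun u => by
    have := congrArg (fun A : CC →L[ℝ] CC => A u) h5
    exact this
  rw [← h6 v, ← h6 w, h]

/-- **REGE** -/
theorem rege (hPUSH : PUSH) (hBOXEX : BOXEX) (hBOXLF : BOXLF) (hLFPULL : LFPULL) : REGE := by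
  intro J U m X K hF p O hp hO hpO
  -- the linear isomorphism
  have hfr : Module.finrank ℝ E4 = 4 := by simp
  obtain ⟨T, hT, -⟩ := Crest.Agent.R235.NWJ2_130.exists_lin hfr (hF.sqJ p hp) (e := ee 0) (by
    intro h
    have := congrArg (fun v : E4 => v 0) h
    simp at this)
  -- the radius
  obtain ⟨r, hr, hrs⟩ : ∃ r : ℝ, 0 < r ∧ (ac T p (2 * r)).source ⊆ U ∩ O := by
    have h1 : (fun y : CC => T.symm y + p) ⁻¹' (U ∩ O) ∈ 𝓝 (0 : CC) := by
      have hc : ContinuousAt (fun y : CC => T.symm y + p) 0 := by fun_prop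
      refine hc.preimage_mem_nhds ?_
      simp only [map_zero, zero_add]
      exact (hF.openU.inter hO).mem_nhds ⟨hp, hpO⟩
    obtain ⟨ε, hε, hs⟩ := Metric.mem_nhds_iff.1 h1
    refine ⟨ε / 2, by positivity, fun x hx => ?_⟩
    rw [mem_ac_source, mul_div_cancel₀ _ (two_ne_zero)] at hx
    have h2 := hs hx
    simp only [mem_preimage, ContinuousLinearEquiv.symm_apply_apply, sub_add_cancel] at h2
    exact h2
  have hsub : (ac T p r).source ⊆ (ac T p (2 * r)).source := fun x hx =>
    ball_subset_ball (by linarith) hx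
  -- the structure near `0`
  have hback : ∀ y ∈ ball (0 : CC) (2 * r), T.symm y + p ∈ U := by
    intro y hy
    have h1 : T.symm y + p ∈ (ac T p (2 * r)).source := by
      rw [mem_ac_source, add_sub_cancel_right, ContinuousLinearEquiv.apply_symm_apply]
      exact hy
    exact (hrs h1).1
  have hACS : ACS (J1 T p J) r := by
    refine ⟨hr, ?_, ?_, ?_⟩
    · have h1 : ContDiffOn ℝ ∞ (fun y : CC => J (T.symm y + p)) (ball 0 r) := by
        refine hF.smJ.comp (T.symm.contDiff.add contDiff_const).contDiffOn ?_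
        intro y hy
        exact hback y (ball_subset_ball (by linarith) hy)
      exact contDiffOn_const.clm_comp (h1.clm_comp contDiffOn_const)
    · intro y hy v
      rw [J1_apply, J1_apply, ContinuousLinearEquiv.symm_apply_apply,
        hF.sqJ _ (hback y (ball_subset_ball (by linarith) hy)), map_neg,
        ContinuousLinearEquiv.apply_symm_apply]
    · intro v
      rw [J1_apply, map_zero, zero_add, hT, ContinuousLinearEquiv.apply_symm_apply]
  -- PUSH
  obtain ⟨m1, X1, K1, hF1, hS1, hT1⟩ := hPUSH E4 CC J U m X K hF (ac T p (2 * r))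
    (fun x hx => (hrs hx).1) (sm_ac T p _ _) (sm_ac_symm T p _ _) (J1 T p J) (by
      intro x hx v
      rw [fderiv_ac, ac_coe]
      simp only [ContinuousLinearEquiv.coe_coe]
      rw [J1_apply, ContinuousLinearEquiv.symm_apply_apply, ContinuousLinearEquiv.symm_apply_apply,
        sub_add_cancel]) (ball 0 r) isOpen_ball (by
      rw [closure_ball _ hr.ne']
      exact isCompact_closedBall _ _) (by
      rw [closure_ball _ hr.ne', ac_target]
      exact closedBall_subset_ball (by linarith))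
  -- BOXEX
  obtain ⟨μ, β, κ, L, R, ρ₀, ρ₁, K', m', X', Y', e, hbox, hR, hρ0, hρ01, hBC, hes, het, he0, he00,
    hesm, hesms, hJe, hS2, hT2⟩ := hBOXEX (J1 T p J) r hACS m1 X1 K1 hF1
  -- BOXLF
  obtain ⟨U2, n, u, hU2, hLF2, hLC2⟩ := hBOXLF μ β κ L hbox R ρ₀ K' m' X' Y' hR hBC 0 e.target
    e.open_target (by rw [← he00]; exact e.map_source he0) (by
      rw [het]
      exact prod_mono le_rfl (subset_univ _))
  -- LFPULL, first time
  obtain ⟨hLF1, hLC1⟩ := hLFPULL CC CC (fun x v w => w = J1 T p J x v) (JBox μ β)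
    {x | SuppE m1 x} {q | InSupp m' q} e hesm hesms (by
      intro x hx v w h
      obtain ⟨a1, a2⟩ := h
      obtain ⟨b1, b2⟩ := hJe x hx v
      exact fderiv_inj hesm hesms hx
        (box_ext hbox.box (e x) _ _ (a1.trans b1.symm) (a2.trans b2.symm))) (fun y hy => hS2 y hy)
    (fun b => ∫ y, b y (X1 y) (J1 T p J y (X1 y)) ∂m1) (fun b => ∫ q, b q (X' q) (Y' q) ∂m') (by
      intro b b' hb hb' hba hba' hQ hbb
      obtain ⟨Q, hQs, hQc, hQ1, hQ2⟩ := hQ
      show ∫ y, b y (X1 y) (J1 T p J y (X1 y)) ∂m1 = ∫ q, b' q (X' q) (Y' q) ∂m'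
      rw [← hT2 b' hb' hba' ⟨Q, hQs, hQc, hQ1⟩,
        ← setIntegral_eq_integral_of_forall_compl_eq_zero (s := e.source)]
      · refine setIntegral_congr_fun e.open_source.measurableSet fun x hx => ?_
        exact hbb x hx _ _
      · intro x hx
        rw [hQ2 x ?_]
        · rfl
        · rintro ⟨y, hy, rfl⟩
          exact hx (e.map_target (hQs hy))) 0 U2 n u he0 hU2 (by rw [he00]; exact hLF2) hLC2
  -- LFPULL, second time
  have hUs : e.symm '' U2 ⊆ (ac T p r).target := by
    rintro x ⟨y, hy, rfl⟩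
    exact hes (e.map_target (hU2 hy))
  have hp0 : (ac T p r) p = 0 := by
    rw [ac_coe]
    simp
  have hps : p ∈ (ac T p r).source := by
    rw [mem_ac_source]
    simpa using hr
  obtain ⟨hLF0, hLC0⟩ := hLFPULL E4 CC (fun x v w => w = J x v) (fun x v w => w = J1 T p J x v)
    {x | SuppE m x} {x | SuppE m1 x} (ac T p r) (sm_ac T p _ _) (sm_ac_symm T p _ _) (by
      intro x hx v w h
      rw [fderiv_ac, ac_coe] at h
      simp only [ContinuousLinearEquiv.coe_coe] at h
      rw [J1_apply, ContinuousLinearEquiv.symm_apply_apply,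
        ContinuousLinearEquiv.symm_apply_apply, sub_add_cancel] at h
      exact T.injective h) (fun y hy => hS1 y hy)
    (fun b => ∫ x, b x (X x) (J x (X x)) ∂m)
    (fun b => ∫ y, b y (X1 y) (J1 T p J y (X1 y)) ∂m1) (by
      intro b b' hb hb' hba hba' hQ hbb
      obtain ⟨Q, hQs, hQc, hQ1, hQ2⟩ := hQ
      show ∫ x, b x (X x) (J x (X x)) ∂m = ∫ y, b' y (X1 y) (J1 T p J y (X1 y)) ∂m1
      rw [← hT1 b' hb' hba' ⟨Q, hQs, hQc, hQ1⟩,
        ← setIntegral_eq_integral_of_forall_compl_eq_zero (s := (ac T p (2 * r)).source)]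
      · refine setIntegral_congr_fun (ac T p (2 * r)).open_source.measurableSet fun x hx => ?_
        by_cases hx1 : x ∈ (ac T p r).source
        · have := hbb x hx1 (X x) (J x (X x))
          rw [fderiv_ac] at this ⊢
          exact this
        · have h1 : b x = 0 := hQ2 x (by
            rintro ⟨y, hy, rfl⟩
            exact hx1 ((ac T p r).map_target (hQs hy)))
          have h2 : b' ((ac T p (2 * r)) x) = 0 := hQ1 _ fun h => hx1 (hQs h)
          rw [h1, h2]
          rfl
      · intro x hx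
        rw [hQ2 x ?_]
        · rfl
        · rintro ⟨y, hy, rfl⟩
          exact hx (hsub ((ac T p r).map_target (hQs hy)))) p (e.symm '' U2) n
    (fun j z => e.symm (u j z)) hps hUs (by rw [hp0]; exact hLF1) hLC1
  refine ⟨_, n, _, ?_, hLF0, hLC0⟩
  rintro x ⟨y, hy, rfl⟩
  exact hrs (hsub ((ac T p r).map_target (hUs hy)))

end

end Crest.Agent.R235.Reg_REGE_956
end

-- ▼ part R235/Reg_FREP_918
section

/-!
Row 235 (S0364), PACKAGE REG, A7d (task 413, helper918): node `FREP`: local data `LC` of density one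
give a flat current in the chart.
-/

set_option autoImplicit false
set_option maxSynthPendingDepth 3
set_option linter.unusedSectionVars false

open MeasureTheory Metric Set Filter
open scoped ContDiff Topology Manifold

universe u

namespace Crest.Agent.R235.Reg_FREP_918

open Crest.Agent.R240 Crest.Agent.R240.Ch
open Crest.Agent.R235.CurDefs_132 Crest.Agent.R235.Reg_522

noncomputable section

/-- a flat current only depends on the structure in the open set. -/
theorem fcur_congr {E : Type*} [NormedAddCommGroup E] [NormedSpace ℝ E] [MeasurableSpace E]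
    {J J' : E → E →L[ℝ] E} {U : Set E} {m : Measure E} {X : E → E} {K : ℝ}
    (h : FCur J U m X K) (hJ : ∀ y ∈ U, J' y = J y) : FCur J' U m X K where
  openU := h.openU
  smJ := h.smJ.congr hJ
  sqJ := fun x hx v => by rw [hJ x hx]; exact h.sqJ x hx v
  fin := h.fin
  mX := h.mX
  nX := h.nX
  supp := h.supp
  closed := fun l hl hc hs => by
    rw [← h.closed l hl hc hs]
    refine integral_congr_ae ?_
    filter_upwards [h.supp] with p hp
    rw [hJ p hp]
  up := h.up
  low := h.low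
  flat := by
    filter_upwards [h.flat, h.supp] with p hp hpU
    intro g hg hgc hga
    have h1 := hp g hg hgc hga
    have e1 : ∀ r : ℝ, ∫ q, g (r⁻¹ • (q - p)) (X q) (J' q (X q)) ∂m =
        ∫ q, g (r⁻¹ • (q - p)) (X q) (J q (X q)) ∂m := fun r => integral_congr_ae (by
      filter_upwards [h.supp] with q hq
      rw [hJ q hq])
    simp only [e1, hJ p hpU]
    exact h1

section Mfd

variable {M : Type u} [TopologicalSpace M] [T2Space M] [ChartedSpace E4 M]
  [IsManifold 𝓘(ℝ, E4) ∞ M]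

/-- a form zero off the core is zero in the chart. -/
theorem rep_zero {p : M} {b : F2 E4 M} {Q : Set E4} (hQ : Q ⊆ (chartAt E4 p).target)
    (hb : ∀ x ∉ (chartAt E4 p).symm '' Q, at2 b x = 0) {y : E4}
    (hy : y ∈ (chartAt E4 p).target) (hyQ : y ∉ Q) : rep p b y = 0 := by
  have h1 : (chartAt E4 p).symm y ∉ (chartAt E4 p).symm '' Q := by
    rintro ⟨z, hz, hzy⟩
    have h2 := congrArg (chartAt E4 p) hzy
    rw [(chartAt E4 p).right_inv (hQ hz), (chartAt E4 p).right_inv hy] at h2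
    exact hyQ (h2 ▸ hz)
  ext u v
  rw [rep_apply, hb _ h1]
  rfl

/-- the formula for the current in the chart. -/
theorem cur_formula {J : EndF E4 M} {C : X2 M →ₗ[ℝ] ℝ} {p : M} {D : LC} (h : LCRep J C p D)
    {m : Measure E4} {X : E4 → E4} {K : ℝ} (hF : FCur D.J (ball D.x0 (2 * D.R)) m X K)
    (hC : ∀ b : E4 → Bil, Continuous b → (∀ x, Alt (b x)) →
      (∃ Q ⊆ ball D.x0 (2 * D.R), IsCompact Q ∧ ∀ y ∉ Q, b y = 0) →
      ∫ x, q (D.F x) (D.φ x) (b x) ∂D.s = ∫ x, b x (X x) (D.J x (X x)) ∂m)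
    (b : X2 M) {Q : Set E4} (hQ : Q ⊆ ball D.x0 (2 * D.R)) (hQc : IsCompact Q)
    (hb : ∀ x ∉ (chartAt E4 p).symm '' Q, at2 (b.1 : F2 E4 M) x = 0) :
    C b = ∫ y, rep p (b.1 : F2 E4 M) y (X y) (repJ p J y (X y)) ∂m := by
  classical
  have hR := D.R_pos
  have h23 : ball D.x0 (2 * D.R) ⊆ ball D.x0 (3 * D.R) := ball_subset_ball (by linarith)
  have h34 : ball D.x0 (3 * D.R) ⊆ ball D.x0 (4 * D.R) := ball_subset_ball (by linarith)
  have h3t : ball D.x0 (3 * D.R) ⊆ (chartAt E4 p).target := h34.trans h.sub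
  have h2t : ball D.x0 (2 * D.R) ⊆ (chartAt E4 p).target := h23.trans h3t
  let bt : E4 → Bil := fun y => if y ∈ ball D.x0 (2 * D.R) then rep p (b.1 : F2 E4 M) y else 0
  have hbt1 : ∀ y ∈ ball D.x0 (2 * D.R), bt y = rep p (b.1 : F2 E4 M) y := fun y hy => if_pos hy
  have hbt0 : ∀ y ∉ Q, bt y = 0 := by
    intro y hy
    by_cases hy2 : y ∈ ball D.x0 (2 * D.R)
    · rw [hbt1 y hy2]
      exact rep_zero (hQ.trans h2t) hb (h2t hy2) hy
    · exact if_neg hy2
  have hbtc : Continuous bt := by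
    rw [continuous_iff_continuousAt]
    intro y
    by_cases hy : y ∈ Q
    · have h1 : ContinuousAt (rep p (b.1 : F2 E4 M)) y :=
        ((b.2.2 p).continuousOn).continuousAt ((chartAt E4 p).open_target.mem_nhds (h2t (hQ hy)))
      refine h1.congr ?_
      filter_upwards [isOpen_ball.mem_nhds (hQ hy)] with z hz
      exact (hbt1 z hz).symm
    · refine (continuousAt_const (y := (0 : Bil))).congr ?_
      filter_upwards [hQc.isClosed.isOpen_compl.mem_nhds hy] with z hz
      exact (hbt0 z hz).symm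
  have hbta : ∀ y, Alt (bt y) := by
    intro y v
    by_cases hy : y ∈ ball D.x0 (2 * D.R)
    · rw [hbt1 y hy, rep_apply]
      exact b.2.1 _ _
    · have : bt y = 0 := if_neg hy
      rw [this]
      rfl
  have e1 := h.cur b ⟨Q, hQ.trans h23, hQc, hb⟩
  have e2 := hC bt hbtc hbta ⟨Q, hQ, hQc, hbt0⟩
  have hq0 : ∀ y, q (D.F y) (D.φ y) (0 : Bil) = 0 := by
    intro y
    unfold q W
    simp [ent_zero]
  have e3 : ∫ y in ball D.x0 (3 * D.R), q (D.F y) (D.φ y) (rep p (b.1 : F2 E4 M) y) ∂D.s =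
      ∫ y in ball D.x0 (3 * D.R), q (D.F y) (D.φ y) (bt y) ∂D.s := by
    refine setIntegral_congr_fun measurableSet_ball fun y hy => ?_
    by_cases hyQ : y ∈ Q
    · simp only [hbt1 y (hQ hyQ)]
    · simp only [hbt0 y hyQ, rep_zero (hQ.trans h2t) hb (h3t hy) hyQ]
  have e4 : ∫ y in ball D.x0 (3 * D.R), q (D.F y) (D.φ y) (bt y) ∂D.s =
      ∫ y, q (D.F y) (D.φ y) (bt y) ∂D.s := by
    refine setIntegral_eq_integral_of_forall_compl_eq_zero fun y hy => ?_
    rw [hbt0 y fun hyQ => hy (h23 (hQ hyQ)), hq0]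
  rw [e1, e3, e4, e2]
  refine integral_congr_ae ?_
  filter_upwards [hF.supp] with y hy
  rw [hbt1 y hy, h.J y (h34 (h23 hy))]

end Mfd

/-- **FREP**. -/
theorem frep : FREP.{u} := by
  intro hFW hMON M _ _ _ _ _ J hJ hJJ C p D h hd
  obtain ⟨m, X, K, hF, hS, hC⟩ := hFW hMON D hd
  have hR := D.R_pos
  have h23 : ball D.x0 (2 * D.R) ⊆ ball D.x0 (3 * D.R) := ball_subset_ball (by linarith)
  have h34 : ball D.x0 (3 * D.R) ⊆ ball D.x0 (4 * D.R) := ball_subset_ball (by linarith)
  have h2t : ball D.x0 (2 * D.R) ⊆ (chartAt E4 p).target := h23.trans (h34.trans h.sub)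
  refine ⟨ball D.x0 (2 * D.R), m, X, K, isOpen_ball, ?_, h2t, ?_, ?_, ?_⟩
  · rw [← h.x0]
    exact mem_ball_self (by linarith)
  · exact fcur_congr hF fun y hy => (h.J y (h34 (h23 hy))).symm
  · intro y hy
    constructor
    · -- a point of the support of the measure
      intro hm W hW hyW
      have hs := (hS y hy).1 hm
      have hO : IsOpen (ball D.x0 (2 * D.R) ∩
          ((chartAt E4 p).target ∩ (chartAt E4 p).symm ⁻¹' W)) :=
        isOpen_ball.inter ((chartAt E4 p).isOpen_inter_preimage_symm hW)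
      obtain ⟨r, hr, hrO⟩ := (nhds_basis_closedBall (x := y)).mem_iff.1
        (hO.mem_nhds ⟨hy, h2t hy, hyW⟩)
      let f : ContDiffBump y := ⟨r / 2, r, by linarith, by linarith⟩
      let β : E4 → Bil := fun z => f z • D.F z
      have hf0 : ∀ z ∉ closedBall y r, f z = 0 := by
        intro z hz
        refine f.zero_of_le_dist ?_
        rw [mem_closedBall, not_le] at hz
        exact hz.le
      have hβ0 : ∀ z ∉ closedBall y r, β z = 0 := fun z hz => by
        show f z • D.F z = 0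
        rw [hf0 z hz, zero_smul]
      have hβs : ContDiff ℝ ∞ β := f.contDiff.smul D.smF
      have hβa : ∀ z, Alt (β z) := by
        intro z v
        show f z * D.F z v v = 0
        rw [(D.bd z).spos.alt v, mul_zero]
      have hrt : closedBall y r ⊆ (chartAt E4 p).target := fun z hz => (hrO hz).2.1
      let _ : MeasurableSpace M := borel M
      have : BorelSpace M := ⟨rfl⟩
      have hsm : Smooth2 (ext2 p β) :=
        DensM.smooth2_ext2 hβs.contDiffOn hβa (isCompact_closedBall y r) hrt hβ0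
      have hz : ∀ x ∉ (chartAt E4 p).symm '' closedBall y r, at2 (ext2 p β) x = 0 := by
        intro x hx
        by_cases hxs : x ∈ (chartAt E4 p).source
        · refine DensM.at2_ext2_zero (hβ0 _ fun hcon => hx ?_)
          exact ⟨_, hcon, (chartAt E4 p).left_inv hxs⟩
        · exact DensM.at2_ext2_notMem hxs β
      have hr3 : closedBall y r ⊆ ball D.x0 (3 * D.R) := fun z hz => h23 (hrO hz).1
      refine ⟨⟨ext2 p β, hsm⟩, fun x hx => hz x ?_, ?_⟩
      · rintro ⟨z, hz1, rfl⟩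
        exact hx (hrO hz1).2.2
      · have e1 := h.cur ⟨ext2 p β, hsm⟩ ⟨closedBall y r, hr3, isCompact_closedBall y r, hz⟩
        have e2 : ∫ z in ball D.x0 (3 * D.R), q (D.F z) (D.φ z)
            (rep p (ext2 p β : F2 E4 M) z) ∂D.s = ∫ z in ball D.x0 (3 * D.R), f z ∂D.s := by
          refine setIntegral_congr_fun measurableSet_ball fun z hz => ?_
          have h1 : rep p (ext2 p β : F2 E4 M) z = f z • D.F z :=
            DensM.rep_ext2_self (h.sub (h34 hz)) β
          have h2 : q (D.F z) (D.φ z) (f z • D.F z) = f z * q (D.F z) (D.φ z) (D.F z) := by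
            unfold q
            rw [W_smul_right, mul_div_assoc]
          simp only [h1, h2, D.nrm, mul_one]
        have hfin := D.fin
        have hint : IntegrableOn (fun z => f z) (ball D.x0 (3 * D.R)) D.s := by
          refine Integrable.integrableOn ?_
          exact f.continuous.integrable_of_hasCompactSupport f.hasCompactSupport
        have e3 : D.s.real (ball y (r / 2)) ≤ ∫ z in ball D.x0 (3 * D.R), f z ∂D.s := by
          have h1 : ball y (r / 2) ⊆ ball D.x0 (3 * D.R) :=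
            (ball_subset_closedBall.trans (closedBall_subset_closedBall (by linarith))).trans hr3
          have h2 : ∫ z in ball y (r / 2), f z ∂D.s ≤ ∫ z in ball D.x0 (3 * D.R), f z ∂D.s :=
            setIntegral_mono_set hint (ae_of_all _ fun z => f.nonneg)
              (LE.le.eventuallyLE h1)
          have h3 : ∫ z in ball y (r / 2), f z ∂D.s = D.s.real (ball y (r / 2)) := by
            have h4 : ∫ z in ball y (r / 2), f z ∂D.s = ∫ z in ball y (r / 2), (1 : ℝ) ∂D.s := by
              refine setIntegral_congr_fun measurableSet_ball fun z hz => ?_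
              exact f.one_of_mem_closedBall (ball_subset_closedBall hz)
            rw [h4]
            simp
          rw [← h3]
          exact h2
        have e4 : 0 < D.s.real (ball y (r / 2)) := by
          rw [measureReal_def, ENNReal.toReal_pos_iff]
          exact ⟨hs (r / 2) (by linarith), measure_lt_top _ _⟩
        have e5 : C ⟨ext2 p β, hsm⟩ = ∫ z in ball D.x0 (3 * D.R), f z ∂D.s := e1.trans e2
        rw [e5]
        exact (e4.trans_le e3).ne'
    · -- a point of the support of the functional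
      intro hsupp
      by_contra hcon
      unfold SuppE at hcon
      push Not at hcon
      obtain ⟨r, hr, hm⟩ := hcon
      have hm0 : m (ball y r) = 0 := le_antisymm hm zero_le
      obtain ⟨δ, hδ, hδO⟩ := (nhds_basis_closedBall (x := y)).mem_iff.1
        ((isOpen_ball.inter isOpen_ball).mem_nhds (⟨hy, mem_ball_self hr⟩ :
          y ∈ ball D.x0 (2 * D.R) ∩ ball y r))
      have hWo : IsOpen ((chartAt E4 p).source ∩ (chartAt E4 p) ⁻¹' ball y δ) :=
        (chartAt E4 p).isOpen_inter_preimage isOpen_ball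
      have hyW : (chartAt E4 p).symm y ∈
          (chartAt E4 p).source ∩ (chartAt E4 p) ⁻¹' ball y δ := by
        refine ⟨symm_mem (h2t hy), ?_⟩
        show chartAt E4 p ((chartAt E4 p).symm y) ∈ ball y δ
        rw [(chartAt E4 p).right_inv (h2t hy)]
        exact mem_ball_self hδ
      obtain ⟨b, hb, hCb⟩ := hsupp _ hWo hyW
      have hQ : closedBall y δ ⊆ ball D.x0 (2 * D.R) := fun z hz => (hδO hz).1
      have hb' : ∀ x ∉ (chartAt E4 p).symm '' closedBall y δ, at2 (b.1 : F2 E4 M) x = 0 := by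
        intro x hx
        refine hb x fun hxW => hx ?_
        exact ⟨_, ball_subset_closedBall hxW.2, (chartAt E4 p).left_inv hxW.1⟩
      have e1 := cur_formula h hF hC b hQ (isCompact_closedBall y δ) hb'
      refine hCb (e1.trans ?_)
      refine integral_eq_zero_of_ae ?_
      filter_upwards [hF.supp, measure_eq_zero_iff_ae_notMem.1 hm0] with z hz hz2
      rw [rep_zero (hQ.trans h2t) hb' (h2t hz) fun hz3 => hz2 (hδO hz3).2]
      rfl
  · rintro b ⟨Q, hQ, hQc, hb⟩
    exact cur_formula h hF hC b hQ hQc hb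

end

end Crest.Agent.R235.Reg_FREP_918
end

-- ▼ part R235/Reg_LFMFD_842
section

/-!
Row 235, PACKAGE REG, leaf A7e LFMFD (helper842): from the local form in the chart to `LocForm` of
helper370 on the manifold.
-/

set_option autoImplicit false
set_option maxSynthPendingDepth 3

open MeasureTheory Metric Set Filter
open scoped ContDiff Topology Manifold

universe u

namespace Crest.Agent.R235.Reg_LFMFD_842

open Crest.Agent.R240 Crest.Agent.R240.Ch
open Crest.Agent.R235.Loc Crest.Agent.R235.Cyl Crest.Agent.R235.CurDefs_132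
open Crest.Agent.R235.NWDefs_334 Crest.Agent.R235.Reg_522 Crest.Agent.R235.Pull_129

noncomputable section

variable {M : Type u} [TopologicalSpace M] [ChartedSpace E4 M] [IsManifold 𝓘(ℝ, E4) ∞ M]

/-- the lifted map. -/
def lift (p : M) (f : ℂ → E4) (z : ℂ) : M := (chartAt E4 p).symm (f z)

theorem lift_smooth {p : M} {f : ℂ → E4} {O : Set ℂ} (hf : ContDiffOn ℝ ∞ f O)
    (hO : ∀ z ∈ O, f z ∈ (chartAt E4 p).target) :
    ContMDiffOn 𝓘(ℝ, ℂ) 𝓘(ℝ, E4) ∞ (lift p f) O :=
  (contMDiffOn_chart_symm (I := 𝓘(ℝ, E4)) (x := p)).comp hf.contMDiffOn hO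

theorem fderiv_lift {p : M} {f : ℂ → E4} {O : Set ℂ} (hOo : IsOpen O) (hf : ContDiffOn ℝ ∞ f O)
    (hO : ∀ z ∈ O, f z ∈ (chartAt E4 p).target) {z : ℂ} (hz : z ∈ O) (v : ℂ) :
    tcc (lift p f z) p (lift p f z) (dmap (lift p f) z v) = fderiv ℝ f z v := by
  have hs : ContMDiffAt 𝓘(ℝ, ℂ) 𝓘(ℝ, E4) ∞ (lift p f) z :=
    (lift_smooth hf hO).contMDiffAt (hOo.mem_nhds hz)
  have h1 := fderiv_inC (p := p) hs (symm_mem (hO z hz)) v
  have h2 : inC (E := E4) p (lift p f) =ᶠ[𝓝 z] f := by
    filter_upwards [hOo.mem_nhds hz] with w hw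
    exact (chartAt E4 p).right_inv (hO w hw)
  rw [h2.fderiv_eq] at h1
  exact h1.symm

theorem lfmfd : LFMFD.{u} := by
  intro M _ _ _ _ _ J hJ hJ2 C p V m X K hF U' n w hUV hLF hCur
  set c := chartAt E4 p with hc
  have hUt : U' ⊆ c.target := hUV.trans hF.sub
  have hw : ∀ j, ∀ z ∈ ball (0 : ℂ) 1, w j z ∈ U' := by
    intro j z hz
    have h1 : w j z ∈ ⋃ j, w j '' ball (0 : ℂ) 1 := mem_iUnion.2 ⟨j, z, hz, rfl⟩
    rw [← hLF.supp] at h1
    exact h1.2
  have hwt : ∀ j, ∀ z ∈ ball (0 : ℂ) 1, w j z ∈ (chartAt E4 p).target := fun j z hz =>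
    hUt (hw j z hz)
  have hcl : ∀ y ∈ c.target, c (c.symm y) = y := fun y hy => c.right_inv hy
  have hinj : ∀ y ∈ c.target, ∀ y' ∈ c.target, c.symm y = c.symm y' → y = y' := by
    intro y hy y' hy' h
    rw [← hcl y hy, ← hcl y' hy', h]
  let L : Glob_370.LocForm J (suppC C) p :=
    { U := c.symm '' U'
      openU := c.symm.isOpen_image_of_subset_source hLF.openU hUt
      mem := ⟨c p, hLF.mem, c.left_inv (mem_chart_source E4 p)⟩
      n := n
      u := fun j => lift p (w j)
      disc := fun j =>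
        { hol :=
            { smooth := lift_smooth (hLF.smooth j) (hwt j)
              jhol := by
                intro z hz v
                have hs : lift p (w j) z ∈ (chartAt E4 p).source := symm_mem (hwt j z hz)
                refine tcc_inj hs ?_
                rw [apply_eq_repJ hs, fderiv_lift isOpen_ball (hLF.smooth j) (hwt j) hz,
                  fderiv_lift isOpen_ball (hLF.smooth j) (hwt j) hz]
                have h1 : chartAt E4 p (lift p (w j) z) = w j z := hcl _ (hwt j z hz)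
                rw [h1]
                exact hLF.jhol j z hz v }
          inj := by
            intro z hz z' hz' h
            exact hLF.inj j hz hz' (hinj _ (hwt j z hz) _ (hwt j z' hz') h)
          imm := by
            intro z hz hz0 v hv
            refine hLF.imm j z hz hz0 v ?_
            rw [← fderiv_lift isOpen_ball (hLF.smooth j) (hwt j) hz, hv, map_zero] }
      centre := by
        intro j
        show (chartAt E4 p).symm (w j 0) = p
        rw [hLF.centre j]
        exact c.left_inv (mem_chart_source E4 p)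
      disj := by
        intro i j hij z hz z' hz' h
        exact hLF.disj i j hij z hz z' hz' (hinj _ (hwt i z hz) _ (hwt j z' hz') h)
      supp := by
        ext x
        constructor
        · rintro ⟨hx, y, hy, rfl⟩
          have h1 : SuppE m y := (hF.supp y (hUV hy)).2 hx
          have h2 : y ∈ {x | SuppE m x} ∩ U' := ⟨h1, hy⟩
          rw [hLF.supp] at h2
          obtain ⟨j, z, hz, rfl⟩ := mem_iUnion.1 h2
          exact mem_iUnion.2 ⟨j, z, hz, rfl⟩
        · intro hx
          obtain ⟨j, z, hz, rfl⟩ := mem_iUnion.1 hx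
          have h1 : w j z ∈ ⋃ j, w j '' ball (0 : ℂ) 1 := mem_iUnion.2 ⟨j, z, hz, rfl⟩
          rw [← hLF.supp] at h1
          exact ⟨(hF.supp _ (hUV h1.2)).1 h1.1, w j z, h1.2, rfl⟩
      proper := by
        intro j Q hQ hQU
        have hQs : Q ⊆ c.source := by
          intro x hx
          obtain ⟨y, hy, rfl⟩ := hQU hx
          exact c.map_target (hUt hy)
        have hQc : IsCompact (c '' Q) := hQ.image_of_continuousOn (c.continuousOn.mono hQs)
        obtain ⟨r, hr, hr2⟩ := hLF.proper j (c '' Q) hQc (by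
          rintro _ ⟨x, hx, rfl⟩
          obtain ⟨y, hy, rfl⟩ := hQU hx
          rw [hcl y (hUt hy)]; exact hy)
        refine ⟨r, hr, fun z hz hzQ => hr2 z hz ⟨_, hzQ, hcl _ (hwt j z hz)⟩⟩ }
  refine ⟨L, ?_⟩
  intro b Q hQ hQU hb
  have hQU' : Q ⊆ c.symm '' U' := hQU
  have hQs : Q ⊆ c.source := by
    intro x hx
    obtain ⟨y, hy, rfl⟩ := hQU' hx
    exact c.map_target (hUt hy)
  have hQc : IsCompact (c '' Q) := hQ.image_of_continuousOn (c.continuousOn.mono hQs)
  have hQ1 : c '' Q ⊆ U' := by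
    rintro _ ⟨x, hx, rfl⟩
    obtain ⟨y, hy, rfl⟩ := hQU' hx
    rw [hcl y (hUt hy)]; exact hy
  have hzero : ∀ y ∈ c.target, y ∉ c '' Q → rep p (b.1 : F2 E4 M) y = 0 := by
    intro y hy hyQ
    have h1 : at2 (b.1 : F2 E4 M) (c.symm y) = 0 := hb _ (fun h => hyQ ⟨_, h, hcl y hy⟩)
    ext u v
    rw [rep_apply]
    change at2 (b.1 : F2 E4 M) (c.symm y) _ _ = _
    rw [h1]; simp
  classical
  set bt : E4 → (E4 →L[ℝ] E4 →L[ℝ] ℝ) := fun y => if y ∈ U' then rep p (b.1 : F2 E4 M) y else 0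
    with hbt
  have hbt0 : ∀ y ∉ c '' Q, bt y = 0 := by
    intro y hy
    simp only [hbt]
    split_ifs with h
    · exact hzero y (hUt h) hy
    · rfl
  have hbtc : Continuous bt := by
    rw [continuous_iff_continuousAt]
    intro y
    by_cases hy : y ∈ c '' Q
    · have hyU := hQ1 hy
      have h1 : ContinuousAt (rep p (b.1 : F2 E4 M)) y :=
        ((b.2.2 p).contDiffAt (c.open_target.mem_nhds (hUt hyU))).continuousAt
      refine h1.congr ?_
      filter_upwards [hLF.openU.mem_nhds hyU] with y' hy'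
      simp only [hbt, if_pos hy']
    · have h1 : bt =ᶠ[𝓝 y] fun _ => 0 := by
        filter_upwards [hQc.isClosed.isOpen_compl.mem_nhds hy] with y' hy'
        exact hbt0 y' hy'
      exact continuousAt_const.congr h1.symm
  have hbta : ∀ q v, bt q v v = 0 := by
    intro q v
    simp only [hbt]
    split_ifs with h
    · rw [rep_apply]; exact b.2.1 _ _
    · simp
  have hC1 := hF.cur b ⟨c '' Q, hQ1.trans hUV, hQc, by
    intro x hx
    refine hb x (fun h => hx ⟨c x, ⟨x, h, rfl⟩, c.left_inv (hQs h)⟩)⟩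
  have hC2 := hCur bt hbtc hbta ⟨c '' Q, hQ1, hQc, hbt0⟩
  rw [hC1]
  have e1 : ∫ y, rep p (b.1 : F2 E4 M) y (X y) (repJ p J y (X y)) ∂m =
      ∫ y, bt y (X y) (repJ p J y (X y)) ∂m := by
    refine integral_congr_ae ?_
    filter_upwards [hF.fc.supp] with y hy
    by_cases hyU : y ∈ U'
    · simp only [hbt, if_pos hyU]
    · have : y ∉ c '' Q := fun h => hyU (hQ1 h)
      rw [hzero y (hF.sub hy) this, hbt0 y this]
  rw [e1]
  refine hC2.trans ?_
  refine Finset.sum_congr rfl fun j _ => ?_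
  refine setIntegral_congr_fun measurableSet_ball fun z hz => ?_
  have hs : lift p (w j) z ∈ (chartAt E4 p).source := symm_mem (hwt j z hz)
  have h1 : chartAt E4 p (lift p (w j) z) = w j z := hcl _ (hwt j z hz)
  show bt (w j z) (fderiv ℝ (w j) z 1) (fderiv ℝ (w j) z Complex.I) =
    at2 (b.1 : F2 E4 M) (lift p (w j) z) (dmap (lift p (w j)) z 1) (dmap (lift p (w j)) z Complex.I)
  rw [apply_eq_rep hs, fderiv_lift isOpen_ball (hLF.smooth j) (hwt j) hz,
    fderiv_lift isOpen_ball (hLF.smooth j) (hwt j) hz, h1]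
  simp only [hbt, if_pos (hw j z hz)]

end

end Crest.Agent.R235.Reg_LFMFD_842
end

-- ▼ part R235/Reg_REGLOC_312
section

/-!
Row 235, package REG: `REGLOC` from `MON`, `FLATW`, `REGE`, `FREP`, `LFMFD` (helper312, task 415).
-/

set_option autoImplicit false
set_option maxSynthPendingDepth 3

open MeasureTheory Metric Set Filter
open scoped ContDiff Topology Manifold

universe u

namespace Crest.Agent.R235.Reg_REGLOC_312

open Crest.Agent.R240 Crest.Agent.R240.Ch
open Crest.Agent.R235.CurDefs_132 Crest.Agent.R235.Reg_522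

/-- **REGLOC**: local form of a current of density one, from the leaves of package REG. -/
theorem regloc (hM : MON) (hF : FLATW) (hR : REGE) (hFR : FREP.{u}) (hL : LFMFD.{u}) :
    REGLOC.{u} := by
  intro M _ _ _ _ _ J hJ hJ2 C hD p
  obtain ⟨D, hrep, hden⟩ := hD p
  obtain ⟨V, m, X, K, h⟩ := hFR hF hM M J hJ hJ2 C p D hrep hden
  obtain ⟨U', n, u, hU, hlf, hcur⟩ := hR (repJ p J) V m X K h.fc (chartAt E4 p p) univ h.mem
    isOpen_univ (mem_univ _)
  exact hL M J hJ hJ2 C p V m X K h U' n u (by simpa using hU) hlf hcur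

end Crest.Agent.R235.Reg_REGLOC_312
end

-- ▼ part R235/RegFin_460

/-!
Row 235, PACKAGE REG, final assembly (helper460): `MON`, `CYLF`, `BOXEX`, `FLATW`, `REGLOC`.
The only hypothesis left is `RegStmt` (smoothness of `C¹` `J`-discs).
-/

set_option autoImplicit false

universe u

namespace Crest.Agent.R235.RegFin_460

open Crest.Agent.R235.Loc Crest.Agent.R235.Cyl Crest.Agent.R235.CurDefs_132
open Crest.Agent.R235.Reg_522 Crest.Agent.R235.NWDefs_334
open Crest.Agent.R235.NWIface_334 (Reg1Stmt Reg2Stmt)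

theorem mon : MON :=
  CurMon_956.mon CurGeo1_679.geo1 CurGeo3_52.geo3 CurLin1_785.lin1' CurLin4_253.LIN4_proof
    CurMon0_311.mon0

theorem reg2 : Reg2Stmt := NWReg2_52.reg2 NWFin_334.cauchy NWFin_334.nst NWFin_334.fam


/-- the final planar description. -/
theorem cylf : CYLF := CylFin_460.cylf2 reg2

theorem var_stmt : VarStmt := NWVar_428.var NWFin_334.cauchy NWFin_334.nst NWFin_334.fam

theorem polfol : POLFOL := Reg_POLFOL_659.polfol NWFin_334.fol_stmt var_stmt

theorem cylex : CYLEX := Reg_CYLEX_464.cylex polfol Reg_GOODDIR_936.gooddir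

theorem boxex : BOXEX :=
  Reg_BOXEX_52.boxex cylex Reg_MUBETA_369.mubeta RegPush_952.push Reg_BOXOF_679.boxof

theorem boxlf (hReg : RegStmt) : BOXLF := Reg_BOXLF_437.boxlf cylf (End_745.end_of_reg hReg)

theorem rege (hReg : RegStmt) : REGE :=
  Reg_REGE_956.rege RegPush_952.push boxex (boxlf hReg) Reg_LFPULL_133.lfpull

/-- **REG (local part)**. -/
theorem regloc (hReg : RegStmt) : REGLOC.{u} :=
  Reg_REGLOC_312.regloc mon RegFlat_460.flatw (rege hReg) Reg_FREP_918.frep Reg_LFMFD_842.lfmfd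

end Crest.Agent.R235.RegFin_460
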