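import Crest.Agent.R235.RegC_522
import Crest.Agent.R235.RegFin_460
import Crest.Agent.R235.Chlcd_4
import Crest.Agent.R235.NWRegF_930

-- ▼ part R235/RegCFin_522
section

/-!
Row 235 (S0364), helper522: `REGC` (regularity of positive closed currents of density one) from
`CHLCD` (helper4) and `RegStmt` (helper334/helper930): final assembly of package REG.
-/

set_option autoImplicit false
set_option maxSynthPendingDepth 3

universe u

namespace Crest.Agent.R235.RegCFin_522

/-- **REGC** from the two remaining leaves. -/
theorem regc_of (hC : RegC_522.CHLCD.{u}) (hReg : NWDefs_334.RegStmt) : Curves_489.REGC.{u} :=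
  RegC_522.regc hC (RegFin_460.regloc hReg)

end Crest.Agent.R235.RegCFin_522
end

-- ▼ part R235/RegCMain_522

/-!
Row 235 (S0364), helper522: `REGC` (regularity of positive closed currents of density one),
UNCONDITIONAL.
-/

set_option autoImplicit false
set_option maxSynthPendingDepth 3

universe u

namespace Crest.Agent.R235.RegCMain_522

/-- **REGC**. -/
theorem regc : Curves_489.REGC.{u} :=
  RegCFin_522.regc_of Chlcd_4.chlcd NWRegF_930.reg_stmt

end Crest.Agent.R235.RegCMain_522
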