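import Mathlib

/-!
Row 235, block FAM/RC (helper820), RC0: THE RESOLVENT `C = (1 + iεA)⁻¹`, `A = [0 D*; D 0]`, FROM WEAK DATA.

`X` (domain), `H0`, `H1` complex Hilbert spaces, `j : X →L H0` (inclusion), `D : X →L H1`, coercive:
`‖x‖² ≤ c (‖j x‖² + ‖D x‖²)` (`Coer j D`).  No unbounded operators.

* `WEq j D ε x y u` : `y = (j u, x₁ - iε D u)` and `⟪j v, y₀ - x₀⟫ + iε ⟪D v, y₁⟫ = 0` for all `v`;
* `Cr j D ε`        : the resolvent, `Cr_iff : Cr j D ε x = y ↔ ∃ u, WEq j D ε x y u`;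
* `Cr_sub`          : resolvent identity `C' - C = -iε C (B' - B) C'`, `D' = D + β j`;
* `gr`, `gCg`, `C_add_adj`, `norm_C_le` : `g C g = C*`, `C + C* = 2 C C* = 2 C* C`, `‖C‖ ≤ 1`;
* `Cr_eps`          : `ε C_ε = C_δ (δ + (ε - δ) C_ε)`;
* `Cr_conj`         : covariance under unitaries.
-/

set_option autoImplicit false
set_option linter.unusedSectionVars false

open scoped InnerProductSpace ContDiff Topology
open Complex Filter

namespace Crest.Agent.R235.Rc0_820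

noncomputable section

variable {X H0 H1 : Type*} [NormedAddCommGroup X] [InnerProductSpace ℂ X] [CompleteSpace X]
  [NormedAddCommGroup H0] [InnerProductSpace ℂ H0] [CompleteSpace H0]
  [NormedAddCommGroup H1] [InnerProductSpace ℂ H1] [CompleteSpace H1]

local notation "⟪" x ", " y "⟫" => inner ℂ x y

variable (H0 H1) in
/-- the total space -/
abbrev HT := WithLp 2 (H0 × H1)

/-- a pair of operators -/
def pr {Z : Type*} [NormedAddCommGroup Z] [NormedSpace ℂ Z] (A : Z →L[ℂ] H0) (B : Z →L[ℂ] H1) :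
    Z →L[ℂ] HT H0 H1 :=
  (WithLp.prodContinuousLinearEquiv 2 ℂ H0 H1).symm.toContinuousLinearMap ∘L (A.prod B)

@[simp] lemma pr_fst {Z : Type*} [NormedAddCommGroup Z] [NormedSpace ℂ Z] (A : Z →L[ℂ] H0)
    (B : Z →L[ℂ] H1) (z : Z) : (pr A B z).fst = A z := rfl
@[simp] lemma pr_snd {Z : Type*} [NormedAddCommGroup Z] [NormedSpace ℂ Z] (A : Z →L[ℂ] H0)
    (B : Z →L[ℂ] H1) (z : Z) : (pr A B z).snd = B z := rfl

variable (H0 H1) in
def p0 : HT H0 H1 →L[ℂ] H0 := WithLp.fstL 2 ℂ H0 H1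
variable (H0 H1) in
def p1 : HT H0 H1 →L[ℂ] H1 := WithLp.sndL 2 ℂ H0 H1

@[simp] lemma p0_apply (x : HT H0 H1) : p0 H0 H1 x = x.fst := rfl
@[simp] lemma p1_apply (x : HT H0 H1) : p1 H0 H1 x = x.snd := rfl

lemma inner_HT (x y : HT H0 H1) : ⟪x, y⟫ = ⟪x.fst, y.fst⟫ + ⟪x.snd, y.snd⟫ :=
  WithLp.prod_inner_apply x y

lemma norm_HT (x : HT H0 H1) : ‖x‖ ^ 2 = ‖x.fst‖ ^ 2 + ‖x.snd‖ ^ 2 := by
  have h := inner_HT x x
  rw [inner_self_eq_norm_sq_to_K, inner_self_eq_norm_sq_to_K, inner_self_eq_norm_sq_to_K] at h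
  exact_mod_cast h

lemma ext_HT {x y : HT H0 H1} (h0 : x.fst = y.fst) (h1 : x.snd = y.snd) : x = y := by
  apply (WithLp.equiv 2 (H0 × H1)).injective
  exact Prod.ext h0 h1

/-- coercivity -/
def Coer (j : X →L[ℂ] H0) (D : X →L[ℂ] H1) : Prop :=
  ∃ c : ℝ, ∀ x, ‖x‖ ^ 2 ≤ c * (‖j x‖ ^ 2 + ‖D x‖ ^ 2)

/-- the weak equation `(1 + iεA) y = x` -/
structure WEq (j : X →L[ℂ] H0) (D : X →L[ℂ] H1) (ε : ℝ) (x y : HT H0 H1) (u : X) : Prop where
  fst : y.fst = j u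
  snd : y.snd = x.snd - (I * ε) • D u
  weak : ∀ v, ⟪j v, y.fst - x.fst⟫ + (I * ε) * ⟪D v, y.snd⟫ = 0

section ex
variable {j : X →L[ℂ] H0} {D : X →L[ℂ] H1} {ε : ℝ}

lemma T_below (hc : Coer j D) (hε : ε ≠ 0) : ∃ c : ℝ, 0 < c ∧ ∀ x,
    c * ‖x‖ ^ 2 ≤ ‖pr j ((ε : ℂ) • D) x‖ ^ 2 := by
  obtain ⟨c, hc⟩ := hc
  set d : ℝ := min 1 (ε ^ 2) with hd
  have hε2 : 0 < ε ^ 2 := by positivity
  have hd0 : 0 < d := lt_min one_pos hε2
  refine ⟨d / (|c| + 1), by positivity, fun x => ?_⟩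
  have h1 : ‖x‖ ^ 2 ≤ (|c| + 1) * (‖j x‖ ^ 2 + ‖D x‖ ^ 2) :=
    (hc x).trans (mul_le_mul_of_nonneg_right (by linarith [le_abs_self c]) (by positivity))
  have h2 : ‖pr j ((ε : ℂ) • D) x‖ ^ 2 = ‖j x‖ ^ 2 + ε ^ 2 * ‖D x‖ ^ 2 := by
    rw [norm_HT, pr_fst, pr_snd, smul_apply, norm_smul, mul_pow, norm_real,
      Real.norm_eq_abs, sq_abs]
  rw [h2, div_mul_eq_mul_div, div_le_iff₀ (by positivity)]
  have h3 : d * (‖j x‖ ^ 2 + ‖D x‖ ^ 2) ≤ ‖j x‖ ^ 2 + ε ^ 2 * ‖D x‖ ^ 2 := by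
    have a1 : d ≤ 1 := min_le_left _ _
    have a2 : d ≤ ε ^ 2 := min_le_right _ _
    have b1 := mul_le_mul_of_nonneg_right a1 (sq_nonneg ‖j x‖)
    have b2 := mul_le_mul_of_nonneg_right a2 (sq_nonneg ‖D x‖)
    linarith
  calc d * ‖x‖ ^ 2 ≤ d * ((|c| + 1) * (‖j x‖ ^ 2 + ‖D x‖ ^ 2)) :=
        mul_le_mul_of_nonneg_left h1 hd0.le
    _ = (d * (‖j x‖ ^ 2 + ‖D x‖ ^ 2)) * (|c| + 1) := by ring
    _ ≤ _ := mul_le_mul_of_nonneg_right h3 (by positivity)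

lemma isUnit_TT (hc : Coer j D) (hε : ε ≠ 0) :
    IsUnit ((ContinuousLinearMap.adjoint (pr j ((ε : ℂ) • D))) ∘L pr j ((ε : ℂ) • D)) := by
  obtain ⟨c, hc0, h⟩ := T_below hc hε
  refine ContinuousLinearMap.isUnit_of_forall_le_norm_inner_map _ (c := ⟨c, hc0.le⟩) hc0 fun x => ?_
  rw [ContinuousLinearMap.comp_apply, ContinuousLinearMap.adjoint_inner_left,
    inner_self_eq_norm_sq_to_K]
  have := h x
  show ‖x‖ ^ 2 * c ≤ _
  rw [mul_comm]
  refine this.trans (le_of_eq ?_)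
  simp

variable (j D ε) in
/-- the solution operator -/
def So : HT H0 H1 →L[ℂ] X :=
  Ring.inverse ((ContinuousLinearMap.adjoint (pr j ((ε : ℂ) • D))) ∘L pr j ((ε : ℂ) • D)) ∘L
    (ContinuousLinearMap.adjoint (pr j ((ε : ℂ) • D))) ∘L (pr (p0 H0 H1) ((-I) • p1 H0 H1))

variable (j D ε) in
/-- **the resolvent** -/
def Cr : HT H0 H1 →L[ℂ] HT H0 H1 :=
  pr (j ∘L So j D ε) (p1 H0 H1 - (I * ε) • (D ∘L So j D ε))

lemma So_eq (hc : Coer j D) (hε : ε ≠ 0) (x : HT H0 H1) (v : X) :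
    ⟪j v, j (So j D ε x)⟫ + ε ^ 2 * ⟪D v, D (So j D ε x)⟫ = ⟪j v, x.fst⟫ - I * ε * ⟪D v, x.snd⟫ := by
  set T := pr j ((ε : ℂ) • D) with hT
  have h1 : (ContinuousLinearMap.adjoint T ∘L T) * Ring.inverse (ContinuousLinearMap.adjoint T ∘L T) = 1 :=
    Ring.mul_inverse_cancel _ (isUnit_TT hc hε)
  have h2 : ContinuousLinearMap.adjoint T (T (So j D ε x)) =
      ContinuousLinearMap.adjoint T (pr (p0 H0 H1) ((-I) • p1 H0 H1) x) := by
    have := congrArg (fun S : X →L[ℂ] X =>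
      S (ContinuousLinearMap.adjoint T (pr (p0 H0 H1) ((-I) • p1 H0 H1) x))) h1
    exact this
  have h3 : ⟪v, ContinuousLinearMap.adjoint T (T (So j D ε x))⟫ =
      ⟪v, ContinuousLinearMap.adjoint T (pr (p0 H0 H1) ((-I) • p1 H0 H1) x)⟫ := by rw [h2]
  rw [ContinuousLinearMap.adjoint_inner_right, ContinuousLinearMap.adjoint_inner_right,
    inner_HT, inner_HT] at h3
  simp only [hT, pr_fst, pr_snd, smul_apply, inner_smul_left, inner_smul_right,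
    p0_apply, p1_apply, Complex.conj_ofReal] at h3
  linear_combination h3

lemma Cr_WEq (hc : Coer j D) (hε : ε ≠ 0) (x : HT H0 H1) :
    WEq j D ε x (Cr j D ε x) (So j D ε x) := by
  have h1 : (Cr j D ε x).fst = j (So j D ε x) := rfl
  have h2 : (Cr j D ε x).snd = x.snd - (I * ε) • D (So j D ε x) := rfl
  refine ⟨h1, h2, fun v => ?_⟩
  rw [h1, h2, inner_sub_right, inner_sub_right, inner_smul_right]
  have h := So_eq hc hε x v
  linear_combination h - ε ^ 2 * ⟪D v, D (So j D ε x)⟫ * I_sq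

lemma WEq.sub {x y x' y' : HT H0 H1} {u u' : X} (h : WEq j D ε x y u) (h' : WEq j D ε x' y' u') :
    WEq j D ε (x - x') (y - y') (u - u') := by
  refine ⟨?_, ?_, fun v => ?_⟩
  · show y.fst - y'.fst = _
    rw [h.fst, h'.fst, map_sub]
  · show y.snd - y'.snd = x.snd - x'.snd - _
    rw [h.snd, h'.snd, map_sub, smul_sub]; abel
  · show ⟪j v, (y.fst - y'.fst) - (x.fst - x'.fst)⟫ + (I * ε) * ⟪D v, y.snd - y'.snd⟫ = 0
    have a := h.weak v
    have b := h'.weak v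
    simp only [inner_sub_right] at a b ⊢
    linear_combination a - b

lemma WEq.smul {x y : HT H0 H1} {u : X} (h : WEq j D ε x y u) (c : ℂ) :
    WEq j D ε (c • x) (c • y) (c • u) := by
  refine ⟨?_, ?_, fun v => ?_⟩
  · show c • y.fst = _
    rw [h.fst, map_smul]
  · show c • y.snd = c • x.snd - _
    rw [h.snd, map_smul, smul_sub, smul_comm]
  · show ⟪j v, c • y.fst - c • x.fst⟫ + (I * ε) * ⟪D v, c • y.snd⟫ = 0
    have a := h.weak v
    simp only [inner_sub_right, inner_smul_right] at a ⊢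
    linear_combination c * a

lemma WEq.zero (hc : Coer j D) (hε : ε ≠ 0) {y : HT H0 H1} {u : X} (h : WEq j D ε 0 y u) :
    u = 0 ∧ y = 0 := by
  have h1 : y.snd = - (I * ε) • D u := by
    have := h.snd
    rw [show (0 : HT H0 H1).snd = 0 from rfl, zero_sub] at this
    rw [this, neg_smul]
  have h2 := h.weak u
  rw [show (0 : HT H0 H1).fst = 0 from rfl, sub_zero, h.fst, h1, inner_smul_right,
    inner_self_eq_norm_sq_to_K, inner_self_eq_norm_sq_to_K] at h2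
  have h3 : (((‖j u‖ ^ 2 + ε ^ 2 * ‖D u‖ ^ 2 : ℝ)) : ℂ) = 0 := by
    push_cast
    simp only [coe_algebraMap] at h2
    linear_combination h2 + ε ^ 2 * (‖D u‖ : ℂ) ^ 2 * I_sq
  have h4 : ‖j u‖ ^ 2 + ε ^ 2 * ‖D u‖ ^ 2 = 0 := by exact_mod_cast h3
  have hε2 : 0 < ε ^ 2 := by positivity
  have h5 : ‖j u‖ ^ 2 = 0 := by nlinarith [sq_nonneg ‖j u‖, sq_nonneg ‖D u‖, mul_nonneg hε2.le (sq_nonneg ‖D u‖)]
  have h6 : ‖D u‖ ^ 2 = 0 := by
    have : ε ^ 2 * ‖D u‖ ^ 2 = 0 := by linarith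
    rcases mul_eq_zero.1 this with h | h
    · exact absurd h hε2.ne'
    · exact h
  obtain ⟨c, hc⟩ := hc
  have h7 := hc u
  rw [h5, h6] at h7
  have h8 : ‖u‖ ^ 2 = 0 := le_antisymm (by simpa using h7) (sq_nonneg _)
  have hu : u = 0 := norm_eq_zero.1 (pow_eq_zero_iff (two_ne_zero) |>.1 h8)
  refine ⟨hu, ext_HT ?_ ?_⟩
  · rw [h.fst, hu, map_zero]; rfl
  · rw [h1, hu, map_zero, smul_zero]; rfl

/-- **characterisation of the resolvent** -/
theorem Cr_eq (hc : Coer j D) (hε : ε ≠ 0) {x y : HT H0 H1} {u : X} (h : WEq j D ε x y u) :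
    Cr j D ε x = y ∧ So j D ε x = u := by
  have h1 := (Cr_WEq hc hε x).sub h
  rw [sub_self] at h1
  obtain ⟨h2, h3⟩ := h1.zero hc hε
  exact ⟨sub_eq_zero.1 h3, sub_eq_zero.1 h2⟩

theorem Cr_iff (hc : Coer j D) (hε : ε ≠ 0) {x y : HT H0 H1} :
    Cr j D ε x = y ↔ ∃ u, WEq j D ε x y u :=
  ⟨fun h => ⟨_, h ▸ Cr_WEq hc hε x⟩, fun ⟨_, h⟩ => (Cr_eq hc hε h).1⟩

end ex

/-! ### the resolvent identity -/

/-- the off-diagonal operator `(x₀, x₁) ↦ (β* x₁, β x₀)` -/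
def od (β : H0 →L[ℂ] H1) : HT H0 H1 →L[ℂ] HT H0 H1 :=
  pr (ContinuousLinearMap.adjoint β ∘L p1 H0 H1) (β ∘L p0 H0 H1)

@[simp] lemma od_fst (β : H0 →L[ℂ] H1) (x : HT H0 H1) :
    (od β x).fst = ContinuousLinearMap.adjoint β x.snd := rfl
@[simp] lemma od_snd (β : H0 →L[ℂ] H1) (x : HT H0 H1) : (od β x).snd = β x.fst := rfl

section ri
variable {j : X →L[ℂ] H0} {D : X →L[ℂ] H1} {ε : ℝ}


end ri

/-! ### algebraic relations -/

variable (H0 H1) in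
/-- the grading -/
def gr : HT H0 H1 →L[ℂ] HT H0 H1 := pr (p0 H0 H1) (-p1 H0 H1)

@[simp] lemma gr_fst (x : HT H0 H1) : (gr H0 H1 x).fst = x.fst := rfl
@[simp] lemma gr_snd (x : HT H0 H1) : (gr H0 H1 x).snd = -x.snd := rfl

lemma gr_gr (x : HT H0 H1) : gr H0 H1 (gr H0 H1 x) = x := ext_HT rfl (by simp)

lemma gr_mul_gr : gr H0 H1 * gr H0 H1 = 1 := by
  ext1 x; exact gr_gr x


lemma inner_gr (x y : HT H0 H1) : ⟪gr H0 H1 x, y⟫ = ⟪x, gr H0 H1 y⟫ := by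
  rw [inner_HT, inner_HT]
  simp

lemma inner_od (β : H0 →L[ℂ] H1) (x y : HT H0 H1) : ⟪od β x, y⟫ = ⟪x, od β y⟫ := by
  rw [inner_HT, inner_HT]
  simp only [od_fst, od_snd, ContinuousLinearMap.adjoint_inner_left,
    ContinuousLinearMap.adjoint_inner_right]
  ring

section alg
variable {j : X →L[ℂ] H0} {D : X →L[ℂ] H1} {ε : ℝ}

/-- `g C_ε g = C_{-ε}` -/
theorem gCg (hc : Coer j D) (hε : ε ≠ 0) (x : HT H0 H1) :
    gr H0 H1 (Cr j D ε (gr H0 H1 x)) = Cr j D (-ε) x := by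
  have h := Cr_WEq hc hε (gr H0 H1 x)
  symm
  refine (Cr_eq hc (neg_ne_zero.2 hε) (u := So j D ε (gr H0 H1 x)) ⟨?_, ?_, fun v => ?_⟩).1
  · rw [gr_fst]; exact h.fst
  · rw [gr_snd, h.snd, gr_snd]
    push_cast
    rw [mul_neg, neg_smul, sub_neg_eq_add, neg_sub, sub_neg_eq_add, add_comm]
  · have a := h.weak v
    rw [gr_fst] at a ⊢
    rw [gr_snd, inner_neg_right]
    push_cast
    linear_combination a

/-- `C_ε* = C_{-ε}` -/
theorem inner_Cr (hc : Coer j D) (hε : ε ≠ 0) (x z : HT H0 H1) :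
    ⟪Cr j D (-ε) x, z⟫ = ⟪x, Cr j D ε z⟫ := by
  have h := Cr_WEq hc (neg_ne_zero.2 hε) x
  have h' := Cr_WEq hc hε z
  set y := Cr j D (-ε) x
  set u := So j D (-ε) x
  set w := Cr j D ε z
  set u' := So j D ε z
  have a := h.weak u'
  have b := h'.weak u
  have e1 : x.snd = y.snd - (I * ε) • D u := by
    have := h.snd
    push_cast at this
    rw [mul_neg, neg_smul, sub_neg_eq_add] at this
    rw [this]; abel
  have e2 : z.snd = w.snd + (I * ε) • D u' := by rw [h'.snd]; abel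
  have a' : ⟪x.fst, j u'⟫ = ⟪y.fst, j u'⟫ + I * ε * ⟪y.snd, D u'⟫ := by
    have := congrArg (starRingEnd ℂ) a
    push_cast at this
    simp only [map_add, map_mul, map_neg, inner_conj_symm, Complex.conj_ofReal, conj_I, map_zero,
      inner_sub_left] at this
    linear_combination -this
  rw [inner_HT, inner_HT, e1, e2, inner_add_right, inner_sub_left, inner_smul_right, inner_smul_left,
    h.fst, h'.fst]
  rw [h'.fst, inner_sub_right] at b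
  rw [h.fst] at a'
  simp only [map_mul, Complex.conj_ofReal, conj_I]
  linear_combination -b - a'

theorem Cr_adj (hc : Coer j D) (hε : ε ≠ 0) :
    ContinuousLinearMap.adjoint (Cr j D ε) = Cr j D (-ε) := by
  symm
  rw [ContinuousLinearMap.eq_adjoint_iff]
  intro x z
  exact inner_Cr hc hε x z

/-- dependence on `ε` -/
theorem Cr_eps {δ : ℝ} (hc : Coer j D) (hε : ε ≠ 0) (hδ : δ ≠ 0) (x : HT H0 H1) :
    (ε : ℂ) • Cr j D ε x = Cr j D δ ((δ : ℂ) • x + ((ε : ℂ) - δ) • Cr j D ε x) := by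
  have h := Cr_WEq hc hε x
  set y := Cr j D ε x
  set u := So j D ε x
  symm
  refine (Cr_eq hc hδ (u := (ε : ℂ) • u) ⟨?_, ?_, fun v => ?_⟩).1
  · show (ε : ℂ) • y.fst = _
    rw [h.fst, map_smul]
  · show (ε : ℂ) • y.snd = ((δ : ℂ) • x.snd + ((ε : ℂ) - δ) • y.snd) - _
    rw [h.snd, map_smul]
    module
  · show ⟪j v, (ε : ℂ) • y.fst - ((δ : ℂ) • x.fst + ((ε : ℂ) - δ) • y.fst)⟫ +
      (I * δ) * ⟪D v, (ε : ℂ) • y.snd⟫ = 0
    have a := h.weak v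
    simp only [inner_sub_right, inner_add_right, inner_smul_right] at a ⊢
    linear_combination (δ : ℂ) * a

theorem Cr_eps' {δ : ℝ} (hc : Coer j D) (hε : ε ≠ 0) (hδ : δ ≠ 0) :
    (ε : ℂ) • Cr j D ε = Cr j D δ * ((δ : ℂ) • 1 + ((ε : ℂ) - δ) • Cr j D ε) := by
  ext1 x
  exact Cr_eps hc hε hδ x

/-- `C + C* = 2 C* C` -/
theorem C_add_adj (hc : Coer j D) (hε : ε ≠ 0) :
    Cr j D ε + Cr j D (-ε) = (2 : ℂ) • (Cr j D (-ε) * Cr j D ε) := by
  have h := Cr_eps' (δ := -ε) hc hε (neg_ne_zero.2 hε)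
  push_cast at h
  have hε' : (ε : ℂ) ≠ 0 := by exact_mod_cast hε
  have h1 : (ε : ℂ) • (Cr j D ε + Cr j D (-ε)) = (ε : ℂ) • ((2 : ℂ) • (Cr j D (-ε) * Cr j D ε)) := by
    rw [smul_add, h, mul_add, mul_smul_comm, mul_one, mul_smul_comm]
    module
  exact smul_right_injective _ hε' h1

/-- `C + C* = 2 C C*` -/
theorem C_add_adj' (hc : Coer j D) (hε : ε ≠ 0) :
    Cr j D ε + Cr j D (-ε) = (2 : ℂ) • (Cr j D ε * Cr j D (-ε)) := by
  have h := C_add_adj hc (neg_ne_zero.2 hε)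
  rw [neg_neg] at h
  rw [add_comm]; exact h




end alg

/-! ### parameters -/

section par
variable {P : Type*} [NormedAddCommGroup P] [NormedSpace ℝ P]
variable {j : X →L[ℂ] H0} {D : X →L[ℂ] H1} {ε : ℝ}


lemma od_sub (β γ : H0 →L[ℂ] H1) : od (β - γ) = od β - od γ := by
  ext1 x
  refine ext_HT ?_ ?_
  · show ContinuousLinearMap.adjoint (β - γ) x.snd = ContinuousLinearMap.adjoint β x.snd -
      ContinuousLinearMap.adjoint γ x.snd
    rw [map_sub]; rfl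
  · rfl



end par

end

end Crest.Agent.R235.Rc0_820
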