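import Crest.Agent.R235.SWPfC_435

/-!
Row 235 (S0364), PACKAGE SW, leaf PFX (helper435), part D: the real family over the Jacobian torus.

* `CP G V`      : `G : M → ℂ` smooth, `|G| = 1`, `dG = 2π i V G`; products, inverses, powers;
* `gk j k`      : `∏ g_i^{k_i}`;
* `DR H hj h`   : `A + c(2π ∑ h_i al_i) i : W^{1,2} → L²`;
* `UR H hj k`   : multiplication by `g^{-k}` on `W^{1,2}(D0)`, `UH0` on `L²(D0)`;
* `phi j i`     : the bounded logarithm, `ThR`: multiplication by `exp (-2π i h·φ)` on `L²(D1)`;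
* `DR_UR`       : covariance; `contDiff_DR`, `contDiff_ThR`, `fred_DR`.
-/

set_option autoImplicit false
set_option maxSynthPendingDepth 3
set_option linter.unusedSectionVars false

open scoped ContDiff ENNReal NNReal Topology Manifold Bundle RealInnerProductSpace
open MeasureTheory Set Filter Metric Bundle Module

universe v

namespace Crest.Agent.R235.SWPf_435

open Crest.Agent.R249.Tv57 Crest.Agent.R247.Ms322 Crest.Agent.R247.Dir593
open Crest.Agent.R247.Frd657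
open Crest.Agent.R235.SWSym_451 Crest.Agent.R235.Fs4_546 Crest.Agent.R235.Fred_649
open Crest.Agent.R235.FamR_151 Crest.Agent.R235.SWDefs_53 Crest.Agent.R235.L4_433
open Crest.Agent.R235.Cpt_755 Crest.Agent.R275 Crest.Agent.R235.SWPfA_435

noncomputable section

section gauge

variable {M : Type v} [MetricSpace M] [CompactSpace M] [ConnectedSpace M]
  [ChartedSpace (EuclideanSpace ℝ (Fin 4)) M] [IsManifold (𝓡 4) ∞ M]
  [RiemannianBundle (fun p : M => TangentSpace (𝓡 4) p)]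
  [IsContMDiffRiemannianBundle (𝓡 4) ∞ (EuclideanSpace ℝ (Fin 4))
    (fun p : M => TangentSpace (𝓡 4) p)]
  [IsRiemannianManifold (𝓡 4) M] [MeasurableSpace M] [BorelSpace M]
  [SecondCountableTopology M] [Nonempty M] [IsFiniteMeasureOnCompacts (μHE[4] : Measure M)]

local notation "μM" => (μHE[4] : Measure M)

/-- a smooth function with values in the circle, `dG = 2π i V G`. -/
structure CP (G : M → ℂ) (V : M → EuclideanSpace ℝ (Fin 4)) : Prop where
  smr : ContMDiff (𝓡 4) 𝓘(ℝ, ℝ) ∞ fun z => (G z).re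
  smi : ContMDiff (𝓡 4) 𝓘(ℝ, ℝ) ∞ fun z => (G z).im
  unit : ∀ z, (G z).re ^ 2 + (G z).im ^ 2 = 1
  gr : ∀ z, Gr (n := 4) (fun z => (G z).re) z = (-(2 * Real.pi * (G z).im)) • V z
  gi : ∀ z, Gr (n := 4) (fun z => (G z).im) z = (2 * Real.pi * (G z).re) • V z

theorem CP.one : CP (fun _ : M => (1 : ℂ)) (fun _ => 0) where
  smr := contMDiff_const
  smi := contMDiff_const
  unit z := by simp
  gr z := by
    rw [smul_zero]
    exact Gr_const (n := 4) (1 : ℂ).re z
  gi z := by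
    rw [smul_zero]
    exact Gr_const (n := 4) (1 : ℂ).im z

theorem Gr_sub' {f g : M → ℝ} (hf : ContMDiff (𝓡 4) 𝓘(ℝ, ℝ) ∞ f)
    (hg : ContMDiff (𝓡 4) 𝓘(ℝ, ℝ) ∞ g) (z : M) :
    Gr (n := 4) (fun y => f y - g y) z = Gr (n := 4) f z - Gr (n := 4) g z := by
  have h1 : (fun y => f y - g y) = fun y => f y + (-1) * g y := by
    funext y; ring
  have h2 : ContMDiff (𝓡 4) 𝓘(ℝ, ℝ) ∞ fun y => (-1 : ℝ) * g y := contMDiff_const.mul hg
  rw [h1, Gr_add (md hf z) (md h2 z), Gr_const_mul (-1) (md hg z), neg_one_smul, sub_eq_add_neg]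

theorem CP.mul {G G' : M → ℂ} {V V' : M → EuclideanSpace ℝ (Fin 4)} (h : CP G V) (h' : CP G' V') :
    CP (fun z => G z * G' z) (fun z => V z + V' z) where
  smr := (h.smr.mul h'.smr).sub (h.smi.mul h'.smi)
  smi := (h.smr.mul h'.smi).add (h.smi.mul h'.smr)
  unit z := by
    have h1 := h.unit z
    have h2 := h'.unit z
    rw [Complex.mul_re, Complex.mul_im]
    calc _ = ((G z).re ^ 2 + (G z).im ^ 2) * ((G' z).re ^ 2 + (G' z).im ^ 2) := by ring
      _ = 1 := by rw [h1, h2, mul_one]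
  gr z := by
    have h1 := Gr_sub' (h.smr.mul h'.smr) (h.smi.mul h'.smi) z
    have h2 := Gr_mul (md h.smr z) (md h'.smr z)
    have h3 := Gr_mul (md h.smi z) (md h'.smi z)
    have h4 : Gr (n := 4) (fun z => (G z * G' z).re) z =
        Gr (n := 4) (fun y => (G y).re * (G' y).re - (G y).im * (G' y).im) z := rfl
    rw [h4]
    refine h1.trans ?_
    refine (congrArg₂ (· - ·) h2 h3).trans ?_
    rw [h.gr, h.gi, h'.gr, h'.gi, Complex.mul_im]
    module
  gi z := by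
    have h1 := Gr_add (md (h.smr.mul h'.smi) z) (md (h.smi.mul h'.smr) z)
    have h2 := Gr_mul (md h.smr z) (md h'.smi z)
    have h3 := Gr_mul (md h.smi z) (md h'.smr z)
    have h4 : Gr (n := 4) (fun z => (G z * G' z).im) z =
        Gr (n := 4) (fun y => (G y).re * (G' y).im + (G y).im * (G' y).re) z := rfl
    rw [h4]
    refine h1.trans ?_
    refine (congrArg₂ (· + ·) h2 h3).trans ?_
    rw [h.gr, h.gi, h'.gr, h'.gi, Complex.mul_re]
    module

theorem CP.normSq {G : M → ℂ} {V : M → EuclideanSpace ℝ (Fin 4)} (h : CP G V) (z : M) :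
    Complex.normSq (G z) = 1 := by
  rw [Complex.normSq_apply, ← sq, ← sq]
  exact h.unit z

theorem CP.ne_zero {G : M → ℂ} {V : M → EuclideanSpace ℝ (Fin 4)} (h : CP G V) (z : M) :
    G z ≠ 0 := by
  intro h0
  have h1 := h.normSq z
  rw [h0, map_zero] at h1
  exact zero_ne_one h1

theorem CP.inv {G : M → ℂ} {V : M → EuclideanSpace ℝ (Fin 4)} (h : CP G V) :
    CP (fun z => (G z)⁻¹) (fun z => - V z) := by
  have h1 : ∀ z, ((G z)⁻¹).re = (G z).re := fun z => by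
    rw [Complex.inv_re, h.normSq, div_one]
  have h2 : ∀ z, ((G z)⁻¹).im = - (G z).im := fun z => by
    rw [Complex.inv_im, h.normSq, div_one]
  have e1 : (fun z => ((G z)⁻¹).re) = fun z => (G z).re := funext h1
  have e2 : (fun z => ((G z)⁻¹).im) = fun z => (-1) * (G z).im := funext fun z => by
    rw [h2]; ring
  refine ⟨?_, ?_, fun z => ?_, fun z => ?_, fun z => ?_⟩
  · rw [e1]; exact h.smr
  · rw [e2]; exact contMDiff_const.mul h.smi
  · rw [h1, h2, neg_sq]; exact h.unit z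
  · rw [e1, h.gr, h2]
    module
  · rw [e2, Gr_const_mul (-1) (md h.smi z), h.gi, h1]
    module

theorem CP.congr {G G' : M → ℂ} {V V' : M → EuclideanSpace ℝ (Fin 4)} (h : CP G V)
    (hG : ∀ z, G' z = G z) (hV : ∀ z, V' z = V z) : CP G' V' := by
  obtain rfl : G' = G := funext hG
  obtain rfl : V' = V := funext hV
  exact h

theorem CP.pow {G : M → ℂ} {V : M → EuclideanSpace ℝ (Fin 4)} (h : CP G V) (k : ℕ) :
    CP (fun z => G z ^ k) (fun z => (k : ℝ) • V z) := by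
  induction k with
  | zero => exact CP.one.congr (fun z => pow_zero _) fun z => by rw [Nat.cast_zero, zero_smul]
  | succ k ih =>
    exact (ih.mul h).congr (fun z => pow_succ _ _) fun z => by
      rw [Nat.cast_succ, add_smul, one_smul]

theorem CP.zpow {G : M → ℂ} {V : M → EuclideanSpace ℝ (Fin 4)} (h : CP G V) (k : ℤ) :
    CP (fun z => G z ^ k) (fun z => (k : ℝ) • V z) := by
  cases k with
  | ofNat k => exact (h.pow k).congr (fun z => zpow_natCast _ _) fun z => by simp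
  | negSucc k =>
    exact (h.pow (k + 1)).inv.congr (fun z => zpow_negSucc _ _) fun z => by
      rw [Int.cast_negSucc, neg_smul]

theorem CP.prod {ι : Type*} (s : Finset ι) {G : ι → M → ℂ}
    {V : ι → M → EuclideanSpace ℝ (Fin 4)} (h : ∀ i, CP (G i) (V i)) :
    CP (fun z => ∏ i ∈ s, G i z) (fun z => ∑ i ∈ s, V i z) := by
  classical
  induction s using Finset.induction_on with
  | empty => exact CP.one.congr (fun z => Finset.prod_empty) fun z => Finset.sum_empty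
  | insert i s hi ih =>
    exact ((h i).mul ih).congr (fun z => Finset.prod_insert hi) fun z => Finset.sum_insert hi

end gauge

section fam

variable {M : Type v} [MetricSpace M] [CompactSpace M] [ConnectedSpace M]
  [ChartedSpace (EuclideanSpace ℝ (Fin 4)) M] [IsManifold (𝓡 4) ∞ M]
  [RiemannianBundle (fun p : M => TangentSpace (𝓡 4) p)]
  [IsContMDiffRiemannianBundle (𝓡 4) ∞ (EuclideanSpace ℝ (Fin 4))
    (fun p : M => TangentSpace (𝓡 4) p)]
  [IsRiemannianManifold (𝓡 4) M] [MeasurableSpace M] [BorelSpace M]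
  [SecondCountableTopology M] [Nonempty M] [IsFiniteMeasureOnCompacts (μHE[4] : Measure M)]
  {κ0 κ1 κT : Type} [Fintype κ0] [Fintype κ1] [Fintype κT]
  {S : SWS M κ0 κ1 κT} {cc : κ1 → κ0 → M → EuclideanSpace ℝ (Fin 4)} {J1 : κ1 → κ1 → M → ℝ}
  {b : ℕ} {j : JD M κT b}

local notation "μM" => (μHE[4] : Measure M)

/-- `g_i`. -/
def jG (j : JD M κT b) (i : Fin b) (z : M) : ℂ := (j.gc i z : ℂ) + (j.gs i z : ℂ) * Complex.I

theorem jG_re (i : Fin b) (z : M) : (jG j i z).re = j.gc i z := by simp [jG]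
theorem jG_im (i : Fin b) (z : M) : (jG j i z).im = j.gs i z := by simp [jG]

/-- `g^k`. -/
def gk (j : JD M κT b) (k : Fin b → ℤ) (z : M) : ℂ :=
  ∏ i, ((j.gc i z : ℂ) + (j.gs i z : ℂ) * Complex.I) ^ k i

theorem cp_jG (hj : j.OK S) (i : Fin b) : CP (jG j i) (S.vf (j.al i)) := by
  have e1 : (fun z => (jG j i z).re) = j.gc i := funext fun z => jG_re i z
  have e2 : (fun z => (jG j i z).im) = j.gs i := funext fun z => jG_im i z
  refine ⟨?_, ?_, fun z => ?_, fun z => ?_, fun z => ?_⟩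
  · rw [e1]; exact hj.smc i
  · rw [e2]; exact hj.sms i
  · rw [jG_re, jG_im]; exact hj.unit i z
  · rw [e1, jG_im]; exact hj.dgc i z
  · rw [e2, jG_re]; exact hj.dgs i z

theorem cp_gk (hj : j.OK S) (k : Fin b → ℤ) :
    CP (gk j k) (fun z => ∑ i, (k i : ℝ) • S.vf (j.al i) z) :=
  CP.prod Finset.univ (G := fun i z => jG j i z ^ k i)
    (V := fun i z => (k i : ℝ) • S.vf (j.al i) z) fun i => (cp_jG hj i).zpow (k i)

theorem jG_ne (hj : j.OK S) (i : Fin b) (z : M) : jG j i z ≠ 0 := (cp_jG hj i).ne_zero z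

theorem gk_add (hj : j.OK S) (k l : Fin b → ℤ) (z : M) : gk j (k + l) z = gk j k z * gk j l z := by
  unfold gk
  rw [← Finset.prod_mul_distrib]
  exact Finset.prod_congr rfl fun i _ => zpow_add₀ (jG_ne hj i z) _ _

theorem gk_zero (z : M) : gk j 0 z = 1 := by simp [gk]

/-! ### the forms -/

theorem sm_fm (hj : j.OK S) (h : Fin b → ℝ) : SmV (n := 4) (j.fm h) := fun A =>
  contMDiff_const.mul (contMDiff_finsetSum fun i _ => contMDiff_const.mul (hj.sm i A))

/-- `2π al_i`. -/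
def ei (j : JD M κT b) (i : Fin b) : κT → M → ℝ := fun A z => 2 * Real.pi * j.al i A z

theorem sm_ei (hj : j.OK S) (i : Fin b) : SmV (n := 4) (ei j i) := fun A =>
  contMDiff_const.mul (hj.sm i A)

theorem fm_eq (h : Fin b → ℝ) (A : κT) (z : M) : j.fm h A z = ∑ i, h i * ei j i A z := by
  unfold JD.fm ei
  rw [Finset.mul_sum]
  exact Finset.sum_congr rfl fun i _ => by ring

theorem cm_fm (h : Fin b → ℝ) (u : κ0 → M → ℝ) (x : κ1) (z : M) :
    S.cm (j.fm h) u x z = ∑ i, h i * S.cm (ei j i) u x z := by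
  unfold SWS.cm
  simp only [fm_eq, Finset.sum_mul, Finset.mul_sum]
  have e1 : ∀ A : κT, ∑ y : κ0, ∑ i : Fin b, h i * ei j i A z * u y z * S.cl A x y z =
      ∑ i : Fin b, ∑ y : κ0, h i * ei j i A z * u y z * S.cl A x y z := fun A => Finset.sum_comm
  simp only [e1]
  rw [Finset.sum_comm]
  refine Finset.sum_congr rfl fun i _ => Finset.sum_congr rfl fun A _ =>
    Finset.sum_congr rfl fun y _ => ?_
  ring

theorem vf_fm (h : Fin b → ℝ) (z : M) :
    S.vf (j.fm h) z = (2 * Real.pi) • ∑ i, h i • S.vf (j.al i) z := by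
  have h1 : ∀ A : κT, (2 * Real.pi * ∑ i, h i * j.al i A z) • S.s A z =
      ∑ i, (2 * Real.pi) • (h i • (j.al i A z • S.s A z)) := fun A => by
    rw [Finset.mul_sum, Finset.sum_smul]
    refine Finset.sum_congr rfl fun i _ => ?_
    rw [smul_smul, smul_smul, mul_assoc (2 * Real.pi)]
  have h2 : S.vf (j.fm h) z = ∑ A, (2 * Real.pi * ∑ i, h i * j.al i A z) • S.s A z := rfl
  rw [h2, Finset.sum_congr rfl fun A _ => h1 A, Finset.sum_comm, Finset.smul_sum]
  refine Finset.sum_congr rfl fun i _ => ?_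
  rw [← Finset.smul_sum, ← Finset.smul_sum]
  rfl

/-! ### the Dirac family -/

/-- **the Dirac family** `A + c(2π ∑ h_i al_i) i`. -/
def DR (H : Sym S cc) (hj : j.OK S) (h : Fin b → ℝ) : S.D0.toAD.WE →L[ℝ] S.D1.toAD.HE :=
  Ah S.P + ∑ i, h i • CW H (sm_ei hj i)

theorem DR_apply (H : Sym S cc) (hj : j.OK S) (h : Fin b → ℝ) (u : S.D0.toAD.WE) :
    DR H hj h u = Ah S.P u + ∑ i, h i • CW H (sm_ei hj i) u := by
  unfold DR
  rw [add_apply, sum_apply]
  rfl

theorem DR_zero (H : Sym S cc) (hj : j.OK S) : DR H hj 0 = Ah S.P := by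
  unfold DR
  simp

theorem sum_CW (H : Sym S cc) (hj : j.OK S) (h : Fin b → ℝ) (u : S.D0.toAD.WE) :
    ∑ i, h i • CW H (sm_ei hj i) u = CW H (sm_fm hj h) u := by
  refine HE_ext ?_
  have h1 : ∀ s : Finset (Fin b), ∀ᵐ z ∂μM, ∀ x, rf (∑ i ∈ s, h i • CW H (sm_ei hj i) u) x z =
      ∑ i ∈ s, h i * S.cm (ei j i) (rp u) x z := by
    classical
    intro s
    induction s using Finset.induction_on with
    | empty =>
      rw [ae_all_iff]
      intro x
      simp only [Finset.sum_empty]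
      exact Lp.coeFn_zero ℝ 2 μM
    | insert i s hi ih =>
      rw [Finset.sum_insert hi]
      filter_upwards [ih, rf_add (h i • CW H (sm_ei hj i) u)
        (∑ i ∈ s, h i • CW H (sm_ei hj i) u), rf_smul (h i) (CW H (sm_ei hj i) u),
        coe_CW H (sm_ei hj i) u] with z e1 e2 e3 e4 x
      rw [e2 x, e1 x, e3 x, e4 x, Finset.sum_insert hi]
  filter_upwards [h1 Finset.univ, coe_CW H (sm_fm hj h) u] with z e1 e2 x
  rw [e1 x, e2 x, cm_fm]

theorem CW_fm_add (H : Sym S cc) (hj : j.OK S) (h h' : Fin b → ℝ) (u : S.D0.toAD.WE) :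
    CW H (sm_fm hj (h + h')) u = CW H (sm_fm hj h) u + CW H (sm_fm hj h') u := by
  refine (sum_CW H hj (h + h') u).symm.trans ?_
  refine Eq.trans ?_ (congrArg₂ (· + ·) (sum_CW H hj h u) (sum_CW H hj h' u))
  refine Eq.trans ?_ Finset.sum_add_distrib
  exact Finset.sum_congr rfl fun i _ => add_smul _ _ _

theorem DR_eq (H : Sym S cc) (hj : j.OK S) (h : Fin b → ℝ) (u : S.D0.toAD.WE) :
    DR H hj h u = Ah S.P u + CW H (sm_fm hj h) u := by
  rw [DR_apply, sum_CW H hj]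

theorem coe_DR (H : Sym S cc) (hj : j.OK S) (h : Fin b → ℝ) (u : S.D0.toAD.WE) :
    ∀ᵐ z ∂μM, ∀ x, rf (DR H hj h u) x z = rf (Ah S.P u) x z + S.cm (j.fm h) (rp u) x z := by
  rw [DR_eq]
  filter_upwards [rf_add (Ah S.P u) (CW H (sm_fm hj h) u), coe_CW H (sm_fm hj h) u]
    with z e1 e2 x
  rw [e1 x, e2 x]

theorem DR_JW (H : Sym S cc) (C : CJ1 S cc J1) (hj : j.OK S) (h : Fin b → ℝ)
    (u : S.D0.toAD.WE) : DR H hj h (JW (cs0 H) u) = JH (cs1 C) (DR H hj h u) := by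
  rw [DR_eq, DR_eq, map_add, Ah_JW H C, CW_JW H C]

theorem contDiff_DR (H : Sym S cc) (hj : j.OK S) : ContDiff ℝ ∞ (DR H hj) := by
  unfold DR
  exact contDiff_const.add (ContDiff.sum fun i _ => (contDiff_apply ℝ ℝ i).smul contDiff_const)

theorem compact_sum (H : Sym S cc) (hj : j.OK S) (h : Fin b → ℝ) :
    IsCompactOperator (∑ i, h i • CW H (sm_ei hj i) : S.D0.toAD.WE →L[ℝ] S.D1.toAD.HE) := by
  classical
  have h1 : ∀ s : Finset (Fin b),
      IsCompactOperator (∑ i ∈ s, h i • CW H (sm_ei hj i) : S.D0.toAD.WE →L[ℝ] S.D1.toAD.HE) := by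
    intro s
    induction s using Finset.induction_on with
    | empty => simpa using isCompactOperator_zero
    | insert i s hi ih =>
      rw [Finset.sum_insert hi]
      exact IsCompactOperator.add ((compact_CW H (sm_ei hj i)).smul (h i)) ih
  exact h1 Finset.univ

theorem fred_DR (H : Sym S cc) (hj : j.OK S) (h : Fin b → ℝ) : Fred685.Fred (DR H hj h) :=
  (fred_Ah H).add_compact (compact_sum H hj h)

/-! ### gauge transformations -/

/-- multiplication by `g^{-k}` on `W^{1,2}(D0)`. -/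
def UR (H : Sym S cc) (hj : j.OK S) (k : Fin b → ℤ) : S.D0.toAD.WE →L[ℝ] S.D0.toAD.WE :=
  MW (cs0 H) (cp_gk hj (-k)).smr (cp_gk hj (-k)).smi

/-- multiplication by `g^{-k}` on `L²(D0)`. -/
def UH0 (H : Sym S cc) (hj : j.OK S) (k : Fin b → ℤ) : S.D0.toAD.HE →L[ℝ] S.D0.toAD.HE :=
  MH (cs0 H) (bm_smooth (cp_gk hj (-k)).smr) (bm_smooth (cp_gk hj (-k)).smi)

/-- multiplication by `g^{-k}` on `L²(D1)`. -/
def VH (C : CJ1 S cc J1) (hj : j.OK S) (k : Fin b → ℤ) : S.D1.toAD.HE →L[ℝ] S.D1.toAD.HE :=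
  MH (cs1 C) (bm_smooth (cp_gk hj (-k)).smr) (bm_smooth (cp_gk hj (-k)).smi)

theorem jj_UR (H : Sym S cc) (hj : j.OK S) (k : Fin b → ℤ) (u : S.D0.toAD.WE) :
    S.D0.toAD.jj (UR H hj k u) = UH0 H hj k (S.D0.toAD.jj u) := jj_MW _ _ _ u

theorem coe_UR (H : Sym S cc) (hj : j.OK S) (k : Fin b → ℤ) (u : S.D0.toAD.WE) :
    ∀ᵐ z ∂μM, ∀ y, rp (UR H hj k u) y z = j.gau S (fun i => - k i) (rp u) y z :=
  coe_MW _ _ _ u

theorem UR_JW (H : Sym S cc) (hj : j.OK S) (k : Fin b → ℤ) (u : S.D0.toAD.WE) :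
    UR H hj k (JW (cs0 H) u) = JW (cs0 H) (UR H hj k u) := MW_JW _ _ _ u

theorem UH0_JH (H : Sym S cc) (hj : j.OK S) (k : Fin b → ℤ) (f : S.D0.toAD.HE) :
    UH0 H hj k (JH (cs0 H) f) = JH (cs0 H) (UH0 H hj k f) := MH_JH _ _ _ f



theorem norm_UH0 (H : Sym S cc) (hj : j.OK S) (k : Fin b → ℤ) (f : S.D0.toAD.HE) :
    ‖UH0 H hj k f‖ = ‖f‖ := norm_MH _ _ _ (cp_gk hj (-k)).unit f

theorem gk_mul_mk (hj : j.OK S) (k l : Fin b → ℤ) (z : M) :
    (⟨(gk j (-k) z).re, (gk j (-k) z).im⟩ : ℂ) * ⟨(gk j (-l) z).re, (gk j (-l) z).im⟩ =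
      ⟨(gk j (-(k + l)) z).re, (gk j (-(k + l)) z).im⟩ := by
  have h1 : gk j (-(k + l)) z = gk j (-k) z * gk j (-l) z := by
    rw [neg_add, gk_add hj]
  show gk j (-k) z * gk j (-l) z = gk j (-(k + l)) z
  exact h1.symm

theorem UR_add (H : Sym S cc) (hj : j.OK S) (k l : Fin b → ℤ) (u : S.D0.toAD.WE) :
    UR H hj (k + l) u = UR H hj k (UR H hj l u) :=
  (MW_comp (cs0 H) _ _ _ _ _ _ (gk_mul_mk hj k l) u).symm

theorem UR_zero (H : Sym S cc) (hj : j.OK S) (u : S.D0.toAD.WE) : UR H hj 0 u = u :=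
  MW_one (cs0 H) _ _ (fun z => by rw [neg_zero, gk_zero]; rfl)
    (fun z => by rw [neg_zero, gk_zero]; rfl) u

theorem UH0_add (H : Sym S cc) (hj : j.OK S) (k l : Fin b → ℤ) (f : S.D0.toAD.HE) :
    UH0 H hj (k + l) f = UH0 H hj k (UH0 H hj l f) :=
  (MH_comp (cs0 H) _ _ _ _ _ _ (gk_mul_mk hj k l) f).symm

theorem UH0_zero (H : Sym S cc) (hj : j.OK S) (f : S.D0.toAD.HE) : UH0 H hj 0 f = f :=
  MH_one (cs0 H) _ _ (fun z => by rw [neg_zero, gk_zero]; rfl)
    (fun z => by rw [neg_zero, gk_zero]; rfl) f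

theorem VH_add (C : CJ1 S cc J1) (hj : j.OK S) (k l : Fin b → ℤ) (f : S.D1.toAD.HE) :
    VH C hj (k + l) f = VH C hj k (VH C hj l f) :=
  (MH_comp (cs1 C) _ _ _ _ _ _ (gk_mul_mk hj k l) f).symm

theorem VH_zero (C : CJ1 S cc J1) (hj : j.OK S) (f : S.D1.toAD.HE) : VH C hj 0 f = f :=
  MH_one (cs1 C) _ _ (fun z => by rw [neg_zero, gk_zero]; rfl)
    (fun z => by rw [neg_zero, gk_zero]; rfl) f

/-- **covariance**. -/
theorem DR_UR (H : Sym S cc) (C : CJ1 S cc J1) (hj : j.OK S) (h : Fin b → ℝ) (k : Fin b → ℤ)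
    (u : S.D0.toAD.WE) : DR H hj (h + zv k) (UR H hj k u) = VH C hj k (DR H hj h u) := by
  have hcp := cp_gk hj (-k)
  have hv : ∀ z, S.vf (j.fm (zv k)) z = (2 * Real.pi) • ∑ i, (k i : ℝ) • S.vf (j.al i) z :=
    fun z => vf_fm (zv k) z
  have hneg : ∀ z, ∑ i, (((-k) i : ℤ) : ℝ) • S.vf (j.al i) z =
      - ∑ i, (k i : ℝ) • S.vf (j.al i) z := fun z => by
    rw [← Finset.sum_neg_distrib]
    refine Finset.sum_congr rfl fun i _ => ?_
    rw [Pi.neg_apply]
    push_cast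
    rw [neg_smul]
  have h1 := Ah_MW H C (sm_fm hj (zv k)) hcp.smr hcp.smi
    (fun z => by
      rw [hcp.gr z, hneg, hv]
      module)
    (fun z => by
      rw [hcp.gi z, hneg, hv]
      module) u
  have h2 := CW_fm_add H hj h (zv k) (UR H hj k u)
  rw [DR_eq, DR_eq, h2, map_add, ← add_assoc, add_right_comm]
  have h3 : Ah S.P (UR H hj k u) + CW H (sm_fm hj (zv k)) (UR H hj k u) =
    VH C hj k (Ah S.P u) := h1
  have h4 : CW H (sm_fm hj h) (UR H hj k u) = VH C hj k (CW H (sm_fm hj h) u) :=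
    CW_MW H C (sm_fm hj h) hcp.smr hcp.smi u
  rw [h3, h4]

/-! ### the bounded logarithm -/

/-- the bounded logarithm. -/
def phi (j : JD M κT b) (i : Fin b) (z : M) : ℝ := (jG j i z).arg / (2 * Real.pi)

theorem two_pi_phi (i : Fin b) (z : M) : 2 * Real.pi * phi j i z = (jG j i z).arg := by
  unfold phi
  field_simp

theorem meas_phi (hj : j.OK S) (i : Fin b) : Measurable (phi j i) := by
  have h1 : Measurable (jG j i) := by
    unfold jG
    exact (Complex.measurable_ofReal.comp (hj.smc i).continuous.measurable).add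
      ((Complex.measurable_ofReal.comp (hj.sms i).continuous.measurable).mul_const _)
  exact (Complex.measurable_arg.comp h1).div_const _

theorem abs_phi_le (i : Fin b) (z : M) : |phi j i z| ≤ 1 := by
  unfold phi
  rw [abs_div, abs_of_pos Real.two_pi_pos, div_le_one Real.two_pi_pos]
  have h1 := Complex.abs_arg_le_pi (jG j i z)
  have h2 := Real.pi_pos
  linarith

theorem norm_jG (hj : j.OK S) (i : Fin b) (z : M) : ‖jG j i z‖ = 1 := by
  have h1 := (cp_jG hj i).normSq z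
  rw [Complex.normSq_eq_norm_sq] at h1
  exact (pow_eq_one_iff_of_nonneg (norm_nonneg _) two_ne_zero).1 h1

theorem cos_phi (hj : j.OK S) (i : Fin b) (z : M) :
    j.gc i z = Real.cos (2 * Real.pi * phi j i z) := by
  rw [two_pi_phi, Complex.cos_arg (jG_ne hj i z), norm_jG hj, div_one, jG_re]

theorem sin_phi (hj : j.OK S) (i : Fin b) (z : M) :
    j.gs i z = Real.sin (2 * Real.pi * phi j i z) := by
  rw [two_pi_phi, Complex.sin_arg, norm_jG hj, div_one, jG_im]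

theorem jG_eq_exp (hj : j.OK S) (i : Fin b) (z : M) :
    jG j i z = Complex.exp ((2 * Real.pi * phi j i z : ℝ) * Complex.I) := by
  apply Complex.ext
  · rw [Complex.exp_ofReal_mul_I_re, jG_re, cos_phi hj]
  · rw [Complex.exp_ofReal_mul_I_im, jG_im, sin_phi hj]

theorem gk_eq_exp (hj : j.OK S) (k : Fin b → ℤ) (z : M) :
    gk j k z = Complex.exp ((2 * Real.pi * ∑ i, (k i : ℝ) * phi j i z : ℝ) * Complex.I) := by
  have h1 : gk j k z = ∏ i, jG j i z ^ k i := rfl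
  rw [h1]
  have h2 : ∀ i, jG j i z ^ k i =
      Complex.exp ((k i : ℂ) * ((2 * Real.pi * phi j i z : ℝ) * Complex.I)) := fun i => by
    rw [jG_eq_exp hj, ← Complex.exp_int_mul]
  simp only [h2]
  rw [← Complex.exp_sum]
  congr 1
  push_cast
  rw [Finset.mul_sum, Finset.sum_mul]
  exact Finset.sum_congr rfl fun i _ => by ring

/-! ### multiplication by `exp (-2π i h·φ)` -/

/-- the cube. -/
abbrev Kb (b : ℕ) : Type := Metric.closedBall (0 : Fin b → ℝ) 1

instance (b : ℕ) : CompactSpace (Kb b) := isCompact_iff_compactSpace.1 (isCompact_closedBall _ _)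

/-- the coordinates. -/
def xb (b : ℕ) (i : Fin b) : C(Kb b, ℝ) :=
  ⟨fun t => t.1 i, (continuous_apply i).comp continuous_subtype_val⟩

/-- the map `φ : M → K`. -/
def phK (j : JD M κT b) (z : M) : Kb b := ⟨fun i => phi j i z, by
  rw [mem_closedBall_zero_iff, pi_norm_le_iff_of_nonneg zero_le_one]
  exact fun i => abs_phi_le i z⟩

theorem meas_phK (hj : j.OK S) : Measurable (phK j) :=
  Measurable.subtype_mk (measurable_pi_lambda _ fun i => meas_phi hj i)

theorem bm_comp (hj : j.OK S) (F : C(Kb b, ℝ)) : BM μM fun z => F (phK j z) :=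
  ⟨(F.continuous.measurable.comp (meas_phK hj)).aestronglyMeasurable, ‖F‖, norm_nonneg _,
    Eventually.of_forall fun z => F.norm_coe_le_norm _⟩

theorem NH_add {D : Dat 4 M κ1} {g g' g'' : M → ℝ} (hg : BM μM g) (hg' : BM μM g')
    (hg'' : BM μM g'') (h : ∀ z, g'' z = g z + g' z) :
    (NH hg'' : D.toAD.HE →L[ℝ] D.toAD.HE) = NH hg + NH hg' := by
  refine ContinuousLinearMap.ext fun f => HE_ext ?_
  rw [add_apply]
  filter_upwards [coe_NH hg'' f, coe_NH hg f, coe_NH hg' f, rf_add (NH hg f) (NH hg' f)]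
    with z e1 e2 e3 e4 x
  rw [e1 x, e4 x, e2 x, e3 x, h, add_mul]

theorem NH_smul {D : Dat 4 M κ1} {g g'' : M → ℝ} (c : ℝ) (hg : BM μM g)
    (hg'' : BM μM g'') (h : ∀ z, g'' z = c * g z) :
    (NH hg'' : D.toAD.HE →L[ℝ] D.toAD.HE) = c • NH hg := by
  refine ContinuousLinearMap.ext fun f => HE_ext ?_
  rw [smul_apply]
  filter_upwards [coe_NH hg'' f, coe_NH hg f, rf_smul c (NH hg f)] with z e1 e2 e3 x
  rw [e1 x, e3 x, e2 x, h, mul_assoc]

/-- multiplication by functions of `φ`, as a linear map. -/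
def NCl (D : Dat 4 M κ1) (hj : j.OK S) : C(Kb b, ℝ) →ₗ[ℝ] (D.toAD.HE →L[ℝ] D.toAD.HE) where
  toFun F := NH (bm_comp hj F)
  map_add' F G := NH_add (bm_comp hj F) (bm_comp hj G) (bm_comp hj (F + G)) fun _ => rfl
  map_smul' c F := NH_smul c (bm_comp hj F) (bm_comp hj (c • F)) fun _ => rfl

theorem norm_NCl_le (D : Dat 4 M κ1) (hj : j.OK S) (F : C(Kb b, ℝ)) :
    ‖NCl D hj F‖ ≤ 1 * ‖F‖ := by
  rw [one_mul]
  exact ContinuousLinearMap.opNorm_le_bound _ (norm_nonneg _) fun f =>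
    norm_NH_le (bm_comp hj F) (norm_nonneg _) (fun z => F.norm_coe_le_norm _) f

/-- multiplication by functions of `φ`. -/
def NC (D : Dat 4 M κ1) (hj : j.OK S) : C(Kb b, ℝ) →L[ℝ] (D.toAD.HE →L[ℝ] D.toAD.HE) :=
  (NCl D hj).mkContinuous 1 (norm_NCl_le D hj)


/-- **multiplication by** `exp (-2π i h·φ)` on `L²(D1)`. -/
def ThR (C : CJ1 S cc J1) (hj : j.OK S) (h : Fin b → ℝ) : S.D1.toAD.HE →L[ℝ] S.D1.toAD.HE :=
  NC S.D1 hj (cosC (xb b) h) - (NC S.D1 hj (sinC (xb b) h)).comp (JH (cs1 C))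

theorem contDiff_ThR (C : CJ1 S cc J1) (hj : j.OK S) : ContDiff ℝ ∞ (ThR C hj) := by
  have h1 : ContDiff ℝ ∞ fun h => NC S.D1 hj (cosC (xb b) h) :=
    (NC S.D1 hj).contDiff.comp (contDiff_cosC (xb b))
  have h2 : ContDiff ℝ ∞ fun h => NC S.D1 hj (sinC (xb b) h) :=
    (NC S.D1 hj).contDiff.comp (contDiff_sinC (xb b))
  have h3 : ContDiff ℝ ∞ fun T : S.D1.toAD.HE →L[ℝ] S.D1.toAD.HE => T.comp (JH (cs1 C)) :=
    ((ContinuousLinearMap.compL ℝ S.D1.toAD.HE S.D1.toAD.HE S.D1.toAD.HE).flip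
      (JH (cs1 C))).contDiff
  exact h1.sub (h3.comp h2)

/-- the phase `2π h·φ`. -/
def ps (j : JD M κT b) (h : Fin b → ℝ) (z : M) : ℝ := 2 * Real.pi * ∑ i, h i * phi j i z

theorem coe_ThR (C : CJ1 S cc J1) (hj : j.OK S) (h : Fin b → ℝ) (f : S.D1.toAD.HE) :
    ∀ᵐ z ∂μM, ∀ x, rf (ThR C hj h f) x z =
      cv' J1 ⟨Real.cos (ps j h z), -Real.sin (ps j h z)⟩ (fun y => rf f y z) z x := by
  have h0 : ThR C hj h f = NH (bm_comp hj (cosC (xb b) h)) f +
      (-1 : ℝ) • NH (bm_comp hj (sinC (xb b) h)) (JH (cs1 C) f) := by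
    rw [neg_one_smul, ← sub_eq_add_neg]
    rfl
  rw [h0]
  filter_upwards [rf_add (NH (bm_comp hj (cosC (xb b) h)) f)
    ((-1 : ℝ) • NH (bm_comp hj (sinC (xb b) h)) (JH (cs1 C) f)),
    rf_smul (-1) (NH (bm_comp hj (sinC (xb b) h)) (JH (cs1 C) f)),
    coe_NH (bm_comp hj (cosC (xb b) h)) f,
    coe_NH (bm_comp hj (sinC (xb b) h)) (JH (cs1 C) f), coe_JH (cs1 C) f] with z e1 e2 e3 e4 e5 x
  rw [e1 x, e2 x, e3 x, e4 x, e5 x]
  show Real.cos (ps j h z) * rf f x z + -1 * (Real.sin (ps j h z) * _) = _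
  unfold cv'
  ring

theorem exp_ps (h : Fin b → ℝ) (z : M) :
    (⟨Real.cos (ps j h z), -Real.sin (ps j h z)⟩ : ℂ) =
      Complex.exp (((-(ps j h z) : ℝ) : ℂ) * Complex.I) := by
  apply Complex.ext
  · rw [Complex.exp_ofReal_mul_I_re, Real.cos_neg]
  · rw [Complex.exp_ofReal_mul_I_im, Real.sin_neg]

theorem ps_add (h h' : Fin b → ℝ) (z : M) : ps j (h + h') z = ps j h z + ps j h' z := by
  unfold ps
  simp only [Pi.add_apply, add_mul, Finset.sum_add_distrib, mul_add]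

theorem ThR_add (C : CJ1 S cc J1) (hj : j.OK S) (h h' : Fin b → ℝ) (f : S.D1.toAD.HE) :
    ThR C hj (h + h') f = ThR C hj h (ThR C hj h' f) := by
  refine HE_ext ?_
  filter_upwards [coe_ThR C hj (h + h') f, coe_ThR C hj h (ThR C hj h' f), coe_ThR C hj h' f,
    sec_rf f] with z e1 e2 e3 e4 x
  rw [e1 x, e2 x]
  simp only [e3]
  rw [cv_cv (cs1 C) _ _ e4, exp_ps, exp_ps, exp_ps, ← Complex.exp_add, ps_add]
  congr 2
  push_cast
  ring

theorem ThR_zero (C : CJ1 S cc J1) (hj : j.OK S) (f : S.D1.toAD.HE) : ThR C hj 0 f = f := by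
  refine HE_ext ?_
  filter_upwards [coe_ThR C hj 0 f] with z e1 x
  rw [e1 x]
  have h1 : ps j 0 z = 0 := by simp [ps]
  rw [h1]
  simp [cv']

theorem norm_ThR (C : CJ1 S cc J1) (hj : j.OK S) (h : Fin b → ℝ) (f : S.D1.toAD.HE) :
    ‖ThR C hj h f‖ = ‖f‖ := by
  refine norm_eq_of_ae ?_
  filter_upwards [coe_ThR C hj h f, sec_rf f] with z e1 e2
  simp only [e1]
  rw [norm_cv (cs1 C) _ e2, Complex.normSq_apply]
  have h1 := Real.sin_sq_add_cos_sq (ps j h z)
  simp only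
  have h2 : Real.cos (ps j h z) * Real.cos (ps j h z) +
      -Real.sin (ps j h z) * -Real.sin (ps j h z) = 1 := by nlinarith
  rw [h2, one_mul]

theorem ThR_JH (C : CJ1 S cc J1) (hj : j.OK S) (h : Fin b → ℝ) (f : S.D1.toAD.HE) :
    ThR C hj h (JH (cs1 C) f) = JH (cs1 C) (ThR C hj h f) := by
  refine HE_ext ?_
  filter_upwards [coe_ThR C hj h (JH (cs1 C) f), coe_JH (cs1 C) f,
    coe_JH (cs1 C) (ThR C hj h f), coe_ThR C hj h f, sec_rf f] with z e1 e2 e3 e4 e5 x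
  rw [e1 x, e3 x]
  simp only [e2, e4]
  rw [jv_cv (cs1 C) _ e5]

theorem ThR_zv (C : CJ1 S cc J1) (hj : j.OK S) (k : Fin b → ℤ) (f : S.D1.toAD.HE) :
    ThR C hj (zv k) f = VH C hj k f := by
  refine HE_ext ?_
  filter_upwards [coe_ThR C hj (zv k) f, coe_MH (cs1 C) (bm_smooth (cp_gk hj (-k)).smr)
    (bm_smooth (cp_gk hj (-k)).smi) f] with z e1 e2 x
  have h0 : rf (VH C hj k f) x z = cv' J1 ⟨(gk j (-k) z).re, (gk j (-k) z).im⟩
    (fun b => rf f b z) z x := e2 x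
  rw [e1 x, h0]
  have h1 : (⟨Real.cos (ps j (zv k) z), -Real.sin (ps j (zv k) z)⟩ : ℂ) = gk j (-k) z := by
    rw [exp_ps, gk_eq_exp hj]
    congr 2
    unfold ps
    have h2 : ∀ i, (((-k) i : ℤ) : ℝ) * phi j i z = -(zv k i * phi j i z) := fun i => by
      rw [Pi.neg_apply]
      simp only [zv]
      push_cast
      ring
    simp only [h2, Finset.sum_neg_distrib]
    push_cast
    ring
  rw [h1]

end fam

end

end Crest.Agent.R235.SWPf_435
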