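import Crest.Agent.R235.SWPfA_435
import Crest.Agent.R235.Cx_172
import Crest.Agent.R235.FamR_151
import Crest.Agent.R235.SWPfD_435

-- ▼ part R235/SWPfG_435
section

/-!
Row 235 (S0364), PACKAGE SW, task 449 (helper435): a real family with complex structures gives a `PFam`.

* `RFam b V W V0` : real families `D, Th, U` commuting with complex structures `J, J'`; an injective
  compact map `jj : V → V0` (`J0`, `U0` on `V0`);
* `Φ.X, Φ.Y, Φ.H` : the complex Hilbert spaces; `Φ.toP : PFam b Φ.X Φ.Y`; `Φ.eX, Φ.eY, Φ.eH`;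
* `eX_I, eY_I, eH_I, norm_eY, norm_eH, eY_D, eY_Th, eX_U`, `incl, eH_incl, UH, eH_UH, incl_U`;
* `finrank_ker`, `finrank_coker`.
-/

set_option autoImplicit false
set_option linter.unusedSectionVars false

open scoped ContDiff InnerProductSpace
open Module

namespace Crest.Agent.R235.SWPf_435

open Crest.Agent.R235.Cx_172 Crest.Agent.R235.FamR_151

noncomputable section

/-- real families commuting with the complex structures. -/
structure RFam (b : ℕ) (V W V0 : Type*) [NormedAddCommGroup V] [InnerProductSpace ℝ V]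
    [CompleteSpace V] [NormedAddCommGroup W] [InnerProductSpace ℝ W] [CompleteSpace W]
    [NormedAddCommGroup V0] [InnerProductSpace ℝ V0] [CompleteSpace V0] where
  J : V →L[ℝ] V
  J' : W →L[ℝ] W
  J0 : V0 →L[ℝ] V0
  D : (Fin b → ℝ) → V →L[ℝ] W
  Th : (Fin b → ℝ) → W →L[ℝ] W
  U : (Fin b → ℤ) → V →L[ℝ] V
  jj : V →L[ℝ] V0
  U0 : (Fin b → ℤ) → V0 →L[ℝ] V0
  hJ : ∀ x, J (J x) = -x
  hJ' : ∀ x, J' (J' x) = -x
  hJ0 : ∀ x, J0 (J0 x) = -x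
  hI : ∀ x, ‖J' x‖ = ‖x‖
  hI0 : ∀ x, ‖J0 x‖ = ‖x‖
  D_J : ∀ h x, D h (J x) = J' (D h x)
  Th_J : ∀ h x, Th h (J' x) = J' (Th h x)
  U_J : ∀ k x, U k (J x) = J (U k x)
  jj_J : ∀ x, jj (J x) = J0 (jj x)
  U0_J : ∀ k x, U0 k (J0 x) = J0 (U0 k x)
  jj_inj : Function.Injective jj
  jj_cpt : IsCompactOperator jj
  jj_U : ∀ k x, jj (U k x) = U0 k (jj x)
  U0_zero : ∀ x, U0 0 x = x
  U0_add : ∀ k l x, U0 (k + l) x = U0 k (U0 l x)
  U0_norm : ∀ k x, ‖U0 k x‖ = ‖x‖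
  smD : ContDiff ℝ ∞ D
  smTh : ContDiff ℝ ∞ Th
  Th_zero : ∀ y, Th 0 y = y
  Th_add : ∀ h h' y, Th (h + h') y = Th h (Th h' y)
  Th_norm : ∀ h y, ‖Th h y‖ = ‖y‖
  U_zero : ∀ x, U 0 x = x
  U_add : ∀ k l x, U (k + l) x = U k (U l x)
  D_U : ∀ h k x, D (h + zv k) (U k x) = Th (zv k) (D h x)
  range_closed : ∀ h, IsClosed (Set.range (D h))
  ker_fin : ∀ h, FiniteDimensional ℝ (LinearMap.ker (D h : V →ₗ[ℝ] W))
  coker_fin : ∀ h, FiniteDimensional ℝ ((LinearMap.range (D h : V →ₗ[ℝ] W))ᗮ : Submodule ℝ W)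

namespace RFam

variable {b : ℕ} {V W V0 : Type*} [NormedAddCommGroup V] [InnerProductSpace ℝ V]
    [CompleteSpace V] [NormedAddCommGroup W] [InnerProductSpace ℝ W] [CompleteSpace W]
    [NormedAddCommGroup V0] [InnerProductSpace ℝ V0] [CompleteSpace V0] (Φ : RFam b V W V0)

/-- the source. -/
def X : Type _ := CX V Φ.J Φ.hJ

/-- the target. -/
def Y : Type _ := CX W Φ.J' Φ.hJ'

/-- the space containing the source. -/
def H : Type _ := CX V0 Φ.J0 Φ.hJ0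

instance : NormedAddCommGroup Φ.X := inferInstanceAs (NormedAddCommGroup (CX V Φ.J Φ.hJ))
instance : InnerProductSpace ℂ Φ.X := inferInstanceAs (InnerProductSpace ℂ (CX V Φ.J Φ.hJ))
instance : CompleteSpace Φ.X := inferInstanceAs (CompleteSpace (CX V Φ.J Φ.hJ))
instance : NormedAddCommGroup Φ.Y := inferInstanceAs (NormedAddCommGroup (CX W Φ.J' Φ.hJ'))
instance : InnerProductSpace ℂ Φ.Y := inferInstanceAs (InnerProductSpace ℂ (CX W Φ.J' Φ.hJ'))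
instance : CompleteSpace Φ.Y := inferInstanceAs (CompleteSpace (CX W Φ.J' Φ.hJ'))
instance : NormedAddCommGroup Φ.H := inferInstanceAs (NormedAddCommGroup (CX V0 Φ.J0 Φ.hJ0))
instance : InnerProductSpace ℂ Φ.H := inferInstanceAs (InnerProductSpace ℂ (CX V0 Φ.J0 Φ.hJ0))
instance : CompleteSpace Φ.H := inferInstanceAs (CompleteSpace (CX V0 Φ.J0 Φ.hJ0))

/-- the real homeomorphism `X ≃ V`. -/
def eX : Φ.X ≃L[ℝ] V := e V Φ.J Φ.hJ

/-- the real homeomorphism `Y ≃ W`. -/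
def eY : Φ.Y ≃L[ℝ] W := e W Φ.J' Φ.hJ'

/-- the real homeomorphism `H ≃ V0`. -/
def eH : Φ.H ≃L[ℝ] V0 := e V0 Φ.J0 Φ.hJ0

theorem eX_I (x : Φ.X) : Φ.eX (Complex.I • x) = Φ.J (Φ.eX x) := e_I_smul (hJ := Φ.hJ) x
theorem eY_I (y : Φ.Y) : Φ.eY (Complex.I • y) = Φ.J' (Φ.eY y) := e_I_smul (hJ := Φ.hJ') y
theorem norm_eY (y : Φ.Y) : ‖Φ.eY y‖ = ‖y‖ := norm_e (hJ := Φ.hJ') Φ.hI y
theorem norm_eH (y : Φ.H) : ‖Φ.eH y‖ = ‖y‖ := norm_e (hJ := Φ.hJ0) Φ.hI0 y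

/-- the operator `D h`. -/
def cD (h : Fin b → ℝ) : Φ.X →L[ℂ] Φ.Y :=
  (liftL (Φ.D h) (Φ.D_J h) : CX V Φ.J Φ.hJ →L[ℂ] CX W Φ.J' Φ.hJ')

/-- the operator `Th h`. -/
def cTh (h : Fin b → ℝ) : Φ.Y →L[ℂ] Φ.Y :=
  (liftL (Φ.Th h) (Φ.Th_J h) : CX W Φ.J' Φ.hJ' →L[ℂ] CX W Φ.J' Φ.hJ')

/-- the operator `U k`. -/
def cU (k : Fin b → ℤ) : Φ.X →L[ℂ] Φ.X :=
  (liftL (Φ.U k) (Φ.U_J k) : CX V Φ.J Φ.hJ →L[ℂ] CX V Φ.J Φ.hJ)

/-- the operator `U0 k`. -/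
def UH (k : Fin b → ℤ) : Φ.H →L[ℂ] Φ.H :=
  (liftL (Φ.U0 k) (Φ.U0_J k) : CX V0 Φ.J0 Φ.hJ0 →L[ℂ] CX V0 Φ.J0 Φ.hJ0)

/-- the inclusion. -/
def incl : Φ.X →L[ℂ] Φ.H :=
  (liftL Φ.jj Φ.jj_J : CX V Φ.J Φ.hJ →L[ℂ] CX V0 Φ.J0 Φ.hJ0)

theorem eY_cTh (h : Fin b → ℝ) (y : Φ.Y) : Φ.eY (Φ.cTh h y) = Φ.Th h (Φ.eY y) := rfl
theorem eH_UH (k : Fin b → ℤ) (x : Φ.H) : Φ.eH (Φ.UH k x) = Φ.U0 k (Φ.eH x) := rfl
theorem eH_incl (x : Φ.X) : Φ.eH (Φ.incl x) = Φ.jj (Φ.eX x) := rfl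



theorem UH_zero : Φ.UH 0 = ContinuousLinearMap.id ℂ Φ.H :=
  ContinuousLinearMap.ext fun x => Φ.eH.injective (Φ.U0_zero (Φ.eH x))

theorem UH_add (k l : Fin b → ℤ) : Φ.UH (k + l) = (Φ.UH k).comp (Φ.UH l) :=
  ContinuousLinearMap.ext fun x => Φ.eH.injective (Φ.U0_add k l (Φ.eH x))

theorem norm_UH (k : Fin b → ℤ) (x : Φ.H) : ‖Φ.UH k x‖ = ‖x‖ := by
  rw [← Φ.norm_eH, ← Φ.norm_eH x, eH_UH]
  exact Φ.U0_norm k _

/-- **the complex family**. -/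
def toP : PFam b Φ.X Φ.Y where
  D := Φ.cD
  Th := Φ.cTh
  U := Φ.cU
  smD := contDiff_liftL (hJ := Φ.hJ) (hJ' := Φ.hJ') Φ.smD Φ.D_J
  smTh := contDiff_liftL (hJ := Φ.hJ') (hJ' := Φ.hJ') Φ.smTh Φ.Th_J
  Th_zero := ContinuousLinearMap.ext fun y => Φ.eY.injective (Φ.Th_zero (Φ.eY y))
  Th_add h h' := ContinuousLinearMap.ext fun y => Φ.eY.injective (Φ.Th_add h h' (Φ.eY y))
  Th_norm h y := by
    rw [← Φ.norm_eY, ← Φ.norm_eY y, eY_cTh]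
    exact Φ.Th_norm h _
  U_zero := ContinuousLinearMap.ext fun x => Φ.eX.injective (Φ.U_zero (Φ.eX x))
  U_add k l := ContinuousLinearMap.ext fun x => Φ.eX.injective (Φ.U_add k l (Φ.eX x))
  D_U h k x := Φ.eY.injective (Φ.D_U h k (Φ.eX x))
  range_closed h :=
    (isClosed_range_liftL (hJ := Φ.hJ) (hJ' := Φ.hJ') (Φ.D_J h)).2 (Φ.range_closed h)
  ker_fin h := by
    have h1 := ker_liftL (hJ := Φ.hJ) (hJ' := Φ.hJ') (Φ.D_J h)
    have h2 := (finiteDimensional_csub (hJ := Φ.hJ) _ (com_ker (Φ.D_J h))).2 (Φ.ker_fin h)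
    rw [← h1] at h2
    exact h2
  coker_fin h := by
    have h1 := range_liftL (hJ := Φ.hJ) (hJ' := Φ.hJ') (Φ.D_J h)
    have h2 := (finiteDimensional_csub (hJ := Φ.hJ') _
      (com_orthogonal Φ.hJ' Φ.hI (com_range (Φ.D_J h)))).2 (Φ.coker_fin h)
    rw [← orthogonal_csub Φ.hI (hK := com_range (Φ.D_J h)), ← h1] at h2
    exact h2

theorem eY_D (h : Fin b → ℝ) (x : Φ.X) : Φ.eY (Φ.toP.D h x) = Φ.D h (Φ.eX x) := rfl

/-- the inclusion intertwines `U`. -/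
theorem incl_U (k : Fin b → ℤ) (x : Φ.X) : Φ.incl (Φ.toP.U k x) = Φ.UH k (Φ.incl x) :=
  Φ.eH.injective (Φ.jj_U k (Φ.eX x))

theorem finrank_ker (h : Fin b → ℝ) :
    2 * finrank ℂ (LinearMap.ker (Φ.toP.D h : Φ.X →ₗ[ℂ] Φ.Y)) =
      finrank ℝ (LinearMap.ker (Φ.D h : V →ₗ[ℝ] W)) := by
  have h1 := ker_liftL (hJ := Φ.hJ) (hJ' := Φ.hJ') (Φ.D_J h)
  have h2 := finrank_csub (hJ := Φ.hJ) _ (com_ker (Φ.D_J h))
  rw [← h1] at h2
  exact h2.symm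

theorem finrank_coker (h : Fin b → ℝ) :
    2 * finrank ℂ ((LinearMap.range (Φ.toP.D h : Φ.X →ₗ[ℂ] Φ.Y))ᗮ : Submodule ℂ Φ.Y) =
      finrank ℝ ((LinearMap.range (Φ.D h : V →ₗ[ℝ] W))ᗮ : Submodule ℝ W) := by
  have h1 := range_liftL (hJ := Φ.hJ) (hJ' := Φ.hJ') (Φ.D_J h)
  have h2 := finrank_csub (hJ := Φ.hJ') _ (com_orthogonal Φ.hJ' Φ.hI (com_range (Φ.D_J h)))
  rw [← orthogonal_csub Φ.hI (hK := com_range (Φ.D_J h)), ← h1] at h2
  exact h2.symm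

end RFam

end

end Crest.Agent.R235.SWPf_435
end

-- ▼ part R235/SWPfx_435

/-!
Row 235 (S0364), PACKAGE SW, task 449 (helper435): **PFX**, the linear Dirac family over the Jacobian
torus as a `PFam` in complex Hilbert spaces.

* `RF H C hj : RFam b S.D0.toAD.WE S.D1.toAD.HE S.D0.toAD.HE` (real data);
  `(RF H C hj).X` = `W^{1,2}(W⁺ ⊗ L)`, `.Y` = `L²(W⁻ ⊗ L)`, `.H` = `L²(W⁺ ⊗ L)`, `.incl`, `.UH`, `.toP`;
* `rep`, `index0`, `index1`, `pfx : PFX`.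
-/

set_option autoImplicit false
set_option maxSynthPendingDepth 3
set_option linter.unusedSectionVars false

open scoped ContDiff ENNReal NNReal Topology Manifold Bundle RealInnerProductSpace
open MeasureTheory Set Filter Metric Bundle Module

universe v

namespace Crest.Agent.R235.SWPf_435

open Crest.Agent.R249.Tv57 Crest.Agent.R247.Ms322 Crest.Agent.R247.Dir593
open Crest.Agent.R247.Frd657
open Crest.Agent.R235.SWSym_451 Crest.Agent.R235.Fs4_546 Crest.Agent.R235.Fred_649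
open Crest.Agent.R235.FamR_151 Crest.Agent.R235.SWDefs_53 Crest.Agent.R235.L4_433
open Crest.Agent.R235.Cpt_755 Crest.Agent.R275 Crest.Agent.R235.SWPfA_435

noncomputable section

section fam

variable {M : Type v} [MetricSpace M] [CompactSpace M] [ConnectedSpace M]
  [ChartedSpace (EuclideanSpace ℝ (Fin 4)) M] [IsManifold (𝓡 4) ∞ M]
  [RiemannianBundle (fun p : M => TangentSpace (𝓡 4) p)]
  [IsContMDiffRiemannianBundle (𝓡 4) ∞ (EuclideanSpace ℝ (Fin 4))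
    (fun p : M => TangentSpace (𝓡 4) p)]
  [IsRiemannianManifold (𝓡 4) M] [MeasurableSpace M] [BorelSpace M]
  [SecondCountableTopology M] [Nonempty M] [IsFiniteMeasureOnCompacts (μHE[4] : Measure M)]
  {κ0 κ1 κT : Type} [Fintype κ0] [Fintype κ1] [Fintype κT]
  {S : SWS M κ0 κ1 κT} {cc : κ1 → κ0 → M → EuclideanSpace ℝ (Fin 4)} {J1 : κ1 → κ1 → M → ℝ}
  {b : ℕ} {j : JD M κT b}

/-- **the real family**. -/
def RF (H : Sym S cc) (C : CJ1 S cc J1) (hj : j.OK S) :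
    RFam b S.D0.toAD.WE S.D1.toAD.HE S.D0.toAD.HE where
  J := JW (cs0 H)
  J' := JH (cs1 C)
  J0 := JH (cs0 H)
  D := DR H hj
  Th := ThR C hj
  U := UR H hj
  jj := S.D0.toAD.jj
  U0 := UH0 H hj
  hJ := JW_JW (cs0 H)
  hJ' := JH_JH (cs1 C)
  hJ0 := JH_JH (cs0 H)
  hI := norm_JH (cs1 C)
  hI0 := norm_JH (cs0 H)
  D_J := DR_JW H C hj
  Th_J := ThR_JH C hj
  U_J := UR_JW H hj
  jj_J := jj_JW (cs0 H)
  U0_J := UH0_JH H hj
  jj_inj := S.D0.toAD.jj_injective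
  jj_cpt := S.D0.toAD.compact_jj Swx_333.fried4
  jj_U := jj_UR H hj
  U0_zero := UH0_zero H hj
  U0_add := UH0_add H hj
  U0_norm := norm_UH0 H hj
  smD := contDiff_DR H hj
  smTh := contDiff_ThR C hj
  Th_zero := ThR_zero C hj
  Th_add := ThR_add C hj
  Th_norm := norm_ThR C hj
  U_zero := UR_zero H hj
  U_add := UR_add H hj
  D_U h k x := (DR_UR H C hj h k x).trans (ThR_zv C hj k _).symm
  range_closed h := (fred_real (fred_DR H hj h)).2.1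
  ker_fin h := (fred_real (fred_DR H hj h)).1
  coker_fin h := (fred_real (fred_DR H hj h)).2.2

theorem rank0 (H : Sym S cc) (hj : j.OK S) {d0 : ℕ} (h : Nonempty (KerD S.D0 S.P.A d0)) :
    finrank ℝ (LinearMap.ker (DR H hj 0 : S.D0.toAD.WE →ₗ[ℝ] S.D1.toAD.HE)) = d0 := by
  obtain ⟨S0⟩ := spec0 H
  rw [DR_zero, finrank_ker (dns4 S.D0) S0]
  exact card_ker S.P S0 h

theorem rank1 (H : Sym S cc) (hj : j.OK S) {d1 : ℕ} (h : Nonempty (KerD S.D1 S.P.B d1)) :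
    finrank ℝ ((LinearMap.range (DR H hj 0 : S.D0.toAD.WE →ₗ[ℝ] S.D1.toAD.HE))ᗮ :
      Submodule ℝ S.D1.toAD.HE) = d1 := by
  obtain ⟨S1⟩ := spec1 H
  rw [DR_zero, finrank_coker (dns4 S.D0) (dns4 S.D1) S1]
  exact card_ker S.P.swap S1 h

theorem index0 (H : Sym S cc) (C : CJ1 S cc J1) (hj : j.OK S) {d0 : ℕ}
    (h : Nonempty (KerD S.D0 S.P.A d0)) :
    2 * finrank ℂ (LinearMap.ker ((RF H C hj).toP.D 0 : (RF H C hj).X →ₗ[ℂ] (RF H C hj).Y)) =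
      d0 :=
  ((RF H C hj).finrank_ker 0).trans (rank0 H hj h)

theorem index1 (H : Sym S cc) (C : CJ1 S cc J1) (hj : j.OK S) {d1 : ℕ}
    (h : Nonempty (KerD S.D1 S.P.B d1)) :
    2 * finrank ℂ ((LinearMap.range
      ((RF H C hj).toP.D 0 : (RF H C hj).X →ₗ[ℂ] (RF H C hj).Y))ᗮ :
      Submodule ℂ (RF H C hj).Y) = d1 :=
  ((RF H C hj).finrank_coker 0).trans (rank1 H hj h)

set_option maxHeartbeats 4000000 in
/-- **the family is represented by** `A + c(2π ∑ h_i al_i) i`. -/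
theorem rep (H : Sym S cc) (C : CJ1 S cc J1) (hj : j.OK S) :
    SWDefs_53.Rep S j J1 (RF H C hj).toP (RF H C hj).eX (RF H C hj).eY (phi j) where
  iX x := by
    rw [(RF H C hj).eX_I]
    exact coe_JW (cs0 H) ((RF H C hj).eX x)
  iY f := by
    rw [(RF H C hj).eY_I]
    exact coe_JH (cs1 C) ((RF H C hj).eY f)
  nY f := (RF H C hj).norm_eY f
  D h x := coe_DR H hj h ((RF H C hj).eX x)
  U k x := coe_UR H hj k ((RF H C hj).eX x)
  mphi i := meas_phi hj i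
  bphi i z := abs_phi_le i z
  cphi i z := cos_phi hj i z
  sphi i z := sin_phi hj i z
  Th h f := by
    filter_upwards [coe_ThR C hj h ((RF H C hj).eY f)] with z e1 x
    refine (e1 x).trans ?_
    unfold cv'
    rw [neg_mul, ← sub_eq_add_neg]
    rfl

end fam


end

end Crest.Agent.R235.SWPf_435
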