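import Crest.Agent.R235.Rc3_820
import Crest.Agent.R235.FamEmb_192
import Crest.Agent.R235.RCSt_746
import Crest.Agent.R235.Rc0_820
import Crest.Agent.R235.SWPfx_435

-- ▼ part R235/Rc4_820
section

/-!
Row 235, block FAM/RC (helper820), RC-ABS part 4: `KerF` and the link to the finite dimensional
projections of `PFam.Fr`.
-/

set_option autoImplicit false
set_option linter.unusedSectionVars false
set_option maxSynthPendingDepth 3

open scoped InnerProductSpace ContDiff Topology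
open Complex Filter

namespace Crest.Agent.R235.Rc1_820

open Crest.Agent.R235.Rc0_820 Crest.Agent.R235.RCTr_746
open Crest.Agent.R235.FamR_151
open Crest.Agent.R235.FamDefs_307 (pdθ)
open Crest.Agent.R235.RCDefs_746 (Base Fam KerF Inf Gr)

noncomputable section

local notation "⟪" x ", " y "⟫" => inner ℂ x y

section gen

variable {X H0 H1 E : Type*} [NormedAddCommGroup X] [InnerProductSpace ℂ X] [CompleteSpace X]
  [NormedAddCommGroup H0] [InnerProductSpace ℂ H0] [CompleteSpace H0]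
  [NormedAddCommGroup H1] [InnerProductSpace ℂ H1] [CompleteSpace H1]
  [NormedAddCommGroup E] [InnerProductSpace ℂ E] [CompleteSpace E] [FiniteDimensional ℂ E]
  {j : X →L[ℂ] H0} {D : X →L[ℂ] H1}

variable (H0 H1) in
/-- the first inclusion. -/
def i0 : H0 →L[ℂ] HT H0 H1 := pr (ContinuousLinearMap.id ℂ H0) 0

@[simp] lemma i0_fst (x : H0) : (i0 H0 H1 x).fst = x := rfl
@[simp] lemma i0_snd (x : H0) : (i0 H0 H1 x).snd = 0 := rfl

/-- a projection of `H0` extended by `0`. -/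
def ex (A : H0 →L[ℂ] H0) : HT H0 H1 →L[ℂ] HT H0 H1 := i0 H0 H1 ∘L A ∘L p0 H0 H1

@[simp] lemma ex_fst (A : H0 →L[ℂ] H0) (x : HT H0 H1) : (ex A x).fst = A x.fst := rfl
@[simp] lemma ex_snd (A : H0 →L[ℂ] H0) (x : HT H0 H1) : (ex A x).snd = 0 := rfl

lemma star_ex {A : H0 →L[ℂ] H0} (h : star A = A) :
    star (ex A : HT H0 H1 →L[ℂ] HT H0 H1) = ex A := by
  rw [ContinuousLinearMap.star_eq_adjoint] at h ⊢
  symm
  rw [ContinuousLinearMap.eq_adjoint_iff]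
  intro x y
  rw [inner_HT, inner_HT, ex_fst, ex_snd, ex_fst, ex_snd, inner_zero_left, inner_zero_right,
    ← ContinuousLinearMap.adjoint_inner_right, h]

variable {β : H0 →L[ℂ] H1}

/-- solutions of `K (1 - V) u = u`, `V = i od β`. -/
lemma ker_iff (hc : Coer j D) (hs : ∀ y, ∃ z, D z + β (j z) = y) (u : HT H0 H1) :
    Cr j D 1 (u - (I • od β) u) = u ↔ ∃ z, D z + β (j z) = 0 ∧ u = i0 H0 H1 (j z) := by
  constructor
  · intro h
    obtain ⟨z, hz⟩ := (Cr_iff hc one_ne_zero).1 h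
    have h1 := hz.fst
    have h2 := hz.snd
    have h3 := hz.weak
    have e1 : (u - (I • od β) u).snd = u.snd - I • β u.fst := rfl
    have e2 : (u - (I • od β) u).fst = u.fst - I • ContinuousLinearMap.adjoint β u.snd := rfl
    rw [e1, h1] at h2
    rw [e2] at h3
    push_cast at h2 h3
    rw [mul_one] at h2 h3
    have h4 : I • (D z + β (j z)) = 0 := by
      have : u.snd - (u.snd - I • β (j z) - I • D z) = 0 := by rw [← h2]; exact sub_self _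
      rw [smul_add]
      rw [← this]; abel
    have h5 : D z + β (j z) = 0 := by
      rcases smul_eq_zero.1 h4 with h | h
      · exact absurd h I_ne_zero
      · exact h
    have h6 : ∀ v, ⟪D v + β (j v), u.snd⟫ = 0 := by
      intro v
      have a := h3 v
      rw [sub_sub_cancel, inner_smul_right, ContinuousLinearMap.adjoint_inner_right] at a
      rw [inner_add_left]
      have : I * (⟪D v, u.snd⟫ + ⟪β (j v), u.snd⟫) = 0 := by linear_combination a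
      rcases mul_eq_zero.1 this with h | h
      · exact absurd h I_ne_zero
      · exact h
    have h7 : u.snd = 0 := by
      obtain ⟨v, hv⟩ := hs u.snd
      have := h6 v
      rw [hv] at this
      exact inner_self_eq_zero.1 this
    exact ⟨z, h5, ext_HT h1 h7⟩
  · rintro ⟨z, hz, rfl⟩
    refine (Cr_iff hc one_ne_zero).2 ⟨z, ⟨rfl, ?_, fun v => ?_⟩⟩
    · show (0 : H1) = (0 - I • β (j z)) - (I * ((1 : ℝ) : ℂ)) • D z
      have : D z = - β (j z) := eq_neg_of_add_eq_zero_left hz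
      rw [this]
      push_cast
      module
    · show ⟪j v, j z - (j z - I • ContinuousLinearMap.adjoint β (0 : H1))⟫ +
        (I * ((1 : ℝ) : ℂ)) * ⟪D v, (0 : H1)⟫ = 0
      simp

end gen

section gen2

variable {X H0 H1 E : Type*} [NormedAddCommGroup X] [InnerProductSpace ℂ X] [CompleteSpace X]
  [NormedAddCommGroup H0] [InnerProductSpace ℂ H0] [CompleteSpace H0]
  [NormedAddCommGroup H1] [InnerProductSpace ℂ H1] [CompleteSpace H1]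
  [NormedAddCommGroup E] [InnerProductSpace ℂ E] [CompleteSpace E] [FiniteDimensional ℂ E]
  {j : X →L[ℂ] H0} {D : X →L[ℂ] H1}
  {β : (Fin 4 → ℝ) → H0 →L[ℂ] H1} {p : (Fin 4 → ℝ) → E →L[ℂ] E} {Jh : (Fin 4 → ℝ) → E →L[ℂ] X}

/-- the kernel projection. -/
theorem kerF_gen (hc : Coer j D) (hs : ∀ h y, ∃ z, D z + β h (j z) = y)
    (sp : ContDiff ℝ ∞ p) (sJ : ContDiff ℝ ∞ Jh) (hp : ∀ h v, p h (p h v) = p h v)
    (ha : ∀ h x y, ⟪p h x, y⟫ = ⟪x, p h y⟫) (hJ : ∀ h v, Jh h (p h v) = Jh h v)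
    (hi : ∀ h v, Jh h v = 0 → p h v = 0) (hA : ∀ h v, D (Jh h v) + β h (j (Jh h v)) = 0)
    (ho : ∀ h z, D z + β h (j z) = 0 → ∃ v, Jh h v = z) :
    KerF (gr H0 H1) (Cr j D 1) (fun h => I • od (β h))
      (fun h => ex (pj (p h) (j ∘L Jh h))) ∧
    ∀ h v, ex (pj (p h) (j ∘L Jh h)) (i0 H0 H1 (j (Jh h v))) = i0 H0 H1 (j (Jh h v)) := by
  have hi' : ∀ h v, (j ∘L Jh h) v = 0 → p h v = 0 := by
    intro h v hv
    refine hi h v ?_
    have hv' : j (Jh h v) = 0 := hv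
    have h1 := hA h v
    rw [hv', map_zero, add_zero] at h1
    obtain ⟨c, hc⟩ := hc
    have h2 := hc (Jh h v)
    rw [hv', h1] at h2
    have h3 : ‖Jh h v‖ ^ 2 = 0 := le_antisymm (by simpa using h2) (sq_nonneg _)
    exact norm_eq_zero.1 (pow_eq_zero_iff two_ne_zero |>.1 h3)
  have hT : ∀ h v, (j ∘L Jh h) (p h v) = (j ∘L Jh h) v := by
    intro h v
    show j (Jh h (p h v)) = j (Jh h v)
    rw [hJ]
  have hfix : ∀ h v, ex (pj (p h) (j ∘L Jh h)) (i0 H0 H1 (j (Jh h v))) = i0 H0 H1 (j (Jh h v)) := by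
    intro h v
    exact ext_HT (pj_T (hp h) (ha h) (hT h) (hi' h) v) rfl
  refine ⟨⟨?_, ?_, ?_, ?_, ?_, ?_⟩, hfix⟩
  · have h1 : ContDiff ℝ ∞ (fun h => pj (p h) (j ∘L Jh h)) := by
      refine cd_pj sp ?_ fun h => Qp_unit (hp h) (ha h) (hT h) (hi' h)
      exact (bil_comp (E := E) (F := X) (G := H0)).contDiff.comp (contDiff_const.prodMk sJ)
    have h2 : ContDiff ℝ ∞ (fun h => pj (p h) (j ∘L Jh h) ∘L p0 H0 H1) :=
      (bil_comp (E := HT H0 H1) (F := H0) (G := H0)).contDiff.comp (h1.prodMk contDiff_const)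
    exact (bil_comp (E := HT H0 H1) (F := H0) (G := HT H0 H1)).contDiff.comp
      (contDiff_const.prodMk h2)
  · intro h
    refine ContinuousLinearMap.ext fun x => ext_HT ?_ rfl
    exact pj_idem (hp h) (ha h) (hT h) (hi' h) x.fst
  · intro h
    exact star_ex (star_pj (hp h) (ha h) (hT h) (hi' h))
  · intro h
    refine ContinuousLinearMap.ext fun x => ext_HT rfl ?_
    show -(0 : H1) = 0
    exact neg_zero
  · intro h
    refine ContinuousLinearMap.ext fun x => ?_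
    obtain ⟨v, hv⟩ := pj_mem (p := p h) (T := j ∘L Jh h) x.fst
    have h1 : ex (pj (p h) (j ∘L Jh h)) x = i0 H0 H1 (j (Jh h v)) := ext_HT hv rfl
    have h2 := (ker_iff (β := β h) hc (hs h) (i0 H0 H1 (j (Jh h v)))).2 ⟨_, hA h v, rfl⟩
    rw [mul_apply_eq_comp, mul_apply_eq_comp, h1]
    exact h2
  · intro h u hu
    obtain ⟨z, hz, rfl⟩ := (ker_iff (β := β h) hc (hs h) u).1 hu
    obtain ⟨v, rfl⟩ := ho h z hz
    exact hfix h v

end gen2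

variable {X Y : Type*} [NormedAddCommGroup X] [InnerProductSpace ℂ X] [CompleteSpace X]
  [NormedAddCommGroup Y] [InnerProductSpace ℂ Y] [CompleteSpace Y]
  {Φ : PFam 4 X Y} {H0 : Type*} [NormedAddCommGroup H0] [InnerProductSpace ℂ H0]
  [CompleteSpace H0] (J : JF Φ H0) (W : Submodule ℂ Y) [FiniteDimensional ℂ W]

namespace JF

variable {n : ℕ} (fr : Φ.Fr W n)

/-- the projection onto the kernel bundle in `H`. -/
def PK (h : Fin 4 → ℝ) : J.HH W →L[ℂ] J.HH W :=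
  ex (pj (fr.P h) (J.jj W ∘L fr.J h))

/-- the embedding of the finite dimensional bundle. -/
def J2 (h : Fin 4 → ℝ) : EuclideanSpace ℂ (Fin n) →L[ℂ] J.HH W :=
  i0 (HT H0 W) Y ∘L J.jj W ∘L fr.J h

theorem kerF' (hs : ∀ h, Function.Surjective (Φ.A W h)) :
    KerF (gr (HT H0 W) Y) (J.K W) (J.V W) (J.PK W fr) ∧
      ∀ h v, J.PK W fr h (J.J2 W fr h v) = J.J2 W fr h v := by
  refine kerF_gen (J.coer' W) (fun h y => ?_) fr.smP fr.smJ fr.P_P fr.P_sa fr.J_P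
    (fun h v hv => ?_) (fun h v => ?_) (fun h z hz => ?_)
  · obtain ⟨z, hz⟩ := hs h y
    exact ⟨z, (J.A_eq W h z).trans hz⟩
  · rw [← fr.l_J, hv, map_zero]
  · rw [J.A_eq]
    exact fr.A_J h v
  · rw [J.A_eq] at hz
    exact ⟨fr.l h z, fr.J_l h z hz⟩

end JF

end

end Crest.Agent.R235.Rc1_820
end

-- ▼ part R235/Rc5_820
section

/-!
Row 235, block FAM/RC (helper820), RC-ABS part 5: `Base` and `Inf` for the stabilised operator from the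
unstabilised one, and the final form `JF.main`.
-/

set_option autoImplicit false
set_option linter.unusedSectionVars false
set_option maxSynthPendingDepth 3

open scoped InnerProductSpace ContDiff Topology
open Complex Filter

namespace Crest.Agent.R235.Rc1_820

open Crest.Agent.R235.Rc0_820 Crest.Agent.R235.RCTr_746
open Crest.Agent.R235.FamR_151
open Crest.Agent.R235.FamDefs_307 (pdθ sg ch4)
open Crest.Agent.R235.RCDefs_746 (Base Fam KerF Inf Gr RC)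

noncomputable section

local notation "⟪" x ", " y "⟫" => inner ℂ x y

section gen

variable {H K : Type*} [NormedAddCommGroup H] [InnerProductSpace ℂ H] [CompleteSpace H]
  [NormedAddCommGroup K] [InnerProductSpace ℂ K] [CompleteSpace K] {i : H →L[ℂ] K}

lemma adj_i (hi : ∀ x y, ⟪i x, i y⟫ = ⟪x, y⟫) (x : H) : ContinuousLinearMap.adjoint i (i x) = x := by
  refine ext_inner_left ℂ fun v => ?_
  rw [ContinuousLinearMap.adjoint_inner_right, hi]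

lemma dl_mul (hi : ∀ x y, ⟪i x, i y⟫ = ⟪x, y⟫) (A B : H →L[ℂ] H) : dl i A * dl i B = dl i (A * B) := by
  refine ContinuousLinearMap.ext fun x => ?_
  show i (A (ContinuousLinearMap.adjoint i (i (B (ContinuousLinearMap.adjoint i x))))) = _
  rw [adj_i hi]; rfl

lemma dl_add (A B : H →L[ℂ] H) : dl i (A + B) = dl i A + dl i B := by
  refine ContinuousLinearMap.ext fun x => ?_
  show i (A _ + B _) = i (A _) + i (B _)
  rw [map_add]

lemma dl_smul (c : ℂ) (A : H →L[ℂ] H) : dl i (c • A) = c • dl i A := by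
  refine ContinuousLinearMap.ext fun x => ?_
  show i (c • A _) = c • i (A _)
  rw [map_smul]

lemma dl_zero : dl i (0 : H →L[ℂ] H) = 0 := by
  refine ContinuousLinearMap.ext fun x => ?_
  show i ((0 : H →L[ℂ] H) (ContinuousLinearMap.adjoint i x)) = 0
  simp

lemma dl_sum {ι : Type*} (s : Finset ι) (A : ι → H →L[ℂ] H) : dl i (∑ k ∈ s, A k) = ∑ k ∈ s, dl i (A k) := by
  classical
  induction s using Finset.induction_on with
  | empty => simp [dl_zero]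
  | insert a s ha ih => rw [Finset.sum_insert ha, Finset.sum_insert ha, dl_add, ih]

lemma norm_i (hi : ∀ x y, ⟪i x, i y⟫ = ⟪x, y⟫) (x : H) : ‖i x‖ = ‖x‖ := by
  have h := hi x x
  rw [inner_self_eq_norm_sq_to_K, inner_self_eq_norm_sq_to_K] at h
  have h' : ‖i x‖ ^ 2 = ‖x‖ ^ 2 := by exact_mod_cast h
  exact (pow_left_inj₀ (norm_nonneg _) (norm_nonneg _) two_ne_zero).1 h'

lemma norm_dl (hi : ∀ x y, ⟪i x, i y⟫ = ⟪x, y⟫) (A : H →L[ℂ] H) : ‖dl i A‖ ≤ ‖A‖ := by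
  have h1 : ‖i‖ ≤ 1 := ContinuousLinearMap.opNorm_le_bound _ zero_le_one fun x => by
    rw [norm_i hi, one_mul]
  have h2 : ‖ContinuousLinearMap.adjoint i‖ ≤ 1 := by rwa [LinearIsometryEquiv.norm_map]
  calc ‖dl i A‖ ≤ ‖i‖ * ‖A ∘L ContinuousLinearMap.adjoint i‖ := ContinuousLinearMap.opNorm_comp_le _ _
    _ ≤ ‖i‖ * (‖A‖ * ‖ContinuousLinearMap.adjoint i‖) := by
        gcongr; exact ContinuousLinearMap.opNorm_comp_le _ _
    _ ≤ 1 * (‖A‖ * 1) := by gcongr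
    _ = ‖A‖ := by ring

/-- finite rank perturbation of a dilation. -/
lemma app_dl (hi : ∀ x y, ⟪i x, i y⟫ = ⟪x, y⟫) {A : H →L[ℂ] H} {c : ℝ} (hA : App A c (1 / 4))
    {Q : K →L[ℂ] K} {d : ℕ} (hQ : Rk Q d) : ∃ c', App (dl i A + Q) c' (1 / 4) := by
  have hc := hA.nonneg
  refine ⟨(c + ‖dl i A + Q‖) * ((d : ℝ) + 1), fun n => ?_⟩
  have hd : (1 : ℝ) ≤ (d : ℝ) + 1 := by linarith [(Nat.cast_nonneg d : (0 : ℝ) ≤ d)]
  have hn0 : (0 : ℝ) < (n : ℝ) + 1 := by positivity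
  by_cases hn : n < d
  · refine ⟨0, Rk.zero.mono (Nat.zero_le _), ?_⟩
    rw [sub_zero]
    have h1 : 1 ≤ ((d : ℝ) + 1) * ((n : ℝ) + 1) ^ (-(1 / 4) : ℝ) := by
      have h2 : (n : ℝ) + 1 ≤ (d : ℝ) + 1 := by
        have : (n : ℝ) < d := by exact_mod_cast hn
        linarith
      have h3 : ((d : ℝ) + 1) ^ (-1 : ℝ) ≤ ((n : ℝ) + 1) ^ (-(1 / 4) : ℝ) := by
        calc ((d : ℝ) + 1) ^ (-1 : ℝ) ≤ ((n : ℝ) + 1) ^ (-1 : ℝ) :=
              Real.rpow_le_rpow_of_nonpos hn0 h2 (by norm_num)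
          _ ≤ ((n : ℝ) + 1) ^ (-(1 / 4) : ℝ) :=
              Real.rpow_le_rpow_of_exponent_le (by linarith [(Nat.cast_nonneg n : (0 : ℝ) ≤ n)])
                (by norm_num)
      calc (1 : ℝ) = ((d : ℝ) + 1) * ((d : ℝ) + 1) ^ (-1 : ℝ) := by
            rw [Real.rpow_neg_one, mul_inv_cancel₀ (by positivity)]
        _ ≤ _ := mul_le_mul_of_nonneg_left h3 (by positivity)
    calc ‖dl i A + Q‖ ≤ (c + ‖dl i A + Q‖) * 1 := by linarith
      _ ≤ (c + ‖dl i A + Q‖) * (((d : ℝ) + 1) * ((n : ℝ) + 1) ^ (-(1 / 4) : ℝ)) :=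
          mul_le_mul_of_nonneg_left h1 (by positivity)
      _ = _ := by ring
  · push Not at hn
    obtain ⟨F, hF, hF2⟩ := hA (n - d)
    refine ⟨dl i F + Q, ((dl_rk hF).add hQ).mono (by omega), ?_⟩
    have e : dl i A + Q - (dl i F + Q) = dl i (A - F) := by
      refine ContinuousLinearMap.ext fun x => ?_
      show i (A _) + Q x - (i (F _) + Q x) = i (A _ - F _)
      rw [map_sub]; abel
    rw [e]
    refine (norm_dl hi _).trans (hF2.trans ?_)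
    have h1 : (((n - d : ℕ) : ℝ) + 1) ^ (-(1 / 4) : ℝ) ≤
        ((d : ℝ) + 1) * ((n : ℝ) + 1) ^ (-(1 / 4) : ℝ) := by
      have h2 : (n : ℝ) + 1 ≤ ((d : ℝ) + 1) * (((n - d : ℕ) : ℝ) + 1) := by
        have h3 : (n : ℝ) = ((n - d : ℕ) : ℝ) + d := by
          rw [Nat.cast_sub hn]; ring
        have h4 : (0 : ℝ) ≤ ((n - d : ℕ) : ℝ) := Nat.cast_nonneg _
        have h5 : (0 : ℝ) ≤ (d : ℝ) := Nat.cast_nonneg _
        rw [h3]
        nlinarith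
      have h3 : ((((d : ℝ) + 1) * (((n - d : ℕ) : ℝ) + 1))) ^ (-(1 / 4) : ℝ) ≤
          ((n : ℝ) + 1) ^ (-(1 / 4) : ℝ) := Real.rpow_le_rpow_of_nonpos hn0 h2 (by norm_num)
      rw [Real.mul_rpow (by positivity) (by positivity)] at h3
      have h4 : ((d : ℝ) + 1) ^ (-1 : ℝ) ≤ ((d : ℝ) + 1) ^ (-(1 / 4) : ℝ) :=
        Real.rpow_le_rpow_of_exponent_le hd (by norm_num)
      have h5 : (0 : ℝ) ≤ (((n - d : ℕ) : ℝ) + 1) ^ (-(1 / 4) : ℝ) := by positivity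
      calc (((n - d : ℕ) : ℝ) + 1) ^ (-(1 / 4) : ℝ) =
            ((d : ℝ) + 1) * (((d : ℝ) + 1) ^ (-1 : ℝ) * (((n - d : ℕ) : ℝ) + 1) ^ (-(1 / 4) : ℝ)) := by
              rw [Real.rpow_neg_one, ← mul_assoc, mul_inv_cancel₀ (by positivity), one_mul]
        _ ≤ ((d : ℝ) + 1) * (((d : ℝ) + 1) ^ (-(1 / 4) : ℝ) *
              (((n - d : ℕ) : ℝ) + 1) ^ (-(1 / 4) : ℝ)) := by gcongr
        _ ≤ _ := mul_le_mul_of_nonneg_left h3 (by positivity)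
    calc c * (((n - d : ℕ) : ℝ) + 1) ^ (-(1 / 4) : ℝ) ≤
          (c + ‖dl i A + Q‖) * (((d : ℝ) + 1) * ((n : ℝ) + 1) ^ (-(1 / 4) : ℝ)) :=
          mul_le_mul (by linarith [norm_nonneg (dl i A + Q)]) h1 (by positivity) (by positivity)
      _ = _ := by ring

/-- `G_ε⁴` is nuclear. -/
lemma nuc_G4 {g K0 : H →L[ℂ] H} (hB : Base g K0) (ε : ℝ) (A : H →L[ℂ] H) :
    ∃ c, IsNuc (A * (Gr K0 ε) ^ 4) c := by
  obtain ⟨c, hc⟩ := hB.app
  obtain ⟨c1, h1⟩ : ∃ c1, App (RCDefs_746.Cr K0 ε) c1 (1 / 4) := ⟨_, hc.right _⟩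
  have hs : star (RCDefs_746.Cr K0 ε) = Ring.inverse ((ε : ℂ) • (1 : H →L[ℂ] H) +
      ((1 - ε : ℝ) : ℂ) • star K0) * star K0 := by
    unfold RCDefs_746.Cr
    rw [star_mul, ← Ring.inverse_star, star_add, star_smul, star_smul, star_one]
    simp
  obtain ⟨c2, h2⟩ : ∃ c2, App (star (RCDefs_746.Cr K0 ε)) c2 (1 / 4) := by
    rw [hs, ← hB.gk]
    exact ⟨_, ((hc.left g).right g).left _⟩
  obtain ⟨c3, h3⟩ : ∃ c3, App (Gr K0 ε) c3 (1 / 2) := by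
    have := h2.mul h1 (by norm_num) (by norm_num)
    norm_num at this
    exact ⟨_, this⟩
  obtain ⟨c4, h4⟩ : ∃ c4, App ((Gr K0 ε) ^ 4) c4 2 := by
    have a := h3.mul h3 (by norm_num) (by norm_num)
    have b := a.mul a (by norm_num) (by norm_num)
    have e : (Gr K0 ε) ^ 4 = (Gr K0 ε ∘L Gr K0 ε) ∘L (Gr K0 ε ∘L Gr K0 ε) := by
      show (Gr K0 ε) ^ 4 = (Gr K0 ε * Gr K0 ε) * (Gr K0 ε * Gr K0 ε)
      rw [pow_succ, pow_succ, pow_succ, pow_one]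
      simp only [mul_assoc]
    rw [e]
    norm_num at b
    exact ⟨_, b⟩
  exact ⟨_, (h4.left A).isNuc (by norm_num)⟩

lemma pow4 {R : Type*} [Monoid R] (P x : R) : P * x ^ 4 = P * x * x * x * x := by
  rw [pow_succ, pow_succ, pow_succ, pow_one]
  simp only [mul_assoc]

/-- transfer of `Inf` along a dilation. -/
theorem inf_dl (hi : ∀ x y, ⟪i x, i y⟫ = ⟪x, y⟫) {g0 K0 : H →L[ℂ] H} {b0 : Fin 4 → H →L[ℂ] H}
    {L : ℂ} (hB : Base g0 K0) (hI : Inf g0 K0 b0 L) {g K' Q : K →L[ℂ] K} {b : Fin 4 → K →L[ℂ] K}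
    (hg : ∀ x, g (i x) = i (g0 x)) (hb : ∀ a, b a = dl i (b0 a))
    (hG : ∀ ε : ℝ, 0 < ε → Gr K' ε = dl i (Gr K0 ε) + Q) (hQi : ∀ x, Q (i x) = 0)
    (hiQ : ∀ x, ContinuousLinearMap.adjoint i (Q x) = 0) : Inf g K' b L where
  com a := by
    obtain ⟨c, hc⟩ := hI.com a
    refine ⟨c, fun ε h1 h2 => ?_⟩
    obtain ⟨Z, hZ, hZ2⟩ := hc ε h1 h2
    refine ⟨dl i Z, (norm_dl hi Z).trans hZ, ?_⟩
    rw [hb, hG ε h1]
    refine ContinuousLinearMap.ext fun x => ?_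
    have e := congrArg (fun T : H →L[ℂ] H => i (T (ContinuousLinearMap.adjoint i x))) hZ2
    simp only [mul_apply_eq_comp, add_apply, smul_apply, map_add, map_smul] at e
    show i (b0 a (ContinuousLinearMap.adjoint i (i (Gr K0 ε (ContinuousLinearMap.adjoint i x)) + Q x))) =
      (i (Gr K0 ε (ContinuousLinearMap.adjoint i (i (b0 a (ContinuousLinearMap.adjoint i x))))) +
        Q (i (b0 a (ContinuousLinearMap.adjoint i x)))) +
      (ε : ℂ) • (i (Gr K0 ε (ContinuousLinearMap.adjoint i (i (Z (ContinuousLinearMap.adjoint i x))))) +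
        Q (i (Z (ContinuousLinearMap.adjoint i x))))
    rw [map_add, hiQ, adj_i hi, adj_i hi, adj_i hi, hQi, hQi, add_zero, add_zero, add_zero]
    exact e
  weyl := by
    refine hI.weyl.congr' ?_
    filter_upwards [self_mem_nhdsWithin] with ε hε
    congr 1
    obtain ⟨c, hc⟩ := nuc_G4 hB ε (∑ σ : Equiv.Perm (Fin 4), sg σ •
      (g0 * b0 (σ 0) * b0 (σ 1) * b0 (σ 2) * b0 (σ 3)))
    rw [← (dl_isNuc hi hc).2]
    congr 1
    have hgd : ∀ A : H →L[ℂ] H, g * dl i A = dl i (g0 * A) := by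
      intro A
      refine ContinuousLinearMap.ext fun x => ?_
      exact hg _
    have hgQ : ∀ A : H →L[ℂ] H, dl i A * (dl i (Gr K0 ε) + Q) = dl i (A * Gr K0 ε) := by
      intro A
      refine ContinuousLinearMap.ext fun x => ?_
      show i (A (ContinuousLinearMap.adjoint i (i (Gr K0 ε (ContinuousLinearMap.adjoint i x)) + Q x))) = _
      rw [map_add, hiQ, adj_i hi, add_zero]; rfl
    have hσ : ∀ σ : Equiv.Perm (Fin 4), sg σ • (g * b (σ 0) * b (σ 1) * b (σ 2) * b (σ 3)) =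
        dl i (sg σ • (g0 * b0 (σ 0) * b0 (σ 1) * b0 (σ 2) * b0 (σ 3))) := by
      intro σ
      rw [hb, hb, hb, hb, hgd, dl_mul hi, dl_mul hi, dl_mul hi, dl_smul]
    simp only [hσ]
    rw [hG ε hε, ← dl_sum, pow4, pow4, hgQ, hgQ, hgQ, hgQ]

end gen

/-! ### the stabilised operator -/

section st

variable {X Y : Type*} [NormedAddCommGroup X] [InnerProductSpace ℂ X] [CompleteSpace X]
  [NormedAddCommGroup Y] [InnerProductSpace ℂ Y] [CompleteSpace Y]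
  {H0 W : Type*} [NormedAddCommGroup H0] [InnerProductSpace ℂ H0] [CompleteSpace H0]
  [NormedAddCommGroup W] [InnerProductSpace ℂ W] [CompleteSpace W] [FiniteDimensional ℂ W]

variable (H0 W Y) in
/-- `(x, y) ↦ ((x, 0), y)`. -/
def iw : HT H0 Y →L[ℂ] HT (HT H0 W) Y := pr (i0 H0 W ∘L p0 H0 Y) (p1 H0 Y)

lemma inner_iw (x y : HT H0 Y) : ⟪iw Y H0 W x, iw Y H0 W y⟫ = ⟪x, y⟫ := by
  rw [inner_HT, inner_HT x y]
  show ⟪i0 H0 W x.fst, i0 H0 W y.fst⟫ + ⟪x.snd, y.snd⟫ = _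
  rw [inner_HT]
  simp

lemma adj_iw (x : HT (HT H0 W) Y) : ContinuousLinearMap.adjoint (iw Y H0 W) x =
    WithLp.toLp 2 (x.fst.fst, x.snd) := by
  refine ext_inner_left ℂ fun v => ?_
  rw [ContinuousLinearMap.adjoint_inner_right, inner_HT, inner_HT]
  show ⟪i0 H0 W v.fst, x.fst⟫ + ⟪v.snd, x.snd⟫ = _
  rw [inner_HT]
  simp

variable (H0 W Y) in
/-- the projection onto `W`. -/
def qw : HT (HT H0 W) Y →L[ℂ] HT (HT H0 W) Y :=
  pr (pr 0 (p1 H0 W ∘L p0 (HT H0 W) Y)) 0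

lemma qw_rk : Rk (qw Y H0 W) (Module.finrank ℂ W) := by
  refine rk_of (E := W) ((i0 (HT H0 W) Y ∘L pr (0 : W →L[ℂ] H0) (ContinuousLinearMap.id ℂ W) :
    W →L[ℂ] HT (HT H0 W) Y) : W →ₗ[ℂ] _) fun x => ⟨x.fst.snd, ?_⟩
  exact ext_HT (ext_HT rfl rfl) rfl

/-- block form of the resolvent. -/
lemma cr_st {j : X →L[ℂ] H0} {D : X →L[ℂ] Y} (hc : Coer j D) {jj : HT X W →L[ℂ] HT H0 W}
    {DD : HT X W →L[ℂ] Y} (hj0 : ∀ z, (jj z).fst = j z.fst) (hj1 : ∀ z, (jj z).snd = z.snd)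
    (hD : ∀ z, DD z = D z.fst) (hc' : Coer jj DD) {ε : ℝ} (hε : ε ≠ 0) :
    Cr jj DD ε = dl (iw Y H0 W) (Cr j D ε) + qw Y H0 W := by
  refine ContinuousLinearMap.ext fun x => ?_
  set x0 : HT H0 Y := WithLp.toLp 2 (x.fst.fst, x.snd) with hx0
  have hw := Cr_WEq hc hε x0
  have e0 : (dl (iw Y H0 W) (Cr j D ε) + qw Y H0 W) x =
      WithLp.toLp 2 (WithLp.toLp 2 ((Cr j D ε x0).fst, x.fst.snd), (Cr j D ε x0).snd) := by
    show iw Y H0 W (Cr j D ε (ContinuousLinearMap.adjoint (iw Y H0 W) x)) + qw Y H0 W x = _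
    rw [adj_iw, ← hx0]
    refine ext_HT (ext_HT ?_ ?_) ?_
    · exact add_zero (Cr j D ε x0).fst
    · exact zero_add x.fst.snd
    · exact add_zero (Cr j D ε x0).snd
  rw [e0]
  refine (Cr_eq hc' hε (u := WithLp.toLp 2 (So j D ε x0, x.fst.snd)) ⟨?_, ?_, fun v => ?_⟩).1
  · refine ext_HT ?_ ?_
    · rw [hj0]; exact hw.fst
    · rw [hj1]; rfl
  · rw [hD]; exact hw.snd
  · have h1 := hw.weak v.fst
    rw [hD, inner_HT]
    show ⟪(jj v).fst, (Cr j D ε x0).fst - x.fst.fst⟫ + ⟪(jj v).snd, x.fst.snd - x.fst.snd⟫ +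
      (I * ε) * ⟪D v.fst, (Cr j D ε x0).snd⟫ = 0
    rw [hj0, sub_self, inner_zero_right, add_zero]
    exact h1

lemma gr_iw (x : HT H0 Y) : gr (HT H0 W) Y (iw Y H0 W x) = iw Y H0 W (gr H0 Y x) := ext_HT rfl rfl

lemma qw_iw (x : HT H0 Y) : qw Y H0 W (iw Y H0 W x) = 0 := ext_HT (ext_HT rfl rfl) rfl

lemma iw_qw (x : HT (HT H0 W) Y) : ContinuousLinearMap.adjoint (iw Y H0 W) (qw Y H0 W x) = 0 := by
  rw [adj_iw]; rfl

lemma qw_qw (x : HT (HT H0 W) Y) : qw Y H0 W (qw Y H0 W x) = qw Y H0 W x :=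
  ext_HT (ext_HT rfl rfl) rfl

lemma od_st (B : H0 →L[ℂ] Y) : I • od (B ∘L p0 H0 W) = dl (iw Y H0 W) (I • od B) := by
  refine ContinuousLinearMap.ext fun x => ?_
  show I • od (B ∘L p0 H0 W) x = iw Y H0 W (I • od B (ContinuousLinearMap.adjoint (iw Y H0 W) x))
  rw [adj_iw, map_smul]
  congr 1
  refine ext_HT ?_ rfl
  show ContinuousLinearMap.adjoint (B ∘L p0 H0 W) x.snd = i0 H0 W (ContinuousLinearMap.adjoint B x.snd)
  refine ext_inner_left ℂ fun v => ?_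
  rw [ContinuousLinearMap.adjoint_inner_right, inner_HT]
  show ⟪B v.fst, x.snd⟫ = ⟪v.fst, ContinuousLinearMap.adjoint B x.snd⟫ + ⟪v.snd, (0 : W)⟫
  rw [ContinuousLinearMap.adjoint_inner_right, inner_zero_right, add_zero]

end st

namespace JF

variable {X Y : Type*} [NormedAddCommGroup X] [InnerProductSpace ℂ X] [CompleteSpace X]
  [NormedAddCommGroup Y] [InnerProductSpace ℂ Y] [CompleteSpace Y]
  {Φ : PFam 4 X Y} {H0 : Type*} [NormedAddCommGroup H0] [InnerProductSpace ℂ H0]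
  [CompleteSpace H0] (J : JF Φ H0) (W : Submodule ℂ Y) [FiniteDimensional ℂ W]

/-- the unstabilised resolvent. -/
def K0 : HT H0 Y →L[ℂ] HT H0 Y := Cr J.j (Φ.D 0) 1

lemma cr_eq' {ε : ℝ} (hε : ε ≠ 0) : Cr (J.jj W) (D0 Φ W) ε =
    dl (iw Y H0 W) (Cr J.j (Φ.D 0) ε) + qw Y H0 W :=
  cr_st J.coer (fun _ => rfl) (fun _ => rfl) (fun _ => rfl) (J.coer' W) hε

theorem base' (hA : ∃ c, App J.K0 c (1 / 4)) : Base (gr (HT H0 W) Y) (J.K W) := by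
  refine base (J.coer' W) ?_
  obtain ⟨c, hc⟩ := hA
  rw [J.cr_eq' W one_ne_zero]
  exact app_dl inner_iw hc qw_rk

theorem inf' (hA : ∃ c, App J.K0 c (1 / 4)) {L : ℂ}
    (hI : Inf (gr H0 Y) J.K0 (fun a => I • od (J.B a)) L) :
    Inf (gr (HT H0 W) Y) (J.K W) (J.bb W) L := by
  refine inf_dl (i := iw Y H0 W) (Q := qw Y H0 W) inner_iw (base J.coer hA) hI gr_iw
    (fun a => od_st (J.B a)) (fun ε hε => ?_) qw_iw iw_qw
  unfold Gr
  show star (RCDefs_746.Cr (Cr (J.jj W) (D0 Φ W) 1) ε) * RCDefs_746.Cr (Cr (J.jj W) (D0 Φ W) 1) ε =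
    dl _ (star (RCDefs_746.Cr (Cr J.j (Φ.D 0) 1) ε) * RCDefs_746.Cr (Cr J.j (Φ.D 0) 1) ε) + _
  rw [cr_eq (J.coer' W) hε.ne', cr_eq J.coer hε.ne', star_cr (J.coer' W) hε.ne',
    star_cr J.coer hε.ne', J.cr_eq' W hε.ne', J.cr_eq' W (neg_ne_zero.2 hε.ne')]
  refine ContinuousLinearMap.ext fun x => ?_
  have h1 : ∀ (A B : HT H0 Y →L[ℂ] HT H0 Y),
      ((dl (iw Y H0 W) A + qw Y H0 W) * (dl (iw Y H0 W) B + qw Y H0 W)) x =
      (dl (iw Y H0 W) (A * B) + qw Y H0 W) x := by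
    intro A B
    show iw Y H0 W (A (ContinuousLinearMap.adjoint (iw Y H0 W)
        (iw Y H0 W (B (ContinuousLinearMap.adjoint (iw Y H0 W) x)) + qw Y H0 W x))) +
      qw Y H0 W (iw Y H0 W (B (ContinuousLinearMap.adjoint (iw Y H0 W) x)) + qw Y H0 W x) =
      iw Y H0 W (A (B (ContinuousLinearMap.adjoint (iw Y H0 W) x))) + qw Y H0 W x
    rw [map_add, iw_qw, adj_i inner_iw, add_zero, map_add, qw_iw, qw_qw, zero_add]
  exact h1 _ _

end JF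

end

end Crest.Agent.R235.Rc1_820
end

-- ▼ part R235/RcMain_820
section

/-!
Row 235, block FAM/RC (helper820), RC-ABS: OUTPUT.

`J : JF Φ H0` (151's `Φ : PFam 4 X Y` with the inclusion `j : X →L H0`), `W` with `A W h` onto,
`fr : Φ.Fr W n`.  `J.main`: `RC` gives `ch4 tr (J.PK W fr) = L / 2`, where `L` is the limit of `Inf`
for the unstabilised unperturbed operator.  `J.J2 W fr h : ℂⁿ →L H` is an isomorphism of
`range (fr.P h)` with `range (J.PK W fr h)`, periodic up to `J.UU`.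
-/

set_option autoImplicit false
set_option linter.unusedSectionVars false
set_option maxSynthPendingDepth 3

open scoped InnerProductSpace ContDiff Topology
open Complex Filter

namespace Crest.Agent.R235.Rc1_820

open Crest.Agent.R235.Rc0_820 Crest.Agent.R235.RCTr_746
open Crest.Agent.R235.FamR_151
open Crest.Agent.R235.FamDefs_307 (pdθ sg ch4)
open Crest.Agent.R235.RCDefs_746 (Base Fam KerF Inf Gr RC)

noncomputable section

local notation "⟪" x ", " y "⟫" => inner ℂ x y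

namespace JF

section link

variable {X Y : Type*} [NormedAddCommGroup X] [InnerProductSpace ℂ X] [CompleteSpace X]
  [NormedAddCommGroup Y] [InnerProductSpace ℂ Y] [CompleteSpace Y]
  {Φ : PFam 4 X Y} {H0 : Type*} [NormedAddCommGroup H0] [InnerProductSpace ℂ H0]
  [CompleteSpace H0] (J : JF Φ H0) (W : Submodule ℂ Y) [FiniteDimensional ℂ W]
  {n : ℕ} (fr : Φ.Fr W n)

lemma cd_J2 : ContDiff ℝ ∞ (J.J2 W fr) := by
  have h1 : ContDiff ℝ ∞ (fun h => J.jj W ∘L fr.J h) :=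
    (bil_comp (E := EuclideanSpace ℂ (Fin n)) (F := WithLp 2 (X × W)) (G := HT H0 W)).contDiff.comp
      (contDiff_const.prodMk fr.smJ)
  exact (bil_comp (E := EuclideanSpace ℂ (Fin n)) (F := HT H0 W) (G := HT (HT H0 W) Y)).contDiff.comp
      (contDiff_const.prodMk h1)

lemma J2_per (k : Fin 4 → ℤ) (h : Fin 4 → ℝ) (v : EuclideanSpace ℂ (Fin n)) :
    J.J2 W fr (h + zv k) v = J.UV W k (J.J2 W fr h v) := by
  have h1 := fr.J_per h k v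
  show i0 (HT H0 W) Y (J.jj W (fr.J (h + zv k) v)) = _
  rw [h1, jj_GU]
  refine ext_HT rfl ?_
  show (0 : Y) = Φ.Th _ (0 : Y)
  rw [map_zero]

lemma J2_P (h : Fin 4 → ℝ) (v : EuclideanSpace ℂ (Fin n)) :
    J.J2 W fr h (fr.P h v) = J.J2 W fr h v := by
  show i0 (HT H0 W) Y (J.jj W (fr.J h (fr.P h v))) = i0 (HT H0 W) Y (J.jj W (fr.J h v))
  rw [fr.J_P]

lemma J2_inj (h : Fin 4 → ℝ) (v : EuclideanSpace ℂ (Fin n)) (hv : J.J2 W fr h v = 0) :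
    fr.P h v = 0 := by
  have h1 : J.jj W (fr.J h v) = 0 := congrArg (fun x : HT (HT H0 W) Y => x.fst) hv
  have h2 := fr.A_J h v
  rw [← J.A_eq, h1, map_zero, add_zero] at h2
  obtain ⟨c, hc⟩ := J.coer' W
  have h3 := hc (fr.J h v)
  rw [h1, h2] at h3
  have h4 : ‖fr.J h v‖ ^ 2 = 0 := le_antisymm (by simpa using h3) (sq_nonneg _)
  have h5 : fr.J h v = 0 := norm_eq_zero.1 (pow_eq_zero_iff two_ne_zero |>.1 h4)
  rw [← fr.l_J, h5, map_zero]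

lemma PK_mem (h : Fin 4 → ℝ) (x : J.HH W) : ∃ v, J.PK W fr h x = J.J2 W fr h v := by
  obtain ⟨v, hv⟩ := pj_mem (p := fr.P h) (T := J.jj W ∘L fr.J h) x.fst
  exact ⟨v, ext_HT hv rfl⟩

/-- the input of 192's `EMB`. -/
theorem emb (hs : ∀ h, Function.Surjective (Φ.A W h)) :
    FamC_192.EmbData 4 (Module.finrank ℂ (kn (Φ.A W 0))) fr.P (J.PK W fr) (J.J2 W fr) (J.UV W) where
  proj := {
    smooth := fr.smP
    per := fun h k => fr.P_per h k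
    idem := fr.P_P
    sa := fr.P_sa
    rank := fr.rank }
  smJ := J.cd_J2 W fr
  idem2 h y := by
    have h1 := (J.kerF' W fr hs).1.idem h
    exact congrArg (fun T : J.HH W →L[ℂ] J.HH W => T y) h1
  sa2 h x y := by
    have h1 := (J.kerF' W fr hs).1.sa h
    rw [ContinuousLinearMap.star_eq_adjoint] at h1
    rw [← ContinuousLinearMap.adjoint_inner_right, h1]
  fix h x _ := (J.kerF' W fr hs).2 h x
  inj h x hx h0 := by rw [← hx]; exact J.J2_inj W fr h x h0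
  surj h y := by
    obtain ⟨v, hv⟩ := J.PK_mem W fr h y
    exact ⟨fr.P h v, fr.P_P h v, by rw [J2_P, hv]⟩
  iso k x y := J.innerU W k x y
  per h k x _ := J.J2_per W fr k h x

end link

/-- **the output of RC-ABS.** -/
theorem main (hRC : RC) {X Y H0 : Type} [NormedAddCommGroup X] [InnerProductSpace ℂ X]
    [CompleteSpace X] [NormedAddCommGroup Y] [InnerProductSpace ℂ Y] [CompleteSpace Y]
    {Φ : PFam 4 X Y} [NormedAddCommGroup H0] [InnerProductSpace ℂ H0] [CompleteSpace H0]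
    (J : JF Φ H0) (W : Submodule ℂ Y) [FiniteDimensional ℂ W]
    (hs : ∀ h, Function.Surjective (Φ.A W h)) {n : ℕ} (fr : Φ.Fr W n)
    (hA : ∃ c, App J.K0 c (1 / 4)) {L : ℂ} (hI : Inf (gr H0 Y) J.K0 (fun a => I • od (J.B a)) L) :
    (∀ h, ∃ c, IsNuc (J.PK W fr h) c) ∧
    (∀ a h, J.PK W fr (h + Pi.single a 1) * J.UU W a = J.UU W a * J.PK W fr h) ∧
    ch4 RCTr_746.tr (J.PK W fr) = L / 2 ∧ ch4 FamDefs_307.tr fr.P = L / 2 := by
  obtain ⟨h1, h2, h3⟩ := hRC _ _ _ _ _ _ _ _ (J.base' W hA) (J.fam W) (J.kerF' W fr hs).1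
    (J.inf' W hA hI)
  refine ⟨h1, h2, h3, ?_⟩
  rw [← (J.emb W fr hs).ch4_eq (hb (J.HH W)), ← h3]
  rfl

end JF

end

end Crest.Agent.R235.Rc1_820
end

-- ▼ part R235/RCApp_746
section

/-!
Row 235, block FAM/RC (helper746): APPROXIMATION NUMBERS OF THE RESOLVENT `Cr j D 1` of helper820
from approximation numbers of the embedding `j` alone (`D` of closed range and finite corank):
`app_res : Coer j D → AppJ j → IsClosed (range D) → FiniteDimensional (range D)ᗮ →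
  ∃ c, App (Cr j D 1) c (1/4)`.
-/

set_option autoImplicit false
set_option linter.unusedSectionVars false

open scoped InnerProductSpace ContDiff Topology
open Complex Filter Crest.Agent.R235.RCTr_746 Crest.Agent.R235.RCSt_746 Crest.Agent.R235.Rc0_820

namespace Crest.Agent.R235.RCApp_746

noncomputable section

/-! ### general facts on approximation numbers -/

section gen

variable {H : Type*} [NormedAddCommGroup H] [InnerProductSpace ℂ H] [CompleteSpace H]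

lemma rk_star {F : H →L[ℂ] H} {n : ℕ} (hF : Rk F n) : Rk (star F) n := by
  have hfd := hF.1
  set S := LinearMap.range (F : H →ₗ[ℂ] H) with hS
  let F' : H →L[ℂ] S := F.codRestrict S (fun x => ⟨x, rfl⟩)
  have e : F = S.subtypeL ∘L F' := by ext x; rfl
  have hle : LinearMap.range ((star F : H →L[ℂ] H) : H →ₗ[ℂ] H) ≤
      LinearMap.range ((ContinuousLinearMap.adjoint F' : S →L[ℂ] H) : S →ₗ[ℂ] H) := by
    rintro _ ⟨x, rfl⟩
    refine ⟨ContinuousLinearMap.adjoint S.subtypeL x, ?_⟩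
    have h1 : star F = ContinuousLinearMap.adjoint F' ∘L ContinuousLinearMap.adjoint S.subtypeL := by
      rw [ContinuousLinearMap.star_eq_adjoint, ← ContinuousLinearMap.adjoint_comp, ← e]
    rw [h1]; rfl
  refine ⟨Submodule.finiteDimensional_of_le hle, (Submodule.finrank_mono hle).trans ?_⟩
  exact (LinearMap.finrank_range_le _).trans hF.2

lemma Ap.star {T : H →L[ℂ] H} {a : ℝ} (hT : Ap T a) : Ap (star T) a := by
  obtain ⟨c, hc⟩ := hT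
  refine ⟨c, fun n => ?_⟩
  obtain ⟨F, h1, h2⟩ := hc n
  refine ⟨Star.star F, rk_star h1, ?_⟩
  rw [← star_sub, norm_star]
  exact h2

lemma Ap.mono {T : H →L[ℂ] H} {a b : ℝ} (hT : Ap T a) (hab : b ≤ a) : Ap T b := by
  obtain ⟨c, hc⟩ := hT
  refine ⟨c, fun n => ?_⟩
  obtain ⟨F, h1, h2⟩ := hc n
  refine ⟨F, h1, h2.trans (mul_le_mul_of_nonneg_left ?_ hc.nonneg)⟩
  exact Real.rpow_le_rpow_of_exponent_le (by linarith [(Nat.cast_nonneg n : (0:ℝ) ≤ n)])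
    (neg_le_neg hab)

lemma Ap.of_rk {T : H →L[ℂ] H} {r : ℕ} (hT : Rk T r) {a : ℝ} (ha : 0 ≤ a) : Ap T a := by
  refine ⟨‖T‖ * ((r : ℝ) + 1) ^ a, fun n => ?_⟩
  by_cases hn : r ≤ n
  · refine ⟨T, hT.mono hn, ?_⟩
    rw [sub_self, norm_zero]
    positivity
  · push Not at hn
    refine ⟨0, (Rk.zero).mono (Nat.zero_le n), ?_⟩
    rw [sub_zero, mul_assoc]
    refine le_mul_of_one_le_right (norm_nonneg _) ?_
    rw [Real.rpow_neg (by positivity), ← div_eq_mul_inv, one_le_div (by positivity)]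
    refine Real.rpow_le_rpow (by positivity) ?_ ha
    have : (n : ℝ) < r := by exact_mod_cast hn
    linarith

lemma Ap.smul {T : H →L[ℂ] H} {a : ℝ} (hT : Ap T a) (z : ℂ) : Ap (z • T) a := by
  have := hT.left (z • (1 : H →L[ℂ] H))
  rwa [smul_mul_assoc, one_mul] at this

lemma Ap.add {S T : H →L[ℂ] H} {a : ℝ} (hS : Ap S a) (hT : Ap T a) (ha : 0 ≤ a) :
    Ap (S + T) a := by
  obtain ⟨c, hc⟩ := hS
  obtain ⟨d, hd⟩ := hT
  refine ⟨(c + d) * 2 ^ a, fun n => ?_⟩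
  obtain ⟨F, h1, h2⟩ := hc (n / 2)
  obtain ⟨G, h3, h4⟩ := hd (n / 2)
  refine ⟨F + G, (h1.add h3).mono (by omega), ?_⟩
  have e : S + T - (F + G) = (S - F) + (T - G) := by abel
  rw [e]
  refine (norm_add_le _ _).trans ?_
  have h5 : ((n : ℝ) + 1) / 2 ≤ ((n / 2 : ℕ) : ℝ) + 1 := by
    have : n ≤ 2 * (n / 2) + 1 := by omega
    have h6 : (n : ℝ) ≤ 2 * ((n / 2 : ℕ) : ℝ) + 1 := by exact_mod_cast this
    linarith
  have h7 : 0 < ((n : ℝ) + 1) / 2 := by positivity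
  have h8 : (((n / 2 : ℕ) : ℝ) + 1) ^ (-a) ≤ 2 ^ a * ((n : ℝ) + 1) ^ (-a) := by
    have h9 := Real.rpow_le_rpow_of_nonpos h7 h5 (neg_nonpos.2 ha)
    refine h9.trans (le_of_eq ?_)
    rw [Real.div_rpow (by positivity) (by norm_num), Real.rpow_neg (by norm_num : (0:ℝ) ≤ 2) a,
      div_inv_eq_mul, mul_comm]
  calc ‖S - F‖ + ‖T - G‖ ≤ c * (((n / 2 : ℕ) : ℝ) + 1) ^ (-a) +
        d * (((n / 2 : ℕ) : ℝ) + 1) ^ (-a) := add_le_add h2 h4
    _ = (c + d) * (((n / 2 : ℕ) : ℝ) + 1) ^ (-a) := by ring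
    _ ≤ (c + d) * (2 ^ a * ((n : ℝ) + 1) ^ (-a)) :=
        mul_le_mul_of_nonneg_left h8 (add_nonneg hc.nonneg hd.nonneg)
    _ = _ := by ring

end gen

variable {X H0 H1 : Type*} [NormedAddCommGroup X] [InnerProductSpace ℂ X] [CompleteSpace X]
  [NormedAddCommGroup H0] [InnerProductSpace ℂ H0] [CompleteSpace H0]
  [NormedAddCommGroup H1] [InnerProductSpace ℂ H1] [CompleteSpace H1]

local notation "⟪" x ", " y "⟫" => inner ℂ x y

/-- approximation numbers of the embedding. -/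
def AppJ (j : X →L[ℂ] H0) : Prop :=
  ∃ c : ℝ, ∀ n : ℕ, ∃ F : X →L[ℂ] H0,
    FiniteDimensional ℂ (LinearMap.range (F : X →ₗ[ℂ] H0)) ∧
    Module.finrank ℂ (LinearMap.range (F : X →ₗ[ℂ] H0)) ≤ n ∧
    ‖j - F‖ ≤ c * ((n : ℝ) + 1) ^ (-(1 / 4 : ℝ))

/-- the projections. -/
def E0 : HT H0 H1 →L[ℂ] HT H0 H1 := pr (p0 H0 H1) 0

/-- the projections. -/
def E1 : HT H0 H1 →L[ℂ] HT H0 H1 := pr 0 (p1 H0 H1)

lemma E0_add_E1 : (E0 : HT H0 H1 →L[ℂ] HT H0 H1) + E1 = 1 := by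
  ext1 x
  refine ext_HT ?_ ?_
  · show x.fst + 0 = x.fst
    rw [add_zero]
  · show 0 + x.snd = x.snd
    rw [zero_add]

lemma E0_sq : (E0 : HT H0 H1 →L[ℂ] HT H0 H1) * E0 = E0 := by
  ext1 x; exact ext_HT rfl rfl

lemma E1_sq : (E1 : HT H0 H1 →L[ℂ] HT H0 H1) * E1 = E1 := by
  ext1 x; exact ext_HT rfl rfl

lemma E0_gr : (E0 : HT H0 H1 →L[ℂ] HT H0 H1) * gr H0 H1 = E0 := by
  ext1 x; exact ext_HT rfl rfl

lemma gr_E0 : gr H0 H1 * (E0 : HT H0 H1 →L[ℂ] HT H0 H1) = E0 := by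
  ext1 x
  refine ext_HT rfl ?_
  show -(0 : H1) = 0
  rw [neg_zero]

lemma E1_gr : (E1 : HT H0 H1 →L[ℂ] HT H0 H1) * gr H0 H1 = (-1 : ℂ) • E1 := by
  ext1 x
  refine ext_HT ?_ ?_
  · show (0 : H0) = (-1 : ℂ) • 0
    rw [smul_zero]
  · show -x.snd = (-1 : ℂ) • x.snd
    rw [neg_one_smul]

lemma gr_E1 : gr H0 H1 * (E1 : HT H0 H1 →L[ℂ] HT H0 H1) = (-1 : ℂ) • E1 := by
  ext1 x
  refine ext_HT ?_ ?_
  · show (0 : H0) = (-1 : ℂ) • 0
    rw [smul_zero]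
  · show -x.snd = (-1 : ℂ) • x.snd
    rw [neg_one_smul]

lemma E0_sa : star (E0 : HT H0 H1 →L[ℂ] HT H0 H1) = E0 := by
  rw [ContinuousLinearMap.star_eq_adjoint]
  symm
  rw [ContinuousLinearMap.eq_adjoint_iff]
  intro x y
  rw [inner_HT, inner_HT]
  show ⟪x.fst, y.fst⟫ + ⟪(0 : H1), y.snd⟫ = ⟪x.fst, y.fst⟫ + ⟪x.snd, (0 : H1)⟫
  rw [inner_zero_left, inner_zero_right]

lemma E1_sa : star (E1 : HT H0 H1 →L[ℂ] HT H0 H1) = E1 := by
  rw [ContinuousLinearMap.star_eq_adjoint]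
  symm
  rw [ContinuousLinearMap.eq_adjoint_iff]
  intro x y
  rw [inner_HT, inner_HT]
  show ⟪(0 : H0), y.fst⟫ + ⟪x.snd, y.snd⟫ = ⟪x.fst, (0 : H0)⟫ + ⟪x.snd, y.snd⟫
  rw [inner_zero_left, inner_zero_right]

section main

variable {j : X →L[ℂ] H0} {D : X →L[ℂ] H1}

lemma ap_E0K (hj : AppJ j) : Ap (E0 * Cr j D 1) (1 / 4) := by
  obtain ⟨c, hc⟩ := hj
  have hc0 : 0 ≤ c := by
    obtain ⟨F, -, -, h⟩ := hc 0
    have := (norm_nonneg _).trans h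
    simpa using this
  refine ⟨c * ‖So j D 1‖, fun n => ?_⟩
  obtain ⟨F, h1, h2, h3⟩ := hc n
  refine ⟨pr (F ∘L So j D 1) 0, ?_, ?_⟩
  · set S := LinearMap.range (F : X →ₗ[ℂ] H0) with hS
    let i0 : H0 →L[ℂ] HT H0 H1 := pr (ContinuousLinearMap.id ℂ H0) 0
    have hle : LinearMap.range ((pr (F ∘L So j D 1) 0 : HT H0 H1 →L[ℂ] HT H0 H1) :
        HT H0 H1 →ₗ[ℂ] HT H0 H1) ≤ S.map (i0 : H0 →ₗ[ℂ] HT H0 H1) := by
      rintro _ ⟨x, rfl⟩
      exact ⟨F (So j D 1 x), ⟨_, rfl⟩, rfl⟩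
    exact ⟨Submodule.finiteDimensional_of_le hle, (Submodule.finrank_mono hle).trans
      ((Submodule.finrank_map_le _ _).trans h2)⟩
  · refine ContinuousLinearMap.opNorm_le_bound _ (by positivity) fun x => ?_
    have e : ((E0 : HT H0 H1 →L[ℂ] HT H0 H1) * Cr j D 1 -
        (pr (F ∘L So j D 1) 0 : HT H0 H1 →L[ℂ] HT H0 H1)) x =
        (pr ((j - F) ∘L So j D 1) 0 : HT H0 H1 →L[ℂ] HT H0 H1) x := by
      refine ext_HT ?_ ?_
      · show j (So j D 1 x) - F (So j D 1 x) = (j - F) (So j D 1 x)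
        rfl
      · show (0 : H1) - 0 = 0
        rw [sub_zero]
    rw [e]
    have h4 : ‖(pr ((j - F) ∘L So j D 1) 0 : HT H0 H1 →L[ℂ] HT H0 H1) x‖ =
        ‖(j - F) (So j D 1 x)‖ := by
      have h5 := norm_HT ((pr ((j - F) ∘L So j D 1) 0 : HT H0 H1 →L[ℂ] HT H0 H1) x)
      rw [pr_fst, pr_snd] at h5
      have h6 : ‖((0 : HT H0 H1 →L[ℂ] H1) x)‖ = 0 := by simp
      rw [h6] at h5
      have h7 : ‖(pr ((j - F) ∘L So j D 1) 0 : HT H0 H1 →L[ℂ] HT H0 H1) x‖ ^ 2 =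
        ‖(j - F) (So j D 1 x)‖ ^ 2 := by rw [h5]; simp
      exact (sq_eq_sq₀ (norm_nonneg _) (norm_nonneg _)).1 h7
    rw [h4]
    calc ‖(j - F) (So j D 1 x)‖ ≤ ‖j - F‖ * ‖So j D 1 x‖ := (j - F).le_opNorm _
      _ ≤ (c * ((n : ℝ) + 1) ^ (-(1 / 4 : ℝ))) * (‖So j D 1‖ * ‖x‖) :=
          mul_le_mul h3 ((So j D 1).le_opNorm x) (norm_nonneg _) (by positivity)
      _ = _ := by ring

variable (hc : Coer j D)
include hc

lemma star_K : star (Cr j D 1) = gr H0 H1 * Cr j D 1 * gr H0 H1 := by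
  rw [ContinuousLinearMap.star_eq_adjoint, Cr_adj hc one_ne_zero]
  ext1 x
  exact (gCg hc one_ne_zero x).symm

lemma K_add : Cr j D 1 + star (Cr j D 1) = (2 : ℂ) • (star (Cr j D 1) * Cr j D 1) := by
  have := C_add_adj hc one_ne_zero
  rw [ContinuousLinearMap.star_eq_adjoint, Cr_adj hc one_ne_zero]
  exact this

lemma ap_A10 (hj : AppJ j) : Ap (E1 * Cr j D 1 * E0) (1 / 4) := by
  have h1 : star (E1 * Cr j D 1 * E0) = (-1 : ℂ) • (E0 * Cr j D 1 * E1) := by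
    rw [star_mul, star_mul, E0_sa, E1_sa, star_K hc]
    calc E0 * (gr H0 H1 * Cr j D 1 * gr H0 H1 * E1) =
        (E0 * gr H0 H1) * Cr j D 1 * (gr H0 H1 * E1) := by noncomm_ring
      _ = (-1 : ℂ) • (E0 * Cr j D 1 * E1) := by rw [E0_gr, gr_E1, mul_smul_comm]
  have h2 : Ap ((-1 : ℂ) • (E0 * Cr j D 1 * E1)) (1 / 4) :=
    Ap.smul ((ap_E0K hj).right E1) (-1)
  rw [← h1] at h2
  have h3 := Ap.star h2
  rwa [star_star] at h3

lemma A11_sq : E1 * Cr j D 1 * E1 - (E1 * Cr j D 1 * E1) * (E1 * Cr j D 1 * E1) =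
    (-1 : ℂ) • ((E1 * Cr j D 1 * E0) * (E0 * Cr j D 1 * E1)) := by
  have h1 := K_add hc
  have h2 := congrArg (fun T => E1 * T * E1) h1
  simp only [mul_add, add_mul, mul_smul_comm, smul_mul_assoc] at h2
  have e1 : E1 * star (Cr j D 1) * E1 = E1 * Cr j D 1 * E1 := by
    rw [star_K hc]
    calc E1 * (gr H0 H1 * Cr j D 1 * gr H0 H1) * E1 =
        (E1 * gr H0 H1) * Cr j D 1 * (gr H0 H1 * E1) := by noncomm_ring
      _ = _ := by
          rw [E1_gr, gr_E1, smul_mul_assoc, smul_mul_assoc, mul_smul_comm, smul_smul]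
          norm_num
  have e2 : E1 * star (Cr j D 1) * E0 = (-1 : ℂ) • (E1 * Cr j D 1 * E0) := by
    rw [star_K hc]
    calc E1 * (gr H0 H1 * Cr j D 1 * gr H0 H1) * E0 =
        (E1 * gr H0 H1) * Cr j D 1 * (gr H0 H1 * E0) := by noncomm_ring
      _ = _ := by rw [E1_gr, gr_E0, smul_mul_assoc, smul_mul_assoc]
  have e3 : E1 * (star (Cr j D 1) * Cr j D 1) * E1 =
      (-1 : ℂ) • ((E1 * Cr j D 1 * E0) * (E0 * Cr j D 1 * E1)) +
      (E1 * Cr j D 1 * E1) * (E1 * Cr j D 1 * E1) := by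
    calc E1 * (star (Cr j D 1) * Cr j D 1) * E1 =
        E1 * star (Cr j D 1) * 1 * Cr j D 1 * E1 := by noncomm_ring
      _ = E1 * star (Cr j D 1) * (E0 * E0 + E1 * E1) * Cr j D 1 * E1 := by
          rw [E0_sq, E1_sq, E0_add_E1]
      _ = (E1 * star (Cr j D 1) * E0) * (E0 * Cr j D 1 * E1) +
          (E1 * star (Cr j D 1) * E1) * (E1 * Cr j D 1 * E1) := by noncomm_ring
      _ = _ := by rw [e1, e2, smul_mul_assoc]
  rw [e1, e3, ← two_smul ℂ] at h2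
  have h3 := smul_right_injective _ (two_ne_zero (α := ℂ)) h2
  rw [sub_eq_iff_eq_add]
  exact h3

/-- the second inclusion. -/
def i1 (H0 H1 : Type*) [NormedAddCommGroup H0] [InnerProductSpace ℂ H0] [CompleteSpace H0]
    [NormedAddCommGroup H1] [InnerProductSpace ℂ H1] [CompleteSpace H1] : H1 →L[ℂ] HT H0 H1 :=
  pr 0 (ContinuousLinearMap.id ℂ H1)

/-- the lower right block. -/
def AA (j : X →L[ℂ] H0) (D : X →L[ℂ] H1) : H1 →L[ℂ] H1 := p1 H0 H1 ∘L Cr j D 1 ∘L i1 H0 H1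

/-- the form `⟪(1 - A) y, y⟫ = ‖j u‖² + ‖D u‖²`. -/
lemma form (y : H1) : ⟪(1 - AA j D) y, y⟫ =
    ((‖j (So j D 1 (i1 H0 H1 y))‖ ^ 2 + ‖D (So j D 1 (i1 H0 H1 y))‖ ^ 2 : ℝ) : ℂ) := by
  have h := Cr_WEq hc one_ne_zero (i1 H0 H1 y)
  set u := So j D 1 (i1 H0 H1 y)
  have h1 : (Cr j D 1 (i1 H0 H1 y)).fst = j u := h.fst
  have h2 : AA j D y = y - I • D u := by
    have := h.snd
    rw [Complex.ofReal_one, mul_one] at this
    exact this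
  have h3 : ∀ v, ⟪j v, j u⟫ + I * ⟪D v, AA j D y⟫ = 0 := by
    intro v
    have := h.weak v
    rw [Complex.ofReal_one, mul_one] at this
    have e : (Cr j D 1 (i1 H0 H1 y)).fst - (i1 H0 H1 y).fst = j u := by
      rw [h1]; show j u - 0 = j u; rw [sub_zero]
    rw [e] at this
    exact this
  have h4 : (1 - AA j D) y = I • D u := by
    show y - AA j D y = _
    rw [h2]; abel
  have h5 : y = AA j D y + I • D u := by rw [h2]; abel
  rw [h4]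
  conv_lhs => rw [h5]
  rw [inner_add_right, inner_smul_left, inner_smul_left, inner_smul_right]
  have h6 := h3 u
  rw [inner_self_eq_norm_sq_to_K] at h6 ⊢
  simp only [conj_I]
  push_cast
  simp only [coe_algebraMap] at h6 ⊢
  linear_combination (-1 : ℂ) * h6 - (‖D u‖ : ℂ) ^ 2 * I_sq

/-- elements of the range. -/
lemma range_bd (v : X) (y : H1) (hy : y = D v) :
    ‖y‖ ^ 2 ≤ (‖j v‖ + ‖D v‖) *
      Real.sqrt (‖j (So j D 1 (i1 H0 H1 y))‖ ^ 2 + ‖D (So j D 1 (i1 H0 H1 y))‖ ^ 2) := by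
  have h := Cr_WEq hc one_ne_zero (i1 H0 H1 y)
  set u := So j D 1 (i1 H0 H1 y)
  have h1 : (Cr j D 1 (i1 H0 H1 y)).fst = j u := h.fst
  have h2 : AA j D y = y - I • D u := by
    have := h.snd
    rw [Complex.ofReal_one, mul_one] at this
    exact this
  have h3 : ⟪j v, j u⟫ + I * ⟪D v, AA j D y⟫ = 0 := by
    have := h.weak v
    rw [Complex.ofReal_one, mul_one] at this
    have e : (Cr j D 1 (i1 H0 H1 y)).fst - (i1 H0 H1 y).fst = j u := by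
      rw [h1]; show j u - 0 = j u; rw [sub_zero]
    rw [e] at this
    exact this
  have h5 : ⟪y, y⟫ = I * ⟪j v, j u⟫ + I * ⟪D v, D u⟫ := by
    have h6 : ⟪D v, AA j D y⟫ = ⟪D v, y⟫ - I * ⟪D v, D u⟫ := by
      rw [h2, inner_sub_right, inner_smul_right]
    rw [h6] at h3
    nth_rewrite 1 [hy]
    linear_combination (-I) * h3 + ⟪D v, y⟫ * I_sq - I * ⟪D v, D u⟫ * I_sq
  have h7 : ‖y‖ ^ 2 = ‖⟪y, y⟫‖ := by
    rw [inner_self_eq_norm_sq_to_K]; simp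
  rw [h7, h5]
  set s := Real.sqrt (‖j u‖ ^ 2 + ‖D u‖ ^ 2) with hs
  have b1 : ‖j u‖ ≤ s := Real.le_sqrt_of_sq_le (by nlinarith [sq_nonneg ‖D u‖])
  have b2 : ‖D u‖ ≤ s := Real.le_sqrt_of_sq_le (by nlinarith [sq_nonneg ‖j u‖])
  calc ‖I * ⟪j v, j u⟫ + I * ⟪D v, D u⟫‖ ≤ ‖I * ⟪j v, j u⟫‖ + ‖I * ⟪D v, D u⟫‖ := norm_add_le _ _
    _ = ‖⟪j v, j u⟫‖ + ‖⟪D v, D u⟫‖ := by rw [norm_mul, norm_mul, norm_I, one_mul, one_mul]
    _ ≤ ‖j v‖ * ‖j u‖ + ‖D v‖ * ‖D u‖ := add_le_add (norm_inner_le_norm _ _)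
        (norm_inner_le_norm _ _)
    _ ≤ ‖j v‖ * s + ‖D v‖ * s := add_le_add (mul_le_mul_of_nonneg_left b1 (norm_nonneg _))
        (mul_le_mul_of_nonneg_left b2 (norm_nonneg _))
    _ = _ := by ring

/-- on the orthogonal complement of the range `A = 1`. -/
lemma AA_coker (y : H1) (hy : ∀ v, ⟪D v, y⟫ = 0) : AA j D y = y := by
  have h := (Cr_eq hc one_ne_zero (x := i1 H0 H1 y) (y := i1 H0 H1 y) (u := 0)
    ⟨by rw [map_zero]; rfl, by rw [map_zero, smul_zero, sub_zero], fun v => by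
      have e : (i1 H0 H1 y).fst - (i1 H0 H1 y).fst = 0 := sub_self _
      rw [e, inner_zero_right]
      show 0 + _ * ⟪D v, y⟫ = 0
      rw [hy]; ring⟩).1
  show (Cr j D 1 (i1 H0 H1 y)).snd = y
  rw [h]; rfl

lemma AA_sym (x y : H1) : ⟪AA j D x, y⟫ = ⟪x, AA j D y⟫ := by
  have h1 := congrArg (fun T : HT H0 H1 →L[ℂ] HT H0 H1 => ⟪T (i1 H0 H1 x), i1 H0 H1 y⟫)
    (star_K hc)
  rw [ContinuousLinearMap.star_eq_adjoint, ContinuousLinearMap.adjoint_inner_left] at h1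
  have e1 : ⟪i1 H0 H1 x, Cr j D 1 (i1 H0 H1 y)⟫ = ⟪x, AA j D y⟫ := by
    rw [inner_HT]
    show ⟪(0 : H0), _⟫ + ⟪x, AA j D y⟫ = _
    rw [inner_zero_left, zero_add]
  have e2 : ⟪(gr H0 H1 * Cr j D 1 * gr H0 H1) (i1 H0 H1 x), i1 H0 H1 y⟫ = ⟪AA j D x, y⟫ := by
    rw [inner_HT]
    have e3 : ((gr H0 H1 * Cr j D 1 * gr H0 H1) (i1 H0 H1 x)).snd = AA j D x := by
      show -(Cr j D 1 (gr H0 H1 (i1 H0 H1 x))).snd = (Cr j D 1 (i1 H0 H1 x)).snd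
      have e4 : gr H0 H1 (i1 H0 H1 x) = -(i1 H0 H1 x) := by
        refine ext_HT ?_ rfl
        show (0 : H0) = -0
        rw [neg_zero]
      rw [e4, map_neg]
      show - -(Cr j D 1 (i1 H0 H1 x)).snd = _
      rw [neg_neg]
    rw [e3]
    show ⟪_, (0 : H0)⟫ + ⟪AA j D x, y⟫ = _
    rw [inner_zero_right, zero_add]
  rw [e1, e2] at h1
  exact h1.symm

/-- the lift of an operator of `H1`. -/
def LL (H0 : Type*) [NormedAddCommGroup H0] [InnerProductSpace ℂ H0] [CompleteSpace H0]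
    {H1 : Type*} [NormedAddCommGroup H1] [InnerProductSpace ℂ H1] [CompleteSpace H1]
    (T : H1 →L[ℂ] H1) : HT H0 H1 →L[ℂ] HT H0 H1 := i1 H0 H1 ∘L T ∘L p1 H0 H1


omit hc in
lemma LL_AA : LL H0 (AA j D) = E1 * Cr j D 1 * E1 := by
  ext1 x; exact ext_HT rfl rfl

omit hc in
lemma LL_rk {T : H1 →L[ℂ] H1} {n : ℕ} (hT : Rk T n) : Rk (LL H0 T) n := by
  have hfd := hT.1
  have hle : LinearMap.range ((LL H0 T : HT H0 H1 →L[ℂ] HT H0 H1) : HT H0 H1 →ₗ[ℂ] HT H0 H1) ≤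
      (LinearMap.range (T : H1 →ₗ[ℂ] H1)).map (i1 H0 H1 : H1 →ₗ[ℂ] HT H0 H1) := by
    rintro _ ⟨x, rfl⟩
    exact ⟨T x.snd, ⟨_, rfl⟩, rfl⟩
  exact ⟨Submodule.finiteDimensional_of_le hle, (Submodule.finrank_mono hle).trans
    ((Submodule.finrank_map_le _ _).trans hT.2)⟩

/-- **approximation numbers of the resolvent**. -/
theorem app_res (hj : AppJ j) (hcl : IsClosed (Set.range D))
    (hfin : FiniteDimensional ℂ ((LinearMap.range (D : X →ₗ[ℂ] H1))ᗮ : Submodule ℂ H1)) :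
    ∃ c, App (Cr j D 1) c (1 / 4) := by
  set R : Submodule ℂ H1 := LinearMap.range (D : X →ₗ[ℂ] H1) with hR
  have hcl' : IsClosed (R : Set H1) := by
    have : (R : Set H1) = Set.range D := by ext x; simp [hR]
    rw [this]; exact hcl
  have hRc : CompleteSpace R := hcl'.completeSpace_coe
  set N : H1 →L[ℂ] H1 := Rᗮ.starProjection with hN
  set Q : H1 →L[ℂ] H1 := 1 - AA j D + N with hQ
  -- preimages
  let D' : X →L[ℂ] R := D.codRestrict R (fun x => ⟨x, rfl⟩)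
  have hD' : Function.Surjective D' := by
    rintro ⟨_, ⟨x, rfl⟩⟩
    exact ⟨x, rfl⟩
  obtain ⟨C, hC0, hC⟩ := D'.exists_preimage_norm_le hD'
  set k : ℝ := ‖j‖ * C + ‖D‖ * C with hk
  have hk0 : 0 ≤ k := by positivity
  have hrange : ∀ y ∈ R, ‖y‖ ≤ k * Real.sqrt (‖j (So j D 1 (i1 H0 H1 y))‖ ^ 2 +
      ‖D (So j D 1 (i1 H0 H1 y))‖ ^ 2) := by
    intro y hy
    obtain ⟨v, hv, hvn⟩ := hC ⟨y, hy⟩
    have hv' : y = D v := by
      have := congrArg Subtype.val hv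
      exact this.symm
    have hvn' : ‖v‖ ≤ C * ‖y‖ := hvn
    have h1 := range_bd hc v y hv'
    set s := Real.sqrt (‖j (So j D 1 (i1 H0 H1 y))‖ ^ 2 + ‖D (So j D 1 (i1 H0 H1 y))‖ ^ 2)
    have hs0 : 0 ≤ s := Real.sqrt_nonneg _
    rcases eq_or_ne y 0 with h0 | h0
    · rw [h0, norm_zero]; positivity
    · have hy0 : 0 < ‖y‖ := norm_pos_iff.2 h0
      have h2 : ‖j v‖ + ‖D v‖ ≤ k * ‖y‖ := by
        have a1 : ‖j v‖ ≤ ‖j‖ * (C * ‖y‖) :=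
          (j.le_opNorm v).trans (mul_le_mul_of_nonneg_left hvn' (norm_nonneg _))
        have a2 : ‖D v‖ ≤ ‖D‖ * (C * ‖y‖) :=
          (D.le_opNorm v).trans (mul_le_mul_of_nonneg_left hvn' (norm_nonneg _))
        rw [hk]; nlinarith
      have h3 : ‖y‖ * ‖y‖ ≤ (k * s) * ‖y‖ := by
        calc ‖y‖ * ‖y‖ = ‖y‖ ^ 2 := by ring
          _ ≤ (‖j v‖ + ‖D v‖) * s := h1
          _ ≤ (k * ‖y‖) * s := mul_le_mul_of_nonneg_right h2 hs0
          _ = _ := by ring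
      exact le_of_mul_le_mul_right h3 hy0
  -- coercivity
  set m : ℝ := 1 / (k ^ 2 + 1) with hm
  have hm0 : 0 < m := by positivity
  have hm1 : m ≤ 1 := by
    rw [hm, div_le_one (by positivity)]; nlinarith [sq_nonneg k]
  have hmk : m * k ^ 2 ≤ 1 := by
    rw [hm, div_mul_eq_mul_div, div_le_one (by positivity)]; linarith
  have hform : ∀ y : H1, ‖y‖ ^ 2 * m ≤ ‖⟪Q y, y⟫‖ := by
    intro y
    set y1 := R.starProjection y with hy1
    set y2 := Rᗮ.starProjection y with hy2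
    have hy : y = y1 + y2 := by
      rw [hy1, hy2, Submodule.starProjection_orthogonal']
      simp
    have m1 : y1 ∈ R := Submodule.starProjection_apply_mem R y
    have m2 : y2 ∈ Rᗮ := Submodule.starProjection_apply_mem Rᗮ y
    have o12 : ⟪y1, y2⟫ = 0 := (Submodule.mem_orthogonal R y2).1 m2 y1 m1
    have o21 : ⟪y2, y1⟫ = 0 := (Submodule.mem_orthogonal' R y2).1 m2 y1 m1
    have hA2 : AA j D y2 = y2 := AA_coker hc y2 fun v =>
      (Submodule.mem_orthogonal R y2).1 m2 (D v) ⟨v, rfl⟩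
    have hq := form hc y1
    set q : ℝ := ‖j (So j D 1 (i1 H0 H1 y1))‖ ^ 2 + ‖D (So j D 1 (i1 H0 H1 y1))‖ ^ 2 with hqd
    have hq0 : 0 ≤ q := by positivity
    have h1 : ⟪Q y, y⟫ = ((q + ‖y2‖ ^ 2 : ℝ) : ℂ) := by
      have e1 : Q y = (1 - AA j D) y1 + y2 := by
        have e2 : (1 - AA j D) y2 = 0 := by
          show y2 - AA j D y2 = 0
          rw [hA2, sub_self]
        have e3 : Q y = (1 - AA j D) y + y2 := rfl
        rw [e3]
        conv_lhs => rw [hy]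
        rw [map_add, e2, add_zero]
      have e4 : ⟪(1 - AA j D) y1, y2⟫ = 0 := by
        have e5 : ⟪(1 - AA j D) y1, y2⟫ = ⟪y1, y2⟫ - ⟪AA j D y1, y2⟫ := by
          show ⟪y1 - AA j D y1, y2⟫ = _
          rw [inner_sub_left]
        rw [e5, AA_sym hc, hA2, sub_self]
      rw [e1]
      conv_lhs => rw [hy]
      rw [inner_add_left, inner_add_right, inner_add_right, hq, e4, o21,
        inner_self_eq_norm_sq_to_K]
      push_cast
      simp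
    rw [h1, Complex.norm_real, Real.norm_eq_abs, abs_of_nonneg (by positivity)]
    have h2 : ‖y‖ ^ 2 = ‖y1‖ ^ 2 + ‖y2‖ ^ 2 := by
      have e : ⟪y, y⟫ = ⟪y1, y1⟫ + ⟪y2, y2⟫ := by
        conv_lhs => rw [hy]
        rw [inner_add_left, inner_add_right, inner_add_right, o12, o21]; ring
      rw [inner_self_eq_norm_sq_to_K, inner_self_eq_norm_sq_to_K, inner_self_eq_norm_sq_to_K] at e
      exact_mod_cast e
    have h3 := hrange y1 m1
    rw [← hqd] at h3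
    have h4 : ‖y1‖ ^ 2 ≤ k ^ 2 * q := by
      calc ‖y1‖ ^ 2 ≤ (k * Real.sqrt q) ^ 2 := pow_le_pow_left₀ (norm_nonneg _) h3 2
        _ = k ^ 2 * q := by rw [mul_pow, Real.sq_sqrt hq0]
    rw [h2]
    have h5 : ‖y1‖ ^ 2 * m ≤ q := by
      calc ‖y1‖ ^ 2 * m ≤ (k ^ 2 * q) * m := mul_le_mul_of_nonneg_right h4 hm0.le
        _ = (m * k ^ 2) * q := by ring
        _ ≤ 1 * q := mul_le_mul_of_nonneg_right hmk hq0
        _ = q := one_mul q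
    have h6 : ‖y2‖ ^ 2 * m ≤ ‖y2‖ ^ 2 := mul_le_of_le_one_right (by positivity) hm1
    linarith
  have hQu : IsUnit Q := ContinuousLinearMap.isUnit_of_forall_le_norm_inner_map Q
    (c := ⟨m, hm0.le⟩) hm0 hform
  set B := Ring.inverse Q with hB
  have hQB : Q * B = 1 := Ring.mul_inverse_cancel _ hQu
  have eA : AA j D = (AA j D - AA j D * AA j D) * B + AA j D * N * B := by
    calc AA j D = AA j D * (Q * B) := by rw [hQB, mul_one]
      _ = _ := by rw [hQ]; noncomm_ring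
  have hA10 := ap_A10 hc hj
  have hA01 := (ap_E0K (D := D) hj).right E1
  have hT : Ap ((E1 * Cr j D 1 * E1) - (E1 * Cr j D 1 * E1) * (E1 * Cr j D 1 * E1)) (1 / 4) := by
    rw [A11_sq hc]
    have h1 := hA10.mul hA01 (by norm_num) (by norm_num)
    exact Ap.smul (Ap.mono h1 (b := 1 / 4) (by norm_num)) (-1)
  have hNrk : ∃ r, Rk N r := by
    refine ⟨Module.finrank ℂ Rᗮ, ?_⟩
    have hle : LinearMap.range (N : H1 →ₗ[ℂ] H1) ≤ Rᗮ := by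
      rintro _ ⟨x, rfl⟩
      exact Submodule.starProjection_apply_mem Rᗮ x
    exact ⟨Submodule.finiteDimensional_of_le hle, Submodule.finrank_mono hle⟩
  obtain ⟨r, hr⟩ := hNrk
  have hA11 : Ap (E1 * Cr j D 1 * E1) (1 / 4) := by
    have e1 : E1 * Cr j D 1 * E1 = ((E1 * Cr j D 1 * E1) - (E1 * Cr j D 1 * E1) *
        (E1 * Cr j D 1 * E1)) * LL H0 B + (E1 * Cr j D 1 * E1) * LL H0 N * LL H0 B := by
      have e2 := congrArg (LL H0) eA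
      have e3 : LL H0 ((AA j D - AA j D * AA j D) * B + AA j D * N * B) =
          (LL H0 (AA j D) - LL H0 (AA j D) * LL H0 (AA j D)) * LL H0 B +
          LL H0 (AA j D) * LL H0 N * LL H0 B := by
        ext1 x
        refine ext_HT ?_ rfl
        show (0 : H0) = ((0 : H0) - 0) + 0
        simp
      rw [e3, LL_AA] at e2
      exact e2
    rw [e1]
    refine Ap.add (Ap.right hT _) ?_ (by norm_num)
    refine Ap.right ?_ _
    exact Ap.left (Ap.of_rk (LL_rk hr) (by norm_num)) _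
  have eK : Cr j D 1 = E0 * Cr j D 1 + E1 * Cr j D 1 * E0 + E1 * Cr j D 1 * E1 := by
    calc Cr j D 1 = (E0 + E1) * Cr j D 1 * (1 : HT H0 H1 →L[ℂ] HT H0 H1) := by
          rw [E0_add_E1, one_mul, mul_one]
      _ = E0 * Cr j D 1 + E1 * Cr j D 1 * (E0 + E1) := by
          rw [mul_one, add_mul, E0_add_E1, mul_one]
      _ = _ := by rw [mul_add]; abel
  have : Ap (Cr j D 1) (1 / 4) := by
    rw [eK]
    exact Ap.add (Ap.add (ap_E0K hj) hA10 (by norm_num)) hA11 (by norm_num)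
  exact this

end main

end

end Crest.Agent.R235.RCApp_746
end

-- ▼ part R235/Rm1_820
section

/-!
Row 235, block FAM/RC (helper820), RC-MAN part 1: ABSTRACT DIRAC PAIR.

`j : X →L H0`, `D : X →L Y`, `j1 : X1 →L Y`, `D1 : X1 →L H0`, coercive, `⟪D v, j1 w⟫ = ⟪j v, D1 w⟫`.
Real eigenbases `j e_k` of `H0`, `j1 f_k` of `Y`.

* `S0 ε x`, `S1 ε y` : the solutions of `(1 + ε² D* D) u = x`, `(1 + ε² D D*) w = y`;
* `Gr_apply`         : `G_ε (x, y) = (j (S0 x), j1 (S1 y))`;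
* `com`              : the commutator hypothesis of `Inf` from the bounds of `Q`.
-/

set_option autoImplicit false
set_option linter.unusedSectionVars false
set_option maxSynthPendingDepth 3

open scoped InnerProductSpace ContDiff Topology
open Complex Filter

namespace Crest.Agent.R235.Rm_820

open Crest.Agent.R235.Rc0_820 Crest.Agent.R235.RCTr_746
open Crest.Agent.R235.Rc1_820 (i0 i0_fst i0_snd cr_eq)
open Crest.Agent.R235.RCDefs_746 (Base Fam KerF Inf Gr)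

noncomputable section

local notation "⟪" x ", " y "⟫" => inner ℂ x y

/-! ### Douglas -/

lemma douglas {H : Type*} [NormedAddCommGroup H] [InnerProductSpace ℂ H] [CompleteSpace H]
    {G R : H →L[ℂ] H} (hG : star G = G) (hR : star R = R) (hd : DenseRange G) {c : ℝ} (hc : 0 ≤ c)
    (h : ∀ y, ‖R y‖ ≤ c * ‖G y‖) : ∃ Z : H →L[ℂ] H, ‖Z‖ ≤ c ∧ R = G * Z := by
  set E : H →L[ℂ] H := (R : H →ₗ[ℂ] H).extendOfNorm (G : H →ₗ[ℂ] H) with hE
  have hd' : DenseRange (G : H →ₗ[ℂ] H) := hd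
  have h1 : ∀ y, E (G y) = R y := fun y =>
    LinearMap.extendOfNorm_eq (f := (R : H →ₗ[ℂ] H)) (e := (G : H →ₗ[ℂ] H)) hd' ⟨c, h⟩ y
  have h2 : ‖E‖ ≤ c :=
    LinearMap.opNorm_extendOfNorm_le (f := (R : H →ₗ[ℂ] H)) (e := (G : H →ₗ[ℂ] H)) hd' hc h
  have h3 : E * G = R := by
    ext1 y; exact h1 y
  refine ⟨star E, by rwa [norm_star], ?_⟩
  rw [← hR, ← h3, star_mul, hG]

/-! ### bases -/

/-- Parseval for a real basis. -/
def Pars {H : Type*} [NormedAddCommGroup H] [InnerProductSpace ℂ H] (b : ℕ → H) : Prop :=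
  ∀ x y : H, HasSum (fun k => (⟪b k, x⟫).re * (⟪b k, y⟫).re) (⟪x, y⟫).re

lemma Pars.ext {H Z : Type*} [NormedAddCommGroup H] [InnerProductSpace ℂ H] [CompleteSpace H]
    [NormedAddCommGroup Z] [InnerProductSpace ℂ Z] [CompleteSpace Z] {b : ℕ → H} (hb : Pars b)
    {T S : H →L[ℂ] Z} (h : ∀ k, T (b k) = S (b k)) : T = S := by
  have h1 : ContinuousLinearMap.adjoint (T - S) = 0 := by
    refine ContinuousLinearMap.ext fun z => ?_
    have h2 := hb (ContinuousLinearMap.adjoint (T - S) z) (ContinuousLinearMap.adjoint (T - S) z)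
    have h3 : ∀ k, (⟪b k, ContinuousLinearMap.adjoint (T - S) z⟫).re = 0 := by
      intro k
      rw [ContinuousLinearMap.adjoint_inner_right, sub_apply, h k, sub_self, inner_zero_left]
      rfl
    simp only [h3, mul_zero] at h2
    have h4 := h2.unique hasSum_zero
    rw [inner_self_eq_norm_sq_to_K] at h4
    have h5 : ‖ContinuousLinearMap.adjoint (T - S) z‖ ^ 2 = 0 := by
      have : (((‖ContinuousLinearMap.adjoint (T - S) z‖ : ℂ)) ^ 2).re =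
        ‖ContinuousLinearMap.adjoint (T - S) z‖ ^ 2 := by
        rw [← Complex.ofReal_pow, Complex.ofReal_re]
      rw [← this]; exact h4
    have h6 := norm_eq_zero.1 (pow_eq_zero_iff two_ne_zero |>.1 h5)
    rw [h6]; rfl
  have h7 : T - S = 0 := by
    have := congrArg ContinuousLinearMap.adjoint h1
    rwa [ContinuousLinearMap.adjoint_adjoint, map_zero] at this
  exact sub_eq_zero.1 h7

section pair

variable {X X1 H0 Y : Type*} [NormedAddCommGroup X] [InnerProductSpace ℂ X] [CompleteSpace X]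
  [NormedAddCommGroup X1] [InnerProductSpace ℂ X1] [CompleteSpace X1]
  [NormedAddCommGroup H0] [InnerProductSpace ℂ H0] [CompleteSpace H0]
  [NormedAddCommGroup Y] [InnerProductSpace ℂ Y] [CompleteSpace Y]

/-- the solution of `(1 + ε² D* D) u = x`. -/
def S0 (j : X →L[ℂ] H0) (D : X →L[ℂ] Y) (ε : ℝ) : H0 →L[ℂ] X := So j D ε ∘L i0 H0 Y

variable {j : X →L[ℂ] H0} {D : X →L[ℂ] Y} {ε : ℝ}

lemma So_unique (hc : Coer j D) (hε : ε ≠ 0) {x : HT H0 Y} {u : X}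
    (h : ∀ v, ⟪j v, j u⟫ + ε ^ 2 * ⟪D v, D u⟫ = ⟪j v, x.fst⟫ - I * ε * ⟪D v, x.snd⟫) :
    So j D ε x = u := by
  refine (Cr_eq hc hε (x := x) (y := WithLp.toLp 2 (j u, x.snd - (I * ε) • D u)) (u := u)
    ⟨rfl, rfl, fun v => ?_⟩).2
  show ⟪j v, j u - x.fst⟫ + (I * ε) * ⟪D v, x.snd - (I * ε) • D u⟫ = 0
  rw [inner_sub_right, inner_sub_right, inner_smul_right]
  linear_combination h v - ε ^ 2 * ⟪D v, D u⟫ * I_sq

lemma S0_eq (hc : Coer j D) (hε : ε ≠ 0) (x : H0) (v : X) :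
    ⟪j v, j (S0 j D ε x)⟫ + ε ^ 2 * ⟪D v, D (S0 j D ε x)⟫ = ⟪j v, x⟫ := by
  have h := So_eq hc hε (i0 H0 Y x) v
  rw [i0_fst, i0_snd, inner_zero_right, mul_zero, sub_zero] at h
  exact h

lemma S0_unique (hc : Coer j D) (hε : ε ≠ 0) {x : H0} {u : X}
    (h : ∀ v, ⟪j v, j u⟫ + ε ^ 2 * ⟪D v, D u⟫ = ⟪j v, x⟫) : S0 j D ε x = u :=
  So_unique hc hε (x := i0 H0 Y x) fun v => by
    rw [i0_fst, i0_snd, inner_zero_right, mul_zero, sub_zero]; exact h v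

/-- energy estimate. -/
lemma S0_en (hc : Coer j D) (hε : ε ≠ 0) (x : H0) :
    ‖j (S0 j D ε x)‖ ^ 2 + ε ^ 2 * ‖D (S0 j D ε x)‖ ^ 2 ≤ ‖x‖ ^ 2 := by
  set u := S0 j D ε x with hu
  have h := S0_eq hc hε x u
  rw [← hu, inner_self_eq_norm_sq_to_K, inner_self_eq_norm_sq_to_K] at h
  have h1 : ((‖j u‖ ^ 2 + ε ^ 2 * ‖D u‖ ^ 2 : ℝ) : ℂ) = ⟪j u, x⟫ := by
    rw [← h]; push_cast; rfl
  have h2 : ‖j u‖ ^ 2 + ε ^ 2 * ‖D u‖ ^ 2 ≤ ‖j u‖ * ‖x‖ := by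
    have h3 := norm_inner_le_norm (𝕜 := ℂ) (j u) x
    rw [← h1, Complex.norm_real, Real.norm_eq_abs] at h3
    exact (le_abs_self _).trans h3
  have h4 : 0 ≤ ε ^ 2 * ‖D u‖ ^ 2 := by positivity
  nlinarith [sq_nonneg (‖j u‖ - ‖x‖), norm_nonneg (j u), norm_nonneg x]


/-- the estimate in the domain. -/
lemma norm_S0 (hc : Coer j D) : ∃ c, 0 ≤ c ∧ ∀ ε : ℝ, 0 < ε → ε ≤ 1 → ∀ x : H0,
    ε * ‖S0 j D ε x‖ ≤ c * ‖x‖ := by
  obtain ⟨c, hc'⟩ := hc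
  refine ⟨Real.sqrt (|c|), Real.sqrt_nonneg _, fun ε h0 h1 x => ?_⟩
  have h := S0_en ⟨c, hc'⟩ h0.ne' x
  set u := S0 j D ε x
  have h2 : ‖u‖ ^ 2 ≤ |c| * (‖j u‖ ^ 2 + ‖D u‖ ^ 2) :=
    (hc' u).trans (mul_le_mul_of_nonneg_right (le_abs_self c) (by positivity))
  have h3 : ε ^ 2 * (‖j u‖ ^ 2 + ‖D u‖ ^ 2) ≤ ‖x‖ ^ 2 := by
    have : ε ^ 2 ≤ 1 := pow_le_one₀ h0.le h1
    nlinarith [sq_nonneg ‖j u‖]
  have h4 : (ε * ‖u‖) ^ 2 ≤ (Real.sqrt |c| * ‖x‖) ^ 2 := by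
    rw [mul_pow, mul_pow, Real.sq_sqrt (abs_nonneg c)]
    calc ε ^ 2 * ‖u‖ ^ 2 ≤ ε ^ 2 * (|c| * (‖j u‖ ^ 2 + ‖D u‖ ^ 2)) :=
          mul_le_mul_of_nonneg_left h2 (by positivity)
      _ = |c| * (ε ^ 2 * (‖j u‖ ^ 2 + ‖D u‖ ^ 2)) := by ring
      _ ≤ |c| * ‖x‖ ^ 2 := mul_le_mul_of_nonneg_left h3 (abs_nonneg c)
  exact (pow_le_pow_iff_left₀ (by positivity) (by positivity) two_ne_zero).1 h4

/-! ### a pair -/

/-- a pair of mutually adjoint operators. -/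
structure DP (j : X →L[ℂ] H0) (D : X →L[ℂ] Y) (j1 : X1 →L[ℂ] Y) (D1 : X1 →L[ℂ] H0) : Prop where
  c0 : Coer j D
  c1 : Coer j1 D1
  adj : ∀ v w, ⟪D v, j1 w⟫ = ⟪j v, D1 w⟫

/-- real eigenbases. -/
structure ED (j : X →L[ℂ] H0) (D : X →L[ℂ] Y) (j1 : X1 →L[ℂ] Y) (D1 : X1 →L[ℂ] H0)
    (μ ν : ℕ → ℝ) (e : ℕ → X) (f : ℕ → X1) (g : ℕ → X) : Prop where
  μ0 : ∀ k, 0 ≤ μ k
  ν0 : ∀ k, 0 ≤ ν k
  eo : ∀ k l, (⟪j (e k), j (e l)⟫).re = if k = l then 1 else 0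
  fo : ∀ k l, (⟪j1 (f k), j1 (f l)⟫).re = if k = l then 1 else 0
  ep : Pars fun k => j (e k)
  fp : Pars fun k => j1 (f k)
  eE : ∀ k v, ⟪D v, D (e k)⟫ = μ k * ⟪j v, j (e k)⟫
  fE : ∀ k w, ⟪D1 w, D1 (f k)⟫ = ν k * ⟪j1 w, j1 (f k)⟫
  jg : ∀ k, j (g k) = D1 (f k)
  Dg : ∀ k, D (g k) = (ν k : ℂ) • j1 (f k)

variable {j1 : X1 →L[ℂ] Y} {D1 : X1 →L[ℂ] H0} {μ ν : ℕ → ℝ} {e : ℕ → X} {f : ℕ → X1} {g : ℕ → X}

lemma pos_den {m : ℝ} (hm : 0 ≤ m) (ε : ℝ) : 0 < 1 + ε ^ 2 * m := by positivity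

lemma S0_e (h : DP j D j1 D1) (hE : ED j D j1 D1 μ ν e f g) (hε : ε ≠ 0) (k : ℕ) :
    S0 j D ε (j (e k)) = (((1 + ε ^ 2 * μ k)⁻¹ : ℝ) : ℂ) • e k := by
  refine S0_unique h.c0 hε fun v => ?_
  rw [map_smul, map_smul, inner_smul_right, inner_smul_right, hE.eE]
  have h1 := (pos_den (hE.μ0 k) ε).ne'
  have h2 : (((1 + ε ^ 2 * μ k)⁻¹ : ℝ) : ℂ) * (1 + ε ^ 2 * μ k) = 1 := by
    rw [← Complex.ofReal_one, ← Complex.ofReal_pow, ← Complex.ofReal_mul, ← Complex.ofReal_add,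
      ← Complex.ofReal_mul, inv_mul_cancel₀ h1]
  linear_combination ⟪j v, j (e k)⟫ * h2

lemma S1_f (h : DP j D j1 D1) (hE : ED j D j1 D1 μ ν e f g) (hε : ε ≠ 0) (k : ℕ) :
    S0 j1 D1 ε (j1 (f k)) = (((1 + ε ^ 2 * ν k)⁻¹ : ℝ) : ℂ) • f k := by
  refine S0_unique h.c1 hε fun v => ?_
  rw [map_smul, map_smul, inner_smul_right, inner_smul_right, hE.fE]
  have h1 := (pos_den (hE.ν0 k) ε).ne'
  have h2 : (((1 + ε ^ 2 * ν k)⁻¹ : ℝ) : ℂ) * (1 + ε ^ 2 * ν k) = 1 := by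
    rw [← Complex.ofReal_one, ← Complex.ofReal_pow, ← Complex.ofReal_mul, ← Complex.ofReal_add,
      ← Complex.ofReal_mul, inv_mul_cancel₀ h1]
  linear_combination ⟪j1 v, j1 (f k)⟫ * h2

variable (H0 Y) in
/-- the second inclusion. -/
def i1 : Y →L[ℂ] HT H0 Y := pr 0 (ContinuousLinearMap.id ℂ Y)

@[simp] lemma i1_fst (x : Y) : (i1 H0 Y x).fst = 0 := rfl
@[simp] lemma i1_snd (x : Y) : (i1 H0 Y x).snd = x := rfl

lemma So_i1_f (h : DP j D j1 D1) (hE : ED j D j1 D1 μ ν e f g) (hε : ε ≠ 0) (k : ℕ) :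
    So j D ε (i1 H0 Y (j1 (f k))) = (-(I * ε) * (((1 + ε ^ 2 * ν k)⁻¹ : ℝ) : ℂ)) • g k := by
  refine So_unique h.c0 hε fun v => ?_
  rw [i1_fst, i1_snd, inner_zero_right, map_smul, map_smul, inner_smul_right, inner_smul_right,
    hE.Dg, hE.jg, inner_smul_right, ← h.adj]
  have h1 := (pos_den (hE.ν0 k) ε).ne'
  have h2 : (((1 + ε ^ 2 * ν k)⁻¹ : ℝ) : ℂ) * (1 + ε ^ 2 * ν k) = 1 := by
    rw [← Complex.ofReal_one, ← Complex.ofReal_pow, ← Complex.ofReal_mul, ← Complex.ofReal_add,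
      ← Complex.ofReal_mul, inv_mul_cancel₀ h1]
  linear_combination (-(I * ε) * ⟪D v, j1 (f k)⟫) * h2

/-- the second component. -/
lemma snd_C (h : DP j D j1 D1) (hE : ED j D j1 D1 μ ν e f g) (hε : ε ≠ 0) (y : Y) :
    (Cr j D ε (i1 H0 Y y)).snd = j1 (S0 j1 D1 ε y) := by
  have h1 : (p1 H0 Y ∘L Cr j D ε) ∘L i1 H0 Y = j1 ∘L S0 j1 D1 ε := by
    refine hE.fp.ext fun k => ?_
    show (i1 H0 Y (j1 (f k))).snd - (I * ε) • D (So j D ε (i1 H0 Y (j1 (f k)))) =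
      j1 (S0 j1 D1 ε (j1 (f k)))
    rw [So_i1_f h hE hε, S1_f h hE hε, map_smul, map_smul, hE.Dg, i1_snd]
    have h1 := (pos_den (hE.ν0 k) ε).ne'
    have h2 : (((1 + ε ^ 2 * ν k)⁻¹ : ℝ) : ℂ) * (1 + ε ^ 2 * ν k) = 1 := by
      rw [← Complex.ofReal_one, ← Complex.ofReal_pow, ← Complex.ofReal_mul, ← Complex.ofReal_add,
        ← Complex.ofReal_mul, inv_mul_cancel₀ h1]
    rw [smul_smul, smul_smul]
    nth_rewrite 1 [← one_smul ℂ (j1 (f k))]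
    rw [← sub_smul]
    congr 1
    linear_combination (-1 : ℂ) * h2 + ε ^ 2 * (((1 + ε ^ 2 * ν k)⁻¹ : ℝ) : ℂ) * ν k * I_sq
  exact congrArg (fun T : Y →L[ℂ] Y => T y) h1

lemma Gr_eq (hc : Coer j D) (hε : ε ≠ 0) (x : HT H0 Y) :
    (2 : ℂ) • Gr (Cr j D 1) ε x = Cr j D ε x + gr H0 Y (Cr j D ε (gr H0 Y x)) := by
  have h1 : Gr (Cr j D 1) ε = Cr j D (-ε) * Cr j D ε := by
    unfold Gr
    rw [cr_eq hc hε, ContinuousLinearMap.star_eq_adjoint, Cr_adj hc hε]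
  rw [gCg hc hε, h1]
  have h2 := C_add_adj hc hε
  exact (congrArg (fun T : HT H0 Y →L[ℂ] HT H0 Y => T x) h2).symm

/-- **`G_ε` in components.** -/
lemma Gr_apply (h : DP j D j1 D1) (hE : ED j D j1 D1 μ ν e f g) (hε : ε ≠ 0) (x : HT H0 Y) :
    (Gr (Cr j D 1) ε x).fst = j (S0 j D ε x.fst) ∧
    (Gr (Cr j D 1) ε x).snd = j1 (S0 j1 D1 ε x.snd) := by
  have h1 := Gr_eq h.c0 hε x
  have h2 : (2 : ℂ) ≠ 0 := two_ne_zero
  constructor
  · have h3 := congrArg (fun z : HT H0 Y => z.fst) h1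
    have h4 : (Cr j D ε x + gr H0 Y (Cr j D ε (gr H0 Y x))).fst =
        (Cr j D ε (x + gr H0 Y x)).fst := by
      rw [map_add]; rfl
    have h5 : x + gr H0 Y x = (2 : ℂ) • i0 H0 Y x.fst := by
      refine ext_HT ?_ ?_
      · show x.fst + x.fst = (2 : ℂ) • x.fst
        rw [two_smul]
      · show x.snd + -x.snd = (2 : ℂ) • (0 : Y)
        rw [add_neg_cancel, smul_zero]
    have h6 : (2 : ℂ) • (Gr (Cr j D 1) ε x).fst = (2 : ℂ) • j (S0 j D ε x.fst) := by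
      calc (2 : ℂ) • (Gr (Cr j D 1) ε x).fst = ((2 : ℂ) • Gr (Cr j D 1) ε x).fst := rfl
        _ = (Cr j D ε (x + gr H0 Y x)).fst := by rw [← h4]; exact h3
        _ = ((2 : ℂ) • Cr j D ε (i0 H0 Y x.fst)).fst := by rw [h5, map_smul]
        _ = _ := rfl
    exact smul_right_injective _ h2 h6
  · have h3 := congrArg (fun z : HT H0 Y => z.snd) h1
    have h4 : (Cr j D ε x + gr H0 Y (Cr j D ε (gr H0 Y x))).snd =
        (Cr j D ε (x - gr H0 Y x)).snd := by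
      rw [map_sub]
      show (Cr j D ε x).snd + -(Cr j D ε (gr H0 Y x)).snd =
        (Cr j D ε x).snd - (Cr j D ε (gr H0 Y x)).snd
      rw [sub_eq_add_neg]
    have h5 : x - gr H0 Y x = (2 : ℂ) • i1 H0 Y x.snd := by
      refine ext_HT ?_ ?_
      · show x.fst - x.fst = (2 : ℂ) • (0 : H0)
        rw [sub_self, smul_zero]
      · show x.snd - -x.snd = (2 : ℂ) • x.snd
        rw [sub_neg_eq_add, two_smul]
    have h6 : (2 : ℂ) • (Gr (Cr j D 1) ε x).snd = (2 : ℂ) • j1 (S0 j1 D1 ε x.snd) := by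
      calc (2 : ℂ) • (Gr (Cr j D 1) ε x).snd = ((2 : ℂ) • Gr (Cr j D 1) ε x).snd := rfl
        _ = (Cr j D ε (x - gr H0 Y x)).snd := by rw [← h4]; exact h3
        _ = ((2 : ℂ) • Cr j D ε (i1 H0 Y x.snd)).snd := by rw [h5, map_smul]
        _ = (2 : ℂ) • (Cr j D ε (i1 H0 Y x.snd)).snd := rfl
        _ = _ := by rw [snd_C h hE hε]
    exact smul_right_injective _ h2 h6

end pair

end

end Crest.Agent.R235.Rm_820
end

-- ▼ part R235/Rm2_820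
section

/-!
Row 235, block FAM/RC (helper820), RC-MAN part 2: the commutator hypothesis of `Inf`.
-/

set_option autoImplicit false
set_option linter.unusedSectionVars false
set_option maxSynthPendingDepth 3

open scoped InnerProductSpace ContDiff Topology
open Complex Filter

namespace Crest.Agent.R235.Rm_820

open Crest.Agent.R235.Rc0_820 Crest.Agent.R235.RCTr_746
open Crest.Agent.R235.Rc1_820 (i0 i0_fst i0_snd cr_eq star_Iod)
open Crest.Agent.R235.RCDefs_746 (Base Fam KerF Inf Gr)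

noncomputable section

local notation "⟪" x ", " y "⟫" => inner ℂ x y

variable {X X1 H0 Y : Type*} [NormedAddCommGroup X] [InnerProductSpace ℂ X] [CompleteSpace X]
  [NormedAddCommGroup X1] [InnerProductSpace ℂ X1] [CompleteSpace X1]
  [NormedAddCommGroup H0] [InnerProductSpace ℂ H0] [CompleteSpace H0]
  [NormedAddCommGroup Y] [InnerProductSpace ℂ Y] [CompleteSpace Y]
  {j : X →L[ℂ] H0} {D : X →L[ℂ] Y} {j1 : X1 →L[ℂ] Y} {D1 : X1 →L[ℂ] H0}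
  {μ ν : ℕ → ℝ} {e : ℕ → X} {f : ℕ → X1} {g : ℕ → X} {ε : ℝ}

/-- `G_0` is symmetric. -/
lemma S0_symm (hc : Coer j D) (hε : ε ≠ 0) (x y : H0) :
    ⟪j (S0 j D ε x), y⟫ = ⟪x, j (S0 j D ε y)⟫ := by
  have h1 := S0_eq hc hε y (S0 j D ε x)
  have h2 := congrArg (starRingEnd ℂ) (S0_eq hc hε x (S0 j D ε y))
  simp only [map_add, map_mul, map_pow, inner_conj_symm, Complex.conj_ofReal] at h2
  rw [← h1, ← h2]

lemma S0_inj (hc : Coer j D) (hε : ε ≠ 0) {μ : ℕ → ℝ} (hμ : ∀ k, 0 ≤ μ k) {e : ℕ → X}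
    (hp : Pars fun k => j (e k)) (hE : ∀ k v, ⟪D v, D (e k)⟫ = μ k * ⟪j v, j (e k)⟫) {x : H0}
    (hx : j (S0 j D ε x) = 0) : x = 0 := by
  have h1 : ∀ k, (⟪j (e k), x⟫).re = 0 := by
    intro k
    have h3 : S0 j D ε (j (e k)) = (((1 + ε ^ 2 * μ k)⁻¹ : ℝ) : ℂ) • e k := by
      refine S0_unique hc hε fun v => ?_
      rw [map_smul, map_smul, inner_smul_right, inner_smul_right, hE]
      have h1 := (pos_den (hμ k) ε).ne'
      have h2 : (((1 + ε ^ 2 * μ k)⁻¹ : ℝ) : ℂ) * (1 + ε ^ 2 * μ k) = 1 := by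
        rw [← Complex.ofReal_one, ← Complex.ofReal_pow, ← Complex.ofReal_mul, ← Complex.ofReal_add,
          ← Complex.ofReal_mul, inv_mul_cancel₀ h1]
      linear_combination ⟪j v, j (e k)⟫ * h2
    have h4 := S0_symm hc hε (j (e k)) x
    rw [h3, hx, inner_zero_right, map_smul, inner_smul_left, Complex.conj_ofReal] at h4
    have h5 : (((1 + ε ^ 2 * μ k)⁻¹ : ℝ) : ℂ) ≠ 0 := by
      exact_mod_cast (inv_pos.2 (pos_den (hμ k) ε)).ne'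
    rw [(mul_eq_zero.1 h4).resolve_left h5]; rfl
  have h2 := hp x x
  simp only [h1, mul_zero] at h2
  have h4 := h2.unique hasSum_zero
  rw [inner_self_eq_norm_sq_to_K] at h4
  have h5 : ‖x‖ ^ 2 = 0 := by
    have : (((‖x‖ : ℂ)) ^ 2).re = ‖x‖ ^ 2 := by rw [← Complex.ofReal_pow, Complex.ofReal_re]
    rw [← this]; exact h4
  exact norm_eq_zero.1 (pow_eq_zero_iff two_ne_zero |>.1 h5)

lemma star_Gr {H : Type*} [NormedAddCommGroup H] [InnerProductSpace ℂ H] [CompleteSpace H]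
    (K : H →L[ℂ] H) (ε : ℝ) : star (Gr K ε) = Gr K ε := by
  unfold Gr; rw [star_mul, star_star]

lemma dense_of_inj {H : Type*} [NormedAddCommGroup H] [InnerProductSpace ℂ H] [CompleteSpace H]
    {G : H →L[ℂ] H} (hG : star G = G) (hi : ∀ x, G x = 0 → x = 0) : DenseRange G := by
  have h1 : (LinearMap.range (G : H →ₗ[ℂ] H))ᗮ = ⊥ := by
    rw [Submodule.eq_bot_iff]
    intro x hx
    refine hi x (ext_inner_left ℂ fun v => ?_)
    rw [inner_zero_right, ← hG, ContinuousLinearMap.star_eq_adjoint,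
      ContinuousLinearMap.adjoint_inner_right]
    exact (Submodule.mem_orthogonal _ _).1 hx _ ⟨v, rfl⟩
  have h2 := Submodule.topologicalClosure_eq_top_iff.2 h1
  rw [DenseRange, ← dense_closure]
  have h3 : ((LinearMap.range (G : H →ₗ[ℂ] H)).topologicalClosure : Set H) = Set.univ := by
    rw [h2]; rfl
  have h4 : closure (Set.range G) = Set.univ := by
    rw [← h3, Submodule.topologicalClosure_coe]; rfl
  rw [h4]; exact dense_univ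

lemma dense_Gr (h : DP j D j1 D1) (hE : ED j D j1 D1 μ ν e f g) (hε : ε ≠ 0) :
    DenseRange (Gr (Cr j D 1) ε) := by
  refine dense_of_inj (star_Gr _ _) fun x hx => ?_
  obtain ⟨h1, h2⟩ := Gr_apply h hE hε x
  rw [hx] at h1 h2
  exact ext_HT (S0_inj h.c0 hε hE.μ0 hE.ep hE.eE h1.symm)
    (S0_inj h.c1 hε hE.ν0 hE.fp hE.fE h2.symm)

/-- commutator data. -/
structure CM (j : X →L[ℂ] H0) (D : X →L[ℂ] Y) (j1 : X1 →L[ℂ] Y) (D1 : X1 →L[ℂ] H0)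
    (B : H0 →L[ℂ] Y) (Bu : X →L[ℂ] X1) (Bv : X1 →L[ℂ] X) (C : ℝ) : Prop where
  C0 : 0 ≤ C
  jB : ∀ v, j1 (Bu v) = B (j v)
  jB' : ∀ w, j (Bv w) = ContinuousLinearMap.adjoint B (j1 w)
  q0 : ∀ v w, ‖⟪D1 (Bu v), D1 w⟫ - ⟪D v, D (Bv w)⟫‖ ≤ C * (‖v‖ * ‖j1 w‖)
  q1 : ∀ v w, ‖⟪D1 (Bu v), D1 w⟫ - ⟪D v, D (Bv w)⟫‖ ≤ C * (‖j v‖ * ‖w‖)

variable {B : H0 →L[ℂ] Y} {Bu : X →L[ℂ] X1} {Bv : X1 →L[ℂ] X} {C : ℝ}

lemma key (h : DP j D j1 D1) (hB : CM j D j1 D1 B Bu Bv C) (hε : ε ≠ 0) (z : H0) (y : Y) :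
    ⟪B (j (S0 j D ε z)), y⟫ - ⟪z, ContinuousLinearMap.adjoint B (j1 (S0 j1 D1 ε y))⟫ =
      ε ^ 2 * (⟪D1 (Bu (S0 j D ε z)), D1 (S0 j1 D1 ε y)⟫ -
        ⟪D (S0 j D ε z), D (Bv (S0 j1 D1 ε y))⟫) := by
  set v := S0 j D ε z
  set w := S0 j1 D1 ε y
  have h1 := S0_eq h.c1 hε y (Bu v)
  have h2 := congrArg (starRingEnd ℂ) (S0_eq h.c0 hε z (Bv w))
  simp only [map_add, map_mul, map_pow, inner_conj_symm, Complex.conj_ofReal] at h2
  have h3 : ⟪j1 (Bu v), j1 w⟫ = ⟪j v, j (Bv w)⟫ := by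
    rw [hB.jB, hB.jB', ContinuousLinearMap.adjoint_inner_right]
  rw [← hB.jB, ← hB.jB']
  change ⟪j1 (Bu v), j1 w⟫ + (ε : ℂ) ^ 2 * ⟪D1 (Bu v), D1 w⟫ = ⟪j1 (Bu v), y⟫ at h1
  change ⟪j v, j (Bv w)⟫ + (ε : ℂ) ^ 2 * ⟪D v, D (Bv w)⟫ = ⟪z, j (Bv w)⟫ at h2
  linear_combination h2 - h1 + h3

lemma norm_le_of_inner {H : Type*} [NormedAddCommGroup H] [InnerProductSpace ℂ H] {x : H} {c : ℝ}
    (hc : 0 ≤ c) (h : ∀ z : H, ‖⟪z, x⟫‖ ≤ c * ‖z‖) : ‖x‖ ≤ c := by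
  have h1 := h x
  rw [inner_self_eq_norm_sq_to_K, norm_pow] at h1
  have h2 : ‖((‖x‖ : ℝ) : ℂ)‖ = ‖x‖ := by rw [Complex.norm_real, norm_norm]
  have h3 : ‖x‖ ^ 2 ≤ c * ‖x‖ := by
    have : ‖((‖x‖ : ℝ) : ℂ)‖ ^ 2 ≤ c * ‖x‖ := h1
    rwa [h2] at this
  by_cases h0 : ‖x‖ = 0
  · rw [h0]; exact hc
  · have h6 : 0 < ‖x‖ := lt_of_le_of_ne (norm_nonneg x) (Ne.symm h0)
    rw [pow_two] at h3
    exact le_of_mul_le_mul_right h3 h6

/-- the commutator in components, `H0`. -/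
lemma bd0 (h : DP j D j1 D1) (hB : CM j D j1 D1 B Bu Bv C) : ∃ c, 0 ≤ c ∧ ∀ ε : ℝ, 0 < ε → ε ≤ 1 →
    ∀ y : Y, ‖j (S0 j D ε (ContinuousLinearMap.adjoint B y)) -
      ContinuousLinearMap.adjoint B (j1 (S0 j1 D1 ε y))‖ ≤ (ε * c) * ‖j1 (S0 j1 D1 ε y)‖ := by
  obtain ⟨c, hc0, hc⟩ := norm_S0 h.c0
  have hC := hB.C0
  refine ⟨C * c, by positivity, fun ε h0 h1 y => ?_⟩
  refine norm_le_of_inner (by positivity) fun z => ?_
  have h2 := key h hB h0.ne' z y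
  have h3 : ⟪z, j (S0 j D ε (ContinuousLinearMap.adjoint B y)) -
      ContinuousLinearMap.adjoint B (j1 (S0 j1 D1 ε y))⟫ =
      ⟪B (j (S0 j D ε z)), y⟫ - ⟪z, ContinuousLinearMap.adjoint B (j1 (S0 j1 D1 ε y))⟫ := by
    rw [inner_sub_right, ← S0_symm h.c0 h0.ne', ContinuousLinearMap.adjoint_inner_right]
  rw [h3, h2, norm_mul, norm_pow, Complex.norm_real, Real.norm_eq_abs, sq_abs]
  have h4 := hB.q0 (S0 j D ε z) (S0 j1 D1 ε y)
  have h5 := hc ε h0 h1 z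
  calc ε ^ 2 * _ ≤ ε ^ 2 * (C * (‖S0 j D ε z‖ * ‖j1 (S0 j1 D1 ε y)‖)) :=
        mul_le_mul_of_nonneg_left h4 (by positivity)
    _ = ε * C * ‖j1 (S0 j1 D1 ε y)‖ * (ε * ‖S0 j D ε z‖) := by ring
    _ ≤ ε * C * ‖j1 (S0 j1 D1 ε y)‖ * (c * ‖z‖) := mul_le_mul_of_nonneg_left h5 (by positivity)
    _ = _ := by ring

/-- the commutator in components, `Y`. -/
lemma bd1 (h : DP j D j1 D1) (hB : CM j D j1 D1 B Bu Bv C) : ∃ c, 0 ≤ c ∧ ∀ ε : ℝ, 0 < ε → ε ≤ 1 →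
    ∀ x : H0, ‖B (j (S0 j D ε x)) - j1 (S0 j1 D1 ε (B x))‖ ≤ (ε * c) * ‖j (S0 j D ε x)‖ := by
  obtain ⟨c, hc0, hc⟩ := norm_S0 h.c1
  have hC := hB.C0
  refine ⟨C * c, by positivity, fun ε h0 h1 x => ?_⟩
  refine norm_le_of_inner (by positivity) fun z => ?_
  have h2 := key h hB h0.ne' x z
  have h3 : ‖⟪z, B (j (S0 j D ε x)) - j1 (S0 j1 D1 ε (B x))⟫‖ =
      ‖⟪B (j (S0 j D ε x)), z⟫ - ⟪x, ContinuousLinearMap.adjoint B (j1 (S0 j1 D1 ε z))⟫‖ := by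
    rw [norm_inner_symm, inner_sub_left, S0_symm h.c1 h0.ne',
      ContinuousLinearMap.adjoint_inner_right]
  rw [h3, h2, norm_mul, norm_pow, Complex.norm_real, Real.norm_eq_abs, sq_abs]
  have h4 := hB.q1 (S0 j D ε x) (S0 j1 D1 ε z)
  have h5 := hc ε h0 h1 z
  calc ε ^ 2 * _ ≤ ε ^ 2 * (C * (‖j (S0 j D ε x)‖ * ‖S0 j1 D1 ε z‖)) :=
        mul_le_mul_of_nonneg_left h4 (by positivity)
    _ = ε * C * ‖j (S0 j D ε x)‖ * (ε * ‖S0 j1 D1 ε z‖) := by ring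
    _ ≤ ε * C * ‖j (S0 j D ε x)‖ * (c * ‖z‖) := mul_le_mul_of_nonneg_left h5 (by positivity)
    _ = _ := by ring

/-- **the commutator hypothesis of `Inf`.** -/
theorem com (h : DP j D j1 D1) (hE : ED j D j1 D1 μ ν e f g) (hB : CM j D j1 D1 B Bu Bv C) :
    ∃ c : ℝ, ∀ ε : ℝ, 0 < ε → ε ≤ 1 → ∃ Z : HT H0 Y →L[ℂ] HT H0 Y, ‖Z‖ ≤ c ∧
      (I • od B) * Gr (Cr j D 1) ε = Gr (Cr j D 1) ε * (I • od B) +
        (ε : ℂ) • (Gr (Cr j D 1) ε * Z) := by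
  obtain ⟨c0, hc0, h0⟩ := bd0 h hB
  obtain ⟨c1, hc1, h1⟩ := bd1 h hB
  refine ⟨max c0 c1, fun ε hε0 hε1 => ?_⟩
  set G := Gr (Cr j D 1) ε with hG
  set b : HT H0 Y →L[ℂ] HT H0 Y := I • od B with hb
  set R := b * G - G * b with hR
  have hbs : star b = -b := star_Iod B
  have hGs : star G = G := star_Gr _ _
  have hRs : star R = R := by
    rw [hR, star_sub, star_mul, star_mul, hbs, hGs]
    noncomm_ring
  have hbd : ∀ y, ‖R y‖ ≤ (ε * max c0 c1) * ‖G y‖ := by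
    intro y
    obtain ⟨e1, e2⟩ := Gr_apply h hE hε0.ne' y
    obtain ⟨e3, e4⟩ := Gr_apply h hE hε0.ne' (b y)
    have f1 : (R y).fst = -(I • (j (S0 j D ε (ContinuousLinearMap.adjoint B y.snd)) -
        ContinuousLinearMap.adjoint B (j1 (S0 j1 D1 ε y.snd)))) := by
      have : (R y).fst = I • ContinuousLinearMap.adjoint B (G y).snd - (G (b y)).fst := rfl
      rw [this, hG, e2, e3]
      have e5 : (b y).fst = I • ContinuousLinearMap.adjoint B y.snd := rfl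
      rw [e5, map_smul, map_smul]
      module
    have f2 : (R y).snd = I • (B (j (S0 j D ε y.fst)) - j1 (S0 j1 D1 ε (B y.fst))) := by
      have : (R y).snd = I • B (G y).fst - (G (b y)).snd := rfl
      rw [this, hG, e1, e4]
      have e5 : (b y).snd = I • B y.fst := rfl
      rw [e5, map_smul, map_smul, smul_sub]
    have g1 : ‖(R y).fst‖ ≤ (ε * max c0 c1) * ‖(G y).snd‖ := by
      rw [f1, norm_neg, norm_smul, norm_I, one_mul, hG, e2]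
      refine (h0 ε hε0 hε1 y.snd).trans ?_
      exact mul_le_mul_of_nonneg_right (mul_le_mul_of_nonneg_left (le_max_left _ _) hε0.le)
        (norm_nonneg _)
    have g2 : ‖(R y).snd‖ ≤ (ε * max c0 c1) * ‖(G y).fst‖ := by
      rw [f2, norm_smul, norm_I, one_mul, hG, e1]
      refine (h1 ε hε0 hε1 y.fst).trans ?_
      exact mul_le_mul_of_nonneg_right (mul_le_mul_of_nonneg_left (le_max_right _ _) hε0.le)
        (norm_nonneg _)
    have hm : 0 ≤ max c0 c1 := hc0.trans (le_max_left _ _)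
    have k1 := pow_le_pow_left₀ (norm_nonneg _) g1 2
    have k2 := pow_le_pow_left₀ (norm_nonneg _) g2 2
    have k3 : ‖R y‖ ^ 2 ≤ ((ε * max c0 c1) * ‖G y‖) ^ 2 := by
      rw [norm_HT, mul_pow, norm_HT (G y)]
      rw [mul_pow] at k1 k2
      linarith
    exact (pow_le_pow_iff_left₀ (norm_nonneg _) (by positivity) two_ne_zero).1 k3
  have hm : 0 ≤ max c0 c1 := hc0.trans (le_max_left _ _)
  obtain ⟨Z, hZ, hRZ⟩ := douglas hGs hRs (dense_Gr h hE hε0.ne') (by positivity) hbd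
  refine ⟨((ε⁻¹ : ℝ) : ℂ) • Z, ?_, ?_⟩
  · rw [norm_smul, Complex.norm_real, Real.norm_eq_abs, abs_of_pos (inv_pos.2 hε0)]
    calc ε⁻¹ * ‖Z‖ ≤ ε⁻¹ * (ε * max c0 c1) := mul_le_mul_of_nonneg_left hZ (inv_pos.2 hε0).le
      _ = _ := by field_simp
  · have h9 : (ε : ℂ) • (G * (((ε⁻¹ : ℝ) : ℂ) • Z)) = R := by
      rw [mul_smul_comm, smul_smul, ← Complex.ofReal_mul, mul_inv_cancel₀ hε0.ne',
        Complex.ofReal_one, one_smul, ← hRZ]
    rw [h9, hR]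
    exact (add_sub_cancel _ _).symm

end

end Crest.Agent.R235.Rm_820
end

-- ▼ part R235/Rm3_820
section

/-!
Row 235, block FAM/RC (helper820), RC-MAN part 3: the trace in a real basis.

* `tr_real` : `∑ re ⟪b k, T (b k)⟫ = 2 re tr T` for a real basis `b` of the complex Hilbert space `H`;
* `tr_eq'`  : `tr T = (∑ t k) / 2` if `⟪b k, T (b k)⟫ = t k` is real.
-/

set_option autoImplicit false
set_option linter.unusedSectionVars false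
set_option maxSynthPendingDepth 3

open scoped InnerProductSpace ContDiff Topology
open Complex Filter

namespace Crest.Agent.R235.Rm_820

open Crest.Agent.R235.Rc0_820 Crest.Agent.R235.RCTr_746
open Crest.Agent.R235.Rc1_820 (i0 i0_fst i0_snd cr_eq star_Iod)
open Crest.Agent.R235.FamDefs_307 (pdθ sg ch4)
open Crest.Agent.R235.RCDefs_746 (Base Fam KerF Inf Gr)

noncomputable section

local notation "⟪" x ", " y "⟫" => inner ℂ x y

section tr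

variable {H : Type*} [NormedAddCommGroup H] [InnerProductSpace ℂ H] [CompleteSpace H]
  {ι : Type} {b : ι → H}

/-- Parseval for a real basis, general index set. -/
def PB (b : ι → H) : Prop :=
  ∀ x y : H, HasSum (fun k => (⟪b k, x⟫).re * (⟪b k, y⟫).re) (⟪x, y⟫).re

lemma re_I_inner (x y : H) : (⟪x, I • y⟫).re = -(⟪x, y⟫).im := by
  rw [inner_smul_right]; simp

lemma re_I_I (x y : H) : (⟪I • x, I • y⟫).re = (⟪x, y⟫).re := by
  rw [inner_smul_right, inner_smul_left, conj_I, ← mul_assoc]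
  rw [show I * -I = 1 by rw [mul_neg, I_mul_I, neg_neg], one_mul]

lemma hasSum_two (hb : PB b) (x y : H) :
    HasSum (fun k => (⟪x, b k⟫ * ⟪b k, y⟫).re) (2 * (⟪x, y⟫).re) := by
  have h := (hb x y).add (hb (I • x) (I • y))
  rw [re_I_I, ← two_mul] at h
  have e : (fun k => (⟪b k, x⟫).re * (⟪b k, y⟫).re + (⟪b k, I • x⟫).re * (⟪b k, I • y⟫).re) =
      fun k => (⟪x, b k⟫ * ⟪b k, y⟫).re := by
    funext k
    rw [re_I_inner, re_I_inner, Complex.mul_re, ← inner_conj_symm x (b k), Complex.conj_re,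
      Complex.conj_im]
    ring
  rwa [e] at h

lemma hasSum_sq (hb : PB b) (x : H) : HasSum (fun k => ‖⟪b k, x⟫‖ ^ 2) (2 * ‖x‖ ^ 2) := by
  have h := hasSum_two hb x x
  have e : ∀ k, (⟪x, b k⟫ * ⟪b k, x⟫).re = ‖⟪b k, x⟫‖ ^ 2 := by
    intro k
    rw [← inner_conj_symm x (b k), mul_comm, Complex.mul_conj, Complex.ofReal_re,
      Complex.normSq_eq_norm_sq]
  simp only [e] at h
  have e2 : (⟪x, x⟫).re = ‖x‖ ^ 2 := by
    rw [inner_self_eq_norm_sq_to_K]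
    exact (Complex.ofReal_pow ‖x‖ 2).symm ▸ Complex.ofReal_re _
  rwa [e2] at h

lemma sum_bd (hb : PB b) (x y : H) (s : Finset ι) :
    ∑ k ∈ s, ‖(⟪x, b k⟫ * ⟪b k, y⟫).re‖ ≤ 2 * (‖x‖ * ‖y‖) := by
  have h1 : ∑ i ∈ s, ‖⟪b i, x⟫‖ ^ 2 ≤ 2 * ‖x‖ ^ 2 := by
    have h := (hasSum_sq hb x).summable.sum_le_tsum s fun i _ => by positivity
    rwa [(hasSum_sq hb x).tsum_eq] at h
  have h2 : ∑ i ∈ s, ‖⟪b i, y⟫‖ ^ 2 ≤ 2 * ‖y‖ ^ 2 := by
    have h := (hasSum_sq hb y).summable.sum_le_tsum s fun i _ => by positivity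
    rwa [(hasSum_sq hb y).tsum_eq] at h
  have h3 : ∀ k ∈ s, ‖(⟪x, b k⟫ * ⟪b k, y⟫).re‖ ≤ ‖⟪b k, x⟫‖ * ‖⟪b k, y⟫‖ := by
    intro k _
    rw [norm_inner_symm (b k) x, ← norm_mul]
    exact Complex.abs_re_le_norm _
  refine (Finset.sum_le_sum h3).trans ((Real.sum_mul_le_sqrt_mul_sqrt s _ _).trans ?_)
  calc √(∑ i ∈ s, ‖⟪b i, x⟫‖ ^ 2) * √(∑ i ∈ s, ‖⟪b i, y⟫‖ ^ 2) ≤
        √(2 * ‖x‖ ^ 2) * √(2 * ‖y‖ ^ 2) := by
        gcongr
    _ = √((2 * (‖x‖ * ‖y‖)) ^ 2) := by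
        rw [← Real.sqrt_mul (by positivity)]
        congr 1; ring
    _ = _ := Real.sqrt_sq (by positivity)

/-- **the trace in a real basis**. -/
theorem tr_real (hb : PB b) {T : H →L[ℂ] H} {c : ℝ} (hT : IsNuc T c) :
    HasSum (fun k => (⟪b k, T (b k)⟫).re) (2 * (tr T).re) := by
  obtain ⟨κ, u, v, hs, -, hT⟩ := hT
  have hS : Summable (fun p : κ × ι => (⟪v p.1, b p.2⟫ * ⟪b p.2, u p.1⟫).re) := by
    refine Summable.of_norm ?_
    rw [summable_prod_of_nonneg fun p => norm_nonneg _]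
    refine ⟨fun j => summable_of_sum_le (fun _ => norm_nonneg _) (sum_bd hb (v j) (u j)), ?_⟩
    refine Summable.of_nonneg_of_le (fun j => tsum_nonneg fun i => norm_nonneg _) (fun j => ?_)
      (hs.mul_left 2)
    refine (Real.tsum_le_of_sum_le (fun _ => norm_nonneg _) (sum_bd hb (v j) (u j))).trans_eq ?_
    ring
  have h1 : ∀ i, HasSum (fun j => (⟪v j, b i⟫ * ⟪b i, u j⟫).re) (⟪b i, T (b i)⟫).re := by
    intro i
    have h := (hT (b i)).mapL (innerSL ℂ (b i))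
    simp only [innerSL_apply_apply, inner_smul_right] at h
    exact Complex.hasSum_re h
  have h2 : ∀ j, HasSum (fun i => (⟪v j, b i⟫ * ⟪b i, u j⟫).re) (2 * (⟪v j, u j⟫).re) := fun j =>
    hasSum_two hb (v j) (u j)
  have h3 := hS.hasSum
  have h4 : HasSum (fun j => 2 * (⟪v j, u j⟫).re)
      (∑' p : κ × ι, (⟪v p.1, b p.2⟫ * ⟪b p.2, u p.1⟫).re) := h3.prod_fiberwise h2
  have h5 : HasSum (fun p : ι × κ => (⟪v p.2, b p.1⟫ * ⟪b p.1, u p.2⟫).re)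
      (∑' p : κ × ι, (⟪v p.1, b p.2⟫ * ⟪b p.2, u p.1⟫).re) :=
    (Equiv.prodComm ι κ).hasSum_iff.2 h3
  have h6 := h5.prod_fiberwise h1
  have h7 : HasSum (fun j => ⟪v j, u j⟫) (tr T) := by
    rw [tr_eq hs hT]
    refine (Summable.of_norm (Summable.of_nonneg_of_le (fun _ => norm_nonneg _)
      (fun j => ?_) hs)).hasSum
    exact (norm_inner_le_norm _ _).trans_eq (mul_comm _ _)
  have h8 := (Complex.hasSum_re h7).mul_left 2
  rw [h4.unique h8] at h6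
  exact h6

/-- the trace if the diagonal is real. -/
theorem tr_of_diag (hb : PB b) {T : H →L[ℂ] H} {c : ℝ} (hT : IsNuc T c) {t : ι → ℝ}
    (ht : ∀ k, ⟪b k, T (b k)⟫ = t k) : HasSum t (2 * (tr T).re) ∧ tr T = ((tr T).re : ℂ) := by
  have h1 := tr_real hb hT
  have h2 := tr_real hb (hT.smul I)
  simp only [ht, Complex.ofReal_re] at h1
  refine ⟨h1, ?_⟩
  have h3 : ∀ k, (⟪b k, (I • T) (b k)⟫).re = 0 := by
    intro k
    rw [smul_apply, re_I_inner, ht, Complex.ofReal_im, neg_zero]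
  simp only [h3] at h2
  have h4 := h2.unique hasSum_zero
  rw [tr_smul] at h4
  have h5 : (tr T).im = 0 := by
    have : (I * tr T).re = -(tr T).im := by simp
    rw [this] at h4
    linarith
  exact Complex.ext rfl (by rw [h5, Complex.ofReal_im])

end tr

section HT

variable {H0 Y : Type*} [NormedAddCommGroup H0] [InnerProductSpace ℂ H0] [CompleteSpace H0]
  [NormedAddCommGroup Y] [InnerProductSpace ℂ Y] [CompleteSpace Y]

/-- the basis of the sum. -/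
def bs (p : ℕ → H0) (q : ℕ → Y) : ℕ ⊕ ℕ → HT H0 Y := Sum.elim (fun k => i0 H0 Y (p k)) fun k => i1 H0 Y (q k)

lemma inner_i0 (x : H0) (z : HT H0 Y) : ⟪i0 H0 Y x, z⟫ = ⟪x, z.fst⟫ := by
  rw [inner_HT, i0_fst, i0_snd, inner_zero_left, add_zero]

lemma inner_i1 (x : Y) (z : HT H0 Y) : ⟪i1 H0 Y x, z⟫ = ⟪x, z.snd⟫ := by
  rw [inner_HT, i1_fst, i1_snd, inner_zero_left, zero_add]

lemma pb_bs {p : ℕ → H0} {q : ℕ → Y} (hp : Pars p) (hq : Pars q) : PB (bs p q) := by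
  intro x y
  rw [inner_HT, Complex.add_re]
  refine HasSum.sum (f := fun k => (⟪bs p q k, x⟫).re * (⟪bs p q k, y⟫).re) ?_ ?_
  · have h := hp x.fst y.fst
    have e : (fun k => (⟪p k, x.fst⟫).re * (⟪p k, y.fst⟫).re) =
        (fun k => (⟪bs p q k, x⟫).re * (⟪bs p q k, y⟫).re) ∘ Sum.inl := by
      funext k
      show _ = (⟪i0 H0 Y (p k), x⟫).re * (⟪i0 H0 Y (p k), y⟫).re
      rw [inner_i0, inner_i0]
    rwa [e] at h
  · have h := hq x.snd y.snd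
    have e : (fun k => (⟪q k, x.snd⟫).re * (⟪q k, y.snd⟫).re) =
        (fun k => (⟪bs p q k, x⟫).re * (⟪bs p q k, y⟫).re) ∘ Sum.inr := by
      funext k
      show _ = (⟪i1 H0 Y (q k), x⟫).re * (⟪i1 H0 Y (q k), y⟫).re
      rw [inner_i1, inner_i1]
    rwa [e] at h

end HT

end

end Crest.Agent.R235.Rm_820
end

-- ▼ part R235/Rm4_820
section

/-!
Row 235, block FAM/RC (helper820), RC-MAN part 4: the hypothesis `Inf` of `RCDefs_746` for a Dirac pair.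
-/

set_option autoImplicit false
set_option linter.unusedSectionVars false
set_option maxSynthPendingDepth 3

open scoped InnerProductSpace ContDiff Topology
open Complex Filter

namespace Crest.Agent.R235.Rm_820

open Crest.Agent.R235.Rc0_820 Crest.Agent.R235.RCTr_746
open Crest.Agent.R235.Rc1_820 (i0 i0_fst i0_snd cr_eq star_Iod base nuc_G4)
open Crest.Agent.R235.FamDefs_307 (pdθ sg ch4)
open Crest.Agent.R235.RCDefs_746 (Base Fam KerF Inf Gr)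

noncomputable section

local notation "⟪" x ", " y "⟫" => inner ℂ x y

variable {X X1 H0 Y : Type*} [NormedAddCommGroup X] [InnerProductSpace ℂ X] [CompleteSpace X]
  [NormedAddCommGroup X1] [InnerProductSpace ℂ X1] [CompleteSpace X1]
  [NormedAddCommGroup H0] [InnerProductSpace ℂ H0] [CompleteSpace H0]
  [NormedAddCommGroup Y] [InnerProductSpace ℂ Y] [CompleteSpace Y]
  {j : X →L[ℂ] H0} {D : X →L[ℂ] Y} {j1 : X1 →L[ℂ] Y} {D1 : X1 →L[ℂ] H0}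
  {μ ν : ℕ → ℝ} {e : ℕ → X} {f : ℕ → X1} {g : ℕ → X} {ε : ℝ}

/-- `∑ sgn B* B B* B` -/
def N0 (B : Fin 4 → H0 →L[ℂ] Y) : H0 →L[ℂ] H0 :=
  ∑ σ : Equiv.Perm (Fin 4), sg σ • (ContinuousLinearMap.adjoint (B (σ 0)) ∘L B (σ 1) ∘L
    ContinuousLinearMap.adjoint (B (σ 2)) ∘L B (σ 3))

/-- `∑ sgn B B* B B*` -/
def N1 (B : Fin 4 → H0 →L[ℂ] Y) : Y →L[ℂ] Y :=
  ∑ σ : Equiv.Perm (Fin 4), sg σ • (B (σ 0) ∘L ContinuousLinearMap.adjoint (B (σ 1)) ∘L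
    B (σ 2) ∘L ContinuousLinearMap.adjoint (B (σ 3)))

/-- `∑ sgn g b b b b` -/
def NN (B : Fin 4 → H0 →L[ℂ] Y) : HT H0 Y →L[ℂ] HT H0 Y :=
  ∑ σ : Equiv.Perm (Fin 4), sg σ • (gr H0 Y * (I • od (B (σ 0))) * (I • od (B (σ 1))) *
    (I • od (B (σ 2))) * (I • od (B (σ 3))))

lemma four_fst (g : Fin 4 → H0 →L[ℂ] Y) (x : HT H0 Y) :
    ((gr H0 Y * (I • od (g 0)) * (I • od (g 1)) * (I • od (g 2)) * (I • od (g 3))) x).fst =
      ContinuousLinearMap.adjoint (g 0) (g 1 (ContinuousLinearMap.adjoint (g 2) (g 3 x.fst))) := by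
  show I • ContinuousLinearMap.adjoint (g 0) (I • g 1 (I • ContinuousLinearMap.adjoint (g 2)
    (I • g 3 x.fst))) = _
  simp only [map_smul, smul_smul]
  rw [show I * (I * (I * I)) = 1 by rw [I_mul_I]; linear_combination (-1 : ℂ) * I_mul_I, one_smul]

lemma four_snd (g : Fin 4 → H0 →L[ℂ] Y) (x : HT H0 Y) :
    ((gr H0 Y * (I • od (g 0)) * (I • od (g 1)) * (I • od (g 2)) * (I • od (g 3))) x).snd =
      -(g 0 (ContinuousLinearMap.adjoint (g 1) (g 2 (ContinuousLinearMap.adjoint (g 3) x.snd)))) := by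
  show -(I • g 0 (I • ContinuousLinearMap.adjoint (g 1) (I • g 2
    (I • ContinuousLinearMap.adjoint (g 3) x.snd)))) = _
  simp only [map_smul, smul_smul]
  rw [show I * (I * (I * I)) = 1 by rw [I_mul_I]; linear_combination (-1 : ℂ) * I_mul_I, one_smul]

lemma NN_fst (B : Fin 4 → H0 →L[ℂ] Y) (x : HT H0 Y) : (NN B x).fst = N0 B x.fst := by
  have h1 : (NN B x).fst = p0 H0 Y (NN B x) := rfl
  rw [h1]
  unfold NN N0
  rw [sum_apply, sum_apply, map_sum]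
  refine Finset.sum_congr rfl fun σ _ => ?_
  rw [smul_apply, map_smul, smul_apply]
  congr 1
  exact four_fst (fun i => B (σ i)) x

lemma NN_snd (B : Fin 4 → H0 →L[ℂ] Y) (x : HT H0 Y) : (NN B x).snd = -(N1 B x.snd) := by
  have h1 : (NN B x).snd = p1 H0 Y (NN B x) := rfl
  rw [h1]
  unfold NN N1
  rw [sum_apply, sum_apply, map_sum, ← Finset.sum_neg_distrib]
  refine Finset.sum_congr rfl fun σ _ => ?_
  rw [smul_apply, map_smul, smul_apply, ← smul_neg]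
  congr 1
  exact four_snd (fun i => B (σ i)) x

lemma Gr_e (h : DP j D j1 D1) (hE : ED j D j1 D1 μ ν e f g) (hε : ε ≠ 0) (k : ℕ) :
    Gr (Cr j D 1) ε (i0 H0 Y (j (e k))) = (((1 + ε ^ 2 * μ k)⁻¹ : ℝ) : ℂ) • i0 H0 Y (j (e k)) := by
  obtain ⟨h1, h2⟩ := Gr_apply h hE hε (i0 H0 Y (j (e k)))
  refine ext_HT ?_ ?_
  · rw [h1, i0_fst, S0_e h hE hε, map_smul]; rfl
  · rw [h2, i0_snd, map_zero, map_zero]
    show (0 : Y) = _ • (0 : Y)
    rw [smul_zero]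

lemma Gr_f (h : DP j D j1 D1) (hE : ED j D j1 D1 μ ν e f g) (hε : ε ≠ 0) (k : ℕ) :
    Gr (Cr j D 1) ε (i1 H0 Y (j1 (f k))) = (((1 + ε ^ 2 * ν k)⁻¹ : ℝ) : ℂ) • i1 H0 Y (j1 (f k)) := by
  obtain ⟨h1, h2⟩ := Gr_apply h hE hε (i1 H0 Y (j1 (f k)))
  refine ext_HT ?_ ?_
  · rw [h1, i1_fst, map_zero, map_zero]
    show (0 : H0) = _ • (0 : H0)
    rw [smul_zero]
  · rw [h2, i1_snd, S1_f h hE hε, map_smul]; rfl

lemma pow4_apply {H : Type*} [NormedAddCommGroup H] [InnerProductSpace ℂ H] [CompleteSpace H]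
    {G : H →L[ℂ] H} {z : H} {s : ℝ} (h : G z = (s : ℂ) • z) : (G ^ 4) z = ((s ^ 4 : ℝ) : ℂ) • z := by
  have h1 : (G ^ 4) z = G (G (G (G z))) := by
    rw [show (4 : ℕ) = 1 + 1 + 1 + 1 from rfl, pow_add, pow_add, pow_add, pow_one]; rfl
  rw [h1]
  simp only [h, map_smul, smul_smul]
  congr 1
  push_cast; ring

lemma diag0 {B : Fin 4 → H0 →L[ℂ] Y} {G : HT H0 Y →L[ℂ] HT H0 Y} {p : H0} {s w : ℝ}
    (hG : G (i0 H0 Y p) = (s : ℂ) • i0 H0 Y p) (hw : ⟪p, N0 B p⟫ = w) :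
    ⟪i0 H0 Y p, (NN B * G ^ 4) (i0 H0 Y p)⟫ = ((s ^ 4 * w : ℝ) : ℂ) := by
  have k1 := pow4_apply hG
  have k2 : (NN B * G ^ 4) (i0 H0 Y p) = NN B ((G ^ 4) (i0 H0 Y p)) := rfl
  rw [k2, k1, map_smul, inner_smul_right, inner_i0, NN_fst, i0_fst, hw, ← Complex.ofReal_mul]

lemma diag1 {B : Fin 4 → H0 →L[ℂ] Y} {G : HT H0 Y →L[ℂ] HT H0 Y} {p : Y} {s w : ℝ}
    (hG : G (i1 H0 Y p) = (s : ℂ) • i1 H0 Y p) (hw : ⟪p, N1 B p⟫ = -w) :
    ⟪i1 H0 Y p, (NN B * G ^ 4) (i1 H0 Y p)⟫ = ((s ^ 4 * w : ℝ) : ℂ) := by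
  have k1 := pow4_apply hG
  have k2 : (NN B * G ^ 4) (i1 H0 Y p) = NN B ((G ^ 4) (i1 H0 Y p)) := rfl
  rw [k2, k1, map_smul, inner_smul_right, inner_i1, NN_snd, i1_snd, inner_neg_right, hw, neg_neg,
    ← Complex.ofReal_mul]

lemma res_eq4 {m : ℝ} (hm : 0 ≤ m) (hε : 0 < ε) :
    ε ^ 4 * ((1 + ε ^ 2 * m)⁻¹) ^ 4 = ((ε ^ 2)⁻¹) ^ 2 * (((ε ^ 2)⁻¹ + m) ^ 4)⁻¹ := by
  have h1 : 0 < 1 + ε ^ 2 * m := by positivity
  have h2 : (ε ^ 2)⁻¹ + m = (1 + ε ^ 2 * m) / ε ^ 2 := by field_simp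
  rw [h2]
  field_simp

lemma tr_diag {B : Fin 4 → H0 →L[ℂ] Y} {G : HT H0 Y →L[ℂ] HT H0 Y} {p : ℕ → H0} {q : ℕ → Y}
    (hp : Pars p) (hq : Pars q) {s0 s1 w0 w1 : ℕ → ℝ}
    (hG0 : ∀ k, G (i0 H0 Y (p k)) = (s0 k : ℂ) • i0 H0 Y (p k))
    (hG1 : ∀ k, G (i1 H0 Y (q k)) = (s1 k : ℂ) • i1 H0 Y (q k))
    (hw0 : ∀ k, ⟪p k, N0 B (p k)⟫ = w0 k) (hw1 : ∀ k, ⟪q k, N1 B (q k)⟫ = -(w1 k)) {c : ℝ}
    (hT : IsNuc (NN B * G ^ 4) c) :
    RCTr_746.tr (NN B * G ^ 4) =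
      (((∑' k, s0 k ^ 4 * w0 k + ∑' k, s1 k ^ 4 * w1 k) / 2 : ℝ) : ℂ) := by
  have h1 : ∀ k, ⟪bs p q k, (NN B * G ^ 4) (bs p q k)⟫ =
      ((Sum.elim (fun k => s0 k ^ 4 * w0 k) (fun k => s1 k ^ 4 * w1 k) k : ℝ) : ℂ) := by
    rintro (k | k)
    · exact diag0 (hG0 k) (hw0 k)
    · exact diag1 (hG1 k) (hw1 k)
  obtain ⟨h2, h3⟩ := tr_of_diag (pb_bs hp hq) hT h1
  have h4 : Summable fun k => s0 k ^ 4 * w0 k := h2.summable.comp_injective Sum.inl_injective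
  have h5 : Summable fun k => s1 k ^ 4 * w1 k := h2.summable.comp_injective Sum.inr_injective
  have h6 := h2.unique (HasSum.sum (f := Sum.elim (fun k => s0 k ^ 4 * w0 k)
    (fun k => s1 k ^ 4 * w1 k)) h4.hasSum h5.hasSum)
  rw [h3, ← h6]
  push_cast; ring

/-- **the trace.** -/
lemma weyl_tr (h : DP j D j1 D1) (hE : ED j D j1 D1 μ ν e f g) (hA : ∃ c, App (Cr j D 1) c (1 / 4))
    {B : Fin 4 → H0 →L[ℂ] Y} {w0 w1 : ℕ → ℝ} (hw0 : ∀ k, ⟪j (e k), N0 B (j (e k))⟫ = w0 k)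
    (hw1 : ∀ k, ⟪j1 (f k), N1 B (j1 (f k))⟫ = -(w1 k)) (hε : 0 < ε) :
    (ε : ℂ) ^ 4 * RCTr_746.tr (NN B * (Gr (Cr j D 1) ε) ^ 4) =
      (((((ε ^ 2)⁻¹) ^ 2 * ∑' k, (((ε ^ 2)⁻¹ + μ k) ^ 4)⁻¹ * w0 k +
        ((ε ^ 2)⁻¹) ^ 2 * ∑' k, (((ε ^ 2)⁻¹ + ν k) ^ 4)⁻¹ * w1 k) / 2 : ℝ) : ℂ) := by
  obtain ⟨c, hc⟩ := nuc_G4 (base h.c0 hA) ε (NN B)
  have h1 := tr_diag hE.ep hE.fp (Gr_e h hE hε.ne') (Gr_f h hE hε.ne') hw0 hw1 hc
  have e1 : ((ε ^ 2)⁻¹) ^ 2 * ∑' k, (((ε ^ 2)⁻¹ + μ k) ^ 4)⁻¹ * w0 k =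
      ε ^ 4 * ∑' k, ((1 + ε ^ 2 * μ k)⁻¹) ^ 4 * w0 k := by
    rw [← tsum_mul_left, ← tsum_mul_left]
    refine tsum_congr fun k => ?_
    rw [← mul_assoc, ← mul_assoc, res_eq4 (hE.μ0 k) hε]
  have e2 : ((ε ^ 2)⁻¹) ^ 2 * ∑' k, (((ε ^ 2)⁻¹ + ν k) ^ 4)⁻¹ * w1 k =
      ε ^ 4 * ∑' k, ((1 + ε ^ 2 * ν k)⁻¹) ^ 4 * w1 k := by
    rw [← tsum_mul_left, ← tsum_mul_left]
    refine tsum_congr fun k => ?_
    rw [← mul_assoc, ← mul_assoc, res_eq4 (hE.ν0 k) hε]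
  rw [e1, e2, h1, ← mul_add]
  push_cast; ring

/-- **`Inf` for a Dirac pair.** -/
theorem inf (h : DP j D j1 D1) (hE : ED j D j1 D1 μ ν e f g) (hA : ∃ c, App (Cr j D 1) c (1 / 4))
    {B : Fin 4 → H0 →L[ℂ] Y} {Bu : Fin 4 → X →L[ℂ] X1} {Bv : Fin 4 → X1 →L[ℂ] X} {C : Fin 4 → ℝ}
    (hB : ∀ a, CM j D j1 D1 (B a) (Bu a) (Bv a) (C a))
    {w0 w1 : ℕ → ℝ} (hw0 : ∀ k, ⟪j (e k), N0 B (j (e k))⟫ = w0 k)
    (hw1 : ∀ k, ⟪j1 (f k), N1 B (j1 (f k))⟫ = -(w1 k)) {L0 L1 : ℝ}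
    (hL0 : Tendsto (fun l : ℝ => l ^ 2 * ∑' k, ((l + μ k) ^ 4)⁻¹ * w0 k) atTop (𝓝 L0))
    (hL1 : Tendsto (fun l : ℝ => l ^ 2 * ∑' k, ((l + ν k) ^ 4)⁻¹ * w1 k) atTop (𝓝 L1)) :
    Inf (gr H0 Y) (Cr j D 1) (fun a => I • od (B a)) (((L0 + L1) / 2 : ℝ) : ℂ) where
  com a := com h hE (hB a)
  weyl := by
    have h1 : Tendsto (fun ε : ℝ => (ε ^ 2)⁻¹) (𝓝[>] 0) atTop := by
      refine tendsto_inv_nhdsGT_zero.comp ?_
      rw [tendsto_nhdsWithin_iff]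
      refine ⟨?_, ?_⟩
      · have : Tendsto (fun ε : ℝ => ε ^ 2) (𝓝 0) (𝓝 (0 ^ 2)) := (continuous_pow 2).tendsto 0
        rw [zero_pow two_ne_zero] at this
        exact this.mono_left nhdsWithin_le_nhds
      · filter_upwards [self_mem_nhdsWithin] with ε hε
        have : 0 < ε := hε
        exact pow_pos this 2
    have h2 := ((hL0.comp h1).add (hL1.comp h1)).div_const 2
    have h3 := (Complex.continuous_ofReal.tendsto _).comp h2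
    refine h3.congr' ?_
    filter_upwards [self_mem_nhdsWithin] with ε hε
    exact (weyl_tr h hE hA hw0 hw1 hε).symm

end

end Crest.Agent.R235.Rm_820
end

-- ▼ part R235/Rm5_820
section

/-!
Row 235, block FAM/RC (helper820), RC-MAN part 5: approximation numbers of the embedding `j` from the
heat trace bound.
-/

set_option autoImplicit false
set_option linter.unusedSectionVars false
set_option maxSynthPendingDepth 3

open scoped InnerProductSpace ContDiff Topology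
open Complex Filter

namespace Crest.Agent.R235.Rm_820

open Crest.Agent.R235.Rc0_820 Crest.Agent.R235.RCTr_746
open Crest.Agent.R235.RCApp_746 (AppJ)

noncomputable section

local notation "⟪" x ", " y "⟫" => inner ℂ x y

lemma growth {μ : ℕ → ℝ} (hm : Monotone μ) (h0 : ∀ k, 0 ≤ μ k) {C : ℝ}
    (hs : ∀ t : ℝ, 0 < t → Summable fun k => Real.exp (-(t * μ k)))
    (hC : ∀ t ∈ Set.Ioc (0:ℝ) 1, ∑' k, Real.exp (-(t * μ k)) ≤ C / t ^ 2) :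
    ∃ c : ℝ, 0 ≤ c ∧ ∀ n : ℕ, (1 + μ n)⁻¹ ≤ c ^ 2 * ((n : ℝ) + 1) ^ (-(1 / 2) : ℝ) := by
  have hb : ∀ n : ℕ, ((n : ℝ) + 1) ≤ (Real.exp 1 * C) * (1 + μ n) ^ 2 := by
    intro n
    set t : ℝ := (1 + μ n)⁻¹ with ht
    have h1 : 0 < 1 + μ n := by linarith [h0 n]
    have ht0 : 0 < t := inv_pos.2 h1
    have ht1 : t ≤ 1 := by
      rw [ht]; exact inv_le_one_of_one_le₀ (by linarith [h0 n])
    have h2 : ((n : ℝ) + 1) * Real.exp (-1) ≤ ∑' k, Real.exp (-(t * μ k)) := by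
      have h3 := (hs t ht0).sum_le_tsum (Finset.range (n + 1)) fun k _ => (Real.exp_pos _).le
      refine le_trans ?_ h3
      have h4 : ∑ k ∈ Finset.range (n + 1), Real.exp (-1) ≤
          ∑ k ∈ Finset.range (n + 1), Real.exp (-(t * μ k)) := by
        refine Finset.sum_le_sum fun k hk => Real.exp_le_exp.2 (neg_le_neg ?_)
        have h5 : μ k ≤ μ n := hm (Nat.lt_succ_iff.1 (Finset.mem_range.1 hk))
        calc t * μ k ≤ t * (1 + μ n) := mul_le_mul_of_nonneg_left (by linarith) ht0.le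
          _ = 1 := by rw [ht, inv_mul_cancel₀ h1.ne']
      rw [Finset.sum_const, Finset.card_range, nsmul_eq_mul] at h4
      push_cast at h4
      exact h4
    have h3 := h2.trans (hC t ⟨ht0, ht1⟩)
    have h4 : C / t ^ 2 = C * (1 + μ n) ^ 2 := by rw [ht]; field_simp
    rw [h4] at h3
    have h5 : Real.exp 1 * Real.exp (-1) = 1 := by rw [← Real.exp_add]; simp
    calc (n : ℝ) + 1 = Real.exp 1 * (((n : ℝ) + 1) * Real.exp (-1)) := by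
          linear_combination (-((n : ℝ) + 1)) * h5
      _ ≤ Real.exp 1 * (C * (1 + μ n) ^ 2) := mul_le_mul_of_nonneg_left h3 (Real.exp_pos 1).le
      _ = _ := by ring
  have hC0 : 0 < Real.exp 1 * C := by
    have h1 := hb 0
    have h2 : 0 < (1 + μ 0) ^ 2 := pow_pos (by linarith [h0 0]) 2
    by_contra hcon
    push Not at hcon
    have h3 : (Real.exp 1 * C) * (1 + μ 0) ^ 2 ≤ 0 := mul_nonpos_of_nonpos_of_nonneg hcon h2.le
    push_cast at h1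
    linarith
  set A := Real.exp 1 * C with hA
  refine ⟨Real.sqrt (Real.sqrt A), Real.sqrt_nonneg _, fun n => ?_⟩
  have h1 : 0 < 1 + μ n := by linarith [h0 n]
  rw [Real.sq_sqrt (Real.sqrt_nonneg _), Real.rpow_neg (by positivity), ← Real.sqrt_eq_rpow,
    inv_eq_one_div, div_le_iff₀ h1]
  have h2 : Real.sqrt ((n : ℝ) + 1) ≤ Real.sqrt A * (1 + μ n) := by
    rw [← Real.sqrt_sq h1.le, ← Real.sqrt_mul hC0.le]
    exact Real.sqrt_le_sqrt (hb n)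
  have h3 : 0 < Real.sqrt ((n : ℝ) + 1) := Real.sqrt_pos.2 (by positivity)
  calc (1 : ℝ) = Real.sqrt ((n : ℝ) + 1) * (Real.sqrt ((n : ℝ) + 1))⁻¹ := by
        rw [mul_inv_cancel₀ h3.ne']
    _ ≤ (Real.sqrt A * (1 + μ n)) * (Real.sqrt ((n : ℝ) + 1))⁻¹ :=
        mul_le_mul_of_nonneg_right h2 (inv_pos.2 h3).le
    _ = _ := by ring

variable {X H0 Y : Type*} [NormedAddCommGroup X] [InnerProductSpace ℂ X] [CompleteSpace X]
  [NormedAddCommGroup H0] [InnerProductSpace ℂ H0] [CompleteSpace H0]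
  [NormedAddCommGroup Y] [InnerProductSpace ℂ Y] [CompleteSpace Y]
  {j : X →L[ℂ] H0} {D : X →L[ℂ] Y} {μ : ℕ → ℝ} {e : ℕ → X}

lemma re_symm (x y : H0) : (⟪x, y⟫).re = (⟪y, x⟫).re := by
  rw [← inner_conj_symm x y, Complex.conj_re]

lemma re_self (x : H0) : (⟪x, x⟫).re = ‖x‖ ^ 2 := by
  rw [inner_self_eq_norm_sq_to_K]
  exact (Complex.ofReal_pow ‖x‖ 2).symm ▸ Complex.ofReal_re _

/-- Bessel for `D`. -/
lemma bessel (eo : ∀ k l, (⟪j (e k), j (e l)⟫).re = if k = l then 1 else 0)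
    (eE : ∀ k v, ⟪D v, D (e k)⟫ = μ k * ⟪j v, j (e k)⟫) (u : X) (s : Finset ℕ) :
    ∑ k ∈ s, μ k * (⟪j (e k), j u⟫).re ^ 2 ≤ ‖D u‖ ^ 2 := by
  classical
  set c : ℕ → ℝ := fun k => (⟪j (e k), j u⟫).re with hc
  set w : X := ∑ k ∈ s, (c k : ℂ) • e k with hw
  have e1 : ∀ v : X, (⟪D v, D w⟫).re = ∑ k ∈ s, c k * (μ k * (⟪j v, j (e k)⟫).re) := by
    intro v
    rw [hw, map_sum, inner_sum, Complex.re_sum]
    refine Finset.sum_congr rfl fun k _ => ?_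
    rw [map_smul, inner_smul_right, eE, Complex.re_ofReal_mul, Complex.re_ofReal_mul]
  have e2 : (⟪D u, D w⟫).re = ∑ k ∈ s, μ k * c k ^ 2 := by
    rw [e1]
    refine Finset.sum_congr rfl fun k _ => ?_
    rw [re_symm (j u) (j (e k))]
    ring
  have e3 : ∀ k ∈ s, (⟪j w, j (e k)⟫).re = c k := by
    intro k hk
    rw [hw, map_sum, sum_inner, Complex.re_sum]
    have : ∀ l ∈ s, (⟪j ((c l : ℂ) • e l), j (e k)⟫).re = if l = k then c k else 0 := by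
      intro l _
      rw [map_smul, inner_smul_left, Complex.conj_ofReal, Complex.re_ofReal_mul, eo]
      split_ifs with h
      · rw [h, mul_one]
      · rw [mul_zero]
    rw [Finset.sum_congr rfl this, Finset.sum_ite_eq' s k, if_pos hk]
  have e4 : ‖D w‖ ^ 2 = ∑ k ∈ s, μ k * c k ^ 2 := by
    rw [← re_self, e1]
    refine Finset.sum_congr rfl fun k hk => ?_
    rw [e3 k hk]; ring
  have h1 : ‖D u - D w‖ ^ 2 = ‖D u‖ ^ 2 - 2 * (⟪D u, D w⟫).re + ‖D w‖ ^ 2 :=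
    norm_sub_sq (𝕜 := ℂ) _ _
  have h2 : 0 ≤ ‖D u - D w‖ ^ 2 := sq_nonneg _
  rw [h1, e2, e4] at h2
  linarith

/-- **approximation numbers of the embedding**. -/
theorem appJ (eo : ∀ k l, (⟪j (e k), j (e l)⟫).re = if k = l then 1 else 0)
    (ep : Pars fun k => j (e k)) (eE : ∀ k v, ⟪D v, D (e k)⟫ = μ k * ⟪j v, j (e k)⟫)
    (hm : Monotone μ) (h0 : ∀ k, 0 ≤ μ k) {C : ℝ}
    (hs : ∀ t : ℝ, 0 < t → Summable fun k => Real.exp (-(t * μ k)))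
    (hC : ∀ t ∈ Set.Ioc (0:ℝ) 1, ∑' k, Real.exp (-(t * μ k)) ≤ C / t ^ 2) : AppJ j := by
  classical
  obtain ⟨c, hc0, hc⟩ := growth hm h0 hs hC
  set K : ℝ := ‖j‖ + ‖D‖ with hK
  have hK0 : 0 ≤ K := by positivity
  refine ⟨c * K, fun n => ?_⟩
  set S : Submodule ℂ H0 := Submodule.span ℂ ((Finset.range n).image (fun k => j (e k)) : Set H0)
    with hS
  have hfin : FiniteDimensional ℂ S := by rw [hS]; exact FiniteDimensional.span_finset ℂ _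
  have hrk : Module.finrank ℂ S ≤ n := by
    refine (finrank_span_finset_le_card _).trans (Finset.card_image_le.trans ?_)
    rw [Finset.card_range]
  have hle : LinearMap.range ((S.starProjection ∘L j : X →L[ℂ] H0) : X →ₗ[ℂ] H0) ≤ S := by
    rintro _ ⟨x, rfl⟩
    exact Submodule.starProjection_apply_mem _ _
  refine ⟨S.starProjection ∘L j, Submodule.finiteDimensional_of_le hle,
    (Submodule.finrank_mono hle).trans hrk, ?_⟩
  refine ContinuousLinearMap.opNorm_le_bound _ (by positivity) fun u => ?_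
  set z := (j - S.starProjection ∘L j) u with hz
  have hz' : z = j u - S.starProjection (j u) := rfl
  have hzS : z ∈ Sᗮ := by rw [hz']; exact Submodule.sub_starProjection_mem_orthogonal _
  have hzk : ∀ k < n, ⟪j (e k), z⟫ = 0 := fun k hk =>
    (Submodule.mem_orthogonal _ _).1 hzS _ (Submodule.subset_span (by
      simp only [Finset.coe_image, Set.mem_image, Finset.coe_range, Set.mem_Iio]
      exact ⟨k, hk, rfl⟩))
  have h1 : (⟪z, j u⟫).re = ‖z‖ ^ 2 := by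
    have h2 : ⟪z, S.starProjection (j u)⟫ = 0 :=
      (Submodule.mem_orthogonal' _ _).1 hzS _ (Submodule.starProjection_apply_mem _ _)
    have h3 : ⟪z, j u⟫ = ⟪z, z⟫ + ⟪z, S.starProjection (j u)⟫ := by
      rw [← inner_add_right, hz', sub_add_cancel]
    rw [h3, h2, add_zero, re_self]
  have h2 := ep z (j u)
  rw [h1] at h2
  have h3 := ep z z
  rw [re_self] at h3
  have h4 := ep (j u) (j u)
  rw [re_self] at h4
  have h5 : Summable fun k => μ k * (⟪j (e k), j u⟫).re ^ 2 :=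
    summable_of_sum_le (fun k => mul_nonneg (h0 k) (sq_nonneg _)) (bessel eo eE u)
  have h6 : ∑' k, μ k * (⟪j (e k), j u⟫).re ^ 2 ≤ ‖D u‖ ^ 2 :=
    Real.tsum_le_of_sum_le (fun k => mul_nonneg (h0 k) (sq_nonneg _)) (bessel eo eE u)
  have h7 := ((h4.add h5.hasSum).mul_left (1 + μ n)⁻¹).mul_left (1 / 2)
  have h8 := (h3.mul_left (1 / 2)).add h7
  have hn0 : 0 < 1 + μ n := by linarith [h0 n]
  have h9 := hasSum_le (fun k => ?_) h2 h8
  · have h10 : ‖z‖ ^ 2 ≤ (1 + μ n)⁻¹ * (‖j u‖ ^ 2 + ‖D u‖ ^ 2) := by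
      have : (1 + μ n)⁻¹ * (‖j u‖ ^ 2 + ∑' k, μ k * (⟪j (e k), j u⟫).re ^ 2) ≤
          (1 + μ n)⁻¹ * (‖j u‖ ^ 2 + ‖D u‖ ^ 2) :=
        mul_le_mul_of_nonneg_left (by linarith) (inv_pos.2 hn0).le
      linarith
    have h11 : ‖j u‖ ^ 2 + ‖D u‖ ^ 2 ≤ (K * ‖u‖) ^ 2 := by
      have a1 := pow_le_pow_left₀ (norm_nonneg _) (j.le_opNorm u) 2
      have a2 := pow_le_pow_left₀ (norm_nonneg _) (D.le_opNorm u) 2
      have a3 : 0 ≤ ‖j‖ * ‖D‖ * ‖u‖ ^ 2 := by positivity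
      calc ‖j u‖ ^ 2 + ‖D u‖ ^ 2 ≤ (‖j‖ * ‖u‖) ^ 2 + (‖D‖ * ‖u‖) ^ 2 := add_le_add a1 a2
        _ ≤ (‖j‖ * ‖u‖) ^ 2 + (‖D‖ * ‖u‖) ^ 2 + 2 * (‖j‖ * ‖D‖ * ‖u‖ ^ 2) := by linarith
        _ = _ := by rw [hK]; ring
    have h12 : ‖z‖ ^ 2 ≤ (c * K * ((n : ℝ) + 1) ^ (-(1 / 4) : ℝ) * ‖u‖) ^ 2 := by
      have h13 : (((n : ℝ) + 1) ^ (-(1 / 4) : ℝ)) ^ 2 = ((n : ℝ) + 1) ^ (-(1 / 2) : ℝ) := by
        rw [← Real.rpow_natCast, ← Real.rpow_mul (by positivity)]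
        norm_num
      calc ‖z‖ ^ 2 ≤ (1 + μ n)⁻¹ * (‖j u‖ ^ 2 + ‖D u‖ ^ 2) := h10
        _ ≤ (c ^ 2 * ((n : ℝ) + 1) ^ (-(1 / 2) : ℝ)) * (K * ‖u‖) ^ 2 :=
            mul_le_mul (hc n) h11 (by positivity) (by positivity)
        _ = _ := by rw [← h13]; ring
    exact (pow_le_pow_iff_left₀ (norm_nonneg _) (by positivity) two_ne_zero).1 h12
  · show (⟪j (e k), z⟫).re * (⟪j (e k), j u⟫).re ≤ 1 / 2 * ((⟪j (e k), z⟫).re * (⟪j (e k), z⟫).re) +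
      1 / 2 * ((1 + μ n)⁻¹ * ((⟪j (e k), j u⟫).re * (⟪j (e k), j u⟫).re +
        μ k * (⟪j (e k), j u⟫).re ^ 2))
    set a := (⟪j (e k), z⟫).re with ha
    set d := (⟪j (e k), j u⟫).re with hd
    by_cases hk : k < n
    · have : a = 0 := by rw [ha, hzk k hk]; rfl
      rw [this]
      have h10 : 0 ≤ (1 + μ n)⁻¹ * (d * d + μ k * d ^ 2) :=
        mul_nonneg (inv_pos.2 hn0).le (add_nonneg (mul_self_nonneg d)
          (mul_nonneg (h0 k) (sq_nonneg d)))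
      linarith
    · push Not at hk
      have h10 : d ^ 2 ≤ (1 + μ n)⁻¹ * (d * d + μ k * d ^ 2) := by
        have h11 : (1 + μ n) * d ^ 2 ≤ d * d + μ k * d ^ 2 := by
          nlinarith [mul_le_mul_of_nonneg_right (hm hk) (sq_nonneg d)]
        calc d ^ 2 = (1 + μ n)⁻¹ * ((1 + μ n) * d ^ 2) := by
              rw [← mul_assoc, inv_mul_cancel₀ hn0.ne', one_mul]
          _ ≤ _ := mul_le_mul_of_nonneg_left h11 (inv_pos.2 hn0).le
      nlinarith [sq_nonneg (a - d)]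

end

end Crest.Agent.R235.Rm_820
end

-- ▼ part R235/RcX4_435
section

/-!
Row 235 (S0364), block FAM/RC, leaf R4 of RCMAN (helper435), part a: the structure `JF` of `Rc2_820` for the
Dirac family over the Jacobian torus.

* `RJ Φ`     : for `Φ : RFam b V W V0`: `B a : V0 →L W` commuting with the complex structures,
               `D h = D 0 + ∑ h_a B_a jj`, coercivity;
* `R.jf`     : `JF Φ.toP Φ.H`; `eY_cB`;
* `rj H C hj : RJ (RF H C hj)`, `jf H C hj : JF (RF H C hj).toP (RF H C hj).H`.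
-/

set_option autoImplicit false
set_option maxSynthPendingDepth 3
set_option linter.unusedSectionVars false

open scoped ContDiff InnerProductSpace Topology Manifold Bundle
open Module MeasureTheory Bundle

universe v

namespace Crest.Agent.R235.RcX_435

open Crest.Agent.R235.Cx_172 Crest.Agent.R235.FamR_151 Crest.Agent.R235.SWPf_435
open Crest.Agent.R235.Rc0_820 Crest.Agent.R235.Rc1_820

noncomputable section

section gen

variable {b : ℕ} {V W V0 : Type*} [NormedAddCommGroup V] [InnerProductSpace ℝ V]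
    [CompleteSpace V] [NormedAddCommGroup W] [InnerProductSpace ℝ W] [CompleteSpace W]
    [NormedAddCommGroup V0] [InnerProductSpace ℝ V0] [CompleteSpace V0]

/-- the derivatives of the family. -/
structure RJ (Φ : RFam b V W V0) where
  B : Fin b → V0 →L[ℝ] W
  B_J : ∀ a x, B a (Φ.J0 x) = Φ.J' (B a x)
  aff : ∀ h x, Φ.D h x = Φ.D 0 x + ∑ a, h a • B a (Φ.jj x)
  coer : ∃ c : ℝ, ∀ x, ‖x‖ ^ 2 ≤ c * (‖Φ.jj x‖ ^ 2 + ‖Φ.D 0 x‖ ^ 2)

variable {Φ : RFam b V W V0} (R : RJ Φ)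

/-- the operator `B a`. -/
def RJ.cB (a : Fin b) : Φ.H →L[ℂ] Φ.Y :=
  (liftL (R.B a) (R.B_J a) : CX V0 Φ.J0 Φ.hJ0 →L[ℂ] CX W Φ.J' Φ.hJ')

theorem RJ.eY_cB (a : Fin b) (x : Φ.H) : Φ.eY (R.cB a x) = R.B a (Φ.eH x) := rfl

include R in
theorem RJ.coer' : Coer Φ.incl (Φ.toP.D 0) := by
  obtain ⟨c, hc⟩ := R.coer
  refine ⟨(1 + ‖Φ.J‖) ^ 2 * |c|, fun x => ?_⟩
  have h1 : ‖x‖ ≤ (1 + ‖Φ.J‖) * ‖Φ.eX x‖ := norm_le_e (hJ := Φ.hJ) x
  have h2 := hc (Φ.eX x)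
  have h3 : ‖Φ.incl x‖ = ‖Φ.jj (Φ.eX x)‖ := by rw [← Φ.norm_eH, Φ.eH_incl]
  have h4 : ‖Φ.toP.D 0 x‖ = ‖Φ.D 0 (Φ.eX x)‖ := by rw [← Φ.norm_eY, Φ.eY_D]
  rw [h3, h4, mul_assoc]
  have h5 : ‖x‖ ^ 2 ≤ ((1 + ‖Φ.J‖) * ‖Φ.eX x‖) ^ 2 := pow_le_pow_left₀ (norm_nonneg _) h1 2
  refine h5.trans ?_
  rw [mul_pow]
  refine mul_le_mul_of_nonneg_left (h2.trans ?_) (sq_nonneg _)
  exact mul_le_mul_of_nonneg_right (le_abs_self c) (by positivity)

theorem eY_smul (r : ℝ) (y : Φ.Y) : Φ.eY ((r : ℂ) • y) = r • Φ.eY y := by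
  rw [← map_smul]
  rfl

theorem v0_UH (k : Fin b → ℤ) : star (Φ.UH k) * Φ.UH k = 1 := by
  rw [ContinuousLinearMap.star_eq_adjoint]
  exact (ContinuousLinearMap.norm_map_iff_adjoint_comp_self (Φ.UH k)).1 (Φ.norm_UH k)

theorem v0_UH' (k : Fin b → ℤ) : Φ.UH k * star (Φ.UH k) = 1 := by
  have h1 : Φ.UH k * Φ.UH (-k) = 1 := by
    have := Φ.UH_add k (-k)
    rw [add_neg_cancel, Φ.UH_zero] at this
    exact this.symm
  have h2 : star (Φ.UH k) = Φ.UH (-k) := by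
    calc star (Φ.UH k) = star (Φ.UH k) * (Φ.UH k * Φ.UH (-k)) := by rw [h1, mul_one]
      _ = Φ.UH (-k) := by rw [← mul_assoc, v0_UH, one_mul]
  rw [h2, h1]

/-- **the data of `Rc2_820`**. -/
def RJ.jf : JF Φ.toP Φ.H where
  j := Φ.incl
  B := R.cB
  V0 := Φ.UH
  coer := R.coer'
  aff h := by
    refine ContinuousLinearMap.ext fun x => Φ.eY.injective ?_
    have h1 : (Φ.toP.D 0 + (∑ a, ((h a : ℝ) : ℂ) • R.cB a) ∘L Φ.incl) x =
        Φ.toP.D 0 x + ∑ a, ((h a : ℝ) : ℂ) • R.cB a (Φ.incl x) := by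
      simp [sum_apply]
    rw [h1, map_add, map_sum, Φ.eY_D, R.aff, Φ.eY_D]
    congr 1
    refine Finset.sum_congr rfl fun a _ => ?_
    rw [eY_smul, R.eY_cB, Φ.eH_incl]
  v0 := v0_UH
  v0' := v0_UH'
  j_U := Φ.incl_U

end gen

section fam

open Crest.Agent.R249.Tv57 Crest.Agent.R247.Ms322 Crest.Agent.R247.Dir593
open Crest.Agent.R235.SWSym_451 Crest.Agent.R235.Fs4_546 Crest.Agent.R235.Fred_649
open Crest.Agent.R235.SWDefs_53

variable {M : Type v} [MetricSpace M] [CompactSpace M] [ConnectedSpace M]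
  [ChartedSpace (EuclideanSpace ℝ (Fin 4)) M] [IsManifold (𝓡 4) ∞ M]
  [RiemannianBundle (fun p : M => TangentSpace (𝓡 4) p)]
  [IsContMDiffRiemannianBundle (𝓡 4) ∞ (EuclideanSpace ℝ (Fin 4))
    (fun p : M => TangentSpace (𝓡 4) p)]
  [IsRiemannianManifold (𝓡 4) M] [MeasurableSpace M] [BorelSpace M]
  [SecondCountableTopology M] [Nonempty M] [IsFiniteMeasureOnCompacts (μHE[4] : Measure M)]
  {κ0 κ1 κT : Type} [Fintype κ0] [Fintype κ1] [Fintype κT]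
  {S : SWS M κ0 κ1 κT} {cc : κ1 → κ0 → M → EuclideanSpace ℝ (Fin 4)} {J1 : κ1 → κ1 → M → ℝ}
  {b : ℕ} {j : JD M κT b}

/-- **the derivatives of the Dirac family**: multiplication by `c(2π al_a) i`. -/
def rj (H : Sym S cc) (C : CJ1 S cc J1) (hj : j.OK S) : RJ (RF H C hj) where
  B a := CH H (sm_ei hj a)
  B_J a := CH_JH H C (sm_ei hj a)
  aff h x := by
    show DR H hj h x = DR H hj 0 x + ∑ a, h a • CH H (sm_ei hj a) (S.D0.toAD.jj x)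
    rw [DR_zero]
    exact DR_apply H hj h x
  coer := by
    obtain ⟨c, hc, h⟩ := garding (P := S.P) (dns4 S.D0)
    refine ⟨c, fun x => ?_⟩
    have h1 : (RF H C hj).D 0 = Ah S.P := DR_zero H hj
    rw [h1]
    refine (h x).trans (le_of_eq ?_)
    rw [add_comm]
    rfl

/-- **R4a** -/
def jf (H : Sym S cc) (C : CJ1 S cc J1) (hj : j.OK S) : JF (RF H C hj).toP (RF H C hj).H :=
  (rj H C hj).jf

end fam

end

end Crest.Agent.R235.RcX_435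
end

-- ▼ part R235/Rn1_820
section

/-!
Row 235, block FAM/RC (helper820), RC-MAN part 6: THE ABSTRACT DIRAC PAIR FROM REAL DATA.

`Φ : RFam 4 V W V0` (435), `R : RJ Φ` (435).
* `RP Φ V1`   : the adjoint operator `DB : V1 → V0` with `jj1 : V1 → W`; `P.dp : DP ..`;
* `RE P ..`   : real eigenbases; `RE.ed : ED ..`;
* `RC2 P R ..`: real commutator data; `RC2.cm : CM ..`;
* `wt0`, `wt1`: the diagonal of `N0`, `N1`.
-/

set_option autoImplicit false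
set_option linter.unusedSectionVars false
set_option maxSynthPendingDepth 3

open scoped InnerProductSpace ContDiff Topology
open Complex Filter

namespace Crest.Agent.R235.Rn_820

open Crest.Agent.R235.Rc0_820 Crest.Agent.R235.RCTr_746 Crest.Agent.R235.Cx_172
open Crest.Agent.R235.SWPf_435 Crest.Agent.R235.RcX_435 Crest.Agent.R235.Rm_820
open Crest.Agent.R235.FamDefs_307 (pdθ sg ch4)
open Crest.Agent.R235.RCDefs_746 (Base Fam KerF Inf Gr)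

noncomputable section

variable {V W V0 V1 : Type*} [NormedAddCommGroup V] [InnerProductSpace ℝ V] [CompleteSpace V]
  [NormedAddCommGroup W] [InnerProductSpace ℝ W] [CompleteSpace W]
  [NormedAddCommGroup V0] [InnerProductSpace ℝ V0] [CompleteSpace V0]
  [NormedAddCommGroup V1] [InnerProductSpace ℝ V1] [CompleteSpace V1]
  (Φ : RFam 4 V W V0)

lemma re_H (x y : Φ.H) : (⟪x, y⟫_ℂ).re = ⟪Φ.eH x, Φ.eH y⟫_ℝ :=
  inner_re_isom (hJ := Φ.hJ0) Φ.hI0 x y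

lemma im_H (x y : Φ.H) : (⟪x, y⟫_ℂ).im = ⟪Φ.J0 (Φ.eH x), Φ.eH y⟫_ℝ :=
  inner_im_isom (hJ := Φ.hJ0) Φ.hI0 x y

lemma re_Y (x y : Φ.Y) : (⟪x, y⟫_ℂ).re = ⟪Φ.eY x, Φ.eY y⟫_ℝ :=
  inner_re_isom (hJ := Φ.hJ') Φ.hI x y

lemma im_Y (x y : Φ.Y) : (⟪x, y⟫_ℂ).im = ⟪Φ.J' (Φ.eY x), Φ.eY y⟫_ℝ :=
  inner_im_isom (hJ := Φ.hJ') Φ.hI x y


/-- the adjoint operator. -/
structure RP (V1 : Type*) [NormedAddCommGroup V1] [InnerProductSpace ℝ V1] [CompleteSpace V1] where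
  J1 : V1 →L[ℝ] V1
  hJ1 : ∀ x, J1 (J1 x) = -x
  jj1 : V1 →L[ℝ] W
  DB : V1 →L[ℝ] V0
  jj1_J : ∀ x, jj1 (J1 x) = Φ.J' (jj1 x)
  DB_J : ∀ x, DB (J1 x) = Φ.J0 (DB x)
  coer1 : ∃ c : ℝ, ∀ x, ‖x‖ ^ 2 ≤ c * (‖jj1 x‖ ^ 2 + ‖DB x‖ ^ 2)
  adj : ∀ v w, ⟪Φ.D 0 v, jj1 w⟫_ℝ = ⟪Φ.jj v, DB w⟫_ℝ

variable {Φ}

namespace RP

variable (P : RP Φ V1)

/-- the complex domain of the adjoint. -/
def X1 : Type _ := CX V1 P.J1 P.hJ1

instance : NormedAddCommGroup P.X1 := inferInstanceAs (NormedAddCommGroup (CX V1 P.J1 P.hJ1))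
instance : InnerProductSpace ℂ P.X1 := inferInstanceAs (InnerProductSpace ℂ (CX V1 P.J1 P.hJ1))
instance : CompleteSpace P.X1 := inferInstanceAs (CompleteSpace (CX V1 P.J1 P.hJ1))

/-- the real homeomorphism. -/
def e1 : P.X1 ≃L[ℝ] V1 := e V1 P.J1 P.hJ1


lemma norm_e1_le (x : P.X1) : ‖P.e1 x‖ ≤ 2 * ‖x‖ := norm_e_le (hJ := P.hJ1) x
lemma norm_le_e1 (x : P.X1) : ‖x‖ ≤ (1 + ‖P.J1‖) * ‖P.e1 x‖ := norm_le_e (hJ := P.hJ1) x

/-- the embedding. -/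
def j1 : P.X1 →L[ℂ] Φ.Y := (liftL P.jj1 P.jj1_J : CX V1 P.J1 P.hJ1 →L[ℂ] CX W Φ.J' Φ.hJ')

/-- the adjoint operator. -/
def D1 : P.X1 →L[ℂ] Φ.H := (liftL P.DB P.DB_J : CX V1 P.J1 P.hJ1 →L[ℂ] CX V0 Φ.J0 Φ.hJ0)

theorem eY_j1 (x : P.X1) : Φ.eY (P.j1 x) = P.jj1 (P.e1 x) := rfl
theorem eH_D1 (x : P.X1) : Φ.eH (P.D1 x) = P.DB (P.e1 x) := rfl

lemma norm_j1 (x : P.X1) : ‖P.j1 x‖ = ‖P.jj1 (P.e1 x)‖ := by rw [← Φ.norm_eY, P.eY_j1]
lemma norm_D1 (x : P.X1) : ‖P.D1 x‖ = ‖P.DB (P.e1 x)‖ := by rw [← Φ.norm_eH, P.eH_D1]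

theorem coer1' : Coer P.j1 P.D1 := by
  obtain ⟨c, hc⟩ := P.coer1
  refine ⟨(1 + ‖P.J1‖) ^ 2 * |c|, fun x => ?_⟩
  have h1 := P.norm_le_e1 x
  have h2 := hc (P.e1 x)
  rw [P.norm_j1, P.norm_D1, mul_assoc]
  have h5 : ‖x‖ ^ 2 ≤ ((1 + ‖P.J1‖) * ‖P.e1 x‖) ^ 2 := pow_le_pow_left₀ (norm_nonneg _) h1 2
  refine h5.trans ?_
  rw [mul_pow]
  refine mul_le_mul_of_nonneg_left (h2.trans ?_) (sq_nonneg _)
  exact mul_le_mul_of_nonneg_right (le_abs_self c) (by positivity)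

/-- **the Dirac pair.** -/
theorem dp (R : RJ Φ) : DP Φ.incl (Φ.toP.D 0) P.j1 P.D1 where
  c0 := R.coer'
  c1 := P.coer1'
  adj v w := by
    refine Complex.ext ?_ ?_
    · rw [re_Y, re_H]
      exact P.adj (Φ.eX v) (P.e1 w)
    · rw [im_Y, im_H, Φ.eY_D, Φ.eH_incl, ← Φ.D_J, ← Φ.jj_J]
      exact P.adj (Φ.J (Φ.eX v)) (P.e1 w)

end RP

/-- real eigenbases. -/
structure RE (P : RP Φ V1) (μ ν : ℕ → ℝ) (e : ℕ → V) (f : ℕ → V1) (g : ℕ → V) : Prop where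
  μ0 : ∀ k, 0 ≤ μ k
  ν0 : ∀ k, 0 ≤ ν k
  eo : ∀ k l, ⟪Φ.jj (e k), Φ.jj (e l)⟫_ℝ = if k = l then 1 else 0
  fo : ∀ k l, ⟪P.jj1 (f k), P.jj1 (f l)⟫_ℝ = if k = l then 1 else 0
  ep : ∀ x : V0, HasSum (fun k => ⟪Φ.jj (e k), x⟫_ℝ ^ 2) (‖x‖ ^ 2)
  fp : ∀ x : W, HasSum (fun k => ⟪P.jj1 (f k), x⟫_ℝ ^ 2) (‖x‖ ^ 2)
  eE : ∀ k v, ⟪Φ.D 0 v, Φ.D 0 (e k)⟫_ℝ = μ k * ⟪Φ.jj v, Φ.jj (e k)⟫_ℝ
  fE : ∀ k w, ⟪P.DB w, P.DB (f k)⟫_ℝ = ν k * ⟪P.jj1 w, P.jj1 (f k)⟫_ℝ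
  jg : ∀ k, Φ.jj (g k) = P.DB (f k)
  Dg : ∀ k, Φ.D 0 (g k) = ν k • P.jj1 (f k)

/-- polarisation of Parseval. -/
lemma polar {E : Type*} [NormedAddCommGroup E] [InnerProductSpace ℝ E] {b : ℕ → E}
    (h : ∀ x : E, HasSum (fun k => ⟪b k, x⟫_ℝ ^ 2) (‖x‖ ^ 2)) (x y : E) :
    HasSum (fun k => ⟪b k, x⟫_ℝ * ⟪b k, y⟫_ℝ) ⟪x, y⟫_ℝ := by
  have h1 := ((h (x + y)).sub (h (x - y))).mul_left (1 / 4)
  have e1 : (fun k => 1 / 4 * (⟪b k, x + y⟫_ℝ ^ 2 - ⟪b k, x - y⟫_ℝ ^ 2)) =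
      fun k => ⟪b k, x⟫_ℝ * ⟪b k, y⟫_ℝ := by
    funext k
    rw [inner_add_right, inner_sub_right]
    ring
  have e2 : 1 / 4 * (‖x + y‖ ^ 2 - ‖x - y‖ ^ 2) = ⟪x, y⟫_ℝ := by
    rw [norm_add_sq_real, norm_sub_sq_real]
    ring
  rwa [e1, e2] at h1

variable {P : RP Φ V1} {μ ν : ℕ → ℝ} {e : ℕ → V} {f : ℕ → V1} {g : ℕ → V}

/-- the complex eigen-data. -/
theorem RE.ed (E : RE P μ ν e f g) : ED Φ.incl (Φ.toP.D 0) P.j1 P.D1 μ ν (fun k => Φ.eX.symm (e k))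
    (fun k => P.e1.symm (f k)) (fun k => Φ.eX.symm (g k)) where
  μ0 := E.μ0
  ν0 := E.ν0
  eo k l := by
    rw [re_H, Φ.eH_incl, Φ.eH_incl, Φ.eX.apply_symm_apply, Φ.eX.apply_symm_apply]
    exact E.eo k l
  fo k l := by
    rw [re_Y, P.eY_j1, P.eY_j1, P.e1.apply_symm_apply, P.e1.apply_symm_apply]
    exact E.fo k l
  ep x y := by
    have h := polar E.ep (Φ.eH x) (Φ.eH y)
    rw [re_H]
    simp only [re_H, Φ.eH_incl, Φ.eX.apply_symm_apply]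
    exact h
  fp x y := by
    have h := polar E.fp (Φ.eY x) (Φ.eY y)
    rw [re_Y]
    simp only [re_Y, P.eY_j1, P.e1.apply_symm_apply]
    exact h
  eE k v := by
    refine Complex.ext ?_ ?_
    · rw [Complex.re_ofReal_mul, re_Y, re_H, Φ.eY_D, Φ.eY_D, Φ.eH_incl, Φ.eH_incl,
        Φ.eX.apply_symm_apply]
      exact E.eE k (Φ.eX v)
    · rw [Complex.im_ofReal_mul, im_Y, im_H, Φ.eY_D, Φ.eY_D, Φ.eH_incl, Φ.eH_incl,
        Φ.eX.apply_symm_apply, ← Φ.D_J, ← Φ.jj_J]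
      exact E.eE k (Φ.J (Φ.eX v))
  fE k w := by
    refine Complex.ext ?_ ?_
    · rw [Complex.re_ofReal_mul, re_H, re_Y, P.eH_D1, P.eH_D1, P.eY_j1, P.eY_j1,
        P.e1.apply_symm_apply]
      exact E.fE k (P.e1 w)
    · rw [Complex.im_ofReal_mul, im_H, im_Y, P.eH_D1, P.eH_D1, P.eY_j1, P.eY_j1,
        P.e1.apply_symm_apply, ← P.DB_J, ← P.jj1_J]
      exact E.fE k (P.J1 (P.e1 w))
  jg k := by
    refine Φ.eH.injective ?_
    rw [Φ.eH_incl, P.eH_D1, Φ.eX.apply_symm_apply, P.e1.apply_symm_apply, E.jg]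
  Dg k := by
    refine Φ.eY.injective ?_
    rw [Φ.eY_D, eY_smul, P.eY_j1, Φ.eX.apply_symm_apply, P.e1.apply_symm_apply, E.Dg]

end

end Crest.Agent.R235.Rn_820
end

-- ▼ part R235/Rn2_820

/-!
Row 235, block FAM/RC (helper820), RC-MAN part 7: commutator data and weights from real data; the
abstract form of `RCMAN`.
-/

set_option autoImplicit false
set_option linter.unusedSectionVars false
set_option maxSynthPendingDepth 3

open scoped InnerProductSpace ContDiff Topology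
open Complex Filter

namespace Crest.Agent.R235.Rn_820

open Crest.Agent.R235.Rc0_820 Crest.Agent.R235.RCTr_746 Crest.Agent.R235.Cx_172
open Crest.Agent.R235.SWPf_435 Crest.Agent.R235.RcX_435 Crest.Agent.R235.Rm_820
open Crest.Agent.R235.FamDefs_307 (pdθ sg ch4)
open Crest.Agent.R235.RCDefs_746 (Base Fam KerF Inf Gr RC)

noncomputable section

section gen

variable {V W V0 V1 : Type*} [NormedAddCommGroup V] [InnerProductSpace ℝ V] [CompleteSpace V]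
  [NormedAddCommGroup W] [InnerProductSpace ℝ W] [CompleteSpace W]
  [NormedAddCommGroup V0] [InnerProductSpace ℝ V0] [CompleteSpace V0]
  [NormedAddCommGroup V1] [InnerProductSpace ℝ V1] [CompleteSpace V1]
  {Φ : RFam 4 V W V0}

/-- real commutator data for `B a`. -/
structure RQ (P : RP Φ V1) (R : RJ Φ) (a : Fin 4) (Bt : W →L[ℝ] V0) (bu : V →L[ℝ] V1)
    (bv : V1 →L[ℝ] V) (K : ℝ) : Prop where
  adj : ∀ x y, ⟪R.B a x, y⟫_ℝ = ⟪x, Bt y⟫_ℝ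
  buJ : ∀ v, bu (Φ.J v) = P.J1 (bu v)
  bvJ : ∀ w, bv (P.J1 w) = Φ.J (bv w)
  jbu : ∀ v, P.jj1 (bu v) = R.B a (Φ.jj v)
  jbv : ∀ w, Φ.jj (bv w) = Bt (P.jj1 w)
  K0 : 0 ≤ K
  q0 : ∀ v w, |⟪P.DB (bu v), P.DB w⟫_ℝ - ⟪Φ.D 0 v, Φ.D 0 (bv w)⟫_ℝ| ≤ K * (‖v‖ * ‖P.jj1 w‖)
  q1 : ∀ v w, |⟪P.DB (bu v), P.DB w⟫_ℝ - ⟪Φ.D 0 v, Φ.D 0 (bv w)⟫_ℝ| ≤ K * (‖Φ.jj v‖ * ‖w‖)

/-- the complex adjoint of `B a`. -/
lemma eH_adj {R : RJ Φ} {a : Fin 4} {Bt : W →L[ℝ] V0} (h : ∀ x y, ⟪R.B a x, y⟫_ℝ = ⟪x, Bt y⟫_ℝ)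
    (y : Φ.Y) : Φ.eH (ContinuousLinearMap.adjoint (R.cB a) y) = Bt (Φ.eY y) := by
  refine ext_inner_left ℝ fun v => ?_
  obtain ⟨x, rfl⟩ := Φ.eH.surjective v
  rw [← re_H, ContinuousLinearMap.adjoint_inner_right, re_Y, R.eY_cB, h]

lemma norm_le_of_re {E : Type*} [NormedAddCommGroup E] [InnerProductSpace ℂ E] {Q : E → ℂ}
    (hQ : ∀ (c : ℂ) w, Q (c • w) = c * Q w) {F : E → ℝ} (hF : ∀ (c : ℂ) w, ‖c‖ = 1 → F (c • w) = F w)
    (h : ∀ w, |(Q w).re| ≤ F w) (w : E) : ‖Q w‖ ≤ F w := by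
  by_cases h0 : Q w = 0
  · rw [h0, norm_zero]
    exact (abs_nonneg _).trans (h w)
  · set c : ℂ := (starRingEnd ℂ) (Q w) / ‖Q w‖ with hc
    have hn : (‖Q w‖ : ℂ) ≠ 0 := by exact_mod_cast (norm_pos_iff.2 h0).ne'
    have h1 : ‖c‖ = 1 := by
      rw [hc, norm_div, RCLike.norm_conj, Complex.norm_real, norm_norm,
        div_self (norm_pos_iff.2 h0).ne']
    have h2 : c * Q w = (‖Q w‖ : ℂ) := by
      rw [hc, div_mul_eq_mul_div, mul_comm, Complex.mul_conj, Complex.normSq_eq_norm_sq]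
      push_cast
      rw [pow_two, mul_div_assoc, div_self hn, mul_one]
    have h3 := h (c • w)
    rw [hQ, h2, Complex.ofReal_re, hF c w h1, abs_of_nonneg (norm_nonneg _)] at h3
    exact h3

variable {P : RP Φ V1} {R : RJ Φ} {a : Fin 4} {Bt : W →L[ℝ] V0} {bu : V →L[ℝ] V1}
  {bv : V1 →L[ℝ] V} {K : ℝ}

/-- the complex multiplication operators. -/
def RQ.cu (h : RQ P R a Bt bu bv K) : Φ.X →L[ℂ] P.X1 :=
  (liftL bu h.buJ : CX V Φ.J Φ.hJ →L[ℂ] CX V1 P.J1 P.hJ1)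

/-- the complex multiplication operators. -/
def RQ.cv (h : RQ P R a Bt bu bv K) : P.X1 →L[ℂ] Φ.X :=
  (liftL bv h.bvJ : CX V1 P.J1 P.hJ1 →L[ℂ] CX V Φ.J Φ.hJ)

lemma RQ.e1_cu (h : RQ P R a Bt bu bv K) (v : Φ.X) : P.e1 (h.cu v) = bu (Φ.eX v) := rfl
lemma RQ.eX_cv (h : RQ P R a Bt bu bv K) (w : P.X1) : Φ.eX (h.cv w) = bv (P.e1 w) := rfl

lemma norm_eX_le (x : Φ.X) : ‖Φ.eX x‖ ≤ 2 * ‖x‖ := norm_e_le (hJ := Φ.hJ) x

lemma norm_incl (x : Φ.X) : ‖Φ.incl x‖ = ‖Φ.jj (Φ.eX x)‖ := by rw [← Φ.norm_eH, Φ.eH_incl]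

/-- the commutator data. -/
theorem RQ.cm (h : RQ P R a Bt bu bv K) :
    CM Φ.incl (Φ.toP.D 0) P.j1 P.D1 (R.cB a) h.cu h.cv (2 * K) where
  C0 := by have := h.K0; positivity
  jB v := by
    refine Φ.eY.injective ?_
    rw [P.eY_j1, h.e1_cu, R.eY_cB, Φ.eH_incl, h.jbu]
  jB' w := by
    refine Φ.eH.injective ?_
    rw [Φ.eH_incl, h.eX_cv, eH_adj h.adj, P.eY_j1, h.jbv]
  q0 v w := by
    have hK := h.K0
    refine norm_le_of_re (Q := fun w => ⟪P.D1 (h.cu v), P.D1 w⟫_ℂ -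
      ⟪Φ.toP.D 0 v, Φ.toP.D 0 (h.cv w)⟫_ℂ) (F := fun w => 2 * K * (‖v‖ * ‖P.j1 w‖)) ?_ ?_ ?_ w
    · intro c w
      show ⟪P.D1 (h.cu v), P.D1 (c • w)⟫_ℂ - ⟪Φ.toP.D 0 v, Φ.toP.D 0 (h.cv (c • w))⟫_ℂ = _
      rw [map_smul, map_smul, map_smul, inner_smul_right, inner_smul_right]
      ring
    · intro c w hc
      show 2 * K * (‖v‖ * ‖P.j1 (c • w)‖) = _
      rw [map_smul, norm_smul, hc, one_mul]
    · intro w
      show |(⟪P.D1 (h.cu v), P.D1 w⟫_ℂ - ⟪Φ.toP.D 0 v, Φ.toP.D 0 (h.cv w)⟫_ℂ).re| ≤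
        2 * K * (‖v‖ * ‖P.j1 w‖)
      rw [Complex.sub_re, re_H, re_Y, P.eH_D1, P.eH_D1, Φ.eY_D, Φ.eY_D, h.e1_cu, h.eX_cv, P.norm_j1]
      refine (h.q0 (Φ.eX v) (P.e1 w)).trans ?_
      have h1 := norm_eX_le v
      have h2 := norm_nonneg (P.jj1 (P.e1 w))
      calc K * (‖Φ.eX v‖ * ‖P.jj1 (P.e1 w)‖) ≤ K * ((2 * ‖v‖) * ‖P.jj1 (P.e1 w)‖) := by gcongr
        _ = _ := by ring
  q1 v w := by
    have hK := h.K0
    refine norm_le_of_re (Q := fun w => ⟪P.D1 (h.cu v), P.D1 w⟫_ℂ -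
      ⟪Φ.toP.D 0 v, Φ.toP.D 0 (h.cv w)⟫_ℂ) (F := fun w => 2 * K * (‖Φ.incl v‖ * ‖w‖)) ?_ ?_ ?_ w
    · intro c w
      show ⟪P.D1 (h.cu v), P.D1 (c • w)⟫_ℂ - ⟪Φ.toP.D 0 v, Φ.toP.D 0 (h.cv (c • w))⟫_ℂ = _
      rw [map_smul, map_smul, map_smul, inner_smul_right, inner_smul_right]
      ring
    · intro c w hc
      show 2 * K * (‖Φ.incl v‖ * ‖c • w‖) = _
      rw [norm_smul, hc, one_mul]
    · intro w
      show |(⟪P.D1 (h.cu v), P.D1 w⟫_ℂ - ⟪Φ.toP.D 0 v, Φ.toP.D 0 (h.cv w)⟫_ℂ).re| ≤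
        2 * K * (‖Φ.incl v‖ * ‖w‖)
      rw [Complex.sub_re, re_H, re_Y, P.eH_D1, P.eH_D1, Φ.eY_D, Φ.eY_D, h.e1_cu, h.eX_cv, norm_incl]
      refine (h.q1 (Φ.eX v) (P.e1 w)).trans ?_
      have h1 := P.norm_e1_le w
      have h2 := norm_nonneg (Φ.jj (Φ.eX v))
      calc K * (‖Φ.jj (Φ.eX v)‖ * ‖P.e1 w‖) ≤ K * (‖Φ.jj (Φ.eX v)‖ * (2 * ‖w‖)) := by gcongr
        _ = _ := by ring

/-! ### weights -/

/-- `∑ sgn Bt B Bt B` -/
def R0 (B : Fin 4 → V0 →L[ℝ] W) (Bt : Fin 4 → W →L[ℝ] V0) (x : V0) : V0 :=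
  ∑ σ : Equiv.Perm (Fin 4), ((Equiv.Perm.sign σ : ℤ) : ℝ) •
    Bt (σ 0) (B (σ 1) (Bt (σ 2) (B (σ 3) x)))

/-- `∑ sgn B Bt B Bt` -/
def R1 (B : Fin 4 → V0 →L[ℝ] W) (Bt : Fin 4 → W →L[ℝ] V0) (y : W) : W :=
  ∑ σ : Equiv.Perm (Fin 4), ((Equiv.Perm.sign σ : ℤ) : ℝ) •
    B (σ 0) (Bt (σ 1) (B (σ 2) (Bt (σ 3) y)))

lemma eH_smul (r : ℝ) (y : Φ.H) : Φ.eH ((r : ℂ) • y) = r • Φ.eH y := by
  rw [← map_smul]
  rfl

lemma sg_eq (σ : Equiv.Perm (Fin 4)) : (sg σ : ℂ) = ((((Equiv.Perm.sign σ : ℤ) : ℝ)) : ℂ) := by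
  unfold sg; push_cast; rfl

lemma eH_N0 {Bt : Fin 4 → W →L[ℝ] V0} (h : ∀ a x y, ⟪R.B a x, y⟫_ℝ = ⟪x, Bt a y⟫_ℝ) (x : Φ.H) :
    Φ.eH (N0 R.cB x) = R0 R.B Bt (Φ.eH x) := by
  unfold N0 R0
  rw [sum_apply, map_sum]
  refine Finset.sum_congr rfl fun σ _ => ?_
  rw [smul_apply, sg_eq, eH_smul]
  congr 1
  show Φ.eH (ContinuousLinearMap.adjoint (R.cB (σ 0)) (R.cB (σ 1)
    (ContinuousLinearMap.adjoint (R.cB (σ 2)) (R.cB (σ 3) x)))) = _
  rw [eH_adj (h _), R.eY_cB, eH_adj (h _), R.eY_cB]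

lemma eY_N1 {Bt : Fin 4 → W →L[ℝ] V0} (h : ∀ a x y, ⟪R.B a x, y⟫_ℝ = ⟪x, Bt a y⟫_ℝ) (y : Φ.Y) :
    Φ.eY (N1 R.cB y) = R1 R.B Bt (Φ.eY y) := by
  unfold N1 R1
  rw [sum_apply, map_sum]
  refine Finset.sum_congr rfl fun σ _ => ?_
  rw [smul_apply, sg_eq, eY_smul]
  congr 1
  show Φ.eY (R.cB (σ 0) (ContinuousLinearMap.adjoint (R.cB (σ 1)) (R.cB (σ 2)
    (ContinuousLinearMap.adjoint (R.cB (σ 3)) y)))) = _
  rw [R.eY_cB, eH_adj (h _), R.eY_cB, eH_adj (h _)]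

end gen

/-- **RCMAN, abstract form.** -/
theorem final (hRC : RC) {V W V0 V1 : Type} [NormedAddCommGroup V] [InnerProductSpace ℝ V]
    [CompleteSpace V] [NormedAddCommGroup W] [InnerProductSpace ℝ W] [CompleteSpace W]
    [NormedAddCommGroup V0] [InnerProductSpace ℝ V0] [CompleteSpace V0]
    [NormedAddCommGroup V1] [InnerProductSpace ℝ V1] [CompleteSpace V1]
    {Φ : RFam 4 V W V0} {R : RJ Φ} {P : RP Φ V1} {μ ν : ℕ → ℝ} {e : ℕ → V} {f : ℕ → V1} {g : ℕ → V}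
    (E : RE P μ ν e f g) {Bt : Fin 4 → W →L[ℝ] V0} {bu : Fin 4 → V →L[ℝ] V1}
    {bv : Fin 4 → V1 →L[ℝ] V} {K : Fin 4 → ℝ} (hQ : ∀ a, RQ P R a (Bt a) (bu a) (bv a) (K a))
    (hm : Monotone μ) {C : ℝ} (hs : ∀ t : ℝ, 0 < t → Summable fun k => Real.exp (-(t * μ k)))
    (hC : ∀ t ∈ Set.Ioc (0:ℝ) 1, ∑' k, Real.exp (-(t * μ k)) ≤ C / t ^ 2) {w0 w1 : ℕ → ℝ}
    (h0 : ∀ k, ⟪Φ.jj (e k), R0 R.B Bt (Φ.jj (e k))⟫_ℝ = w0 k)
    (h0' : ∀ k, ⟪Φ.J0 (Φ.jj (e k)), R0 R.B Bt (Φ.jj (e k))⟫_ℝ = 0)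
    (h1 : ∀ k, ⟪P.jj1 (f k), R1 R.B Bt (P.jj1 (f k))⟫_ℝ = -(w1 k))
    (h1' : ∀ k, ⟪Φ.J' (P.jj1 (f k)), R1 R.B Bt (P.jj1 (f k))⟫_ℝ = 0) {L0 L1 : ℝ}
    (hL0 : Tendsto (fun l : ℝ => l ^ 2 * ∑' k, ((l + μ k) ^ 4)⁻¹ * w0 k) atTop (𝓝 L0))
    (hL1 : Tendsto (fun l : ℝ => l ^ 2 * ∑' k, ((l + ν k) ^ 4)⁻¹ * w1 k) atTop (𝓝 L1))
    (U : Submodule ℂ Φ.Y) [FiniteDimensional ℂ U] {n : ℕ} (fr : Φ.toP.Fr U n)
    (hsur : ∀ h, Function.Surjective (Φ.toP.A U h)) :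
    ch4 FamDefs_307.tr fr.P = (((L0 + L1) / 4 : ℝ) : ℂ) := by
  have ed := E.ed
  have dp := P.dp R
  have hAJ : RCApp_746.AppJ Φ.incl := appJ ed.eo ed.ep ed.eE hm E.μ0 hs hC
  have hA : ∃ c, App (Cr Φ.incl (Φ.toP.D 0) 1) c (1 / 4) :=
    RCApp_746.app_res R.coer' hAJ (Φ.toP.range_closed 0) (Φ.toP.coker_fin 0)
  have hBt : ∀ a x y, ⟪R.B a x, y⟫_ℝ = ⟪x, Bt a y⟫_ℝ := fun a => (hQ a).adj
  have hw0 : ∀ k, ⟪Φ.incl (Φ.eX.symm (e k)), N0 R.cB (Φ.incl (Φ.eX.symm (e k)))⟫_ℂ = w0 k := by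
    intro k
    refine Complex.ext ?_ ?_
    · rw [re_H, eH_N0 hBt, Φ.eH_incl, Φ.eX.apply_symm_apply, h0, Complex.ofReal_re]
    · rw [im_H, eH_N0 hBt, Φ.eH_incl, Φ.eX.apply_symm_apply, h0', Complex.ofReal_im]
  have hw1 : ∀ k, ⟪P.j1 (P.e1.symm (f k)), N1 R.cB (P.j1 (P.e1.symm (f k)))⟫_ℂ = -(w1 k) := by
    intro k
    refine Complex.ext ?_ ?_
    · rw [re_Y, eY_N1 hBt, P.eY_j1, P.e1.apply_symm_apply, h1, Complex.neg_re, Complex.ofReal_re]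
    · rw [im_Y, eY_N1 hBt, P.eY_j1, P.e1.apply_symm_apply, h1', Complex.neg_im, Complex.ofReal_im,
        neg_zero]
  have hI := inf dp ed hA (fun a => (hQ a).cm) hw0 hw1 hL0 hL1
  obtain ⟨-, -, -, h2⟩ := R.jf.main hRC U hsur fr hA hI
  rw [h2]
  push_cast; ring

end

end Crest.Agent.R235.Rn_820
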