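import Crest.Agent.R235.SameB_796
import Crest.Agent.R235.AdjCut_470_Mg
import Crest.Agent.R235.CurTopProps_844

/-!
Row 235 (S0364), package ADJ, node JSAME (helper796): **two `J`-curves meeting in infinitely many
points coincide** (`jsame_of : FBOX → JSAME`, `jsame : FolStmt → JSAME`).
-/

set_option autoImplicit false
set_option maxSynthPendingDepth 3
set_option linter.unusedSectionVars false

open Set Function Filter MeasureTheory Metric
open scoped Manifold ContDiff Topology

universe u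

namespace Crest.Agent.R235.Same_796

open Crest.Agent.R240 Crest.Agent.R240.Ch
open Crest.Agent.R235 Crest.Agent.R235.Glob_370 Crest.Agent.R235.Adj

noncomputable section

section Basic

variable {M : Type u} [TopologicalSpace M] [ChartedSpace E4 M] [IsManifold 𝓘(ℝ, E4) ∞ M]
variable {J : EndF E4 M}

/-- the parametrisations are local homeomorphisms. -/
theorem map_φ (c : JCurve J) (p : M) (j : Fin (c.L p).n) {z : ℂ} (hz : z ∈ ball (0 : ℂ) 1) :
    map (c.φ p j) (𝓝 z) = 𝓝 (c.φ p j z) := by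
  refine le_antisymm ((c.φ_cont p j).continuousAt (isOpen_ball.mem_nhds hz)) fun V hV => ?_
  rw [mem_map] at hV
  obtain ⟨O, hO, hOo, hzO⟩ := _root_.mem_nhds_iff.1 (inter_mem hV (isOpen_ball.mem_nhds hz))
  have h1 := c.φ_open p j O hOo fun w hw => (hO hw).2
  refine mem_of_superset (h1.mem_nhds ⟨z, hzO, rfl⟩) ?_
  rintro _ ⟨w, hw, rfl⟩
  exact (hO hw).1

/-- every point of `N` is the centre of a branch. -/
theorem exists_centre (c : JCurve J) (x : c.N) : ∃ j, c.φ (c.f x) j 0 = x := by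
  obtain ⟨j, z, hz, h⟩ := c.φ_cover (c.f x) x (c.L (c.f x)).mem
  have h1 : (c.L (c.f x)).u j z = c.f x := by rw [← c.φ_f _ j z hz, h]
  have h2 : z = 0 := ((c.L (c.f x)).disc j).inj hz (mem_ball_self one_pos)
    (h1.trans ((c.L (c.f x)).centre j).symm)
  exact ⟨j, by rw [← h2]; exact h⟩

end Basic

section Glob

variable {M : Type u} [TopologicalSpace M] [T2Space M] [CompactSpace M] [ConnectedSpace M]
  [ChartedSpace E4 M] [IsManifold 𝓘(ℝ, E4) ∞ M] {J : EndF E4 M}

/-- local unique continuation on the surface. -/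
theorem uc_N (hF : FBOX.{u}) (hJs : SmoothJ J) (hJ2 : ∀ x v, atJ J x (atJ J x v) = -v)
    (c c' : JCurve J) {x : c.N} (hx : ∃ᶠ y in 𝓝[≠] x, c.f y ∈ range c'.f) :
    ∀ᶠ y in 𝓝 x, c.f y ∈ range c'.f := by
  obtain ⟨j, hj⟩ := exists_centre c x
  have h0 : (0 : ℂ) ∈ ball (0 : ℂ) 1 := mem_ball_self one_pos
  have hb := isOpen_ball.mem_nhds h0
  have hm := map_φ c (c.f x) j h0
  rw [hj] at hm
  have hcl : IsClosed (range c'.f) := (isCompact_range c'.cont).isClosed
  have hp : c.f x ∈ range c'.f := by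
    have h1 : ∃ᶠ y in 𝓝 x, c.f y ∈ range c'.f := hx.filter_mono nhdsWithin_le_nhds
    have h2 : c.f x ∈ closure (range c'.f) := by
      rw [mem_closure_iff_frequently]
      exact c.cont.continuousAt.tendsto.frequently h1
    rwa [hcl.closure_eq] at h2
  obtain ⟨B⟩ := hF M J hJs hJ2 c' (c.f x) univ isOpen_univ (mem_univ _) hp
  have hfr : ∃ᶠ z in 𝓝[≠] (0 : ℂ), (c.L (c.f x)).u j z ∈ range c'.f := by
    rw [frequently_nhdsWithin_iff] at hx ⊢
    rw [← hm, frequently_map] at hx
    refine (hx.and_eventually hb).mono ?_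
    rintro z ⟨⟨h1, h2⟩, h3⟩
    rw [c.φ_f _ j z h3] at h1
    refine ⟨h1, fun h4 => h2 ?_⟩
    rw [h4]; exact hj
  have h1 := uc_box B hJ2 ((c.L (c.f x)).disc j) ((c.L (c.f x)).centre j) hfr
  rw [← hm, eventually_map]
  filter_upwards [h1, hb] with z h2 h3
  rw [c.φ_f _ j z h3]
  exact h2

theorem range_sub_of (hF : FBOX.{u}) (hJs : SmoothJ J) (hJ2 : ∀ x v, atJ J x (atJ J x v) = -v)
    (c c' : JCurve J) (hinf : (range c.f ∩ range c'.f).Infinite) : range c.f ⊆ range c'.f := by
  set A : Set c.N := {x | ∀ᶠ y in 𝓝 x, c.f y ∈ range c'.f} with hA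
  have hAo : IsOpen A := by
    rw [isOpen_iff_mem_nhds]
    exact fun x hx => eventually_eventually_nhds.2 hx
  have hAc : IsClosed A := by
    refine isClosed_of_closure_subset fun x hx => ?_
    by_contra hxA
    refine hxA (uc_N hF hJs hJ2 c c' ?_)
    rw [mem_closure_iff_frequently] at hx
    rw [frequently_nhdsWithin_iff]
    refine hx.mono fun y hy => ⟨hy.self_of_nhds, fun h => hxA ?_⟩
    have h2 : y = x := h
    rw [← h2]; exact hy
  have hne : A.Nonempty := by
    have h1 : (c.f ⁻¹' (range c'.f)).Infinite := by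
      intro hfin
      refine hinf ((hfin.image c.f).subset ?_)
      rintro _ ⟨⟨x, rfl⟩, hx⟩
      exact ⟨x, hx, rfl⟩
    obtain ⟨x, -, hx⟩ := h1.exists_accPt_of_subset_isCompact isCompact_univ (subset_univ _)
    rw [accPt_iff_frequently_nhdsNE] at hx
    exact ⟨x, uc_N hF hJs hJ2 c c' hx⟩
  have huniv : A = univ := IsClopen.eq_univ ⟨hAc, hAo⟩ hne
  rintro _ ⟨x, rfl⟩
  have hx : x ∈ A := by rw [huniv]; exact mem_univ x
  exact hx.self_of_nhds

/-- **SAME**. -/
theorem same_of (hF : FBOX.{u}) (hJs : SmoothJ J) (hJ2 : ∀ x v, atJ J x (atJ J x v) = -v)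
    (c c' : JCurve J) (hinf : (range c.f ∩ range c'.f).Infinite) :
    range c.f = range c'.f ∧ c.T = c'.T := by
  have h1 : range c.f = range c'.f := (range_sub_of hF hJs hJ2 c c' hinf).antisymm
    (range_sub_of hF hJs hJ2 c' c (by rwa [inter_comm]))
  exact ⟨h1, cur_unique c c' h1⟩

end Glob

/-- **JSAME** from foliation boxes. -/
theorem jsame_of (hF : FBOX.{u}) : JSAME.{u} := by
  intro M _ _ _ _ _ _ w J _ hJ c c'
  by_cases h : (range c.f ∩ range c'.f).Finite
  · exact Or.inl h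
  · exact Or.inr (same_of hF hJ.smooth hJ.sq c c' h)

/-- **JSAME** from `FolStmt`. -/
theorem jsame (h : NWDefs_334.FolStmt) : JSAME.{u} := jsame_of (FBoxC_130.fbox_of h)

end

end Crest.Agent.R235.Same_796
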