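import Crest.Agent.R240.Ch3
import Crest.Agent.R235.KUp_604
import Crest.Agent.R235.KClose_57
import Crest.Agent.R240.Lin1
import Crest.Agent.R281.Poi_234
import Crest.Agent.R235.KForm_604
import Crest.Agent.R235.KGlue_604
import Crest.Agent.R235.Pull_129

-- ▼ part R235/KCut_129
section

/-!
Row 235 (S0364), helper129: leaf L1 of helper604 (KUP/KDOWN): cut-off functions on `E4` and the
interpolation of profiles.

* `exists_cut` : even cut-offs `0` on `‖z‖ ≤ ε/2`, `1` on `‖z‖ ≥ ε`, differential `≤ C/ε`;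
* `exists_logcut` : even cut-offs with `‖ds‖ ‖z‖ ≤ δ`;
* `exists_prof` : interpolation `μ g ↝ t` of increasing positive profiles.
-/

set_option autoImplicit false

open Set Function Filter
open scoped ContDiff Topology

namespace Crest.Agent.R235.KCut_129

noncomputable section

local notation "ST" => Real.smoothTransition

/-! ### the derivative of `smoothTransition` -/

lemma st_smooth : ContDiff ℝ ∞ ST := Real.smoothTransition.contDiff

lemma st_diff (x : ℝ) : DifferentiableAt ℝ ST x :=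
  st_smooth.differentiable (by simp) x

lemma st_deriv_low {x : ℝ} (hx : x < 0) : deriv ST x = 0 := by
  have h : ST =ᶠ[𝓝 x] fun _ => (0 : ℝ) := by
    filter_upwards [Iio_mem_nhds hx] with y hy
    exact Real.smoothTransition.zero_of_nonpos hy.le
  rw [h.deriv_eq, deriv_const]

lemma st_deriv_high {x : ℝ} (hx : 1 < x) : deriv ST x = 0 := by
  have h : ST =ᶠ[𝓝 x] fun _ => (1 : ℝ) := by
    filter_upwards [Ioi_mem_nhds hx] with y hy
    exact Real.smoothTransition.one_of_one_le (le_of_lt hy)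
  rw [h.deriv_eq, deriv_const]

lemma st_deriv_nonneg (x : ℝ) : 0 ≤ deriv ST x :=
  Real.smoothTransition.monotone.deriv_nonneg

lemma st_deriv_cont : Continuous (deriv ST) :=
  st_smooth.continuous_deriv (by simp)

lemma st_deriv_zero_low {x : ℝ} (hx : x ≤ 0) : deriv ST x = 0 := by
  have h : x ∈ closure (Iio (0 : ℝ)) := by rw [closure_Iio]; exact hx
  exact closure_minimal (fun y hy => st_deriv_low hy)
    (isClosed_singleton.preimage st_deriv_cont) h

lemma st_deriv_zero_high {x : ℝ} (hx : 1 ≤ x) : deriv ST x = 0 := by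
  have h : x ∈ closure (Ioi (1 : ℝ)) := by rw [closure_Ioi]; exact hx
  exact closure_minimal (fun y hy => st_deriv_high hy)
    (isClosed_singleton.preimage st_deriv_cont) h

/-- the derivative is bounded. -/
lemma st_bound : ∃ B : ℝ, 0 < B ∧ ∀ x, |deriv ST x| ≤ B := by
  obtain ⟨B, hB⟩ := (isCompact_Icc (a := (0 : ℝ)) (b := 1)).exists_bound_of_continuousOn
    (f := deriv ST) st_deriv_cont.continuousOn
  refine ⟨max B 1, lt_max_of_lt_right one_pos, fun x => ?_⟩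
  rcases lt_or_ge x 0 with h0 | h0
  · rw [st_deriv_low h0, abs_zero]; exact (zero_le_one).trans (le_max_right _ _)
  rcases lt_or_ge 1 x with h1 | h1
  · rw [st_deriv_high h1, abs_zero]; exact (zero_le_one).trans (le_max_right _ _)
  · exact (hB x ⟨h0, h1⟩).trans (le_max_left _ _)

/-! ### functions of `‖z‖²` -/

section Eu

variable {V : Type*} [NormedAddCommGroup V] [InnerProductSpace ℝ V]

lemma hasFDerivAt_sq (z : V) : HasFDerivAt (fun y : V => ‖y‖ ^ 2) (2 • (innerSL ℝ z)) z := by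
  have := (hasStrictFDerivAt_norm_sq z).hasFDerivAt
  exact this

/-- the differential of `f (‖z‖²)`. -/
lemma fderiv_rad {f : ℝ → ℝ} {z : V} (hf : DifferentiableAt ℝ f (‖z‖ ^ 2)) (v : V) :
    fderiv ℝ (fun y : V => f (‖y‖ ^ 2)) z v = deriv f (‖z‖ ^ 2) * (2 * inner ℝ z v) := by
  have h := (hf.hasDerivAt.hasFDerivAt).comp z (hasFDerivAt_sq z)
  have h' : HasFDerivAt (fun y : V => f (‖y‖ ^ 2)) _ z := h
  rw [h'.fderiv]
  simp [mul_comm]
  ring

lemma abs_fderiv_rad_le {f : ℝ → ℝ} {z : V} (hf : DifferentiableAt ℝ f (‖z‖ ^ 2)) (v : V) :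
    |fderiv ℝ (fun y : V => f (‖y‖ ^ 2)) z v| ≤ 2 * |deriv f (‖z‖ ^ 2)| * ‖z‖ * ‖v‖ := by
  rw [fderiv_rad hf, abs_mul, abs_mul, abs_two]
  have := abs_real_inner_le_norm z v
  have h0 := abs_nonneg (deriv f (‖z‖ ^ 2))
  nlinarith [mul_le_mul_of_nonneg_left this h0]

end Eu

local notation "E4" => EuclideanSpace ℝ (Fin 4)

theorem exists_cut : ∃ C : ℝ, 0 < C ∧ ∀ ε : ℝ, 0 < ε → ∃ χ : E4 → ℝ, ContDiff ℝ ∞ χ ∧
    (∀ z, χ (-z) = χ z) ∧ (∀ z, 0 ≤ χ z ∧ χ z ≤ 1) ∧ (∀ z, ‖z‖ ≤ ε / 2 → χ z = 0) ∧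
    (∀ z, ε ≤ ‖z‖ → χ z = 1) ∧ ∀ z v, |fderiv ℝ χ z v| ≤ C / ε * ‖v‖ := by
  obtain ⟨B, hB, hb⟩ := st_bound
  refine ⟨8 / 3 * B, by positivity, fun ε hε => ?_⟩
  set a : ℝ → ℝ := fun t => (4 * t / ε ^ 2 - 1) / 3 with ha
  have hada : ∀ t, HasDerivAt a (4 / (3 * ε ^ 2)) t := by
    intro t
    have h1 : HasDerivAt (fun t : ℝ => 4 * t / ε ^ 2) (4 * 1 / ε ^ 2) t :=
      ((hasDerivAt_id t).const_mul 4).div_const _
    refine ((h1.sub_const 1).div_const 3).congr_deriv ?_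
    field_simp
  have hac : ContDiff ℝ ∞ a := by
    rw [ha]; fun_prop
  set f : ℝ → ℝ := fun t => ST (a t) with hf
  have hfd : ∀ t, HasDerivAt f (deriv ST (a t) * (4 / (3 * ε ^ 2))) t := fun t =>
    (st_diff (a t)).hasDerivAt.comp t (hada t)
  have hfc : ContDiff ℝ ∞ f := st_smooth.comp hac
  refine ⟨fun z => f (‖z‖ ^ 2), hfc.comp (contDiff_norm_sq ℝ), fun z => by simp,
    fun z => ⟨Real.smoothTransition.nonneg _, Real.smoothTransition.le_one _⟩, ?_, ?_, ?_⟩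
  · intro z hz
    refine Real.smoothTransition.zero_of_nonpos ?_
    have h1 : ‖z‖ ^ 2 ≤ (ε / 2) ^ 2 := by gcongr
    have h2 : 4 * ‖z‖ ^ 2 / ε ^ 2 ≤ 1 := by
      rw [div_le_one (by positivity)]; nlinarith
    show (4 * ‖z‖ ^ 2 / ε ^ 2 - 1) / 3 ≤ 0
    linarith
  · intro z hz
    refine Real.smoothTransition.one_of_one_le ?_
    have h1 : ε ^ 2 ≤ ‖z‖ ^ 2 := by gcongr
    have h2 : 4 ≤ 4 * ‖z‖ ^ 2 / ε ^ 2 := by
      rw [le_div_iff₀ (by positivity)]; nlinarith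
    show 1 ≤ (4 * ‖z‖ ^ 2 / ε ^ 2 - 1) / 3
    linarith
  · intro z v
    have h1 := abs_fderiv_rad_le (z := z) (hfd (‖z‖ ^ 2)).differentiableAt v
    rw [(hfd (‖z‖ ^ 2)).deriv] at h1
    rcases le_or_gt ‖z‖ ε with hz | hz
    · have h2 : |deriv ST (a (‖z‖ ^ 2)) * (4 / (3 * ε ^ 2))| ≤ B * (4 / (3 * ε ^ 2)) := by
        rw [abs_mul, abs_of_pos (a := 4 / (3 * ε ^ 2)) (by positivity)]
        exact mul_le_mul_of_nonneg_right (hb _) (by positivity)
      have h3 : 2 * |deriv ST (a (‖z‖ ^ 2)) * (4 / (3 * ε ^ 2))| * ‖z‖ * ‖v‖ ≤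
          2 * (B * (4 / (3 * ε ^ 2))) * ε * ‖v‖ := by gcongr
      refine (h1.trans h3).trans (le_of_eq ?_)
      field_simp
      ring
    · have h2 : deriv ST (a (‖z‖ ^ 2)) = 0 := by
        refine st_deriv_zero_high ?_
        have h1 : ε ^ 2 ≤ ‖z‖ ^ 2 := by gcongr
        have h2 : 4 ≤ 4 * ‖z‖ ^ 2 / ε ^ 2 := by
          rw [le_div_iff₀ (by positivity)]; nlinarith
        show 1 ≤ (4 * ‖z‖ ^ 2 / ε ^ 2 - 1) / 3
        linarith
      rw [h2] at h1
      refine h1.trans ?_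
      simp only [zero_mul, abs_zero, mul_zero]
      positivity

theorem exists_logcut : ∀ r1 δ : ℝ, 0 < r1 → 0 < δ → ∃ (r0 : ℝ) (s : E4 → ℝ), 0 < r0 ∧ r0 < r1 ∧
    ContDiff ℝ ∞ s ∧ (∀ z, s (-z) = s z) ∧ (∀ z, 0 ≤ s z ∧ s z ≤ 1) ∧
    (∀ z, ‖z‖ ≤ r0 → s z = 0) ∧ (∀ z, r1 ≤ ‖z‖ → s z = 1) ∧
    ∀ z v, |fderiv ℝ s z v| * ‖z‖ ≤ δ * ‖v‖ := by
  obtain ⟨B, hB, hb⟩ := st_bound
  intro r1 δ h1 hδ
  set d : ℝ := δ / (2 * B) with hd
  have hd0 : 0 < d := by positivity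
  set q : ℝ := Real.exp (-(1 / d)) with hq
  have hq0 : 0 < q := Real.exp_pos _
  have hq1 : q < 1 := by
    rw [hq, Real.exp_lt_one_iff]
    have : 0 < 1 / d := by positivity
    linarith
  set c : ℝ := r1 ^ 2 * q / 2 with hc
  have hc0 : 0 < c := by positivity
  set r0 : ℝ := Real.sqrt c with hr0
  have hr00 : 0 < r0 := Real.sqrt_pos.2 hc0
  have hr0sq : r0 ^ 2 = c := Real.sq_sqrt hc0.le
  set a : ℝ → ℝ := fun t => 1 + d * Real.log ((t + c) / r1 ^ 2) with ha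
  have hada : ∀ t, 0 ≤ t → HasDerivAt a (d / (t + c)) t := by
    intro t ht
    have h1 : HasDerivAt (fun t : ℝ => (t + c) / r1 ^ 2) (1 / r1 ^ 2) t :=
      ((hasDerivAt_id t).add_const c).div_const _
    refine (((h1.log (by positivity)).const_mul d).const_add 1).congr_deriv ?_
    have : t + c ≠ 0 := by positivity
    field_simp
  have hac : ∀ t, 0 ≤ t → ContDiffAt ℝ ∞ a t := by
    intro t ht
    rw [ha]
    have h : (t + c) / r1 ^ 2 ≠ 0 := by positivity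
    have h2 : ContDiffAt ℝ ∞ (fun t : ℝ => (t + c) / r1 ^ 2) t := by fun_prop
    exact contDiffAt_const.add (contDiffAt_const.mul (h2.log h))
  set f : ℝ → ℝ := fun t => ST (a t) with hf
  have hfd : ∀ t, 0 ≤ t → HasDerivAt f (deriv ST (a t) * (d / (t + c))) t := fun t ht =>
    (st_diff (a t)).hasDerivAt.comp t (hada t ht)
  have hfc : ∀ t, 0 ≤ t → ContDiffAt ℝ ∞ f t := fun t ht =>
    st_smooth.contDiffAt.comp t (hac t ht)
  refine ⟨r0, fun z => f (‖z‖ ^ 2), hr00, ?_, ?_, fun z => by simp,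
    fun z => ⟨Real.smoothTransition.nonneg _, Real.smoothTransition.le_one _⟩, ?_, ?_, ?_⟩
  · have : r0 ^ 2 < r1 ^ 2 := by
      rw [hr0sq, hc]
      have : r1 ^ 2 * q < r1 ^ 2 := by
        have := pow_pos h1 2
        nlinarith
      have := mul_pos (pow_pos h1 2) hq0
      linarith
    exact lt_of_pow_lt_pow_left₀ 2 h1.le this
  · rw [contDiff_iff_contDiffAt]
    intro z
    exact (hfc (‖z‖ ^ 2) (by positivity)).comp z (contDiff_norm_sq ℝ).contDiffAt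
  · intro z hz
    refine Real.smoothTransition.zero_of_nonpos ?_
    have h2 : ‖z‖ ^ 2 ≤ c := by rw [← hr0sq]; gcongr
    have h3 : (‖z‖ ^ 2 + c) / r1 ^ 2 ≤ q := by
      rw [div_le_iff₀ (by positivity)]
      have : q * r1 ^ 2 = 2 * c := by rw [hc]; ring
      rw [this]; linarith
    have h4 : Real.log ((‖z‖ ^ 2 + c) / r1 ^ 2) ≤ -(1 / d) := by
      rw [← Real.log_exp (-(1 / d))]
      exact Real.log_le_log (by positivity) h3
    have h5 : d * Real.log ((‖z‖ ^ 2 + c) / r1 ^ 2) ≤ d * (-(1 / d)) :=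
      mul_le_mul_of_nonneg_left h4 hd0.le
    have h6 : d * (-(1 / d)) = -1 := by field_simp
    show 1 + d * Real.log ((‖z‖ ^ 2 + c) / r1 ^ 2) ≤ 0
    linarith
  · intro z hz
    refine Real.smoothTransition.one_of_one_le ?_
    have h2 : r1 ^ 2 ≤ ‖z‖ ^ 2 := by gcongr
    have h3 : 1 ≤ (‖z‖ ^ 2 + c) / r1 ^ 2 := by
      rw [le_div_iff₀ (by positivity)]; linarith
    have h4 : 0 ≤ Real.log ((‖z‖ ^ 2 + c) / r1 ^ 2) := Real.log_nonneg h3
    show 1 ≤ 1 + d * Real.log ((‖z‖ ^ 2 + c) / r1 ^ 2)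
    have := mul_nonneg hd0.le h4
    linarith
  · intro z v
    have hsq : 0 ≤ ‖z‖ ^ 2 := by positivity
    have h2 := abs_fderiv_rad_le (z := z) (hfd (‖z‖ ^ 2) hsq).differentiableAt v
    rw [(hfd (‖z‖ ^ 2) hsq).deriv] at h2
    have h3 : |deriv ST (a (‖z‖ ^ 2)) * (d / (‖z‖ ^ 2 + c))| ≤ B * (d / (‖z‖ ^ 2 + c)) := by
      rw [abs_mul, abs_of_pos (a := d / (‖z‖ ^ 2 + c)) (by positivity)]
      exact mul_le_mul_of_nonneg_right (hb _) (by positivity)
    have h4 : |fderiv ℝ (fun z : E4 => f (‖z‖ ^ 2)) z v| * ‖z‖ ≤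
        2 * (B * (d / (‖z‖ ^ 2 + c))) * ‖z‖ * ‖v‖ * ‖z‖ := by
      refine mul_le_mul_of_nonneg_right (h2.trans ?_) (norm_nonneg z)
      gcongr
    have h5 : 2 * (B * (d / (‖z‖ ^ 2 + c))) * ‖z‖ * ‖v‖ * ‖z‖ =
        δ * ‖v‖ * (‖z‖ ^ 2 / (‖z‖ ^ 2 + c)) := by
      rw [hd]
      have : ‖z‖ ^ 2 + c ≠ 0 := by positivity
      field_simp
    have h6 : ‖z‖ ^ 2 / (‖z‖ ^ 2 + c) ≤ 1 := by
      rw [div_le_one (by positivity)]; linarith
    refine h4.trans ?_
    rw [h5]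
    exact mul_le_of_le_one_right (by positivity) h6

theorem exists_prof (g : ℝ → ℝ) (hg : ContDiffOn ℝ ∞ g (Ioi 0))
    (hp : ∀ t, 0 < t → t < 1 → 0 < g t ∧ 0 < deriv g t) (t1 : ℝ) (h1 : 0 < t1) (h1' : t1 < 1) :
    ∃ (μ t0 : ℝ) (gd : ℝ → ℝ), 0 < μ ∧ μ ≤ 1 ∧ 0 < t0 ∧ t0 < t1 ∧ ContDiffOn ℝ ∞ gd (Ioi 0) ∧
      (∀ t, 0 < t → t < 1 → 0 < gd t ∧ 0 < deriv gd t) ∧ (∀ t, t ≤ t0 → gd t = μ * g t) ∧
      (∀ t, t1 ≤ t → gd t = t) := by
  set t0 : ℝ := t1 / 2 with ht0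
  have ht00 : 0 < t0 := by positivity
  have ht01 : t0 < t1 := by rw [ht0]; linarith
  have hgd : ∀ t, 0 < t → DifferentiableAt ℝ g t := fun t ht =>
    ((hg t ht).contDiffAt (Ioi_mem_nhds ht)).differentiableAt (by simp)
  have hmono : ∀ t, 0 < t → t ≤ t1 → g t ≤ g t1 := by
    intro t ht htt
    have hm : MonotoneOn g (Ioo 0 1) := by
      refine monotoneOn_of_deriv_nonneg (convex_Ioo 0 1) (fun s hs => ?_) ?_ ?_
      · exact (hgd s hs.1).continuousAt.continuousWithinAt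
      · rw [interior_Ioo]
        exact fun s hs => (hgd s hs.1).differentiableWithinAt
      · rw [interior_Ioo]
        exact fun s hs => (hp s hs.1 hs.2).2.le
    exact hm ⟨ht, lt_of_le_of_lt htt h1'⟩ ⟨h1, h1'⟩ htt
  have hg1 : 0 < g t1 := (hp t1 h1 h1').1
  set μ : ℝ := min 1 (t0 / g t1) with hμ
  have hμ0 : 0 < μ := lt_min one_pos (by positivity)
  have hμg : μ * g t1 ≤ t0 := by
    have : μ ≤ t0 / g t1 := min_le_right _ _
    calc μ * g t1 ≤ t0 / g t1 * g t1 := mul_le_mul_of_nonneg_right this hg1.le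
      _ = t0 := by field_simp
  set a : ℝ → ℝ := fun t => (t - t0) / (t1 - t0) with ha
  have hd0 : 0 < t1 - t0 := by linarith
  have hada : ∀ t, HasDerivAt a (1 / (t1 - t0)) t := fun t =>
    ((hasDerivAt_id t).sub_const t0).div_const _
  have hac : ContDiff ℝ ∞ a := by rw [ha]; fun_prop
  set χ : ℝ → ℝ := fun t => ST (a t) with hχ
  have hχc : ContDiff ℝ ∞ χ := st_smooth.comp hac
  have hχd : ∀ t, HasDerivAt χ (deriv ST (a t) * (1 / (t1 - t0))) t := fun t =>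
    (st_diff (a t)).hasDerivAt.comp t (hada t)
  have hχ0 : ∀ t, 0 ≤ χ t := fun t => Real.smoothTransition.nonneg _
  have hχ1 : ∀ t, χ t ≤ 1 := fun t => Real.smoothTransition.le_one _
  set gd : ℝ → ℝ := fun t => (1 - χ t) * (μ * g t) + χ t * t with hgdd
  have hD : ∀ t, 0 < t → HasDerivAt gd
      ((0 - deriv ST (a t) * (1 / (t1 - t0))) * (μ * g t) + (1 - χ t) * (μ * deriv g t) +
        (deriv ST (a t) * (1 / (t1 - t0)) * t + χ t * 1)) t := by
    intro t ht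
    exact (((hasDerivAt_const t (1 : ℝ)).sub (hχd t)).mul ((hgd t ht).hasDerivAt.const_mul μ)).add
      ((hχd t).mul (hasDerivAt_id t))
  refine ⟨μ, t0, gd, hμ0, min_le_left _ _, ht00, ht01, ?_, ?_, ?_, ?_⟩
  · exact ((contDiffOn_const.sub hχc.contDiffOn).mul (contDiffOn_const.mul hg)).add
      (hχc.contDiffOn.mul contDiffOn_id)
  · intro t ht ht'
    obtain ⟨hp1, hp2⟩ := hp t ht ht'
    have hc : ∀ x y : ℝ, 0 < x → 0 < y → 0 < (1 - χ t) * x + χ t * y := by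
      intro x y hx hy
      rcases (hχ0 t).eq_or_lt with h | h
      · rw [← h]; simpa using hx
      · exact add_pos_of_nonneg_of_pos (mul_nonneg (by linarith [hχ1 t]) hx.le) (mul_pos h hy)
    refine ⟨hc _ _ (by positivity) ht, ?_⟩
    rw [(hD t ht).deriv]
    have h2 := hc (μ * deriv g t) 1 (by positivity) one_pos
    have h3 : 0 ≤ deriv ST (a t) * (1 / (t1 - t0)) * (t - μ * g t) := by
      rcases lt_or_ge t t0 with h | h
      · have : deriv ST (a t) = 0 := by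
          refine st_deriv_zero_low ?_
          exact div_nonpos_of_nonpos_of_nonneg (by linarith) hd0.le
        rw [this]; simp
      rcases lt_or_ge t1 t with h' | h'
      · have : deriv ST (a t) = 0 := by
          refine st_deriv_zero_high ?_
          show 1 ≤ (t - t0) / (t1 - t0)
          rw [le_div_iff₀ hd0]; linarith
        rw [this]; simp
      · have h4 : μ * g t ≤ t := by
          have := mul_le_mul_of_nonneg_left (hmono t ht h') hμ0.le
          linarith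
        exact mul_nonneg (mul_nonneg (st_deriv_nonneg _) (by positivity)) (by linarith)
    nlinarith [h2, h3]
  · intro t ht
    have : χ t = 0 := by
      refine Real.smoothTransition.zero_of_nonpos ?_
      exact div_nonpos_of_nonpos_of_nonneg (by linarith) hd0.le
    show (1 - χ t) * (μ * g t) + χ t * t = μ * g t
    rw [this]; ring
  · intro t ht
    have : χ t = 1 := by
      refine Real.smoothTransition.one_of_one_le ?_
      show 1 ≤ (t - t0) / (t1 - t0)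
      rw [le_div_iff₀ hd0]; linarith
    show (1 - χ t) * (μ * g t) + χ t * t = t
    rw [this]; ring

end

end Crest.Agent.R235.KCut_129
end

-- ▼ part R235/KReal_604
section

/-!
Row 235, KUM-K5 (helper604): triples on `M` from triples on `X` and neck data.
-/

set_option autoImplicit false
set_option maxSynthPendingDepth 3
set_option linter.unusedSectionVars false

open Set Function Filter
open scoped Manifold ContDiff Topology RealInnerProductSpace

universe u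

namespace Crest.Agent.R235.KReal_604

open Crest.Agent.R240 Crest.Agent.R240.Ch Crest.Agent.R235 Crest.Agent.R235.PB_604
  Crest.Agent.R235.KLin_604 Crest.Agent.R235.KT_604 Crest.Agent.R235.KGlue_604
  Crest.Agent.R235.KForm_604 Crest.Agent.R235.K12_417 Crest.Agent.R235.KUp_604

noncomputable section

/-! ### parameters -/

/-- cut-off functions and profiles. -/
structure Par {m : ℕ} (g : Fin m → ℝ → ℝ) (C ε δ : ℝ) where
  χ : E4 → ℝ
  s : E4 → ℝ
  r0 : ℝ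
  q0 : ℝ
  μ : Fin m → ℝ
  gd : Fin m → ℝ → ℝ
  ε_pos : 0 < ε
  ε_lt : ε < 1
  χ_cd : ContDiff ℝ ∞ χ
  χ_even : ∀ z, χ (-z) = χ z
  χ_mem : ∀ z, 0 ≤ χ z ∧ χ z ≤ 1
  χ_0 : ∀ z, ‖z‖ ≤ ε / 2 → χ z = 0
  χ_1 : ∀ z, ε ≤ ‖z‖ → χ z = 1
  χ_bd : ∀ z v, |fderiv ℝ χ z v| ≤ C / ε * ‖v‖
  s_cd : ContDiff ℝ ∞ s
  s_even : ∀ z, s (-z) = s z
  s_mem : ∀ z, 0 ≤ s z ∧ s z ≤ 1
  s_0 : ∀ z, ‖z‖ ≤ r0 → s z = 0
  s_1 : ∀ z, ε / 2 ≤ ‖z‖ → s z = 1
  s_bd : ∀ z v, |fderiv ℝ s z v| * ‖z‖ ≤ δ * ‖v‖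
  r0_pos : 0 < r0
  r0_lt : r0 < ε / 2
  q0_pos : 0 < q0
  q0_lt : q0 < r0
  μ_pos : ∀ i, 0 < μ i
  gd_cd : ∀ i, ContDiffOn ℝ ∞ (gd i) (Ioi 0)
  gd_pos : ∀ i t, 0 < t → t < 1 → 0 < gd i t ∧ 0 < deriv (gd i) t
  gd_0 : ∀ i t, t < q0 ^ 2 → gd i t = μ i * g i t
  gd_1 : ∀ i t, r0 ^ 2 ≤ t → gd i t = t

theorem exists_par {m : ℕ} (g : Fin m → ℝ → ℝ) (hg : ∀ i, ContDiffOn ℝ ∞ (g i) (Ioi 0))
    (hp : ∀ i t, 0 < t → t < 1 → 0 < g i t ∧ 0 < deriv (g i) t) :
    ∃ C : ℝ, 0 < C ∧ ∀ ε δ : ℝ, 0 < ε → ε < 1 → 0 < δ → Nonempty (Par g C ε δ) := by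
  obtain ⟨C, hC, hχ⟩ := KCut_129.exists_cut
  refine ⟨C, hC, fun ε δ hε hε1 hδ => ?_⟩
  obtain ⟨χ, χ1, χ2, χ3, χ4, χ5, χ6⟩ := hχ ε hε
  obtain ⟨r0, s, hr0, hr1, s1, s2, s3, s4, s5, s6⟩ :=
    KCut_129.exists_logcut (ε / 2) δ (half_pos hε) hδ
  have hr2 : r0 < 1 := by linarith
  have hr3 : r0 ^ 2 < 1 := by nlinarith
  have key := fun i => KCut_129.exists_prof (g i) (hg i) (hp i) (r0 ^ 2) (by positivity) hr3
  choose μ t0 gd k1 k2 k3 k4 k5 k6 k7 k8 using key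
  obtain ⟨q0, hq1, hq2, hq3⟩ : ∃ q0 : ℝ, 0 < q0 ∧ q0 < r0 ∧ ∀ i, q0 ^ 2 ≤ t0 i := by
    have h1 : ∀ᶠ q in 𝓝[>] (0 : ℝ), ∀ i, q ^ 2 ≤ t0 i := by
      refine eventually_all.2 fun i => ?_
      have h2 : Tendsto (fun q : ℝ => q ^ 2) (𝓝[>] 0) (𝓝 0) := by
        have h3 : Tendsto (fun q : ℝ => q ^ 2) (𝓝 0) (𝓝 (0 ^ 2)) := (continuous_pow 2).tendsto 0
        rw [zero_pow two_ne_zero] at h3
        exact h3.mono_left nhdsWithin_le_nhds
      exact h2.eventually (Iic_mem_nhds (k3 i))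
    have h2 : ∀ᶠ q in 𝓝[>] (0 : ℝ), q ∈ Ioo 0 r0 := Ioo_mem_nhdsGT hr0
    obtain ⟨q, hq, hq'⟩ := (h1.and h2).exists
    exact ⟨q, hq'.1, hq'.2, hq⟩
  exact ⟨⟨χ, s, r0, q0, μ, gd, hε, hε1, χ1, χ2, χ3, χ4, χ5, χ6, s1, s2, s3, s4, s5, s6, hr0, hr1,
    hq1, hq2, k1, k5, k6, fun i t ht => k7 i t (ht.le.trans (hq3 i)), k8⟩⟩

section Neck

variable {m : ℕ} {g : Fin m → ℝ → ℝ} {C ε δ : ℝ} (P : Par g C ε δ)

/-- the weights of the resolved triple. -/
def Par.mu (i : Fin m) (b : Fin 3) : ℝ := ![P.μ i, 1, 1] b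

lemma Par.mu_pos (i : Fin m) (b : Fin 3) : 0 < P.mu i b := by
  fin_cases b
  · exact P.μ_pos i
  · exact one_pos
  · exact one_pos

/-- the triple on the neck. -/
def nu (i : Fin m) (r : Fin 3 → Fin 3 → ℝ) (F : E4 → E4) (th : Fin 3 → E4 → E4 →L[ℝ] ℝ)
    (a : Fin 3) (z : E4) : Bil :=
  ∑ b, r a b • pl (fderiv ℝ F z) (et b) + r a 0 • (d1 (lg (P.gd i)) z - et 0)
    + d1 (fun y => P.χ y • th a y) z

/-- conditions on the map. -/
structure FOK (F : E4 → E4) : Prop where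
  cd : ∀ z ∈ PB 1, ContDiffAt ℝ ∞ F z
  odd : ∀ z, F (-z) = - F z
  id0 : ∀ z, ‖z‖ ≤ P.r0 → F z = z

/-- conditions on the primitives. -/
structure ThOK (th : E4 → E4 →L[ℝ] ℝ) : Prop where
  cd : ∀ z ∈ Metric.ball (0 : E4) 1, ContDiffAt ℝ ∞ th z
  odd : ∀ z, th (-z) = - th z

variable {P}

lemma PB_in_ball {z : E4} (hz : z ∈ PB 1) : z ∈ Metric.ball (0 : E4) 1 := PB_ball hz

lemma gd_cdAt (P : Par g C ε δ) (i : Fin m) {z : E4} (hz : z ≠ 0) :
    ContDiffAt ℝ ∞ (P.gd i) (‖z‖ ^ 2) := (P.gd_cd i).contDiffAt (Ioi_mem_nhds (nsq_pos hz))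

lemma gd_df (P : Par g C ε δ) (i : Fin m) {z : E4} (hz : z ≠ 0) :
    DifferentiableAt ℝ (P.gd i) (‖z‖ ^ 2) := (gd_cdAt P i hz).differentiableAt infty_ne_zero

lemma chith_cd {th : E4 → E4 →L[ℝ] ℝ} (h : ThOK th) {z : E4} (hz : z ∈ Metric.ball (0 : E4) 1) :
    ContDiffAt ℝ ∞ (fun y => P.χ y • th y) z := (P.χ_cd.contDiffAt).smul (h.cd z hz)

lemma chith_odd {th : E4 → E4 →L[ℝ] ℝ} (h : ThOK th) (z : E4) :
    P.χ (-z) • th (-z) = - (P.χ z • th z) := by
  rw [P.χ_even, h.odd, smul_neg]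

/-- `nu` is smooth and closed. -/
lemma z2At_nu {i : Fin m} {r : Fin 3 → Fin 3 → ℝ} {F : E4 → E4}
    {th : Fin 3 → E4 → E4 →L[ℝ] ℝ} (hF : FOK P F) (ht : ∀ a, ThOK (th a)) (a : Fin 3) {z : E4}
    (hz : z ∈ PB 1) : Z2At ((fun z => nu P i r F th a z) : F2 E4 E4) z := by
  have h1 : Z2At (fun y => ∑ b ∈ (Finset.univ : Finset (Fin 3)),
      at2 ((fun y => r a b • pl (fderiv ℝ F y) (et b)) : F2 E4 E4) y : F2 E4 E4) z :=
    z2At_sum _ fun b _ => (z2At_pl (hF.cd z hz) (alt_et b)).smul (r a b)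
  have h2 := ((z2At_d1 (contDiffAt_lg hz.1 (gd_cdAt P i hz.1))).add
    ((z2At_const (alt_et 0) z).smul (-1))).smul (r a 0)
  have h3 := z2At_d1 (chith_cd (P := P) (ht a) (PB_in_ball hz))
  refine ((h1.add h2).add h3).congr (Eventually.of_forall fun y => ?_)
  show (∑ b, r a b • pl (fderiv ℝ F y) (et b) + r a 0 • (d1 (lg (P.gd i)) y + (-1 : ℝ) • et 0))
    + d1 (fun y => P.χ y • th a y) y = nu P i r F th a y
  unfold nu
  rw [neg_one_smul, ← sub_eq_add_neg]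

lemma nu_even {i : Fin m} {r : Fin 3 → Fin 3 → ℝ} {F : E4 → E4}
    {th : Fin 3 → E4 → E4 →L[ℝ] ℝ} (hF : FOK P F) (ht : ∀ a, ThOK (th a)) (a : Fin 3) (z : E4) :
    nu P i r F th a (-z) = nu P i r F th a z := by
  unfold nu
  rw [fderiv_odd hF.odd, d1_lg_neg, d1_odd (chith_odd (P := P) (ht a))]

/-- `χ θ` vanishes near points of norm `< ε/2`. -/
lemma d1_chith_zero {th : E4 → E4 →L[ℝ] ℝ} {z : E4} (hz : ‖z‖ < ε / 2) :
    d1 (fun y => P.χ y • th y) z = 0 := by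
  refine d1_zero_of_ev ?_
  have h : ∀ᶠ y in 𝓝 z, ‖y‖ < ε / 2 := continuous_norm.continuousAt.eventually (Iio_mem_nhds hz)
  filter_upwards [h] with y hy
  rw [P.χ_0 y hy.le, zero_smul]

lemma fderiv_id0 {F : E4 → E4} (hF : FOK P F) {z : E4} (hz : ‖z‖ < P.r0) :
    fderiv ℝ F z = ContinuousLinearMap.id ℝ E4 := by
  have h : ∀ᶠ y in 𝓝 z, ‖y‖ < P.r0 := continuous_norm.continuousAt.eventually (Iio_mem_nhds hz)
  have h2 : F =ᶠ[𝓝 z] id := h.mono fun y hy => hF.id0 y hy.le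
  rw [h2.fderiv_eq, fderiv_id]

/-- the core of the neck. -/
lemma nu_core {i : Fin m} {r : Fin 3 → Fin 3 → ℝ} {F : E4 → E4}
    {th : Fin 3 → E4 → E4 →L[ℝ] ℝ} (hF : FOK P F) (a : Fin 3) {z : E4} (hz : ‖z‖ < P.r0) :
    nu P i r F th a z = ∑ b, r a b • neckT (P.gd i) z b := by
  unfold nu
  have h1 := P.r0_lt
  rw [fderiv_id0 hF hz, d1_chith_zero (by linarith), add_zero, Fin.sum_univ_three,
    Fin.sum_univ_three, pl_id, pl_id, pl_id]
  show _ = r a 0 • d1 (lg (P.gd i)) z + r a 1 • et 1 + r a 2 • et 2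
  module

lemma neckT_gd {i : Fin m} {z : E4} (hz : z ≠ 0) (hg : DifferentiableAt ℝ (g i) (‖z‖ ^ 2))
    (hq : ‖z‖ < P.q0) (b : Fin 3) : neckT (P.gd i) z b = P.mu i b • neckT (g i) z b := by
  fin_cases b
  · show d1 (lg (P.gd i)) z = P.μ i • d1 (lg (g i)) z
    have h1 : ‖z‖ ^ 2 < P.q0 ^ 2 := by
      have := norm_nonneg z
      gcongr
    have h2 : P.gd i =ᶠ[𝓝 (‖z‖ ^ 2)] fun t => P.μ i * g i t := by
      filter_upwards [Iio_mem_nhds h1] with t ht
      exact P.gd_0 i t ht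
    rw [d1_lg_congr h2, d1_lg_smul hz hg]
  · show et 1 = (1 : ℝ) • et 1
    rw [one_smul]
  · show et 2 = (1 : ℝ) • et 2
    rw [one_smul]

lemma posB_core {i : Fin m} {z : E4} (hz : z ∈ PB 1) : PosB (neckT (P.gd i) z) :=
  posB_neck hz.1 (gd_df P i hz.1) (P.gd_pos i _ (nsq_pos hz.1) (nsq_lt hz)).1
    (P.gd_pos i _ (nsq_pos hz.1) (nsq_lt hz)).2

/-- lower triangular with positive diagonal. -/
def LT (r : Fin 3 → Fin 3 → ℝ) : Prop := (∀ a b, a < b → r a b = 0) ∧ ∀ a, 0 < r a a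

lemma LT.inj {r : Fin 3 → Fin 3 → ℝ} (h : LT r) {x : Fin 3 → ℝ} (hx : x ≠ 0) :
    (fun b => ∑ a, x a * r a b) ≠ 0 := lt_inj h.1 h.2 hx

lemma LT.comb {r r' : Fin 3 → Fin 3 → ℝ} (h : LT r) (h' : LT r') {t : ℝ} (h0 : 0 ≤ t)
    (h1 : t ≤ 1) : LT fun a b => (1 - t) * r a b + t * r' a b := by
  refine ⟨fun a b hab => ?_, fun a => ?_⟩
  · show (1 - t) * r a b + t * r' a b = 0
    rw [h.1 a b hab, h'.1 a b hab]; ring
  · show 0 < (1 - t) * r a a + t * r' a a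
    have e1 := h.2 a
    have e2 := h'.2 a
    rcases eq_or_lt_of_le h0 with h2 | h2
    · rw [← h2]; simpa using e1
    · have := mul_pos h2 e2
      have h3 : 0 ≤ (1 - t) * r a a := mul_nonneg (by linarith) e1.le
      linarith

lemma LT.scale {r : Fin 3 → Fin 3 → ℝ} (h : LT r) {k : Fin 3 → ℝ} (hk : ∀ b, 0 < k b) :
    LT fun a b => r a b * k b := by
  refine ⟨fun a b hab => ?_, fun a => mul_pos (h.2 a) (hk a)⟩
  show r a b * k b = 0
  rw [h.1 a b hab, zero_mul]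

end Neck

/-! ### realisations -/

section Real

variable {M : Type u} [TopologicalSpace M] [T2Space M] [CompactSpace M]
  [ChartedSpace E4 M] [IsManifold 𝓘(ℝ, E4) ∞ M]
  {m : ℕ} {σ : Fin m → E3 → M} {w : Trip M} {R r₀ : Fin m → ℝ} {g : Fin m → ℝ → ℝ}
  {K : KIn M m}
  {X : Type u} [TopologicalSpace X] [T2Space X] [CompactSpace X]
  [ChartedSpace E4 X] [IsManifold 𝓘(ℝ, E4) ∞ X]

/-- the form `u a` in the chart at the `i`-th new point. -/
def chf (O : KOut K X) (u : Trip X) (i : Fin m) (a : Fin 3) (z : E4) : Bil :=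
  pl (D1 E4 E4 (O.ch i) z) (val (u a) (O.ch i z))

/-- `W` is the triple on `M` with the given data. -/
structure Real (w : Trip M) (R : Fin m → ℝ) {C ε δ : ℝ} (O : KOut K X) (P : Par g C ε δ)
    (u : Trip X)
    (r : Fin m → Fin 3 → Fin 3 → ℝ) (F : Fin m → E4 → E4)
    (th : Fin m → Fin 3 → E4 → E4 →L[ℝ] ℝ) (W : Trip M) : Prop where
  c : ∀ i a, ∀ y ∈ K.C i, val (W a) y = ∑ b, (r i a b * (P.mu i b / R i)) • val (w b) y
  n : ∀ i a, ∀ z ∈ PB 1, pl (D1 E4 E4 (K.phi i) z) (val (W a) (K.phi i z)) =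
    nu P i (r i) (F i) (th i) a z
  o : ∀ a, ∀ x ∈ Reg O, (∀ i, ∀ z, ‖z‖ ≤ ε → x ≠ O.ch i z) →
    pl (D1 E4 E4 O.pr x) (val (W a) (O.pr x)) = val (u a) x

variable {C ε δ : ℝ} {O : KOut K X} {P : Par g C ε δ}
  {u : Trip X} {r : Fin m → Fin 3 → Fin 3 → ℝ} {F : Fin m → E4 → E4}
  {th : Fin m → Fin 3 → E4 → E4 →L[ℝ] ℝ}

/-- the points of `M`. -/
lemma cases_M (O : KOut K X) (hε : ε < 1) (y : M) : (∃ i, y ∈ K.C i) ∨
    (∃ i, ∃ z ∈ PB 1, K.phi i z = y) ∨
    (∃ x ∈ Reg O, (∀ i, ∀ z, ‖z‖ ≤ ε → x ≠ O.ch i z) ∧ O.pr x = y) := by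
  by_cases h : ∃ i, y ∈ K.C i
  · exact Or.inl h
  · refine Or.inr ?_
    obtain ⟨x, hx, rfl⟩ := O.pr_surj y fun i hi => h ⟨i, hi⟩
    by_cases h2 : ∃ i, ∃ z, ‖z‖ ≤ ε ∧ x = O.ch i z
    · obtain ⟨i, z, hz, rfl⟩ := h2
      have hz0 : z ≠ 0 := by
        rintro rfl
        exact hx i rfl
      have hzP : z ∈ PB 1 := ⟨hz0, lt_of_le_of_lt hz hε⟩
      exact Or.inl ⟨i, z, hzP, (O.pr_ch i z hzP).symm⟩
    · push Not at h2
      exact Or.inr ⟨x, hx, h2, rfl⟩

theorem Real.unique {W W' : Trip M} (h : Real w R O P u r F th W) (h' : Real w R O P u r F th W') :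
    W = W' := by
  funext a
  refine ext_Z2 fun y => ?_
  rcases cases_M O P.ε_lt y with ⟨i, hi⟩ | ⟨i, z, hz, rfl⟩ | ⟨x, hx, hx2, rfl⟩
  · rw [h.c i a y hi, h'.c i a y hi]
  · refine pl_inj (A := D1 E4 E4 (K.phi i) z) (K.imm i z hz) ?_
    rw [h.n i a z hz, h'.n i a z hz]
  · refine pl_inj (A := D1 E4 E4 O.pr x) (O.pr_imm x hx) ?_
    rw [h.o a x hx hx2, h'.o a x hx hx2]

/-- existence. -/
theorem Real.exists' (hS : Std σ w K.phi 1 R r₀ g) (hu : EvenT O.io u) (hF : ∀ i, FOK P (F i))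
    (ht : ∀ i a, ThOK (th i a))
    (hout : ∀ i a, ∀ z ∈ PB 1, ε < ‖z‖ → nu P i (r i) (F i) (th i) a z = chf O u i a z) :
    ∃ W : Trip M, Real w R O P u r F th W := by
  have key : ∀ a : Fin 3, ∃ c : F2 E4 M, (∀ y, Z2At c y) ∧
      (∀ i, ∀ y ∈ K.C i, at2 c y = at2 ((fun y => ∑ b, (r i a b * (P.mu i b / R i)) •
        val (w b) y) : F2 E4 M) y) ∧
      (∀ i, ∀ z ∈ PB 1, pl (D1 E4 E4 (K.phi i) z) (at2 c (K.phi i z)) =
        at2 ((fun z => nu P i (r i) (F i) (th i) a z) : F2 E4 E4) z) ∧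
      (∀ x ∈ Reg O, (∀ i, ∀ z, ‖z‖ ≤ ε → x ≠ O.ch i z) →
        pl (D1 E4 E4 O.pr x) (at2 c (O.pr x)) = at2 ((u a).1.1 : F2 E4 X) x) := by
    intro a
    refine down O ((u a).1.1 : F2 E4 X) (fun x _ => z2At_val (u a) x)
      (fun x _ => (evenT_iff.1 hu) a x)
      (fun i => ((fun z => nu P i (r i) (F i) (th i) a z) : F2 E4 E4))
      (fun i z hz => z2At_nu (hF i) (ht i) a hz) (fun i z _ => nu_even (hF i) (ht i) a z)
      ε P.ε_lt (fun i z hz hr => (hout i a z hz hr).symm)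
      (fun i => ((fun y => ∑ b, (r i a b * (P.mu i b / R i)) • val (w b) y) : F2 E4 M))
      P.q0 P.q0_pos ?_ (fun i y _ => ?_) fun i z hz => ?_
    · have h1 := P.q0_lt
      have h2 := P.r0_lt
      have h3 := P.ε_lt
      have h4 := P.ε_pos
      linarith
    · have h1 : Z2At (fun y => ∑ b ∈ (Finset.univ : Finset (Fin 3)),
          at2 ((fun y => (r i a b * (P.mu i b / R i)) • val (w b) y) : F2 E4 M) y : F2 E4 M) y :=
        z2At_sum _ fun b _ => (z2At_val (w b) y).smul _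
      exact h1
    · have h1 := P.q0_lt
      have h2 := P.r0_lt
      have h3 := P.ε_lt
      have h4 := P.ε_pos
      have hz1 : z ∈ PB 1 := PB_mono (by linarith) hz
      rw [at2_pb2]
      show pl (D1 E4 E4 (K.phi i) z) (∑ b, (r i a b * (P.mu i b / R i)) •
        val (w b) (K.phi i z)) = nu P i (r i) (F i) (th i) a z
      rw [nu_core (hF i) a (hz.2.trans h1), pl_sum]
      refine Finset.sum_congr rfl fun b _ => ?_
      rw [std_pl hS i hz1 b, neckT_gd hz.1 (std_df hS i hz.1) hz.2 b, smul_smul, smul_smul]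
      congr 1
      have h5 := (hS.R_pos i).ne'
      field_simp
  choose c hc0 hc1 hc2 hc3 using key
  exact ⟨fun a => mkZ (c a) (hc0 a), fun i a y hy => hc1 a i y hy, fun i a z hz => hc2 a i z hz,
    fun a x hx hx2 => hc3 a x hx hx2⟩

/-- positivity of a combination of realisations. -/
theorem Real.seg (hS : Std σ w K.phi 1 R r₀ g) (hw : Pos3 w) {u' : Trip X}
    {r' : Fin m → Fin 3 → Fin 3 → ℝ} {F' : Fin m → E4 → E4}
    {th' : Fin m → Fin 3 → E4 → E4 →L[ℝ] ℝ} {W W' : Trip M}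
    (h : Real w R O P u r F th W) (h' : Real w R O P u' r' F' th' W')
    (hF : ∀ i, FOK P (F i)) (hF' : ∀ i, FOK P (F' i))
    (hr : ∀ i, LT (r i)) (hr' : ∀ i, LT (r' i)) (hu : Seg u u')
    (hout : ∀ i a, ∀ z ∈ PB 1, ε < ‖z‖ → nu P i (r i) (F i) (th i) a z = chf O u i a z)
    (hout' : ∀ i a, ∀ z ∈ PB 1, ε < ‖z‖ →
      nu P i (r' i) (F' i) (th' i) a z = chf O u' i a z)
    (hmid : ∀ i, ∀ z, P.r0 ≤ ‖z‖ → ‖z‖ ≤ ε → ∀ τ ∈ Icc (0 : ℝ) 1,
      PosB (fun a => (1 - τ) • nu P i (r i) (F i) (th i) a z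
        + τ • nu P i (r' i) (F' i) (th' i) a z)) : Seg W W' := by
  intro τ h0 h1 y
  show PosB (fun a => (1 - τ) • val (W a) y + τ • val (W' a) y)
  have halt : ∀ y a, Alt ((1 - τ) • val (W a) y + τ • val (W' a) y) := by
    intro y a v
    show (1 - τ) * val (W a) y v v + τ * val (W' a) y v v = 0
    rw [alt_val _ _ v, alt_val _ _ v]; ring
  rcases cases_M O P.ε_lt y with ⟨i, hi⟩ | ⟨i, z, hz, rfl⟩ | ⟨x, hx, hx2, rfl⟩
  · -- on the spheres
    have hk : ∀ b, 0 < P.mu i b / R i := fun b => div_pos (P.mu_pos i b) (hS.R_pos i)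
    have h2 := posB_comb (hw y) (r := fun a b => ((1 - τ) * r i a b + τ * r' i a b) *
      (P.mu i b / R i)) fun x hx => (((hr i).comb (hr' i) h0 h1).scale hk).inj hx
    have h3 : (fun a => (1 - τ) • val (W a) y + τ • val (W' a) y) =
        fun a => ∑ b, (((1 - τ) * r i a b + τ * r' i a b) * (P.mu i b / R i)) •
          val (w b) y := by
      funext a
      rw [h.c i a y hi, h'.c i a y hi, Finset.smul_sum, Finset.smul_sum,
        ← Finset.sum_add_distrib]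
      refine Finset.sum_congr rfl fun b _ => ?_
      module
    rw [h3]; exact h2
  · -- on the necks
    refine posB_of_pl (halt _) (K.imm i z hz)
      (c := fun a => (1 - τ) • nu P i (r i) (F i) (th i) a z
        + τ • nu P i (r' i) (F' i) (th' i) a z) (fun a => ?_) ?_
    · show pl (D1 E4 E4 (K.phi i) z) ((1 - τ) • val (W a) (K.phi i z)
        + τ • val (W' a) (K.phi i z)) = _
      rw [pl_add, pl_smul, pl_smul, h.n i a z hz, h'.n i a z hz]
    · rcases lt_or_ge ‖z‖ P.r0 with hz1 | hz1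
      · have h2 := posB_comb (posB_core (P := P) (i := i) hz) (r := fun a b =>
          (1 - τ) * r i a b + τ * r' i a b) fun x hx => ((hr i).comb (hr' i) h0 h1).inj hx
        have h3 : (fun a => (1 - τ) • nu P i (r i) (F i) (th i) a z
            + τ • nu P i (r' i) (F' i) (th' i) a z) =
            fun a => ∑ b, ((1 - τ) * r i a b + τ * r' i a b) • neckT (P.gd i) z b := by
          funext a
          rw [nu_core (hF i) a hz1, nu_core (hF' i) a hz1, Finset.smul_sum, Finset.smul_sum,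
            ← Finset.sum_add_distrib]
          refine Finset.sum_congr rfl fun b _ => ?_
          module
        rw [h3]; exact h2
      · rcases le_or_gt ‖z‖ ε with hz2 | hz2
        · exact hmid i z hz1 hz2 τ ⟨h0, h1⟩
        · have h2 := hu τ h0 h1 (O.ch i z)
          have h2' : PosB (fun a => (1 - τ) • val (u a) (O.ch i z)
            + τ • val (u' a) (O.ch i z)) := h2
          refine posB_of_eq_pl (b := fun a => (1 - τ) • val (u a) (O.ch i z)
            + τ • val (u' a) (O.ch i z)) (fun a v => ?_) (O.ch_imm i z (PB_ball hz))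
            (fun a => ?_) h2'
          · show (1 - τ) * val (u a) (O.ch i z) v v + τ * val (u' a) (O.ch i z) v v = 0
            rw [alt_val _ _ v, alt_val _ _ v]; ring
          · show _ = pl (D1 E4 E4 (O.ch i) z) ((1 - τ) • val (u a) (O.ch i z)
              + τ • val (u' a) (O.ch i z))
            rw [hout i a z hz hz2, hout' i a z hz hz2, pl_add, pl_smul, pl_smul]
            rfl
  · -- outside
    have h2 : PosB (fun a => (1 - τ) • val (u a) x + τ • val (u' a) x) := hu τ h0 h1 x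
    refine posB_of_pl (halt _) (O.pr_imm x hx) (fun a => ?_) h2
    show pl (D1 E4 E4 O.pr x) ((1 - τ) • val (W a) (O.pr x) + τ • val (W' a) (O.pr x)) = _
    rw [pl_add, pl_smul, pl_smul, h.o a x hx hx2, h'.o a x hx hx2]

end Real

end

end Crest.Agent.R235.KReal_604
end

-- ▼ part R235/KPrim_856
section

/-!
Row 235 (S0364), package KUM, KDOWN leaf L2 (helper856): an even closed two-form on the unit ball
minus its value at `0` has an odd primitive which vanishes to second order at `0`.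
-/

set_option autoImplicit false
set_option maxSynthPendingDepth 3

open Set Function Filter Metric
open scoped ContDiff Topology

namespace Crest.Agent.R235.KPrim_856

open Crest.Agent.R240 Crest.Agent.R240.Ch

noncomputable section

theorem dd_swap {om : E4 → Bil} (hs : ContDiffOn ℝ ∞ om (ball 0 1))
    (ha : ∀ z ∈ ball (0 : E4) 1, ∀ v, om z v v = 0) {z : E4} (hz : z ∈ ball (0 : E4) 1)
    (u v w : E4) : fderiv ℝ om z u v w = - fderiv ℝ om z u w v := by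
  have hd : DifferentiableAt ℝ om z :=
    (hs.differentiableOn (by simp)).differentiableAt (isOpen_ball.mem_nhds hz)
  have h0 : ∀ v : E4, fderiv ℝ om z u v v = 0 := by
    intro v
    have h1 : HasFDerivAt (fun y => om y v v)
        (((ContinuousLinearMap.apply ℝ ℝ v).comp
          (ContinuousLinearMap.apply ℝ (E4 →L[ℝ] ℝ) v)).comp (fderiv ℝ om z)) z := by
      have h2 := ((ContinuousLinearMap.apply ℝ ℝ v).comp
          (ContinuousLinearMap.apply ℝ (E4 →L[ℝ] ℝ) v)).hasFDerivAt (x := om z)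
      exact h2.comp z hd.hasFDerivAt
    have h3 : (fun y => om y v v) =ᶠ[𝓝 z] fun _ => (0 : ℝ) := by
      filter_upwards [isOpen_ball.mem_nhds hz] with y hy
      exact ha y hy v
    have h4 := h1.fderiv
    rw [h3.fderiv_eq, fderiv_fun_const] at h4
    have h5 := DFunLike.congr_fun h4 u
    simpa using h5.symm
  have h1 := h0 (v + w)
  have h2 := h0 v
  have h3 := h0 w
  simp only [map_add, _root_.add_apply] at h1
  linarith

theorem exists_prim (om : E4 → Bil) (hs : ContDiffOn ℝ ∞ om (Metric.ball 0 1))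
    (ha : ∀ z ∈ Metric.ball (0:E4) 1, ∀ v, om z v v = 0)
    (hc : ∀ z ∈ Metric.ball (0:E4) 1, ∀ u v w, dd om z u v w = 0)
    (he : ∀ z ∈ Metric.ball (0:E4) 1, om (-z) = om z) :
    ∃ (th : E4 → E4 →L[ℝ] ℝ) (C : ℝ), 0 ≤ C ∧ ContDiffOn ℝ ∞ th (Metric.ball 0 1) ∧
      (∀ z, th (-z) = - th z) ∧
      (∀ z ∈ Metric.ball (0:E4) 1, ∀ u v, d1 th z u v = om z u v - om 0 u v) ∧
      ∀ z, ‖z‖ ≤ 1 / 2 → ‖th z‖ ≤ C * ‖z‖ ^ 2 ∧ ‖fderiv ℝ th z‖ ≤ C * ‖z‖ := by
  have h0m : (0 : E4) ∈ ball (0 : E4) 1 := mem_ball_self one_pos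
  have hneg : ∀ z ∈ ball (0 : E4) 1, -z ∈ ball (0 : E4) 1 := fun z hz => by
    rw [mem_ball_zero_iff, norm_neg]; exact mem_ball_zero_iff.1 hz
  -- the form minus its value at zero
  have hs' : ContDiffOn ℝ ∞ (fun z => om z - om 0) (ball 0 1) := hs.sub contDiffOn_const
  have hf' : ∀ z, fderiv ℝ (fun z => om z - om 0) z = fderiv ℝ om z := fun z => by
    rw [fderiv_sub_const]
  obtain ⟨t, ht, hdt⟩ := Crest.Agent.R281.Poi_234.poincare2 (U := ball (0 : E4) 1) isOpen_ball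
    (convex_ball _ _) (om := fun z => om z - om 0) hs'
    (fun z hz v => by
      simp only [_root_.sub_apply]
      rw [ha z hz, ha 0 h0m, sub_zero])
    (fun z hz u v w => by
      rw [hf']
      have h1 := hc z hz u v w
      unfold dd at h1
      have h2 := dd_swap hs ha hz v w u
      linarith)
  have htd : ∀ z ∈ ball (0 : E4) 1, DifferentiableAt ℝ t z := fun z hz =>
    (ht.differentiableOn (by simp)).differentiableAt (isOpen_ball.mem_nhds hz)
  set L : E4 →L[ℝ] E4 →L[ℝ] ℝ := fderiv ℝ t 0 with hL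
  have hLs : ∀ u v, L u v = L v u := fun u v => by
    have := hdt 0 h0m u v
    simp only [sub_self, _root_.zero_apply] at this
    linarith
  set t1 : E4 → E4 →L[ℝ] ℝ := fun z => t z - t 0 - L z with ht1
  have ht1s : ContDiffOn ℝ ∞ t1 (ball 0 1) :=
    (ht.sub contDiffOn_const).sub L.contDiff.contDiffOn
  have ht1d : ∀ z ∈ ball (0 : E4) 1, HasFDerivAt t1 (fderiv ℝ t z - L) z := fun z hz =>
    ((htd z hz).hasFDerivAt.sub_const _).sub L.hasFDerivAt
  set th : E4 → E4 →L[ℝ] ℝ := fun z => (1 / 2 : ℝ) • (t1 z - t1 (-z)) with hth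
  have hms : ContDiffOn ℝ ∞ (fun z => t1 (-z)) (ball 0 1) :=
    ht1s.comp contDiff_neg.contDiffOn hneg
  have hths : ContDiffOn ℝ ∞ th (ball 0 1) := (ht1s.sub hms).const_smul (1 / 2 : ℝ)
  have hthd : ∀ z ∈ ball (0 : E4) 1, HasFDerivAt th
      ((1 / 2 : ℝ) • ((fderiv ℝ t z - L) + (fderiv ℝ t (-z) - L))) z := fun z hz => by
    have h1 := ht1d z hz
    have h2 := (ht1d (-z) (hneg z hz)).comp z (hasFDerivAt_id z).neg
    have h3 := (h1.sub h2).const_smul (1 / 2 : ℝ)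
    refine h3.congr_fderiv ?_
    ext u v
    simp only [_root_.smul_apply, _root_.add_apply, _root_.sub_apply, smul_eq_mul,
      ContinuousLinearMap.comp_apply, _root_.neg_apply, ContinuousLinearMap.id_apply, map_neg]
    ring
  have hth0 : th 0 = 0 := by simp [hth]
  have hfd0 : fderiv ℝ th 0 = 0 := by
    rw [(hthd 0 h0m).fderiv]
    simp [hL]
  -- the bound
  have hf1 : ContDiffOn ℝ ∞ (fderiv ℝ th) (ball 0 1) :=
    hths.fderiv_of_isOpen isOpen_ball (by simp)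
  have hf2 : ContinuousOn (fderiv ℝ (fderiv ℝ th)) (ball 0 1) :=
    hf1.continuousOn_fderiv_of_isOpen isOpen_ball (by simp)
  have hsub : closedBall (0 : E4) (1 / 2) ⊆ ball 0 1 := closedBall_subset_ball (by norm_num)
  obtain ⟨C, hC⟩ := (isCompact_closedBall (0 : E4) (1 / 2)).exists_bound_of_continuousOn
    (hf2.mono hsub)
  have hC0 : 0 ≤ C := (norm_nonneg _).trans (hC 0 (mem_closedBall_self (by norm_num)))
  have hb1 : ∀ z, ‖z‖ ≤ 1 / 2 → ‖fderiv ℝ th z‖ ≤ C * ‖z‖ := by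
    intro z hz
    have h1 := (convex_closedBall (0 : E4) (1 / 2)).norm_image_sub_le_of_norm_fderiv_le (𝕜 := ℝ)
      (f := fderiv ℝ th) (C := C)
      (fun y hy => (hf1.differentiableOn (by simp)).differentiableAt
        (isOpen_ball.mem_nhds (hsub hy))) hC
      (mem_closedBall_self (by norm_num)) (mem_closedBall_zero_iff.2 hz)
    rwa [hfd0, sub_zero, sub_zero] at h1
  refine ⟨th, C, hC0, hths, fun z => ?_, fun z hz u v => ?_, fun z hz => ⟨?_, hb1 z hz⟩⟩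
  · simp only [hth, neg_neg]
    rw [← smul_neg, neg_sub]
  · rw [d1_apply, (hthd z hz).fderiv]
    have h1 := hdt z hz u v
    have h2 := hdt (-z) (hneg z hz) u v
    rw [he z hz] at h2
    have h3 := hLs u v
    simp only [_root_.smul_apply, _root_.add_apply, _root_.sub_apply, smul_eq_mul] at h1 h2 ⊢
    linarith
  · have h1 := (convex_closedBall (0 : E4) ‖z‖).norm_image_sub_le_of_norm_fderiv_le (𝕜 := ℝ)
      (f := th) (C := C * ‖z‖)
      (fun y hy => (hthd y (hsub (closedBall_subset_closedBall hz hy))).differentiableAt)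
      (fun y hy => (hb1 y ((mem_closedBall_zero_iff.1 hy).trans hz)).trans (by
        gcongr; exact mem_closedBall_zero_iff.1 hy))
      (mem_closedBall_self (norm_nonneg _)) (mem_closedBall_zero_iff.2 le_rfl)
    rw [hth0, sub_zero, sub_zero] at h1
    linarith [h1, (by ring : C * ‖z‖ * ‖z‖ = C * ‖z‖ ^ 2)]

end

end Crest.Agent.R235.KPrim_856
end

-- ▼ part R235/KInterp_856
section

/-!
Row 235 (S0364), package KUM, KDOWN leaf L6 (helper856): interpolation with the identity and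
cut-off of a small primitive.
-/

set_option autoImplicit false
set_option maxSynthPendingDepth 3

open Set Function Filter Metric
open scoped ContDiff Topology

namespace Crest.Agent.R235.KInterp_856

open Crest.Agent.R240 Crest.Agent.R240.Ch

noncomputable section

theorem exists_interp (Θ : E4 → E4) (hΘ : ∀ z ∈ Metric.ball (0:E4) 1, ContDiffAt ℝ ∞ Θ z)
    (h0 : Θ 0 = 0) (h1 : fderiv ℝ Θ 0 = ContinuousLinearMap.id ℝ E4) (C : ℝ) (hC : 0 < C) :
    ∃ C' : ℝ, 0 < C' ∧ ∀ ε : ℝ, 0 < ε → ε ≤ 1 / 2 → ∀ χ : E4 → ℝ, ContDiff ℝ ∞ χ →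
      (∀ z, 0 ≤ χ z ∧ χ z ≤ 1) → (∀ z v, |fderiv ℝ χ z v| ≤ C / ε * ‖v‖) →
      ∀ z, ‖z‖ ≤ ε →
        ‖fderiv ℝ (fun y : E4 => y + χ y • (Θ y - y)) z - ContinuousLinearMap.id ℝ E4‖ ≤
          C' * ε := by
  set f : E4 → E4 := fun y => Θ y - y with hf
  have h0m : (0 : E4) ∈ ball (0 : E4) 1 := mem_ball_self one_pos
  have hΘs : ContDiffOn ℝ ∞ Θ (ball 0 1) := fun z hz => (hΘ z hz).contDiffWithinAt
  have hfs : ContDiffOn ℝ ∞ f (ball 0 1) := hΘs.sub contDiff_id.contDiffOn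
  have hfd : ∀ z ∈ ball (0 : E4) 1, DifferentiableAt ℝ f z := fun z hz =>
    (hfs.differentiableOn (by simp)).differentiableAt (isOpen_ball.mem_nhds hz)
  have hf0 : f 0 = 0 := by simp [hf, h0]
  have hfd0 : fderiv ℝ f 0 = 0 := by
    have h2 : HasFDerivAt f (fderiv ℝ Θ 0 - ContinuousLinearMap.id ℝ E4) 0 :=
      ((hΘs.differentiableOn (by simp)).differentiableAt
        (isOpen_ball.mem_nhds h0m)).hasFDerivAt.sub (hasFDerivAt_id _)
    rw [h2.fderiv, h1, sub_self]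
  have hf1 : ContDiffOn ℝ ∞ (fderiv ℝ f) (ball 0 1) :=
    hfs.fderiv_of_isOpen isOpen_ball (by simp)
  have hf2 : ContinuousOn (fderiv ℝ (fderiv ℝ f)) (ball 0 1) :=
    hf1.continuousOn_fderiv_of_isOpen isOpen_ball (by simp)
  have hsub : closedBall (0 : E4) (1 / 2) ⊆ ball 0 1 := closedBall_subset_ball (by norm_num)
  obtain ⟨K, hK⟩ := (isCompact_closedBall (0 : E4) (1 / 2)).exists_bound_of_continuousOn
    (hf2.mono hsub)
  have hK0 : 0 ≤ K := (norm_nonneg _).trans (hK 0 (mem_closedBall_self (by norm_num)))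
  have hb1 : ∀ z, ‖z‖ ≤ 1 / 2 → ‖fderiv ℝ f z‖ ≤ K * ‖z‖ := by
    intro z hz
    have h1 := (convex_closedBall (0 : E4) (1 / 2)).norm_image_sub_le_of_norm_fderiv_le (𝕜 := ℝ)
      (f := fderiv ℝ f) (C := K)
      (fun y hy => (hf1.differentiableOn (by simp)).differentiableAt
        (isOpen_ball.mem_nhds (hsub hy))) hK
      (mem_closedBall_self (by norm_num)) (mem_closedBall_zero_iff.2 hz)
    rwa [hfd0, sub_zero, sub_zero] at h1
  have hb2 : ∀ z, ‖z‖ ≤ 1 / 2 → ‖f z‖ ≤ K * ‖z‖ * ‖z‖ := by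
    intro z hz
    have h1 := (convex_closedBall (0 : E4) ‖z‖).norm_image_sub_le_of_norm_fderiv_le (𝕜 := ℝ)
      (f := f) (C := K * ‖z‖)
      (fun y hy => hfd y (hsub (closedBall_subset_closedBall hz hy)))
      (fun y hy => (hb1 y ((mem_closedBall_zero_iff.1 hy).trans hz)).trans (by
        gcongr; exact mem_closedBall_zero_iff.1 hy))
      (mem_closedBall_self (norm_nonneg _)) (mem_closedBall_zero_iff.2 le_rfl)
    rwa [hf0, sub_zero, sub_zero] at h1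
  refine ⟨K * (1 + C) + 1, by positivity, fun ε hε hε2 χ hχ hχb hχd z hz => ?_⟩
  have hz2 : ‖z‖ ≤ 1 / 2 := hz.trans hε2
  have hzb : z ∈ ball (0 : E4) 1 := hsub (mem_closedBall_zero_iff.2 hz2)
  have hd : HasFDerivAt (fun y : E4 => y + χ y • (Θ y - y))
      (ContinuousLinearMap.id ℝ E4 + (χ z • fderiv ℝ f z + (fderiv ℝ χ z).smulRight (f z))) z :=
    (hasFDerivAt_id z).add
      (((hχ.differentiable (by simp)) z).hasFDerivAt.smul (hfd z hzb).hasFDerivAt)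
  rw [hd.fderiv, add_sub_cancel_left]
  have e1 : ‖fderiv ℝ χ z‖ ≤ C / ε :=
    ContinuousLinearMap.opNorm_le_bound _ (by positivity) fun v => hχd z v
  have e2 : ‖χ z • fderiv ℝ f z‖ ≤ K * ε := by
    rw [norm_smul, Real.norm_of_nonneg (hχb z).1]
    calc χ z * ‖fderiv ℝ f z‖ ≤ 1 * (K * ‖z‖) := by
          have := (hχb z).2
          have := hb1 z hz2
          gcongr
      _ ≤ K * ε := by rw [one_mul]; gcongr
  have e3 : ‖(fderiv ℝ χ z).smulRight (f z)‖ ≤ K * C * ε := by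
    rw [ContinuousLinearMap.norm_smulRight_apply]
    calc ‖fderiv ℝ χ z‖ * ‖f z‖ ≤ C / ε * (K * ‖z‖ * ‖z‖) := by
          have := hb2 z hz2
          gcongr
      _ ≤ C / ε * (K * ε * ε) := by gcongr
      _ = K * C * ε := by field_simp
  calc _ ≤ ‖χ z • fderiv ℝ f z‖ + ‖(fderiv ℝ χ z).smulRight (f z)‖ := norm_add_le _ _
    _ ≤ K * ε + K * C * ε := add_le_add e2 e3
    _ ≤ (K * (1 + C) + 1) * ε := by nlinarith

theorem norm_d1_le (s : E4 → E4 →L[ℝ] ℝ) (z : E4) : ‖d1 s z‖ ≤ 2 * ‖fderiv ℝ s z‖ := by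
  unfold d1
  refine (norm_sub_le _ _).trans ?_
  rw [ContinuousLinearMap.opNorm_flip]
  linarith

theorem cut_small (th : E4 → E4 →L[ℝ] ℝ)
    (hth : ∀ z ∈ Metric.ball (0:E4) 1, DifferentiableAt ℝ th z) (C D : ℝ) (hC : 0 < C)
    (hD : 0 ≤ D)
    (hb : ∀ z : E4, ‖z‖ ≤ 1 / 2 → ‖th z‖ ≤ D * ‖z‖ ^ 2 ∧ ‖fderiv ℝ th z‖ ≤ D * ‖z‖) :
    ∃ C' : ℝ, 0 < C' ∧ ∀ ε : ℝ, 0 < ε → ε ≤ 1 / 2 → ∀ χ : E4 → ℝ, ContDiff ℝ ∞ χ →
      (∀ z, 0 ≤ χ z ∧ χ z ≤ 1) → (∀ z v, |fderiv ℝ χ z v| ≤ C / ε * ‖v‖) →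
      ∀ z, ‖z‖ ≤ ε → ‖d1 (fun y => χ y • th y) z‖ ≤ C' * ε := by
  have hsub : closedBall (0 : E4) (1 / 2) ⊆ ball 0 1 := closedBall_subset_ball (by norm_num)
  refine ⟨2 * (D * (1 + C)) + 1, by positivity, fun ε hε hε2 χ hχ hχb hχd z hz => ?_⟩
  have hz2 : ‖z‖ ≤ 1 / 2 := hz.trans hε2
  have hzb : z ∈ ball (0 : E4) 1 := hsub (mem_closedBall_zero_iff.2 hz2)
  have hd : HasFDerivAt (fun y : E4 => χ y • th y)
      (χ z • fderiv ℝ th z + (fderiv ℝ χ z).smulRight (th z)) z :=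
    ((hχ.differentiable (by simp)) z).hasFDerivAt.smul (hth z hzb).hasFDerivAt
  refine (norm_d1_le _ _).trans ?_
  rw [hd.fderiv]
  have e1 : ‖fderiv ℝ χ z‖ ≤ C / ε :=
    ContinuousLinearMap.opNorm_le_bound _ (by positivity) fun v => hχd z v
  obtain ⟨b1, b2⟩ := hb z hz2
  have e2 : ‖χ z • fderiv ℝ th z‖ ≤ D * ε := by
    rw [norm_smul, Real.norm_of_nonneg (hχb z).1]
    calc χ z * ‖fderiv ℝ th z‖ ≤ 1 * (D * ‖z‖) := by
          have := (hχb z).2
          gcongr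
      _ ≤ D * ε := by rw [one_mul]; gcongr
  have e3 : ‖(fderiv ℝ χ z).smulRight (th z)‖ ≤ D * C * ε := by
    rw [ContinuousLinearMap.norm_smulRight_apply]
    calc ‖fderiv ℝ χ z‖ * ‖th z‖ ≤ C / ε * (D * ‖z‖ ^ 2) := by gcongr
      _ ≤ C / ε * (D * ε ^ 2) := by gcongr
      _ = D * C * ε := by field_simp
  have e4 : ‖χ z • fderiv ℝ th z + (fderiv ℝ χ z).smulRight (th z)‖ ≤ D * ε + D * C * ε :=
    (norm_add_le _ _).trans (add_le_add e2 e3)
  nlinarith

end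

end Crest.Agent.R235.KInterp_856
end

-- ▼ part R235/KState_604
section

/-!
Row 235, KUM-K4 (helper604): states of the path on `X` (value at the new points, primitives, path
of endomorphisms) and the formulas for the neck triple in the zones.
-/

set_option autoImplicit false
set_option maxSynthPendingDepth 3
set_option linter.unusedSectionVars false

open Set Function Filter
open scoped Manifold ContDiff Topology RealInnerProductSpace

universe u

namespace Crest.Agent.R235.KState_604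

open Crest.Agent.R240 Crest.Agent.R240.Ch Crest.Agent.R235 Crest.Agent.R235.PB_604
  Crest.Agent.R235.KLin_604 Crest.Agent.R235.KT_604 Crest.Agent.R235.KGlue_604
  Crest.Agent.R235.KForm_604 Crest.Agent.R235.K12_417 Crest.Agent.R235.KUp_604
  Crest.Agent.R235.KReal_604

noncomputable section

/-! ### forms in the charts -/

lemma z2At_model_iff {b : E4 → Bil} {z : E4} (h : Z2At (b : F2 E4 E4) z) :
    (∀ v, b z v v = 0) ∧ ContDiffAt ℝ ∞ b z ∧ ∀ u v w, dd b z u v w = 0 := by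
  have h1 : rep z (b : F2 E4 E4) = b := funext fun y => rep_model z b y
  refine ⟨h.alt, ?_, ?_⟩
  · have := h.sm
    rw [h1] at this
    exact this
  · have := h.cl
    rw [h1] at this
    exact this

section Chart

variable {M : Type u} [TopologicalSpace M] [T2Space M] [CompactSpace M]
  [ChartedSpace E4 M] [IsManifold 𝓘(ℝ, E4) ∞ M]
  {m : ℕ} {K : KIn M m}
  {X : Type u} [TopologicalSpace X] [T2Space X] [CompactSpace X]
  [ChartedSpace E4 X] [IsManifold 𝓘(ℝ, E4) ∞ X]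

lemma chf_z2 (O : KOut K X) (u : Trip X) (i : Fin m) (a : Fin 3) {z : E4}
    (hz : z ∈ Metric.ball (0 : E4) 1) : Z2At (chf O u i a : F2 E4 E4) z :=
  (z2At_val (u a) (O.ch i z)).pb2 (KOut.ch_at O hz)

lemma chf_alt (O : KOut K X) (u : Trip X) (i : Fin m) (a : Fin 3) (z : E4) :
    Alt (chf O u i a z) := (alt_val (u a) (O.ch i z)).pull _

lemma chf_cd (O : KOut K X) (u : Trip X) (i : Fin m) (a : Fin 3) {z : E4}
    (hz : z ∈ Metric.ball (0 : E4) 1) : ContDiffAt ℝ ∞ (chf O u i a) z :=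
  (z2At_model_iff (chf_z2 O u i a hz)).2.1

lemma chf_even (O : KOut K X) {u : Trip X} (hu : EvenT O.io u) (i : Fin m) (a : Fin 3) {z : E4}
    (hz : z ∈ Metric.ball (0 : E4) 1) : chf O u i a (-z) = chf O u i a z :=
  even_ch O ((evenT_iff.1 hu) a) hz

lemma chf_seg (O : KOut K X) (u u' : Trip X) (t : ℝ) (i : Fin m) (a : Fin 3) (z : E4) :
    chf O (seg u u' t) i a z = (1 - t) • chf O u i a z + t • chf O u' i a z := by
  show pl _ ((1 - t) • val (u a) (O.ch i z) + t • val (u' a) (O.ch i z)) = _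
  rw [pl_add, pl_smul, pl_smul]
  rfl

/-- the constant triples. -/
def cc (O : KOut K X) (u : Trip X) (i : Fin m) : Fin 3 → Bil := fun a => chf O u i a 0

lemma cc_seg (O : KOut K X) (u u' : Trip X) (t : ℝ) (i : Fin m) :
    cc O (seg u u' t) i = fun a => (1 - t) • cc O u i a + t • cc O u' i a :=
  funext fun a => chf_seg O u u' t i a 0

lemma posB_chf (O : KOut K X) {u : Trip X} (hu : Pos3 u) (i : Fin m) {z : E4}
    (hz : z ∈ Metric.ball (0 : E4) 1) : PosB (fun a => chf O u i a z) :=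
  posB_of_eq_pl (b := fun a => val (u a) (O.ch i z)) (fun a => alt_val _ _) (O.ch_imm i z hz)
    (fun a => rfl) (hu (O.ch i z))

lemma seg_zero (u u' : Trip X) : seg u u' 0 = u := by
  funext i
  show (1 - (0 : ℝ)) • u i + (0 : ℝ) • u' i = u i
  rw [sub_zero, one_smul, zero_smul, add_zero]

lemma seg_one (u u' : Trip X) : seg u u' 1 = u' := by
  funext i
  show (1 - (1 : ℝ)) • u i + (1 : ℝ) • u' i = u' i
  rw [sub_self, one_smul, zero_smul, zero_add]

lemma seg_seg (u u' : Trip X) (t t' τ : ℝ) :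
    seg (seg u u' t) (seg u u' t') τ = seg u u' ((1 - τ) * t + τ * t') := by
  funext i
  show (1 - τ) • ((1 - t) • u i + t • u' i) + τ • ((1 - t') • u i + t' • u' i) =
    (1 - ((1 - τ) * t + τ * t')) • u i + ((1 - τ) * t + τ * t') • u' i
  module

lemma even_seg (O : KOut K X) {u u' : Trip X} (h : EvenT O.io u) (h' : EvenT O.io u') (t : ℝ) :
    EvenT O.io (seg u u' t) := by
  intro k x v v'
  show (1 - t) * val (u k) (O.io x) (dself O.io x v) (dself O.io x v')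
    + t * val (u' k) (O.io x) (dself O.io x v) (dself O.io x v') =
    (1 - t) * val (u k) x v v' + t * val (u' k) x v v'
  rw [h k x v v', h' k x v v']

/-! ### primitives -/

/-- primitives of `u - u(P_i)` in the charts. -/
structure Prim (O : KOut K X) (u : Trip X) (th : Fin m → Fin 3 → E4 → E4 →L[ℝ] ℝ) : Prop where
  ok : ∀ i a, ThOK (th i a)
  d : ∀ i a, ∀ z ∈ Metric.ball (0 : E4) 1, d1 (th i a) z = chf O u i a z - chf O u i a 0
  bd : ∀ i a, ∃ D : ℝ, 0 ≤ D ∧ ∀ z, ‖z‖ ≤ 1 / 2 →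
    ‖th i a z‖ ≤ D * ‖z‖ ^ 2 ∧ ‖fderiv ℝ (th i a) z‖ ≤ D * ‖z‖

theorem exists_prim (O : KOut K X) {u : Trip X} (hu : EvenT O.io u) : ∃ th, Prim O u th := by
  have key : ∀ (i : Fin m) (a : Fin 3), ∃ th : E4 → E4 →L[ℝ] ℝ, ThOK th ∧
      (∀ z ∈ Metric.ball (0 : E4) 1, d1 th z = chf O u i a z - chf O u i a 0) ∧
      ∃ D : ℝ, 0 ≤ D ∧ ∀ z, ‖z‖ ≤ 1 / 2 → ‖th z‖ ≤ D * ‖z‖ ^ 2 ∧
        ‖fderiv ℝ th z‖ ≤ D * ‖z‖ := by
    intro i a
    obtain ⟨th, D, hD, h1, h2, h3, h4⟩ := KPrim_856.exists_prim (chf O u i a)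
      (fun z hz => (chf_cd O u i a hz).contDiffWithinAt)
      (fun z _ v => chf_alt O u i a z v)
      (fun z hz => (z2At_model_iff (chf_z2 O u i a hz)).2.2)
      (fun z hz => chf_even O hu i a hz)
    refine ⟨th, ⟨fun z hz => h1.contDiffAt (Metric.isOpen_ball.mem_nhds hz), h2⟩,
      fun z hz => ?_, D, hD, h4⟩
    ext v v'
    exact h3 z hz v v'
  choose th h1 h2 h3 using key
  exact ⟨th, h1, h2, h3⟩

/-- the convex combination of primitives. -/
def thD (th th' : Fin m → Fin 3 → E4 → E4 →L[ℝ] ℝ) (t : ℝ) :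
    Fin m → Fin 3 → E4 → E4 →L[ℝ] ℝ := fun i a z => (1 - t) • th i a z + t • th' i a z

lemma thD_zero (th th' : Fin m → Fin 3 → E4 → E4 →L[ℝ] ℝ) : thD th th' 0 = th := by
  funext i a z
  show (1 - (0 : ℝ)) • th i a z + (0 : ℝ) • th' i a z = th i a z
  rw [sub_zero, one_smul, zero_smul, add_zero]

lemma thD_one (th th' : Fin m → Fin 3 → E4 → E4 →L[ℝ] ℝ) : thD th th' 1 = th' := by
  funext i a z
  show (1 - (1 : ℝ)) • th i a z + (1 : ℝ) • th' i a z = th' i a z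
  rw [sub_self, one_smul, zero_smul, zero_add]

lemma fderiv_thD {th th' : Fin m → Fin 3 → E4 → E4 →L[ℝ] ℝ} {i : Fin m} {a : Fin 3} {z : E4}
    (h : DifferentiableAt ℝ (th i a) z) (h' : DifferentiableAt ℝ (th' i a) z) (t : ℝ) :
    fderiv ℝ (thD th th' t i a) z = (1 - t) • fderiv ℝ (th i a) z + t • fderiv ℝ (th' i a) z := by
  show fderiv ℝ (fun z => (1 - t) • th i a z + t • th' i a z) z = _
  rw [fderiv_fun_add (h.fun_const_smul _) (h'.fun_const_smul _), fderiv_fun_const_smul h,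
    fderiv_fun_const_smul h']

lemma Prim.thD {O : KOut K X} {u u' : Trip X} {th th' : Fin m → Fin 3 → E4 → E4 →L[ℝ] ℝ}
    (h : Prim O u th) (h' : Prim O u' th') {t : ℝ} (h0 : 0 ≤ t) (h1 : t ≤ 1) :
    Prim O (seg u u' t) (thD th th' t) := by
  have hd : ∀ i a, ∀ z ∈ Metric.ball (0 : E4) 1, fderiv ℝ (KState_604.thD th th' t i a) z =
      (1 - t) • fderiv ℝ (th i a) z + t • fderiv ℝ (th' i a) z := fun i a z hz =>
    fderiv_thD (((h.ok i a).cd z hz).differentiableAt infty_ne_zero)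
      (((h'.ok i a).cd z hz).differentiableAt infty_ne_zero) t
  refine ⟨fun i a => ⟨fun z hz => ?_, fun z => ?_⟩, fun i a z hz => ?_, fun i a => ?_⟩
  · exact (((h.ok i a).cd z hz).const_smul _).add (((h'.ok i a).cd z hz).const_smul _)
  · show (1 - t) • th i a (-z) + t • th' i a (-z) = -((1 - t) • th i a z + t • th' i a z)
    rw [(h.ok i a).odd, (h'.ok i a).odd]
    module
  · have e1 := h.d i a z hz
    have e2 := h'.d i a z hz
    rw [chf_seg, chf_seg]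
    have e3 : d1 (KState_604.thD th th' t i a) z = (1 - t) • d1 (th i a) z + t • d1 (th' i a) z := by
      ext v v'
      show fderiv ℝ (KState_604.thD th th' t i a) z v v' -
        fderiv ℝ (KState_604.thD th th' t i a) z v' v = (1 - t) * (fderiv ℝ (th i a) z v v' -
          fderiv ℝ (th i a) z v' v) + t * (fderiv ℝ (th' i a) z v v' - fderiv ℝ (th' i a) z v' v)
      rw [hd i a z hz]
      show (1 - t) * fderiv ℝ (th i a) z v v' + t * fderiv ℝ (th' i a) z v v' -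
        ((1 - t) * fderiv ℝ (th i a) z v' v + t * fderiv ℝ (th' i a) z v' v) = _
      ring
    rw [e3, e1, e2]
    module
  · obtain ⟨D, hD, hb⟩ := h.bd i a
    obtain ⟨D', hD', hb'⟩ := h'.bd i a
    refine ⟨D + D', by positivity, fun z hz => ?_⟩
    obtain ⟨b1, b2⟩ := hb z hz
    obtain ⟨b3, b4⟩ := hb' z hz
    have hz1 : z ∈ Metric.ball (0 : E4) 1 := by
      simp only [Metric.mem_ball, dist_zero_right]; linarith
    have ht : 0 ≤ 1 - t := by linarith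
    have hn := norm_nonneg z
    have hD1 : 0 ≤ D * ‖z‖ ^ 2 := by positivity
    have hD2 : 0 ≤ D' * ‖z‖ ^ 2 := by positivity
    have hD3 : 0 ≤ D * ‖z‖ := by positivity
    have hD4 : 0 ≤ D' * ‖z‖ := by positivity
    constructor
    · show ‖(1 - t) • th i a z + t • th' i a z‖ ≤ _
      calc ‖(1 - t) • th i a z + t • th' i a z‖ ≤ ‖(1 - t) • th i a z‖ + ‖t • th' i a z‖ :=
            norm_add_le _ _
        _ = (1 - t) * ‖th i a z‖ + t * ‖th' i a z‖ := by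
            rw [norm_smul, norm_smul, Real.norm_of_nonneg ht, Real.norm_of_nonneg h0]
        _ ≤ 1 * (D * ‖z‖ ^ 2) + 1 * (D' * ‖z‖ ^ 2) := by
            gcongr
            linarith
        _ = (D + D') * ‖z‖ ^ 2 := by ring
    · rw [hd i a z hz1]
      calc ‖(1 - t) • fderiv ℝ (th i a) z + t • fderiv ℝ (th' i a) z‖
          ≤ ‖(1 - t) • fderiv ℝ (th i a) z‖ + ‖t • fderiv ℝ (th' i a) z‖ := norm_add_le _ _
        _ = (1 - t) * ‖fderiv ℝ (th i a) z‖ + t * ‖fderiv ℝ (th' i a) z‖ := by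
            rw [norm_smul, norm_smul, Real.norm_of_nonneg ht, Real.norm_of_nonneg h0]
        _ ≤ 1 * (D * ‖z‖) + 1 * (D' * ‖z‖) := by
            gcongr
            linarith
        _ = (D + D') * ‖z‖ := by ring

/-! ### states -/

/-- the state at a vertex: `A i` is a path from `1` to `AA (cc O u i)`. -/
structure St (O : KOut K X) (u : Trip X) (A : Fin m → ℝ → E4 →L[ℝ] E4) : Prop where
  even : EvenT O.io u
  def3 : ∀ i, Def3 (cc O u i)
  nn : ∀ i, 0 < NN (cc O u i)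
  cd : ∀ i, ∀ s ∈ Icc (0 : ℝ) 1, ContDiffAt ℝ ∞ (A i) s ∧ ∀ v, A i s v = 0 → v = 0
  zero : ∀ i, A i 0 = ContinuousLinearMap.id ℝ E4
  one : ∀ i, A i 1 = AA (cc O u i)

/-- the matrices. -/
def rD (O : KOut K X) (u : Trip X) : Fin m → Fin 3 → Fin 3 → ℝ := fun i => rho (cc O u i)

lemma rD_LT {O : KOut K X} {u : Trip X} {A : Fin m → ℝ → E4 →L[ℝ] E4} (h : St O u A)
    (i : Fin m) : LT (rD O u i) := ⟨fun _ _ hab => rho_upper hab, (h.def3 i).rho_diag⟩

end Chart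

/-! ### the map `z ↦ A (s z) z` -/

section Maps

variable {m : ℕ} {g : Fin m → ℝ → ℝ} {C ε δ : ℝ} (P : Par g C ε δ)

/-- `z ↦ A (s z) z`. -/
def FD (A : Fin m → ℝ → E4 →L[ℝ] E4) : Fin m → E4 → E4 := fun i z => A i (P.s z) z

variable {P}

lemma s_Icc (P : Par g C ε δ) (z : E4) : P.s z ∈ Icc (0 : ℝ) 1 := P.s_mem z

lemma FD_cd {A : ℝ → E4 →L[ℝ] E4} (hA : ∀ s ∈ Icc (0 : ℝ) 1, ContDiffAt ℝ ∞ A s) (z : E4) :
    ContDiffAt ℝ ∞ (fun z : E4 => A (P.s z) z) z :=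
  ((hA _ (s_Icc P z)).comp z P.s_cd.contDiffAt).clm_apply contDiffAt_id

lemma FOK_FD {A : ℝ → E4 →L[ℝ] E4} (hA : ∀ s ∈ Icc (0 : ℝ) 1, ContDiffAt ℝ ∞ A s)
    (h0 : A 0 = ContinuousLinearMap.id ℝ E4) : FOK P fun z : E4 => A (P.s z) z := by
  refine ⟨fun z _ => FD_cd hA z, fun z => ?_, fun z hz => ?_⟩
  · show A (P.s (-z)) (-z) = - A (P.s z) z
    rw [P.s_even, map_neg]
  · show A (P.s z) z = z
    rw [P.s_0 z hz, h0]
    rfl

/-- `ds = 0` where `s = 1`. -/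
lemma ds_one {z : E4} (hz : P.s z = 1) : fderiv ℝ P.s z = 0 := by
  have h : IsLocalMax P.s z := by
    refine Filter.Eventually.of_forall fun y => ?_
    show P.s y ≤ P.s z
    rw [hz]
    exact (P.s_mem y).2
  exact h.fderiv_eq_zero

/-- `dχ = 0` where `χ = 0`. -/
lemma dchi_zero {z : E4} (hz : P.χ z = 0) : fderiv ℝ P.χ z = 0 := by
  have h : IsLocalMin P.χ z := by
    refine Filter.Eventually.of_forall fun y => ?_
    show P.χ z ≤ P.χ y
    rw [hz]
    exact (P.χ_mem y).1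
  exact h.fderiv_eq_zero

lemma fderiv_FD {A : ℝ → E4 →L[ℝ] E4} (hA : ∀ s ∈ Icc (0 : ℝ) 1, ContDiffAt ℝ ∞ A s) (z v : E4) :
    fderiv ℝ (fun z : E4 => A (P.s z) z) z v =
      A (P.s z) v + fderiv ℝ P.s z v • (deriv A (P.s z)) z := by
  have h1 : HasDerivAt A (deriv A (P.s z)) (P.s z) :=
    ((hA _ (s_Icc P z)).differentiableAt infty_ne_zero).hasDerivAt
  have h2 : HasFDerivAt P.s (fderiv ℝ P.s z) z :=
    (P.s_cd.differentiable infty_ne_zero z).hasFDerivAt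
  have h3 : HasFDerivAt (fun z => A (P.s z))
      ((ContinuousLinearMap.toSpanSingleton ℝ (deriv A (P.s z))).comp (fderiv ℝ P.s z)) z :=
    h1.hasFDerivAt.comp z h2
  have h4 := h3.clm_apply (hasFDerivAt_id z)
  have h5 : fderiv ℝ (fun z : E4 => A (P.s z) z) z = _ := h4.fderiv
  rw [h5]
  simp

/-- outside the ball of radius `ε/2` the differential is `A 1`. -/
lemma fderiv_FD_one {A : ℝ → E4 →L[ℝ] E4} (hA : ∀ s ∈ Icc (0 : ℝ) 1, ContDiffAt ℝ ∞ A s) {z : E4}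
    (hz : ε / 2 ≤ ‖z‖) : fderiv ℝ (fun z : E4 => A (P.s z) z) z = A 1 := by
  ext1 v
  rw [fderiv_FD hA, ds_one (P.s_1 z hz), P.s_1 z hz]
  simp

/-- `d(χ θ) = 0` on the ball of radius `ε/2`. -/
lemma d1_chith_zero' {th : E4 → E4 →L[ℝ] ℝ} (h : ThOK th) {z : E4}
    (hz1 : z ∈ Metric.ball (0 : E4) 1) (hz : ‖z‖ ≤ ε / 2) :
    d1 (fun y => P.χ y • th y) z = 0 := by
  ext v v'
  rw [d1_smul (P.χ_cd.differentiable infty_ne_zero z)
    ((h.cd z hz1).differentiableAt infty_ne_zero), P.χ_0 z hz, dchi_zero (P.χ_0 z hz)]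
  simp

lemma gd_one (P : Par g C ε δ) (i : Fin m) {z : E4} (hz : z ∈ PB 1) (hr : P.r0 ≤ ‖z‖) :
    d1 (lg (P.gd i)) z = et 0 := by
  have h0 := P.r0_pos
  have h1 : P.r0 ^ 2 ≤ ‖z‖ ^ 2 := by gcongr
  exact d1_lg_id hz.1 (P.gd_1 i _ h1)
    (g_hasDeriv_one (P.gd_cd i) h0 (fun t ht _ => P.gd_1 i t ht) h1 (nsq_lt hz))

/-- the zone `r0 ≤ ‖z‖ ≤ ε/2`. -/
lemma nu_in {i : Fin m} {r : Fin 3 → Fin 3 → ℝ} {F : E4 → E4}
    {th : Fin 3 → E4 → E4 →L[ℝ] ℝ} (ht : ∀ a, ThOK (th a)) (a : Fin 3) {z : E4} (hz : z ∈ PB 1)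
    (h1 : P.r0 ≤ ‖z‖) (h2 : ‖z‖ ≤ ε / 2) :
    nu P i r F th a z = ∑ b, r a b • pl (fderiv ℝ F z) (et b) := by
  unfold nu
  rw [gd_one P i hz h1, sub_self, smul_zero, add_zero, d1_chith_zero' (ht a) (PB_ball hz) h2,
    add_zero]

/-- the zone `ε/2 ≤ ‖z‖`. -/
lemma nu_out {i : Fin m} {r : Fin 3 → Fin 3 → ℝ} {F : E4 → E4}
    {th : Fin 3 → E4 → E4 →L[ℝ] ℝ} (a : Fin 3) {z : E4} (hz : z ∈ PB 1)
    (h2 : ε / 2 ≤ ‖z‖) :
    nu P i r F th a z = ∑ b, r a b • pl (fderiv ℝ F z) (et b) +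
      d1 (fun y => P.χ y • th a y) z := by
  unfold nu
  rw [gd_one P i hz (P.r0_lt.le.trans h2), sub_self, smul_zero, add_zero]

/-- `d(χ θ) = dθ` outside the ball of radius `ε`. -/
lemma d1_chith_one {th : E4 → E4 →L[ℝ] ℝ} {z : E4} (hz : ε < ‖z‖) :
    d1 (fun y => P.χ y • th y) z = d1 th z := by
  refine d1_congr ?_
  have h : ∀ᶠ y in 𝓝 z, ε < ‖y‖ := continuous_norm.continuousAt.eventually (Ioi_mem_nhds hz)
  filter_upwards [h] with y hy
  rw [P.χ_1 y hy.le, one_smul]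

end Maps

section Chart2

variable {M : Type u} [TopologicalSpace M] [T2Space M] [CompactSpace M]
  [ChartedSpace E4 M] [IsManifold 𝓘(ℝ, E4) ∞ M]
  {m : ℕ} {K : KIn M m}
  {X : Type u} [TopologicalSpace X] [T2Space X] [CompactSpace X]
  [ChartedSpace E4 X] [IsManifold 𝓘(ℝ, E4) ∞ X]
  {g : Fin m → ℝ → ℝ} {C ε δ : ℝ} {P : Par g C ε δ} {O : KOut K X} {u : Trip X}
  {A : Fin m → ℝ → E4 →L[ℝ] E4} {th : Fin m → Fin 3 → E4 → E4 →L[ℝ] ℝ}

lemma St.fok (h : St O u A) (i : Fin m) : FOK P (FD P A i) :=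
  FOK_FD (fun s hs => (h.cd i s hs).1) (h.zero i)

/-- the constant part of the triple of a state. -/
lemma St.sum_eq (h : St O u A) (i : Fin m) (a : Fin 3) {z : E4} (hz : ε / 2 ≤ ‖z‖) :
    ∑ b, rD O u i a b • pl (fderiv ℝ (FD P A i) z) (et b) = cc O u i a := by
  have h1 : fderiv ℝ (FD P A i) z = AA (cc O u i) := by
    rw [← h.one i]
    exact fderiv_FD_one (fun s hs => (h.cd i s hs).1) hz
  rw [h1]
  exact ((h.def3 i).AA_spec (h.nn i) a).symm

lemma St.nu_out (h : St O u A) (i : Fin m) (a : Fin 3) {z : E4} (hz1 : z ∈ PB 1)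
    (hz : ε / 2 ≤ ‖z‖) : nu P i (rD O u i) (FD P A i) (th i) a z =
      cc O u i a + d1 (fun y => P.χ y • th i a y) z := by
  rw [KState_604.nu_out a hz1 hz, h.sum_eq i a hz]

lemma St.hout (h : St O u A) (hp : Prim O u th) (i : Fin m) (a : Fin 3) (z : E4)
    (hz1 : z ∈ PB 1) (hz : ε < ‖z‖) :
    nu P i (rD O u i) (FD P A i) (th i) a z = chf O u i a z := by
  have := P.ε_pos
  rw [h.nu_out i a hz1 (by linarith), d1_chith_one hz, hp.d i a z (PB_ball hz1)]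
  show chf O u i a 0 + (chf O u i a z - chf O u i a 0) = _
  abel

end Chart2

end

end Crest.Agent.R235.KState_604
end

-- ▼ part R235/KFam_57
section

/-!
Row 235, KUM KDOWN leaf L8 (helper57, statements helper604 #2308): positive paths of constant
triples, the family `B (t, σ)` of endomorphisms and the maps `y ↦ B (t, s y) y`.
-/

set_option autoImplicit false
set_option maxSynthPendingDepth 3

open Set Function Filter
open scoped ContDiff Topology

namespace Crest.Agent.R235.KFam_57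

open Crest.Agent.R240 Crest.Agent.R235.PB_604 Crest.Agent.R235.KLin_604
  Crest.Agent.R235.KForm_604 Crest.Agent.R235.KGlue_604

noncomputable section

/-! ### paths -/

theorem pos_path {f : ℝ → ℝ} (hf : ContinuousOn f (Icc 0 1)) (hne : ∀ t ∈ Icc (0 : ℝ) 1, f t ≠ 0)
    (h0 : 0 < f 0) : ∀ t ∈ Icc (0 : ℝ) 1, 0 < f t := by
  intro t ht
  by_contra h
  have h1 : f t ≤ 0 := not_lt.1 h
  obtain ⟨s, hs, hs0⟩ := isPreconnected_Icc.intermediate_value ht
    (left_mem_Icc.2 zero_le_one) hf ⟨h1, h0.le⟩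
  exact hne s hs hs0

theorem contOn_ent {X : Type*} [TopologicalSpace X] {D : Set X} {b : X → Bil}
    (hb : ContinuousOn b D) (i j : Fin 4) : ContinuousOn (fun z => ent (b z) i j) D :=
  (entL i j).continuous.comp_continuousOn hb

theorem contOn_W {X : Type*} [TopologicalSpace X] {D : Set X} {a b : X → Bil}
    (ha : ContinuousOn a D) (hb : ContinuousOn b D) : ContinuousOn (fun z => W (a z) (b z)) D := by
  have ea := fun i j => contOn_ent ha i j
  have eb := fun i j => contOn_ent hb i j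
  unfold W
  exact ((((((ea 0 1).mul (eb 2 3)).sub ((ea 0 2).mul (eb 1 3))).add
    ((ea 0 3).mul (eb 1 2))).add ((ea 1 2).mul (eb 0 3))).sub
    ((ea 1 3).mul (eb 0 2))).add ((ea 2 3).mul (eb 0 1))

theorem contOn_comb {X : Type*} [TopologicalSpace X] {D : Set X} {c : X → Fin 3 → Bil}
    (hc : ContinuousOn c D) (x : Fin 3 → ℝ) : ContinuousOn (fun t => ∑ i, x i • c t i) D := by
  refine continuousOn_finsetSum _ fun i _ => ?_
  exact ((continuous_apply i).comp_continuousOn hc).const_smul (x i)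

theorem path_def3 (c : ℝ → Fin 3 → Bil) (hc : ContinuousOn c (Icc 0 1))
    (ha : ∀ t ∈ Icc (0 : ℝ) 1, ∀ a, Alt (c t a)) (hp : ∀ t ∈ Icc (0 : ℝ) 1, PosB (c t))
    (h0 : Def3 (c 0)) (hN : 0 < NN (c 0)) :
    ∀ t ∈ Icc (0 : ℝ) 1, Def3 (c t) ∧ 0 < NN (c t) := by
  have h1 : ∀ t ∈ Icc (0 : ℝ) 1, Def3 (c t) := fun t ht =>
    ⟨ha t ht, fun x hx => pos_path (f := fun t => W (∑ i, x i • c t i) (∑ i, x i • c t i))
      (contOn_W (contOn_comb hc x) (contOn_comb hc x)) (fun s hs => hp s hs x hx)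
      (h0.pos x hx) t ht⟩
  intro t ht
  refine ⟨h1 t ht, ?_⟩
  refine pos_path (f := fun t => NN (c t)) ?_ (fun s hs => (h1 s hs).NN_ne) hN t ht
  have e := fun a i j => contOn_ent ((continuous_apply a).comp_continuousOn hc) i j
  unfold NN
  exact (((e 0 0 1).mul (((e 1 0 2).mul (e 2 0 3)).sub ((e 1 0 3).mul (e 2 0 2)))).sub
    ((e 0 0 2).mul (((e 1 0 1).mul (e 2 0 3)).sub ((e 1 0 3).mul (e 2 0 1))))).add
    ((e 0 0 3).mul (((e 1 0 1).mul (e 2 0 2)).sub ((e 1 0 2).mul (e 2 0 1))))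

/-! ### the family -/

theorem fam (c0 c1 : Fin 3 → Bil)
    (hd : ∀ t ∈ Icc (0 : ℝ) 1, Def3 (fun a => (1 - t) • c0 a + t • c1 a) ∧
      0 < NN (fun a => (1 - t) • c0 a + t • c1 a))
    (A : ℝ → E4 →L[ℝ] E4) (hA : ∀ σ ∈ Icc (0 : ℝ) 1, ContDiffAt ℝ ∞ A σ ∧ ∀ v, A σ v = 0 → v = 0)
    (hA0 : A 0 = ContinuousLinearMap.id ℝ E4) (hA1 : A 1 = AA c0) :
    ∃ B : ℝ × ℝ → E4 →L[ℝ] E4,
      (∀ p ∈ Icc (0 : ℝ) 1 ×ˢ Icc (0 : ℝ) 1, ContDiffAt ℝ ∞ B p ∧ ∀ v, B p v = 0 → v = 0) ∧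
      (∀ t, B (t, 0) = ContinuousLinearMap.id ℝ E4) ∧
      (∀ t ∈ Icc (0 : ℝ) 1, B (t, 1) = AA (fun a => (1 - t) • c0 a + t • c1 a)) ∧
      (∀ σ, B (0, σ) = A σ) := by
  have hinj : ∀ v, AA c0 v = 0 → v = 0 := by
    rw [← hA1]
    exact (hA 1 (right_mem_Icc.2 zero_le_one)).2
  set K : ℝ → Fin 3 → Bil := fun τ a => (1 - τ) • c0 a + τ • c1 a with hK
  have hK0 : K 0 = c0 := by
    funext a
    simp [hK]
  set S : E4 →L[ℝ] E4 := ((eqv (AA c0) hinj).symm : E4 →L[ℝ] E4) with hS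
  have hS1 : (AA c0).comp S = ContinuousLinearMap.id ℝ E4 := by
    refine ContinuousLinearMap.ext fun v => ?_
    show AA c0 ((eqv (AA c0) hinj).symm v) = v
    have := (eqv (AA c0) hinj).apply_symm_apply v
    rwa [eqv_apply] at this
  have hS2 : S.comp (AA c0) = ContinuousLinearMap.id ℝ E4 := by
    refine ContinuousLinearMap.ext fun v => ?_
    show (eqv (AA c0) hinj).symm (AA c0 v) = v
    have := (eqv (AA c0) hinj).symm_apply_apply v
    rwa [eqv_apply] at this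
  have hSi : ∀ v, S v = 0 → v = 0 := by
    intro v hv
    have h1 : AA c0 (S v) = v := by
      have := congrArg (fun T : E4 →L[ℝ] E4 => T v) hS1
      exact this
    rw [hv, map_zero] at h1
    exact h1.symm
  refine ⟨fun p => (AA (K (p.1 * p.2))).comp (S.comp (A p.2)), ?_, ?_, ?_, ?_⟩
  · rintro ⟨t, σ⟩ ⟨ht, hσ⟩
    have hts : t * σ ∈ Icc (0 : ℝ) 1 :=
      ⟨mul_nonneg ht.1 hσ.1, mul_le_one₀ ht.2 hσ.1 hσ.2⟩
    obtain ⟨hd1, hd2⟩ := hd _ hts
    constructor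
    · have hKs : ContDiffAt ℝ ∞ (fun p : ℝ × ℝ => K (p.1 * p.2)) (t, σ) := by
        rw [hK, contDiffAt_pi]
        intro a
        have hm : ContDiffAt ℝ ∞ (fun p : ℝ × ℝ => p.1 * p.2) (t, σ) :=
          contDiffAt_fst.mul contDiffAt_snd
        exact ((contDiffAt_const.sub hm).smul contDiffAt_const).add (hm.smul contDiffAt_const)
      have h2 : ContDiffAt ℝ ∞ (fun p : ℝ × ℝ => AA (K (p.1 * p.2))) (t, σ) :=
        ContDiffAt.comp (t, σ) (g := AA) (f := fun p : ℝ × ℝ => K (p.1 * p.2))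
          (hd1.cd_AA hd2) hKs
      have h3 : ContDiffAt ℝ ∞ (fun p : ℝ × ℝ => A p.2) (t, σ) :=
        ContDiffAt.comp (t, σ) (g := A) (f := fun p : ℝ × ℝ => p.2) (hA σ hσ).1 contDiffAt_snd
      exact h2.clm_comp (contDiffAt_const.clm_comp h3)
    · intro v hv
      exact (hA σ hσ).2 v (hSi _ (hd1.AA_inj hd2 _ hv))
  · intro t
    show (AA (K (t * 0))).comp (S.comp (A 0)) = _
    rw [mul_zero, hK0, hA0, ContinuousLinearMap.comp_id, hS1]
  · intro t _
    show (AA (K (t * 1))).comp (S.comp (A 1)) = _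
    rw [mul_one, hA1, hS2, ContinuousLinearMap.comp_id]
  · intro σ
    show (AA (K (0 * σ))).comp (S.comp (A σ)) = _
    rw [zero_mul, hK0, ← ContinuousLinearMap.comp_assoc, hS1, ContinuousLinearMap.id_comp]

/-! ### the maps -/

theorem hasFDerivAt_fam {B : ℝ × ℝ → E4 →L[ℝ] E4} {s : E4 → ℝ} {t : ℝ} {z : E4}
    (hB : ContDiffAt ℝ ∞ B (t, s z)) (hs : ContDiff ℝ ∞ s) :
    HasFDerivAt (fun y : E4 => B (t, s y) y)
      (B (t, s z) + (fderiv ℝ s z).smulRight (fderiv ℝ B (t, s z) (0, 1) z)) z := by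
  have h1 : HasFDerivAt s (fderiv ℝ s z) z := (hs.differentiable (by simp) z).hasFDerivAt
  have h2 : HasFDerivAt (fun y : E4 => (t, s y)) ((0 : E4 →L[ℝ] ℝ).prod (fderiv ℝ s z)) z :=
    (hasFDerivAt_const t z).prodMk h1
  have h3 : HasFDerivAt B (fderiv ℝ B (t, s z)) (t, s z) :=
    (hB.differentiableAt (by simp)).hasFDerivAt
  have h4 : HasFDerivAt (fun y => B (t, s y))
      ((fderiv ℝ B (t, s z)).comp ((0 : E4 →L[ℝ] ℝ).prod (fderiv ℝ s z))) z := h3.comp z h2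
  have h5 := h4.clm_apply (hasFDerivAt_id z)
  refine h5.congr_fderiv ?_
  refine ContinuousLinearMap.ext fun v => ?_
  have e : ((0 : ℝ), fderiv ℝ s z v) = fderiv ℝ s z v • ((0 : ℝ), (1 : ℝ)) := by
    rw [Prod.smul_mk, smul_zero, smul_eq_mul, mul_one]
  show B (t, s z) v + (fderiv ℝ B (t, s z) (0, fderiv ℝ s z v)) z =
    B (t, s z) v + fderiv ℝ s z v • (fderiv ℝ B (t, s z) (0, 1) z)
  rw [e, map_smul]
  rfl

theorem fam_map (B : ℝ × ℝ → E4 →L[ℝ] E4)
    (hB : ∀ p ∈ Icc (0 : ℝ) 1 ×ˢ Icc (0 : ℝ) 1, ContDiffAt ℝ ∞ B p ∧ ∀ v, B p v = 0 → v = 0) :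
    ∃ δ0 : ℝ, 0 < δ0 ∧ ∀ s : E4 → ℝ, ContDiff ℝ ∞ s → (∀ z, 0 ≤ s z ∧ s z ≤ 1) →
      (∀ z v, |fderiv ℝ s z v| * ‖z‖ ≤ δ0 * ‖v‖) →
      (∀ t ∈ Icc (0 : ℝ) 1, ContDiff ℝ ∞ (fun y : E4 => B (t, s y) y)) ∧
      (∀ t ∈ Icc (0 : ℝ) 1, ∀ z v : E4, fderiv ℝ (fun y : E4 => B (t, s y) y) z v = 0 → v = 0) ∧
      ContinuousOn (fun p : ℝ × E4 => fderiv ℝ (fun y : E4 => B (p.1, s y) y) p.2)
        (Icc (0 : ℝ) 1 ×ˢ univ) := by
  have hQ : IsCompact (Icc (0 : ℝ) 1 ×ˢ Icc (0 : ℝ) 1) := isCompact_Icc.prod isCompact_Icc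
  have hQne : (Icc (0 : ℝ) 1 ×ˢ Icc (0 : ℝ) 1).Nonempty :=
    ⟨(0, 0), left_mem_Icc.2 zero_le_one, left_mem_Icc.2 zero_le_one⟩
  have hBc : ContinuousOn B (Icc (0 : ℝ) 1 ×ˢ Icc (0 : ℝ) 1) := fun p hp =>
    (hB p hp).1.continuousAt.continuousWithinAt
  have hDc : ∀ p ∈ Icc (0 : ℝ) 1 ×ˢ Icc (0 : ℝ) 1, ContinuousAt (fderiv ℝ B) p := fun p hp =>
    ((hB p hp).1.fderiv_right (m := ∞) (by simp)).continuousAt
  have hDc' : ContinuousOn (fun p => fderiv ℝ B p (0, 1)) (Icc (0 : ℝ) 1 ×ˢ Icc (0 : ℝ) 1) :=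
    fun p hp => ((hDc p hp).clm_apply continuousAt_const).continuousWithinAt
  -- lower bound
  obtain ⟨κ, hκ, hκB⟩ : ∃ κ : ℝ, 0 < κ ∧ ∀ p ∈ Icc (0 : ℝ) 1 ×ˢ Icc (0 : ℝ) 1, ∀ v,
      κ * ‖v‖ ≤ ‖B p v‖ := by
    have hC : IsCompact ((Icc (0 : ℝ) 1 ×ˢ Icc (0 : ℝ) 1) ×ˢ Metric.sphere (0 : E4) 1) :=
      hQ.prod (isCompact_sphere _ _)
    have hCne : ((Icc (0 : ℝ) 1 ×ˢ Icc (0 : ℝ) 1) ×ˢ Metric.sphere (0 : E4) 1).Nonempty :=
      hQne.prod (NormedSpace.sphere_nonempty.2 zero_le_one)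
    have hcont : ContinuousOn (fun q : (ℝ × ℝ) × E4 => ‖B q.1 q.2‖)
        ((Icc (0 : ℝ) 1 ×ˢ Icc (0 : ℝ) 1) ×ˢ Metric.sphere (0 : E4) 1) := by
      refine ContinuousOn.norm ?_
      exact (hBc.comp continuousOn_fst fun q hq => hq.1).clm_apply continuousOn_snd
    obtain ⟨q, hq, hmin⟩ := hC.exists_isMinOn hCne hcont
    have hqne : q.2 ≠ 0 := by
      intro h0
      have := mem_sphere_zero_iff_norm.1 hq.2
      rw [h0, norm_zero] at this
      exact zero_ne_one this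
    refine ⟨‖B q.1 q.2‖, norm_pos_iff.2 fun h => hqne ((hB q.1 hq.1).2 _ h), fun p hp v => ?_⟩
    rcases eq_or_ne v 0 with rfl | hv
    · simp
    have hvn : 0 < ‖v‖ := norm_pos_iff.2 hv
    have h1 : ‖B q.1 q.2‖ ≤ ‖B p (‖v‖⁻¹ • v)‖ := hmin (a := (p, ‖v‖⁻¹ • v)) ⟨hp, by
      rw [mem_sphere_zero_iff_norm, norm_smul, norm_inv, norm_norm, inv_mul_cancel₀ hvn.ne']⟩
    rw [map_smul, norm_smul, norm_inv, norm_norm] at h1
    calc ‖B q.1 q.2‖ * ‖v‖ ≤ ‖v‖⁻¹ * ‖B p v‖ * ‖v‖ := mul_le_mul_of_nonneg_right h1 hvn.le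
      _ = ‖B p v‖ := by field_simp
  -- upper bound of the derivative
  obtain ⟨L, hL⟩ := hQ.exists_bound_of_continuousOn hDc'
  have hL0 : 0 ≤ L := (norm_nonneg _).trans (hL _ hQne.some_mem)
  refine ⟨κ / (2 * (L + 1)), by positivity, fun s hs hs01 hsm => ?_⟩
  have hmem : ∀ t ∈ Icc (0 : ℝ) 1, ∀ z, (t, s z) ∈ Icc (0 : ℝ) 1 ×ˢ Icc (0 : ℝ) 1 :=
    fun t ht z => ⟨ht, hs01 z⟩
  have hfd : ∀ t ∈ Icc (0 : ℝ) 1, ∀ z, fderiv ℝ (fun y : E4 => B (t, s y) y) z =
      B (t, s z) + (fderiv ℝ s z).smulRight (fderiv ℝ B (t, s z) (0, 1) z) :=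
    fun t ht z => (hasFDerivAt_fam (hB _ (hmem t ht z)).1 hs).fderiv
  refine ⟨fun t ht => ?_, fun t ht z v hv => ?_, ?_⟩
  · rw [contDiff_iff_contDiffAt]
    intro z
    have h1 : ContDiffAt ℝ ∞ (fun y : E4 => (t, s y)) z := contDiffAt_const.prodMk hs.contDiffAt
    have h2 : ContDiffAt ℝ ∞ (fun y : E4 => B (t, s y)) z :=
      ContDiffAt.comp z (g := B) (f := fun y : E4 => (t, s y)) (hB _ (hmem t ht z)).1 h1
    exact h2.clm_apply contDiffAt_id
  · rw [hfd t ht z] at hv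
    by_contra hne
    have hvn : 0 < ‖v‖ := norm_pos_iff.2 hne
    have h1 := hκB _ (hmem t ht z) v
    have h2 : B (t, s z) v = - (fderiv ℝ s z v • (fderiv ℝ B (t, s z) (0, 1) z)) :=
      eq_neg_of_add_eq_zero_left hv
    have h3 : ‖B (t, s z) v‖ ≤ |fderiv ℝ s z v| * (L * ‖z‖) := by
      rw [h2, norm_neg, norm_smul, Real.norm_eq_abs]
      refine mul_le_mul_of_nonneg_left ?_ (abs_nonneg _)
      exact ((fderiv ℝ B (t, s z) (0, 1)).le_opNorm z).trans
        (mul_le_mul_of_nonneg_right (hL _ (hmem t ht z)) (norm_nonneg _))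
    have h4 : |fderiv ℝ s z v| * (L * ‖z‖) ≤ L * (κ / (2 * (L + 1)) * ‖v‖) := by
      calc |fderiv ℝ s z v| * (L * ‖z‖) = L * (|fderiv ℝ s z v| * ‖z‖) := by ring
        _ ≤ L * (κ / (2 * (L + 1)) * ‖v‖) := mul_le_mul_of_nonneg_left (hsm z v) hL0
    have h5 : L * (κ / (2 * (L + 1)) * ‖v‖) ≤ κ / 2 * ‖v‖ := by
      have : L * (κ / (2 * (L + 1)) * ‖v‖) = κ / 2 * ‖v‖ * (L / (L + 1)) := by
        field_simp
      rw [this]
      have h6 : L / (L + 1) ≤ 1 := by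
        rw [div_le_one (by linarith)]; linarith
      have h7 : 0 ≤ κ / 2 * ‖v‖ := by positivity
      calc κ / 2 * ‖v‖ * (L / (L + 1)) ≤ κ / 2 * ‖v‖ * 1 := mul_le_mul_of_nonneg_left h6 h7
        _ = κ / 2 * ‖v‖ := mul_one _
    have h8 : 0 < κ / 2 * ‖v‖ := by positivity
    linarith
  · have hG : ContinuousOn (fun p : ℝ × E4 => B (p.1, s p.2) +
        (fderiv ℝ s p.2).smulRight (fderiv ℝ B (p.1, s p.2) (0, 1) p.2)) (Icc (0 : ℝ) 1 ×ˢ univ) := by
      have hps : ContinuousOn (fun p : ℝ × E4 => (p.1, s p.2)) (Icc (0 : ℝ) 1 ×ˢ univ) :=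
        (continuous_fst.prodMk (hs.continuous.comp continuous_snd)).continuousOn
      have hpm : MapsTo (fun p : ℝ × E4 => (p.1, s p.2)) (Icc (0 : ℝ) 1 ×ˢ univ)
          (Icc (0 : ℝ) 1 ×ˢ Icc (0 : ℝ) 1) := fun p hp => hmem p.1 hp.1 p.2
      have h1 : ContinuousOn (fun p : ℝ × E4 => B (p.1, s p.2)) (Icc (0 : ℝ) 1 ×ˢ univ) :=
        hBc.comp hps hpm
      have h2 : ContinuousOn (fun p : ℝ × E4 => fderiv ℝ B (p.1, s p.2) (0, 1))
          (Icc (0 : ℝ) 1 ×ˢ univ) := hDc'.comp hps hpm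
      have h3 : ContinuousOn (fun p : ℝ × E4 => fderiv ℝ s p.2) (Icc (0 : ℝ) 1 ×ˢ univ) :=
        ((hs.continuous_fderiv (by simp)).comp continuous_snd).continuousOn
      have h4 : ContinuousOn (fun p : ℝ × E4 => fderiv ℝ B (p.1, s p.2) (0, 1) p.2)
          (Icc (0 : ℝ) 1 ×ˢ univ) := h2.clm_apply continuousOn_snd
      refine h1.add ?_
      have h5 := (ContinuousLinearMap.smulRightL ℝ E4 E4).continuous.comp_continuousOn h3
      exact h5.clm_apply h4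
    refine hG.congr fun p hp => ?_
    exact hfd p.1 hp.1 p.2

end

end Crest.Agent.R235.KFam_57
end

-- ▼ part R235/KSegm_604
section

/-!
Row 235, KUM-K4/K5 (helper604): one segment of the path on `X` gives a polygonal path on `M`.
-/

set_option autoImplicit false
set_option maxSynthPendingDepth 3
set_option linter.unusedSectionVars false

open Set Function Filter
open scoped Manifold ContDiff Topology RealInnerProductSpace

universe u

namespace Crest.Agent.R235.KSegm_604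

open Crest.Agent.R240 Crest.Agent.R240.Ch Crest.Agent.R235 Crest.Agent.R235.PB_604
  Crest.Agent.R235.KLin_604 Crest.Agent.R235.KT_604 Crest.Agent.R235.KGlue_604
  Crest.Agent.R235.KForm_604 Crest.Agent.R235.K12_417 Crest.Agent.R235.KUp_604
  Crest.Agent.R235.KReal_604 Crest.Agent.R235.KState_604

noncomputable section

/-- for all small `ε`, for all small `δ` (depending on `ε`). -/
def Ev2 (p : ℝ → ℝ → Prop) : Prop :=
  ∃ ε0 : ℝ, 0 < ε0 ∧ ∀ ε, 0 < ε → ε ≤ ε0 → ∃ δ0 : ℝ, 0 < δ0 ∧ ∀ δ, 0 < δ → δ ≤ δ0 → p ε δ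

lemma Ev2.mono {p q : ℝ → ℝ → Prop} (h : Ev2 p) (hpq : ∀ ε δ, p ε δ → q ε δ) : Ev2 q := by
  obtain ⟨ε0, h0, h1⟩ := h
  refine ⟨ε0, h0, fun ε hε hε' => ?_⟩
  obtain ⟨δ0, h2, h3⟩ := h1 ε hε hε'
  exact ⟨δ0, h2, fun δ hδ hδ' => hpq _ _ (h3 δ hδ hδ')⟩

lemma Ev2.and {p q : ℝ → ℝ → Prop} (h : Ev2 p) (h' : Ev2 q) :
    Ev2 fun ε δ => p ε δ ∧ q ε δ := by
  obtain ⟨ε0, h0, h1⟩ := h
  obtain ⟨ε0', h0', h1'⟩ := h'
  refine ⟨min ε0 ε0', lt_min h0 h0', fun ε hε hε' => ?_⟩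
  obtain ⟨δ0, h2, h3⟩ := h1 ε hε (hε'.trans (min_le_left _ _))
  obtain ⟨δ0', h2', h3'⟩ := h1' ε hε (hε'.trans (min_le_right _ _))
  refine ⟨min δ0 δ0', lt_min h2 h2', fun δ hδ hδ' => ⟨?_, ?_⟩⟩
  · exact h3 δ hδ (hδ'.trans (min_le_left _ _))
  · exact h3' δ hδ (hδ'.trans (min_le_right _ _))

lemma Ev2.of_forall {p : ℝ → ℝ → Prop} (h : ∀ ε δ, 0 < ε → ε ≤ 1 / 2 → 0 < δ → p ε δ) : Ev2 p :=
  ⟨1 / 2, by norm_num, fun ε hε hε' => ⟨1, one_pos, fun δ hδ _ => h ε δ hε hε' hδ⟩⟩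

lemma Ev2.exists {p : ℝ → ℝ → Prop} (h : Ev2 p) : ∃ ε δ, 0 < ε ∧ ε < 1 ∧ 0 < δ ∧ p ε δ := by
  obtain ⟨ε0, h0, h1⟩ := h
  have h2 : 0 < min ε0 (1 / 2) := lt_min h0 (by norm_num)
  obtain ⟨δ0, h3, h4⟩ := h1 (min ε0 (1 / 2)) h2 (min_le_left _ _)
  exact ⟨_, δ0, h2, lt_of_le_of_lt (min_le_right _ _) (by norm_num), h3, h4 δ0 h3 le_rfl⟩

/-- a positive number below finitely many positive numbers. -/
lemma exists_small {ι : Type*} [Finite ι] {f : ι → ℝ} (hf : ∀ i, 0 < f i) :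
    ∃ x : ℝ, 0 < x ∧ ∀ i, x ≤ f i := by
  have h1 : ∀ᶠ x in 𝓝[>] (0 : ℝ), ∀ i, x ≤ f i :=
    eventually_all.2 fun i => mem_of_superset (Ioo_mem_nhdsGT (hf i)) fun x hx => hx.2.le
  obtain ⟨x, hx, hx'⟩ := (h1.and self_mem_nhdsWithin).exists
  exact ⟨x, hx', hx⟩

lemma continuous_pl (b : Bil) : Continuous fun A : E4 →L[ℝ] E4 => pl A b := by
  refine continuous_iff_continuousAt.2 fun A => ?_
  exact (contDiffAt_pl (n := 0) (G := E4 →L[ℝ] E4) contDiffAt_id contDiffAt_const).continuousAt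

section Step

variable {M : Type u} [TopologicalSpace M] [T2Space M] [CompactSpace M]
  [ChartedSpace E4 M] [IsManifold 𝓘(ℝ, E4) ∞ M]
  {m : ℕ} {σ : Fin m → E3 → M} {w : Trip M} {R r₀ : Fin m → ℝ} {g : Fin m → ℝ → ℝ}
  {K : KIn M m}
  {X : Type u} [TopologicalSpace X] [T2Space X] [CompactSpace X]
  [ChartedSpace E4 X] [IsManifold 𝓘(ℝ, E4) ∞ X]
  {O : KOut K X} {C : ℝ} {u u' : Trip X}

/-- `d(χ θ_t)` is affine in `t`. -/
lemma d1_chi_thD {ε δ : ℝ} {P : Par g C ε δ} {th th' : Fin m → Fin 3 → E4 → E4 →L[ℝ] ℝ}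
    (hp : Prim O u th) (hp' : Prim O u' th') (t : ℝ) (i : Fin m) (a : Fin 3) {z : E4}
    (hz : z ∈ Metric.ball (0 : E4) 1) :
    d1 (fun y => P.χ y • thD th th' t i a y) z =
      (1 - t) • d1 (fun y => P.χ y • th i a y) z + t • d1 (fun y => P.χ y • th' i a y) z := by
  have h1 := ((hp.ok i a).cd z hz).differentiableAt infty_ne_zero
  have h2 := ((hp'.ok i a).cd z hz).differentiableAt infty_ne_zero
  have h3 := P.χ_cd.differentiable infty_ne_zero z
  have h4 : DifferentiableAt ℝ (thD th th' t i a) z :=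
    (h1.fun_const_smul (1 - t)).fun_add (h2.fun_const_smul t)
  have h5 := fderiv_thD h1 h2 t
  ext v v'
  show _ = (1 - t) * d1 (fun y => P.χ y • th i a y) z v v' +
    t * d1 (fun y => P.χ y • th' i a y) z v v'
  rw [d1_smul h3 h4, d1_smul h3 h1, d1_smul h3 h2, d1_apply, h5]
  show fderiv ℝ P.χ z v * ((1 - t) * th i a z v' + t * th' i a z v') -
    fderiv ℝ P.χ z v' * ((1 - t) * th i a z v + t * th' i a z v) +
    P.χ z * (((1 - t) * fderiv ℝ (th i a) z v v' + t * fderiv ℝ (th' i a) z v v') -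
      ((1 - t) * fderiv ℝ (th i a) z v' v + t * fderiv ℝ (th' i a) z v' v)) = _
  rw [d1_apply, d1_apply]
  ring

lemma cc_cont (O : KOut K X) (u u' : Trip X) (i : Fin m) :
    Continuous fun t : ℝ => cc O (seg u u' t) i := by
  have h : (fun t : ℝ => cc O (seg u u' t) i) =
      fun t : ℝ => fun a => (1 - t) • cc O u i a + t • cc O u' i a :=
    funext fun t => cc_seg O u u' t i
  rw [h]
  refine continuous_pi fun a => ?_
  exact ((continuous_const.sub continuous_id).smul continuous_const).add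
    (continuous_id.smul continuous_const)

/-- the new states along a segment. -/
theorem exists_states {A : Fin m → ℝ → E4 →L[ℝ] E4} (hst : St O u A) (hu' : EvenT O.io u')
    (hseg : Seg u u') : ∃ B : Fin m → ℝ × ℝ → E4 →L[ℝ] E4,
      (∀ i, ∀ p ∈ Icc (0 : ℝ) 1 ×ˢ Icc (0 : ℝ) 1, ContDiffAt ℝ ∞ (B i) p ∧
        ∀ v, B i p v = 0 → v = 0) ∧
      (∀ i s, B i (0, s) = A i s) ∧
      ∀ t ∈ Icc (0 : ℝ) 1, St O (seg u u' t) fun i s => B i (t, s) := by
  have hd : ∀ i, ∀ t ∈ Icc (0 : ℝ) 1, Def3 (cc O (seg u u' t) i) ∧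
      0 < NN (cc O (seg u u' t) i) := by
    intro i
    refine KFam_57.path_def3 (fun t => cc O (seg u u' t) i) (cc_cont O u u' i).continuousOn
      (fun t _ a => chf_alt O _ i a 0) (fun t ht => ?_) ?_ ?_
    · exact posB_chf O (hseg t ht.1 ht.2) i (by simp)
    · rw [seg_zero]; exact hst.def3 i
    · rw [seg_zero]; exact hst.nn i
  have key := fun i => KFam_57.fam (cc O u i) (cc O u' i)
    (fun t ht => by rw [← cc_seg]; exact hd i t ht) (A i) (hst.cd i) (hst.zero i) (hst.one i)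
  choose B hB1 hB2 hB3 hB4 using key
  refine ⟨B, hB1, hB4, fun t ht => ⟨even_seg O hst.even hu' t, fun i => (hd i t ht).1,
    fun i => (hd i t ht).2, fun i s hs => ⟨?_, ?_⟩, fun i => hB2 i t, fun i => ?_⟩⟩
  · have h1 : ContDiffAt ℝ ∞ (fun s : ℝ => (t, s)) s := contDiffAt_const.prodMk contDiffAt_id
    exact ((hB1 i (t, s) ⟨ht, hs⟩).1).comp s h1
  · exact (hB1 i (t, s) ⟨ht, hs⟩).2
  · show B i (t, 1) = _
    rw [hB3 i t ht, cc_seg]

/-- the existence of realisations of states. -/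
theorem exists_real (hS : Std σ w K.phi 1 R r₀ g) {ε δ : ℝ} (P : Par g C ε δ)
    {A : Fin m → ℝ → E4 →L[ℝ] E4} (hst : St O u A) {th : Fin m → Fin 3 → E4 → E4 →L[ℝ] ℝ}
    (hp : Prim O u th) : ∃ W : Trip M, Real w R O P u (rD O u) (FD P A) th W :=
  Real.exists' hS hst.even (fun i => hst.fok i) hp.ok fun i a z hz hz2 => hst.hout hp i a z hz hz2


/-- positivity and continuity of the neck triples along a segment, for small parameters. -/
theorem neck_ev (hC : 0 < C) {A : Fin m → ℝ → E4 →L[ℝ] E4} (hst : St O u A)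
    (hu' : EvenT O.io u') (hseg : Seg u u') {th th' : Fin m → Fin 3 → E4 → E4 →L[ℝ] ℝ}
    (hp : Prim O u th) (hp' : Prim O u' th') {B : Fin m → ℝ × ℝ → E4 →L[ℝ] E4}
    (hB : ∀ i, ∀ p ∈ Icc (0 : ℝ) 1 ×ˢ Icc (0 : ℝ) 1, ContDiffAt ℝ ∞ (B i) p ∧
        ∀ v, B i p v = 0 → v = 0)
    (hBst : ∀ t ∈ Icc (0 : ℝ) 1, St O (seg u u' t) fun i s => B i (t, s)) :
    Ev2 fun ε δ => ∀ P : Par g C ε δ, ∀ i,
      (∀ t ∈ Icc (0 : ℝ) 1, ∀ z ∈ {z : E4 | P.r0 ≤ ‖z‖ ∧ ‖z‖ ≤ ε},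
        PosB (fun a => nu P i (rD O (seg u u' t) i) (FD P (fun i s => B i (t, s)) i)
          (thD th th' t i) a z)) ∧
      ContinuousOn (fun p : ℝ × E4 => fun a => nu P i (rD O (seg u u' p.1) i)
        (FD P (fun i s => B i (p.1, s)) i) (thD th th' p.1 i) a p.2)
        (Icc (0 : ℝ) 1 ×ˢ {z : E4 | P.r0 ≤ ‖z‖ ∧ ‖z‖ ≤ ε}) := by
  -- margins
  have hm := fun i => KClose_57.pos_margin
    (T := (fun t : ℝ => cc O (seg u u' t) i) '' Icc (0 : ℝ) 1)
    (isCompact_Icc.image (cc_cont O u u' i)) (by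
      rintro c ⟨t, ht, rfl⟩
      exact posB_chf O (hseg t ht.1 ht.2) i (by simp))
  choose mg hmg0 hmg using hm
  have hcs : ∀ (th : Fin m → Fin 3 → E4 → E4 →L[ℝ] ℝ) (u : Trip X), Prim O u th →
      ∀ i a, ∃ C' : ℝ, 0 < C' ∧ ∀ ε : ℝ, 0 < ε → ε ≤ 1 / 2 → ∀ χ : E4 → ℝ, ContDiff ℝ ∞ χ →
      (∀ z, 0 ≤ χ z ∧ χ z ≤ 1) → (∀ z v, |fderiv ℝ χ z v| ≤ C / ε * ‖v‖) →
      ∀ z, ‖z‖ ≤ ε → ‖d1 (fun y => χ y • th i a y) z‖ ≤ C' * ε := by
    intro th u hp i a
    obtain ⟨D, hD, hb⟩ := hp.bd i a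
    exact KInterp_856.cut_small (th i a)
      (fun z hz => ((hp.ok i a).cd z hz).differentiableAt infty_ne_zero) C D hC hD hb
  choose C1 hC1 hC1' using hcs th u hp
  choose C2 hC2 hC2' using hcs th' u' hp'
  -- radius
  obtain ⟨ε1, hε1, hε1'⟩ := exists_small (ι := Fin m × Fin 3)
    (f := fun p => mg p.1 / (C1 p.1 p.2 + C2 p.1 p.2))
    (fun p => div_pos (hmg0 p.1) (add_pos (hC1 _ _) (hC2 _ _)))
  -- slow variation
  have hfm := fun i => KFam_57.fam_map (B i) (hB i)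
  choose δ1 hδ1 hδ1' using hfm
  obtain ⟨δ2, hδ2, hδ2'⟩ := exists_small hδ1
  refine ⟨min ε1 (1 / 2), lt_min hε1 (by norm_num), fun ε hε hε' => ⟨δ2, hδ2,
    fun δ hδ hδ' P i => ?_⟩⟩
  have hεa : ε ≤ ε1 := hε'.trans (min_le_left _ _)
  have hεb : ε ≤ 1 / 2 := hε'.trans (min_le_right _ _)
  obtain ⟨f1, f2, f3⟩ := hδ1' i P.s P.s_cd P.s_mem fun z v =>
    (P.s_bd z v).trans (mul_le_mul_of_nonneg_right (hδ'.trans (hδ2' i)) (norm_nonneg v))
  have hr0 := P.r0_pos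
  have hr1 := P.r0_lt
  have hP1 : ∀ z : E4, P.r0 ≤ ‖z‖ → ‖z‖ ≤ ε → z ∈ PB 1 := by
    intro z h1 h2
    refine ⟨fun h0 => ?_, by linarith⟩
    rw [h0, norm_zero] at h1
    linarith
  constructor
  · rintro t ht z ⟨h1, h2⟩
    have hz := hP1 z h1 h2
    rcases le_total ‖z‖ (ε / 2) with h3 | h3
    · have e1 : (fun a => nu P i (rD O (seg u u' t) i) (FD P (fun i s => B i (t, s)) i)
          (thD th th' t i) a z) = fun a => ∑ b, rD O (seg u u' t) i a b •
          pl (fderiv ℝ (FD P (fun i s => B i (t, s)) i) z) (et b) :=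
        funext fun a => nu_in (fun a => ((hp.thD hp' ht.1 ht.2).ok i a)) a hz h1 h3
      rw [e1]
      have e2 : PosB fun b => pl (fderiv ℝ (FD P (fun i s => B i (t, s)) i) z) (et b) :=
        (posB_pl alt_et (f2 t ht z)).2 posB_et
      exact posB_comb e2 fun x hx => (rD_LT (hBst t ht) i).inj hx
    · refine hmg i (cc O (seg u u' t) i) ⟨t, ht, rfl⟩ _ fun a => ?_
      rw [(hBst t ht).nu_out i a hz h3, add_sub_cancel_left, d1_chi_thD hp hp' t i a (PB_ball hz)]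
      have b1 := hC1' i a ε hε hεb P.χ P.χ_cd P.χ_mem P.χ_bd z h2
      have b2 := hC2' i a ε hε hεb P.χ P.χ_cd P.χ_mem P.χ_bd z h2
      have b3 := hε1' (i, a)
      have hc := add_pos (hC1 i a) (hC2 i a)
      rw [le_div_iff₀ hc] at b3
      have ht1 : 0 ≤ 1 - t := by linarith [ht.2]
      calc ‖(1 - t) • d1 (fun y => P.χ y • th i a y) z + t • d1 (fun y => P.χ y • th' i a y) z‖
          ≤ ‖(1 - t) • d1 (fun y => P.χ y • th i a y) z‖
            + ‖t • d1 (fun y => P.χ y • th' i a y) z‖ := norm_add_le _ _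
        _ = (1 - t) * ‖d1 (fun y => P.χ y • th i a y) z‖
            + t * ‖d1 (fun y => P.χ y • th' i a y) z‖ := by
            rw [norm_smul, norm_smul, Real.norm_of_nonneg ht1, Real.norm_of_nonneg ht.1]
        _ ≤ 1 * (C1 i a * ε) + 1 * (C2 i a * ε) := by
            gcongr
            · linarith [ht.1]
            · exact ht.2
        _ = ε * (C1 i a + C2 i a) := by ring
        _ ≤ ε1 * (C1 i a + C2 i a) := by gcongr
        _ ≤ mg i := b3
  · refine continuousOn_pi.2 fun a => ?_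
    have hmem : ∀ p ∈ Icc (0 : ℝ) 1 ×ˢ {z : E4 | P.r0 ≤ ‖z‖ ∧ ‖z‖ ≤ ε}, p.2 ∈ PB 1 :=
      fun p hp => hP1 p.2 hp.2.1 hp.2.2
    have c1 : ∀ a b, ContinuousOn (fun p : ℝ × E4 => rD O (seg u u' p.1) i a b)
        (Icc (0 : ℝ) 1 ×ˢ {z : E4 | P.r0 ≤ ‖z‖ ∧ ‖z‖ ≤ ε}) := by
      intro a b p hp
      have h1 : ContinuousAt (fun c => rho c a b) (cc O (seg u u' p.1) i) :=
        (((hBst p.1 hp.1).def3 i).cd_rho a b).continuousAt
      have h2 : ContinuousAt (fun p : ℝ × E4 => cc O (seg u u' p.1) i) p :=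
        ((cc_cont O u u' i).comp continuous_fst).continuousAt
      exact (ContinuousAt.comp (f := fun p : ℝ × E4 => cc O (seg u u' p.1) i) h1
        h2).continuousWithinAt
    have c2 : ∀ b, ContinuousOn (fun p : ℝ × E4 =>
        pl (fderiv ℝ (FD P (fun i s => B i (p.1, s)) i) p.2) (et b))
        (Icc (0 : ℝ) 1 ×ˢ {z : E4 | P.r0 ≤ ‖z‖ ∧ ‖z‖ ≤ ε}) := fun b =>
      (continuous_pl (et b)).comp_continuousOn (f3.mono (prod_mono_right (subset_univ _)))
    have c3 : ContinuousOn (fun p : ℝ × E4 => d1 (lg (P.gd i)) p.2 - et 0)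
        (Icc (0 : ℝ) 1 ×ˢ {z : E4 | P.r0 ≤ ‖z‖ ∧ ‖z‖ ≤ ε}) := by
      intro p hp
      have h1 : ContinuousAt (d1 (lg (P.gd i))) p.2 :=
        (d1_contDiffAt (contDiffAt_lg (hmem p hp).1 (gd_cdAt P i (hmem p hp).1))).continuousAt
      exact ((ContinuousAt.comp (f := fun p : ℝ × E4 => p.2) h1 continuousAt_snd).sub
        continuousAt_const).continuousWithinAt
    have c4 : ∀ (th : Fin m → Fin 3 → E4 → E4 →L[ℝ] ℝ), (∀ i a, ThOK (th i a)) →
        ContinuousOn (fun p : ℝ × E4 => d1 (fun y => P.χ y • th i a y) p.2)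
        (Icc (0 : ℝ) 1 ×ˢ {z : E4 | P.r0 ≤ ‖z‖ ∧ ‖z‖ ≤ ε}) := by
      intro th hth p hp
      have h1 : ContinuousAt (d1 (fun y => P.χ y • th i a y)) p.2 :=
        (d1_contDiffAt (chith_cd (P := P) (hth i a) (PB_ball (hmem p hp)))).continuousAt
      exact (ContinuousAt.comp (f := fun p : ℝ × E4 => p.2) h1
        continuousAt_snd).continuousWithinAt
    have c5 : ContinuousOn (fun p : ℝ × E4 => d1 (fun y => P.χ y • thD th th' p.1 i a y) p.2)
        (Icc (0 : ℝ) 1 ×ˢ {z : E4 | P.r0 ≤ ‖z‖ ∧ ‖z‖ ≤ ε}) := by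
      have h1 := ((continuousOn_const (c := (1 : ℝ))).sub
        (continuous_fst (X := ℝ) (Y := E4)).continuousOn).smul (c4 th hp.ok)
      have h2 := (continuous_fst (X := ℝ) (Y := E4)).continuousOn.smul (c4 th' hp'.ok)
      refine (h1.add h2).congr fun p hp1 => ?_
      exact d1_chi_thD hp hp' p.1 i a (PB_ball (hmem p hp1))
    unfold nu
    exact ((continuousOn_finsetSum _ fun b _ => (c1 a b).smul (c2 b)).add
      ((c1 a 0).smul c3)).add c5

/-- **one segment**. -/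
theorem seg_step (hS : Std σ w K.phi 1 R r₀ g) (hw : Pos3 w) (hC : 0 < C)
    {A : Fin m → ℝ → E4 →L[ℝ] E4} (hst : St O u A) (hu' : EvenT O.io u') (hseg : Seg u u')
    {th th' : Fin m → Fin 3 → E4 → E4 →L[ℝ] ℝ} (hp : Prim O u th) (hp' : Prim O u' th') :
    ∃ A' : Fin m → ℝ → E4 →L[ℝ] E4, St O u' A' ∧ Ev2 fun ε δ => ∀ P : Par g C ε δ,
      ∀ W W' : Trip M, Real w R O P u (rD O u) (FD P A) th W →
        Real w R O P u' (rD O u') (FD P A') th' W' → PL W W' := by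
  obtain ⟨B, hB1, hB2, hB3⟩ := exists_states hst hu' hseg
  have hst' : St O u' fun i s => B i (1, s) := by
    have := hB3 1 ⟨zero_le_one, le_rfl⟩
    rwa [seg_one] at this
  refine ⟨fun i s => B i (1, s), hst', ?_⟩
  refine (neck_ev (g := g) hC hst hu' hseg hp hp' hB1 hB3).mono fun ε δ hev P W W' hW hW' => ?_
  -- closeness
  have hK : IsCompact {z : E4 | P.r0 ≤ ‖z‖ ∧ ‖z‖ ≤ ε} := by
    have h1 : {z : E4 | P.r0 ≤ ‖z‖ ∧ ‖z‖ ≤ ε} =
        Metric.closedBall (0 : E4) ε ∩ {z : E4 | P.r0 ≤ ‖z‖} := by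
      ext z; simp [and_comm]
    rw [h1]
    exact (isCompact_closedBall _ _).inter_right (isClosed_le continuous_const continuous_norm)
  have hsc := fun i => KClose_57.seg_close hK
    (fun t z a => nu P i (rD O (seg u u' t) i) (FD P (fun i s => B i (t, s)) i)
      (thD th th' t i) a z) (hev P i).2 (hev P i).1
  choose η hη0 hη using hsc
  obtain ⟨η0, hη1, hη2⟩ := exists_small hη0
  -- realisations
  have hex : ∀ t : ℝ, ∃ V : Trip M, t ∈ Icc (0 : ℝ) 1 → Real w R O P (seg u u' t)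
      (rD O (seg u u' t)) (FD P fun i s => B i (t, s)) (thD th th' t) V := by
    intro t
    by_cases ht : t ∈ Icc (0 : ℝ) 1
    · obtain ⟨V, hV⟩ := exists_real hS P (hB3 t ht) (hp.thD hp' ht.1 ht.2)
      exact ⟨V, fun _ => hV⟩
    · exact ⟨w, fun h => absurd h ht⟩
  choose V hV using hex
  have hstep : ∀ t ∈ Icc (0 : ℝ) 1, ∀ t' ∈ Icc (0 : ℝ) 1, |t - t'| < η0 →
      Seg (V t) (V t') := by
    intro t ht t' ht' htt
    refine Real.seg hS hw (hV t ht) (hV t' ht') (fun i => (hB3 t ht).fok i)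
      (fun i => (hB3 t' ht').fok i) (fun i => rD_LT (hB3 t ht) i) (fun i => rD_LT (hB3 t' ht') i)
      ?_ (fun i a z hz hz2 => (hB3 t ht).hout (hp.thD hp' ht.1 ht.2) i a z hz hz2)
      (fun i a z hz hz2 => (hB3 t' ht').hout (hp.thD hp' ht'.1 ht'.2) i a z hz hz2)
      fun i z hz1 hz2 τ hτ => ?_
    · intro τ h0 h1
      rw [seg_seg]
      refine hseg _ ?_ ?_
      · have := mul_nonneg (sub_nonneg.2 h1) ht.1
        have := mul_nonneg h0 ht'.1
        linarith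
      · have h2 := mul_le_mul_of_nonneg_left ht.2 (sub_nonneg.2 h1)
        have h3 := mul_le_mul_of_nonneg_left ht'.2 h0
        linarith
    · exact hη i t ht t' ht' (htt.trans_le (hη2 i)) z ⟨hz1, hz2⟩ τ hτ
  -- the chain
  obtain ⟨N, hN⟩ := exists_nat_one_div_lt hη1
  have hN0 : (0 : ℝ) < (N : ℝ) + 1 := by positivity
  have hchain : ∀ j : ℕ, j ≤ N + 1 → PL (V 0) (V ((j : ℝ) / ((N : ℝ) + 1))) := by
    intro j
    induction j with
    | zero =>
      intro _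
      rw [Nat.cast_zero, zero_div]
      exact Relation.ReflTransGen.refl
    | succ j ih =>
      intro hj
      refine (ih (by omega)).tail (hstep _ ?_ _ ?_ ?_)
      · have h2 : (j : ℝ) ≤ (N : ℝ) + 1 := by
          have : j ≤ N + 1 := by omega
          exact_mod_cast this
        exact ⟨by positivity, (div_le_one hN0).2 h2⟩
      · have h2 : ((j + 1 : ℕ) : ℝ) ≤ (N : ℝ) + 1 := by exact_mod_cast hj
        exact ⟨by positivity, (div_le_one hN0).2 h2⟩
      · have h2 : (j : ℝ) / ((N : ℝ) + 1) - ((j + 1 : ℕ) : ℝ) / ((N : ℝ) + 1) =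
            - (1 / ((N : ℝ) + 1)) := by
          push_cast
          field_simp
          ring
        rw [h2, abs_neg, abs_of_pos (by positivity)]
        exact hN
  have h1 := hchain (N + 1) le_rfl
  have h2 : ((N + 1 : ℕ) : ℝ) / ((N : ℝ) + 1) = 1 := by
    push_cast
    exact div_self hN0.ne'
  rw [h2] at h1
  have e0 : V 0 = W := by
    have h3 := hV 0 ⟨le_rfl, zero_le_one⟩
    have h4 : (fun i s => B i ((0 : ℝ), s)) = A := by
      funext i s
      exact hB2 i s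
    rw [seg_zero, thD_zero, h4] at h3
    exact h3.unique hW
  have e1 : V 1 = W' := by
    have h3 := hV 1 ⟨zero_le_one, le_rfl⟩
    rw [seg_one, thD_one] at h3
    exact h3.unique hW'
  rw [e0, e1] at h1
  exact h1

/-- **the chain**. -/
theorem chain (hS : Std σ w K.phi 1 R r₀ g) (hw : Pos3 w) (hC : 0 < C)
    {A : Fin m → ℝ → E4 →L[ℝ] E4} (hst : St O u A)
    {th : Fin m → Fin 3 → E4 → E4 →L[ℝ] ℝ} (hp : Prim O u th) (hple : PLE O.io u u') :
    ∃ (A' : Fin m → ℝ → E4 →L[ℝ] E4) (th' : Fin m → Fin 3 → E4 → E4 →L[ℝ] ℝ),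
      St O u' A' ∧ Prim O u' th' ∧ Ev2 fun ε δ => ∀ P : Par g C ε δ,
      ∀ W W' : Trip M, Real w R O P u (rD O u) (FD P A) th W →
        Real w R O P u' (rD O u') (FD P A') th' W' → PL W W' := by
  induction hple with
  | refl =>
    exact ⟨A, th, hst, hp, Ev2.of_forall fun ε δ _ _ _ P W W' hW hW' => by
      rw [hW.unique hW']
      exact Relation.ReflTransGen.refl⟩
  | @tail v v' _ hvv ih =>
    obtain ⟨A1, th1, hst1, hp1, hev1⟩ := ih
    obtain ⟨hseg, _, hev'⟩ := hvv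
    obtain ⟨th2, hp2⟩ := exists_prim O hev'
    obtain ⟨A2, hst2, hev2⟩ := seg_step hS hw hC hst1 hev' hseg hp1 hp2
    refine ⟨A2, th2, hst2, hp2, (hev1.and hev2).mono ?_⟩
    rintro ε δ ⟨h1, h2⟩ P W W' hW hW'
    obtain ⟨V, hV⟩ := exists_real hS P hst1 hp1
    exact (h1 P W V hW hV).trans (h2 P V W' hV hW')

end Step

end

end Crest.Agent.R235.KSegm_604
end

-- ▼ part R235/KInit_604
section

/-!
Row 235, KUM-K5 (helper604): the first segment: from the standardised triple to the realisation of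
its lift.
-/

set_option autoImplicit false
set_option maxSynthPendingDepth 3
set_option linter.unusedSectionVars false

open Set Function Filter
open scoped Manifold ContDiff Topology RealInnerProductSpace

universe u

namespace Crest.Agent.R235.KInit_604

open Crest.Agent.R240 Crest.Agent.R240.Ch Crest.Agent.R235 Crest.Agent.R235.PB_604
  Crest.Agent.R235.KLin_604 Crest.Agent.R235.KT_604 Crest.Agent.R235.KGlue_604
  Crest.Agent.R235.KForm_604 Crest.Agent.R235.K12_417 Crest.Agent.R235.KUp_604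
  Crest.Agent.R235.KReal_604 Crest.Agent.R235.KState_604 Crest.Agent.R235.KSegm_604

noncomputable section

lemma posB_diag {c : Fin 3 → Bil} (hc : PosB c) {k : Fin 3 → ℝ} (hk : ∀ a, 0 < k a) :
    PosB fun a => k a • c a := by
  intro x hx
  have h1 : ∑ i, x i • k i • c i = ∑ i, (x i * k i) • c i := by
    simp only [smul_smul]
  rw [h1]
  refine hc _ fun h0 => hx (funext fun i => ?_)
  have := congrFun h0 i
  exact (mul_eq_zero.1 this).resolve_right (hk i).ne'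

section Init

variable {M : Type u} [TopologicalSpace M] [T2Space M] [CompactSpace M]
  [ChartedSpace E4 M] [IsManifold 𝓘(ℝ, E4) ∞ M]
  {m : ℕ} {σ : Fin m → E3 → M} {w : Trip M} {R r₀ : Fin m → ℝ} {g : Fin m → ℝ → ℝ}
  {K : KIn M m}
  {X : Type u} [TopologicalSpace X] [T2Space X] [CompactSpace X]
  [ChartedSpace E4 X] [IsManifold 𝓘(ℝ, E4) ∞ X]
  {O : KOut K X} {C : ℝ} {u : Trip X}

lemma chf_init (hl : LiftT w O R r₀ u) (i : Fin m) (a : Fin 3) {z : E4}
    (hz : z ∈ Metric.ball (0 : E4) 1) : chf O u i a z = R i • et a := by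
  ext v v'
  show pl (D1 E4 E4 (O.ch i) z) (val (u a) (O.ch i z)) v v' = R i * et a v v'
  rw [pl_apply]
  fin_cases a
  · exact (hl.flat0 i z hz v v').trans (by rw [← et_qI]; rfl)
  · exact (hl.flat1 i z hz v v').trans (by rw [← et_qJ]; rfl)
  · exact (hl.flat2 i z hz v v').trans (by rw [← et_qK]; rfl)

lemma cc_init (hl : LiftT w O R r₀ u) (i : Fin m) : cc O u i = ket (R i) :=
  funext fun a => chf_init hl i a (by simp)

lemma st_init (hS : Std σ w K.phi 1 R r₀ g) (hl : LiftT w O R r₀ u) :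
    St O u fun _ _ => ContinuousLinearMap.id ℝ E4 := by
  refine ⟨hl.even, fun i => ?_, fun i => ?_, fun i s _ => ⟨contDiffAt_const, fun v hv => hv⟩,
    fun i => rfl, fun i => ?_⟩
  · rw [cc_init hl]; exact ket_def3 (hS.R_pos i)
  · rw [cc_init hl]; exact NN_ket (hS.R_pos i)
  · show ContinuousLinearMap.id ℝ E4 = AA (cc O u i)
    rw [cc_init hl, AA_ket (hS.R_pos i)]

lemma prim_init (hl : LiftT w O R r₀ u) : Prim O u fun _ _ _ => 0 := by
  refine ⟨fun i a => ⟨fun z _ => contDiffAt_const, fun z => neg_zero.symm⟩, fun i a z hz => ?_,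
    fun i a => ⟨0, le_rfl, fun z _ => ⟨by simp, ?_⟩⟩⟩
  · rw [chf_init hl i a hz, chf_init hl i a (by simp), sub_self]
    exact d1_zero_of_ev (Eventually.of_forall fun _ => rfl)
  · have h : fderiv ℝ (fun _ : E4 => (0 : E4 →L[ℝ] ℝ)) z = 0 := fderiv_const_apply 0
    rw [h]; simp

lemma nu_init {ε δ : ℝ} (P : Par g C ε δ) (hS : Std σ w K.phi 1 R r₀ g)
    (hl : LiftT w O R r₀ u) (i : Fin m) (a : Fin 3) (z : E4) :
    nu P i (rD O u i) (FD P (fun _ _ => ContinuousLinearMap.id ℝ E4) i) (fun _ _ => 0) a z =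
      R i • neckT (P.gd i) z a := by
  have h1 : fderiv ℝ (FD P (fun _ _ => ContinuousLinearMap.id ℝ E4) i) z =
      ContinuousLinearMap.id ℝ E4 := (ContinuousLinearMap.id ℝ E4).fderiv
  have h2 : d1 (fun y : E4 => P.χ y • (0 : E4 →L[ℝ] ℝ)) z = 0 :=
    d1_zero_of_ev (Eventually.of_forall fun _ => smul_zero _)
  have h3 : ∀ a b, rD O u i a b = if a = b then R i else 0 := by
    intro a b
    show rho (cc O u i) a b = _
    rw [cc_init hl, rho_ket (hS.R_pos i)]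
  unfold nu
  rw [h1, h2, add_zero, Fin.sum_univ_three, pl_id, pl_id, pl_id, h3, h3, h3]
  fin_cases a
  · show (R i • et 0 + (0 : ℝ) • et 1 + (0 : ℝ) • et 2) + R i • (d1 (lg (P.gd i)) z - et 0) =
      R i • d1 (lg (P.gd i)) z
    module
  · show ((0 : ℝ) • et 0 + R i • et 1 + (0 : ℝ) • et 2) + (0 : ℝ) • (d1 (lg (P.gd i)) z - et 0) =
      R i • et 1
    module
  · show ((0 : ℝ) • et 0 + (0 : ℝ) • et 1 + R i • et 2) + (0 : ℝ) • (d1 (lg (P.gd i)) z - et 0) =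
      R i • et 2
    module

lemma neckT_comb {g k : ℝ → ℝ} {z : E4} (hz : z ≠ 0) (hg : DifferentiableAt ℝ g (‖z‖ ^ 2))
    (hk : DifferentiableAt ℝ k (‖z‖ ^ 2)) (τ : ℝ) (a : Fin 3) :
    neckT (fun t => (1 - τ) * g t + τ * k t) z a = (1 - τ) • neckT g z a + τ • neckT k z a := by
  fin_cases a
  · exact d1_lg_comb hz hg hk (1 - τ) τ
  · show et 1 = (1 - τ) • et 1 + τ • et 1
    module
  · show et 2 = (1 - τ) • et 2 + τ • et 2
    module

lemma comb_pos {a b τ : ℝ} (ha : 0 < a) (hb : 0 < b) (h0 : 0 ≤ τ) (h1 : τ ≤ 1) :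
    0 < (1 - τ) * a + τ * b := by
  rcases eq_or_lt_of_le h0 with h2 | h2
  · rw [← h2]; simpa using ha
  · have := mul_pos h2 hb
    have h3 : 0 ≤ (1 - τ) * a := mul_nonneg (by linarith) ha.le
    linarith

/-- **the first segment**. -/
theorem init_step {ε δ : ℝ} (P : Par g C ε δ) (hS : Std σ w K.phi 1 R r₀ g) (hw : Pos3 w)
    (hu : Pos3 u) (hl : LiftT w O R r₀ u) {W0 : Trip M}
    (hW : Real w R O P u (rD O u) (FD P fun _ _ => ContinuousLinearMap.id ℝ E4)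
      (fun _ _ _ => 0) W0) : Seg w W0 := by
  intro τ h0 h1 y
  show PosB (fun a => (1 - τ) • val (w a) y + τ • val (W0 a) y)
  have halt : ∀ y a, Alt ((1 - τ) • val (w a) y + τ • val (W0 a) y) := by
    intro y a v
    show (1 - τ) * val (w a) y v v + τ * val (W0 a) y v v = 0
    rw [alt_val _ _ v, alt_val _ _ v]; ring
  have h3 : ∀ i a b, rD O u i a b = if a = b then R i else 0 := by
    intro i a b
    show rho (cc O u i) a b = _
    rw [cc_init hl, rho_ket (hS.R_pos i)]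
  obtain ⟨r, hr1, hr, hrε⟩ : ∃ r : ℝ, r < 1 ∧ (∀ i, r₀ i ≤ r) ∧ ε ≤ r := by
    have h1 : ∀ᶠ r in 𝓝[<] (1 : ℝ), ∀ i, r₀ i ≤ r := by
      refine eventually_all.2 fun i => ?_
      filter_upwards [Ioo_mem_nhdsLT (hS.r_pos i).2] with r hr
      exact hr.1.le
    have h2 : ∀ᶠ r in 𝓝[<] (1 : ℝ), ε ≤ r := by
      filter_upwards [Ioo_mem_nhdsLT P.ε_lt] with r hr
      exact hr.1.le
    obtain ⟨r, ⟨hr, hr3⟩, hr'⟩ := ((h1.and h2).and self_mem_nhdsWithin).exists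
    exact ⟨r, hr', hr, hr3⟩
  rcases cases_M O hr1 y with ⟨i, hi⟩ | ⟨i, z, hz, rfl⟩ | ⟨x, hx, hx2, rfl⟩
  · have h4 : ∀ a, val (W0 a) y = P.mu i a • val (w a) y := by
      intro a
      rw [hW.c i a y hi, Finset.sum_eq_single a]
      · rw [h3, if_pos rfl]
        congr 1
        have := (hS.R_pos i).ne'
        field_simp
      · intro b _ hb
        rw [h3, if_neg hb.symm, zero_mul, zero_smul]
      · intro h; exact absurd (Finset.mem_univ a) h
    have h5 : (fun a => (1 - τ) • val (w a) y + τ • val (W0 a) y) =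
        fun a => ((1 - τ) * 1 + τ * P.mu i a) • val (w a) y := by
      funext a
      rw [h4]
      module
    rw [h5]
    exact posB_diag (hw y) fun a => comb_pos one_pos (P.mu_pos i a) h0 h1
  · have hg := std_df hS i hz.1
    have hk := gd_df P i hz.1
    have hn := nsq_pos hz.1
    have hn1 := nsq_lt hz
    refine posB_of_pl (halt _) (K.imm i z hz)
      (c := fun a => R i • neckT (fun t => (1 - τ) * g i t + τ * P.gd i t) z a) (fun a => ?_) ?_
    · show pl (D1 E4 E4 (K.phi i) z) ((1 - τ) • val (w a) (K.phi i z)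
        + τ • val (W0 a) (K.phi i z)) = _
      rw [pl_add, pl_smul, pl_smul, std_pl hS i hz a, hW.n i a z hz]
      show _ + τ • nu P i (rD O u i) (FD P (fun _ _ => ContinuousLinearMap.id ℝ E4) i)
        (fun _ _ => 0) a z = _
      rw [nu_init P hS hl, neckT_comb hz.1 hg hk]
      module
    · refine posB_diag ?_ fun _ => hS.R_pos i
      have hd : HasDerivAt (fun t => (1 - τ) * g i t + τ * P.gd i t)
          ((1 - τ) * deriv (g i) (‖z‖ ^ 2) + τ * deriv (P.gd i) (‖z‖ ^ 2)) (‖z‖ ^ 2) :=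
        (hg.hasDerivAt.const_mul _).fun_add (hk.hasDerivAt.const_mul _)
      refine posB_neck hz.1 hd.differentiableAt ?_ ?_
      · exact comb_pos (hS.g_pos i _ hn hn1).1 (P.gd_pos i _ hn hn1).1 h0 h1
      · rw [hd.deriv]
        exact comb_pos (hS.g_pos i _ hn hn1).2 (P.gd_pos i _ hn hn1).2 h0 h1
  · refine posB_of_pl (halt _) (O.pr_imm x hx) (c := fun a => val (u a) x) (fun a => ?_) (hu x)
    show pl (D1 E4 E4 O.pr x) ((1 - τ) • val (w a) (O.pr x) + τ • val (W0 a) (O.pr x)) = _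
    have e1 : pl (D1 E4 E4 O.pr x) (val (w a) (O.pr x)) = val (u a) x := by
      ext v v'
      rw [pl_apply]
      refine (hl.pull a x (fun i hi => ?_) v v').symm
      obtain ⟨z, hz, hzx⟩ := hi
      refine hx2 i z ?_ hzx.symm
      have h4 : ‖z‖ < r₀ i := by simpa using hz
      exact h4.le.trans (hr i)
    rw [pl_add, pl_smul, pl_smul, e1, hW.o a x hx fun i z hz => hx2 i z (hz.trans hrε)]
    module

end Init

end

end Crest.Agent.R235.KInit_604
end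

-- ▼ part R235/KTheta_129
section

/-!
Row 235 (S0364), KUM (helper129 for helper604, leaf L5): odd coordinates at the new points of the
double cover `X`, given by odd closed one-forms.
-/

set_option autoImplicit false
set_option maxSynthPendingDepth 3
set_option linter.unusedSectionVars false

open Set Function Filter
open scoped Manifold ContDiff Topology

universe u

namespace Crest.Agent.R235.KTheta_129

open Crest.Agent.R240 Crest.Agent.R240.Ch Crest.Agent.R235 Crest.Agent.R235.PB_604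
  Crest.Agent.R235.KT_604 Crest.Agent.R235.KGlue_604 Crest.Agent.R235.KUp_604

noncomputable section

variable {M : Type u} [TopologicalSpace M] [ChartedSpace E4 M] [IsManifold 𝓘(ℝ, E4) ∞ M]
  {m : ℕ} {K : KIn M m}
variable {X : Type u} [TopologicalSpace X] [T2Space X] [ChartedSpace E4 X]
  [IsManifold 𝓘(ℝ, E4) ∞ X]

/-- closed one-forms have vanishing exterior derivative. -/
lemma dG_zero {s : F1 E4 X} (hs : Closed1 s) : dG s = 0 := by
  funext x
  exact hs.2 x _ (mem_chart_target E4 x)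


/-- one odd coordinate. -/
lemma exists_coord (O : KOut K X) {s : F1 E4 X} (hc : Closed1 s) (ho : Odd1 O.io s) (i : Fin m) :
    ∃ θ : E4 → ℝ, (∀ z ∈ Metric.ball (0 : E4) 1, ContDiffAt ℝ ∞ θ z) ∧
      (∀ z, θ (-z) = - θ z) ∧ ∀ z ∈ Metric.ball (0 : E4) 1, ∀ v : E4,
        fderiv ℝ θ z v = at1 s (O.ch i z) (D1 E4 E4 (O.ch i) z v) := by
  have hU : IsOpen (Metric.ball (0 : E4) 1) := Metric.isOpen_ball
  have hsm := O.ch_smooth i
  set t : E4 → E4 →L[ℝ] ℝ := Pull_129.pb1 (O.ch i) s with ht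
  have htv : ∀ z v, t z v = at1 s (O.ch i z) (D1 E4 E4 (O.ch i) z v) := fun z v => rfl
  have hts : ContDiffOn ℝ ∞ t (Metric.ball 0 1) := Pull_129.pb1_contDiffOn hU hsm hc.1
  have htc : ∀ z ∈ Metric.ball (0 : E4) 1, ∀ v w, fderiv ℝ t z v w = fderiv ℝ t z w v := by
    intro z hz v w
    have h1 := Pull_129.d1_pb1 hU hsm hz hc.1 v w
    rw [dG_zero hc] at h1
    have h2 : Pull_129.pb2 (O.ch i) (0 : F2 E4 X) z v w = 0 := rfl
    rw [h2, d1_apply] at h1
    linarith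
  obtain ⟨F, hF⟩ := R281.Poi_234.poincare1 hU (convex_ball _ _) hts htc
  have hFs := R281.Poi_234.contDiffOn_of_hasFDerivAt hU hts hF
  -- `t` is even
  have hodd : ∀ z ∈ Metric.ball (0 : E4) 1, ∀ v, t (-z) v = t z v := by
    intro z hz v
    rw [htv, htv]
    have h1 := congrArg (fun A : E4 →L[ℝ] E4 => A v) (D1_io_ch O (i := i) hz)
    have h2 : D1 E4 E4 (O.ch i) (-z) v = - D1 E4 E4 O.io (O.ch i z) (D1 E4 E4 (O.ch i) z v) := by
      have h3 : D1 E4 E4 O.io (O.ch i z) (D1 E4 E4 (O.ch i) z v) =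
        - D1 E4 E4 (O.ch i) (-z) v := h1
      rw [h3, neg_neg]
    rw [h2, map_neg, ← O.io_ch i z hz, ← dself_io]
    have h4 := ho (O.ch i z) (D1 E4 E4 (O.ch i) z v)
    linarith
  have hneg : ∀ {z : E4}, z ∈ Metric.ball (0 : E4) 1 → -z ∈ Metric.ball (0 : E4) 1 := by
    intro z hz
    simpa using hz
  refine ⟨fun z => (F z - F (-z)) / 2, ?_, ?_, ?_⟩
  · intro z hz
    have h1 : ContDiffAt ℝ ∞ F z := hFs.contDiffAt (hU.mem_nhds hz)
    have h2 : ContDiffAt ℝ ∞ F (-z) := hFs.contDiffAt (hU.mem_nhds (hneg hz))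
    have h3 : ContDiffAt ℝ ∞ (fun z : E4 => F (-z)) z :=
      ContDiffAt.comp z (g := F) h2 contDiff_neg.contDiffAt
    exact (h1.sub h3).div_const 2
  · intro z
    simp only [neg_neg]
    ring
  · intro z hz v
    have h1 := hF z hz
    have h2 := hF (-z) (hneg hz)
    have h3 : HasFDerivAt (fun z : E4 => F (-z)) ((t (-z)).comp (-ContinuousLinearMap.id ℝ E4)) z :=
      h2.comp z (hasFDerivAt_id (𝕜 := ℝ) z).fun_neg
    have h4 : HasFDerivAt (fun z : E4 => (F z - F (-z)) / 2)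
        ((2 : ℝ)⁻¹ • (t z - (t (-z)).comp (-ContinuousLinearMap.id ℝ E4))) z := by
      have h5 := (h1.sub h3).const_smul (2 : ℝ)⁻¹
      refine h5.congr_of_eventuallyEq (Eventually.of_forall fun y => ?_)
      show (F y - F (-y)) / 2 = (2 : ℝ)⁻¹ • (F y - F (-y))
      rw [smul_eq_mul]
      ring
    rw [h4.fderiv, ← htv]
    have h6 := hodd z hz v
    simp only [smul_apply, sub_apply, ContinuousLinearMap.comp_apply, neg_apply,
      ContinuousLinearMap.id_apply, map_neg, smul_eq_mul]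
    rw [h6]
    ring

/-- **L5.** -/
theorem exists_theta (O : KOut K X) (s : Fin 4 → F1 E4 X) (hc : ∀ j, Closed1 (s j))
    (ho : ∀ j, Odd1 O.io (s j)) (i : Fin m) : ∃ Θ : E4 → E4,
      (∀ z ∈ Metric.ball (0 : E4) 1, ContDiffAt ℝ ∞ Θ z) ∧ (∀ z, Θ (-z) = - Θ z) ∧
      ∀ z ∈ Metric.ball (0 : E4) 1, ∀ (v : E4) (j : Fin 4),
        (fderiv ℝ Θ z v) j = at1 (s j) (O.ch i z) (D1 E4 E4 (O.ch i) z v) := by
  choose θ h1 h2 h3 using fun j => exists_coord O (hc j) (ho j) i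
  have hcd : ∀ z ∈ Metric.ball (0 : E4) 1,
      ContDiffAt ℝ ∞ (fun z => (WithLp.toLp 2 fun j => θ j z : E4)) z := by
    intro z hz
    rw [contDiffAt_euclidean]
    intro j
    exact h1 j z hz
  refine ⟨fun z => WithLp.toLp 2 fun j => θ j z, hcd, fun z => ?_, fun z hz v j => ?_⟩
  · ext j
    exact h2 j z
  · have h4 : HasFDerivAt (fun z => (WithLp.toLp 2 fun j => θ j z : E4))
        (fderiv ℝ (fun z => (WithLp.toLp 2 fun j => θ j z : E4)) z) z :=
      ((hcd z hz).differentiableAt (by simp)).hasFDerivAt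
    have h5 : HasFDerivAt (fun z => θ j z) ((EuclideanSpace.proj j : E4 →L[ℝ] ℝ).comp
        (fderiv ℝ (fun z => (WithLp.toLp 2 fun j => θ j z : E4)) z)) z :=
      (EuclideanSpace.proj j : E4 →L[ℝ] ℝ).hasFDerivAt.comp z h4
    have h6 := h5.fderiv
    rw [← h3 j z hz v]
    have h7 := congrArg (fun A : E4 →L[ℝ] ℝ => A v) h6
    exact h7.symm

end

end Crest.Agent.R235.KTheta_129
end

-- ▼ part R235/KFlat_129
section

/-!
Row 235, KDOWN L14 (helper129): the flat end of the path.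

* `flat_alg`: the lower triangular matrix `rho c` is inverted, `∑ b, A a b • c b = zz c a`;
* `chf_flat`: a triple with constant coefficients in a coframe `s`, in a chart at a new point in
  which `s` is `dΘ`.
-/

set_option autoImplicit false
set_option maxSynthPendingDepth 3
set_option linter.unusedSectionVars false

open Set Function Filter
open scoped Manifold ContDiff Topology RealInnerProductSpace

universe u

namespace Crest.Agent.R235.KFlat_129

open Crest.Agent.R240 Crest.Agent.R240.Ch Crest.Agent.R235 Crest.Agent.R235.PB_604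
  Crest.Agent.R235.KLin_604 Crest.Agent.R235.KT_604 Crest.Agent.R235.KGlue_604
  Crest.Agent.R235.KForm_604 Crest.Agent.R235.K12_417 Crest.Agent.R235.KUp_604
  Crest.Agent.R235.KReal_604

noncomputable section

lemma det_rho {c : Fin 3 → Bil} (h : Def3 c) :
    (Matrix.of (rho c)).det ≠ 0 := by
  have h0 := (h.rho_diag 0).ne'
  have h1 := (h.rho_diag 1).ne'
  have h2 := (h.rho_diag 2).ne'
  have e : (Matrix.of (rho c)).det = rho c 0 0 * rho c 1 1 * rho c 2 2 := by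
    rw [Matrix.det_fin_three]
    simp only [Matrix.of_apply]
    rw [rho_upper (c := c) (a := 0) (b := 1) (by decide),
      rho_upper (c := c) (a := 0) (b := 2) (by decide),
      rho_upper (c := c) (a := 1) (b := 2) (by decide)]
    ring
  rw [e]
  exact mul_ne_zero (mul_ne_zero h0 h1) h2

theorem flat_alg {c : Fin 3 → Bil} (h : Def3 c) : ∃ A : Matrix (Fin 3) (Fin 3) ℝ, A.det ≠ 0 ∧
    (∀ a d, ∑ b, A a b * rho c b d = if a = d then 1 else 0) ∧
    ∀ a, ∑ b, A a b • c b = zz c a := by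
  have hu : IsUnit (Matrix.of (rho c)).det := isUnit_iff_ne_zero.2 (det_rho h)
  have hinv : ∀ a d, ∑ b, ((Matrix.of (rho c))⁻¹) a b * rho c b d = if a = d then 1 else 0 := by
    intro a d
    have e := congrFun (congrFun (Matrix.nonsing_inv_mul (Matrix.of (rho c)) hu) a) d
    rw [Matrix.mul_apply, Matrix.one_apply] at e
    exact e
  refine ⟨(Matrix.of (rho c))⁻¹, ?_, hinv, fun a => ?_⟩
  · have := Matrix.isUnit_nonsing_inv_det (Matrix.of (rho c)) hu
    exact this.ne_zero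
  · calc ∑ b, ((Matrix.of (rho c))⁻¹) a b • c b
        = ∑ b, ((Matrix.of (rho c))⁻¹) a b • ∑ d, rho c b d • zz c d :=
          Finset.sum_congr rfl fun b _ => by rw [← h.c_eq b]
      _ = ∑ b, ∑ d, (((Matrix.of (rho c))⁻¹) a b * rho c b d) • zz c d := by
          refine Finset.sum_congr rfl fun b _ => ?_
          rw [Finset.smul_sum]
          exact Finset.sum_congr rfl fun d _ => by rw [smul_smul]
      _ = ∑ d, (∑ b, ((Matrix.of (rho c))⁻¹) a b * rho c b d) • zz c d := by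
          rw [Finset.sum_comm]
          exact Finset.sum_congr rfl fun d _ => by rw [Finset.sum_smul]
      _ = ∑ d, (if a = d then (1 : ℝ) else 0) • zz c d :=
          Finset.sum_congr rfl fun d _ => by rw [hinv a d]
      _ = zz c a := by
          simp only [ite_smul, one_smul, zero_smul, Finset.sum_ite_eq, Finset.mem_univ, if_true]

section Chf

variable {M : Type u} [TopologicalSpace M] [T2Space M] [CompactSpace M]
  [ChartedSpace E4 M] [IsManifold 𝓘(ℝ, E4) ∞ M]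
  {m : ℕ} {K : KIn M m}
  {X : Type u} [TopologicalSpace X] [T2Space X] [CompactSpace X]
  [ChartedSpace E4 X] [IsManifold 𝓘(ℝ, E4) ∞ X]

theorem chf_flat (O : KOut K X) {u : Trip X} {s : Fin 4 → F1 E4 X}
    (c : Fin 3 → Fin 4 → Fin 4 → ℝ)
    (hc : ∀ k x, val (u k) x = ∑ i, ∑ j, c k i j • wed (at1 (s i) x) (at1 (s j) x)) (i : Fin m)
    {Θ : E4 → E4}
    (hΘ : ∀ z ∈ Metric.ball (0:E4) 1, ∀ (v : E4) (j : Fin 4),
      (fderiv ℝ Θ z v) j = at1 (s j) (O.ch i z) (D1 E4 E4 (O.ch i) z v))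
    {z : E4} (hz : z ∈ Metric.ball (0:E4) 1) (k : Fin 3) :
    KReal_604.chf O u i k z = pl (fderiv ℝ Θ z) (∑ a, ∑ b, c k a b • wed (dx a) (dx b)) := by
  refine ContinuousLinearMap.ext fun v => ContinuousLinearMap.ext fun w => ?_
  have h := hΘ z hz
  unfold KReal_604.chf
  rw [hc k (O.ch i z), pl_apply, pl_apply]
  simp only [ContinuousLinearMap.sum_apply, ContinuousLinearMap.smul_apply, wed_apply, dx_apply,
    h]

end Chf

end

end Crest.Agent.R235.KFlat_129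
end

-- ▼ part R235/KFin_604

/-!
Row 235, KUM-K5 (helper604): the last segment: the realisation of a flat triple with exact
algebraic relations.
-/

set_option autoImplicit false
set_option maxSynthPendingDepth 3
set_option linter.unusedSectionVars false

open Set Function Filter
open scoped Manifold ContDiff Topology RealInnerProductSpace

universe u

namespace Crest.Agent.R235.KFin_604

open Crest.Agent.R240 Crest.Agent.R240.Ch Crest.Agent.R235 Crest.Agent.R235.PB_604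
  Crest.Agent.R235.KLin_604 Crest.Agent.R235.KT_604 Crest.Agent.R235.KGlue_604
  Crest.Agent.R235.KForm_604 Crest.Agent.R235.K12_417 Crest.Agent.R235.KUp_604
  Crest.Agent.R235.KReal_604 Crest.Agent.R235.KState_604 Crest.Agent.R235.KSegm_604

noncomputable section

lemma norm_pl_sub (E : E4 →L[ℝ] E4) (b : Bil) (h : ‖E - ContinuousLinearMap.id ℝ E4‖ ≤ 1) :
    ‖pl E b - b‖ ≤ 3 * ‖E - ContinuousLinearMap.id ℝ E4‖ * ‖b‖ := by
  set D := E - ContinuousLinearMap.id ℝ E4 with hD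
  have hE : ∀ v, E v = v + D v := fun v => by
    rw [hD]
    show E v = v + (E v - v)
    abel
  refine ContinuousLinearMap.opNorm_le_bound₂ _ (by positivity) fun u v => ?_
  have h1 : (pl E b - b) u v = b u (D v) + b (D u) v + b (D u) (D v) := by
    show pl E b u v - b u v = _
    rw [pl_apply, hE, hE]
    simp only [map_add, add_apply]
    ring
  rw [h1]
  have e1 : ‖b u (D v)‖ ≤ ‖b‖ * ‖u‖ * (‖D‖ * ‖v‖) :=
    (b.le_opNorm₂ _ _).trans (by gcongr; exact D.le_opNorm v)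
  have e2 : ‖b (D u) v‖ ≤ ‖b‖ * (‖D‖ * ‖u‖) * ‖v‖ :=
    (b.le_opNorm₂ _ _).trans (by gcongr; exact D.le_opNorm u)
  have e3 : ‖b (D u) (D v)‖ ≤ ‖b‖ * (‖D‖ * ‖u‖) * (‖D‖ * ‖v‖) :=
    (b.le_opNorm₂ _ _).trans (by gcongr; exact D.le_opNorm u; exact D.le_opNorm v)
  have hd0 := norm_nonneg D
  have hb0 := norm_nonneg b
  have hu0 := norm_nonneg u
  have hv0 := norm_nonneg v
  have e4 : ‖b‖ * (‖D‖ * ‖u‖) * (‖D‖ * ‖v‖) ≤ ‖b‖ * (‖D‖ * ‖u‖) * (1 * ‖v‖) := by gcongr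
  calc ‖b u (D v) + b (D u) v + b (D u) (D v)‖ ≤ ‖b u (D v)‖ + ‖b (D u) v‖ + ‖b (D u) (D v)‖ :=
        norm_add₃_le
    _ ≤ ‖b‖ * ‖u‖ * (‖D‖ * ‖v‖) + ‖b‖ * (‖D‖ * ‖u‖) * ‖v‖ + ‖b‖ * (‖D‖ * ‖u‖) * (1 * ‖v‖) := by
        gcongr
        exact e3.trans e4
    _ = 3 * ‖D‖ * ‖b‖ * ‖u‖ * ‖v‖ := by ring

section Map

variable {m : ℕ} {g : Fin m → ℝ → ℝ} {C ε δ : ℝ} (P : Par g C ε δ)

/-- `z ↦ z + χ(z) (Θ z - z)`. -/
def TT (Θ : E4 → E4) (z : E4) : E4 := z + P.χ z • (Θ z - z)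

variable {P}

lemma TT_in {Θ : E4 → E4} {z : E4} (hz : ‖z‖ ≤ ε / 2) : TT P Θ z = z := by
  unfold TT
  rw [P.χ_0 z hz, zero_smul, add_zero]

lemma TT_odd {Θ : E4 → E4} (h : ∀ z, Θ (-z) = - Θ z) (z : E4) : TT P Θ (-z) = - TT P Θ z := by
  unfold TT
  rw [P.χ_even, h]
  module

lemma TT_cd {Θ : E4 → E4} {z : E4} (h : ContDiffAt ℝ ∞ Θ z) : ContDiffAt ℝ ∞ (TT P Θ) z := by
  unfold TT
  exact contDiffAt_id.add (P.χ_cd.contDiffAt.smul (h.sub contDiffAt_id))

lemma fderiv_TT_in {Θ : E4 → E4} {z : E4} (h : ContDiffAt ℝ ∞ Θ z) (hz : ‖z‖ ≤ ε / 2) :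
    fderiv ℝ (TT P Θ) z = ContinuousLinearMap.id ℝ E4 := by
  have h1 : HasFDerivAt P.χ (fderiv ℝ P.χ z) z :=
    (P.χ_cd.differentiable infty_ne_zero z).hasFDerivAt
  have h2 : HasFDerivAt (fun z => Θ z - z) (fderiv ℝ Θ z - ContinuousLinearMap.id ℝ E4) z :=
    ((h.differentiableAt infty_ne_zero).hasFDerivAt).fun_sub (hasFDerivAt_id z)
  have h3 : fderiv ℝ (TT P Θ) z = _ := ((hasFDerivAt_id z).fun_add (h1.fun_smul h2)).fderiv
  rw [h3, P.χ_0 z hz, dchi_zero (P.χ_0 z hz)]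
  ext v
  simp

lemma fderiv_TT_out {Θ : E4 → E4} {z : E4} (hz : ε < ‖z‖) :
    fderiv ℝ (TT P Θ) z = fderiv ℝ Θ z := by
  refine Filter.EventuallyEq.fderiv_eq ?_
  have h : ∀ᶠ y in 𝓝 z, ε < ‖y‖ := continuous_norm.continuousAt.eventually (Ioi_mem_nhds hz)
  filter_upwards [h] with y hy
  unfold TT
  rw [P.χ_1 y hy.le, one_smul]
  abel

/-- the differential of `A (s z) (T z)`. -/
lemma fderiv_AT {A : ℝ → E4 →L[ℝ] E4} (hA : ∀ s ∈ Icc (0 : ℝ) 1, ContDiffAt ℝ ∞ A s)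
    {T : E4 → E4} {z : E4} (hT : DifferentiableAt ℝ T z) (v : E4) :
    fderiv ℝ (fun z : E4 => A (P.s z) (T z)) z v =
      A (P.s z) (fderiv ℝ T z v) + fderiv ℝ P.s z v • (deriv A (P.s z)) (T z) := by
  have h1 : HasDerivAt A (deriv A (P.s z)) (P.s z) :=
    ((hA _ (s_Icc P z)).differentiableAt infty_ne_zero).hasDerivAt
  have h2 : HasFDerivAt P.s (fderiv ℝ P.s z) z :=
    (P.s_cd.differentiable infty_ne_zero z).hasFDerivAt
  have h3 : HasFDerivAt (fun z => A (P.s z))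
      ((ContinuousLinearMap.toSpanSingleton ℝ (deriv A (P.s z))).comp (fderiv ℝ P.s z)) z :=
    h1.hasFDerivAt.comp z h2
  have h4 := h3.clm_apply hT.hasFDerivAt
  have h5 : fderiv ℝ (fun z : E4 => A (P.s z) (T z)) z = _ := h4.fderiv
  rw [h5]
  simp

end Map

section Fin

variable {M : Type u} [TopologicalSpace M] [T2Space M] [CompactSpace M]
  [ChartedSpace E4 M] [IsManifold 𝓘(ℝ, E4) ∞ M]
  {m : ℕ} {σ : Fin m → E3 → M} {w : Trip M} {R r₀ : Fin m → ℝ} {g : Fin m → ℝ → ℝ}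
  {K : KIn M m}
  {X : Type u} [TopologicalSpace X] [T2Space X] [CompactSpace X]
  [ChartedSpace E4 X] [IsManifold 𝓘(ℝ, E4) ∞ X]
  {O : KOut K X} {C : ℝ} {u : Trip X}

lemma seg_self (u : Trip X) (t : ℝ) : seg u u t = u := by
  funext i
  show (1 - t) • u i + t • u i = u i
  module

/-- a map `Θ` with differential `1` at `0` which makes `u` constant. -/
structure Flat (O : KOut K X) (u : Trip X) (i : Fin m) (Θ : E4 → E4) : Prop where
  cd : ∀ z ∈ Metric.ball (0 : E4) 1, ContDiffAt ℝ ∞ Θ z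
  odd : ∀ z, Θ (-z) = - Θ z
  one : fderiv ℝ Θ 0 = ContinuousLinearMap.id ℝ E4
  eq : ∀ a, ∀ z ∈ Metric.ball (0 : E4) 1, chf O u i a z = pl (fderiv ℝ Θ z) (cc O u i a)

theorem exists_flat (O : KOut K X) {s : Fin 4 → F1 E4 X} (hf : FlatIn u s)
    (ho : ∀ i, Odd1 O.io (s i)) (i : Fin m) : ∃ Θ, Flat O u i Θ := by
  obtain ⟨hcl, hind, c, hc⟩ := hf
  obtain ⟨Θ0, h1, h2, h3⟩ := KTheta_129.exists_theta O s hcl ho i
  have h0m : (0 : E4) ∈ Metric.ball (0 : E4) 1 := by simp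
  have hinj : ∀ v, fderiv ℝ Θ0 0 v = 0 → v = 0 := by
    intro v hv
    refine O.ch_imm i 0 h0m v (hind (O.ch i 0) _ fun j => ?_)
    show at1 (s j) (O.ch i 0) (D1 E4 E4 (O.ch i) 0 v) = 0
    rw [← h3 0 h0m v j, hv]
    rfl
  set e := eqv (fderiv ℝ Θ0 0) hinj with he
  have hd : ∀ z ∈ Metric.ball (0 : E4) 1, fderiv ℝ (fun z => e.symm (Θ0 z)) z =
      (e.symm : E4 →L[ℝ] E4).comp (fderiv ℝ Θ0 z) := by
    intro z hz
    have h4 := ((h1 z hz).differentiableAt infty_ne_zero).hasFDerivAt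
    exact ((e.symm : E4 →L[ℝ] E4).hasFDerivAt.comp z h4).fderiv
  have hee : (fderiv ℝ Θ0 0).comp (e.symm : E4 →L[ℝ] E4) = ContinuousLinearMap.id ℝ E4 := by
    ext1 v
    exact e.apply_symm_apply v
  refine ⟨fun z => e.symm (Θ0 z), fun z hz => ?_, fun z => ?_, ?_, fun a z hz => ?_⟩
  · exact (e.symm : E4 →L[ℝ] E4).contDiff.contDiffAt.comp z (h1 z hz)
  · show e.symm (Θ0 (-z)) = - e.symm (Θ0 z)
    rw [h2, map_neg]
  · rw [hd 0 h0m]
    ext1 v
    exact e.symm_apply_apply v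
  · have h5 := fun z hz => KFlat_129.chf_flat O c hc i h3 (z := z) hz a
    rw [hd z hz]
    have h6 : cc O u i a = pl (fderiv ℝ Θ0 0) (∑ a_1, ∑ b, c a a_1 b • wed (dx a_1) (dx b)) :=
      h5 0 h0m
    rw [h6, h5 z hz, pl_pl, ← ContinuousLinearMap.comp_assoc, hee, ContinuousLinearMap.id_comp]

/-- **the last segment**. -/
theorem fin_step (hS : Std σ w K.phi 1 R r₀ g) (hw : Pos3 w) (hC : 0 < C)
    {A : Fin m → ℝ → E4 →L[ℝ] E4} (hst : St O u A) (hu : Pos3 u)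
    {th : Fin m → Fin 3 → E4 → E4 →L[ℝ] ℝ} (hp : Prim O u th) {Θ : Fin m → E4 → E4}
    (hΘ : ∀ i, Flat O u i (Θ i)) :
    Ev2 fun ε δ => ∀ P : Par g C ε δ, ∀ W : Trip M, Real w R O P u (rD O u) (FD P A) th W →
      ∃ (F : Fin m → E4 → E4) (V : Trip M), (∀ i, FOK P (F i)) ∧
        Real w R O P u (rD O u) F (fun _ _ _ => 0) V ∧ Seg W V := by
  have hself : Seg u u := fun t _ _ => by rw [seg_self]; exact hu
  obtain ⟨B, hB1, hB2, hB3⟩ := exists_states hst hst.even hself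
  have hnev := neck_ev (g := g) hC hst hst.even hself hp hp hB1 hB3
  -- constants
  have hcs : ∀ i a, ∃ C' : ℝ, 0 < C' ∧ ∀ ε : ℝ, 0 < ε → ε ≤ 1 / 2 → ∀ χ : E4 → ℝ,
      ContDiff ℝ ∞ χ →
      (∀ z, 0 ≤ χ z ∧ χ z ≤ 1) → (∀ z v, |fderiv ℝ χ z v| ≤ C / ε * ‖v‖) →
      ∀ z, ‖z‖ ≤ ε → ‖d1 (fun y => χ y • th i a y) z‖ ≤ C' * ε := by
    intro i a
    obtain ⟨D, hD, hb⟩ := hp.bd i a
    exact KInterp_856.cut_small (th i a)
      (fun z hz => ((hp.ok i a).cd z hz).differentiableAt infty_ne_zero) C D hC hD hb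
  choose C1 hC1 hC1' using hcs
  have hΘ0 : ∀ i, Θ i 0 = 0 := by
    intro i
    have h1 := (hΘ i).odd 0
    rw [neg_zero] at h1
    have h2 : (2 : ℝ) • Θ i 0 = 0 := by
      rw [two_smul]
      nth_rewrite 1 [h1]
      exact neg_add_cancel _
    exact (smul_eq_zero.1 h2).resolve_left two_ne_zero
  have hit := fun i => KInterp_856.exists_interp (Θ i) (hΘ i).cd (hΘ0 i) (hΘ i).one C hC
  choose C2 hC2 hC2' using hit
  have hmg : ∀ i, ∃ mg : ℝ, 0 < mg ∧ ∀ c' : Fin 3 → Bil, (∀ a, ‖c' a - cc O u i a‖ ≤ mg) →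
      PosB c' := by
    intro i
    obtain ⟨mg, h1, h2⟩ := KClose_57.pos_margin (T := {cc O u i}) isCompact_singleton
      (fun c hc => by
        rw [mem_singleton_iff] at hc
        rw [hc]
        exact posB_chf O hu i (by simp))
    exact ⟨mg, h1, fun c' hc' => h2 _ rfl c' hc'⟩
  choose mg hmg0 hmg' using hmg
  obtain ⟨ε1, hε1, hε1'⟩ := exists_small (ι := Fin m × Fin 3)
    (f := fun p => mg p.1 / (C1 p.1 p.2 + 3 * C2 p.1 * (‖cc O u p.1 p.2‖ + 1)))
    (fun p => div_pos (hmg0 p.1) (by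
      have := hC1 p.1 p.2
      have := hC2 p.1
      positivity))
  obtain ⟨ε2, hε2, hε2'⟩ := exists_small (ι := Fin m) (f := fun i => 1 / C2 i)
    (fun i => div_pos one_pos (hC2 i))
  have hsm : Ev2 fun ε _ => ε ≤ ε1 ∧ ε ≤ ε2 ∧ ε ≤ 1 / 2 :=
    ⟨min ε1 (min ε2 (1 / 2)), lt_min hε1 (lt_min hε2 (by norm_num)), fun ε _ hε' =>
      ⟨1, one_pos, fun δ _ _ => ⟨hε'.trans (min_le_left _ _),
        hε'.trans ((min_le_right _ _).trans (min_le_left _ _)),
        hε'.trans ((min_le_right _ _).trans (min_le_right _ _))⟩⟩⟩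
  refine (hnev.and hsm).mono ?_
  rintro ε δ ⟨hnev, hεa, hεb, hεc⟩ P W hW
  have hε := P.ε_pos
  have hr0 := P.r0_pos
  have hr1 := P.r0_lt
  have hA := fun i s hs => (hst.cd i s hs).1
  set F : Fin m → E4 → E4 := fun i z => A i (P.s z) (TT P (Θ i) z) with hF
  have hTd : ∀ i, ∀ z ∈ Metric.ball (0 : E4) 1, DifferentiableAt ℝ (TT P (Θ i)) z :=
    fun i z hz => (TT_cd ((hΘ i).cd z hz)).differentiableAt infty_ne_zero
  have hFok : ∀ i, FOK P (F i) := by
    intro i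
    refine ⟨fun z hz => ?_, fun z => ?_, fun z hz => ?_⟩
    · exact ((hA i _ (s_Icc P z)).comp z P.s_cd.contDiffAt).clm_apply
        (TT_cd ((hΘ i).cd z (PB_ball hz)))
    · show A i (P.s (-z)) (TT P (Θ i) (-z)) = - A i (P.s z) (TT P (Θ i) z)
      rw [P.s_even, TT_odd (hΘ i).odd, map_neg]
    · show A i (P.s z) (TT P (Θ i) z) = z
      rw [P.s_0 z hz, TT_in (by linarith), hst.zero]
      rfl
  -- the differential
  have hFin : ∀ i, ∀ z ∈ PB 1, ‖z‖ ≤ ε / 2 → fderiv ℝ (F i) z = fderiv ℝ (FD P A i) z := by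
    intro i z hz hz2
    ext1 v
    have h1 : fderiv ℝ (F i) z v = _ := fderiv_AT (P := P) (hA i) (hTd i z (PB_ball hz)) v
    have h2 : fderiv ℝ (FD P A i) z v = _ := fderiv_FD (P := P) (hA i) z v
    rw [h1, h2, fderiv_TT_in ((hΘ i).cd z (PB_ball hz)) hz2, TT_in hz2]
    rfl
  have hFout : ∀ i, ∀ z ∈ PB 1, ε / 2 ≤ ‖z‖ → fderiv ℝ (F i) z =
      (AA (cc O u i)).comp (fderiv ℝ (TT P (Θ i)) z) := by
    intro i z hz hz2
    ext1 v
    have h1 : fderiv ℝ (F i) z v = _ := fderiv_AT (P := P) (hA i) (hTd i z (PB_ball hz)) v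
    rw [h1, ds_one (P.s_1 z hz2), P.s_1 z hz2, hst.one]
    simp
  have hth0 : ∀ z : E4, d1 (fun y : E4 => P.χ y • (0 : E4 →L[ℝ] ℝ)) z = 0 := fun z =>
    d1_zero_of_ev (Eventually.of_forall fun _ => smul_zero _)
  -- the neck triple
  have hnout : ∀ i a, ∀ z ∈ PB 1, ε / 2 ≤ ‖z‖ → nu P i (rD O u i) (F i) (fun _ _ => 0) a z =
      pl (fderiv ℝ (TT P (Θ i)) z) (cc O u i a) := by
    intro i a z hz hz2
    rw [KState_604.nu_out a hz hz2, hth0, add_zero, hFout i z hz hz2]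
    conv_rhs => rw [(hst.def3 i).AA_spec (hst.nn i) a]
    rw [pl_sum]
    refine Finset.sum_congr rfl fun b _ => ?_
    rw [pl_pl]
    rfl
  have hout : ∀ i a, ∀ z ∈ PB 1, ε < ‖z‖ →
      nu P i (rD O u i) (F i) (fun _ _ => 0) a z = chf O u i a z := by
    intro i a z hz hz2
    rw [hnout i a z hz (by linarith), fderiv_TT_out hz2, (hΘ i).eq a z (PB_ball hz)]
  obtain ⟨V, hV⟩ := Real.exists' (P := P) (u := u) (r := rD O u) (F := F)
    (th := fun _ _ _ => 0) hS hst.even hFok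
    (fun i a => ⟨fun z _ => contDiffAt_const, fun z => neg_zero.symm⟩) hout
  refine ⟨F, V, hFok, hV, Real.seg hS hw hW hV (fun i => hst.fok i) hFok
    (fun i => rD_LT hst i) (fun i => rD_LT hst i) hself
    (fun i a z hz hz2 => hst.hout hp i a z hz hz2) hout fun i z hz1 hz2 τ hτ => ?_⟩
  have hz : z ∈ PB 1 := by
    refine ⟨fun h0 => ?_, by linarith⟩
    rw [h0, norm_zero] at hz1
    linarith
  rcases le_total ‖z‖ (ε / 2) with h3 | h3
  · -- both triples agree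
    have e1 : ∀ a, nu P i (rD O u i) (F i) (fun _ _ => 0) a z =
        nu P i (rD O u i) (FD P A i) (th i) a z := by
      intro a
      rw [nu_in (fun a => ⟨fun z _ => contDiffAt_const, fun z => neg_zero.symm⟩) a hz hz1 h3,
        nu_in (fun a => hp.ok i a) a hz hz1 h3, hFin i z hz h3]
    have e2 : (fun a => (1 - τ) • nu P i (rD O u i) (FD P A i) (th i) a z
        + τ • nu P i (rD O u i) (F i) (fun _ _ => 0) a z) =
        fun a => nu P i (rD O u i) (FD P A i) (th i) a z := by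
      funext a
      rw [e1]
      module
    rw [e2]
    have e3 := (hnev P i).1 0 ⟨le_rfl, zero_le_one⟩ z ⟨hz1, hz2⟩
    have e4 : (fun i s => B i ((0 : ℝ), s)) = A := by
      funext i s
      exact hB2 i s
    rw [seg_self, thD_zero, e4] at e3
    exact e3
  · refine hmg' i _ fun a => ?_
    have b0 := hε1' (i, a)
    have hk : 0 < C1 i a + 3 * C2 i * (‖cc O u i a‖ + 1) := by
      have := hC1 i a
      have := hC2 i
      positivity
    rw [le_div_iff₀ hk] at b0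
    have b1 := hC1' i a ε hε hεc P.χ P.χ_cd P.χ_mem P.χ_bd z hz2
    have b2 := hC2' i ε hε hεc P.χ P.χ_cd P.χ_mem P.χ_bd z hz2
    have b2' : ‖fderiv ℝ (TT P (Θ i)) z - ContinuousLinearMap.id ℝ E4‖ ≤ C2 i * ε := b2
    have b3 : C2 i * ε ≤ 1 := by
      have h4 := hε2' i
      rw [le_div_iff₀ (hC2 i)] at h4
      calc C2 i * ε ≤ C2 i * ε2 := mul_le_mul_of_nonneg_left hεb (hC2 i).le
        _ ≤ 1 := by linarith
    have b4 := norm_pl_sub (fderiv ℝ (TT P (Θ i)) z) (cc O u i a) (b2'.trans b3)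
    have e5 : (1 - τ) • nu P i (rD O u i) (FD P A i) (th i) a z
        + τ • nu P i (rD O u i) (F i) (fun _ _ => 0) a z - cc O u i a =
        (1 - τ) • d1 (fun y => P.χ y • th i a y) z +
          τ • (pl (fderiv ℝ (TT P (Θ i)) z) (cc O u i a) - cc O u i a) := by
      rw [hst.nu_out i a hz h3, hnout i a z hz h3]
      module
    have ht1 : 0 ≤ 1 - τ := by linarith [hτ.2]
    have hn := norm_nonneg (cc O u i a)
    have hc2 := hC2 i
    show ‖(1 - τ) • nu P i (rD O u i) (FD P A i) (th i) a z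
        + τ • nu P i (rD O u i) (F i) (fun _ _ => 0) a z - cc O u i a‖ ≤ mg i
    rw [e5]
    calc ‖(1 - τ) • d1 (fun y => P.χ y • th i a y) z +
          τ • (pl (fderiv ℝ (TT P (Θ i)) z) (cc O u i a) - cc O u i a)‖
        ≤ ‖(1 - τ) • d1 (fun y => P.χ y • th i a y) z‖ +
          ‖τ • (pl (fderiv ℝ (TT P (Θ i)) z) (cc O u i a) - cc O u i a)‖ := norm_add_le _ _
      _ = (1 - τ) * ‖d1 (fun y => P.χ y • th i a y) z‖ +
          τ * ‖pl (fderiv ℝ (TT P (Θ i)) z) (cc O u i a) - cc O u i a‖ := by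
          rw [norm_smul, norm_smul, Real.norm_of_nonneg ht1, Real.norm_of_nonneg hτ.1]
      _ ≤ 1 * (C1 i a * ε) + 1 * (3 * (C2 i * ε) * (‖cc O u i a‖ + 1)) := by
          gcongr
          · linarith [hτ.1]
          · exact hτ.2
          · refine b4.trans ?_
            gcongr
            linarith
      _ = ε * (C1 i a + 3 * C2 i * (‖cc O u i a‖ + 1)) := by ring
      _ ≤ ε1 * (C1 i a + 3 * C2 i * (‖cc O u i a‖ + 1)) := by gcongr
      _ ≤ mg i := b0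

end Fin

end

end Crest.Agent.R235.KFin_604
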