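import Mathlib
import Crest.Agent.R235.CurLin4_253_Mg
import Crest.Agent.R235.KForm_604
import Crest.Agent.R235.KClose_57
import Crest.Agent.R235.K12Defs_417
import Crest.Agent.R235.KFin_604
import Crest.Agent.R235.KT_604
import Crest.Agent.R235.Dm_61
import Crest.Agent.R235.Lag_61_Mg
import Crest.Agent.R235.AdjE_83

-- ▼ part R235/CurLin2_679
section

/-!
Row 235 (S0364), PACKAGE CUR, LIN2 (helper679): `b(w, J w) ≤ 2 q(F, θ ∧ Jθ) q(φ, b)`,
`w = wv F φ θ`.  Proof: `b(w,Jw) = α(w) = q(φ, α ∧ θ)` for `α = b(w, J ·)`, Cauchy-Schwarz for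
`φ`, and `α ∧ Jα ≤ b(w,Jw) b` (Hermitian Cauchy-Schwarz for `b`).
-/

set_option autoImplicit false
set_option maxSynthPendingDepth 3

namespace Crest.Agent.R235.CurLin2_679

open Crest.Agent.R240 Crest.Agent.R240.En Crest.Agent.R235.CurDefs_132

noncomputable section

/-- Hermitian Cauchy-Schwarz. -/
theorem herm {J : E4 →L[ℝ] E4} (hJ : ∀ v, J (J v) = -v) {b : Bil} (hb : Pos J b) (w v : E4) :
    (b w (J v)) ^ 2 + (b w v) ^ 2 ≤ b w (J w) * b v (J v) := by
  set x := b w (J v) with hx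
  set y := b w v with hy
  have h1 := Crest.Agent.R240.Pos.cs hJ hb w (x • J v + y • v)
  have e1 : b w (x • J v + y • v) = x ^ 2 + y ^ 2 := by
    simp only [map_add, map_smul, smul_eq_mul, ← hx, ← hy]
    ring
  have e2 : b (x • J v + y • v) (J (x • J v + y • v)) = (x ^ 2 + y ^ 2) * b v (J v) := by
    have a1 : b (J v) v = - b v (J v) := hb.alt.swap _ _
    have a2 : b (J v) (J v) = 0 := hb.alt _
    have a3 : b v v = 0 := hb.alt _
    simp only [map_add, map_smul, hJ, smul_neg, map_neg, add_apply, smul_apply,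
      smul_eq_mul, a1, a2, a3]
    ring
  rw [e1, e2] at h1
  have h2 := hb.nonneg w
  have h3 := hb.nonneg v
  rcases (add_nonneg (sq_nonneg x) (sq_nonneg y)).eq_or_lt with h4 | h4
  · rw [← h4]; exact mul_nonneg h2 h3
  · have h5 : (x ^ 2 + y ^ 2) * (x ^ 2 + y ^ 2) ≤ (x ^ 2 + y ^ 2) * (b w (J w) * b v (J v)) := by
      nlinarith
    exact le_of_mul_le_mul_left h5 h4

theorem lin2 : LIN2 := by
  intro J F m M h φ b hφ hn hb θ
  set w := wv F φ θ with hw
  set α : Cov := (b w).comp J with hα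
  have hαv : ∀ v, α v = b w (J v) := fun v => rfl
  have h1 : q F φ (wed α θ) = b w (J w) := CurLin4_253.q_wed F φ α θ
  have h2 := h.cs_wed hφ α θ
  have hwn := hb.nonneg w
  have h3 : q F φ (wed α (Jc J α)) ≤ b w (J w) * q F φ b := by
    have hR : Pos J (b w (J w) • b - wed α (Jc J α)) := by
      have hp := wed_Jc_pos h.sq α
      refine ⟨(hb.alt.smul _).sub hp.alt, fun u v => ?_, fun v => ?_⟩
      · have e := hp.inv u v
        have e' := hb.inv u v
        rw [sub_apply, sub_apply, sub_apply, sub_apply, e, smul_apply, smul_apply, smul_apply,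
          smul_apply, e']
      · have e := herm h.sq hb w v
        have e2 : wed α (Jc J α) v (J v) = (b w (J v)) ^ 2 + (b w v) ^ 2 := by
          simp only [wed_apply, Jc_apply, hαv, h.sq, map_neg]
          ring
        rw [sub_apply, sub_apply, e2, smul_apply, smul_apply, smul_eq_mul]
        linarith
    have h5 := h.q_pos_pos hφ hR
    rw [q_sub_right, q_smul_right] at h5
    linarith
  have h4 : q F φ (wed θ (Jc J θ)) ≤ 2 * q F F (wed θ (Jc J θ)) := by
    have h6 := (CurLin1_785.lin1' J F m M h φ hφ hn θ 0).1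
    unfold defi at h6
    linarith
  have h7 : 0 ≤ q F φ (wed θ (Jc J θ)) := h.q_wedJ_nonneg hφ θ
  have h8 : 0 ≤ q F φ b := h.q_pos_pos hφ hb
  rw [h1] at h2
  rcases hwn.eq_or_lt with h9 | h9
  · rw [← h9]
    exact mul_nonneg (h7.trans h4) h8
  · have h10 : b w (J w) * b w (J w) ≤
        b w (J w) * (2 * q F F (wed θ (Jc J θ)) * q F φ b) := by
      calc b w (J w) * b w (J w) = b w (J w) ^ 2 := by ring
        _ ≤ q F φ (wed α (Jc J α)) * q F φ (wed θ (Jc J θ)) := h2
        _ ≤ (b w (J w) * q F φ b) * (2 * q F F (wed θ (Jc J θ))) := by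
            gcongr
        _ = _ := by ring
    exact le_of_mul_le_mul_left h10 h9

end

end Crest.Agent.R235.CurLin2_679
end

-- ▼ part R235/KRhoL_604
section

/-!
Row 235, KUM-K5 (helper604): the leaves L12, L13 (scaling of `rho`, orientation of a definite triple).
-/

set_option autoImplicit false
set_option maxSynthPendingDepth 3

open Set Function Filter
open scoped Manifold ContDiff Topology RealInnerProductSpace

universe u

namespace Crest.Agent.R235.KRhoL_604

open Crest.Agent.R240 Crest.Agent.R240.Ch Crest.Agent.R235 Crest.Agent.R235.PB_604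
  Crest.Agent.R235.KLin_604 Crest.Agent.R235.KForm_604

noncomputable section

lemma g_pl {b c : Bil} (hb : Alt b) (hc : Alt c) (L : E4 →L[ℝ] E4) :
    g (pl L b) (pl L c) = LinearMap.det (L : E4 →ₗ[ℝ] E4) * g b c := by
  unfold g
  rw [W_pl hb hc]; ring

lemma pl_sub' (A : E4 →L[ℝ] E4) (b c : Bil) : pl A (b - c) = pl A b - pl A c := by
  ext v v'
  rfl

theorem rho_pl {c : Fin 3 → Bil} (h : Def3 c) {L : E4 →L[ℝ] E4}
    (hL : 0 < LinearMap.det (L : E4 →ₗ[ℝ] E4)) (a b : Fin 3) :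
    rho (fun a => pl L (c a)) a b = √(LinearMap.det (L : E4 →ₗ[ℝ] E4)) * rho c a b := by
  set D := LinearMap.det (L : E4 →ₗ[ℝ] E4) with hD
  set k := √D with hk
  have hk0 : 0 < k := Real.sqrt_pos.2 hL
  have hkk : k * k = D := Real.mul_self_sqrt hL.le
  set c' : Fin 3 → Bil := fun a => pl L (c a) with hc'
  have ae1 : Alt (e1 c) := by
    obtain ⟨x, hx⟩ := e1_eq c
    intro v
    rw [hx]
    show x * c 0 v v + 1 * c 1 v v + 0 * c 2 v v = 0
    rw [h.alt 0 v, h.alt 1 v, h.alt 2 v]; ring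
  have ae2 : Alt (e2 c) := by
    obtain ⟨x, y, hx⟩ := e2_eq c
    intro v
    rw [hx]
    show x * c 0 v v + y * c 1 v v + 1 * c 2 v v = 0
    rw [h.alt 0 v, h.alt 1 v, h.alt 2 v]; ring
  have S0 : s0 c' = k * s0 c := by
    unfold s0
    rw [show c' 0 = pl L (c 0) from rfl, g_pl (h.alt 0) (h.alt 0), Real.sqrt_mul hL.le]
  have Z0 : z0 c' = k⁻¹ • pl L (z0 c) := by
    unfold z0
    rw [S0, pl_smul, smul_smul, mul_inv]
  have G1 : g (c' 1) (z0 c') = k * g (c 1) (z0 c) := by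
    rw [Z0, g_smul_right, show c' 1 = pl L (c 1) from rfl, g_pl (h.alt 1) h.alt_z0, ← hD, ← hkk]
    field_simp
  have G2 : g (c' 2) (z0 c') = k * g (c 2) (z0 c) := by
    rw [Z0, g_smul_right, show c' 2 = pl L (c 2) from rfl, g_pl (h.alt 2) h.alt_z0, ← hD, ← hkk]
    field_simp
  have E1 : e1 c' = pl L (e1 c) := by
    unfold e1
    rw [G1, Z0, pl_sub', pl_smul, smul_smul]
    have : k * g (c 1) (z0 c) * k⁻¹ = g (c 1) (z0 c) := by field_simp
    rw [this]
  have S1 : s1 c' = k * s1 c := by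
    unfold s1
    rw [E1, g_pl ae1 ae1, Real.sqrt_mul hL.le]
  have Z1 : z1 c' = k⁻¹ • pl L (z1 c) := by
    unfold z1
    rw [S1, E1, pl_smul, smul_smul, mul_inv]
  have G3 : g (c' 2) (z1 c') = k * g (c 2) (z1 c) := by
    rw [Z1, g_smul_right, show c' 2 = pl L (c 2) from rfl, g_pl (h.alt 2) h.alt_z1, ← hD, ← hkk]
    field_simp
  have E2 : e2 c' = pl L (e2 c) := by
    unfold e2
    rw [G2, G3, Z0, Z1, pl_sub', pl_sub', pl_smul, pl_smul, smul_smul, smul_smul]
    have t1 : k * g (c 2) (z0 c) * k⁻¹ = g (c 2) (z0 c) := by field_simp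
    have t2 : k * g (c 2) (z1 c) * k⁻¹ = g (c 2) (z1 c) := by field_simp
    rw [t1, t2]
  have S2 : s2 c' = k * s2 c := by
    unfold s2
    rw [E2, g_pl ae2 ae2, Real.sqrt_mul hL.le]
  fin_cases a <;> fin_cases b
  · show s0 c' = k * s0 c
    exact S0
  · show (0 : ℝ) = k * 0
    rw [mul_zero]
  · show (0 : ℝ) = k * 0
    rw [mul_zero]
  · exact G1
  · exact S1
  · show (0 : ℝ) = k * 0
    rw [mul_zero]
  · exact G2
  · exact G3
  · exact S2

lemma cont_S (c : Fin 3 → Bil) : Continuous fun x : Fin 3 → ℝ => (∑ i, x i • c i : Bil) := by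
  refine continuous_finsetSum _ fun i _ => ?_
  exact (continuous_apply i).smul continuous_const

/-- the sign of a nondegenerate triple is constant. -/
lemma sign_const {c : Fin 3 → Bil} (hc : PosB c) :
    (∀ x : Fin 3 → ℝ, x ≠ 0 → 0 < W (∑ i, x i • c i) (∑ i, x i • c i)) ∨
    (∀ x : Fin 3 → ℝ, x ≠ 0 → W (∑ i, x i • c i) (∑ i, x i • c i) < 0) := by
  have hcont := KClose_57.cont_WW (cont_S c) (cont_S c)
  have hrank : 1 < Module.rank ℝ (Fin 3 → ℝ) := by
    rw [rank_fin_fun]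
    norm_cast
  have hconn : IsPreconnected ({0}ᶜ : Set (Fin 3 → ℝ)) :=
    (isConnected_compl_singleton_of_one_lt_rank hrank 0).isPreconnected
  by_contra hcon
  push Not at hcon
  obtain ⟨⟨x, hx, hx1⟩, ⟨y, hy, hy1⟩⟩ := hcon
  have h0 := (hconn.image _ hcont.continuousOn).Icc_subset ⟨x, hx, rfl⟩ ⟨y, hy, rfl⟩
    (mem_Icc.2 ⟨hx1, hy1⟩)
  obtain ⟨z, hz, hz0⟩ := h0
  exact hc z hz hz0

/-- an involution with negative determinant. -/
lemma exists_refl : ∃ N : E4 →L[ℝ] E4, (∀ v, N (N v) = v) ∧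
    LinearMap.det (N : E4 →ₗ[ℝ] E4) = -1 := by
  set v : E4 := ee 0 with hv
  have hv0 : v ≠ 0 := by
    intro h0
    have := congrArg (fun x : E4 => x 0) h0
    simp [hv] at this
  set K : Submodule ℝ E4 := (ℝ ∙ v)ᗮ with hK
  refine ⟨(K.reflection.toContinuousLinearEquiv : E4 →L[ℝ] E4), fun w => ?_, ?_⟩
  · exact K.reflection_reflection w
  · have h1 := K.det_reflection (𝕜 := ℝ)
    have h2 : Module.finrank ℝ Kᗮ = 1 := by
      rw [hK, Submodule.orthogonal_orthogonal]
      exact finrank_span_singleton hv0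
    rw [h2, pow_one] at h1
    exact h1

theorem def3_or {c : Fin 3 → Bil} (ha : ∀ a, Alt (c a)) (hc : PosB c) :
    ∃ N : E4 →L[ℝ] E4, (∀ v, N (N v) = v) ∧ Def3 (fun a => pl N (c a)) := by
  rcases sign_const hc with h | h
  · refine ⟨ContinuousLinearMap.id ℝ E4, fun v => rfl, ?_, ?_⟩
    · intro a v
      exact ha a v
    · intro x hx
      exact h x hx
  · obtain ⟨N, hN, hd⟩ := exists_refl
    refine ⟨N, hN, ?_, ?_⟩
    · intro a v
      exact ha a (N v)
    · intro x hx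
      rw [← pl_sum, W_pl (alt_sum ha x) (alt_sum ha x), hd]
      have := h x hx
      linarith

end

end Crest.Agent.R235.KRhoL_604
end

-- ▼ part R235/KDense_856
section

/-!
Row 235 (S0364), package KUM, KDOWN leaf L11 (helper856): an embedded sphere has empty interior.
-/

set_option autoImplicit false
set_option maxSynthPendingDepth 3

open Set Function Filter
open scoped Manifold ContDiff Topology ENNReal NNReal

universe u

namespace Crest.Agent.R235.KDense_856

open Crest.Agent.R240 Crest.Agent.R240.Ch Crest.Agent.R235 Crest.Agent.R235.K12_417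

noncomputable section

theorem interior_im {M : Type u} [TopologicalSpace M] [T2Space M] [CompactSpace M]
    [ChartedSpace E4 M] [IsManifold 𝓘(ℝ, E4) ∞ M] (σ : E3 → M) (hσ : EmbS σ) :
    interior (im σ) = ∅ := by
  by_contra hne
  obtain ⟨x, hx⟩ := nonempty_iff_ne_empty.2 hne
  set e := chartAt E4 x with he
  have hxe : x ∈ e.source := mem_chart_source E4 x
  set U : Set M := interior (im σ) ∩ e.source with hU
  have hUo : IsOpen U := isOpen_interior.inter e.open_source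
  have hVo : IsOpen (e '' U) := e.isOpen_image_of_subset_source hUo inter_subset_right
  have hVne : (interior (e '' U)).Nonempty := by
    rw [hVo.interior_eq]
    exact ⟨e x, x, ⟨hx, hxe⟩, rfl⟩
  have h0 : IsOpen ({0}ᶜ : Set E3) := isOpen_compl_singleton
  set S : Set E3 := {0}ᶜ ∩ σ ⁻¹' e.source with hS
  have hSo : IsOpen S := hσ.smooth.continuousOn.isOpen_inter_preimage h0 e.open_source
  have hsub : e '' U ⊆ (fun y => e (σ y)) '' S := by
    rintro _ ⟨z, ⟨hz1, hz2⟩, rfl⟩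
    obtain ⟨y, hy, rfl⟩ := interior_subset hz1
    refine ⟨y, ⟨?_, hz2⟩, rfl⟩
    rintro rfl
    simp at hy
  have hf : ∀ y ∈ S, ContDiffAt ℝ 1 (fun y => e (σ y)) y := by
    intro y hy
    have h1 : ContMDiffAt 𝓘(ℝ, E3) 𝓘(ℝ, E4) ∞ σ y :=
      hσ.smooth.contMDiffAt (h0.mem_nhds hy.1)
    have h2 : ContMDiffAt 𝓘(ℝ, E4) 𝓘(ℝ, E4) ∞ e (σ y) :=
      (contMDiffOn_chart (I := 𝓘(ℝ, E4)) (n := ∞) (x := x)).contMDiffAt
        (e.open_source.mem_nhds hy.2)
    have h3 : ContMDiffAt 𝓘(ℝ, E3) 𝓘(ℝ, E4) ∞ (fun y => e (σ y)) y := h2.comp y h1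
    exact (contMDiffAt_iff_contDiffAt.1 h3).of_le (by simp)
  have h1 : dimH ((fun y => e (σ y)) '' S) ≤ dimH S := by
    refine dimH_image_le_of_locally_lipschitzOn fun y hy => ?_
    obtain ⟨K, t, ht, hK⟩ := (hf y hy).exists_lipschitzOnWith
    exact ⟨K, t, mem_nhdsWithin_of_mem_nhds ht, hK⟩
  have h2 : dimH (e '' U) = Module.finrank ℝ E4 := Real.dimH_of_nonempty_interior hVne
  have h3 : dimH S ≤ Module.finrank ℝ E3 := by
    rw [← Real.dimH_univ_eq_finrank E3]
    exact dimH_mono (subset_univ _)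
  have h4 := (dimH_mono hsub).trans (h1.trans h3)
  rw [h2] at h4
  have h5 : Module.finrank ℝ E4 = 4 := by simp
  have h6 : Module.finrank ℝ E3 = 3 := by simp
  rw [h5, h6] at h4
  norm_num at h4

end

end Crest.Agent.R235.KDense_856
end

-- ▼ part R235/KDown_604
section

/-!
Row 235, KUM-K5 (helper604): the algebraic relations and `KDOWN`.
-/

set_option autoImplicit false
set_option maxSynthPendingDepth 3
set_option linter.unusedSectionVars false

open Set Function Filter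
open scoped Manifold ContDiff Topology RealInnerProductSpace

universe u

namespace Crest.Agent.R235.KDown_604

open Crest.Agent.R240 Crest.Agent.R240.Ch Crest.Agent.R235 Crest.Agent.R235.PB_604
  Crest.Agent.R235.KLin_604 Crest.Agent.R235.KT_604 Crest.Agent.R235.KGlue_604
  Crest.Agent.R235.KForm_604 Crest.Agent.R235.K12_417 Crest.Agent.R235.KUp_604
  Crest.Agent.R235.KReal_604 Crest.Agent.R235.KState_604 Crest.Agent.R235.KSegm_604
  Crest.Agent.R235.KInit_604 Crest.Agent.R235.KFin_604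

noncomputable section

/-! ### the relations -/

/-- the relations at a point. -/
def Rel (c : Fin 3 → Bil) : Prop :=
  W (c 1) (c 1) = W (c 2) (c 2) ∧ W (c 1) (c 2) = 0 ∧ W (c 0) (c 1) = 0 ∧ W (c 0) (c 2) = 0

lemma Rel.pl {c : Fin 3 → Bil} (h : Rel c) (hc : ∀ a, Alt (c a)) (A : E4 →L[ℝ] E4) :
    Rel fun a => pl A (c a) := by
  obtain ⟨h1, h2, h3, h4⟩ := h
  refine ⟨?_, ?_, ?_, ?_⟩
  · rw [W_pl (hc _) (hc _), W_pl (hc _) (hc _), h1]
  · rw [W_pl (hc _) (hc _), h2, mul_zero]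
  · rw [W_pl (hc _) (hc _), h3, mul_zero]
  · rw [W_pl (hc _) (hc _), h4, mul_zero]

lemma rel_of_pl {b c : Fin 3 → Bil} (hb : ∀ a, Alt (b a)) {A : E4 →L[ℝ] E4}
    (hA : ∀ v, A v = 0 → v = 0) (h : ∀ a, PB_604.pl A (b a) = c a) (hc : Rel c) : Rel b := by
  have hd := det_of_inj hA
  obtain ⟨h1, h2, h3, h4⟩ := hc
  rw [← h, ← h, W_pl (hb _) (hb _), W_pl (hb _) (hb _)] at h1
  rw [← h, ← h, W_pl (hb _) (hb _)] at h2 h3 h4
  exact ⟨mul_left_cancel₀ hd h1, (mul_eq_zero.1 h2).resolve_left hd,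
    (mul_eq_zero.1 h3).resolve_left hd, (mul_eq_zero.1 h4).resolve_left hd⟩

lemma Rel.diag {c : Fin 3 → Bil} (h : Rel c) {k : Fin 3 → ℝ} (hk : k 1 = k 2) :
    Rel fun a => k a • c a := by
  obtain ⟨h1, h2, h3, h4⟩ := h
  refine ⟨?_, ?_, ?_, ?_⟩
  · rw [W_smul_left, W_smul_right, W_smul_left, W_smul_right, h1, hk]
  · rw [W_smul_left, W_smul_right, h2, mul_zero, mul_zero]
  · rw [W_smul_left, W_smul_right, h3, mul_zero, mul_zero]
  · rw [W_smul_left, W_smul_right, h4, mul_zero, mul_zero]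

lemma rel_neckT {g : ℝ → ℝ} {z : E4} (hz : z ≠ 0) (hg : DifferentiableAt ℝ g (‖z‖ ^ 2)) :
    Rel (neckT g z) := by
  refine ⟨?_, ?_, W_lg_et1 hz hg, W_lg_et2 hz hg⟩
  · show W (et 1) (et 1) = W (et 2) (et 2)
    rw [W_et, W_et]
  · show W (et 1) (et 2) = 0
    rw [W_et_et, if_neg (by decide)]

lemma rel_et : Rel et := by
  refine ⟨?_, ?_, ?_, ?_⟩
  · rw [W_et, W_et]
  · rw [W_et_et, if_neg (by decide)]
  · rw [W_et_et, if_neg (by decide)]
  · rw [W_et_et, if_neg (by decide)]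

/-- recombination by an inverse matrix. -/
lemma sum_inv {A : Matrix (Fin 3) (Fin 3) ℝ} {r : Fin 3 → Fin 3 → ℝ} {κ : ℝ}
    (h : ∀ a d, ∑ b, A a b * r b d = if a = d then κ else 0) (x : Fin 3 → Bil) (a : Fin 3) :
    ∑ b, A a b • ∑ d, r b d • x d = κ • x a := by
  have h1 : ∑ b, A a b • ∑ d, r b d • x d = ∑ d, (∑ b, A a b * r b d) • x d := by
    simp only [Finset.smul_sum, smul_smul, Finset.sum_smul]
    rw [Finset.sum_comm]
  rw [h1]
  simp only [h, ite_smul, zero_smul]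
  rw [Finset.sum_ite_eq]
  simp

section Man

variable {M : Type u} [TopologicalSpace M] [T2Space M] [CompactSpace M]
  [ChartedSpace E4 M] [IsManifold 𝓘(ℝ, E4) ∞ M]

lemma val_rec3 (A : Matrix (Fin 3) (Fin 3) ℝ) (w : Trip M) (a : Fin 3) (x : M) :
    val (rec3 A w a) x = ∑ b, A a b • val (w b) x := by
  rw [Fin.sum_univ_three]
  show val (∑ b, A a b • w b) x = _
  rw [Fin.sum_univ_three]
  rfl

/-- the relations hold on the closure. -/
lemma rel_closure {w : Trip M} {D : Set M} (h : ∀ x ∈ D, Rel fun a => val (w a) x) {y : M}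
    (hy : ∃ᶠ x in 𝓝 y, x ∈ D) : Rel fun a => val (w a) y := by
  set φ := chartAt E4 y with hφ
  have hys : y ∈ φ.source := mem_chart_source E4 y
  set f : Fin 3 → Fin 3 → M → ℝ := fun a b x =>
    W (rep y ((w a).1.1 : F2 E4 M) (φ x)) (rep y ((w b).1.1 : F2 E4 M) (φ x)) with hf
  have hfx : ∀ x ∈ φ.source, ∃ d : ℝ, d ≠ 0 ∧ ∀ a b : Fin 3,
      f a b x = d * W (val (w a) x) (val (w b) x) := by
    intro x hx
    refine ⟨_, Int.det_tcc_ne hx, fun a b => ?_⟩
    have h1 := Int.W_rep (b := ((w a).1.1 : F2 E4 M)) (c := ((w b).1.1 : F2 E4 M))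
      (fun x => alt_val (w a) x) (fun x => alt_val (w b) x) y (φ x)
    rw [hφ, (chartAt E4 y).left_inv hx] at h1
    exact h1
  have hc : ∀ a b, ContinuousAt (f a b) y := by
    intro a b
    have h1 : ∀ a, ContinuousAt (fun x => rep y ((w a).1.1 : F2 E4 M) (φ x)) y := by
      intro a
      have h2 : ContinuousAt (rep y ((w a).1.1 : F2 E4 M)) (φ y) :=
        (z2At_val (w a) y).sm.continuousAt
      exact ContinuousAt.comp (f := φ) h2 (φ.continuousAt hys)
    exact (continuous_W.continuousAt).comp (f := fun x =>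
      (rep y ((w a).1.1 : F2 E4 M) (φ x), rep y ((w b).1.1 : F2 E4 M) (φ x)))
      ((h1 a).prodMk (h1 b))
  have key : ∀ (a b a' b' : Fin 3) (k : ℝ), (∀ x ∈ D, W (val (w a) x) (val (w b) x) =
      k * W (val (w a') x) (val (w b') x)) → W (val (w a) y) (val (w b) y) =
      k * W (val (w a') y) (val (w b') y) := by
    intro a b a' b' k hD
    have h1 : f a b y = k * f a' b' y := by
      by_contra hne
      have h2 : ContinuousAt (fun x => f a b x - k * f a' b' x) y :=
        (hc a b).sub ((hc a' b').const_mul k)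
      have h3 : ∀ᶠ x in 𝓝 y, f a b x - k * f a' b' x ≠ 0 :=
        h2.eventually_ne (sub_ne_zero.2 hne)
      have h4 : ∀ᶠ x in 𝓝 y, x ∈ φ.source := φ.open_source.mem_nhds hys
      obtain ⟨x, hx, hx3, hx4⟩ := (hy.and_eventually (h3.and h4)).exists
      obtain ⟨d, _, hd⟩ := hfx x hx4
      refine hx3 ?_
      rw [hd, hd, hD x hx]
      ring
    obtain ⟨d, hd0, hd⟩ := hfx y hys
    rw [hd, hd] at h1
    refine mul_left_cancel₀ hd0 ?_
    rw [h1]; ring
  refine ⟨?_, ?_, ?_, ?_⟩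
  · have := key 1 1 2 2 1 fun x hx => by rw [one_mul]; exact (h x hx).1
    rwa [one_mul] at this
  · have := key 1 2 1 2 0 fun x hx => by rw [zero_mul]; exact (h x hx).2.1
    rwa [zero_mul] at this
  · have := key 0 1 1 2 0 fun x hx => by rw [zero_mul]; exact (h x hx).2.2.1
    rwa [zero_mul] at this
  · have := key 0 2 1 2 0 fun x hx => by rw [zero_mul]; exact (h x hx).2.2.2
    rwa [zero_mul] at this

/-- the relations on the spheres. -/
lemma rel_sphere {m : ℕ} {σ : Fin m → E3 → M} {w : Trip M} {R r₀ : Fin m → ℝ}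
    {g : Fin m → ℝ → ℝ} {K : KIn M m} (hS : Std σ w K.phi 1 R r₀ g)
    (hσ : ∀ i, EmbS (σ i)) (hKC : ∀ i, K.C i = im (σ i)) (i : Fin m) {y : M} (hy : y ∈ K.C i) :
    Rel fun a => val (w a) y := by
  refine rel_closure (D := K.phi i '' PB 1) ?_ ?_
  · rintro x ⟨z, hz, rfl⟩
    refine rel_of_pl (fun a => alt_val _ _) (K.imm i z hz) (c := fun a => R i • neckT (g i) z a)
      (fun a => std_pl hS i hz a) ?_
    exact (rel_neckT hz.1 (std_df hS i hz.1)).diag (k := fun _ => R i) rfl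
  · intro hcon
    have h1 : K.C i ∪ K.phi i '' PB 1 ∈ 𝓝 y := (K.nbh i 1 one_pos le_rfl).mem_nhds (Or.inl hy)
    have h2 : K.C i ∈ 𝓝 y := by
      filter_upwards [h1, hcon] with x hx hx2
      exact hx.resolve_right hx2
    rw [hKC i] at h2
    have h3 : y ∈ interior (im (σ i)) := mem_interior_iff_mem_nhds.2 h2
    rw [KDense_856.interior_im (σ i) (hσ i)] at h3
    exact h3

end Man

/-! ### flat triples -/

section Flat

variable {X : Type u} [TopologicalSpace X] [T2Space X] [CompactSpace X]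
  [ChartedSpace E4 X] [IsManifold 𝓘(ℝ, E4) ∞ X]

/-- the coframe at `x` as a linear map. -/
def cof (s : Fin 4 → F1 E4 X) (x : X) : E4 →L[ℝ] E4 :=
  ∑ j, (at1 (s j) x).smulRight (ee j)

lemma cof_apply (s : Fin 4 → F1 E4 X) (x : X) (v : E4) (j : Fin 4) :
    cof s x v j = at1 (s j) x v := by
  unfold cof
  rw [Fin.sum_univ_four]
  simp only [add_apply, ContinuousLinearMap.smulRight_apply]
  fin_cases j <;> simp

/-- the constant coefficient triple. -/
def c0 (c : Fin 3 → Fin 4 → Fin 4 → ℝ) (k : Fin 3) : Bil :=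
  ∑ a, ∑ b, c k a b • wed (dx a) (dx b)

lemma c0_apply (c : Fin 3 → Fin 4 → Fin 4 → ℝ) (k : Fin 3) (u v : E4) :
    c0 c k u v = ∑ a, ∑ b, c k a b * (u a * v b - u b * v a) := by
  unfold c0
  simp only [Fin.sum_univ_four, add_apply, smul_apply, wed_apply, dx_apply, smul_eq_mul]

lemma alt_c0 (c : Fin 3 → Fin 4 → Fin 4 → ℝ) (k : Fin 3) : Alt (c0 c k) := by
  intro v
  rw [c0_apply]
  refine Finset.sum_eq_zero fun a _ => Finset.sum_eq_zero fun b _ => ?_
  ring

lemma val_flat {u : Trip X} {s : Fin 4 → F1 E4 X} {c : Fin 3 → Fin 4 → Fin 4 → ℝ}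
    (hc : ∀ k x, val (u k) x = ∑ i, ∑ j, c k i j • wed (at1 (s i) x) (at1 (s j) x)) (k : Fin 3)
    (x : X) : val (u k) x = pl (cof s x) (c0 c k) := by
  ext v v'
  rw [pl_apply, c0_apply, hc]
  simp only [Fin.sum_univ_four, add_apply, smul_apply, wed_apply, smul_eq_mul, cof_apply]

/-- the matrix of a flat triple. -/
theorem flat_matrix [Nonempty X] {u : Trip X} (hu : Pos3 u) {s : Fin 4 → F1 E4 X}
    (hf : FlatIn u s) : ∃ A : Matrix (Fin 3) (Fin 3) ℝ, A.det ≠ 0 ∧
      (∀ x, Rel fun a => ∑ b, A a b • val (u b) x) ∧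
      ∀ (x : X) (L : E4 →L[ℝ] E4), (∀ v, L v = 0 → v = 0) →
        Def3 (fun a => pl L (val (u a) x)) → ∃ κ : ℝ, 0 < κ ∧
        ∀ a d, ∑ b, A a b * rho (fun a => pl L (val (u a) x)) b d = if a = d then κ else 0 := by
  obtain ⟨_, hind, c, hc⟩ := hf
  have hT : ∀ x v, cof s x v = 0 → v = 0 := by
    intro x v hv
    refine hind x v fun j => ?_
    rw [← cof_apply s x v j, hv]
    rfl
  obtain ⟨x0⟩ := ‹Nonempty X›
  have hpos : PosB (c0 c) := by
    refine (posB_pl (alt_c0 c) (hT x0)).1 ?_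
    have h1 : (fun a => pl (cof s x0) (c0 c a)) = fun a => val (u a) x0 :=
      funext fun a => (val_flat hc a x0).symm
    rw [h1]
    exact hu x0
  obtain ⟨N, hN, hd⟩ := KRhoL_604.def3_or (alt_c0 c) hpos
  have hNinj : ∀ v, N v = 0 → v = 0 := by
    intro v hv
    rw [← hN v, hv, map_zero]
  have hNN : ∀ b : Bil, pl N (pl N b) = b := by
    intro b
    ext v v'
    rw [pl_apply, pl_apply, hN, hN]
  obtain ⟨A, hA0, hA1, hA2⟩ := KFlat_129.flat_alg hd
  have hval : ∀ (x : X) (L : E4 →L[ℝ] E4) a, pl L (val (u a) x) =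
      pl (N.comp ((cof s x).comp L)) (pl N (c0 c a)) := by
    intro x L a
    rw [val_flat hc a x, pl_pl, ← hNN (c0 c a), pl_pl, hNN]
  refine ⟨A, hA0, fun x => ?_, fun x L hL hdef => ?_⟩
  · have h1 : (fun a => ∑ b, A a b • val (u b) x) =
        fun a => pl (N.comp (cof s x)) (zz (fun a => pl N (c0 c a)) a) := by
      funext a
      rw [← hA2 a, pl_sum]
      refine Finset.sum_congr rfl fun b _ => ?_
      have h2 := hval x (ContinuousLinearMap.id ℝ E4) b
      rw [pl_id, ContinuousLinearMap.comp_id] at h2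
      rw [h2]
    rw [h1]
    refine Rel.pl ⟨?_, ?_, ?_, ?_⟩ hd.alt_zz _
    · have e1 := hd.g_z1_z1
      have e2 := hd.g_z2_z2
      unfold g at e1 e2
      show W (z1 _) (z1 _) = W (z2 _) (z2 _)
      linarith
    · have e1 := hd.g_z2_z1
      rw [g_comm] at e1
      unfold g at e1
      show W (z1 _) (z2 _) = 0
      linarith
    · have e1 := hd.g_z1_z0
      rw [g_comm] at e1
      unfold g at e1
      show W (z0 _) (z1 _) = 0
      linarith
    · have e1 := hd.g_z2_z0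
      rw [g_comm] at e1
      unfold g at e1
      show W (z0 _) (z2 _) = 0
      linarith
  · set Q := N.comp ((cof s x).comp L) with hQ
    have hQd : 0 < LinearMap.det (Q : E4 →ₗ[ℝ] E4) := by
      have h1 := hdef.g0
      have h2 := hd.g0
      have h3 : g (pl L (val (u 0) x)) (pl L (val (u 0) x)) =
          LinearMap.det (Q : E4 →ₗ[ℝ] E4) * g (pl N (c0 c 0)) (pl N (c0 c 0)) := by
        rw [hval x L 0]
        unfold g
        rw [W_pl (hd.alt 0) (hd.alt 0)]
        ring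
      have h1' : 0 < g (pl L (val (u 0) x)) (pl L (val (u 0) x)) := h1
      have h2' : 0 < g (pl N (c0 c 0)) (pl N (c0 c 0)) := h2
      rw [h3] at h1'
      exact (pos_iff_pos_of_mul_pos h1').2 h2'
    refine ⟨√(LinearMap.det (Q : E4 →ₗ[ℝ] E4)), Real.sqrt_pos.2 hQd, fun a d => ?_⟩
    have h1 : (fun a => pl L (val (u a) x)) = fun a => pl Q (pl N (c0 c a)) :=
      funext fun a => hval x L a
    rw [h1]
    have h2 : ∀ b, A a b * rho (fun a => pl Q (pl N (c0 c a))) b d =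
        √(LinearMap.det (Q : E4 →ₗ[ℝ] E4)) * (A a b * rho (fun a => pl N (c0 c a)) b d) := by
      intro b
      rw [KRhoL_604.rho_pl hd hQd b d]
      ring
    simp only [h2]
    rw [← Finset.mul_sum, hA1 a d]
    split_ifs <;> simp

end Flat

/-! ### KDOWN -/

set_option maxHeartbeats 1000000 in
theorem kdown (M : Type u) [TopologicalSpace M] [T2Space M] [CompactSpace M] [ConnectedSpace M]
    [ChartedSpace E4 M] [IsManifold 𝓘(ℝ, E4) ∞ M] (w : Trip M) (hw : Pos3 w)
    (m : ℕ) (σ : Fin m → E3 → M) (φ : Fin m → E4 → M) (R r₀ : Fin m → ℝ)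
    (g : Fin m → ℝ → ℝ) (hS : Std σ w φ 1 R r₀ g) (hσ : ∀ i, EmbS (σ i)) (K : KIn M m)
    (hKC : ∀ i, K.C i = im (σ i))
    (hKp : K.phi = φ) (X : Type u) [TopologicalSpace X] [T2Space X] [CompactSpace X]
    [ConnectedSpace X] [ChartedSpace E4 X] [IsManifold 𝓘(ℝ, E4) ∞ X] (O : KOut K X)
    (u u' : Trip X) (hu : Pos3 u) (hl : LiftT w O R r₀ u) (hple : PLE O.io u u') (hu' : Pos3 u')
    (s : Fin 4 → F1 E4 X) (hf : FlatIn u' s) (ho : ∀ i, Odd1 O.io (s i)) :
    ∃ w' : Trip M, PL w w' ∧ Pos3 w' ∧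
      ∃ A : Matrix (Fin 3) (Fin 3) ℝ, A.det ≠ 0 ∧ KRel (rec3 A w') := by
  subst hKp
  obtain ⟨C, hC, hpar⟩ := exists_par g hS.g_smooth hS.g_pos
  obtain ⟨A', th', hst', hp', hev⟩ := chain hS hw hC (st_init hS hl) (prim_init hl) hple
  choose Θ hΘ using fun i => exists_flat O hf ho i
  have hfin := fin_step (g := g) hS hw hC hst' hu' hp' hΘ
  obtain ⟨ε, δ, hε, hε1, hδ, h1, h2⟩ := (hev.and hfin).exists
  obtain ⟨P⟩ := hpar ε δ hε hε1 hδ
  obtain ⟨W0, hW0⟩ := exists_real hS P (st_init hS hl) (prim_init hl)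
  obtain ⟨W1, hW1⟩ := exists_real hS P hst' hp'
  have hs0 : Seg w W0 := init_step P hS hw hu hl hW0
  have hs1 : PL W0 W1 := h1 P W0 W1 hW0 hW1
  obtain ⟨F, V, hF, hV, hs2⟩ := h2 P W1 hW1
  have hVpos : Pos3 V := by
    have := hs2 1 zero_le_one le_rfl
    rwa [seg_one] at this
  obtain ⟨A, hA0, hA1, hA2⟩ := flat_matrix hu' hf
  refine ⟨V, ((Relation.ReflTransGen.single hs0).trans hs1).trans
    (Relation.ReflTransGen.single hs2), hVpos, A, hA0, ?_⟩
  intro y
  show Rel fun a => val (rec3 A V a) y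
  have hκ : ∀ i, ∃ κ : ℝ, 0 < κ ∧ ∀ a d, ∑ b, A a b * rD O u' i b d =
      if a = d then κ else 0 := by
    intro i
    exact hA2 (O.ch i 0) (D1 E4 E4 (O.ch i) 0) (O.ch_imm i 0 (by simp)) (hst'.def3 i)
  have hrec : (fun a => val (rec3 A V a) y) = fun a => ∑ b, A a b • val (V b) y :=
    funext fun a => val_rec3 A V a y
  rw [hrec]
  have halt : ∀ y a, Alt (∑ b, A a b • val (V b) y) := fun y a =>
    alt_sum (fun b => alt_val _ _) (A a)
  rcases cases_M O hε1 y with ⟨i, hi⟩ | ⟨i, z, hz, rfl⟩ | ⟨x, hx, hx2, rfl⟩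
  · obtain ⟨κ, hκ0, hκ1⟩ := hκ i
    have e1 : (fun a => ∑ b, A a b • val (V b) y) =
        fun a => (κ * (P.mu i a / R i)) • val (w a) y := by
      funext a
      have e2 : ∀ b, val (V b) y = ∑ d, rD O u' i b d • ((P.mu i d / R i) • val (w d) y) := by
        intro b
        rw [hV.c i b y hi]
        exact Finset.sum_congr rfl fun d _ => by rw [smul_smul]
      simp only [e2]
      rw [sum_inv hκ1, smul_smul]
    rw [e1]
    exact (rel_sphere hS hσ hKC i hi).diag (k := fun a => κ * (P.mu i a / R i)) rfl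
  · obtain ⟨κ, hκ0, hκ1⟩ := hκ i
    refine rel_of_pl (halt _) (K.imm i z hz) (c := fun a => ∑ b, A a b •
      nu P i (rD O u' i) (F i) (fun _ _ => 0) b z) (fun a => ?_) ?_
    · show pl (D1 E4 E4 (K.phi i) z) (∑ b, A a b • val (V b) (K.phi i z)) = _
      rw [pl_sum]
      exact Finset.sum_congr rfl fun b _ => by rw [hV.n i b z hz]
    · rcases lt_or_ge ‖z‖ P.r0 with hz1 | hz1
      · have e1 : (fun a => ∑ b, A a b • nu P i (rD O u' i) (F i) (fun _ _ => 0) b z) =
            fun a => κ • neckT (P.gd i) z a := by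
          funext a
          have e2 : ∀ b, nu P i (rD O u' i) (F i) (fun _ _ => 0) b z =
              ∑ d, rD O u' i b d • neckT (P.gd i) z d := fun b => nu_core (hF i) b hz1
          simp only [e2]
          rw [sum_inv hκ1]
        rw [e1]
        exact (rel_neckT hz.1 (gd_df P i hz.1)).diag (k := fun _ => κ) rfl
      · have e1 : (fun a => ∑ b, A a b • nu P i (rD O u' i) (F i) (fun _ _ => 0) b z) =
            fun a => κ • pl (fderiv ℝ (F i) z) (et a) := by
          funext a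
          have e2 : ∀ b, nu P i (rD O u' i) (F i) (fun _ _ => 0) b z =
              ∑ d, rD O u' i b d • pl (fderiv ℝ (F i) z) (et d) := by
            intro b
            have h3 : d1 (fun y : E4 => P.χ y • (0 : E4 →L[ℝ] ℝ)) z = 0 :=
              d1_zero_of_ev (Eventually.of_forall fun _ => smul_zero _)
            unfold nu
            rw [gd_one P i hz hz1, sub_self, smul_zero, add_zero, h3, add_zero]
          simp only [e2]
          rw [sum_inv hκ1]
        rw [e1]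
        exact (rel_et.pl alt_et _).diag (k := fun _ => κ) rfl
  · refine rel_of_pl (halt _) (O.pr_imm x hx) (c := fun a => ∑ b, A a b • val (u' b) x)
      (fun a => ?_) (hA1 x)
    show pl (D1 E4 E4 O.pr x) (∑ b, A a b • val (V b) (O.pr x)) = _
    rw [pl_sum]
    exact Finset.sum_congr rfl fun b _ => by rw [hV.o b x hx hx2]

/-- **KDOWN** (helper152's statement, `KumDefs2_152`). -/
theorem kdown_stmt : KDOWN.{u} := fun M _ _ _ _ _ _ w hw m σ φ R r₀ g hS hσ K hKC hKp X _ _ _ _ _ _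
    O u u' hu hl hple hu' _ s hf ho =>
  kdown M w hw m σ φ R r₀ g hS hσ K hKC hKp X O u u' hu hl hple hu' s hf ho

end

end Crest.Agent.R235.KDown_604
end

-- ▼ part R235/KTA_172
section

/-!
Row 235 (S0364), package KUM, step K3 (helper172), part A: the space `X K` (the double cover of
`M` minus the removed sets, with `m` points added), its topology, projection, involution, sheets.
-/

set_option autoImplicit false
set_option maxSynthPendingDepth 3
set_option linter.unusedSectionVars false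

open Set Function Filter Topology
open scoped Manifold ContDiff Topology

universe u

namespace Crest.Agent.R235.KTA_172

open Crest.Agent.R240 Crest.Agent.R240.Ch Crest.Agent.R235 Crest.Agent.R235.KT_604

noncomputable section

/-! ### the punctured ball -/

lemma isOpen_PB (r : ℝ) : IsOpen (PB r) := by
  have : PB r = {z : E4 | z ≠ 0} ∩ Metric.ball 0 r := by
    ext z; simp [PB]
  rw [this]
  exact isOpen_ne.inter Metric.isOpen_ball

lemma PB_mono {r s : ℝ} (h : r ≤ s) : PB r ⊆ PB s := fun _ hz => ⟨hz.1, hz.2.trans_le h⟩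

lemma PB_ball {r : ℝ} {z : E4} (hz : z ∈ PB r) : z ∈ Metric.ball (0 : E4) r := by
  simpa using hz.2

lemma neg_mem_PB {r : ℝ} {z : E4} (hz : z ∈ PB r) : -z ∈ PB r :=
  ⟨neg_ne_zero.2 hz.1, by rw [norm_neg]; exact hz.2⟩

lemma zero_nmem_PB {r : ℝ} : (0 : E4) ∉ PB r := fun h => h.1 rfl

lemma ball_PB {r : ℝ} {z : E4} (hz : z ∈ Metric.ball (0 : E4) r) : z = 0 ∨ z ∈ PB r := by
  by_cases h : z = 0
  · exact Or.inl h
  · exact Or.inr ⟨h, by simpa using hz⟩

section Open

variable {M : Type u} [TopologicalSpace M] [ChartedSpace E4 M] [IsManifold 𝓘(ℝ, E4) ∞ M]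

/-- an immersion between four-manifolds is a local homeomorphism. -/
lemma map_nhds_of_imm {f : E4 → M} {z : E4} (hf : ContMDiffAt 𝓘(ℝ, E4) 𝓘(ℝ, E4) ∞ f z)
    (hi : ∀ v, dmap f z v = 0 → v = 0) : map f (𝓝 z) = 𝓝 (f z) := by
  set e := chartAt E4 (f z) with he
  have hz : f z ∈ e.source := mem_chart_source E4 (f z)
  have hcd : ContDiffAt ℝ ∞ (fun y => e (f y)) z := Dm_61.contDiffAt_chart hf hz
  have hst := hcd.hasStrictFDerivAt (by simp)
  set f' := fderiv ℝ (fun y => e (f y)) z with hf'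
  have hinj : Function.Injective f' := by
    rw [injective_iff_map_eq_zero]
    exact fun v hv => hi v hv
  let L : E4 ≃L[ℝ] E4 := (LinearEquiv.ofInjectiveEndo (f' : E4 →ₗ[ℝ] E4) hinj).toContinuousLinearEquiv
  have hL : (L : E4 →L[ℝ] E4) = f' := by
    ext v
    rfl
  rw [← hL] at hst
  have h1 := hst.map_nhds_eq_of_equiv
  have h2 : f =ᶠ[𝓝 z] fun y => e.symm (e (f y)) := by
    filter_upwards [hf.continuousAt.preimage_mem_nhds (e.open_source.mem_nhds hz)] with y hy
    exact (e.left_inv hy).symm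
  have h3 : map (fun y => e.symm (e (f y))) (𝓝 z) = map e.symm (map (fun y => e (f y)) (𝓝 z)) :=
    (Filter.map_map (m := fun y => e (f y)) (m' := e.symm)).symm
  rw [Filter.map_congr h2, h3, h1, e.symm_map_nhds_eq hz]

end Open

section Space

variable {M : Type u} [TopologicalSpace M] [ChartedSpace E4 M] {m : ℕ} (K : KIn M m)

/-- the valid pairs. -/
def Vd : Set (M × CN K.N) := {p | (∀ i, p.1 ∉ K.C i) ∧ p.2 ∈ K.tw p.1}

/-- the new manifold. -/
inductive X : Type u
  | pt (p : Vd K) : X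
  | en (i : Fin m) : X

lemma mem_Vd {i : Fin m} {z : E4} (hz : z ∈ PB 1) : (K.phi i z, K.psi i z) ∈ Vd K :=
  ⟨fun j => K.out i j z hz, K.psi_mem i z hz⟩

open Classical in
/-- the charts round the new points. -/
def ch (i : Fin m) (z : E4) : X K :=
  if h : z ∈ PB 1 then X.pt ⟨(K.phi i z, K.psi i z), mem_Vd K h⟩ else X.en i

variable {K}

lemma ch_pt {i : Fin m} {z : E4} (hz : z ∈ PB 1) :
    ch K i z = X.pt ⟨(K.phi i z, K.psi i z), mem_Vd K hz⟩ := dif_pos hz

lemma ch_en {i : Fin m} {z : E4} (hz : z ∉ PB 1) : ch K i z = X.en i := dif_neg hz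

lemma ch_zero (i : Fin m) : ch K i 0 = X.en i := ch_en zero_nmem_PB

variable (K) in
/-- the topology. -/
instance : TopologicalSpace (X K) where
  IsOpen U := IsOpen (X.pt ⁻¹' U) ∧
    ∀ i, X.en i ∈ U → ∃ r : ℝ, 0 < r ∧ r ≤ 1 ∧ ∀ z ∈ PB r, ch K i z ∈ U
  isOpen_univ := ⟨isOpen_univ, fun i _ => ⟨1, one_pos, le_rfl, fun _ _ => mem_univ _⟩⟩
  isOpen_inter U V hU hV := by
    refine ⟨hU.1.inter hV.1, fun i hi => ?_⟩
    obtain ⟨r, hr, hr1, h⟩ := hU.2 i hi.1
    obtain ⟨s, hs, hs1, h'⟩ := hV.2 i hi.2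
    exact ⟨min r s, lt_min hr hs, (min_le_left _ _).trans hr1,
      fun z hz => ⟨h z (PB_mono (min_le_left _ _) hz), h' z (PB_mono (min_le_right _ _) hz)⟩⟩
  isOpen_sUnion S hS := by
    refine ⟨?_, ?_⟩
    · rw [preimage_sUnion]
      exact isOpen_biUnion fun U hU => (hS U hU).1
    · rintro i ⟨U, hU, hi⟩
      obtain ⟨r, hr, hr1, h⟩ := (hS U hU).2 i hi
      exact ⟨r, hr, hr1, fun z hz => ⟨U, hU, h z hz⟩⟩

lemma isOpen_X {U : Set (X K)} : IsOpen U ↔ IsOpen (X.pt ⁻¹' U) ∧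
    ∀ i, X.en i ∈ U → ∃ r : ℝ, 0 < r ∧ r ≤ 1 ∧ ∀ z ∈ PB r, ch K i z ∈ U := Iff.rfl

lemma pt_inj : Function.Injective (X.pt : Vd K → X K) := fun _ _ h => by injection h

lemma openEmb_pt : IsOpenEmbedding (X.pt : Vd K → X K) := by
  refine IsOpenEmbedding.of_continuous_injective_isOpenMap ?_ pt_inj ?_
  · exact continuous_def.2 fun U hU => hU.1
  · intro V hV
    refine isOpen_X.2 ⟨?_, ?_⟩
    · rwa [preimage_image_eq _ pt_inj]
    · rintro i ⟨p, _, hp⟩
      cases hp

variable (K) in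
/-- the projection. -/
def pr : X K → M
  | X.pt p => p.1.1
  | X.en i => K.phi i 0

variable (K) in
/-- the lift of the double-valued function. -/
def lf : X K → CN K.N
  | X.pt p => p.1.2
  | X.en _ => 0

@[simp] lemma pr_pt (p : Vd K) : pr K (X.pt p) = p.1.1 := rfl
@[simp] lemma lf_pt (p : Vd K) : lf K (X.pt p) = p.1.2 := rfl
@[simp] lemma lf_en (i : Fin m) : lf K (X.en i) = 0 := rfl

lemma tw_eq {p : M × CN K.N} (hp : p ∈ Vd K) : p.2 ≠ 0 ∧ K.tw p.1 = {p.2, - p.2} := by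
  obtain ⟨U, hU, v, _, h⟩ := K.tw_loc p.1 hp.1
  obtain ⟨h0, h1⟩ := h p.1 (mem_of_mem_nhds hU)
  have h2 := hp.2
  rw [h1] at h2
  rcases h2 with h2 | h2
  · rw [h2]; exact ⟨h0, h1⟩
  · rw [mem_singleton_iff] at h2
    rw [h2, neg_neg, h1]
    exact ⟨neg_ne_zero.2 h0, pair_comm _ _⟩

lemma neg_mem_Vd {p : M × CN K.N} (hp : p ∈ Vd K) : (p.1, - p.2) ∈ Vd K := by
  refine ⟨hp.1, ?_⟩
  show - p.2 ∈ K.tw p.1
  rw [(tw_eq hp).2]
  exact Or.inr rfl

variable (K) in
/-- the involution. -/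
def io : X K → X K
  | X.pt p => X.pt ⟨(p.1.1, - p.1.2), neg_mem_Vd p.2⟩
  | X.en i => X.en i

@[simp] lemma io_pt (p : Vd K) : io K (X.pt p) = X.pt ⟨(p.1.1, - p.1.2), neg_mem_Vd p.2⟩ := rfl
@[simp] lemma io_en (i : Fin m) : io K (X.en i) = X.en i := rfl

lemma io_io (x : X K) : io K (io K x) = x := by
  cases x with
  | pt p => simp
  | en i => rfl

lemma lf_io (x : X K) : lf K (io K x) = - lf K x := by
  cases x with
  | pt p => rfl
  | en i => simp

lemma pr_io (x : X K) : pr K (io K x) = pr K x := by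
  cases x with
  | pt p => rfl
  | en i => rfl

lemma io_ch (i : Fin m) (z : E4) : io K (ch K i z) = ch K i (-z) := by
  by_cases hz : z ∈ PB 1
  · rw [ch_pt hz, ch_pt (neg_mem_PB hz), io_pt]
    congr 1
    apply Subtype.ext
    exact Prod.ext (K.even i z hz).symm (K.psi_odd i z hz).symm
  · have hz' : -z ∉ PB 1 := fun h => hz (by simpa using neg_mem_PB h)
    rw [ch_en hz, ch_en hz', io_en]

lemma pr_ch {i : Fin m} {z : E4} (hz : z ∈ PB 1) : pr K (ch K i z) = K.phi i z := by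
  rw [ch_pt hz]; rfl

lemma lf_ch {i : Fin m} {z : E4} (hz : z ∈ PB 1) : lf K (ch K i z) = K.psi i z := by
  rw [ch_pt hz]; rfl

lemma ch_ne_en {i j : Fin m} {z : E4} (hz : z ∈ PB 1) : ch K i z ≠ X.en j := by
  rw [ch_pt hz]
  intro h
  cases h

lemma ext_pt {x y : X K} (hx : ∀ i, x ≠ X.en i) (hy : ∀ i, y ≠ X.en i) (h1 : pr K x = pr K y)
    (h2 : lf K x = lf K y) : x = y := by
  cases x with
  | en i => exact absurd rfl (hx i)
  | pt p =>
    cases y with
    | en i => exact absurd rfl (hy i)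
    | pt q =>
      congr 1
      exact Subtype.ext (Prod.ext h1 h2)

lemma ch_injOn (i : Fin m) : InjOn (ch K i) (Metric.ball 0 1) := by
  intro z hz w hw h
  rcases ball_PB hz with rfl | hz
  · rcases ball_PB hw with rfl | hw
    · rfl
    · rw [ch_zero] at h
      exact absurd h.symm (ch_ne_en hw)
  · rcases ball_PB hw with rfl | hw
    · rw [ch_zero] at h
      exact absurd h (ch_ne_en hz)
    · have h1 : K.phi i z = K.phi i w := by rw [← pr_ch hz, ← pr_ch hw, h]
      have h2 : K.psi i z = K.psi i w := by rw [← lf_ch hz, ← lf_ch hw, h]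
      rcases K.inj i z hz w hw h1 with h3 | h3
      · exact h3.symm
      · rw [h3, K.psi_odd i z hz] at h2
        have h4 : K.psi i z ≠ 0 := (tw_eq (mem_Vd K hz)).1
        have h5 : (2 : ℂ) • K.psi i z = 0 := by
          rw [two_smul]
          nth_rewrite 1 [h2]
          simp
        exact absurd ((smul_eq_zero.1 h5).resolve_left two_ne_zero) h4

lemma ch_sep {i j : Fin m} (hij : i ≠ j) {z w : E4} (hz : z ∈ Metric.ball (0 : E4) 1)
    (hw : w ∈ Metric.ball (0 : E4) 1) : ch K i z ≠ ch K j w := by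
  intro h
  rcases ball_PB hz with rfl | hz
  · rcases ball_PB hw with rfl | hw
    · rw [ch_zero, ch_zero] at h
      injection h with h
      exact hij h
    · rw [ch_zero] at h
      exact absurd h.symm (ch_ne_en hw)
  · rcases ball_PB hw with rfl | hw
    · rw [ch_zero] at h
      exact absurd h (ch_ne_en hz)
    · exact K.sep i j hij z hz w hw (by rw [← pr_ch hz, ← pr_ch hw, h])

/-! ### continuity -/

lemma nhds_pt (p : Vd K) : 𝓝 (X.pt p : X K) = map X.pt (𝓝 p) := (openEmb_pt.map_nhds_eq p).symm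

lemma continuousAt_pr_pt (p : Vd K) : ContinuousAt (pr K) (X.pt p) := by
  refine openEmb_pt.continuousAt_iff.1 ?_
  exact (continuous_fst.comp continuous_subtype_val).continuousAt

lemma continuousAt_lf_pt (p : Vd K) : ContinuousAt (lf K) (X.pt p) := by
  refine openEmb_pt.continuousAt_iff.1 ?_
  exact (continuous_snd.comp continuous_subtype_val).continuousAt

lemma exists_pt {x : X K} (hx : ∀ i, x ≠ X.en i) : ∃ p : Vd K, x = X.pt p := by
  cases x with
  | en i => exact absurd rfl (hx i)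
  | pt p => exact ⟨p, rfl⟩

lemma continuousAt_pr {x : X K} (hx : ∀ i, x ≠ X.en i) : ContinuousAt (pr K) x := by
  obtain ⟨p, rfl⟩ := exists_pt hx
  exact continuousAt_pr_pt p

lemma continuousAt_lf {x : X K} (hx : ∀ i, x ≠ X.en i) : ContinuousAt (lf K) x := by
  obtain ⟨p, rfl⟩ := exists_pt hx
  exact continuousAt_lf_pt p

/-- continuity of a map into `X` at a regular point. -/
lemma continuousAt_of {A : Type*} [TopologicalSpace A] {g : A → X K} {a : A}
    (hr : ∀ᶠ b in 𝓝 a, ∀ i, g b ≠ X.en i) (h1 : ContinuousAt (fun b => pr K (g b)) a)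
    (h2 : ContinuousAt (fun b => lf K (g b)) a) : ContinuousAt g a := by
  obtain ⟨p, hp⟩ := exists_pt hr.self_of_nhds
  intro O hO
  rw [hp, nhds_pt] at hO
  have hO' : X.pt ⁻¹' O ∈ 𝓝 p := hO
  rw [nhds_subtype_eq_comap] at hO'
  obtain ⟨V, hV, hVO⟩ := hO'
  have h3 : ContinuousAt (fun b => (pr K (g b), lf K (g b))) a := h1.prodMk h2
  have h4 : (pr K (g a), lf K (g a)) = p.1 := by rw [hp]; rfl
  have h5 : ∀ᶠ b in 𝓝 a, (pr K (g b), lf K (g b)) ∈ V := by
    apply h3
    show V ∈ 𝓝 (pr K (g a), lf K (g a))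
    rw [h4]
    exact hV
  rw [mem_map]
  filter_upwards [hr, h5] with b hb1 hb2
  obtain ⟨q, hq⟩ := exists_pt hb1
  rw [hq] at hb2
  show g b ∈ O
  rw [hq]
  exact hVO hb2

lemma psi_at {i : Fin m} {z : E4} (hz : z ∈ PB 1) : ContinuousAt (K.psi i) z :=
  (K.psi_cont i).continuousAt ((isOpen_PB 1).mem_nhds hz)

lemma phi_at {i : Fin m} {z : E4} (hz : z ∈ PB 1) :
    ContMDiffAt 𝓘(ℝ, E4) 𝓘(ℝ, E4) ∞ (K.phi i) z :=
  (K.smooth i).contMDiffAt ((isOpen_PB 1).mem_nhds hz)

lemma ch_cont (i : Fin m) {z : E4} (hz : z ∈ Metric.ball (0 : E4) 1) : ContinuousAt (ch K i) z := by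
  rcases ball_PB hz with rfl | hz
  · intro O hO
    rw [ch_zero] at hO
    obtain ⟨O', hO', ho, hm⟩ := mem_nhds_iff.1 hO
    obtain ⟨r, hr, hr1, h⟩ := (isOpen_X.1 ho).2 i hm
    rw [mem_map]
    filter_upwards [Metric.ball_mem_nhds (0 : E4) hr] with w hw
    show ch K i w ∈ O
    rcases ball_PB hw with rfl | hw
    · rw [ch_zero]; exact hO' hm
    · exact hO' (h w hw)
  · have h0 : ∀ᶠ w in 𝓝 z, w ∈ PB 1 := (isOpen_PB 1).mem_nhds hz
    refine continuousAt_of ?_ ?_ ?_
    · filter_upwards [h0] with w hw j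
      exact ch_ne_en hw
    · refine (phi_at (K := K) (i := i) hz).continuousAt.congr ?_
      filter_upwards [h0] with w hw
      exact (pr_ch hw).symm
    · refine (psi_at (K := K) (i := i) hz).congr ?_
      filter_upwards [h0] with w hw
      exact (lf_ch hw).symm

end Space

end

end Crest.Agent.R235.KTA_172
end

-- ▼ part R235/KTB_172
section

/-!
Row 235 (S0364), package KUM, step K3 (helper172), part B: sheets of `X K`, openness of the charts
round the new points, `X K` is Hausdorff, compact and connected.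
-/

set_option autoImplicit false
set_option maxSynthPendingDepth 3
set_option linter.unusedSectionVars false

open Set Function Filter Topology
open scoped Manifold ContDiff Topology

universe u

namespace Crest.Agent.R235.KTA_172

open Crest.Agent.R240 Crest.Agent.R240.Ch Crest.Agent.R235 Crest.Agent.R235.KT_604

noncomputable section

section Sheets

variable {M : Type u} [TopologicalSpace M] [ChartedSpace E4 M] {m : ℕ} {K : KIn M m}

lemma eventually_reg {x : X K} (hx : ∀ i, x ≠ X.en i) : ∀ᶠ y in 𝓝 x, ∀ i, y ≠ X.en i := by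
  obtain ⟨p, rfl⟩ := exists_pt hx
  filter_upwards [(openEmb_pt (K := K)).isOpen_range.mem_nhds ⟨p, rfl⟩] with y hy i
  obtain ⟨q, rfl⟩ := hy
  intro h
  cases h

lemma reg_mem {x : X K} (hx : ∀ i, x ≠ X.en i) : (pr K x, lf K x) ∈ Vd K := by
  obtain ⟨p, rfl⟩ := exists_pt hx
  exact p.2

variable (K) in
/-- a local section of the double-valued function. -/
structure Sheet where
  U : Set M
  op : IsOpen U
  v : M → CN K.N
  cont : ContinuousOn v U
  val : ∀ y ∈ U, (y, v y) ∈ Vd K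
  b : M
  hb : b ∈ U

namespace Sheet

variable (s : Sheet K)

open Classical in
/-- the section. -/
def inv (y : M) : X K :=
  if h : y ∈ s.U then X.pt ⟨(y, s.v y), s.val y h⟩ else X.pt ⟨(s.b, s.v s.b), s.val s.b s.hb⟩

lemma inv_of {y : M} (h : y ∈ s.U) : s.inv y = X.pt ⟨(y, s.v y), s.val y h⟩ := dif_pos h

lemma inv_ne_en (y : M) (i : Fin m) : s.inv y ≠ X.en i := by
  by_cases h : y ∈ s.U
  · rw [s.inv_of h]; intro h; cases h
  · rw [show s.inv y = _ from dif_neg h]; intro h; cases h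

lemma pr_inv {y : M} (h : y ∈ s.U) : pr K (s.inv y) = y := by rw [s.inv_of h]; rfl

lemma lf_inv {y : M} (h : y ∈ s.U) : lf K (s.inv y) = s.v y := by rw [s.inv_of h]; rfl

lemma inv_cont {y : M} (h : y ∈ s.U) : ContinuousAt s.inv y := by
  have h0 : ∀ᶠ y' in 𝓝 y, y' ∈ s.U := s.op.mem_nhds h
  refine continuousAt_of ?_ ?_ ?_
  · exact Eventually.of_forall fun y' i => s.inv_ne_en y' i
  · refine continuousAt_id.congr ?_
    filter_upwards [h0] with y' hy'
    exact (s.pr_inv hy').symm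
  · refine ((s.cont).continuousAt (s.op.mem_nhds h)).congr ?_
    filter_upwards [h0] with y' hy'
    exact (s.lf_inv hy').symm

lemma mem_iff {x : X K} : x ∈ s.inv '' s.U ↔
    (∀ i, x ≠ X.en i) ∧ pr K x ∈ s.U ∧ lf K x = s.v (pr K x) := by
  constructor
  · rintro ⟨y, hy, rfl⟩
    refine ⟨s.inv_ne_en y, ?_, ?_⟩
    · rw [s.pr_inv hy]; exact hy
    · rw [s.lf_inv hy, s.pr_inv hy]
  · rintro ⟨h1, h2, h3⟩
    refine ⟨pr K x, h2, ?_⟩
    exact ext_pt (s.inv_ne_en _) h1 (s.pr_inv h2) (by rw [s.lf_inv h2, h3])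

lemma isOpen_image : IsOpen (s.inv '' s.U) := by
  rw [isOpen_iff_mem_nhds]
  intro x hx
  obtain ⟨h1, h2, h3⟩ := s.mem_iff.1 hx
  have hpr := continuousAt_pr h1
  have hlf := continuousAt_lf h1
  have hv : ContinuousAt (fun x => s.v (pr K x)) x :=
    ContinuousAt.comp (f := pr K) (g := s.v) ((s.cont).continuousAt (s.op.mem_nhds h2)) hpr
  have h0 : s.v (pr K x) ≠ 0 := (tw_eq (s.val _ h2)).1
  have h4 : ‖lf K x - s.v (pr K x)‖ < ‖lf K x + s.v (pr K x)‖ := by
    rw [h3, sub_self, norm_zero, norm_pos_iff]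
    intro h5
    rw [← two_smul ℂ] at h5
    exact h0 ((smul_eq_zero.1 h5).resolve_left two_ne_zero)
  have h5 : ∀ᶠ y in 𝓝 x, ‖lf K y - s.v (pr K y)‖ < ‖lf K y + s.v (pr K y)‖ :=
    (hlf.sub hv).norm.eventually_lt (hlf.add hv).norm h4
  filter_upwards [eventually_reg h1, hpr.preimage_mem_nhds (s.op.mem_nhds h2), h5] with y hy1 hy2 hy3
  refine s.mem_iff.2 ⟨hy1, hy2, ?_⟩
  have h6 := (reg_mem hy1).2
  rw [(tw_eq (s.val _ hy2)).2] at h6
  rcases h6 with h6 | h6
  · exact h6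
  · rw [mem_singleton_iff] at h6
    have h6' : lf K y = - s.v (pr K y) := h6
    rw [h6', neg_add_cancel, norm_zero] at hy3
    exact absurd hy3 (not_lt.2 (norm_nonneg _))

/-- the local homeomorphism. -/
def hom : OpenPartialHomeomorph (X K) M where
  toFun := pr K
  invFun := s.inv
  source := s.inv '' s.U
  target := s.U
  map_source' := by
    rintro _ ⟨y, hy, rfl⟩
    rwa [s.pr_inv hy]
  map_target' := fun y hy => mem_image_of_mem _ hy
  left_inv' := by
    rintro _ ⟨y, hy, rfl⟩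
    rw [s.pr_inv hy]
  right_inv' := fun y hy => s.pr_inv hy
  open_source := s.isOpen_image
  open_target := s.op
  continuousOn_toFun := by
    intro x hx
    exact (continuousAt_pr (s.mem_iff.1 hx).1).continuousWithinAt
  continuousOn_invFun := fun y hy => (s.inv_cont hy).continuousWithinAt

@[simp] lemma hom_apply (x : X K) : s.hom x = pr K x := rfl
@[simp] lemma hom_symm (y : M) : s.hom.symm y = s.inv y := rfl
@[simp] lemma hom_source : s.hom.source = s.inv '' s.U := rfl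
@[simp] lemma hom_target : s.hom.target = s.U := rfl

end Sheet

variable [T2Space M]

lemma isOpen_off : IsOpen {y : M | ∀ i, y ∉ K.C i} := by
  have : {y : M | ∀ i, y ∉ K.C i} = ⋂ i, (K.C i)ᶜ := by
    ext y; simp
  rw [this]
  exact isOpen_iInter_of_finite fun i => (K.cpt i).isClosed.isOpen_compl

lemma exists_sheet (p : M × CN K.N) (hp : p ∈ Vd K) :
    ∃ s : Sheet K, s.b = p.1 ∧ s.v p.1 = p.2 := by
  obtain ⟨U, hU, v, hv, h⟩ := K.tw_loc p.1 hp.1
  have hUo : IsOpen (interior U ∩ {y : M | ∀ i, y ∉ K.C i}) := isOpen_interior.inter isOpen_off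
  have hp1 : p.1 ∈ interior U ∩ {y : M | ∀ i, y ∉ K.C i} :=
    ⟨mem_interior_iff_mem_nhds.2 hU, hp.1⟩
  have hsub : interior U ∩ {y : M | ∀ i, y ∉ K.C i} ⊆ U := fun y hy => interior_subset hy.1
  have h2 := hp.2
  rw [(h p.1 (mem_of_mem_nhds hU)).2] at h2
  rcases h2 with h2 | h2
  · refine ⟨⟨_, hUo, v, hv.mono hsub, fun y hy => ⟨hy.2, ?_⟩, p.1, hp1⟩, rfl, h2.symm⟩
    rw [(h y (hsub hy)).2]
    exact Or.inl rfl
  · rw [mem_singleton_iff] at h2
    refine ⟨⟨_, hUo, fun y => - v y, (hv.mono hsub).neg, fun y hy => ⟨hy.2, ?_⟩, p.1, hp1⟩, rfl,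
      h2.symm⟩
    rw [(h y (hsub hy)).2]
    exact Or.inr rfl

/-- the sheet through a point. -/
def sh (p : Vd K) : Sheet K := (exists_sheet p.1 p.2).choose

lemma sh_b (p : Vd K) : (sh p).b = p.1.1 := (exists_sheet p.1 p.2).choose_spec.1

lemma sh_v (p : Vd K) : (sh p).v p.1.1 = p.1.2 := (exists_sheet p.1 p.2).choose_spec.2

lemma sh_mem (p : Vd K) : p.1.1 ∈ (sh p).U := by
  have := (sh p).hb
  rwa [sh_b] at this

lemma mem_sh (p : Vd K) : X.pt p ∈ (sh p).inv '' (sh p).U := by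
  rw [Sheet.mem_iff]
  refine ⟨fun i h => (by cases h), sh_mem p, ?_⟩
  exact (sh_v p).symm

lemma map_pr (p : Vd K) : map (pr K) (𝓝 (X.pt p)) = 𝓝 p.1.1 :=
  (sh p).hom.map_nhds_eq (mem_sh p)

variable [IsManifold 𝓘(ℝ, E4) ∞ M]

lemma map_phi {i : Fin m} {z : E4} (hz : z ∈ PB 1) : map (K.phi i) (𝓝 z) = 𝓝 (K.phi i z) :=
  map_nhds_of_imm (phi_at hz) (K.imm i z hz)

lemma map_ch_PB {i : Fin m} {z : E4} (hz : z ∈ PB 1) : map (ch K i) (𝓝 z) = 𝓝 (ch K i z) := by
  have hzb := PB_ball hz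
  set p : Vd K := ⟨(K.phi i z, K.psi i z), mem_Vd K hz⟩ with hp
  have hx : ch K i z = X.pt p := ch_pt hz
  set e := (sh p).hom with he
  have hxe : ch K i z ∈ e.source := by rw [hx]; exact mem_sh p
  have h1 : ch K i =ᶠ[𝓝 z] fun w => e.symm (K.phi i w) := by
    filter_upwards [(ch_cont i hzb).preimage_mem_nhds (e.open_source.mem_nhds hxe),
      (isOpen_PB 1).mem_nhds hz] with w hw1 hw2
    have h2 : e (ch K i w) = K.phi i w := pr_ch hw2
    rw [← h2]
    exact (e.left_inv hw1).symm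
  have h2 : map (fun w => e.symm (K.phi i w)) (𝓝 z) = map e.symm (map (K.phi i) (𝓝 z)) :=
    (Filter.map_map (m := K.phi i) (m' := e.symm)).symm
  have h3 : K.phi i z = e (ch K i z) := (pr_ch hz).symm
  rw [Filter.map_congr h1, h2, map_phi hz, h3, e.symm_map_nhds_eq hxe]

lemma isOpen_ch_image (i : Fin m) {B : Set E4} (hB : IsOpen B) (hB1 : B ⊆ Metric.ball 0 1) :
    IsOpen (ch K i '' B) := by
  refine isOpen_X.2 ⟨?_, ?_⟩
  · rw [isOpen_iff_mem_nhds]
    rintro p ⟨z, hz, hzp⟩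
    have hz1 : z ∈ PB 1 := by
      rcases ball_PB (hB1 hz) with h | h
      · rw [h, ch_zero] at hzp; cases hzp
      · exact h
    have h1 : ch K i '' B ∈ 𝓝 (ch K i z) := by
      rw [← map_ch_PB hz1]
      exact image_mem_map (hB.mem_nhds hz)
    rw [hzp, nhds_pt] at h1
    exact h1
  · rintro j ⟨z, hz, hzj⟩
    rcases ball_PB (hB1 hz) with h | h
    · subst h
      rw [ch_zero] at hzj
      injection hzj with hij
      subst hij
      obtain ⟨r, hr, hrB⟩ := Metric.isOpen_iff.1 hB 0 hz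
      refine ⟨min r 1, lt_min hr one_pos, min_le_right _ _, fun w hw => ⟨w, ?_, rfl⟩⟩
      exact hrB (Metric.ball_subset_ball (min_le_left _ _) (PB_ball hw))
    · exact absurd hzj (ch_ne_en h)

lemma map_ch {i : Fin m} {z : E4} (hz : z ∈ Metric.ball (0 : E4) 1) :
    map (ch K i) (𝓝 z) = 𝓝 (ch K i z) := by
  refine le_antisymm (ch_cont i hz) ?_
  intro O hO
  rw [mem_map] at hO
  obtain ⟨B, hB, hBo, hzB⟩ := mem_nhds_iff.1 (inter_mem hO (Metric.isOpen_ball.mem_nhds hz))
  refine mem_of_superset ((isOpen_ch_image i hBo fun w hw => (hB hw).2).mem_nhds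
    (mem_image_of_mem _ hzB)) ?_
  rintro _ ⟨w, hw, rfl⟩
  exact (hB hw).1

lemma nhds_en (i : Fin m) : 𝓝 (X.en i : X K) = map (ch K i) (𝓝 0) := by
  rw [map_ch (by simp), ch_zero]

/-- the parametrisation round a new point. -/
def par (i : Fin m) : OpenPartialHomeomorph E4 (X K) :=
  OpenPartialHomeomorph.ofContinuousOpenRestrict
    ((ch_injOn (K := K) i).toPartialEquiv (ch K i) (Metric.ball 0 1))
    (fun _ hz => (ch_cont i hz).continuousWithinAt)
    (by
      intro B hB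
      have : (Metric.ball (0 : E4) 1).domRestrict (ch K i) '' B =
          ch K i '' (Subtype.val '' B) := by
        rw [image_image]; rfl
      show IsOpen ((Metric.ball (0 : E4) 1).domRestrict (ch K i) '' B)
      rw [this]
      refine isOpen_ch_image i (Metric.isOpen_ball.isOpenMap_subtype_val _ hB) ?_
      rintro _ ⟨z, _, rfl⟩
      exact z.2)
    Metric.isOpen_ball

@[simp] lemma par_apply (i : Fin m) (z : E4) : par (K := K) i z = ch K i z := rfl
@[simp] lemma par_source (i : Fin m) : (par (K := K) i).source = Metric.ball 0 1 := rfl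


lemma continuous_io : Continuous (io K) := by
  rw [continuous_iff_continuousAt]
  intro x
  cases x with
  | pt p =>
    have hx : ∀ i, (X.pt p : X K) ≠ X.en i := fun i h => by cases h
    refine continuousAt_of ?_ ?_ ?_
    · filter_upwards [eventually_reg hx] with y hy i h
      have := congrArg (io K) h
      rw [io_io, io_en] at this
      exact hy i this
    · refine (continuousAt_pr hx).congr (Eventually.of_forall fun y => (pr_io y).symm)
    · refine (continuousAt_lf hx).neg.congr (Eventually.of_forall fun y => (lf_io y).symm)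
  | en i =>
    show Tendsto (io K) (𝓝 (X.en i)) (𝓝 (X.en i))
    rw [nhds_en, tendsto_map'_iff]
    have h1 : io K ∘ ch K i = ch K i ∘ fun z : E4 => -z := funext fun z => io_ch i z
    rw [h1]
    have h2 : Tendsto (fun z : E4 => -z) (𝓝 0) (𝓝 0) := by
      have := (continuous_neg (G := E4)).tendsto 0
      rwa [neg_zero] at this
    exact tendsto_map.comp h2

theorem t2X : T2Space (X K) := by
  have hmix : ∀ (p : Vd K) (i : Fin m), ∃ u v : Set (X K), IsOpen u ∧ IsOpen v ∧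
      X.pt p ∈ u ∧ X.en i ∈ v ∧ Disjoint u v := by
    intro p i
    have hd : Disjoint ({p.1.1} : Set M) (K.C i) := by
      rw [disjoint_singleton_left]
      exact p.2.1 i
    obtain ⟨U, V, hU, hV, hpU, hCV, hUV⟩ := SeparatedNhds.of_isCompact_isCompact isCompact_singleton (K.cpt i) hd
    obtain ⟨r, hr, hr1, hrV⟩ := K.shrink i V hV hCV
    refine ⟨X.pt '' {q : Vd K | q.1.1 ∈ U}, ch K i '' Metric.ball 0 r, ?_, ?_, ?_, ?_, ?_⟩
    · exact openEmb_pt.isOpenMap _
        (hU.preimage (continuous_fst.comp continuous_subtype_val))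
    · exact isOpen_ch_image i Metric.isOpen_ball (Metric.ball_subset_ball hr1)
    · exact ⟨p, hpU rfl, rfl⟩
    · exact ⟨0, by simpa using hr, ch_zero i⟩
    · rw [Set.disjoint_left]
      rintro _ ⟨q, hq, rfl⟩ ⟨z, hz, hzq⟩
      rcases ball_PB hz with h | h
      · rw [h, ch_zero] at hzq; cases hzq
      · have h1 : K.phi i z = q.1.1 := by
          rw [← pr_ch (PB_mono hr1 h), hzq]; rfl
        have h2 : q.1.1 ∈ V := by
          rw [← h1]
          exact hrV (mem_image_of_mem _ h)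
        exact Set.disjoint_left.1 hUV hq h2
  refine ⟨fun x y hxy => ?_⟩
  cases x with
  | pt p =>
    cases y with
    | pt q =>
      have hpq : p ≠ q := fun h => hxy (by rw [h])
      obtain ⟨U, V, hU, hV, hpU, hqV, hUV⟩ := t2_separation hpq
      refine ⟨X.pt '' U, X.pt '' V, openEmb_pt.isOpenMap _ hU, openEmb_pt.isOpenMap _ hV,
        mem_image_of_mem _ hpU, mem_image_of_mem _ hqV, ?_⟩
      exact (disjoint_image_iff pt_inj).2 hUV
    | en i => exact hmix p i
  | en i =>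
    cases y with
    | pt q =>
      obtain ⟨u, v, h1, h2, h3, h4, h5⟩ := hmix q i
      exact ⟨v, u, h2, h1, h4, h3, h5.symm⟩
    | en j =>
      have hij : i ≠ j := fun h => hxy (by rw [h])
      refine ⟨ch K i '' Metric.ball 0 1, ch K j '' Metric.ball 0 1,
        isOpen_ch_image i Metric.isOpen_ball subset_rfl,
        isOpen_ch_image j Metric.isOpen_ball subset_rfl, ⟨0, by simp, ch_zero i⟩,
        ⟨0, by simp, ch_zero j⟩, ?_⟩
      rw [Set.disjoint_left]
      rintro _ ⟨z, hz, rfl⟩ ⟨w, hw, h⟩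
      exact ch_sep hij.symm hw hz h

lemma pt_phi {p : Vd K} {i : Fin m} {z : E4} (hz : z ∈ PB 1) (h : K.phi i z = p.1.1) :
    X.pt p = ch K i z ∨ X.pt p = ch K i (-z) := by
  have h1 := p.2.2
  rw [← h, (tw_eq (mem_Vd K hz)).2] at h1
  have hreg : ∀ j, (X.pt p : X K) ≠ X.en j := fun j h => by cases h
  rcases h1 with h1 | h1
  · left
    refine ext_pt hreg (fun j => ch_ne_en hz) ?_ ?_
    · rw [pr_ch hz]; exact h.symm
    · rw [lf_ch hz]; exact h1
  · right
    rw [mem_singleton_iff] at h1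
    have hz' := neg_mem_PB hz
    refine ext_pt hreg (fun j => ch_ne_en hz') ?_ ?_
    · rw [pr_ch hz', K.even i z hz]; exact h.symm
    · rw [lf_ch hz', K.psi_odd i z hz]; exact h1

theorem compactX [CompactSpace M] : CompactSpace (X K) := by
  have key : ∀ s : Set M, IsCompact s → (∀ y ∈ s, ∀ i, y ∉ K.C i) →
      ∃ L : Set (X K), IsCompact L ∧ ∀ p : Vd K, p.1.1 ∈ s → X.pt p ∈ L := by
    intro s hs hoff
    refine hs.induction_on (p := fun t => ∃ L : Set (X K), IsCompact L ∧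
      ∀ p : Vd K, p.1.1 ∈ t → X.pt p ∈ L) ?_ ?_ ?_ ?_
    · exact ⟨∅, isCompact_empty, fun p hp => absurd hp (notMem_empty _)⟩
    · rintro t t' htt' ⟨L, hL, h⟩
      exact ⟨L, hL, fun p hp => h p (htt' hp)⟩
    · rintro t t' ⟨L, hL, h⟩ ⟨L', hL', h'⟩
      refine ⟨L ∪ L', hL.union hL', fun p hp => ?_⟩
      rcases hp with hp | hp
      · exact Or.inl (h p hp)
      · exact Or.inr (h' p hp)
    · intro y hy
      obtain ⟨U, hU, v, _, hv⟩ := K.tw_loc y (hoff y hy)
      have hyv : (y, v y) ∈ Vd K := by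
        refine ⟨hoff y hy, ?_⟩
        rw [(hv y (mem_of_mem_nhds hU)).2]
        exact Or.inl rfl
      obtain ⟨s', hb, _⟩ := exists_sheet (K := K) (y, v y) hyv
      have hyU : y ∈ s'.U := by
        have := s'.hb
        rwa [hb] at this
      obtain ⟨N, hN, hyN, hNU⟩ := exists_compact_subset s'.op hyU
      have hc : IsCompact (s'.inv '' N) :=
        hN.image_of_continuousOn fun w hw => (s'.inv_cont (hNU hw)).continuousWithinAt
      refine ⟨N, mem_nhdsWithin_of_mem_nhds (mem_interior_iff_mem_nhds.1 hyN),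
        s'.inv '' N ∪ io K '' (s'.inv '' N), hc.union (hc.image continuous_io), ?_⟩
      intro p hp
      have h1 := p.2.2
      rw [(tw_eq (s'.val _ (hNU hp))).2] at h1
      have hreg : ∀ j, (X.pt p : X K) ≠ X.en j := fun j h => by cases h
      rcases h1 with h1 | h1
      · left
        refine ⟨p.1.1, hp, ?_⟩
        exact ext_pt (s'.inv_ne_en _) hreg (s'.pr_inv (hNU hp)) (by rw [s'.lf_inv (hNU hp)]; exact h1.symm)
      · right
        rw [mem_singleton_iff] at h1
        refine ⟨_, ⟨p.1.1, hp, rfl⟩, ?_⟩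
        refine ext_pt ?_ hreg ?_ ?_
        · intro j h
          have := congrArg (io K) h
          rw [io_io, io_en] at this
          exact s'.inv_ne_en _ _ this
        · rw [pr_io, s'.pr_inv (hNU hp)]; rfl
        · rw [lf_io, s'.lf_inv (hNU hp)]; exact h1.symm
  set A : Set M := {y | ∀ i, y ∉ K.C i ∪ K.phi i '' PB (1 / 2)} with hA
  have hAc : IsCompact A := by
    have h1 : A = ⋂ i, (K.C i ∪ K.phi i '' PB (1 / 2))ᶜ := by
      ext y; simp [hA]
    rw [h1]
    exact (isClosed_iInter fun i => (K.nbh i (1 / 2) (by norm_num)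
      (by norm_num)).isClosed_compl).isCompact
  obtain ⟨L, hL, hLA⟩ := key A hAc fun y hy i hi => hy i (Or.inl hi)
  have huniv : (univ : Set (X K)) = L ∪ ⋃ i, ch K i '' Metric.closedBall 0 (1 / 2) := by
    symm
    rw [eq_univ_iff_forall]
    intro x
    cases x with
    | en i =>
      right
      rw [mem_iUnion]
      exact ⟨i, 0, by simp, ch_zero i⟩
    | pt p =>
      by_cases hp : p.1.1 ∈ A
      · exact Or.inl (hLA p hp)
      · right
        change ¬ ∀ i, p.1.1 ∉ K.C i ∪ K.phi i '' PB (1 / 2) at hp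
        push Not at hp
        obtain ⟨i, hi⟩ := hp
        rw [mem_iUnion]
        refine ⟨i, ?_⟩
        rcases hi with hi | ⟨z, hz, hzp⟩
        · exact absurd hi (p.2.1 i)
        · have hz1 : z ∈ PB 1 := PB_mono (by norm_num) hz
          have hz2 : ‖z‖ ≤ 1 / 2 := hz.2.le
          rcases pt_phi hz1 hzp with h | h
          · exact ⟨z, by simpa using hz2, h.symm⟩
          · exact ⟨-z, by simpa using hz2, h.symm⟩
  refine ⟨?_⟩
  rw [huniv]
  refine hL.union (isCompact_iUnion fun i => ?_)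
  refine (isCompact_closedBall _ _).image_of_continuousOn fun z hz => ?_
  refine (ch_cont i ?_).continuousWithinAt
  exact Metric.closedBall_subset_ball (by norm_num) hz

/-! ### connectedness -/

/-- the trace on `M` of an invariant set. -/
def tr (T : Set (X K)) : Set M :=
  (pr K '' (T ∩ range X.pt)) ∪ ⋃ i : {i : Fin m // X.en i ∈ T}, K.C i.1

lemma ch_subset {T : Set (X K)} (hT : IsClopen T) {i : Fin m} {z w : E4}
    (hz : z ∈ Metric.ball (0 : E4) 1) (hw : w ∈ Metric.ball (0 : E4) 1) (h : ch K i z ∈ T) :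
    ch K i w ∈ T := by
  have hp : IsPreconnected (ch K i '' Metric.ball 0 1) :=
    (convex_ball (0 : E4) 1).isPreconnected.image _
      fun z hz => (ch_cont i hz).continuousWithinAt
  exact hp.subset_isClopen hT ⟨_, mem_image_of_mem _ hz, h⟩ (mem_image_of_mem _ hw)

lemma isOpen_tr {T : Set (X K)} (hT : IsClopen T) : IsOpen (tr T) := by
  rw [isOpen_iff_mem_nhds]
  rintro y (⟨x, ⟨hx, p, rfl⟩, rfl⟩ | hy)
  · have h1 : pr K '' (T ∩ range X.pt) ∈ 𝓝 (p.1.1) := by
      rw [← map_pr p]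
      exact image_mem_map ((hT.isOpen.inter openEmb_pt.isOpen_range).mem_nhds ⟨hx, p, rfl⟩)
    exact mem_of_superset h1 subset_union_left
  · rw [mem_iUnion] at hy
    obtain ⟨⟨i, hi⟩, hy⟩ := hy
    refine mem_of_superset ((K.nbh i 1 one_pos le_rfl).mem_nhds (Or.inl hy)) ?_
    rintro y' (hy' | ⟨z, hz, rfl⟩)
    · right
      rw [mem_iUnion]
      exact ⟨⟨i, hi⟩, hy'⟩
    · left
      refine ⟨ch K i z, ⟨?_, ?_⟩, pr_ch hz⟩
      · refine ch_subset hT (z := 0) (by simp) (PB_ball hz) ?_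
        rw [ch_zero]; exact hi
      · rw [ch_pt hz]; exact mem_range_self _

lemma exists_PB : ∃ z : E4, z ∈ PB 1 := by
  refine ⟨EuclideanSpace.single 0 (1 / 2), ?_, ?_⟩
  · intro h
    have := congrArg (fun w : E4 => w 0) h
    simp at this
  · rw [PiLp.norm_single]
    norm_num

lemma tr_univ [ConnectedSpace M] {T : Set (X K)} (hT : IsClopen T)
    (hio : ∀ x, x ∈ T → io K x ∈ T) {i : Fin m} (hi : X.en i ∈ T) : T = univ := by
  obtain ⟨z, hz⟩ := exists_PB
  have hio' : ∀ x, x ∈ Tᶜ → io K x ∈ Tᶜ := by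
    intro x hx h
    have := hio _ h
    rw [io_io] at this
    exact hx this
  have hdisj : Disjoint (tr T) (tr Tᶜ) := by
    rw [Set.disjoint_left]
    rintro y (⟨x, ⟨hx, p, rfl⟩, rfl⟩ | hy) hy'
    · rcases hy' with ⟨x', ⟨hx', q, rfl⟩, hq⟩ | hy'
      · have hreg : ∀ j, (X.pt p : X K) ≠ X.en j := fun j h => by cases h
        have hreg' : ∀ j, (X.pt q : X K) ≠ X.en j := fun j h => by cases h
        have h1 := q.2.2
        have hq' : q.1.1 = p.1.1 := hq
        rw [hq', (tw_eq p.2).2] at h1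
        rcases h1 with h1 | h1
        · exact hx' (by rwa [ext_pt hreg' hreg hq h1])
        · rw [mem_singleton_iff] at h1
          have h2 : X.pt q = io K (X.pt p) := by
            refine ext_pt hreg' ?_ (by rw [pr_io]; exact hq) (by rw [lf_io]; exact h1)
            intro j h
            cases h
          exact hx' (by rw [h2]; exact hio _ hx)
      · rw [mem_iUnion] at hy'
        obtain ⟨⟨j, hj⟩, hy'⟩ := hy'
        exact p.2.1 j hy'
    · rw [mem_iUnion] at hy
      obtain ⟨⟨j, hj⟩, hy⟩ := hy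
      rcases hy' with ⟨x', ⟨hx', q, rfl⟩, rfl⟩ | hy'
      · exact q.2.1 j hy
      · rw [mem_iUnion] at hy'
        obtain ⟨⟨k, hk⟩, hy'⟩ := hy'
        have hjk : j = k := by
          by_contra hne
          exact Set.disjoint_left.1 (K.disj j k hne) hy hy'
        subst hjk
        exact hk hj
  have hunion : tr T ∪ tr Tᶜ = univ := by
    rw [eq_univ_iff_forall]
    intro y
    by_cases hy : ∀ i, y ∉ K.C i
    · obtain ⟨U, hU, v, _, hv⟩ := K.tw_loc y hy
      have hyv : (y, v y) ∈ Vd K := by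
        refine ⟨hy, ?_⟩
        rw [(hv y (mem_of_mem_nhds hU)).2]
        exact Or.inl rfl
      by_cases h : (X.pt ⟨(y, v y), hyv⟩ : X K) ∈ T
      · exact Or.inl (Or.inl ⟨_, ⟨h, mem_range_self _⟩, rfl⟩)
      · exact Or.inr (Or.inl ⟨_, ⟨h, mem_range_self _⟩, rfl⟩)
    · push Not at hy
      obtain ⟨j, hj⟩ := hy
      by_cases h : (X.en j : X K) ∈ T
      · exact Or.inl (Or.inr (mem_iUnion.2 ⟨⟨j, h⟩, hj⟩))
      · exact Or.inr (Or.inr (mem_iUnion.2 ⟨⟨j, h⟩, hj⟩))
  have hcl : IsClopen (tr T) := by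
    refine ⟨?_, isOpen_tr hT⟩
    have : (tr T)ᶜ = tr Tᶜ := by
      ext y
      constructor
      · intro hy
        have : y ∈ tr T ∪ tr Tᶜ := by rw [hunion]; exact mem_univ _
        exact this.resolve_left hy
      · intro hy hy'
        exact Set.disjoint_left.1 hdisj hy' hy
    rw [← isOpen_compl_iff, this]
    exact isOpen_tr hT.compl
  have hne : (tr T).Nonempty := by
    refine ⟨K.phi i z, Or.inl ⟨ch K i z, ⟨?_, ?_⟩, pr_ch hz⟩⟩
    · refine ch_subset hT (z := 0) (by simp) (PB_ball hz) ?_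
      rw [ch_zero]; exact hi
    · rw [ch_pt hz]; exact mem_range_self _
  have hall : tr T = univ := by
    rcases isClopen_iff.1 hcl with h | h
    · rw [h] at hne
      exact absurd hne not_nonempty_empty
    · exact h
  have hpt : ∀ p : Vd K, X.pt p ∈ T := by
    intro p
    by_contra h
    have h1 : p.1.1 ∈ tr Tᶜ := Or.inl ⟨_, ⟨h, mem_range_self _⟩, rfl⟩
    have h2 : p.1.1 ∈ tr T := by rw [hall]; exact mem_univ _
    exact Set.disjoint_left.1 hdisj h2 h1
  rw [eq_univ_iff_forall]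
  intro x
  cases x with
  | pt p => exact hpt p
  | en j =>
    rw [← ch_zero]
    refine ch_subset hT (z := z) (PB_ball hz) (by simp) ?_
    rw [ch_pt hz]
    exact hpt _

theorem connX [ConnectedSpace M] (hm : 0 < m) : ConnectedSpace (X K) := by
  have hpre : PreconnectedSpace (X K) := by
    rw [preconnectedSpace_iff_clopen]
    intro s hs
    have key : ∀ s : Set (X K), IsClopen s → X.en ⟨0, hm⟩ ∈ s → s = univ := by
      intro s hs h0
      have hT : IsClopen (s ∩ io K ⁻¹' s) := hs.inter (hs.preimage continuous_io)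
      have h1 : s ∩ io K ⁻¹' s = univ := by
        refine tr_univ hT ?_ (i := ⟨0, hm⟩) ⟨h0, h0⟩
        rintro x ⟨hx, hx'⟩
        refine ⟨hx', ?_⟩
        show io K (io K x) ∈ s
        rwa [io_io]
      rw [eq_univ_iff_forall] at h1 ⊢
      exact fun x => (h1 x).1
    by_cases h0 : (X.en ⟨0, hm⟩ : X K) ∈ s
    · exact Or.inr (key s hs h0)
    · left
      have := key sᶜ hs.compl h0
      rwa [compl_univ_iff] at this
  exact { toNonempty := ⟨X.en ⟨0, hm⟩⟩ }

end Sheets

end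

end Crest.Agent.R235.KTA_172
end

-- ▼ part R235/KT_172
section

/-!
Row 235 (S0364), package KUM, step K3 (helper172), part C: the manifold structure of `X K` and the
theorem `kt : KT`.
-/

set_option autoImplicit false
set_option maxSynthPendingDepth 3
set_option linter.unusedSectionVars false

open Set Function Filter Topology
open scoped Manifold ContDiff Topology

universe u

namespace Crest.Agent.R235.KTA_172

open Crest.Agent.R240 Crest.Agent.R240.Ch Crest.Agent.R235 Crest.Agent.R235.KT_604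

noncomputable section

variable {M : Type u} [TopologicalSpace M] [T2Space M] [ChartedSpace E4 M]
  [IsManifold 𝓘(ℝ, E4) ∞ M] {m : ℕ} {K : KIn M m}

/-- the preferred charts. -/
def cht : X K → OpenPartialHomeomorph (X K) E4
  | X.pt p => (sh p).hom.trans (chartAt E4 p.1.1)
  | X.en i => (par i).symm

lemma mem_cht (x : X K) : x ∈ (cht x).source := by
  cases x with
  | pt p =>
    show X.pt p ∈ ((sh p).hom.trans (chartAt E4 p.1.1)).source
    rw [OpenPartialHomeomorph.trans_source]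
    exact ⟨mem_sh p, mem_chart_source E4 p.1.1⟩
  | en i =>
    show X.en i ∈ ch K i '' Metric.ball 0 1
    exact ⟨0, by simp, ch_zero i⟩

instance : ChartedSpace E4 (X K) where
  atlas := range cht
  chartAt := cht
  mem_chart_source := mem_cht
  chart_mem_atlas := mem_range_self

lemma cht_pt_apply (p : Vd K) (x : X K) : cht (X.pt p) x = chartAt E4 p.1.1 (pr K x) := rfl

lemma cht_pt_symm (p : Vd K) (y : E4) :
    (cht (X.pt p)).symm y = (sh p).inv ((chartAt E4 p.1.1).symm y) := rfl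

lemma cht_en_symm (i : Fin m) (z : E4) : (cht (X.en i : X K)).symm z = ch K i z := rfl



lemma cht_en_apply {i : Fin m} {z : E4} (hz : z ∈ Metric.ball (0 : E4) 1) :
    cht (X.en i : X K) (ch K i z) = z := (cht (X.en i : X K)).right_inv hz

lemma mem_pt_source {p : Vd K} {x : X K} : x ∈ (cht (X.pt p)).source ↔
    x ∈ (sh p).inv '' (sh p).U ∧ pr K x ∈ (chartAt E4 p.1.1).source := by
  show x ∈ ((sh p).hom.trans (chartAt E4 p.1.1)).source ↔ _
  rw [OpenPartialHomeomorph.trans_source]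
  rfl

lemma mem_pt_target {p : Vd K} {y : E4} : y ∈ (cht (X.pt p)).target ↔
    y ∈ (chartAt E4 p.1.1).target ∧ (chartAt E4 p.1.1).symm y ∈ (sh p).U := by
  show y ∈ ((sh p).hom.trans (chartAt E4 p.1.1)).target ↔ _
  rw [OpenPartialHomeomorph.trans_target]
  rfl

/-- the transition from a chart at a new point to a regular chart. -/
lemma trans_en_pt (i : Fin m) (q : Vd K) {z : E4}
    (hz : z ∈ ((par i).trans (cht (X.pt q))).source) : z ∈ PB 1 ∧
    K.phi i z ∈ (chartAt E4 q.1.1).source := by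
  rw [OpenPartialHomeomorph.trans_source] at hz
  obtain ⟨hz1, hz2⟩ := hz
  have hz3 : ch K i z ∈ (cht (X.pt q)).source := hz2
  rw [mem_pt_source, Sheet.mem_iff] at hz3
  have hz4 : z ∈ PB 1 := by
    rcases ball_PB hz1 with h | h
    · rw [h, ch_zero] at hz3
      exact absurd rfl (hz3.1.1 i)
    · exact h
  refine ⟨hz4, ?_⟩
  rw [← pr_ch hz4]
  exact hz3.2

lemma trans_en_pt_ev (i : Fin m) (q : Vd K) {z : E4} (hz : z ∈ PB 1) :
    (fun w => ((par i).trans (cht (X.pt q))) w) =ᶠ[𝓝 z] fun w => chartAt E4 q.1.1 (K.phi i w) := by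
  filter_upwards [(isOpen_PB 1).mem_nhds hz] with w hw
  show chartAt E4 q.1.1 (pr K (ch K i w)) = _
  rw [pr_ch hw]

lemma trans_cd (i : Fin m) (q : Vd K) {z : E4}
    (hz : z ∈ ((par i).trans (cht (X.pt q))).source) :
    ContDiffAt ℝ ∞ ((par i).trans (cht (X.pt q))) z ∧
      ∃ L : E4 ≃L[ℝ] E4, HasFDerivAt ((par i).trans (cht (X.pt q))) (L : E4 →L[ℝ] E4) z := by
  obtain ⟨h1, h2⟩ := trans_en_pt i q hz
  have hcd : ContDiffAt ℝ ∞ (fun y => chartAt E4 q.1.1 (K.phi i y)) z :=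
    Dm_61.contDiffAt_chart (phi_at h1) h2
  have hcd' : ContDiffAt ℝ ∞ ((par i).trans (cht (X.pt q))) z :=
    hcd.congr_of_eventuallyEq (trans_en_pt_ev i q h1)
  refine ⟨hcd', ?_⟩
  have hder := (hcd'.differentiableAt (by simp)).hasFDerivAt
  set f' := fderiv ℝ ((par i).trans (cht (X.pt q))) z with hf'
  have hinj : Function.Injective f' := by
    rw [injective_iff_map_eq_zero]
    intro v hv
    have h3 : fderiv ℝ (fun y => chartAt E4 q.1.1 (K.phi i y)) z v = 0 := by
      have h4 := (trans_en_pt_ev i q h1).fderiv_eq (𝕜 := ℝ)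
      rw [← h4]
      exact hv
    exact K.imm i z h1 v ((Dm_61.dmap_eq_zero_iff (phi_at h1) h2 v).2 h3)
  refine ⟨(LinearEquiv.ofInjectiveEndo (f' : E4 →ₗ[ℝ] E4) hinj).toContinuousLinearEquiv, ?_⟩
  have hL : (((LinearEquiv.ofInjectiveEndo (f' : E4 →ₗ[ℝ] E4)
      hinj).toContinuousLinearEquiv : E4 ≃L[ℝ] E4) : E4 →L[ℝ] E4) = f' := by
    ext v
    rfl
  rw [hL]
  exact hder

lemma trans_smooth (x y : X K) :
    ContDiffOn ℝ ∞ ((cht x).symm.trans (cht y)) ((cht x).symm.trans (cht y)).source := by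
  cases x with
  | pt p =>
    cases y with
    | pt q =>
      intro z hz
      rw [OpenPartialHomeomorph.trans_source] at hz
      obtain ⟨hz1, hz2⟩ := hz
      have hz1' : z ∈ (cht (X.pt p)).target := hz1
      have hz2' : (cht (X.pt p)).symm z ∈ (cht (X.pt q)).source := hz2
      rw [mem_pt_target] at hz1'
      rw [mem_pt_source, cht_pt_symm, (sh p).pr_inv hz1'.2] at hz2'
      have h1 : ContDiffAt ℝ ∞ (Ch.trans (E := E4) p.1.1 q.1.1) z :=
        trans_contDiffAt hz1'.1 hz2'.2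
      refine (h1.congr_of_eventuallyEq ?_).contDiffWithinAt
      filter_upwards [(cht (X.pt p)).open_target.mem_nhds hz1] with w hw
      rw [mem_pt_target] at hw
      show chartAt E4 q.1.1 (pr K ((sh p).inv ((chartAt E4 p.1.1).symm w))) = _
      rw [(sh p).pr_inv hw.2]
      rfl
    | en i =>
      intro z hz
      have he : (cht (X.pt p)).symm.trans (cht (X.en i)) = ((par i).trans (cht (X.pt p))).symm := by
        rw [OpenPartialHomeomorph.trans_symm_eq_symm_trans_symm]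
        rfl
      rw [he] at hz ⊢
      set T := (par i).trans (cht (X.pt p)) with hT
      have hz1 : z ∈ T.target := hz
      have hz2 : T.symm z ∈ T.source := T.map_target hz1
      obtain ⟨h1, L, hL⟩ := trans_cd i p hz2
      exact (T.contDiffAt_symm hz1 hL h1).contDiffWithinAt
  | en i =>
    cases y with
    | pt q =>
      intro z hz
      exact (trans_cd i q hz).1.contDiffWithinAt
    | en j =>
      intro z hz
      rw [OpenPartialHomeomorph.trans_source] at hz
      obtain ⟨hz1, hz2⟩ := hz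
      have hz1' : z ∈ Metric.ball (0 : E4) 1 := hz1
      have hz2' : ch K i z ∈ ch K j '' Metric.ball 0 1 := hz2
      obtain ⟨w, hw, hwz⟩ := hz2'
      have hij : i = j := by
        by_contra hne
        exact ch_sep (Ne.symm hne) hw hz1' hwz
      subst hij
      refine (contDiffAt_id.congr_of_eventuallyEq ?_).contDiffWithinAt
      filter_upwards [Metric.isOpen_ball.mem_nhds hz1'] with w' hw'
      exact cht_en_apply hw'

instance manX : IsManifold 𝓘(ℝ, E4) ∞ (X K) := by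
  refine isManifold_of_contDiffOn _ _ _ ?_
  rintro _ _ ⟨x, rfl⟩ ⟨y, rfl⟩
  have h := trans_smooth x y
  simpa using h

/-! ### smoothness of the maps -/

lemma ch_smooth (i : Fin m) : ContMDiffOn 𝓘(ℝ, E4) 𝓘(ℝ, E4) ∞ (ch K i) (Metric.ball 0 1) :=
  contMDiffOn_chart_symm (I := 𝓘(ℝ, E4)) (x := (X.en i : X K))

lemma chartAt_eq (x : X K) : chartAt E4 x = cht x := rfl

lemma ch_imm (i : Fin m) {z : E4} (hz : z ∈ Metric.ball (0 : E4) 1) (v : E4)
    (hv : dmap (ch K i) z v = 0) : v = 0 := by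
  rcases ball_PB hz with rfl | hz1
  · have h1 : (fun w : E4 => chartAt E4 (ch K i 0) (ch K i w)) =ᶠ[𝓝 0] id := by
      filter_upwards [Metric.isOpen_ball.mem_nhds hz] with w hw
      rw [chartAt_eq, ch_zero]
      exact cht_en_apply hw
    unfold dmap at hv
    rw [h1.fderiv_eq, fderiv_id] at hv
    exact hv
  · refine K.imm i z hz1 v ?_
    have h1 : (fun w : E4 => chartAt E4 (ch K i z) (ch K i w)) =ᶠ[𝓝 z]
        fun w => chartAt E4 (K.phi i z) (K.phi i w) := by
      filter_upwards [(isOpen_PB 1).mem_nhds hz1] with w hw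
      rw [chartAt_eq, ch_pt hz1, cht_pt_apply, pr_ch hw]
    unfold dmap at hv ⊢
    rwa [h1.fderiv_eq] at hv

lemma pr_ev (p : Vd K) : (fun y : E4 => chartAt E4 p.1.1 (pr K ((cht (X.pt p)).symm y)))
    =ᶠ[𝓝 (cht (X.pt p) (X.pt p))] id := by
  filter_upwards [(cht (X.pt p)).open_target.mem_nhds
    ((cht (X.pt p)).map_source (mem_cht _))] with y hy
  rw [mem_pt_target] at hy
  rw [cht_pt_symm, (sh p).pr_inv hy.2]
  exact (chartAt E4 p.1.1).right_inv hy.1

lemma pr_smooth_at (p : Vd K) : ContMDiffAt 𝓘(ℝ, E4) 𝓘(ℝ, E4) ∞ (pr K) (X.pt p) := by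
  rw [contMDiffAt_iff]
  refine ⟨continuousAt_pr_pt p, ?_⟩
  have h : ContDiffAt ℝ ∞ (fun y : E4 => chartAt E4 p.1.1 (pr K ((cht (X.pt p)).symm y)))
      (cht (X.pt p) (X.pt p)) := contDiffAt_id.congr_of_eventuallyEq (pr_ev p)
  have h2 := h.contDiffWithinAt (s := univ)
  simpa [Function.comp_def, chartAt_eq] using h2

lemma pr_imm (p : Vd K) (v : E4) (hv : dX (E := E4) (F := E4) (pr K) (X.pt p) v = 0) : v = 0 := by
  unfold dX at hv
  have h := (pr_ev p).fderiv_eq (𝕜 := ℝ)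
  rw [fderiv_id] at h
  have h2 : fderiv ℝ (fun y : E4 => chartAt E4 (pr K (X.pt p))
      (pr K ((chartAt E4 (X.pt p : X K)).symm y))) (chartAt E4 (X.pt p : X K) (X.pt p)) =
      ContinuousLinearMap.id ℝ E4 := h
  rw [h2] at hv
  exact hv

lemma io_smooth_at (x : X K) : ContMDiffAt 𝓘(ℝ, E4) 𝓘(ℝ, E4) ∞ (io K) x := by
  rw [contMDiffAt_iff]
  refine ⟨continuous_io.continuousAt, ?_⟩
  cases x with
  | pt p =>
    have h : ContDiffAt ℝ ∞ (fun y : E4 => cht (io K (X.pt p)) (io K ((cht (X.pt p)).symm y)))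
        (cht (X.pt p) (X.pt p)) := by
      refine contDiffAt_id.congr_of_eventuallyEq ?_
      filter_upwards [pr_ev p] with y hy
      rw [io_pt, cht_pt_apply, pr_io]
      exact hy
    have h2 := h.contDiffWithinAt (s := univ)
    simpa [Function.comp_def, chartAt_eq] using h2
  | en i =>
    have h : ContDiffAt ℝ ∞ (fun y : E4 => cht (io K (X.en i)) (io K ((cht (X.en i)).symm y)))
        (cht (X.en i : X K) (X.en i)) := by
      refine (contDiff_neg (𝕜 := ℝ) (F := E4) (n := ∞)).contDiffAt.congr_of_eventuallyEq ?_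
      have h0 : cht (X.en i : X K) (X.en i) ∈ Metric.ball (0 : E4) 1 :=
        (cht (X.en i : X K)).map_source (mem_cht _)
      filter_upwards [Metric.isOpen_ball.mem_nhds h0] with y hy
      rw [io_en, cht_en_symm, io_ch]
      exact cht_en_apply (by simpa using hy)
    have h2 := h.contDiffWithinAt (s := univ)
    simpa [Function.comp_def, chartAt_eq] using h2

lemma reg_iff {x : X K} : (∀ i, x ≠ ch K i 0) ↔ ∀ i, x ≠ X.en i := by
  simp only [ch_zero]

/-- the output structure. -/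
def kout (K : KIn M m) : KOut K (X K) where
  pr := pr K
  io := io K
  ch := ch K
  lf := lf K
  ch_smooth := ch_smooth
  ch_imm := fun i z hz v hv => ch_imm i hz v hv
  ch_inj := ch_injOn
  ch_sep := fun i j hij z hz z' hz' => ch_sep hij hz hz'
  ch_open := fun i r _ hr1 => isOpen_ch_image i Metric.isOpen_ball (Metric.ball_subset_ball hr1)
  ch_nhds := by
    intro i O hO hi
    rw [ch_zero] at hi
    obtain ⟨r, hr, hr1, h⟩ := (isOpen_X.1 hO).2 i hi
    refine ⟨r, hr, hr1, ?_⟩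
    rintro _ ⟨z, hz, rfl⟩
    rcases ball_PB hz with h' | h'
    · rw [h', ch_zero]; exact hi
    · exact h z h'
  io_smooth := io_smooth_at
  io_io := io_io
  io_ch := fun i z _ => io_ch i z
  io_ne := by
    intro x hx h
    obtain ⟨p, rfl⟩ := exists_pt (reg_iff.1 hx)
    have h1 := congrArg (lf K) h
    rw [lf_io, lf_pt] at h1
    have h0 : p.1.2 ≠ 0 := (tw_eq p.2).1
    have h5 : (2 : ℂ) • p.1.2 = 0 := by
      rw [two_smul]
      nth_rewrite 1 [← h1]
      simp
    exact h0 ((smul_eq_zero.1 h5).resolve_left two_ne_zero)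
  pr_smooth := by
    intro x hx
    obtain ⟨p, rfl⟩ := exists_pt (reg_iff.1 hx)
    exact (pr_smooth_at p).contMDiffWithinAt
  pr_imm := by
    intro x hx v hv
    obtain ⟨p, rfl⟩ := exists_pt (reg_iff.1 hx)
    exact pr_imm p v hv
  pr_out := by
    intro x hx i
    obtain ⟨p, rfl⟩ := exists_pt (reg_iff.1 hx)
    exact p.2.1 i
  pr_surj := by
    intro y hy
    obtain ⟨U, hU, v, _, hv⟩ := K.tw_loc y hy
    have hyv : (y, v y) ∈ Vd K := by
      refine ⟨hy, ?_⟩
      rw [(hv y (mem_of_mem_nhds hU)).2]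
      exact Or.inl rfl
    exact ⟨X.pt ⟨(y, v y), hyv⟩, reg_iff.2 (fun i h => by cases h), rfl⟩
  pr_io := fun x _ => pr_io x
  pr_inj := by
    intro x x' hx hx' h
    obtain ⟨p, rfl⟩ := exists_pt (reg_iff.1 hx)
    obtain ⟨q, rfl⟩ := exists_pt (reg_iff.1 hx')
    have h' : p.1.1 = q.1.1 := h
    have h1 := q.2.2
    rw [← h', (tw_eq p.2).2] at h1
    rcases h1 with h1 | h1
    · left
      exact ext_pt (reg_iff.1 hx') (reg_iff.1 hx) h.symm h1
    · right
      rw [mem_singleton_iff] at h1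
      refine ext_pt (reg_iff.1 hx') (fun j h => by cases h) ?_ ?_
      · rw [pr_io]; exact h.symm
      · rw [lf_io]; exact h1
  pr_ch := fun i z hz => pr_ch hz
  lf_cont := fun x hx => (continuousAt_lf (reg_iff.1 hx)).continuousWithinAt
  lf_mem := fun x hx => (reg_mem (reg_iff.1 hx)).2
  lf_io := fun x _ => lf_io x
  lf_ch := fun i z hz => lf_ch hz

/-- **K3**: the manifold exists. -/
theorem kt : KT.{u} := by
  intro M _ _ _ _ _ _ m hm K
  exact ⟨X K, inferInstance, t2X, compactX, connX hm, inferInstance, manX, ⟨kout K⟩⟩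

end

end Crest.Agent.R235.KTA_172
end

-- ▼ part R235/SphPatch_61

/-!
Row 235 (S0364), package ADJ, leaf X1 (helper61), part 5: an embedded `J`-sphere (`JSph`) has a
local form with its current at every point.
-/

set_option autoImplicit false
set_option maxSynthPendingDepth 3
set_option linter.unusedSectionVars false

open Set Function Filter MeasureTheory Metric
open scoped Manifold ContDiff Topology

universe u

namespace Crest.Agent.R235.SphPatch_61

open Crest.Agent.R240 Crest.Agent.R240.Ch Crest.Agent.R235.Glob_370 Crest.Agent.R235.Dm_61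
open Crest.Agent.R235.AdjET_61 Crest.Agent.R235.NWDefs_334 Crest.Agent.R235.NWIface_334
open Crest.Agent.R235.EmbLoc_61
open Crest.Agent.R235.AdjE_83 (zE zE_one zE_smul hasFDerivAt_zE contDiffAt_zE alt_cross kappa inner_E3)
open Crest.Agent.R235.Stereo_83 (zN stereo norm_sq_E3)

noncomputable section

/-! ### immersed Lagrangian planes -/

section Plane

variable {M : Type u} [TopologicalSpace M] [ChartedSpace E4 M] [IsManifold 𝓘(ℝ, E4) ∞ M]

/-- an immersed plane on which `w 1` and `w 2` vanish. -/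
structure LPl (w : Trip M) (s : ℂ → M) : Prop where
  sm : ∀ z, ContMDiffAt 𝓘(ℝ, ℂ) 𝓘(ℝ, E4) ∞ s z
  im : ∀ z v, dmap s z v = 0 → v = 0
  l1 : ∀ z, val (w 1) (s z) (dmap s z 1) (dmap s z Complex.I) = 0
  l2 : ∀ z, val (w 2) (s z) (dmap s z 1) (dmap s z Complex.I) = 0

variable {w : Trip M} {J : EndF E4 M} {s : ℂ → M}

/-- the frame `X, Y = α X + β J X`. -/
theorem LPl.frame (h : LPl w s) (hw : Pos3 w) (hJ : IsJ w J) (z : ℂ) :
    ∃ α β : ℝ, β ≠ 0 ∧ dmap s z Complex.I =
      α • dmap s z 1 + β • atJ J (s z) (dmap s z 1) := by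
  have hX : dmap s z 1 ≠ 0 := fun h0 => one_ne_zero (h.im z 1 h0)
  obtain ⟨α, β, hab⟩ := Lag_61.lag_trip hw hJ (s z) hX (h.l1 z) (h.l2 z)
  refine ⟨α, β, ?_, hab⟩
  intro hβ
  rw [hβ, zero_smul, add_zero] at hab
  have h3 : dmap s z (Complex.I - (α : ℂ)) = 0 := by
    have e1 : Complex.I - (α : ℂ) = Complex.I + (-α) • (1 : ℂ) := by
      rw [Complex.real_smul]; push_cast; ring
    rw [e1, dmap_add, dmap_smul, hab, neg_smul, add_neg_cancel]
  have h4 := h.im _ _ h3
  have := congrArg Complex.im h4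
  simp at this

theorem LPl.jinv (h : LPl w s) (hw : Pos3 w) (hJ : IsJ w J) (z v : ℂ) :
    ∃ v', dmap s z v' = atJ J (s z) (dmap s z v) := by
  obtain ⟨α, β, hβ, hab⟩ := h.frame hw hJ z
  set X := dmap s z 1 with hX
  have hJX : atJ J (s z) X = dmap s z ((β⁻¹ : ℝ) • (Complex.I + (-α) • (1 : ℂ))) := by
    rw [dmap_smul, dmap_add, dmap_smul, hab, ← hX]
    have : α • X + β • atJ J (s z) X + -α • X = β • atJ J (s z) X := by module
    rw [this, smul_smul, inv_mul_cancel₀ hβ, one_smul]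
  have hJY : atJ J (s z) (dmap s z Complex.I) =
      dmap s z (α • ((β⁻¹ : ℝ) • (Complex.I + (-α) • (1 : ℂ))) + (-β) • (1 : ℂ)) := by
    rw [hab, map_add, map_smul, map_smul, hJ.sq, dmap_add, dmap_smul s z α, ← hJX,
      dmap_smul s z (-β), ← hX]
    module
  refine ⟨v.re • ((β⁻¹ : ℝ) • (Complex.I + (-α) • (1 : ℂ))) +
    v.im • (α • ((β⁻¹ : ℝ) • (Complex.I + (-α) • (1 : ℂ))) + (-β) • (1 : ℂ)), ?_⟩
  rw [dmap_add, dmap_smul, dmap_smul _ _ v.im, ← hJX, ← hJY, ← map_smul, ← map_smul, ← map_add,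
    hX, ← dmap_smul, ← dmap_smul, ← dmap_add]
  congr 2
  apply Complex.ext <;> simp

theorem LPl.cont (h : LPl w s) {b : F2 E4 M} (hb : Smooth2 b) : Continuous (pb s b) := by
  rw [← continuousOn_univ]
  exact (contDiffOn_pb isOpen_univ (fun z _ => (h.sm z).contMDiffWithinAt) hb).continuousOn

/-- the density of the taming form never vanishes. -/
theorem LPl.ne (h : LPl w s) (hw : Pos3 w) (hJ : IsJ w J) (z : ℂ) :
    pb s ((w 0).1.1 : F2 E4 M) z ≠ 0 := by
  obtain ⟨α, β, hβ, hab⟩ := h.frame hw hJ z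
  have hX : dmap s z 1 ≠ 0 := fun h0 => one_ne_zero (h.im z 1 h0)
  have ht := hJ.tame (s z) _ hX
  have : pb s ((w 0).1.1 : F2 E4 M) z =
      β * val (w 0) (s z) (dmap s z 1) (atJ J (s z) (dmap s z 1)) := by
    unfold pb
    rw [hab, map_add, map_smul, map_smul]
    have h0 : at2 ((w 0).1.1 : F2 E4 M) (s z) (dmap s z 1) (dmap s z 1) = 0 :=
      (w 0).1.2.1 _ _
    rw [h0, smul_zero, zero_add]
    rfl
  rw [this]
  exact mul_ne_zero hβ ht.ne'

/-- orientation. -/
theorem LPl.pos (h : LPl w s) (hw : Pos3 w) (hJ : IsJ w J) (D : Set ℂ)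
    (hp : 0 < ∫ z in D, pb s ((w 0).1.1 : F2 E4 M) z) (z : ℂ) :
    0 < pb s ((w 0).1.1 : F2 E4 M) z := by
  have hc := h.cont (w 0).1.2
  by_contra hneg
  have hneg' : pb s ((w 0).1.1 : F2 E4 M) z < 0 := lt_of_le_of_ne (not_lt.1 hneg) (h.ne hw hJ z)
  have hall : ∀ z', pb s ((w 0).1.1 : F2 E4 M) z' < 0 := by
    intro z'
    by_contra h1
    have h2 : 0 ≤ pb s ((w 0).1.1 : F2 E4 M) z' := not_lt.1 h1
    have hmem : (0 : ℝ) ∈ Set.range (pb s ((w 0).1.1 : F2 E4 M)) := by
      have := isPreconnected_univ.intermediate_value (mem_univ z) (mem_univ z') hc.continuousOn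
      have h3 := this ⟨hneg'.le, h2⟩
      rwa [image_univ] at h3
    obtain ⟨z'', hz''⟩ := hmem
    exact h.ne hw hJ z'' hz''
  have hle : ∫ z in D, pb s ((w 0).1.1 : F2 E4 M) z ≤ 0 :=
    integral_nonpos fun z => (hall z).le
  exact absurd hp (not_lt.2 hle)

end Plane

/-! ### the inverse stereographic maps -/

/-- the (unnormalised) inverse stereographic map. -/
def Pe (ε : ℝ) (z : ℂ) : E3 := !₂[2 * z.re, ε * (2 * z.im), ε * (1 - (z.re ^ 2 + z.im ^ 2))]

theorem Pe_0 (ε : ℝ) (z : ℂ) : Pe ε z 0 = 2 * z.re := rfl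
theorem Pe_1 (ε : ℝ) (z : ℂ) : Pe ε z 1 = ε * (2 * z.im) := rfl
theorem Pe_2 (ε : ℝ) (z : ℂ) : Pe ε z 2 = ε * (1 - (z.re ^ 2 + z.im ^ 2)) := rfl

theorem norm_Pe {ε : ℝ} (hε : ε ^ 2 = 1) (z : ℂ) : ‖Pe ε z‖ = 1 + (z.re ^ 2 + z.im ^ 2) := by
  have h1 : ‖Pe ε z‖ ^ 2 = (1 + (z.re ^ 2 + z.im ^ 2)) ^ 2 := by
    rw [norm_sq_E3, Pe_0, Pe_1, Pe_2]
    linear_combination (4 * z.im ^ 2 + (1 - (z.re ^ 2 + z.im ^ 2)) ^ 2) * hε
  exact (pow_left_inj₀ (norm_nonneg _) (by positivity) two_ne_zero).1 h1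

theorem Pe_ne {ε : ℝ} (hε : ε ^ 2 = 1) (z : ℂ) : Pe ε z ≠ 0 := by
  rw [← norm_pos_iff, norm_Pe hε]; positivity

theorem Pe_den {ε : ℝ} (hε : ε ^ 2 = 1) (z : ℂ) : ‖Pe ε z‖ + ε * Pe ε z 2 = 2 := by
  rw [norm_Pe hε, Pe_2]; linear_combination (1 - (z.re ^ 2 + z.im ^ 2)) * hε

theorem zE_Pe {ε : ℝ} (hε : ε ^ 2 = 1) (z : ℂ) : zE ε (Pe ε z) = z := by
  unfold zE
  rw [Pe_den hε, Pe_0, Pe_1]
  apply Complex.ext
  · show 2 * z.re / 2 = z.re; ring
  · show ε * (ε * (2 * z.im)) / 2 = z.im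
    linear_combination z.im * hε

theorem Pe_zE {ε : ℝ} (hε : ε ^ 2 = 1) {y : E3} (hs : 0 < ‖y‖ + ε * y 2) :
    Pe ε (zE ε y) = (2 / (‖y‖ + ε * y 2)) • y := by
  have hn := norm_sq_E3 y
  set s := ‖y‖ + ε * y 2 with hsd
  have h0 : (zE ε y).re = y 0 / s := rfl
  have h1 : (zE ε y).im = ε * y 1 / s := rfl
  ext i
  fin_cases i
  · show 2 * (zE ε y).re = 2 / s * y 0
    rw [h0]; ring
  · show ε * (2 * (zE ε y).im) = 2 / s * y 1
    rw [h1]; field_simp; linear_combination (y 1) * hε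
  · show ε * (1 - ((zE ε y).re ^ 2 + (zE ε y).im ^ 2)) = 2 / s * y 2
    rw [h0, h1]
    have h3 : ‖y‖ = s - ε * y 2 := by rw [hsd]; ring
    rw [h3] at hn
    field_simp
    linear_combination ε * hn + (2 * s * y 2 - ε * y 1 ^ 2 - ε * y 2 ^ 2) * hε

theorem Pe_smooth (ε : ℝ) : ContDiff ℝ ∞ (Pe ε) := by
  rw [contDiff_euclidean]
  intro i
  have hre : ContDiff ℝ ∞ (fun z : ℂ => z.re) := Complex.reCLM.contDiff
  have him : ContDiff ℝ ∞ (fun z : ℂ => z.im) := Complex.imCLM.contDiff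
  fin_cases i
  · exact contDiff_const.mul hre
  · exact contDiff_const.mul (contDiff_const.mul him)
  · exact contDiff_const.mul (contDiff_const.sub ((hre.pow 2).add (him.pow 2)))

/-! ### the sphere in the two charts -/

section Sph

variable {M : Type u} [TopologicalSpace M] [ChartedSpace E4 M] [IsManifold 𝓘(ℝ, E4) ∞ M]
variable {σ : E3 → M}

/-- the sphere in a stereographic chart. -/
def ss (σ : E3 → M) (ε : ℝ) (z : ℂ) : M := σ (Pe ε z)

theorem σ_at (h : EmbS σ) {y : E3} (hy : y ≠ 0) : ContMDiffAt 𝓘(ℝ, E3) 𝓘(ℝ, E4) ∞ σ y :=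
  h.smooth.contMDiffAt (isOpen_compl_singleton.mem_nhds hy)

theorem ss_smooth (h : EmbS σ) {ε : ℝ} (hε : ε ^ 2 = 1) (z : ℂ) :
    ContMDiffAt 𝓘(ℝ, ℂ) 𝓘(ℝ, E4) ∞ (ss σ ε) z :=
  ContMDiffAt.comp (g := σ) (f := Pe ε) z (σ_at h (Pe_ne hε z)) (Pe_smooth ε).contDiffAt.contMDiffAt

theorem ss_zE (h : EmbS σ) {ε : ℝ} (hε : ε ^ 2 = 1) {y : E3} (hs : 0 < ‖y‖ + ε * y 2) :
    ss σ ε (zE ε y) = σ y := by
  unfold ss
  have hy : y ≠ 0 := by
    rintro rfl
    simp at hs
  rw [Pe_zE hε hs, h.hom _ _ (by positivity) hy]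

/-- the injectivity of the sphere on directions. -/
theorem dir_inj (h : EmbS σ) {y y' : E3} (hy : y ≠ 0) (hy' : y' ≠ 0) (e : σ y = σ y') :
    ‖y'‖ • y = ‖y‖ • y' := by
  have n1 : 0 < ‖y‖ := norm_pos_iff.2 hy
  have n2 : 0 < ‖y'‖ := norm_pos_iff.2 hy'
  have h1 : σ (‖y‖⁻¹ • y) = σ (‖y'‖⁻¹ • y') := by
    rw [h.hom _ _ (inv_pos.2 n1) hy, h.hom _ _ (inv_pos.2 n2) hy', e]
  have h2 := h.inj _ _ (by rw [norm_smul, norm_inv, norm_norm, inv_mul_cancel₀ n1.ne'])
    (by rw [norm_smul, norm_inv, norm_norm, inv_mul_cancel₀ n2.ne']) h1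
  have h3 := congrArg (fun v : E3 => (‖y‖ * ‖y'‖) • v) h2
  simp only [smul_smul] at h3
  have e1 : ‖y‖ * ‖y'‖ * ‖y‖⁻¹ = ‖y'‖ := by field_simp
  have e2 : ‖y‖ * ‖y'‖ * ‖y'‖⁻¹ = ‖y‖ := by field_simp
  rwa [e1, e2] at h3

theorem ss_inj (h : EmbS σ) {ε : ℝ} (hε : ε ^ 2 = 1) : Injective (ss σ ε) := by
  intro z z' hzz
  have h1 := dir_inj h (Pe_ne hε z) (Pe_ne hε z') hzz
  have n1 : 0 < ‖Pe ε z‖ := norm_pos_iff.2 (Pe_ne hε z)
  have n2 : 0 < ‖Pe ε z'‖ := norm_pos_iff.2 (Pe_ne hε z')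
  have h2 := congrArg (zE ε) h1
  rwa [zE_smul ε n2, zE_smul ε n1, zE_Pe hε, zE_Pe hε] at h2

/-- the differential at a vector of any length. -/
theorem dmap_hom (h : EmbS σ) {y : E3} (hy : y ≠ 0) {t : ℝ} (ht : 0 < t) (v : E3) :
    dmap σ (t • y) (t • v) = dmap σ y v := by
  have hty : t • y ≠ 0 := smul_ne_zero ht.ne' hy
  have hd : HasFDerivAt (fun x : E3 => t • x) (t • ContinuousLinearMap.id ℝ E3) y :=
    (hasFDerivAt_id y).const_smul t
  have h1 := dmap_comp' (σ := σ) (τ := fun x : E3 => t • x) (σ_at h hty) hd v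
  have hev : (fun x : E3 => σ (t • x)) =ᶠ[𝓝 y] σ := by
    filter_upwards [isOpen_compl_singleton.mem_nhds hy] with x hx
    exact h.hom t x ht hx
  rw [dmap_congr hev] at h1
  rw [h1]
  rfl

/-- the derivative of the inverse stereographic map. -/
theorem fderiv_Pe (ε : ℝ) (z v : ℂ) : fderiv ℝ (Pe ε) z v =
    !₂[2 * v.re, ε * (2 * v.im), - ε * (2 * (z.re * v.re + z.im * v.im))] := by
  have hre : HasFDerivAt (fun z : ℂ => z.re) Complex.reCLM z := Complex.reCLM.hasFDerivAt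
  have him : HasFDerivAt (fun z : ℂ => z.im) Complex.imCLM z := Complex.imCLM.hasFDerivAt
  have hd : DifferentiableAt ℝ (Pe ε) z := ((Pe_smooth ε).contDiffAt (x := z)).differentiableAt
    (by simp)
  have key : ∀ i, (fderiv ℝ (Pe ε) z v) i = fderiv ℝ (fun z => Pe ε z i) z v := by
    intro i
    have h1 : HasFDerivAt (fun z => Pe ε z i)
        ((EuclideanSpace.proj i : E3 →L[ℝ] ℝ).comp (fderiv ℝ (Pe ε) z)) z :=
      (EuclideanSpace.proj i : E3 →L[ℝ] ℝ).hasFDerivAt.comp z hd.hasFDerivAt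
    rw [h1.fderiv]
    rfl
  ext i
  rw [key]
  fin_cases i
  · have h1 : HasFDerivAt (fun z => Pe ε z 0) _ z := hre.const_mul 2
    show fderiv ℝ (fun z => Pe ε z 0) z v = 2 * v.re
    rw [h1.fderiv]
    simp
  · have h1 : HasFDerivAt (fun z => Pe ε z 1) _ z := (him.const_mul 2).const_mul ε
    show fderiv ℝ (fun z => Pe ε z 1) z v = ε * (2 * v.im)
    rw [h1.fderiv]
    simp
  · have h1 : HasFDerivAt (fun z => Pe ε z 2) _ z :=
      (((hre.pow 2).add (him.pow 2)).const_sub 1).const_mul ε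
    show fderiv ℝ (fun z => Pe ε z 2) z v = - ε * (2 * (z.re * v.re + z.im * v.im))
    rw [h1.fderiv]
    simp
    ring

theorem dmap_ss (h : EmbS σ) {ε : ℝ} (hε : ε ^ 2 = 1) (z v : ℂ) :
    dmap (ss σ ε) z v = dmap σ (Pe ε z) (fderiv ℝ (Pe ε) z v) :=
  dmap_comp' (σ := σ) (τ := Pe ε) (σ_at h (Pe_ne hε z))
    (((Pe_smooth ε).contDiffAt (x := z)).differentiableAt (by simp)).hasFDerivAt v

/-- reduction to the unit sphere. -/
theorem dmap_ss' (h : EmbS σ) {ε : ℝ} (hε : ε ^ 2 = 1) (z v : ℂ) :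
    dmap (ss σ ε) z v = dmap σ (‖Pe ε z‖⁻¹ • Pe ε z) (‖Pe ε z‖⁻¹ • fderiv ℝ (Pe ε) z v) := by
  rw [dmap_ss h hε, dmap_hom h (Pe_ne hε z) (inv_pos.2 (norm_pos_iff.2 (Pe_ne hε z)))]

theorem unit_Pe {ε : ℝ} (hε : ε ^ 2 = 1) (z : ℂ) : ‖‖Pe ε z‖⁻¹ • Pe ε z‖ = 1 := by
  rw [norm_smul, norm_inv, norm_norm, inv_mul_cancel₀ (norm_ne_zero_iff.2 (Pe_ne hε z))]

theorem ss_unit (h : EmbS σ) {ε : ℝ} (hε : ε ^ 2 = 1) (z : ℂ) :
    ss σ ε z = σ (‖Pe ε z‖⁻¹ • Pe ε z) :=
  (h.hom _ _ (inv_pos.2 (norm_pos_iff.2 (Pe_ne hε z))) (Pe_ne hε z)).symm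

theorem imm_ss (h : EmbS σ) {ε : ℝ} (hε : ε ^ 2 = 1) (z v : ℂ) (hv : dmap (ss σ ε) z v = 0) :
    v = 0 := by
  rw [dmap_ss' h hε] at hv
  obtain ⟨t, ht⟩ := h.imm _ _ (unit_Pe hε z) hv
  have n1 : ‖Pe ε z‖ ≠ 0 := norm_ne_zero_iff.2 (Pe_ne hε z)
  have h1 : fderiv ℝ (Pe ε) z v = t • Pe ε z := by
    have h2 := congrArg (fun x : E3 => ‖Pe ε z‖ • x) ht
    simp only [smul_smul] at h2
    rw [mul_inv_cancel₀ n1, one_smul] at h2
    rw [h2]
    congr 1
    field_simp
  rw [fderiv_Pe] at h1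
  have e0 := congrFun (congrArg WithLp.ofLp h1) 0
  have e1 := congrFun (congrArg WithLp.ofLp h1) 1
  have e2 := congrFun (congrArg WithLp.ofLp h1) 2
  have f0 : 2 * v.re = t * (2 * z.re) := e0
  have f1 : ε * (2 * v.im) = t * (ε * (2 * z.im)) := e1
  have f2 : - ε * (2 * (z.re * v.re + z.im * v.im)) =
    t * (ε * (1 - (z.re ^ 2 + z.im ^ 2))) := e2
  have g0 : v.re = t * z.re := by linarith
  have g1 : v.im = t * z.im := by
    have : ε * (v.im - t * z.im) = 0 := by linarith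
    have hε0 : ε ≠ 0 := by rintro rfl; norm_num at hε
    have := (mul_eq_zero.1 this).resolve_left hε0
    linarith
  have g2 : t * (1 + (z.re ^ 2 + z.im ^ 2)) = 0 := by
    rw [g0, g1] at f2
    linear_combination (-ε) * f2 + (-t * (1 + (z.re ^ 2 + z.im ^ 2))) * hε
  have ht0 : t = 0 := (mul_eq_zero.1 g2).resolve_right (by positivity)
  rw [ht0] at g0 g1
  apply Complex.ext
  · rw [g0]; simp
  · rw [g1]; simp

/-- the sphere integral in the first chart. -/
theorem sphI_one (h : EmbS σ) {b : F2 E4 M} (hb : ∀ x v, at2 b x v v = 0) :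
    sphI σ b = ∫ z, pb (ss σ 1) b z := by
  unfold sphI
  refine stereo (fun y : E3 => y 2 * at2 b (σ y) (dmap σ y (EuclideanSpace.single 0 1))
        (dmap σ y (EuclideanSpace.single 1 1)) +
      y 0 * at2 b (σ y) (dmap σ y (EuclideanSpace.single 1 1))
        (dmap σ y (EuclideanSpace.single 2 1)) +
      y 1 * at2 b (σ y) (dmap σ y (EuclideanSpace.single 2 1))
        (dmap σ y (EuclideanSpace.single 0 1))) (pb (ss σ 1) b) ?_
  intro y hy hs
  have h11 : (1 : ℝ) ^ 2 = 1 := by norm_num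
  have hs1 : 0 < ‖y‖ + 1 * y 2 := by rw [hy, one_mul]; exact hs
  have hs' : 1 + 1 * y 2 ≠ 0 := by rw [one_mul]; exact hs.ne'
  obtain ⟨L, hL, hLv⟩ := hasFDerivAt_zE 1 hy hs'
  have hc2 : Continuous fun x : E3 => x 2 := (EuclideanSpace.proj 2 : E3 →L[ℝ] ℝ).continuous
  have ho : IsOpen {x : E3 | 0 < ‖x‖ + 1 * x 2} :=
    isOpen_lt continuous_const (continuous_norm.add (continuous_const.mul hc2))
  have hev : σ =ᶠ[𝓝 y] fun x => ss σ 1 (zE 1 x) := by
    filter_upwards [ho.mem_nhds hs1] with x hx using (ss_zE h h11 hx).symm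
  have hd : ∀ v, dmap σ y v = dmap (ss σ 1) (zE 1 y) (L v) := fun v => by
    rw [dmap_congr hev, dmap_comp' (σ := ss σ 1) (τ := zE 1) (ss_smooth h h11 _) hL]
  have hcr := alt_cross (hb (ss σ 1 (zE 1 y))) (dmap (ss σ 1) (zE 1 y)) (dmap_add _ _)
    (dmap_smul _ _)
  have hpb : at2 b (ss σ 1 (zE 1 y)) (dmap (ss σ 1) (zE 1 y) 1)
      (dmap (ss σ 1) (zE 1 y) Complex.I) = pb (ss σ 1) b (zE 1 y) := rfl
  have hk := kappa hy hs.ne' (Z := fun k => L (EuclideanSpace.single k 1)) (fun k => by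
    have hin : inner ℝ y (EuclideanSpace.single k 1 : E3) = y k := by
      rw [EuclideanSpace.inner_single_right]; simp
    simp only [hLv, hin, one_mul])
  simp only [hd, hev.eq_of_nhds]
  rw [hcr (L (EuclideanSpace.single 0 1)) (L (EuclideanSpace.single 1 1)),
    hcr (L (EuclideanSpace.single 1 1)) (L (EuclideanSpace.single 2 1)),
    hcr (L (EuclideanSpace.single 2 1)) (L (EuclideanSpace.single 0 1)), hpb, ← zE_one]
  simp only at hk
  rw [div_eq_mul_one_div, ← hk]
  ring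

/-- the transition of the two charts. -/
theorem ss_inv (h : EmbS σ) {z : ℂ} (hz : z ≠ 0) : ss σ (-1) z = ss σ 1 z⁻¹ := by
  unfold ss
  have hn : 0 < Complex.normSq z := Complex.normSq_pos.2 hz
  have e1 : Pe (-1) z = Complex.normSq z • Pe 1 z⁻¹ := by
    ext i
    fin_cases i
    · show 2 * z.re = Complex.normSq z * (2 * (z⁻¹).re)
      rw [Complex.inv_re]; field_simp
    · show -1 * (2 * z.im) = Complex.normSq z * (1 * (2 * (z⁻¹).im))
      rw [Complex.inv_im]; field_simp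
    · show -1 * (1 - (z.re ^ 2 + z.im ^ 2)) =
        Complex.normSq z * (1 * (1 - ((z⁻¹).re ^ 2 + (z⁻¹).im ^ 2)))
      rw [Complex.inv_re, Complex.inv_im]
      have h2 : z.re ^ 2 + z.im ^ 2 = Complex.normSq z := by
        rw [Complex.normSq_apply]; ring
      field_simp
      rw [h2]
      ring
  rw [e1, h.hom _ _ hn (Pe_ne (by norm_num) _)]

/-- the sphere integral in both charts. -/
theorem sphI_eps (h : EmbS σ) {ε : ℝ} (hε : ε = 1 ∨ ε = -1) {b : F2 E4 M} (hb : Smooth2 b) :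
    sphI σ b = ∫ z, pb (ss σ ε) b z := by
  rcases hε with rfl | rfl
  · exact sphI_one h hb.1
  · rw [sphI_one h hb.1]
    have h0 : ({0}ᶜ : Set ℂ) =ᵐ[volume] (univ : Set ℂ) := by
      rw [ae_eq_univ, compl_compl]
      exact measure_singleton 0
    rw [← setIntegral_univ, ← setIntegral_univ (f := fun z => pb (ss σ (-1)) b z),
      ← setIntegral_congr_set h0, ← setIntegral_congr_set h0]
    have hd : ∀ z ∈ ({0}ᶜ : Set ℂ), HasDerivAt (fun z : ℂ => z⁻¹) (-(z ^ 2)⁻¹) z := fun z hz =>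
      hasDerivAt_inv hz
    have himg : (fun z : ℂ => z⁻¹) '' ({0}ᶜ : Set ℂ) = {0}ᶜ := by
      ext z
      constructor
      · rintro ⟨w, hw, rfl⟩
        exact inv_ne_zero hw
      · intro hz
        exact ⟨z⁻¹, inv_ne_zero hz, inv_inv z⟩
    have h1 := integral_image_eq_integral_abs_det_fderiv_smul volume
      (measurableSet_singleton (0 : ℂ)).compl
      (fun z hz => (hasFDerivAt_lam (hd z hz)).hasFDerivWithinAt) (inv_injective.injOn)
      (fun z => pb (ss σ 1) b z)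
    rw [himg] at h1
    rw [h1]
    refine setIntegral_congr_fun (measurableSet_singleton (0 : ℂ)).compl fun z hz => ?_
    have hz' : z ≠ 0 := hz
    have hev : ss σ (-1) =ᶠ[𝓝 z] fun z => ss σ 1 z⁻¹ := by
      filter_upwards [isOpen_compl_singleton.mem_nhds hz'] with y hy using ss_inv h hy
    have h2 : pb (ss σ (-1)) b z = pb (fun z => ss σ 1 z⁻¹) b z := by
      unfold pb
      rw [dmap_congr hev, dmap_congr hev, hev.eq_of_nhds]
    have h3 := pb_comp (σ := ss σ 1) (τ := fun z : ℂ => z⁻¹) (ss_smooth h (by norm_num) _)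
      (hd z hz) hb
    show _ = pb (ss σ (-1)) b z
    rw [h2, h3]
    show |(lam _ _).det| • pb (ss σ 1) b z⁻¹ = _
    rw [det_mul, abs_of_nonneg (by positivity), smul_eq_mul]

end Sph

section Closed

variable {M : Type u} [TopologicalSpace M] [T2Space M] [CompactSpace M]
  [ChartedSpace E4 M] [IsManifold 𝓘(ℝ, E4) ∞ M]

variable {σ : E3 → M} {w : Trip M} {J : EndF E4 M} {e : H2 M}

/-- the charts are immersed Lagrangian planes. -/
theorem lpl (h : JSph w σ e) {ε : ℝ} (hε : ε ^ 2 = 1) : LPl w (ss σ ε) where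
  sm := ss_smooth h.emb hε
  im := imm_ss h.emb hε
  l1 := by
    intro z
    rw [dmap_ss' h.emb hε, dmap_ss' h.emb hε, ss_unit h.emb hε]
    exact h.lag1 _ _ _ (unit_Pe hε z)
  l2 := by
    intro z
    rw [dmap_ss' h.emb hε, dmap_ss' h.emb hε, ss_unit h.emb hε]
    exact h.lag2 _ _ _ (unit_Pe hε z)

theorem pos_ss (hw : Pos3 w) (hJ : IsJ w J) (h : JSph w σ e) {ε : ℝ} (hε : ε = 1 ∨ ε = -1)
    (z : ℂ) : 0 < pb (ss σ ε) ((w 0).1.1 : F2 E4 M) z := by
  have hε2 : ε ^ 2 = 1 := by rcases hε with rfl | rfl <;> norm_num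
  refine (lpl h hε2).pos hw hJ univ ?_ z
  rw [setIntegral_univ, ← sphI_eps h.emb hε (w 0).1.2, h.rep]
  exact h.pos

/-- integrability of the density. -/
theorem integrable_ss (h : EmbS σ) {b : F2 E4 M} (hb : Smooth2 b) :
    Integrable (pb (ss σ 1) b) := by
  -- both charts together cover the sphere by compact discs
  have hε1 : (1 : ℝ) ^ 2 = 1 := by norm_num
  have hεm : (-1 : ℝ) ^ 2 = 1 := by norm_num
  have hc : ∀ ε : ℝ, ε ^ 2 = 1 → Continuous (pb (ss σ ε) b) := by
    intro ε hε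
    rw [← continuousOn_univ]
    exact (contDiffOn_pb isOpen_univ (fun z _ => (ss_smooth h hε z).contMDiffWithinAt)
      hb).continuousOn
  have h1 : IntegrableOn (pb (ss σ 1) b) (closedBall 0 1) :=
    (hc 1 hε1).continuousOn.integrableOn_compact (isCompact_closedBall 0 1)
  have h2 : IntegrableOn (pb (ss σ 1) b) {z | 1 ≤ ‖z‖} := by
    have hd : ∀ z ∈ (closedBall (0 : ℂ) 1 \ {0} : Set ℂ),
        HasDerivAt (fun z : ℂ => z⁻¹) (-(z ^ 2)⁻¹) z := fun z hz => hasDerivAt_inv hz.2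
    have himg : (fun z : ℂ => z⁻¹) '' (closedBall (0 : ℂ) 1 \ {0}) = {z | 1 ≤ ‖z‖} := by
      ext z
      constructor
      · rintro ⟨w, ⟨hw, hw0⟩, rfl⟩
        show 1 ≤ ‖w⁻¹‖
        rw [norm_inv]
        exact (one_le_inv₀ (norm_pos_iff.2 hw0)).2 (mem_closedBall_zero_iff.1 hw)
      · intro hz
        have hz1 : 1 ≤ ‖z‖ := hz
        have hz0 : z ≠ 0 := norm_pos_iff.1 (lt_of_lt_of_le one_pos hz1)
        refine ⟨z⁻¹, ⟨?_, inv_ne_zero hz0⟩, inv_inv z⟩
        rw [mem_closedBall_zero_iff, norm_inv]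
        exact inv_le_one_of_one_le₀ hz1
    have hms : MeasurableSet (closedBall (0 : ℂ) 1 \ {0}) :=
      measurableSet_closedBall.diff (measurableSet_singleton 0)
    rw [← himg, integrableOn_image_iff_integrableOn_abs_det_fderiv_smul volume hms
      (fun z hz => (hasFDerivAt_lam (hd z hz)).hasFDerivWithinAt) (inv_injective.injOn)]
    have h3 : IntegrableOn (pb (ss σ (-1)) b) (closedBall 0 1 \ {0}) :=
      ((hc (-1) hεm).continuousOn.integrableOn_compact (isCompact_closedBall 0 1)).mono_set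
        sdiff_subset
    refine h3.congr_fun (fun z hz => ?_) hms
    have hz' : z ≠ 0 := hz.2
    have hev : ss σ (-1) =ᶠ[𝓝 z] fun z => ss σ 1 z⁻¹ := by
      filter_upwards [isOpen_compl_singleton.mem_nhds hz'] with y hy using ss_inv h hy
    have h4 : pb (ss σ (-1)) b z = pb (fun z => ss σ 1 z⁻¹) b z := by
      unfold pb
      rw [dmap_congr hev, dmap_congr hev, hev.eq_of_nhds]
    have h5 := pb_comp (σ := ss σ 1) (τ := fun z : ℂ => z⁻¹) (ss_smooth h (by norm_num) _)
      (hd z hz) hb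
    rw [h4, h5]
    show _ = |(lam _ _).det| • pb (ss σ 1) b z⁻¹
    rw [det_mul, abs_of_nonneg (by positivity), smul_eq_mul]
  have h3 : (univ : Set ℂ) = closedBall 0 1 ∪ {z | 1 ≤ ‖z‖} := by
    ext z
    simp only [mem_univ, mem_union, mem_closedBall_zero_iff, true_iff]
    exact le_total _ _
  rw [← integrableOn_univ, h3]
  exact h1.union h2

/-- the current of the sphere. -/
def sphL (σ : E3 → M) (h : EmbS σ) : X2 M →ₗ[ℝ] ℝ where
  toFun b := sphI σ (b.1 : F2 E4 M)
  map_add' b c := by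
    rw [sphI_one h (b + c).2.1, sphI_one h b.2.1, sphI_one h c.2.1,
      ← integral_add (integrable_ss h b.2) (integrable_ss h c.2)]
    rfl
  map_smul' r b := by
    rw [sphI_one h (r • b).2.1, sphI_one h b.2.1, RingHom.id_apply, smul_eq_mul,
      ← integral_const_mul]
    rfl

theorem cont_sphere (h : EmbS σ) : ContinuousOn σ (sphere (0 : E3) 1) := fun y hy =>
  (σ_at h (by rintro rfl; simp at hy)).continuousAt.continuousWithinAt

theorem isClosed_sph (h : EmbS σ) : IsClosed (σ '' sphere (0 : E3) 1) :=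
  ((isCompact_sphere (0 : E3) 1).image_of_continuousOn (cont_sphere h)).isClosed

theorem op_ss (h : EmbS σ) {ε : ℝ} (hε : ε ^ 2 = 1) {O : Set ℂ} (hO : IsOpen O) :
    ∃ U, IsOpen U ∧ σ '' sphere (0 : E3) 1 ∩ U = ss σ ε '' O := by
  have hc2 : Continuous fun x : E3 => x 2 := (EuclideanSpace.proj 2 : E3 →L[ℝ] ℝ).continuous
  have ho : IsOpen {x : E3 | 0 < ‖x‖ + ε * x 2} :=
    isOpen_lt continuous_const (continuous_norm.add (continuous_const.mul hc2))
  have hcont : ContinuousOn (zE ε) {x : E3 | 0 < ‖x‖ + ε * x 2} := by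
    intro y hy
    have hy0 : y ≠ 0 := by
      rintro rfl
      simp at hy
    exact (contDiffAt_zE ε hy0 hy).continuousAt.continuousWithinAt
  set T : Set E3 := {x : E3 | 0 < ‖x‖ + ε * x 2} ∩ zE ε ⁻¹' O with hT
  have hTo : IsOpen T := hcont.isOpen_inter_preimage ho hO
  have hcl : IsClosed (σ '' (sphere (0 : E3) 1 ∩ Tᶜ)) :=
    (((isCompact_sphere (0 : E3) 1).inter_right hTo.isClosed_compl).image_of_continuousOn
      ((cont_sphere h).mono inter_subset_left)).isClosed
  refine ⟨(σ '' (sphere (0 : E3) 1 ∩ Tᶜ))ᶜ, hcl.isOpen_compl, ?_⟩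
  ext x
  constructor
  · rintro ⟨⟨y, hy, rfl⟩, hx2⟩
    have hyT : y ∈ T := by
      by_contra hyT
      exact hx2 ⟨y, ⟨hy, hyT⟩, rfl⟩
    exact ⟨zE ε y, hyT.2, ss_zE h hε hyT.1⟩
  · rintro ⟨z, hz, rfl⟩
    have hu : ‖Pe ε z‖⁻¹ • Pe ε z ∈ sphere (0 : E3) 1 := by
      rw [mem_sphere_zero_iff_norm]; exact unit_Pe hε z
    refine ⟨⟨_, hu, (ss_unit h hε z).symm⟩, ?_⟩
    rintro ⟨y, ⟨hy, hyT⟩, hyz⟩
    apply hyT
    have hy1 : ‖y‖ = 1 := mem_sphere_zero_iff_norm.1 hy
    have h1 : y = ‖Pe ε z‖⁻¹ • Pe ε z := by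
      refine h.inj _ _ hy1 (unit_Pe hε z) ?_
      rw [hyz, ss_unit h hε z]
    have n1 : 0 < ‖Pe ε z‖ := norm_pos_iff.2 (Pe_ne hε z)
    constructor
    · show 0 < ‖y‖ + ε * y 2
      have e2 : y 2 = ‖Pe ε z‖⁻¹ * Pe ε z 2 := by rw [h1]; rfl
      have e3 : ‖y‖ = ‖Pe ε z‖⁻¹ * ‖Pe ε z‖ := by rw [hy1, inv_mul_cancel₀ n1.ne']
      rw [e2, e3]
      have e4 : ‖Pe ε z‖⁻¹ * ‖Pe ε z‖ + ε * (‖Pe ε z‖⁻¹ * Pe ε z 2) =
          ‖Pe ε z‖⁻¹ * (‖Pe ε z‖ + ε * Pe ε z 2) := by ring
      rw [e4, Pe_den hε]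
      positivity
    · show zE ε y ∈ O
      rw [h1, zE_smul ε (inv_pos.2 n1), zE_Pe hε]
      exact hz

/-- **the patch of an embedded `J`-sphere.** -/
def patch (hw : Pos3 w) (hJ : IsJ w J) (h : JSph w σ e) {ε : ℝ} (hε : ε = 1 ∨ ε = -1) (z0 : ℂ) :
    Patch J ((w 0).1.1 : F2 E4 M) (σ '' sphere (0 : E3) 1) (sphL σ h.emb) (ss σ ε z0) :=
  have hε2 : ε ^ 2 = 1 := by rcases hε with rfl | rfl <;> norm_num
  { s := ss σ ε
    D := univ
    openD := isOpen_univ
    z0 := z0
    mem := mem_univ _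
    val := rfl
    smooth := fun z _ => (ss_smooth h.emb hε2 z).contMDiffWithinAt
    inj := (ss_inj h.emb hε2).injOn
    imm := fun z _ v hv => imm_ss h.emb hε2 z v hv
    jinv := fun z _ v => (lpl h hε2).jinv hw hJ z v
    op := fun _ _ hO => op_ss h.emb hε2 hO
    pos := fun z _ => pos_ss hw hJ h hε z
    cur := fun b => by
      rw [setIntegral_univ]
      exact sphI_eps h.emb hε b.2 }

/-- **local forms of an embedded `J`-sphere.** -/
theorem loc_sph (hB : BelStmt) (hR : RegStmt) (hw : Pos3 w) (hJ : IsJ w J) (h : JSph w σ e)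
    (p : M) : ∃ L : LocForm J (σ '' sphere (0 : E3) 1) p, L.Cur (sphL σ h.emb) := by
  by_cases hp : p ∈ σ '' sphere (0 : E3) 1
  · obtain ⟨y, hy, rfl⟩ := hp
    have hy1 : ‖y‖ = 1 := mem_sphere_zero_iff_norm.1 hy
    have hy2 : 0 < ‖y‖ + 1 * y 2 ∨ 0 < ‖y‖ + (-1) * y 2 := by
      rcases le_or_gt 0 (y 2) with h0 | h0
      · left; rw [hy1]; linarith
      · right; rw [hy1]; linarith
    rcases hy2 with h0 | h0
    · rw [← ss_zE h.emb (by norm_num) h0]
      exact loc_form hB hR hJ.smooth hJ.sq (w 0).1.2 (fun x v hv => hJ.tame x v hv)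
        (patch hw hJ h (Or.inl rfl) _)
    · rw [← ss_zE h.emb (by norm_num) h0]
      exact loc_form hB hR hJ.smooth hJ.sq (w 0).1.2 (fun x v hv => hJ.tame x v hv)
        (patch hw hJ h (Or.inr rfl) _)
  · let L : LocForm J (σ '' sphere (0 : E3) 1) p :=
      { U := (σ '' sphere (0 : E3) 1)ᶜ
        openU := (isClosed_sph h.emb).isOpen_compl
        mem := hp
        n := 0
        u := fun _ _ => p
        disc := fun j => j.elim0
        centre := fun j => j.elim0
        disj := fun j => j.elim0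
        supp := by simp
        proper := fun j => j.elim0 }
    refine ⟨L, ?_⟩
    intro b K hK hKU hb
    show sphI σ (b.1 : F2 E4 M) = ∑ j : Fin 0, _
    rw [Finset.univ_eq_empty, Finset.sum_empty, sphI_one h.emb b.2.1]
    refine integral_eq_zero_of_ae (Filter.Eventually.of_forall fun z => ?_)
    have h2 : ss σ 1 z ∉ K := fun hz => hKU hz
      ⟨_, mem_sphere_zero_iff_norm.2 (unit_Pe (by norm_num) z), (ss_unit h.emb (by norm_num) z).symm⟩
    show pb (ss σ 1) (b.1 : F2 E4 M) z = 0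
    unfold pb
    rw [hb _ h2]
    rfl

end Closed

end

end Crest.Agent.R235.SphPatch_61
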