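import Crest.Agent.R235.LatE_283
import Crest.Agent.R235.LatKz_766

/-!
Row 235, package LAT, file G: an even unimodular lattice of rank 22 with positive index 3 is the K3
lattice `gK3` (for lattices given by a real basis with integral Gram matrix).
-/

open Module

namespace Crest.Agent.R235.LatG_283

open LinearMap (BilinForm)
open LatC_283 LatO_283 LatE_283
open Matrix Filter

/-! ### the form of a matrix -/

/-- integral bilinear form of a matrix -/
def matZ {n : Type} [Fintype n] (A : Matrix n n ℤ) : BilinForm ℤ (n → ℤ) :=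
  LinearMap.mk₂ ℤ (fun x y => x ⬝ᵥ (A *ᵥ y))
    (by intros; simp [add_dotProduct]) (by intros; rw [smul_dotProduct])
    (by intros; simp [mulVec_add, dotProduct_add]) (by intros; rw [mulVec_smul, dotProduct_smul])

@[simp] lemma matZ_apply {n : Type} [Fintype n] (A : Matrix n n ℤ) (x y : n → ℤ) :
    matZ A x y = x ⬝ᵥ (A *ᵥ y) := rfl

lemma matZ_sy {n : Type} [Fintype n] {A : Matrix n n ℤ} (h : A.IsSymm) : Sy (matZ A) := by
  intro x y
  simp only [matZ_apply]
  rw [dotProduct_comm, dotProduct_mulVec, ← mulVec_transpose, h.eq, dotProduct_comm]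

lemma matZ_uni {n : Type} [Fintype n] [DecidableEq n] {A : Matrix n n ℤ} (h : IsUnit A.det) :
    Uni (matZ A) := by
  constructor
  · intro x y hxy
    have h1 : (x - y) ᵥ* A = 0 := by
      ext j
      have := LinearMap.congr_fun hxy (Pi.single j 1)
      simp only [matZ_apply, dotProduct_mulVec] at this
      rw [sub_vecMul, Pi.sub_apply]
      simpa [sub_eq_zero] using this
    have := eq_zero_of_vecMul_eq_zero h.ne_zero h1
    exact sub_eq_zero.1 this
  · intro φ
    refine ⟨(fun j => φ (Pi.single j 1)) ᵥ* A⁻¹, ?_⟩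
    refine LinearMap.pi_ext' fun j => ?_
    ext
    simp only [LinearMap.coe_comp, Function.comp_apply, LinearMap.coe_single, matZ_apply]
    rw [dotProduct_mulVec, vecMul_vecMul, nonsing_inv_mul A h, vecMul_one]
    simp

lemma even_form {n : Type} [Fintype n] [DecidableEq n] {A : Matrix n n ℤ} (hs : A.IsSymm)
    (h : ∀ i, Even (A i i)) (x : n → ℤ) : Even (matZ A x x) := by
  -- additivity modulo two
  have hadd : ∀ x y, Even (matZ A x x) → Even (matZ A y y) → Even (matZ A (x + y) (x + y)) := by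
    intro x y hx hy
    have : matZ A (x + y) (x + y) = matZ A x x + matZ A y y + 2 * matZ A x y := by
      simp only [map_add, LinearMap.add_apply]
      rw [matZ_sy hs y x]; ring
    rw [this]
    exact (hx.add hy).add (even_two_mul _)
  have hx : x = ∑ i, x i • (Pi.single i 1 : n → ℤ) := by
    ext j; simp [Finset.sum_apply, Pi.single_apply]
  rw [hx]
  have : ∀ s : Finset n, Even (matZ A (∑ i ∈ s, x i • (Pi.single i 1 : n → ℤ))
      (∑ i ∈ s, x i • (Pi.single i 1 : n → ℤ))) := by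
    intro s
    induction s using Finset.induction_on with
    | empty => simp
    | insert a s ha ih =>
      rw [Finset.sum_insert ha]
      refine hadd _ _ ?_ ih
      simp only [map_smul, LinearMap.smul_apply, smul_eq_mul]
      refine (Even.mul_left ?_ _).mul_left _
      have : matZ A (Pi.single a 1) (Pi.single a 1) = A a a := by simp
      rw [this]; exact h a
  exact this _

/-! ### real signature -/

lemma tendsto_floor_div (x : ℝ) :
    Tendsto (fun N : ℕ => ((⌊(N : ℝ) * x⌋ : ℤ) : ℝ) / N) atTop (nhds x) := by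
  have h0 : Tendsto (fun N : ℕ => (N : ℝ)⁻¹) atTop (nhds 0) := tendsto_inv_atTop_nhds_zero_nat
  rw [tendsto_iff_dist_tendsto_zero]
  refine squeeze_zero' (Eventually.of_forall fun _ => dist_nonneg) ?_ h0
  filter_upwards [eventually_gt_atTop 0] with N hN
  have hN' : (0 : ℝ) < N := by exact_mod_cast hN
  rw [Real.dist_eq, abs_le]
  have h1 := Int.floor_le ((N : ℝ) * x)
  have h2 := Int.lt_floor_add_one ((N : ℝ) * x)
  have h3 : ((⌊(N : ℝ) * x⌋ : ℤ) : ℝ) / N - x = (((⌊(N : ℝ) * x⌋ : ℤ) : ℝ) - N * x) * (N : ℝ)⁻¹ := by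
    field_simp
  rw [h3]
  have hi : (0 : ℝ) < (N : ℝ)⁻¹ := by positivity
  constructor <;> nlinarith

lemma Pos.mono {L : Type} [AddCommGroup L] {B : BilinForm ℤ L} {k l : ℕ} (h : Pos B l)
    (hkl : k ≤ l) : Pos B k := by
  obtain ⟨f, hf⟩ := h
  refine ⟨fun i => f (Fin.castLE hkl i), fun c hc => ?_⟩
  let c' : Fin l → ℤ := fun j => if hj : (j : ℕ) < k then c ⟨j, hj⟩ else 0
  have hc' : c' ≠ 0 := by
    intro h
    apply hc
    ext i
    have := congrFun h (Fin.castLE hkl i)
    simpa [c'] using this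
  have h1 : ∑ i, c i • f (Fin.castLE hkl i) = ∑ j, c' j • f j := by
    have h2 : ∀ j, j ∉ Set.range (Fin.castLE hkl) → c' j • f j = 0 := by
      intro j hj
      have : ¬ (j : ℕ) < k := fun h => hj ⟨⟨j, h⟩, rfl⟩
      simp [c', this]
    rw [← Fintype.sum_of_injective (Fin.castLE hkl) (Fin.castLE_injective hkl)
      (fun i => c i • f (Fin.castLE hkl i)) (fun j => c' j • f j) h2 (fun i => by simp [c'])]
  rw [h1]
  exact hf c' hc'

section real

variable {V : Type*} [AddCommGroup V] [Module ℝ V] (b : BilinForm ℝ V)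
variable {ι : Type} [Fintype ι] (e : Basis ι ℝ V)

/-- real vector of an integral vector -/
noncomputable def rv (x : ι → ℤ) : V := ∑ i, (x i : ℝ) • e i

lemma rv_sum {κ : Type} [Fintype κ] (f : κ → ι → ℤ) (c : κ → ℤ) :
    rv e (∑ i, c i • f i) = ∑ i, (c i : ℝ) • rv e (f i) := by
  simp only [rv, Finset.smul_sum]
  rw [Finset.sum_comm]
  refine Finset.sum_congr rfl fun j _ => ?_
  rw [Finset.sum_apply]
  push_cast
  rw [Finset.sum_smul]
  refine Finset.sum_congr rfl fun i _ => ?_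
  simp [smul_smul]

variable {b e}

lemma b_rv [DecidableEq ι] {G : Matrix ι ι ℤ} (hG : ∀ i j, b (e i) (e j) = G i j) (x y : ι → ℤ) :
    b (rv e x) (rv e y) = ((matZ G x y : ℤ) : ℝ) := by
  simp only [rv, map_sum, LinearMap.sum_apply, map_smul, LinearMap.smul_apply, smul_eq_mul, hG,
    matZ_apply, dotProduct, mulVec]
  push_cast
  simp only [Finset.mul_sum]
  rw [Finset.sum_comm]
  refine Finset.sum_congr rfl fun i _ => Finset.sum_congr rfl fun j _ => by ring

lemma sum_form {k : ℕ} (F : Fin k → V) (c d : Fin k → ℝ) :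
    b (∑ i, c i • F i) (∑ i, d i • F i) = c ⬝ᵥ ((Matrix.of fun i j => b (F i) (F j)) *ᵥ d) := by
  simp only [map_sum, LinearMap.sum_apply, map_smul, LinearMap.smul_apply, smul_eq_mul,
    dotProduct, mulVec, Matrix.of_apply, Finset.mul_sum]
  rw [Finset.sum_comm]
  refine Finset.sum_congr rfl fun i _ => Finset.sum_congr rfl fun j _ => by ring


/-- positive definite Gram matrices are open -/
lemma posdef_near {k : ℕ} (H : Matrix (Fin k) (Fin k) ℝ) (hH : ∀ c, c ≠ 0 → 0 < c ⬝ᵥ (H *ᵥ c)) :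
    ∃ ε > 0, ∀ H' : Matrix (Fin k) (Fin k) ℝ, (∀ i j, |H' i j - H i j| < ε) →
      ∀ c, c ≠ 0 → 0 < c ⬝ᵥ (H' *ᵥ c) := by
  have hcont : Continuous (fun c : Fin k → ℝ => c ⬝ᵥ (H *ᵥ c)) := by
    unfold dotProduct mulVec dotProduct; fun_prop
  have hcomp : IsCompact (Metric.sphere (0 : Fin k → ℝ) 1) := isCompact_sphere _ _
  rcases (Metric.sphere (0 : Fin k → ℝ) 1).eq_empty_or_nonempty with hemp | hne
  · refine ⟨1, one_pos, fun H' _ c hc => ?_⟩
    exfalso
    have : (‖c‖⁻¹ • c) ∈ Metric.sphere (0 : Fin k → ℝ) 1 := by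
      rw [mem_sphere_zero_iff_norm, norm_smul, norm_inv, norm_norm]
      exact inv_mul_cancel₀ (norm_ne_zero_iff.2 hc)
    rw [hemp] at this
    exact this
  obtain ⟨c₀, hc₀, hmin⟩ := hcomp.exists_isMinOn hne hcont.continuousOn
  have hm : 0 < c₀ ⬝ᵥ (H *ᵥ c₀) := hH c₀ (by
    rintro rfl; simp at hc₀)
  set m := c₀ ⬝ᵥ (H *ᵥ c₀) with hm'
  refine ⟨m / (k ^ 2 + 1), by positivity, fun H' hH' c hc => ?_⟩
  have hn : 0 < ‖c‖ := norm_pos_iff.2 hc
  set u := ‖c‖⁻¹ • c with hu
  have hus : u ∈ Metric.sphere (0 : Fin k → ℝ) 1 := by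
    rw [mem_sphere_zero_iff_norm, norm_smul, norm_inv, norm_norm]
    exact inv_mul_cancel₀ hn.ne'
  have hun : ∀ i, |u i| ≤ 1 := by
    intro i
    have := norm_le_pi_norm u i
    rw [mem_sphere_zero_iff_norm.1 hus] at this
    simpa using this
  have h1 : m ≤ u ⬝ᵥ (H *ᵥ u) := hmin hus
  have h2 : |u ⬝ᵥ (H' *ᵥ u) - u ⬝ᵥ (H *ᵥ u)| ≤ (k : ℝ) ^ 2 * (m / (k ^ 2 + 1)) := by
    rw [← dotProduct_sub, ← sub_mulVec]
    simp only [dotProduct, mulVec]
    calc |∑ i, u i * ∑ j, (H' - H) i j * u j| ≤ ∑ i, |u i * ∑ j, (H' - H) i j * u j| :=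
          Finset.abs_sum_le_sum_abs _ _
      _ ≤ ∑ i : Fin k, ∑ j : Fin k, m / (k ^ 2 + 1) := by
          refine Finset.sum_le_sum fun i _ => ?_
          rw [abs_mul]
          calc |u i| * |∑ j, (H' - H) i j * u j| ≤ 1 * |∑ j, (H' - H) i j * u j| :=
                mul_le_mul_of_nonneg_right (hun i) (abs_nonneg _)
            _ = |∑ j, (H' - H) i j * u j| := one_mul _
            _ ≤ ∑ j, |(H' - H) i j * u j| := Finset.abs_sum_le_sum_abs _ _
            _ ≤ ∑ j : Fin k, m / (k ^ 2 + 1) := by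
                refine Finset.sum_le_sum fun j _ => ?_
                rw [abs_mul]
                have h3 := (hH' i j).le
                calc |(H' - H) i j| * |u j| ≤ |(H' - H) i j| * 1 :=
                      mul_le_mul_of_nonneg_left (hun j) (abs_nonneg _)
                  _ ≤ m / (k ^ 2 + 1) := by rw [mul_one]; exact h3
      _ = (k : ℝ) ^ 2 * (m / (k ^ 2 + 1)) := by simp; ring
  have h4 : (k : ℝ) ^ 2 * (m / (k ^ 2 + 1)) < m := by
    rw [mul_div_assoc', div_lt_iff₀ (by positivity)]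
    nlinarith
  have h5 : 0 < u ⬝ᵥ (H' *ᵥ u) := by
    have := abs_le.1 h2
    linarith
  have h6 : c = ‖c‖ • u := by rw [hu, smul_smul, mul_inv_cancel₀ hn.ne', one_smul]
  rw [h6, mulVec_smul, smul_dotProduct, dotProduct_smul, smul_eq_mul, smul_eq_mul]
  positivity

/-- lower bound of the positive index -/
lemma pos_of_frame [DecidableEq ι] {G : Matrix ι ι ℤ}
    (hG : ∀ i j, b (e i) (e j) = G i j) {k : ℕ} (p : Fin k → V)
    (hp : ∀ a : Fin k → ℝ, a ≠ 0 → 0 < b (∑ i, a i • p i) (∑ i, a i • p i)) :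
    Pos (matZ G) k := by
  set x : Fin k → ι → ℝ := fun i j => e.repr (p i) j with hx
  have hxp : ∀ i, p i = ∑ j, x i j • e j := fun i => (e.sum_repr (p i)).symm
  let g : (Fin k → ι → ℝ) → Matrix (Fin k) (Fin k) ℝ := fun y =>
    Matrix.of fun i i' => ∑ j, ∑ l, y i j * y i' l * (G j l : ℝ)
  have hg : ∀ y : Fin k → ι → ℝ, g y =
      Matrix.of fun i i' => b (∑ j, y i j • e j) (∑ j, y i' j • e j) := by
    intro y
    ext i i'
    simp only [g, Matrix.of_apply, map_sum, LinearMap.sum_apply, map_smul, LinearMap.smul_apply,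
      smul_eq_mul, hG, Finset.mul_sum]
    rw [Finset.sum_comm]
    refine Finset.sum_congr rfl fun j _ => Finset.sum_congr rfl fun l _ => by ring
  obtain ⟨ε, hε, hnear⟩ := posdef_near (g x) (by
    intro c hc
    rw [hg, ← sum_form]
    simp only [← hxp]
    exact hp c hc)
  have hlim : Tendsto (fun N : ℕ => (fun i j => ((⌊(N : ℝ) * x i j⌋ : ℤ) : ℝ) / N : Fin k → ι → ℝ))
      atTop (nhds x) := by
    rw [tendsto_pi_nhds]
    intro i
    rw [tendsto_pi_nhds]
    intro j
    exact tendsto_floor_div (x i j)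
  have hgc : ∀ i i', Continuous (fun y => g y i i') := by
    intro i i'
    simp only [g, Matrix.of_apply]
    fun_prop
  have hev : ∀ᶠ N : ℕ in atTop, ∀ i i', |g (fun i j => ((⌊(N : ℝ) * x i j⌋ : ℤ) : ℝ) / N) i i' - g x i i'| < ε := by
    rw [eventually_all]
    intro i
    rw [eventually_all]
    intro i'
    have h1 := ((hgc i i').tendsto x).comp hlim
    have h2 := h1 (Metric.ball_mem_nhds _ hε)
    filter_upwards [h2] with N hN
    simpa [Real.dist_eq] using hN
  obtain ⟨N, hN, hN0⟩ := (hev.and (eventually_gt_atTop 0)).exists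
  have hpd := hnear _ hN
  refine ⟨fun i j => ⌊(N : ℝ) * x i j⌋, fun c hc => ?_⟩
  have hc' : (fun i => (c i : ℝ)) ≠ 0 := by
    intro h
    apply hc
    ext i
    have := congrFun h i
    simpa using this
  have h1 := hpd _ hc'
  rw [hg, ← sum_form] at h1
  have h2 : ∀ i, ∑ j, (((⌊(N : ℝ) * x i j⌋ : ℤ) : ℝ) / N) • e j =
      (N : ℝ)⁻¹ • rv e (fun j => ⌊(N : ℝ) * x i j⌋) := by
    intro i
    rw [rv, Finset.smul_sum]
    refine Finset.sum_congr rfl fun j _ => ?_
    rw [smul_smul, div_eq_inv_mul]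
  simp only [h2] at h1
  have h3 : ∑ i, (c i : ℝ) • (N : ℝ)⁻¹ • rv e (fun j => ⌊(N : ℝ) * x i j⌋) =
      (N : ℝ)⁻¹ • rv e (∑ i, c i • (fun j => ⌊(N : ℝ) * x i j⌋)) := by
    rw [rv_sum, Finset.smul_sum]
    refine Finset.sum_congr rfl fun i _ => ?_
    rw [smul_comm]
  rw [h3] at h1
  simp only [map_smul, LinearMap.smul_apply, smul_eq_mul, b_rv hG] at h1
  have hNi : (0 : ℝ) < (N : ℝ)⁻¹ := by positivity
  have h4 : (0 : ℝ) < ((matZ G (∑ i, c i • (fun j => ⌊(N : ℝ) * x i j⌋))
      (∑ i, c i • (fun j => ⌊(N : ℝ) * x i j⌋)) : ℤ) : ℝ) := by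
    by_contra hcon
    push Not at hcon
    have : (N : ℝ)⁻¹ * ((N : ℝ)⁻¹ * ((matZ G (∑ i, c i • (fun j => ⌊(N : ℝ) * x i j⌋))
      (∑ i, c i • (fun j => ⌊(N : ℝ) * x i j⌋)) : ℤ) : ℝ)) ≤ 0 :=
      mul_nonpos_of_nonneg_of_nonpos hNi.le (mul_nonpos_of_nonneg_of_nonpos hNi.le hcon)
    linarith
  exact_mod_cast h4


end real

/-! ### the K3 lattice -/

open LatKx_766










end Crest.Agent.R235.LatG_283
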