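import Crest.Agent.R235.Cone_288
import Crest.Agent.R235.LatG_283
import Crest.Agent.R235.DichProps_723
import Crest.Agent.R235.Top_837
import Crest.Agent.R235.TyR_844
import Crest.Agent.R235.STFProps_861
import Mathlib
import Crest.Agent.R240.Ch4
import Crest.Agent.R235.Wind4_688
import Crest.Agent.R235.LbG_453
import Crest.Agent.R235.GlobDefs_370
import Crest.Agent.R235.Pull_129
import Crest.Agent.R235.AdjGen_83

-- ▼ part R235/HkCone_288
section

/-!
Row 235 (helper288): `HKCONE` (version 2 of `Props_844`) from `STF` and `BPLUS`: normalisation of a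
hyperkaehler triple; `HK` is invariant under `GL(3)` and permutations.
-/

set_option autoImplicit false
set_option maxSynthPendingDepth 3

open Set Function Filter MeasureTheory
open scoped Manifold ContDiff Topology

universe u

namespace Crest.Agent.R235

open Crest.Agent.R240 Crest.Agent.R240.Ch Crest.Agent.R240.Int Crest.Agent.R235

noncomputable section

section HKs

variable {M : Type u} [TopologicalSpace M]
  [ChartedSpace E4 M] [IsManifold 𝓘(ℝ, E4) ∞ M]

/-- linear recombination of a triple. -/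
def mulT (A : Matrix (Fin 3) (Fin 3) ℝ) (w : Trip M) : Trip M := fun i => ∑ j, A i j • w j

theorem W_comb3 (c d : Fin 3 → ℝ) (b : Fin 3 → Bil) :
    W (∑ i, c i • b i) (∑ j, d j • b j) = ∑ i, ∑ j, c i * d j * W (b i) (b j) := by
  simp only [Fin.sum_univ_three, W_add_left, W_add_right, W_smul_left, W_smul_right]
  ring

theorem HK.mulT {w : Trip M} (hw : HK w) {A : Matrix (Fin 3) (Fin 3) ℝ} (hA : A.det ≠ 0) :
    HK (R235.mulT A w) := by
  obtain ⟨G, hG, h⟩ := hw
  refine ⟨A * G * A.conjTranspose, hG.mul_mul_conjTranspose_same ?_, fun x => ?_⟩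
  · have hu : IsUnit A := (Matrix.isUnit_iff_isUnit_det A).2 (isUnit_iff_ne_zero.2 hA)
    exact Matrix.vecMul_injective_of_isUnit hu
  · obtain ⟨s, hs⟩ := h x
    refine ⟨s, fun i j => ?_⟩
    unfold R235.mulT
    rw [val_comb, val_comb, W_comb3]
    simp only [hs, Matrix.mul_apply, Matrix.conjTranspose_apply, star_trivial,
      Fin.sum_univ_three]
    ring

theorem HK.perm {w : Trip M} (hw : HK w) (σ : Equiv.Perm (Fin 3)) :
    HK (fun i => w (σ i) : Trip M) := by
  obtain ⟨G, hG, h⟩ := hw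
  refine ⟨G.submatrix σ σ, hG.submatrix σ.injective, fun x => ?_⟩
  obtain ⟨s, hs⟩ := h x
  exact ⟨s, fun i j => hs _ _⟩

theorem HK.of_perm {w : Trip M} (σ : Equiv.Perm (Fin 3))
    (h : HK (fun i => w (σ i) : Trip M)) : HK w := by
  have h1 := h.perm σ.symm
  simpa using h1

theorem Pos3.mulT {w : Trip M} (hw : Pos3 w) {A : Matrix (Fin 3) (Fin 3) ℝ} (hA : A.det ≠ 0) :
    Pos3 (R235.mulT A w) := hw.linear hA

/-- normal form of a hyperkaehler triple: triangular recombination, `k = 0` last. -/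
theorem HK.normal [Nonempty M] {w : Trip M} (hP : Pos3 w) (hw : HK w) :
    ∃ (v : Trip M) (a1 b1 b2 c0 c1 c2 : ℝ), 0 < a1 ∧ 0 < b2 ∧ 0 < c0 ∧
      w 1 = a1 • v 1 ∧ w 2 = b1 • v 1 + b2 • v 2 ∧ w 0 = c0 • v 0 + c1 • v 1 + c2 • v 2 ∧
      (∀ x : M, ∃ s : ℝ, s ≠ 0 ∧ ∀ i j, W (val (v i) x) (val (v j) x) = if i = j then s else 0) := by
  obtain ⟨G, hG, h⟩ := hw
  have hsym : ∀ i j, G i j = G j i := fun i j => by
    have := congrFun (congrFun hG.1 i) j
    simpa using this.symm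
  have e10 := hsym 1 0
  have e20 := hsym 2 0
  have e21 := hsym 2 1
  have hq : ∀ c : Fin 3 → ℝ, c ≠ 0 → 0 < G 0 0 * c 0 ^ 2 + G 1 1 * c 1 ^ 2 + G 2 2 * c 2 ^ 2 +
      2 * G 0 1 * (c 0 * c 1) + 2 * G 0 2 * (c 0 * c 2) + 2 * G 1 2 * (c 1 * c 2) := by
    intro c hc
    have h1 := hG.dotProduct_mulVec_pos hc
    simp only [dotProduct, Matrix.mulVec, Fin.sum_univ_three, Pi.star_apply, star_trivial, e10,
      e20, e21] at h1
    nlinarith [h1]
  set g00 := G 0 0 with hg00
  set g01 := G 0 1 with hg01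
  set g02 := G 0 2 with hg02
  set g11 := G 1 1 with hg11
  set g12 := G 1 2 with hg12
  set g22 := G 2 2 with hg22
  have h11 : 0 < g11 := by
    have := hq ![0, 1, 0] (by
      intro h
      have := congrFun h 1
      simp at this)
    simpa using this
  obtain ⟨hh, hhd⟩ : ∃ hh, hh = g11 * g22 - g12 ^ 2 := ⟨_, rfl⟩
  have hhp : 0 < hh := by
    have h1 := hq ![0, -g12, g11] (by
      intro h
      have := congrFun h 2
      simp at this
      exact h11.ne' this)
    simp at h1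
    have h2 : 0 < g11 * hh := by
      rw [hhd]
      nlinarith [h1]
    exact (mul_pos_iff_of_pos_left h11).1 h2
  obtain ⟨p, hp⟩ : ∃ p, p = g01 * g22 - g02 * g12 := ⟨_, rfl⟩
  obtain ⟨q, hqd⟩ : ∃ q, q = g02 * g11 - g01 * g12 := ⟨_, rfl⟩
  obtain ⟨D, hD⟩ : ∃ D, D = hh * g00 - p * g01 - q * g02 := ⟨_, rfl⟩
  have hDp : 0 < D := by
    have h1 := hq ![hh, -p, -q] (by
      intro h
      have := congrFun h 0
      simp at this
      exact hhp.ne' this)
    simp at h1
    have h2 : 0 < hh * D := by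
      have e : hh * D = g00 * hh ^ 2 + g11 * p ^ 2 + g22 * q ^ 2 + 2 * g01 * (-(hh * p)) +
          2 * g02 * (-(hh * q)) + 2 * g12 * (p * q) := by
        rw [hD, hp, hqd, hhd]; ring
      rw [e]; linarith
    exact (mul_pos_iff_of_pos_left hhp).1 h2
  obtain ⟨r1, hr1, hr1'⟩ : ∃ r : ℝ, 0 < r ∧ r ^ 2 = g11 := ⟨√g11, Real.sqrt_pos.2 h11,
    Real.sq_sqrt h11.le⟩
  obtain ⟨r2, hr2, hr2'⟩ : ∃ r : ℝ, 0 < r ∧ r ^ 2 = g11 * hh := ⟨√(g11 * hh),
    Real.sqrt_pos.2 (mul_pos h11 hhp), Real.sq_sqrt (mul_pos h11 hhp).le⟩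
  obtain ⟨r0, hr0, hr0'⟩ : ∃ r : ℝ, 0 < r ∧ r ^ 2 = hh * D := ⟨√(hh * D),
    Real.sqrt_pos.2 (mul_pos hhp hDp), Real.sq_sqrt (mul_pos hhp hDp).le⟩
  let v : Trip M := ![r0⁻¹ • (hh • w 0 - p • w 1 - q • w 2), r1⁻¹ • w 1,
    r2⁻¹ • (g11 • w 2 - g12 • w 1)]
  have v0 : v 0 = r0⁻¹ • (hh • w 0 - p • w 1 - q • w 2) := rfl
  have v1 : v 1 = r1⁻¹ • w 1 := rfl
  have v2 : v 2 = r2⁻¹ • (g11 • w 2 - g12 • w 1) := rfl
  have i1 : w 1 = r1 • v 1 := by
    rw [v1, smul_smul, mul_inv_cancel₀ hr1.ne', one_smul]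
  have j2 : r2 • v 2 = g11 • w 2 - g12 • w 1 := by
    rw [v2, smul_smul, mul_inv_cancel₀ hr2.ne', one_smul]
  have i2 : w 2 = (g11⁻¹ * g12 * r1) • v 1 + (g11⁻¹ * r2) • v 2 := by
    rw [mul_smul (g11⁻¹) r2, j2, mul_smul _ r1, ← i1, smul_sub, smul_smul, smul_smul,
      inv_mul_cancel₀ h11.ne', one_smul]
    abel
  have j0 : r0 • v 0 = hh • w 0 - p • w 1 - q • w 2 := by
    rw [v0, smul_smul, mul_inv_cancel₀ hr0.ne', one_smul]
  have i0 : w 0 = (hh⁻¹ * r0) • v 0 + (hh⁻¹ * (p * r1 + q * (g11⁻¹ * g12 * r1))) • v 1 +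
      (hh⁻¹ * (q * (g11⁻¹ * r2))) • v 2 := by
    have e : hh • w 0 = r0 • v 0 + (p * r1 + q * (g11⁻¹ * g12 * r1)) • v 1 +
        (q * (g11⁻¹ * r2)) • v 2 := by
      have e1 : (p * r1 + q * (g11⁻¹ * g12 * r1)) • v 1 + (q * (g11⁻¹ * r2)) • v 2 =
          p • w 1 + q • w 2 := by
        rw [add_smul, mul_smul p, ← i1, mul_smul q, mul_smul q, add_assoc, ← smul_add, ← i2]
      rw [add_assoc, e1, j0]
      abel
    rw [mul_smul, mul_smul, mul_smul, ← smul_add, ← smul_add, ← e, smul_smul,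
      inv_mul_cancel₀ hhp.ne', one_smul]
  refine ⟨v, r1, g11⁻¹ * g12 * r1, g11⁻¹ * r2, hh⁻¹ * r0, _, _, hr1,
    mul_pos (inv_pos.2 h11) hr2, mul_pos (inv_pos.2 hhp) hr0, i1, i2, i0, fun x => ?_⟩
  obtain ⟨s, hs⟩ := h x
  have hs1 := hs 0 0
  have s00 : W (val (w 0) x) (val (w 0) x) = s * g00 := hs 0 0
  have s01 : W (val (w 0) x) (val (w 1) x) = s * g01 := hs 0 1
  have s02 : W (val (w 0) x) (val (w 2) x) = s * g02 := hs 0 2
  have s10 : W (val (w 1) x) (val (w 0) x) = s * g01 := by rw [W_comm]; exact s01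
  have s11 : W (val (w 1) x) (val (w 1) x) = s * g11 := hs 1 1
  have s12 : W (val (w 1) x) (val (w 2) x) = s * g12 := hs 1 2
  have s20 : W (val (w 2) x) (val (w 0) x) = s * g02 := by rw [W_comm]; exact s02
  have s21 : W (val (w 2) x) (val (w 1) x) = s * g12 := by rw [W_comm]; exact s12
  have s22 : W (val (w 2) x) (val (w 2) x) = s * g22 := hs 2 2
  have hsne : s ≠ 0 := by
    rintro rfl
    have := hP.W_ne' 1 x
    rw [s11, zero_mul] at this
    exact this rfl
  have u0 : val (v 0) x = r0⁻¹ • (hh • val (w 0) x - p • val (w 1) x - q • val (w 2) x) := by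
    rw [v0]; simp only [val_smul, val_sub]
  have u1 : val (v 1) x = r1⁻¹ • val (w 1) x := by rw [v1, val_smul]
  have u2 : val (v 2) x = r2⁻¹ • (g11 • val (w 2) x - g12 • val (w 1) x) := by
    rw [v2]; simp only [val_smul, val_sub]
  have t11 : W (val (v 1) x) (val (v 1) x) = s := by
    rw [u1, W_smul_left, W_smul_right, s11, ← hr1']
    field_simp
  have t12 : W (val (v 1) x) (val (v 2) x) = 0 := by
    rw [u1, u2, W_smul_left, W_smul_right, W_sub_right, W_smul_right, W_smul_right, s11, s12]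
    ring
  have t22 : W (val (v 2) x) (val (v 2) x) = s := by
    rw [u2, W_smul_left, W_smul_right, W_sub_right, W_smul_right, W_smul_right, W_sub_left,
      W_sub_left, W_smul_left, W_smul_left, W_smul_left, W_smul_left, s11, s12, s21, s22]
    have e : r2⁻¹ * (r2⁻¹ * (g11 * (g11 * (s * g22) - g12 * (s * g12)) -
        g12 * (g11 * (s * g12) - g12 * (s * g11)))) = (r2 ^ 2)⁻¹ * (s * (g11 * hh)) := by
      rw [hhd, pow_two r2, mul_inv]; ring
    rw [e, hr2']
    field_simp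
  have t01 : W (val (v 0) x) (val (v 1) x) = 0 := by
    rw [u0, u1, W_smul_left, W_smul_right, W_sub_left, W_sub_left, W_smul_left, W_smul_left,
      W_smul_left, s01, s11, s21, hhd, hp, hqd]
    ring
  have t02 : W (val (v 0) x) (val (v 2) x) = 0 := by
    rw [u0, u2, W_smul_left, W_smul_right, W_sub_left, W_sub_left, W_smul_left, W_smul_left,
      W_smul_left, W_sub_right, W_sub_right, W_sub_right, W_smul_right, W_smul_right,
      W_smul_right, W_smul_right, W_smul_right, W_smul_right, s01, s02, s11, s12, s21, s22, hhd,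
      hp, hqd]
    ring
  have t00 : W (val (v 0) x) (val (v 0) x) = s := by
    rw [u0, W_smul_left, W_smul_right, W_sub_left, W_sub_left, W_smul_left, W_smul_left,
      W_smul_left, W_sub_right, W_sub_right, W_sub_right, W_sub_right, W_sub_right, W_sub_right,
      W_smul_right, W_smul_right, W_smul_right,
      W_smul_right, W_smul_right, W_smul_right, W_smul_right, W_smul_right,
      W_smul_right, s00, s01, s02, s10, s20, s11, s12, s21, s22]
    have e : r0⁻¹ * (r0⁻¹ * (hh * (hh * (s * g00) - p * (s * g01) - q * (s * g02)) -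
        p * (hh * (s * g01) - p * (s * g11) - q * (s * g12)) -
        q * (hh * (s * g02) - p * (s * g12) - q * (s * g22)))) = (r0 ^ 2)⁻¹ * (s * (hh * D)) := by
      rw [hD, hp, hqd, hhd, pow_two r0, mul_inv]; ring
    rw [e, hr0']
    field_simp
  refine ⟨s, hsne, fun i j => ?_⟩
  have t10 : W (val (v 1) x) (val (v 0) x) = 0 := by rw [W_comm]; exact t01
  have t20 : W (val (v 2) x) (val (v 0) x) = 0 := by rw [W_comm]; exact t02
  have t21 : W (val (v 2) x) (val (v 1) x) = 0 := by rw [W_comm]; exact t12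
  fin_cases i <;> fin_cases j
  · exact t00
  · exact t01
  · exact t02
  · exact t10
  · exact t11
  · exact t12
  · exact t20
  · exact t21
  · exact t22

end HKs

section Cl

variable {M : Type u} [TopologicalSpace M] [T2Space M] [CompactSpace M]
  [ChartedSpace E4 M] [IsManifold 𝓘(ℝ, E4) ∞ M]

/-- `pI` only depends on the wedge products. -/
theorem pI_eq_of_W (F : Z2 M) {a b a' b' : Z2 M}
    (h : ∀ x, W (val a x) (val b x) = W (val a' x) (val b' x)) : pI F a b = pI F a' b' := by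
  let _ : MeasurableSpace M := borel M
  have _ : BorelSpace M := ⟨rfl⟩
  refine integral_congr_ae (Eventually.of_forall fun x => ?_)
  change q (val F x) (val a x) (val b x) = q (val F x) (val a' x) (val b' x)
  unfold q
  rw [h x]

/-- `pI = 0` if the wedge product vanishes. -/
theorem pI_eq_zero_of_W (F : Z2 M) {a b : Z2 M}
    (h : ∀ x, W (val a x) (val b x) = 0) : pI F a b = 0 := by
  rw [pI_eq_of_W F (a' := (0 : ℝ) • a) (b' := b) (fun x => by
    rw [h x, val_smul, W_smul_left, zero_mul]), pI_smul_left, zero_mul]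

end Cl

namespace HkCone_288

open Crest.Agent.R235.Cone_288

theorem comb_update {M : Type u} [TopologicalSpace M]
    [ChartedSpace E4 M] [IsManifold 𝓘(ℝ, E4) ∞ M] {w v : Trip M} {a1 b1 b2 c0 c1 c2 : ℝ}
    (ha1 : 0 < a1) (hb2 : 0 < b2) (hc0 : 0 < c0)
    (e1 : w 1 = a1 • v 1) (e2 : w 2 = b1 • v 1 + b2 • v 2)
    (e0 : w 0 = c0 • v 0 + c1 • v 1 + c2 • v 2) {a : Z2 M} (l1 l2 : ℝ)
    (hs : Seg v (update v 0 a)) (hk : HK (update v 0 a)) :
    Seg w (update w 0 (a + l1 • v 1 + l2 • v 2)) ∧ HK (update w 0 (a + l1 • v 1 + l2 • v 2)) := by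
  constructor
  · intro t h0 h1
    set m := (1 - t) * c0 + t with hm
    have hmp : 0 < m := by
      rcases eq_or_lt_of_le h0 with h | h
      · rw [hm, ← h]; simpa using hc0
      · have : 0 ≤ (1 - t) * c0 := mul_nonneg (by linarith) hc0.le
        linarith
    have h2 := hs (t / m) (div_nonneg h0 hmp.le) (by
      rw [div_le_one hmp, hm]
      have : 0 ≤ (1 - t) * c0 := mul_nonneg (by linarith) hc0.le
      linarith)
    let A : Matrix (Fin 3) (Fin 3) ℝ := !![m, (1 - t) * c1 + t * l1, (1 - t) * c2 + t * l2;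
      0, a1, 0; 0, b1, b2]
    have hA : A.det ≠ 0 := by
      rw [Matrix.det_fin_three]
      simp [A, hmp.ne', ha1.ne', hb2.ne']
    have h3 := h2.mulT hA
    have e : R235.mulT A (seg v (update v 0 a) (t / m)) =
        seg w (update w 0 (a + l1 • v 1 + l2 • v 2)) t := by
      rw [seg_update_zero, seg_update_zero]
      funext i
      unfold R235.mulT
      rw [Fin.sum_univ_three]
      have q1 : update v 0 ((1 - t / m) • v 0 + (t / m) • a) 1 = v 1 := update_of_ne (by decide) _ _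
      have q2 : update v 0 ((1 - t / m) • v 0 + (t / m) • a) 2 = v 2 := update_of_ne (by decide) _ _
      rw [update_self, q1, q2]
      fin_cases i
      · change m • ((1 - t / m) • v 0 + (t / m) • a) + ((1 - t) * c1 + t * l1) • v 1 +
          ((1 - t) * c2 + t * l2) • v 2 = update w 0 _ 0
        rw [update_self, e0]
        have z1 : m * (1 - t / m) = (1 - t) * c0 := by
          field_simp
          rw [hm]; ring
        have z2 : m * (t / m) = t := by field_simp
        rw [smul_add, smul_smul, smul_smul, z1, z2]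
        module
      · change (0 : ℝ) • ((1 - t / m) • v 0 + (t / m) • a) + a1 • v 1 +
          (0 : ℝ) • v 2 = update w 0 _ 1
        rw [update_of_ne (by decide), e1]
        simp
      · change (0 : ℝ) • ((1 - t / m) • v 0 + (t / m) • a) + b1 • v 1 +
          b2 • v 2 = update w 0 _ 2
        rw [update_of_ne (by decide), e2]
        simp
    rw [← e]
    exact h3
  · let A : Matrix (Fin 3) (Fin 3) ℝ := !![1, l1, l2; 0, a1, 0; 0, b1, b2]
    have hA : A.det ≠ 0 := by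
      rw [Matrix.det_fin_three]
      simp [A, ha1.ne', hb2.ne']
    have h3 := hk.mulT hA
    have e : R235.mulT A (update v 0 a) = update w 0 (a + l1 • v 1 + l2 • v 2) := by
      funext i
      unfold R235.mulT
      rw [Fin.sum_univ_three]
      have q1 : update v 0 a 1 = v 1 := update_of_ne (by decide) _ _
      have q2 : update v 0 a 2 = v 2 := update_of_ne (by decide) _ _
      rw [update_self, q1, q2]
      fin_cases i
      · change (1 : ℝ) • a + l1 • v 1 + l2 • v 2 = update w 0 _ 0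
        rw [update_self, one_smul]
      · change (0 : ℝ) • a + a1 • v 1 + (0 : ℝ) • v 2 = update w 0 _ 1
        rw [update_of_ne (by decide), e1]
        simp
      · change (0 : ℝ) • a + b1 • v 1 + b2 • v 2 = update w 0 _ 2
        rw [update_of_ne (by decide), e2]
        simp
    rw [← e]
    exact h3

/-- HKCONE for the index `0`. -/
theorem hkcone_zero (hS : STF.{u}) (hB : BPLUS.{u})
    (M : Type u) [TopologicalSpace M] [T2Space M] [CompactSpace M] [ConnectedSpace M]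
    [ChartedSpace E4 M] [IsManifold 𝓘(ℝ, E4) ∞ M] (w : Trip M) (hw : Pos3 w) (hk : HK w)
    (x : H2 M) (hx : CCond (w 0) (clw w) 0 x) :
    ∃ a : Z2 M, cls a = x ∧ Seg w (update w 0 a) ∧ HK (update w 0 a) := by
  obtain ⟨v, a1, b1, b2, c0, c1, c2, ha1, hb2, hc0, e1, e2, e0, hv⟩ := HK.normal hw hk
  have hvP : Pos3 v := by
    intro y c hc
    obtain ⟨s, hs0, hs⟩ := hv y
    rw [W_comb3]
    simp only [hs, Fin.sum_univ_three]
    have h1 : c 0 ^ 2 + c 1 ^ 2 + c 2 ^ 2 ≠ 0 := by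
      intro h
      apply hc
      have h0 : c 0 = 0 := by nlinarith [sq_nonneg (c 0), sq_nonneg (c 1), sq_nonneg (c 2)]
      have h1 : c 1 = 0 := by nlinarith [sq_nonneg (c 0), sq_nonneg (c 1), sq_nonneg (c 2)]
      have h2 : c 2 = 0 := by nlinarith [sq_nonneg (c 0), sq_nonneg (c 1), sq_nonneg (c 2)]
      funext i
      fin_cases i
      · exact h0
      · exact h1
      · exact h2
    intro h
    apply mul_ne_zero h1 hs0
    simp at h
    linarith [h]
  have hV := hvP.vol 0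
  have hip : ∀ a b : H2 M, ip (w 0) a b = ip (v 0) a b := by
    intro a b
    have h1 := hvP.ip_comb 0 (c := ![c0, c1, c2]) (by
      intro h
      have := congrFun h 0
      simp at this
      exact hc0.ne' this) a b
    rw [← h1]
    have e : ∑ j, (![c0, c1, c2] : Fin 3 → ℝ) j • v j = w 0 := by
      rw [Fin.sum_univ_three, e0]
      rfl
    rw [e]
  rw [ccond_congr hip] at hx
  have hB' : ∀ c : H2 M, (∀ i, ip (v 0) c (cls (v i)) = 0) → c ≠ 0 → ip (v 0) c c < 0 :=
    hB M v hvP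
  set F := v 0 with hF
  -- Gram matrix of `v`
  obtain ⟨k, hkd⟩ : ∃ k, k = ip F (cls (v 0)) (cls (v 0)) := ⟨_, rfl⟩
  have hkp : 0 < k := by rw [hkd]; exact hvP.ip_self_pos 0 0
  have gd : ∀ i, ip F (cls (v i)) (cls (v i)) = k := fun i => by
    rw [hkd, ip_cls hV, ip_cls hV]
    refine pI_eq_of_W _ fun y => ?_
    obtain ⟨s, hs0, hs⟩ := hv y
    rw [hs, hs]; simp
  have go : ∀ i j, i ≠ j → ip F (cls (v i)) (cls (v j)) = 0 := fun i j hij => by
    rw [ip_cls hV]
    refine pI_eq_zero_of_W _ fun y => ?_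
    obtain ⟨s, hs0, hs⟩ := hv y
    rw [hs, if_neg hij]
  obtain ⟨l1, hl1⟩ : ∃ l, l = ip F x (cls (v 1)) / k := ⟨_, rfl⟩
  obtain ⟨l2, hl2⟩ : ∃ l, l = ip F x (cls (v 2)) / k := ⟨_, rfl⟩
  obtain ⟨x', hx'⟩ : ∃ y, y = x - l1 • cls (v 1) - l2 • cls (v 2) := ⟨_, rfl⟩
  have o1 : ip F x' (cls (v 1)) = 0 := by
    rw [hx', ip_sub_left hV, ip_sub_left hV, ip_smul_left hV, ip_smul_left hV, gd 1,
      go 2 1 (by decide), hl1]
    field_simp
    ring
  have o2 : ip F x' (cls (v 2)) = 0 := by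
    rw [hx', ip_sub_left hV, ip_sub_left hV, ip_smul_left hV, ip_smul_left hV, gd 2,
      go 1 2 (by decide), hl2]
    field_simp
    ring
  -- positivity along the segment
  have hpos : ∀ t ∈ Icc (0 : ℝ) 1,
      0 < ip F (((1 - t) * c0) • cls (v 0) + t • x') (((1 - t) * c0) • cls (v 0) + t • x') := by
    intro t ht
    obtain ⟨r1, hr1⟩ : ∃ r, r = -((1 - t) * c1 + t * l1) := ⟨_, rfl⟩
    obtain ⟨r2, hr2⟩ : ∃ r, r = -((1 - t) * c2 + t * l2) := ⟨_, rfl⟩
    have h1 := hx.1 t ht ![1, r1 / a1 - r2 * b1 / (b2 * a1), r2 / b2] (by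
      intro h
      have := congrFun h 0
      simp at this)
    have e : ∑ i, (![1, r1 / a1 - r2 * b1 / (b2 * a1), r2 / b2] : Fin 3 → ℝ) i •
        ((1 - t) • clw w i + t • update (clw w) 0 x i) =
        ((1 - t) * c0) • cls (v 0) + t • x' := by
      rw [Fin.sum_univ_three]
      have q1 : update (clw w) 0 x 1 = cls (w 1) := update_of_ne (by decide) _ _
      have q2 : update (clw w) 0 x 2 = cls (w 2) := update_of_ne (by decide) _ _
      rw [update_self, q1, q2]
      have p0 : clw w 0 = c0 • cls (v 0) + c1 • cls (v 1) + c2 • cls (v 2) := by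
        change cls (w 0) = _
        rw [e0, map_add, map_add, map_smul, map_smul, map_smul]
      have p1 : cls (w 1) = a1 • cls (v 1) := by rw [e1, map_smul]
      have p2 : cls (w 2) = b1 • cls (v 1) + b2 • cls (v 2) := by
        rw [e2, map_add, map_smul, map_smul]
      have p1' : clw w 1 = a1 • cls (v 1) := p1
      have p2' : clw w 2 = b1 • cls (v 1) + b2 • cls (v 2) := p2
      rw [p0, p1', p2', p1, p2, hx']
      change (1 : ℝ) • _ + (r1 / a1 - r2 * b1 / (b2 * a1)) • _ + (r2 / b2) • _ = _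
      have z1 : (r1 / a1 - r2 * b1 / (b2 * a1)) * a1 + (r2 / b2) * b1 = r1 := by
        field_simp
        ring
      have z2 : (r2 / b2) * b2 = r2 := by field_simp
      have y1 : (r1 / a1 - r2 * b1 / (b2 * a1)) •
          ((1 - t) • a1 • cls (v 1) + t • a1 • cls (v 1)) + (r2 / b2) •
          ((1 - t) • (b1 • cls (v 1) + b2 • cls (v 2)) + t • (b1 • cls (v 1) + b2 • cls (v 2))) =
          ((r1 / a1 - r2 * b1 / (b2 * a1)) * a1 + (r2 / b2) * b1) • cls (v 1) +
            ((r2 / b2) * b2) • cls (v 2) := by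
        module
      rw [z1, z2] at y1
      rw [add_assoc, y1, hr1, hr2]
      module
    rw [e] at h1
    exact h1
  have hxx : 0 < ip F x' x' := by
    have h1 := hpos 1 ⟨zero_le_one, le_rfl⟩
    have e : ((1 - (1 : ℝ)) * c0) • cls (v 0) + (1 : ℝ) • x' = x' := by simp
    rwa [e] at h1
  have hx0 : 0 < ip F x' (cls (v 0)) := by
    by_contra hneg
    have hle : ip F x' (cls (v 0)) ≤ 0 := not_lt.1 hneg
    obtain ⟨y, hy⟩ : ∃ y, y = ip F x' (cls (v 0)) := ⟨_, rfl⟩
    rw [← hy] at hle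
    have hd : 0 < c0 * k - y := by
      have := mul_pos hc0 hkp
      linarith
    obtain ⟨t, ht⟩ : ∃ t, t = c0 * k / (c0 * k - y) := ⟨_, rfl⟩
    have ht0 : 0 ≤ t := by rw [ht]; exact div_nonneg (mul_pos hc0 hkp).le hd.le
    have ht1 : t ≤ 1 := by rw [ht, div_le_one hd]; linarith
    have h1 := hpos t ⟨ht0, ht1⟩
    have h2 := hB' (((1 - t) * c0) • cls (v 0) + t • x') (fun i => by
      rw [ip_add_left hV, ip_smul_left hV, ip_smul_left hV]
      fin_cases i
      · change (1 - t) * c0 * ip F (cls (v 0)) (cls (v 0)) + t * ip F x' (cls (v 0)) = 0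
        rw [← hkd, ← hy, ht]
        field_simp
        ring
      · change (1 - t) * c0 * ip F (cls (v 0)) (cls (v 1)) + t * ip F x' (cls (v 1)) = 0
        rw [go 0 1 (by decide), o1]; ring
      · change (1 - t) * c0 * ip F (cls (v 0)) (cls (v 2)) + t * ip F x' (cls (v 2)) = 0
        rw [go 0 2 (by decide), o2]; ring) (by
      intro h
      rw [h, ip_zero_left hV] at h1
      exact lt_irrefl _ h1)
    exact lt_asymm h1 h2
  have hnc : NC F (clw v) 0 := by
    intro e he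
    obtain ⟨i, hi, h1⟩ := hx.2 e he
    by_contra hcon
    push Not at hcon
    have q1 : ip F e (cls (v 1)) = 0 := hcon 1 (by decide)
    have q2 : ip F e (cls (v 2)) = 0 := hcon 2 (by decide)
    apply h1
    fin_cases i
    · exact absurd rfl hi
    · change ip F e (cls (w 1)) = 0
      rw [e1, map_smul, ip_smul_right hV, q1, mul_zero]
    · change ip F e (cls (w 2)) = 0
      rw [e2, map_add, map_smul, map_smul, ip_add_right hV, ip_smul_right hV,
        ip_smul_right hV, q1, q2]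
      ring
  obtain ⟨a, ha, hs, hh⟩ := hS M v hvP (fun y => by
    obtain ⟨s, hs0, hs⟩ := hv y
    exact ⟨s, hs⟩) hnc x' hxx hx0 o1 o2
  obtain ⟨h1, h2⟩ := comb_update ha1 hb2 hc0 e1 e2 e0 l1 l2 hs hh
  refine ⟨a + l1 • v 1 + l2 • v 2, ?_, h1, h2⟩
  rw [map_add, map_add, map_smul, map_smul, ha, hx']
  abel

end HkCone_288

/-- **HKCONE**. -/
theorem HkCone_288.hkcone_of (hS : STF.{u}) (hB : BPLUS.{u}) : HKCONE.{u} := by
  intro M _ _ _ _ _ _ w hw hk k x hx
  set σ : Equiv.Perm (Fin 3) := Equiv.swap 0 k with hσ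
  have hσ0 : σ 0 = k := Equiv.swap_apply_left 0 k
  set w' : Trip M := fun i => w (σ i) with hw'
  have hP' : Pos3 w' := hw.perm σ
  have hk' : HK w' := hk.perm σ
  have hip : ∀ a b : H2 M, ip (w' 0) a b = ip (w 0) a b := fun a b => hw.ip_eq (σ 0) 0 a b
  have hx' : CCond (w' 0) (clw w') 0 x := by
    rw [Cone_288.ccond_congr hip]
    refine ⟨fun t ht a ha => ?_, fun e he => ?_⟩
    · have h1 := hx.1 t ht (fun i => a (σ.symm i)) (by
        intro h0
        apply ha
        funext i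
        have := congrFun h0 (σ i)
        simpa using this)
      have e : ∑ i, a i • ((1 - t) • clw w' i + t • update (clw w') 0 x i) =
          ∑ i, a (σ.symm i) • ((1 - t) • clw w i + t • update (clw w) k x i) := by
        refine Eq.trans (Finset.sum_congr rfl fun i _ => ?_) (Equiv.sum_comp σ (fun i =>
          a (σ.symm i) • ((1 - t) • clw w i + t • update (clw w) k x i)))
        rw [Equiv.symm_apply_apply]
        have h2 : clw w' i = clw w (σ i) := rfl
        have h3 : update (clw w') 0 x i = update (clw w) k x (σ i) := by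
          by_cases h : i = 0
          · subst h
            rw [update_self, hσ0, update_self]
          · have h4 : σ i ≠ k := by
              intro h5
              apply h
              apply σ.injective
              rw [h5, hσ0]
            rw [update_of_ne h, update_of_ne h4]
            rfl
        rw [h2, h3]
      rw [e]
      exact h1
    · obtain ⟨i, hi, h1⟩ := hx.2 e he
      refine ⟨σ.symm i, ?_, ?_⟩
      · intro h
        apply hi
        rw [← hσ0, ← h, Equiv.apply_symm_apply]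
      · change ip (w 0) e (cls (w (σ (σ.symm i)))) ≠ 0
        rw [Equiv.apply_symm_apply]
        exact h1
  obtain ⟨a, ha, hseg, hh⟩ := HkCone_288.hkcone_zero hS hB M w' hP' hk' x hx'
  have e : (fun i => update w k a (σ i) : Trip M) = update w' 0 a := by
    funext i
    by_cases h : i = 0
    · subst h
      rw [hσ0, update_self, update_self]
    · have h4 : σ i ≠ k := by
        intro h5
        apply h
        apply σ.injective
        rw [h5, hσ0]
      rw [update_of_ne h, update_of_ne h4]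
  refine ⟨a, ha, Seg.of_perm σ ?_, HK.of_perm σ ?_⟩
  · rw [e]
    exact hseg
  · rw [e]
    exact hh

end

end Crest.Agent.R235
end

-- ▼ part R235/LatH_283
section

/-!
Row 235, package LAT, file H: `EVENCLASS` of `DichProps_723`.
-/

open Module

namespace Crest.Agent.R235.LatH_283

open LinearMap (BilinForm)
open LatC_283 LatO_283 LatE_283 LatG_283
open Matrix Filter

section real

variable {V : Type*} [AddCommGroup V] [Module ℝ V] {b : BilinForm ℝ V}
variable {ι : Type} [Fintype ι] [DecidableEq ι] {e : Basis ι ℝ V}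

/-- an integral positive frame is a real positive frame -/
lemma frame_of_pos (hsb : ∀ x y, b x y = b y x) {G : Matrix ι ι ℤ}
    (hG : ∀ i j, b (e i) (e j) = G i j) {k : ℕ} (h : Pos (matZ G) k) :
    ∃ p : Fin k → V, ∀ a : Fin k → ℝ, a ≠ 0 → 0 < b (∑ i, a i • p i) (∑ i, a i • p i) := by
  obtain ⟨f, hf⟩ := h
  set F : Fin k → V := fun i => rv e (f i) with hF
  let H : Matrix (Fin k) (Fin k) ℤ := Matrix.of fun i j => matZ G (f i) (f j)
  have hHR : (Matrix.of fun i j => b (F i) (F j)) = H.map (Int.cast : ℤ → ℝ) := by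
    ext i j; simp only [Matrix.of_apply, Matrix.map_apply, hF, b_rv hG, H]
  have hval : ∀ c : Fin k → ℤ, ((matZ G (∑ i, c i • f i) (∑ i, c i • f i) : ℤ) : ℝ) =
      b (∑ i, (c i : ℝ) • F i) (∑ i, (c i : ℝ) • F i) := by
    intro c
    rw [← rv_sum, b_rv hG]
  have hdet : H.det ≠ 0 := by
    intro h0
    obtain ⟨c, hc0, hc⟩ := Matrix.exists_mulVec_eq_zero_iff.2 h0
    have h1 := hf c hc0
    have h2 := hval c
    rw [sum_form, hHR] at h2
    have h3 : (H.map (Int.cast : ℤ → ℝ)) *ᵥ (fun i => (c i : ℝ)) = 0 := by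
      ext i
      have := congrFun hc i
      simp only [mulVec, dotProduct, Pi.zero_apply, Matrix.map_apply] at this ⊢
      exact_mod_cast this
    rw [h3, dotProduct_zero] at h2
    have : matZ G (∑ i, c i • f i) (∑ i, c i • f i) = 0 := by exact_mod_cast h2
    omega
  have hpsd : ∀ c : Fin k → ℝ, 0 ≤ b (∑ i, c i • F i) (∑ i, c i • F i) := by
    have hcont : Continuous (fun c : Fin k → ℝ => b (∑ i, c i • F i) (∑ i, c i • F i)) := by
      simp only [sum_form]
      unfold dotProduct mulVec dotProduct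
      fun_prop
    have hint : ∀ c : Fin k → ℤ, 0 ≤ b (∑ i, (c i : ℝ) • F i) (∑ i, (c i : ℝ) • F i) := by
      intro c
      rw [← hval]
      by_cases hc : c = 0
      · subst hc; simp
      · exact_mod_cast (hf c hc).le
    intro c
    have hlim : Tendsto (fun N : ℕ => (fun i => ((⌊(N : ℝ) * c i⌋ : ℤ) : ℝ) / N : Fin k → ℝ)) atTop (nhds c) := by
      rw [tendsto_pi_nhds]
      intro i
      exact tendsto_floor_div (c i)
    have hl2 := (hcont.tendsto c).comp hlim
    refine ge_of_tendsto hl2 (Eventually.of_forall fun N => ?_)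
    show 0 ≤ b (∑ i, (((⌊(N : ℝ) * c i⌋ : ℤ) : ℝ) / N) • F i) (∑ i, (((⌊(N : ℝ) * c i⌋ : ℤ) : ℝ) / N) • F i)
    have h3 : ∑ i, (((⌊(N : ℝ) * c i⌋ : ℤ) : ℝ) / N) • F i =
        ((N : ℝ)⁻¹) • ∑ i, ((⌊(N : ℝ) * c i⌋ : ℤ) : ℝ) • F i := by
      rw [Finset.smul_sum]
      refine Finset.sum_congr rfl fun i _ => ?_
      rw [smul_smul, div_eq_inv_mul]
    rw [h3]
    simp only [map_smul, LinearMap.smul_apply, smul_eq_mul]
    have h4 := hint (fun i => ⌊(N : ℝ) * c i⌋)
    positivity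
  refine ⟨F, fun a ha => ?_⟩
  rcases (hpsd a).lt_or_eq with h | h
  · exact h
  · exfalso
    apply ha
    have h3 : (H.map (Int.cast : ℤ → ℝ)).det ≠ 0 := by
      have : (H.map (Int.cast : ℤ → ℝ)).det = (H.det : ℝ) := (Int.cast_det H).symm
      rw [this]; exact_mod_cast hdet
    refine eq_zero_of_mulVec_eq_zero h3 ?_
    ext i
    rw [← hHR]
    simp only [mulVec, dotProduct, Matrix.of_apply, Pi.zero_apply]
    have h5 : ∑ j, b (F i) (F j) * a j = b (F i) (∑ j, a j • F j) := by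
      rw [map_sum]
      exact Finset.sum_congr rfl fun j _ => by rw [map_smul, smul_eq_mul, mul_comm]
    rw [h5]
    -- minimum of a nonnegative quadratic form
    set z := ∑ j, a j • F j with hz
    by_contra hne
    set β := b (F i) z with hβ
    set γ := b (F i) (F i) with hγ
    have hγ0 : 0 ≤ γ := by
      have := hpsd (Pi.single i 1)
      simpa [Pi.single_apply] using this
    have h6 := hpsd (a + (Pi.single i (-β / (γ + 1)) : Fin k → ℝ))
    have h7 : ∑ j, (a + (Pi.single i (-β / (γ + 1)) : Fin k → ℝ)) j • F j =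
        z + (-β / (γ + 1)) • F i := by
      simp [add_smul, Finset.sum_add_distrib, Pi.single_apply, hz]
    rw [h7] at h6
    simp only [map_add, LinearMap.add_apply, map_smul, LinearMap.smul_apply, smul_eq_mul] at h6
    rw [← h, hsb z (F i), ← hβ, ← hγ] at h6
    have h8 : 0 < γ + 1 := by linarith
    have h9 : 0 + -β / (γ + 1) * β + (-β / (γ + 1) * β + -β / (γ + 1) * (-β / (γ + 1) * γ)) =
        - (β ^ 2 * (γ + 2) / (γ + 1) ^ 2) := by
      field_simp
      ring
    have h10 : 0 < β ^ 2 * (γ + 2) / (γ + 1) ^ 2 := by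
      have : 0 < β ^ 2 := by positivity
      positivity
    have h11 : (0 : ℝ) + -β / (γ + 1) * β + (-β / (γ + 1) * β + -β / (γ + 1) * (-β / (γ + 1) * γ)) < 0 := by
      rw [h9]; linarith
    linarith

end real

/-- real form of an integral matrix -/
noncomputable def matR {n : ℕ} (A : Matrix (Fin n) (Fin n) ℝ) : BilinForm ℝ (Fin n → ℝ) :=
  LinearMap.mk₂ ℝ (fun x y => x ⬝ᵥ (A *ᵥ y))
    (by intros; simp [add_dotProduct]) (by intros; simp)
    (by intros; simp [mulVec_add, dotProduct_add]) (by intros; simp [mulVec_smul])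

@[simp] lemma matR_apply {n : ℕ} (A : Matrix (Fin n) (Fin n) ℝ) (x y : Fin n → ℝ) :
    matR A x y = x ⬝ᵥ (A *ᵥ y) := rfl

lemma matR_basis {n : ℕ} (A : Matrix (Fin n) (Fin n) ℤ) (i j : Fin n) :
    matR (A.map (fun z : ℤ => (z : ℝ))) (Pi.basisFun ℝ (Fin n) i) (Pi.basisFun ℝ (Fin n) j) =
      (A i j : ℝ) := by
  simp

lemma matR_comm {n : ℕ} {A : Matrix (Fin n) (Fin n) ℤ} (h : A.IsSymm) (x y : Fin n → ℝ) :
    matR (A.map (fun z : ℤ => (z : ℝ))) x y = matR (A.map (fun z : ℤ => (z : ℝ))) y x := by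
  have hs : (A.map (fun z : ℤ => (z : ℝ)))ᵀ = A.map (fun z : ℤ => (z : ℝ)) := by
    ext i j
    simp only [transpose_apply, Matrix.map_apply]
    rw [h.apply]
  simp only [matR_apply]
  rw [dotProduct_comm, dotProduct_mulVec, ← mulVec_transpose, hs, dotProduct_comm]

/-- positive index under real congruence -/
lemma pos_congr {n : ℕ} {A B : Matrix (Fin n) (Fin n) ℤ} (hA : A.IsSymm)
    (T : Matrix (Fin n) (Fin n) ℝ) (hT : IsUnit T.det)
    (h : Tᵀ * A.map (fun z : ℤ => (z : ℝ)) * T = B.map (fun z : ℤ => (z : ℝ))) {k : ℕ}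
    (hk : Pos (matZ A) k) : Pos (matZ B) k := by
  obtain ⟨p, hp⟩ := frame_of_pos (matR_comm hA) (matR_basis A) hk
  refine pos_of_frame (b := matR (B.map (fun z : ℤ => (z : ℝ)))) (e := Pi.basisFun ℝ (Fin n))
    (matR_basis B) (fun i => T⁻¹ *ᵥ p i) fun a ha => ?_
  have h1 : ∑ i, a i • T⁻¹ *ᵥ p i = T⁻¹ *ᵥ (∑ i, a i • p i) := by
    rw [mulVec_sum]
    exact Finset.sum_congr rfl fun i _ => by rw [mulVec_smul]
  rw [h1]
  have h2 := hp a ha
  set z := ∑ i, a i • p i
  simp only [matR_apply] at h2 ⊢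
  have h3 : T *ᵥ (T⁻¹ *ᵥ z) = z := by
    rw [mulVec_mulVec, mul_nonsing_inv _ hT, one_mulVec]
  rw [← h, ← mulVec_mulVec, ← mulVec_mulVec, h3, dotProduct_mulVec, vecMul_transpose, h3]
  exact h2

lemma exists_int_pos {n : ℕ} (A : Matrix (Fin n) (Fin n) ℤ)
    (h : ∃ x : Fin n → ℝ, 0 < x ⬝ᵥ (A.map (fun z : ℤ => (z : ℝ))).mulVec x) :
    ∃ x, 0 < matZ A x x := by
  obtain ⟨x, hx⟩ := h
  have h1 : Pos (matZ A) 1 := by
    refine pos_of_frame (b := matR (A.map (fun z : ℤ => (z : ℝ)))) (e := Pi.basisFun ℝ (Fin n))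
      (matR_basis A) (fun _ => x) fun a ha => ?_
    have ha0 : a 0 ≠ 0 := by
      intro h
      apply ha
      ext i
      rw [Subsingleton.elim i 0, h]; rfl
    simp only [Fin.sum_univ_one, map_smul, LinearMap.smul_apply, smul_eq_mul, matR_apply]
    have : 0 < a 0 * a 0 := mul_self_pos.2 ha0
    rw [← mul_assoc]
    exact mul_pos this hx
  obtain ⟨f, hf⟩ := h1
  have := hf (fun _ => 1) (by
    intro h
    have := congrFun h 0
    simp at this)
  exact ⟨_, this⟩

lemma exists_int_neg {n : ℕ} (A : Matrix (Fin n) (Fin n) ℤ)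
    (h : ∃ x : Fin n → ℝ, x ⬝ᵥ (A.map (fun z : ℤ => (z : ℝ))).mulVec x < 0) :
    ∃ x, matZ A x x < 0 := by
  obtain ⟨x, hx⟩ := h
  obtain ⟨y, hy⟩ := exists_int_pos (-A) ⟨x, by
    have : (-A).map (fun z : ℤ => (z : ℝ)) = -(A.map (fun z : ℤ => (z : ℝ))) := by
      ext i j; simp
    rw [this, neg_mulVec, dotProduct_neg]
    linarith⟩
  refine ⟨y, ?_⟩
  simp only [matZ_apply, neg_mulVec, dotProduct_neg] at hy ⊢
  omega

/-- **EVENCLASS.** -/
theorem evenclass : DichProps_723.EVENCLASS := by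
  rintro n A B hA hB hdA hdB heA heB ⟨T, hT, hTA⟩ hpos hneg
  -- inverse congruence
  have hT' : IsUnit (T⁻¹).det := by
    rw [det_nonsing_inv]; exact hT.ringInverse
  have hTB : (T⁻¹)ᵀ * B.map (fun z : ℤ => (z : ℝ)) * T⁻¹ = A.map (fun z : ℤ => (z : ℝ)) := by
    rw [← hTA]
    calc (T⁻¹)ᵀ * (Tᵀ * A.map (fun z : ℤ => (z : ℝ)) * T) * T⁻¹ =
        ((T⁻¹)ᵀ * Tᵀ) * A.map (fun z : ℤ => (z : ℝ)) * (T * T⁻¹) := by
          simp only [Matrix.mul_assoc]
      _ = A.map (fun z : ℤ => (z : ℝ)) := by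
          rw [← transpose_mul, mul_nonsing_inv _ hT]; simp
  have hmv : ∀ z : Fin n → ℝ, (T⁻¹ *ᵥ z) ⬝ᵥ ((B.map (fun z : ℤ => (z : ℝ))) *ᵥ (T⁻¹ *ᵥ z)) =
      z ⬝ᵥ ((A.map (fun z : ℤ => (z : ℝ))) *ᵥ z) := by
    intro z
    conv_rhs => rw [← hTB]
    rw [← mulVec_mulVec, ← mulVec_mulVec, dotProduct_mulVec z, vecMul_transpose]
  have hiA : Indef (matZ A) := ⟨exists_int_pos A hpos, exists_int_neg A hneg⟩
  have hiB : Indef (matZ B) := by
    obtain ⟨x, hx⟩ := hpos
    obtain ⟨y, hy⟩ := hneg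
    exact ⟨exists_int_pos B ⟨T⁻¹ *ᵥ x, by rw [hmv]; exact hx⟩,
      exists_int_neg B ⟨T⁻¹ *ᵥ y, by rw [hmv]; exact hy⟩⟩
  obtain ⟨g, hg⟩ := even_class (Fin n → ℤ) (Fin n → ℤ) (matZ B) (matZ A) (matZ_sy hB)
    (matZ_uni hdB) hiB (even_form hB heB) (matZ_sy hA) (matZ_uni hdA) hiA (even_form hA heA) rfl
    (fun k => ⟨pos_congr hB _ hT' hTB, pos_congr hA T hT hTA⟩)
  refine ⟨LinearMap.toMatrix' (g : (Fin n → ℤ) →ₗ[ℤ] (Fin n → ℤ)), ?_, ?_⟩
  · rw [LinearMap.det_toMatrix']
    exact LinearEquiv.isUnit_det' g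
  · ext i j
    have h1 := hg (Pi.single i 1) (Pi.single j 1)
    simp only [matZ_apply] at h1
    have h2 : ∀ k, g (Pi.single k 1) =
        (LinearMap.toMatrix' (g : (Fin n → ℤ) →ₗ[ℤ] (Fin n → ℤ))) *ᵥ (Pi.single k 1) := by
      intro k
      rw [LinearMap.toMatrix'_mulVec]; rfl
    rw [h2, h2] at h1
    set P := LinearMap.toMatrix' (g : (Fin n → ℤ) →ₗ[ℤ] (Fin n → ℤ))
    have h3 : (P *ᵥ Pi.single i 1) ⬝ᵥ (A *ᵥ (P *ᵥ Pi.single j 1)) =
        (Pᵀ * A * P) i j := by
      rw [← vecMul_transpose, ← dotProduct_mulVec, mulVec_mulVec, mulVec_mulVec]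
      simp
    rw [← h3, h1]
    simp

end Crest.Agent.R235.LatH_283
end

-- ▼ part R235/Univ_417
section

/-!
Row 235 (S0364), helper417: UNIVERSE REDUCTION.  `main_univ : MAIN.{0} → MAIN.{u}`.
A compact manifold has a copy in `Type`; forms are transported by the identity of `E4`.
-/

set_option autoImplicit false
set_option maxSynthPendingDepth 3

open Set Function Filter MeasureTheory
open scoped Manifold ContDiff Topology

universe u v

namespace Crest.Agent.R235.Univ_417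

open Crest.Agent.R240 Crest.Agent.R240.Ch Crest.Agent.R235

noncomputable section

/-! ### smallness -/

theorem small_of_compact (M : Type u) [TopologicalSpace M] [CompactSpace M] [ChartedSpace E4 M] :
    Small.{0} M := by
  obtain ⟨t, ht⟩ := (isCompact_univ (X := M)).elim_nhds_subcover
    (fun x => (chartAt E4 x).source) (fun x _ => chart_source_mem_nhds E4 x)
  have h : ∀ x : M, ∃ i : t, x ∈ (chartAt E4 (i.1)).source := by
    intro x
    have := ht.2 (mem_univ x)
    simp only [mem_iUnion] at this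
    obtain ⟨i, hi, hx⟩ := this
    exact ⟨⟨i, hi⟩, hx⟩
  choose f hf using h
  let e := Fintype.equivFin t
  refine small_of_injective (β := Fin (Fintype.card t) × E4)
    (f := fun x => (e (f x), chartAt E4 (f x).1 x)) ?_
  intro x y hxy
  have h1 : f x = f y := e.injective (Prod.ext_iff.1 hxy).1
  have h2 : chartAt E4 (f x).1 x = chartAt E4 (f y).1 y := (Prod.ext_iff.1 hxy).2
  rw [← h1] at h2
  exact (chartAt E4 (f x).1).injOn (hf x) (by rw [h1]; exact hf y) h2

/-! ### transport -/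

section Transport

variable {M : Type u} [TopologicalSpace M] [cM : ChartedSpace E4 M]
variable {N : Type v} [TopologicalSpace N]

/-- the pulled back charts. -/
@[reducible] def pullC (Φ : N ≃ₜ M) : ChartedSpace E4 N where
  atlas := {e | ∃ e' ∈ atlas E4 M, e = Φ.toOpenPartialHomeomorph.trans e'}
  chartAt y := Φ.toOpenPartialHomeomorph.trans (chartAt E4 (Φ y))
  mem_chart_source y := by simp
  chart_mem_atlas y := ⟨_, chart_mem_atlas _ _, rfl⟩

theorem pullC_manifold [IsManifold 𝓘(ℝ, E4) ∞ M] (Φ : N ≃ₜ M) :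
    @IsManifold ℝ _ E4 _ _ E4 _ 𝓘(ℝ, E4) ∞ N _ (pullC Φ) := by
  let _ := pullC Φ
  have _ : HasGroupoid M (contDiffGroupoid ∞ 𝓘(ℝ, E4)) := inferInstance
  refine @IsManifold.mk ℝ _ E4 _ _ E4 _ 𝓘(ℝ, E4) ∞ N _ _ ⟨?_⟩
  rintro _ _ ⟨a, ha, rfl⟩ ⟨b, hb, rfl⟩
  have h : (Φ.toOpenPartialHomeomorph.trans a).symm.trans (Φ.toOpenPartialHomeomorph.trans b) =
      a.symm.trans b := by
    rw [OpenPartialHomeomorph.trans_symm_eq_symm_trans_symm, OpenPartialHomeomorph.trans_assoc,
      ← OpenPartialHomeomorph.trans_assoc Φ.toOpenPartialHomeomorph.symm,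
      ← Homeomorph.symm_toOpenPartialHomeomorph, ← Homeomorph.trans_toOpenPartialHomeomorph,
      Homeomorph.symm_trans_self, Homeomorph.refl_toOpenPartialHomeomorph,
      OpenPartialHomeomorph.refl_trans]
  rw [h]
  exact StructureGroupoid.compatible _ ha hb

/-- the charts of `N` are the pulled back ones. -/
def IsPull [ChartedSpace E4 N] (Φ : N ≃ₜ M) : Prop :=
  ∀ y : N, chartAt E4 y = Φ.toOpenPartialHomeomorph.trans (chartAt E4 (Φ y))

variable [IsManifold 𝓘(ℝ, E4) ∞ M] [ChartedSpace E4 N] [IsManifold 𝓘(ℝ, E4) ∞ N]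
variable {Φ : N ≃ₜ M}

theorem tcc_pull (h : IsPull Φ) (p q z : N) :
    tcc (E := E4) p q z = tcc (E := E4) (Φ p) (Φ q) (Φ z) := by
  rw [tcc_eq_fderiv, tcc_eq_fderiv, h p, h q]
  have : ((Φ.toOpenPartialHomeomorph.trans (chartAt E4 (Φ q))) ∘
      (Φ.toOpenPartialHomeomorph.trans (chartAt E4 (Φ p))).symm : E4 → E4) =
      (chartAt E4 (Φ q)) ∘ (chartAt E4 (Φ p)).symm := by
    funext y
    simp
  rw [this]
  simp

/-- push-forward of two-forms. -/
def pf2 (Φ : N ≃ₜ M) (a : F2 E4 N) : F2 E4 M := fun x => a (Φ.symm x)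

/-- push-forward of one-forms. -/
def pf1 (Φ : N ≃ₜ M) (a : F1 E4 N) : F1 E4 M := fun x => a (Φ.symm x)

theorem rep_pf2 (h : IsPull Φ) (a : F2 E4 N) (p : N) (y : E4) :
    rep (Φ p) (pf2 Φ a) y = rep p a y := by
  ext u v
  rw [rep_apply, rep_apply, tcc_pull h, h p]
  simp [pf2, at2]

theorem rep_pf1 (h : IsPull Φ) (a : F1 E4 N) (p : N) (y : E4) :
    rep1 (Φ p) (pf1 Φ a) y = rep1 p a y := by
  ext u
  rw [rep1_apply, rep1_apply, tcc_pull h, h p]
  simp [pf1, at1]

omit [IsManifold 𝓘(ℝ, E4) ∞ M] [IsManifold 𝓘(ℝ, E4) ∞ N] in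
theorem target_pull (h : IsPull Φ) (p : N) :
    (chartAt E4 p).target = (chartAt E4 (Φ p)).target := by
  rw [h p]; simp

theorem smooth2_pf2 (h : IsPull Φ) {a : F2 E4 N} : Smooth2 (pf2 Φ a) ↔ Smooth2 a := by
  constructor
  · rintro ⟨h1, h2⟩
    refine ⟨fun x v => ?_, fun p => ?_⟩
    · have := h1 (Φ x) v
      simpa [pf2, at2] using this
    · have := h2 (Φ p)
      rw [target_pull h]
      exact this.congr fun y _ => (rep_pf2 h a p y).symm
  · rintro ⟨h1, h2⟩
    refine ⟨fun x v => h1 (Φ.symm x) v, fun q => ?_⟩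
    obtain ⟨p, rfl⟩ := Φ.surjective q
    have := h2 p
    rw [target_pull h] at this
    exact this.congr fun y _ => rep_pf2 h a p y

theorem smooth1_pf1 (h : IsPull Φ) {a : F1 E4 N} : Smooth1 (pf1 Φ a) ↔ Smooth1 a := by
  constructor
  · intro h2 p
    have := h2 (Φ p)
    rw [target_pull h]
    exact this.congr fun y _ => (rep_pf1 h a p y).symm
  · intro h2 q
    obtain ⟨p, rfl⟩ := Φ.surjective q
    have := h2 p
    rw [target_pull h] at this
    exact this.congr fun y _ => rep_pf1 h a p y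

theorem closed2_pf2 (h : IsPull Φ) {a : F2 E4 N} : Closed2 (pf2 Φ a) ↔ Closed2 a := by
  have hr : ∀ p : N, rep (Φ p) (pf2 Φ a) = rep p a := fun p => funext (rep_pf2 h a p)
  constructor
  · intro h1 p y hy u v w
    have := h1 (Φ p) y (by rwa [← target_pull h]) u v w
    rwa [hr p] at this
  · intro h1 q y hy u v w
    obtain ⟨p, rfl⟩ := Φ.surjective q
    rw [hr p]
    exact h1 p y (by rwa [target_pull h]) u v w

theorem isEx_pf2 (h : IsPull Φ) {a : F2 E4 N} : IsEx (pf2 Φ a) ↔ IsEx a := by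
  have hr : ∀ p : N, rep (Φ p) (pf2 Φ a) = rep p a := fun p => funext (rep_pf2 h a p)
  constructor
  · rintro ⟨S, hS, h1⟩
    have hS' : pf1 Φ (fun y => S (Φ y)) = S := by funext x; simp [pf1]
    refine ⟨fun y => S (Φ y), (smooth1_pf1 h).1 (by rwa [hS']), fun p y hy => ?_⟩
    have := h1 (Φ p) y (by rwa [← target_pull h])
    rw [hr p] at this
    rw [this]
    have h3 : rep1 p (fun y => S (Φ y)) = rep1 (Φ p) S := by
      have := fun y => rep_pf1 h (fun y => S (Φ y)) p y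
      rw [hS'] at this
      exact (funext this).symm
    rw [h3]
  · rintro ⟨S, hS, h1⟩
    refine ⟨pf1 Φ S, (smooth1_pf1 h).2 hS, fun q y hy => ?_⟩
    obtain ⟨p, rfl⟩ := Φ.surjective q
    rw [hr p, h1 p y (by rwa [target_pull h])]
    have h3 : rep1 (Φ p) (pf1 Φ S) = rep1 p S := funext (rep_pf1 h S p)
    rw [h3]

/-- push-forward of smooth two-forms. -/
def pX (h : IsPull Φ) : X2 N ≃ₗ[ℝ] X2 M where
  toFun a := ⟨pf2 Φ a.1, (smooth2_pf2 h).2 a.2⟩
  invFun a := ⟨fun y => a.1 (Φ y), (smooth2_pf2 h).1 (by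
    have : pf2 Φ (fun y => a.1 (Φ y)) = a.1 := by funext x; simp [pf2]
    rw [this]; exact a.2)⟩
  map_add' a b := rfl
  map_smul' r a := rfl
  left_inv a := by apply Subtype.ext; funext y; simp [pf2]
  right_inv a := by apply Subtype.ext; funext y; simp [pf2]

/-- push-forward of closed two-forms. -/
def pZ (h : IsPull Φ) : Z2 N ≃ₗ[ℝ] Z2 M where
  toFun a := ⟨pX h a.1, (closed2_pf2 h).2 a.2⟩
  invFun a := ⟨(pX h).symm a.1, (closed2_pf2 h).1 (by
    have : pf2 Φ ((pX h).symm a.1).1 = a.1.1 := congrArg Subtype.val ((pX h).apply_symm_apply a.1)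
    rw [this]; exact a.2)⟩
  map_add' a b := rfl
  map_smul' r a := rfl
  left_inv a := by apply Subtype.ext; exact (pX h).symm_apply_apply a.1
  right_inv a := by apply Subtype.ext; exact (pX h).apply_symm_apply a.1

theorem val_pZ (h : IsPull Φ) (a : Z2 N) (x : M) : val (pZ h a) x = val a (Φ.symm x) := rfl

/-- push-forward of triples. -/
def pT (h : IsPull Φ) (w : Trip N) : Trip M := fun i => pZ h (w i)

theorem pos3_pT (h : IsPull Φ) {w : Trip N} : Pos3 (pT h w) ↔ Pos3 w := by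
  constructor
  · intro hw x c hc
    have := hw (Φ x) c hc
    simpa [pT, val_pZ] using this
  · intro hw x c hc
    exact hw (Φ.symm x) c hc

theorem hk_pT (h : IsPull Φ) {w : Trip N} (hw : HK w) : HK (pT h w) := by
  obtain ⟨G, hG, h1⟩ := hw
  exact ⟨G, hG, fun x => h1 (Φ.symm x)⟩

theorem seg_pT (h : IsPull Φ) (w w' : Trip N) (t : ℝ) :
    seg (pT h w) (pT h w') t = pT h (seg w w' t) := by
  funext i
  simp [seg, pT]

theorem cls_pT (h : IsPull Φ) {a b : Z2 N} (hab : cls a = cls b) :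
    cls (pZ h a) = cls (pZ h b) := by
  have h1 : a - b ∈ B2 N := (Submodule.Quotient.eq _).1 hab
  refine (Submodule.Quotient.eq _).2 ?_
  have h2 : IsEx (((a - b).1 : X2 N) : F2 E4 N) := h1
  have h3 : IsEx (((pZ h (a - b)).1 : X2 M) : F2 E4 M) := (isEx_pf2 h).2 h2
  rw [map_sub] at h3
  exact h3

theorem joined_pT (h : IsPull Φ) {w w' : Trip N} (hw : Joined w w') :
    Joined (pT h w) (pT h w') := by
  refine Relation.ReflTransGen.lift (pT h) (fun a b hab => ?_) w w' hw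
  obtain ⟨h1, h2⟩ := hab
  refine ⟨fun t ht0 ht1 => ?_, fun i => cls_pT h (h2 i)⟩
  rw [seg_pT]
  exact (pos3_pT h).2 (h1 t ht0 ht1)

end Transport

/-- it is enough to treat manifolds in `Type`. -/
theorem main_univ (H : MAIN.{0}) : MAIN.{u} := by
  intro M _ _ _ _ _ _ w hw
  have _ := small_of_compact M
  let _ : TopologicalSpace (Shrink.{0} M) :=
    TopologicalSpace.induced (equivShrink.{0} M).symm inferInstance
  let Φ : Shrink.{0} M ≃ₜ M := Equiv.toHomeomorphOfIsInducing (equivShrink M).symm ⟨rfl⟩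
  let _ := pullC Φ
  have _ := pullC_manifold (M := M) Φ
  have _ : T2Space (Shrink.{0} M) := Φ.symm.t2Space
  have _ : CompactSpace (Shrink.{0} M) := Φ.symm.compactSpace
  have _ : ConnectedSpace (Shrink.{0} M) := Φ.symm.surjective.connectedSpace Φ.symm.continuous
  have hΦ : IsPull Φ := fun y => rfl
  obtain ⟨w', h1, h2⟩ := H (Shrink.{0} M) (fun i => (pZ hΦ).symm (w i)) (by
    rw [← pos3_pT hΦ]
    have : pT hΦ (fun i => (pZ hΦ).symm (w i)) = w := by funext i; simp [pT]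
    rwa [this])
  refine ⟨pT hΦ w', ?_, hk_pT hΦ h2⟩
  have := joined_pT hΦ h1
  have h3 : pT hΦ (fun i => (pZ hΦ).symm (w i)) = w := by funext i; simp [pT]
  rwa [h3] at this

end

end Crest.Agent.R235.Univ_417
end

-- ▼ part R235/Glue_856
section

/-!
Row 235 (S0364), helper856: FINAL GLUE.  `result_of_main : MAIN → literal statement of S0364`.
Dictionary for one-forms (`IsSmoothOneForm ↔ Smooth1`, invariant formula of `ds` in charts), exact differences,
`wedgeEval = det * W`, polygonal paths to smooth paths with flat steps (constant outside `[0,1]`).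
-/

set_option autoImplicit false
set_option maxSynthPendingDepth 3

open Set Function Filter Bundle VectorField
open scoped Manifold ContDiff Topology
open Crest.GeometryTopology.TwoForm

universe u

namespace Crest.Agent.R235.Glue_856

open Crest.Agent.R240 Crest.Agent.R240.Ch

noncomputable section

section OneForm

variable {E : Type*} [NormedAddCommGroup E] [NormedSpace ℝ E]
variable {M : Type*} [TopologicalSpace M] [ChartedSpace E M] [IsManifold 𝓘(ℝ, E) ∞ M]

variable (E M) in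
/-- one-forms, in the type used by the frozen definitions. -/
abbrev TF1 := (x : M) → TangentSpace 𝓘(ℝ, E) x →L[ℝ] ℝ

lemma triv1_apply {p x : M} (hx : x ∈ (chartAt E p).source) (s : TF1 E M) :
    (trivializationAt (E →L[ℝ] ℝ)
        (fun x : M => TangentSpace 𝓘(ℝ, E) x →L[ℝ] ℝ) p
          ⟨x, s x⟩).2 = rep1 p s (chartAt E p x) := by
  rw [hom_trivializationAt_apply]
  ext v
  have hb : x ∈ (trivializationAt E (TangentSpace (M := M) 𝓘(ℝ, E)) p).baseSet := hx
  have h1 : (ContinuousLinearMap.inCoordinates E (TangentSpace (M := M) 𝓘(ℝ, E)) ℝ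
      (fun _ : M => ℝ) p x p x (s x)) v =
      s x ((trivializationAt E (TangentSpace (M := M) 𝓘(ℝ, E)) p).symm x v) := by
    rw [ContinuousLinearMap.inCoordinates_eq hb (mem_univ _)]
    rfl
  refine h1.trans ?_
  rw [triv_symm hx]
  have e := rep1_apply p (s : F1 E M) (chartAt E p x) v
  rw [(chartAt E p).left_inv hx] at e
  exact e.symm

lemma mem_baseSet1 {p x : M} (hx : x ∈ (chartAt E p).source) :
    x ∈ (trivializationAt (E →L[ℝ] ℝ)
        (fun x : M => TangentSpace 𝓘(ℝ, E) x →L[ℝ] ℝ)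
        p).baseSet := by
  rw [hom_trivializationAt_baseSet]
  exact ⟨hx, mem_univ _⟩

theorem contMDiffAt_1 {p x : M} (hx : x ∈ (chartAt E p).source) (s : TF1 E M) :
    ContMDiffAt 𝓘(ℝ, E) (𝓘(ℝ, E).prod 𝓘(ℝ, E →L[ℝ] ℝ)) ∞
      (fun x => TotalSpace.mk' (E →L[ℝ] ℝ) x (s x)) x ↔
      ContDiffAt ℝ ∞ (rep1 p s) (chartAt E p x) := by
  have h1 := Bundle.Trivialization.contMDiffAt_section_iff (𝕜 := ℝ) (B := M)
    (F := E →L[ℝ] ℝ)
    (E := fun x : M => TangentSpace 𝓘(ℝ, E) x →L[ℝ] ℝ)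
    (IB := 𝓘(ℝ, E)) (n := ∞) (s := s) (x₀ := x)
    (trivializationAt (E →L[ℝ] ℝ)
        (fun x : M => TangentSpace 𝓘(ℝ, E) x →L[ℝ] ℝ)
        p) (mem_baseSet1 hx)
  refine h1.trans ?_
  exact contMDiffAt_of_eq hx (fun z hz => triv1_apply hz s)

theorem smooth1_iff (s : TF1 E M) : IsSmoothOneForm 𝓘(ℝ, E) M s ↔ Smooth1 s := by
  have h := forall_chart_iff (P := fun p y => ContDiffAt ℝ ∞ (rep1 p s) y)
    (fun p x hx => contMDiffAt_1 hx s)
  constructor
  · intro h2 p
    exact contDiffOn_chart_iff.2 (h.1 h2 p)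
  · intro h2
    exact h.2 fun p => contDiffOn_chart_iff.1 (h2 p)

/-- the invariant formula for the exterior derivative of a one-form. -/
theorem d1_invariant {s : E → E →L[ℝ] ℝ} {X Y : E → E} {y : E}
    (hs : DifferentiableAt ℝ s y) (hX : DifferentiableAt ℝ X y)
    (hY : DifferentiableAt ℝ Y y) :
    fderiv ℝ (fun z => s z (Y z)) y (X y) - fderiv ℝ (fun z => s z (X z)) y (Y y)
      - s y (lieBracket ℝ X Y y) = d1 s y (X y) (Y y) := by
  rw [fderiv_clm_apply hs hY, fderiv_clm_apply hs hX, d1_apply]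
  simp only [lieBracket_eq, map_sub, add_apply, ContinuousLinearMap.comp_apply,
    ContinuousLinearMap.flip_apply]
  ring

/-- the frozen expression in a chart. -/
theorem extDerivOneOnFields_chart [CompleteSpace E] {s : TF1 E M} (hs : Smooth1 s) {X Y : TVF E M}
    {p x : M} (hx : x ∈ (chartAt E p).source)
    (hX : ContDiffAt ℝ ∞ (repV p X) (chartAt E p x))
    (hY : ContDiffAt ℝ ∞ (repV p Y) (chartAt E p x)) :
    extDerivOneOnFields 𝓘(ℝ, E) M s X Y x =
      d1 (rep1 p s) (chartAt E p x) (repV p X (chartAt E p x)) (repV p Y (chartAt E p x)) := by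
  have hy : chartAt E p x ∈ (chartAt E p).target := (chartAt E p).map_source hx
  have hb : DifferentiableAt ℝ (rep1 p s) (chartAt E p x) :=
    (contDiffOn_chart_iff.1 (hs p) _ hy).differentiableAt (by simp)
  have dX := hX.differentiableAt (by simp : (∞ : WithTop ℕ∞) ≠ 0)
  have dY := hY.differentiableAt (by simp : (∞ : WithTop ℕ∞) ≠ 0)
  have key := d1_invariant hb dX dY
  rw [← key]
  have hf : ∀ V : TVF E M, ∀ᶠ z in 𝓝 x, s z (V z) =
      (fun y => rep1 p s y (repV p V y)) (chartAt E p z) := by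
    intro V
    filter_upwards [(chartAt E p).open_source.mem_nhds hx] with z hz
    have h := rep1_repV ((chartAt E p).map_source hz) s V
    rw [h, (chartAt E p).left_inv hz]
    rfl
  have hd : ∀ V : TVF E M, DifferentiableAt ℝ (repV p V) (chartAt E p x) →
      DifferentiableAt ℝ (fun y => rep1 p s y (repV p V y)) (chartAt E p x) :=
    fun V h1 => hb.clm_apply h1
  have hm : ∀ V : TVF E M, ContDiffAt ℝ ∞ (repV p V) (chartAt E p x) →
      MDifferentiableAt 𝓘(ℝ, E) 𝓘(ℝ, E).tangent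
      (fun x => (Bundle.TotalSpace.mk' E x (V x) : TangentBundle 𝓘(ℝ, E) M))
      ((chartAt E p).symm (chartAt E p x)) := by
    intro V hV
    rw [(chartAt E p).left_inv hx]
    exact ((contMDiffAt_V hx V).2 hV).mdifferentiableAt (by simp)
  have hbr : s x (mlieBracket 𝓘(ℝ, E) X Y x) = rep1 p s (chartAt E p x)
        (lieBracket ℝ (repV p X) (repV p Y) (chartAt E p x)) := by
    have e1 := mlieBracket_chart hy (hm X hX) (hm Y hY)
    have e2 := rep1_repV hy (s : F1 E M) (mlieBracket 𝓘(ℝ, E) X Y)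
    rw [e1, (chartAt E p).left_inv hx] at e2
    exact e2.symm
  unfold extDerivOneOnFields
  rw [lieDerivFun_chart hx X (hd Y dY) (hf Y), lieDerivFun_chart hx Y (hd X dX) (hf X), hbr]

end OneForm


/-! ### exact differences -/

section Exact

variable {M : Type u} [TopologicalSpace M] [ChartedSpace E4 M] [IsManifold 𝓘(ℝ, E4) ∞ M]

theorem isExactDiff_of_isEx {a b : TF2 E4 M} (h : IsEx ((a : F2 E4 M) - (b : F2 E4 M))) :
    IsExactDiff 𝓘(ℝ, E4) M a b := by
  obtain ⟨s, hs, h1⟩ := h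
  refine ⟨s, (smooth1_iff (E := E4) (M := M) s).2 hs, ?_⟩
  intro X Y hX hY x
  have hx := mem_chart_source E4 x
  have sX := (contMDiffAt_V hx X).1 (hX _)
  have sY := (contMDiffAt_V hx Y).1 (hY _)
  rw [extDerivOneOnFields_chart hs hx sX sY, ← h1 x _ (mem_chart_target E4 x)]
  have e := rep_repV (mem_chart_target E4 x) ((a : F2 E4 M) - (b : F2 E4 M)) X Y
  rw [(chartAt E4 x).left_inv hx] at e
  exact e.symm

/-- exactness of the difference of cohomologous forms. -/
theorem isEx_of_cls {a b : Z2 M} (h : cls a = cls b) : IsEx ((a.1.1 : F2 E4 M) - b.1.1) := by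
  have h2 : a - b ∈ B2 M := (Submodule.Quotient.eq (B2 M)).1 h
  exact h2

end Exact

/-! ### linear algebra -/

section Lin

/-- the linear map sending the standard basis to `v`. -/
def frameMap (v : Fin 4 → E4) : E4 →L[ℝ] E4 :=
  LinearMap.toContinuousLinearMap
    ((EuclideanSpace.basisFun (Fin 4) ℝ).toBasis.constr ℝ v)

theorem frameMap_ee (v : Fin 4 → E4) (i : Fin 4) : frameMap v (ee i) = v i := by
  have h : ee i = (EuclideanSpace.basisFun (Fin 4) ℝ).toBasis i := by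
    simp [ee]
  rw [frameMap, h]
  exact (EuclideanSpace.basisFun (Fin 4) ℝ).toBasis.constr_basis ℝ v i

theorem wedgeEval_eq {a b : Bil} (ha : Alt a) (hb : Alt b) (v : Fin 4 → E4) :
    wedgeEval a b v = LinearMap.det (frameMap v : E4 →ₗ[ℝ] E4) * W a b := by
  rw [← W_pull ha hb]
  simp only [W, ent, pull_apply, frameMap_ee, wedgeEval]

theorem det_frameMap_ne {v : Fin 4 → E4} (hv : LinearIndependent ℝ v) :
    LinearMap.det (frameMap v : E4 →ₗ[ℝ] E4) ≠ 0 := by
  have hb : ∃ B : Module.Basis (Fin 4) ℝ E4, ⇑B = v := by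
    refine ⟨basisOfLinearIndependentOfCardEqFinrank hv (by simp), ?_⟩
    simp
  obtain ⟨B, hB⟩ := hb
  have h : (frameMap v : E4 →ₗ[ℝ] E4) =
      ((EuclideanSpace.basisFun (Fin 4) ℝ).toBasis.equiv B (Equiv.refl _) : E4 →ₗ[ℝ] E4) := by
    refine (EuclideanSpace.basisFun (Fin 4) ℝ).toBasis.ext fun i => ?_
    have h1 : (EuclideanSpace.basisFun (Fin 4) ℝ).toBasis i = ee i := by simp [ee]
    have h2 : (frameMap v : E4 →ₗ[ℝ] E4) ((EuclideanSpace.basisFun (Fin 4) ℝ).toBasis i) = v i := by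
      rw [h1]; exact frameMap_ee v i
    rw [h2]
    refine Eq.trans ?_
      ((EuclideanSpace.basisFun (Fin 4) ℝ).toBasis.equiv_apply i B (Equiv.refl _)).symm
    rw [hB]; rfl
  rw [h]
  exact (LinearEquiv.isUnit_det' _).ne_zero


theorem linearIndependent_ee : LinearIndependent ℝ ee := by
  have h : (ee : Fin 4 → E4) = (EuclideanSpace.basisFun (Fin 4) ℝ).toBasis := by
    funext i; simp [ee]
  rw [h]
  exact (EuclideanSpace.basisFun (Fin 4) ℝ).toBasis.linearIndependent

end Lin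


/-! ### smooth paths -/

section Path

variable {M : Type u} [TopologicalSpace M] [ChartedSpace E4 M] [IsManifold 𝓘(ℝ, E4) ∞ M]

/-- joint smoothness of a family of triples, tested on smooth fields. -/
def JS (Om : ℝ → Trip M) : Prop :=
  ∀ i, ∀ Y Z : TVF E4 M, IsSmoothVectorField 𝓘(ℝ, E4) M Y → IsSmoothVectorField 𝓘(ℝ, E4) M Z →
    ContMDiff (𝓘(ℝ, ℝ).prod 𝓘(ℝ, E4)) 𝓘(ℝ, ℝ) ∞
      (fun p : ℝ × M => val (Om p.1 i) p.2 (Y p.2) (Z p.2))

/-- smooth path inside the classes. -/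
def SP (w w' : Trip M) : Prop :=
  ∃ Om : ℝ → Trip M, (∀ t, t ≤ 0 → Om t = w) ∧ (∀ t, 1 ≤ t → Om t = w') ∧
    (∀ t, Pos3 (Om t)) ∧ (∀ t, SameCls (Om t) w) ∧ JS Om

theorem contMDiff_val (a : Z2 M) {Y Z : TVF E4 M} (hY : IsSmoothVectorField 𝓘(ℝ, E4) M Y)
    (hZ : IsSmoothVectorField 𝓘(ℝ, E4) M Z) :
    ContMDiff 𝓘(ℝ, E4) 𝓘(ℝ, ℝ) ∞ (fun x : M => val a x (Y x) (Z x)) := by
  intro x
  have hx := mem_chart_source E4 x
  have hy := mem_chart_target E4 x
  have sY := (contMDiffAt_V hx Y).1 (hY _)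
  have sZ := (contMDiffAt_V hx Z).1 (hZ _)
  have sa : ContDiffAt ℝ ∞ (rep x (a.1.1 : F2 E4 M)) (chartAt E4 x x) :=
    contDiffOn_chart_iff.1 (a.1.2.2 x) _ hy
  have h1 : ContDiffAt ℝ ∞ (fun y => rep x (a.1.1 : F2 E4 M) y (repV x Y y) (repV x Z y))
      (chartAt E4 x x) := (sa.clm_apply sY).clm_apply sZ
  refine (contMDiffAt_of_eq hx ?_).2 h1
  intro z hz
  have h := rep_repV ((chartAt E4 x).map_source hz) (a.1.1 : F2 E4 M) Y Z
  rw [(chartAt E4 x).left_inv hz] at h
  exact h.symm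

theorem JS_const (w : Trip M) : JS (fun _ => w) := by
  intro i Y Z hY hZ
  exact (contMDiff_val (w i) hY hZ).comp contMDiff_snd



theorem JS.step {Om : ℝ → Trip M} (h : JS Om) {s : ℝ → ℝ} (hs : ContDiff ℝ ∞ s) (u : Trip M) :
    JS (fun t => fun i => Om (2 * t) i + s t • u i) := by
  intro i Y Z hY hZ
  have h1 := h i Y Z hY hZ
  have h2 : ContMDiff (𝓘(ℝ, ℝ).prod 𝓘(ℝ, E4)) (𝓘(ℝ, ℝ).prod 𝓘(ℝ, E4)) ∞
      (fun p : ℝ × M => ((2 * p.1, p.2) : ℝ × M)) := by
    refine ContMDiff.prodMk ?_ contMDiff_snd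
    have h3 : ContMDiff 𝓘(ℝ, ℝ) 𝓘(ℝ, ℝ) ∞ (fun t : ℝ => 2 * t) :=
      (contDiff_const.mul contDiff_id).contMDiff
    exact h3.comp contMDiff_fst
  have h4 : ContMDiff (𝓘(ℝ, ℝ).prod 𝓘(ℝ, E4)) 𝓘(ℝ, ℝ) ∞ (fun p : ℝ × M => s p.1) :=
    hs.contMDiff.comp contMDiff_fst
  have h5 : ContMDiff (𝓘(ℝ, ℝ).prod 𝓘(ℝ, E4)) 𝓘(ℝ, ℝ) ∞
      (fun p : ℝ × M => val (u i) p.2 (Y p.2) (Z p.2)) :=
    (contMDiff_val (u i) hY hZ).comp contMDiff_snd
  exact (h1.comp h2).add (h4.mul h5)

theorem gen1 {V : Type*} [AddCommGroup V] [Module ℝ V] (a b : V) {s : ℝ} (h : s = 0) :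
    a + s • b = a := by rw [h, zero_smul, add_zero]

theorem gen2 {V : Type*} [AddCommGroup V] [Module ℝ V] (u v : V) (s : ℝ) :
    u + s • (v - u) = (1 - s) • u + s • v := by
  rw [smul_sub, sub_smul, one_smul]; abel

theorem gen3 {V : Type*} [AddCommGroup V] [Module ℝ V] (u v : V) {s : ℝ} (h : s = 1) :
    (1 - s) • u + s • v = v := by
  rw [h, sub_self, zero_smul, one_smul, zero_add]

theorem gen4 {V W : Type*} [AddCommGroup V] [Module ℝ V] [AddCommGroup W] [Module ℝ W]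
    (f : V →ₗ[ℝ] W) {u v : V} (h : f u = f v) (t : ℝ) :
    f ((1 - t) • u + t • v) = f u := by
  rw [map_add, map_smul, map_smul, ← h, ← add_smul, sub_add_cancel, one_smul]

theorem sp_refl {w : Trip M} (hw : Pos3 w) : SP w w :=
  ⟨fun _ => w, fun _ _ => rfl, fun _ _ => rfl, fun _ => hw, fun _ _ => rfl, JS_const w⟩

theorem sp_step {w u v : Trip M} (h : SP w u) (h1 : Seg u v) (h2 : SameCls u v) : SP w v := by
  obtain ⟨Om, a1, a2, a3, a4, a5⟩ := h
  set s : ℝ → ℝ := fun t => Real.smoothTransition (2 * t - 1) with hs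
  have hsm : ContDiff ℝ ∞ s :=
    Real.smoothTransition.contDiff.comp ((contDiff_const.mul contDiff_id).sub contDiff_const)
  have hmem0 : ∀ t, 0 ≤ s t := fun t => Real.smoothTransition.nonneg _
  have hmem1 : ∀ t, s t ≤ 1 := fun t => Real.smoothTransition.le_one _
  have hlow : ∀ t, t ≤ 1 / 2 → s t = 0 := fun t ht =>
    Real.smoothTransition.zero_of_nonpos (by linarith)
  have hup : ∀ t, 1 ≤ t → s t = 1 := fun t ht =>
    Real.smoothTransition.one_of_one_le (by linarith)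
  have hcl : ∀ t i, cls (seg u v t i) = cls (u i) := by
    intro t i
    exact gen4 (cls (M := M)) (h2 i) t
  have e1 : ∀ t, t ≤ 1 / 2 → (fun i => Om (2 * t) i + s t • (v i - u i)) = Om (2 * t) := by
    intro t ht
    funext i
    exact gen1 _ _ (hlow t ht)
  have e2 : ∀ t, 1 / 2 ≤ t → (fun i => Om (2 * t) i + s t • (v i - u i)) = seg u v (s t) := by
    intro t ht
    funext i
    have e : Om (2 * t) i = u i := congrFun (a2 (2 * t) (by linarith)) i
    rw [e]
    exact gen2 _ _ _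
  obtain ⟨Op, hOp⟩ : ∃ Op : ℝ → Trip M, Op = fun t => fun i => Om (2 * t) i + s t • (v i - u i) :=
    ⟨_, rfl⟩
  have f1 : ∀ t, t ≤ 1 / 2 → Op t = Om (2 * t) := by
    intro t ht; rw [hOp]; exact e1 t ht
  have f2 : ∀ t, 1 / 2 ≤ t → Op t = seg u v (s t) := by
    intro t ht; rw [hOp]; exact e2 t ht
  have f3 : JS Op := by
    rw [hOp]; exact a5.step hsm (fun i => v i - u i)
  refine ⟨Op, ?_, ?_, ?_, ?_, f3⟩
  · intro t ht
    exact (f1 t (by linarith)).trans (a1 _ (by linarith))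
  · intro t ht
    refine (f2 t (by linarith)).trans ?_
    funext i
    exact gen3 _ _ (hup t ht)
  · intro t
    rcases le_total t (1 / 2) with h | h
    · rw [f1 t h]; exact a3 _
    · rw [f2 t h]; exact h1 _ (hmem0 t) (hmem1 t)
  · intro t
    rcases le_total t (1 / 2) with h | h
    · rw [f1 t h]; exact a4 _
    · rw [f2 t h]
      intro i
      refine (hcl _ _).trans ?_
      have := a4 1 i
      rwa [a2 1 le_rfl] at this

theorem sp_of_joined {w w' : Trip M} (hw : Pos3 w) (h : Joined w w') : SP w w' := by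
  induction h with
  | refl => exact sp_refl hw
  | tail _ h1 ih => exact sp_step ih h1.1 h1.2

end Path

/-! ### the final theorem -/

section Final

section

variable {M : Type u} [TopologicalSpace M] [ChartedSpace E4 M] [IsManifold 𝓘(ℝ, E4) ∞ M]

theorem smooth_lit (a : Z2 M) : IsSmoothTwoForm 𝓘(ℝ, E4) M (a.1.1 : F2 E4 M) :=
  (smooth2_iff (E := E4) (M := M) (a.1.1 : F2 E4 M)).2 a.1.2

theorem closed_lit [T2Space M] (a : Z2 M) : IsClosedTwoForm 𝓘(ℝ, E4) M (a.1.1 : F2 E4 M) :=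
  (closed2_iff (E := E4) (M := M) (a := (a.1.1 : F2 E4 M)) a.1.2).2 a.2

theorem alt_comb (w : Trip M) (x : M) (c : Fin 3 → ℝ) : Alt (∑ i, c i • val (w i) x) := by
  intro v
  have h : ∀ i, val (w i) x v v = 0 := fun i => (w i).1.2.1 x v
  simp only [_root_.sum_apply, _root_.smul_apply, h,
    smul_zero, Finset.sum_const_zero]

theorem wedge_comb (w : Trip M) (x : M) (c : Fin 3 → ℝ) (v : Fin 4 → E4) :
    wedgeEval (∑ i, c i • val (w i) x) (∑ i, c i • val (w i) x) v =
      LinearMap.det (frameMap v : E4 →ₗ[ℝ] E4) *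
        W (∑ i, c i • val (w i) x) (∑ i, c i • val (w i) x) :=
  wedgeEval_eq (alt_comb w x c) (alt_comb w x c) v

theorem pos_lit {w : Trip M} (h : Pos3 w) :
    IsPositiveTriple 𝓘(ℝ, E4) M (fun i => ((w i).1.1 : F2 E4 M)) := by
  intro x v hv c hc h0
  have h1 := wedge_comb w x c v
  have h2 : LinearMap.det (frameMap v : E4 →ₗ[ℝ] E4) *
        W (∑ i, c i • val (w i) x) (∑ i, c i • val (w i) x) = 0 := h1.symm.trans h0
  rcases mul_eq_zero.1 h2 with h3 | h3
  · exact det_frameMap_ne hv h3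
  · exact h x c hc h3

theorem pos3_of_lit {w : Trip M}
    (h : IsPositiveTriple 𝓘(ℝ, E4) M (fun i => ((w i).1.1 : F2 E4 M))) : Pos3 w := by
  intro x c hc h0
  have h1 := wedge_comb w x c (ee : Fin 4 → E4)
  rw [h0, mul_zero] at h1
  exact h x (ee : Fin 4 → E4) linearIndependent_ee c hc h1


theorem lit_of_main (hM : MAIN.{u}) [T2Space M] [CompactSpace M] [ConnectedSpace M]
    (w : Trip M) (hw : Pos3 w) :
    ∃ Ω : ℝ → Fin 3 → TF2 E4 M,
      (Ω 0 = fun i => ((w i).1.1 : F2 E4 M)) ∧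
      (∀ t i, IsSmoothTwoForm 𝓘(ℝ, E4) M (Ω t i) ∧ IsClosedTwoForm 𝓘(ℝ, E4) M (Ω t i) ∧
        IsExactDiff 𝓘(ℝ, E4) M (Ω t i) ((w i).1.1 : F2 E4 M)) ∧
      (∀ t, IsPositiveTriple 𝓘(ℝ, E4) M (Ω t)) ∧
      (∀ i, ∀ Y Z : TVF E4 M,
        IsSmoothVectorField 𝓘(ℝ, E4) M Y → IsSmoothVectorField 𝓘(ℝ, E4) M Z →
          ContMDiff (𝓘(ℝ, ℝ).prod 𝓘(ℝ, E4)) 𝓘(ℝ, ℝ) ∞
            (fun p : ℝ × M => Ω p.1 i p.2 (Y p.2) (Z p.2))) ∧
      ∃ G : Matrix (Fin 3) (Fin 3) ℝ, G.PosDef ∧
        ∀ (x : M) (v : Fin 4 → TangentSpace 𝓘(ℝ, E4) x), ∃ s : ℝ,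
          ∀ i j, wedgeEval (Ω 1 i x) (Ω 1 j x) v = s * G i j := by
  obtain ⟨w', hj, G, hG, hHK⟩ := hM M w hw
  obtain ⟨Om, a1, a2, a3, a4, a5⟩ := sp_of_joined hw hj
  refine ⟨fun t i => ((Om t i).1.1 : F2 E4 M), ?_, ?_, ?_, ?_, G, hG, ?_⟩
  · funext i
    have e := congrFun (a1 0 le_rfl) i
    exact congrArg (fun a : Z2 M => (a.1.1 : F2 E4 M)) e
  · intro t i
    exact ⟨smooth_lit (Om t i), closed_lit (Om t i),
      isExactDiff_of_isEx (isEx_of_cls (a4 t i))⟩
  · intro t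
    exact pos_lit (a3 t)
  · exact a5
  · intro x v
    obtain ⟨s, hs⟩ := hHK x
    refine ⟨LinearMap.det (frameMap v : E4 →ₗ[ℝ] E4) * s, fun i j => ?_⟩
    have h1 := wedgeEval_eq (a := val (Om 1 i) x) (b := val (Om 1 j) x)
      ((Om 1 i).1.2.1 x) ((Om 1 j).1.2.1 x) v
    have h2 := hs i j
    rw [← a2 1 le_rfl] at h2
    rw [h2, ← mul_assoc] at h1
    exact h1

end

theorem result_of_main (hM : MAIN.{u})
    (M : Type u) [TopologicalSpace M] [T2Space M] [CompactSpace M] [ConnectedSpace M]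
    [ChartedSpace (EuclideanSpace ℝ (Fin 4)) M] [IsManifold (𝓡 4) ∞ M]
    (α : Fin 3 → Π x : M, TangentSpace (𝓡 4) x →L[ℝ] TangentSpace (𝓡 4) x →L[ℝ] ℝ)
    (hs : ∀ i, IsSmoothTwoForm (𝓡 4) M (α i)) (hc : ∀ i, IsClosedTwoForm (𝓡 4) M (α i))
    (hp : IsPositiveTriple (𝓡 4) M α) :
    ∃ Ω : ℝ → Fin 3 → Π x : M, TangentSpace (𝓡 4) x →L[ℝ] TangentSpace (𝓡 4) x →L[ℝ] ℝ,
      Ω 0 = α ∧
      (∀ t i, IsSmoothTwoForm (𝓡 4) M (Ω t i) ∧ IsClosedTwoForm (𝓡 4) M (Ω t i) ∧
        IsExactDiff (𝓡 4) M (Ω t i) (α i)) ∧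
      (∀ t, IsPositiveTriple (𝓡 4) M (Ω t)) ∧
      (∀ i, ∀ Y Z : Π x : M, TangentSpace (𝓡 4) x,
        IsSmoothVectorField (𝓡 4) M Y → IsSmoothVectorField (𝓡 4) M Z →
          ContMDiff (𝓘(ℝ, ℝ).prod (𝓡 4)) 𝓘(ℝ, ℝ) ∞
            (fun p : ℝ × M => Ω p.1 i p.2 (Y p.2) (Z p.2))) ∧
      ∃ G : Matrix (Fin 3) (Fin 3) ℝ, G.PosDef ∧
        ∀ (x : M) (v : Fin 4 → TangentSpace (𝓡 4) x), ∃ s : ℝ,
          ∀ i j, wedgeEval (Ω 1 i x) (Ω 1 j x) v = s * G i j := by
  have sm : ∀ i, Smooth2 (α i : F2 E4 M) := fun i => (smooth2_iff (E := E4) (M := M) (α i)).1 (hs i)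
  have cl : ∀ i, Closed2 (α i : F2 E4 M) := fun i => (closed2_iff (sm i)).1 (hc i)
  obtain ⟨w, hw⟩ : ∃ w : Trip M, (fun i => ((w i).1.1 : F2 E4 M)) = α :=
    ⟨fun i => ⟨⟨(α i : F2 E4 M), sm i⟩, cl i⟩, rfl⟩
  subst hw
  exact lit_of_main hM w (pos3_of_lit hp)

end Final

end

end Crest.Agent.R235.Glue_856
end

-- ▼ part R235/PD_819
section

/-!
# R235, package STF, leaf PD (helper819): Poincare duality from the dichotomy

* `nondeg`  : `ip (w 0)` is nondegenerate (from `BPLUS`-type signature `TyOK`)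
* `pd_of_dichr : DICHR → PD`
-/

set_option autoImplicit false
set_option maxSynthPendingDepth 3

open Set Function
open scoped Manifold ContDiff

universe u

namespace Crest.Agent.R235.PD_819

open Crest.Agent.R240 Crest.Agent.R240.Ch Crest.Agent.R240.Int Crest.Agent.R235

noncomputable section

variable {M : Type u} [TopologicalSpace M] [T2Space M] [CompactSpace M] [ConnectedSpace M]
  [ChartedSpace E4 M] [IsManifold 𝓘(ℝ, E4) ∞ M]

theorem nondeg {w : Trip M} (hw : Pos3 w) (h : TyOK (w 0)) {c : H2 M}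
    (hc : ∀ b : H2 M, ip (w 0) c b = 0) : c = 0 := by
  by_contra hne
  have hpos : PosCls (w 0) (fun i => cls (w i)) := fun a ha => hw.ip_comb_pos 0 ha
  have := h.neg _ hpos c (fun i => hc _) hne
  rw [hc c] at this
  exact lt_irrefl _ this

/-- every linear form on `H²` is `ip s` -/
theorem riesz {w : Trip M} (hw : Pos3 w) (h : TyOK (w 0)) (l : H2 M →ₗ[ℝ] ℝ) :
    ∃ s : H2 M, ∀ b : H2 M, l b = ip (w 0) s b := by
  have := h.fin
  have hinj : Function.Injective (ipB (w 0) (hw.vol 0)) := by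
    rw [← LinearMap.ker_eq_bot, LinearMap.ker_eq_bot']
    intro c hc
    refine nondeg hw h fun b => ?_
    have := LinearMap.congr_fun hc b
    exact this
  have hdim : Module.finrank ℝ (H2 M) = Module.finrank ℝ (H2 M →ₗ[ℝ] ℝ) :=
    (Subspace.dual_finrank_eq (K := ℝ) (V := H2 M)).symm
  have hsurj : Function.Surjective (ipB (w 0) (hw.vol 0)) :=
    (LinearMap.injective_iff_surjective_of_finrank_eq_finrank hdim).1 hinj
  obtain ⟨s, hs⟩ := hsurj l
  exact ⟨s, fun b => by rw [← hs]; rfl⟩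

theorem pd_of_tyOK {w : Trip M} (hw : Pos3 w) (h : TyOK (w 0)) (L : X2 M →ₗ[ℝ] ℝ)
    (hL : ∀ b : X2 M, IsEx (b.1 : F2 E4 M) → L b = 0) :
    ∃ s : Z2 M, ∀ b : Z2 M, L b.1 = pI (w 0) s b := by
  have hk : B2 M ≤ LinearMap.ker (L ∘ₗ (Z2 M).subtype) := by
    intro b hb
    rw [LinearMap.mem_ker]
    exact hL _ hb
  obtain ⟨s, hs⟩ := riesz hw h ((B2 M).liftQ _ hk)
  obtain ⟨a, rfl⟩ := cls_surj s
  refine ⟨a, fun b => ?_⟩
  have h1 := hs (cls b)
  rw [ip_cls (hw.vol 0)] at h1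
  rw [← h1]
  exact (Submodule.liftQ_apply (B2 M) (L ∘ₗ (Z2 M).subtype) b).symm

end

theorem pd_of_dichr (hD : DICHR.{u}) : STF_861.PD.{u} := by
  intro M _ _ _ _ _ _ w hw L hL
  exact pd_of_tyOK hw (tyOK_of (hw.vol 0) (hD M w hw)) L hL

end Crest.Agent.R235.PD_819
end

-- ▼ part R235/IntegA_796
section

/-!
Row 235 (S0364), package ADJ, leaf X3 (INTEG), helper796, file A: transversality.
`q : ℂ → Matrix` smooth on the open set `O`; for `e` in an open dense set the section `q e` has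
only nondegenerate (hence finitely many) zeros on the compact set `C ⊆ O` where the diagonal of
`q` does not vanish.  Only Sard in equal dimensions (`ℂ → ℂ`) is used.
-/

set_option autoImplicit false

open Set Function Filter Topology Metric MeasureTheory
open scoped ContDiff Matrix

namespace Crest.Agent.R235.Integ_796

noncomputable section

variable {K : ℕ} {q : ℂ → Matrix (Fin K) (Fin K) ℂ} {O C : Set ℂ}

/-- the derivative of the matrix valued function `q`. -/
def Dq (q : ℂ → Matrix (Fin K) (Fin K) ℂ) (z v : ℂ) : Matrix (Fin K) (Fin K) ℂ :=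
  fun i j => fderiv ℝ (fun z => q z i j) z v

/-- the good vectors -/
def Gd (q : ℂ → Matrix (Fin K) (Fin K) ℂ) (C : Set ℂ) : Set (Fin K → ℂ) :=
  {e | ∀ z ∈ C, q z *ᵥ e = 0 → ∀ v : ℂ, ‖v‖ = 1 → Dq q z v *ᵥ e ≠ 0}

theorem Gd_mono {C' : Set ℂ} (h : C' ⊆ C) : Gd q C ⊆ Gd q C' := fun _ he z hz => he z (h hz)

theorem hasFDerivAt_entry (hO : IsOpen O) (hq : ∀ i j, ContDiffOn ℝ ∞ (fun z => q z i j) O)
    {z : ℂ} (hz : z ∈ O) (i j : Fin K) :
    HasFDerivAt (fun z => q z i j) (fderiv ℝ (fun z => q z i j) z) z :=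
  (((hq i j).contDiffAt (hO.mem_nhds hz)).differentiableAt (by simp)).hasFDerivAt

/-- the derivative of the section -/
theorem hasFDerivAt_sec (hO : IsOpen O) (hq : ∀ i j, ContDiffOn ℝ ∞ (fun z => q z i j) O)
    {z : ℂ} (hz : z ∈ O) (e : Fin K → ℂ) (i : Fin K) :
    ∃ L : ℂ →L[ℝ] ℂ, HasFDerivAt (fun z => (q z *ᵥ e) i) L z ∧ ∀ v, L v = (Dq q z v *ᵥ e) i := by
  refine ⟨∑ j, e j • fderiv ℝ (fun z => q z i j) z, ?_, fun v => ?_⟩
  · have h : HasFDerivAt (fun z => ∑ j, q z i j * e j)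
        (∑ j, e j • fderiv ℝ (fun z => q z i j) z) z :=
      HasFDerivAt.fun_sum fun j _ => (hasFDerivAt_entry hO hq hz i j).mul_const (e j)
    exact h
  · rw [sum_apply]
    show _ = ∑ j, Dq q z v i j * e j
    refine Finset.sum_congr rfl fun j _ => ?_
    show e j * _ = _
    rw [mul_comm]; rfl

/-- the zeros of a good section are isolated -/
theorem finite_zeros (hO : IsOpen O) (hq : ∀ i j, ContDiffOn ℝ ∞ (fun z => q z i j) O)
    (hC : IsCompact C) (hCO : C ⊆ O) {e : Fin K → ℂ} (he : e ∈ Gd q C) :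
    {z | z ∈ C ∧ q z *ᵥ e = 0}.Finite := by
  by_contra hinf
  obtain ⟨x, hxC, hacc⟩ := Set.Infinite.exists_accPt_of_subset_isCompact hinf hC
    (fun z hz => hz.1)
  have hfr : ∃ᶠ z in 𝓝[≠] x, z ∈ C ∧ q z *ᵥ e = 0 := accPt_iff_frequently_nhdsNE.1 hacc
  choose L hL hLv using hasFDerivAt_sec hO hq (hCO hxC) e
  have hd : HasFDerivAt (fun z => q z *ᵥ e) (ContinuousLinearMap.pi L) x := hasFDerivAt_pi.2 hL
  have hx0 : q x *ᵥ e = 0 := by
    by_contra hne
    have h1 : ∀ᶠ z in 𝓝 x, q z *ᵥ e ≠ 0 := hd.continuousAt.eventually_ne hne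
    obtain ⟨z, h2, h3⟩ := (hfr.and_eventually (nhdsWithin_le_nhds h1)).exists
    exact h3 h2.2
  have hinj : Injective (ContinuousLinearMap.pi L) := by
    rw [injective_iff_map_eq_zero]
    intro v hv
    by_contra hv0
    have hn : ‖v‖ ≠ 0 := norm_ne_zero_iff.2 hv0
    refine he x hxC hx0 ((‖v‖⁻¹ : ℝ) • v) (by rw [norm_smul]; simp [hn]) ?_
    ext i
    rw [← hLv i, map_smul]
    have := congrFun hv i
    simp only [ContinuousLinearMap.coe_pi', Pi.zero_apply] at this
    rw [this, smul_zero]; rfl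
  obtain ⟨c, -, hc⟩ := (ContinuousLinearMap.pi L : ℂ →L[ℝ] (Fin K → ℂ)).toLinearMap.exists_antilipschitzWith
    (LinearMap.ker_eq_bot.2 hinj)
  have hne : ∀ᶠ z in 𝓝[≠] x, q z *ᵥ e ≠ 0 := hd.eventually_ne ⟨c, hc⟩
  obtain ⟨z, h2, h3⟩ := (hfr.and_eventually hne).exists
  exact h3 h2.2

theorem isOpen_Gd (hO : IsOpen O) (hq : ∀ i j, ContDiffOn ℝ ∞ (fun z => q z i j) O)
    (hC : IsCompact C) (hCO : C ⊆ O) : IsOpen (Gd q C) := by
  have hP : IsCompact (C ×ˢ sphere (0 : ℂ) 1) := hC.prod (isCompact_sphere _ _)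
  have : CompactSpace (C ×ˢ sphere (0 : ℂ) 1 : Set (ℂ × ℂ)) := isCompact_iff_compactSpace.1 hP
  have hcq : ∀ i j, Continuous fun x : (C ×ˢ sphere (0 : ℂ) 1 : Set (ℂ × ℂ)) => q x.1.1 i j := by
    intro i j
    have h1 : ContinuousOn (fun z => q z i j) C := ((hq i j).continuousOn).mono hCO
    exact h1.comp_continuous (continuous_fst.comp continuous_subtype_val) fun x => x.2.1
  have hcD : ∀ i j, Continuous fun x : (C ×ˢ sphere (0 : ℂ) 1 : Set (ℂ × ℂ)) =>
      Dq q x.1.1 x.1.2 i j := by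
    intro i j
    have h1 : ContinuousOn (fun z => fderiv ℝ (fun z => q z i j) z) C :=
      ((hq i j).continuousOn_fderiv_of_isOpen hO (by simp)).mono hCO
    have h2 : Continuous fun x : (C ×ˢ sphere (0 : ℂ) 1 : Set (ℂ × ℂ)) =>
        fderiv ℝ (fun z => q z i j) x.1.1 :=
      h1.comp_continuous (continuous_fst.comp continuous_subtype_val) fun x => x.2.1
    exact h2.clm_apply (continuous_snd.comp continuous_subtype_val)
  set R : Set ((C ×ˢ sphere (0 : ℂ) 1 : Set (ℂ × ℂ)) × (Fin K → ℂ)) :=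
    {x | q x.1.1.1 *ᵥ x.2 = 0 ∧ Dq q x.1.1.1 x.1.1.2 *ᵥ x.2 = 0} with hR
  have hRc : IsClosed R := by
    refine IsClosed.inter (isClosed_eq ?_ continuous_const) (isClosed_eq ?_ continuous_const)
    · refine continuous_pi fun i => ?_
      show Continuous fun x : (C ×ˢ sphere (0 : ℂ) 1 : Set (ℂ × ℂ)) × (Fin K → ℂ) =>
        ∑ j, q x.1.1.1 i j * x.2 j
      exact continuous_finsetSum _ fun j _ => ((hcq i j).comp continuous_fst).mul
        ((continuous_apply j).comp continuous_snd)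
    · refine continuous_pi fun i => ?_
      show Continuous fun x : (C ×ˢ sphere (0 : ℂ) 1 : Set (ℂ × ℂ)) × (Fin K → ℂ) =>
        ∑ j, Dq q x.1.1.1 x.1.1.2 i j * x.2 j
      exact continuous_finsetSum _ fun j _ => ((hcD i j).comp continuous_fst).mul
        ((continuous_apply j).comp continuous_snd)
  have h1 : IsClosed (Prod.snd '' R) := isClosedMap_snd_of_compactSpace _ hRc
  have h2 : (Gd q C) = (Prod.snd '' R)ᶜ := by
    ext e
    simp only [Gd, mem_ofPred_eq, mem_compl_iff, mem_image, Prod.exists, exists_eq_right,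
      Subtype.exists, not_exists]
    constructor
    · rintro h a b ⟨hab, hb⟩ ⟨h3, h4⟩
      exact h a hab h3 b (by simpa using hb) h4
    · intro h z hz h3 v hv h4
      exact h z v ⟨hz, by simpa using hv⟩ ⟨h3, h4⟩
  rw [h2]
  exact h1.isOpen_compl

theorem dense_Gd_aux (hO : IsOpen O) (hq : ∀ i j, ContDiffOn ℝ ∞ (fun z => q z i j) O)
    (hCO : C ⊆ O) {i : Fin K} (hi : ∀ z ∈ C, q z i i ≠ 0) : Dense (Gd q C) := by
  rw [Metric.dense_iff]
  intro e0 δ hδ
  set g : ℂ → ℂ := fun z => -((q z *ᵥ e0) i * (q z i i)⁻¹) with hg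
  choose L hL hLv using fun z (hz : z ∈ O) => hasFDerivAt_sec hO hq hz e0 i
  have hgd : ∀ z (hz : z ∈ C), ∃ g' : ℂ →L[ℝ] ℂ, HasFDerivAt g g' z ∧ ∀ v, g' v =
      -((L z (hCO hz) v * q z i i - (q z *ᵥ e0) i * Dq q z v i i) / (q z i i) ^ 2) := by
    intro z hz
    have h1 := hL z (hCO hz)
    have h2 := hasFDerivAt_entry hO hq (hCO hz) i i
    have h2' : HasFDerivAt (fun z => (q z i i)⁻¹) _ z :=
      (hasFDerivAt_inv' (𝕜 := ℝ) (hi z hz)).comp z h2
    have h3 := (h1.mul h2').neg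
    refine ⟨_, h3, fun v => ?_⟩
    simp only [_root_.neg_apply, _root_.smul_apply, _root_.add_apply, smul_eq_mul,
      ContinuousLinearMap.comp_apply, ContinuousLinearMap.mulLeftRight_apply]
    show _ = -((L z (hCO hz) v * q z i i - (q z *ᵥ e0) i *
      (fderiv ℝ (fun z => q z i i) z v)) / (q z i i) ^ 2)
    have := hi z hz
    field_simp
    ring
  choose! g' hg' hg'v using hgd
  set A : Set ℂ := {z | z ∈ C ∧ (g' z).det = 0} with hA
  have hnull : volume (g '' A) = 0 :=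
    addHaar_image_eq_zero_of_det_fderivWithin_eq_zero volume
      (fun z hz => (hg' z hz.1).hasFDerivWithinAt) (fun z hz => hz.2)
  obtain ⟨t, ht, htA⟩ : ∃ t ∈ ball (0 : ℂ) δ, t ∉ g '' A := by
    by_contra h
    push Not at h
    have h1 : volume (ball (0 : ℂ) δ) ≤ volume (g '' A) := measure_mono h
    rw [hnull] at h1
    exact (measure_ball_pos volume (0 : ℂ) hδ).ne' (le_antisymm h1 bot_le)
  refine ⟨e0 + Pi.single i t, ?_, ?_⟩
  · rw [mem_ball, dist_eq_norm, add_sub_cancel_left, Pi.norm_single]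
    simpa using ht
  · intro z hz h0 v hv h3
    have e1 : ∀ B : Matrix (Fin K) (Fin K) ℂ, (B *ᵥ (e0 + Pi.single i t)) i =
        (B *ᵥ e0) i + B i i * t := by
      intro B
      rw [Matrix.mulVec_add, Pi.add_apply, Matrix.mulVec_single]
      simp
    have h0i := congrFun h0 i
    rw [e1, Pi.zero_apply] at h0i
    have h3i := congrFun h3 i
    rw [e1, Pi.zero_apply] at h3i
    have hne := hi z hz
    have hgt : g z = t := by
      rw [hg]
      beta_reduce
      rw [neg_eq_iff_eq_neg, ← div_eq_mul_inv, div_eq_iff hne]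
      linear_combination h0i
    have hzA : z ∉ A := fun h => htA ⟨z, h, hgt⟩
    have hdet : (g' z).det ≠ 0 := fun h => hzA ⟨hz, h⟩
    have hgv : g' z v = 0 := by
      rw [hg'v z hz v, hLv z (hCO hz) v]
      have : (Dq q z v *ᵥ e0) i * q z i i - (q z *ᵥ e0) i * Dq q z v i i = 0 := by
        linear_combination (q z i i) * h3i - (Dq q z v i i) * h0i
      rw [this]; simp
    have hinj : Injective (g' z) := by
      have h4 : (g' z : ℂ →ₗ[ℝ] ℂ).det ≠ 0 := hdet
      exact (LinearEquiv.ofIsUnitDet (f := (g' z : ℂ →ₗ[ℝ] ℂ)) (isUnit_iff_ne_zero.2 (by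
        rwa [LinearMap.det_toMatrix (Module.finBasis ℝ ℂ)]) : IsUnit
          (LinearMap.toMatrix (Module.finBasis ℝ ℂ) (Module.finBasis ℝ ℂ)
            (g' z : ℂ →ₗ[ℝ] ℂ)).det)).injective
    have : v = 0 := by
      apply hinj
      rw [hgv, map_zero]
    rw [this, norm_zero] at hv
    exact zero_ne_one hv

/-- **transversality**: `Gd q C` is open and dense. -/
theorem Gd_open_dense (hO : IsOpen O) (hq : ∀ i j, ContDiffOn ℝ ∞ (fun z => q z i j) O)
    (hC : IsCompact C) (hCO : C ⊆ O) (htr : ∀ z ∈ C, (q z).trace = 1) :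
    IsOpen (Gd q C) ∧ Dense (Gd q C) := by
  refine ⟨isOpen_Gd hO hq hC hCO, ?_⟩
  -- the pieces
  have hKpos : C.Nonempty → 0 < K := by
    rintro ⟨z, hz⟩
    rcases Nat.eq_zero_or_pos K with h | h
    · subst h
      have := htr z hz
      simp [Matrix.trace] at this
    · exact h
  set P : Fin K → Set ℂ := fun i => {z | z ∈ C ∧ (1 : ℝ) / K ≤ ‖q z i i‖} with hP
  have hPc : ∀ i, IsCompact (P i) := by
    intro i
    have h1 : ContinuousOn (fun z => ‖q z i i‖) C := ((hq i i).continuousOn.mono hCO).norm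
    have h2 : IsClosed (C ∩ (fun z => ‖q z i i‖) ⁻¹' Ici ((1 : ℝ) / K)) :=
      h1.preimage_isClosed_of_isClosed hC.isClosed isClosed_Ici
    exact hC.of_isClosed_subset h2 inter_subset_left
  have hcov : Gd q C = ⋂ i, Gd q (P i) := by
    refine Subset.antisymm (subset_iInter fun i => Gd_mono fun z hz => hz.1) ?_
    intro e he z hz
    have hK := hKpos ⟨z, hz⟩
    have : ∃ i, (1 : ℝ) / K ≤ ‖q z i i‖ := by
      by_contra h
      push Not at h
      have h1 : ‖(q z).trace‖ < 1 := by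
        calc ‖(q z).trace‖ ≤ ∑ i, ‖q z i i‖ := norm_sum_le _ _
          _ < ∑ _i : Fin K, (1 : ℝ) / K := by
            have : Nonempty (Fin K) := ⟨⟨0, hK⟩⟩
            exact Finset.sum_lt_sum_of_nonempty Finset.univ_nonempty fun i _ => h i
          _ = 1 := by
            rw [Finset.sum_const, Finset.card_univ, Fintype.card_fin, nsmul_eq_mul]
            field_simp
      rw [htr z hz] at h1
      simp at h1
    obtain ⟨i, hi⟩ := this
    exact (mem_iInter.1 he i) z ⟨hz, hi⟩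
  rw [hcov]
  refine dense_iInter_of_isOpen (fun i => isOpen_Gd hO hq (hPc i) fun z hz => hCO hz.1) fun i => ?_
  refine dense_Gd_aux hO hq (fun z hz => hCO hz.1) (i := i) fun z hz h => ?_
  have h1 := hz.2
  rw [h, norm_zero] at h1
  have hK := hKpos ⟨z, hz.1⟩
  have : (0 : ℝ) < 1 / K := by positivity
  linarith

end

end Crest.Agent.R235.Integ_796
end

-- ▼ part R235/IntegB_796
section

/-!
Row 235 (S0364), package ADJ, leaf X3 (INTEG), helper796, file B: the planar integral.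
If `om` is a one-form on a disc with `om = (1/2π) d arg F` near a circle, then the integral of
`η dom` (`η` a radial cut-off) is the winding number of `F`.
-/

set_option autoImplicit false

open Set Function Filter Topology Metric MeasureTheory
open scoped ContDiff Real

namespace Crest.Agent.R235.Integ_796

open Crest.Agent.R240.Ch Crest.Agent.R235.Wind_688

noncomputable section

theorem integral_fderiv_zero_real {f : ℂ → ℝ} (hf : ContDiff ℝ 1 f) (hs : HasCompactSupport f)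
    (v : ℂ) : Integrable (fun z => fderiv ℝ f z v) ∧ ∫ z, fderiv ℝ f z v = 0 := by
  have hc : Continuous fun z => fderiv ℝ f z v :=
    (hf.continuous_fderiv one_ne_zero).clm_apply continuous_const
  have hcs : HasCompactSupport fun z => fderiv ℝ f z v := by
    have h1 := hs.fderiv (𝕜 := ℝ)
    refine h1.mono ?_
    intro z hz
    rw [Function.mem_support] at hz ⊢
    intro h0; exact hz (by rw [h0]; rfl)
  refine ⟨hc.integrable_of_hasCompactSupport hcs, ?_⟩
  have h := integral_mul_fderiv_eq_neg_fderiv_mul_of_integrable (μ := (volume : Measure ℂ))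
    (𝕜 := ℝ) (f := fun _ : ℂ => (1 : ℝ)) (g := f) (v := v) (by simp)
    (by simpa using hc.integrable_of_hasCompactSupport hcs)
    (by simpa using hf.continuous.integrable_of_hasCompactSupport hs)
    (fun x _ => differentiableAt_const _) (fun x _ => (hf.differentiable one_ne_zero) x)
  simpa using h

/-- a product with a cut-off, extended by zero -/
theorem contDiff_cut {U : Set ℂ} (hU : IsOpen U) {χ : ℂ → ℝ} {G : ℂ → ℝ} (hχ : ContDiff ℝ 1 χ)
    (hsub : tsupport χ ⊆ U) (hG : ContDiffOn ℝ 1 G U) : ContDiff ℝ 1 fun z => χ z * G z := by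
  rw [contDiff_iff_contDiffAt]
  intro z
  by_cases hz : z ∈ tsupport χ
  · exact hχ.contDiffAt.mul (hG.contDiffAt (hU.mem_nhds (hsub hz)))
  · have : (fun z => χ z * G z) =ᶠ[𝓝 z] fun _ => 0 := by
      have := (isClosed_tsupport χ).isOpen_compl.mem_nhds hz
      filter_upwards [this] with y hy
      rw [image_eq_zero_of_notMem_tsupport hy]; simp
    exact contDiffAt_const.congr_of_eventuallyEq this

/-- **planar integral**. -/
theorem planar_int {om : ℂ → ℂ →L[ℝ] ℝ} {R : ℝ} (hR : 0 < R) (hom : ContDiffOn ℝ 1 om (ball 0 R))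
    {F : ℂ → ℂ} (hF : ContDiffOn ℝ 1 F (ball 0 R \ {0})) (h0 : ∀ z ∈ ball 0 R \ {0}, F z ≠ 0)
    {a b : ℝ} (ha : 0 < a) (hab : a < b) (hb : b < R ^ 2)
    (hrel : ∀ z : ℂ, a ≤ ‖z‖ ^ 2 → ‖z‖ ^ 2 ≤ b → ∀ v,
      om z v = (2 * π)⁻¹ * (fderiv ℝ F z v / F z).im) :
    ∃ n : ℤ, ∫ z, rbc 0 a b z * d1 om z 1 Complex.I = n := by
  -- the winding number
  obtain ⟨n, hn⟩ : ∃ n, IsW F 0 (R / 2) n := by
    have hs : ∀ z ∈ sphere (0 : ℂ) (R / 2), z ∈ ball (0 : ℂ) R \ {0} := by
      intro z hz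
      rw [mem_sphere, dist_zero_right] at hz
      refine ⟨by rw [mem_ball, dist_zero_right, hz]; linarith, ?_⟩
      intro h
      rw [mem_singleton_iff] at h
      rw [h, norm_zero] at hz
      linarith
    exact exists_isW (by positivity) (hF.continuousOn.mono hs) fun z hz => h0 z (hs z hz)
  have hnr : ∀ r, 0 < r → r < R → IsW F 0 r n := fun r hr hrR =>
    IsW.radius' hF.continuousOn (fun z hz hz0 => h0 z ⟨hz, hz0⟩) (by positivity) (by linarith)
      hr hrR hn
  have hrad := cut_radial hF h0 hnr ha hab hb hR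
  have hradi := cut_radial_int hF h0 ha hab hb hR
  -- the form `η om`
  set η : ℂ → ℝ := rbc 0 a b with hη
  have hηc : ContDiff ℝ 1 η := rbc_contDiff _ _ _
  have hbpos : 0 < b := ha.trans hab
  have hsup : tsupport η ⊆ ball (0 : ℂ) R := by
    refine (rbc_supp hab (Real.sqrt_nonneg b) (Real.sq_sqrt hbpos.le).ge).trans ?_
    intro z hz
    rw [mem_closedBall] at hz
    rw [mem_ball]
    exact hz.trans_lt ((Real.sqrt_lt' hR).2 hb)
  have hηs : HasCompactSupport η := rbc_compact hab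
  have homv : ∀ v : ℂ, ContDiffOn ℝ 1 (fun z => om z v) (ball 0 R) := fun v =>
    hom.clm_apply contDiffOn_const
  have hP : ∀ v : ℂ, ContDiff ℝ 1 fun z => η z * om z v := fun v =>
    contDiff_cut isOpen_ball hηc hsup (homv v)
  have hPs : ∀ v : ℂ, HasCompactSupport fun z => η z * om z v := fun v => hηs.mul_right
  have hI1 := integral_fderiv_zero_real (hP Complex.I) (hPs Complex.I) 1
  have hI2 := integral_fderiv_zero_real (hP 1) (hPs 1) Complex.I
  -- the key identity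
  have key : ∀ z, η z * d1 om z 1 Complex.I =
      fderiv ℝ (fun z => η z * om z Complex.I) z 1 - fderiv ℝ (fun z => η z * om z 1) z Complex.I -
        (2 * π)⁻¹ * (jac η F z / F z).im := by
    intro z
    have hjac : fderiv ℝ η z 1 * om z Complex.I - fderiv ℝ η z Complex.I * om z 1 =
        (2 * π)⁻¹ * (jac η F z / F z).im := by
      by_cases hz : ‖z‖ ^ 2 < a ∨ b < ‖z‖ ^ 2
      · have h1 : fderiv ℝ η z = 0 :=
          (rbc_fderiv hab (z := z) (p := 0) (by simpa using hz)).self_of_nhds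
        simp [jac, h1]
      · push Not at hz
        rw [hrel z hz.1 hz.2, hrel z hz.1 hz.2]
        unfold jac
        have e : ((fderiv ℝ η z 1 : ℂ) * fderiv ℝ F z Complex.I -
            (fderiv ℝ η z Complex.I : ℂ) * fderiv ℝ F z 1) / F z =
            (fderiv ℝ η z 1 : ℂ) * (fderiv ℝ F z Complex.I / F z) -
            (fderiv ℝ η z Complex.I : ℂ) * (fderiv ℝ F z 1 / F z) := by ring
        rw [e, Complex.sub_im, Complex.im_ofReal_mul, Complex.im_ofReal_mul]
        ring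
    by_cases hz : z ∈ tsupport η
    · have hzB := isOpen_ball.mem_nhds (hsup hz)
      have homd : DifferentiableAt ℝ om z := (hom.contDiffAt hzB).differentiableAt one_ne_zero
      have hηd : DifferentiableAt ℝ η z := (hηc.differentiable one_ne_zero) z
      have hv : ∀ v : ℂ, HasFDerivAt (fun z => om z v)
          ((ContinuousLinearMap.apply ℝ ℝ v).comp (fderiv ℝ om z)) z := fun v =>
        (ContinuousLinearMap.apply ℝ ℝ v).hasFDerivAt.comp z homd.hasFDerivAt
      have hm : ∀ v : ℂ, HasFDerivAt (fun z => η z * om z v) _ z := fun v =>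
        hηd.hasFDerivAt.mul (hv v)
      rw [(hm Complex.I).fderiv, (hm 1).fderiv, ← hjac, d1_apply]
      simp only [_root_.add_apply, _root_.smul_apply, ContinuousLinearMap.comp_apply,
        ContinuousLinearMap.apply_apply, smul_eq_mul]
      ring
    · have h1 : ∀ v w : ℂ, fderiv ℝ (fun z => η z * om z v) z w = 0 := by
        intro v w
        have : (fun z => η z * om z v) =ᶠ[𝓝 z] fun _ => 0 := by
          filter_upwards [(isClosed_tsupport η).isOpen_compl.mem_nhds hz] with y hy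
          rw [image_eq_zero_of_notMem_tsupport hy]; simp
        rw [this.fderiv_eq]; simp
      rw [h1, h1, image_eq_zero_of_notMem_tsupport hz, jac_supp hz]
      simp
  refine ⟨n, ?_⟩
  have him : Integrable fun z => (2 * π)⁻¹ * (jac η F z / F z).im := hradi.im.const_mul _
  calc ∫ z, η z * d1 om z 1 Complex.I
      = ∫ z, (fderiv ℝ (fun z => η z * om z Complex.I) z 1 -
          fderiv ℝ (fun z => η z * om z 1) z Complex.I -
          (2 * π)⁻¹ * (jac η F z / F z).im) := by simp_rw [key]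
    _ = 0 - 0 - (2 * π)⁻¹ * (∫ z, jac η F z / F z).im := by
        have e1 := integral_sub (hI1.1.sub hI2.1) him
        have e2 := integral_sub hI1.1 hI2.1
        have e3 : ∫ z, (jac η F z / F z).im = (∫ z, jac η F z / F z).im :=
          Complex.imCLM.integral_comp_comm hradi
        simp only [Pi.sub_apply] at e1 e2
        rw [e1, e2, hI1.2, hI2.2, integral_const_mul, e3]
    _ = n := by
        rw [hrad]
        simp
        field_simp

end

end Crest.Agent.R235.Integ_796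
end

-- ▼ part R235/IntegC_796
section

/-!
Row 235 (S0364), package ADJ, leaf X3 (INTEG), helper796, file C: the section `p e` of a line bundle
and its connection form.
-/

set_option autoImplicit false
set_option maxSynthPendingDepth 3
set_option linter.unusedSectionVars false

open Set Function Filter Topology Complex
open scoped ContDiff ComplexConjugate Matrix Manifold ComplexOrder

universe u

namespace Crest.Agent.R235.Integ_796

open Crest.Agent.R240 Crest.Agent.R240.Ch Crest.Agent.R235.Loc_524 Crest.Agent.R235.Lb453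

noncomputable section

/-! ### linear algebra -/

section lin

variable {K : ℕ} {P : Matrix (Fin K) (Fin K) ℂ}

/-- the square norm of a vector -/
def nsqv (v : Fin K → ℂ) : ℝ := ∑ l, Complex.normSq (v l)

/-- the normalised vector -/
def nv (v : Fin K → ℂ) (l : Fin K) : ℂ := v l * (((√(nsqv v))⁻¹ : ℝ) : ℂ)

theorem nsqv_nonneg (v : Fin K → ℂ) : 0 ≤ nsqv v := Finset.sum_nonneg fun _ _ => normSq_nonneg _

theorem nsqv_eq_zero {v : Fin K → ℂ} (h : nsqv v = 0) : v = 0 := by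
  funext l
  have := (Finset.sum_eq_zero_iff_of_nonneg fun l _ => normSq_nonneg (v l)).1 h l (Finset.mem_univ l)
  exact normSq_eq_zero.1 this

theorem nsqv_pos {v : Fin K → ℂ} (h : v ≠ 0) : 0 < nsqv v :=
  lt_of_le_of_ne (nsqv_nonneg v) fun h0 => h (nsqv_eq_zero h0.symm)

theorem nv_unit {v : Fin K → ℂ} (h : 0 < nsqv v) : ∑ l, conj (nv v l) * nv v l = 1 := by
  have e : ∀ l, conj (nv v l) * nv v l = ((normSq (v l) * (nsqv v)⁻¹ : ℝ) : ℂ) := by
    intro l
    unfold nv
    rw [map_mul, Complex.conj_ofReal]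
    have hs : (((√(nsqv v))⁻¹ : ℝ) : ℂ) * (((√(nsqv v))⁻¹ : ℝ) : ℂ) = (((nsqv v)⁻¹ : ℝ) : ℂ) := by
      rw [← Complex.ofReal_mul, ← mul_inv, Real.mul_self_sqrt h.le]
    rw [Complex.ofReal_mul, Complex.normSq_eq_conj_mul_self]
    linear_combination (conj (v l) * v l) * hs
  simp only [e]
  rw [← Complex.ofReal_sum, ← Finset.sum_mul]
  show (((nsqv v) * (nsqv v)⁻¹ : ℝ) : ℂ) = 1
  rw [mul_inv_cancel₀ h.ne', Complex.ofReal_one]

theorem exists_diag (ht : P.trace = 1) : ∃ m, P m m ≠ 0 := by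
  by_contra h
  push Not at h
  have : P.trace = 0 := Finset.sum_eq_zero fun i _ => h i
  rw [ht] at this
  exact one_ne_zero this

/-- the projection on the normalised section. -/
theorem pr_nv (hi : P * P = P) (hh : P.conjTranspose = P) (ht : P.trace = 1) {e : Fin K → ℂ}
    (h : 0 < nsqv (P *ᵥ e)) : P = pr (nv (P *ᵥ e)) := by
  obtain ⟨m, hm⟩ := exists_diag ht
  have hP := eq_pr_col hi hh ht hm
  have hu := col_unit hi hh hm
  set t : Fin K → ℂ := col P m with htdef
  set φ : ℂ := ∑ k, conj (t k) * e k with hφ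
  have hv : ∀ l, (P *ᵥ e) l = t l * φ := by
    intro l
    show ∑ k, P l k * e k = _
    rw [hφ, Finset.mul_sum]
    refine Finset.sum_congr rfl fun k _ => ?_
    conv_lhs => rw [hP]
    unfold Lb453.pr
    ring
  have hn : nsqv (P *ᵥ e) = normSq φ := by
    have e1 : ((nsqv (P *ᵥ e) : ℝ) : ℂ) = ((normSq φ : ℝ) : ℂ) := by
      unfold nsqv
      rw [Complex.ofReal_sum]
      have e2 : ∀ l, ((normSq ((P *ᵥ e) l) : ℝ) : ℂ) = (conj (t l) * t l) * ((normSq φ : ℝ) : ℂ) := by
        intro l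
        rw [hv l, Complex.normSq_eq_conj_mul_self, Complex.normSq_eq_conj_mul_self, map_mul]
        ring
      simp only [e2, ← Finset.sum_mul, hu, one_mul]
    exact_mod_cast e1
  have hs : (((√(nsqv (P *ᵥ e)))⁻¹ : ℝ) : ℂ) * (((√(nsqv (P *ᵥ e)))⁻¹ : ℝ) : ℂ) *
      (φ * conj φ) = 1 := by
    rw [← Complex.ofReal_mul, ← mul_inv, Real.mul_self_sqrt h.le, hn, Complex.mul_conj,
      ← Complex.ofReal_mul]
    rw [hn] at h
    rw [inv_mul_cancel₀ h.ne', Complex.ofReal_one]
  ext i j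
  have e1 : P i j = t i * conj (t j) := by
    conv_lhs => rw [hP]
    rfl
  rw [e1]
  show _ = nv (P *ᵥ e) i * conj (nv (P *ᵥ e) j)
  unfold nv
  rw [hv i, hv j, map_mul, map_mul, Complex.conj_ofReal]
  linear_combination (-(t i * conj (t j))) * hs

end lin

variable {M : Type u} [TopologicalSpace M] [ChartedSpace E4 M] [IsManifold 𝓘(ℝ, E4) ∞ M]
variable {K : ℕ} {p : M → Matrix (Fin K) (Fin K) ℂ}

/-! ### the section `p e` -/

/-- the square norm of the section `p e`. -/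
def hh (p : M → Matrix (Fin K) (Fin K) ℂ) (e : Fin K → ℂ) (x : M) : ℝ := nsqv (p x *ᵥ e)

/-- the normalised section. -/
def sn (p : M → Matrix (Fin K) (Fin K) ℂ) (e : Fin K → ℂ) (x : M) : Fin K → ℂ := nv (p x *ᵥ e)

theorem sc_const (c : ℂ) (x : M) : SC (fun _ => c) x := contDiffAt_const

theorem sc_sec (hp : ∀ i j, ContMDiff 𝓘(ℝ, E4) 𝓘(ℝ, ℂ) ∞ (fun x => p x i j)) (e : Fin K → ℂ)
    (l : Fin K) (x : M) : SC (fun z => (p z *ᵥ e) l) x := by
  show SC (fun z => ∑ j, p z l j * e j) x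
  exact SC.sum fun j _ => (sc_entry hp l j x).mul (sc_const (e j) x)

theorem smAt_hh (hp : ∀ i j, ContMDiff 𝓘(ℝ, E4) 𝓘(ℝ, ℂ) ∞ (fun x => p x i j)) (e : Fin K → ℂ)
    (x : M) : ContDiffAt ℝ ∞ (fun y => hh p e ((chartAt E4 x).symm y)) (chartAt E4 x x) := by
  unfold hh nsqv
  refine ContDiffAt.sum fun l _ => ?_
  have h1 := sc_sec hp e l x
  have h2 : ContDiffAt ℝ ∞ (fun y => (rc x (fun z => (p z *ᵥ e) l) y).re *
      (rc x (fun z => (p z *ᵥ e) l) y).re + (rc x (fun z => (p z *ᵥ e) l) y).im *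
      (rc x (fun z => (p z *ᵥ e) l) y).im) (chartAt E4 x x) :=
    (h1.re.mul h1.re).add (h1.im.mul h1.im)
  refine h2.congr_of_eventuallyEq (Eventually.of_forall fun y => ?_)
  exact Complex.normSq_apply _

theorem continuous_hh (hp : ∀ i j, ContMDiff 𝓘(ℝ, E4) 𝓘(ℝ, ℂ) ∞ (fun x => p x i j))
    (e : Fin K → ℂ) : Continuous (hh p e) := by
  unfold hh nsqv
  refine continuous_finsetSum _ fun l _ => Complex.continuous_normSq.comp ?_
  show Continuous fun x => ∑ j, p x l j * e j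
  exact continuous_finsetSum _ fun j _ => ((hp l j).continuous).mul continuous_const

theorem sc_sn (hp : ∀ i j, ContMDiff 𝓘(ℝ, E4) 𝓘(ℝ, ℂ) ∞ (fun x => p x i j)) {e : Fin K → ℂ}
    {x : M} (hx : 0 < hh p e x) (l : Fin K) : SC (fun z => sn p e z l) x := by
  refine (sc_sec hp e l x).mul ?_
  have h1 := smAt_hh hp e x
  have h2 : hh p e ((chartAt E4 x).symm (chartAt E4 x x)) ≠ 0 := by
    rw [(chartAt E4 x).left_inv (mem_chart_source E4 x)]; exact hx.ne'
  have h3 := (h1.sqrt h2).inv (by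
    rw [(chartAt E4 x).left_inv (mem_chart_source E4 x)]; exact (Real.sqrt_pos.2 hx).ne')
  exact Complex.ofRealCLM.contDiff.contDiffAt.comp _ h3

variable [T2Space M] [CompactSpace M]

/-- **curvature**: the differential of the connection form of any unit section is the Chern form. -/
theorem dG_conn_gen {a : Z2 M} (ha : IsChern p a) {s : M → Fin K → ℂ}
    {U : Set M} (hU : IsOpen U) (hs : ∀ x ∈ U, ∀ l, SC (fun z => s z l) x)
    (hs1 : ∀ x ∈ U, ∑ l, conj (s x l) * s x l = 1) (hpr : ∀ x ∈ U, p x = pr (s x)) {x : M}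
    (hx : x ∈ U) : at2 (dG (conn s)) x = at2 (a.1.1 : F2 E4 M) x := by
  ext u v
  rw [dG_conn hU hs hx]
  have h := ha x u v
  have h' : at2 (a.1.1 : F2 E4 M) x u v = val a x u v := rfl
  rw [h', h]
  set y0 := chartAt E4 x x with hy0
  set V : E4 → Fin K → ℂ := fun y => s ((chartAt E4 x).symm y) with hV
  have hOe : ∀ᶠ z in 𝓝 x, z ∈ U := hU.mem_nhds hx
  have hpev : ∀ᶠ y in 𝓝 y0, p ((chartAt E4 x).symm y) = pr (V y) := by
    filter_upwards [ev_chart hOe] with y hy
    exact hpr _ hy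
  have hp0 : p x = pr (V y0) := by
    have := hpev.self_of_nhds
    rwa [hy0, (chartAt E4 x).left_inv (mem_chart_source E4 x)] at this
  have hdm : ∀ w, dmat p x w = Matrix.of fun i j => fderiv ℝ (fun z => pr (V z) i j) y0 w := by
    intro w
    ext i j
    have h : (fun y : E4 => p ((chartAt E4 x).symm y) i j) =ᶠ[𝓝 y0] fun z => pr (V z) i j := by
      filter_upwards [hpev] with y hy
      rw [hy]
    show fderiv ℝ (fun y : E4 => p ((chartAt E4 x).symm y) i j) (chartAt E4 x x) w = _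
    rw [← hy0, h.fderiv_eq]
    rfl
  have hunit : ∀ᶠ z in 𝓝 y0, ∑ i, conj (V z i) * V z i = 1 := by
    filter_upwards [ev_chart hOe] with y hy
    exact hs1 _ hy
  have hVd : ∀ i, DifferentiableAt ℝ (fun y => V y i) y0 := fun i => (hs x hx i).diff
  rw [hdm, hdm]
  nth_rewrite 1 [hp0]
  rw [curv_pr hVd hunit]
  rfl

omit [T2Space M] [CompactSpace M] in
/-- comparison of the connection forms of two unit sections of the same line bundle. -/
theorem conn_diff {s t : M → Fin K → ℂ} {U : Set M} (hU : IsOpen U)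
    (hs : ∀ x ∈ U, ∀ l, SC (fun z => s z l) x) (ht : ∀ x ∈ U, ∀ l, SC (fun z => t z l) x)
    (hs1 : ∀ x ∈ U, ∑ l, conj (s x l) * s x l = 1) (ht1 : ∀ x ∈ U, ∑ l, conj (t x l) * t x l = 1)
    (hst : ∀ x ∈ U, pr (s x) = pr (t x)) {x : M} (hx : x ∈ U) (u : E4) :
    SC (fun z => ∑ k, conj (t z k) * s z k) x ∧
    conj (∑ k, conj (t x k) * s x k) * (∑ k, conj (t x k) * s x k) = 1 ∧
    at1 (conn t) x u - at1 (conn s) x u = (2 * Real.pi)⁻¹ *
      (dC (fun z => ∑ k, conj (t z k) * s z k) x u / (∑ k, conj (t x k) * s x k)).im := by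
  have hρ : SC (fun z => ∑ k, conj (t z k) * s z k) x :=
    SC.sum fun k _ => ((ht x hx k).conj).mul (hs x hx k)
  have hρ1 := norm_ip (ht1 x hx) (hs1 x hx) (hst x hx).symm
  refine ⟨hρ, hρ1, ?_⟩
  rw [conn_apply (hs x hx), conn_apply (ht x hx)]
  set ρ : M → ℂ := fun z => ∑ k, conj (t z k) * s z k with hρdef
  have hse : ∀ l, ∀ᶠ z in 𝓝 x, s z l = ρ z * t z l := by
    intro l
    filter_upwards [hU.mem_nhds hx] with z hz
    exact pr_eq_pr (hs1 z hz) (hst z hz).symm l
  have hd : ∀ l, dC (fun z => s z l) x u = ρ x * dC (fun z => t z l) x u +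
      t x l * dC ρ x u := by
    intro l
    rw [dC_congr (hse l), dC_mul hρ (ht x hx l)]
  have hsx : ∀ l, s x l = ρ x * t x l := fun l => (hse l).self_of_nhds
  have hρ1' : conj (ρ x) * ρ x = 1 := hρ1
  have key : ∑ l, conj (s x l) * dC (fun z => s z l) x u =
      (∑ l, conj (t x l) * dC (fun z => t z l) x u) + conj (ρ x) * dC ρ x u := by
    have e : ∀ l, conj (s x l) * dC (fun z => s z l) x u =
        conj (t x l) * dC (fun z => t z l) x u +
          (conj (t x l) * t x l) * (conj (ρ x) * dC ρ x u) := by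
      intro l
      rw [hd l, hsx l, map_mul]
      linear_combination (conj (t x l) * dC (fun z => t z l) x u) * hρ1'
    simp only [e, Finset.sum_add_distrib, ← Finset.sum_mul, ht1 x hx, one_mul]
  have hinv : dC ρ x u / ρ x = conj (ρ x) * dC ρ x u := by
    have h0 : ρ x ≠ 0 := fun h => by rw [h, mul_zero] at hρ1'; exact zero_ne_one hρ1'
    rw [div_eq_iff h0]
    linear_combination (-(dC ρ x u)) * hρ1'
  show _ = (2 * Real.pi)⁻¹ * (dC ρ x u / ρ x).im
  rw [key, mul_add, Complex.add_re, hinv]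
  have e3 : (I / (2 * Real.pi)) * (conj (ρ x) * dC ρ x u) =
      (((2 * Real.pi)⁻¹ : ℝ) : ℂ) * (I * (conj (ρ x) * dC ρ x u)) := by
    push_cast; ring
  rw [e3, Complex.re_ofReal_mul]
  simp only [Complex.mul_re, Complex.I_re, Complex.I_im, Complex.mul_im]
  ring

omit [T2Space M] [CompactSpace M] in
/-- the chain rule for complex functions. -/
theorem fderiv_comp_dC {g : M → ℂ} {u : ℂ → M} {z : ℂ}
    (hu : ContMDiffAt 𝓘(ℝ, ℂ) 𝓘(ℝ, E4) ∞ u z) (hg : SC g (u z)) :
    ContDiffAt ℝ ∞ (fun z => g (u z)) z ∧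
      ∀ v, fderiv ℝ (fun z => g (u z)) z v = dC g (u z) (dmap u z v) := by
  have hc := AdjGen_83.contDiffAt_chart hu (mem_chart_source E4 (u z))
  have h1 : (fun z => g (u z)) =ᶠ[𝓝 z] fun y => rc (u z) g (chartAt E4 (u z) (u y)) := by
    filter_upwards [hu.continuousAt.eventually ((chartAt E4 (u z)).open_source.mem_nhds
      (mem_chart_source E4 (u z)))] with y hy
    unfold rc
    rw [(chartAt E4 (u z)).left_inv hy]
  have hg' : ContDiffAt ℝ ∞ (rc (u z) g) ((fun y => chartAt E4 (u z) (u y)) z) := hg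
  refine ⟨(ContDiffAt.comp z (f := fun y => chartAt E4 (u z) (u y)) hg' hc).congr_of_eventuallyEq
    h1, fun v => ?_⟩
  rw [h1.fderiv_eq]
  have h2 := fderiv_comp (g := rc (u z) g) (f := fun y => chartAt E4 (u z) (u y)) z
    (hg.differentiableAt (by simp)) (hc.differentiableAt (by simp))
  have h3 : fderiv ℝ (fun y => rc (u z) g (chartAt E4 (u z) (u y))) z =
    (fderiv ℝ (rc (u z) g) (chartAt E4 (u z) (u z))).comp
      (fderiv ℝ (fun y => chartAt E4 (u z) (u y)) z) := h2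
  rw [h3]
  rfl

end

end Crest.Agent.R235.Integ_796
end

-- ▼ part R235/IntegD_796
section

/-!
Row 235 (S0364), package ADJ, leaf X3 (INTEG), helper796, file D: the local contribution of a zero
of the section `p e` to the integral of the Chern form over a `J`-curve is an integer.
-/

set_option autoImplicit false
set_option maxSynthPendingDepth 3
set_option linter.unusedSectionVars false

open Set Function Filter Topology Metric MeasureTheory
open scoped ContDiff ComplexConjugate Matrix Manifold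

universe u

namespace Crest.Agent.R235.Integ_796

open Crest.Agent.R240 Crest.Agent.R240.Ch Crest.Agent.R235.Loc_524 Crest.Agent.R235.Lb453
open Crest.Agent.R235.Glob_370 Crest.Agent.R235.Wind_688 Crest.Agent.R235.Pull_129

noncomputable section

variable {M : Type u} [TopologicalSpace M] [T2Space M] [CompactSpace M]
  [ChartedSpace E4 M] [IsManifold 𝓘(ℝ, E4) ∞ M] {J : EndF E4 M}

theorem mem_range_of_disc (c : JCurve J) (x0 : M) (j : Fin (c.L x0).n) {z : ℂ}
    (hz : z ∈ ball (0 : ℂ) 1) : (c.L x0).u j z ∈ range c.f ∩ (c.L x0).U := by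
  rw [(c.L x0).supp]
  exact mem_iUnion.2 ⟨j, mem_image_of_mem _ hz⟩

/-- **support**: `T b` only depends on the values of `b` on the curve. -/
theorem T_eq_zero (c : JCurve J) {b : X2 M} (hb : ∀ x ∈ range c.f, at2 (b.1 : F2 E4 M) x = 0) :
    c.T b = 0 := by
  obtain ⟨t, χ, hχs, hχ1, hχU⟩ := AdjGen_83.exists_pu (fun p => (c.L p).U)
    (fun p => (c.L p).openU) (fun p => (c.L p).mem)
  set bb : M → X2 M := fun p => ⟨fmul (χ p) b.1, Smooth2.fmul (hχs p) b.2⟩ with hbb
  have h1 : ∀ p, c.T (bb p) = 0 := by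
    intro p
    rw [c.cur p (bb p) (tsupport (χ p)) (isClosed_tsupport (χ p)).isCompact (hχU p) (by
      intro x hx
      show χ p x • at2 (b.1 : F2 E4 M) x = 0
      rw [image_eq_zero_of_notMem_tsupport hx, zero_smul])]
    refine Finset.sum_eq_zero fun j _ => ?_
    refine (setIntegral_congr_fun measurableSet_ball fun z hz => ?_).trans
      (by simp : ∫ z in ball (0 : ℂ) 1, (0 : ℝ) = 0)
    have h2 := hb _ (mem_range_of_disc c p j hz).1
    show (χ p _ • at2 (b.1 : F2 E4 M) _) _ _ = 0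
    rw [h2, smul_zero]; rfl
  have h2 : ∑ p ∈ t, bb p = b := by
    apply Subtype.ext
    rw [AddSubmonoidClass.coe_finsetSum]
    funext x
    rw [Finset.sum_apply]
    show ∑ p ∈ t, χ p x • (b.1 : F2 E4 M) x = b.1 x
    rw [← Finset.sum_smul, hχ1, one_smul]
  rw [← h2, map_sum]
  exact Finset.sum_eq_zero fun p _ => h1 p

variable {K : ℕ} {p : M → Matrix (Fin K) (Fin K) ℂ} {a : Z2 M}

theorem isOpen_hh (hp : IsLine p) (e : Fin K → ℂ) : IsOpen {x | 0 < hh p e x} :=
  isOpen_lt continuous_const (continuous_hh hp.smooth e)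

theorem dG_sn (hp : IsLine p) (ha : IsChern p a) {e : Fin K → ℂ} {x : M} (hx : 0 < hh p e x) :
    at2 (dG (conn (sn p e))) x = at2 (a.1.1 : F2 E4 M) x :=
  dG_conn_gen ha (isOpen_hh hp e) (fun _ hz l => sc_sn hp.smooth hz l)
    (fun _ hz => nv_unit hz) (fun z hz => pr_nv (hp.idem z) (hp.herm z) (hp.rank z) hz) hx

theorem smooth1_sub {s t : F1 E4 M} (hs : Smooth1 s) (ht : Smooth1 t) : Smooth1 (s - t) := by
  rw [smooth1_iff_smAt]
  exact fun x => (smAt1_of_smooth hs x).sub (smAt1_of_smooth ht x)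

/-- `a - dS`. -/
def bX (a : Z2 M) {S : F1 E4 M} (hS : Smooth1 S) : X2 M := a.1 - ⟨dG S, Smooth2.dG hS⟩

/-- `χ (a - dS)`. -/
def cX (a : Z2 M) {S : F1 E4 M} (hS : Smooth1 S) {χ : M → ℝ} (hχ : SmoothF E4 χ) : X2 M :=
  ⟨fmul χ (bX a hS).1, Smooth2.fmul hχ (bX a hS).2⟩

theorem at2_bX (a : Z2 M) {S : F1 E4 M} (hS : Smooth1 S) (x : M) :
    at2 ((bX a hS).1 : F2 E4 M) x = at2 (a.1.1 : F2 E4 M) x - at2 (dG S) x := rfl

/-- **the local contribution**. -/
theorem local_int (c : JCurve J) (hp : IsLine p) (ha : IsChern p a) (e : Fin K → ℂ) {x0 : M}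
    {O : Set M} (hO : IsOpen O) (hx0 : x0 ∈ O) (hOU : O ⊆ (c.L x0).U) {m : Fin K}
    (hOm : O ⊆ Om p m) (hz : ∀ x ∈ O, x ∈ range c.f → p x *ᵥ e = 0 → x = x0)
    {χ : M → ℝ} (hχ : SmoothF E4 χ) (hχ1 : ∀ᶠ x in 𝓝 x0, χ x = 1) (hχO : tsupport χ ⊆ O) :
    ∃ G : Set M, IsOpen G ∧ x0 ∈ G ∧ G ⊆ O ∧ (∀ x ∈ G, χ x = 1) ∧
      ∀ (S : F1 E4 M) (hS : Smooth1 S),
        (∀ x ∈ range c.f, x ∈ O → x ∉ G → S =ᶠ[𝓝 x] conn (sn p e)) →
        ∃ n : ℤ, c.T (cX a hS hχ) = n := by
  set L := c.L x0 with hL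
  have hball0 : (0 : ℂ) ∈ ball (0 : ℂ) 1 := mem_ball_self one_pos
  have husm : ∀ j, ContMDiffOn 𝓘(ℝ, ℂ) 𝓘(ℝ, E4) ∞ (L.u j) (ball 0 1) := fun j =>
    (L.disc j).hol.smooth
  have huc : ∀ j, ContinuousOn (L.u j) (ball 0 1) := fun j => (husm j).continuousOn
  set O1 : Set M := {x | ∀ᶠ y in 𝓝 x, χ y = 1} ∩ O with hO1
  have hO1o : IsOpen O1 := (isOpen_setOfPred_eventually_nhds).inter hO
  have hx01 : x0 ∈ O1 := ⟨hχ1, hx0⟩
  -- the radii
  have hr : ∀ j, ∃ r : ℝ, 0 < r ∧ r < 1 ∧ ∀ z ∈ ball (0 : ℂ) r, L.u j z ∈ O1 := by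
    intro j
    have h1 : ContinuousAt (L.u j) 0 := (huc j).continuousAt (isOpen_ball.mem_nhds hball0)
    have h2 : ∀ᶠ z in 𝓝 (0 : ℂ), L.u j z ∈ O1 := by
      refine h1.eventually ?_
      rw [L.centre j]
      exact hO1o.mem_nhds hx01
    obtain ⟨r, hr, h3⟩ := Metric.eventually_nhds_iff_ball.1 h2
    refine ⟨min r (1 / 2), lt_min hr (by norm_num), (min_le_right _ _).trans_lt (by norm_num),
      fun z hz => h3 z (ball_subset_ball (min_le_left _ _) hz)⟩
  choose r hr0 hr1 hrO using hr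
  set C : Fin L.n → Set ℂ := fun j =>
    {z | z ∈ ball (0 : ℂ) 1 ∧ r j / 2 ≤ ‖z‖ ∧ L.u j z ∈ tsupport χ} with hC
  have hCc : ∀ j, IsCompact (C j) := by
    intro j
    obtain ⟨R, hR1, hR⟩ := L.proper j (tsupport χ) (isClosed_tsupport χ).isCompact
      (hχO.trans hOU)
    have h1 : ContinuousOn (L.u j) (closedBall 0 R) :=
      (huc j).mono fun z hz => by
        rw [mem_closedBall, dist_zero_right] at hz
        rw [mem_ball, dist_zero_right]
        exact hz.trans_lt hR1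
    have h2 : IsClosed (closedBall (0 : ℂ) R ∩ L.u j ⁻¹' tsupport χ) :=
      h1.preimage_isClosed_of_isClosed isClosed_closedBall (isClosed_tsupport χ)
    have h3 : C j = (closedBall (0 : ℂ) R ∩ L.u j ⁻¹' tsupport χ) ∩ {z | r j / 2 ≤ ‖z‖} := by
      ext z
      constructor
      · rintro ⟨h4, h5, h6⟩
        refine ⟨⟨?_, h6⟩, h5⟩
        rw [mem_closedBall, dist_zero_right]
        exact hR z h4 h6
      · rintro ⟨⟨h4, h5⟩, h6⟩
        refine ⟨?_, h6, h5⟩
        rw [mem_closedBall, dist_zero_right] at h4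
        rw [mem_ball, dist_zero_right]
        exact h4.trans_lt hR1
    rw [h3]
    exact ((isCompact_closedBall (0 : ℂ) R).of_isClosed_subset
      (h2.inter (isClosed_le continuous_const continuous_norm))
      (inter_subset_left.trans inter_subset_left))
  have hCim : ∀ j, IsClosed (L.u j '' C j) := fun j =>
    ((hCc j).image_of_continuousOn ((huc j).mono fun z hz => hz.1)).isClosed
  set G : Set M := O1 \ ⋃ j, L.u j '' C j with hG
  have hGo : IsOpen G := hO1o.sdiff (isClosed_iUnion_of_finite hCim)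
  have hGx : x0 ∈ G := by
    refine ⟨hx01, fun h => ?_⟩
    obtain ⟨j, z, hzC, hzx⟩ := mem_iUnion.1 h
    have h1 : z = 0 := by
      refine (L.disc j).inj hzC.1 hball0 ?_
      rw [hzx, L.centre j]
    have h2 := hzC.2.1
    rw [h1, norm_zero] at h2
    linarith [hr0 j]
  refine ⟨G, hGo, hGx, fun x hx => hx.1.2, fun x hx => hx.1.1.self_of_nhds, ?_⟩
  intro S hS hSG
  -- outside `G` the form `a - dS` vanishes on the curve
  have hnz : ∀ x ∈ range c.f, x ∈ O → x ∉ G → 0 < hh p e x := by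
    intro x hx hxO hxG
    refine nsqv_pos fun h0 => hxG ?_
    rw [hz x hxO hx h0]
    exact hGx
  have hb0 : ∀ x ∈ range c.f, x ∈ O → x ∉ G → at2 ((bX a hS).1 : F2 E4 M) x = 0 := by
    intro x hx hxO hxG
    rw [at2_bX, dG_congr (hSG x hx hxO hxG), dG_sn hp ha (hnz x hx hxO hxG), sub_self]
  have hcur := c.cur x0 (cX a hS hχ) (tsupport χ) (isClosed_tsupport χ).isCompact
    (hχO.trans hOU) (by
      intro x hx
      show χ x • at2 ((bX a hS).1 : F2 E4 M) x = 0
      rw [image_eq_zero_of_notMem_tsupport hx, zero_smul])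
  rw [hcur]
  suffices h : ∀ j : Fin L.n, ∃ n : ℤ,
      ∫ z in ball (0 : ℂ) 1, pb (L.u j) ((cX a hS hχ).1 : F2 E4 M) z = n by
    choose n hn using h
    refine ⟨∑ j, n j, ?_⟩
    push_cast
    exact Finset.sum_congr rfl fun j _ => hn j
  intro j
  -- the local section `t` and its connection form
  set t : M → Fin K → ℂ := fun z => col (p z) m with ht
  obtain ⟨A, hA, hAt⟩ := exists_ext1 (E := E4) (s := conn t) (isClosed_tsupport χ)
    (isOpen_Om hp.smooth m) (hχO.trans hOm)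
    (fun x hx => smAt1_conn (isOpen_Om hp.smooth m) (fun z hz l => sc_col hp.smooth hz l) hx)
  have hAS : Smooth1 (A - S) := smooth1_sub hA hS
  set u : ℂ → M := L.u j with hu
  set om : ℂ → ℂ →L[ℝ] ℝ := pb1 (E := E4) u (A - S) with hom
  have homs : ContDiffOn ℝ ∞ om (ball 0 1) := pb1_contDiffOn isOpen_ball (husm j) hAS
  have hrj := hr0 j
  have hrj1 := hr1 j
  have hsub : ball (0 : ℂ) (r j) ⊆ ball 0 1 := ball_subset_ball hrj1.le
  have hrange : ∀ z ∈ ball (0 : ℂ) 1, u z ∈ range c.f := fun z hz =>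
    (mem_range_of_disc c x0 j hz).1
  -- a point outside the small disc, in the support of `χ`
  have hout : ∀ z ∈ ball (0 : ℂ) 1, r j / 2 ≤ ‖z‖ → u z ∈ tsupport χ → u z ∉ G := by
    intro z hz h1 h2 h3
    exact h3.2 (mem_iUnion.2 ⟨j, z, ⟨hz, h1, h2⟩, rfl⟩)
  have hsupp1 : ∀ z ∈ ball (0 : ℂ) (r j), u z ∈ tsupport χ := by
    intro z hz
    refine subset_tsupport _ ?_
    rw [mem_support, (hrO j z hz).1.self_of_nhds]
    exact one_ne_zero
  have hd1 : ∀ z ∈ ball (0 : ℂ) 1, u z ∈ tsupport χ →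
      d1 om z 1 Complex.I = pb u ((bX a hS).1 : F2 E4 M) z := by
    intro z hz hzs
    rw [hom, d1_pb1 isOpen_ball (husm j) hz hAS]
    show at2 (dG (A - S)) (u z) _ _ = at2 ((bX a hS).1 : F2 E4 M) (u z) _ _
    have h1 : at2 (dG (A - S)) (u z) = at2 ((bX a hS).1 : F2 E4 M) (u z) := by
      rw [dG_sub_at (smAt1_of_smooth hA _) (smAt1_of_smooth hS _), at2_bX,
        dG_congr (hAt _ hzs), dG_conn_eq hp ha (hOm (hχO hzs))]
    rw [h1]
    rfl
  -- the integrand
  set η : ℂ → ℝ := rbc 0 ((r j / 2) ^ 2) ((3 * r j / 4) ^ 2) with hη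
  have hab : (r j / 2) ^ 2 < (3 * r j / 4) ^ 2 := by nlinarith
  have hbR : (3 * r j / 4) ^ 2 < r j ^ 2 := by nlinarith
  have hη1 : ∀ z : ℂ, ‖z‖ ≤ r j / 2 → η z = 1 := fun z hz => by
    refine rbc_one hab ?_
    rw [sub_zero]
    gcongr
  have hη0 : ∀ z : ℂ, 3 * r j / 4 ≤ ‖z‖ → η z = 0 := fun z hz => by
    refine rbc_zero hab ?_
    rw [sub_zero]
    gcongr
  have hint : ∀ z ∈ ball (0 : ℂ) 1, pb u ((cX a hS hχ).1 : F2 E4 M) z =
      η z * d1 om z 1 Complex.I := by
    intro z hzb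
    have e1 : pb u ((cX a hS hχ).1 : F2 E4 M) z = χ (u z) * pb u ((bX a hS).1 : F2 E4 M) z := rfl
    have hzero : r j / 2 ≤ ‖z‖ → u z ∈ tsupport χ → pb u ((bX a hS).1 : F2 E4 M) z = 0 := by
      intro h1 h2
      unfold pb
      rw [hb0 _ (hrange z hzb) (hχO h2) (hout z hzb h1 h2)]
      rfl
    rw [e1]
    by_cases h1 : ‖z‖ ≤ r j / 2
    · have h2 : z ∈ ball (0 : ℂ) (r j) := by
        rw [mem_ball, dist_zero_right]; linarith
      rw [hη1 z h1, hd1 z hzb (hsupp1 z h2), (hrO j z h2).1.self_of_nhds]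
    · push Not at h1
      by_cases h3 : z ∈ ball (0 : ℂ) (r j)
      · rw [hd1 z hzb (hsupp1 z h3), hzero h1.le (hsupp1 z h3), mul_zero, mul_zero]
      · rw [mem_ball, dist_zero_right, not_lt] at h3
        rw [hη0 z (by linarith), zero_mul]
        by_cases h4 : u z ∈ tsupport χ
        · rw [hzero h1.le h4, mul_zero]
        · rw [image_eq_zero_of_notMem_tsupport h4, zero_mul]
  have hset : ∫ z in ball (0 : ℂ) 1, pb u ((cX a hS hχ).1 : F2 E4 M) z =
      ∫ z, η z * d1 om z 1 Complex.I := by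
    rw [setIntegral_congr_fun measurableSet_ball hint]
    refine setIntegral_eq_integral_of_forall_compl_eq_zero fun z hz => ?_
    rw [mem_ball, dist_zero_right, not_lt] at hz
    rw [hη0 z (by linarith), zero_mul]
  rw [hset]
  -- the function `F`
  set U : Set M := Om p m ∩ {x | 0 < hh p e x} with hU
  have hUo : IsOpen U := (isOpen_Om hp.smooth m).inter (isOpen_hh hp e)
  have hcd : ∀ x ∈ U, ∀ w : E4, _ := fun x hx w => conn_diff (s := sn p e) (t := t) hUo
    (fun z hz l => sc_sn hp.smooth hz.2 l) (fun z hz l => sc_col hp.smooth hz.1 l)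
    (fun z hz => nv_unit hz.2) (fun z hz => unit_col hp hz.1)
    (fun z hz => (pr_nv (hp.idem z) (hp.herm z) (hp.rank z) hz.2).symm.trans (p_eq hp hz.1)) hx w
  set ρ : M → ℂ := fun x => ∑ k, conj (t x k) * sn p e x k with hρ
  have hUz : ∀ z ∈ ball (0 : ℂ) (r j) \ {0}, u z ∈ U := by
    intro z hz'
    have h1 := hrO j z hz'.1
    refine ⟨hOm h1.2, ?_⟩
    refine nsqv_pos fun h0 => hz'.2 ?_
    have h2 := hz (u z) h1.2 (hrange z (hsub hz'.1)) h0
    have h3 : z = 0 := by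
      refine (L.disc j).inj (hsub hz'.1) hball0 ?_
      rw [L.centre j]; exact h2
    rw [h3]; rfl
  have hat : ∀ z ∈ ball (0 : ℂ) 1, ContMDiffAt 𝓘(ℝ, ℂ) 𝓘(ℝ, E4) ∞ u z := fun z hz' =>
    (husm j).contMDiffAt (isOpen_ball.mem_nhds hz')
  refine planar_int (F := fun z => ρ (u z)) hrj ((homs.of_le (by simp)).mono hsub) ?_ ?_
    (by positivity) hab hbR ?_
  · intro z hz'
    have h1 := fderiv_comp_dC (hat z (hsub hz'.1)) (hcd _ (hUz z hz') 0).1
    exact (h1.1.of_le (by simp)).contDiffWithinAt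
  · intro z hz' h0
    have h1 := (hcd _ (hUz z hz') 0).2.1
    have h2 : conj (ρ (u z)) * ρ (u z) = 1 := h1
    have h3 : ρ (u z) = 0 := h0
    rw [h3, mul_zero] at h2
    exact zero_ne_one h2
  · intro z h1 h2 v
    have h1' : r j / 2 ≤ ‖z‖ := le_of_sq_le_sq h1 (norm_nonneg z)
    have h2' : ‖z‖ ≤ 3 * r j / 4 := le_of_sq_le_sq h2 (by positivity)
    have hzr : z ∈ ball (0 : ℂ) (r j) := by
      rw [mem_ball, dist_zero_right]; linarith
    have hz0 : z ∈ ball (0 : ℂ) (r j) \ {0} := by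
      refine ⟨hzr, fun h => ?_⟩
      rw [mem_singleton_iff] at h
      rw [h, norm_zero] at h1'
      linarith
    have h3 := hcd _ (hUz z hz0) (dmap u z v)
    have h4 := fderiv_comp_dC (hat z (hsub hzr)) h3.1
    have h5 : at1 S (u z) = at1 (conn (sn p e)) (u z) :=
      (hSG _ (hrange z (hsub hzr)) (hrO j z hzr).2
        (hout z (hsub hzr) h1' (hsupp1 z hzr))).self_of_nhds
    have h6 : at1 A (u z) = at1 (conn t) (u z) := (hAt _ (hsupp1 z hzr)).self_of_nhds
    show at1 A (u z) (dmap u z v) - at1 S (u z) (dmap u z v) =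
      (2 * Real.pi)⁻¹ * (fderiv ℝ (fun z => ρ (u z)) z v / ρ (u z)).im
    rw [h5, h6, h4.2 v]
    exact h3.2.2

end

end Crest.Agent.R235.Integ_796
end

-- ▼ part R235/Integ_796
section

/-!
Row 235 (S0364), package ADJ, leaf X3 (INTEG), helper796: **the Chern form of a line bundle has an
integral integral over every closed `J`-curve**:
`integ : IsLine p → IsChern p a → ∃ n : ℤ, c.T a.1 = n` (`c : JCurve J`).
-/

set_option autoImplicit false
set_option maxSynthPendingDepth 3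
set_option linter.unusedSectionVars false

open Set Function Filter Topology Metric MeasureTheory
open scoped ContDiff ComplexConjugate Matrix Manifold

universe u

namespace Crest.Agent.R235.Integ_796

open Crest.Agent.R240 Crest.Agent.R240.Ch Crest.Agent.R235.Loc_524 Crest.Agent.R235.Lb453
open Crest.Agent.R235.Glob_370 Crest.Agent.R235.Wind_688 Crest.Agent.R235.Pull_129

noncomputable section

variable {M : Type u} [TopologicalSpace M] [T2Space M] [CompactSpace M]
  [ChartedSpace E4 M] [IsManifold 𝓘(ℝ, E4) ∞ M] {J : EndF E4 M}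
variable {K : ℕ} {p : M → Matrix (Fin K) (Fin K) ℂ} {a : Z2 M}

/-- a generic section has finitely many zeros on the curve. -/
theorem exists_generic (c : JCurve J) (hp : IsLine p) :
    ∃ e : Fin K → ℂ, {x | x ∈ range c.f ∧ p x *ᵥ e = 0}.Finite := by
  have : LocallyCompactSpace M := ChartedSpace.locallyCompactSpace E4 M
  have h1 : ∀ x : M, ∃ V : Set M, IsCompact V ∧ x ∈ interior V ∧ V ⊆ (c.L x).U := fun x =>
    exists_compact_subset (c.L x).openU (c.L x).mem
  choose V hVc hVx hVU using h1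
  obtain ⟨t, ht⟩ := isCompact_univ.elim_finite_subcover (fun x : M => interior (V x))
    (fun x => isOpen_interior) (fun x _ => mem_iUnion.2 ⟨x, hVx x⟩)
  have h2 : ∀ (x : M) (j : Fin (c.L x).n), ∃ r : ℝ, r < 1 ∧
      ∀ z ∈ ball (0 : ℂ) 1, (c.L x).u j z ∈ V x → ‖z‖ ≤ r := fun x j => by
    obtain ⟨r, hr, h⟩ := (c.L x).proper j (V x) (hVc x) (hVU x)
    exact ⟨r, hr, h⟩
  choose r hr1 hr using h2
  set q : ∀ x : M, Fin (c.L x).n → ℂ → Matrix (Fin K) (Fin K) ℂ :=
    fun x j z => p ((c.L x).u j z) with hq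
  have hsub : ∀ x j, closedBall (0 : ℂ) (r x j) ⊆ ball 0 1 := fun x j =>
    closedBall_subset_ball (hr1 x j)
  have hqs : ∀ x j i k, ContDiffOn ℝ ∞ (fun z => q x j z i k) (ball 0 1) := by
    intro x j i k
    have h3 : ContMDiffOn 𝓘(ℝ, ℂ) 𝓘(ℝ, ℂ) ∞ (fun z => p ((c.L x).u j z) i k) (ball 0 1) :=
      (hp.smooth i k).comp_contMDiffOn ((c.L x).disc j).hol.smooth
    exact h3.contDiffOn
  have h4 : ∀ x j, IsOpen (Gd (q x j) (closedBall 0 (r x j))) ∧
      Dense (Gd (q x j) (closedBall 0 (r x j))) := fun x j =>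
    Gd_open_dense isOpen_ball (hqs x j) (isCompact_closedBall _ _) (hsub x j)
      fun z _ => hp.rank _
  have h5 : Dense (⋂ i : (Σ x : t, Fin (c.L (x : M)).n),
      Gd (q i.1 i.2) (closedBall 0 (r i.1 i.2))) :=
    dense_iInter_of_isOpen (fun i => (h4 i.1 i.2).1) fun i => (h4 i.1 i.2).2
  obtain ⟨e, he⟩ := h5.nonempty
  rw [mem_iInter] at he
  refine ⟨e, ?_⟩
  have h6 : {x | x ∈ range c.f ∧ p x *ᵥ e = 0} ⊆ ⋃ i : (Σ x : t, Fin (c.L (x : M)).n),
      (c.L (i.1 : M)).u i.2 '' {z | z ∈ closedBall (0 : ℂ) (r i.1 i.2) ∧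
        q i.1 i.2 z *ᵥ e = 0} := by
    rintro x ⟨hx, hx0⟩
    obtain ⟨y, hy, hxy⟩ := mem_iUnion₂.1 (ht (mem_univ x))
    have hxV : x ∈ V y := interior_subset hxy
    have hxU : x ∈ range c.f ∩ (c.L y).U := ⟨hx, hVU y hxV⟩
    rw [(c.L y).supp] at hxU
    obtain ⟨j, z, hz, hzx⟩ := mem_iUnion.1 hxU
    refine mem_iUnion.2 ⟨⟨⟨y, hy⟩, j⟩, z, ⟨?_, ?_⟩, hzx⟩
    · rw [mem_closedBall, dist_zero_right]
      exact hr y j z hz (by rw [hzx]; exact hxV)
    · show p ((c.L y).u j z) *ᵥ e = 0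
      rw [hzx]; exact hx0
  refine (finite_iUnion fun i => Finite.image _ ?_).subset h6
  exact finite_zeros isOpen_ball (hqs i.1 i.2) (isCompact_closedBall _ _) (hsub i.1 i.2) (he i)

/-- **INTEG**. -/
theorem integ (c : JCurve J) (hp : IsLine p) (ha : IsChern p a) : ∃ n : ℤ, c.T a.1 = n := by
  obtain ⟨e, he⟩ := exists_generic c hp
  set Z : Set M := {x | x ∈ range c.f ∧ p x *ᵥ e = 0} with hZ
  obtain ⟨W, hW, hWd⟩ := he.t2_separation
  choose m hm using fun x : M => Om_cover hp x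
  set O : M → Set M := fun x => W x ∩ (c.L x).U ∩ Om p (m x) with hO
  have hOo : ∀ x, IsOpen (O x) := fun x =>
    (((hW x).2).inter (c.L x).openU).inter (isOpen_Om hp.smooth (m x))
  have hOx : ∀ x, x ∈ O x := fun x => ⟨⟨(hW x).1, (c.L x).mem⟩, hm x⟩
  have hdisj : ∀ x ∈ Z, ∀ y ∈ Z, x ≠ y → Disjoint (O x) (O y) := fun x hx y hy hxy =>
    (hWd hx hy hxy).mono (fun z hz => hz.1.1) fun z hz => hz.1.1
  have hcut : ∀ x : M, ∃ χ : M → ℝ, SmoothF E4 χ ∧ (∀ᶠ z in 𝓝 x, χ z = 1) ∧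
      tsupport χ ⊆ O x := fun x => by
    obtain ⟨χ, h1, h2, h3⟩ := exists_cut (E := E4) (K := {x}) isClosed_singleton (hOo x)
      (singleton_subset_iff.2 (hOx x))
    exact ⟨χ, h1, h2 x rfl, h3⟩
  choose χ hχs hχ1 hχO using hcut
  have hloc : ∀ x : Z, ∃ G : Set M, IsOpen G ∧ (x : M) ∈ G ∧ G ⊆ O x ∧ (∀ y ∈ G, χ x y = 1) ∧
      ∀ (S : F1 E4 M) (hS : Smooth1 S),
        (∀ y ∈ range c.f, y ∈ O x → y ∉ G → S =ᶠ[𝓝 y] conn (sn p e)) →
        ∃ n : ℤ, c.T (cX a hS (hχs x)) = n := by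
    intro x
    refine local_int c hp ha e (hOo x) (hOx x) (fun y hy => hy.1.2) (fun y hy => hy.2) ?_
      (hχs x) (hχ1 x) (hχO x)
    intro y hyO hyr hy0
    by_contra hne
    exact (disjoint_left.1 (hdisj y ⟨hyr, hy0⟩ x x.2 hne)) (hOx y) hyO
  choose G hGo hGx hGO hG1 hGS using hloc
  -- the global one-form `S`
  set K0 : Set M := range c.f \ ⋃ x, G x with hK0
  have hK0c : IsClosed K0 := by
    have h1 : IsClosed (range c.f) := (isCompact_range c.cont).isClosed
    exact h1.sdiff (isOpen_iUnion hGo)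
  have hK0U : K0 ⊆ {x | 0 < hh p e x} := by
    rintro x ⟨hx1, hx2⟩
    refine nsqv_pos fun h0 => hx2 ?_
    exact mem_iUnion.2 ⟨⟨x, hx1, h0⟩, hGx _⟩
  obtain ⟨S, hS, hSe⟩ := exists_ext1 (E := E4) (s := conn (sn p e)) hK0c (isOpen_hh hp e) hK0U
    (fun x hx => smAt1_conn (isOpen_hh hp e) (fun z hz l => sc_sn hp.smooth hz l) hx)
  have hSG : ∀ x : Z, ∀ y ∈ range c.f, y ∈ O x → y ∉ G x → S =ᶠ[𝓝 y] conn (sn p e) := by
    intro x y hy hyO hyG
    refine hSe y ⟨hy, fun h => ?_⟩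
    obtain ⟨x', hx'⟩ := mem_iUnion.1 h
    have hne : (x' : M) ≠ x := by
      rintro h2
      have : x' = x := Subtype.ext h2
      rw [this] at hx'
      exact hyG hx'
    exact (disjoint_left.1 (hdisj x' x'.2 x x.2 hne)) (hGO x' hx') hyO
  choose n hn using fun x : Z => hGS x S hS (hSG x)
  have : Fintype Z := he.fintype
  refine ⟨∑ x : Z, n x, ?_⟩
  -- `T a = T (a - dS)`
  have e1 : c.T a.1 = c.T (bX a hS) := by
    have h2 : c.T (⟨dG S, Smooth2.dG hS⟩ : X2 M) = 0 := c.pcur.closed _ (isEx_dG hS)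
    unfold bX
    rw [map_sub, h2, sub_zero]
  -- `T (a - dS) = ∑ T (χ (a - dS))`
  have e2 : c.T (bX a hS - ∑ x : Z, cX a hS (hχs x)) = 0 := by
    refine T_eq_zero c fun y hy => ?_
    have h3 : at2 ((bX a hS - ∑ x : Z, cX a hS (hχs x) : X2 M).1 : F2 E4 M) y =
        at2 ((bX a hS).1 : F2 E4 M) y - ∑ x : Z, χ x y • at2 ((bX a hS).1 : F2 E4 M) y := by
      show ((bX a hS).1 - ((∑ x : Z, cX a hS (hχs x) : X2 M) : F2 E4 M)) y = _
      rw [AddSubmonoidClass.coe_finsetSum]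
      show (bX a hS).1 y - (∑ x : Z, ((cX a hS (hχs x) : X2 M) : F2 E4 M)) y = _
      rw [Finset.sum_apply]
      rfl
    rw [h3, ← Finset.sum_smul]
    by_cases hyK : y ∈ K0
    · have h4 : at2 ((bX a hS).1 : F2 E4 M) y = 0 := by
        rw [at2_bX, dG_congr (hSe y hyK), dG_sn hp ha (hK0U hyK), sub_self]
      rw [h4, smul_zero, sub_zero]
    · have h5 : y ∈ ⋃ x, G x := by
        by_contra h6
        exact hyK ⟨hy, h6⟩
      obtain ⟨x, hx⟩ := mem_iUnion.1 h5
      have h7 : ∑ x' : Z, χ x' y = 1 := by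
        rw [Finset.sum_eq_single x]
        · exact hG1 x y hx
        · intro x' _ hne
          have h8 : y ∉ tsupport (χ x') := fun h9 =>
            (disjoint_left.1 (hdisj x' x'.2 x x.2 fun h => hne (Subtype.ext h))) (hχO x' h9)
              (hGO x hx)
          exact image_eq_zero_of_notMem_tsupport h8
        · intro h8
          exact absurd (Finset.mem_univ x) h8
      rw [h7, one_smul, sub_self]
  rw [map_sub, map_sum, sub_eq_zero] at e2
  rw [e1, e2]
  push_cast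
  exact Finset.sum_congr rfl fun x _ => hn x

end

end Crest.Agent.R235.Integ_796
end

-- ▼ part R235/Sph_47

/-!
Row 235 (helper47): `SPH` (simple roots perpendicular to the pair are embedded `J`-spheres) from
`ROOT`, `HBN`, `CLS`, `EXJ`, `NEGK`, `BPLUS`.

Proof.  `m = d.w₀ > 0`, `x = w₀ + (m/2) d`, so `x.d = 0` and the segment of frames from `w₀` to `x`
is positive.  `x` is not a taming class (`ROOT`), so by `HBN` some normalised current `S` has
`S(x) ≤ 0`; take `S` minimising `S(x)`.  Its class has negative square (`BPLUS`), `NEGK` gives a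
`J`-sphere of class `d'` with `S = t σ + S'`; minimality gives `x.d' ≤ S(x) (w₀.d') ≤ 0`, and if
`d' ≠ d` then `x.d' ≥ w₀.d' > 0` by simplicity of `d`.
-/

set_option autoImplicit false
set_option maxSynthPendingDepth 3

open Set Function Filter MeasureTheory
open scoped Manifold ContDiff Topology

universe u

namespace Crest.Agent.R235.Sph_47

open Crest.Agent.R240 Crest.Agent.R240.Ch Crest.Agent.R240.Int Crest.Agent.R235
open Crest.Agent.R235.CurB_288 Crest.Agent.R235.Cone_288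

noncomputable section

section Cls

variable {M : Type u} [TopologicalSpace M] [T2Space M] [CompactSpace M]
  [ChartedSpace E4 M] [IsManifold 𝓘(ℝ, E4) ∞ M]

/-- the class of a `J`-sphere is orthogonal to the pair. -/
theorem jsph_perp {w : Trip M} {σ : E3 → M} {d : H2 M} (h : JSph w σ d) (i : Fin 3) (hi : i ≠ 0) :
    ip (w 0) d (cls (w i)) = 0 := by
  rw [← h.rep (w i)]
  have h0 : ∀ y : Metric.sphere (0 : E3) 1, ‖(y : E3)‖ = 1 := fun y => by
    simp
  have hl : ∀ (y : Metric.sphere (0 : E3) 1) (u v : E3),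
      at2 ((w i).1.1 : F2 E4 M) (σ y) (dmap σ y u) (dmap σ y v) = 0 := by
    intro y u v
    fin_cases i
    · exact absurd rfl hi
    · exact h.lag1 y u v (h0 y)
    · exact h.lag2 y u v (h0 y)
  unfold sphI
  simp only [hl, mul_zero, add_zero, integral_zero]

theorem alg_seg {V : Type*} [AddCommGroup V] [Module ℝ V] (c y : Fin 3 → V) (d x : V)
    (a : Fin 3 → ℝ) (t m : ℝ) (hx : x = c 0 + (m / 2) • d) (h0 : y 0 = x) (h1 : y 1 = c 1)
    (h2 : y 2 = c 2) :
    ∑ i, a i • ((1 - t) • c i + t • y i) = ∑ i, a i • c i + (a 0 * t * (m / 2)) • d := by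
  rw [Fin.sum_univ_three, Fin.sum_univ_three, h0, h1, h2, hx]; module

set_option maxHeartbeats 4000000 in
/-- the moved frame. -/
theorem segment {w : Trip M} [Nonempty M] (hw : Pos3 w) {d x : H2 M} {m : ℝ}
    (hx : x = cls (w 0) + (m / 2) • d)
    (hm : ip (w 0) d (cls (w 0)) = m) (h1 : ip (w 0) d (cls (w 1)) = 0)
    (h2 : ip (w 0) d (cls (w 2)) = 0) (hd : ip (w 0) d d = -2) :
    ∀ t ∈ Icc (0 : ℝ) 1, PosCls (w 0)
      (fun i => (1 - t) • clw w i + t • update (clw w) 0 x i) := by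
  intro t ht a ha
  have hV := hw.vol 0
  have e1 : update (clw w) 0 x 1 = cls (w 1) := by rw [update_of_ne (by decide)]; rfl
  have e2 : update (clw w) 0 x 2 = cls (w 2) := by rw [update_of_ne (by decide)]; rfl
  have e : ∑ i, a i • ((1 - t) • clw w i + t • update (clw w) 0 x i) =
      ∑ i, a i • cls (w i) + (a 0 * t * (m / 2)) • d :=
    alg_seg (clw w) (update (clw w) 0 x) d x a t m hx (update_self _ _ _) e1 e2
  rw [e]
  have hPP : 0 < ip (w 0) (∑ i, a i • cls (w i)) (∑ i, a i • cls (w i)) := hw.ip_comb_pos 0 ha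
  have hdP : ip (w 0) d (∑ i, a i • cls (w i)) = a 0 * m := by
    rw [Fin.sum_univ_three, ip_add_right hV, ip_add_right hV, ip_smul_right hV,
      ip_smul_right hV, ip_smul_right hV, hm, h1, h2]
    ring
  revert hPP hdP
  generalize ∑ i, a i • cls (w i) = P
  intro hPP hdP
  have e3 : ip (w 0) (P + (a 0 * t * (m / 2)) • d) (P + (a 0 * t * (m / 2)) • d) =
      ip (w 0) P P + (a 0 * m) ^ 2 * (t - t ^ 2 / 2) := by
    rw [ip_add_left hV, ip_add_right hV, ip_add_right hV, ip_smul_right hV, ip_smul_left hV,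
      ip_smul_left hV, ip_smul_right hV, ip_comm (w 0) P d, hdP, hd]
    ring
  rw [e3]
  have h3 : 0 ≤ t - t ^ 2 / 2 := by nlinarith [ht.1, ht.2]
  have h4 : 0 ≤ (a 0 * m) ^ 2 * (t - t ^ 2 / 2) := mul_nonneg (sq_nonneg _) h3
  linarith

end Cls

/-- **SPH**. -/
theorem sph_of (hR : ROOT.{u}) (hH : HBN.{u}) (hC : CLS.{u}) (hE : EXJ.{u}) (hN : NEGK.{u})
    (hB : BPLUS.{u}) : SPH.{u} := by
  intro M _ _ _ _ _ _ w hw hK d hd h1 h2 h0 hsimple
  have hV := hw.vol 0
  obtain ⟨J, hJ⟩ := hE M w hw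
  obtain ⟨m, hm⟩ : ∃ m, m = ip (w 0) d (cls (w 0)) := ⟨_, rfl⟩
  rw [← hm] at h0
  have hdd : ip (w 0) d d = -2 := hd.2
  obtain ⟨x, hx⟩ : ∃ x : H2 M, x = cls (w 0) + (m / 2) • d := ⟨_, rfl⟩
  obtain ⟨a0, ha0⟩ := cls_surj x
  have hdx : ip (w 0) d x = 0 := by
    rw [hx, ip_add_right hV, ip_smul_right hV, hdd, ← hm]; ring
  -- some normalised current is `≤ 0` on `x`
  have hex : ∃ S : X2 M →ₗ[ℝ] ℝ, PCur J S ∧ S ≠ 0 ∧ S a0.1 ≤ 0 := by
    by_contra hno
    push Not at hno
    obtain ⟨a, ha, ht⟩ := hH M w J hJ a0 (fun S hS hS0 => hno S hS hS0)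
    have hax : cls a = x := ha.trans ha0
    have hw' : Pos3 (update w 0 a) := pos3_update_of_tame hw hJ ht
    have hip : ∀ b c : H2 M, ip (update w 0 a 0) b c = ip (w 0) b c := fun b c => by
      rw [hw'.ip_eq 0 1 b c]
      have e : update w 0 a 1 = w 1 := update_of_ne (by decide) _ _
      rw [e, hw.ip_eq 1 0 b c]
    obtain ⟨i, hi⟩ := hR M (update w 0 a) hw' ((k3Type_congr hip).2 hK) d
      (by rw [root_congr hip]; exact hd)
    apply hi
    rw [hip]
    fin_cases i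
    · simp only [Fin.zero_eta, update_self]
      rw [hax]; exact hdx
    · have e : update w 0 a 1 = w 1 := update_of_ne (by decide) _ _
      change ip (w 0) d (cls (update w 0 a 1)) = 0
      rw [e]; exact h1
    · have e : update w 0 a 2 = w 2 := update_of_ne (by decide) _ _
      change ip (w 0) d (cls (update w 0 a 2)) = 0
      rw [e]; exact h2
  obtain ⟨S1, hS1, hS10, hS1x⟩ := hex
  have hl := cur_pos hJ hS1 hS10
  -- a minimiser
  have hmem : ((((S1 (w 0).1)⁻¹ • S1 : X2 M →ₗ[ℝ] ℝ)) : X2 M → ℝ) ∈ SS w J :=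
    mem_SS.2 ⟨_, PCur.smul hS1 (inv_nonneg.2 hl.le), by
      rw [LinearMap.smul_apply, smul_eq_mul, inv_mul_cancel₀ hl.ne'], rfl⟩
  obtain ⟨f, hf, hfmin⟩ := (isCompact_SS hJ).exists_isMinOn ⟨_, hmem⟩
    (f := fun f : X2 M → ℝ => f a0.1) (continuous_apply a0.1).continuousOn
  obtain ⟨S, hS, hSw, rfl⟩ := mem_SS.1 hf
  set μ := S a0.1 with hμ
  have hμ0 : μ ≤ 0 := by
    have h3 : S a0.1 ≤ ((S1 (w 0).1)⁻¹ • S1 : X2 M →ₗ[ℝ] ℝ) a0.1 := hfmin hmem
    refine h3.trans ?_
    rw [LinearMap.smul_apply, smul_eq_mul]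
    exact mul_nonpos_of_nonneg_of_nonpos (inv_nonneg.2 hl.le) hS1x
  have hmin : ∀ T : X2 M →ₗ[ℝ] ℝ, PCur J T → μ * T (w 0).1 ≤ T a0.1 := by
    intro T hT
    by_cases hT0 : T = 0
    · rw [hT0]; simp
    · have hTp := cur_pos hJ hT hT0
      have hmT : ((((T (w 0).1)⁻¹ • T : X2 M →ₗ[ℝ] ℝ)) : X2 M → ℝ) ∈ SS w J :=
        mem_SS.2 ⟨_, PCur.smul hT (inv_nonneg.2 hTp.le), by
          rw [LinearMap.smul_apply, smul_eq_mul, inv_mul_cancel₀ hTp.ne'], rfl⟩
      have h3 : S a0.1 ≤ ((T (w 0).1)⁻¹ • T : X2 M →ₗ[ℝ] ℝ) a0.1 := hfmin hmT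
      rw [LinearMap.smul_apply, smul_eq_mul, inv_mul_eq_div, le_div_iff₀ hTp] at h3
      exact h3
  -- the class of `S`
  have hS0 : S ≠ 0 := by
    rintro rfl
    simp at hSw
  obtain ⟨s, hs⟩ := hC M w J hw hJ S hS
  have hs0 : 0 < ip (w 0) s (cls (w 0)) := by
    rw [← hs]; exact cur_pos hJ hS hS0
  have hs1 : ip (w 0) s (cls (w 1)) = 0 := by
    rw [← hs]; exact cur_anti hJ hS.inv (by decide)
  have hs2 : ip (w 0) s (cls (w 2)) = 0 := by
    rw [← hs]; exact cur_anti hJ hS.inv (by decide)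
  have hsx : ip (w 0) s x = μ := by
    rw [← ha0, ← hs]
  have hss : ip (w 0) s s < 0 := by
    by_contra hneg
    have h3 := pos_of_segment hw (hB M w hw) (segment hw hx hm.symm h1 h2 hdd) hs1 hs2 hs0
      (not_lt.1 hneg)
    rw [hsx] at h3
    linarith
  obtain ⟨σ, d', t, S', hσ, hd', ht, -, hS', hSS⟩ := hN M w J hw hJ hK S s hS hs hss
  have hd'1 := jsph_perp hσ 1 (by decide)
  have hd'2 := jsph_perp hσ 2 (by decide)
  have hd'0 := hσ.pos
  by_cases hdd' : d' = d
  · exact ⟨σ, hdd' ▸ hσ⟩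
  exfalso
  have h3 : 0 ≤ ip (w 0) d' d := hsimple d' hd' hd'1 hd'2 hd'0 hdd'
  have h4 : 0 < ip (w 0) d' x := by
    rw [hx, ip_add_right hV, ip_smul_right hV]
    have : 0 ≤ m / 2 * ip (w 0) d' d := mul_nonneg (by linarith) h3
    linarith
  -- minimality
  have h5 := hmin S' hS'
  have e1 : S (w 0).1 = t * ip (w 0) d' (cls (w 0)) + S' (w 0).1 :=
    (hSS (w 0).1).trans (congrArg (fun z : ℝ => t * z + S' (w 0).1) (hσ.rep (w 0)))
  have e2' : sphI σ (a0.1.1 : F2 E4 M) = ip (w 0) d' x :=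
    (hσ.rep a0).trans (congrArg (fun z => ip (w 0) d' z) ha0)
  have e2 : S a0.1 = t * ip (w 0) d' x + S' a0.1 :=
    (hSS a0.1).trans (congrArg (fun z : ℝ => t * z + S' a0.1) e2')
  have h6 : μ * (1 - t * ip (w 0) d' (cls (w 0))) ≤ μ - t * ip (w 0) d' x := by
    have e3 : S' (w 0).1 = 1 - t * ip (w 0) d' (cls (w 0)) := by linarith
    have e4 : S' a0.1 = μ - t * ip (w 0) d' x := by rw [hμ]; linarith
    rw [← e3, ← e4]; exact h5
  have h7 : t * ip (w 0) d' x ≤ μ * (t * ip (w 0) d' (cls (w 0))) := by linarith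
  have h8 : 0 < t * ip (w 0) d' x := mul_pos ht h4
  have h9 : μ * (t * ip (w 0) d' (cls (w 0))) ≤ 0 :=
    mul_nonpos_of_nonpos_of_nonneg hμ0 (mul_pos ht hd'0).le
  linarith

end

end Crest.Agent.R235.Sph_47
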