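import Crest.Agent.R235.SwcProd2_215
import Crest.Agent.R235.SWEnd_53

-- ▼ part R235/SwcPrA_215
section

/-!
Row 235 (S0364), PACKAGE SWC, assembly of PROD (helper215), part A: uniform bounds over the sphere
`‖t‖ = 1`, and the choice of the sequence of smooth approximate solutions (`SeqS`).
-/

set_option autoImplicit false
set_option maxSynthPendingDepth 3
set_option linter.unusedSectionVars false

open scoped ContDiff ENNReal NNReal Topology Manifold Bundle RealInnerProductSpace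
open MeasureTheory Set Filter Metric Bundle

universe v

namespace Crest.Agent.R235.SwcProd_215

open Crest.Agent.R240 Crest.Agent.R240.Ch Crest.Agent.R235 Crest.Agent.R235.SWDefs_53
open Crest.Agent.R235.IndTri_451 Crest.Agent.R235.Tau483 Crest.Agent.R235.SwcGlob_34
open Crest.Agent.R249.Tv57 (OpPair SmF SmV KerD)
open Crest.Agent.R249.Tz805 (ToF)

noncomputable section

local notation "ipp" => Crest.Agent.R249.Tv57.ip 4

variable {M : Type v} [MetricSpace M] [CompactSpace M] [ConnectedSpace M]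
  [ChartedSpace (EuclideanSpace ℝ (Fin 4)) M] [IsManifold (𝓡 4) ∞ M]
  [RiemannianBundle (fun p : M => TangentSpace (𝓡 4) p)]
  [IsContMDiffRiemannianBundle (𝓡 4) ∞ (EuclideanSpace ℝ (Fin 4))
    (fun p : M => TangentSpace (𝓡 4) p)]
  [IsRiemannianManifold (𝓡 4) M] [MeasurableSpace M] [BorelSpace M]
  [SecondCountableTopology M] [Nonempty M]
  {κ0 κ1 κT : Type} [Fintype κ0] [Fintype κ1] [Fintype κT]

/-- the compact set `{‖t‖ = 1} × M`. -/
def SM (M : Type v) : Set (E3 × M) := {q | ‖q.1‖ = 1}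

theorem isCompact_SM : IsCompact (SM M) := by
  have h1 : SM M = Metric.sphere (0 : E3) 1 ×ˢ (univ : Set M) := by
    ext q
    simp [SM]
  rw [h1]
  exact (isCompact_sphere _ _).prod isCompact_univ

/-- the norm of `w_t`. -/
def Nw (ww : Fin 3 → Fin 3 → M → ℝ) (t : E3) (z : M) : ℝ := √(∑ k, (∑ i, t i * ww i k z) ^ 2)

/-- the coefficients of `w_t`. -/
def Xw (ww : Fin 3 → Fin 3 → M → ℝ) (t : E3) (k : Fin 3) (z : M) : ℝ := ∑ i, t i * ww i k z

theorem continuous_Xw {ww : Fin 3 → Fin 3 → M → ℝ}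
    (h : ∀ i k, ContMDiff (𝓡 4) 𝓘(ℝ, ℝ) ∞ (ww i k)) (k : Fin 3) :
    Continuous fun q : E3 × M => Xw ww q.1 k q.2 := by
  unfold Xw
  refine continuous_finsetSum _ fun i _ => ?_
  refine Continuous.mul ?_ ((h i k).continuous.comp continuous_snd)
  exact (EuclideanSpace.proj (𝕜 := ℝ) i).continuous.comp continuous_fst

theorem continuous_Nw {ww : Fin 3 → Fin 3 → M → ℝ}
    (h : ∀ i k, ContMDiff (𝓡 4) 𝓘(ℝ, ℝ) ∞ (ww i k)) :
    Continuous fun q : E3 × M => Nw ww q.1 q.2 := by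
  refine Real.continuous_sqrt.comp (continuous_finsetSum _ fun k _ => ?_)
  exact (continuous_Xw h k).pow 2

section data

variable {S : SWS M κ0 κ1 κT} {T : ToF 4 M} {cc : κ1 → κ0 → (z : M) → TangentSpace (𝓡 4) z}
  {W : κ0 → κ0 → (z : M) → TangentSpace (𝓡 4) z}
  {sT : κT → (z : M) → TangentSpace (𝓡 4) z} {w : Trip M} {e : Fin 3 → F2 E4 M} {ι : ℝ}
  {ww : Fin 3 → Fin 3 → M → ℝ} {τ : E3 → TD M κT} {C K : ℝ} {c : H2 M}

theorem SwcData.rr_eq (hd : SwcData S T cc W sT w e ι ww τ C K c) {t : E3} (ht : ‖t‖ = 1) (z : M) :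
    (τ t).rr z = Nw ww t z := hd.rr t z ht

theorem SwcData.n_eq (hd : SwcData S T cc W sT w e ι ww τ C K c) {t : E3} (ht : ‖t‖ = 1)
    (k : Fin 3) (z : M) : (τ t).n k z = Xw ww t k z / Nw ww t z := by
  have h1 := hd.nn t k z ht
  have h2 := (hd.tau t ht).pos z
  rw [← hd.rr_eq ht z, eq_div_iff h2.ne', mul_comm]
  exact h1

/-- uniform bounds of `ρ`. -/
theorem SwcData.bounds (hd : SwcData S T cc W sT w e ι ww τ C K c) :
    ∃ m0 m1 : ℝ, 0 < m0 ∧ ∀ (t : E3) (z : M), ‖t‖ = 1 → m0 ≤ (τ t).rr z ∧ (τ t).rr z ≤ m1 := by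
  have hc := (continuous_Nw hd.smw).continuousOn (s := SM M)
  obtain ⟨B, hB⟩ := (isCompact_SM (M := M)).exists_bound_of_continuousOn hc
  have hlow : ∃ m0 : ℝ, 0 < m0 ∧ ∀ q ∈ SM M, m0 ≤ Nw ww q.1 q.2 := by
    by_cases hKe : (SM M).Nonempty
    · obtain ⟨q, hq, hmin⟩ := (isCompact_SM (M := M)).exists_isMinOn hKe hc
      refine ⟨Nw ww q.1 q.2, ?_, fun q' hq' => hmin hq'⟩
      rw [← hd.rr_eq hq]
      exact (hd.tau q.1 hq).pos q.2
    · exact ⟨1, one_pos, fun q hq => absurd ⟨q, hq⟩ hKe⟩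
  obtain ⟨m0, h0, h1⟩ := hlow
  refine ⟨m0, B, h0, fun t z ht => ?_⟩
  rw [hd.rr_eq ht]
  exact ⟨h1 (t, z) ht, (le_abs_self _).trans (hB (t, z) ht)⟩

/-- a continuous function on `{‖t‖ = 1} × M` converges uniformly in `z` when `t n → t₀`. -/
theorem unif_lim {G : Type*} [PseudoMetricSpace G] {f : E3 × M → G} (hf : ContinuousOn f (SM M))
    {t : ℕ → E3} {t0 : E3} {U : Filter ℕ} (ht : ∀ n, ‖t n‖ = 1) (ht0 : ‖t0‖ = 1)
    (hl : Tendsto t U (𝓝 t0)) : ∀ ε : ℝ, 0 < ε → ∀ᶠ n in U, ∀ z, dist (f (t n, z)) (f (t0, z)) < ε := by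
  intro ε hε
  have h1 := (isCompact_SM (M := M)).uniformContinuousOn_of_continuous hf
  rw [Metric.uniformContinuousOn_iff] at h1
  obtain ⟨δ, hδ, h2⟩ := h1 ε hε
  have h3 : ∀ᶠ n in U, dist (t n) t0 < δ := hl.eventually (Metric.ball_mem_nhds _ hδ)
  filter_upwards [h3] with n hn z
  refine h2 (t n, z) (ht n) (t0, z) ht0 ?_
  rw [Prod.dist_eq, dist_self, max_eq_left dist_nonneg]
  exact hn

end data

/-- the explicit error of the curvature equation (`th = 0`). -/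
def gR (S : SWS M κ0 κ1 κT) (τ : TD M κT) (r : ℝ) (a : κT → M → ℝ) (u : κ0 → M → ℝ) (k : Fin 3)
    (z : M) : ℝ :=
  S.H.B a k.succ z - (τ.rr z ^ (-(1 / 2) : ℝ) * ((1 / 2) * S.rq k u z) + r * (τ.rr z * τ.n k z) -
    τ.fE k z)

/-- the sequence of smooth approximate solutions with uniform energy bounds. -/
structure SeqS (S : SWS M κ0 κ1 κT) (τ : E3 → TD M κT) (K : ℝ) (r : ℕ → ℝ) (t : ℕ → E3)
    (a : ℕ → κT → M → ℝ) (u : ℕ → κ0 → M → ℝ) : Prop where
  rge : ∀ n : ℕ, (n : ℝ) + 1 ≤ r n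
  nt : ∀ n, ‖t n‖ = 1
  sma : ∀ n, SmV (n := 4) (a n)
  seca : ∀ n, S.DT.Sec (a n)
  smu : ∀ n, SmV (n := 4) (u n)
  secu : ∀ n, S.D0.Sec (u n)
  ene : ∀ n, Ene S (τ (t n)) (r n) (a n) (u n) K
  g0 : ∀ n : ℕ, ∫ z, (S.H.B (a n) 0 z ^ 2 + ∑ k, gR S (τ (t n)) (r n) (a n) (u n) k z ^ 2)
    ∂(μHE[4] : Measure M) ≤ 1 / ((n : ℝ) + 1)
  har : ∀ n, ∀ w : κT → M → ℝ, SmV (n := 4) w → S.DT.Sec w → (∀ k z, S.H.B w k z = 0) →
      |ipp (a n) w| ≤ K * √(ipp w w)

/-- `|∫ ∑ f w| ≤ √(∫ ∑ f²) √(∫ ∑ w²)`. -/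
theorem ip_le {κ : Type} [Fintype κ] {f w : κ → M → ℝ}
    (hf : ∀ a, MemLp (f a) 2 (μHE[4] : Measure M)) (hw : ∀ a, MemLp (w a) 2 (μHE[4] : Measure M)) :
    |ipp f w| ≤ √(∫ z, ∑ a, f a z ^ 2 ∂(μHE[4] : Measure M)) *
      √(∫ z, ∑ a, w a z ^ 2 ∂(μHE[4] : Measure M)) := by
  have hff : Integrable (fun z => ∑ a, f a z ^ 2) (μHE[4] : Measure M) :=
    integrable_finsetSum _ fun a _ => (hf a).integrable_sq
  have hww : Integrable (fun z => ∑ a, w a z ^ 2) (μHE[4] : Measure M) :=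
    integrable_finsetSum _ fun a _ => (hw a).integrable_sq
  have hfw : Integrable (fun z => ∑ a, f a z * w a z) (μHE[4] : Measure M) :=
    integrable_finsetSum _ fun a _ => (hf a).integrable_mul (hw a)
  set A := ∫ z, ∑ a, f a z ^ 2 ∂(μHE[4] : Measure M)
  set B := ∫ z, ∑ a, w a z ^ 2 ∂(μHE[4] : Measure M)
  have hA : 0 ≤ A := integral_nonneg fun z => Finset.sum_nonneg fun a _ => sq_nonneg _
  have hB : 0 ≤ B := integral_nonneg fun z => Finset.sum_nonneg fun a _ => sq_nonneg _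
  -- for all `x`, `0 ≤ A x² + 2 x <f,w> + B`
  have key : ∀ x : ℝ, 0 ≤ A * (x * x) + (2 * ipp f w) * x + B := by
    intro x
    have h1 : A * (x * x) + (2 * ipp f w) * x + B =
        ∫ z, ∑ a, (x * f a z + w a z) ^ 2 ∂(μHE[4] : Measure M) := by
      have h2 : (fun z => ∑ a, (x * f a z + w a z) ^ 2) = fun z =>
          (x * x) * (∑ a, f a z ^ 2) + (2 * x) * (∑ a, f a z * w a z) + ∑ a, w a z ^ 2 := by
        funext z
        rw [Finset.mul_sum, Finset.mul_sum, ← Finset.sum_add_distrib, ← Finset.sum_add_distrib]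
        exact Finset.sum_congr rfl fun a _ => by ring
      have e1 := integral_add ((hff.const_mul (x * x)).add (hfw.const_mul (2 * x))) hww
      have e2 := integral_add (hff.const_mul (x * x)) (hfw.const_mul (2 * x))
      simp only [Pi.add_apply] at e1 e2
      rw [h2, e1, e2, integral_const_mul, integral_const_mul]
      show _ = (x * x) * A + (2 * x) * ipp f w + B
      ring
    rw [h1]
    exact integral_nonneg fun z => Finset.sum_nonneg fun a _ => sq_nonneg _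
  have hdis := discrim_le_zero key
  rw [discrim] at hdis
  have h3 : (ipp f w) ^ 2 ≤ A * B := by nlinarith
  rw [← Real.sqrt_mul hA]
  exact Real.abs_le_sqrt h3

theorem Ene.mono {S : SWS M κ0 κ1 κT} {τ : TD M κT} {r : ℝ} {b : κT → M → ℝ} {u : κ0 → M → ℝ}
    {K K' : ℝ} (h : Ene S τ r b u K) (hr : 0 ≤ r) (hK : K ≤ K') : Ene S τ r b u K' where
  e1 := h.e1.trans (mul_le_mul_of_nonneg_right hK hr)
  e2 := h.e2.trans (mul_le_mul_of_nonneg_right hK hr)
  e3 := h.e3.trans hK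
  e4 := h.e4.trans hK
  e5 := h.e5.trans hK
  e6 := h.e6.trans hK

/-- an element of `W^{1,2}` is in `L²`. -/
theorem InW.memLp [IsFiniteMeasureOnCompacts (μHE[4] : Measure M)] {κ : Type} [Fintype κ]
    {D : Crest.Agent.R249.Tv57.Dat 4 M κ} {u : κ → M → ℝ} (h : InW D u) (a : κ) :
    MemLp (u a) 2 (μHE[4] : Measure M) := by
  obtain ⟨w, hw⟩ := h
  exact (memLp_congr_ae (hw a)).1 (Lp.memLp _)

theorem SmV.memLp [IsFiniteMeasureOnCompacts (μHE[4] : Measure M)] {κ : Type} [Fintype κ]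
    {u : κ → M → ℝ} (h : SmV (n := 4) u) (a : κ) : MemLp (u a) 2 (μHE[4] : Measure M) :=
  (h a).continuous.memLp_of_hasCompactSupport (HasCompactSupport.of_compactSpace _)

set_option maxHeartbeats 1000000 in
/-- **the sequence**. -/
theorem exists_seqS [IsFiniteMeasureOnCompacts (μHE[4] : Measure M)] (hA : APX.{v})
    (hT : TAUS.{v}) {S : SWS M κ0 κ1 κT} {T : ToF 4 M}
    {cc : κ1 → κ0 → (z : M) → TangentSpace (𝓡 4) z} {W : κ0 → κ0 → (z : M) → TangentSpace (𝓡 4) z}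
    {sT : κT → (z : M) → TangentSpace (𝓡 4) z} {w : Trip M} {e : Fin 3 → F2 E4 M} {ι : ℝ}
    {ww : Fin 3 → Fin 3 → M → ℝ} {τ : E3 → TD M κT} {C K : ℝ} {c : H2 M}
    (hd : SwcData S T cc W sT w e ι ww τ C K c) (hs : Sols S τ) :
    ∃ (K' : ℝ) (r : ℕ → ℝ) (t : ℕ → E3) (a : ℕ → κT → M → ℝ) (u : ℕ → κ0 → M → ℝ),
      0 < K' ∧ SeqS S τ K' r t a u := by
  obtain ⟨m0, m1, h0, hb⟩ := hd.bounds
  obtain ⟨K1, r1, hK1, hr1, hT1⟩ := hT M κ0 κ1 κT S hd.ok m0 m1 K C h0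
  obtain ⟨Hb, r0, hs⟩ := hs
  have key : ∀ n : ℕ, ∃ (r : ℝ) (t : E3) (a : κT → M → ℝ) (u : κ0 → M → ℝ), (n : ℝ) + 1 ≤ r ∧
      ‖t‖ = 1 ∧ SmV (n := 4) a ∧ S.DT.Sec a ∧ SmV (n := 4) u ∧ S.D0.Sec u ∧
      Ene S (τ t) r a u (max K1 (|Hb| + 1)) ∧
      (∫ z, (S.H.B a 0 z ^ 2 + ∑ k, gR S (τ t) r a u k z ^ 2)
        ∂(μHE[4] : Measure M)) ≤ 1 / ((n : ℝ) + 1) ∧
      ∀ w : κT → M → ℝ, SmV (n := 4) w → S.DT.Sec w → (∀ k z, S.H.B w k z = 0) →
        |ipp a w| ≤ max K1 (|Hb| + 1) * √(ipp w w) := by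
    intro n
    have hn1 : (0 : ℝ) < (n : ℝ) + 1 := by positivity
    obtain ⟨t, d, a, u, ht, hfit, hdr, hth, hsol⟩ := hs (max (max r0 r1) ((n : ℝ) + 1))
      ((le_max_left _ _).trans (le_max_left _ _))
    have hthz : d.th t = fun _ _ => 0 := by funext A z; exact hth A z
    have hr1' : r1 ≤ d.r := by
      rw [hdr]
      exact (le_max_right _ _).trans (le_max_left _ _)
    have hrn : (n : ℝ) + 1 ≤ d.r := by
      rw [hdr]
      exact le_max_right _ _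
    obtain ⟨L, hL⟩ := hA M κ0 κ1 κT S d (τ t) C Hb t hd.ok (hd.tau t ht) hfit a u hsol
    obtain ⟨ε, hε, hE⟩ := hT1 d (τ t) t (hd.tau t ht) hfit (fun z => hb t z ht)
      (fun k z => hd.bdE t k z ht) hr1' L
    have hε' : 0 < min ε (min (1 / ((n : ℝ) + 1)) 1) := lt_min hε (lt_min (by positivity) one_pos)
    obtain ⟨a', u', hsa, hSa, hsu, hSu, hda, hdu, hf, hg, h4, _⟩ := hL _ hε'
    have hadd : a' + d.th t = a' := by
      rw [hthz]
      funext A z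
      simp
    have hene := hE a' u' hsa hSa hsu hSu (hf.trans (min_le_left _ _)) (hg.trans (min_le_left _ _)) h4
    rw [hadd] at hene
    have hr0' : 0 ≤ d.r := hn1.le.trans hrn
    refine ⟨d.r, t, a', u', hrn, ht, hsa, hSa, hsu, hSu, hene.mono hr0' (le_max_left _ _), ?_, ?_⟩
    · have h5 : (fun z => S.H.B a' 0 z ^ 2 + ∑ k, gR S (τ t) d.r a' u' k z ^ 2) =
          fun z => ∑ k, gC S d t a' u' k z ^ 2 := by
        funext z
        rw [Fin.sum_univ_succ (fun k : Fin 4 => gC S d t a' u' k z ^ 2)]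
        congr 1
        · unfold gC rhs
          rw [Fin.cons_zero, sub_zero]
        · refine Finset.sum_congr rfl fun k _ => ?_
          unfold gC rhs gR
          rw [Fin.cons_succ, hfit.mu, hfit.wt, hfit.et, hthz, SWEnd_53.B_zero]
          ring
      rw [h5]
      exact hg.trans ((min_le_right _ _).trans (min_le_left _ _))
    · intro w' hw1 hw2 hw3
      have hwL := SmV.memLp hw1
      have haL := InW.memLp hsol.wa
      have haL' := SmV.memLp hsa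
      have h6 : ipp a' w' = ipp (fun A z => a' A z - a A z) w' + ipp a w' := by
        unfold Crest.Agent.R249.Tv57.ip
        have i1 : Integrable (fun z => ∑ A, (a' A z - a A z) * w' A z) (μHE[4] : Measure M) :=
          integrable_finsetSum _ fun A _ => ((haL' A).sub (haL A)).integrable_mul (hwL A)
        have i2 : Integrable (fun z => ∑ A, a A z * w' A z) (μHE[4] : Measure M) :=
          integrable_finsetSum _ fun A _ => (haL A).integrable_mul (hwL A)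
        rw [← integral_add i1 i2]
        congr 1
        funext z
        rw [← Finset.sum_add_distrib]
        exact Finset.sum_congr rfl fun A _ => by ring
      have h7 : |ipp (fun A z => a' A z - a A z) w'| ≤ 1 * √(ipp w' w') := by
        refine (ip_le (fun A => (haL' A).sub (haL A)) hwL).trans ?_
        have h8 : √(∫ z, ∑ A, (a' A z - a A z) ^ 2 ∂(μHE[4] : Measure M)) ≤ 1 := by
          rw [Real.sqrt_le_left zero_le_one, one_pow]
          exact hda.trans ((min_le_right _ _).trans (min_le_right _ _))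
        have h9 : ∫ z, ∑ A, w' A z ^ 2 ∂(μHE[4] : Measure M) = ipp w' w' := by
          unfold Crest.Agent.R249.Tv57.ip
          congr 1
          funext z
          exact Finset.sum_congr rfl fun A _ => by ring
        rw [h9]
        exact mul_le_mul_of_nonneg_right h8 (Real.sqrt_nonneg _)
      have h10 := hsol.har w' hw1 hw2 hw3
      have h11 : Hb * √(ipp w' w') ≤ |Hb| * √(ipp w' w') :=
        mul_le_mul_of_nonneg_right (le_abs_self _) (Real.sqrt_nonneg _)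
      calc |ipp a' w'| ≤ |ipp (fun A z => a' A z - a A z) w'| + |ipp a w'| := by
            rw [h6]; exact abs_add_le _ _
        _ ≤ (|Hb| + 1) * √(ipp w' w') := by linarith
        _ ≤ max K1 (|Hb| + 1) * √(ipp w' w') :=
            mul_le_mul_of_nonneg_right (le_max_right _ _) (Real.sqrt_nonneg _)
  choose r t a u h1 h2 h3 h4 h5 h6 h7 h8 h9 using key
  exact ⟨max K1 (|Hb| + 1), r, t, a, u, lt_max_of_lt_left hK1, ⟨h1, h2, h3, h4, h5, h6, h7, h8, h9⟩⟩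

end

end Crest.Agent.R235.SwcProd_215
end

-- ▼ part R235/SwcProd3_215

/-!
Row 235 (S0364), PACKAGE SWC, NODE PROD (leader helper215), part 3: the context `Ctx` of the
assembly, the Taubes sequence `Qs`, and the exact leaves PRB, PRC, PRD, PRE (fields of `TSeq.OK`).
-/

set_option autoImplicit false
set_option maxSynthPendingDepth 3
set_option linter.unusedSectionVars false

open scoped ContDiff ENNReal NNReal Topology Manifold Bundle RealInnerProductSpace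
open MeasureTheory Set Filter Metric Bundle

universe v

namespace Crest.Agent.R235.SwcProd_215

open Crest.Agent.R240 Crest.Agent.R240.Ch Crest.Agent.R235 Crest.Agent.R235.SWDefs_53
open Crest.Agent.R235.IndTri_451 Crest.Agent.R235.Tau483 Crest.Agent.R235.SwcGlob_34
open Crest.Agent.R249.Tv57 (OpPair SmF SmV KerD)
open Crest.Agent.R249.Tz805 (ToF)

noncomputable section

variable {M : Type v} [MetricSpace M] [CompactSpace M] [ConnectedSpace M]
  [ChartedSpace (EuclideanSpace ℝ (Fin 4)) M] [IsManifold (𝓡 4) ∞ M]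
  [RiemannianBundle (fun p : M => TangentSpace (𝓡 4) p)]
  [IsContMDiffRiemannianBundle (𝓡 4) ∞ (EuclideanSpace ℝ (Fin 4))
    (fun p : M => TangentSpace (𝓡 4) p)]
  [IsRiemannianManifold (𝓡 4) M] [MeasurableSpace M] [BorelSpace M]
  [SecondCountableTopology M] [Nonempty M]
  {κ0 κ1 κT : Type} [Fintype κ0] [Fintype κ1] [Fintype κT]

/-- all variables of the assembly. -/
structure Vars (M : Type v) [MetricSpace M] [CompactSpace M] [ConnectedSpace M]
    [ChartedSpace (EuclideanSpace ℝ (Fin 4)) M] [IsManifold (𝓡 4) ∞ M]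
    [RiemannianBundle (fun p : M => TangentSpace (𝓡 4) p)]
    [IsContMDiffRiemannianBundle (𝓡 4) ∞ (EuclideanSpace ℝ (Fin 4))
      (fun p : M => TangentSpace (𝓡 4) p)]
    [IsRiemannianManifold (𝓡 4) M] [MeasurableSpace M] [BorelSpace M]
    [SecondCountableTopology M] [Nonempty M] (κ0 κ1 κT : Type)
    [Fintype κ0] [Fintype κ1] [Fintype κT] where
  S : SWS M κ0 κ1 κT
  T : ToF 4 M
  cc : κ1 → κ0 → (z : M) → TangentSpace (𝓡 4) z
  W : κ0 → κ0 → (z : M) → TangentSpace (𝓡 4) z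
  sT : κT → (z : M) → TangentSpace (𝓡 4) z
  w : Trip M
  e : Fin 3 → F2 E4 M
  ι : ℝ
  ww : Fin 3 → Fin 3 → M → ℝ
  τ : E3 → TD M κT
  C : ℝ
  K : ℝ
  c : H2 M
  /-- bound of the energies -/
  K' : ℝ
  r : ℕ → ℝ
  t : ℕ → E3
  a : ℕ → κT → M → ℝ
  u : ℕ → κ0 → M → ℝ
  a0 : ℕ → Z2 M
  β : ℕ → F1 E4 M
  /-- the limit parameter -/
  t0 : E3
  D : Crest.Agent.R240.Dat M
  N : ℕ
  ν : Fin N ≃ κ0

/-- the hypotheses of the assembly, along a filter `U`. -/
structure Ctx [IsFiniteMeasureOnCompacts (μHE[4] : Measure M)] (V : Vars M κ0 κ1 κT)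
    (U : Filter ℕ) : Prop where
  data : SwcData V.S V.T V.cc V.W V.sT V.w V.e V.ι V.ww V.τ V.C V.K V.c
  seq : SeqS V.S V.τ V.K' V.r V.t V.a V.u
  lnk : ∀ n, Lnk V.S V.T V.cc V.sT V.w V.e (V.τ (V.t n)) (V.a0 n) (V.β n) V.K
  cls : ∀ n, cls (V.a0 n) = V.c
  Kpos : 0 < V.K'
  nt0 : ‖V.t0‖ = 1
  lim : Tendsto V.t U (𝓝 V.t0)
  limD : LimD V.w V.e (fun i => V.t0 i) (Xw V.ww V.t0) V.D
  le : U ≤ atTop

/-- the Taubes sequence. -/
def Vars.Q (V : Vars M κ0 κ1 κT) : TSeq M V.N where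
  p := fun n x => (PE (V.τ (V.t n)) V.S x).submatrix V.ν V.ν
  a0 := V.a0
  r := V.r
  α := fun n x i => zet V.S (cE (V.τ (V.t n)) V.S (V.u n)) x (V.ν i) / ((√(2 * V.r n) : ℝ) : ℂ)
  θ := fun n => thE V.sT V.e (V.β n) (V.a n)

/-- **PRB**: `e1`, `e2`, `o3`. -/
def PRB : Prop :=
  ∀ (M : Type v) [MetricSpace M] [CompactSpace M] [ConnectedSpace M]
    [ChartedSpace (EuclideanSpace ℝ (Fin 4)) M] [IsManifold (𝓡 4) ∞ M]
    [RiemannianBundle (fun p : M => TangentSpace (𝓡 4) p)]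
    [IsContMDiffRiemannianBundle (𝓡 4) ∞ (EuclideanSpace ℝ (Fin 4))
      (fun p : M => TangentSpace (𝓡 4) p)]
    [IsRiemannianManifold (𝓡 4) M] [MeasurableSpace M] [BorelSpace M]
    [SecondCountableTopology M] [Nonempty M] [IsFiniteMeasureOnCompacts (μHE[4] : Measure M)]
    (κ0 κ1 κT : Type) [Fintype κ0] [Fintype κ1] [Fintype κT] (V : Vars M κ0 κ1 κT)
    (U : Filter ℕ), Ctx V U → ∃ C' : ℝ, 0 < C' ∧
      (∀ n, ∫ x, V.Q.neta V.D n x ∂V.D.μ ≤ C') ∧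
      (∀ n, V.Q.r n * ∫ x, (1 - V.Q.nal n x) ^ 2 ∂V.D.μ ≤ C') ∧
      Tendsto (fun n => ∫ x, V.Q.ndb V.D n x ∂V.D.μ) U (𝓝 0)

/-- **PRC**: `e3`, `o1`, `o2` (`lam = 1/2`). -/
def PRC : Prop :=
  ∀ (M : Type v) [MetricSpace M] [CompactSpace M] [ConnectedSpace M]
    [ChartedSpace (EuclideanSpace ℝ (Fin 4)) M] [IsManifold (𝓡 4) ∞ M]
    [RiemannianBundle (fun p : M => TangentSpace (𝓡 4) p)]
    [IsContMDiffRiemannianBundle (𝓡 4) ∞ (EuclideanSpace ℝ (Fin 4))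
      (fun p : M => TangentSpace (𝓡 4) p)]
    [IsRiemannianManifold (𝓡 4) M] [MeasurableSpace M] [BorelSpace M]
    [SecondCountableTopology M] [Nonempty M] [IsFiniteMeasureOnCompacts (μHE[4] : Measure M)]
    (κ0 κ1 κT : Type) [Fintype κ0] [Fintype κ1] [Fintype κT] (V : Vars M κ0 κ1 κT)
    (U : Filter ℕ), Ctx V U → ∃ C' : ℝ, 0 < C' ∧
      (∀ n, ∫ x, nsqG V.D.J V.D.F (V.Q.Phi n) x ∂V.D.μ ≤ C' * V.Q.r n) ∧
      Tendsto (fun n => (V.Q.r n)⁻¹ * ∫ x, (qG V.D.F (V.Q.Phi n) V.D.F x -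
        (1 / 2) * V.Q.r n * (1 - V.Q.nal n x)) ^ 2 ∂V.D.μ) U (𝓝 0) ∧
      Tendsto (fun n => (V.Q.r n)⁻¹ * ∫ x, nsqG V.D.J V.D.F (bpp V.D.J (V.Q.Phi n)) x ∂V.D.μ) U
        (𝓝 0)

/-- **PRD**: `o4`. -/
def PRD : Prop :=
  ∀ (M : Type v) [MetricSpace M] [CompactSpace M] [ConnectedSpace M]
    [ChartedSpace (EuclideanSpace ℝ (Fin 4)) M] [IsManifold (𝓡 4) ∞ M]
    [RiemannianBundle (fun p : M => TangentSpace (𝓡 4) p)]
    [IsContMDiffRiemannianBundle (𝓡 4) ∞ (EuclideanSpace ℝ (Fin 4))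
      (fun p : M => TangentSpace (𝓡 4) p)]
    [IsRiemannianManifold (𝓡 4) M] [MeasurableSpace M] [BorelSpace M]
    [SecondCountableTopology M] [Nonempty M] [IsFiniteMeasureOnCompacts (μHE[4] : Measure M)]
    (κ0 κ1 κT : Type) [Fintype κ0] [Fintype κ1] [Fintype κT] (V : Vars M κ0 κ1 κT)
    (U : Filter ℕ), Ctx V U →
      Tendsto (fun n => (V.Q.r n)⁻¹ * ∫ x, n1 V.D x (at1 (V.Q.θ n) x) ∂V.D.μ) U (𝓝 0)

/-- **PRE**: the soft fields. -/
def PRE : Prop :=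
  ∀ (M : Type v) [MetricSpace M] [CompactSpace M] [ConnectedSpace M]
    [ChartedSpace (EuclideanSpace ℝ (Fin 4)) M] [IsManifold (𝓡 4) ∞ M]
    [RiemannianBundle (fun p : M => TangentSpace (𝓡 4) p)]
    [IsContMDiffRiemannianBundle (𝓡 4) ∞ (EuclideanSpace ℝ (Fin 4))
      (fun p : M => TangentSpace (𝓡 4) p)]
    [IsRiemannianManifold (𝓡 4) M] [MeasurableSpace M] [BorelSpace M]
    [SecondCountableTopology M] [Nonempty M] [IsFiniteMeasureOnCompacts (μHE[4] : Measure M)]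
    (κ0 κ1 κT : Type) [Fintype κ0] [Fintype κ1] [Fintype κT] (V : Vars M κ0 κ1 κT)
    (U : Filter ℕ), Ctx V U →
      Closed2 V.D.F ∧
      (∃ p' : M → Matrix (Fin V.N) (Fin V.N) ℂ, (∀ i j, Continuous fun x => p' x i j) ∧
        ∀ ε : ℝ, 0 < ε → ∀ᶠ n in U, ∀ x i j, ‖V.Q.p n x i j - p' x i j‖ < ε) ∧
      (∃ C' : ℝ, ∀ n, ∫ x, nsqG V.D.J V.D.F ((V.Q.a0 n).1.1 : F2 E4 M) x ∂V.D.μ ≤ C') ∧
      (∀ n i, ContMDiff 𝓘(ℝ, E4) 𝓘(ℝ, ℂ) ∞ (fun x => V.Q.α n x i)) ∧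
      (∀ n x, (V.Q.p n x).mulVec (V.Q.α n x) = V.Q.α n x) ∧
      (∀ n, Smooth1 (V.Q.θ n))

end

end Crest.Agent.R235.SwcProd_215
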