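import Crest.Agent.R235.W2A_464
import Crest.Agent.R235.Wind4_688

-- ▼ part R235/W2B_464
section

/-!
Row 235, package ADJ (helper464), leaf W2, part B: Stokes on a closed Riemann surface.

* `sum_zero`: for a continuous one-form `α` off a finite set `F` and a partition of unity adapted
  to `F`, `Σ_k ∫ dρ_k ∧ α = 0`, each integral in the chart of `ρ_k`.
-/

set_option autoImplicit false

open Set Filter Topology Function MeasureTheory Metric
open scoped ContDiff

universe u v

namespace Crest.Agent.R235.W2_464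

open RS

noncomputable section


variable {N : Type u} [TopologicalSpace N] (A : CAtl.{u, v} N)






namespace Pou

variable {A} {F : Finset N} (P : Pou A F)


/-- the support of `ρ k` -/
def K (k : N) : Set N := (A.c (P.i k)).symm '' closedBall (A.c (P.i k) k) (P.R k / 2)












end Pou

/-- a one-form off the set `F` : covectors in the charts -/
structure Form1 (F : Set N) where
  /-- the covector in a chart -/
  a : A.ι → ℂ → ℂ →L[ℝ] ℝ
  cont : ∀ i, ContinuousOn (a i) {z | z ∈ (A.c i).target ∧ (A.c i).symm z ∉ F}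
  tr : ∀ i j, ∀ z ∈ A.dom i j, (A.c i).symm z ∉ F →
    a i z = (a j (A.tr i j z)).comp (mulL (deriv (A.tr i j) z))

variable {A} {F : Finset N}









end

end Crest.Agent.R235.W2_464
end

-- ▼ part R235/W2_464

/-!
Row 235, package ADJ (helper464), leaf W2: **the total winding number on a closed Riemann surface
is zero**.

`N` a compact Hausdorff space with a holomorphic atlas `A : RS.CAtl N`, `F : Finset N`.

* `chart_fun`, `chart_sec`: the winding number at a point does not depend on the chart
* `total_fun`: `Φ : N → ℂ` of class `C²` and non-vanishing off `F` : `Σ_{x ∈ F} wind_x Φ = 0`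
* `total_sec`: two sections of `K`, `C²` and non-vanishing off `F` : the same total winding number
* `exists_wind_fun`, `exists_wind_sec`: the winding numbers exist
-/

set_option autoImplicit false

open Set Filter Topology Function MeasureTheory Metric
open scoped ContDiff Real

universe u v

namespace Crest.Agent.R235.W2_464

open RS Wind_688

noncomputable section

/-- the winding number of `F` on all small circles around `p` is `n` (same as `Adj.WAt`). -/
def WAt (F : ℂ → ℂ) (p : ℂ) (n : ℤ) : Prop := ∀ᶠ r in 𝓝[>] (0 : ℝ), IsW F p r n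



theorem WAt.div {F G : ℂ → ℂ} {p : ℂ} {m n : ℤ} (hF : WAt F p m) (hG : WAt G p n) :
    WAt (fun z => F z / G z) p (m - n) := by
  filter_upwards [hF, hG] with r h1 h2
  exact h1.div h2

theorem WAt.mul {F G : ℂ → ℂ} {p : ℂ} {m n : ℤ} (hF : WAt F p m) (hG : WAt G p n) :
    WAt (fun z => F z * G z) p (m + n) := by
  filter_upwards [hF, hG] with r h1 h2
  exact h1.mul h2

/-- a function continuous and non-vanishing at `p` has winding number `0`. -/
theorem WAt.zero {F : ℂ → ℂ} {p : ℂ} (hF : ∀ᶠ z in 𝓝 p, ContinuousAt F z) (h0 : F p ≠ 0) :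
    WAt F p 0 := by
  have h1 : ∀ᶠ z in 𝓝 p, F z ≠ 0 := hF.self_of_nhds.eventually_ne h0
  obtain ⟨ε, hε, he⟩ := Metric.eventually_nhds_iff.1 (hF.and h1)
  have h2 : ∀ᶠ r in 𝓝[>] (0 : ℝ), r ∈ Ioo 0 ε := Ioo_mem_nhdsGT hε
  filter_upwards [h2] with r hr
  refine isW_zero hr.1.le (fun z hz => ?_) fun z hz => ?_
  · exact (he (lt_of_le_of_lt hz hr.2)).1.continuousWithinAt
  · exact (he (lt_of_le_of_lt hz hr.2)).2

/-- `F` continuous and non-vanishing on a punctured neighbourhood of `p`. -/
def Pn (F : ℂ → ℂ) (p : ℂ) : Prop := ∀ᶠ z in 𝓝[≠] p, ContinuousAt F z ∧ F z ≠ 0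

theorem Pn.exists_ball {F : ℂ → ℂ} {p : ℂ} (h : Pn F p) : ∃ R : ℝ, 0 < R ∧
    ContinuousOn F (ball p R \ {p}) ∧ ∀ z ∈ ball p R, z ≠ p → F z ≠ 0 := by
  unfold Pn at h
  rw [eventually_nhdsWithin_iff, Metric.eventually_nhds_iff] at h
  obtain ⟨R, hR, h⟩ := h
  exact ⟨R, hR, fun z hz => (h hz.1 hz.2).1.continuousWithinAt, fun z hz hne => (h hz hne).2⟩


/-- holomorphic change of variable -/
theorem WAt.comp {F φ : ℂ → ℂ} {p : ℂ} {n : ℤ} (hφ : AnalyticAt ℂ φ p) (hφ' : deriv φ p ≠ 0)
    (hF : Pn F (φ p)) (h : WAt F (φ p) n) : WAt (fun z => F (φ z)) p n := by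
  obtain ⟨R, hR, hc, h0⟩ := hF.exists_ball
  have h1 : ∀ᶠ r in 𝓝[>] (0 : ℝ), r ∈ Ioo 0 R := Ioo_mem_nhdsGT hR
  obtain ⟨s, hs, hsR⟩ := (h.and h1).exists
  obtain ⟨O, hO, hOa⟩ := hφ.eventually_analyticAt.exists_mem
  refine IsW.comp (a := deriv φ p) (b := 0) hc h0 (by simpa using hφ') hO
    (fun z hz => (hOa z hz).continuousAt.continuousWithinAt) (fun ε hε => ?_) hsR.1 hsR.2 hs
  have h2 := hφ.differentiableAt.hasDerivAt.isLittleO.bound hε
  filter_upwards [h2] with z hz
  simpa [alin, mul_comm] using hz

/-! ### independence of the chart -/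

section Chart

variable {N : Type u} [TopologicalSpace N] {A : CAtl.{u, v} N}



end Chart

/-! ### the argument form -/



section Total

set_option linter.unusedSectionVars false

variable {N : Type u} [TopologicalSpace N] [T2Space N] [CompactSpace N] {A : CAtl.{u, v} N}
  {F : Finset N}












end Total

end

end Crest.Agent.R235.W2_464
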