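import Crest.Agent.R235.RegFin_460
import Crest.Agent.R235.NWRegF_930
import Crest.Agent.R235.AdjNodes_43
import Crest.Agent.R235.W2_464
import Crest.Agent.R235.Glob3_370
import Crest.Agent.R235.Glob2_370
import Mathlib
import Crest.Agent.R240.N8
import Crest.Agent.R240.SmFE2_Mg
import Crest.Agent.R240.En4D
import Crest.Agent.R240.N24
import Crest.Agent.R240.Fund
import Crest.Agent.R240.IntNodes
import Crest.Agent.R235.AdjInt_43
import Crest.Agent.R235.T1A_195
import Crest.Agent.R235.AdjGen_83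
import Crest.Agent.R235.SwcDefs2_215
import Crest.Agent.R235.JT_291
import Crest.Agent.R235.SwcProd_215
import Crest.Agent.R235.SwcRBil_291
import Crest.Agent.R235.Riem_399
import Crest.Agent.R235.QSTri_451
import Crest.Agent.R235.SwcProd2_215
import Crest.Agent.R235.SwcAlg_34
import Crest.Agent.R240.Nsq
import Crest.Agent.R235.SwcProd3_215
import Crest.Agent.R235.SWUni_312
import Crest.Agent.R235.TauF_483
import Crest.Agent.R240.ChDens
import Crest.Agent.R235.SwcPRE_129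

-- ▼ part R235/Degs_370
section

/-!
Row 235 (S0364), PACKAGE ADJ, helper370: node `DEGS` (sections in the parametrisations of the
branches; the degree as a sum over branches).
-/

set_option autoImplicit false
set_option maxSynthPendingDepth 3
set_option linter.unusedSectionVars false

open Set Function Filter MeasureTheory Metric
open scoped Manifold ContDiff Topology

universe u

namespace Crest.Agent.R235.Degs_370

open Crest.Agent.R240 Crest.Agent.R240.Ch Crest.Agent.R240.Int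
open Crest.Agent.R235 Crest.Agent.R235.Glob_370 Crest.Agent.R235.Adj Crest.Agent.R235.Wind_688

noncomputable section

section Sec

variable {N : Type u} [TopologicalSpace N] {A : RS.CAtl.{u, u} N} (k : KSec A)

theorem ksec_cont {i : A.ι} {z : ℂ} (hz : z ∈ (A.c i).target) :
    ∀ᶠ y in 𝓝 z, ContinuousAt (k.s i) y := by
  filter_upwards [(A.c i).open_target.mem_nhds hz] with y hy
  exact (k.smooth i).continuousOn.continuousAt ((A.c i).open_target.mem_nhds hy)

/-- the coefficients of a section do not vanish on a punctured neighbourhood. -/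
theorem ksec_pn {i : A.ι} {z : ℂ} (hz : z ∈ (A.c i).target) : W2_464.Pn (k.s i) z := by
  have h1 : ∀ᶠ y in 𝓝[≠] z, ContinuousAt (k.s i) y := (ksec_cont k hz).filter_mono
    nhdsWithin_le_nhds
  have hfin : ((fun y => (A.c i).symm y) ⁻¹' (k.Z : Set N) ∩ (A.c i).target).Finite := by
    refine Set.Finite.of_finite_image (f := fun y => (A.c i).symm y)
      (k.Z.finite_toSet.subset ?_) ?_
    · rintro _ ⟨y, hy, rfl⟩
      exact hy.1
    · exact (A.c i).symm.injOn.mono inter_subset_right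
  have h2 : ∀ᶠ y in 𝓝[≠] z, y ∉ ((fun y => (A.c i).symm y) ⁻¹' (k.Z : Set N) ∩
      (A.c i).target) \ {z} := by
    have : IsClosed (((fun y => (A.c i).symm y) ⁻¹' (k.Z : Set N) ∩ (A.c i).target) \ {z}) :=
      (hfin.subset sdiff_subset).isClosed
    exact mem_nhdsWithin_of_mem_nhds (this.isOpen_compl.mem_nhds (fun h => h.2 rfl))
  have h3 : ∀ᶠ y in 𝓝[≠] z, y ∈ (A.c i).target :=
    mem_nhdsWithin_of_mem_nhds ((A.c i).open_target.mem_nhds hz)
  filter_upwards [h1, h2, h3, self_mem_nhdsWithin] with y c1 c2 c3 c4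
  exact ⟨c1, fun h0 => c2 ⟨⟨k.zero i y c3 h0, c3⟩, c4⟩⟩

end Sec

section Cur

variable {M : Type u} [TopologicalSpace M] [T2Space M] [CompactSpace M]
  [ChartedSpace E4 M] [IsManifold 𝓘(ℝ, E4) ∞ M] {J : EndF E4 M} {c : JCurve J}

theorem wat_secφ (k : KSec c.A) (p : M) (j : Fin (c.L p).n) (i : c.A.ι)
    (hi : c.φ p j 0 ∈ (c.A.c i).source) :
    W2_464.WAt (secφ k p j i) 0 (ordφ k p j) := by
  have h0 : (0 : ℂ) ∈ ball (0 : ℂ) 1 := mem_ball_self one_pos
  have hop : IsOpen {z | z ∈ ball (0 : ℂ) 1 ∧ c.φ p j z ∈ (c.A.c i).source} :=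
    (c.φ_cont p j).isOpen_inter_preimage isOpen_ball (c.A.c i).open_source
  have han : AnalyticAt ℂ (fun z => c.A.c i (c.φ p j z)) 0 :=
    (c.φ_hol p j i).analyticAt (hop.mem_nhds ⟨h0, hi⟩)
  have hd : deriv (fun z => c.A.c i (c.φ p j z)) 0 ≠ 0 := c.φ_imm p j i 0 h0 hi
  have ht : c.A.c i (c.φ p j 0) ∈ (c.A.c i).target := (c.A.c i).map_source hi
  have hl : (c.A.c i).symm (c.A.c i (c.φ p j 0)) = c.φ p j 0 := (c.A.c i).left_inv hi
  have hW : W2_464.WAt (k.s i) (c.A.c i (c.φ p j 0)) (ordφ k p j) := by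
    unfold ordφ
    split_ifs with h
    · exact k.wind _ h i hi
    · refine W2_464.WAt.zero (ksec_cont k ht) fun h1 => h ?_
      have h2 := k.zero i _ ht h1
      rwa [hl] at h2
  have h1 : W2_464.WAt (fun z => k.s i (c.A.c i (c.φ p j z))) 0 (ordφ k p j) :=
    W2_464.WAt.comp (F := k.s i) (φ := fun z => c.A.c i (c.φ p j z)) han hd (ksec_pn k ht) hW
  have h2 : W2_464.WAt (deriv fun z => c.A.c i (c.φ p j z)) 0 0 :=
    W2_464.WAt.zero (han.eventually_analyticAt.mono fun z hz => hz.deriv.continuousAt) hd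
  have h3 := h1.mul h2
  rw [add_zero] at h3
  exact h3

theorem φ_centre (p : M) (j : Fin (c.L p).n) : c.f (c.φ p j 0) = p := by
  rw [c.φ_f p j 0 (mem_ball_self one_pos), (c.L p).centre]

/-- the fibre over `p`: the centres of the branches. -/
theorem fibre {p : M} {x : c.N} (h : c.f x = p) : ∃ j, c.φ p j 0 = x := by
  have hU : c.f x ∈ (c.L p).U := by rw [h]; exact (c.L p).mem
  obtain ⟨j, z, hz, hx⟩ := c.φ_cover p x hU
  have h1 : (c.L p).u j z = (c.L p).u j 0 := by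
    rw [(c.L p).centre, ← c.φ_f p j z hz, hx, h]
  have h2 : z = 0 := ((c.L p).disc j).inj hz (mem_ball_self one_pos) h1
  exact ⟨j, by rw [← h2, hx]⟩

theorem φ_centre_inj (p : M) : Injective fun j : Fin (c.L p).n => c.φ p j 0 := by
  intro i j h
  by_contra hij
  exact c.φ_disj p i j hij 0 (mem_ball_self one_pos) 0 (mem_ball_self one_pos) h

open Classical in
theorem sum_fibre (k : KSec c.A) (p : M) :
    ∑ j, ordφ k p j = ∑ x ∈ k.Z with c.f x = p, k.ord x := by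
  unfold ordφ
  rw [← Finset.sum_filter]
  refine Finset.sum_bij (fun j _ => c.φ p j 0) ?_ ?_ ?_ ?_
  · intro j hj
    rw [Finset.mem_filter] at hj ⊢
    exact ⟨hj.2, φ_centre p j⟩
  · intro i _ j _ h
    exact φ_centre_inj p h
  · intro x hx
    rw [Finset.mem_filter] at hx
    obtain ⟨j, hj⟩ := fibre hx.2
    exact ⟨j, by rw [Finset.mem_filter, hj]; exact ⟨Finset.mem_univ _, hx.1⟩, hj⟩
  · intro j _
    rfl

end Cur

/-- **DEGS**. -/
theorem degs : DEGS.{u} := by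
  intro M _ _ _ _ _ _ J c k
  refine ⟨fun p j i hi => wat_secφ k p j i hi, fun P hP => ?_⟩
  classical
  rw [Finset.sum_congr rfl fun p _ => sum_fibre k p]
  exact Finset.sum_fiberwise_of_maps_to hP _

end

end Crest.Agent.R235.Degs_370
end

-- ▼ part R235/Bch_370
section

/-!
Row 235 (S0364), PACKAGE ADJ, helper370: node `BCH` (chain rule for `σ(v, ∂u)`).
-/

set_option autoImplicit false
set_option maxSynthPendingDepth 3

open Set Function Filter MeasureTheory Metric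
open scoped Manifold ContDiff Topology

universe u

namespace Crest.Agent.R235.Bch_370

open Crest.Agent.R240 Crest.Agent.R240.Ch Crest.Agent.R240.Int
open Crest.Agent.R235 Crest.Agent.R235.Glob_370 Crest.Agent.R235.Adj

noncomputable section

section

variable {M : Type u} [TopologicalSpace M] [ChartedSpace E4 M] [IsManifold 𝓘(ℝ, E4) ∞ M]

theorem sg_add (w : Trip M) (J : EndF E4 M) (x : M) (v a b : E4) :
    sg w J x v (a + b) = sg w J x v a + sg w J x v b := by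
  unfold Adj.sg
  simp only [map_add]
  push_cast
  ring

theorem sg_smul (w : Trip M) (J : EndF E4 M) (x : M) (v a : E4) (r : ℝ) :
    sg w J x v (r • a) = r * sg w J x v a := by
  unfold Adj.sg
  simp only [map_smul, smul_eq_mul]
  push_cast
  ring

/-- `σ(v, J a) = i σ(v, a)`. -/
theorem sg_J {w : Trip M} {J : EndF E4 M} (h : IsJ w J) (x : M) (v a : E4) :
    sg w J x v (atJ J x a) = Complex.I * sg w J x v a := by
  unfold Adj.sg
  have h1 : val (w 1) x (atJ J x v) (atJ J x a) = - val (w 1) x v a := h.anti1 x v a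
  have h2 : val (w 1) x v (atJ J x a) = val (w 1) x (atJ J x v) a := by
    have h3 := h.anti1 x v (atJ J x a)
    rw [h.sq, map_neg] at h3
    linarith
  rw [h1, h2]
  have e : Complex.I * Complex.I = -1 := Complex.I_mul_I
  push_cast
  linear_combination (val (w 1) x (atJ J x v) a : ℂ) * e

/-- the chain rule at one point. -/
theorem sg_comp {w : Trip M} {J : EndF E4 M} (hJ : IsJ w J) {F : ℂ → M} {O : Set ℂ}
    (hO : IsOpen O) (hF : IsJHol J F O) {h : ℂ → ℂ} {z : ℂ} (hz : h z ∈ O)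
    (hh : DifferentiableAt ℂ h z) (v : E4) :
    sg w J (F (h z)) v (dmap (fun z => F (h z)) z 1) =
      sg w J (F (h z)) v (dmap F (h z) 1) * deriv h z := by
  rw [dmap_comp_hol (hF.at hO hz) hh]
  set c := deriv h z with hc
  have e1 : c * 1 = c.re • (1 : ℂ) + c.im • Complex.I := by
    apply Complex.ext <;> simp
  have e2 : dmap F (h z) Complex.I = atJ J (F (h z)) (dmap F (h z) 1) := by
    have := hF.jhol (h z) hz 1
    rwa [mul_one] at this
  rw [e1, dmap_add, dmap_smul, dmap_smul, e2, sg_add, sg_smul, sg_smul, sg_J hJ]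
  have e3 : c = (c.re : ℂ) + (c.im : ℂ) * Complex.I := (Complex.re_add_im c).symm
  conv_rhs => rw [e3]
  ring

end

/-- **BCH**. -/
theorem bch : BCH.{u} := by
  intro M _ _ _ _ _ _ w J hJ c p j i z hz hi v
  have hop : IsOpen {z | z ∈ ball (0 : ℂ) 1 ∧ c.φ p j z ∈ (c.A.c i).source} :=
    (c.φ_cont p j).isOpen_inter_preimage isOpen_ball (c.A.c i).open_source
  have hh : DifferentiableAt ℂ (fun z => c.A.c i (c.φ p j z)) z :=
    (c.φ_hol p j i).differentiableAt (hop.mem_nhds ⟨hz, hi⟩)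
  have ht : c.A.c i (c.φ p j z) ∈ (c.A.c i).target := (c.A.c i).map_source hi
  have hg : (c.L p).u j =ᶠ[𝓝 z] fun z => c.f ((c.A.c i).symm (c.A.c i (c.φ p j z))) := by
    filter_upwards [hop.mem_nhds ⟨hz, hi⟩] with y hy
    rw [(c.A.c i).left_inv hy.2, c.φ_f p j y hy.1]
  have hu : (c.L p).u j z = c.f ((c.A.c i).symm (c.A.c i (c.φ p j z))) := hg.eq_of_nhds
  rw [dmap_congr hg]
  have h1 := sg_comp hJ (c.A.c i).open_target (c.hol i) (h := fun z => c.A.c i (c.φ p j z)) ht hh v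
  rw [hu]
  exact h1

end

end Crest.Agent.R235.Bch_370
end

-- ▼ part R235/IntF_250
section

/-!
Row 235 (S0364), package ADJ, helper250: INTERSECTION FORMULA.

`S`, `R` closed currents (functionals on smooth two-forms, `R` of finite order) on a closed
four-manifold; `S` is represented on closed forms by `a`.  If near the intersection of the supports
`S` has local primitives `ψ j` (weakly, tested only on `χ j • closed`), then `R a` is the sum of the
numbers `R (ψ j ∧ dχ j)`.  No primitive on `M`, no Green operator: the proof smooths `R` by the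
operators `A e` of R240.
-/

set_option autoImplicit false
set_option maxSynthPendingDepth 3
set_option linter.unusedSectionVars false

open Set Function Filter MeasureTheory Metric
open scoped Manifold ContDiff Topology ENNReal

namespace Crest.Agent.R235.IntF_250

open Crest.Agent.R240 Crest.Agent.R240.Ch Crest.Agent.R240.Sm

noncomputable section

variable {M : Type*} [MetricSpace M] [CompactSpace M] [ChartedSpace E4 M]
    [IsManifold 𝓘(ℝ, E4) ∞ M] [MeasurableSpace M] [BorelSpace M]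

/-! ### locality of the smoothing operators -/

theorem at2_eq_zero_of_nr (D : Dat M) (b : X2 M) {x : M}
    (h : D.nr (b : F2 E4 M) x ≤ 0) : at2 (b : F2 E4 M) x = 0 := by
  have h0 : D.nr (b : F2 E4 M) x = 0 := le_antisymm h (En4.nr_nonneg D _ x)
  have h1 : nsqG D.J D.F (b : F2 E4 M) x = 0 := by
    rw [← En4.nr_sq D b.2.1, h0]; norm_num
  obtain ⟨m, m', hB⟩ := N24.exists_bd (D.sq x) (En4.spos D x)
  exact hB.nsq_eq_zero (En4.alt2 b x) h1

/-- propagation of the smoothing operators on functions. -/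
theorem exists_loc_a (D : Dat M) (S : Sys M) : ∃ e1 c : ℝ, 0 < e1 ∧ 0 < c ∧
    ∀ e, 0 < e → e ≤ e1 → Loc (c * e) {f : M → ℝ | SmoothF E4 f} (S.a e) := by
  choose Cd hCd hdisp using fun i => exists_disp_psi D.bl (S.G i) (p := S.p i) (S.hG i)
    (r' := (S.c i).z0 / 2) (by
      change (S.c i).z0 / 2 < (S.c i).z0
      linarith [(S.c i).z0_pos])
  set Ct : ℝ := 1 + ∑ i, Cd i with hCt
  have hs0 : 0 ≤ ∑ i, Cd i := Finset.sum_nonneg fun i _ => hCd i
  have hCt0 : 0 < Ct := by positivity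
  have hCle : ∀ i, Cd i ≤ Ct := fun i => by
    have := Finset.single_le_sum (f := Cd) (fun i _ => hCd i) (Finset.mem_univ i)
    rw [hCt]
    linarith
  have hdisp' : ∀ i, ∀ z ∈ closedBall (0 : E4) ((S.c i).z0 / 2), ∀ x : M,
      dist (psi (S.G i) (S.p i) z x) x ≤ Ct * ‖z‖ := fun i z hz x =>
    (hdisp i z hz x).trans (mul_le_mul_of_nonneg_right (hCle i) (norm_nonneg _))
  obtain ⟨e3, he3, he3'⟩ := SmF.exists_pos_le (fun i : Fin S.n => (S.c i).z0 / 2)
    fun i => half_pos (S.c i).z0_pos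
  refine ⟨e3, S.n * Ct + 1, he3, by positivity, fun e he hee => ?_⟩
  have hez : ∀ i, e ≤ (S.c i).z0 / 2 := fun i => hee.trans (he3' i)
  have hloc0 := SmF.loc_fL S hCt0.le hdisp' he hez (List.finRange S.n)
  rw [List.length_finRange] at hloc0
  have hloc : Loc (S.n * (Ct * e)) {f : M → ℝ | SmoothF E4 f} (S.a e) := hloc0
  refine hloc.mono ?_
  nlinarith

/-- **propagation of the smoothing operators on two-forms.** -/
theorem exists_loc_A (D : Dat M) (S : Sys M) : ∃ e1 c : ℝ, 0 < e1 ∧ 0 < c ∧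
    ∀ e, 0 < e → e ≤ e1 → ∀ (b : X2 M) (x : M),
      (∀ y, dist y x ≤ c * e → at2 (b : F2 E4 M) y = 0) →
      at2 (S.A e (oneK S.n) b : F2 E4 M) x = 0 := by
  obtain ⟨e1, he1, C, hbd⟩ := Q4.fBd D S
  obtain ⟨e2, c, he2, hc, hloc⟩ := exists_loc_a D S
  refine ⟨min e1 e2, 2 * c, lt_min he1 he2, by positivity, fun e he hee b x hb => ?_⟩
  have hce : 0 < c * e := by positivity
  obtain ⟨f, hf, hf1, hf0, hf01⟩ := exists_bump_ball (E := E4) x
    (r := c * e) (R := 2 * c * e) (by nlinarith)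
  -- a bound of `|b|`
  have hcont : Continuous (D.nr (b : F2 E4 M)) := En4.cont_nr D b.2
  obtain ⟨K, hK⟩ := (isCompact_range hcont).bddAbove
  have hK0 : 0 ≤ K := (En4.nr_nonneg D (b : F2 E4 M) x).trans (hK ⟨x, rfl⟩)
  have hh : SmoothF E4 (fun y => K * (1 - f y)) :=
    En4.sF_const_mul K (En4.sF_sub (smoothF_const (E := E4) (M := M) 1) hf)
  have hle : ∀ y, D.nr (b : F2 E4 M) y ≤ K * (1 - f y) := by
    intro y
    rcases le_total (dist y x) (2 * c * e) with h | h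
    · rw [ChDens.nr_zero D (hb y h)]
      exact mul_nonneg hK0 (by linarith [(hf01 y).2])
    · rw [hf0 y h]
      have := hK (mem_range_self y)
      linarith
  have h1 := hbd e (oneK S.n) he (hee.trans (min_le_left _ _)) (oneK_mem S.n 0) b _ hh hle x
  have h2 : S.a e (fun y => K * (1 - f y)) x ≤ 0 :=
    (hloc e he (hee.trans (min_le_right _ _))).up _ hh x 0 fun y hy => by
      rw [hf1 y hy]; simp
  have h3 : 0 ≤ S.a e (fun y => K * (1 - f y)) x :=
    Sys.fL_nonneg e _ (fun y => mul_nonneg hK0 (by linarith [(hf01 y).2])) x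
  have h4 : S.a e (fun y => K * (1 - f y)) x = 0 := le_antisymm h2 h3
  rw [h4, mul_zero] at h1
  exact at2_eq_zero_of_nr D _ h1

/-! ### a form orthogonal to all forms supported near `x` vanishes at `x` -/

theorem at2_eq_zero_of_I (D : Dat M) (η : X2 M) {U : Set M} (hU : IsOpen U) {x : M} (hx : x ∈ U)
    (h : ∀ b : X2 M, (∀ y ∉ U, at2 (b : F2 E4 M) y = 0) → D.I (η : F2 E4 M) (b : F2 E4 M) = 0) :
    at2 (η : F2 E4 M) x = 0 := by
  obtain ⟨r, hr, hball⟩ := Metric.isOpen_iff.1 hU x hx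
  obtain ⟨f, hf, hf1, hf0, hf01⟩ := exists_bump_ball (E := E4) x
    (r := r / 2) (R := r) (by linarith)
  -- test with `f² * η`
  have hb : ∀ y ∉ U, at2 ((En4.fX f hf (En4.stX D η) : X2 M) : F2 E4 M) y = 0 := by
    intro y hy
    have hd : r ≤ dist y x := by
      by_contra hlt
      exact hy (hball (mem_ball.2 (not_le.1 hlt)))
    show f y • at2 (En4.stX D η : X2 M).1 y = 0
    rw [hf0 y hd, zero_smul]
  have h1 := h _ hb
  rw [En4.I_fX] at h1
  have hnn : ∀ y, 0 ≤ f y * qG D.F (η : F2 E4 M) (En4.stX D η : X2 M).1 y := fun y => by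
    refine mul_nonneg (hf01 y).1 ?_
    rw [En4.qG_eq_ip D η η y]
    exact En4.nsqG_nonneg D η.2.1 y
  have hcont : Continuous fun y => f y * qG D.F (η : F2 E4 M) (En4.stX D η : X2 M).1 y :=
    (En4.sF_continuous hf).mul (En4.sF_continuous (En4.sF_qG D η.2 (En4.stX D η).2))
  have hpos := En4.openPos D
  have hfin := D.fin
  have h2 : (fun y => f y * qG D.F (η : F2 E4 M) (En4.stX D η : X2 M).1 y) = 0 := by
    have h3 := (integral_eq_zero_iff_of_nonneg hnn (En4.integrable_cont D hcont)).1 h1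
    exact (Continuous.ae_eq_iff_eq D.μ hcont continuous_zero).1 h3
  have h4 : f x * qG D.F (η : F2 E4 M) (En4.stX D η : X2 M).1 x = 0 := congrFun h2 x
  rw [hf1 x (by rw [dist_self]; linarith), one_mul, En4.qG_eq_ip D η η x] at h4
  refine at2_eq_zero_of_nr D η (le_of_eq ?_)
  have h5 : nsqG D.J D.F (η : F2 E4 M) x = 0 := h4
  have h6 : D.nr (η : F2 E4 M) x = √(nsqG D.J D.F (η : F2 E4 M) x) := rfl
  rw [h6, h5, Real.sqrt_zero]

/-! ### the intersection formula -/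

theorem sF_sum {ι : Type*} [Fintype ι] {χ : ι → M → ℝ} (hχ : ∀ j, SmoothF E4 (χ j)) :
    SmoothF E4 (fun y => ∑ j, χ j y) := by
  classical
  have : ∀ s : Finset ι, SmoothF E4 (fun y => ∑ j ∈ s, χ j y) := by
    intro s
    induction s using Finset.induction_on with
    | empty => simpa using smoothF_const (E := E4) (M := M) 0
    | insert j s hj ih =>
      simp only [Finset.sum_insert hj]
      exact (hχ j).add ih
  exact this Finset.univ

theorem at2_sum {ι : Type*} [Fintype ι] (b : ι → X2 M) (x : M) :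
    at2 ((∑ j, b j : X2 M) : F2 E4 M) x = ∑ j, at2 (b j : F2 E4 M) x := by
  classical
  have : ∀ s : Finset ι, at2 ((∑ j ∈ s, b j : X2 M) : F2 E4 M) x =
      ∑ j ∈ s, at2 (b j : F2 E4 M) x := by
    intro s
    induction s using Finset.induction_on with
    | empty => rfl
    | insert j s hj ih =>
      rw [Finset.sum_insert hj, Finset.sum_insert hj, ← ih]
      rfl
  exact this Finset.univ

/-- `b` vanishes near `K`. -/
def ZNear (K : Set M) (b : X2 M) : Prop :=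
  ∃ U : Set M, IsOpen U ∧ K ⊆ U ∧ ∀ x ∈ U, at2 (b : F2 E4 M) x = 0

/-- **INTERSECTION FORMULA.** -/
theorem int_formula (D : Dat M) {S R : X2 M →ₗ[ℝ] ℝ} {a : X2 M}
    (hS : ∀ b ∈ Z2 M, S b = D.I (a : F2 E4 M) (b : F2 E4 M))
    {𝒰 : Cover M} (hR0 : Dat.KillsExact R) (hRo : FOrd 𝒰 R)
    {KS KR : Set M} (hKS : IsClosed KS) (hKR : IsClosed KR)
    (hSs : ∀ b : X2 M, ZNear KS b → S b = 0) (hRs : ∀ b : X2 M, ZNear KR b → R b = 0)
    {ι : Type*} [Fintype ι] (χ : ι → M → ℝ) (hχ : ∀ j, SmoothF E4 (χ j)) (ψ : ι → F1 E4 M)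
    (weak : ∀ j, ∀ η ∈ Z2 M, S (En4.fX (χ j) (hχ j) η) =
      D.I (wedG (ψ j) (dF (χ j))) ((η : X2 M) : F2 E4 M))
    (hone : ∀ x ∈ KS ∩ KR, ∀ᶠ y in 𝓝 x, ∑ j, χ j y = 1)
    (B : ι → X2 M) {N : Set M} (hN : IsOpen N) (hKN : KR ⊆ N)
    (hB : ∀ j, ∀ x ∈ N, at2 (B j : F2 E4 M) x = at2 (wedG (ψ j) (dF (χ j))) x) :
    R a = ∑ j, R (B j) := by
  classical
  obtain ⟨Sy⟩ := exists_sys (M := M)
  obtain ⟨e1, he1, hex⟩ := fExact Sy
  obtain ⟨e2, he2, hap⟩ := fApprox 𝒰 Sy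
  obtain ⟨e3, he3, hrep⟩ := fRep D 𝒰 Sy
  obtain ⟨e4, c, he4, hc, hloc⟩ := exists_loc_A D Sy
  -- the open set on which `∑ χ = 1`
  set O : Set M := {x | ∀ᶠ y in 𝓝 x, ∑ j, χ j y = 1} with hO
  have hOo : IsOpen O := isOpen_setOfPred_eventually_nhds
  have hOs : KS ∩ KR ⊆ O := hone
  -- a scale
  have hKRc : IsCompact KR := hKR.isCompact
  have hKSc : IsCompact KS := hKS.isCompact
  obtain ⟨δ1, hδ1, hthick1⟩ := hKRc.exists_cthickening_subset_open hN hKN
  have hsub2 : KR ⊆ O ∪ KSᶜ := by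
    intro x hx
    by_cases hxS : x ∈ KS
    · exact Or.inl (hOs ⟨hxS, hx⟩)
    · exact Or.inr hxS
  obtain ⟨δ2, hδ2, hthick2⟩ := hKRc.exists_cthickening_subset_open
    (hOo.union hKS.isOpen_compl) hsub2
  -- the main identity at small scale
  have main : ∀ᶠ e in 𝓝[>] (0 : ℝ), R (Sy.A e (oneK Sy.n) a) =
      ∑ j, R (Sy.A e (oneK Sy.n) (B j)) := by
    have hev : ∀ᶠ e in 𝓝[>] (0 : ℝ), 0 < e ∧ e ≤ e1 ∧ e ≤ e3 ∧ e ≤ e4 ∧ 2 * c * e ≤ δ1 ∧
        2 * c * e ≤ δ2 := by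
      have hb : ∀ {d : ℝ}, 0 < d → ∀ᶠ e in 𝓝[>] (0 : ℝ), e ≤ d := fun {d} hd =>
        mem_nhdsWithin_of_mem_nhds (Iic_mem_nhds hd)
      filter_upwards [self_mem_nhdsWithin, hb he1, hb he3, hb he4,
        hb (show 0 < δ1 / (2 * c) by positivity), hb (show 0 < δ2 / (2 * c) by positivity)]
        with e h0 h1 h3 h4 h5 h6
      refine ⟨h0, h1, h3, h4, ?_, ?_⟩
      · rw [le_div_iff₀ (by positivity)] at h5; linarith
      · rw [le_div_iff₀ (by positivity)] at h6; linarith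
    filter_upwards [hev] with e he
    obtain ⟨h0, h1, h3, h4, h5, h6⟩ := he
    obtain ⟨η, hη⟩ := hrep R hRo e (oneK Sy.n) h0 h3
    -- `η` is closed
    have hηZ : η ∈ Z2 M := by
      refine Fund.fund D η fun b hb => ?_
      rw [← hη b]
      exact hR0 _ (hex e (oneK Sy.n) h0 h1 b hb)
    -- the support of `η`
    have hce : 0 < c * e := by positivity
    have hηs : ∀ x ∉ cthickening (2 * c * e) KR, at2 (η : F2 E4 M) x = 0 := by
      intro x hx
      refine at2_eq_zero_of_I D η (U := (cthickening (2 * c * e) KR)ᶜ)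
        isClosed_cthickening.isOpen_compl hx fun b hb => ?_
      rw [← hη b]
      refine hRs _ ⟨thickening (c * e) KR, isOpen_thickening, self_subset_thickening hce KR,
        fun y hy => hloc e h0 h4 b y fun z hz => hb z ?_⟩
      simp only [mem_compl_iff, not_not]
      rw [mem_thickening_iff] at hy
      obtain ⟨w, hw, hyw⟩ := hy
      refine mem_cthickening_of_dist_le z w _ _ hw ?_
      calc dist z w ≤ dist z y + dist y w := dist_triangle _ _ _
        _ ≤ c * e + c * e := add_le_add hz hyw.le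
        _ = 2 * c * e := by ring
    -- splitting of `η`
    have hsmooth : SmoothF E4 (fun y => 1 - ∑ j, χ j y) := by
      refine En4.sF_sub (smoothF_const (E := E4) (M := M) 1) ?_
      exact sF_sum hχ
    have hdec : η = (∑ j, En4.fX (χ j) (hχ j) η) + En4.fX _ hsmooth η := by
      refine En4.ext_at2 fun x => ?_
      show at2 (η : F2 E4 M) x = at2 ((∑ j, En4.fX (χ j) (hχ j) η : X2 M) : F2 E4 M) x +
        (1 - ∑ j, χ j x) • at2 (η : F2 E4 M) x
      rw [at2_sum]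
      have : ∀ j, at2 ((En4.fX (χ j) (hχ j) η : X2 M) : F2 E4 M) x =
        χ j x • at2 (η : F2 E4 M) x := fun j => rfl
      simp only [this]
      rw [← Finset.sum_smul, ← add_smul, add_sub_cancel, one_smul]
    have hzero : S (En4.fX _ hsmooth η) = 0 := by
      refine hSs _ ⟨O ∪ (cthickening (2 * c * e) KR)ᶜ,
        hOo.union isClosed_cthickening.isOpen_compl, ?_, ?_⟩
      · intro x hx
        by_cases hxO : x ∈ O
        · exact Or.inl hxO
        · refine Or.inr fun hxt => ?_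
          rcases hthick2 (cthickening_mono h6 KR hxt) with h | h
          · exact hxO h
          · exact h hx
      · intro x hx
        show (1 - ∑ j, χ j x) • at2 (η : F2 E4 M) x = 0
        rcases hx with hx | hx
        · have : ∑ j, χ j x = 1 := hx.self_of_nhds
          rw [this, sub_self, zero_smul]
        · rw [hηs x hx, smul_zero]
    have hIj : ∀ j, D.I (wedG (ψ j) (dF (χ j))) (η : F2 E4 M) = R (Sy.A e (oneK Sy.n) (B j)) := by
      intro j
      rw [hη (B j), En4.I_comm]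
      unfold Dat.I IG
      congr 1
      funext x
      by_cases hx : x ∈ cthickening (2 * c * e) KR
      · have hxN : x ∈ N := hthick1 (cthickening_mono h5 KR hx)
        unfold qG
        rw [hB j x hxN]
      · unfold qG
        rw [hηs x hx, En4.q_zero_left, En4.q_zero_left]
    calc R (Sy.A e (oneK Sy.n) a) = D.I (η : F2 E4 M) (a : F2 E4 M) := hη a
      _ = S η := by rw [En4.I_comm, hS η hηZ]
      _ = ∑ j, S (En4.fX (χ j) (hχ j) η) := by
          conv_lhs => rw [hdec]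
          rw [map_add, hzero, add_zero, map_sum]
      _ = ∑ j, R (Sy.A e (oneK Sy.n) (B j)) :=
          Finset.sum_congr rfl fun j _ => (weak j η hηZ).trans (hIj j)
  -- passage to the limit
  have hlim : ∀ b : X2 M, Tendsto (fun e : ℝ => R (Sy.A e (oneK Sy.n) b)) (𝓝[>] 0) (𝓝 (R b)) := by
    intro b
    obtain ⟨m, K, hK⟩ := hRo
    obtain ⟨C, hC⟩ := hap m
    have hlin : Tendsto (fun e : ℝ => |K| * (C * e * 𝒰.cm (m + 1) (b : F2 E4 M))) (𝓝[>] 0)
        (𝓝 0) := by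
      have : Tendsto (fun e : ℝ => |K| * (C * e * 𝒰.cm (m + 1) (b : F2 E4 M))) (𝓝 0)
          (𝓝 (|K| * (C * 0 * 𝒰.cm (m + 1) (b : F2 E4 M)))) :=
        (Continuous.tendsto (by fun_prop) 0)
      simp only [mul_zero, zero_mul] at this
      exact this.mono_left nhdsWithin_le_nhds
    rw [tendsto_iff_norm_sub_tendsto_zero]
    refine squeeze_zero' (Eventually.of_forall fun _ => norm_nonneg _) ?_ hlin
    have hb : ∀ᶠ e in 𝓝[>] (0 : ℝ), e ≤ e2 := mem_nhdsWithin_of_mem_nhds (Iic_mem_nhds he2)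
    filter_upwards [self_mem_nhdsWithin, hb] with e h0 h2
    rw [← map_sub, Real.norm_eq_abs]
    refine (hK _).trans ?_
    have h3 := (hC e h0 h2 b).2
    calc K * 𝒰.cm m ((Sy.A e (oneK Sy.n) b - b : X2 M) : F2 E4 M)
        ≤ |K| * 𝒰.cm m ((Sy.A e (oneK Sy.n) b - b : X2 M) : F2 E4 M) :=
          mul_le_mul_of_nonneg_right (le_abs_self K) (cm_nonneg _ _ _)
      _ ≤ _ := mul_le_mul_of_nonneg_left h3 (abs_nonneg K)
  have hl1 := hlim a
  have hl2 : Tendsto (fun e : ℝ => ∑ j, R (Sy.A e (oneK Sy.n) (B j))) (𝓝[>] 0)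
      (𝓝 (∑ j, R (B j))) := tendsto_finsetSum _ fun j _ => hlim (B j)
  exact tendsto_nhds_unique (hl1.congr' main) hl2

end

end Crest.Agent.R235.IntF_250
end

-- ▼ part R235/IntW_659
section

/-!
Row 235 (S0364), PACKAGE ADJ, helper659: node INTW of `AdjInt_43` (wrapper of
`IntF_250.int_formula`).
-/

set_option autoImplicit false
set_option maxSynthPendingDepth 3

open Set Function Filter MeasureTheory Metric
open scoped Manifold ContDiff Topology

universe u

namespace Crest.Agent.R235.IntW_659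

open Crest.Agent.R240 Crest.Agent.R240.Ch Crest.Agent.R240.Int
open Crest.Agent.R235 Crest.Agent.R235.Glob_370 Crest.Agent.R235.Wind_688
open Crest.Agent.R235.Adj Crest.Agent.R235.T1A_195

noncomputable section

theorem _root_.Crest.Agent.R235.T1A_195.Bridge.II_eq {M : Type u} [MetricSpace M] [CompactSpace M]
    [ChartedSpace E4 M] [IsManifold 𝓘(ℝ, E4) ∞ M] [MeasurableSpace M] [BorelSpace M] {w : Trip M}
    {J : EndF E4 M} {D : Dat M} (h : Bridge w J D) (b c : F2 E4 M) :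
    II (w 0) b c = D.I b c := by
  obtain rfl : ‹MeasurableSpace M› = borel M := BorelSpace.measurable_eq
  let _ : MeasurableSpace M := borel M
  exact h.I_eq _ _

theorem intw_aux {M : Type u} [MetricSpace M] [CompactSpace M]
    [ChartedSpace E4 M] [IsManifold 𝓘(ℝ, E4) ∞ M] [MeasurableSpace M] [BorelSpace M]
    (hb : Met.BiLip E4 M) (w : Trip M) (J : EndF E4 M) (hJ : IsJ w J)
    (S R : X2 M →ₗ[ℝ] ℝ) (a : Z2 M) (hS : ∀ b : Z2 M, S b.1 = pI (w 0) a b)
    (hR : ∀ b : X2 M, IsEx (b : F2 E4 M) → R b = 0) (hR0 : Ord0 R)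
    (KS KR : Set M) (hKS : IsClosed KS) (hKR : IsClosed KR)
    (hSs : ∀ b : X2 M, VNear KS b → S b = 0) (hRs : ∀ b : X2 M, VNear KR b → R b = 0)
    (n : ℕ) (χ : Fin n → M → ℝ) (hχ : ∀ j, SmoothF E4 (χ j)) (ψ : Fin n → F1 E4 M)
    (weak : ∀ j, ∀ (η : Z2 M) (b : X2 M), (b.1 : F2 E4 M) = fmul (χ j) (η.1.1 : F2 E4 M) →
        S b = II (w 0) (wedG (ψ j) (dF (χ j))) (η.1.1 : F2 E4 M))
    (hone : ∀ x ∈ KS ∩ KR, ∀ᶠ y in 𝓝 x, ∑ j, χ j y = 1)
    (B : Fin n → X2 M) (N : Set M) (hN : IsOpen N) (hKN : KR ⊆ N)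
    (hB : ∀ j, ∀ x ∈ N, at2 (B j : F2 E4 M) x = at2 (wedG (ψ j) (dF (χ j))) x) :
    R a.1 = ∑ j, R (B j) := by
  obtain ⟨D, hD⟩ := exists_bridge hb hJ
  obtain ⟨𝒰, C, hC⟩ := hR0
  refine IntF_250.int_formula D (S := S) (R := R) (a := a.1) (𝒰 := 𝒰)
    (fun b hb => ?_) hR ⟨0, C, hC⟩ hKS hKR hSs hRs χ hχ ψ (fun j η hη => ?_) hone B hN hKN hB
  · rw [hS ⟨b, hb⟩, hD.pI_eq]
  · rw [weak j ⟨η, hη⟩ (En4.fX (χ j) (hχ j) η) rfl, hD.II_eq]

/-- **INTW** (intersection formula). -/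
theorem intw : INTW.{u} := by
  intro M _ _ _ _ _ _ w J _ hJ S R a hS hR hR0 KS KR hKS hKR hSs hRs n χ hχ ψ weak hone B N hN hKN
    hB
  obtain ⟨m, hm, hb⟩ := Met.exists_metric (E := E4) (M := M)
  subst hm
  let _ : MeasurableSpace M := borel M
  have _ : BorelSpace M := ⟨rfl⟩
  exact intw_aux hb w J hJ S R a hS hR hR0 KS KR hKS hKR hSs hRs n χ hχ ψ weak hone B N hN hKN hB

end

end Crest.Agent.R235.IntW_659
end

-- ▼ part R235/Cord_659
section

/-!
Row 235 (S0364), PACKAGE ADJ, helper659: node CORD of `AdjInt_43`: the current of a `J`-curve is of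
order zero and supported in the curve.
-/

set_option autoImplicit false
set_option maxSynthPendingDepth 3

open Set Function Filter MeasureTheory Metric
open scoped Manifold ContDiff Topology

universe u

namespace Crest.Agent.R235.Cord_659

open Crest.Agent.R240 Crest.Agent.R240.Ch Crest.Agent.R240.Int
open Crest.Agent.R235 Crest.Agent.R235.Glob_370 Crest.Agent.R235.Wind_688
open Crest.Agent.R235.Adj Crest.Agent.R235.T1A_195

noncomputable section

theorem ord0_aux {M : Type u} [MetricSpace M] [CompactSpace M]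
    [ChartedSpace E4 M] [IsManifold 𝓘(ℝ, E4) ∞ M] [MeasurableSpace M] [BorelSpace M]
    (hb : Met.BiLip E4 M) {w : Trip M} {J : EndF E4 M} (hJ : IsJ w J)
    {Φ : X2 M →ₗ[ℝ] ℝ} (hΦ : PCur J Φ) : Ord0 Φ := by
  obtain ⟨D, hD⟩ := exists_bridge hb hJ
  obtain ⟨s, hs⟩ := hD.exists_cur hΦ
  obtain ⟨𝒰⟩ := exists_Cover (M := M)
  obtain ⟨C, hC⟩ := N5P.nrcm D 𝒰
  refine ⟨𝒰, 2 * s.real univ * C, fun b => ?_⟩
  have := hs.rm.fin
  have h1 := hs.rm.bound b
  rw [← hs.inv b] at h1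
  calc |Φ b| ≤ 2 * ∫ x, D.nr (b : F2 E4 M) x ∂s := h1
    _ ≤ 2 * ∫ _, C * 𝒰.cm 0 (b : F2 E4 M) ∂s := by
        gcongr
        · exact En4.integrable_s hs.rm.fin (En4.cont_nr D b.2)
        · exact integrable_const _
        · intro x; exact hC b x
    _ = 2 * s.real univ * C * 𝒰.cm 0 (b : F2 E4 M) := by
        rw [integral_const, smul_eq_mul]; ring

/-- a positive closed current is of order zero. -/
theorem ord0_pcur {M : Type u} [TopologicalSpace M] [T2Space M] [CompactSpace M]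
    [ChartedSpace E4 M] [IsManifold 𝓘(ℝ, E4) ∞ M] {w : Trip M} {J : EndF E4 M} (hJ : IsJ w J)
    {Φ : X2 M →ₗ[ℝ] ℝ} (hΦ : PCur J Φ) : Ord0 Φ := by
  obtain ⟨m, hm, hb⟩ := Met.exists_metric (E := E4) (M := M)
  subst hm
  let _ : MeasurableSpace M := borel M
  have _ : BorelSpace M := ⟨rfl⟩
  exact ord0_aux hb hJ hΦ

/-- the current of a `JCurve` kills the forms vanishing on the curve. -/
theorem T_zero {M : Type u} [TopologicalSpace M] [T2Space M] [CompactSpace M]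
    [ChartedSpace E4 M] [IsManifold 𝓘(ℝ, E4) ∞ M] {J : EndF E4 M} (c : JCurve J) (b : X2 M)
    (hb : ∀ x ∈ range c.f, at2 (b : F2 E4 M) x = 0) : c.T b = 0 := by
  obtain ⟨t, χ, hχs, hχ1, hχU⟩ := AdjGen_83.exists_pu (fun p => (c.L p).U)
    (fun p => (c.L p).openU) (fun p => (c.L p).mem)
  set bb : M → X2 M := fun p => ⟨fmul (χ p) b.1, Smooth2.fmul (hχs p) b.2⟩ with hbb
  have h1 : ∀ p, c.T (bb p) = 0 := by
    intro p
    have hK : ∀ x ∉ tsupport (χ p), at2 ((bb p).1 : F2 E4 M) x = 0 := by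
      intro x hx
      show χ p x • at2 (b.1 : F2 E4 M) x = 0
      rw [image_eq_zero_of_notMem_tsupport hx, zero_smul]
    rw [c.cur p (bb p) (tsupport (χ p)) (isClosed_tsupport (χ p)).isCompact (hχU p) hK]
    refine Finset.sum_eq_zero fun j _ => ?_
    refine setIntegral_eq_zero_of_forall_eq_zero fun z hz => ?_
    have h2 : (c.L p).u j z ∈ range c.f ∩ (c.L p).U := by
      rw [(c.L p).supp]
      exact mem_iUnion.2 ⟨j, mem_image_of_mem _ hz⟩
    have h3 : at2 ((bb p).1 : F2 E4 M) ((c.L p).u j z) = 0 := by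
      show χ p ((c.L p).u j z) • at2 (b.1 : F2 E4 M) ((c.L p).u j z) = 0
      rw [hb _ h2.1, smul_zero]
    unfold pb
    rw [h3]
    rfl
  have h2 : ∑ p ∈ t, bb p = b := by
    apply Subtype.ext
    rw [AddSubmonoidClass.coe_finsetSum]
    funext x
    rw [Finset.sum_apply]
    show ∑ p ∈ t, χ p x • (b.1 : F2 E4 M) x = b.1 x
    rw [← Finset.sum_smul, hχ1, one_smul]
  rw [← h2, map_sum]
  exact Finset.sum_eq_zero fun p _ => h1 p

/-- **CORD** -/
theorem cord : CORD.{u} := by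
  intro M _ _ _ _ _ _ w J _ hJ c
  refine ⟨ord0_pcur hJ c.pcur, fun b ⟨U, _, hKU, hU⟩ => T_zero c b fun x hx => hU x (hKU hx)⟩

end

end Crest.Agent.R235.Cord_659
end

-- ▼ part R235/SwcLowD_291
section

/-!
Row 235 (S0364), package SWC (helper291): transfer of the lower density bound.

* `TRM F S s`  : `s` is the trace measure of `S` with respect to `F` (no metric);
* `comp_meas`  : two trace measures of the same positive current are comparable;
* `metric_equiv` : two metrics inducing the topology, bi-Lipschitz to the charts, are equivalent;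
* `lowd`       : `LowDens` for `(m2, F, s)` ⇒ `LowDens` for `(m1, F', s')`;
* `TOPLIM`, `swlim_of : TOPLIM → SWLIM`.
-/

set_option autoImplicit false
set_option maxSynthPendingDepth 3
set_option linter.unusedSectionVars false

open Set Function Filter MeasureTheory Metric
open scoped Manifold ContDiff Topology NNReal

universe u

namespace Crest.Agent.R235.SwcLowD_291

open Crest.Agent.R240 Crest.Agent.R240.Ch Crest.Agent.R235 Crest.Agent.R235.Uu_291
  Crest.Agent.R235.Swc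

noncomputable section

section Top

variable {M : Type u} [TopologicalSpace M] [T2Space M] [CompactSpace M] [ChartedSpace E4 M]
  [IsManifold 𝓘(ℝ, E4) ∞ M] [MeasurableSpace M] [BorelSpace M]

omit [MeasurableSpace M] [BorelSpace M] in
/-- smooth cut-offs. -/
theorem exists_cut {K U : Set M} (hK : IsClosed K) (hU : IsOpen U) (h : K ⊆ U) :
    ∃ χ : M → ℝ, SmoothF E4 χ ∧ (∀ y, 0 ≤ χ y) ∧ (∀ y, χ y ≤ 1) ∧
      (∀ y ∈ K, χ y = 1) ∧ ∀ y ∉ U, χ y = 0 := by
  obtain ⟨f, hf0, hf1, hf⟩ := exists_contMDiffMap_zero_one_of_isClosed 𝓘(ℝ, E4) (n := (⊤ : ℕ∞))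
    (M := M) (s := Uᶜ) (t := K) hU.isClosed_compl hK
    (by rw [Set.disjoint_compl_left_iff_subset]; exact h)
  exact ⟨fun x => f x, (smoothF_iff _).1 f.contMDiff, fun x => (hf x).1, fun x => (hf x).2,
    fun y hy => hf1 hy, fun y hy => hf0 hy⟩

/-- `s` is the trace measure of `S` with respect to `F`. -/
structure TRM (F : F2 E4 M) (S : X2 M →ₗ[ℝ] ℝ) (s : Measure M) : Prop where
  fin : IsFiniteMeasure s
  trace : ∀ f : M → ℝ, SmoothF E4 f → ∀ b : X2 M, (b : F2 E4 M) = fmul f F → S b = ∫ x, f x ∂s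

omit [MeasurableSpace M] [BorelSpace M] in
/-- positive forms are comparable. -/
theorem comp_forms [Nonempty M] {J : EndF E4 M} (hJ2 : ∀ x v, atJ J x (atJ J x v) = -v)
    {F F' : F2 E4 M} (hF : Smooth2 F) (hF' : Smooth2 F') (hp : SPosG J F) (hp' : SPosG J F') :
    ∃ C : ℝ, 0 < C ∧ ∀ x, Pos (atJ J x) (C • at2 F' x - at2 F x) := by
  have hV : Int.Vol F' := Int.vol_of_SPosG hJ2 hF' hp'
  have hc : Continuous (qG F' F F') :=
    Int.continuous_qG hV (Int.Smooth2.cont2 hF) (Int.Smooth2.cont2 hF')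
  obtain ⟨C, hC⟩ := isCompact_univ.exists_bound_of_continuousOn hc.continuousOn
  have hC0 : 0 ≤ C := (norm_nonneg _).trans (hC (Classical.arbitrary M) (mem_univ _))
  refine ⟨2 * C + 1, by positivity, fun x => ?_⟩
  have hP : Pos (atJ J x) (at2 F x) := ⟨(hp x).alt, (hp x).inv, fun v => by
    rcases eq_or_ne v 0 with rfl | hv
    · simp
    · exact ((hp x).pos v hv).le⟩
  have h1 := Ns.nsq_pos_le (hJ2 x) (hp' x) hP
  have h2 : Real.sqrt 2 * nr (atJ J x) (at2 F' x) (at2 F x) ≤ 2 * C + 1 := by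
    have h3 : nr (atJ J x) (at2 F' x) (at2 F x) ≤ √2 * |q (at2 F' x) (at2 F x) (at2 F' x)| := by
      have h4 : √2 * |q (at2 F' x) (at2 F x) (at2 F' x)| =
          √(2 * q (at2 F' x) (at2 F x) (at2 F' x) ^ 2) := by
        rw [Real.sqrt_mul (by norm_num), Real.sqrt_sq_eq_abs]
      rw [h4]
      exact Real.sqrt_le_sqrt h1
    have h5 : |q (at2 F' x) (at2 F x) (at2 F' x)| ≤ C := hC x (mem_univ _)
    have h6 : √2 * √2 = 2 := Real.mul_self_sqrt (by norm_num)
    calc √2 * nr (atJ J x) (at2 F' x) (at2 F x)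
        ≤ √2 * (√2 * |q (at2 F' x) (at2 F x) (at2 F' x)|) := by gcongr
      _ = 2 * |q (at2 F' x) (at2 F x) (at2 F' x)| := by rw [← mul_assoc, h6]
      _ ≤ 2 * C := by gcongr
      _ ≤ 2 * C + 1 := by linarith
  have h3 := Ns.pos_sub_pn (hJ2 x) (hp' x) (hp x).alt h2
  rwa [invp_of_inv (hp x).inv] at h3

/-- comparison of the trace measures. -/
theorem comp_meas [Nonempty M] {J : EndF E4 M} (hJ2 : ∀ x v, atJ J x (atJ J x v) = -v)
    {F F' : F2 E4 M} (hF : Smooth2 F) (hF' : Smooth2 F') (hp : SPosG J F) (hp' : SPosG J F')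
    {S : X2 M →ₗ[ℝ] ℝ} (hS : ∀ b : X2 M, PosG J (b : F2 E4 M) → 0 ≤ S b) {s s' : Measure M}
    (hs : TRM F S s) (hs' : TRM F' S s') :
    ∃ C : ℝ, 0 < C ∧ ∀ K U : Set M, IsClosed K → IsOpen U → K ⊆ U → s.real K ≤ C * s'.real U := by
  obtain ⟨C, hC, hpos⟩ := comp_forms hJ2 hF hF' hp hp'
  refine ⟨C, hC, fun K U hK hU hKU => ?_⟩
  have := hs.fin
  have := hs'.fin
  obtain ⟨χ, hχ, h0, h1, hK1, hU0⟩ := exists_cut hK hU hKU
  have hcont : Continuous χ := ((smoothF_iff _).2 hχ).continuous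
  have hint : ∀ (ν : Measure M) [IsFiniteMeasure ν], Integrable χ ν := fun ν _ =>
    hcont.integrable_of_hasCompactSupport (HasCompactSupport.of_compactSpace χ)
  have e1 : s.real K ≤ ∫ x, χ x ∂s := by
    rw [← integral_indicator_one hK.measurableSet]
    refine integral_mono ((integrable_const (1 : ℝ)).indicator hK.measurableSet) (hint s)
      fun x => ?_
    by_cases hx : x ∈ K
    · rw [indicator_of_mem hx, hK1 x hx]; rfl
    · rw [indicator_of_notMem hx]; exact h0 x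
  have e2 : ∫ x, χ x ∂s' ≤ s'.real U := by
    rw [← integral_indicator_one hU.measurableSet]
    refine integral_mono (hint s') ((integrable_const (1 : ℝ)).indicator hU.measurableSet)
      fun x => ?_
    by_cases hx : x ∈ U
    · rw [indicator_of_mem hx]; exact h1 x
    · rw [indicator_of_notMem hx, hU0 x hx]
  let b1 : X2 M := ⟨fmul χ F, En4.smooth2_fmul hχ hF⟩
  let b2 : X2 M := ⟨fmul χ F', En4.smooth2_fmul hχ hF'⟩
  have e3 : S b1 = ∫ x, χ x ∂s := hs.trace χ hχ b1 rfl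
  have e4 : S b2 = ∫ x, χ x ∂s' := hs'.trace χ hχ b2 rfl
  have e5 : 0 ≤ S (C • b2 - b1) := by
    refine hS _ fun x => ?_
    have e6 : at2 ((C • b2 - b1 : X2 M) : F2 E4 M) x = χ x • (C • at2 F' x - at2 F x) := by
      show C • (χ x • at2 F' x) - χ x • at2 F x = _
      rw [smul_sub, smul_comm]
    rw [e6]
    exact ⟨(hpos x).alt.smul _, fun u v => by
      rw [smul_apply, smul_apply, smul_apply, smul_apply, (hpos x).inv], fun v => by
      rw [smul_apply, smul_apply]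
      exact mul_nonneg (h0 x) ((hpos x).nonneg v)⟩
  rw [map_sub, map_smul, smul_eq_mul, e3, e4] at e5
  calc s.real K ≤ ∫ x, χ x ∂s := e1
    _ ≤ C * ∫ x, χ x ∂s' := by linarith
    _ ≤ C * s'.real U := by gcongr

end Top

section Glob

/-- locally Lipschitz on a compact space ⇒ Lipschitz. -/
theorem glob {X Y : Type*} [MetricSpace X] [CompactSpace X] [MetricSpace Y] {f : X → Y}
    (h : ∀ x, ∃ C : ℝ, 0 < C ∧ ∃ U ∈ 𝓝 x, ∀ y ∈ U, ∀ z ∈ U, dist (f y) (f z) ≤ C * dist y z) :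
    ∃ C : ℝ, 0 < C ∧ ∀ y z, dist (f y) (f z) ≤ C * dist y z := by
  have h1 : ∃ C : ℝ≥0, LipschitzOnWith C f univ := by
    apply LocallyLipschitzOn.exists_lipschitzOnWith_of_compact isCompact_univ
    intro x _
    obtain ⟨C, hC, U, hU, h⟩ := h x
    exact ⟨⟨C, hC.le⟩, U, mem_nhdsWithin_of_mem_nhds hU,
      LipschitzOnWith.of_dist_le_mul fun y hy z hz => h y hy z hz⟩
  obtain ⟨C, hC⟩ := h1
  refine ⟨C + 1, by positivity, fun y z => ?_⟩
  have h2 := hC.dist_le_mul y (mem_univ _) z (mem_univ _)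
  refine h2.trans ?_
  have : 0 ≤ dist y z := dist_nonneg
  nlinarith

end Glob

section TwoMet

variable {M : Type u} [tM : TopologicalSpace M] [T2Space M] [CompactSpace M] [ChartedSpace E4 M]
  [IsManifold 𝓘(ℝ, E4) ∞ M]

/-- `m` is bi-Lipschitz to the charts. -/
def BL (m : MetricSpace M) : Prop :=
  ∀ p : M, ∀ K : Set E4, IsCompact K → K ⊆ (chartAt E4 p).target →
    ∃ c C : ℝ, 0 < c ∧ 0 < C ∧ ∀ y ∈ K, ∀ z ∈ K,
      c * ‖y - z‖ ≤ m.dist ((chartAt E4 p).symm y) ((chartAt E4 p).symm z) ∧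
      m.dist ((chartAt E4 p).symm y) ((chartAt E4 p).symm z) ≤ C * ‖y - z‖

theorem metric_equiv (m1 m2 : MetricSpace M)
    (h2 : m2.toPseudoMetricSpace.toUniformSpace.toTopologicalSpace = tM) (b1 : BL m1)
    (b2 : BL m2) : ∃ C : ℝ, 0 < C ∧ ∀ x y : M, m1.dist x y ≤ C * m2.dist x y := by
  have hc : @CompactSpace M m2.toPseudoMetricSpace.toUniformSpace.toTopologicalSpace := by
    rw [h2]; infer_instance
  refine @glob M M m2 hc m1 id fun x => ?_
  set φ := chartAt E4 x with hφ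
  obtain ⟨R, hR, hsub⟩ := Metric.nhds_basis_closedBall.mem_iff.1
    (φ.open_target.mem_nhds (mem_chart_target E4 x))
  obtain ⟨c1, C1, hc1, hC1, e1⟩ := b1 x _ (isCompact_closedBall (φ x) R) hsub
  obtain ⟨c2, C2, hc2, hC2, e2⟩ := b2 x _ (isCompact_closedBall (φ x) R) hsub
  have hU : φ.source ∩ φ ⁻¹' closedBall (φ x) R ∈ @nhds M tM x := by
    refine inter_mem (φ.open_source.mem_nhds (mem_chart_source E4 x)) ?_
    exact (φ.continuousAt (mem_chart_source E4 x)).preimage_mem_nhds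
      (closedBall_mem_nhds _ hR)
  refine ⟨C1 / c2, by positivity, φ.source ∩ φ ⁻¹' closedBall (φ x) R, ?_, ?_⟩
  · rw [h2]; exact hU
  · rintro y ⟨hy1, hy2⟩ z ⟨hz1, hz2⟩
    have k1 := (e1 _ hy2 _ hz2).2
    have k2 := (e2 _ hy2 _ hz2).1
    rw [φ.left_inv hy1, φ.left_inv hz1] at k1 k2
    show m1.dist y z ≤ C1 / c2 * m2.dist y z
    have k3 : ‖φ y - φ z‖ ≤ m2.dist y z / c2 := by
      rw [le_div_iff₀ hc2]
      linarith
    calc m1.dist y z ≤ C1 * ‖φ y - φ z‖ := k1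
      _ ≤ C1 * (m2.dist y z / c2) := by gcongr
      _ = C1 / c2 * m2.dist y z := by ring

end TwoMet

section Low

/-- transfer of the lower density bound, abstract form. -/
theorem lowDens_of {M : Type u} [MeasurableSpace M] (m1 m2 : MetricSpace M) {s s' : Measure M}
    [IsFiniteMeasure s] [IsFiniteMeasure s'] {A B C C' : ℝ} (hA : 0 < A) (hB : 0 < B) (hC : 0 < C)
    (hC' : 0 < C')
    (c1 : ∀ (x : M) (r : ℝ), 0 < r → s.real {y | m2.dist y x < r} ≤
      C * s'.real {y | m1.dist y x < B * r})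
    (c2 : ∀ (x : M) (r : ℝ), 0 < r → s'.real {y | m1.dist y x < r} ≤
      C' * s.real {y | m2.dist y x < A * r})
    (hl : @LowDens M m2 _ s) : @LowDens M m1 _ s' := by
  obtain ⟨κ, r0, hκ, hr0, h⟩ := hl
  refine ⟨κ / (C * B ^ 2), B * r0, by positivity, by positivity, fun x hx r hr hr' => ?_⟩
  have hsup : @Sup M m2 _ s x := by
    intro ρ hρ
    have h1 := hx (ρ / A) (by positivity)
    have h2 := c2 x (ρ / A) (by positivity)
    have h3 : A * (ρ / A) = ρ := by field_simp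
    rw [h3] at h2
    have h4 : 0 < C' * s.real {y | m2.dist y x < ρ} := lt_of_lt_of_le h1 h2
    exact (pos_iff_pos_of_mul_pos h4).1 hC'
  have h1 := h x hsup (r / B) (by positivity) (by
    rw [div_le_iff₀ hB]; linarith)
  have h2 := c1 x (r / B) (by positivity)
  have h3 : B * (r / B) = r := by field_simp
  rw [h3] at h2
  have h4 : κ * (r / B) ^ 2 ≤ C * s'.real {y | m1.dist y x < r} := h1.trans h2
  show κ / (C * B ^ 2) * r ^ 2 ≤ s'.real {y | m1.dist y x < r}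
  have h5 : κ / (C * B ^ 2) * r ^ 2 = (κ * (r / B) ^ 2) / C := by field_simp
  rw [h5, div_le_iff₀ hC]
  linarith

variable {M : Type u} [tM : TopologicalSpace M] [T2Space M] [CompactSpace M] [ChartedSpace E4 M]
  [IsManifold 𝓘(ℝ, E4) ∞ M] [MeasurableSpace M] [BorelSpace M]

theorem isClosed_le_dist (m : MetricSpace M)
    (h : m.toPseudoMetricSpace.toUniformSpace.toTopologicalSpace = tM) (x : M) (r : ℝ) :
    IsClosed {y | m.dist y x ≤ r} := by
  subst h
  exact isClosed_closedBall (x := x) (ε := r)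

theorem isOpen_lt_dist (m : MetricSpace M)
    (h : m.toPseudoMetricSpace.toUniformSpace.toTopologicalSpace = tM) (x : M) (r : ℝ) :
    IsOpen {y | m.dist y x < r} := by
  subst h
  exact isOpen_ball (x := x) (ε := r)

theorem comp_ball (m1 m2 : MetricSpace M)
    (h1 : m1.toPseudoMetricSpace.toUniformSpace.toTopologicalSpace = tM)
    (h2 : m2.toPseudoMetricSpace.toUniformSpace.toTopologicalSpace = tM) (b1 : BL m1)
    (b2 : BL m2) {s s' : Measure M} [IsFiniteMeasure s] {C : ℝ}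
    (hC : ∀ K U : Set M, IsClosed K → IsOpen U → K ⊆ U → s.real K ≤ C * s'.real U) :
    ∃ B : ℝ, 0 < B ∧ ∀ (x : M) (r : ℝ), 0 < r → s.real {y | m2.dist y x < r} ≤
      C * s'.real {y | m1.dist y x < B * r} := by
  obtain ⟨B, hB, hBd⟩ := metric_equiv m1 m2 h2 b1 b2
  refine ⟨2 * B, by positivity, fun x r hr => ?_⟩
  have e1 : s.real {y | m2.dist y x < r} ≤ s.real {y | m2.dist y x ≤ r} :=
    measureReal_mono fun y hy => (show m2.dist y x < r from hy).le
  refine e1.trans (hC _ _ (isClosed_le_dist m2 h2 x r) (isOpen_lt_dist m1 h1 x _) ?_)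
  intro y hy
  have h3 : m2.dist y x ≤ r := hy
  have h4 := hBd y x
  show m1.dist y x < 2 * B * r
  have h5 : B * m2.dist y x ≤ B * r := by gcongr
  have h6 : 0 < B * r := by positivity
  linarith

/-- **LOWD**. -/
theorem lowd [Nonempty M] (m1 m2 : MetricSpace M)
    (h1 : m1.toPseudoMetricSpace.toUniformSpace.toTopologicalSpace = tM)
    (h2 : m2.toPseudoMetricSpace.toUniformSpace.toTopologicalSpace = tM) (b1 : BL m1)
    (b2 : BL m2) {J : EndF E4 M} (hJ2 : ∀ x v, atJ J x (atJ J x v) = -v)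
    {F F' : F2 E4 M} (hF : Smooth2 F) (hF' : Smooth2 F') (hp : SPosG J F) (hp' : SPosG J F')
    {S : X2 M →ₗ[ℝ] ℝ} (hS : ∀ b : X2 M, PosG J (b : F2 E4 M) → 0 ≤ S b) {s s' : Measure M}
    (hs : TRM F S s) (hs' : TRM F' S s') (hl : @LowDens M m2 _ s) : @LowDens M m1 _ s' := by
  have := hs.fin
  have := hs'.fin
  obtain ⟨C, hC, hC1⟩ := comp_meas hJ2 hF hF' hp hp' hS hs hs'
  obtain ⟨C', hC', hC2⟩ := comp_meas hJ2 hF' hF hp' hp hS hs' hs
  obtain ⟨B, hB, c1⟩ := comp_ball m1 m2 h1 h2 b1 b2 hC1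
  obtain ⟨A, hA, c2⟩ := comp_ball m2 m1 h2 h1 b2 b1 hC2
  exact lowDens_of m1 m2 hA hB hC hC' c1 c2 hl

/-- for some metric (inducing the topology, bi-Lipschitz to the charts) and some positive form, the
trace measure of `S` has the lower density bound. -/
def HasLow (J : EndF E4 M) (S : X2 M →ₗ[ℝ] ℝ) : Prop :=
  ∃ (m : MetricSpace M) (F : F2 E4 M) (s : Measure M),
    m.toPseudoMetricSpace.toUniformSpace.toTopologicalSpace = tM ∧ BL m ∧ Smooth2 F ∧
    SPosG J F ∧ TRM F S s ∧ @LowDens M m _ s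

end Low

section Fin

variable {M : Type u} [MetricSpace M] [CompactSpace M] [ChartedSpace E4 M]
  [IsManifold 𝓘(ℝ, E4) ∞ M] [MeasurableSpace M] [BorelSpace M]

theorem trm_of_rm {D : Dat M} {S : X2 M →ₗ[ℝ] ℝ} {s : Measure M} (h : D.IsRM S s) :
    TRM D.F S s := ⟨h.fin, h.trace⟩

/-- the producer: in the world of any metric. -/
theorem hasLow_of {D : Dat M} {S : X2 M →ₗ[ℝ] ℝ} {s : Measure M} (h : D.IsRM S s)
    (hl : LowDens s) : HasLow D.J S :=
  ⟨inferInstance, D.F, s, rfl, D.bl, Int.dat_smF D, Int.dat_sposF D, trm_of_rm h, hl⟩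

end Fin

/-- the output of SW + FAM + SWC-AN in terms of the topology of `M` only. -/
def TOPLIM : Prop :=
  ∀ (M : Type u) [TopologicalSpace M] [T2Space M] [CompactSpace M] [ConnectedSpace M]
    [ChartedSpace E4 M] [IsManifold 𝓘(ℝ, E4) ∞ M] [MeasurableSpace M] [BorelSpace M]
    (w : Trip M), Pos3 w → T4R (w 0) → ∀ e ∈ HZ M, ip (w 0) e e = 0 → e ≠ 0 →
    ∃ (t : Fin 3 → ℝ) (J' : EndF E4 M) (S : X2 M →ₗ[ℝ] ℝ), JT w t J' ∧ PCur J' S ∧
      (∀ b : Z2 M, S b.1 = ip (w 0) e (cls b)) ∧ 0 < S (wt w t).1 ∧ HasLow J' S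

section Fin2

variable {M : Type u} [m1 : MetricSpace M] [CompactSpace M] [ChartedSpace E4 M]
  [IsManifold 𝓘(ℝ, E4) ∞ M] [MeasurableSpace M] [BorelSpace M]

theorem lowd_rm [Nonempty M] (D : Dat M) {S : X2 M →ₗ[ℝ] ℝ} (hS : PCur D.J S) {s' : Measure M}
    (hs' : D.IsRM S s')
    (h : HasLow D.J S) : LowDens s' := by
  have k1 := D.sq
  have k2 := Int.dat_smF D
  have k3 : SPosG D.J D.F := Int.dat_sposF D
  have k4 := trm_of_rm hs'
  have k5 : BL m1 := D.bl
  have k6 := hS.nonneg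
  have L := @lowd M m1.toPseudoMetricSpace.toUniformSpace.toTopologicalSpace inferInstance
    inferInstance _ _ _ _ _ m1
  obtain ⟨m2, F, s, h2, b2, hF, hp, hs, hl⟩ := h
  exact L m2 rfl h2 k5 b2 k1 hF k2 hp k3 k6 hs k4 hl

end Fin2

/-- **TOPLIM ⇒ SWLIM**. -/
theorem swlim_of (h : TOPLIM.{u}) : SWLIM.{u} := by
  intro M m1 _ _ _ _ _ _ b1 w hw hT e he h0 hne
  obtain ⟨t, J', S, hJT, hPC, hcl, hpos, hex⟩ := h M w hw hT e he h0 hne
  refine ⟨t, J', S, hJT, hPC, hcl, hpos, ?_⟩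
  rintro D s' rfl hs'
  exact lowd_rm D hPC hs' hex

end

end Crest.Agent.R235.SwcLowD_291
end

-- ▼ part R235/SwcLim_291
section

/-!
Row 235 (S0364), PACKAGE SWC (helper291): `SWLIM, BPLUS ⇒ SWCUR`.
-/

set_option autoImplicit false
set_option maxSynthPendingDepth 3

open Set Function Filter MeasureTheory Metric
open scoped Manifold ContDiff Topology

universe u

namespace Crest.Agent.R235.SwcLim_291

open Crest.Agent.R240 Crest.Agent.R240.Ch Crest.Agent.R235 Crest.Agent.R235.Uu_291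
  Crest.Agent.R235.Swc

noncomputable section

/-- `T4R` depends only on the orientation. -/
theorem t4r_congr {M : Type u} [TopologicalSpace M] [T2Space M] [CompactSpace M]
    [ChartedSpace E4 M] [IsManifold 𝓘(ℝ, E4) ∞ M] {F G : Z2 M} (hF : Int.Vol (F.1.1 : F2 E4 M))
    (hG : Int.Vol (G.1.1 : F2 E4 M)) (h : ∀ x, 0 < W (val F x) (val F x) * W (val G x) (val G x))
    (hT : T4R F) : T4R G := by
  have e1 : ∀ a b, pI F a b = pI G a b := fun a b => (pI_congr_orient hF hG h a b).symm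
  have e2 : ∀ a b, ip F a b = ip G a b := fun a b => (ip_congr_orient hF hG h a b).symm
  unfold T4R at hT ⊢
  simp only [e1, e2] at hT
  exact hT

/-- **SWLIM, BPLUS ⇒ SWCUR**. -/
theorem swcur_of (hS : SWLIM.{u}) (bplus : BPLUS.{u}) : SWCUR.{u} := by
  intro M _ _ _ _ _ _ _ D w hw hJ hD hT e he h0 h1 h2 hp
  obtain ⟨b, hb⟩ := exists_compat hJ
  have hV := hw.vol 0
  have hw' := hb.pos3 hw hJ
  have hJ' := hb.isJ hJ
  have ho' := hb.orth hJ
  have hip : ∀ c d, ip (update w 0 b 0) c d = ip (w 0) c d := hb.ip_eq hw hJ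
  have hT' : T4R (update w 0 b 0) := t4r_congr hV (hw'.vol 0) (hb.seg hw hJ).so hT
  have hpb : 0 < ip (w 0) e (cls b) := sgn_of_tame bplus hw hJ hb.tame h0.ge h1 h2 hp
  have hne : e ≠ 0 := by
    rintro rfl
    rw [ip_zero_left hV] at hp
    exact lt_irrefl _ hp
  obtain ⟨t, J', S, hJT, hPC, hcl, hpos, hlow⟩ := hS M D.bl (update w 0 b) hw' hT' e he
    (by rw [hip]; exact h0) hne
  have e1 : S (update w 0 b 1).1 = 0 := by
    rw [hcl, hip, update_of_ne (by decide)]; exact h1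
  have e2 : S (update w 0 b 2).1 = 0 := by
    rw [hcl, hip, update_of_ne (by decide)]; exact h2
  have e0 : 0 < S (update w 0 b 0).1 := by
    rw [hcl, hip, update_self]; exact hpb
  obtain ⟨-, -, -, rfl⟩ := uu hw' ho' hJ' hJT hPC hpos e0 e1 e2
  have hB : T1A_195.Bridge w D.J D := ⟨rfl, hD⟩
  obtain ⟨s, hs⟩ := hB.exists_cur hPC
  exact ⟨S, s, hs, fun c => by rw [hcl, hip], hlow D s rfl hs.rm⟩

end

end Crest.Agent.R235.SwcLim_291
end

-- ▼ part R235/SwcTop_291
section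

/-!
Row 235 (S0364), PACKAGE SWC, node PROD (helper291): `AN, PROD, MODX ⇒ TOPLIM ⇒ SWLIM ⇒ SWCUR`.
-/

set_option autoImplicit false
set_option maxSynthPendingDepth 3
set_option linter.unusedSectionVars false
set_option linter.style.haveILetI false

open scoped ContDiff ENNReal NNReal Topology Manifold Bundle RealInnerProductSpace
open MeasureTheory Set Filter Metric Bundle

universe u

namespace Crest.Agent.R235.SwcTop_291

open Crest.Agent.R240 Crest.Agent.R240.Ch Crest.Agent.R235 Crest.Agent.R235.Uu_291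
open Crest.Agent.R235.Swc Crest.Agent.R235.SwcLowD_291 Crest.Agent.R235.SwcProd_215
open Crest.Agent.R235.SwcGlob_34 Crest.Agent.R235.IndTri_451

noncomputable section

section

variable {M : Type u} [TopologicalSpace M] [T2Space M] [CompactSpace M] [ChartedSpace E4 M]
  [IsManifold 𝓘(ℝ, E4) ∞ M]

/-- nondegeneracy of the intersection form on the integral classes, from the torus type. -/
theorem nondeg_of_t4r {F : Z2 M} (hV : Int.Vol (F.1.1 : F2 E4 M)) (hT : T4R F) {c : H2 M}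
    (hc : c ∈ HZ M) (h : ∀ d : H2 M, ip F c d = 0) : c = 0 := by
  obtain ⟨-, f, g, hff, hgg, hfg, hZ⟩ := hT
  rw [hZ] at hc
  obtain ⟨m, n, rfl⟩ := hc
  have hgf : ∀ i j, ip F (g i) (f j) = if i = j then 1 else 0 := by
    intro i j
    rw [ip_comm, hfg]
    simp only [eq_comm]
  have e1 : ∀ j, ip F (∑ i, (m i : ℝ) • f i + ∑ i, (n i : ℝ) • g i) (g j) = m j := by
    intro j
    rw [ip_add_left hV, ip_sum_left hV, ip_sum_left hV]
    simp only [ip_smul_left hV, hfg, hgg, mul_zero, Finset.sum_const_zero, add_zero, mul_ite,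
      mul_one, Finset.sum_ite_eq', Finset.mem_univ, if_true]
  have e2 : ∀ j, ip F (∑ i, (m i : ℝ) • f i + ∑ i, (n i : ℝ) • g i) (f j) = n j := by
    intro j
    rw [ip_add_left hV, ip_sum_left hV, ip_sum_left hV]
    simp only [ip_smul_left hV, hff, hgf, mul_zero, Finset.sum_const_zero, zero_add, mul_ite,
      mul_one, Finset.sum_ite_eq', Finset.mem_univ, if_true]
  have e3 : ∀ j, (m j : ℝ) = 0 := fun j => by rw [← e1 j]; exact h _
  have e4 : ∀ j, (n j : ℝ) = 0 := fun j => by rw [← e2 j]; exact h _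
  simp only [e3, e4, zero_smul, Finset.sum_const_zero, add_zero]

end

section

variable {M : Type u} [MetricSpace M] [CompactSpace M] [ChartedSpace E4 M]
  [IsManifold 𝓘(ℝ, E4) ∞ M] [MeasurableSpace M] [BorelSpace M]

/-- a current with zero mass vanishes. -/
theorem cur_zero {D : Dat M} {S : X2 M →ₗ[ℝ] ℝ} {s : Measure M} (h : T1_195.Cur D S s)
    (h0 : S D.FX = 0) : S = 0 := by
  have hfin := h.fin
  have h1 : S D.FX = ∫ _, (1 : ℝ) ∂s := h.rm.trace (fun _ => 1) (smoothF_const (E := E4) (M := M) 1)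
    D.FX (by
      funext x
      show D.F x = (1 : ℝ) • D.F x
      rw [one_smul])
  rw [h0] at h1
  simp only [integral_const, smul_eq_mul, mul_one] at h1
  have h2 : s = 0 := by
    rw [← Measure.measure_univ_eq_zero]
    have := h1.symm
    rwa [Measure.real, ENNReal.toReal_eq_zero_iff, or_iff_left (measure_ne_top s univ)] at this
  ext b
  have h3 := h.rm.bound b
  rw [h2] at h3
  simp only [integral_zero_measure, mul_zero, abs_nonpos_iff] at h3
  rw [h.inv b, h3]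
  rfl

end

/-- **AN, PROD, MODX ⇒ TOPLIM**. -/
theorem toplim_of (hA : AN.{u}) (hP : PROD.{u}) (hM : MODX.{u}) : TOPLIM.{u} := by
  intro M tM _ _ _ _ _ _ _ w hw hT c hc h0 hne
  obtain ⟨e, he⟩ := exists_tri hw
  obtain ⟨rb, crb, mM, rfl, hd, hin⟩ := Riem_399.exists_riem (QSTri_451.met_gg he)
  haveI : IsRiemannianManifold (𝓡 4) M := ⟨hd⟩
  haveI := Riem_399.secondCountable (M := M)
  haveI : Nonempty M := inferInstance
  haveI : IsFiniteMeasureOnCompacts (μHE[4] : Measure M) := by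
    have : IsLocallyFiniteMeasure (μHE[4] : Measure M) :=
      Crest.Agent.R247.Ms322.isLocallyFiniteMeasure 4 M
    infer_instance
  obtain ⟨κ0, κ1, κT, i0, i1, iT, S, T, cc, W, sT, ι, ww, τ, C, K, hdata, hsols⟩ :=
    hM M w e hw hT he hin c hc h0 hne
  obtain ⟨t, D, N, Q, U, lam, C', ht, hJT, hal, hF, hU, hQ, hcls⟩ :=
    hP M κ0 κ1 κT S T cc W sT w e ι ww τ C K c hw hdata hsols
  obtain ⟨Sc, s, hcur, hclS, hlow⟩ := hA M D N Q U lam C' hQ
  have hV := hw.vol 0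
  have ht0 : (fun i => t i : Fin 3 → ℝ) ≠ 0 := by
    intro h1
    have h2 : t = 0 := by
      ext i
      exact congrFun h1 i
    rw [h2, norm_zero] at ht
    exact zero_ne_one ht
  -- the bridge for `w_t`
  have hB : T1A_195.Bridge (fun _ => wt w fun i => t i) D.J D := ⟨rfl, hal⟩
  have hPC : PCur D.J Sc := hB.pcur hcur
  have hcl : ∀ b : Z2 M, Sc b.1 = ip (w 0) c (cls b) := by
    intro b
    rw [hclS, ← hB.ip_eq (Q.a0 0) b, hcls]
    exact hw.ip_comb 0 ht0 c (cls b)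
  refine ⟨fun i => t i, D.J, Sc, hJT, hPC, hcl, ?_, hasLow_of hcur.rm hlow⟩
  have e1 : (D.FX : X2 M) = (wt w fun i => t i).1 := by
    apply Subtype.ext
    exact hF
  have e2 : 0 ≤ Sc (wt w fun i => t i).1 := by
    rw [← e1]
    exact hcur.nonneg _ fun x => ⟨(Int.dat_sposF D x).alt, (Int.dat_sposF D x).inv, fun v => by
      rcases eq_or_ne v 0 with rfl | hv
      · simp
      · exact ((Int.dat_sposF D x).pos v hv).le⟩
  refine lt_of_le_of_ne e2 fun h1 => hne ?_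
  rw [← e1] at h1
  have h2 := cur_zero hcur h1.symm
  refine nondeg_of_t4r hV hT hc fun d => ?_
  obtain ⟨b, rfl⟩ : ∃ b : Z2 M, cls b = d := (B2 M).mkQ_surjective d
  rw [← hcl b, h2]
  rfl

/-- **AN, PROD, MODX, BPLUS ⇒ SWCUR**. -/
theorem swcur_of (hA : AN.{u}) (hP : PROD.{u}) (hM : MODX.{u}) (bplus : BPLUS.{u}) :
    SWCUR.{u} :=
  SwcLim_291.swcur_of (swlim_of (toplim_of hA hP hM)) bplus

end

end Crest.Agent.R235.SwcTop_291
end

-- ▼ part R235/SwcPWJ_215
section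

/-!
Row 235 (S0364), PACKAGE SWC, NODE PROD, PWD (helper215): `0 < ∑ X_k²`, the almost complex
structure `√(∑ X²) J = ∑ X_k I_k`, the metric `F(u, J v) = √(∑ X²) g(u, v)` and the norm of
covectors.
-/

set_option autoImplicit false
set_option maxSynthPendingDepth 3
set_option linter.unusedSectionVars false

open scoped ContDiff ENNReal NNReal Topology Manifold Bundle RealInnerProductSpace
open MeasureTheory Set Filter Metric Bundle

universe v

namespace Crest.Agent.R235.SwcPWJ_215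

open Crest.Agent.R240 Crest.Agent.R240.Ch Crest.Agent.R235 Crest.Agent.R235.SWDefs_53
open Crest.Agent.R235.IndTri_451 Crest.Agent.R235.Tau483 Crest.Agent.R235.SwcGlob_34
open Crest.Agent.R235.SwcProd_215

noncomputable section

variable {M : Type v} [MetricSpace M] [CompactSpace M] [ChartedSpace E4 M]
  [IsManifold 𝓘(ℝ, E4) ∞ M] [MeasurableSpace M] [BorelSpace M] {w : Trip M}
  {e : Fin 3 → F2 E4 M} {t : Fin 3 → ℝ} {X : Fin 3 → M → ℝ} {D : Crest.Agent.R240.Dat M}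

/-- `Λ(c) (u, v) = ∑ c_k e_k (u, v)`. -/
def eb (e : Fin 3 → F2 E4 M) (x : M) (c : Fin 3 → ℝ) (u v : E4) : ℝ :=
  ∑ k, c k * at2 (e k) x u v

/-- `∑ X_k I_k`. -/
def Js (e : Fin 3 → F2 E4 M) (X : Fin 3 → M → ℝ) (x : M) (u : E4) : E4 :=
  ∑ k, X k x • atJ (II e k) x u

/-- the cross product. -/
def cr (b c : Fin 3 → ℝ) : Fin 3 → ℝ := fun m => b (m + 1) * c (m + 2) - b (m + 2) * c (m + 1)

theorem val_eq (h : LimD w e t X D) (x : M) (u v : E4) :
    val (Uu_291.wt w t) x u v = eb e x (fun k => X k x) u v := by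
  rw [h.X x]
  unfold eb
  simp only [Fin.sum_univ_three, ContinuousLinearMap.add_apply, ContinuousLinearMap.smul_apply,
    smul_eq_mul]

theorem F_eq (h : LimD w e t X D) (x : M) (u v : E4) :
    at2 D.F x u v = eb e x (fun k => X k x) u v := by
  rw [← val_eq h x u v, h.F]
  rfl

theorem exists_ne : ∃ v : E4, v ≠ 0 := ⟨ee 0, fun h => by
  have := congrArg (fun z : E4 => z 0) h
  simp [ee] at this⟩

theorem pos (h : LimD w e t X D) (x : M) : 0 < ∑ k, X k x ^ 2 := by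
  refine lt_of_le_of_ne (Finset.sum_nonneg fun k _ => sq_nonneg _) fun h0 => ?_
  have h1 : ∀ k, X k x = 0 := by
    intro k
    have := (Finset.sum_eq_zero_iff_of_nonneg fun k _ => sq_nonneg (X k x)).1 h0.symm k
      (Finset.mem_univ k)
    exact pow_eq_zero_iff two_ne_zero |>.1 this
  obtain ⟨v, hv⟩ := exists_ne
  have h2 := h.jt.tame x v hv
  rw [val_eq h] at h2
  unfold eb at h2
  simp only [h1, zero_mul, Finset.sum_const_zero, lt_self_iff_false] at h2

theorem self (h : IsTri (fun i => (w i).1.1) e) (x : M) (k : Fin 3) (u : E4) :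
    at2 (e k) x u u = 0 := (h.smooth k).1 x u

theorem tab0 (h : IsTri (fun i => (w i).1.1) e) (x : M) (k : Fin 3) (u v : E4) :
    at2 (e k) x (atJ (II e k) x u) v = - at2 (gg e) x u v := by
  rw [h.e_eq, h.I_sq, map_neg, ContinuousLinearMap.neg_apply]

/-- the table. -/
theorem eb_Js (h : IsTri (fun i => (w i).1.1) e) (x : M) (b : Fin 3 → ℝ) (u v : E4) :
    eb e x b (Js e X x u) v = - (∑ k, b k * X k x) * at2 (gg e) x u v +
      eb e x (cr b fun k => X k x) u v := by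
  have t0 := tab0 h x 0 u v
  have t1 := tab0 h x 1 u v
  have t2 := tab0 h x 2 u v
  have n0 := h.e_next 0 x u v
  have n1 := h.e_next 1 x u v
  have n2 := h.e_next 2 x u v
  have p0 := h.e_next' 0 x u v
  have p1 := h.e_next' 1 x u v
  have p2 := h.e_next' 2 x u v
  have a1 : (0 : Fin 3) + 1 = 1 := rfl
  have a2 : (0 : Fin 3) + 2 = 2 := rfl
  have a3 : (1 : Fin 3) + 1 = 2 := rfl
  have a4 : (1 : Fin 3) + 2 = 0 := rfl
  have a5 : (2 : Fin 3) + 1 = 0 := rfl
  have a6 : (2 : Fin 3) + 2 = 1 := rfl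
  rw [a1, a2] at n0 p0
  rw [a3, a4] at n1 p1
  rw [a5, a6] at n2 p2
  unfold eb Js cr
  simp only [Fin.sum_univ_three, map_add, map_smul, ContinuousLinearMap.add_apply,
    ContinuousLinearMap.smul_apply, smul_eq_mul, t0, t1, t2, n0, n1, n2, p0, p1, p2, a1, a2, a3,
    a4, a5, a6]
  ring

theorem Js_sq (h : IsTri (fun i => (w i).1.1) e) (x : M) (u : E4) :
    Js e X x (Js e X x u) = - (∑ k, X k x ^ 2) • u := by
  have s0 := h.I_sq 0 x u
  have s1 := h.I_sq 1 x u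
  have s2 := h.I_sq 2 x u
  have m0 := h.I_mul 0 x u
  have m1 := h.I_mul 1 x u
  have m2 := h.I_mul 2 x u
  have k0 := h.I_mul' 0 x u
  have k1 := h.I_mul' 1 x u
  have k2 := h.I_mul' 2 x u
  have a1 : (0 : Fin 3) + 1 = 1 := rfl
  have a2 : (0 : Fin 3) + 2 = 2 := rfl
  have a3 : (1 : Fin 3) + 1 = 2 := rfl
  have a4 : (1 : Fin 3) + 2 = 0 := rfl
  have a5 : (2 : Fin 3) + 1 = 0 := rfl
  have a6 : (2 : Fin 3) + 2 = 1 := rfl
  rw [a1, a2] at m0 k0
  rw [a3, a4] at m1 k1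
  rw [a5, a6] at m2 k2
  unfold Js
  simp only [Fin.sum_univ_three, map_add, map_smul, s0, s1, s2, m0, m1, m2, k0, k1, k2]
  module

theorem eb_alt (h : IsTri (fun i => (w i).1.1) e) (x : M) (b : Fin 3 → ℝ) (u : E4) :
    eb e x b u u = 0 := by
  unfold eb
  exact Finset.sum_eq_zero fun k _ => by rw [self h, mul_zero]

theorem eb_swap (h : IsTri (fun i => (w i).1.1) e) (x : M) (b : Fin 3 → ℝ) (u v : E4) :
    eb e x b u v = - eb e x b v u := by
  unfold eb
  rw [← Finset.sum_neg_distrib]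
  refine Finset.sum_congr rfl fun k _ => ?_
  rw [Alt.swap ((h.smooth k).1 x) u v]
  ring

/-- forms orthogonal to `F` are `J`-symmetric. -/
theorem eb_J (h : LimD w e t X D) (x : M) {b : Fin 3 → ℝ} (hb : ∑ k, b k * X k x = 0) (u v : E4) :
    eb e x b (atJ D.J x u) v = eb e x b u (atJ D.J x v) := by
  obtain ⟨A, B, -, -, hA, -, -, -⟩ := h.tri.coef
  have e1 : ∀ u v, eb e x b u v = (∑ i, (∑ j, b j * A j i x) • val (w i) x) u v := by
    intro u v
    unfold eb
    have h2 : ∀ k, at2 (e k) x u v = ∑ i, A k i x * val (w i) x u v := by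
      intro k
      rw [hA k x]
      simp only [Fin.sum_univ_three, ContinuousLinearMap.add_apply,
        ContinuousLinearMap.smul_apply, smul_eq_mul]
      rfl
    simp only [h2, Fin.sum_univ_three, ContinuousLinearMap.add_apply,
      ContinuousLinearMap.smul_apply, smul_eq_mul]
    ring
  have hW : W (∑ i, (∑ j, b j * A j i x) • val (w i) x) (val (Uu_291.wt w t) x) = 0 := by
    have e2 : (∑ i, (∑ j, b j * A j i x) • val (w i) x : Bil) = ∑ k, b k • at2 (e k) x := by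
      ext u v
      rw [← e1 u v]
      unfold eb
      simp only [Fin.sum_univ_three, ContinuousLinearMap.add_apply,
        ContinuousLinearMap.smul_apply, smul_eq_mul]
    rw [e2, h.X x]
    have hWe := h.tri.W_e
    simp only [Fin.sum_univ_three, W_add_left, W_add_right, W_smul_left, W_smul_right]
    simp only [Fin.sum_univ_three] at hb
    rw [hWe 0 0, hWe 0 1, hWe 0 2, hWe 1 0, hWe 1 1, hWe 1 2, hWe 2 0, hWe 2 1, hWe 2 2]
    simp only [if_true, Fin.isValue, zero_ne_one, one_ne_zero, if_false, mul_zero, add_zero,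
      zero_add, show (0 : Fin 3) ≠ 2 by decide, show (2 : Fin 3) ≠ 0 by decide,
      show (1 : Fin 3) ≠ 2 by decide, show (2 : Fin 3) ≠ 1 by decide]
    linear_combination (W (at2 ((w 0).1.1 : F2 E4 M) x) (at2 ((w 0).1.1 : F2 E4 M) x)) * hb
  have h3 := h.jt.anti x _ hW u (atJ D.J x v)
  rw [h.jt.sq, ← e1, ← e1] at h3
  have h4 : eb e x b (atJ D.J x u) (-v) = - eb e x b (atJ D.J x u) v := by
    unfold eb
    simp only [map_neg, mul_neg, Finset.sum_neg_distrib]
  rw [h4] at h3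
  linarith

theorem eb_nondeg (h : IsTri (fun i => (w i).1.1) e) (x : M) {b : Fin 3 → ℝ} (hb : b ≠ 0)
    {u u' : E4} (hu : ∀ v, eb e x b u v = eb e x b u' v) : u = u' := by
  have e1 : ∀ u v, eb e x b u v = (∑ k, b k • at2 (e k) x : Bil) u v := by
    intro u v
    unfold eb
    simp only [Fin.sum_univ_three, ContinuousLinearMap.add_apply,
      ContinuousLinearMap.smul_apply, smul_eq_mul]
  have ha : Alt (∑ k, b k • at2 (e k) x : Bil) := by
    intro v
    rw [← e1]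
    exact eb_alt h x b v
  have hW : W (∑ k, b k • at2 (e k) x : Bil) (∑ k, b k • at2 (e k) x : Bil) ≠ 0 := by
    have hWe := h.W_e
    have e2 : W (∑ k, b k • at2 (e k) x : Bil) (∑ k, b k • at2 (e k) x : Bil) =
        (∑ k, b k ^ 2) * W (at2 ((w 0).1.1 : F2 E4 M) x) (at2 ((w 0).1.1 : F2 E4 M) x) := by
      simp only [Fin.sum_univ_three, W_add_left, W_add_right, W_smul_left, W_smul_right]
      rw [hWe 0 0, hWe 0 1, hWe 0 2, hWe 1 0, hWe 1 1, hWe 1 2, hWe 2 0, hWe 2 1, hWe 2 2]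
      simp only [if_true, Fin.isValue, zero_ne_one, one_ne_zero, if_false, mul_zero, add_zero,
        zero_add, show (0 : Fin 3) ≠ 2 by decide, show (2 : Fin 3) ≠ 0 by decide,
        show (1 : Fin 3) ≠ 2 by decide, show (2 : Fin 3) ≠ 1 by decide]
      ring
    rw [e2]
    refine mul_ne_zero (fun h0 => hb ?_) (h.W_ne x)
    funext k
    have := (Finset.sum_eq_zero_iff_of_nonneg fun k _ => sq_nonneg (b k)).1 h0 k
      (Finset.mem_univ k)
    exact pow_eq_zero_iff two_ne_zero |>.1 this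
  refine IndTri_451.nondeg ha hW fun v => ?_
  rw [← e1, ← e1]
  exact hu v

/-- a nonzero vector orthogonal to `X`. -/
theorem exists_orth (X : Fin 3 → ℝ) : ∃ b : Fin 3 → ℝ, b ≠ 0 ∧ ∑ k, b k * X k = 0 := by
  by_cases h : X 0 = 0 ∧ X 1 = 0
  · refine ⟨![1, 0, 0], fun h0 => ?_, ?_⟩
    · have := congrFun h0 0
      simp at this
    · simp [Fin.sum_univ_three, h.1]
  · refine ⟨![X 1, - X 0, 0], fun h0 => h ⟨?_, ?_⟩, ?_⟩
    · have := congrFun h0 1
      simpa using this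
    · have := congrFun h0 0
      simpa using this
    · simp [Fin.sum_univ_three]
      ring

theorem comm (h : LimD w e t X D) (x : M) (u : E4) :
    Js e X x (atJ D.J x u) = atJ D.J x (Js e X x u) := by
  obtain ⟨b, hb0, hb⟩ := exists_orth fun k => X k x
  refine eb_nondeg h.tri x hb0 fun v => ?_
  have hc : ∑ k, cr b (fun k => X k x) k * X k x = 0 := by
    unfold cr
    have a1 : (0 : Fin 3) + 1 = 1 := rfl
    have a2 : (0 : Fin 3) + 2 = 2 := rfl
    have a3 : (1 : Fin 3) + 1 = 2 := rfl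
    have a4 : (1 : Fin 3) + 2 = 0 := rfl
    have a5 : (2 : Fin 3) + 1 = 0 := rfl
    have a6 : (2 : Fin 3) + 2 = 1 := rfl
    simp only [Fin.sum_univ_three, a1, a2, a3, a4, a5, a6]
    ring
  rw [eb_Js h.tri, eb_J h x hb, eb_Js h.tri, hb, eb_J h x hc]
  ring

/-- `F (u, ∑ X_k I_k v) = (∑ X²) g (u, v)`. -/
theorem F_Js (h : LimD w e t X D) (x : M) (u v : E4) :
    at2 D.F x u (Js e X x v) = (∑ k, X k x ^ 2) * at2 (gg e) x u v := by
  rw [F_eq h, eb_swap h.tri, eb_Js h.tri]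
  have hc : eb e x (cr (fun k => X k x) fun k => X k x) v u = 0 := by
    unfold eb cr
    have a1 : (0 : Fin 3) + 1 = 1 := rfl
    have a2 : (0 : Fin 3) + 2 = 2 := rfl
    have a3 : (1 : Fin 3) + 1 = 2 := rfl
    have a4 : (1 : Fin 3) + 2 = 0 := rfl
    have a5 : (2 : Fin 3) + 1 = 0 := rfl
    have a6 : (2 : Fin 3) + 2 = 1 := rfl
    simp only [Fin.sum_univ_three, a1, a2, a3, a4, a5, a6]
    ring
  rw [hc, h.tri.g_symm x u v]
  have : ∑ k, X k x * X k x = ∑ k, X k x ^ 2 := Finset.sum_congr rfl fun k _ => by ring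
  rw [this]
  ring

theorem Js_add (x : M) (u v : E4) : Js e X x (u + v) = Js e X x u + Js e X x v := by
  unfold Js
  simp only [Fin.sum_univ_three, map_add]
  module

theorem Js_smul (x : M) (c : ℝ) (u : E4) : Js e X x (c • u) = c • Js e X x u := by
  unfold Js
  simp only [Fin.sum_univ_three, map_smul]
  module

/-- **the almost complex structure.** -/
theorem J_eq (h : LimD w e t X D) (x : M) (v : E4) :
    √(∑ k, X k x ^ 2) • atJ D.J x v = ∑ k, X k x • atJ (II e k) x v := by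
  show √(∑ k, X k x ^ 2) • atJ D.J x v = Js e X x v
  have hp := pos h x
  set s := √(∑ k, X k x ^ 2) with hs
  have hs0 : 0 < s := Real.sqrt_pos.2 hp
  have hss : s * s = ∑ k, X k x ^ 2 := Real.mul_self_sqrt hp.le
  have hsq : ∀ v, atJ D.J x (atJ D.J x v) = -v := h.jt.sq x
  set A : E4 → E4 := fun v => - Js e X x (atJ D.J x v) with hA
  have hu : ∀ v, A v - s • v = 0 := by
    intro v
    by_contra hne
    set u := A v - s • v with hu
    -- `J u = - s⁻¹ Js u`
    have h1 : s • atJ D.J x u = - Js e X x u := by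
      have e1 : atJ D.J x u = Js e X x v - s • atJ D.J x v := by
        rw [hu, map_sub, map_smul]
        show atJ D.J x (- Js e X x (atJ D.J x v)) - _ = _
        rw [map_neg, ← comm h x (atJ D.J x v), hsq]
        have : Js e X x (-v) = - Js e X x v := by
          have := Js_smul (e := e) (X := X) x (-1) v
          simpa using this
        rw [this, neg_neg]
      have e2 : Js e X x u = (s * s) • atJ D.J x v - s • Js e X x v := by
        rw [hu]
        show Js e X x (- Js e X x (atJ D.J x v) - s • v) = _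
        have e3 : (- Js e X x (atJ D.J x v) - s • v) =
          (-1 : ℝ) • Js e X x (atJ D.J x v) + (-s) • v := by module
        rw [e3, Js_add, Js_smul, Js_smul, Js_sq h.tri, ← hss]
        module
      rw [e1, e2]
      module
    have h2 := h.jt.tame x u hne
    rw [val_eq h, ← F_eq h] at h2
    have h3 : s * at2 D.F x u (atJ D.J x u) = - ((s * s) * at2 (gg e) x u u) := by
      have := congrArg (fun z => at2 D.F x u z) h1
      simp only [map_smul, map_neg, smul_eq_mul] at this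
      rw [this, F_Js h, hss]
    have h4 := h.tri.pos x u hne
    nlinarith [mul_pos hs0 h2, mul_pos (mul_pos hs0 hs0) h4]
  have h5 := sub_eq_zero.1 (hu (atJ D.J x v))
  have h6 : A (atJ D.J x v) = Js e X x v := by
    show - Js e X x (atJ D.J x (atJ D.J x v)) = _
    rw [hsq]
    have := Js_smul (e := e) (X := X) x (-1) v
    simp only [neg_smul, one_smul] at this
    rw [this, neg_neg]
  rw [← h5, h6]

/-- **the metric of `D`** is `√(∑ X²) g`. -/
theorem F_J (h : LimD w e t X D) (x : M) (u v : E4) :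
    at2 D.F x u (atJ D.J x v) = √(∑ k, X k x ^ 2) * at2 (gg e) x u v := by
  have hp := pos h x
  have hs0 : 0 < √(∑ k, X k x ^ 2) := Real.sqrt_pos.2 hp
  have h1 : at2 D.F x u (√(∑ k, X k x ^ 2) • atJ D.J x v) =
      (∑ k, X k x ^ 2) * at2 (gg e) x u v := by
    rw [J_eq h x v]
    exact F_Js h x u v
  rw [map_smul, smul_eq_mul] at h1
  have h2 : √(∑ k, X k x ^ 2) * √(∑ k, X k x ^ 2) = ∑ k, X k x ^ 2 := Real.mul_self_sqrt hp.le
  refine mul_left_cancel₀ hs0.ne' ?_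
  rw [h1, ← mul_assoc, h2]

/-- **covectors.** -/
theorem n1_le (h : LimD w e t X D) (x : M) (c : E4 →L[ℝ] ℝ) (m : ℝ)
    (hc : ∀ v, c v ^ 2 ≤ m * at2 (gg e) x v v) : n1 D x c * √(∑ k, X k x ^ 2) ≤ m := by
  have hJ : ∀ v, atJ D.J x (atJ D.J x v) = -v := D.sq x
  have hF := En4.spos D x
  obtain ⟨A, hA⟩ := exists_frame hJ hF
  have hn : n1 D x c = SwcAlg_34.S4 (c.comp (A : E4 →L[ℝ] E4)) :=
    SwcAlg_34.m1_frame hF hA c
  set c' := c.comp (A : E4 →L[ℝ] E4) with hc'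
  set v0 : E4 := ∑ k, c' (ee k) • ee k with hv0
  have h1 : c (A v0) = n1 D x c := by
    have : c (A v0) = c' v0 := rfl
    rw [this, hv0, map_sum, hn]
    unfold SwcAlg_34.S4
    simp only [Fin.sum_univ_four, map_smul, smul_eq_mul]
    ring
  have h2 : ‖v0‖ ^ 2 = n1 D x c := by
    rw [norm_sq_E4, hn, hv0]
    unfold SwcAlg_34.S4
    simp only [Fin.sum_univ_four, PiLp.add_apply, PiLp.smul_apply, smul_eq_mul, ee_apply]
    simp
  have h3 : at2 D.F x (A v0) (atJ D.J x (A v0)) = n1 D x c := by rw [hA.normsq, h2]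
  rw [F_J h] at h3
  have h4 := hc (A v0)
  rw [h1] at h4
  have hp := pos h x
  have hs0 : 0 < √(∑ k, X k x ^ 2) := Real.sqrt_pos.2 hp
  have hn0 : 0 ≤ n1 D x c := by rw [hn]; exact SwcAlg_34.S4_nonneg _
  rcases hn0.eq_or_lt with h0 | h0
  · rw [← h0, zero_mul]
    obtain ⟨v, hv⟩ := exists_ne
    have h5 := hc v
    have h6 := h.tri.pos x v hv
    by_contra hm
    have : m * at2 (gg e) x v v < 0 := mul_neg_of_neg_of_pos (not_le.1 hm) h6
    linarith [sq_nonneg (c v)]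
  · refine le_of_mul_le_mul_left ?_ h0
    calc n1 D x c * (n1 D x c * √(∑ k, X k x ^ 2)) = n1 D x c ^ 2 * √(∑ k, X k x ^ 2) := by ring
      _ ≤ (m * at2 (gg e) x (A v0) (A v0)) * √(∑ k, X k x ^ 2) :=
        mul_le_mul_of_nonneg_right h4 hs0.le
      _ = n1 D x c * m := by
        rw [← h3]
        ring

end

end Crest.Agent.R235.SwcPWJ_215
end

-- ▼ part R235/SwcPWN_215
section

/-!
Row 235 (S0364), PACKAGE SWC, NODE PROD, PWD (helper215): the clause about two-forms, and `pwd`.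
-/

set_option autoImplicit false
set_option maxSynthPendingDepth 3
set_option linter.unusedSectionVars false

open scoped ContDiff ENNReal NNReal Topology Manifold Bundle RealInnerProductSpace
open MeasureTheory Set Filter Metric Bundle

universe v

namespace Crest.Agent.R235.SwcPWN_215

open Crest.Agent.R240 Crest.Agent.R240.Ch Crest.Agent.R235 Crest.Agent.R235.SWDefs_53
open Crest.Agent.R235.IndTri_451 Crest.Agent.R235.Tau483 Crest.Agent.R235.SwcGlob_34
open Crest.Agent.R235.SwcProd_215 Crest.Agent.R235.SwcPWJ_215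

noncomputable section

/-! ### the frame -/

theorem gram3 (p q X : Fin 3 → ℝ) {R s : ℝ} (hR : R * s = 1) (hX : ∑ k, X k ^ 2 = R)
    (h : ∀ k l, p k * p l + q k * q l = (if k = l then s else 0) - X k * X l * s ^ 2) :
    ∑ k, p k ^ 2 = s ∧ ∑ k, q k ^ 2 = s ∧ ∑ k, p k * q k = 0 ∧ ∑ k, p k * X k = 0 ∧
      ∑ k, q k * X k = 0 := by
  have h00 := h 0 0
  have h01 := h 0 1
  have h02 := h 0 2
  have h11 := h 1 1
  have h12 := h 1 2
  have h22 := h 2 2
  simp only [if_true, Fin.isValue, zero_ne_one, if_false, show (0 : Fin 3) ≠ 2 by decide,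
    show (1 : Fin 3) ≠ 2 by decide] at h00 h01 h02 h11 h12 h22
  simp only [Fin.sum_univ_three] at hX ⊢
  generalize X 0 = x at *
  generalize X 1 = y at *
  generalize X 2 = z at *
  generalize p 0 = a at *
  generalize p 1 = b at *
  generalize p 2 = c at *
  generalize q 0 = d at *
  generalize q 1 = e at *
  generalize q 2 = f at *
  have e1 : (a * x + b * y + c * z) ^ 2 + (d * x + e * y + f * z) ^ 2 = 0 := by
    have : (a * x + b * y + c * z) ^ 2 + (d * x + e * y + f * z) ^ 2 =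
        s * (x ^ 2 + y ^ 2 + z ^ 2) - s ^ 2 * (x ^ 2 + y ^ 2 + z ^ 2) ^ 2 := by
      linear_combination x ^ 2 * h00 + y ^ 2 * h11 + z ^ 2 * h22 + 2 * x * y * h01 +
        2 * x * z * h02 + 2 * y * z * h12
    rw [this, hX]
    linear_combination (-(R * s)) * hR
  have e2 : a * x + b * y + c * z = 0 := by
    have h1 : (a * x + b * y + c * z) ^ 2 = 0 :=
      le_antisymm (by linarith [sq_nonneg (d * x + e * y + f * z)]) (sq_nonneg _)
    exact pow_eq_zero_iff two_ne_zero |>.1 h1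
  have e3 : d * x + e * y + f * z = 0 := by
    have h1 : (d * x + e * y + f * z) ^ 2 = 0 :=
      le_antisymm (by linarith [sq_nonneg (a * x + b * y + c * z)]) (sq_nonneg _)
    exact pow_eq_zero_iff two_ne_zero |>.1 h1
  set α := a ^ 2 + b ^ 2 + c ^ 2 with hα
  set β := a * d + b * e + c * f with hβ
  set γ := d ^ 2 + e ^ 2 + f ^ 2 with hγ
  have t1 : α + γ = 2 * s := by
    have : α + γ = 3 * s - s ^ 2 * (x ^ 2 + y ^ 2 + z ^ 2) := by
      rw [hα, hγ]
      linear_combination h00 + h11 + h22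
    rw [this, hX]
    linear_combination (-s) * hR
  have t2 : α ^ 2 + 2 * β ^ 2 + γ ^ 2 = 2 * s ^ 2 := by
    have g00 : (a * a + d * d) ^ 2 = (s - x * x * s ^ 2) ^ 2 := by rw [h00]
    have g11 : (b * b + e * e) ^ 2 = (s - y * y * s ^ 2) ^ 2 := by rw [h11]
    have g22 : (c * c + f * f) ^ 2 = (s - z * z * s ^ 2) ^ 2 := by rw [h22]
    have g01 : (a * b + d * e) ^ 2 = (0 - x * y * s ^ 2) ^ 2 := by rw [h01]
    have g02 : (a * c + d * f) ^ 2 = (0 - x * z * s ^ 2) ^ 2 := by rw [h02]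
    have g12 : (b * c + e * f) ^ 2 = (0 - y * z * s ^ 2) ^ 2 := by rw [h12]
    have : α ^ 2 + 2 * β ^ 2 + γ ^ 2 = 3 * s ^ 2 - 2 * s ^ 3 * (x ^ 2 + y ^ 2 + z ^ 2) +
        s ^ 4 * (x ^ 2 + y ^ 2 + z ^ 2) ^ 2 := by
      rw [hα, hβ, hγ]
      linear_combination g00 + g11 + g22 + 2 * g01 + 2 * g02 + 2 * g12
    rw [this, hX]
    linear_combination (-2 * s ^ 2 + s ^ 2 * (R * s + 1)) * hR
  have t3 : (α - γ) ^ 2 + 4 * β ^ 2 = 0 := by
    linear_combination 2 * t2 - (α + γ + 2 * s) * t1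
  clear_value α β γ
  have t4 : α - γ = 0 := by
    have h1 : (α - γ) ^ 2 = 0 := le_antisymm (by linarith [sq_nonneg β]) (sq_nonneg _)
    exact pow_eq_zero_iff two_ne_zero |>.1 h1
  have t5 : β = 0 := by
    have h1 : β ^ 2 = 0 := le_antisymm (by linarith [sq_nonneg (α - γ)]) (sq_nonneg _)
    exact pow_eq_zero_iff two_ne_zero |>.1 h1
  exact ⟨by linarith, by linarith, t5, e2, e3⟩

variable {M : Type v} [MetricSpace M] [CompactSpace M] [ChartedSpace E4 M]
  [IsManifold 𝓘(ℝ, E4) ∞ M] [MeasurableSpace M] [BorelSpace M] {w : Trip M}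
  {e : Fin 3 → F2 E4 M} {t : Fin 3 → ℝ} {X : Fin 3 → M → ℝ} {D : Crest.Agent.R240.Dat M}

/-- entries of `e_k` in a frame of `D`. -/
theorem entries (h : LimD w e t X D) (x : M) {A : E4 ≃L[ℝ] E4}
    (hA : IsFrame (atJ D.J x) (at2 D.F x) A) {s : ℝ} (hs : (∑ k, X k x ^ 2) * s = 1) (k : Fin 3) :
    ent (pull (A : E4 →L[ℝ] E4) (at2 (e k) x)) 0 1 = X k x * s ∧
    ent (pull (A : E4 →L[ℝ] E4) (at2 (e k) x)) 2 3 = X k x * s ∧
    ent (pull (A : E4 →L[ℝ] E4) (at2 (e k) x)) 1 3 =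
      - ent (pull (A : E4 →L[ℝ] E4) (at2 (e k) x)) 0 2 ∧
    ent (pull (A : E4 →L[ℝ] E4) (at2 (e k) x)) 1 2 =
      ent (pull (A : E4 →L[ℝ] E4) (at2 (e k) x)) 0 3 := by
  -- `β = e_k - X_k s F`
  set b : Fin 3 → ℝ := fun l => (if l = k then 1 else 0) - X k x * s * X l x with hb
  have hb0 : ∑ l, b l * X l x = 0 := by
    have e1 : ∑ l, b l * X l x = X k x - X k x * s * ∑ l, X l x ^ 2 := by
      rw [hb]
      simp only [sub_mul, ite_mul, one_mul, zero_mul]
      rw [Finset.sum_sub_distrib, Finset.mul_sum]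
      simp only [Finset.sum_ite_eq', Finset.mem_univ, if_true]
      congr 1
      exact Finset.sum_congr rfl fun l _ => by ring
    rw [e1]
    linear_combination (-X k x) * hs
  have hek : ∀ u v, at2 (e k) x u v = eb e x b u v + X k x * s * at2 D.F x u v := by
    intro u v
    rw [F_eq h]
    unfold eb
    rw [Finset.mul_sum, ← Finset.sum_add_distrib]
    have : ∀ l, b l * at2 (e l) x u v + X k x * s * (X l x * at2 (e l) x u v) =
        if l = k then at2 (e k) x u v else 0 := by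
      intro l
      rw [hb]
      by_cases hl : l = k
      · subst hl
        simp only [if_true]
        ring
      · simp only [if_neg hl]
        ring
    simp only [this, Finset.sum_ite_eq', Finset.mem_univ, if_true]
  have hanti : ∀ u v, eb e x b (atJ D.J x u) (atJ D.J x v) = - eb e x b u v := by
    intro u v
    rw [eb_J h x hb0, h.jt.sq]
    unfold eb
    simp only [map_neg, mul_neg, Finset.sum_neg_distrib]
  have hent : ∀ i j, ent (pull (A : E4 →L[ℝ] E4) (at2 (e k) x)) i j =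
      eb e x b (A (ee i)) (A (ee j)) + X k x * s * om0 (ee i) (ee j) := by
    intro i j
    show at2 (e k) x (A (ee i)) (A (ee j)) = _
    rw [hek, hA.form]
  have hJ0 : ∀ u v, eb e x b (A (J0 u)) (A (J0 v)) = - eb e x b (A u) (A v) := by
    intro u v
    rw [← hA.cplx, ← hA.cplx]
    exact hanti _ _
  have r01 := hJ0 (ee 0) (ee 1)
  have r23 := hJ0 (ee 2) (ee 3)
  have r02 := hJ0 (ee 0) (ee 2)
  have r03 := hJ0 (ee 0) (ee 3)
  have n1' : ∀ u v, eb e x b (A (-u)) (A v) = - eb e x b (A u) (A v) := by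
    intro u v
    unfold eb
    simp only [map_neg, ContinuousLinearMap.neg_apply, mul_neg, Finset.sum_neg_distrib]
  have n2' : ∀ u v, eb e x b (A u) (A (-v)) = - eb e x b (A u) (A v) := by
    intro u v
    unfold eb
    simp only [map_neg, mul_neg, Finset.sum_neg_distrib]
  simp only [J0_ee0, J0_ee1, J0_ee2, J0_ee3, n1', n2'] at r01 r23 r02 r03
  have sw := eb_swap h.tri x b
  rw [sw (A (ee 1)) (A (ee 0))] at r01
  rw [sw (A (ee 3)) (A (ee 2))] at r23
  refine ⟨?_, ?_, ?_, ?_⟩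
  · rw [hent, om0_apply]
    simp only [ee_apply]
    simp
    linarith
  · rw [hent, om0_apply]
    simp only [ee_apply]
    simp
    linarith
  · rw [hent, hent, om0_apply, om0_apply]
    simp only [ee_apply]
    simp
    linarith
  · rw [hent, hent, om0_apply, om0_apply]
    simp only [ee_apply]
    simp
    linarith

/-- `W (F, F) = (∑ X²) W (w_0, w_0)`. -/
theorem W_FF (h : LimD w e t X D) (x : M) : W (at2 D.F x) (at2 D.F x) =
    (∑ k, X k x ^ 2) * W (at2 ((w 0).1.1 : F2 E4 M) x) (at2 ((w 0).1.1 : F2 E4 M) x) := by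
  have hWe := h.tri.W_e
  have e1 : at2 D.F x = ∑ k, X k x • at2 (e k) x := by
    rw [h.F]
    exact h.X x
  rw [e1]
  simp only [Fin.sum_univ_three, W_add_left, W_add_right, W_smul_left, W_smul_right]
  rw [hWe 0 0, hWe 0 1, hWe 0 2, hWe 1 0, hWe 1 1, hWe 1 2, hWe 2 0, hWe 2 1, hWe 2 2]
  simp only [if_true, Fin.isValue, zero_ne_one, one_ne_zero, if_false, mul_zero, add_zero,
    zero_add, show (0 : Fin 3) ≠ 2 by decide, show (2 : Fin 3) ≠ 0 by decide,
    show (1 : Fin 3) ≠ 2 by decide, show (2 : Fin 3) ≠ 1 by decide]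
  ring

set_option maxHeartbeats 1000000 in
/-- the two-form clause. -/
theorem cl_b (h : LimD w e t X D) (x : M) (b : F2 E4 M) (hb : Alt (at2 b x)) :
      qG D.F b D.F x = (∑ k, qG (w 0).1.1 (e k) b x * X k x) / ∑ k, X k x ^ 2 ∧
      nsqG D.J D.F b x + qG D.F b b x =
        2 * (∑ k, qG (w 0).1.1 (e k) b x ^ 2) / ∑ k, X k x ^ 2 ∧
      nsqG D.J D.F (bpp D.J b) x = (∑ k, qG (w 0).1.1 (e k) b x ^ 2 -
        (∑ k, qG (w 0).1.1 (e k) b x * X k x) ^ 2 / ∑ k, X k x ^ 2) / ∑ k, X k x ^ 2 ∧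
      ∀ c : F2 E4 M, Alt (at2 c x) → (∑ k, X k x ^ 2) * qG D.F b c x = qG (w 0).1.1 b c x := by
  have hp := pos h x
  set R := ∑ k, X k x ^ 2 with hR
  set s := R⁻¹ with hs
  have hRs : R * s = 1 := mul_inv_cancel₀ hp.ne'
  have hWF := W_FF h x
  rw [← hR] at hWF
  have hW0 := h.tri.W_ne x
  have hWe := h.tri.W_e
  have c4 : ∀ b c : F2 E4 M, R * qG D.F b c x = qG (w 0).1.1 b c x := by
    intro b c
    show R * (W (at2 b x) (at2 c x) / W (at2 D.F x) (at2 D.F x)) =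
      W (at2 b x) (at2 c x) / W (at2 ((w 0).1.1 : F2 E4 M) x) (at2 ((w 0).1.1 : F2 E4 M) x)
    rw [hWF]
    field_simp
  obtain ⟨A, hA⟩ := exists_frame (D.sq x) (En4.spos D x)
  have hsp := En4.spos D x
  set B := pull (A : E4 →L[ℝ] E4) (at2 b x) with hB
  set E : Fin 3 → Bil := fun k => pull (A : E4 →L[ℝ] E4) (at2 (e k) x) with hE
  have hBa : Alt B := hb.pull _
  have he : ∀ k, Alt (at2 (e k) x) := fun k => (h.tri.smooth k).1 x
  have hent := entries h x hA hRs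
  set p : Fin 3 → ℝ := fun k => ent (E k) 0 2 with hpd
  set q' : Fin 3 → ℝ := fun k => ent (E k) 0 3 with hqd
  have E01 : ∀ k, ent (E k) 0 1 = X k x * s := fun k => (hent k).1
  have E23 : ∀ k, ent (E k) 2 3 = X k x * s := fun k => (hent k).2.1
  have E13 : ∀ k, ent (E k) 1 3 = - p k := fun k => (hent k).2.2.1
  have E12 : ∀ k, ent (E k) 1 2 = q' k := fun k => (hent k).2.2.2
  have E02 : ∀ k, ent (E k) 0 2 = p k := fun k => rfl
  have E03 : ∀ k, ent (E k) 0 3 = q' k := fun k => rfl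
  -- Gram
  have hg : ∀ k l, p k * p l + q' k * q' l = (if k = l then s else 0) - X k x * X l x * s ^ 2 := by
    intro k l
    have h1 : q (at2 D.F x) (at2 (e k) x) (at2 (e l) x) = W (E k) (E l) / 2 :=
      hA.q_eq hsp.alt (he k) (he l)
    have h2 : q (at2 D.F x) (at2 (e k) x) (at2 (e l) x) = if k = l then s else 0 := by
      unfold q
      rw [hWe, hWF]
      by_cases hkl : k = l
      · rw [if_pos hkl, if_pos hkl]
        field_simp
        linarith
      · rw [if_neg hkl, if_neg hkl, zero_div]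
    rw [h2] at h1
    unfold W at h1
    rw [E01, E23, E13, E12, E02, E03, E01, E23, E13, E12, E02, E03] at h1
    linarith
  obtain ⟨g1, g2, g3, g4, g5⟩ := gram3 p q' (fun k => X k x) hRs hR.symm hg
  -- coefficients
  set a := ent B 0 1 + ent B 2 3 with ha
  set m := ent B 0 2 - ent B 1 3 with hm
  set n := ent B 0 3 + ent B 1 2 with hn
  have hq : ∀ k, qG (w 0).1.1 (e k) b x = R / 2 * (X k x * s * a + p k * m + q' k * n) := by
    intro k
    rw [← c4]
    have h1 : qG D.F (e k) b x = W (E k) B / 2 := hA.q_eq hsp.alt (he k) hb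
    rw [h1]
    unfold W
    rw [E01, E23, E13, E12, E02, E03, ha, hm, hn]
    ring
  have hsum : ∑ k, qG (w 0).1.1 (e k) b x ^ 2 = R / 4 * (a ^ 2 + m ^ 2 + n ^ 2) := by
    simp only [hq, Fin.sum_univ_three]
    simp only [Fin.sum_univ_three] at g1 g2 g3 g4 g5 hR
    have h0 : X 0 x ^ 2 + X 1 x ^ 2 + X 2 x ^ 2 = R := hR.symm
    linear_combination (R ^ 2 / 4 * s ^ 2 * a ^ 2) * h0 + (R ^ 2 / 4 * m ^ 2) * g1 +
      (R ^ 2 / 4 * n ^ 2) * g2 + (R ^ 2 / 2 * m * n) * g3 + (R ^ 2 / 2 * s * a * m) * g4 +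
      (R ^ 2 / 2 * s * a * n) * g5 +
      (R / 4 * (R * s + 1) * a ^ 2 + R / 4 * m ^ 2 + R / 4 * n ^ 2) * hRs
  have hsumX : ∑ k, qG (w 0).1.1 (e k) b x * X k x = R / 2 * a := by
    simp only [hq, Fin.sum_univ_three]
    simp only [Fin.sum_univ_three] at g4 g5 hR
    have h0 : X 0 x ^ 2 + X 1 x ^ 2 + X 2 x ^ 2 = R := hR.symm
    linear_combination (R / 2 * s * a) * h0 + (R / 2 * m) * g4 + (R / 2 * n) * g5 +
      (R / 2 * a) * hRs
  refine ⟨?_, ?_, ?_, fun c _ => c4 b c⟩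
  · have h1 : qG D.F b D.F x = W B (pull (A : E4 →L[ℝ] E4) (at2 D.F x)) / 2 :=
      hA.q_eq hsp.alt hb hsp.alt
    rw [h1, hA.pull_form, Ns.W_om0_right, hsumX, ← ha]
    field_simp
  · have h1 : nsqG D.J D.F b x = N0 B / 2 := Ns.frame_nsq hsp hA hb
    have h2 : qG D.F b b x = W B B / 2 := hA.q_eq hsp.alt hb hb
    rw [h1, h2, hsum]
    unfold N0 W
    rw [ha, hm, hn]
    field_simp
    ring
  · have h1 : nsqG D.J D.F (bpp D.J b) x =
        N0 (pull (A : E4 →L[ℝ] E4) (antip (atJ D.J x) (at2 b x))) / 2 :=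
      Ns.frame_nsq hsp hA (hb.antip _)
    rw [h1, Ns.frame_pull_antip hA, hsum, hsumX]
    obtain ⟨a1, a2, a3, a4, a5, a6⟩ := Ns.anti0_entries hBa
    unfold N0
    rw [a1, a2, a3, a4, a5, a6, ha, hm, hn]
    field_simp
    ring

/-- **PWD.** -/
theorem pwd : PWD.{v} := by
  intro M _ _ _ _ _ _ w e t X D h x
  exact ⟨pos h x, fun b hb => cl_b h x b hb, fun c m hc => n1_le h x c m hc, fun v => J_eq h x v⟩

end

end Crest.Agent.R235.SwcPWN_215
end

-- ▼ part R235/SwcPRBa_766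
section

/-!
Row 235 (S0364), PACKAGE SWC, NODE PROD (leader helper215), leaf PRB (helper766): `e1`, `e2`, `o3`.

Part a: linear algebra, nonnegativity of `n1`.
-/

set_option autoImplicit false
set_option maxSynthPendingDepth 3
set_option linter.unusedSectionVars false

open scoped ContDiff ENNReal NNReal Topology Manifold Bundle RealInnerProductSpace
open MeasureTheory Set Filter Metric Bundle

universe v

namespace Crest.Agent.R235.SwcPRB_766

open Crest.Agent.R240 Crest.Agent.R240.Ch Crest.Agent.R235 Crest.Agent.R235.SWDefs_53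
open Crest.Agent.R235.IndTri_451 Crest.Agent.R235.Tau483 Crest.Agent.R235.SwcGlob_34
open Crest.Agent.R235.SwcProd_215
open Crest.Agent.R249.Tv57 (OpPair SmF SmV KerD)
open Crest.Agent.R249.Tz805 (ToF)
open Crest.Agent.R247.Ms322 (Gr)

noncomputable section

/-! ### combinations of the `I_k` -/

section tri

variable {M : Type v} [TopologicalSpace M] [T2Space M] [CompactSpace M] [ChartedSpace E4 M]
  [IsManifold 𝓘(ℝ, E4) ∞ M] {w e : Fin 3 → F2 E4 M}

/-- `∑ m_k I_k`. -/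
def JX (e : Fin 3 → F2 E4 M) (m : Fin 3 → ℝ) (x : M) : E4 →L[ℝ] E4 := ∑ k, m k • atJ (II e k) x

theorem JX_apply (m : Fin 3 → ℝ) (x : M) (v : E4) :
    JX e m x v = m 0 • atJ (II e 0) x v + m 1 • atJ (II e 1) x v + m 2 • atJ (II e 2) x v := by
  unfold JX
  rw [Fin.sum_univ_three]
  rfl

theorem JX_sq (h : IsTri w e) (m : Fin 3 → ℝ) (x : M) (v : E4) :
    JX e m x (JX e m x v) = -((m 0 ^ 2 + m 1 ^ 2 + m 2 ^ 2) • v) := by
  have h00 := h.I_sq 0 x v
  have h11 := h.I_sq 1 x v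
  have h22 := h.I_sq 2 x v
  have h01 : atJ (II e 0) x (atJ (II e 1) x v) = atJ (II e 2) x v := h.I_mul 0 x v
  have h12 : atJ (II e 1) x (atJ (II e 2) x v) = atJ (II e 0) x v := h.I_mul 1 x v
  have h20 : atJ (II e 2) x (atJ (II e 0) x v) = atJ (II e 1) x v := h.I_mul 2 x v
  have h10 : atJ (II e 1) x (atJ (II e 0) x v) = - atJ (II e 2) x v := h.I_mul' 0 x v
  have h21 : atJ (II e 2) x (atJ (II e 1) x v) = - atJ (II e 0) x v := h.I_mul' 1 x v
  have h02 : atJ (II e 0) x (atJ (II e 2) x v) = - atJ (II e 1) x v := h.I_mul' 2 x v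
  rw [JX_apply m x (JX e m x v), JX_apply m x v]
  simp only [map_add, map_smul, h00, h11, h22, h01, h12, h20, h10, h21, h02]
  module

theorem g_JX (h : IsTri w e) (m : Fin 3 → ℝ) (x : M) (v : E4) :
    at2 (gg e) x (JX e m x v) (JX e m x v) = (m 0 ^ 2 + m 1 ^ 2 + m 2 ^ 2) * at2 (gg e) x v v := by
  have hsk : ∀ u u' : E4, at2 (gg e) x (JX e m x u) u' = - at2 (gg e) x u (JX e m x u') := by
    intro u u'
    rw [JX_apply, JX_apply]
    simp only [map_add, map_smul, add_apply, smul_apply, smul_eq_mul, h.g_skew]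
    ring
  rw [hsk, JX_sq h]
  simp only [map_neg, map_smul, smul_eq_mul]
  ring

end tri

/-! ### nonnegativity of `n1` -/

section n1

variable {M : Type v} [MetricSpace M] [CompactSpace M] [ChartedSpace E4 M]
  [IsManifold 𝓘(ℝ, E4) ∞ M] [MeasurableSpace M] [BorelSpace M]

theorem n1_nonneg (D : Crest.Agent.R240.Dat M) (x : M) (c : E4 →L[ℝ] ℝ) : 0 ≤ SwcGlob_34.n1 D x c := by
  obtain ⟨m, m', h⟩ := Crest.Agent.R240.ChDens.exists_Bd (D := D) x
    (K := {chartAt E4 x x}) isCompact_singleton (by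
      intro y hy
      rw [mem_singleton_iff.1 hy]
      exact mem_chart_target E4 x)
  have h1 := h _ (mem_singleton _)
  have e1 : repJ x D.J (chartAt E4 x x) = atJ D.J x := by
    refine ContinuousLinearMap.ext fun v => ?_
    have h2 := apply_eq_repJ (mem_chart_source E4 x) D.J v
    rw [tcc_self (mem_chart_source E4 x), tcc_self (mem_chart_source E4 x)] at h2
    exact h2.symm
  have e2 : rep x D.F (chartAt E4 x x) = at2 D.F x := by
    ext u v
    exact rep_self x D.F u v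
  rw [e1, e2] at h1
  have hP : Pos (atJ D.J x) (at2 D.F x) := ⟨h1.spos.alt, h1.spos.inv, fun v => by
    by_cases hv : v = 0
    · rw [hv]; simp
    · exact (h1.spos.pos v hv).le⟩
  have h2 := h1.q_wedJ_nonneg hP c
  unfold SwcGlob_34.n1
  linarith

end n1

end

end Crest.Agent.R235.SwcPRB_766
end

-- ▼ part R235/SwcPRBb_766
section

/-!
Row 235 (S0364), PACKAGE SWC, NODE PROD (leader helper215), leaf PRB (helper766), part b: pointwise
estimates of `eta`.
-/

set_option autoImplicit false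
set_option maxSynthPendingDepth 3
set_option linter.unusedSectionVars false

open scoped ContDiff ENNReal NNReal Topology Manifold Bundle RealInnerProductSpace Matrix
open MeasureTheory Set Filter Metric Bundle

universe v

namespace Crest.Agent.R235.SwcPRB_766

open Crest.Agent.R240 Crest.Agent.R240.Ch Crest.Agent.R235 Crest.Agent.R235.SWDefs_53
open Crest.Agent.R235.IndTri_451 Crest.Agent.R235.Tau483 Crest.Agent.R235.SwcGlob_34
open Crest.Agent.R235.SwcProd_215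
open Crest.Agent.R249.Tv57 (OpPair SmF SmV KerD)
open Crest.Agent.R249.Tz805 (ToF)
open Crest.Agent.R247.Ms322 (Gr)

noncomputable section

variable {M : Type v} [MetricSpace M] [CompactSpace M] [ConnectedSpace M]
  [ChartedSpace (EuclideanSpace ℝ (Fin 4)) M] [IsManifold (𝓡 4) ∞ M]
  [RiemannianBundle (fun p : M => TangentSpace (𝓡 4) p)]
  [IsContMDiffRiemannianBundle (𝓡 4) ∞ (EuclideanSpace ℝ (Fin 4))
    (fun p : M => TangentSpace (𝓡 4) p)]
  [IsRiemannianManifold (𝓡 4) M] [MeasurableSpace M] [BorelSpace M]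
  [SecondCountableTopology M] [Nonempty M]
  {κ0 κ1 κT : Type} [Fintype κ0] [Fintype κ1] [Fintype κT]

/-! ### `zv` -/

section zv

variable {S : SWS M κ0 κ1 κT} {x : M}

theorem zv_re (c : κ0 → ℝ) (y : κ0) : (zv S x c y).re = c y / √2 := by
  unfold zv
  rw [Complex.div_ofReal_re]
  simp

theorem zv_im (c : κ0 → ℝ) (y : κ0) : (zv S x c y).im = -((Jm S x *ᵥ c) y) / √2 := by
  unfold zv
  rw [Complex.div_ofReal_im]
  have : (Jm S x *ᵥ c) y = ∑ y', S.J y y' x * c y' := rfl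
  rw [this]
  simp

theorem zv_I {c : κ0 → ℝ} (hJ : Jm S x *ᵥ (Jm S x *ᵥ c) = -c) (y : κ0) :
    Complex.I * zv S x c y = zv S x (Jm S x *ᵥ c) y := by
  apply Complex.ext
  · rw [Complex.I_mul_re, zv_im, zv_re]
    ring
  · rw [Complex.I_mul_im, zv_im, zv_re, hJ]
    simp

theorem zv_sub (c d : κ0 → ℝ) (y : κ0) : zv S x c y - zv S x d y = zv S x (c - d) y := by
  apply Complex.ext
  · rw [Complex.sub_re, zv_re, zv_re, zv_re]
    simp only [Pi.sub_apply]
    ring
  · rw [Complex.sub_im, zv_im, zv_im, zv_im, Matrix.mulVec_sub]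
    simp only [Pi.sub_apply]
    ring

theorem sq_div_sqrt2 (a : ℝ) : (a / √2) ^ 2 = a ^ 2 / 2 := by
  rw [div_pow, Real.sq_sqrt (by norm_num)]

theorem single_le {c : κ0 → ℝ} (y : κ0) : c y ^ 2 ≤ ∑ y, c y ^ 2 :=
  Finset.single_le_sum (f := fun y => c y ^ 2) (fun _ _ => sq_nonneg _) (Finset.mem_univ y)

theorem zv_re_le (c : κ0 → ℝ) (y : κ0) : (zv S x c y).re ^ 2 ≤ (∑ y, c y ^ 2) / 2 := by
  rw [zv_re, sq_div_sqrt2]
  have := single_le (c := c) y
  linarith

theorem zv_im_le {c : κ0 → ℝ} (hJ : ∑ y, (Jm S x *ᵥ c) y ^ 2 = ∑ y, c y ^ 2) (y : κ0) :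
    (zv S x c y).im ^ 2 ≤ (∑ y, c y ^ 2) / 2 := by
  rw [zv_im, sq_div_sqrt2, neg_sq, ← hJ]
  have := single_le (c := Jm S x *ᵥ c) y
  linarith

theorem zv_norm {c : κ0 → ℝ} (hJ : ∑ y, (Jm S x *ᵥ c) y ^ 2 = ∑ y, c y ^ 2) :
    ∑ y, ‖zv S x c y‖ ^ 2 = ∑ y, c y ^ 2 := by
  have h1 : ∀ y, ‖zv S x c y‖ ^ 2 = c y ^ 2 / 2 + (Jm S x *ᵥ c) y ^ 2 / 2 := by
    intro y
    rw [← Complex.normSq_eq_norm_sq, Complex.normSq_apply, ← sq, ← sq, zv_re, zv_im, sq_div_sqrt2,
      sq_div_sqrt2, neg_sq]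
  simp only [h1]
  rw [Finset.sum_add_distrib, ← Finset.sum_div, ← Finset.sum_div, hJ]
  ring

end zv

section J

variable [IsFiniteMeasureOnCompacts (μHE[4] : Measure M)]
  {S : SWS M κ0 κ1 κT} {T : ToF 4 M}
    {cc : κ1 → κ0 → (z : M) → TangentSpace (𝓡 4) z}
    {W : κ0 → κ0 → (z : M) → TangentSpace (𝓡 4) z}
    {sT : κT → (z : M) → TangentSpace (𝓡 4) z} {w : Trip M} {e : Fin 3 → F2 E4 M}
    {σ ι : ℝ} {τ : TD M κT}


theorem Jnorm_of (hS : S.OK) (h : TG S T cc W sT w e σ ι) (nn : ∀ z, ∑ k, τ.n k z ^ 2 = 1) (z : M)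
    {c : κ0 → ℝ} (hc : Pm S z *ᵥ c = c) : ∑ y, (Jm S z *ᵥ c) y ^ 2 = ∑ y, c y ^ 2 := by
  have hA := al_of hS h (n := nv τ z) z (nn z)
  have h1 := hA.J_dot c (Jm S z *ᵥ c)
  rw [hA.JJG hc] at h1
  have h2 : (Jm S z *ᵥ c) ⬝ᵥ (Jm S z *ᵥ c) = ∑ y, (Jm S z *ᵥ c) y ^ 2 :=
    Finset.sum_congr rfl fun y _ => by ring
  have h3 : c ⬝ᵥ (-c) = - ∑ y, c y ^ 2 := by
    rw [← Finset.sum_neg_distrib]
    exact Finset.sum_congr rfl fun y _ => by simp only [Pi.neg_apply]; ring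
  rw [h2, h3, neg_neg] at h1
  exact h1

end J

/-! ### the size of a complex covector -/

section nC

variable {w : Trip M} {e : Fin 3 → F2 E4 M} {t : Fin 3 → ℝ} {X : Fin 3 → M → ℝ}
  {D : Crest.Agent.R240.Dat M}

theorem nC_le (hP : PWD.{v}) (hD : LimD w e t X D) (x : M) (c : E4 →L[ℝ] ℂ) {m m0 : ℝ}
    (hm0 : 0 < m0) (hm : m0 ≤ √(∑ k, X k x ^ 2)) (h1 : ∀ v, (c v).re ^ 2 ≤ m * at2 (gg e) x v v)
    (h2 : ∀ v, (c v).im ^ 2 ≤ m * at2 (gg e) x v v) : nC D x c ≤ 2 * m / m0 := by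
  obtain ⟨_, _, h3, _⟩ := hP M w e t X D hD x
  have a1 := h3 (Complex.reCLM.comp c) m h1
  have a2 := h3 (Complex.imCLM.comp c) m h2
  have b1 := n1_nonneg D x (Complex.reCLM.comp c)
  have b2 := n1_nonneg D x (Complex.imCLM.comp c)
  have c1 := mul_le_mul_of_nonneg_left hm b1
  have c2 := mul_le_mul_of_nonneg_left hm b2
  unfold nC
  rw [le_div_iff₀ hm0]
  linarith

theorem nC_nonneg (x : M) (c : E4 →L[ℝ] ℂ) : 0 ≤ nC D x c :=
  add_nonneg (n1_nonneg D x _) (n1_nonneg D x _)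

end nC

end

end Crest.Agent.R235.SwcPRB_766
end

-- ▼ part R235/SwcPRBc_766
section

/-!
Row 235 (S0364), PACKAGE SWC, NODE PROD (leader helper215), leaf PRB (helper766), part c: pointwise
estimates of `eta` and of its `(0,1)`-part.
-/

set_option autoImplicit false
set_option maxSynthPendingDepth 3
set_option linter.unusedSectionVars false

open scoped ContDiff ENNReal NNReal Topology Manifold Bundle RealInnerProductSpace Matrix
open MeasureTheory Set Filter Metric Bundle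

universe v

namespace Crest.Agent.R235.SwcPRB_766

open Crest.Agent.R240 Crest.Agent.R240.Ch Crest.Agent.R235 Crest.Agent.R235.SWDefs_53
open Crest.Agent.R235.IndTri_451 Crest.Agent.R235.Tau483 Crest.Agent.R235.SwcGlob_34
open Crest.Agent.R235.SwcProd_215
open Crest.Agent.R249.Tv57 (OpPair SmF SmV KerD)
open Crest.Agent.R249.Tz805 (ToF)
open Crest.Agent.R247.Ms322 (Gr)

noncomputable section

variable {M : Type v} [MetricSpace M] [CompactSpace M] [ConnectedSpace M]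
  [ChartedSpace (EuclideanSpace ℝ (Fin 4)) M] [IsManifold (𝓡 4) ∞ M]
  [RiemannianBundle (fun p : M => TangentSpace (𝓡 4) p)]
  [IsContMDiffRiemannianBundle (𝓡 4) ∞ (EuclideanSpace ℝ (Fin 4))
    (fun p : M => TangentSpace (𝓡 4) p)]
  [IsRiemannianManifold (𝓡 4) M] [MeasurableSpace M] [BorelSpace M]
  [SecondCountableTopology M] [Nonempty M] [IsFiniteMeasureOnCompacts (μHE[4] : Measure M)]
  {κ0 κ1 κT : Type} [Fintype κ0] [Fintype κ1] [Fintype κT]
  {S : SWS M κ0 κ1 κT} {T : ToF 4 M}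
  {cc : κ1 → κ0 → (z : M) → TangentSpace (𝓡 4) z}
  {W : κ0 → κ0 → (z : M) → TangentSpace (𝓡 4) z}
  {sT : κT → (z : M) → TangentSpace (𝓡 4) z} {w : Trip M} {e : Fin 3 → F2 E4 M}
  {ι : ℝ} {τ : TD M κT} {a0 : Z2 M} {β : F1 E4 M} {K : ℝ}

theorem eta_eq (lnk : Lnk S T cc sT w e τ a0 β K) {a : κT → M → ℝ} {s : κ0 → M → ℝ}
    (ha : SmV (n := 4) a) (hsa : S.DT.Sec a) (hs : SmV (n := 4) s) (hE : τ.SecE S s) {N : ℕ}
    (ν : Fin N ≃ κ0) (R : ℝ) (x : M) (i : Fin N) (v : E4) :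
    cov (fun x => (PE τ S x).submatrix ν ν) (thE sT e β a)
      (fun x i => zet S s x (ν i) / ((R : ℝ) : ℂ)) x i v =
      zv S x (gE τ S T a s x v) (ν i) / ((R : ℝ) : ℂ) := by
  have h1 := lnk.con a s ha hsa hs hE x v (ν i)
  have h2 : ∀ j, (dal (fun x i => zet S s x (ν i) / ((R : ℝ) : ℂ)) x j) v =
      fderiv ℝ (fun q : E4 => zet S s ((chartAt E4 x).symm q) (ν j)) (chartAt E4 x x) v /
        ((R : ℝ) : ℂ) := by
    intro j
    have h3 : (fun y : E4 => zet S s ((chartAt E4 x).symm y) (ν j) / ((R : ℝ) : ℂ)) =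
        (((R : ℝ) : ℂ)⁻¹) • (fun y : E4 => zet S s ((chartAt E4 x).symm y) (ν j)) := by
      funext y
      rw [Pi.smul_apply, smul_eq_mul, div_eq_inv_mul]
    unfold dal
    rw [h3, fderiv_const_smul_field, Pi.smul_apply, _root_.smul_apply, smul_eq_mul,
      div_eq_inv_mul]
  have h4 : (∑ j, (PE τ S x).submatrix ν ν i j •
      dal (fun x i => zet S s x (ν i) / ((R : ℝ) : ℂ)) x j) v =
      (∑ y', PE τ S x (ν i) y' * fderiv ℝ (fun q : E4 => zet S s ((chartAt E4 x).symm q) y')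
        (chartAt E4 x x) v) / ((R : ℝ) : ℂ) := by
    rw [_root_.sum_apply, Finset.sum_div, ← Equiv.sum_comp ν]
    refine Finset.sum_congr rfl fun j _ => ?_
    rw [_root_.smul_apply, h2 j, smul_eq_mul, Matrix.submatrix_apply, mul_div_assoc]
  unfold cov
  rw [_root_.sub_apply, h4, ContinuousLinearMap.smulRight_apply, Complex.real_smul]
  have h5 : zv S x (gE τ S T a s x v) (ν i) =
      zv S x (fun y => inner ℝ (τ.nE S a s y x) (T.toF x v)) (ν i) := rfl
  rw [h5, ← h1]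
  ring

theorem toF_sq (h : TG S T cc W sT w e (-1) ι) (x : M) (v : TangentSpace (𝓡 4) x) :
    ‖T.toF x v‖ ^ 2 = at2 (gg e) x v v := by
  rw [← real_inner_self_eq_norm_sq, T.inner_toF, h.met]

theorem gE_le (h : TG S T cc W sT w e (-1) ι) (a : κT → M → ℝ) (s : κ0 → M → ℝ) (x : M)
    (v : TangentSpace (𝓡 4) x) :
    ∑ y, gE τ S T a s x v y ^ 2 ≤ (∑ y, ‖τ.nE S a s y x‖ ^ 2) * at2 (gg e) x v v := by
  rw [Finset.sum_mul]
  refine Finset.sum_le_sum fun y _ => ?_
  rw [← toF_sq h x v, ← mul_pow]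
  exact sq_le_sq.2 ((abs_real_inner_le_norm _ _).trans (le_abs_self _))

theorem pt_bound (hS : S.OK) (h : TG S T cc W sT w e (-1) ι) (nn : ∀ z, ∑ k, τ.n k z ^ 2 = 1)
    {x : M} {c : κ0 → ℝ} (hc : Pm S x *ᵥ c = c) (R : ℝ) (y : κ0) {B : ℝ}
    (hB : ∑ y, c y ^ 2 ≤ B) :
    (zv S x c y / ((R : ℝ) : ℂ)).re ^ 2 ≤ B / (2 * R ^ 2) ∧
      (zv S x c y / ((R : ℝ) : ℂ)).im ^ 2 ≤ B / (2 * R ^ 2) := by
  have h0 : 0 ≤ R ^ 2 := sq_nonneg R
  have e1 : B / (2 * R ^ 2) = B / 2 / R ^ 2 := by rw [div_div]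
  rw [Complex.div_ofReal_re, Complex.div_ofReal_im, div_pow, div_pow, e1]
  have h1 := zv_re_le (S := S) (x := x) c y
  have h2 := zv_im_le (S := S) (x := x) (Jnorm_of hS h nn x hc) y
  exact ⟨div_le_div_of_nonneg_right (h1.trans (by linarith)) h0,
    div_le_div_of_nonneg_right (h2.trans (by linarith)) h0⟩

/-- the tangent vectors `η_y`. -/
def ηT (τ : TD M κT) (S : SWS M κ0 κ1 κT) (T : ToF 4 M) (e : Fin 3 → F2 E4 M) (a : κT → M → ℝ)
    (s : κ0 → M → ℝ) (x : M) (y : κ0) : TangentSpace (𝓡 4) x :=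
  ∑ i, gE τ S T a s x (vf e x i) y • vf e x i

theorem inner_ηT (h : TG S T cc W sT w e (-1) ι) (a : κT → M → ℝ) (s : κ0 → M → ℝ) (x : M)
    (y : κ0) (v : TangentSpace (𝓡 4) x) :
    inner ℝ (ηT τ S T e a s x y) v = gE τ S T a s x v y := by
  unfold ηT
  rw [sum_inner]
  have h1 : gE τ S T a s x v y = ∑ i, gE τ S T a s x (vf e x i) y * (inner ℝ v (vf e x i) : ℝ) :=
    inner_toF_sum h.tri h.met T x _ v
  rw [h1]
  refine Finset.sum_congr rfl fun i _ => ?_
  rw [real_inner_smul_left, real_inner_comm]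

theorem pi0_ηT (hS : S.OK) (h : TG S T cc W sT w e (-1) ι) (nn : ∀ z, ∑ k, τ.n k z ^ 2 = 1)
    (a : κT → M → ℝ) {s : κ0 → M → ℝ} (hE : τ.SecE S s) (x : M) (y : κ0) :
    ∑ y', pi0 τ S y y' x • ηT τ S T e a s x y' = ηT τ S T e a s x y := by
  have hA := al_of hS h (n := nv τ x) x (nn x)
  unfold ηT
  simp only [Finset.smul_sum, smul_smul]
  rw [Finset.sum_comm]
  refine Finset.sum_congr rfl fun i _ => ?_
  rw [← Finset.sum_smul]
  congr 1
  have h1 := congrFun ((hA.inE_iff _).1 (inE_gE hS h nn a hE x (vf e x i))) y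
  have h2 : (P0 (Pm S x) (Rm S x) (nv τ x) *ᵥ gE τ S T a s x (vf e x i)) y =
      ∑ y', P0f τ S x y y' * gE τ S T a s x (vf e x i) y' := rfl
  rw [h2] at h1
  rw [← h1]
  refine Finset.sum_congr rfl fun y' _ => ?_
  rw [P0f_apply]
  rfl

theorem gE_neg (a : κT → M → ℝ) (s : κ0 → M → ℝ) (x : M) (v : TangentSpace (𝓡 4) x) (y : κ0) :
    gE τ S T a s x (-v) y = - gE τ S T a s x v y := by
  unfold gE
  rw [map_neg, inner_neg_right]

theorem gE_add (a : κT → M → ℝ) (s : κ0 → M → ℝ) (x : M) (v v' : TangentSpace (𝓡 4) x) (y : κ0) :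
    gE τ S T a s x (v + v') y = gE τ S T a s x v y + gE τ S T a s x v' y := by
  unfold gE
  rw [map_add, inner_add_right]

theorem dbar_aux (hS : S.OK) (h : TG S T cc W sT w e (-1) ι) (nn : ∀ z, ∑ k, τ.n k z ^ 2 = 1)
    (lnk : Lnk S T cc sT w e τ a0 β K) (a : κT → M → ℝ) {s : κ0 → M → ℝ} (hE : τ.SecE S s)
    (x : M) (v v' : TangentSpace (𝓡 4) x) (e1 : (Jn τ e x v' : TangentSpace (𝓡 4) x) = -v)
    (e2 : (inner ℝ v' v' : ℝ) = inner ℝ v v) :
    ∑ y, (gE τ S T a s x v' y - (Jm S x *ᵥ gE τ S T a s x v) y) ^ 2 ≤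
      |K| * inner ℝ v v * ∑ x', clG T cc x (fun y => τ.nE S a s y x) x' ^ 2 := by
  have h1 := lnk.dbar x (ηT τ S T e a s x) (pi0_ηT hS h nn a hE x) v'
  have e3 : ∀ y, (inner ℝ (ηT τ S T e a s x y) v' +
      ∑ y', S.J y y' x * inner ℝ (ηT τ S T e a s x y')
        (Jn τ e x v' : TangentSpace (𝓡 4) x) : ℝ) =
      gE τ S T a s x v' y - (Jm S x *ᵥ gE τ S T a s x v) y := by
    intro y
    rw [inner_ηT h, e1]
    simp only [inner_ηT h, gE_neg]
    have e5 : (Jm S x *ᵥ gE τ S T a s x v) y = ∑ y', S.J y y' x * gE τ S T a s x v y' := rfl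
    rw [e5, sub_eq_add_neg, ← Finset.sum_neg_distrib]
    congr 1
    exact Finset.sum_congr rfl fun y' _ => by ring
  have e6 : ∀ x', (∑ y, (inner ℝ (ηT τ S T e a s x y) (cc x' y x) : ℝ)) =
      clG T cc x (fun y => τ.nE S a s y x) x' := by
    intro x'
    unfold clG
    exact Finset.sum_congr rfl fun y _ => inner_ηT h a s x y _
  simp only [e3] at h1
  simp only [e6] at h1
  rw [e2] at h1
  refine h1.trans ?_
  exact mul_le_mul_of_nonneg_right (mul_le_mul_of_nonneg_right (le_abs_self K)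
    real_inner_self_nonneg) (Finset.sum_nonneg fun _ _ => sq_nonneg _)

theorem JX_sq1 (h : IsTri (fun i => ((w i).1.1 : F2 E4 M)) e) {m : Fin 3 → ℝ}
    (hm : m 0 ^ 2 + m 1 ^ 2 + m 2 ^ 2 = 1) (x : M) (v : E4) : JX e m x (JX e m x v) = -v := by
  rw [JX_sq h, hm, one_smul]

theorem g_JX1 (h : IsTri (fun i => ((w i).1.1 : F2 E4 M)) e) {m : Fin 3 → ℝ}
    (hm : m 0 ^ 2 + m 1 ^ 2 + m 2 ^ 2 = 1) (x : M) (v : E4) :
    at2 (gg e) x (JX e m x v) (JX e m x v) = at2 (gg e) x v v := by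
  rw [g_JX h, hm, one_mul]

theorem dbar_pt (hS : S.OK) (h : TG S T cc W sT w e (-1) ι) (nn : ∀ z, ∑ k, τ.n k z ^ 2 = 1)
    (lnk : Lnk S T cc sT w e τ a0 β K) (a : κT → M → ℝ) {s : κ0 → M → ℝ} (hE : τ.SecE S s)
    (x : M) (v : TangentSpace (𝓡 4) x) :
    ∑ y, (gE τ S T a s x (JX e (fun k => τ.n k x) x v : E4) y -
        (Jm S x *ᵥ gE τ S T a s x v) y) ^ 2 ≤
      |K| * inner ℝ v v * ∑ x', clG T cc x (fun y => τ.nE S a s y x) x' ^ 2 := by
  have hn : (τ.n 0 x) ^ 2 + (τ.n 1 x) ^ 2 + (τ.n 2 x) ^ 2 = 1 := by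
    have := nn x
    rwa [Fin.sum_univ_three] at this
  refine dbar_aux hS h nn lnk a hE x v (JX e (fun k => τ.n k x) x v : E4) ?_ ?_
  · exact JX_sq1 h.tri (m := fun k => τ.n k x) hn x v
  · exact (h.met x _ _).trans ((g_JX1 h.tri (m := fun k => τ.n k x) hn x v).trans
      (h.met x _ _).symm)

end

end Crest.Agent.R235.SwcPRB_766
end

-- ▼ part R235/SwcPRBd_766
section

/-!
Row 235 (S0364), PACKAGE SWC, NODE PROD (leader helper215), leaf PRB (helper766), part d: pointwise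
bounds of `neta` and `ndb`.
-/

set_option autoImplicit false
set_option maxSynthPendingDepth 3
set_option linter.unusedSectionVars false

open scoped ContDiff ENNReal NNReal Topology Manifold Bundle RealInnerProductSpace Matrix
open MeasureTheory Set Filter Metric Bundle

universe v

namespace Crest.Agent.R235.SwcPRB_766

open Crest.Agent.R240 Crest.Agent.R240.Ch Crest.Agent.R235 Crest.Agent.R235.SWDefs_53
open Crest.Agent.R235.IndTri_451 Crest.Agent.R235.Tau483 Crest.Agent.R235.SwcGlob_34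
open Crest.Agent.R235.SwcProd_215
open Crest.Agent.R249.Tv57 (OpPair SmF SmV KerD)
open Crest.Agent.R249.Tz805 (ToF)
open Crest.Agent.R247.Ms322 (Gr)

noncomputable section

variable {M : Type v} [MetricSpace M] [CompactSpace M] [ConnectedSpace M]
  [ChartedSpace (EuclideanSpace ℝ (Fin 4)) M] [IsManifold (𝓡 4) ∞ M]
  [RiemannianBundle (fun p : M => TangentSpace (𝓡 4) p)]
  [IsContMDiffRiemannianBundle (𝓡 4) ∞ (EuclideanSpace ℝ (Fin 4))
    (fun p : M => TangentSpace (𝓡 4) p)]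
  [IsRiemannianManifold (𝓡 4) M] [MeasurableSpace M] [BorelSpace M]
  [SecondCountableTopology M] [Nonempty M] [IsFiniteMeasureOnCompacts (μHE[4] : Measure M)]
  {κ0 κ1 κT : Type} [Fintype κ0] [Fintype κ1] [Fintype κT]
  {S : SWS M κ0 κ1 κT} {T : ToF 4 M}
  {cc : κ1 → κ0 → (z : M) → TangentSpace (𝓡 4) z}
  {W : κ0 → κ0 → (z : M) → TangentSpace (𝓡 4) z}
  {sT : κT → (z : M) → TangentSpace (𝓡 4) z} {w : Trip M} {e : Fin 3 → F2 E4 M}
  {ι : ℝ} {τ : TD M κT} {a0 : Z2 M} {β : F1 E4 M} {K : ℝ}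
  {t : Fin 3 → ℝ} {X : Fin 3 → M → ℝ} {D : Crest.Agent.R240.Dat M}

/-- the covariant derivative of the normalised complex section. -/
def ev (τ : TD M κT) (S : SWS M κ0 κ1 κT) (sT : κT → (z : M) → TangentSpace (𝓡 4) z)
    (e : Fin 3 → F2 E4 M) (β : F1 E4 M) (a : κT → M → ℝ) (s : κ0 → M → ℝ) {N : ℕ}
    (ν : Fin N ≃ κ0) (R : ℝ) (x : M) (i : Fin N) : E4 →L[ℝ] ℂ :=
  cov (fun x => (PE τ S x).submatrix ν ν) (thE sT e β a)
      (fun x i => zet S s x (ν i) / ((R : ℝ) : ℂ)) x i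

theorem neta_pt (hP : PWD.{v}) (hD : LimD w e t X D) (hS : S.OK)
    (h : TG S T cc W sT w e (-1) ι) (nn : ∀ z, ∑ k, τ.n k z ^ 2 = 1)
    (lnk : Lnk S T cc sT w e τ a0 β K) {a : κT → M → ℝ} {s : κ0 → M → ℝ}
    (ha : SmV (n := 4) a) (hsa : S.DT.Sec a) (hs : SmV (n := 4) s) (hE : τ.SecE S s) {N : ℕ}
    (ν : Fin N ≃ κ0) (R : ℝ) (x : M) {m0 : ℝ} (hm0 : 0 < m0) (hm : m0 ≤ √(∑ k, X k x ^ 2)) :
    ∑ i, nC D x (ev τ S sT e β a s ν R x i) ≤
      N * (2 * ((∑ y, ‖τ.nE S a s y x‖ ^ 2) / (2 * R ^ 2)) / m0) := by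
  have h1 : ∀ i ∈ (Finset.univ : Finset (Fin N)), nC D x (ev τ S sT e β a s ν R x i) ≤
      2 * ((∑ y, ‖τ.nE S a s y x‖ ^ 2) / (2 * R ^ 2)) / m0 := by
    intro i _
    have h2 : ∀ v : E4, (ev τ S sT e β a s ν R x i v).re ^ 2 ≤
        (∑ y, ‖τ.nE S a s y x‖ ^ 2) / (2 * R ^ 2) * at2 (gg e) x v v ∧
        (ev τ S sT e β a s ν R x i v).im ^ 2 ≤
        (∑ y, ‖τ.nE S a s y x‖ ^ 2) / (2 * R ^ 2) * at2 (gg e) x v v := by
      intro v
      have h3 := pt_bound hS h nn (inE_gE hS h nn a hE x v).1 R (ν i) (gE_le h a s x v)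
      have h4 := eta_eq lnk ha hsa hs hE ν R x i v
      unfold ev
      rw [h4, div_mul_eq_mul_div]
      exact h3
    exact nC_le hP hD x _ hm0 hm (fun v => (h2 v).1) (fun v => (h2 v).2)
  refine (Finset.sum_le_sum h1).trans ?_
  rw [Finset.sum_const, Finset.card_univ, Fintype.card_fin, nsmul_eq_mul]

/-- the vector `(0,1)`-part of `gE`. -/
theorem d_le (hS : S.OK) (h : TG S T cc W sT w e (-1) ι) (nn : ∀ z, ∑ k, τ.n k z ^ 2 = 1)
    (lnk : Lnk S T cc sT w e τ a0 β K) (a : κT → M → ℝ) {s : κ0 → M → ℝ} (hE : τ.SecE S s)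
    (x : M) (v v' : TangentSpace (𝓡 4) x) (m : Fin 3 → ℝ) {δ : ℝ}
    (hm : m 0 ^ 2 + m 1 ^ 2 + m 2 ^ 2 ≤ δ)
    (hv : v' = (JX e (fun k => τ.n k x) x v : E4) + (JX e m x v : E4)) :
    ∑ y, (gE τ S T a s x v' y - (Jm S x *ᵥ gE τ S T a s x v) y) ^ 2 ≤
      (2 * |K| * (∑ x', clG T cc x (fun y => τ.nE S a s y x) x' ^ 2) +
        2 * δ * ∑ y, ‖τ.nE S a s y x‖ ^ 2) * at2 (gg e) x v v := by
  have h1 := dbar_pt hS h nn lnk a hE x v
  have h2 := gE_le (τ := τ) (S := S) h a s x (JX e m x v : E4)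
  have h3 : at2 (gg e) x (JX e m x v : E4) (JX e m x v : E4) =
      (m 0 ^ 2 + m 1 ^ 2 + m 2 ^ 2) * at2 (gg e) x v v := g_JX h.tri m x v
  rw [h.met] at h1
  have hg : 0 ≤ at2 (gg e) x v v := by
    rw [← toF_sq h x v]
    exact sq_nonneg _
  have hG : 0 ≤ ∑ y, ‖τ.nE S a s y x‖ ^ 2 := Finset.sum_nonneg fun _ _ => sq_nonneg _
  have h4 : ∀ y, gE τ S T a s x v' y = gE τ S T a s x (JX e (fun k => τ.n k x) x v : E4) y +
      gE τ S T a s x (JX e m x v : E4) y := by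
    intro y
    rw [hv]
    exact gE_add a s x _ _ y
  have h5 : ∑ y, (gE τ S T a s x v' y - (Jm S x *ᵥ gE τ S T a s x v) y) ^ 2 ≤
      2 * ∑ y, (gE τ S T a s x (JX e (fun k => τ.n k x) x v : E4) y -
        (Jm S x *ᵥ gE τ S T a s x v) y) ^ 2 + 2 * ∑ y, gE τ S T a s x (JX e m x v : E4) y ^ 2 := by
    rw [Finset.mul_sum, Finset.mul_sum, ← Finset.sum_add_distrib]
    refine Finset.sum_le_sum fun y _ => ?_
    rw [h4]
    nlinarith [sq_nonneg ((gE τ S T a s x (JX e (fun k => τ.n k x) x v : E4) y -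
        (Jm S x *ᵥ gE τ S T a s x v) y) - gE τ S T a s x (JX e m x v : E4) y)]
  have h6 : ∑ y, gE τ S T a s x (JX e m x v : E4) y ^ 2 ≤
      (∑ y, ‖τ.nE S a s y x‖ ^ 2) * (δ * at2 (gg e) x v v) := by
    refine h2.trans (mul_le_mul_of_nonneg_left ?_ hG)
    exact h3.le.trans (mul_le_mul_of_nonneg_right hm hg)
  calc _ ≤ _ := h5
    _ ≤ 2 * (|K| * at2 (gg e) x v v * ∑ x', clG T cc x (fun y => τ.nE S a s y x) x' ^ 2) +
        2 * ((∑ y, ‖τ.nE S a s y x‖ ^ 2) * (δ * at2 (gg e) x v v)) := by linarith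
    _ = _ := by ring

theorem ndb_pt (hP : PWD.{v}) (hD : LimD w e t X D) (hS : S.OK)
    (h : TG S T cc W sT w e (-1) ι) (nn : ∀ z, ∑ k, τ.n k z ^ 2 = 1)
    (lnk : Lnk S T cc sT w e τ a0 β K) {a : κT → M → ℝ} {s : κ0 → M → ℝ}
    (ha : SmV (n := 4) a) (hsa : S.DT.Sec a) (hs : SmV (n := 4) s) (hE : τ.SecE S s) {N : ℕ}
    (ν : Fin N ≃ κ0) (R : ℝ) (x : M) {m0 δ : ℝ} (hm0 : 0 < m0) (hm : m0 ≤ √(∑ k, X k x ^ 2))
    (hδ : ∑ k, (X k x / √(∑ k, X k x ^ 2) - τ.n k x) ^ 2 ≤ δ) :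
    ∑ i, nC D x ((ev τ S sT e β a s ν R x i).comp (atJ D.J x) -
        Complex.I • ev τ S sT e β a s ν R x i) ≤
      N * (2 * ((2 * |K| * (∑ x', clG T cc x (fun y => τ.nE S a s y x) x' ^ 2) +
        2 * δ * ∑ y, ‖τ.nE S a s y x‖ ^ 2) / (2 * R ^ 2)) / m0) := by
  set B := 2 * |K| * (∑ x', clG T cc x (fun y => τ.nE S a s y x) x' ^ 2) +
        2 * δ * ∑ y, ‖τ.nE S a s y x‖ ^ 2 with hB
  have hρ : 0 < √(∑ k, X k x ^ 2) := hm0.trans_le hm
  have hJ : ∀ v : E4, atJ D.J x v = JX e (fun k => τ.n k x) x v +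
      JX e (fun k => X k x / √(∑ k, X k x ^ 2) - τ.n k x) x v := by
    intro v
    have h1 := (hP M w e t X D hD x).2.2.2 v
    have h2 : atJ D.J x v = (√(∑ k, X k x ^ 2))⁻¹ • ∑ k, X k x • atJ (II e k) x v := by
      rw [← h1, smul_smul, inv_mul_cancel₀ hρ.ne', one_smul]
    rw [h2, JX_apply, JX_apply, Fin.sum_univ_three (fun k => X k x • atJ (II e k) x v)]
    simp only [div_eq_inv_mul]
    generalize (√(∑ k, X k x ^ 2))⁻¹ = ρ
    module
  have h1 : ∀ i ∈ (Finset.univ : Finset (Fin N)),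
      nC D x ((ev τ S sT e β a s ν R x i).comp (atJ D.J x) -
        Complex.I • ev τ S sT e β a s ν R x i) ≤ 2 * (B / (2 * R ^ 2)) / m0 := by
    intro i _
    have h2 : ∀ v : E4, (((ev τ S sT e β a s ν R x i).comp (atJ D.J x) -
        Complex.I • ev τ S sT e β a s ν R x i) v).re ^ 2 ≤
        B / (2 * R ^ 2) * at2 (gg e) x v v ∧
        (((ev τ S sT e β a s ν R x i).comp (atJ D.J x) -
        Complex.I • ev τ S sT e β a s ν R x i) v).im ^ 2 ≤
        B / (2 * R ^ 2) * at2 (gg e) x v v := by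
      intro v
      have hE1 := inE_gE hS h nn a hE x v
      have hE2 := inE_gE hS h nn a hE x (atJ D.J x v : E4)
      have hA := al_of hS h (n := nv τ x) x (nn x)
      have hd : Pm S x *ᵥ (gE τ S T a s x (atJ D.J x v : E4) - Jm S x *ᵥ gE τ S T a s x v) =
          gE τ S T a s x (atJ D.J x v : E4) - Jm S x *ᵥ gE τ S T a s x v := by
        rw [Matrix.mulVec_sub, hE2.1, (hA.inE_J hE1).1]
      have hδ' := hδ
      rw [Fin.sum_univ_three (fun k => (X k x / √(∑ k, X k x ^ 2) - τ.n k x) ^ 2)] at hδ'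
      have hle := d_le (δ := δ) hS h nn lnk a hE x v (atJ D.J x v : E4)
        (fun k => X k x / √(∑ k, X k x ^ 2) - τ.n k x) hδ' (hJ v)
      have h3 := pt_bound hS h nn hd R (ν i) (B := B * at2 (gg e) x v v) hle
      have h4 : ((ev τ S sT e β a s ν R x i).comp (atJ D.J x) -
          Complex.I • ev τ S sT e β a s ν R x i) v =
          zv S x (gE τ S T a s x (atJ D.J x v : E4) - Jm S x *ᵥ gE τ S T a s x v) (ν i) /
            ((R : ℝ) : ℂ) := by
        rw [_root_.sub_apply, _root_.smul_apply, ContinuousLinearMap.comp_apply, smul_eq_mul]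
        unfold ev
        rw [eta_eq lnk ha hsa hs hE ν R x i v, eta_eq lnk ha hsa hs hE ν R x i (atJ D.J x v),
          ← zv_sub, sub_div, ← zv_I (hA.JJG hE1.1)]
        ring
      rw [h4, div_mul_eq_mul_div]
      exact h3
    exact nC_le hP hD x _ hm0 hm (fun v => (h2 v).1) (fun v => (h2 v).2)
  refine (Finset.sum_le_sum h1).trans ?_
  rw [Finset.sum_const, Finset.card_univ, Fintype.card_fin, nsmul_eq_mul]

end

end Crest.Agent.R235.SwcPRB_766
end

-- ▼ part R235/SwcPRB_766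

/-!
Row 235 (S0364), PACKAGE SWC, NODE PROD (leader helper215), leaf PRB (helper766): `e1`, `e2`, `o3`.

`prb : PWD → VOLD → PRB`.
-/

set_option autoImplicit false
set_option maxSynthPendingDepth 3
set_option linter.unusedSectionVars false

open scoped ContDiff ENNReal NNReal Topology Manifold Bundle RealInnerProductSpace Matrix
open MeasureTheory Set Filter Metric Bundle

universe v

namespace Crest.Agent.R235.SwcPRB_766

open Crest.Agent.R240 Crest.Agent.R240.Ch Crest.Agent.R235 Crest.Agent.R235.SWDefs_53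
open Crest.Agent.R235.IndTri_451 Crest.Agent.R235.Tau483 Crest.Agent.R235.SwcGlob_34
open Crest.Agent.R235.SwcProd_215
open Crest.Agent.R249.Tv57 (OpPair SmF SmV KerD)
open Crest.Agent.R249.Tz805 (ToF)
open Crest.Agent.R247.Ms322 (Gr)

noncomputable section

variable {M : Type v} [MetricSpace M] [CompactSpace M] [ConnectedSpace M]
  [ChartedSpace (EuclideanSpace ℝ (Fin 4)) M] [IsManifold (𝓡 4) ∞ M]
  [RiemannianBundle (fun p : M => TangentSpace (𝓡 4) p)]
  [IsContMDiffRiemannianBundle (𝓡 4) ∞ (EuclideanSpace ℝ (Fin 4))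
    (fun p : M => TangentSpace (𝓡 4) p)]
  [IsRiemannianManifold (𝓡 4) M] [MeasurableSpace M] [BorelSpace M]
  [SecondCountableTopology M] [Nonempty M] [IsFiniteMeasureOnCompacts (μHE[4] : Measure M)]

/-! ### integrals against `D.μ` -/

theorem intg {f : M → ℝ} (hf : Continuous f) : Integrable f (μHE[4] : Measure M) :=
  hf.integrable_of_hasCompactSupport (HasCompactSupport.of_compactSpace _)

theorem intD (D : Crest.Agent.R240.Dat M) {f : M → ℝ} (hf : Continuous f) :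
    Integrable f D.μ := by
  have := D.fin
  exact hf.integrable_of_hasCompactSupport (HasCompactSupport.of_compactSpace _)

theorem int_le (hV : VOLD.{v}) {w : Trip M} {e : Fin 3 → F2 E4 M} {t : Fin 3 → ℝ}
    {X : Fin 3 → M → ℝ} {D : Crest.Agent.R240.Dat M} (hD : LimD w e t X D)
    (met : ∀ (x : M) (u v : TangentSpace (𝓡 4) x), inner ℝ u v = at2 (gg e) x u v)
    {f g : M → ℝ} (hf : ∀ x, 0 ≤ f x) (hfg : ∀ x, f x ≤ g x) (hg : Continuous g) {m1 : ℝ}
    (hm1 : ∀ x, √(∑ k, X k x ^ 2) ≤ m1) :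
    ∫ x, f x ∂D.μ ≤ 2 * m1 ^ 2 * ∫ x, g x ∂(μHE[4] : Measure M) := by
  have h1 : ∫ x, f x ∂D.μ ≤ ∫ x, g x ∂D.μ :=
    integral_mono_of_nonneg (Eventually.of_forall hf) (intD D hg) (Eventually.of_forall hfg)
  rw [hV M w e t X D hD met g hg] at h1
  refine h1.trans ?_
  rw [← integral_const_mul]
  have hg0 : ∀ x, 0 ≤ g x := fun x => (hf x).trans (hfg x)
  have hX : ∀ x, 0 ≤ ∑ k, X k x ^ 2 := fun x => Finset.sum_nonneg fun _ _ => sq_nonneg _
  refine integral_mono_of_nonneg (Eventually.of_forall fun x => ?_)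
    ((intg hg).const_mul (2 * m1 ^ 2)) (Eventually.of_forall fun x => ?_)
  · exact mul_nonneg (mul_nonneg zero_le_two (hX x)) (hg0 x)
  · refine mul_le_mul_of_nonneg_right ?_ (hg0 x)
    have h2 : ∑ k, X k x ^ 2 ≤ m1 ^ 2 := by
      have h3 := Real.sq_sqrt (hX x)
      have h4 := hm1 x
      have h5 := Real.sqrt_nonneg (∑ k, X k x ^ 2)
      rw [← h3]
      exact pow_le_pow_left₀ h5 h4 2
    linarith

variable {κ0 κ1 κT : Type} [Fintype κ0] [Fintype κ1] [Fintype κT]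

/-- the Dirac density. -/
def Fd (τ : TD M κT) (S : SWS M κ0 κ1 κT) (a : κT → M → ℝ) (s : κ0 → M → ℝ) (z : M) : ℝ :=
  ∑ x, (S.P.A (τ.sc (3 / 4) s) x z + S.cm a (τ.sc (3 / 4) s) x z) ^ 2

/-- the energy density. -/
def Gd (τ : TD M κT) (S : SWS M κ0 κ1 κT) (a : κT → M → ℝ) (s : κ0 → M → ℝ) (z : M) : ℝ :=
  ∑ y, ‖τ.nE S a s y z‖ ^ 2

theorem cont_Gd {τ : TD M κT} {S : SWS M κ0 κ1 κT} {C : ℝ} (hS : S.OK) (hτ : τ.OK S C)
    {a : κT → M → ℝ} (ha : SmV (n := 4) a) {s : κ0 → M → ℝ} (hs : SmV (n := 4) s) :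
    Continuous (Gd τ S a s) := by
  unfold Gd
  refine continuous_finsetSum _ fun y _ => ?_
  have h1 := Crest.Agent.R249.Tv57.SmF.inner (SWUni_312.smF_nE hS hτ ha hs y)
    (SWUni_312.smF_nE hS hτ ha hs y)
  simp only [real_inner_self_eq_norm_sq] at h1
  exact h1.continuous

theorem sm_sc {τ : TD M κT} {S : SWS M κ0 κ1 κT} {C : ℝ} (hτ : τ.OK S C)
    {s : κ0 → M → ℝ} (hs : SmV (n := 4) s) : SmV (n := 4) (τ.sc (3 / 4) s) := fun y =>
  Tau483.sm_mul (SwcPRE_129.sm_rpow hτ.smrr hτ.pos _) (hs y)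

theorem sec_sc {τ : TD M κT} {S : SWS M κ0 κ1 κT} {s : κ0 → M → ℝ} (hs : S.D0.Sec s) :
    S.D0.Sec (τ.sc (3 / 4) s) := by
  intro y z
  have h := hs y z
  show ∑ y', S.D0.p y y' z * (τ.rr z ^ (3 / 4 : ℝ) * s y' z) = τ.rr z ^ (3 / 4 : ℝ) * s y z
  rw [← h, Finset.mul_sum]
  exact Finset.sum_congr rfl fun y' _ => by ring

theorem cont_Fd {τ : TD M κT} {S : SWS M κ0 κ1 κT} {C : ℝ} (hS : S.OK) (hτ : τ.OK S C)
    {a : κT → M → ℝ} (ha : SmV (n := 4) a) {s : κ0 → M → ℝ} (hs : SmV (n := 4) s)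
    (hE : S.D0.Sec s) : Continuous (Fd τ S a s) := by
  unfold Fd
  refine continuous_finsetSum _ fun x _ => Continuous.pow (Continuous.add ?_ ?_) 2
  · exact (S.P.smA _ (sm_sc hτ hs) (sec_sc hE) x).continuous
  · unfold SWS.cm
    refine continuous_finsetSum _ fun A _ => continuous_finsetSum _ fun y _ => ?_
    exact (((ha A).continuous).mul ((sm_sc hτ hs) y).continuous).mul (hS.smcl A x y).continuous

theorem cl_le {τ : TD M κT} {S : SWS M κ0 κ1 κT} {C : ℝ} (hτ : τ.OK S C) {T : ToF 4 M}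
    {cc : κ1 → κ0 → (z : M) → TangentSpace (𝓡 4) z} {Z : κ1 → κ0 → M → ℝ}
    (te : TE τ S T cc Z) {a : κT → M → ℝ} (ha : SmV (n := 4) a) (hsa : S.DT.Sec a)
    {s : κ0 → M → ℝ} (hs : SmV (n := 4) s) (hE : τ.SecE S s) {m0 : ℝ} (hm0 : 0 < m0)
    (hm : ∀ z, m0 ≤ τ.rr z) (z : M) :
    ∑ x', clG T cc z (fun y => τ.nE S a s y z) x' ^ 2 ≤
      ((m0 ^ (3 / 4 : ℝ)) ^ 2)⁻¹ * Fd τ S a s z := by
  have hc : 0 < m0 ^ (3 / 4 : ℝ) := Real.rpow_pos_of_pos hm0 _
  rw [inv_mul_eq_div, le_div_iff₀ (by positivity)]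
  unfold Fd
  rw [Finset.sum_mul]
  refine Finset.sum_le_sum fun x' _ => ?_
  have h1 := te.dir a s ha hsa hs hE x' z
  have h2 : S.P.A (τ.sc (3 / 4) s) x' z + S.cm a (τ.sc (3 / 4) s) x' z =
      τ.rr z ^ (3 / 4 : ℝ) * clG T cc z (fun y => τ.nE S a s y z) x' := h1
  rw [h2, mul_pow, mul_comm]
  refine mul_le_mul_of_nonneg_right ?_ (sq_nonneg _)
  exact pow_le_pow_left₀ hc.le (Real.rpow_le_rpow hm0.le (hm z) (by norm_num)) 2

section ctx

variable {V : Vars M κ0 κ1 κT} {U : Filter ℕ}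

/-- the section `ρ^{-3/4} Π₀ u_n`. -/
def sn (V : Vars M κ0 κ1 κT) (n : ℕ) : κ0 → M → ℝ := cE (V.τ (V.t n)) V.S (V.u n)

theorem sm_sn (h : Ctx V U) (n : ℕ) : SmV (n := 4) (sn V n) :=
  SwcPRE_129.sm_cE h.data.ok (h.data.tau _ (h.seq.nt n)) (h.seq.smu n)

theorem sec_sn (h : Ctx V U) (n : ℕ) : (V.τ (V.t n)).SecE V.S (sn V n) :=
  SwcPRE_129.secE_cE h.data.ok h.data.tg (h.data.tau _ (h.seq.nt n)) (h.seq.secu n)


theorem r_pos (h : Ctx V U) (n : ℕ) : 0 < V.r n := by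
  have h1 := h.seq.rge n
  have h2 : (0 : ℝ) < (n : ℝ) + 1 := by positivity
  exact h2.trans_le h1

theorem R_sq (h : Ctx V U) (n : ℕ) : (√(2 * V.r n)) ^ 2 = 2 * V.r n :=
  Real.sq_sqrt (by have := r_pos h n; positivity)

theorem nal_eq (h : Ctx V U) (n : ℕ) (x : M) :
    V.Q.nal n x = (∑ y, sn V n y x ^ 2) / (2 * V.r n) := by
  have h1 : V.Q.nal n x = ∑ i, ‖zet V.S (sn V n) x (V.ν i) / ((√(2 * V.r n) : ℝ) : ℂ)‖ ^ 2 := rfl
  have h2 : ∀ i, ‖zet V.S (sn V n) x (V.ν i) / ((√(2 * V.r n) : ℝ) : ℂ)‖ ^ 2 =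
      ‖zv V.S x (fun y => sn V n y x) (V.ν i)‖ ^ 2 / (2 * V.r n) := by
    intro i
    rw [norm_div, div_pow, Complex.norm_real, Real.norm_eq_abs, sq_abs, R_sq h n]
    rfl
  rw [h1, Finset.sum_congr rfl fun i _ => h2 i, ← Finset.sum_div,
    Equiv.sum_comp V.ν (fun y => ‖zv V.S x (fun y => sn V n y x) y‖ ^ 2)]
  congr 1
  exact zv_norm (Jnorm_of h.data.ok h.data.tg (h.data.tau _ (h.seq.nt n)).norm x
    (inE_of (sec_sn h n) x).1)

theorem e1_le (hP : PWD.{v}) (hV : VOLD.{v}) (h : Ctx V U) {m0 m1 : ℝ} (hm0 : 0 < m0)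
    (hb : ∀ (t : E3) (z : M), ‖t‖ = 1 → m0 ≤ (V.τ t).rr z ∧ (V.τ t).rr z ≤ m1) (n : ℕ) :
    ∫ x, V.Q.neta V.D n x ∂V.D.μ ≤ m1 ^ 2 * V.N * V.K' / m0 := by
  have hr := r_pos h n
  have hX : ∀ x, √(∑ k, Xw V.ww V.t0 k x ^ 2) = (V.τ V.t0).rr x := fun x =>
    (h.data.rr_eq h.nt0 x).symm
  have h1 : ∀ x, V.Q.neta V.D n x ≤ (V.N / (2 * V.r n * m0)) *
      Gd (V.τ (V.t n)) V.S (V.a n) (sn V n) x := by
    intro x
    have h2 := neta_pt hP h.limD h.data.ok h.data.tg (h.data.tau _ (h.seq.nt n)).norm (h.lnk n)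
      (h.seq.sma n) (h.seq.seca n) (sm_sn h n) (sec_sn h n) V.ν (√(2 * V.r n)) x hm0
      (by rw [hX]; exact (hb _ x h.nt0).1)
    refine h2.trans (le_of_eq ?_)
    rw [R_sq h n]
    unfold Gd
    field_simp
  have h2 := int_le hV h.limD h.data.tg.met
    (fun x => Finset.sum_nonneg fun i _ => nC_nonneg x _) h1
    (continuous_const.mul (cont_Gd h.data.ok (h.data.tau _ (h.seq.nt n)) (h.seq.sma n) (sm_sn h n)))
    (fun x => by rw [hX]; exact (hb _ x h.nt0).2)
  refine h2.trans ?_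
  rw [integral_const_mul]
  have h3 : ∫ x, Gd (V.τ (V.t n)) V.S (V.a n) (sn V n) x ∂(μHE[4] : Measure M) ≤
      V.K' * V.r n := (h.seq.ene n).e1
  have h4 : 0 ≤ 2 * m1 ^ 2 * (V.N / (2 * V.r n * m0)) := by positivity
  calc _ = 2 * m1 ^ 2 * (V.N / (2 * V.r n * m0)) *
        ∫ x, Gd (V.τ (V.t n)) V.S (V.a n) (sn V n) x ∂(μHE[4] : Measure M) := by ring
    _ ≤ 2 * m1 ^ 2 * (V.N / (2 * V.r n * m0)) * (V.K' * V.r n) :=
        mul_le_mul_of_nonneg_left h3 h4
    _ = _ := by field_simp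

theorem e2_le (hV : VOLD.{v}) (h : Ctx V U) {m0 m1 : ℝ}
    (hb : ∀ (t : E3) (z : M), ‖t‖ = 1 → m0 ≤ (V.τ t).rr z ∧ (V.τ t).rr z ≤ m1) (n : ℕ) :
    V.Q.r n * ∫ x, (1 - V.Q.nal n x) ^ 2 ∂V.D.μ ≤ m1 ^ 2 * V.K' / 2 := by
  have hr := r_pos h n
  have hX : ∀ x, √(∑ k, Xw V.ww V.t0 k x ^ 2) = (V.τ V.t0).rr x := fun x =>
    (h.data.rr_eq h.nt0 x).symm
  have h1 : ∀ x, (1 - V.Q.nal n x) ^ 2 ≤ (1 / (4 * V.r n ^ 2)) *
      (2 * V.r n - ∑ y, sn V n y x ^ 2) ^ 2 := by
    intro x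
    rw [nal_eq h n x]
    apply le_of_eq
    field_simp
    ring
  have hc : Continuous fun x => (1 / (4 * V.r n ^ 2)) * (2 * V.r n - ∑ y, sn V n y x ^ 2) ^ 2 :=
    continuous_const.mul ((continuous_const.sub
      (continuous_finsetSum _ fun y _ => ((sm_sn h n y).continuous).pow 2)).pow 2)
  have h2 := int_le hV h.limD h.data.tg.met (fun x => sq_nonneg _) h1 hc
    (fun x => by rw [hX]; exact (hb _ x h.nt0).2)
  rw [integral_const_mul] at h2
  have h3 : ∫ x, (2 * V.r n - ∑ y, sn V n y x ^ 2) ^ 2 ∂(μHE[4] : Measure M) ≤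
      V.K' * V.r n := (h.seq.ene n).e2
  have h4 : 0 ≤ V.r n * (2 * m1 ^ 2 * (1 / (4 * V.r n ^ 2))) := by positivity
  calc V.Q.r n * ∫ x, (1 - V.Q.nal n x) ^ 2 ∂V.D.μ ≤ V.r n * (2 * m1 ^ 2 * ((1 / (4 * V.r n ^ 2)) *
        ∫ x, (2 * V.r n - ∑ y, sn V n y x ^ 2) ^ 2 ∂(μHE[4] : Measure M))) :=
        mul_le_mul_of_nonneg_left h2 hr.le
    _ = V.r n * (2 * m1 ^ 2 * (1 / (4 * V.r n ^ 2))) *
        ∫ x, (2 * V.r n - ∑ y, sn V n y x ^ 2) ^ 2 ∂(μHE[4] : Measure M) := by ring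
    _ ≤ V.r n * (2 * m1 ^ 2 * (1 / (4 * V.r n ^ 2))) * (V.K' * V.r n) :=
        mul_le_mul_of_nonneg_left h3 h4
    _ = _ := by field_simp; ring

theorem o3_le (hP : PWD.{v}) (hV : VOLD.{v}) (h : Ctx V U) {m0 m1 δ : ℝ} (hm0 : 0 < m0)
    (hb : ∀ (t : E3) (z : M), ‖t‖ = 1 → m0 ≤ (V.τ t).rr z ∧ (V.τ t).rr z ≤ m1) (n : ℕ)
    (hδ0 : 0 ≤ δ) (hδ : ∀ x, ∑ k, ((V.τ V.t0).n k x - (V.τ (V.t n)).n k x) ^ 2 ≤ δ) :
    ∫ x, V.Q.ndb V.D n x ∂V.D.μ ≤ 2 * m1 ^ 2 *
      ((V.N * |V.K| * ((m0 ^ (3 / 4 : ℝ)) ^ 2)⁻¹ * V.K' / m0) / V.r n + (V.N * V.K' / m0) * δ) := by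
  have hr := r_pos h n
  set c0 : ℝ := ((m0 ^ (3 / 4 : ℝ)) ^ 2)⁻¹ with hc0
  have hc : 0 ≤ c0 := by
    have : 0 < m0 ^ (3 / 4 : ℝ) := Real.rpow_pos_of_pos hm0 _
    positivity
  have hX : ∀ x, √(∑ k, Xw V.ww V.t0 k x ^ 2) = (V.τ V.t0).rr x := fun x =>
    (h.data.rr_eq h.nt0 x).symm
  have hτ := h.data.tau _ (h.seq.nt n)
  obtain ⟨Z, te⟩ := h.data.te _ (h.seq.nt n)
  have h1 : ∀ x, V.Q.ndb V.D n x ≤
      (V.N * |V.K| * c0 / (m0 * V.r n)) * Fd (V.τ (V.t n)) V.S (V.a n) (sn V n) x +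
      (V.N * δ / (m0 * V.r n)) * Gd (V.τ (V.t n)) V.S (V.a n) (sn V n) x := by
    intro x
    have h2 := ndb_pt (δ := δ) hP h.limD h.data.ok h.data.tg hτ.norm (h.lnk n)
      (h.seq.sma n) (h.seq.seca n) (sm_sn h n) (sec_sn h n) V.ν (√(2 * V.r n)) x hm0
      (by rw [hX]; exact (hb _ x h.nt0).1) (by
        refine le_trans (le_of_eq ?_) (hδ x)
        refine Finset.sum_congr rfl fun k _ => ?_
        rw [h.data.n_eq h.nt0 k x]
        rfl)
    refine h2.trans ?_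
    have h3 := cl_le hτ te (h.seq.sma n) (h.seq.seca n) (sm_sn h n) (sec_sn h n) hm0
      (fun z => (hb _ z (h.seq.nt n)).1) x
    rw [R_sq h n]
    have h5 : 0 ≤ V.N * |V.K| / (m0 * V.r n) := by positivity
    have h6 := mul_le_mul_of_nonneg_left h3 h5
    have e1 : (V.N : ℝ) * (2 * ((2 * |V.K| * (∑ x', clG V.T V.cc x (fun y =>
        (V.τ (V.t n)).nE V.S (V.a n) (sn V n) y x) x' ^ 2) +
        2 * δ * ∑ y, ‖(V.τ (V.t n)).nE V.S (V.a n) (sn V n) y x‖ ^ 2) /
        (2 * (2 * V.r n))) / m0) = V.N * |V.K| / (m0 * V.r n) * (∑ x', clG V.T V.cc x (fun y =>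
        (V.τ (V.t n)).nE V.S (V.a n) (sn V n) y x) x' ^ 2) +
        (V.N * δ / (m0 * V.r n)) * ∑ y, ‖(V.τ (V.t n)).nE V.S (V.a n) (sn V n) y x‖ ^ 2 := by
      field_simp
    rw [e1]
    have e2 : V.N * |V.K| / (m0 * V.r n) * (c0 * Fd (V.τ (V.t n)) V.S (V.a n) (sn V n) x) =
        (V.N * |V.K| * c0 / (m0 * V.r n)) * Fd (V.τ (V.t n)) V.S (V.a n) (sn V n) x := by ring
    rw [e2] at h6
    exact add_le_add h6 le_rfl
  have hcF := cont_Fd h.data.ok hτ (h.seq.sma n) (sm_sn h n) (sec_sn h n).1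
  have hcG := cont_Gd h.data.ok hτ (h.seq.sma n) (sm_sn h n)
  have h2 := int_le hV h.limD h.data.tg.met
    (fun x => Finset.sum_nonneg fun i _ => nC_nonneg x _) h1
    ((continuous_const.mul hcF).add (continuous_const.mul hcG))
    (fun x => by rw [hX]; exact (hb _ x h.nt0).2)
  refine h2.trans (mul_le_mul_of_nonneg_left ?_ (by positivity))
  have e3 := integral_add ((intg hcF).const_mul (V.N * |V.K| * c0 / (m0 * V.r n)))
    ((intg hcG).const_mul (V.N * δ / (m0 * V.r n)))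
  rw [e3, integral_const_mul, integral_const_mul]
  have h3 : ∫ x, Gd (V.τ (V.t n)) V.S (V.a n) (sn V n) x ∂(μHE[4] : Measure M) ≤
      V.K' * V.r n := (h.seq.ene n).e1
  have h4 : ∫ x, Fd (V.τ (V.t n)) V.S (V.a n) (sn V n) x ∂(μHE[4] : Measure M) ≤
      V.K' := (h.seq.ene n).e5
  have h5 := mul_le_mul_of_nonneg_left h3 (show 0 ≤ V.N * δ / (m0 * V.r n) by positivity)
  have h6 := mul_le_mul_of_nonneg_left h4 (show 0 ≤ V.N * |V.K| * c0 / (m0 * V.r n) by positivity)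
  refine (add_le_add h6 h5).trans (le_of_eq ?_)
  field_simp

end ctx

/-- **PRB**. -/
theorem prb (hP : PWD.{v}) (hV : VOLD.{v}) : PRB.{v} := by
  intro M _ _ _ _ _ _ _ _ _ _ _ _ _ κ0 κ1 κT _ _ _ V U h
  obtain ⟨m0, m1, hm0, hb⟩ := h.data.bounds
  have hK' := h.Kpos
  have hA : 0 ≤ m1 ^ 2 * V.N * V.K' / m0 := by positivity
  have hB : 0 ≤ m1 ^ 2 * V.K' / 2 := by positivity
  refine ⟨m1 ^ 2 * V.N * V.K' / m0 + m1 ^ 2 * V.K' / 2 + 1, by linarith, fun n => ?_, fun n => ?_,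
    ?_⟩
  · exact (e1_le hP hV h hm0 hb n).trans (by linarith)
  · exact (e2_le hV h hb n).trans (by linarith)
  -- `o3`
  have hr : Tendsto V.r U atTop := by
    have h1 : Tendsto (fun n : ℕ => (n : ℝ) + 1) U atTop :=
      (tendsto_atTop_add_const_right _ 1 tendsto_natCast_atTop_atTop).mono_left h.le
    exact tendsto_atTop_mono h.seq.rge h1
  set B1 : ℝ := V.N * |V.K| * ((m0 ^ (3 / 4 : ℝ)) ^ 2)⁻¹ * V.K' / m0 with hB1
  set B2 : ℝ := V.N * V.K' / m0 with hB2
  have hB2' : 0 ≤ B2 := by positivity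
  have hm1' : 0 ≤ 2 * m1 ^ 2 := by positivity
  have hkey : ∀ ε : ℝ, 0 < ε → ∀ᶠ n in U, ∫ x, V.Q.ndb V.D n x ∂V.D.μ < ε := by
    intro ε hε
    -- the first term
    have h1 : Tendsto (fun n => 2 * m1 ^ 2 * (B1 / V.r n)) U (𝓝 (2 * m1 ^ 2 * 0)) :=
      (tendsto_const_nhds.div_atTop hr).const_mul _
    rw [mul_zero] at h1
    have h2 : ∀ᶠ n in U, 2 * m1 ^ 2 * (B1 / V.r n) < ε / 2 :=
      h1.eventually (gt_mem_nhds (half_pos hε))
    -- the second term
    set δ : ℝ := ε / (2 * (2 * m1 ^ 2 * B2 + 1)) with hδ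
    have hD : 0 < 2 * m1 ^ 2 * B2 + 1 := by positivity
    have hδ0 : 0 < δ := by positivity
    have hδ1 : 2 * m1 ^ 2 * (B2 * δ) < ε / 2 := by
      have : 2 * m1 ^ 2 * (B2 * δ) = (ε / 2) * ((2 * m1 ^ 2 * B2) / (2 * m1 ^ 2 * B2 + 1)) := by
        rw [hδ]; field_simp
      rw [this]
      have h3 : (2 * m1 ^ 2 * B2) / (2 * m1 ^ 2 * B2 + 1) < 1 := by
        rw [div_lt_one hD]; linarith
      calc _ < (ε / 2) * 1 := mul_lt_mul_of_pos_left h3 (half_pos hε)
        _ = _ := mul_one _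
    have hs : 0 < √(δ / 3) := Real.sqrt_pos.2 (by positivity)
    have h4 : ∀ᶠ n in U, ∀ k : Fin 3, ∀ z,
        dist ((V.τ (V.t n)).n k z) ((V.τ V.t0).n k z) < √(δ / 3) := by
      rw [eventually_all]
      intro k
      exact unif_lim (SwcPRE_129.cont_n h.data k) h.seq.nt h.nt0 h.lim _ hs
    filter_upwards [h2, h4] with n hn2 hn4
    have h5 : ∀ x, ∑ k, ((V.τ V.t0).n k x - (V.τ (V.t n)).n k x) ^ 2 ≤ δ := by
      intro x
      have h6 : ∀ k ∈ (Finset.univ : Finset (Fin 3)),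
          ((V.τ V.t0).n k x - (V.τ (V.t n)).n k x) ^ 2 ≤ δ / 3 := by
        intro k _
        have h7 := hn4 k x
        rw [dist_comm, Real.dist_eq] at h7
        have h8 := pow_le_pow_left₀ (abs_nonneg _) h7.le 2
        rw [sq_abs, Real.sq_sqrt (by positivity)] at h8
        exact h8
      refine (Finset.sum_le_sum h6).trans ?_
      rw [Finset.sum_const, Finset.card_univ, Fintype.card_fin, nsmul_eq_mul]
      push_cast
      linarith
    have h9 := o3_le hP hV h hm0 hb n hδ0.le h5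
    calc _ ≤ _ := h9
      _ = 2 * m1 ^ 2 * (B1 / V.r n) + 2 * m1 ^ 2 * (B2 * δ) := by rw [hB1, hB2]; ring
      _ < ε := by linarith
  refine tendsto_order.2 ⟨fun a ha => Eventually.of_forall fun n => ?_, hkey⟩
  exact ha.trans_le (integral_nonneg fun x => Finset.sum_nonneg fun i _ => nC_nonneg x _)

end

end Crest.Agent.R235.SwcPRB_766
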