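import Mathlib
import Crest.Agent.R281.Mc2_673

-- ▼ part R235/NoZero_504
section

/-!
# Row 235, FIB-B1c (helper504): closed solutions on the two-torus have no zeros

`core`: `a b : ℝ × ℝ → ℝ` of class `C²`, `1`-periodic, with
`c (|∇a|² + |∇b|²) ≤ -(a_x b_y - a_y b_x) + C (a² + b²)`.  If `(a, b)` has a zero then `a = b = 0`.

Proof (no similarity principle, no degree): `(a_x b_y - a_y b_x) / (a² + b² + δ)` is a divergence of
periodic functions, so `∫ |∇(a,b)|² / (a² + b² + δ) ≤ C'` on every large square, so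
`u = log (a² + b² + δ) / 2` has bounded Dirichlet integral, uniformly in `δ`; this is impossible by
integrating `∂_r u ≤ r |∇u|² / 2 + 1 / (2 r)` over a sector at a zero.
-/

set_option autoImplicit false

open Set Filter MeasureTheory Topology Real
open scoped ContDiff Interval

namespace Crest.Agent.R235.NoZero_504

noncomputable section

/-! ### the primitive -/

/-- `∂₁ (hh δ) = 1 / (w₁² + w₂² + δ)` -/
def hh (δ : ℝ) (w : ℝ × ℝ) : ℝ := arctan (w.1 / √(w.2 ^ 2 + δ)) / √(w.2 ^ 2 + δ)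

theorem contDiff_hh {δ : ℝ} (hδ : 0 < δ) : ContDiff ℝ 2 (hh δ) := by
  have h1 : ContDiff ℝ 2 (fun w : ℝ × ℝ => √(w.2 ^ 2 + δ)) := by
    refine ContDiff.sqrt (by fun_prop) fun w => ?_
    positivity
  have h2 : ∀ w : ℝ × ℝ, √(w.2 ^ 2 + δ) ≠ 0 := fun w => by positivity
  exact (Real.contDiff_arctan.comp (contDiff_fst.div h1 h2)).div h1 h2

theorem fderiv_hh {δ : ℝ} (hδ : 0 < δ) (w : ℝ × ℝ) :
    fderiv ℝ (hh δ) w (1, 0) = 1 / (w.1 ^ 2 + w.2 ^ 2 + δ) := by
  set k : ℝ := √(w.2 ^ 2 + δ) with hk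
  have hk0 : 0 < k := by positivity
  have hk2 : k ^ 2 = w.2 ^ 2 + δ := Real.sq_sqrt (by positivity)
  have h1 : HasDerivAt (fun t : ℝ => hh δ (w + t • ((1 : ℝ), (0 : ℝ))))
      (fderiv ℝ (hh δ) w (1, 0)) 0 := by
    have h2 : HasFDerivAt (hh δ) (fderiv ℝ (hh δ) w) (w + (0 : ℝ) • ((1 : ℝ), (0 : ℝ))) := by
      rw [zero_smul, add_zero]
      exact ((contDiff_hh hδ).differentiable (by norm_num) w).hasFDerivAt
    have h3 : HasDerivAt (fun t : ℝ => w + t • ((1 : ℝ), (0 : ℝ))) ((1 : ℝ), (0 : ℝ)) 0 := by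
      have := ((hasDerivAt_id (0 : ℝ)).smul_const ((1 : ℝ), (0 : ℝ))).const_add w
      simpa using this
    exact h2.comp_hasDerivAt 0 h3
  have h4 : HasDerivAt (fun t : ℝ => hh δ (w + t • ((1 : ℝ), (0 : ℝ))))
      (1 / (1 + (w.1 / k) ^ 2) * (1 / k) / k) 0 := by
    have h5 : (fun t : ℝ => hh δ (w + t • ((1 : ℝ), (0 : ℝ)))) =
        fun t => arctan ((w.1 + t) / k) / k := by
      funext t
      simp [hh, hk]
    rw [h5]
    have h6 : HasDerivAt (fun t : ℝ => (w.1 + t) / k) (1 / k) 0 := by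
      have := ((hasDerivAt_id (0 : ℝ)).const_add w.1).div_const k
      simpa using this
    have h7 := h6.arctan
    simp only [add_zero] at h7
    exact h7.div_const k
  rw [h1.unique h4]
  field_simp
  rw [hk2]
  ring

/-! ### the divergence identity -/

/-- the Jacobian of `(a, b)` -/
def jac (a b : ℝ × ℝ → ℝ) (y : ℝ × ℝ) : ℝ :=
  fderiv ℝ a y (1, 0) * fderiv ℝ b y (0, 1) - fderiv ℝ a y (0, 1) * fderiv ℝ b y (1, 0)

theorem contDiff_dir {a : ℝ × ℝ → ℝ} (ha : ContDiff ℝ 2 a) (v : ℝ × ℝ) :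
    ContDiff ℝ 1 (fun y => fderiv ℝ a y v) :=
  (ha.fderiv_right (m := 1) (by norm_num)).clm_apply contDiff_const

theorem divg {a b : ℝ × ℝ → ℝ} (ha : ContDiff ℝ 2 a) (hb : ContDiff ℝ 2 b) {δ : ℝ} (hδ : 0 < δ)
    (y : ℝ × ℝ) :
    fderiv ℝ (fun y => hh δ (a y, b y) * fderiv ℝ b y (0, 1)) y (1, 0) +
      fderiv ℝ (fun y => -(hh δ (a y, b y) * fderiv ℝ b y (1, 0))) y (0, 1) =
    jac a b y / (a y ^ 2 + b y ^ 2 + δ) := by
  have hH : HasFDerivAt (fun y => hh δ (a y, b y))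
      ((fderiv ℝ (hh δ) (a y, b y)).comp ((fderiv ℝ a y).prod (fderiv ℝ b y))) y := by
    have h1 : HasFDerivAt (hh δ) (fderiv ℝ (hh δ) (a y, b y)) (a y, b y) :=
      ((contDiff_hh hδ).differentiable (by norm_num) _).hasFDerivAt
    exact h1.comp y (((ha.differentiable (by norm_num) y).hasFDerivAt).prodMk
      ((hb.differentiable (by norm_num) y).hasFDerivAt))
  have hb1 : ∀ v, HasFDerivAt (fun y => fderiv ℝ b y v)
      (fderiv ℝ (fun y => fderiv ℝ b y v) y) y := fun v =>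
    ((contDiff_dir hb v).differentiable (by norm_num) y).hasFDerivAt
  have hsym : fderiv ℝ (fun y => fderiv ℝ b y (0, 1)) y (1, 0) =
      fderiv ℝ (fun y => fderiv ℝ b y (1, 0)) y (0, 1) := by
    have hd : DifferentiableAt ℝ (fderiv ℝ b) y :=
      (hb.fderiv_right (m := 1) (by norm_num)).differentiable (by norm_num) y
    have e1 : ∀ v w, fderiv ℝ (fun y => fderiv ℝ b y v) y w = fderiv ℝ (fderiv ℝ b) y w v := by
      intro v w
      have := (hd.hasFDerivAt.clm_apply (hasFDerivAt_const v y)).fderiv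
      rw [this]
      simp
    rw [e1, e1]
    have hs : IsSymmSndFDerivAt ℝ b y :=
      hb.contDiffAt.isSymmSndFDerivAt (by simp)
    exact hs _ _
  have hsplit : ∀ v w : ℝ, fderiv ℝ (hh δ) (a y, b y) (v, w) =
      v * fderiv ℝ (hh δ) (a y, b y) (1, 0) + w * fderiv ℝ (hh δ) (a y, b y) (0, 1) := by
    intro v w
    have : ((v, w) : ℝ × ℝ) = v • ((1 : ℝ), (0 : ℝ)) + w • ((0 : ℝ), (1 : ℝ)) := by simp
    rw [this, map_add, map_smul, map_smul]
    simp
  have h1 := (hH.mul (hb1 (0, 1))).fderiv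
  have h2 := ((hH.mul (hb1 (1, 0))).neg).fderiv
  simp only [jac]
  rw [show (fun y => hh δ (a y, b y) * fderiv ℝ b y (0, 1)) =
    ((fun y => hh δ (a y, b y)) * fun y => fderiv ℝ b y (0, 1)) from rfl,
    show (fun y => -(hh δ (a y, b y) * fderiv ℝ b y (1, 0))) =
    (-((fun y => hh δ (a y, b y)) * fun y => fderiv ℝ b y (1, 0))) from rfl, h1, h2]
  simp only [add_apply, smul_apply, smul_eq_mul, neg_apply, ContinuousLinearMap.comp_apply,
    ContinuousLinearMap.prod_apply]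
  rw [hsplit, hsplit (fderiv ℝ a y (0, 1)), fderiv_hh hδ, hsym]
  ring

/-! ### the energy bound -/

/-- `|∇a|² + |∇b|²` -/
def en (a b : ℝ × ℝ → ℝ) (y : ℝ × ℝ) : ℝ :=
  fderiv ℝ a y (1, 0) ^ 2 + fderiv ℝ a y (0, 1) ^ 2 + fderiv ℝ b y (1, 0) ^ 2 +
    fderiv ℝ b y (0, 1) ^ 2

theorem en_nonneg (a b : ℝ × ℝ → ℝ) (y : ℝ × ℝ) : 0 ≤ en a b y := by
  unfold en; positivity

theorem continuous_en {a b : ℝ × ℝ → ℝ} (ha : ContDiff ℝ 2 a) (hb : ContDiff ℝ 2 b) :
    Continuous (en a b) := by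
  have h := fun v => (contDiff_dir ha v).continuous
  have h' := fun v => (contDiff_dir hb v).continuous
  unfold en
  exact ((((h _).pow 2).add ((h _).pow 2)).add ((h' _).pow 2)).add ((h' _).pow 2)

theorem continuous_jac {a b : ℝ × ℝ → ℝ} (ha : ContDiff ℝ 2 a) (hb : ContDiff ℝ 2 b) :
    Continuous (jac a b) := by
  have h := fun v => (contDiff_dir ha v).continuous
  have h' := fun v => (contDiff_dir hb v).continuous
  unfold jac
  exact ((h _).mul (h' _)).sub ((h _).mul (h' _))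

/-- periodicity with respect to `ℤ²` -/
def Per (a : ℝ × ℝ → ℝ) : Prop := ∀ (y : ℝ × ℝ) (m n : ℤ), a (y + ((m : ℝ), (n : ℝ))) = a y

theorem Per.fderiv {a : ℝ × ℝ → ℝ} (h : Per a) (v : ℝ × ℝ) : Per (fun y => fderiv ℝ a y v) := by
  intro y m n
  have h1 : (fun y => a (y + ((m : ℝ), (n : ℝ)))) = a := funext fun y => h y m n
  have h2 := fderiv_comp_add_right (𝕜 := ℝ) (f := a) (x := y) ((m : ℝ), (n : ℝ))
  simp only [h1] at h2
  simp only [← h2]

/-- the square with centre `0` -/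
def Q (n : ℕ) : Set (ℝ × ℝ) := Icc (-(n : ℝ), -(n : ℝ)) ((n : ℝ), (n : ℝ))

theorem isCompact_Q (n : ℕ) : IsCompact (Q n) := isCompact_Icc

theorem int_jac {a b : ℝ × ℝ → ℝ} (ha : ContDiff ℝ 2 a) (hb : ContDiff ℝ 2 b) (pa : Per a)
    (pb : Per b) {δ : ℝ} (hδ : 0 < δ) (n : ℕ) :
    ∫ y in Q n, jac a b y / (a y ^ 2 + b y ^ 2 + δ) = 0 := by
  have hH : ContDiff ℝ 1 (fun y => hh δ (a y, b y)) :=
    ((contDiff_hh hδ).comp (ha.prodMk hb)).of_le (by norm_num)
  have c1 : ContDiff ℝ 1 (fun y => hh δ (a y, b y) * fderiv ℝ b y (0, 1)) :=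
    hH.mul (contDiff_dir hb _)
  have c2 : ContDiff ℝ 1 (fun y => -(hh δ (a y, b y) * fderiv ℝ b y (1, 0))) :=
    (hH.mul (contDiff_dir hb _)).neg
  have hle : ((-(n : ℝ), -(n : ℝ)) : ℝ × ℝ) ≤ ((n : ℝ), (n : ℝ)) := by
    have : (0 : ℝ) ≤ n := Nat.cast_nonneg n
    constructor <;> simp
  have h := integral_divergence_prod_Icc_of_hasFDerivAt_of_le _ _ _ _
    (-(n : ℝ), -(n : ℝ)) ((n : ℝ), (n : ℝ)) hle c1.continuous.continuousOn
    c2.continuous.continuousOn
    (fun x _ => (c1.differentiable (by norm_num) x).hasFDerivAt)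
    (fun x _ => (c2.differentiable (by norm_num) x).hasFDerivAt) ?_
  · simp only [divg ha hb hδ] at h
    unfold Q
    rw [h]
    have e1 : ∀ x : ℝ, ((x, (n : ℝ)) : ℝ × ℝ) = (x, -(n : ℝ)) + (((0 : ℤ) : ℝ), ((2 * n : ℤ) : ℝ)) := by
      intro x
      ext <;> simp
      ring
    have e2 : ∀ x : ℝ, (((n : ℝ), x) : ℝ × ℝ) = (-(n : ℝ), x) + (((2 * n : ℤ) : ℝ), ((0 : ℤ) : ℝ)) := by
      intro x
      ext <;> simp
      ring
    have f1 : ∀ x : ℝ, -(hh δ (a (x, (n : ℝ)), b (x, (n : ℝ))) *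
        fderiv ℝ b (x, (n : ℝ)) (1, 0)) =
        -(hh δ (a (x, -(n : ℝ)), b (x, -(n : ℝ))) * fderiv ℝ b (x, -(n : ℝ)) (1, 0)) := by
      intro x
      have := pb.fderiv (1, 0) (x, -(n : ℝ)) 0 (2 * n)
      simp only at this
      rw [e1, pa, pb, this]
    have f2 : ∀ x : ℝ, (hh δ (a ((n : ℝ), x), b ((n : ℝ), x)) *
        fderiv ℝ b ((n : ℝ), x) (0, 1)) =
        (hh δ (a (-(n : ℝ), x), b (-(n : ℝ), x)) * fderiv ℝ b (-(n : ℝ), x) (0, 1)) := by
      intro x
      have := pb.fderiv (0, 1) (-(n : ℝ), x) (2 * n) 0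
      simp only at this
      rw [e2, pa, pb, this]
    simp only [f1, f2]
    ring
  · simp only [divg ha hb hδ]
    refine ContinuousOn.integrableOn_compact isCompact_Icc (Continuous.continuousOn ?_)
    refine (continuous_jac ha hb).div ?_ fun y => by positivity
    have := ha.continuous
    have := hb.continuous
    fun_prop

theorem energy {a b : ℝ × ℝ → ℝ} (ha : ContDiff ℝ 2 a) (hb : ContDiff ℝ 2 b) (pa : Per a)
    (pb : Per b) {c C : ℝ} (hC : 0 ≤ C)
    (h : ∀ y, c * en a b y ≤ -jac a b y + C * (a y ^ 2 + b y ^ 2)) {δ : ℝ} (hδ : 0 < δ) (n : ℕ) :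
    c * ∫ y in Q n, en a b y / (a y ^ 2 + b y ^ 2 + δ) ≤ C * (2 * n) ^ 2 := by
  have hpos : ∀ y, 0 < a y ^ 2 + b y ^ 2 + δ := fun y => by positivity
  have hcd : Continuous (fun y => a y ^ 2 + b y ^ 2 + δ) := by
    have := ha.continuous
    have := hb.continuous
    fun_prop
  have i1 : IntegrableOn (fun y => jac a b y / (a y ^ 2 + b y ^ 2 + δ)) (Q n) :=
    ((continuous_jac ha hb).div hcd fun y => (hpos y).ne').continuousOn.integrableOn_compact
      (isCompact_Q n)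
  have i2 : IntegrableOn (fun y => en a b y / (a y ^ 2 + b y ^ 2 + δ)) (Q n) :=
    ((continuous_en ha hb).div hcd fun y => (hpos y).ne').continuousOn.integrableOn_compact
      (isCompact_Q n)
  have i3 : IntegrableOn (fun _ : ℝ × ℝ => C) (Q n) :=
    continuousOn_const.integrableOn_compact (isCompact_Q n)
  have h1 : ∫ y in Q n, c * (en a b y / (a y ^ 2 + b y ^ 2 + δ)) ≤
      ∫ y in Q n, (-(jac a b y / (a y ^ 2 + b y ^ 2 + δ)) + C) := by
    refine setIntegral_mono (i2.const_mul c) (i1.neg.add i3) fun y => ?_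
    have h2 : c * en a b y / (a y ^ 2 + b y ^ 2 + δ) ≤
        (-jac a b y + C * (a y ^ 2 + b y ^ 2)) / (a y ^ 2 + b y ^ 2 + δ) :=
      div_le_div_of_nonneg_right (h y) (hpos y).le
    have h3 : C * (a y ^ 2 + b y ^ 2) / (a y ^ 2 + b y ^ 2 + δ) ≤ C := by
      rw [div_le_iff₀ (hpos y)]
      nlinarith
    calc c * (en a b y / (a y ^ 2 + b y ^ 2 + δ)) = c * en a b y / (a y ^ 2 + b y ^ 2 + δ) := by
          ring
      _ ≤ _ := h2
      _ = -(jac a b y / (a y ^ 2 + b y ^ 2 + δ)) +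
          C * (a y ^ 2 + b y ^ 2) / (a y ^ 2 + b y ^ 2 + δ) := by ring
      _ ≤ _ := by linarith
  have i1' : IntegrableOn (fun y => -(jac a b y / (a y ^ 2 + b y ^ 2 + δ))) (Q n) := i1.neg
  rw [integral_const_mul, integral_add i1' i3, integral_neg, int_jac ha hb pa pb hδ n,
    setIntegral_const] at h1
  have hvol : volume.real (Q n) = (2 * n) ^ 2 := by
    have hn : (0 : ℝ) ≤ n := Nat.cast_nonneg n
    rw [Q, ← Icc_prod_Icc, Measure.real, Measure.volume_eq_prod, Measure.prod_prod, Real.volume_Icc,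
      ENNReal.toReal_mul, ENNReal.toReal_ofReal (by linarith)]
    ring
  rw [hvol, smul_eq_mul] at h1
  linarith


/-! ### integration over a sector -/

theorem inj_polar {r1 R θ1 θ2 : ℝ} (h0 : 0 < r1) (hπ1 : -π < θ1) (hπ2 : θ2 < π) :
    InjOn polarCoord.symm (Ioc r1 R ×ˢ Ioc θ1 θ2) := by
  have hsub : Ioc r1 R ×ˢ Ioc θ1 θ2 ⊆ polarCoord.target := by
    rintro ⟨r, θ⟩ ⟨hr, hθ⟩
    exact ⟨h0.trans hr.1, hπ1.trans hθ.1, hθ.2.trans_lt hπ2⟩
  have := polarCoord.symm.injOn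
  rw [OpenPartialHomeomorph.symm_source] at this
  exact this.mono hsub

theorem sector_area {g : ℝ × ℝ → ℝ} (hg : Continuous g) (hg0 : ∀ y, 0 ≤ g y)
    {r1 R θ1 θ2 : ℝ} (h0 : 0 < r1) (hπ1 : -π < θ1) (hπ2 : θ2 < π) {S : Set (ℝ × ℝ)}
    (hS : IsCompact S) (hsub : ∀ r ∈ Ioc r1 R, ∀ θ ∈ Ioc θ1 θ2, polarCoord.symm (r, θ) ∈ S) :
    ∫ p in Ioc r1 R ×ˢ Ioc θ1 θ2, p.1 * g (polarCoord.symm p) ≤ ∫ y in S, g y := by
  have hm : MeasurableSet (Ioc r1 R ×ˢ Ioc θ1 θ2) := measurableSet_Ioc.prod measurableSet_Ioc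
  have h1 := integral_image_eq_integral_abs_det_fderiv_smul volume hm
    (fun x _ => (hasFDerivAt_polarCoord_symm x).hasFDerivWithinAt)
    (inj_polar (R := R) h0 hπ1 hπ2) g
  have h2 : ∫ p in Ioc r1 R ×ˢ Ioc θ1 θ2, p.1 * g (polarCoord.symm p) =
      ∫ p in Ioc r1 R ×ˢ Ioc θ1 θ2, |(fderivPolarCoordSymm p).det| • g (polarCoord.symm p) := by
    refine setIntegral_congr_fun hm fun p hp => ?_
    have : 0 < p.1 := h0.trans hp.1.1
    simp only [det_fderivPolarCoordSymm, abs_of_pos this, smul_eq_mul]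
  rw [h2, ← h1]
  refine setIntegral_mono_set (hg.continuousOn.integrableOn_compact hS)
    (Eventually.of_forall fun y => hg0 y) (LE.le.eventuallyLE ?_)
  rintro _ ⟨⟨r, θ⟩, hp, rfl⟩
  exact hsub r hp.1 θ hp.2

theorem radial {u : ℝ × ℝ → ℝ} (hu : ContDiff ℝ 1 u) {g : ℝ × ℝ → ℝ} (hg : Continuous g)
    (hug : ∀ y, fderiv ℝ u y (1, 0) ^ 2 + fderiv ℝ u y (0, 1) ^ 2 ≤ g y) {r1 R : ℝ} (h0 : 0 < r1)
    (h1 : r1 ≤ R) (θ : ℝ) :
    u (polarCoord.symm (R, θ)) - u (polarCoord.symm (r1, θ)) ≤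
      ∫ r in r1..R, (r * g (polarCoord.symm (r, θ)) / 2 + 1 / (2 * r)) := by
  have hP : ∀ r : ℝ, polarCoord.symm (r, θ) = (r * cos θ, r * sin θ) := fun r => rfl
  have hd : ∀ r ∈ uIcc r1 R, HasDerivAt (fun r => u (polarCoord.symm (r, θ)))
      (cos θ * fderiv ℝ u (polarCoord.symm (r, θ)) (1, 0) +
        sin θ * fderiv ℝ u (polarCoord.symm (r, θ)) (0, 1)) r := by
    intro r _
    have e1 : HasDerivAt (fun r : ℝ => polarCoord.symm (r, θ)) (cos θ, sin θ) r := by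
      simp only [hP]
      have a1 := (hasDerivAt_id r).mul_const (cos θ)
      have a2 := (hasDerivAt_id r).mul_const (sin θ)
      simpa using a1.prodMk a2
    have e2 := ((hu.differentiable (by norm_num) (polarCoord.symm (r, θ))).hasFDerivAt).comp_hasDerivAt
      r e1
    have e3 : ((cos θ, sin θ) : ℝ × ℝ) = cos θ • ((1 : ℝ), (0 : ℝ)) + sin θ • ((0 : ℝ), (1 : ℝ)) := by
      simp
    rw [e3, map_add, map_smul, map_smul] at e2
    exact e2
  have hcu : ∀ v, Continuous (fun y => fderiv ℝ u y v) := fun v =>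
    (hu.continuous_fderiv (by norm_num)).clm_apply continuous_const
  have hPc : Continuous (fun r : ℝ => polarCoord.symm (r, θ)) :=
    continuous_polarCoord_symm.comp (by fun_prop)
  have hint : IntervalIntegrable (fun r => cos θ * fderiv ℝ u (polarCoord.symm (r, θ)) (1, 0) +
        sin θ * fderiv ℝ u (polarCoord.symm (r, θ)) (0, 1)) volume r1 R := by
    refine Continuous.intervalIntegrable ?_ _ _
    exact (continuous_const.mul ((hcu _).comp hPc)).add (continuous_const.mul ((hcu _).comp hPc))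
  rw [← intervalIntegral.integral_eq_sub_of_hasDerivAt hd hint]
  refine intervalIntegral.integral_mono_on h1 hint ?_ fun r hr => ?_
  · refine ContinuousOn.intervalIntegrable ?_
    rw [uIcc_of_le h1]
    refine ContinuousOn.add ?_ ?_
    · exact (((continuous_id.mul (hg.comp hPc)).div_const 2)).continuousOn
    · refine continuousOn_const.div (by fun_prop) fun r hr => ?_
      have : 0 < r := h0.trans_le hr.1
      positivity
  · have hr0 : 0 < r := h0.trans_le hr.1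
    have hg1 := hug (polarCoord.symm (r, θ))
    set p := fderiv ℝ u (polarCoord.symm (r, θ)) (1, 0)
    set q := fderiv ℝ u (polarCoord.symm (r, θ)) (0, 1)
    set G := g (polarCoord.symm (r, θ))
    have h2 : (cos θ * p + sin θ * q) ^ 2 ≤ G := by
      have := cos_sq_add_sin_sq θ
      nlinarith [sq_nonneg (cos θ * q - sin θ * p)]
    set s := cos θ * p + sin θ * q
    have h3 : r * s ^ 2 / 2 + 1 / (2 * r) - s = (r * s - 1) ^ 2 / (2 * r) := by
      field_simp
      ring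
    have h4 : 0 ≤ (r * s - 1) ^ 2 / (2 * r) := by positivity
    have h5 : r * s ^ 2 / 2 ≤ r * G / 2 := by
      have := mul_le_mul_of_nonneg_left h2 hr0.le
      linarith
    linarith

theorem sector {u : ℝ × ℝ → ℝ} (hu : ContDiff ℝ 1 u) {g : ℝ × ℝ → ℝ} (hg : Continuous g)
    (hg0 : ∀ y, 0 ≤ g y)
    (hug : ∀ y, fderiv ℝ u y (1, 0) ^ 2 + fderiv ℝ u y (0, 1) ^ 2 ≤ g y) {r1 R θ1 θ2 : ℝ}
    (h0 : 0 < r1) (h1 : r1 ≤ R) (hπ1 : -π < θ1) (hθ : θ1 ≤ θ2) (hπ2 : θ2 < π)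
    {S : Set (ℝ × ℝ)} (hS : IsCompact S)
    (hsub : ∀ r ∈ Ioc r1 R, ∀ θ ∈ Ioc θ1 θ2, polarCoord.symm (r, θ) ∈ S) :
    ∫ θ in θ1..θ2, (u (polarCoord.symm (R, θ)) - u (polarCoord.symm (r1, θ))) ≤
      (∫ y in S, g y) / 2 + (θ2 - θ1) * (log R - log r1) / 2 := by
  have hPc2 : ∀ r : ℝ, Continuous (fun θ : ℝ => polarCoord.symm (r, θ)) := fun r =>
    continuous_polarCoord_symm.comp (by fun_prop)
  have hR0 : 0 < R := h0.trans_le h1
  -- the area part
  have hcont : Continuous (fun p : ℝ × ℝ => p.1 * g (polarCoord.symm p)) :=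
    continuous_fst.mul (hg.comp continuous_polarCoord_symm)
  have hI : IntegrableOn (fun p : ℝ × ℝ => p.1 * g (polarCoord.symm p))
      (Ioc r1 R ×ˢ Ioc θ1 θ2) :=
    (hcont.continuousOn.integrableOn_compact (isCompact_Icc.prod isCompact_Icc)).mono_set
      (prod_mono Ioc_subset_Icc_self Ioc_subset_Icc_self)
  have harea : ∫ θ in θ1..θ2, ∫ r in r1..R, r * g (polarCoord.symm (r, θ)) =
      ∫ p in Ioc r1 R ×ˢ Ioc θ1 θ2, p.1 * g (polarCoord.symm p) := by
    rw [intervalIntegral.integral_of_le hθ]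
    simp only [intervalIntegral.integral_of_le h1]
    rw [Measure.volume_eq_prod, setIntegral_prod _ (by rwa [← Measure.volume_eq_prod])]
    refine integral_integral_swap ?_
    rw [Measure.prod_restrict, ← Measure.volume_eq_prod]
    have hc2 : Continuous (fun p : ℝ × ℝ => p.2 * g (polarCoord.symm (p.2, p.1))) :=
      continuous_snd.mul (hg.comp (continuous_polarCoord_symm.comp (by fun_prop)))
    exact (hc2.continuousOn.integrableOn_compact (isCompact_Icc.prod isCompact_Icc)).mono_set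
      (prod_mono Ioc_subset_Icc_self Ioc_subset_Icc_self)
  have hlog : ∀ θ : ℝ, ∫ r in r1..R, (r * g (polarCoord.symm (r, θ)) / 2 + 1 / (2 * r)) =
      (∫ r in r1..R, r * g (polarCoord.symm (r, θ))) / 2 + (log R - log r1) / 2 := by
    intro θ
    have i1 : IntervalIntegrable (fun r : ℝ => r * g (polarCoord.symm (r, θ)) / 2) volume r1 R := by
      refine Continuous.intervalIntegrable ?_ _ _
      exact (continuous_id.mul (hg.comp (continuous_polarCoord_symm.comp (by fun_prop)))).div_const 2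
    have i2 : IntervalIntegrable (fun r : ℝ => 1 / (2 * r)) volume r1 R := by
      refine ContinuousOn.intervalIntegrable ?_
      rw [uIcc_of_le h1]
      refine continuousOn_const.div (by fun_prop) fun r hr => ?_
      have : 0 < r := h0.trans_le hr.1
      positivity
    rw [intervalIntegral.integral_add i1 i2, intervalIntegral.integral_div]
    congr 1
    have e1 : (fun r : ℝ => 1 / (2 * r)) = fun r => r⁻¹ / 2 := by
      funext r
      rw [one_div, mul_inv]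
      ring
    rw [e1, intervalIntegral.integral_div, integral_inv_of_pos h0 hR0, log_div hR0.ne' h0.ne']
  have hcin : Continuous (fun θ : ℝ => ∫ r in r1..R, r * g (polarCoord.symm (r, θ))) := by
    refine intervalIntegral.continuous_parametric_intervalIntegral_of_continuous' ?_ _ _
    exact continuous_snd.mul (hg.comp (continuous_polarCoord_symm.comp (by fun_prop)))
  calc ∫ θ in θ1..θ2, (u (polarCoord.symm (R, θ)) - u (polarCoord.symm (r1, θ)))
      ≤ ∫ θ in θ1..θ2, ((∫ r in r1..R, r * g (polarCoord.symm (r, θ))) / 2 +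
          (log R - log r1) / 2) := by
        refine intervalIntegral.integral_mono_on hθ ?_ ?_ fun θ _ => ?_
        · refine Continuous.intervalIntegrable ?_ _ _
          exact (hu.continuous.comp (hPc2 R)).sub (hu.continuous.comp (hPc2 r1))
        · exact ((hcin.div_const 2).add continuous_const).intervalIntegrable _ _
        · rw [← hlog]
          exact radial hu hg hug h0 h1 θ
    _ = (∫ θ in θ1..θ2, ∫ r in r1..R, r * g (polarCoord.symm (r, θ))) / 2 +
          (θ2 - θ1) * (log R - log r1) / 2 := by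
        rw [intervalIntegral.integral_add ((hcin.div_const 2).intervalIntegrable _ _)
          (continuous_const.intervalIntegrable _ _), intervalIntegral.integral_div,
          intervalIntegral.integral_const, smul_eq_mul]
        ring
    _ ≤ _ := by
        rw [harea]
        have := sector_area hg hg0 h0 hπ1 hπ2 hS hsub
        linarith


/-! ### the core -/

theorem half_log {a b : ℝ × ℝ → ℝ} (ha : ContDiff ℝ 2 a) (hb : ContDiff ℝ 2 b) {δ : ℝ}
    (hδ : 0 < δ) :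
    ContDiff ℝ 1 (fun y => log (a y ^ 2 + b y ^ 2 + δ) / 2) ∧
    ∀ y, fderiv ℝ (fun y => log (a y ^ 2 + b y ^ 2 + δ) / 2) y (1, 0) ^ 2 +
      fderiv ℝ (fun y => log (a y ^ 2 + b y ^ 2 + δ) / 2) y (0, 1) ^ 2 ≤
      en a b y / (a y ^ 2 + b y ^ 2 + δ) := by
  have hpos : ∀ y, 0 < a y ^ 2 + b y ^ 2 + δ := fun y => by positivity
  refine ⟨?_, fun y => ?_⟩
  · have : ContDiff ℝ 1 (fun y => a y ^ 2 + b y ^ 2 + δ) := by
      have h1 : ContDiff ℝ 1 a := ha.of_le (by norm_num)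
      have h2 : ContDiff ℝ 1 b := hb.of_le (by norm_num)
      fun_prop
    exact (this.log fun y => (hpos y).ne').div_const 2
  · have h1 : HasFDerivAt a (fderiv ℝ a y) y :=
      (ha.differentiable (by norm_num) y).hasFDerivAt
    have h2 : HasFDerivAt b (fderiv ℝ b y) y :=
      (hb.differentiable (by norm_num) y).hasFDerivAt
    have h3 : HasFDerivAt (fun y => log (a y ^ 2 + b y ^ 2 + δ) / 2)
        ((a y ^ 2 + b y ^ 2 + δ)⁻¹ • (a y • fderiv ℝ a y + b y • fderiv ℝ b y)) y := by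
      have h4 := ((((h1.pow 2).add (h2.pow 2)).add_const δ).log (hpos y).ne').mul_const (2⁻¹ : ℝ)
      refine (h4.congr_fderiv ?_).congr_of_eventuallyEq ?_
      · ext <;> simp <;> ring
      · exact Eventually.of_forall fun y => by simp [div_eq_mul_inv]
    rw [h3.fderiv]
    simp only [smul_apply, add_apply, smul_eq_mul, en]
    set p := fderiv ℝ a y (1, 0)
    set q := fderiv ℝ a y (0, 1)
    set p' := fderiv ℝ b y (1, 0)
    set q' := fderiv ℝ b y (0, 1)
    have hD := hpos y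
    set D := a y ^ 2 + b y ^ 2 + δ with hDdef
    have k1 : (a y * p + b y * p') ^ 2 ≤ D * (p ^ 2 + p' ^ 2) := by
      have : 0 ≤ δ * (p ^ 2 + p' ^ 2) := by positivity
      nlinarith [sq_nonneg (a y * p' - b y * p)]
    have k2 : (a y * q + b y * q') ^ 2 ≤ D * (q ^ 2 + q' ^ 2) := by
      have : 0 ≤ δ * (q ^ 2 + q' ^ 2) := by positivity
      nlinarith [sq_nonneg (a y * q' - b y * q)]
    rw [le_div_iff₀ hD]
    have e : ((D⁻¹ * (a y * p + b y * p')) ^ 2 + (D⁻¹ * (a y * q + b y * q')) ^ 2) * D =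
        ((a y * p + b y * p') ^ 2 + (a y * q + b y * q') ^ 2) / D := by
      field_simp
    rw [e, div_le_iff₀ hD]
    nlinarith

/-- **the core**, zero at the origin. -/
theorem core0 {a b : ℝ × ℝ → ℝ} (ha : ContDiff ℝ 2 a) (hb : ContDiff ℝ 2 b) (pa : Per a)
    (pb : Per b) {c C : ℝ} (hc : 0 < c) (hC : 0 ≤ C)
    (h : ∀ y, c * en a b y ≤ -jac a b y + C * (a y ^ 2 + b y ^ 2)) (a0 : a 0 = 0) (b0 : b 0 = 0)
    (y : ℝ × ℝ) : a y = 0 ∧ b y = 0 := by
  by_contra hne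
  -- a point in the slit plane where `(a, b) ≠ 0`
  have hopen : IsOpen {y | ¬ (a y = 0 ∧ b y = 0)} := by
    have : {y | ¬ (a y = 0 ∧ b y = 0)} = (a ⁻¹' {0} ∩ b ⁻¹' {0})ᶜ := by
      ext y; simp
    rw [this]
    exact ((isClosed_singleton.preimage ha.continuous).inter
      (isClosed_singleton.preimage hb.continuous)).isOpen_compl
  obtain ⟨z, hz, hzs⟩ : ∃ z, z ∈ polarCoord.source ∧ ¬ (a z = 0 ∧ b z = 0) := by
    have hlim : Tendsto (fun t : ℝ => y + (0, t)) (𝓝[≠] 0) (𝓝 y) := by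
      have : Tendsto (fun t : ℝ => y + (0, t)) (𝓝 0) (𝓝 (y + (0, 0))) :=
        (by fun_prop : Continuous (fun t : ℝ => y + ((0 : ℝ), t))).tendsto 0
      rw [show y + ((0 : ℝ), (0 : ℝ)) = y by simp] at this
      exact this.mono_left nhdsWithin_le_nhds
    have e1 : ∀ᶠ t : ℝ in 𝓝[≠] 0, y + (0, t) ∈ {y | ¬ (a y = 0 ∧ b y = 0)} :=
      hlim.eventually (hopen.mem_nhds hne)
    have e2 : ∀ᶠ t : ℝ in 𝓝[≠] 0, (y + (0, t)).2 ≠ 0 := by
      by_cases hy : y.2 = 0
      · filter_upwards [self_mem_nhdsWithin] with t ht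
        simpa [hy] using ht
      · have : Tendsto (fun t : ℝ => (y + (0, t)).2) (𝓝[≠] 0) (𝓝 y.2) :=
          (continuous_snd.tendsto y).comp hlim
        exact this.eventually_ne hy
    obtain ⟨t, h1, h2⟩ := (e1.and e2).exists
    exact ⟨y + (0, t), Or.inr h2, h1⟩
  set p0 := polarCoord z with hp0
  have hp0t : p0 ∈ polarCoord.target := polarCoord.map_source hz
  have hp0s : polarCoord.symm p0 = z := polarCoord.left_inv hz
  set R : ℝ := p0.1 with hR
  have hR0 : 0 < R := hp0t.1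
  -- an interval of angles
  have hPc : Continuous (fun θ : ℝ => polarCoord.symm (R, θ)) :=
    continuous_polarCoord_symm.comp (by fun_prop)
  have hnear : ∀ᶠ θ in 𝓝 p0.2, polarCoord.symm (R, θ) ∈ {y | ¬ (a y = 0 ∧ b y = 0)} ∧
      θ ∈ Ioo (-π) π := by
    refine (hPc.continuousAt.eventually (hopen.mem_nhds ?_)).and (isOpen_Ioo.mem_nhds hp0t.2)
    show ¬ (a (polarCoord.symm p0) = 0 ∧ b (polarCoord.symm p0) = 0)
    rw [hp0s]
    exact hzs
  obtain ⟨ε, hε, hball⟩ := Metric.eventually_nhds_iff_ball.1 hnear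
  set θ1 := p0.2 - ε / 2 with hθ1
  set θ2 := p0.2 + ε / 2 with hθ2
  have hmem : ∀ θ ∈ Icc θ1 θ2, θ ∈ Metric.ball p0.2 ε := by
    intro θ hθ
    rw [Metric.mem_ball, Real.dist_eq, abs_lt]
    constructor <;> linarith [hθ.1, hθ.2]
  have hπ1 : -π < θ1 := (hball θ1 (hmem θ1 ⟨le_rfl, by linarith⟩)).2.1
  have hπ2 : θ2 < π := (hball θ2 (hmem θ2 ⟨by linarith, le_rfl⟩)).2.2
  have hθle : θ1 ≤ θ2 := by linarith
  -- the lower bound on the arc
  have hcN : Continuous (fun y => a y ^ 2 + b y ^ 2) := by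
    have := ha.continuous
    have := hb.continuous
    fun_prop
  obtain ⟨m, hm0, hm⟩ : ∃ m : ℝ, 0 < m ∧ ∀ θ ∈ Icc θ1 θ2,
      m ≤ a (polarCoord.symm (R, θ)) ^ 2 + b (polarCoord.symm (R, θ)) ^ 2 := by
    obtain ⟨θ, hθ, hmin⟩ := isCompact_Icc.exists_isMinOn (nonempty_Icc.2 hθle)
      (hcN.comp hPc).continuousOn
    refine ⟨a (polarCoord.symm (R, θ)) ^ 2 + b (polarCoord.symm (R, θ)) ^ 2, ?_, fun θ' h' =>
      hmin h'⟩
    have := (hball θ (hmem θ hθ)).1
    have h3 : ¬ (a (polarCoord.symm (R, θ)) = 0 ∧ b (polarCoord.symm (R, θ)) = 0) := this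
    rcases not_and_or.1 h3 with h4 | h4
    · have := sq_pos_of_ne_zero h4
      positivity
    · have := sq_pos_of_ne_zero h4
      positivity
  -- the square
  obtain ⟨n, hn⟩ := exists_nat_ge R
  have hPQ : ∀ r ∈ Icc 0 R, ∀ θ : ℝ, polarCoord.symm (r, θ) ∈ Q n := by
    intro r hr θ
    have h1 : |r * cos θ| ≤ n := by
      rw [abs_mul]
      calc |r| * |cos θ| ≤ |r| * 1 := mul_le_mul_of_nonneg_left (abs_cos_le_one θ) (abs_nonneg r)
        _ = r := by rw [mul_one, abs_of_nonneg hr.1]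
        _ ≤ n := hr.2.trans hn
    have h2 : |r * sin θ| ≤ n := by
      rw [abs_mul]
      calc |r| * |sin θ| ≤ |r| * 1 := mul_le_mul_of_nonneg_left (abs_sin_le_one θ) (abs_nonneg r)
        _ = r := by rw [mul_one, abs_of_nonneg hr.1]
        _ ≤ n := hr.2.trans hn
    exact ⟨⟨(abs_le.1 h1).1, (abs_le.1 h2).1⟩, ⟨(abs_le.1 h1).2, (abs_le.1 h2).2⟩⟩
  -- the upper bound near the zero
  obtain ⟨L, hL0, hL⟩ : ∃ L : ℝ, 0 < L ∧ ∀ r ∈ Icc 0 R, ∀ θ : ℝ,
      a (polarCoord.symm (r, θ)) ^ 2 + b (polarCoord.symm (r, θ)) ^ 2 ≤ L * r ^ 2 := by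
    have hb1 : ∀ f : ℝ × ℝ → ℝ, ContDiff ℝ 2 f → f 0 = 0 → ∃ K : ℝ, 0 ≤ K ∧ ∀ r ∈ Icc 0 R,
        ∀ θ : ℝ, f (polarCoord.symm (r, θ)) ^ 2 ≤ K * r ^ 2 := by
      intro f hf f0
      obtain ⟨K, hK⟩ := (isCompact_Q n).exists_bound_of_continuousOn
        (hf.continuous_fderiv (by norm_num)).continuousOn
      have hK0 : 0 ≤ K := by
        have h0 : (0 : ℝ × ℝ) ∈ Q n := by
          have : (0 : ℝ) ≤ n := Nat.cast_nonneg n
          exact ⟨⟨by simp, by simp⟩, ⟨by simp, by simp⟩⟩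
        exact (norm_nonneg _).trans (hK 0 h0)
      refine ⟨K ^ 2, by positivity, fun r hr θ => ?_⟩
      have h0 : (0 : ℝ × ℝ) ∈ Q n := by
        have : (0 : ℝ) ≤ n := Nat.cast_nonneg n
        exact ⟨⟨by simp, by simp⟩, ⟨by simp, by simp⟩⟩
      have h1 := Convex.norm_image_sub_le_of_norm_fderiv_le (𝕜 := ℝ) (f := f)
        (fun x _ => hf.differentiable (by norm_num) x) hK (convex_Icc _ _) h0 (hPQ r hr θ)
      rw [f0, sub_zero, sub_zero] at h1
      have h2 : ‖polarCoord.symm (r, θ)‖ ≤ r := by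
        have e : polarCoord.symm (r, θ) = (r * cos θ, r * sin θ) := rfl
        rw [e, Prod.norm_def]
        refine max_le ?_ ?_
        · rw [norm_mul, Real.norm_of_nonneg hr.1]
          exact mul_le_of_le_one_right hr.1 (abs_cos_le_one θ)
        · rw [norm_mul, Real.norm_of_nonneg hr.1]
          exact mul_le_of_le_one_right hr.1 (abs_sin_le_one θ)
      have h3 : |f (polarCoord.symm (r, θ))| ≤ K * r :=
        h1.trans (mul_le_mul_of_nonneg_left h2 hK0)
      calc f (polarCoord.symm (r, θ)) ^ 2 = |f (polarCoord.symm (r, θ))| ^ 2 := (sq_abs _).symm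
        _ ≤ (K * r) ^ 2 := pow_le_pow_left₀ (abs_nonneg _) h3 2
        _ = K ^ 2 * r ^ 2 := by ring
    obtain ⟨K1, hK1, h1⟩ := hb1 a ha a0
    obtain ⟨K2, hK2, h2⟩ := hb1 b hb b0
    refine ⟨K1 + K2 + 1, by positivity, fun r hr θ => ?_⟩
    have := h1 r hr θ
    have := h2 r hr θ
    nlinarith [sq_nonneg r]
  -- the contradiction
  set A : ℝ := C * (2 * n) ^ 2 / c with hA
  have hmain : ∀ r ∈ Ioc 0 R, (θ2 - θ1) * (log m / 2 - log (L + 1) / 2 - log r) ≤
      A / 2 + (θ2 - θ1) * (log R - log r) / 2 := by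
    intro r hr
    have hδ : 0 < r ^ 2 := by have := hr.1; positivity
    obtain ⟨hu, hug⟩ := half_log ha hb hδ
    have hpos : ∀ y, 0 < a y ^ 2 + b y ^ 2 + r ^ 2 := fun y => by positivity
    have hgc : Continuous (fun y => en a b y / (a y ^ 2 + b y ^ 2 + r ^ 2)) :=
      (continuous_en ha hb).div (hcN.add continuous_const) fun y => (hpos y).ne'
    have hs := sector hu hgc (fun y => div_nonneg (en_nonneg a b y) (hpos y).le) hug hr.1 hr.2
      hπ1 hθle hπ2 (isCompact_Q n) (fun r' hr' θ _ => hPQ r' ⟨(hr.1.trans hr'.1).le, hr'.2⟩ θ)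
    have hE := energy ha hb pa pb hC h hδ n
    have hE' : ∫ y in Q n, en a b y / (a y ^ 2 + b y ^ 2 + r ^ 2) ≤ A := by
      rw [hA, le_div_iff₀ hc]
      linarith
    have hlow : (θ2 - θ1) * (log m / 2 - log (L + 1) / 2 - log r) ≤
        ∫ θ in θ1..θ2, (log (a (polarCoord.symm (R, θ)) ^ 2 + b (polarCoord.symm (R, θ)) ^ 2 +
          r ^ 2) / 2 - log (a (polarCoord.symm (r, θ)) ^ 2 + b (polarCoord.symm (r, θ)) ^ 2 +
          r ^ 2) / 2) := by
      rw [← smul_eq_mul, ← intervalIntegral.integral_const]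
      refine intervalIntegral.integral_mono_on hθle (continuous_const.intervalIntegrable _ _)
        ?_ fun θ hθ => ?_
      · have hc1 : ∀ s : ℝ, Continuous (fun θ : ℝ => log (a (polarCoord.symm (s, θ)) ^ 2 +
            b (polarCoord.symm (s, θ)) ^ 2 + r ^ 2) / 2) := fun s =>
          hu.continuous.comp (continuous_polarCoord_symm.comp (by fun_prop))
        exact ((hc1 R).sub (hc1 r)).intervalIntegrable _ _
      · have k1 : log m ≤ log (a (polarCoord.symm (R, θ)) ^ 2 +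
            b (polarCoord.symm (R, θ)) ^ 2 + r ^ 2) :=
          log_le_log hm0 ((hm θ hθ).trans (by linarith))
        have k2 : log (a (polarCoord.symm (r, θ)) ^ 2 + b (polarCoord.symm (r, θ)) ^ 2 +
            r ^ 2) ≤ log ((L + 1) * r ^ 2) := by
          refine log_le_log (hpos _) ?_
          have := hL r ⟨hr.1.le, hr.2⟩ θ
          linarith
        rw [log_mul (by positivity) hδ.ne', log_pow] at k2
        push_cast at k2
        linarith
    linarith
  have hθ : 0 < θ2 - θ1 := by rw [hθ1, hθ2]; linarith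
  -- let `r → 0`
  have hlim : Tendsto (fun r : ℝ => -log r) (𝓝[>] 0) atTop :=
    tendsto_neg_atBot_atTop.comp Real.tendsto_log_nhdsGT_zero
  have hev := (hlim.eventually_gt_atTop ((A / 2 + (θ2 - θ1) * log R / 2 -
    (θ2 - θ1) * (log m / 2 - log (L + 1) / 2)) * 2 / (θ2 - θ1))).and
    (Ioc_mem_nhdsGT hR0)
  obtain ⟨r, h1, h2⟩ := hev.exists
  have h3 := hmain r h2
  rw [div_lt_iff₀ hθ] at h1
  nlinarith

/-- **the core** -/
theorem core {a b : ℝ × ℝ → ℝ} (ha : ContDiff ℝ 2 a) (hb : ContDiff ℝ 2 b) (pa : Per a)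
    (pb : Per b) {c C : ℝ} (hc : 0 < c) (hC : 0 ≤ C)
    (h : ∀ y, c * en a b y ≤ -jac a b y + C * (a y ^ 2 + b y ^ 2)) {z : ℝ × ℝ} (az : a z = 0)
    (bz : b z = 0) (y : ℝ × ℝ) : a y = 0 ∧ b y = 0 := by
  have hf : ∀ (f : ℝ × ℝ → ℝ) (y : ℝ × ℝ), fderiv ℝ (fun y => f (y + z)) y = fderiv ℝ f (y + z) :=
    fun f y => fderiv_comp_add_right z
  have hp : ∀ f : ℝ × ℝ → ℝ, Per f → Per (fun y => f (y + z)) := by
    intro f hf y m n
    show f (y + ((m : ℝ), (n : ℝ)) + z) = f (y + z)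
    rw [add_right_comm, hf]
  have hcd : ContDiff ℝ 2 (fun y : ℝ × ℝ => y + z) := by fun_prop
  have := core0 (a := fun y => a (y + z)) (b := fun y => b (y + z)) (ha.comp hcd) (hb.comp hcd)
    (hp a pa) (hp b pb) hc hC (fun y => by
      have := h (y + z)
      simpa only [en, jac, hf] using this) (by simpa using az) (by simpa using bz) (y - z)
  simpa using this


end

end Crest.Agent.R235.NoZero_504
end

-- ▼ part R235/NoZeroT_504

/-!
# Row 235, FIB-B1c (helper504), part 2: `nozero` in the format of `R281.Mc673`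
-/

set_option autoImplicit false

open Set Filter MeasureTheory Topology Real
open scoped ContDiff

namespace Crest.Agent.R235.NoZeroT_504

open Crest.Agent.R281.Mc673
open Crest.Agent.R238.Sch (ee)
open Crest.Agent.R235.NoZero_504 (en jac)

noncomputable section

/-- pointwise algebra: `α r + 2 β s + γ t = τ`, the form `(α, β, γ)` is at least `l`, then
`s² - r t` is coercive up to `τ²` -/
theorem alg {α β γ l L r s t τ : ℝ} (hl : 0 < l) (hα : l ≤ α) (hγ : l ≤ γ) (hαL : α ≤ L)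
    (hγL : γ ≤ L) (hf : ∀ x y : ℝ, l * (x ^ 2 + y ^ 2) ≤ α * x ^ 2 + 2 * β * x * y + γ * y ^ 2)
    (h : α * r + 2 * β * s + γ * t = τ) :
    l / (4 * L) * (r ^ 2 + s ^ 2 + s ^ 2 + t ^ 2) ≤ s ^ 2 - r * t + τ ^ 2 / (2 * l ^ 2) := by
  have hα0 : 0 < α := hl.trans_le hα
  have hγ0 : 0 < γ := hl.trans_le hγ
  have hL0 : 0 < L := hα0.trans_le hαL
  -- first
  have h1 : l / 2 * (s ^ 2 + t ^ 2) / L ≤ s ^ 2 - r * t + τ ^ 2 / (2 * l ^ 2) := by
    have e1 : α * (s ^ 2 - r * t) = α * s ^ 2 + 2 * β * s * t + γ * t ^ 2 - τ * t := by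
      rw [← h]; ring
    have e2 := hf s t
    have e3 : τ * t ≤ l / 2 * t ^ 2 + τ ^ 2 / (2 * l) := by
      have : 0 ≤ (l * t - τ) ^ 2 / (2 * l) := by positivity
      have e4 : (l * t - τ) ^ 2 / (2 * l) = l / 2 * t ^ 2 + τ ^ 2 / (2 * l) - τ * t := by
        field_simp
        ring
      linarith
    have e5 : l / 2 * (s ^ 2 + t ^ 2) ≤ α * (s ^ 2 - r * t) + τ ^ 2 / (2 * l) := by
      nlinarith [mul_nonneg hl.le (sq_nonneg s)]
    have e6 : τ ^ 2 / (2 * l) ≤ α * (τ ^ 2 / (2 * l ^ 2)) := by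
      have : α * (τ ^ 2 / (2 * l ^ 2)) - τ ^ 2 / (2 * l) = (α - l) * (τ ^ 2 / (2 * l ^ 2)) := by
        field_simp
      have h0 : 0 ≤ (α - l) * (τ ^ 2 / (2 * l ^ 2)) := mul_nonneg (by linarith) (by positivity)
      linarith
    have e7 : l / 2 * (s ^ 2 + t ^ 2) ≤ α * (s ^ 2 - r * t + τ ^ 2 / (2 * l ^ 2)) := by
      linarith
    have e8 : 0 ≤ s ^ 2 - r * t + τ ^ 2 / (2 * l ^ 2) := by
      have : 0 ≤ α * (s ^ 2 - r * t + τ ^ 2 / (2 * l ^ 2)) := le_trans (by positivity) e7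
      exact nonneg_of_mul_nonneg_right this hα0
    rw [div_le_iff₀ hL0]
    nlinarith
  have h2 : l / 2 * (r ^ 2 + s ^ 2) / L ≤ s ^ 2 - r * t + τ ^ 2 / (2 * l ^ 2) := by
    have e1 : γ * (s ^ 2 - r * t) = α * r ^ 2 + 2 * β * r * s + γ * s ^ 2 - τ * r := by
      rw [← h]; ring
    have e2 := hf r s
    have e3 : τ * r ≤ l / 2 * r ^ 2 + τ ^ 2 / (2 * l) := by
      have : 0 ≤ (l * r - τ) ^ 2 / (2 * l) := by positivity
      have e4 : (l * r - τ) ^ 2 / (2 * l) = l / 2 * r ^ 2 + τ ^ 2 / (2 * l) - τ * r := by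
        field_simp
        ring
      linarith
    have e5 : l / 2 * (r ^ 2 + s ^ 2) ≤ γ * (s ^ 2 - r * t) + τ ^ 2 / (2 * l) := by
      nlinarith [mul_nonneg hl.le (sq_nonneg s)]
    have e6 : τ ^ 2 / (2 * l) ≤ γ * (τ ^ 2 / (2 * l ^ 2)) := by
      have : γ * (τ ^ 2 / (2 * l ^ 2)) - τ ^ 2 / (2 * l) = (γ - l) * (τ ^ 2 / (2 * l ^ 2)) := by
        field_simp
      have h0 : 0 ≤ (γ - l) * (τ ^ 2 / (2 * l ^ 2)) := mul_nonneg (by linarith) (by positivity)
      linarith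
    have e7 : l / 2 * (r ^ 2 + s ^ 2) ≤ γ * (s ^ 2 - r * t + τ ^ 2 / (2 * l ^ 2)) := by
      linarith
    have e8 : 0 ≤ s ^ 2 - r * t + τ ^ 2 / (2 * l ^ 2) := by
      have : 0 ≤ γ * (s ^ 2 - r * t + τ ^ 2 / (2 * l ^ 2)) := le_trans (by positivity) e7
      exact nonneg_of_mul_nonneg_right this hγ0
    rw [div_le_iff₀ hL0]
    nlinarith
  have e : l / (4 * L) * (r ^ 2 + s ^ 2 + s ^ 2 + t ^ 2) =
      (l / 2 * (s ^ 2 + t ^ 2) / L + l / 2 * (r ^ 2 + s ^ 2) / L) / 2 := by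
    field_simp
    ring
  rw [e]
  linarith

/-- `ℝ × ℝ → V 2` -/
def pe : ℝ × ℝ →L[ℝ] V 2 :=
  (PiLp.continuousLinearEquiv 2 ℝ (fun _ : Fin 2 => ℝ)).symm.toContinuousLinearMap.comp
    (ContinuousLinearMap.pi ![ContinuousLinearMap.fst ℝ ℝ ℝ, ContinuousLinearMap.snd ℝ ℝ ℝ])

theorem pe_apply (y : ℝ × ℝ) : pe y = WithLp.toLp 2 ![y.1, y.2] := by
  ext i
  fin_cases i <;> simp [pe]

theorem pe_e0 : pe (1, 0) = (ee 0 : V 2) := by
  rw [pe_apply]
  ext i
  fin_cases i <;> simp [ee]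

theorem pe_e1 : pe (0, 1) = (ee 1 : V 2) := by
  rw [pe_apply]
  ext i
  fin_cases i <;> simp [ee]

theorem pe_surj (x : V 2) : pe (x 0, x 1) = x := by
  rw [pe_apply]
  ext i
  fin_cases i <;> simp

theorem per_pe {f : V 2 → ℝ} (hf : Per f) : NoZero_504.Per (fun y => f (pe y)) := by
  intro y m n
  have : pe (y + ((m : ℝ), (n : ℝ))) = pe y + kv ![m, n] := by
    rw [map_add]
    congr 1
    rw [pe_apply, kv]
    ext i
    fin_cases i <;> simp
  simp only [this]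
  exact hf _ _

theorem fd_pe {f : V 2 → ℝ} (hf : SP f) (y : ℝ × ℝ) :
    fderiv ℝ (fun y => f (pe y)) y (1, 0) = dr 0 f (pe y) ∧
    fderiv ℝ (fun y => f (pe y)) y (0, 1) = dr 1 f (pe y) := by
  have h := ((hf.diff (pe y)).hasFDerivAt.comp y (pe.hasFDerivAt (x := y))).fderiv
  have h' : fderiv ℝ (fun y => f (pe y)) y = (fderiv ℝ f (pe y)).comp pe := h
  rw [h']
  exact ⟨by rw [ContinuousLinearMap.comp_apply, pe_e0]; rfl,
    by rw [ContinuousLinearMap.comp_apply, pe_e1]; rfl⟩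

/-- **NOZERO**: closed one-forms `η` on the two-torus with `A η` closed (`A` elliptic) have no
zeros unless they vanish identically. -/
theorem nozero (A : V 2 → Matrix (Fin 2) (Fin 2) ℝ) (hA : ∀ i j, SP fun x => A x i j)
    (hpos : ∀ x, ∀ v : Fin 2 → ℝ, v ≠ 0 → 0 < v 0 * (A x).mulVec v 1 - v 1 * (A x).mulVec v 0)
    (eta : V 2 → Fin 2 → ℝ) (heta : ∀ i, SP fun x => eta x i)
    (h1 : ∀ x, dr 0 (fun x => eta x 1) x = dr 1 (fun x => eta x 0) x)
    (h2 : ∀ x, dr 0 (fun x => (A x).mulVec (eta x) 1) x = dr 1 (fun x => (A x).mulVec (eta x) 0) x)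
    (x0 : V 2) (h0 : eta x0 = 0) : ∀ x, eta x = 0 := by
  -- coefficients
  set α : V 2 → ℝ := fun x => A x 1 0 with hα
  set γ : V 2 → ℝ := fun x => - A x 0 1 with hγ
  set β : V 2 → ℝ := fun x => (A x 1 1 - A x 0 0) / 2 with hβ
  have sα : SP α := hA 1 0
  have sγ : SP γ := (hA 0 1).neg
  have sβ : SP β := by
    have := ((hA 1 1).sub (hA 0 0)).smul (2⁻¹ : ℝ)
    refine ⟨by simpa [hβ, div_eq_inv_mul] using this.sm, fun k x => ?_⟩
    have e1 := (hA 1 1).per k x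
    have e0 := (hA 0 0).per k x
    beta_reduce at e1 e0
    show (A (x + kv k) 1 1 - A (x + kv k) 0 0) / 2 = (A x 1 1 - A x 0 0) / 2
    rw [e1, e0]
  have hq : ∀ x (p q : ℝ), ¬ (p = 0 ∧ q = 0) → 0 < α x * p ^ 2 + 2 * β x * p * q + γ x * q ^ 2 := by
    intro x p q hpq
    have hne : (![p, q] : Fin 2 → ℝ) ≠ 0 := by
      intro h
      exact hpq ⟨by simpa using congrFun h 0, by simpa using congrFun h 1⟩
    have := hpos x ![p, q] hne
    simp only [Matrix.mulVec, dotProduct, Fin.sum_univ_two, Matrix.cons_val_zero,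
      Matrix.cons_val_one] at this
    simp only [hα, hβ, hγ]
    linarith
  have pα : ∀ x, 0 < α x := fun x => by
    have := hq x 1 0 (by simp)
    simpa using this
  have pγ : ∀ x, 0 < γ x := fun x => by
    have := hq x 0 1 (by simp)
    simpa using this
  have pD : ∀ x, 0 < α x * γ x - β x ^ 2 := fun x => by
    have h3 := hq x (-β x) (α x) (by rintro ⟨_, h⟩; exact (pα x).ne' h)
    have h4 : α x * (-β x) ^ 2 + 2 * β x * (-β x) * α x + γ x * α x ^ 2 =
        α x * (α x * γ x - β x ^ 2) := by ring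
    rw [h4] at h3
    exact (mul_pos_iff_of_pos_left (pα x)).1 h3
  -- the lower bound
  obtain ⟨l, hl, hll⟩ : ∃ l : ℝ, 0 < l ∧ ∀ x, l ≤ (α x * γ x - β x ^ 2) / (α x + γ x) := by
    have hper : Per (fun x => -((α x * γ x - β x ^ 2) / (α x + γ x))) := by
      intro k x
      simp only [sα.per k x, sβ.per k x, sγ.per k x]
    have hc : Continuous (fun x => -((α x * γ x - β x ^ 2) / (α x + γ x))) :=
      (((sα.cont.mul sγ.cont).sub (sβ.cont.pow 2)).div (sα.cont.add sγ.cont)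
        fun x => (add_pos (pα x) (pγ x)).ne').neg
    obtain ⟨x1, hx1⟩ := hper.exists_max hc
    refine ⟨(α x1 * γ x1 - β x1 ^ 2) / (α x1 + γ x1), div_pos (pD x1)
      (add_pos (pα x1) (pγ x1)), fun x => ?_⟩
    have := hx1 x
    linarith
  obtain ⟨L1, hL1, hL1'⟩ := sα.per.bdd sα.cont
  obtain ⟨L2, hL2, hL2'⟩ := sγ.per.bdd sγ.cont
  set L := max L1 L2 with hL
  have hαL : ∀ x, α x ≤ L := fun x => (le_abs_self _).trans ((hL1' x).trans (le_max_left _ _))
  have hγL : ∀ x, γ x ≤ L := fun x => (le_abs_self _).trans ((hL2' x).trans (le_max_right _ _))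
  have hlα : ∀ x, l ≤ α x := fun x => (hll x).trans (by
    rw [div_le_iff₀ (add_pos (pα x) (pγ x))]
    nlinarith [sq_nonneg (α x), sq_nonneg (β x)])
  have hlγ : ∀ x, l ≤ γ x := fun x => (hll x).trans (by
    rw [div_le_iff₀ (add_pos (pα x) (pγ x))]
    nlinarith [sq_nonneg (γ x), sq_nonneg (β x)])
  have hform : ∀ x, ∀ p q : ℝ, l * (p ^ 2 + q ^ 2) ≤ α x * p ^ 2 + 2 * β x * p * q + γ x * q ^ 2 := by
    intro x p q
    set m := (α x * γ x - β x ^ 2) / (α x + γ x) with hm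
    have hs := add_pos (pα x) (pγ x)
    have hmm : m * (α x + γ x) = α x * γ x - β x ^ 2 := by
      rw [hm]; field_simp
    have h5 : 0 < α x - m := by
      have : (α x - m) * (α x + γ x) = α x ^ 2 + β x ^ 2 := by
        rw [sub_mul, hmm]; ring
      have h6 : 0 < α x ^ 2 + β x ^ 2 := by have := pα x; positivity
      rw [← this] at h6
      exact (mul_pos_iff_of_pos_right hs).1 h6
    have h7 : (α x - m) * (α x * p ^ 2 + 2 * β x * p * q + γ x * q ^ 2 - m * (p ^ 2 + q ^ 2)) =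
        ((α x - m) * p + β x * q) ^ 2 + m ^ 2 * q ^ 2 := by
      have h8 : (α x - m) * (γ x - m) - β x ^ 2 = m ^ 2 := by nlinarith
      linear_combination q ^ 2 * h8
    have h9 : 0 ≤ α x * p ^ 2 + 2 * β x * p * q + γ x * q ^ 2 - m * (p ^ 2 + q ^ 2) := by
      have : 0 ≤ (α x - m) * (α x * p ^ 2 + 2 * β x * p * q + γ x * q ^ 2 - m * (p ^ 2 + q ^ 2)) := by
        rw [h7]; positivity
      exact nonneg_of_mul_nonneg_right this h5
    have h10 : l * (p ^ 2 + q ^ 2) ≤ m * (p ^ 2 + q ^ 2) :=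
      mul_le_mul_of_nonneg_right (hll x) (by positivity)
    linarith
  -- the lower order term
  obtain ⟨K, hK0, hK⟩ : ∃ K : ℝ, 0 ≤ K ∧ ∀ x, |α x * dr 0 (fun x => eta x 0) x +
      2 * β x * dr 0 (fun x => eta x 1) x + γ x * dr 1 (fun x => eta x 1) x| ≤
      K * (|eta x 0| + |eta x 1|) := by
    obtain ⟨K1, k1, hK1⟩ := ((hA 1 0).dr 0).per.bdd ((hA 1 0).dr 0).cont
    obtain ⟨K2, k2, hK2⟩ := ((hA 1 1).dr 0).per.bdd ((hA 1 1).dr 0).cont
    obtain ⟨K3, k3, hK3⟩ := ((hA 0 0).dr 1).per.bdd ((hA 0 0).dr 1).cont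
    obtain ⟨K4, k4, hK4⟩ := ((hA 0 1).dr 1).per.bdd ((hA 0 1).dr 1).cont
    refine ⟨K1 + K2 + K3 + K4, by positivity, fun x => ?_⟩
    have e1 : dr 0 (fun x => (A x).mulVec (eta x) 1) x =
        dr 0 (fun x => A x 1 0) x * eta x 0 + A x 1 0 * dr 0 (fun x => eta x 0) x +
        (dr 0 (fun x => A x 1 1) x * eta x 1 + A x 1 1 * dr 0 (fun x => eta x 1) x) := by
      have : (fun x => (A x).mulVec (eta x) 1) =
          fun x => A x 1 0 * eta x 0 + A x 1 1 * eta x 1 := by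
        funext x; simp [Matrix.mulVec, dotProduct, Fin.sum_univ_two]
      rw [this, dr_add ((hA 1 0).mul (heta 0)) ((hA 1 1).mul (heta 1)),
        dr_mul (hA 1 0) (heta 0), dr_mul (hA 1 1) (heta 1)]
    have e2 : dr 1 (fun x => (A x).mulVec (eta x) 0) x =
        dr 1 (fun x => A x 0 0) x * eta x 0 + A x 0 0 * dr 1 (fun x => eta x 0) x +
        (dr 1 (fun x => A x 0 1) x * eta x 1 + A x 0 1 * dr 1 (fun x => eta x 1) x) := by
      have : (fun x => (A x).mulVec (eta x) 0) =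
          fun x => A x 0 0 * eta x 0 + A x 0 1 * eta x 1 := by
        funext x; simp [Matrix.mulVec, dotProduct, Fin.sum_univ_two]
      rw [this, dr_add ((hA 0 0).mul (heta 0)) ((hA 0 1).mul (heta 1)),
        dr_mul (hA 0 0) (heta 0), dr_mul (hA 0 1) (heta 1)]
    have e3 := h2 x
    rw [e1, e2] at e3
    have e4 : α x * dr 0 (fun x => eta x 0) x + 2 * β x * dr 0 (fun x => eta x 1) x +
        γ x * dr 1 (fun x => eta x 1) x =
        -(dr 0 (fun x => A x 1 0) x * eta x 0) - dr 0 (fun x => A x 1 1) x * eta x 1 +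
        dr 1 (fun x => A x 0 0) x * eta x 0 + dr 1 (fun x => A x 0 1) x * eta x 1 := by
      have e5 := h1 x
      simp only [hα, hβ, hγ]
      rw [← e5] at e3
      linarith
    rw [e4]
    have a1 := hK1 x
    have a2 := hK2 x
    have a3 := hK3 x
    have a4 := hK4 x
    rw [Real.norm_eq_abs] at a1 a2 a3 a4
    have b1 : |dr 0 (fun x => A x 1 0) x * eta x 0| ≤ K1 * |eta x 0| := by
      rw [abs_mul]; exact mul_le_mul_of_nonneg_right a1 (abs_nonneg _)
    have b2 : |dr 0 (fun x => A x 1 1) x * eta x 1| ≤ K2 * |eta x 1| := by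
      rw [abs_mul]; exact mul_le_mul_of_nonneg_right a2 (abs_nonneg _)
    have b3 : |dr 1 (fun x => A x 0 0) x * eta x 0| ≤ K3 * |eta x 0| := by
      rw [abs_mul]; exact mul_le_mul_of_nonneg_right a3 (abs_nonneg _)
    have b4 : |dr 1 (fun x => A x 0 1) x * eta x 1| ≤ K4 * |eta x 1| := by
      rw [abs_mul]; exact mul_le_mul_of_nonneg_right a4 (abs_nonneg _)
    have c1 := abs_nonneg (eta x 0)
    have c2 := abs_nonneg (eta x 1)
    rw [abs_le] at b1 b2 b3 b4 ⊢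
    constructor <;> nlinarith [b1.1, b1.2, b2.1, b2.2, b3.1, b3.2, b4.1, b4.2]
  -- the core
  set a : ℝ × ℝ → ℝ := fun y => eta (pe y) 0 with ha
  set b : ℝ × ℝ → ℝ := fun y => eta (pe y) 1 with hb
  have ca : ContDiff ℝ 2 a := ((heta 0).sm.comp pe.contDiff).of_le (by norm_cast)
  have cb : ContDiff ℝ 2 b := ((heta 1).sm.comp pe.contDiff).of_le (by norm_cast)
  have key : ∀ y, l / (4 * L) * en a b y ≤ -jac a b y + K ^ 2 / l ^ 2 * (a y ^ 2 + b y ^ 2) := by
    intro y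
    obtain ⟨a1, a2⟩ := fd_pe (heta 0) y
    obtain ⟨b1, b2⟩ := fd_pe (heta 1) y
    have e := h1 (pe y)
    have h3 := alg hl (hlα (pe y)) (hlγ (pe y)) (hαL (pe y)) (hγL (pe y)) (hform (pe y))
      (rfl : α (pe y) * dr 0 (fun x => eta x 0) (pe y) + 2 * β (pe y) *
        dr 0 (fun x => eta x 1) (pe y) + γ (pe y) * dr 1 (fun x => eta x 1) (pe y) = _)
    have h4 := hK (pe y)
    set τ := α (pe y) * dr 0 (fun x => eta x 0) (pe y) + 2 * β (pe y) *
        dr 0 (fun x => eta x 1) (pe y) + γ (pe y) * dr 1 (fun x => eta x 1) (pe y)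
    have h5 : τ ^ 2 ≤ K ^ 2 * (2 * (a y ^ 2 + b y ^ 2)) := by
      have : |τ| ^ 2 ≤ (K * (|a y| + |b y|)) ^ 2 := pow_le_pow_left₀ (abs_nonneg _) h4 2
      rw [sq_abs] at this
      refine this.trans ?_
      rw [mul_pow]
      refine mul_le_mul_of_nonneg_left ?_ (sq_nonneg K)
      nlinarith [sq_abs (a y), sq_abs (b y), sq_nonneg (|a y| - |b y|)]
    have h6 : τ ^ 2 / (2 * l ^ 2) ≤ K ^ 2 / l ^ 2 * (a y ^ 2 + b y ^ 2) := by
      rw [div_le_iff₀ (by positivity)]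
      have : K ^ 2 / l ^ 2 * (a y ^ 2 + b y ^ 2) * (2 * l ^ 2) =
          K ^ 2 * (2 * (a y ^ 2 + b y ^ 2)) := by field_simp
      rw [this]
      exact h5
    have h7 : en a b y = dr 0 (fun x => eta x 0) (pe y) ^ 2 + dr 0 (fun x => eta x 1) (pe y) ^ 2 +
        dr 0 (fun x => eta x 1) (pe y) ^ 2 + dr 1 (fun x => eta x 1) (pe y) ^ 2 := by
      simp only [en, ha, hb]
      rw [a1, a2, b1, b2, e]
    have h8 : jac a b y = dr 0 (fun x => eta x 0) (pe y) * dr 1 (fun x => eta x 1) (pe y) -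
        dr 0 (fun x => eta x 1) (pe y) ^ 2 := by
      simp only [jac, ha, hb]
      rw [a1, a2, b1, b2, e]
      ring
    rw [h7, h8]
    linarith
  have hL0 : 0 < L := (pα 0).trans_le (hαL 0)
  have hz := NoZero_504.core ca cb (per_pe (heta 0).per) (per_pe (heta 1).per)
    (c := l / (4 * L)) (C := K ^ 2 / l ^ 2) (by positivity) (by positivity) key
    (z := (x0 0, x0 1)) (by simp only [ha, pe_surj, h0]; rfl) (by simp only [hb, pe_surj, h0]; rfl)
  intro x
  have := hz (x 0, x 1)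
  simp only [ha, hb, pe_surj] at this
  funext i
  fin_cases i
  · exact this.1
  · exact this.2

end

end Crest.Agent.R235.NoZeroT_504
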