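import Crest.Agent.R235.TorSch2_384_Mg
import Crest.Agent.R281.Mc6_673
import Mathlib
import Crest.Agent.R235.TorFamDefs_384
import Crest.Agent.R235.NoZeroT_504

-- ▼ part R235/TorHS_384
section

/-!
# Row 235 (S0364), TOR / FIB-B1 (helper384): Hölder spaces on `V N`, opaque wrappers

`HS a N F` is `Hol a (V N) F` behind a definition, so that instance search is fast.
-/

set_option autoImplicit false

open MeasureTheory Set Metric Filter Topology
open scoped ContDiff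

namespace Crest.Agent.R235.TorHS_384

open Crest.Agent.R238.Sch (ee norm_ee)
open Crest.Agent.R273.SchA_152 (HO)
open Crest.Agent.R281.Mc673
open Crest.Agent.R235.NWDefs_334
open Crest.Agent.R235.TorOm_384 (BS Lp)

noncomputable section

/-- Banach space of bounded `a`-Hölder functions `V N → F` -/
def HS (a : ℝ) (N : ℕ) (F : Type) [NormedAddCommGroup F] [NormedSpace ℝ F] : Type :=
  ↥(Hol a (V N) F)

variable {a : ℝ} {N : ℕ} {E F G : Type} [NormedAddCommGroup E] [NormedSpace ℝ E]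
  [NormedAddCommGroup F] [NormedSpace ℝ F] [NormedAddCommGroup G] [NormedSpace ℝ G]

instance : NormedAddCommGroup (HS a N F) := inferInstanceAs (NormedAddCommGroup ↥(Hol a (V N) F))
instance : NormedSpace ℝ (HS a N F) := inferInstanceAs (NormedSpace ℝ ↥(Hol a (V N) F))
instance [CompleteSpace F] : CompleteSpace (HS a N F) :=
  inferInstanceAs (CompleteSpace ↥(Hol a (V N) F))

namespace HS

/-- the underlying function -/
def fn (u : HS a N F) : V N → F := Hol.fn (X := V N) (a := a) (E := F) u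

@[simp] theorem fn_add (u v : HS a N F) (x : V N) : fn (u + v) x = fn u x + fn v x := rfl
@[simp] theorem fn_sub (u v : HS a N F) (x : V N) : fn (u - v) x = fn u x - fn v x := rfl
@[simp] theorem fn_neg (u : HS a N F) (x : V N) : fn (-u) x = -(fn u x) := rfl
@[simp] theorem fn_zero (x : V N) : fn (0 : HS a N F) x = 0 := rfl
@[simp] theorem fn_smul (c : ℝ) (u : HS a N F) (x : V N) : fn (c • u) x = c • fn u x := rfl

theorem ext {u v : HS a N F} (h : ∀ x, fn u x = fn v x) : u = v := NWHol_952.ext h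

omit [NormedSpace ℝ F] in
theorem hb_iff {M : ℝ} {f : V N → F} : HB a M f ↔ HO a M univ f :=
  ⟨fun h => ⟨fun x _ => h.bdd x, fun x _ y _ => by
      have := h.hol x y; rwa [dist_eq_norm] at this⟩,
    fun h => ⟨fun x => h.bdd x (mem_univ x), fun x y => by
      rw [dist_eq_norm]; exact h.hol x (mem_univ x) y (mem_univ y)⟩⟩

theorem ho (u : HS a N F) : HO a ‖u‖ univ (fn u) := hb_iff.1 (NWHol_952.hb u)

theorem norm_fn_le (u : HS a N F) (x : V N) : ‖fn u x‖ ≤ ‖u‖ := (ho u).bdd x (mem_univ x)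

theorem norm_le {u : HS a N F} {M : ℝ} (h : HO a M univ (fn u)) : ‖u‖ ≤ M :=
  NWHol_952.norm_le (h.nonneg (mem_univ 0)) (hb_iff.2 h)

/-- constructor -/
def mk (ha : 0 < a) (f : V N → F) (M : ℝ) (h : HO a M univ f) : HS a N F :=
  NWHol_952.mk ha f M (hb_iff.2 h)

@[simp] theorem fn_mk (ha : 0 < a) (f : V N → F) (M : ℝ) (h : HO a M univ f) :
    fn (mk ha f M h) = f := rfl


/-- evaluation -/
def ev (x : V N) : HS a N F →L[ℝ] F := NWHol_952.ev (a := a) (E := F) x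

@[simp] theorem ev_apply (x : V N) (u : HS a N F) : ev x u = fn u x := rfl

theorem fn_continuous (u : HS a N F) : Continuous (fn u) := NWHol_952.fn_continuous _

theorem fn_sum {ι : Type*} (s : Finset ι) (u : ι → HS a N F) (x : V N) :
    fn (∑ i ∈ s, u i) x = ∑ i ∈ s, fn (u i) x := map_sum (ev (a := a) (F := F) x) u s

/-- bilinear operation -/
def bl (B : E →L[ℝ] F →L[ℝ] G) : HS a N E →L[ℝ] HS a N F →L[ℝ] HS a N G :=
  NWHol_952.bl (X := V N) (a := a) B

@[simp] theorem fn_bl (B : E →L[ℝ] F →L[ℝ] G) (u : HS a N E) (v : HS a N F) (x : V N) :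
    fn (bl B u v) x = B (fn u x) (fn v x) := rfl

/-- linear operation -/
def cl (T : E →L[ℝ] F) : HS a N E →L[ℝ] HS a N F := NWHol_952.clL (X := V N) (a := a) T

@[simp] theorem fn_cl (T : E →L[ℝ] F) (u : HS a N E) (x : V N) : fn (cl T u) x = T (fn u x) := rfl

/-- constants -/
def cst : E →L[ℝ] HS a N E := NWHol_952.cst (V N)

@[simp] theorem fn_cst (e : E) (x : V N) : fn (cst e : HS a N E) x = e := rfl

/-- pairs -/
def pair : (HS a N E × HS a N F) →L[ℝ] HS a N (E × F) := NWHol_952.pair (X := V N) (a := a)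

@[simp] theorem fn_pair (p : HS a N E × HS a N F) (x : V N) : fn (pair p) x = (fn p.1 x, fn p.2 x) :=
  rfl

/-- translation -/
def tr (h : V N) : HS a N F →L[ℝ] HS a N F :=
  LinearMap.mkContinuous
    { toFun := fun u => NWHol_952.mkc (fun x => fn u (x + h))
        ((fn_continuous u).comp (continuous_id.add continuous_const)) ‖u‖
        (hb_iff.2 ⟨fun x _ => norm_fn_le u _, fun x _ y _ => by
          have := (ho u).hol (x + h) (mem_univ _) (y + h) (mem_univ _)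
          rwa [add_sub_add_right_eq_sub] at this⟩)
      map_add' := fun u v => ext fun x => rfl
      map_smul' := fun c u => ext fun x => rfl } 1 (fun u => by
        rw [one_mul]
        exact norm_le ⟨fun x _ => norm_fn_le u _, fun x _ y _ => by
          have := (ho u).hol (x + h) (mem_univ _) (y + h) (mem_univ _)
          rwa [add_sub_add_right_eq_sub] at this⟩)

@[simp] theorem fn_tr (h : V N) (u : HS a N F) (x : V N) : fn (tr h u) x = fn u (x + h) := rfl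

theorem norm_tr_le (h : V N) (u : HS a N F) : ‖tr h u‖ ≤ ‖u‖ :=
  norm_le ⟨fun x _ => norm_fn_le u _, fun x _ y _ => by
    have := (ho u).hol (x + h) (mem_univ _) (y + h) (mem_univ _)
    rwa [add_sub_add_right_eq_sub] at this⟩

/-- a smooth periodic function as an element of the Hölder space -/
def ofSP (ha : 0 < a) (ha1 : a ≤ 1) (f : V N → F) (hf : SP f) : HS a N F :=
  mk ha f (hf.ho ha.le ha1).choose (hf.ho ha.le ha1).choose_spec

@[simp] theorem fn_ofSP (ha : 0 < a) (ha1 : a ≤ 1) (f : V N → F) (hf : SP f) :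
    fn (ofSP ha ha1 f hf) = f := rfl

/-- Nemytskii operator with base map -/
def om (ha : 0 < a) (ha1 : a ≤ 1) {L : ℝ} {z0 : V N → E} (hz : Lp L z0) (f : E → F) (hf : BS f)
    (u : HS a N E) : HS a N F := TorOm_384.Om (X := V N) ha ha1 hz f hf u

@[simp] theorem fn_om (ha : 0 < a) (ha1 : a ≤ 1) {L : ℝ} {z0 : V N → E} (hz : Lp L z0) (f : E → F)
    (hf : BS f) (u : HS a N E) (x : V N) : fn (om ha ha1 hz f hf u) x = f (z0 x + fn u x) := rfl

theorem contDiff_om (ha : 0 < a) (ha1 : a ≤ 1) {L : ℝ} {z0 : V N → E} (hz : Lp L z0) (f : E → F)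
    (hf : BS f) : ContDiff ℝ ∞ (om ha ha1 hz f hf) :=
  TorOm_384.Om_contDiff (X := V N) ha ha1 hz f hf

end HS

end

end Crest.Agent.R235.TorHS_384
end

-- ▼ part R235/TorSp_384
section

/-!
# Row 235 (S0364), TOR / FIB-B1 (helper384): function spaces on the torus

* `YY a N`   : closure of the smooth periodic functions of mean zero in `HS a N ℝ`
* `XX a N`   : closure of the 2-jets of smooth periodic functions of mean zero
* `Lop S`    : the operator `∑ ∂_i (S_ij ∂_j ·)` on 2-jets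
* `Leq`      : `Lop S : XX → YY` is bijective (method of continuity)
-/

set_option autoImplicit false

open MeasureTheory Set Metric Filter Topology
open scoped ContDiff

namespace Crest.Agent.R235.TorSp_384

open Crest.Agent.R238 (Ell)
open Crest.Agent.R238.Sch (ee D2 LB norm_ee)
open Crest.Agent.R273.SchA_152 (HO)
open Crest.Agent.R275.Tor812
open Crest.Agent.R281.Mc673
open Crest.Agent.R235.TorSch_384 Crest.Agent.R235.TorHS_384 Crest.Agent.R235.TorHS_384.HS

noncomputable section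

/-! ### the method of continuity -/

section cont

variable {X Y : Type*} [NormedAddCommGroup X] [NormedSpace ℝ X] [CompleteSpace X]
  [NormedAddCommGroup Y] [NormedSpace ℝ Y]

theorem closed_range {A : X →L[ℝ] Y} {C : ℝ} (hC : 0 ≤ C) (h : ∀ x, ‖x‖ ≤ C * ‖A x‖) :
    IsClosed (range A) := by
  have h1 : AntilipschitzWith C.toNNReal A := by
    refine AddMonoidHomClass.antilipschitz_of_bound A fun x => ?_
    rw [Real.coe_toNNReal C hC]
    exact h x
  exact h1.isClosed_range A.uniformContinuous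

theorem surj_step {A D : X →L[ℝ] Y} {C : ℝ} (hC : 0 ≤ C) (h : ∀ x, ‖x‖ ≤ C * ‖A x‖)
    (h' : ∀ x, ‖x‖ ≤ C * ‖(A + D) x‖) (hA : Function.Surjective A) (hD : C * ‖D‖ ≤ 1 / 2) :
    Function.Surjective (A + D) := by
  by_contra hc
  have hcl : IsClosed ((LinearMap.range ((A + D : X →L[ℝ] Y) : X →ₗ[ℝ] Y) : Submodule ℝ Y) :
      Set Y) := by
    have h1 := closed_range hC h'
    have h2 : ((LinearMap.range ((A + D : X →L[ℝ] Y) : X →ₗ[ℝ] Y) : Submodule ℝ Y) : Set Y) =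
        range (A + D) := by
      ext y; simp [LinearMap.mem_range]
    rw [h2]; exact h1
  have hne : ∃ y : Y, y ∉ LinearMap.range ((A + D : X →L[ℝ] Y) : X →ₗ[ℝ] Y) := by
    by_contra hall
    push Not at hall
    exact hc fun y => by
      obtain ⟨x, hx⟩ := hall y
      exact ⟨x, hx⟩
  obtain ⟨y, hy, hy2⟩ := riesz_lemma hcl hne (r := 3 / 4) (by norm_num)
  have hy0 : y ≠ 0 := fun h0 => hy (h0 ▸ Submodule.zero_mem _)
  have hyp : 0 < ‖y‖ := norm_pos_iff.2 hy0
  obtain ⟨x, hx⟩ := hA y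
  have h1 := hy2 ((A + D) x) ⟨x, rfl⟩
  have h2 : y - (A + D) x = - D x := by
    rw [← hx]; simp
  rw [h2, norm_neg] at h1
  have h3 : ‖D x‖ ≤ 1 / 2 * ‖y‖ := by
    calc ‖D x‖ ≤ ‖D‖ * ‖x‖ := D.le_opNorm x
      _ ≤ ‖D‖ * (C * ‖A x‖) := mul_le_mul_of_nonneg_left (h x) (norm_nonneg _)
      _ = (C * ‖D‖) * ‖y‖ := by rw [hx]; ring
      _ ≤ _ := mul_le_mul_of_nonneg_right hD hyp.le
  linarith

theorem cont_method (A B : X →L[ℝ] Y) {C : ℝ} (hC : 0 ≤ C)
    (h : ∀ t ∈ Icc (0 : ℝ) 1, ∀ x, ‖x‖ ≤ C * ‖((1 - t) • A + t • B) x‖)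
    (hA : Function.Surjective A) : Function.Surjective B := by
  obtain ⟨n, hn⟩ := exists_nat_gt (2 * (C * ‖B - A‖) + 1)
  have hn0 : (0 : ℝ) < n := by
    have : 0 ≤ C * ‖B - A‖ := mul_nonneg hC (norm_nonneg _)
    linarith
  have key : ∀ k : ℕ, k ≤ n →
      Function.Surjective ((1 - (k / n : ℝ)) • A + (k / n : ℝ) • B) := by
    intro k
    induction k with
    | zero =>
      intro _
      simpa using hA
    | succ k ih =>
      intro hk
      have hk' : k ≤ n := by omega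
      have hkn : (k : ℝ) + 1 ≤ n := by exact_mod_cast hk
      have m1 : (k / n : ℝ) ∈ Icc (0 : ℝ) 1 :=
        ⟨by positivity, by rw [div_le_one hn0]; linarith⟩
      have m2 : ((k + 1 : ℕ) / n : ℝ) ∈ Icc (0 : ℝ) 1 :=
        ⟨by positivity, by rw [div_le_one hn0]; push_cast; exact hkn⟩
      have e : (1 - ((k + 1 : ℕ) / n : ℝ)) • A + ((k + 1 : ℕ) / n : ℝ) • B =
          ((1 - (k / n : ℝ)) • A + (k / n : ℝ) • B) + (1 / n : ℝ) • (B - A) := by
        ext x
        simp only [add_apply, smul_apply, sub_apply, Nat.cast_add, Nat.cast_one, add_div, sub_smul,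
          add_smul, one_smul, smul_sub]
        abel
      have h2 := h _ m2
      rw [e] at h2 ⊢
      refine surj_step hC (h _ m1) h2 (ih hk') ?_
      rw [norm_smul, Real.norm_eq_abs, abs_of_pos (by positivity)]
      have : C * (1 / n * ‖B - A‖) = (C * ‖B - A‖) / n := by ring
      rw [this, div_le_iff₀ hn0]
      linarith
  have h1 := key n le_rfl
  rw [div_self hn0.ne'] at h1
  simpa using h1

end cont

/-! ### Hölder spaces of periodic functions -/

variable {a : ℝ} {N : ℕ}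

variable (a N) in
/-- the space of 2-jets -/
abbrev P2J : Type := HS a N ℝ × HS a N (V N →L[ℝ] ℝ) ×
  HS a N (V N →L[ℝ] V N →L[ℝ] ℝ)

/-- the 2-jet of a smooth function -/
structure IsJet (q : P2J a N) : Prop where
  sp : SP (HS.fn q.1)
  mn0 : mn (HS.fn q.1) = 0
  h1 : ∀ x, HasFDerivAt (HS.fn q.1) (HS.fn q.2.1 x) x
  h2 : ∀ x, HasFDerivAt (HS.fn q.2.1) (HS.fn q.2.2 x) x

theorem IsJet.d1 {q : P2J a N} (h : IsJet q) : HS.fn q.2.1 = fderiv ℝ (HS.fn q.1) :=
  funext fun x => (h.h1 x).fderiv.symm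

theorem IsJet.d2 {q : P2J a N} (h : IsJet q) :
    HS.fn q.2.2 = fderiv ℝ (fderiv ℝ (HS.fn q.1)) := by
  rw [← h.d1]
  exact funext fun x => (h.h2 x).fderiv.symm

variable (a N) in
/-- smooth 2-jets, mean zero -/
def JS : Submodule ℝ (P2J a N) where
  carrier := {q | IsJet q}
  add_mem' := by
    rintro ⟨p, p', p''⟩ ⟨q, q', q''⟩ hp hq
    refine ⟨hp.sp.add hq.sp, ?_, fun x => (hp.h1 x).add (hq.h1 x), fun x => (hp.h2 x).add (hq.h2 x)⟩
    have := mn_add hp.sp hq.sp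
    rw [hp.mn0, hq.mn0, add_zero] at this
    exact this
  zero_mem' := ⟨SP.const 0, mn_const 0, fun x => hasFDerivAt_const _ x,
    fun x => hasFDerivAt_const _ x⟩
  smul_mem' := by
    rintro c ⟨q, q', q''⟩ hq
    refine ⟨hq.sp.smul c, ?_, fun x => (hq.h1 x).const_smul c, fun x => (hq.h2 x).const_smul c⟩
    have := mn_mul c (HS.fn q)
    have h0 : mn (HS.fn q) = 0 := hq.mn0
    rw [h0, mul_zero] at this
    exact this

variable (a N) in
/-- smooth functions of mean zero -/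
def YS : Submodule ℝ (HS a N ℝ) where
  carrier := {u | SP (HS.fn u) ∧ mn (HS.fn u) = 0}
  add_mem' := by
    rintro p q hp hq
    have e0 : HS.fn (p + q) = fun x => HS.fn p x + HS.fn q x := rfl
    exact ⟨by rw [e0]; exact hp.1.add hq.1, by rw [e0, mn_add hp.1 hq.1, hp.2, hq.2, add_zero]⟩
  zero_mem' := by
    have e0 : HS.fn (0 : HS a N ℝ) = fun _ => (0 : ℝ) := rfl
    exact ⟨by rw [e0]; exact SP.const 0, by rw [e0, mn_const]⟩
  smul_mem' := by
    rintro c q hq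
    have e0 : HS.fn (c • q) = fun x => c • HS.fn q x := rfl
    refine ⟨by rw [e0]; exact hq.1.smul c, ?_⟩
    rw [e0]
    simp only [smul_eq_mul]
    rw [mn_mul, hq.2, mul_zero]

variable (a N) in
/-- the space of potentials -/
def XX : Submodule ℝ (P2J a N) := (JS a N).topologicalClosure

variable (a N) in
/-- the target space -/
def YY : Submodule ℝ (HS a N ℝ) := (YS a N).topologicalClosure

theorem JS_le : JS a N ≤ XX a N := Submodule.le_topologicalClosure _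

theorem YS_le : YS a N ≤ YY a N := Submodule.le_topologicalClosure _

instance : CompleteSpace (XX a N) := (Submodule.isClosed_topologicalClosure _).completeSpace_coe

instance : CompleteSpace (YY a N) := (Submodule.isClosed_topologicalClosure _).completeSpace_coe

/-- the 2-jet of a smooth function -/
def jet (ha : 0 < a) (ha1 : a ≤ 1) (w : V N → ℝ) (hw : SP w) : P2J a N :=
  (ofSP ha ha1 w hw, ofSP ha ha1 (fderiv ℝ w) hw.fderiv,
    ofSP ha ha1 (fderiv ℝ (fderiv ℝ w)) hw.fderiv.fderiv)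

theorem jet_mem (ha : 0 < a) (ha1 : a ≤ 1) {w : V N → ℝ} (hw : SP w) (hm : mn w = 0) :
    jet ha ha1 w hw ∈ JS a N :=
  ⟨hw, hm, fun x => (hw.diff x).hasFDerivAt, fun x => (hw.fderiv.diff x).hasFDerivAt⟩

/-! ### the operator -/

section op

variable {S : V N → Matrix (Fin N) (Fin N) ℝ}

/-- multiplication by a smooth function -/
def mulS (ha : 0 < a) (ha1 : a ≤ 1) (f : V N → ℝ) (hf : SP f) :
    HS a N ℝ →L[ℝ] HS a N ℝ :=
  bl (ContinuousLinearMap.mul ℝ ℝ) (ofSP ha ha1 f hf)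

@[simp] theorem fn_mulS (ha : 0 < a) (ha1 : a ≤ 1) (f : V N → ℝ) (hf : SP f)
    (u : HS a N ℝ) (x : V N) : HS.fn (mulS ha ha1 f hf u) x = f x * HS.fn u x := rfl

/-- evaluation of the second derivative -/
def ev2 (i j : Fin N) : (V N →L[ℝ] V N →L[ℝ] ℝ) →L[ℝ] ℝ :=
  (ContinuousLinearMap.apply ℝ ℝ (ee j)).comp (ContinuousLinearMap.apply ℝ (V N →L[ℝ] ℝ) (ee i))

@[simp] theorem ev2_apply (i j : Fin N) (L : V N →L[ℝ] V N →L[ℝ] ℝ) :
    ev2 i j L = L (ee i) (ee j) := rfl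

/-- evaluation of the first derivative -/
def ev1 (j : Fin N) : (V N →L[ℝ] ℝ) →L[ℝ] ℝ := ContinuousLinearMap.apply ℝ ℝ (ee j)

@[simp] theorem ev1_apply (j : Fin N) (L : V N →L[ℝ] ℝ) : ev1 j L = L (ee j) := rfl

/-- the operator on jets -/
def Lop (ha : 0 < a) (ha1 : a ≤ 1) (hS : SM S) : P2J a N →L[ℝ] HS a N ℝ :=
  (∑ i, ∑ j, (mulS ha ha1 _ (hS i j)).comp ((cl (ev2 i j)).comp
    ((ContinuousLinearMap.snd ℝ _ _).comp (ContinuousLinearMap.snd ℝ _ _)))) +
  ∑ i, ∑ j, (mulS ha ha1 _ ((hS i j).dr i)).comp ((cl (ev1 j)).comp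
    ((ContinuousLinearMap.fst ℝ _ _).comp (ContinuousLinearMap.snd ℝ _ _)))

theorem fn_Lop (ha : 0 < a) (ha1 : a ≤ 1) (hS : SM S) (q : P2J a N) (x : V N) :
    HS.fn (Lop ha ha1 hS q) x = (∑ i, ∑ j, S x i j * HS.fn q.2.2 x (ee i) (ee j)) +
      ∑ i, ∑ j, dr i (fun y => S y i j) x * HS.fn q.2.1 x (ee j) := by
  simp only [Lop, add_apply, fn_add, sum_apply, fn_sum, ContinuousLinearMap.comp_apply,
    fn_mulS, fn_cl, ev2_apply, ev1_apply, ContinuousLinearMap.coe_snd',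
    ContinuousLinearMap.coe_fst']

theorem Lop_jet (ha : 0 < a) (ha1 : a ≤ 1) (hS : SM S) {q : P2J a N} (hq : IsJet q) :
    HS.fn (Lop ha ha1 hS q) = LL S (HS.fn q.1) := by
  funext x
  rw [fn_Lop, LL_eq hS hq.sp, hq.d1, hq.d2]
  congr 1
  refine Finset.sum_congr rfl fun i _ => Finset.sum_congr rfl fun j _ => ?_
  rw [← D2_eq hq.sp]
  rfl

theorem Lop_mem (ha : 0 < a) (ha1 : a ≤ 1) (hS : SM S) {q : P2J a N} (hq : q ∈ XX a N) :
    Lop ha ha1 hS q ∈ YY a N := by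
  refine map_mem_closure (Lop ha ha1 hS).continuous hq fun p hp => ?_
  have hp' : IsJet p := hp
  have e := Lop_jet ha ha1 hS hp'
  exact ⟨by rw [e]; exact sp_LL hS hp'.sp, by rw [e]; exact mn_LL hS hp'.sp⟩

/-- the operator `XX → YY` -/
def LX (ha : 0 < a) (ha1 : a ≤ 1) (hS : SM S) : XX a N →L[ℝ] YY a N :=
  ((Lop ha ha1 hS).comp (XX a N).subtypeL).codRestrict (YY a N) fun q => Lop_mem ha ha1 hS q.2

@[simp] theorem LX_coe (ha : 0 < a) (ha1 : a ≤ 1) (hS : SM S) (q : XX a N) :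
    (LX ha ha1 hS q : HS a N ℝ) = Lop ha ha1 hS q := rfl

/-- a priori estimate, uniform -/
theorem apriori (N : ℕ) {a lam M : ℝ} (ha : 0 < a) (ha1 : a < 1) (hlam : 0 < lam) (hM : 0 ≤ M) :
    ∃ C : ℝ, 0 ≤ C ∧ ∀ (S : V N → Matrix (Fin N) (Fin N) ℝ) (hS : SM S), BdS a M S → El lam S →
      ∀ q : XX a N, ‖q‖ ≤ C * ‖LX ha ha1.le hS q‖ := by
  obtain ⟨C, hC, H⟩ := torus_schauder_var N ha ha1 hlam hM
  refine ⟨C, hC.le, fun S hS hb hl q => ?_⟩
  have h1 : ∀ p : P2J a N, p ∈ XX a N → ‖p‖ ≤ C * ‖Lop ha ha1.le hS p‖ := by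
    intro p hp
    have hcl : IsClosed {p : P2J a N | ‖p‖ ≤ C * ‖Lop ha ha1.le hS p‖} :=
      isClosed_le continuous_norm (continuous_const.mul (Lop ha ha1.le hS).continuous.norm)
    refine closure_minimal (fun p hp => ?_) hcl hp
    have hp' : IsJet p := hp
    have h2 : HO a ‖Lop ha ha1.le hS p‖ univ (LL S (HS.fn p.1)) := by
      rw [← Lop_jet ha ha1.le hS hp']; exact HS.ho _
    obtain ⟨h3, h4, h5⟩ := H S hS hb hl _ hp'.sp hp'.mn0 _ h2
    rw [← hp'.d2] at h5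
    rw [← hp'.d1] at h4
    show max ‖p.1‖ (max ‖p.2.1‖ ‖p.2.2‖) ≤ _
    exact max_le (norm_le h3) (max_le (norm_le h4) (norm_le h5))
  exact h1 q q.2

theorem sm_one : SM (fun _ : V N => (1 : Matrix (Fin N) (Fin N) ℝ)) := fun _ _ => SP.const _

theorem LL_one {w : V N → ℝ} (hw : SP w) (x : V N) :
    LL (fun _ => (1 : Matrix (Fin N) (Fin N) ℝ)) w x = PP 1 w x := by
  rw [LL_eq sm_one hw]
  have h : ∀ i j : Fin N, dr i (fun _ : V N => (1 : Matrix (Fin N) (Fin N) ℝ) i j) x = 0 := by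
    intro i j
    show fderiv ℝ (fun _ : V N => (1 : Matrix (Fin N) (Fin N) ℝ) i j) x (ee i) = 0
    rw [fderiv_const_apply]; rfl
  simp only [h, zero_mul, Finset.sum_const_zero, add_zero]
  rfl

theorem ell_one : Ell 1 1 (1 : Matrix (Fin N) (Fin N) ℝ) := by
  refine ⟨fun i j => by rw [Matrix.one_apply, Matrix.one_apply]; simp [eq_comm], fun z => ?_⟩
  have e : ∑ i, ∑ j, (1 : Matrix (Fin N) (Fin N) ℝ) i j * z i * z j = ∑ i, z i ^ 2 := by
    refine Finset.sum_congr rfl fun i _ => ?_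
    rw [Finset.sum_eq_single i]
    · rw [Matrix.one_apply_eq]; ring
    · intro j _ hj
      rw [Matrix.one_apply_ne (Ne.symm hj)]; ring
    · simp
  rw [e, one_mul]
  exact ⟨le_rfl, le_rfl⟩

/-- the segment from the identity -/
theorem seg_sm (hS : SM S) (t : ℝ) : SM (fun x => (1 - t) • (1 : Matrix (Fin N) (Fin N) ℝ) +
    t • S x) := fun i j => by
  have h1 : SP fun x => (1 - t) * (1 : Matrix (Fin N) (Fin N) ℝ) i j + t * S x i j :=
    (SP.const _).add ((SP.const t).mul (hS i j))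
  exact h1

theorem seg_LX (ha : 0 < a) (ha1 : a ≤ 1) (hS : SM S) (t : ℝ) :
    (1 - t) • LX ha ha1 (sm_one (N := N)) + t • LX ha ha1 hS = LX ha ha1 (seg_sm hS t) := by
  ext q : 1
  refine Subtype.ext (ext fun x => ?_)
  show (1 - t) * HS.fn (Lop ha ha1 (sm_one (N := N)) q) x + t * HS.fn (Lop ha ha1 hS q) x =
    HS.fn (Lop ha ha1 (seg_sm hS t) q) x
  rw [fn_Lop, fn_Lop, fn_Lop]
  have h1 : ∀ i j : Fin N, dr i (fun _ : V N => (1 : Matrix (Fin N) (Fin N) ℝ) i j) x = 0 := by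
    intro i j
    show fderiv ℝ (fun _ : V N => (1 : Matrix (Fin N) (Fin N) ℝ) i j) x (ee i) = 0
    rw [fderiv_const_apply]; rfl
  have h2 : ∀ i j : Fin N, dr i (fun y : V N => ((1 - t) • (1 : Matrix (Fin N) (Fin N) ℝ) +
      t • S y) i j) x = t * dr i (fun y => S y i j) x := by
    intro i j
    have e : (fun y : V N => ((1 - t) • (1 : Matrix (Fin N) (Fin N) ℝ) + t • S y) i j) =
        fun y => (1 - t) * (1 : Matrix (Fin N) (Fin N) ℝ) i j + t * S y i j := rfl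
    rw [e, dr_add (SP.const _) ((SP.const t).mul (hS i j)), dr_const_mul (hS i j)]
    show fderiv ℝ (fun _ : V N => (1 - t) * (1 : Matrix (Fin N) (Fin N) ℝ) i j) x (ee i) + _ = _
    rw [fderiv_const_apply]
    simp
  simp only [h1, h2]
  simp only [zero_mul, Finset.sum_const_zero, add_zero, Matrix.add_apply,
    Matrix.smul_apply, smul_eq_mul, add_mul, Finset.sum_add_distrib, mul_add, Finset.mul_sum,
    mul_assoc]
  ring

theorem surj_one (ha : 0 < a) (ha1 : a < 1) :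
    Function.Surjective (LX ha ha1.le (sm_one (N := N))) := by
  have hM : (0 : ℝ) ≤ 1 := zero_le_one
  have hb : BdS a 1 (fun _ : V N => (1 : Matrix (Fin N) (Fin N) ℝ)) := by
    refine ⟨fun i j => ho_const _ ?_, fun i j k => ?_⟩
    · rw [Matrix.one_apply]; split_ifs <;> simp
    · have e : dr k (fun _ : V N => (1 : Matrix (Fin N) (Fin N) ℝ) i j) = fun _ => (0 : ℝ) := by
        funext x
        show fderiv ℝ (fun _ : V N => (1 : Matrix (Fin N) (Fin N) ℝ) i j) x (ee k) = 0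
        rw [fderiv_const_apply]; rfl
      rw [e]
      exact ho_zero zero_le_one
  have hl : El 1 (fun _ : V N => (1 : Matrix (Fin N) (Fin N) ℝ)) := fun x z =>
    ((ell_one (N := N)).2 z).1
  obtain ⟨C, hC, H⟩ := apriori N ha ha1 one_pos hM
  have hcl := closed_range hC (H _ (sm_one (N := N)) hb hl)
  intro y
  have h1 : (YS a N : Set (HS a N ℝ)) ⊆
      (fun z : YY a N => (z : HS a N ℝ)) '' range (LX ha ha1.le (sm_one (N := N))) := by
    rintro u ⟨hu, hm⟩
    obtain ⟨w, hw, hwm, hw2⟩ := exists_sol (ell_one (N := N)) hu hm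
    refine ⟨⟨u, YS_le ⟨hu, hm⟩⟩, ⟨⟨jet ha ha1.le w hw, JS_le (jet_mem ha ha1.le hw hwm)⟩, ?_⟩, rfl⟩
    refine Subtype.ext (ext fun x => ?_)
    rw [LX_coe, Lop_jet ha ha1.le sm_one (jet_mem ha ha1.le hw hwm)]
    show LL _ w x = HS.fn u x
    rw [LL_one hw, hw2]
  have h2 : IsClosed ((fun z : YY a N => (z : HS a N ℝ)) ''
      range (LX ha ha1.le (sm_one (N := N)))) :=
    (Submodule.isClosed_topologicalClosure _).isClosedEmbedding_subtypeVal.isClosedMap _ hcl
  obtain ⟨z, hz, hzy⟩ := closure_minimal h1 h2 y.2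
  have : z = y := Subtype.ext hzy
  rwa [this] at hz

/-- **solvability of the variable coefficient equation** -/
theorem surj_LX (ha : 0 < a) (ha1 : a < 1) {lam : ℝ} (hlam : 0 < lam) (hS : SM S) (hl : El lam S) :
    Function.Surjective (LX ha ha1.le hS) := by
  -- bounds
  obtain ⟨M, hM0, hM⟩ : ∃ M : ℝ, 0 ≤ M ∧ ∀ t ∈ Icc (0 : ℝ) 1,
      BdS a M (fun x => (1 - t) • (1 : Matrix (Fin N) (Fin N) ℝ) + t • S x) := by
    have h0 : ∀ i j, ∃ m, HO a m univ fun x => S x i j := fun i j => (hS i j).ho ha.le ha1.le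
    have h1 : ∀ i j k, ∃ m, HO a m univ (dr k fun x => S x i j) := fun i j k =>
      ((hS i j).dr k).ho ha.le ha1.le
    choose m0 hm0 using h0
    choose m1 hm1 using h1
    have p0 : ∀ i j, 0 ≤ m0 i j := fun i j => (hm0 i j).nonneg (mem_univ 0)
    have p1 : ∀ i j k, 0 ≤ m1 i j k := fun i j k => (hm1 i j k).nonneg (mem_univ 0)
    have s0 : ∀ i j, m0 i j ≤ ∑ i, ∑ j, m0 i j := fun i j =>
      (Finset.single_le_sum (f := fun j => m0 i j) (fun j _ => p0 i j) (Finset.mem_univ j)).trans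
        (Finset.single_le_sum (f := fun i => ∑ j, m0 i j)
          (fun i _ => Finset.sum_nonneg fun j _ => p0 i j) (Finset.mem_univ i))
    have s1 : ∀ i j k, m1 i j k ≤ ∑ i, ∑ j, ∑ k, m1 i j k := fun i j k =>
      (Finset.single_le_sum (f := fun k => m1 i j k) (fun k _ => p1 i j k)
        (Finset.mem_univ k)).trans
      ((Finset.single_le_sum (f := fun j => ∑ k, m1 i j k)
        (fun j _ => Finset.sum_nonneg fun k _ => p1 i j k) (Finset.mem_univ j)).trans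
        (Finset.single_le_sum (f := fun i => ∑ j, ∑ k, m1 i j k)
          (fun i _ => Finset.sum_nonneg fun j _ => Finset.sum_nonneg fun k _ => p1 i j k)
          (Finset.mem_univ i)))
    have q0 : 0 ≤ ∑ i, ∑ j, m0 i j :=
      Finset.sum_nonneg fun i _ => Finset.sum_nonneg fun j _ => p0 i j
    have q1 : 0 ≤ ∑ i, ∑ j, ∑ k, m1 i j k :=
      Finset.sum_nonneg fun i _ => Finset.sum_nonneg fun j _ => Finset.sum_nonneg fun k _ => p1 i j k
    have hsc : ∀ {f : V N → ℝ} {m t : ℝ}, t ∈ Icc (0 : ℝ) 1 → HO a m univ f →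
        HO a m univ fun x => t * f x := by
      intro f m t ht hf
      have hm : 0 ≤ m := hf.nonneg (mem_univ 0)
      refine ⟨fun x hx => ?_, fun x hx y hy => ?_⟩
      · rw [norm_mul, Real.norm_eq_abs t, abs_of_nonneg ht.1]
        exact (mul_le_of_le_one_left (norm_nonneg _) ht.2).trans (hf.bdd x hx)
      · rw [← mul_sub, norm_mul, Real.norm_eq_abs t, abs_of_nonneg ht.1]
        exact (mul_le_of_le_one_left (norm_nonneg _) ht.2).trans (hf.hol x hx y hy)
    refine ⟨1 + ∑ i, ∑ j, m0 i j + ∑ i, ∑ j, ∑ k, m1 i j k, by positivity, fun t ht => ?_⟩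
    have ht' : 1 - t ∈ Icc (0 : ℝ) 1 := ⟨by linarith [ht.2], by linarith [ht.1]⟩
    refine ⟨fun i j => ?_, fun i j k => ?_⟩
    · have h1 : HO a 1 univ (fun _ : V N => (1 : Matrix (Fin N) (Fin N) ℝ) i j) := by
        refine ho_const _ ?_
        rw [Matrix.one_apply]; split_ifs <;> simp
      exact ((hsc ht' h1).add (hsc ht (hm0 i j))).mono (by linarith [s0 i j])
    · have e : dr k (fun x => ((1 - t) • (1 : Matrix (Fin N) (Fin N) ℝ) + t • S x) i j) =
          fun x => t * dr k (fun x => S x i j) x := by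
        funext x
        have e : (fun y : V N => ((1 - t) • (1 : Matrix (Fin N) (Fin N) ℝ) + t • S y) i j) =
            fun y => (1 - t) * (1 : Matrix (Fin N) (Fin N) ℝ) i j + t * S y i j := rfl
        rw [e, dr_add (SP.const _) ((SP.const t).mul (hS i j)), dr_const_mul (hS i j)]
        show fderiv ℝ (fun _ : V N => (1 - t) * (1 : Matrix (Fin N) (Fin N) ℝ) i j) x (ee k) + _ = _
        rw [fderiv_const_apply]
        simp
      rw [e]
      exact (hsc ht (hm1 i j k)).mono (by linarith [s1 i j k])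
  have hell : ∀ t ∈ Icc (0 : ℝ) 1,
      El (min 1 lam) (fun x => (1 - t) • (1 : Matrix (Fin N) (Fin N) ℝ) + t • S x) := by
    intro t ht x z
    have h1 := ((ell_one (N := N)).2 z).1
    have h2 := hl x z
    have hz : 0 ≤ ∑ i, z i ^ 2 := Finset.sum_nonneg fun _ _ => sq_nonneg _
    have e : ∑ i, ∑ j, ((1 - t) • (1 : Matrix (Fin N) (Fin N) ℝ) + t • S x) i j * z i * z j =
        (1 - t) * (∑ i, ∑ j, (1 : Matrix (Fin N) (Fin N) ℝ) i j * z i * z j) +
          t * ∑ i, ∑ j, S x i j * z i * z j := by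
      simp only [Matrix.add_apply, Matrix.smul_apply, smul_eq_mul, add_mul,
        Finset.sum_add_distrib, Finset.mul_sum, mul_assoc]
    rw [e]
    have a1 := mul_le_mul_of_nonneg_left h1 (by linarith [ht.2] : (0 : ℝ) ≤ 1 - t)
    have a2 := mul_le_mul_of_nonneg_left h2 ht.1
    have a3 : min 1 lam * ∑ i, z i ^ 2 ≤ 1 * ∑ i, z i ^ 2 :=
      mul_le_mul_of_nonneg_right (min_le_left _ _) hz
    have a4 : min 1 lam * ∑ i, z i ^ 2 ≤ lam * ∑ i, z i ^ 2 :=
      mul_le_mul_of_nonneg_right (min_le_right _ _) hz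
    have a5 := mul_le_mul_of_nonneg_left a3 (by linarith [ht.2] : (0 : ℝ) ≤ 1 - t)
    have a6 := mul_le_mul_of_nonneg_left a4 ht.1
    linarith
  obtain ⟨C, hC, H⟩ := apriori N ha ha1 (lt_min one_pos hlam) hM0
  refine cont_method (LX ha ha1.le (sm_one (N := N))) (LX ha ha1.le hS) hC (fun t ht q => ?_)
    (surj_one ha ha1)
  rw [seg_LX]
  exact H _ (seg_sm hS t) (hM t ht) (hell t ht) q

theorem inj_LX (ha : 0 < a) (ha1 : a < 1) {lam : ℝ} (hlam : 0 < lam) (hS : SM S) (hl : El lam S) :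
    Function.Injective (LX ha ha1.le hS) := by
  have h0 : ∀ i j, ∃ m, HO a m univ fun x => S x i j := fun i j => (hS i j).ho ha.le ha1.le
  have h1 : ∀ i j k, ∃ m, HO a m univ (dr k fun x => S x i j) := fun i j k =>
    ((hS i j).dr k).ho ha.le ha1.le
  choose m0 hm0 using h0
  choose m1 hm1 using h1
  have p0 : ∀ i j, 0 ≤ m0 i j := fun i j => (hm0 i j).nonneg (mem_univ 0)
  have p1 : ∀ i j k, 0 ≤ m1 i j k := fun i j k => (hm1 i j k).nonneg (mem_univ 0)
  have s0 : ∀ i j, m0 i j ≤ ∑ i, ∑ j, m0 i j := fun i j =>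
    (Finset.single_le_sum (f := fun j => m0 i j) (fun j _ => p0 i j) (Finset.mem_univ j)).trans
      (Finset.single_le_sum (f := fun i => ∑ j, m0 i j)
        (fun i _ => Finset.sum_nonneg fun j _ => p0 i j) (Finset.mem_univ i))
  have s1 : ∀ i j k, m1 i j k ≤ ∑ i, ∑ j, ∑ k, m1 i j k := fun i j k =>
    (Finset.single_le_sum (f := fun k => m1 i j k) (fun k _ => p1 i j k)
      (Finset.mem_univ k)).trans
    ((Finset.single_le_sum (f := fun j => ∑ k, m1 i j k)
      (fun j _ => Finset.sum_nonneg fun k _ => p1 i j k) (Finset.mem_univ j)).trans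
      (Finset.single_le_sum (f := fun i => ∑ j, ∑ k, m1 i j k)
        (fun i _ => Finset.sum_nonneg fun j _ => Finset.sum_nonneg fun k _ => p1 i j k)
        (Finset.mem_univ i)))
  have q0 : 0 ≤ ∑ i, ∑ j, m0 i j :=
    Finset.sum_nonneg fun i _ => Finset.sum_nonneg fun j _ => p0 i j
  have q1 : 0 ≤ ∑ i, ∑ j, ∑ k, m1 i j k :=
    Finset.sum_nonneg fun i _ => Finset.sum_nonneg fun j _ => Finset.sum_nonneg fun k _ => p1 i j k
  have hb : BdS a (∑ i, ∑ j, m0 i j + ∑ i, ∑ j, ∑ k, m1 i j k) S :=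
    ⟨fun i j => (hm0 i j).mono (by linarith [s0 i j]),
      fun i j k => (hm1 i j k).mono (by linarith [s1 i j k])⟩
  obtain ⟨C, hC, H⟩ := apriori N ha ha1 hlam
    (M := ∑ i, ∑ j, m0 i j + ∑ i, ∑ j, ∑ k, m1 i j k) (add_nonneg q0 q1)
  rw [injective_iff_map_eq_zero]
  intro q hq
  have := H S hS hb hl q
  rw [hq, norm_zero, mul_zero] at this
  exact norm_le_zero_iff.1 this

end op

end

end Crest.Agent.R235.TorSp_384
end

-- ▼ part R235/TorCut_384
section

/-!
# Row 235 (S0364), TOR / FIB-B1 (helper384)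

* `contDiff_cod` : a smooth map with values in a closed subspace is smooth into the subspace
* `exists_ext`   : a closed form on the tube is extended by a cut-off to a form with bounded derivatives
-/

set_option autoImplicit false
set_option maxSynthPendingDepth 3

open MeasureTheory Set Metric Filter Topology
open scoped ContDiff

namespace Crest.Agent.R235.TorCut_384

open Crest.Agent.R281.Mc673
open Crest.Agent.R235.TorOm_384 (BS Lp)

noncomputable section

section cod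

variable {E : Type} [NormedAddCommGroup E] [NormedSpace ℝ E]

theorem deriv_mem {F : Type} [NormedAddCommGroup F] [NormedSpace ℝ F] {p : Submodule ℝ F}
    (hp : IsClosed (p : Set F)) {f : E → F} (h : ∀ x, f x ∈ p) {x : E} {f' : E →L[ℝ] F}
    (hf : HasFDerivAt f f' x) (v : E) : f' v ∈ p := by
  have h1 : HasDerivAt (fun t : ℝ => f (x + t • v)) (f' v) 0 := by
    have h2 : HasDerivAt (fun t : ℝ => x + t • v) v 0 := by
      simpa using ((hasDerivAt_id (0 : ℝ)).smul_const v).const_add x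
    have h3 : HasFDerivAt f f' (x + (0 : ℝ) • v) := by simpa using hf
    exact h3.comp_hasDerivAt 0 h2
  rw [hasDerivAt_iff_tendsto_slope] at h1
  refine hp.mem_of_tendsto h1 (Eventually.of_forall fun t => ?_)
  rw [slope_def_module]
  exact p.smul_mem _ (p.sub_mem (h _) (h _))

theorem contDiff_cod_nat (n : ℕ) : ∀ (F : Type) [NormedAddCommGroup F] [NormedSpace ℝ F]
    (p : Submodule ℝ F), IsClosed (p : Set F) → ∀ (f : E → F), ContDiff ℝ n f →
      ∀ h : ∀ x, f x ∈ p, ContDiff ℝ n (fun x => (⟨f x, h x⟩ : p)) := by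
  induction n with
  | zero =>
    intro F _ _ p _ f hf h
    exact contDiff_zero.2 ((contDiff_zero.1 hf).subtype_mk h)
  | succ n ih =>
    intro F _ _ p hp f hf h
    obtain ⟨f', hf', hd⟩ := contDiff_succ_iff_hasFDerivAt.1 hf
    have hmem : ∀ x v, f' x v ∈ p := fun x v => deriv_mem hp h (hd x) v
    let P : Submodule ℝ (E →L[ℝ] F) :=
      { carrier := {L | ∀ v, L v ∈ p}
        add_mem' := fun ha hb v => p.add_mem (ha v) (hb v)
        zero_mem' := fun v => p.zero_mem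
        smul_mem' := fun c L hL v => p.smul_mem c (hL v) }
    have hP : IsClosed (P : Set (E →L[ℝ] F)) := by
      have : (P : Set (E →L[ℝ] F)) = ⋂ v, (fun L : E →L[ℝ] F => L v) ⁻¹' (p : Set F) := by
        ext L; simp [P]
      rw [this]
      exact isClosed_iInter fun v => hp.preimage (ContinuousLinearMap.apply ℝ F v).continuous
    have h1 := ih (E →L[ℝ] F) P hP f' hf' hmem
    let R : P →L[ℝ] (E →L[ℝ] p) := LinearMap.mkContinuous
      { toFun := fun L => (L : E →L[ℝ] F).codRestrict p (fun v => L.2 v)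
        map_add' := fun L L' => by ext v; rfl
        map_smul' := fun c L => by ext v; rfl } 1 (fun L => by
          rw [one_mul]
          refine ContinuousLinearMap.opNorm_le_bound _ (norm_nonneg _) fun v => ?_
          exact (L : E →L[ℝ] F).le_opNorm v)
    refine contDiff_succ_iff_hasFDerivAt.2 ⟨fun x => R ⟨f' x, hmem x⟩, R.contDiff.comp h1,
      fun x => ?_⟩
    have h2 := hd x
    rw [hasFDerivAt_iff_isLittleO] at h2 ⊢
    exact Asymptotics.IsLittleO.of_norm_left h2.norm_left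

theorem contDiff_cod {F : Type} [NormedAddCommGroup F] [NormedSpace ℝ F] {p : Submodule ℝ F}
    (hp : IsClosed (p : Set F)) {f : E → F} (hf : ContDiff ℝ ∞ f) (h : ∀ x, f x ∈ p) :
    ContDiff ℝ ∞ (fun x => (⟨f x, h x⟩ : p)) :=
  contDiff_infty.2 fun n => contDiff_cod_nat n F p hp f (contDiff_infty.1 hf n) h

end cod

section ext

variable {N : ℕ}

theorem bs_of_per {F : Type*} [NormedAddCommGroup F] [NormedSpace ℝ F] {f : W N → F} {R : ℝ}
    (hf : ContDiff ℝ ∞ f) (hp : ∀ (k : Fin N → ℤ) (p : W N), f (p.1 + kv k, p.2) = f p)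
    (h0 : ∀ p, R ≤ ‖p.2‖ → f p = 0) : BS f := by
  refine ⟨hf, fun n => ?_⟩
  have hc : Continuous (iteratedFDeriv ℝ n f) := hf.continuous_iteratedFDeriv (by exact_mod_cast le_top)
  obtain ⟨C, hC⟩ := ((isCompact_cube (N := N)).prod
    (isCompact_closedBall (0 : V N) R)).exists_bound_of_continuousOn hc.continuousOn
  refine ⟨max C 0, fun p => ?_⟩
  rcases lt_or_ge R ‖p.2‖ with h | h
  · have h1 : f =ᶠ[𝓝 p] fun _ => (0 : F) := by
      have ho : IsOpen {q : W N | R < ‖q.2‖} := isOpen_lt continuous_const continuous_snd.norm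
      filter_upwards [ho.mem_nhds h] with q hq
      exact h0 q hq.le
    have h2 := h1.iteratedFDeriv ℝ n
    rw [h2.eq_of_nhds]
    have h3 : iteratedFDeriv ℝ n (fun _ : W N => (0 : F)) p = 0 := by
      have := iteratedFDeriv_fun_zero (𝕜 := ℝ) (E := W N) (F := F) (n := n)
      exact congrFun this p
    rw [h3, norm_zero]
    exact le_max_right _ _
  · obtain ⟨k, y, hy, hk⟩ := exists_cube p.1
    have h1 : (fun q : W N => f (q + (kv k, 0))) = f := by
      funext q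
      have := hp k q
      rw [← this]
      congr 1
      ext1 <;> simp
    have h2 : iteratedFDeriv ℝ n f ((y, p.2) + (kv k, 0)) = iteratedFDeriv ℝ n f (y, p.2) := by
      have h3 := iteratedFDeriv_comp_add_right (𝕜 := ℝ) (f := f) n (kv k, 0) ((y, p.2) : W N)
      rw [h1] at h3
      exact h3.symm
    have h3 : p = ((y, p.2) : W N) + (kv k, 0) := by
      ext1
      · simp [hk]
      · simp
    rw [h3, h2]
    exact (hC _ ⟨hy, by simpa using h⟩).trans (le_max_left _ _)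

theorem exists_ext {r : ℝ} (hr : 0 < r) {w : Fo N} (hw : ClF r w) : ∃ w' : Fo N, BS w' ∧
    (∀ p, ‖p.2‖ ≤ r / 2 → w' p = w p) ∧
    ∀ (k : Fin N → ℤ) (p : W N), w' (p.1 + kv k, p.2) = w' p := by
  let f : ContDiffBump (0 : V N) := ⟨r / 2, 3 * r / 4, by positivity, by linarith⟩
  have hz : ∀ p : W N, 3 * r / 4 ≤ ‖p.2‖ → f p.2 = 0 := fun p hp =>
    f.zero_of_le_dist (by rw [dist_zero_right]; exact hp)
  have hsm : ContDiff ℝ ∞ (fun p : W N => f p.2 • w p) := by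
    refine contDiff_iff_contDiffAt.2 fun p => ?_
    rcases lt_or_ge ‖p.2‖ r with h | h
    · exact (f.contDiff.contDiffAt.comp p contDiffAt_snd).smul (hw.cda h)
    · have ho : IsOpen {q : W N | 3 * r / 4 < ‖q.2‖} := isOpen_lt continuous_const continuous_snd.norm
      have h1 : (fun p : W N => f p.2 • w p) =ᶠ[𝓝 p] fun _ => 0 := by
        filter_upwards [ho.mem_nhds (show 3 * r / 4 < ‖p.2‖ by linarith)] with q hq
        rw [hz q (le_of_lt hq), zero_smul]
      exact contDiffAt_const.congr_of_eventuallyEq h1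
  have hper : ∀ (k : Fin N → ℤ) (p : W N), f p.2 • w (p.1 + kv k, p.2) = f p.2 • w p := by
    intro k p
    rcases lt_or_ge ‖p.2‖ r with h | h
    · rw [hw.per k p h]
    · rw [hz p (by linarith), zero_smul, zero_smul]
  refine ⟨fun p => f p.2 • w p, bs_of_per hsm hper fun p hp => by rw [hz p hp, zero_smul],
    fun p hp => ?_, hper⟩
  have : f p.2 = 1 := f.one_of_mem_closedBall (by simpa using hp)
  show f p.2 • w p = w p
  rw [this, one_smul]

/-- the shifted form -/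
def shf (h : V N) (w : Fo N) : Fo N := fun p => w (p.1 + h, p.2)

theorem shf_clf {r : ℝ} {w : Fo N} (hw : ClF r w) (h : V N) : ClF r (shf h w) := by
  have e : ∀ p : W N, ((p.1 + h, p.2) : W N) = p + (h, 0) := fun p => by ext1 <;> simp
  have hmem : ∀ p ∈ tube N r, p + ((h, 0) : W N) ∈ tube N r := by
    intro p hp
    have : (p + ((h, 0) : W N)).2 = p.2 := by simp
    show ‖(p + ((h, 0) : W N)).2‖ < r
    rw [this]; exact hp
  have hs : shf h w = fun p => w (p + (h, 0)) := by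
    funext p; exact congrArg w (e p)
  refine ⟨?_, fun p hp u v => ?_, fun p hp u v z => ?_, fun k p hp => ?_⟩
  · rw [hs]
    exact hw.sm.comp ((contDiff_id.add contDiff_const : ContDiff ℝ ∞ fun p : W N => p + ((h, 0) : W N)).contDiffOn) hmem
  · exact hw.alt _ (by rw [e]; exact hmem p hp) u v
  · have hf : fderiv ℝ (shf h w) p = fderiv ℝ w (p + (h, 0)) := by
      rw [hs]; exact fderiv_comp_add_right _
    rw [hf]
    exact hw.cl _ (hmem p hp) u v z
  · show w (p.1 + kv k + h, p.2) = w (p.1 + h, p.2)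
    have h1 := hw.per k (p.1 + h, p.2) (by rw [e]; exact hmem p hp)
    rw [← h1]
    congr 1
    ext1
    · show p.1 + kv k + h = p.1 + h + kv k
      abel
    · rfl

end ext

end

end Crest.Agent.R235.TorCut_384
end

-- ▼ part R235/TorIft_384
section

/-!
# Row 235 (S0364), TOR / FIB-B1 (helper384): implicit function theorem, smooth on a neighbourhood
-/

set_option autoImplicit false

open Set Metric Filter Topology
open scoped ContDiff

namespace Crest.Agent.R235.TorIft_384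

noncomputable section

variable {T Q Y : Type*} [NormedAddCommGroup T] [NormedSpace ℝ T] [CompleteSpace T]
  [NormedAddCommGroup Q] [NormedSpace ℝ Q] [CompleteSpace Q]
  [NormedAddCommGroup Y] [NormedSpace ℝ Y] [CompleteSpace Y]

/-- a bijective continuous linear map is invertible -/
theorem exists_equiv {E F : Type*} [NormedAddCommGroup E] [NormedSpace ℝ E] [CompleteSpace E]
    [NormedAddCommGroup F] [NormedSpace ℝ F] [CompleteSpace F] (A : E →L[ℝ] F)
    (hA : Function.Bijective A) : ∃ e : E ≃L[ℝ] F, (e : E →L[ℝ] F) = A :=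
  ⟨ContinuousLinearEquiv.ofBijective A (LinearMap.ker_eq_bot.2 hA.1) (LinearMap.range_eq_top.2 hA.2),
    ContinuousLinearEquiv.coe_ofBijective _ _ _⟩

/-- **implicit function theorem**, the implicit function is smooth on a neighbourhood -/
theorem ift {f : T × Q → Y} (hf : ContDiff ℝ ∞ f) {t0 : T} {q0 : Q} (h0 : f (t0, q0) = 0)
    {A : Q →L[ℝ] Y} (hA : HasFDerivAt (fun q => f (t0, q)) A q0) (hb : Function.Bijective A) :
    ∃ g : T → Q, g t0 = q0 ∧ (∀ᶠ t in 𝓝 t0, ContDiffAt ℝ ∞ g t) ∧ (∀ᶠ t in 𝓝 t0, f (t, g t) = 0) ∧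
      ∀ᶠ p in 𝓝 (t0, q0), f p = 0 → p.2 = g p.1 := by
  let F : T × Q → T × Y := fun p => (p.1, f p)
  have hF : ContDiff ℝ ∞ F := contDiff_fst.prodMk hf
  have hfd : ∀ p, HasFDerivAt f (fderiv ℝ f p) p := fun p =>
    (hf.differentiable (by simp) p).hasFDerivAt
  have hFd : ∀ p, HasFDerivAt F ((ContinuousLinearMap.fst ℝ T Q).prod (fderiv ℝ f p)) p := fun p =>
    hasFDerivAt_fst.prodMk (hfd p)
  have hA' : ∀ q, fderiv ℝ f (t0, q0) (0, q) = A q := by
    intro q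
    have h1 : HasFDerivAt (fun q : Q => ((t0, q) : T × Q)) (ContinuousLinearMap.inr ℝ T Q) q0 :=
      (hasFDerivAt_const t0 q0).prodMk (hasFDerivAt_id q0)
    have h2 := (hfd (t0, q0)).comp q0 h1
    have h3 := h2.unique hA
    rw [← h3]
    rfl
  have hbij : Function.Bijective ((ContinuousLinearMap.fst ℝ T Q).prod (fderiv ℝ f (t0, q0))) := by
    have hdec : ∀ (t : T) (q : Q), fderiv ℝ f (t0, q0) (t, q) =
        fderiv ℝ f (t0, q0) (t, 0) + A q := by
      intro t q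
      rw [← hA', ← map_add]
      congr 1
      ext1 <;> simp
    constructor
    · rw [injective_iff_map_eq_zero]
      rintro ⟨t, q⟩ h
      have h1 : t = 0 := congrArg Prod.fst h
      have h2 : fderiv ℝ f (t0, q0) (t, q) = 0 := congrArg Prod.snd h
      rw [h1, hA'] at h2
      have h3 : q = 0 := hb.1 (by rw [h2, map_zero])
      rw [h1, h3]; rfl
    · rintro ⟨t, y⟩
      obtain ⟨q, hq⟩ := hb.2 (y - fderiv ℝ f (t0, q0) (t, 0))
      refine ⟨(t, q), ?_⟩
      show (t, fderiv ℝ f (t0, q0) (t, q)) = (t, y)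
      rw [hdec, hq]
      congr 1
      abel
  obtain ⟨e, he⟩ := exists_equiv _ hbij
  have hFe : HasFDerivAt F (e : (T × Q) →L[ℝ] (T × Y)) (t0, q0) := by
    rw [he]; exact hFd _
  let Φ := hF.contDiffAt.toOpenPartialHomeomorph F hFe (by simp : (∞ : WithTop ℕ∞) ≠ 0)
  have hsrc : (t0, q0) ∈ Φ.source :=
    hF.contDiffAt.mem_toOpenPartialHomeomorph_source hFe (by simp)
  have htgt : F (t0, q0) ∈ Φ.target :=
    hF.contDiffAt.image_mem_toOpenPartialHomeomorph_target hFe (by simp)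
  have hΦ : ∀ p, Φ p = F p := fun p => rfl
  have hF0 : F (t0, q0) = (t0, 0) := by
    show (t0, f (t0, q0)) = (t0, 0)
    rw [h0]
  rw [hF0] at htgt
  have hs0 : Φ.symm (t0, 0) = (t0, q0) := by
    rw [← hF0]; exact Φ.left_inv hsrc
  have hsc : ContinuousAt Φ.symm (t0, 0) := Φ.continuousAt_symm htgt
  -- invertibility near the point
  have hfc : Continuous fun p => (ContinuousLinearMap.fst ℝ T Q).prod (fderiv ℝ f p) := by
    have h1 : Continuous (fderiv ℝ F) := hF.continuous_fderiv (by simp)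
    have h2 : fderiv ℝ F = fun p => (ContinuousLinearMap.fst ℝ T Q).prod (fderiv ℝ f p) :=
      funext fun p => (hFd p).fderiv
    rwa [h2] at h1
  have hinv : ∀ᶠ p in 𝓝 (t0, q0), ∃ e : (T × Q) ≃L[ℝ] (T × Y),
      (e : (T × Q) →L[ℝ] (T × Y)) = (ContinuousLinearMap.fst ℝ T Q).prod (fderiv ℝ f p) := by
    have h1 := hfc.continuousAt (x := (t0, q0))
    have h2 : range ((↑) : ((T × Q) ≃L[ℝ] (T × Y)) → ((T × Q) →L[ℝ] (T × Y))) ∈
        𝓝 ((ContinuousLinearMap.fst ℝ T Q).prod (fderiv ℝ f (t0, q0))) := by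
      rw [← he]; exact e.nhds
    exact h1.eventually h2
  have hsm : ∀ᶠ z in 𝓝 (t0, (0 : Y)), ContDiffAt ℝ ∞ Φ.symm z := by
    have h1 : ∀ᶠ z in 𝓝 (t0, (0 : Y)), z ∈ Φ.target := Φ.open_target.mem_nhds htgt
    have h2 : Tendsto Φ.symm (𝓝 (t0, (0 : Y))) (𝓝 (t0, q0)) := by
      have := hsc.tendsto
      rwa [hs0] at this
    filter_upwards [h1, h2.eventually hinv] with z hz1 hz2
    obtain ⟨e', he'⟩ := hz2
    refine Φ.contDiffAt_symm (f₀' := e') hz1 ?_ ?_
    · rw [he']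
      exact hFd _
    · exact hF.contDiffAt
  have ht : Tendsto (fun t : T => (t, (0 : Y))) (𝓝 t0) (𝓝 (t0, 0)) :=
    (continuous_id.prodMk continuous_const).tendsto' _ _ rfl
  refine ⟨fun t => (Φ.symm (t, 0)).2, congrArg Prod.snd hs0, ?_, ?_, ?_⟩
  · filter_upwards [ht.eventually hsm] with t hz
    have h1 : ContDiffAt ℝ ∞ (fun t : T => (t, (0 : Y))) t :=
      contDiffAt_id.prodMk contDiffAt_const
    exact contDiffAt_snd.comp t (ContDiffAt.comp t hz h1)
  · filter_upwards [ht.eventually (Φ.open_target.mem_nhds htgt)] with t hz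
    have h1 : F (Φ.symm (t, 0)) = (t, 0) := Φ.right_inv hz
    have h2 : (Φ.symm (t, 0)).1 = t := congrArg Prod.fst h1
    have h3 : f (Φ.symm (t, 0)) = 0 := congrArg Prod.snd h1
    have h4 : ((t, (Φ.symm (t, 0)).2) : T × Q) = Φ.symm (t, 0) := by
      ext1
      · exact h2.symm
      · rfl
    rw [h4, h3]
  · filter_upwards [Φ.open_source.mem_nhds hsrc] with p hp hp0
    have h1 : Φ.symm (F p) = p := Φ.left_inv hp
    have h2 : F p = (p.1, 0) := by
      show (p.1, f p) = (p.1, 0)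
      rw [hp0]
    rw [h2] at h1
    show p.2 = (Φ.symm (p.1, 0)).2
    rw [h1]

end

end Crest.Agent.R235.TorIft_384
end

-- ▼ part R235/TorNM_384
section

/-!
# Row 235 (S0364), TOR / FIB-B1b (helper384): the nonlinear map

Unknown `q = (φ, ψ)` (2-jets of functions on `T²`), parameters `(c, h)`:
`A = c + grad φ + rot ψ`, `𝒩 (c, h, q) = w (θ + h, A) ((e₀, ∂₀A), (e₁, ∂₁A)) - mean`.
-/

set_option autoImplicit false
set_option maxSynthPendingDepth 3

open MeasureTheory Set Metric Filter Topology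
open scoped ContDiff

namespace Crest.Agent.R235.TorNM_384

open Crest.Agent.R238.Sch (ee D2 LB norm_ee)
open Crest.Agent.R273.SchA_152 (HO)
open Crest.Agent.R275.Tor812 (box volume_box)
open Crest.Agent.R281.Mc673
open Crest.Agent.R235.TorOm_384 (BS Lp)
open Crest.Agent.R235.TorSch_384 Crest.Agent.R235.TorSp_384 Crest.Agent.R235.TorHS_384
open Crest.Agent.R235.TorHS_384.HS Crest.Agent.R235.TorCut_384

noncomputable section

variable {a : ℝ}

/-! ### the mean as a functional -/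

section mean

variable {N : ℕ}

theorem integrable_fn (u : HS a N ℝ) :
    Integrable (fun x => HS.fn u (WithLp.toLp 2 x)) (volume.restrict (box (0 : Fin N → ℝ))) := by
  have : IsFiniteMeasure (volume.restrict (box (0 : Fin N → ℝ))) :=
    ⟨by rw [Measure.restrict_apply_univ, volume_box]; exact ENNReal.one_lt_top⟩
  refine Integrable.of_bound
    (((fn_continuous u).comp (PiLp.continuous_toLp 2 _)).aestronglyMeasurable) ‖u‖
    (Eventually.of_forall fun x => norm_fn_le u _)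

/-- the mean -/
def mnL : HS a N ℝ →L[ℝ] ℝ := LinearMap.mkContinuous
  { toFun := fun u => mn (HS.fn u)
    map_add' := fun u v => integral_add (integrable_fn u) (integrable_fn v)
    map_smul' := fun c u => integral_const_mul _ _ } 1 (fun u => by
      rw [one_mul]
      have : IsFiniteMeasure (volume.restrict (box (0 : Fin N → ℝ))) :=
        ⟨by rw [Measure.restrict_apply_univ, volume_box]; exact ENNReal.one_lt_top⟩
      have h := norm_integral_le_of_norm_le_const (μ := volume.restrict (box (0 : Fin N → ℝ)))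
        (f := fun x => HS.fn u (WithLp.toLp 2 x)) (C := ‖u‖)
        (Eventually.of_forall fun x => norm_fn_le u _)
      have h2 : (volume.restrict (box (0 : Fin N → ℝ))).real univ = 1 := by
        rw [measureReal_def, Measure.restrict_apply_univ, volume_box]; rfl
      rw [h2, mul_one] at h
      exact h)

@[simp] theorem mnL_apply (u : HS a N ℝ) : mnL u = mn (HS.fn u) := rfl

end mean

/-! ### gradient and rotated gradient -/

/-- the gradient -/
def gr : (V 2 →L[ℝ] ℝ) →L[ℝ] V 2 :=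
  (ev1 0).smulRight (ee 0) + (ev1 1).smulRight (ee 1)

/-- the rotated gradient -/
def rt : (V 2 →L[ℝ] ℝ) →L[ℝ] V 2 :=
  (ev1 0).smulRight (ee 1) - (ev1 1).smulRight (ee 0)

theorem gr_apply (L : V 2 →L[ℝ] ℝ) : gr L = L (ee 0) • ee 0 + L (ee 1) • ee 1 := rfl

theorem rt_apply (L : V 2 →L[ℝ] ℝ) : rt L = L (ee 0) • ee 1 - L (ee 1) • ee 0 := rfl

/-- derivative of the gradient -/
def gr2 (j : Fin 2) : (V 2 →L[ℝ] V 2 →L[ℝ] ℝ) →L[ℝ] V 2 :=
  gr.comp (ContinuousLinearMap.apply ℝ (V 2 →L[ℝ] ℝ) (ee j))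

/-- derivative of the rotated gradient -/
def rt2 (j : Fin 2) : (V 2 →L[ℝ] V 2 →L[ℝ] ℝ) →L[ℝ] V 2 :=
  rt.comp (ContinuousLinearMap.apply ℝ (V 2 →L[ℝ] ℝ) (ee j))



variable (a) in
/-- pairs of jets -/
abbrev PQ : Type := P2J a 2 × P2J a 2

/-- the map -/
def aF : V 2 × PQ a →L[ℝ] HS a 2 (V 2) :=
  cst.comp (ContinuousLinearMap.fst ℝ (V 2) (PQ a)) +
  ((cl gr).comp ((ContinuousLinearMap.fst ℝ _ _).comp ((ContinuousLinearMap.snd ℝ _ _).comp
      (ContinuousLinearMap.fst ℝ (P2J a 2) (P2J a 2)))) +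
    (cl rt).comp ((ContinuousLinearMap.fst ℝ _ _).comp ((ContinuousLinearMap.snd ℝ _ _).comp
      (ContinuousLinearMap.snd ℝ (P2J a 2) (P2J a 2))))).comp
    (ContinuousLinearMap.snd ℝ (V 2) (PQ a))

/-- its partial derivatives -/
def dF (j : Fin 2) : PQ a →L[ℝ] HS a 2 (V 2) :=
  (cl (gr2 j)).comp ((ContinuousLinearMap.snd ℝ _ _).comp ((ContinuousLinearMap.snd ℝ _ _).comp
      (ContinuousLinearMap.fst ℝ (P2J a 2) (P2J a 2)))) +
    (cl (rt2 j)).comp ((ContinuousLinearMap.snd ℝ _ _).comp ((ContinuousLinearMap.snd ℝ _ _).comp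
      (ContinuousLinearMap.snd ℝ (P2J a 2) (P2J a 2))))

@[simp] theorem fn_aF (c : V 2) (q : PQ a) (x : V 2) :
    HS.fn (aF (c, q)) x = c + (gr (HS.fn q.1.2.1 x) + rt (HS.fn q.2.2.1 x)) := rfl

@[simp] theorem fn_dF (j : Fin 2) (q : PQ a) (x : V 2) :
    HS.fn (dF j q) x = gr (HS.fn q.1.2.2 x (ee j)) + rt (HS.fn q.2.2.2 x (ee j)) := rfl

/-- base map -/
def z0 (x : V 2) : W 2 := (x, 0)

theorem lp_z0 : Lp 1 z0 := by
  refine ⟨zero_le_one, fun x y => ?_⟩
  rw [one_mul, dist_eq_norm]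
  have : z0 x - z0 y = ((x - y, 0) : W 2) := by
    show ((x, 0) - (y, 0) : W 2) = _
    rw [Prod.mk_sub_mk, sub_zero]
  rw [this, Prod.norm_mk, norm_zero]
  exact max_le le_rfl (norm_nonneg _)

section G

variable {w : Fo 2}

/-- argument of the Nemytskii operator -/
def arg : (V 2 × V 2) × PQ a →L[ℝ] HS a 2 (W 2) :=
  (pair (a := a) (N := 2) (E := V 2) (F := V 2)).comp
    ((cst.comp ((ContinuousLinearMap.snd ℝ _ _).comp
        (ContinuousLinearMap.fst ℝ (V 2 × V 2) (PQ a)))).prod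
      (aF.comp (((ContinuousLinearMap.fst ℝ _ _).comp
        (ContinuousLinearMap.fst ℝ (V 2 × V 2) (PQ a))).prod
          (ContinuousLinearMap.snd ℝ (V 2 × V 2) (PQ a)))))

theorem fn_arg (c h : V 2) (q : PQ a) (x : V 2) :
    HS.fn (arg ((c, h), q)) x = (h, HS.fn (aF (c, q)) x) := rfl

/-- the `j`-th tangent vector -/
def tv (j : Fin 2) (q : PQ a) : HS a 2 (W 2) :=
  cst ((ee j, 0) : W 2) + cl (ContinuousLinearMap.inr ℝ (V 2) (V 2)) (dF j q)

theorem fn_tv (j : Fin 2) (q : PQ a) (x : V 2) : HS.fn (tv j q) x = (ee j, HS.fn (dF j q) x) := by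
  show ((ee j, 0) : W 2) + ((0 : V 2), HS.fn (dF j q) x) = _
  rw [Prod.mk_add_mk, add_zero, zero_add]

theorem contDiff_tv (j : Fin 2) : ContDiff ℝ ∞ (tv (a := a) j) :=
  contDiff_const.add ((cl _).contDiff.comp (dF j).contDiff)

/-- the pulled back form -/
def Gop (ha : 0 < a) (ha1 : a ≤ 1) (hw : BS w) (p : (V 2 × V 2) × PQ a) : HS a 2 ℝ :=
  bl (ContinuousLinearMap.id ℝ (W 2 →L[ℝ] ℝ))
    (bl (ContinuousLinearMap.id ℝ (W 2 →L[ℝ] W 2 →L[ℝ] ℝ)) (om ha ha1 lp_z0 w hw (arg p))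
      (tv 0 p.2)) (tv 1 p.2)

theorem fn_Gop (ha : 0 < a) (ha1 : a ≤ 1) (hw : BS w) (c h : V 2) (q : PQ a) (x : V 2) :
    HS.fn (Gop ha ha1 hw ((c, h), q)) x =
      w (x + h, HS.fn (aF (c, q)) x) (ee 0, HS.fn (dF 0 q) x) (ee 1, HS.fn (dF 1 q) x) := by
  unfold Gop
  rw [fn_bl, fn_bl, fn_om, fn_arg, fn_tv, fn_tv]
  show w (z0 x + (h, HS.fn (aF (c, q)) x)) _ _ = _
  have : z0 x + (h, HS.fn (aF (c, q)) x) = ((x + h, HS.fn (aF (c, q)) x) : W 2) := by
    show ((x, 0) : W 2) + (h, HS.fn (aF (c, q)) x) = _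
    rw [Prod.mk_add_mk, zero_add]
  rw [this]

theorem contDiff_Gop (ha : 0 < a) (ha1 : a ≤ 1) (hw : BS w) :
    ContDiff ℝ ∞ (Gop (a := a) ha ha1 hw) := by
  have h1 : ContDiff ℝ ∞ fun p : (V 2 × V 2) × PQ a => om ha ha1 lp_z0 w hw (arg p) :=
    (contDiff_om ha ha1 lp_z0 w hw).comp arg.contDiff
  have h2 : ∀ j, ContDiff ℝ ∞ fun p : (V 2 × V 2) × PQ a => tv j p.2 := fun j =>
    (contDiff_tv j).comp contDiff_snd
  have h3 : ContDiff ℝ ∞ fun p : (V 2 × V 2) × PQ a =>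
      bl (ContinuousLinearMap.id ℝ (W 2 →L[ℝ] W 2 →L[ℝ] ℝ)) (om ha ha1 lp_z0 w hw (arg p))
      (tv 0 p.2) :=
    ((bl (a := a) (N := 2) (ContinuousLinearMap.id ℝ (W 2 →L[ℝ] W 2 →L[ℝ] ℝ))).contDiff.comp
      h1).clm_apply (h2 0)
  exact ((bl (a := a) (N := 2) (ContinuousLinearMap.id ℝ (W 2 →L[ℝ] ℝ))).contDiff.comp
      h3).clm_apply (h2 1)

/-- minus its mean -/
def Nop (ha : 0 < a) (ha1 : a ≤ 1) (hw : BS w) (p : (V 2 × V 2) × PQ a) : HS a 2 ℝ :=
  Gop ha ha1 hw p - cst (mnL (Gop ha ha1 hw p))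

theorem contDiff_Nop (ha : 0 < a) (ha1 : a ≤ 1) (hw : BS w) :
    ContDiff ℝ ∞ (Nop (a := a) ha ha1 hw) :=
  (contDiff_Gop ha ha1 hw).sub (cst.contDiff.comp (mnL.contDiff.comp (contDiff_Gop ha ha1 hw)))

theorem fn_Nop (ha : 0 < a) (ha1 : a ≤ 1) (hw : BS w) (p : (V 2 × V 2) × PQ a) (x : V 2) :
    HS.fn (Nop ha ha1 hw p) x = HS.fn (Gop ha ha1 hw p) x - mn (HS.fn (Gop ha ha1 hw p)) := rfl

end G

end

end Crest.Agent.R235.TorNM_384
end

-- ▼ part R235/TorNN_384
section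

/-!
# Row 235 (S0364), TOR / FIB-B1b (helper384): the nonlinear map into the closed subspaces
-/

set_option autoImplicit false
set_option maxSynthPendingDepth 3

open MeasureTheory Set Metric Filter Topology
open scoped ContDiff

namespace Crest.Agent.R235.TorNM_384

open Crest.Agent.R238.Sch (ee D2 LB norm_ee)
open Crest.Agent.R273.SchA_152 (HO)
open Crest.Agent.R281.Mc673
open Crest.Agent.R235.TorOm_384 (BS Lp)
open Crest.Agent.R235.TorSch_384 Crest.Agent.R235.TorSp_384 Crest.Agent.R235.TorHS_384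
open Crest.Agent.R235.TorHS_384.HS Crest.Agent.R235.TorCut_384

noncomputable section

variable {a : ℝ}

/-- density of the smooth jets -/
theorem dense_ind {P : PQ a → Prop} (hc : IsClosed {q | P q})
    (h : ∀ q : PQ a, IsJet q.1 → IsJet q.2 → P q) {q : PQ a} (h1 : q.1 ∈ XX a 2)
    (h2 : q.2 ∈ XX a 2) : P q := by
  have h3 : q ∈ closure ((JS a 2 : Set (P2J a 2)) ×ˢ (JS a 2 : Set (P2J a 2))) := by
    rw [closure_prod_eq]
    exact ⟨h1, h2⟩
  exact closure_minimal (fun p hp => h p hp.1 hp.2) hc h3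

/-- elements of `XX`: the second component is the derivative of the first -/
theorem XX_deriv {N : ℕ} {q : P2J a N} (hq : q ∈ XX a N) (x : V N) :
    HasFDerivAt (HS.fn q.2.1) (HS.fn q.2.2 x) x := by
  obtain ⟨u, hu, hlim⟩ := mem_closure_iff_seq_limit.1
    (show q ∈ closure (JS a N : Set (P2J a N)) from hq)
  have h1 : Tendsto (fun n => (u n).2.1) atTop (𝓝 q.2.1) :=
    ((continuous_fst.comp continuous_snd).tendsto q).comp hlim
  have h2 : Tendsto (fun n => (u n).2.2) atTop (𝓝 q.2.2) :=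
    ((continuous_snd.comp continuous_snd).tendsto q).comp hlim
  have huj : ∀ n, IsJet (u n) := fun n => hu n
  refine hasFDerivAt_of_tendstoUniformly (l := atTop) (f := fun n => HS.fn (u n).2.1)
    (f' := fun n => HS.fn (u n).2.2) ?_ (fun n x => (huj n).h2 x) ?_ x
  · rw [Metric.tendstoUniformly_iff]
    intro ε hε
    filter_upwards [(Metric.tendsto_nhds.1 h2) ε hε] with n hn y
    rw [dist_eq_norm] at hn ⊢
    rw [norm_sub_rev] at hn
    exact (norm_fn_le (q.2.2 - (u n).2.2) y).trans_lt hn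
  · intro y
    exact ((ev (a := a) y).continuous.tendsto _).comp h1

/-- periodicity of the elements of `XX` -/
theorem XX_per {N : ℕ} {q : P2J a N} (hq : q ∈ XX a N) (k : Fin N → ℤ) (x : V N) :
    HS.fn q.2.1 (x + kv k) = HS.fn q.2.1 x ∧ HS.fn q.2.2 (x + kv k) = HS.fn q.2.2 x := by
  have c1 : Continuous fun q : P2J a N => q.2.1 := continuous_fst.comp continuous_snd
  have c2 : Continuous fun q : P2J a N => q.2.2 := continuous_snd.comp continuous_snd
  have hc : IsClosed {q : P2J a N | HS.fn q.2.1 (x + kv k) = HS.fn q.2.1 x ∧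
      HS.fn q.2.2 (x + kv k) = HS.fn q.2.2 x} :=
    (isClosed_eq ((ev _).continuous.comp c1) ((ev _).continuous.comp c1)).inter
      (isClosed_eq ((ev _).continuous.comp c2) ((ev _).continuous.comp c2))
  refine closure_minimal (fun p hp => ?_) hc hq
  have hp' : IsJet p := hp
  have e1 := hp'.sp.fderiv
  have e2 := hp'.sp.fderiv.fderiv
  refine ⟨?_, ?_⟩
  · rw [hp'.d1]; exact e1.per k x
  · rw [hp'.d2]; exact e2.per k x

theorem hasFDerivAt_aF {q : PQ a} (h1 : q.1 ∈ XX a 2) (h2 : q.2 ∈ XX a 2) (c x : V 2) :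
    HasFDerivAt (HS.fn (aF (c, q))) (gr.comp (HS.fn q.1.2.2 x) + rt.comp (HS.fn q.2.2.2 x)) x :=
  ((gr.hasFDerivAt.comp x (XX_deriv h1 x)).add (rt.hasFDerivAt.comp x (XX_deriv h2 x))).const_add c

theorem fderiv_aF {q : PQ a} (h1 : q.1 ∈ XX a 2) (h2 : q.2 ∈ XX a 2) (c x : V 2) (j : Fin 2) :
    fderiv ℝ (HS.fn (aF (c, q))) x (ee j) = HS.fn (dF j q) x := by
  rw [(hasFDerivAt_aF h1 h2 c x).fderiv]
  rfl

theorem per_aF {q : PQ a} (h1 : q.1 ∈ XX a 2) (h2 : q.2 ∈ XX a 2) (c : V 2) (k : Fin 2 → ℤ)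
    (x : V 2) : HS.fn (aF (c, q)) (x + kv k) = HS.fn (aF (c, q)) x := by
  rw [fn_aF, fn_aF, (XX_per h1 k x).1, (XX_per h2 k x).1]

theorem sp_comp {N : ℕ} {F G : Type*} [NormedAddCommGroup F] [NormedSpace ℝ F]
    [NormedAddCommGroup G] [NormedSpace ℝ G] (T : F →L[ℝ] G) {u : V N → F} (hu : SP u) :
    SP fun x => T (u x) :=
  ⟨T.contDiff.comp hu.sm, fun k x => by simp only [hu.per k x]⟩

theorem sp_aF {q : PQ a} (h1 : IsJet q.1) (h2 : IsJet q.2) (c : V 2) : SP (HS.fn (aF (c, q))) := by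
  have e1 : SP fun x => gr (HS.fn q.1.2.1 x) := by
    rw [h1.d1]; exact sp_comp gr h1.sp.fderiv
  have e2 : SP fun x => rt (HS.fn q.2.2.1 x) := by
    rw [h2.d1]; exact sp_comp rt h2.sp.fderiv
  exact (SP.const c).add (e1.add e2)

theorem dr_aF {q : PQ a} (h1 : IsJet q.1) (h2 : IsJet q.2) (c : V 2) (j : Fin 2) :
    dr j (HS.fn (aF (c, q))) = HS.fn (dF j q) :=
  funext fun x => fderiv_aF (JS_le (show q.1 ∈ JS a 2 from h1)) (JS_le (show q.2 ∈ JS a 2 from h2))
    c x j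

/-- the mean of the map is `c` -/
theorem mn_aF {q : PQ a} (h1 : q.1 ∈ XX a 2) (h2 : q.2 ∈ XX a 2) (c : V 2) (k : Fin 2) :
    mn (fun x => HS.fn (aF (c, q)) x k) = c k := by
  let T : V 2 →L[ℝ] ℝ := EuclideanSpace.proj k
  have e0 : ∀ q : PQ a, mn (fun x => HS.fn (aF (c, q)) x k) = mnL (cl T (aF (c, q))) := fun q => rfl
  rw [e0]
  have hcont : Continuous fun q : PQ a => mnL (cl T (aF (c, q))) :=
    mnL.continuous.comp ((cl T).continuous.comp (aF.continuous.comp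
      (continuous_const.prodMk continuous_id)))
  refine dense_ind (P := fun q => mnL (cl T (aF (c, q))) = c k)
    (isClosed_eq hcont continuous_const) (fun q h1 h2 => ?_) h1 h2
  rw [← e0]
  have hd1 : ∀ j, SP (dr j (HS.fn q.1.1)) := fun j => h1.sp.dr j
  have hd2 : ∀ j, SP (dr j (HS.fn q.2.1)) := fun j => h2.sp.dr j
  have key : ∀ x, HS.fn (aF (c, q)) x k = c k +
      ((dr 0 (HS.fn q.1.1) x * (ee 0 : V 2) k + dr 1 (HS.fn q.1.1) x * (ee 1 : V 2) k) +
       (dr 0 (HS.fn q.2.1) x * (ee 1 : V 2) k - dr 1 (HS.fn q.2.1) x * (ee 0 : V 2) k)) := by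
    intro x
    rw [fn_aF, gr_apply, rt_apply, h1.d1, h2.d1]
    rfl
  have e1 : (fun x => HS.fn (aF (c, q)) x k) = fun x => c k +
      ((dr 0 (HS.fn q.1.1) x * (ee 0 : V 2) k + dr 1 (HS.fn q.1.1) x * (ee 1 : V 2) k) +
       (dr 0 (HS.fn q.2.1) x * (ee 1 : V 2) k - dr 1 (HS.fn q.2.1) x * (ee 0 : V 2) k)) :=
    funext key
  have m : ∀ {f : V 2 → ℝ} (s : ℝ), mn (fun x => f x * s) = mn f * s := fun s =>
    integral_mul_const _ _
  have sm : ∀ {f : V 2 → ℝ} (s : ℝ), SP f → SP (fun x => f x * s) := fun s hf =>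
    hf.mul (SP.const s)
  rw [e1, mn_add (SP.const _) (((sm _ (hd1 0)).add (sm _ (hd1 1))).add
    ((sm _ (hd2 0)).sub (sm _ (hd2 1)))), mn_const,
    mn_add ((sm _ (hd1 0)).add (sm _ (hd1 1))) ((sm _ (hd2 0)).sub (sm _ (hd2 1))),
    mn_add (sm _ (hd1 0)) (sm _ (hd1 1)), mn_sub (sm _ (hd2 0)) (sm _ (hd2 1)),
    m, m, m, m, mn_dr h1.sp, mn_dr h1.sp, mn_dr h2.sp, mn_dr h2.sp]
  ring

/-! ### membership -/

section G

variable {w : Fo 2}

/-- periodic -/
def PerF (w : Fo 2) : Prop := ∀ (k : Fin 2 → ℤ) (p : W 2), w (p.1 + kv k, p.2) = w p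

theorem sp_Gop (ha : 0 < a) (ha1 : a ≤ 1) (hw : BS w) (hp : PerF w) (c h : V 2) {q : PQ a}
    (h1 : IsJet q.1) (h2 : IsJet q.2) : SP (HS.fn (Gop ha ha1 hw ((c, h), q))) := by
  have hA := sp_aF h1 h2 c
  have hD : ∀ j, SP (HS.fn (dF j q)) := fun j => by
    rw [← dr_aF h1 h2 c j]; exact hA.dr j
  have e : HS.fn (Gop ha ha1 hw ((c, h), q)) = fun x =>
      w (x + h, HS.fn (aF (c, q)) x) (ee 0, HS.fn (dF 0 q) x) (ee 1, HS.fn (dF 1 q) x) :=
    funext fun x => fn_Gop ha ha1 hw c h q x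
  rw [e]
  refine ⟨?_, fun k x => ?_⟩
  · have s1 : ContDiff ℝ ∞ fun x : V 2 => w (x + h, HS.fn (aF (c, q)) x) :=
      hw.sm.comp ((contDiff_id.add contDiff_const).prodMk hA.sm)
    exact (s1.clm_apply (contDiff_const.prodMk (hD 0).sm)).clm_apply
      (contDiff_const.prodMk (hD 1).sm)
  · simp only [hA.per k x, (hD 0).per k x, (hD 1).per k x]
    have := hp k (x + h, HS.fn (aF (c, q)) x)
    simp only at this
    rw [← this]
    congr 4
    abel

theorem Nop_mem (ha : 0 < a) (ha1 : a ≤ 1) (hw : BS w) (hp : PerF w) (t : V 2 × V 2) {q : PQ a}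
    (h1 : q.1 ∈ XX a 2) (h2 : q.2 ∈ XX a 2) : Nop ha ha1 hw (t, q) ∈ YY a 2 := by
  have hc : IsClosed {q : PQ a | Nop ha ha1 hw (t, q) ∈ YY a 2} :=
    (Submodule.isClosed_topologicalClosure (YS a 2)).preimage
      ((contDiff_Nop ha ha1 hw).continuous.comp (continuous_const.prodMk continuous_id))
  refine dense_ind hc (fun q h1 h2 => ?_) h1 h2
  obtain ⟨c, h⟩ := t
  have hs := sp_Gop ha ha1 hw hp c h h1 h2
  have e : HS.fn (Nop ha ha1 hw ((c, h), q)) = fun x => HS.fn (Gop ha ha1 hw ((c, h), q)) x -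
      mn (HS.fn (Gop ha ha1 hw ((c, h), q))) := rfl
  refine YS_le ⟨?_, ?_⟩
  · rw [e]; exact hs.sub (SP.const _)
  · rw [e, mn_sub hs (SP.const _), mn_const, sub_self]

variable (a) in
/-- the space of unknowns -/
abbrev QQ : Type := XX a 2 × XX a 2

/-- inclusion -/
def incl : (V 2 × V 2) × QQ a →L[ℝ] (V 2 × V 2) × PQ a :=
  (ContinuousLinearMap.id ℝ (V 2 × V 2)).prodMap
    ((XX a 2).subtypeL.prodMap (XX a 2).subtypeL)


/-- the nonlinear map -/
def NN (ha : 0 < a) (ha1 : a ≤ 1) (hw : BS w) (hp : PerF w) (p : (V 2 × V 2) × QQ a) : YY a 2 :=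
  ⟨Nop ha ha1 hw (incl p), Nop_mem ha ha1 hw hp p.1 p.2.1.2 p.2.2.2⟩


theorem contDiff_NN (ha : 0 < a) (ha1 : a ≤ 1) (hw : BS w) (hp : PerF w) :
    ContDiff ℝ ∞ (NN (a := a) ha ha1 hw hp) :=
  contDiff_cod (Submodule.isClosed_topologicalClosure (YS a 2))
    ((contDiff_Nop ha ha1 hw).comp incl.contDiff) fun p => Nop_mem ha ha1 hw hp p.1 p.2.1.2 p.2.2.2

end G

end

end Crest.Agent.R235.TorNM_384
end

-- ▼ part R235/TorND_384
section

/-!
# Row 235 (S0364), TOR / FIB-B1b (helper384): the linearisation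
-/

set_option autoImplicit false
set_option maxSynthPendingDepth 3

open MeasureTheory Set Metric Filter Topology
open scoped ContDiff

namespace Crest.Agent.R235.TorNM_384

open Crest.Agent.R238.Sch (ee D2 LB norm_ee)
open Crest.Agent.R273.SchA_152 (HO)
open Crest.Agent.R281.Mc673
open Crest.Agent.R235.TorOm_384 (BS Lp)
open Crest.Agent.R235.TorSch_384 Crest.Agent.R235.TorSp_384 Crest.Agent.R235.TorHS_384
open Crest.Agent.R235.TorHS_384.HS Crest.Agent.R235.TorCut_384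

noncomputable section

variable {a : ℝ}

/-- the coefficient matrix -/
def Bm (w : Fo 2) (h : V 2) (k l : Fin 2) (θ : V 2) : ℝ := w (θ + h, 0) (0, ee l) (ee k, 0)

/-- coefficients for the gradient -/
def S1 (w : Fo 2) (h : V 2) (θ : V 2) : Matrix (Fin 2) (Fin 2) ℝ :=
  !![Bm w h 1 0 θ, Bm w h 1 1 θ; -Bm w h 0 0 θ, -Bm w h 0 1 θ]

/-- coefficients for the rotated gradient -/
def S2 (w : Fo 2) (h : V 2) (θ : V 2) : Matrix (Fin 2) (Fin 2) ℝ :=
  !![Bm w h 1 1 θ, -Bm w h 1 0 θ; -Bm w h 0 1 θ, Bm w h 0 0 θ]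

section B

variable {r : ℝ} {w : Fo 2}

theorem sp_Bm (hr : 0 < r) (hw : ClF r w) (h : V 2) (k l : Fin 2) : SP (Bm w h k l) := by
  have h1 : SP fun θ => shf h w (θ, (fun _ : V 2 => (0 : V 2)) θ) :=
    sp_wa (shf_clf hw h) (SP.const 0) fun θ => by simpa using hr
  have h2 : SP fun θ => shf h w (θ, (0 : V 2)) (0, ee l) :=
    SP.clm (T := fun θ => shf h w (θ, (0 : V 2))) (u := fun _ => ((0, ee l) : W 2)) h1 (SP.const _)
  exact SP.clm (T := fun θ => shf h w (θ, (0 : V 2)) (0, ee l))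
    (u := fun _ => ((ee k, 0) : W 2)) h2 (SP.const _)

theorem sm_S1 (hr : 0 < r) (hw : ClF r w) (h : V 2) : SM (S1 w h) := by
  intro i j
  fin_cases i <;> fin_cases j
  · exact sp_Bm hr hw h 1 0
  · exact sp_Bm hr hw h 1 1
  · exact (sp_Bm hr hw h 0 0).neg
  · exact (sp_Bm hr hw h 0 1).neg

theorem sm_S2 (hr : 0 < r) (hw : ClF r w) (h : V 2) : SM (S2 w h) := by
  intro i j
  fin_cases i <;> fin_cases j
  · exact sp_Bm hr hw h 1 1
  · exact (sp_Bm hr hw h 1 0).neg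
  · exact (sp_Bm hr hw h 0 1).neg
  · exact sp_Bm hr hw h 0 0

/-- decomposition of the flux -/
theorem lam_eq (h : V 2) {A : V 2 → V 2} (k : Fin 2) (θ : V 2) :
    lam (shf h w) A 0 k θ = A θ 0 * Bm w h k 0 θ + A θ 1 * Bm w h k 1 θ := by
  unfold lam shf Bm
  simp only [zero_smul]
  have e : ((0, A θ) : W 2) = A θ 0 • ((0, ee 0) : W 2) + A θ 1 • ((0, ee 1) : W 2) := by
    have e1 : A θ = A θ 0 • (ee 0 : V 2) + A θ 1 • (ee 1 : V 2) := by
      ext i
      fin_cases i <;> simp [ee]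
    ext1
    · simp
    · simpa using e1
  rw [e, map_add, map_smul, map_smul]
  rfl

/-- components of the map -/
theorem comp_aF (q : PQ a) (h1 : IsJet q.1) (h2 : IsJet q.2) (x : V 2) :
    HS.fn (aF (0, q)) x 0 = dr 0 (HS.fn q.1.1) x - dr 1 (HS.fn q.2.1) x ∧
    HS.fn (aF (0, q)) x 1 = dr 1 (HS.fn q.1.1) x + dr 0 (HS.fn q.2.1) x := by
  rw [fn_aF, gr_apply, rt_apply, h1.d1, h2.d1]
  refine ⟨?_, ?_⟩
  · simp [ee, dr, sub_eq_add_neg]
  · simp [ee, dr]

/-- the linearised operator on smooth jets -/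
theorem curl_eq (hr : 0 < r) (hw : ClF r w) (h : V 2) {q : PQ a} (h1 : IsJet q.1) (h2 : IsJet q.2)
    (θ : V 2) :
    dr 0 (lam (shf h w) (HS.fn (aF (0, q))) 0 1) θ - dr 1 (lam (shf h w) (HS.fn (aF (0, q))) 0 0) θ =
      LL (S1 w h) (HS.fn q.1.1) θ + LL (S2 w h) (HS.fn q.2.1) θ := by
  have hB := sp_Bm hr hw h
  have s1 : ∀ j, SP (dr j (HS.fn q.1.1)) := fun j => h1.sp.dr j
  have s2 : ∀ j, SP (dr j (HS.fn q.2.1)) := fun j => h2.sp.dr j
  have f : ∀ k, lam (shf h w) (HS.fn (aF (0, q))) 0 k = fun θ =>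
      (Bm w h k 0 θ * dr 0 (HS.fn q.1.1) θ + Bm w h k 1 θ * dr 1 (HS.fn q.1.1) θ) +
      (Bm w h k 1 θ * dr 0 (HS.fn q.2.1) θ - Bm w h k 0 θ * dr 1 (HS.fn q.2.1) θ) := by
    intro k
    funext θ
    rw [lam_eq, (comp_aF q h1 h2 θ).1, (comp_aF q h1 h2 θ).2]
    ring
  have g1 : ∀ k, SP fun θ => Bm w h k 0 θ * dr 0 (HS.fn q.1.1) θ +
      Bm w h k 1 θ * dr 1 (HS.fn q.1.1) θ := fun k =>
    ((hB k 0).mul (s1 0)).add ((hB k 1).mul (s1 1))
  have g2 : ∀ k, SP fun θ => Bm w h k 1 θ * dr 0 (HS.fn q.2.1) θ -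
      Bm w h k 0 θ * dr 1 (HS.fn q.2.1) θ := fun k =>
    ((hB k 1).mul (s2 0)).sub ((hB k 0).mul (s2 1))
  rw [f 1, f 0, dr_add (g1 1) (g2 1), dr_add (g1 0) (g2 0)]
  unfold LL
  rw [Fin.sum_univ_two, Fin.sum_univ_two]
  have t1 : (fun y => ∑ j, S1 w h y 0 j * dr j (HS.fn q.1.1) y) = fun y =>
      Bm w h 1 0 y * dr 0 (HS.fn q.1.1) y + Bm w h 1 1 y * dr 1 (HS.fn q.1.1) y := by
    funext y; rw [Fin.sum_univ_two]; rfl
  have t2 : (fun y => ∑ j, S1 w h y 1 j * dr j (HS.fn q.1.1) y) = fun y =>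
      -(Bm w h 0 0 y * dr 0 (HS.fn q.1.1) y + Bm w h 0 1 y * dr 1 (HS.fn q.1.1) y) := by
    funext y; rw [Fin.sum_univ_two]
    show -Bm w h 0 0 y * _ + -Bm w h 0 1 y * _ = _
    ring
  have t3 : (fun y => ∑ j, S2 w h y 0 j * dr j (HS.fn q.2.1) y) = fun y =>
      Bm w h 1 1 y * dr 0 (HS.fn q.2.1) y - Bm w h 1 0 y * dr 1 (HS.fn q.2.1) y := by
    funext y; rw [Fin.sum_univ_two]
    show Bm w h 1 1 y * _ + -Bm w h 1 0 y * _ = _
    ring
  have t4 : (fun y => ∑ j, S2 w h y 1 j * dr j (HS.fn q.2.1) y) = fun y =>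
      -(Bm w h 0 1 y * dr 0 (HS.fn q.2.1) y - Bm w h 0 0 y * dr 1 (HS.fn q.2.1) y) := by
    funext y; rw [Fin.sum_univ_two]
    show -Bm w h 0 1 y * _ + Bm w h 0 0 y * _ = _
    ring
  rw [t1, t2, t3, t4, dr_neg, dr_neg]
  ring

end B

/-! ### the derivative -/

section D

variable {r : ℝ} {w w' : Fo 2}

/-- the value on the curve `s • q` -/
theorem Gop_smul (ha : 0 < a) (ha1 : a ≤ 1) (hw' : BS w')
    (he : ∀ p : W 2, ‖p.2‖ ≤ r / 2 → w' p = w p) (h : V 2) {q : PQ a} (h1 : IsJet q.1)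
    (h2 : IsJet q.2) {s : ℝ} (hs : |s| * ‖aF (0, q)‖ ≤ r / 2) :
    HS.fn (Gop ha ha1 hw' (((0 : V 2), h), s • q)) =
      pb (shf h w) (fun θ => s • HS.fn (aF (0, q)) θ) 0 1 := by
  have e0 : aF ((0 : V 2), s • q) = s • aF (a := a) (0, q) := by
    rw [← map_smul]
    congr 1
    ext1 <;> simp
  have hA := sp_aF h1 h2 (0 : V 2)
  have e1 : ∀ j, dr j (fun θ => s • HS.fn (aF (0, q)) θ) = HS.fn (dF j (s • q)) := by
    intro j
    funext θ
    rw [dr_smul hA, dr_aF h1 h2, map_smul]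
    rfl
  funext θ
  rw [fn_Gop, e0, fn_smul]
  unfold pb
  rw [e1, e1]
  have hle : ‖s • HS.fn (aF (0, q)) θ‖ ≤ r / 2 := by
    rw [norm_smul, Real.norm_eq_abs]
    exact (mul_le_mul_of_nonneg_left (norm_fn_le _ θ) (abs_nonneg s)).trans hs
  rw [he (θ + h, s • HS.fn (aF (0, q)) θ) hle]
  rfl

/-- the derivative on smooth jets -/
theorem hasDerivAt_Nop (ha : 0 < a) (ha1 : a ≤ 1) (hr : 0 < r) (hw : ClF r w) (hw' : BS w')
    (he : ∀ p : W 2, ‖p.2‖ ≤ r / 2 → w' p = w p)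
    (hor : ∀ θ u v : V 2, w (θ, 0) (u, 0) (v, 0) = 0) (h : V 2) {q : PQ a} (h1 : IsJet q.1)
    (h2 : IsJet q.2) (θ : V 2) :
    HasDerivAt (fun s : ℝ => HS.fn (Nop ha ha1 hw' (((0 : V 2), h), s • q)) θ)
      (LL (S1 w h) (HS.fn q.1.1) θ + LL (S2 w h) (HS.fn q.2.1) θ) 0 := by
  have hsw := shf_clf hw h
  have hA := sp_aF h1 h2 (0 : V 2)
  have hd := hasDerivAt_pbt hsw hA 0 1 0 θ (by rw [zero_smul, norm_zero]; exact hr)
  rw [pbd_eq hsw hA 0 1 0 θ (fun θ => by rw [zero_smul, norm_zero]; exact hr),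
    curl_eq hr hw h h1 h2] at hd
  refine hd.congr_of_eventuallyEq ?_
  have hev : ∀ᶠ s : ℝ in 𝓝 0, |s| * ‖aF (0, q)‖ < r / 2 := by
    have hc : Continuous fun s : ℝ => |s| * ‖aF (a := a) (0, q)‖ :=
      continuous_abs.mul continuous_const
    have := hc.tendsto 0
    rw [abs_zero, zero_mul] at this
    exact this.eventually_lt_const (by linarith)
  filter_upwards [hev] with s hs
  rw [fn_Nop, Gop_smul ha ha1 hw' he h h1 h2 hs.le]
  have hsr : ∀ θ, ‖s • HS.fn (aF (0, q)) θ‖ < r := fun θ => by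
    rw [norm_smul, Real.norm_eq_abs]
    have := (mul_le_mul_of_nonneg_left (norm_fn_le (aF (0, q)) θ) (abs_nonneg s)).trans_lt hs
    linarith
  rw [mn_pb hsw (hA.smul s) hsr]
  have hz : pb (shf h w) (fun _ => (0 : V 2)) 0 1 = fun _ => (0 : ℝ) := by
    funext θ
    unfold pb
    have hd0 : ∀ j, dr j (fun _ : V 2 => (0 : V 2)) θ = 0 := fun j => by
      show fderiv ℝ (fun _ : V 2 => (0 : V 2)) θ (ee j) = 0
      rw [fderiv_const_apply]; rfl
    rw [hd0, hd0]
    exact hor (θ + h) (ee 0) (ee 1)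
  rw [hz, mn_const, sub_zero]

/-- the ambient derivative, on jets -/
theorem fderiv_Nop_jet (ha : 0 < a) (ha1 : a ≤ 1) (hr : 0 < r) (hw : ClF r w) (hw' : BS w')
    (he : ∀ p : W 2, ‖p.2‖ ≤ r / 2 → w' p = w p)
    (hor : ∀ θ u v : V 2, w (θ, 0) (u, 0) (v, 0) = 0) (h : V 2) {q : PQ a} (h1 : IsJet q.1)
    (h2 : IsJet q.2) :
    fderiv ℝ (fun q : PQ a => Nop ha ha1 hw' (((0 : V 2), h), q)) 0 q =
      Lop ha ha1 (sm_S1 hr hw h) q.1 + Lop ha ha1 (sm_S2 hr hw h) q.2 := by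
  refine HS.ext fun θ => ?_
  have hsm : ContDiff ℝ ∞ fun q : PQ a => Nop ha ha1 hw' (((0 : V 2), h), q) :=
    (contDiff_Nop ha ha1 hw').comp (contDiff_const.prodMk contDiff_id)
  have hd : HasFDerivAt (fun q : PQ a => Nop ha ha1 hw' (((0 : V 2), h), q))
      (fderiv ℝ (fun q : PQ a => Nop ha ha1 hw' (((0 : V 2), h), q)) 0) ((0 : ℝ) • q) := by
    rw [zero_smul]
    exact (hsm.differentiable (by simp) 0).hasFDerivAt
  have hl : HasDerivAt (fun s : ℝ => s • q) q 0 := by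
    simpa using (hasDerivAt_id (0 : ℝ)).smul_const q
  have h3 := (ev (a := a) θ).hasFDerivAt.comp_hasDerivAt 0 (hd.comp_hasDerivAt 0 hl)
  have h4 := h3.unique (hasDerivAt_Nop ha ha1 hr hw hw' he hor h h1 h2 θ)
  rw [fn_add, Lop_jet ha ha1 (sm_S1 hr hw h) h1, Lop_jet ha ha1 (sm_S2 hr hw h) h2]
  exact h4

/-- the ambient derivative -/
theorem fderiv_Nop (ha : 0 < a) (ha1 : a ≤ 1) (hr : 0 < r) (hw : ClF r w) (hw' : BS w')
    (he : ∀ p : W 2, ‖p.2‖ ≤ r / 2 → w' p = w p)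
    (hor : ∀ θ u v : V 2, w (θ, 0) (u, 0) (v, 0) = 0) (h : V 2) {q : PQ a} (h1 : q.1 ∈ XX a 2)
    (h2 : q.2 ∈ XX a 2) :
    fderiv ℝ (fun q : PQ a => Nop ha ha1 hw' (((0 : V 2), h), q)) 0 q =
      Lop ha ha1 (sm_S1 hr hw h) q.1 + Lop ha ha1 (sm_S2 hr hw h) q.2 := by
  refine dense_ind (isClosed_eq (ContinuousLinearMap.continuous _)
    (((Lop ha ha1 (sm_S1 hr hw h)).continuous.comp continuous_fst).add
      ((Lop ha ha1 (sm_S2 hr hw h)).continuous.comp continuous_snd)))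
    (fun q h1 h2 => fderiv_Nop_jet ha ha1 hr hw hw' he hor h h1 h2) h1 h2

/-- a derivative in a submodule, from the ambient derivative -/
theorem lift_deriv {E F G : Type*} [NormedAddCommGroup E] [NormedSpace ℝ E]
    [NormedAddCommGroup F] [NormedSpace ℝ F] [NormedAddCommGroup G] [NormedSpace ℝ G]
    (I : E →L[ℝ] F) (p : Submodule ℝ G) {f : F → G} {D : F →L[ℝ] G} {g : E → p} {L : E →L[ℝ] p}
    {x : E} (hf : HasFDerivAt f D (I x)) (hg : ∀ x, (g x : G) = f (I x))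
    (hL : ∀ x, (L x : G) = D (I x)) : HasFDerivAt g L x := by
  have h3 : HasFDerivAt (fun x => f (I x)) (D.comp I) x := hf.comp x I.hasFDerivAt
  rw [hasFDerivAt_iff_isLittleO] at h3 ⊢
  refine Asymptotics.IsLittleO.of_norm_left ?_
  refine h3.norm_left.congr_left fun q => ?_
  rw [ContinuousLinearMap.comp_apply, ← hg, ← hg, ← hL]
  rfl

/-- inclusion of the unknowns -/
def II : QQ a →L[ℝ] PQ a := (XX a 2).subtypeL.prodMap (XX a 2).subtypeL

theorem II_fst (q : QQ a) : (II q).1 = (q.1 : P2J a 2) := rfl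

theorem II_snd (q : QQ a) : (II q).2 = (q.2 : P2J a 2) := rfl

/-- the linearised operator -/
def LN (ha : 0 < a) (ha1 : a ≤ 1) (hr : 0 < r) (hw : ClF r w) (h : V 2) : QQ a →L[ℝ] YY a 2 :=
  (LX ha ha1 (sm_S1 hr hw h)).comp (ContinuousLinearMap.fst ℝ _ _) +
        (LX ha ha1 (sm_S2 hr hw h)).comp (ContinuousLinearMap.snd ℝ _ _)

theorem LN_apply (ha : 0 < a) (ha1 : a ≤ 1) (hr : 0 < r) (hw : ClF r w) (h : V 2) (q : QQ a) :
    LN ha ha1 hr hw h q = LX ha ha1 (sm_S1 hr hw h) q.1 + LX ha ha1 (sm_S2 hr hw h) q.2 := rfl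

theorem LN_coe (ha : 0 < a) (ha1 : a ≤ 1) (hr : 0 < r) (hw : ClF r w) (h : V 2) (q : QQ a) :
    (LN ha ha1 hr hw h q : HS a 2 ℝ) =
      Lop ha ha1 (sm_S1 hr hw h) (II q).1 + Lop ha ha1 (sm_S2 hr hw h) (II q).2 := by
  refine (congrArg Subtype.val (LN_apply ha ha1 hr hw h q)).trans ((Submodule.coe_add _ _).trans ?_)
  exact congrArg₂ (· + ·) (LX_coe ha ha1 (sm_S1 hr hw h) q.1) (LX_coe ha ha1 (sm_S2 hr hw h) q.2)

/-- **the linearisation** -/
theorem hasFDerivAt_NN (ha : 0 < a) (ha1 : a ≤ 1) (hr : 0 < r) (hw : ClF r w) (hw' : BS w')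
    (hp : PerF w') (he : ∀ p : W 2, ‖p.2‖ ≤ r / 2 → w' p = w p)
    (hor : ∀ θ u v : V 2, w (θ, 0) (u, 0) (v, 0) = 0) (h : V 2) :
    HasFDerivAt (fun q : QQ a => NN ha ha1 hw' hp (((0 : V 2), h), q)) (LN ha ha1 hr hw h) 0 := by
  have hsm : ContDiff ℝ ∞ fun q : PQ a => Nop ha ha1 hw' (((0 : V 2), h), q) :=
    (contDiff_Nop ha ha1 hw').comp (contDiff_const.prodMk contDiff_id)
  have hd : HasFDerivAt (fun q : PQ a => Nop ha ha1 hw' (((0 : V 2), h), q))
      (fderiv ℝ (fun q : PQ a => Nop ha ha1 hw' (((0 : V 2), h), q)) 0) (II 0) := by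
    rw [map_zero]
    exact (hsm.differentiable (by simp) 0).hasFDerivAt
  refine lift_deriv II (YY a 2) hd (fun q => rfl) fun q => ?_
  rw [LN_coe]
  have m1 : (II q).1 ∈ XX a 2 := by rw [II_fst]; exact q.1.2
  have m2 : (II q).2 ∈ XX a 2 := by rw [II_snd]; exact q.2.2
  exact (fderiv_Nop ha ha1 hr hw hw' he hor h m1 m2).symm

/-- the trivial solution -/
theorem NN_zero (ha : 0 < a) (ha1 : a ≤ 1) (hr : 0 < r) (hw' : BS w')
    (hp : PerF w') (he : ∀ p : W 2, ‖p.2‖ ≤ r / 2 → w' p = w p)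
    (hor : ∀ θ u v : V 2, w (θ, 0) (u, 0) (v, 0) = 0) (h : V 2) :
    NN ha ha1 hw' hp (((0 : V 2), h), (0 : QQ a)) = 0 := by
  refine Subtype.ext (HS.ext fun θ => ?_)
  have key : HS.fn (Gop (a := a) ha ha1 hw' (((0 : V 2), h), 0)) = fun _ => (0 : ℝ) := by
    funext θ
    rw [fn_Gop]
    have e0 : HS.fn (aF (a := a) ((0 : V 2), (0 : PQ a))) θ = 0 := by
      have : ((0 : V 2), (0 : PQ a)) = 0 := rfl
      rw [this, map_zero]; rfl
    have e1 : ∀ j, HS.fn (dF (a := a) j (0 : PQ a)) θ = 0 := fun j => by rw [map_zero]; rfl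
    rw [e0, e1, e1, he _ (by simpa using by linarith)]
    exact hor _ _ _
  show HS.fn (Nop ha ha1 hw' (((0 : V 2), h), 0)) θ = 0
  rw [fn_Nop, key, mn_const, sub_zero]

end D

end

end Crest.Agent.R235.TorNM_384
end

-- ▼ part R235/TorFM_384
section

/-!
# Row 235 (S0364), TOR / FIB-B1b (helper384): translations, bijectivity, implicit function
-/

set_option autoImplicit false
set_option maxSynthPendingDepth 3

open MeasureTheory Set Metric Filter Topology
open scoped ContDiff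

namespace Crest.Agent.R235.TorNM_384

open Crest.Agent.R238 (Ell)
open Crest.Agent.R238.Sch (ee D2 LB norm_ee)
open Crest.Agent.R273.SchA_152 (HO)
open Crest.Agent.R275.Tor812 (box volume_box)
open Crest.Agent.R281.Mc673
open Crest.Agent.R235.TorOm_384 (BS Lp)
open Crest.Agent.R235.TorSch_384 Crest.Agent.R235.TorSp_384 Crest.Agent.R235.TorHS_384
open Crest.Agent.R235.TorHS_384.HS Crest.Agent.R235.TorCut_384
open Crest.Agent.R235.TorFam_384 Crest.Agent.R235.TorIft_384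

noncomputable section

variable {a : ℝ} {N : ℕ}

/-! ### translations -/

theorem mn_shift {f : V N → ℝ} (hf : SP f) (c : V N) : mn (fun x => f (x + c)) = mn f := by
  rw [mn_eq_box hf (WithLp.ofLp c)]
  unfold mn
  have h1 := (measurePreserving_add_right (volume : Measure (Fin N → ℝ))
    (WithLp.ofLp c)).setIntegral_preimage_emb (measurableEmbedding_addRight (WithLp.ofLp c))
    (fun x : Fin N → ℝ => f (WithLp.toLp 2 x)) (box (WithLp.ofLp c))
  have h2 : (fun x : Fin N → ℝ => x + WithLp.ofLp c) ⁻¹' box (WithLp.ofLp c) =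
      box (0 : Fin N → ℝ) := by
    ext x
    show (∀ i, x i + c i ∈ Ioc (c i) (c i + 1)) ↔ ∀ i, x i ∈ Ioc ((0 : Fin N → ℝ) i) (0 + 1)
    refine forall_congr' fun i => ?_
    simp only [mem_Ioc, Pi.zero_apply]
    constructor
    · rintro ⟨a, b⟩; constructor <;> linarith
    · rintro ⟨a, b⟩; constructor <;> linarith
  rw [h2] at h1
  exact h1

theorem sp_shift {F : Type*} [NormedAddCommGroup F] [NormedSpace ℝ F] {f : V N → F} (hf : SP f)
    (c : V N) : SP fun x => f (x + c) :=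
  ⟨hf.sm.comp (contDiff_id.add contDiff_const), fun k x => by
    show f (x + kv k + c) = f (x + c)
    rw [add_right_comm]; exact hf.per k (x + c)⟩

/-- translation of jets -/
def trP (h : V N) : P2J a N →L[ℝ] P2J a N := (tr h).prodMap ((tr h).prodMap (tr h))

theorem isJet_tr (h : V N) {q : P2J a N} (hq : IsJet q) : IsJet (trP h q) where
  sp := sp_shift hq.sp h
  mn0 := (mn_shift hq.sp h).trans hq.mn0
  h1 x := by
    have h1 : HasFDerivAt (fun x : V N => x + h) (ContinuousLinearMap.id ℝ (V N)) x :=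
      (hasFDerivAt_id x).add_const h
    have h2 := HasFDerivAt.comp (g := HS.fn q.1) x (hq.h1 (x + h)) h1
    rwa [ContinuousLinearMap.comp_id] at h2
  h2 x := by
    have h1 : HasFDerivAt (fun x : V N => x + h) (ContinuousLinearMap.id ℝ (V N)) x :=
      (hasFDerivAt_id x).add_const h
    have h2 := HasFDerivAt.comp (g := HS.fn q.2.1) x (hq.h2 (x + h)) h1
    rwa [ContinuousLinearMap.comp_id] at h2

theorem trP_mem (h : V N) {q : P2J a N} (hq : q ∈ XX a N) : trP h q ∈ XX a N :=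
  map_mem_closure (trP h).continuous hq fun _ hp => isJet_tr h hp

theorem norm_trP_le (h : V N) (q : P2J a N) : ‖trP h q‖ ≤ ‖q‖ :=
  max_le_max (norm_tr_le h _) (max_le_max (norm_tr_le h _) (norm_tr_le h _))

/-- translation on `XX` -/
def trX (h : V N) : XX a N →L[ℝ] XX a N :=
  ((trP h).comp (XX a N).subtypeL).codRestrict (XX a N) fun q => trP_mem h q.2

theorem norm_trX_le (h : V N) (q : XX a N) : ‖trX h q‖ ≤ ‖q‖ := norm_trP_le h (q : P2J a N)

/-- translation on the unknowns -/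
def TQ (h : V 2) : QQ a →L[ℝ] QQ a := (trX h).prodMap (trX h)

theorem norm_TQ_le (h : V 2) (q : QQ a) : ‖TQ h q‖ ≤ ‖q‖ :=
  max_le_max (norm_trX_le h _) (norm_trX_le h _)

theorem fn_aF_TQ (h c x : V 2) (q : QQ a) :
    HS.fn (aF (c, II (TQ h q))) x = HS.fn (aF (c, II q)) (x + h) := rfl


/-- the equation pointwise -/
theorem NN_eq_zero {w : Fo 2} {ha : 0 < a} {ha1 : a ≤ 1} {hw : BS w} {hp : PerF w}
    {c h : V 2} {q : QQ a} : NN ha ha1 hw hp ((c, h), q) = 0 ↔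
      ∀ x, w (x + h, HS.fn (aF (c, II q)) x) (ee 0, HS.fn (dF 0 (II q)) x)
        (ee 1, HS.fn (dF 1 (II q)) x) = mn (HS.fn (Gop ha ha1 hw ((c, h), II q))) := by
  have e1 : (NN ha ha1 hw hp ((c, h), q) : HS a 2 ℝ) = Nop ha ha1 hw ((c, h), II q) := rfl
  constructor
  · intro h0 x
    have e2 : Nop ha ha1 hw ((c, h), II q) = 0 := by rw [← e1, h0]; rfl
    have e3 : HS.fn (Nop ha ha1 hw ((c, h), II q)) x = 0 := by rw [e2]; rfl
    rw [fn_Nop, fn_Gop] at e3
    linarith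
  · intro hx
    refine Subtype.ext (e1.trans (HS.ext fun x => ?_))
    rw [fn_Nop, fn_Gop, hx, sub_self]
    rfl

theorem mn_Gop_const {w : Fo 2} {ha : 0 < a} {ha1 : a ≤ 1} {hw : BS w} {c h : V 2} {q : PQ a}
    {K : ℝ} (hK : ∀ x, w (x + h, HS.fn (aF (c, q)) x) (ee 0, HS.fn (dF 0 q) x)
        (ee 1, HS.fn (dF 1 q) x) = K) : mn (HS.fn (Gop ha ha1 hw ((c, h), q))) = K := by
  have e : HS.fn (Gop ha ha1 hw ((c, h), q)) = fun _ => K := by
    funext y
    rw [fn_Gop, hK]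
  rw [e, mn_const]

theorem NN_tr {w : Fo 2} {ha : 0 < a} {ha1 : a ≤ 1} {hw : BS w} {hp : PerF w}
    {c : V 2} (h : V 2) {q : QQ a} (hz : NN ha ha1 hw hp ((c, 0), q) = 0) :
    NN ha ha1 hw hp ((c, h), TQ h q) = 0 := by
  rw [NN_eq_zero] at hz
  have key : ∀ x, w (x + h, HS.fn (aF (c, II (TQ h q))) x) (ee 0, HS.fn (dF 0 (II (TQ h q))) x)
        (ee 1, HS.fn (dF 1 (II (TQ h q))) x) = mn (HS.fn (Gop ha ha1 hw ((c, 0), II q))) := by
    intro x
    have := hz (x + h)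
    rw [add_zero] at this
    exact this
  exact NN_eq_zero.2 fun x => (key x).trans (mn_Gop_const key).symm

/-! ### bijectivity of the linearisation -/

section lin

variable {r lam : ℝ} {x y : Fo 2}

theorem S1_x (H : FamH r x y) (h θ : V 2) : S1 x h θ = !![0, 1; -1, 0] := by
  have e : ∀ k l, Bm x h k l θ = inner ℝ (ee l : V 2) (ee k) := fun k l => H.norm (θ + h) (ee k) (ee l)
  unfold S1
  rw [e, e, e, e]
  simp [ee, EuclideanSpace.inner_single_left]

theorem S2_x (H : FamH r x y) (h θ : V 2) : S2 x h θ = 1 := by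
  have e : ∀ k l, Bm x h k l θ = inner ℝ (ee l : V 2) (ee k) := fun k l => H.norm (θ + h) (ee k) (ee l)
  unfold S2
  rw [e, e, e, e]
  simp [ee, EuclideanSpace.inner_single_left]
  ext i j
  fin_cases i <;> fin_cases j <;> simp

theorem S1_shift (w : Fo 2) (h θ : V 2) : S1 w h θ = S1 w 0 (θ + h) := by
  unfold S1 Bm
  rw [add_zero]

/-- the rotation part vanishes -/
theorem LX_rot (ha : 0 < a) (ha1 : a ≤ 1) {S : V 2 → Matrix (Fin 2) (Fin 2) ℝ} (hS : SM S)
    (hS' : ∀ θ, S θ = !![0, 1; -1, 0]) (q : XX a 2) : LX ha ha1 hS q = 0 := by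
  have hP : ∀ p : P2J a 2, p ∈ XX a 2 → Lop ha ha1 hS p = 0 := by
    intro p hp
    have hcl : IsClosed {p : P2J a 2 | Lop ha ha1 hS p = 0} :=
      isClosed_eq (Lop ha ha1 hS).continuous continuous_const
    refine closure_minimal (fun p hp => ?_) hcl hp
    have hp' : IsJet p := hp
    refine HS.ext fun θ => ?_
    rw [Lop_jet ha ha1 hS hp']
    unfold LL
    rw [Fin.sum_univ_two]
    have t1 : (fun y => ∑ j, S y 0 j * dr j (HS.fn p.1) y) = dr 1 (HS.fn p.1) := by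
      funext y; rw [Fin.sum_univ_two, hS']; simp
    have t2 : (fun y => ∑ j, S y 1 j * dr j (HS.fn p.1) y) = fun y => - dr 0 (HS.fn p.1) y := by
      funext y; rw [Fin.sum_univ_two, hS']; simp
    rw [t1, t2, dr_neg, dr_comm hp'.sp 0 1]
    show _ = (0 : ℝ)
    ring
  exact Subtype.ext ((LX_coe ha ha1 hS q).trans (hP q q.2))

/-- the total linearised operator -/
def LT (ha : 0 < a) (ha1 : a ≤ 1) (H : FamH r x y) (h : V 2) : QQ a →L[ℝ] YY a 2 × YY a 2 :=
  (LN ha ha1 H.pos H.clx h).prod (LN ha ha1 H.pos H.cly h)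

theorem LT_bij (ha : 0 < a) (ha1 : a < 1) (H : FamH r x y) (hlam : 0 < lam) (hE : El lam (S1 y 0))
    (h : V 2) : Function.Bijective (LT ha ha1.le H h) := by
  have hx0 : ∀ q : XX a 2, LX ha ha1.le (sm_S1 H.pos H.clx h) q = 0 :=
    LX_rot ha ha1.le _ (S1_x H h)
  have hE2 : El 1 (S2 x h) := by
    intro θ z
    rw [S2_x H]
    exact ((ell_one (N := 2)).2 z).1
  have hE1 : El lam (S1 y h) := by
    intro θ z
    rw [S1_shift]
    exact hE (θ + h) z
  have i2 := inj_LX ha ha1 one_pos (sm_S2 H.pos H.clx h) hE2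
  have s2 := surj_LX ha ha1 one_pos (sm_S2 H.pos H.clx h) hE2
  have i1 := inj_LX ha ha1 hlam (sm_S1 H.pos H.cly h) hE1
  have s1 := surj_LX ha ha1 hlam (sm_S1 H.pos H.cly h) hE1
  constructor
  · rw [injective_iff_map_eq_zero]
    rintro ⟨φ, ψ⟩ hq
    have e1 : LN ha ha1.le H.pos H.clx h (φ, ψ) = 0 := congrArg Prod.fst hq
    have e2 : LN ha ha1.le H.pos H.cly h (φ, ψ) = 0 := congrArg Prod.snd hq
    rw [LN_apply] at e1 e2
    have e3 : LX ha ha1.le (sm_S2 H.pos H.clx h) ψ = 0 := by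
      have := hx0 φ
      rw [this, zero_add] at e1
      exact e1
    have hψ : ψ = 0 := i2 (by rw [e3, map_zero])
    have e4 : LX ha ha1.le (sm_S1 H.pos H.cly h) φ = 0 := by
      rw [hψ] at e2
      have e5 : LX ha ha1.le (sm_S2 H.pos H.cly h) (0 : XX a 2) = 0 := map_zero _
      have e6 : LX ha ha1.le (sm_S1 H.pos H.cly h) φ +
        LX ha ha1.le (sm_S2 H.pos H.cly h) (0 : XX a 2) = 0 := e2
      rw [e5, add_zero] at e6
      exact e6
    have hφ : φ = 0 := i1 (by rw [e4, map_zero])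
    rw [hφ, hψ]
    rfl
  · rintro ⟨u, v⟩
    obtain ⟨ψ, hψ⟩ := s2 u
    obtain ⟨φ, hφ⟩ := s1 (v - LX ha ha1.le (sm_S2 H.pos H.cly h) ψ)
    refine ⟨(φ, ψ), Prod.ext ?_ ?_⟩
    · show LN ha ha1.le H.pos H.clx h (φ, ψ) = u
      rw [LN_apply]
      show LX ha ha1.le (sm_S1 H.pos H.clx h) φ + LX ha ha1.le (sm_S2 H.pos H.clx h) ψ = u
      rw [hx0 φ, hψ, zero_add]
    · show LN ha ha1.le H.pos H.cly h (φ, ψ) = v
      rw [LN_apply]
      show LX ha ha1.le (sm_S1 H.pos H.cly h) φ + LX ha ha1.le (sm_S2 H.pos H.cly h) ψ = v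
      rw [hφ]
      abel

end lin

/-! ### the family of solutions -/

section abs

variable {P Q Y : Type*} [NormedAddCommGroup P] [NormedSpace ℝ P] [CompleteSpace P]
  [NormedAddCommGroup Q] [NormedSpace ℝ Q] [CompleteSpace Q]
  [NormedAddCommGroup Y] [NormedSpace ℝ Y] [CompleteSpace Y]

/-- solutions of an equivariant equation -/
theorem sols_abs {f : (P × P) × Q → Y} (hf : ContDiff ℝ ∞ f) (hf0 : ∀ h, f ((0, h), 0) = 0)
    {A : P → Q →L[ℝ] Y} (hfd : ∀ h, HasFDerivAt (fun q => f ((0, h), q)) (A h) 0)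
    (hb : ∀ h, Function.Bijective (A h)) {T : P → Q → Q} (hT : ∀ h q, ‖T h q‖ ≤ ‖q‖)
    (htr : ∀ c h q, f ((c, 0), q) = 0 → f ((c, h), T h q) = 0) :
    ∃ q : P → Q, q 0 = 0 ∧ ContDiffAt ℝ ∞ q 0 ∧ (∀ᶠ c in 𝓝 (0 : P), f ((c, 0), q c) = 0) ∧
      ∀ h0 : P, ∀ᶠ t in 𝓝 ((0, h0) : P × P),
        ContDiffAt ℝ ∞ (fun t : P × P => T t.2 (q t.1)) t := by
  have key := fun h : P => ift hf (hf0 h) (hfd h) (hb h)
  obtain ⟨g, hg0, hgs, hgz, -⟩ := key 0
  have tc : Tendsto (fun c : P => ((c, 0) : P × P)) (𝓝 0) (𝓝 (0, 0)) :=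
    (continuous_id.prodMk continuous_const).tendsto' _ _ rfl
  have hqs : ContDiffAt ℝ ∞ (fun c : P => g (c, 0)) 0 := by
    have h1 : ContDiffAt ℝ ∞ g ((0, 0) : P × P) := hgs.self_of_nhds
    exact ContDiffAt.comp (f := fun c : P => ((c, 0) : P × P)) 0 h1
      (contDiffAt_id.prodMk contDiffAt_const)
  have hqc := hqs.continuousAt
  have hqz : ∀ᶠ c in 𝓝 (0 : P), f ((c, 0), g (c, 0)) = 0 := tc.eventually hgz
  refine ⟨fun c => g (c, 0), hg0, hqs, hqz, fun h0 => ?_⟩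
  obtain ⟨g', -, hgs', -, hu⟩ := key h0
  have tt : Tendsto (fun t : P × P => ((t, T t.2 (g (t.1, 0))) : (P × P) × Q))
      (𝓝 (0, h0)) (𝓝 ((0, h0), 0)) := by
    rw [nhds_prod_eq (x := ((0, h0) : P × P))]
    refine tendsto_id.prodMk ?_
    have h1 : Tendsto (fun t : P × P => ‖g (t.1, 0)‖) (𝓝 (0, h0)) (𝓝 0) := by
      have h2 : Tendsto (fun c : P => ‖g (c, 0)‖) (𝓝 0) (𝓝 0) := by
        have := hqc.norm.tendsto
        simp only [hg0, norm_zero] at this
        exact this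
      exact h2.comp (continuous_fst.tendsto' _ _ rfl)
    exact squeeze_zero_norm (fun t => hT _ _) h1
  have t1 : Tendsto (fun t : P × P => t.1) (𝓝 (0, h0)) (𝓝 0) :=
    continuous_fst.tendsto' _ _ rfl
  have heq : (fun t : P × P => T t.2 (g (t.1, 0))) =ᶠ[𝓝 (0, h0)] g' := by
    filter_upwards [tt.eventually hu, t1.eventually hqz] with t ht1 ht2
    exact ht1 (htr _ _ _ ht2)
  filter_upwards [heq.eventually_nhds, hgs'] with t ht1 ht2
  exact ht2.congr_of_eventuallyEq ht1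

end abs

section fam

variable {r lam : ℝ} {x y : Fo 2}

/-- both equations -/
def NP (ha : 0 < a) (ha1 : a ≤ 1) {x' y' : Fo 2} (hx' : BS x') (hy' : BS y') (px : PerF x')
    (py : PerF y') (p : (V 2 × V 2) × QQ a) : YY a 2 × YY a 2 :=
  (NN ha ha1 hx' px p, NN ha ha1 hy' py p)

/-- the solutions -/
theorem exists_sols (ha : 0 < a) (ha1 : a < 1) (H : FamH r x y) (hlam : 0 < lam)
    (hE : El lam (S1 y 0)) {x' y' : Fo 2} (hx' : BS x') (hy' : BS y') (px : PerF x')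
    (py : PerF y') (ex : ∀ p : W 2, ‖p.2‖ ≤ r / 2 → x' p = x p)
    (ey : ∀ p : W 2, ‖p.2‖ ≤ r / 2 → y' p = y p) :
    ∃ q : V 2 → QQ a, q 0 = 0 ∧ ContDiffAt ℝ ∞ q 0 ∧
      (∀ᶠ c in 𝓝 (0 : V 2), NP ha ha1.le hx' hy' px py ((c, 0), q c) = 0) ∧
      ∀ h0 : V 2, ∀ᶠ t in 𝓝 ((0, h0) : V 2 × V 2),
        ContDiffAt ℝ ∞ (fun t : V 2 × V 2 => TQ t.2 (q t.1)) t := by
  have hf : ContDiff ℝ ∞ (NP ha ha1.le hx' hy' px py) :=
    (contDiff_NN ha ha1.le hx' px).prodMk (contDiff_NN ha ha1.le hy' py)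
  have hf0 : ∀ h : V 2, NP ha ha1.le hx' hy' px py ((0, h), 0) = 0 := fun h =>
    Prod.ext (NN_zero ha ha1.le H.pos hx' px ex H.horx h)
      (NN_zero ha ha1.le H.pos hy' py ey H.hory h)
  have hfd : ∀ h : V 2, HasFDerivAt (fun q : QQ a => NP ha ha1.le hx' hy' px py ((0, h), q))
      (LT ha ha1.le H h) 0 := fun h =>
    (hasFDerivAt_NN ha ha1.le H.pos H.clx hx' px ex H.horx h).prodMk
      (hasFDerivAt_NN ha ha1.le H.pos H.cly hy' py ey H.hory h)
  refine sols_abs hf hf0 hfd (LT_bij ha ha1 H hlam hE) (T := fun h => TQ h)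
    (fun h q => norm_TQ_le h q) (fun c h q hq => ?_)
  exact Prod.ext (NN_tr (hp := px) h (congrArg Prod.fst hq))
    (NN_tr (hp := py) h (congrArg Prod.snd hq))

end fam

end

end Crest.Agent.R235.TorNM_384
end

-- ▼ part R235/TorFa_384
section

/-!
# Row 235 (S0364), TOR / FIB-B1b (helper384): families of graphs, the parts without function spaces
-/

set_option autoImplicit false
set_option maxSynthPendingDepth 3

open MeasureTheory Set Metric Filter Topology
open scoped ContDiff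

namespace Crest.Agent.R235.TorFa_384

open Crest.Agent.R238.Sch (ee D2 LB norm_ee)
open Crest.Agent.R281.Mc673

noncomputable section

variable {N : ℕ}

/-- a local property along the zero section holds on a tube -/
theorem tube_ev {P : W N → Prop} (hper : ∀ (n : Fin N → ℤ) (p : W N), P p → P (p.1 + kv n, p.2))
    (h : ∀ y : V N, ∀ᶠ p in 𝓝 ((y, 0) : W N), P p) : ∃ r : ℝ, 0 < r ∧ ∀ p ∈ tube N r, P p := by
  have h1 : ∀ᶠ v in 𝓝 (0 : V N), ∀ y ∈ cube N, P (y, v) := by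
    refine isCompact_cube.eventually_forall_of_forall_eventually fun y _ => ?_
    have hsw : Tendsto (fun z : W N => (z.2, z.1)) (𝓝 (0, y)) (𝓝 (y, 0)) :=
      (continuous_snd.prodMk continuous_fst).tendsto' _ _ rfl
    exact hsw.eventually (h y)
  obtain ⟨r, hr, hr'⟩ := Metric.eventually_nhds_iff.1 h1
  refine ⟨r, hr, fun p hp => ?_⟩
  obtain ⟨k, y, hy, hk⟩ := exists_cube p.1
  have h2 := hr' (y := p.2) (by rw [dist_zero_right]; exact hp) y hy
  have h3 := hper k _ h2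
  have h4 : p = (y + kv k, p.2) := by rw [← hk]
  rw [h4]
  exact h3

theorem vec_eq (u : V 2) : u = u 0 • (ee 0 : V 2) + u 1 • (ee 1 : V 2) := by
  ext i
  fin_cases i <;> simp [ee]

/-- from the two basis vectors to all vectors -/
theorem lag_all {B : W 2 →L[ℝ] W 2 →L[ℝ] ℝ} (hB : ∀ u v, B u v = - B v u) {D : V 2 →L[ℝ] V 2}
    (h : B (ee 0, D (ee 0)) (ee 1, D (ee 1)) = 0) (u v : V 2) : B (u, D u) (v, D v) = 0 := by
  have e : ∀ u : V 2, ((u, D u) : W 2) = u 0 • ((ee 0, D (ee 0)) : W 2) +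
      u 1 • ((ee 1, D (ee 1)) : W 2) := by
    intro u
    have h1 := vec_eq u
    ext1
    · exact h1
    · show D u = u 0 • D (ee 0) + u 1 • D (ee 1)
      conv_lhs => rw [h1]
      rw [map_add, map_smul, map_smul]
  have s0 : B (ee 0, D (ee 0)) (ee 0, D (ee 0)) = 0 := by
    have := hB (ee 0, D (ee 0)) (ee 0, D (ee 0)); linarith
  have s1 : B (ee 1, D (ee 1)) (ee 1, D (ee 1)) = 0 := by
    have := hB (ee 1, D (ee 1)) (ee 1, D (ee 1)); linarith
  have h' : B (ee 1, D (ee 1)) (ee 0, D (ee 0)) = 0 := by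
    rw [hB, h, neg_zero]
  rw [e u, e v]
  simp only [map_add, map_smul, add_apply, smul_apply, smul_eq_mul, s0, s1, h, h', mul_zero,
    add_zero]

section eta

variable {r δ : ℝ} {w : Fo N} {al : W N → V N}

/-- the variation field -/
def eta (al : W N → V N) (v θ : V N) : V N := fderiv ℝ al (θ, 0) (0, v)

theorem sp_eta (hδ : 0 < δ) (hs : ∀ p ∈ tube N δ, ContDiffAt ℝ ∞ al p)
    (hper : ∀ (k : Fin N → ℤ) (p : W N), al (p.1 + kv k, p.2) = al p) (v : V N) :
    SP (eta al v) := by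
  have h0 : ∀ θ : V N, ((θ, 0) : W N) ∈ tube N δ := fun θ => by
    show ‖(0 : V N)‖ < δ
    rwa [norm_zero]
  refine ⟨contDiff_iff_contDiffAt.2 fun θ => ?_, fun k θ => ?_⟩
  · have h1 : ContDiffAt ℝ ∞ (fderiv ℝ al) (θ, 0) := (hs _ (h0 θ)).fderiv_right (by simp)
    have h2 : ContDiffAt ℝ ∞ (fun θ : V N => fderiv ℝ al (θ, 0)) θ :=
      ContDiffAt.comp θ h1 (contDiffAt_id.prodMk contDiffAt_const)
    exact h2.clm_apply contDiffAt_const
  · unfold eta
    have e : (fun p : W N => al (p + (kv k, 0))) = al := by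
      funext p
      have := hper k p
      rw [← this]
      congr 1
      ext1 <;> simp
    have h1 : fderiv ℝ (fun p : W N => al (p + (kv k, 0))) (θ, 0) =
        fderiv ℝ al ((θ, 0) + (kv k, 0)) := fderiv_comp_add_right _
    rw [e] at h1
    have h2 : ((θ, 0) : W N) + (kv k, 0) = (θ + kv k, 0) := by
      ext1 <;> simp
    rw [h2] at h1
    rw [h1]

/-- the linearised equation -/
theorem eta_eq (hr : 0 < r) (hw : ClF r w) (hδ : 0 < δ) (hs : ∀ p ∈ tube N δ, ContDiffAt ℝ ∞ al p)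
    (hper : ∀ (k : Fin N → ℤ) (p : W N), al (p.1 + kv k, p.2) = al p)
    (h0 : ∀ θ, al (θ, 0) = 0) (j k : Fin N)
    (hl : ∀ p ∈ tube N δ, w (p.1, al p) (ee j, fderiv ℝ al p (ee j, 0))
      (ee k, fderiv ℝ al p (ee k, 0)) = 0) (v θ : V N) :
    dr j (lam w (eta al v) 0 k) θ = dr k (lam w (eta al v) 0 j) θ := by
  have hη := sp_eta hδ hs hper v
  have m0 : ((θ, 0) : W N) ∈ tube N δ := by
    show ‖(0 : V N)‖ < δ
    rwa [norm_zero]
  have hsm := hs _ m0
  -- the curve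
  have hc : HasDerivAt (fun s : ℝ => ((θ, s • v) : W N)) (0, v) 0 := by
    have := (hasDerivAt_const (0 : ℝ) θ).prodMk ((hasDerivAt_id (0 : ℝ)).smul_const v)
    simpa using this
  have hc0 : ((θ, (0 : ℝ) • v) : W N) = (θ, 0) := by rw [zero_smul]
  have hfd : HasFDerivAt al (fderiv ℝ al (θ, 0)) (θ, (0 : ℝ) • v) := by
    rw [hc0]
    exact (hsm.differentiableAt (by simp)).hasFDerivAt
  have hfd2 : HasFDerivAt (fderiv ℝ al) (fderiv ℝ (fderiv ℝ al) (θ, 0)) (θ, (0 : ℝ) • v) := by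
    rw [hc0]
    exact ((hsm.fderiv_right (m := ∞) (by simp)).differentiableAt (by simp)).hasFDerivAt
  have d1 : HasDerivAt (fun s : ℝ => al (θ, s • v)) (eta al v θ) 0 := hfd.comp_hasDerivAt 0 hc
  have d2 : ∀ i, HasDerivAt (fun s : ℝ => fderiv ℝ al (θ, s • v) (ee i, 0))
      (fderiv ℝ (fderiv ℝ al) (θ, 0) (0, v) (ee i, 0)) 0 := fun i => by
    have e1 : HasDerivAt (fun s : ℝ => fderiv ℝ al (θ, s • v))
        (fderiv ℝ (fderiv ℝ al) (θ, 0) (0, v)) 0 := hfd2.comp_hasDerivAt 0 hc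
    refine (e1.clm_apply (hasDerivAt_const (0 : ℝ) ((ee i, 0) : W N))).congr_deriv ?_
    rw [map_zero, add_zero]
  -- the derivative at the zero section in the torus direction
  have z1 : ∀ (θ : V N) (i : Fin N), fderiv ℝ al (θ, 0) (ee i, 0) = 0 := by
    intro θ i
    have m0 : ((θ, 0) : W N) ∈ tube N δ := by
      show ‖(0 : V N)‖ < δ
      rwa [norm_zero]
    have h1 : HasFDerivAt al (fderiv ℝ al (θ, 0)) (θ, 0) :=
      ((hs _ m0).differentiableAt (by simp)).hasFDerivAt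
    have h2 : HasFDerivAt (fun θ : V N => ((θ, 0) : W N)) (ContinuousLinearMap.inl ℝ (V N) (V N))
        θ := (hasFDerivAt_id θ).prodMk (hasFDerivAt_const (0 : V N) θ)
    have h3 := HasFDerivAt.comp (g := al) θ h1 h2
    have h4 : (al ∘ fun θ : V N => ((θ, 0) : W N)) = fun _ => (0 : V N) := funext fun θ => h0 θ
    rw [h4] at h3
    have h5 := h3.unique (hasFDerivAt_const (0 : V N) θ)
    have h6 := congrArg (fun L : V N →L[ℝ] V N => L (ee i)) h5
    exact h6
  -- symmetry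
  have sym : ∀ i, fderiv ℝ (fderiv ℝ al) (θ, 0) (0, v) (ee i, 0) = dr i (eta al v) θ := by
    intro i
    have hs2 : fderiv ℝ (fderiv ℝ al) (θ, 0) (0, v) (ee i, 0) =
        fderiv ℝ (fderiv ℝ al) (θ, 0) (ee i, 0) (0, v) :=
      hsm.isSymmSndFDerivAt (by rw [minSmoothness_of_isRCLikeNormedField]; norm_cast) _ _
    rw [hs2]
    have h2 : HasFDerivAt (fun θ : V N => ((θ, 0) : W N)) (ContinuousLinearMap.inl ℝ (V N) (V N))
        θ := (hasFDerivAt_id θ).prodMk (hasFDerivAt_const (0 : V N) θ)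
    have h1 : HasFDerivAt (fderiv ℝ al) (fderiv ℝ (fderiv ℝ al) (θ, 0)) (θ, 0) :=
      ((hsm.fderiv_right (m := ∞) (by simp)).differentiableAt (by simp)).hasFDerivAt
    have h3 := (HasFDerivAt.comp (g := fderiv ℝ al) θ h1 h2).clm_apply
      (hasFDerivAt_const ((0, v) : W N) θ)
    have h4 : HasFDerivAt (eta al v) _ θ := h3
    show _ = fderiv ℝ (eta al v) θ (ee i)
    rw [h4.fderiv]
    simp
  -- differentiate the equation
  have dw : HasDerivAt (fun s : ℝ => w (θ, al (θ, s • v))) (fderiv ℝ w (θ, 0) (0, eta al v θ)) 0 := by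
    have e1 : HasDerivAt (fun s : ℝ => ((θ, al (θ, s • v)) : W N)) (0, eta al v θ) 0 :=
      (hasDerivAt_const (0 : ℝ) θ).prodMk d1
    have e2 : HasFDerivAt w (fderiv ℝ w (θ, 0)) (θ, al (θ, (0 : ℝ) • v)) := by
      rw [hc0, h0]
      exact (hw.da (p := (θ, 0)) (by show ‖(0 : V N)‖ < r; rwa [norm_zero])).hasFDerivAt
    exact e2.comp_hasDerivAt 0 e1
  have dt : ∀ i, HasDerivAt (fun s : ℝ => ((ee i, fderiv ℝ al (θ, s • v) (ee i, 0)) : W N))
      (0, dr i (eta al v) θ) 0 := fun i => by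
    have := d2 i
    rw [sym] at this
    exact (hasDerivAt_const (0 : ℝ) (ee i : V N)).prodMk this
  have dG := (dw.clm_apply (dt j)).clm_apply (dt k)
  have hG0 : (fun s : ℝ => w (θ, al (θ, s • v)) (ee j, fderiv ℝ al (θ, s • v) (ee j, 0))
      (ee k, fderiv ℝ al (θ, s • v) (ee k, 0))) =ᶠ[𝓝 0] fun _ => (0 : ℝ) := by
    have hcont : Continuous fun s : ℝ => ‖s • v‖ := (continuous_id.smul continuous_const).norm
    have ht := hcont.tendsto 0
    rw [zero_smul, norm_zero] at ht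
    filter_upwards [ht.eventually_lt_const hδ] with s hs
    exact hl (θ, s • v) hs
  have hz := dG.unique ((hasDerivAt_const (0 : ℝ) (0 : ℝ)).congr_of_eventuallyEq hG0)
  simp only [hc0, h0, z1] at hz
  -- comparison with `pbd`
  have hp := pbd_eq hw hη j k 0 θ (fun θ => by rw [zero_smul, norm_zero]; exact hr)
  unfold pbd at hp
  simp only [zero_smul] at hp
  have : fderiv ℝ w (θ, 0) (0, eta al v θ) (ee j, 0) (ee k, 0) +
    w (θ, 0) (0, dr j (eta al v) θ) (ee k, 0) + w (θ, 0) (ee j, 0) (0, dr k (eta al v) θ) = 0 := by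
    simpa [add_apply] using hz
  rw [this] at hp
  linarith

end eta

end

end Crest.Agent.R235.TorFa_384
end

-- ▼ part R235/TorFam_384
section

/-!
# Row 235 (S0364), TOR / FIB-B1b (helper384): the family of lagrangian graphs, `FAM`
-/

set_option autoImplicit false
set_option maxSynthPendingDepth 3

open MeasureTheory Set Metric Filter Topology
open scoped ContDiff

namespace Crest.Agent.R235.TorFam_384

open Crest.Agent.R238.Sch (ee D2 LB norm_ee)
open Crest.Agent.R281.Mc673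
open Crest.Agent.R235.TorOm_384 (BS Lp)
open Crest.Agent.R235.TorSch_384 Crest.Agent.R235.TorSp_384 Crest.Agent.R235.TorHS_384
open Crest.Agent.R235.TorHS_384.HS Crest.Agent.R235.TorCut_384
open Crest.Agent.R235.TorNM_384 Crest.Agent.R235.TorIft_384 Crest.Agent.R235.TorFa_384

noncomputable section

variable {a : ℝ}

/-- the graph map of a family of solutions -/
def al (q : V 2 → QQ a) (p : W 2) : V 2 := HS.fn (aF (p.2, II (q p.2))) p.1

theorem II_mem1 (q : QQ a) : (II q).1 ∈ XX a 2 := by rw [II_fst]; exact q.1.2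

theorem II_mem2 (q : QQ a) : (II q).2 ∈ XX a 2 := by rw [II_snd]; exact q.2.2

theorem al_per (q : V 2 → QQ a) (k : Fin 2 → ℤ) (p : W 2) :
    al q (p.1 + kv k, p.2) = al q p :=
  per_aF (II_mem1 _) (II_mem2 _) p.2 k p.1

theorem al_zero {q : V 2 → QQ a} (hq : q 0 = 0) (θ : V 2) : al q (θ, 0) = 0 := by
  have e : aF (a := a) ((0 : V 2), II (q 0)) = 0 := by
    rw [hq, map_zero]
    exact map_zero _
  unfold al
  simp only
  rw [e]
  rfl

/-- evaluation of the map at a point, as a function of `(c, TQ θ q)` -/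
def Ev : V 2 × QQ a →L[ℝ] V 2 :=
  (ev (0 : V 2)).comp (aF.comp ((ContinuousLinearMap.id ℝ (V 2)).prodMap II))

theorem al_eq (q : V 2 → QQ a) (p : W 2) : al q p = Ev (p.2, TQ p.1 (q p.2)) := by
  show HS.fn (aF (p.2, II (q p.2))) p.1 = HS.fn (aF (p.2, II (TQ p.1 (q p.2)))) 0
  rw [fn_aF_TQ, zero_add]

theorem al_smooth {q : V 2 → QQ a} (hq : ∀ h0 : V 2, ∀ᶠ t in 𝓝 ((0, h0) : V 2 × V 2),
    ContDiffAt ℝ ∞ (fun t : V 2 × V 2 => TQ t.2 (q t.1)) t) (θ : V 2) :
    ∀ᶠ p in 𝓝 ((θ, 0) : W 2), ContDiffAt ℝ ∞ (al q) p := by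
  have hsw : Tendsto (fun p : W 2 => ((p.2, p.1) : V 2 × V 2)) (𝓝 (θ, 0)) (𝓝 (0, θ)) :=
    (continuous_snd.prodMk continuous_fst).tendsto' _ _ rfl
  have hfun : al q = fun p : W 2 => Ev (p.2, TQ p.1 (q p.2)) := funext fun p => al_eq q p
  filter_upwards [hsw.eventually (hq θ)] with p hp
  rw [hfun]
  have h1 : ContDiffAt ℝ ∞ (fun p : W 2 => TQ p.1 (q p.2)) p :=
    ContDiffAt.comp (g := fun t : V 2 × V 2 => TQ t.2 (q t.1)) (f := fun p : W 2 => (p.2, p.1)) p hp
      (contDiffAt_snd.prodMk contDiffAt_fst)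
  exact (Ev (a := a)).contDiff.contDiffAt.comp p (contDiffAt_snd.prodMk h1)

/-- the slice -/
theorem slice_fd (q : V 2 → QQ a) {p : W 2} (hp : ContDiffAt ℝ ∞ (al q) p) (u : V 2) :
    fderiv ℝ (HS.fn (aF (p.2, II (q p.2)))) p.1 u = fderiv ℝ (al q) p (u, 0) := by
  have h2 : HasFDerivAt (fun θ : V 2 => ((θ, p.2) : W 2)) (ContinuousLinearMap.inl ℝ (V 2) (V 2))
      p.1 := (hasFDerivAt_id p.1).prodMk (hasFDerivAt_const p.2 p.1)
  have h1 : HasFDerivAt (al q) (fderiv ℝ (al q) p) (p.1, p.2) :=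
    (hp.differentiableAt (by simp)).hasFDerivAt
  have h3 := HasFDerivAt.comp (g := al q) p.1 h1 h2
  have h4 : HasFDerivAt (HS.fn (aF (p.2, II (q p.2)))) _ p.1 := h3
  rw [h4.fderiv]
  rfl

theorem sp_slice {q : V 2 → QQ a} {c : V 2} (h : ∀ θ, ContDiffAt ℝ ∞ (al q) (θ, c)) :
    SP (HS.fn (aF (c, II (q c)))) :=
  ⟨contDiff_iff_contDiffAt.2 fun θ =>
    ContDiffAt.comp (g := al q) (f := fun θ : V 2 => ((θ, c) : W 2)) θ (h θ)
      (contDiffAt_id.prodMk contDiffAt_const), fun k θ => per_aF (II_mem1 _) (II_mem2 _) c k θ⟩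

/-- the equation for a slice -/
theorem pb_slice {r : ℝ} {w w' : Fo 2} (hr : 0 < r) (hw : ClF r w) {ha : 0 < a} {ha1 : a ≤ 1}
    {hw' : BS w'} {hp : PerF w'} (he : ∀ p : W 2, ‖p.2‖ ≤ r / 2 → w' p = w p)
    (hor : ∀ θ u v : V 2, w (θ, 0) (u, 0) (v, 0) = 0)
    {q : V 2 → QQ a} {c : V 2} (h : ∀ θ, ContDiffAt ℝ ∞ (al q) (θ, c))
    (hn : ∀ θ, ‖al q (θ, c)‖ < r / 2) (hz : NN ha ha1 hw' hp ((c, 0), q c) = 0) (θ : V 2) :
    pb w (HS.fn (aF (c, II (q c)))) 0 1 θ = 0 := by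
  have hsp := sp_slice h
  rw [NN_eq_zero] at hz
  obtain ⟨K, hK⟩ : ∃ K : ℝ, K = mn (HS.fn (Gop ha ha1 hw' ((c, 0), II (q c)))) := ⟨_, rfl⟩
  rw [← hK] at hz
  have hn' : ∀ θ, ‖HS.fn (aF (c, II (q c))) θ‖ < r / 2 := hn
  have key : ∀ θ, pb w (HS.fn (aF (c, II (q c)))) 0 1 θ = K := by
    intro θ
    have h1 := hz θ
    have d0 := fderiv_aF (II_mem1 (q c)) (II_mem2 (q c)) c θ 0
    have d1 := fderiv_aF (II_mem1 (q c)) (II_mem2 (q c)) c θ 1
    have e1 : pb w (HS.fn (aF (c, II (q c)))) 0 1 θ =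
        w (θ, HS.fn (aF (c, II (q c))) θ) (ee 0, HS.fn (dF 0 (II (q c))) θ)
          (ee 1, HS.fn (dF 1 (II (q c))) θ) :=
      congrArg₂ (fun u v => w (θ, HS.fn (aF (c, II (q c))) θ) (ee 0, u) (ee 1, v)) d0 d1
    have e2 : w' (θ + 0, HS.fn (aF (c, II (q c))) θ) = w (θ, HS.fn (aF (c, II (q c))) θ) := by
      have e3 : ((θ + 0, HS.fn (aF (c, II (q c))) θ) : W 2) = (θ, HS.fn (aF (c, II (q c))) θ) :=
        Prod.ext (add_zero θ) rfl
      exact (congrArg w' e3).trans (he _ (hn' θ).le)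
    exact e1.trans ((congrArg (fun B : W 2 →L[ℝ] W 2 →L[ℝ] ℝ =>
      B (ee 0, HS.fn (dF 0 (II (q c))) θ) (ee 1, HS.fn (dF 1 (II (q c))) θ)) e2).symm.trans h1)
  have h2 := mn_pb hw hsp (fun θ => (hn' θ).trans (by linarith)) 0 1
  have h3 : pb w (HS.fn (aF (c, II (q c)))) 0 1 = fun _ => K := funext key
  have h4 : pb w (fun _ => (0 : V 2)) 0 1 = fun _ => (0 : ℝ) := by
    funext θ
    unfold pb
    have hd0 : ∀ j, dr j (fun _ : V 2 => (0 : V 2)) θ = 0 := fun j => by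
      show fderiv ℝ (fun _ : V 2 => (0 : V 2)) θ (ee j) = 0
      rw [fderiv_const_apply]; rfl
    rw [hd0, hd0]
    exact hor θ (ee 0) (ee 1)
  rw [h3, h4, mn_const, mn_const] at h2
  rw [key, h2]

/-- the mean of the variation field -/
theorem mn_eta {q : V 2 → QQ a} (hq : ContDiffAt ℝ ∞ q 0) {θ0 : V 2 → W 2}
    (hθ : ∀ θ, θ0 θ = (θ, 0)) (h : ∀ θ, ContDiffAt ℝ ∞ (al q) (θ0 θ)) (v : V 2) (k : Fin 2) :
    mn (fun θ => eta (al q) v θ k) = v k := by
  have hq' : HasFDerivAt q (fderiv ℝ q 0) 0 := (hq.differentiableAt (by simp)).hasFDerivAt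
  have key : ∀ θ, eta (al q) v θ = HS.fn (aF (v, II (fderiv ℝ q 0 v))) θ := by
    intro θ
    have h1 : HasFDerivAt (fun c : V 2 => ((c, q c) : V 2 × QQ a))
        ((ContinuousLinearMap.id ℝ (V 2)).prod (fderiv ℝ q 0)) 0 :=
      (hasFDerivAt_id (0 : V 2)).prodMk hq'
    let E : V 2 × QQ a →L[ℝ] V 2 :=
      (ev θ).comp (aF.comp ((ContinuousLinearMap.id ℝ (V 2)).prodMap II))
    have h2 : HasFDerivAt (fun c : V 2 => E (c, q c))
        (E.comp ((ContinuousLinearMap.id ℝ (V 2)).prod (fderiv ℝ q 0))) 0 :=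
      E.hasFDerivAt.comp 0 h1
    have h3 : HasFDerivAt (fun c : V 2 => ((θ, c) : W 2)) (ContinuousLinearMap.inr ℝ (V 2) (V 2))
        0 := (hasFDerivAt_const θ 0).prodMk (hasFDerivAt_id 0)
    have h4 : HasFDerivAt (al q) (fderiv ℝ (al q) (θ, 0)) (θ, 0) := by
      have := h θ
      rw [hθ] at this
      exact (this.differentiableAt (by simp)).hasFDerivAt
    have h5 := HasFDerivAt.comp (g := al q) 0 h4 h3
    have h6 : HasFDerivAt (fun c : V 2 => E (c, q c)) _ 0 := h5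
    have h7 := h6.unique h2
    have h8 := congrArg (fun L : V 2 →L[ℝ] V 2 => L v) h7
    exact h8
  have e1 : (fun θ => eta (al q) v θ k) = fun θ => HS.fn (aF (v, II (fderiv ℝ q 0 v))) θ k :=
    funext fun θ => by rw [key]
  rw [e1]
  exact mn_aF (II_mem1 _) (II_mem2 _) v k

theorem shf_zero {N : ℕ} (w : Fo N) : shf 0 w = w := by
  funext p
  unfold shf
  rw [add_zero]

/-- the matrix of `y` -/
def Am (y : Fo 2) (θ : V 2) : Matrix (Fin 2) (Fin 2) ℝ := fun k l => Bm y 0 k l θ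

theorem Am_mulVec (y : Fo 2) (θ : V 2) (z : Fin 2 → ℝ) (k : Fin 2) :
    (Am y θ).mulVec z k = z 0 * Bm y 0 k 0 θ + z 1 * Bm y 0 k 1 θ := by
  simp only [Matrix.mulVec, dotProduct, Fin.sum_univ_two, Am]
  ring

theorem eta_ne {r lm δ : ℝ} {x y : Fo 2} (H : FamH r x y) (hlam : 0 < lm)
    (hE : El lm (S1 y 0)) {A : W 2 → V 2} (hδ : 0 < δ) (hs : ∀ p ∈ tube 2 δ, ContDiffAt ℝ ∞ A p)
    (hper : ∀ (k : Fin 2 → ℤ) (p : W 2), A (p.1 + kv k, p.2) = A p)
    (h0 : ∀ θ, A (θ, 0) = 0)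
    (hx : ∀ p ∈ tube 2 δ, x (p.1, A p) (ee 0, fderiv ℝ A p (ee 0, 0))
      (ee 1, fderiv ℝ A p (ee 1, 0)) = 0)
    (hy : ∀ p ∈ tube 2 δ, y (p.1, A p) (ee 0, fderiv ℝ A p (ee 0, 0))
      (ee 1, fderiv ℝ A p (ee 1, 0)) = 0) {v θ0 : V 2} (hv : eta A v θ0 = 0) (θ : V 2) :
    eta A v θ = 0 := by
  have hη := sp_eta hδ hs hper v
  have ex := eta_eq H.pos H.clx hδ hs hper h0 0 1 hx v
  have ey := eta_eq H.pos H.cly hδ hs hper h0 0 1 hy v
  have lx : ∀ k, lam x (eta A v) 0 k = fun θ => eta A v θ k := by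
    intro k
    funext θ
    have h1 := lam_eq (w := x) 0 (A := eta A v) k θ
    rw [shf_zero] at h1
    show lam x (eta A v) 0 k θ = _
    rw [h1]
    have e : ∀ k l, Bm x 0 k l θ = inner ℝ (ee l : V 2) (ee k) := fun k l =>
      H.norm (θ + 0) (ee k) (ee l)
    rw [e, e]
    fin_cases k <;> simp [ee, EuclideanSpace.inner_single_left]
  have ly : ∀ k, lam y (eta A v) 0 k = fun θ => (Am y θ).mulVec (fun i => eta A v θ i) k := by
    intro k
    funext θ
    have h1 := lam_eq (w := y) 0 (A := eta A v) k θ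
    rw [shf_zero] at h1
    show lam y (eta A v) 0 k θ = _
    rw [h1, Am_mulVec]
  have key := NoZeroT_504.nozero (Am y) (fun k l => sp_Bm H.pos H.cly 0 k l) (fun θ z hz => ?_)
    (fun θ i => eta A v θ i) (fun i => sp_comp (EuclideanSpace.proj i : V 2 →L[ℝ] ℝ) hη)
    (fun θ => ?_) (fun θ => ?_) θ0 ?_ θ
  · ext i
    exact congrFun key i
  · have h1 := hE θ z
    simp only [Fin.sum_univ_two] at h1
    have h2 : 0 < z 0 ^ 2 + z 1 ^ 2 := by
      by_contra hc
      have a0 : z 0 = 0 := by nlinarith [sq_nonneg (z 0), sq_nonneg (z 1)]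
      have a1 : z 1 = 0 := by nlinarith [sq_nonneg (z 0), sq_nonneg (z 1)]
      exact hz (by ext i; fin_cases i <;> simp [a0, a1])
    rw [Am_mulVec, Am_mulVec]
    have h3 := mul_pos hlam h2
    have h4 : S1 y 0 θ 0 0 * z 0 * z 0 + S1 y 0 θ 0 1 * z 0 * z 1 +
        (S1 y 0 θ 1 0 * z 1 * z 0 + S1 y 0 θ 1 1 * z 1 * z 1) =
        z 0 * (z 0 * Bm y 0 1 0 θ + z 1 * Bm y 0 1 1 θ) -
          z 1 * (z 0 * Bm y 0 0 0 θ + z 1 * Bm y 0 0 1 θ) := by
      show Bm y 0 1 0 θ * z 0 * z 0 + Bm y 0 1 1 θ * z 0 * z 1 +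
        (-Bm y 0 0 0 θ * z 1 * z 0 + -Bm y 0 0 1 θ * z 1 * z 1) = _
      ring
    rw [h4] at h1
    linarith
  · have h1 := ex θ
    have e0 : lam x (eta A v) 0 0 = fun θ => eta A v θ 0 := lx 0
    have e1 : lam x (eta A v) 0 1 = fun θ => eta A v θ 1 := lx 1
    rw [e0, e1] at h1
    exact h1
  · have h1 := ey θ
    have e0 : lam y (eta A v) 0 0 = fun θ => (Am y θ).mulVec (fun i => eta A v θ i) 0 := ly 0
    have e1 : lam y (eta A v) 0 1 = fun θ => (Am y θ).mulVec (fun i => eta A v θ i) 1 := ly 1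
    rw [e0, e1] at h1
    exact h1
  · funext i
    rw [hv]
    rfl

end

end Crest.Agent.R235.TorFam_384
end

-- ▼ part R235/TorFamE_384
section

/-!
# Row 235 (S0364), TOR / FIB-B1b (helper384): **FAM**
-/

set_option autoImplicit false
set_option maxSynthPendingDepth 3

open MeasureTheory Set Metric Filter Topology
open scoped ContDiff

namespace Crest.Agent.R235.TorFam_384

open Crest.Agent.R238.Sch (ee D2 LB norm_ee)
open Crest.Agent.R281.Mc673
open Crest.Agent.R235.TorOm_384 (BS Lp)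
open Crest.Agent.R235.TorSch_384 Crest.Agent.R235.TorSp_384 Crest.Agent.R235.TorHS_384
open Crest.Agent.R235.TorHS_384.HS Crest.Agent.R235.TorCut_384
open Crest.Agent.R235.TorNM_384 Crest.Agent.R235.TorIft_384 Crest.Agent.R235.TorFa_384

noncomputable section

/-- injectivity near the zero section -/
theorem inj_near {A : W 2 → V 2} {p0 : W 2} (hs : ContDiffAt ℝ ∞ A p0)
    (hi : ∀ u : V 2, fderiv ℝ A p0 (0, u) = 0 → u = 0) :
    ∀ᶠ p in 𝓝 p0, ∀ u : V 2, fderiv ℝ A p (0, u) = 0 → u = 0 := by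
  let R : (W 2 →L[ℝ] V 2) →L[ℝ] (V 2 →L[ℝ] V 2) :=
    (ContinuousLinearMap.compL ℝ (V 2) (W 2) (V 2)).flip (ContinuousLinearMap.inr ℝ (V 2) (V 2))
  have hR : ∀ L u, R L u = L (0, u) := fun L u => rfl
  have hc : ContinuousAt (fun p => R (fderiv ℝ A p)) p0 :=
    R.continuous.continuousAt.comp (hs.fderiv_right (m := 0) (by simp)).continuousAt
  have hinj : Function.Injective (R (fderiv ℝ A p0)) := by
    rw [injective_iff_map_eq_zero]
    intro u hu
    exact hi u hu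
  have hbij : Function.Bijective (R (fderiv ℝ A p0)) :=
    ⟨hinj, LinearMap.injective_iff_surjective (f := ((R (fderiv ℝ A p0) : V 2 →L[ℝ] V 2) :
      V 2 →ₗ[ℝ] V 2)) |>.1 hinj⟩
  obtain ⟨e, he⟩ := exists_equiv _ hbij
  have hn : range ((↑) : ((V 2) ≃L[ℝ] (V 2)) → ((V 2) →L[ℝ] (V 2))) ∈
      𝓝 (R (fderiv ℝ A p0)) := by
    rw [← he]; exact e.nhds
  filter_upwards [hc.eventually hn] with p hp u hu
  obtain ⟨e', he'⟩ := hp
  have h1 : e' u = 0 := by
    have : (e' : V 2 →L[ℝ] V 2) u = 0 := by rw [he']; exact hu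
    exact this
  exact (map_eq_zero_iff e' e'.injective).1 h1

/-- the family, under ellipticity -/
theorem fam_of_ell {r lm : ℝ} {x y : Fo 2} (H : FamH r x y) (hlam : 0 < lm)
    (hE : El lm (S1 y 0)) : ∃ (δ : ℝ) (A : W 2 → V 2), FamT r x y δ A := by
  have ha : (0 : ℝ) < 1 / 2 := by norm_num
  have ha1 : (1 / 2 : ℝ) < 1 := by norm_num
  have hr := H.pos
  obtain ⟨x', hx', ex, px⟩ := exists_ext H.pos H.clx
  obtain ⟨y', hy', ey, py⟩ := exists_ext H.pos H.cly
  obtain ⟨q, hq0, hqs, hqz, hqt⟩ := exists_sols ha ha1 H hlam hE hx' hy' px py ex ey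
  obtain ⟨A, hA⟩ : ∃ A : W 2 → V 2, A = al q := ⟨_, rfl⟩
  have hper : ∀ (k : Fin 2 → ℤ) (p : W 2), A (p.1 + kv k, p.2) = A p := by
    rw [hA]; exact al_per q
  have hzero : ∀ θ, A (θ, 0) = 0 := by
    rw [hA]; exact al_zero hq0
  -- first tube
  obtain ⟨δ1, hδ1, h1⟩ := tube_ev (P := fun p : W 2 => ContDiffAt ℝ ∞ A p ∧ ‖A p‖ < r / 2 ∧
      NP ha ha1.le hx' hy' px py ((p.2, 0), q p.2) = 0) (fun n p hp => by
    refine ⟨?_, ?_, hp.2.2⟩
    · have e : (fun p : W 2 => A (p + (-kv n, 0))) = A := by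
        funext p
        have h2 := hper n (p + (-kv n, 0))
        rw [← h2]
        congr 1
        ext1 <;> simp
      rw [← e]
      have e2 : ((p.1 + kv n, p.2) : W 2) + (-kv n, 0) = p := by
        ext1 <;> simp
      have h3 : ContDiffAt ℝ ∞ A ((fun z : W 2 => z + (-kv n, 0)) (p.1 + kv n, p.2)) := by
        show ContDiffAt ℝ ∞ A (((p.1 + kv n, p.2) : W 2) + (-kv n, 0))
        rw [e2]; exact hp.1
      exact ContDiffAt.comp (g := A) (f := fun z : W 2 => z + (-kv n, 0)) (p.1 + kv n, p.2) h3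
        (contDiffAt_id.add contDiffAt_const)
    · rw [hper]; exact hp.2.1) (fun θ => by
    have s1 : ∀ᶠ p in 𝓝 ((θ, 0) : W 2), ContDiffAt ℝ ∞ A p := by
      rw [hA]; exact al_smooth hqt θ
    have s2 : ∀ᶠ p in 𝓝 ((θ, 0) : W 2), ‖A p‖ < r / 2 := by
      have h3 := s1.self_of_nhds.continuousAt.norm.tendsto
      rw [hzero, norm_zero] at h3
      exact h3.eventually_lt_const (by linarith)
    have s3 : ∀ᶠ p in 𝓝 ((θ, 0) : W 2), NP ha ha1.le hx' hy' px py ((p.2, 0), q p.2) = 0 :=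
      (show Tendsto (fun p : W 2 => p.2) (𝓝 (θ, 0)) (𝓝 0) from
        continuous_snd.tendsto' _ _ rfl).eventually hqz
    filter_upwards [s1, s2, s3] with p p1 p2 p3
    exact ⟨p1, p2, p3⟩)
  have hs : ∀ p ∈ tube 2 δ1, ContDiffAt ℝ ∞ A p := fun p hp => (h1 p hp).1
  -- the equations
  have hsl : ∀ p ∈ tube 2 δ1, ∀ θ, ((θ, p.2) : W 2) ∈ tube 2 δ1 := fun p hp θ => hp
  have heq : ∀ {w w' : Fo 2} (hw : ClF r w) {hw' : BS w'} {hp' : PerF w'}
      (he : ∀ p : W 2, ‖p.2‖ ≤ r / 2 → w' p = w p)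
      (hor : ∀ θ u v : V 2, w (θ, 0) (u, 0) (v, 0) = 0) (p : W 2), p ∈ tube 2 δ1 →
      NN ha ha1.le hw' hp' ((p.2, 0), q p.2) = 0 →
      w (p.1, A p) (ee 0, fderiv ℝ A p (ee 0, 0)) (ee 1, fderiv ℝ A p (ee 1, 0)) = 0 := by
    intro w w' hw hw' hp' he hor p hp hz
    have t1 : ∀ θ, ContDiffAt ℝ ∞ (al q) (θ, p.2) := fun θ => by
      rw [← hA]; exact hs _ (hsl p hp θ)
    have t2 : ∀ θ, ‖al q (θ, p.2)‖ < r / 2 := fun θ => by
      rw [← hA]; exact (h1 _ (hsl p hp θ)).2.1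
    have h3 := pb_slice hr hw he hor t1 t2 hz p.1
    have h4 := slice_fd q (t1 p.1) (ee 0)
    have h5 := slice_fd q (t1 p.1) (ee 1)
    have h6 : pb w (HS.fn (aF (p.2, II (q p.2)))) 0 1 p.1 =
        w (p.1, al q p) (ee 0, fderiv ℝ (al q) p (ee 0, 0)) (ee 1, fderiv ℝ (al q) p (ee 1, 0)) :=
      congrArg₂ (fun u v => w (p.1, al q p) (ee 0, u) (ee 1, v)) h4 h5
    rw [hA]
    exact h6.symm.trans h3
  have hx : ∀ p ∈ tube 2 δ1, x (p.1, A p) (ee 0, fderiv ℝ A p (ee 0, 0))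
      (ee 1, fderiv ℝ A p (ee 1, 0)) = 0 := fun p hp =>
    heq H.clx (hp' := px) ex H.horx p hp (congrArg Prod.fst (h1 p hp).2.2)
  have hy : ∀ p ∈ tube 2 δ1, y (p.1, A p) (ee 0, fderiv ℝ A p (ee 0, 0))
      (ee 1, fderiv ℝ A p (ee 1, 0)) = 0 := fun p hp =>
    heq H.cly (hp' := py) ey H.hory p hp (congrArg Prod.snd (h1 p hp).2.2)
  -- the variation field
  have hinj0 : ∀ (θ u : V 2), fderiv ℝ A (θ, 0) (0, u) = 0 → u = 0 := by
    intro θ u hu
    have h2 : ∀ θ', eta A u θ' = 0 :=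
      eta_ne H hlam hE hδ1 hs hper hzero hx hy (v := u) (θ0 := θ) hu
    have h3 : ∀ k, mn (fun θ => eta (al q) u θ k) = u k :=
      mn_eta hqs (θ0 := fun θ => (θ, 0)) (fun θ => rfl) (fun θ => by
        rw [← hA]
        exact hs _ (show ‖(0 : V 2)‖ < δ1 by rwa [norm_zero])) u
    rw [← hA] at h3
    ext k
    rw [← h3 k]
    have h4 : (fun θ => eta A u θ k) = fun _ => (0 : ℝ) := by
      funext θ'
      rw [h2 θ']
      rfl
    rw [h4, mn_const]
    rfl
  -- second tube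
  obtain ⟨δ2, hδ2, h2⟩ := tube_ev (P := fun p : W 2 => ∀ u : V 2, fderiv ℝ A p (0, u) = 0 → u = 0)
    (fun n p hp u hu => by
      have e : (fun p : W 2 => A (p + (kv n, 0))) = A := by
        funext p
        have h2 := hper n p
        rw [← h2]
        congr 1
        ext1 <;> simp
      have h3 : fderiv ℝ (fun p : W 2 => A (p + (kv n, 0))) p = fderiv ℝ A (p + (kv n, 0)) :=
        fderiv_comp_add_right _
      rw [e] at h3
      have e2 : p + ((kv n, 0) : W 2) = (p.1 + kv n, p.2) := by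
        ext1 <;> simp
      rw [e2] at h3
      exact hp u (by rw [h3]; exact hu))
    (fun θ => inj_near (hs _ (show ‖(0 : V 2)‖ < δ1 by rwa [norm_zero])) (hinj0 θ))
  have m1 : ∀ p ∈ tube 2 (min δ1 δ2), p ∈ tube 2 δ1 := fun p hp =>
    lt_of_lt_of_le (show ‖p.2‖ < _ from hp) (min_le_left _ _)
  have m2 : ∀ p ∈ tube 2 (min δ1 δ2), p ∈ tube 2 δ2 := fun p hp =>
    lt_of_lt_of_le (show ‖p.2‖ < _ from hp) (min_le_right _ _)
  have hn : ∀ p ∈ tube 2 δ1, ‖A p‖ < r := fun p hp => by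
    have := (h1 p hp).2.1
    linarith
  have key : ∀ {w : Fo 2} (hw : ClF r w) (p : W 2), p ∈ tube 2 δ1 →
      w (p.1, A p) (ee 0, fderiv ℝ A p (ee 0, 0)) (ee 1, fderiv ℝ A p (ee 1, 0)) = 0 →
      ∀ u v : V 2, w (p.1, A p) (u, fderiv ℝ A p (u, 0)) (v, fderiv ℝ A p (v, 0)) = 0 := by
    intro w hw p hp h0 u v
    exact lag_all (B := w (p.1, A p)) (D := (fderiv ℝ A p).comp (ContinuousLinearMap.inl ℝ (V 2) (V 2)))
      (hw.alt (p.1, A p) (hn p hp)) h0 u v
  exact ⟨min δ1 δ2, A,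
    { pos := lt_min hδ1 hδ2
      smooth := fun p hp => (hs p (m1 p hp)).contDiffWithinAt
      per := hper
      zero := hzero
      small := fun p hp => hn p (m1 p hp)
      lagx := fun p hp => key H.clx p (m1 p hp) (hx p (m1 p hp))
      lagy := fun p hp => key H.cly p (m1 p hp) (hy p (m1 p hp))
      inj := fun p hp => h2 p (m2 p hp) }⟩

end

end Crest.Agent.R235.TorFam_384
end

-- ▼ part R235/TorFamT_384

/-!
# Row 235 (S0364), TOR / FIB-B1b (helper384): **FAM**, without ellipticity hypothesis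
-/

set_option autoImplicit false
set_option maxSynthPendingDepth 3

open MeasureTheory Set Metric Filter Topology
open scoped ContDiff

namespace Crest.Agent.R235.TorFam_384

open Crest.Agent.R238.Sch (ee D2 LB norm_ee)
open Crest.Agent.R281.Mc673
open Crest.Agent.R235.TorSch_384
open Crest.Agent.R235.TorNM_384 Crest.Agent.R235.TorIft_384 Crest.Agent.R235.TorFa_384

noncomputable section

section neg

variable {r δ : ℝ} {x y : Fo 2}

theorem clF_neg {N : ℕ} {w : Fo N} (hw : ClF r w) : ClF r (fun p => - w p) where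
  sm := hw.sm.neg
  alt p hp u v := by
    show - w p u v = - - w p v u
    rw [hw.alt p hp u v]
  cl p hp u v z := by
    have e : fderiv ℝ (fun p => - w p) p = - fderiv ℝ w p := fderiv_fun_neg
    rw [e]
    have := hw.cl p hp u v z
    show - fderiv ℝ w p u v z + - fderiv ℝ w p v z u + - fderiv ℝ w p z u v = 0
    linarith
  per k p hp := by rw [hw.per k p hp]

theorem famH_neg (H : FamH r x y) : FamH r x (fun p => - y p) where
  pos := H.pos
  clx := H.clx
  cly := clF_neg H.cly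
  horx := H.horx
  hory θ u v := by
    show - y (θ, 0) (u, 0) (v, 0) = 0
    rw [H.hory, neg_zero]
  norm := H.norm
  nondeg p hp c d hcd u hu := by
    refine H.nondeg p hp c (-d) ?_ u fun v => ?_
    · rcases hcd with h | h
      · exact Or.inl h
      · exact Or.inr (neg_ne_zero.2 h)
    · have h1 : c * x p u v + d * (- y p u v) = 0 := hu v
      linarith

theorem famT_neg {A : W 2 → V 2} (H : FamT r x (fun p => - y p) δ A) : FamT r x y δ A where
  pos := H.pos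
  smooth := H.smooth
  per := H.per
  zero := H.zero
  small := H.small
  lagx := H.lagx
  lagy p hp u v := by
    have h1 : - y (p.1, A p) (u, fderiv ℝ A p (u, 0)) (v, fderiv ℝ A p (v, 0)) = 0 :=
      H.lagy p hp u v
    linarith
  inj := H.inj

end neg

/-- the quadratic form `det (z, B z)` -/
def gd (y : Fo 2) (p : V 2 × V 2) : ℝ :=
  p.2 0 * (Bm y 0 1 0 p.1 * p.2 0 + Bm y 0 1 1 p.1 * p.2 1) -
    p.2 1 * (Bm y 0 0 0 p.1 * p.2 0 + Bm y 0 0 1 p.1 * p.2 1)

section gd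

variable {r : ℝ} {x y : Fo 2}

theorem gd_neg (y : Fo 2) (p : V 2 × V 2) : gd (fun p => - y p) p = - gd y p := by
  have e : ∀ k l θ, Bm (fun p => - y p) 0 k l θ = - Bm y 0 k l θ := fun k l θ => rfl
  unfold gd
  rw [e, e, e, e]
  ring

theorem gd_smul (y : Fo 2) (θ z : V 2) (t : ℝ) : gd y (θ, t • z) = t ^ 2 * gd y (θ, z) := by
  unfold gd
  simp only [PiLp.smul_apply, smul_eq_mul]
  ring

theorem gd_per (H : FamH r x y) (k : Fin 2 → ℤ) (θ z : V 2) : gd y (θ + kv k, z) = gd y (θ, z) := by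
  have e : ∀ i l, Bm y 0 i l (θ + kv k) = Bm y 0 i l θ := fun i l =>
    (sp_Bm H.pos H.cly 0 i l).per k θ
  unfold gd
  simp only
  rw [e, e, e, e]

theorem gd_cont (H : FamH r x y) : Continuous (gd y) := by
  have hB : ∀ i l, Continuous fun p : V 2 × V 2 => Bm y 0 i l p.1 := fun i l =>
    (sp_Bm H.pos H.cly 0 i l).cont.comp continuous_fst
  have hz : ∀ i, Continuous fun p : V 2 × V 2 => p.2 i := fun i =>
    (EuclideanSpace.proj i : V 2 →L[ℝ] ℝ).continuous.comp continuous_snd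
  unfold gd
  exact ((hz 0).mul (((hB 1 0).mul (hz 0)).add ((hB 1 1).mul (hz 1)))).sub
    ((hz 1).mul (((hB 0 0).mul (hz 0)).add ((hB 0 1).mul (hz 1))))

theorem gd_ne (H : FamH r x y) (θ : V 2) {z : V 2} (hz : z ≠ 0) : gd y (θ, z) ≠ 0 := by
  intro h0
  obtain ⟨B, hB⟩ : ∃ B : Matrix (Fin 2) (Fin 2) ℝ, B = fun k l => Bm y 0 k l θ := ⟨_, rfl⟩
  have hB' : ∀ k l, Bm y 0 k l θ = B k l := fun k l => by rw [hB]
  unfold gd at h0
  simp only [hB'] at h0
  -- the real eigenvalue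
  obtain ⟨μ, h1, h2⟩ : ∃ μ : ℝ, B 0 0 * z 0 + B 0 1 * z 1 = μ * z 0 ∧
      B 1 0 * z 0 + B 1 1 * z 1 = μ * z 1 := by
    by_cases hz0 : z 0 = 0
    · have hz1 : z 1 ≠ 0 := by
        intro h
        exact hz (by ext i; fin_cases i <;> simp [hz0, h])
      refine ⟨(B 1 0 * z 0 + B 1 1 * z 1) / z 1, ?_, by field_simp⟩
      rw [hz0] at h0 ⊢
      have : z 1 * (B 0 0 * 0 + B 0 1 * z 1) = 0 := by linarith
      rcases mul_eq_zero.1 this with h | h
      · exact absurd h hz1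
      · rw [h]; ring
    · refine ⟨(B 0 0 * z 0 + B 0 1 * z 1) / z 0, by field_simp, ?_⟩
      field_simp
      linarith
  have hdet : (B - μ • (1 : Matrix (Fin 2) (Fin 2) ℝ)).det = 0 := by
    refine Matrix.exists_mulVec_eq_zero_iff.1 ⟨fun i => z i, ?_, ?_⟩
    · intro h
      exact hz (by ext i; exact congrFun h i)
    · ext i
      fin_cases i
      · simp [Matrix.mulVec, dotProduct, Fin.sum_univ_two, Matrix.sub_apply, Matrix.one_apply]
        linarith
      · simp [Matrix.mulVec, dotProduct, Fin.sum_univ_two, Matrix.sub_apply, Matrix.one_apply]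
        linarith
  obtain ⟨u, hu0, hu⟩ := Matrix.exists_vecMul_eq_zero_iff.2 hdet
  have hu1 : u 0 * (B 0 0 - μ) + u 1 * B 1 0 = 0 := by
    have := congrFun hu 0
    simpa [Matrix.vecMul, dotProduct, Fin.sum_univ_two, Matrix.sub_apply, Matrix.one_apply] using this
  have hu2 : u 0 * B 0 1 + u 1 * (B 1 1 - μ) = 0 := by
    have := congrFun hu 1
    simpa [Matrix.vecMul, dotProduct, Fin.sum_univ_two, Matrix.sub_apply, Matrix.one_apply] using this
  obtain ⟨U, hU⟩ : ∃ U : V 2, U = WithLp.toLp 2 u := ⟨_, rfl⟩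
  have hU' : ∀ i, U i = u i := fun i => by rw [hU]
  have m0 : ((θ + 0, 0) : W 2) ∈ tube 2 r := by
    show ‖(0 : V 2)‖ < r
    rw [norm_zero]; exact H.pos
  have key := H.nondeg (θ + 0, 0) m0 (-μ) 1 (Or.inr one_ne_zero) (U, 0) (fun v => ?_)
  · have h3 : U = 0 := congrArg Prod.fst key
    exact hu0 (by ext i; rw [← hU' i, h3]; rfl)
  · have ex : ∀ v2 : V 2, x (θ + 0, 0) (U, 0) (0, v2) = - inner ℝ v2 U := fun v2 => by
      rw [H.clx.alt _ m0, H.norm]
    have ey : ∀ v2 : V 2, y (θ + 0, 0) (U, 0) (0, v2) =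
        - (v2 0 * (u 0 * B 0 0 + u 1 * B 1 0) + v2 1 * (u 0 * B 0 1 + u 1 * B 1 1)) := by
      intro v2
      rw [H.cly.alt _ m0]
      have e1 : ((0, v2) : W 2) = v2 0 • ((0, ee 0) : W 2) + v2 1 • ((0, ee 1) : W 2) := by
        ext1
        · simp
        · simpa using vec_eq v2
      have e2 : ((U, 0) : W 2) = u 0 • ((ee 0, 0) : W 2) + u 1 • ((ee 1, 0) : W 2) := by
        ext1
        · have := vec_eq U
          rw [hU' 0, hU' 1] at this
          simpa using this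
        · simp
      have hb : ∀ k l, y (θ + 0, 0) (0, ee l) (ee k, 0) = B k l := fun k l => hB' k l
      rw [e1, e2]
      simp only [map_add, map_smul, add_apply, smul_apply, smul_eq_mul, hb]
      ring
    have e3 : v = ((v.1, 0) : W 2) + (0, v.2) := by
      ext1 <;> simp
    rw [e3, map_add, map_add, H.horx, H.hory, ex, ey]
    have e4 : inner ℝ v.2 U = v.2 0 * u 0 + v.2 1 * u 1 := by
      rw [EuclideanSpace.inner_eq_star_dotProduct]
      simp [dotProduct, Fin.sum_univ_two, hU']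
      ring
    rw [e4]
    linear_combination (-(v.2 0)) * hu1 - v.2 1 * hu2

theorem gd_sign (H : FamH r x y) : (∀ θ z : V 2, z ≠ 0 → 0 < gd y (θ, z)) ∨
    (∀ θ z : V 2, z ≠ 0 → gd y (θ, z) < 0) := by
  by_contra hc
  push Not at hc
  obtain ⟨⟨θ1, z1, hz1, h1⟩, θ2, z2, hz2, h2⟩ := hc
  have hpre : IsPreconnected ((univ : Set (V 2)) ×ˢ ({0}ᶜ : Set (V 2))) := by
    refine isPreconnected_univ.prod (isConnected_compl_singleton_of_one_lt_rank ?_ 0).isPreconnected
    rw [← Module.finrank_eq_rank, finrank_euclideanSpace_fin]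
    norm_num
  have h3 := hpre.intermediate_value (a := (θ1, z1)) (b := (θ2, z2)) ⟨mem_univ _, hz1⟩
    ⟨mem_univ _, hz2⟩ (gd_cont H).continuousOn
  obtain ⟨⟨θ, z⟩, ⟨-, hz⟩, h4⟩ := h3 ⟨h1, h2⟩
  exact gd_ne H θ hz h4

theorem ell_of_pos (H : FamH r x y) (hp : ∀ θ z : V 2, z ≠ 0 → 0 < gd y (θ, z)) :
    ∃ lm : ℝ, 0 < lm ∧ El lm (S1 y 0) := by
  obtain ⟨⟨θ0, z0⟩, ⟨-, hz0⟩, hmin⟩ := ((isCompact_cube (N := 2)).prod
    (isCompact_sphere (0 : V 2) 1)).exists_isMinOn
    (cube_nonempty.prod ⟨ee 0, by simp [norm_ee]⟩) (gd_cont H).continuousOn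
  have hz0' : z0 ≠ 0 := by
    rintro rfl
    simp at hz0
  refine ⟨gd y (θ0, z0), hp θ0 z0 hz0', fun θ v => ?_⟩
  obtain ⟨z, hz⟩ : ∃ z : V 2, z = WithLp.toLp 2 v := ⟨_, rfl⟩
  have hzv : ∀ i, z i = v i := fun i => by rw [hz]
  have e1 : ∑ i, ∑ j, S1 y 0 θ i j * v i * v j = gd y (θ, z) := by
    simp only [Fin.sum_univ_two]
    show Bm y 0 1 0 θ * v 0 * v 0 + Bm y 0 1 1 θ * v 0 * v 1 +
        (-Bm y 0 0 0 θ * v 1 * v 0 + -Bm y 0 0 1 θ * v 1 * v 1) =
        z 0 * (Bm y 0 1 0 θ * z 0 + Bm y 0 1 1 θ * z 1) -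
          z 1 * (Bm y 0 0 0 θ * z 0 + Bm y 0 0 1 θ * z 1)
    rw [hzv, hzv]
    ring
  have e2 : ∑ i, v i ^ 2 = ‖z‖ ^ 2 := by
    rw [EuclideanSpace.norm_eq, Real.sq_sqrt (Finset.sum_nonneg fun _ _ => sq_nonneg _)]
    refine Finset.sum_congr rfl fun i _ => ?_
    rw [hzv, Real.norm_eq_abs, sq_abs]
  rw [e1, e2]
  by_cases h0 : z = 0
  · rw [h0]
    have : gd y (θ, 0) = 0 := by
      have := gd_smul y θ 0 0
      simpa using this
    rw [this]; simp
  · have hn : 0 < ‖z‖ := norm_pos_iff.2 h0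
    obtain ⟨k, θ', hθ', hk⟩ := exists_cube θ
    have e3 : gd y (θ, z) = ‖z‖ ^ 2 * gd y (θ', ‖z‖⁻¹ • z) := by
      rw [← gd_smul, smul_smul, mul_inv_cancel₀ hn.ne', one_smul, hk, gd_per H]
    have h1 : gd y (θ0, z0) ≤ gd y (θ', ‖z‖⁻¹ • z) := by
      refine hmin ⟨hθ', ?_⟩
      simp [norm_smul, hn.ne']
    rw [e3, mul_comm]
    exact mul_le_mul_of_nonneg_left h1 (sq_nonneg _)

end gd

/-- **FAM** -/
theorem fam : FAM := by
  intro r x y H
  rcases gd_sign H with h | h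
  · obtain ⟨lm, hlm, hE⟩ := ell_of_pos H h
    exact fam_of_ell H hlm hE
  · have H' := famH_neg H
    obtain ⟨lm, hlm, hE⟩ := ell_of_pos H' fun θ z hz => by
      rw [gd_neg]
      have := h θ z hz
      linarith
    obtain ⟨δ, A, hA⟩ := fam_of_ell H' hlm hE
    exact ⟨δ, A, famT_neg hA⟩

end

end Crest.Agent.R235.TorFam_384
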