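import Crest.Agent.R249.HKEnd_286
import Mathlib

-- ▼ part R235/Weyl1_820
section

/-!
# Row 235, block FAM, leaf WEYL (helper820), part 1: LEADING TERM of the local heat trace.

* `lead_sys`   : for a Parseval system `S` on a ball, `t² ∑ₖ e^{-2tμₖ} |uₖ(0)|² → |κ| / (64 π²)`, with
                 `∑ₖ … ≤ C / t²` on `(0, 1]`;
* `lead_chart` : the same for a system `CSys` on an open set, at every point, locally uniform bound.
-/

set_option autoImplicit false
set_option linter.unusedSectionVars false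
open scoped ContDiff Topology
open MeasureTheory Set Metric Filter

namespace Crest.Agent.R235.Weyl_820
open Crest.Agent.R249.HK286 Crest.Agent.R249.HKLim_274 Crest.Agent.R249.HK9_714
  Crest.Agent.R249.HK8_286

section
variable {ι : Type*} {M : Met ι} {κ : Type} [Fintype κ] [DecidableEq κ] {R : ℝ}
  {c : Cut R} {D : Con M κ}

/-- diagonal part of the kernel -/
noncomputable def dg (M : Met ι) (c : Cut R) (i : ι) (t : ℝ) (x : E4) (p q : κ) : ℝ :=
  if p = q then M.HH c 1 i t x 0 else 0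

theorem vb_dg (hC : Cal M) (hM : InpM M c) (p q : κ) :
    VB 0 (fun i t x => dg M c i t x p q) := by
  have := hC.vb_smul 0 (if p = q then 1 else 0) _ (hM.h0 1)
  have h2 : (fun i t x => dg M c i t x p q) = fun i t x => (if p = q then 1 else 0) * M.HH c 1 i t x 0 := by
    funext i t x
    unfold dg
    split_ifs <;> ring
  rw [h2]; exact this

theorem vb_rem (hC : Cal M) (hM : InpM M c) (hD : InpD c D) (p q : κ) :
    VB 1 (fun i t x => D.kk c i t x p q - dg M c i t x p q) := by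
  have a1 := hC.star_vb 0 (sc (M.HH c 2)) (D.f1 c) le_rfl
    (fun p r => by
      by_cases h : p = r
      · simpa [sc, h] using kw_HH hC hM 2
      · simpa [sc, h] using (kw_zero : KW (fun (_ : ι) (_ : ℝ) (_ _ : E4) => (0 : ℝ))))
    (vb_f1 hC hM hD) p q
  have a2 := hC.star_vb 0 (sc (M.HH c 3)) (D.f2 c) le_rfl
    (fun p r => by
      by_cases h : p = r
      · simpa [sc, h] using kw_HH hC hM 3
      · simpa [sc, h] using (kw_zero : KW (fun (_ : ι) (_ : ℝ) (_ _ : E4) => (0 : ℝ))))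
    (fun r q => vb10 hC hM hD (vb_f2 hC hM hD r q)) p q
  have b1 := hC.vb_smul (0 + 1) (-1) _ a1
  have := hC.vb_add (0 + 1) _ _ b1 a2
  rw [zero_add] at this
  have h2 : (fun i t x => D.kk c i t x p q - dg M c i t x p q) = fun i t x =>
      -1 * M.star (sc (M.HH c 2)) (D.f1 c) i t x p q + M.star (sc (M.HH c 3)) (D.f2 c) i t x p q := by
    funext i t x
    simp only [Con.kk, dg]
    ring
  rw [h2]; exact this

/-- `t² ∫ |H₁|² w → 1/(64π²)` -/
theorem lim_HH (c : Cut R) (i : ι) :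
    Tendsto (fun t : ℝ => t ^ 2 * ∫ x, M.HH c 1 i t x 0 * M.HH c 1 i t x 0 * M.w i x) (𝓝[>] 0)
      (𝓝 (1 / (64 * Real.pi ^ 2))) := by
  have h0 := SF_HH (M := M) c 1
  have hS : SF 1 (fun i t x => t * M.HH c 1 i t x 0) (fun i σ ξ => σ * gam M i σ ξ) := by
    obtain ⟨C, c', hC, hc', hb⟩ := h0.bd
    refine ⟨fun i => measurable_fst.mul (h0.meas i), ⟨C, c', hC, hc', fun i t ht x => ?_⟩,
      fun i σ hσ ξ => ?_⟩
    · rw [abs_mul, abs_of_pos ht.1]
      have := hb i t ht x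
      rw [pow_zero, mul_one] at this
      calc t * |M.HH c 1 i t x 0| ≤ t * (C * Gam c' t x) := by
            exact mul_le_mul_of_nonneg_left this ht.1.le
        _ = _ := by ring
    · have h1 := (h0.lim i σ hσ ξ).const_mul σ
      refine h1.congr' ?_
      filter_upwards [self_mem_nhdsWithin] with t ht
      have ht0 : (0:ℝ) < t := ht
      rw [pow_zero, inv_one, mul_one, pow_one]
      field_simp
  have h1 := (pairing M hS hS rfl).2 i
  have h2 : (∫ x, (1 * gam M i 1 x) * (1 * gam M i 1 x) * M.w i 0) = 1 / (64 * Real.pi ^ 2) := by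
    have h3 := sq_value (M := M) i 1
    rw [mul_one] at h3
    rw [← h3]
    refine integral_congr_ae (Eventually.of_forall fun x => ?_)
    ring
  rw [h2] at h1
  refine h1.congr' ?_
  filter_upwards [self_mem_nhdsWithin] with t ht
  rw [← integral_const_mul]
  refine integral_congr_ae (Eventually.of_forall fun x => ?_)
  ring

/-- the leading term of `∫ |k_t|² w` -/
theorem lead_kk (hC : Cal M) (hM : InpM M c) (hD : InpD c D) (i : ι) :
    Tendsto (fun t : ℝ => t ^ 2 * ∫ x, (∑ p, ∑ q, D.kk c i t x p q ^ 2) * M.w i x) (𝓝[>] 0)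
      (𝓝 (Fintype.card κ / (64 * Real.pi ^ 2))) := by
  have hr := vb_rem hC hM hD
  have hd := fun p q : κ => vb_dg (κ := κ) hC hM p q
  have hk := vb_kk hC hM hD
  have hs : ∀ p q, VB 0 (fun i t x => D.kk c i t x p q + dg M c i t x p q) := fun p q =>
    hC.vb_add 0 _ _ (hk p q) (hd p q)
  -- error
  choose C hCb using fun p q => (hC.int_mul 1 0 _ _ zero_le_one le_rfl (hr p q) (hs p q)).2
  have i1 := fun p q => (hC.int_mul 1 0 _ _ zero_le_one le_rfl (hr p q) (hs p q)).1 i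
  have i2 := fun p q => (hC.int_mul 0 0 _ _ le_rfl le_rfl (hd p q) (hd p q)).1 i
  have e1 : ∀ t ∈ Ioc (0:ℝ) 1, (∫ x, (∑ p, ∑ q, D.kk c i t x p q ^ 2) * M.w i x) =
      (∑ p, ∑ q, ∫ x, (D.kk c i t x p q - dg M c i t x p q) *
        (D.kk c i t x p q + dg M c i t x p q) * M.w i x) +
      Fintype.card κ * ∫ x, M.HH c 1 i t x 0 * M.HH c 1 i t x 0 * M.w i x := by
    intro t ht
    have a1 : ∀ x, (∑ p, ∑ q, D.kk c i t x p q ^ 2) * M.w i x =
        ∑ p, ∑ q, ((D.kk c i t x p q - dg M c i t x p q) *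
        (D.kk c i t x p q + dg M c i t x p q) * M.w i x +
          dg M c i t x p q * dg M c i t x p q * M.w i x) := by
      intro x
      rw [Finset.sum_mul]
      refine Finset.sum_congr rfl fun p _ => ?_
      rw [Finset.sum_mul]
      refine Finset.sum_congr rfl fun q _ => ?_
      ring
    simp only [a1]
    have ia : ∀ p q, Integrable (fun x => (D.kk c i t x p q - dg M c i t x p q) *
        (D.kk c i t x p q + dg M c i t x p q) * M.w i x +
          dg M c i t x p q * dg M c i t x p q * M.w i x) := fun p q =>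
      (i1 p q t ht).add (i2 p q t ht)
    rw [integral_finsetSum _ fun p _ => integrable_finsetSum _ fun q _ => ia p q]
    have a2 : ∀ p, (∫ x, ∑ q, ((D.kk c i t x p q - dg M c i t x p q) *
        (D.kk c i t x p q + dg M c i t x p q) * M.w i x +
          dg M c i t x p q * dg M c i t x p q * M.w i x)) =
        (∑ q, ∫ x, (D.kk c i t x p q - dg M c i t x p q) *
        (D.kk c i t x p q + dg M c i t x p q) * M.w i x) +
        ∑ q, ∫ x, dg M c i t x p q * dg M c i t x p q * M.w i x := by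
      intro p
      rw [integral_finsetSum _ fun q _ => ia p q, ← Finset.sum_add_distrib]
      exact Finset.sum_congr rfl fun q _ => integral_add (i1 p q t ht) (i2 p q t ht)
    simp only [a2]
    rw [Finset.sum_add_distrib]
    congr 1
    have a3 : ∀ p : κ, (∑ q : κ, ∫ x, dg M c i t x p q * dg M c i t x p q * M.w i x) =
        ∫ x, M.HH c 1 i t x 0 * M.HH c 1 i t x 0 * M.w i x := by
      intro p
      rw [Finset.sum_eq_single p]
      · simp [dg]
      · intro q _ hq
        simp [dg, hq.symm]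
      · intro h; exact absurd (Finset.mem_univ p) h
    simp only [a3]
    rw [Finset.sum_const, Finset.card_univ, nsmul_eq_mul]
  have l1 : Tendsto (fun t : ℝ => t ^ 2 * ∑ p, ∑ q, ∫ x, (D.kk c i t x p q - dg M c i t x p q) *
        (D.kk c i t x p q + dg M c i t x p q) * M.w i x) (𝓝[>] 0) (𝓝 0) := by
    have hz : Tendsto (fun t : ℝ => t * ∑ p, ∑ q, |C p q|) (𝓝[>] 0) (𝓝 0) := by
      have : Tendsto (fun t : ℝ => t * ∑ p, ∑ q, |C p q|) (𝓝 0) (𝓝 (0 * ∑ p, ∑ q, |C p q|)) :=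
        (continuous_id.mul continuous_const).tendsto 0
      rw [zero_mul] at this
      exact this.mono_left nhdsWithin_le_nhds
    refine squeeze_zero_norm' ?_ hz
    filter_upwards [ev_Ioc] with t ht
    rw [Real.norm_eq_abs, abs_mul, abs_of_nonneg (sq_nonneg t)]
    have b1 : |∑ p, ∑ q, ∫ x, (D.kk c i t x p q - dg M c i t x p q) *
        (D.kk c i t x p q + dg M c i t x p q) * M.w i x| ≤ (∑ p, ∑ q, |C p q|) * t⁻¹ := by
      rw [Finset.sum_mul]
      refine (Finset.abs_sum_le_sum_abs _ _).trans (Finset.sum_le_sum fun p _ => ?_)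
      rw [Finset.sum_mul]
      refine (Finset.abs_sum_le_sum_abs _ _).trans (Finset.sum_le_sum fun q _ => ?_)
      have b2 := hCb p q i t ht
      have b3 : t ^ ((1:ℝ) + 0 - 2) = t⁻¹ := by
        rw [show (1:ℝ) + 0 - 2 = -1 by norm_num, Real.rpow_neg_one]
      rw [b3] at b2
      exact b2.trans (mul_le_mul_of_nonneg_right (le_abs_self _) (inv_nonneg.2 ht.1.le))
    calc t ^ 2 * |_| ≤ t ^ 2 * ((∑ p, ∑ q, |C p q|) * t⁻¹) :=
          mul_le_mul_of_nonneg_left b1 (sq_nonneg t)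
      _ = t * ∑ p, ∑ q, |C p q| := by
          have := ht.1.ne'
          field_simp
  have l2 := (lim_HH (M := M) c i).const_mul (Fintype.card κ : ℝ)
  have l3 := l1.add l2
  rw [zero_add, mul_one_div] at l3
  refine l3.congr' ?_
  filter_upwards [ev_Ioc] with t ht
  rw [e1 t ht]
  ring

end

/-- **leading term**, systems on a ball -/
theorem lead_sys {ι : Type} {M : Met ι} {κ : Type} [Fintype κ] [DecidableEq κ] {D : Con M κ} {R : ℝ}
    (hR : 0 < R) {K : Type} [Countable K] (S : Sys D R K) :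
    (∃ C : ℝ, ∀ i, ∀ t ∈ Ioc (0 : ℝ) 1,
      Summable (fun k => Real.exp (-(2 * t * S.mu i k)) * ∑ p, S.u i k 0 p ^ 2) ∧
      S.diag i t ≤ C / t ^ 2) ∧
    ∀ i, Tendsto (fun t => t ^ 2 * S.diag i t) (𝓝[>] 0) (𝓝 (Fintype.card κ / (64 * Real.pi ^ 2))) := by
  obtain ⟨c⟩ := exists_cut hR
  have hC := Crest.Agent.R249.HK1_654.cal M
  have hM : InpM M c := Crest.Agent.R249.HK352.inpM c
  have hD : InpD c D := Crest.Agent.R249.HK352.inpD c D hM
  have hcore : CoreStmt c D := Crest.Agent.R249.HK5_905.core hC hM hD hR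
      (fun i z _ hf hB hc => Crest.Agent.R249.HK4_654.hk4 M i z hf hB hc)
  obtain ⟨C1, h1⟩ := hcore K S
  obtain ⟨C3, h3⟩ := kk_bd hC hM hD
  refine ⟨⟨|C1| + |C3|, fun i t ht => ⟨(h1 i t ht).1, ?_⟩⟩, fun i => ?_⟩
  · have ht2 : (0:ℝ) < t ^ 2 := by have := ht.1; positivity
    have ht1 : t ≤ 1 / t ^ 2 := by
      rw [le_div_iff₀ ht2]
      calc t * t ^ 2 = t ^ 3 := by ring
        _ ≤ 1 := pow_le_one₀ ht.1.le ht.2
    have e1 := (abs_le.1 (h1 i t ht).2).2
    have e3 := h3 i t ht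
    have a1 : C1 * t ≤ |C1| * (1 / t ^ 2) :=
      (mul_le_mul_of_nonneg_right (le_abs_self C1) ht.1.le).trans
        (mul_le_mul_of_nonneg_left ht1 (abs_nonneg _))
    have a3 : C3 / t ^ 2 ≤ |C3| * (1 / t ^ 2) := by
      rw [mul_one_div]; exact div_le_div_of_nonneg_right (le_abs_self C3) ht2.le
    calc S.diag i t ≤ C1 * t + C3 / t ^ 2 := by linarith
      _ ≤ (|C1| + |C3|) * (1 / t ^ 2) := by linarith
      _ = _ := by rw [mul_one_div]
  · have l1 := lead_kk hC hM hD i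
    have l2 : Tendsto (fun t : ℝ => t ^ 2 * (S.diag i t -
        ∫ x, (∑ p, ∑ q, D.kk c i t x p q ^ 2) * M.w i x)) (𝓝[>] 0) (𝓝 0) := by
      have hz : Tendsto (fun t : ℝ => |C1| * t) (𝓝[>] 0) (𝓝 0) := by
        have : Tendsto (fun t : ℝ => |C1| * t) (𝓝 0) (𝓝 (|C1| * 0)) :=
          (continuous_const.mul continuous_id).tendsto 0
        rw [mul_zero] at this
        exact this.mono_left nhdsWithin_le_nhds
      refine squeeze_zero_norm' ?_ hz
      filter_upwards [ev_Ioc] with t ht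
      rw [Real.norm_eq_abs, abs_mul, abs_of_nonneg (sq_nonneg t)]
      have e1 := (h1 i t ht).2
      have e2 : t ^ 2 ≤ 1 := pow_le_one₀ ht.1.le ht.2
      calc t ^ 2 * |_| ≤ 1 * (C1 * t) := by
            refine mul_le_mul e2 e1 (abs_nonneg _) zero_le_one
        _ ≤ |C1| * t := by
            rw [one_mul]
            exact mul_le_mul_of_nonneg_right (le_abs_self _) ht.1.le
    have l3 := l2.add l1
    rw [zero_add] at l3
    refine l3.congr' (Eventually.of_forall fun t => ?_)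
    ring

/-- **leading term**, systems on an open set -/
theorem lead_chart {V : Set E4} (hV : IsOpen V) (m : CMet V) {κ : Type} [Fintype κ]
    (A : CCon V κ) {K : Type} [Countable K] (S : CSys m A K) :
    (∀ C : Set E4, IsCompact C → C ⊆ V → ∃ B : ℝ, ∀ x ∈ C, ∀ t ∈ Ioc (0 : ℝ) 1,
      Summable (fun k => Real.exp (-(2 * t * S.mu k)) * ∑ p, S.u k x p ^ 2) ∧
      S.diag t x ≤ B / t ^ 2) ∧
    ∀ x ∈ V, Tendsto (fun t => t ^ 2 * S.diag t x) (𝓝[>] 0)
      (𝓝 (Fintype.card κ / (64 * Real.pi ^ 2))) := by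
  classical
  have key : ∀ C : Set E4, IsCompact C → C ⊆ V →
      (∃ B : ℝ, ∀ x ∈ C, ∀ t ∈ Ioc (0 : ℝ) 1,
        Summable (fun k => Real.exp (-(2 * t * S.mu k)) * ∑ p, S.u k x p ^ 2) ∧
        S.diag t x ≤ B / t ^ 2) ∧
      ∀ x ∈ C, Tendsto (fun t => t ^ 2 * S.diag t x) (𝓝[>] 0)
        (𝓝 (Fintype.card κ / (64 * Real.pi ^ 2))) := by
    intro C hC hCV
    obtain ⟨R, G⟩ := exists_geo hV hC hCV
    obtain ⟨⟨B, hB⟩, hlim⟩ := lead_sys G.pos (mkS G m A S)
    refine ⟨⟨B, fun x hx t ht => ?_⟩, fun x hx => ?_⟩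
    · have h := hB ⟨x, hx⟩ t ht
      rw [mkS_diag] at h
      simp only [mkS_zero] at h
      exact h
    · have h := hlim ⟨x, hx⟩
      simp only [mkS_diag] at h
      exact h
  refine ⟨fun C hC hCV => (key C hC hCV).1, fun x hx => ?_⟩
  exact (key {x} isCompact_singleton (singleton_subset_iff.2 hx)).2 x rfl

end Crest.Agent.R235.Weyl_820
end

-- ▼ part R235/Weyl2_820
section

/-!
# Row 235, block FAM, leaf WEYL (helper820), part 2: from the heat trace to resolvent traces.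

`abel` : `m_k ≥ 0`, `|a_k| ≤ B`, `∑ e^{-t m_k} ≤ C/t²` on `(0,1]`, `t² ∑ e^{-t m_k} a_k → A` (`t → 0+`).  Then
`∑ (λ + m_k)⁻⁴ < ∞`, `λ² ∑ (λ + m_k)⁻⁴` is bounded for `λ ≥ 1` and `λ² ∑ (λ + m_k)⁻⁴ a_k → A / 6`.
-/

set_option autoImplicit false
open scoped Topology
open MeasureTheory Set Filter Real

namespace Crest.Agent.R235.Weyl_820

/-- `∫_0^∞ u³ e^{-ru} du = 6/r⁴` -/
theorem int_gamma {r : ℝ} (hr : 0 < r) :
    ∫ u in Ioi (0:ℝ), u ^ 3 / 6 * exp (-(r * u)) = (r ^ 4)⁻¹ := by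
  have h := Real.integral_rpow_mul_exp_neg_mul_Ioi (a := 4) (r := r) (by norm_num) hr
  have e1 : ∀ u : ℝ, u ^ 3 / 6 * exp (-(r * u)) = (1 / 6) * (u ^ ((4:ℝ) - 1) * exp (-(r * u))) := by
    intro u
    rw [show (4:ℝ) - 1 = (3:ℕ) by norm_num, Real.rpow_natCast]
    ring
  simp only [e1]
  rw [integral_const_mul, h]
  have e2 : Real.Gamma 4 = 6 := by
    rw [show (4:ℝ) = (3:ℕ) + 1 by norm_num, Real.Gamma_nat_eq_factorial]
    norm_num [Nat.factorial]
  rw [e2, show (4:ℝ) = ((4:ℕ):ℝ) by norm_num, Real.rpow_natCast]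
  rw [one_div_pow]
  field_simp

theorem integrable_gamma {r : ℝ} (hr : 0 < r) :
    IntegrableOn (fun u : ℝ => u ^ 3 / 6 * exp (-(r * u))) (Ioi 0) := by
  by_contra h
  have h1 := int_gamma hr
  rw [integral_undef h] at h1
  have : (0:ℝ) < (r ^ 4)⁻¹ := by positivity
  linarith

theorem integrable_dom (k : ℕ) :
    IntegrableOn (fun u : ℝ => u ^ k * exp (-u)) (Ioi 0) := by
  have h := Real.GammaIntegral_convergent (s := k + 1) (by positivity)
  refine h.congr_fun (fun u _ => ?_) measurableSet_Ioi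
  simp only [add_sub_cancel_right, Real.rpow_natCast]
  ring

section
variable {m : ℕ → ℝ} (hm : ∀ k, 0 ≤ m k) (hs : ∀ t, 0 < t → Summable fun k => exp (-(t * m k)))
  {C : ℝ} (hC : ∀ t ∈ Ioc (0:ℝ) 1, ∑' k, exp (-(t * m k)) ≤ C / t ^ 2)
include hm hs hC

/-- `u² H(u) ≤ C₂ (1 + u²)` -/
theorem trace_bd : ∃ C₂, 0 ≤ C₂ ∧ ∀ u, 0 < u → u ^ 2 * ∑' k, exp (-(u * m k)) ≤ C₂ * (1 + u ^ 2) := by
  have hnn : ∀ u, 0 ≤ ∑' k, exp (-(u * m k)) := fun u => tsum_nonneg fun k => (exp_pos _).le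
  refine ⟨|C| + ∑' k, exp (-(1 * m k)), add_nonneg (abs_nonneg _) (hnn 1), fun u hu => ?_⟩
  rcases le_total u 1 with h1 | h1
  · have h2 := hC u ⟨hu, h1⟩
    have h3 : u ^ 2 * ∑' k, exp (-(u * m k)) ≤ C := by
      calc u ^ 2 * ∑' k, exp (-(u * m k)) ≤ u ^ 2 * (C / u ^ 2) :=
            mul_le_mul_of_nonneg_left h2 (sq_nonneg u)
        _ = C := by field_simp
    have h4 := le_abs_self C
    have h5 := hnn 1
    have h6 := abs_nonneg C
    nlinarith [sq_nonneg u]
  · have h2 : ∑' k, exp (-(u * m k)) ≤ ∑' k, exp (-(1 * m k)) := by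
      refine (hs u hu).tsum_le_tsum (fun k => ?_) (hs 1 one_pos)
      refine exp_le_exp.2 (neg_le_neg ?_)
      exact mul_le_mul_of_nonneg_right h1 (hm k)
    have h4 := abs_nonneg C
    have h5 := hnn 1
    calc u ^ 2 * ∑' k, exp (-(u * m k)) ≤ u ^ 2 * ∑' k, exp (-(1 * m k)) :=
          mul_le_mul_of_nonneg_left h2 (sq_nonneg u)
      _ ≤ _ := by nlinarith [sq_nonneg u]

/-- summability of the resolvent powers -/
theorem summable_res {l : ℝ} (hl : 0 < l) : Summable fun k => ((l + m k) ^ 4)⁻¹ := by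
  obtain ⟨C₂, hC₂, hb⟩ := trace_bd hm hs hC
  have h1 : ∑' k, ENNReal.ofReal (((l + m k) ^ 4)⁻¹) ≠ ⊤ := by
    have h2 : ∀ k, ENNReal.ofReal (((l + m k) ^ 4)⁻¹) =
        ∫⁻ u in Ioi (0:ℝ), ENNReal.ofReal (u ^ 3 / 6 * exp (-((l + m k) * u))) := by
      intro k
      have hk : 0 < l + m k := by linarith [hm k]
      rw [← int_gamma hk, ofReal_integral_eq_lintegral_ofReal (integrable_gamma hk)]
      filter_upwards [ae_restrict_mem measurableSet_Ioi] with u hu
      have : (0:ℝ) < u := hu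
      positivity
    simp only [h2]
    rw [← lintegral_tsum fun k => by fun_prop]
    have h3 : ∀ u ∈ Ioi (0:ℝ), ∑' k, ENNReal.ofReal (u ^ 3 / 6 * exp (-((l + m k) * u))) ≤
        ENNReal.ofReal (C₂ * ((u + u ^ 3) * exp (-(l * u)))) := by
      intro u hu
      have hu0 : (0:ℝ) < u := hu
      have e1 : ∀ k, u ^ 3 / 6 * exp (-((l + m k) * u)) =
          u ^ 3 / 6 * exp (-(l * u)) * exp (-(u * m k)) := by
        intro k
        rw [mul_assoc, ← exp_add]
        congr 2
        ring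
      simp only [e1]
      rw [← ENNReal.ofReal_tsum_of_nonneg (fun k => by positivity) ((hs u hu0).mul_left _),
        tsum_mul_left]
      refine ENNReal.ofReal_le_ofReal ?_
      have h4 := hb u hu0
      have h5 : 0 ≤ exp (-(l * u)) := (exp_pos _).le
      calc u ^ 3 / 6 * exp (-(l * u)) * ∑' k, exp (-(u * m k))
          = (u / 6 * exp (-(l * u))) * (u ^ 2 * ∑' k, exp (-(u * m k))) := by ring
        _ ≤ (u / 6 * exp (-(l * u))) * (C₂ * (1 + u ^ 2)) :=
            mul_le_mul_of_nonneg_left h4 (by positivity)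
        _ = (1 / 6) * (C₂ * ((u + u ^ 3) * exp (-(l * u)))) := by ring
        _ ≤ 1 * (C₂ * ((u + u ^ 3) * exp (-(l * u)))) := by
            refine mul_le_mul_of_nonneg_right (by norm_num) (by positivity)
        _ = _ := one_mul _
    refine ((setLIntegral_mono' measurableSet_Ioi h3).trans_lt ?_).ne
    have h6 : IntegrableOn (fun u : ℝ => C₂ * ((u + u ^ 3) * exp (-(l * u)))) (Ioi 0) := by
      have a1 : IntegrableOn (fun u : ℝ => (l * u) ^ 1 * exp (-(l * u))) (Ioi 0) := by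
        have := (integrableOn_Ioi_comp_mul_left_iff (fun u : ℝ => u ^ 1 * exp (-u)) 0 hl).2
          (by rw [mul_zero]; exact integrable_dom 1)
        exact this
      have a3 : IntegrableOn (fun u : ℝ => (l * u) ^ 3 * exp (-(l * u))) (Ioi 0) := by
        have := (integrableOn_Ioi_comp_mul_left_iff (fun u : ℝ => u ^ 3 * exp (-u)) 0 hl).2
          (by rw [mul_zero]; exact integrable_dom 3)
        exact this
      have a4 := ((a1.const_mul l⁻¹).add (a3.const_mul (l ^ 3)⁻¹)).const_mul C₂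
      refine a4.congr (Eventually.of_forall fun u => ?_)
      simp only [Pi.add_apply]
      field_simp
    exact h6.lintegral_lt_top
  have h4 := ENNReal.summable_toReal h1
  refine h4.congr fun k => ?_
  rw [ENNReal.toReal_ofReal]
  have : 0 < l + m k := by linarith [hm k]
  positivity

/-- integral formula for the resolvent sums -/
theorem res_eq {a : ℕ → ℝ} {B : ℝ} (ha : ∀ k, |a k| ≤ B) {l : ℝ} (hl : 0 < l) :
    l ^ 2 * ∑' k, ((l + m k) ^ 4)⁻¹ * a k =
      ∫ v in Ioi (0:ℝ), v / 6 * exp (-v) * ((v / l) ^ 2 * ∑' k, exp (-(v / l * m k)) * a k) := by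
  have hsr := summable_res hm hs hC hl
  have hpos : ∀ k, 0 < l + m k := fun k => by linarith [hm k]
  have hint : ∀ k, Integrable (fun u : ℝ => u ^ 3 / 6 * exp (-((l + m k) * u)) * a k)
      (volume.restrict (Ioi 0)) := fun k => (integrable_gamma (hpos k)).mul_const _
  have h1 := hasSum_integral_of_summable_integral_norm (μ := volume.restrict (Ioi (0:ℝ)))
    (F := fun k (u : ℝ) => u ^ 3 / 6 * exp (-((l + m k) * u)) * a k) hint (by
      refine Summable.of_nonneg_of_le (fun k => integral_nonneg fun u => norm_nonneg _) (fun k => ?_)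
        (hsr.mul_right B)
      have e1 : ∫ u in Ioi (0:ℝ), ‖u ^ 3 / 6 * exp (-((l + m k) * u)) * a k‖ =
          ((l + m k) ^ 4)⁻¹ * |a k| := by
        rw [← int_gamma (hpos k), ← integral_mul_const]
        refine setIntegral_congr_fun measurableSet_Ioi fun u hu => ?_
        have : (0:ℝ) < u := hu
        rw [norm_mul, Real.norm_eq_abs, Real.norm_eq_abs, abs_of_nonneg (by positivity)]
      rw [e1]
      exact mul_le_mul_of_nonneg_left (ha k) (by have := hpos k; positivity))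
  have h2 : ∑' k, ((l + m k) ^ 4)⁻¹ * a k =
      ∫ u in Ioi (0:ℝ), ∑' k, u ^ 3 / 6 * exp (-((l + m k) * u)) * a k := by
    rw [← h1.tsum_eq]
    refine tsum_congr fun k => ?_
    rw [integral_mul_const, int_gamma (hpos k)]
  have h3 : ∀ u : ℝ, ∑' k, u ^ 3 / 6 * exp (-((l + m k) * u)) * a k =
      u ^ 3 / 6 * exp (-(l * u)) * ∑' k, exp (-(u * m k)) * a k := by
    intro u
    rw [← tsum_mul_left]
    refine tsum_congr fun k => ?_
    rw [show -((l + m k) * u) = -(l * u) + -(u * m k) by ring, exp_add]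
    ring
  simp only [h3] at h2
  rw [h2]
  have h4 := integral_comp_mul_left_Ioi
    (fun v : ℝ => v / 6 * exp (-v) * ((v / l) ^ 2 * ∑' k, exp (-(v / l * m k)) * a k)) 0 hl
  rw [mul_zero, smul_eq_mul] at h4
  have h5 : ∫ v in Ioi (0:ℝ), v / 6 * exp (-v) * ((v / l) ^ 2 * ∑' k, exp (-(v / l * m k)) * a k) =
      l * ∫ u in Ioi (0:ℝ), (l * u) / 6 * exp (-(l * u)) *
        ((l * u / l) ^ 2 * ∑' k, exp (-(l * u / l * m k)) * a k) := by
    rw [h4]; field_simp
  rw [h5, ← integral_const_mul, ← integral_const_mul]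
  refine integral_congr_ae (Eventually.of_forall fun u => ?_)
  have e1 : l * u / l = u := by field_simp
  simp only [e1]
  ring

/-- the Abelian theorem -/
theorem abel {a : ℕ → ℝ} {B : ℝ} (ha : ∀ k, |a k| ≤ B) {A : ℝ}
    (hA : Tendsto (fun t => t ^ 2 * ∑' k, exp (-(t * m k)) * a k) (𝓝[>] 0) (𝓝 A)) :
    Tendsto (fun l : ℝ => l ^ 2 * ∑' k, ((l + m k) ^ 4)⁻¹ * a k) atTop (𝓝 (A / 6)) := by
  obtain ⟨C₂, hC₂, hb⟩ := trace_bd hm hs hC
  have hB : 0 ≤ B := (abs_nonneg _).trans (ha 0)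
  have hbd : ∀ u, 0 < u → |u ^ 2 * ∑' k, exp (-(u * m k)) * a k| ≤ B * (C₂ * (1 + u ^ 2)) := by
    intro u hu
    have h1 : |∑' k, exp (-(u * m k)) * a k| ≤ (∑' k, exp (-(u * m k))) * B := by
      rw [← tsum_mul_right]
      have h2 : ∀ k, ‖exp (-(u * m k)) * a k‖ ≤ exp (-(u * m k)) * B := fun k => by
        rw [norm_mul, Real.norm_eq_abs, Real.norm_eq_abs, abs_of_pos (exp_pos _)]
        exact mul_le_mul_of_nonneg_left (ha k) (exp_pos _).le
      exact tsum_of_norm_bounded ((hs u hu).mul_right B).hasSum h2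
    rw [abs_mul, abs_of_nonneg (sq_nonneg u)]
    calc u ^ 2 * |_| ≤ u ^ 2 * ((∑' k, exp (-(u * m k))) * B) :=
          mul_le_mul_of_nonneg_left h1 (sq_nonneg u)
      _ = B * (u ^ 2 * ∑' k, exp (-(u * m k))) := by ring
      _ ≤ _ := mul_le_mul_of_nonneg_left (hb u hu) hB
  have hmeas : ∀ l : ℝ, AEStronglyMeasurable (fun v : ℝ => v / 6 * exp (-v) *
      ((v / l) ^ 2 * ∑' k, exp (-(v / l * m k)) * a k)) (volume.restrict (Ioi 0)) := by
    intro l
    have h1 : Measurable fun v : ℝ => ∑' k, exp (-(v / l * m k)) * a k := by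
      have h2 : ∀ k, Measurable fun v : ℝ => exp (-(v / l * m k)) * a k := fun k => by fun_prop
      exact Measurable.tsum h2
    have h3 : Measurable fun v : ℝ => v / 6 * exp (-v) *
      ((v / l) ^ 2 * ∑' k, exp (-(v / l * m k)) * a k) := by fun_prop
    exact h3.aestronglyMeasurable
  have hlim : Tendsto (fun l : ℝ => ∫ v in Ioi (0:ℝ), v / 6 * exp (-v) *
      ((v / l) ^ 2 * ∑' k, exp (-(v / l * m k)) * a k)) atTop
      (𝓝 (∫ v in Ioi (0:ℝ), v / 6 * exp (-v) * A)) := by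
    refine tendsto_integral_filter_of_dominated_convergence
      (fun v => B * C₂ * (v ^ 1 * exp (-v) + v ^ 3 * exp (-v)))
      (Eventually.of_forall fun l => hmeas l) ?_ ?_ ?_
    · filter_upwards [eventually_ge_atTop (1:ℝ)] with l hl
      filter_upwards [ae_restrict_mem measurableSet_Ioi] with v hv
      have hv0 : (0:ℝ) < v := hv
      have hl0 : (0:ℝ) < l := by linarith
      rw [norm_mul, Real.norm_eq_abs, Real.norm_eq_abs, abs_of_nonneg (by positivity)]
      have h1 := hbd (v / l) (by positivity)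
      have h2 : (v / l) ^ 2 ≤ v ^ 2 := by
        refine pow_le_pow_left₀ (by positivity) ?_ 2
        exact div_le_self hv0.le hl
      have h3 : B * (C₂ * (1 + (v / l) ^ 2)) ≤ B * (C₂ * (1 + v ^ 2)) := by gcongr
      calc v / 6 * exp (-v) * |_| ≤ v / 6 * exp (-v) * (B * (C₂ * (1 + v ^ 2))) :=
            mul_le_mul_of_nonneg_left (h1.trans h3) (by positivity)
        _ = (1 / 6) * (B * C₂ * (v ^ 1 * exp (-v) + v ^ 3 * exp (-v))) := by ring
        _ ≤ 1 * (B * C₂ * (v ^ 1 * exp (-v) + v ^ 3 * exp (-v))) :=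
            mul_le_mul_of_nonneg_right (by norm_num) (by positivity)
        _ = _ := one_mul _
    · exact (((integrable_dom 1).add (integrable_dom 3)).const_mul _)
    · filter_upwards [ae_restrict_mem measurableSet_Ioi] with v hv
      have hv0 : (0:ℝ) < v := hv
      refine tendsto_const_nhds.mul (hA.comp ?_)
      refine tendsto_nhdsWithin_iff.2 ⟨tendsto_const_nhds.div_atTop tendsto_id, ?_⟩
      filter_upwards [eventually_gt_atTop (0:ℝ)] with l hl
      exact div_pos hv0 hl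
  have hval : (∫ v in Ioi (0:ℝ), v / 6 * exp (-v) * A) = A / 6 := by
    have h := Real.integral_rpow_mul_exp_neg_mul_Ioi (a := 2) (r := 1) (by norm_num) one_pos
    have e1 : ∀ v : ℝ, v / 6 * exp (-v) * A = (A / 6) * (v ^ ((2:ℝ) - 1) * exp (-(1 * v))) := by
      intro v
      rw [show (2:ℝ) - 1 = 1 by norm_num, Real.rpow_one, one_mul]
      ring
    simp only [e1]
    rw [integral_const_mul, h]
    have e2 : Real.Gamma 2 = 1 := by
      rw [show (2:ℝ) = (1:ℕ) + 1 by norm_num, Real.Gamma_nat_eq_factorial]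
      norm_num
    rw [e2]; simp
  rw [hval] at hlim
  refine hlim.congr' ?_
  filter_upwards [eventually_gt_atTop (0:ℝ)] with l hl
  exact (res_eq hm hs hC ha hl).symm


end

end Crest.Agent.R235.Weyl_820
end

-- ▼ part R235/Weyl3_820

/-!
# Row 235, block FAM, leaf WEYL (helper820), part 3: leading Weyl asymptotics on a closed 4-manifold.

`D : Dat 4 M κ` (bundle, connection, potential of R249/Tv57), `S : Spec D`, `f` continuous:

* `summable_exp`, `trace_le` : `∑ e^{-tμₖ} < ∞`, `≤ C / t²` on `(0, 1]`;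
* `weyl_heat` : `t² ∑ e^{-tμₖ} ∫ f |φₖ|² → (16π²)⁻¹ ∫ f tr p`;
* `weyl_res`  : `λ² ∑ (λ + μₖ)⁻⁴ ∫ f |φₖ|² → (96π²)⁻¹ ∫ f tr p`;
* `res_le`    : `λ² ∑ (λ + μₖ)⁻⁴ ≤ C` for `λ ≥ λ₀`, and summability.
-/

set_option autoImplicit false
set_option maxSynthPendingDepth 3
set_option linter.unusedSectionVars false
open scoped ContDiff ENNReal NNReal Topology Manifold Bundle
open MeasureTheory Set Filter Metric Bundle
open Crest.GeometryTopology.CoordMetric Crest.GeometryTopology.ChartCurvature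
open Crest.Agent.R202.Ell Crest.Agent.R247.Ms322 Crest.Agent.R226.ChartMet842
open Crest.Agent.R247.Dir593 Crest.Agent.R247.Frd657
open Crest.Agent.R249.HK286 (E4 pd)
open Crest.Agent.R249.Tv57 Crest.Agent.R249.HK9_714

namespace Crest.Agent.R235.Weyl_820

noncomputable section

/-! ### abstract families -/

section abs
variable {X : Type*} [MeasurableSpace X] {μ : Measure X} {K : Type*}

theorem bnd_univ [TopologicalSpace X] [CompactSpace X] (F : Fam μ K)
    (h : ∀ x : X, ∃ U ∈ 𝓝 x, ∃ C, F.BOn U C) : ∃ C, F.BOn univ C := by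
  obtain ⟨C, h1, -, -⟩ := bnd_of_local F F (fun x => by
    obtain ⟨U, hU, C, hC⟩ := h x
    refine ⟨U, hU, max C 0, hC.mono subset_rfl (le_max_left _ _), hC.mono subset_rfl (le_max_left _ _),
      fun y _ t _ => ?_⟩
    rw [sub_self, abs_zero]
    exact le_max_right _ _)
  exact ⟨C, h1⟩

variable [Countable K] [IsFiniteMeasure μ]

/-- weighted trace formula -/
theorem tsum_wt (F : Fam μ K) {C : ℝ} (h : F.BOn univ C) {f : X → ℝ} (hf : Measurable f) {B : ℝ}
    (hB : ∀ x, |f x| ≤ B) {t : ℝ} (ht : t ∈ Ioc (0 : ℝ) 1) :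
    ∑' k, Real.exp (-(2 * t * F.m k)) * ∫ x, f x * F.v k x ∂μ = ∫ x, f x * F.diag t x ∂μ := by
  have hi : ∀ k, Integrable (fun x => f x * F.v k x) μ := fun k =>
    (F.integrable k).bdd_mul hf.aestronglyMeasurable (Eventually.of_forall fun x => by
      rw [Real.norm_eq_abs]; exact hB x)
  have h1 := hasSum_integral_of_summable_integral_norm
    (F := fun k x => Real.exp (-(2 * t * F.m k)) * (f x * F.v k x)) (μ := μ)
    (fun k => (hi k).const_mul _) (by
      refine Summable.of_nonneg_of_le (fun k => integral_nonneg fun x => norm_nonneg _) (fun k => ?_)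
        ((F.summable_of_le_one h ht).mul_right B)
      have e1 : ∀ x, ‖Real.exp (-(2 * t * F.m k)) * (f x * F.v k x)‖ ≤
          Real.exp (-(2 * t * F.m k)) * B * F.v k x := fun x => by
        rw [norm_mul, norm_mul, Real.norm_of_nonneg (F.v_nonneg k x),
          Real.norm_of_nonneg (Real.exp_pos _).le, Real.norm_eq_abs]
        calc _ ≤ Real.exp (-(2 * t * F.m k)) * (B * F.v k x) :=
              mul_le_mul_of_nonneg_left (mul_le_mul_of_nonneg_right (hB x) (F.v_nonneg k x))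
                (Real.exp_pos _).le
          _ = _ := (mul_assoc _ _ _).symm
      refine (integral_mono ((hi k).const_mul _).norm ((F.integrable k).const_mul _) e1).trans ?_
      rw [integral_const_mul, F.v_int k, mul_one])
  have e2 : ∀ x, ∑' k, Real.exp (-(2 * t * F.m k)) * (f x * F.v k x) = f x * F.diag t x := by
    intro x
    unfold Fam.diag
    rw [← tsum_mul_left]
    exact tsum_congr fun k => by ring
  simp only [e2] at h1
  rw [← h1.tsum_eq]
  exact tsum_congr fun k => (integral_const_mul _ _).symm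

/-- limit of the weighted trace -/
theorem tendsto_wt (F : Fam μ K) {C : ℝ} (h : F.BOn univ C) {f L : X → ℝ} (hf : Measurable f) {B : ℝ}
    (hB : ∀ x, |f x| ≤ B)
    (hL : ∀ x, Tendsto (fun t => t ^ 2 * F.diag t x) (𝓝[>] 0) (𝓝 (L x))) :
    Tendsto (fun t => t ^ 2 * ∑' k, Real.exp (-(2 * t * F.m k)) * ∫ x, f x * F.v k x ∂μ) (𝓝[>] 0)
      (𝓝 (∫ x, f x * L x ∂μ)) := by
  have hmem : ∀ᶠ t : ℝ in 𝓝[>] 0, t ∈ Ioc (0 : ℝ) 1 := Ioc_mem_nhdsGT one_pos
  have h1 : Tendsto (fun t => ∫ x, f x * (t ^ 2 * F.diag t x) ∂μ) (𝓝[>] 0) (𝓝 (∫ x, f x * L x ∂μ)) := by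
    refine tendsto_integral_filter_of_dominated_convergence (fun _ => B * C)
      (Eventually.of_forall fun t =>
        (hf.mul ((F.measurable_diag t).const_mul (t ^ 2))).aestronglyMeasurable) ?_ (integrable_const _)
      (Eventually.of_forall fun x => (hL x).const_mul _)
    filter_upwards [hmem] with t ht
    refine Eventually.of_forall fun x => ?_
    have h2 := (h x (mem_univ x) t ht).2
    have h3 := F.diag_nonneg t x
    have h4 : t ^ 2 * F.diag t x ≤ C := by
      have ht0 := ht.1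
      calc t ^ 2 * F.diag t x ≤ t ^ 2 * (C / t ^ 2) := mul_le_mul_of_nonneg_left h2 (sq_nonneg t)
        _ = C := by field_simp
    rw [norm_mul, Real.norm_eq_abs, Real.norm_of_nonneg (mul_nonneg (sq_nonneg t) h3)]
    exact mul_le_mul (hB x) h4 (mul_nonneg (sq_nonneg t) h3) ((abs_nonneg _).trans (hB x))
  refine h1.congr' ?_
  filter_upwards [hmem] with t ht
  rw [tsum_wt F h hf hB ht, ← integral_const_mul]
  refine integral_congr_ae (Eventually.of_forall fun x => ?_)
  ring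

end abs

/-! ### the manifold -/

variable {M : Type*} [MetricSpace M] [ChartedSpace (EuclideanSpace ℝ (Fin 4)) M]
  [IsManifold (𝓡 4) ∞ M]
  [RiemannianBundle (fun p : M => TangentSpace (𝓡 4) p)]
  [IsContMDiffRiemannianBundle (𝓡 4) ∞ (EuclideanSpace ℝ (Fin 4)) (fun p : M => TangentSpace (𝓡 4) p)]
  [IsRiemannianManifold (𝓡 4) M] [MeasurableSpace M] [BorelSpace M]
  [SecondCountableTopology M] [Nonempty M] [CompactSpace M]
variable {κ : Type} [Fintype κ]

/-- local statement at a point `z` -/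
theorem lead_local (D : Dat 4 M κ) (S : Spec D) {c : ℝ} (hc : ∀ k, 0 ≤ S.μ k + c) (x₀ : M) {z : M}
    (hz : z ∈ (chartAt E4 x₀).source) :
    (∃ U ∈ 𝓝 z, ∃ C, (fam D S hc).BOn U C) ∧
    Tendsto (fun t => t ^ 2 * (fam D S hc).diag t z) (𝓝[>] 0)
      (𝓝 ((∑ a, D.p a a z) / (64 * Real.pi ^ 2))) := by
  set y₀ : E4 := chartAt E4 x₀ z with hy₀
  have hy : y₀ ∈ (chartAt E4 x₀).target := (chartAt E4 x₀).map_source hz
  obtain ⟨V, r1, j1, hVo, hyV, hV, smj1, jj1, jp1⟩ := exists_frame D x₀ hy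
  set L1 := lfr D x₀ hV j1 smj1 jj1 jp1 with hL1
  obtain ⟨hA, hB⟩ := lead_chart hVo (cmet x₀ hV) (L1.con hVo c) (sys D x₀ hV j1 smj1 jj1 jp1 hVo S hc)
  have hv1 : ∀ z' ∈ (chartAt E4 x₀).source, chartAt E4 x₀ z' ∈ V → ∀ k,
      ∑ q, uu x₀ j1 (S.φ k) (chartAt E4 x₀ z') q ^ 2 = (fam D S hc).v k z' := fun z' hz' hx k =>
    sum_uu_sq D x₀ j1 jj1 jp1 (S.sec k) hz' hx
  have hd1 : ∀ z' ∈ (chartAt E4 x₀).source, chartAt E4 x₀ z' ∈ V → ∀ t,
      (sys D x₀ hV j1 smj1 jj1 jp1 hVo S hc).diag t (chartAt E4 x₀ z')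
        = (fam D S hc).diag t z' := fun z' hz' hx t => by
    unfold CSys.diag Fam.diag
    refine tsum_congr fun k => ?_
    rw [← hv1 z' hz' hx k]
    rfl
  constructor
  · obtain ⟨ε, hε, hεV⟩ := nhds_basis_closedBall.mem_iff.1 (hVo.mem_nhds hyV)
    obtain ⟨B, hB'⟩ := hA (closedBall y₀ ε) (isCompact_closedBall y₀ ε) hεV
    refine ⟨(chartAt E4 x₀).source ∩ (chartAt E4 x₀) ⁻¹' closedBall y₀ ε, ?_, B, ?_⟩
    · exact inter_mem ((chartAt E4 x₀).open_source.mem_nhds hz)
        (((chartAt E4 x₀).continuousAt hz).preimage_mem_nhds (closedBall_mem_nhds _ hε))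
    · rintro z' ⟨hz', hx⟩ t ht
      obtain ⟨h1, h3⟩ := hB' _ hx t ht
      rw [hd1 z' hz' (hεV hx) t] at h3
      refine ⟨h1.congr fun k => ?_, h3⟩
      rw [← hv1 z' hz' (hεV hx) k]
      rfl
  · have h1 := hB y₀ hyV
    have h2 := rank_eq D x₀ j1 jj1 jp1 hyV
    rw [hy₀, (chartAt E4 x₀).left_inv hz] at h2
    rw [h2, ← Fintype.card_fin r1]
    refine h1.congr fun t => ?_
    rw [hd1 z hz hyV t]

variable (D : Dat 4 M κ) (S : Spec D)

/-- the shift -/
def shc (S : Spec D) : ℝ := max 0 (-S.μ 0)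

theorem shc_nonneg (k : ℕ) : 0 ≤ S.μ k + shc D S := by
  have h1 := S.mono (Nat.zero_le k)
  have h2 : -S.μ 0 ≤ shc D S := le_max_right _ _
  linarith

theorem exists_B : ∃ C, (fam D S (shc_nonneg D S)).BOn univ C :=
  bnd_univ _ fun z => (lead_local D S (shc_nonneg D S) z (mem_chart_source E4 z)).1

/-- weight of the eigensection `k` -/
def wt (S : Spec D) (f : M → ℝ) (k : ℕ) : ℝ := ∫ z, f z * ∑ a, S.φ k a z ^ 2 ∂(μHE[4] : Measure M)

theorem wt_fam (f : M → ℝ) (k : ℕ) :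
    wt D S f k = ∫ z, f z * (fam D S (shc_nonneg D S)).v k z ∂(μHE[4] : Measure M) := rfl


theorem wt_le {f : M → ℝ} {B : ℝ} (hB : ∀ x, |f x| ≤ B) (k : ℕ) : |wt D S f k| ≤ B := by
  rw [wt_fam, ← Real.norm_eq_abs]
  refine (norm_integral_le_of_norm_le (((fam D S (shc_nonneg D S)).integrable k).const_mul B)
    (Eventually.of_forall fun x => ?_)).trans ?_
  · rw [norm_mul, Real.norm_eq_abs, Real.norm_of_nonneg ((fam D S (shc_nonneg D S)).v_nonneg k x)]
    exact mul_le_mul_of_nonneg_right (hB x) ((fam D S (shc_nonneg D S)).v_nonneg k x)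
  · rw [integral_const_mul, (fam D S (shc_nonneg D S)).v_int k, mul_one]

theorem fin_meas (M : Type*) [MetricSpace M] [ChartedSpace (EuclideanSpace ℝ (Fin 4)) M]
  [IsManifold (𝓡 4) ∞ M]
  [RiemannianBundle (fun p : M => TangentSpace (𝓡 4) p)]
  [IsContMDiffRiemannianBundle (𝓡 4) ∞ (EuclideanSpace ℝ (Fin 4)) (fun p : M => TangentSpace (𝓡 4) p)]
  [IsRiemannianManifold (𝓡 4) M] [MeasurableSpace M] [BorelSpace M]
  [SecondCountableTopology M] [Nonempty M] [CompactSpace M] : IsFiniteMeasure (μHE[4] : Measure M) := by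
  have : IsLocallyFiniteMeasure (μHE[4] : Measure M) := isLocallyFiniteMeasure 4 M
  exact CompactSpace.isFiniteMeasure

theorem summable_sh {t : ℝ} (ht : 0 < t) : Summable fun k => Real.exp (-(t * (S.μ k + shc D S))) := by
  have := fin_meas M
  obtain ⟨C, hC⟩ := exists_B D S
  exact (fam D S (shc_nonneg D S)).summable hC ht

theorem summable_exp {t : ℝ} (ht : 0 < t) : Summable fun k => Real.exp (-(t * S.μ k)) := by
  have h1 := (summable_sh D S ht).mul_left (Real.exp (t * shc D S))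
  refine h1.congr fun k => ?_
  rw [← Real.exp_add]; congr 1; ring

theorem half_Ioc {t : ℝ} (ht : t ∈ Ioc (0:ℝ) 1) : t / 2 ∈ Ioc (0:ℝ) 1 :=
  ⟨half_pos ht.1, by linarith [ht.1, ht.2]⟩

theorem trace_sh : ∃ C, ∀ t ∈ Ioc (0:ℝ) 1, ∑' k, Real.exp (-(t * (S.μ k + shc D S))) ≤ C / t ^ 2 := by
  have := fin_meas M
  obtain ⟨C, hC⟩ := exists_B D S
  refine ⟨4 * C * (μHE[4] : Measure M).real univ, fun t ht => ?_⟩
  have ht2 := half_Ioc ht
  have h1 := (fam D S (shc_nonneg D S)).tsum_eq hC ht2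
  have e1 : ∀ k, Real.exp (-(t * (S.μ k + shc D S))) =
      Real.exp (-(2 * (t / 2) * (fam D S (shc_nonneg D S)).m k)) := by
    intro k
    rw [show 2 * (t / 2) = t by ring]; rfl
  simp only [e1]
  rw [h1]
  refine (integral_mono_of_nonneg (Eventually.of_forall fun x => Fam.diag_nonneg _ _ _)
    (integrable_const (C / (t / 2) ^ 2))
    (Eventually.of_forall fun x => (hC x (mem_univ x) (t / 2) ht2).2)).trans (le_of_eq ?_)
  rw [integral_const, smul_eq_mul]
  have := ht.1.ne'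
  field_simp
  norm_num

/-- `∑ e^{-tμₖ} ≤ C / t²` -/
theorem trace_le : ∃ C, ∀ t ∈ Ioc (0:ℝ) 1, ∑' k, Real.exp (-(t * S.μ k)) ≤ C / t ^ 2 := by
  obtain ⟨C, hC⟩ := trace_sh D S
  refine ⟨Real.exp (shc D S) * C, fun t ht => ?_⟩
  have e1 : ∀ k, Real.exp (-(t * S.μ k)) =
      Real.exp (t * shc D S) * Real.exp (-(t * (S.μ k + shc D S))) :=
    fun k => by rw [← Real.exp_add]; congr 1; ring
  simp only [e1, tsum_mul_left]
  have h0 : 0 ≤ shc D S := le_max_left _ _
  have h1 : Real.exp (t * shc D S) ≤ Real.exp (shc D S) := by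
    refine Real.exp_le_exp.2 ?_
    calc t * shc D S ≤ 1 * shc D S := mul_le_mul_of_nonneg_right ht.2 h0
      _ = _ := one_mul _
  rw [mul_div_assoc]
  exact mul_le_mul h1 (hC t ht) (tsum_nonneg fun k => (Real.exp_pos _).le) (Real.exp_pos _).le

/-- leading term, shifted -/
theorem weyl_sh {f : M → ℝ} (hf : Continuous f) :
    Tendsto (fun t => t ^ 2 * ∑' k, Real.exp (-(t * (S.μ k + shc D S))) * wt D S f k) (𝓝[>] 0)
      (𝓝 ((16 * Real.pi ^ 2)⁻¹ * ∫ z, f z * ∑ a, D.p a a z ∂(μHE[4] : Measure M))) := by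
  have := fin_meas M
  obtain ⟨C, hC⟩ := exists_B D S
  obtain ⟨B, hB⟩ : ∃ B, ∀ x, |f x| ≤ B := by
    obtain ⟨B, hB⟩ := isCompact_univ.exists_bound_of_continuousOn hf.continuousOn
    exact ⟨B, fun x => hB x (mem_univ x)⟩
  have h1 := tendsto_wt (fam D S (shc_nonneg D S)) hC hf.measurable hB
    (fun z => (lead_local D S (shc_nonneg D S) z (mem_chart_source E4 z)).2)
  have h2 : Tendsto (fun t : ℝ => t / 2) (𝓝[>] 0) (𝓝[>] 0) := by
    refine tendsto_nhdsWithin_iff.2 ⟨?_, ?_⟩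
    · have : Tendsto (fun t : ℝ => t / 2) (𝓝 0) (𝓝 (0 / 2)) :=
        (continuous_id.div_const 2).tendsto 0
      rw [zero_div] at this
      exact this.mono_left nhdsWithin_le_nhds
    · filter_upwards [self_mem_nhdsWithin] with t ht
      exact half_pos (mem_Ioi.1 ht)
  have h3 := (h1.comp h2).const_mul 4
  have e1 : 4 * (∫ z, f z * ((∑ a, D.p a a z) / (64 * Real.pi ^ 2)) ∂(μHE[4] : Measure M)) =
      (16 * Real.pi ^ 2)⁻¹ * ∫ z, f z * ∑ a, D.p a a z ∂(μHE[4] : Measure M) := by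
    rw [← integral_const_mul, ← integral_const_mul]
    refine integral_congr_ae (Eventually.of_forall fun z => ?_)
    have := Real.pi_pos
    simp only
    field_simp
    ring
  rw [e1] at h3
  refine h3.congr fun t => ?_
  simp only [Function.comp]
  have h7 : ∀ a : ℝ, 2 * (t / 2) * a = t * a := fun a => by ring
  simp only [h7]
  calc _ = t ^ 2 * ∑' k, Real.exp (-(t * (fam D S (shc_nonneg D S)).m k)) *
        ∫ x, f x * (fam D S (shc_nonneg D S)).v k x ∂(μHE[4] : Measure M) := by ring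
    _ = _ := rfl


theorem tendsto_sub_shc : Tendsto (fun l : ℝ => l - shc D S) atTop atTop :=
  tendsto_atTop_add_const_right _ _ tendsto_id

theorem sh_eq (l : ℝ) (k : ℕ) : (l - shc D S) + (S.μ k + shc D S) = l + S.μ k := by ring

theorem ratio_tendsto : Tendsto (fun l : ℝ => l ^ 2 / (l - shc D S) ^ 2) atTop (𝓝 1) := by
  have h1 : Tendsto (fun l : ℝ => shc D S / (l - shc D S)) atTop (𝓝 0) :=
    tendsto_const_nhds.div_atTop (tendsto_sub_shc D S)
  have h2 : Tendsto (fun l : ℝ => (1 + shc D S / (l - shc D S)) ^ 2) atTop (𝓝 ((1 + 0) ^ 2)) :=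
    (tendsto_const_nhds.add h1).pow 2
  rw [add_zero, one_pow] at h2
  refine h2.congr' ?_
  filter_upwards [eventually_gt_atTop (shc D S)] with l hl
  have : l - shc D S ≠ 0 := by
    have : 0 < l - shc D S := sub_pos.2 hl
    exact this.ne'
  rw [← div_pow]
  congr 1
  field_simp
  ring



/-- **WEYL, resolvent form** -/
theorem weyl_res {f : M → ℝ} (hf : Continuous f) :
    Tendsto (fun l : ℝ => l ^ 2 * ∑' k, ((l + S.μ k) ^ 4)⁻¹ *
        ∫ z, f z * ∑ a, S.φ k a z ^ 2 ∂(μHE[4] : Measure M)) atTop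
      (𝓝 ((96 * Real.pi ^ 2)⁻¹ * ∫ z, f z * ∑ a, D.p a a z ∂(μHE[4] : Measure M))) := by
  obtain ⟨C, hC⟩ := trace_sh D S
  obtain ⟨B, hB⟩ : ∃ B, ∀ x, |f x| ≤ B := by
    obtain ⟨B, hB⟩ := isCompact_univ.exists_bound_of_continuousOn hf.continuousOn
    exact ⟨B, fun x => hB x (mem_univ x)⟩
  have h1 := abel (shc_nonneg D S) (fun t ht => summable_sh D S ht) hC
    (a := wt D S f) (fun k => wt_le D S hB k) (weyl_sh D S hf)
  have h2 := (ratio_tendsto D S).mul (h1.comp (tendsto_sub_shc D S))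
  rw [one_mul] at h2
  have e1 : ((16 * Real.pi ^ 2)⁻¹ * ∫ z, f z * ∑ a, D.p a a z ∂(μHE[4] : Measure M)) / 6 =
      (96 * Real.pi ^ 2)⁻¹ * ∫ z, f z * ∑ a, D.p a a z ∂(μHE[4] : Measure M) := by
    have := Real.pi_pos
    field_simp
    ring
  rw [e1] at h2
  refine h2.congr' ?_
  filter_upwards [eventually_gt_atTop (shc D S)] with l hl
  have hl0 : l - shc D S ≠ 0 := (sub_pos.2 hl).ne'
  simp only [Function.comp, sh_eq]
  rw [← mul_assoc, div_mul_cancel₀ _ (pow_ne_zero 2 hl0)]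
  rfl

end

end Crest.Agent.R235.Weyl_820
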