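import Mathlib

/-!
Row 235 (S0364), package ADJ, leaf L2 (helper266): the product function.

For `Z : ℂ → ℂ` and `m ≥ 1` put `rp m Z ζ z = ∏_{w^m = ζ} (z - Z w)` (roots with multiplicity).
This is the local equation of the branch `w ↦ (w^m, Z w)`.
-/

set_option autoImplicit false

open Set Filter Topology Metric Complex MeasureTheory
open scoped ContDiff

namespace Crest.Agent.R235.RootProd_266

noncomputable section

/-- the standard primitive root of unity. -/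
def xi (m : ℕ) : ℂ := exp (2 * Real.pi * I / m)

theorem xi_prim {m : ℕ} (hm : m ≠ 0) : IsPrimitiveRoot (xi m) m := isPrimitiveRoot_exp m hm

theorem norm_xi {m : ℕ} (hm : m ≠ 0) : ‖xi m‖ = 1 := (xi_prim hm).norm'_eq_one hm

theorem norm_xi_pow {m : ℕ} (hm : m ≠ 0) (j : ℕ) : ‖xi m ^ j‖ = 1 := by
  rw [norm_pow, norm_xi hm, one_pow]

theorem xi_pow_pow {m : ℕ} (hm : m ≠ 0) (j : ℕ) : (xi m ^ j) ^ m = 1 := by
  rw [← pow_mul, mul_comm, pow_mul, (xi_prim hm).pow_eq_one, one_pow]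

theorem xi_pow_ne {m : ℕ} (hm : m ≠ 0) (j : ℕ) : xi m ^ j ≠ 0 :=
  pow_ne_zero _ ((xi_prim hm).ne_zero hm)

/-- the sum of `F` over the roots `w^m = ζ`. -/
def rs {E : Type*} [AddCommMonoid E] (m : ℕ) (F : ℂ → E) (ζ : ℂ) : E :=
  ((Polynomial.nthRoots m ζ).map F).sum

/-- the product function of a branch. -/
def rp (m : ℕ) (Z : ℂ → ℂ) (ζ z : ℂ) : ℂ :=
  ((Polynomial.nthRoots m ζ).map (fun w => z - Z w)).prod

theorem rs_pow {E : Type*} [AddCommMonoid E] {m : ℕ} (hm : m ≠ 0) (F : ℂ → E) {w ζ : ℂ}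
    (h : w ^ m = ζ) : rs m F ζ = ∑ j ∈ Finset.range m, F (xi m ^ j * w) := by
  rw [rs, (xi_prim hm).nthRoots_eq h, Multiset.map_map]
  rfl

/-- the product over an explicit root. -/
theorem rp_pow {m : ℕ} (hm : m ≠ 0) (Z : ℂ → ℂ) {w ζ : ℂ} (h : w ^ m = ζ) (z : ℂ) :
    rp m Z ζ z = ∏ j ∈ Finset.range m, (z - Z (xi m ^ j * w)) := by
  rw [rp, (xi_prim hm).nthRoots_eq h, Multiset.map_map]
  rfl

theorem rp_zero {m : ℕ} (hm : m ≠ 0) (Z : ℂ → ℂ) (z : ℂ) : rp m Z 0 z = (z - Z 0) ^ m := by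
  rw [rp_pow hm Z (w := 0) (zero_pow hm)]
  simp

/-- the zeros of the product function. -/
theorem rp_eq_zero {m : ℕ} (hm : m ≠ 0) (Z : ℂ → ℂ) (ζ z : ℂ) :
    rp m Z ζ z = 0 ↔ ∃ w, w ^ m = ζ ∧ z = Z w := by
  rw [rp, Multiset.prod_eq_zero_iff, Multiset.mem_map]
  constructor
  · rintro ⟨w, hw, h⟩
    exact ⟨w, (Polynomial.mem_nthRoots (Nat.pos_of_ne_zero hm)).1 hw, sub_eq_zero.1 h⟩
  · rintro ⟨w, hw, h⟩
    exact ⟨w, (Polynomial.mem_nthRoots (Nat.pos_of_ne_zero hm)).2 hw, sub_eq_zero.2 h⟩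


theorem norm_root_lt {m : ℕ} (hm : m ≠ 0) {ρ : ℝ} (hρ : 0 ≤ ρ) {w : ℂ} :
    ‖w ^ m‖ < ρ ^ m ↔ ‖w‖ < ρ := by
  rw [norm_pow]
  exact pow_lt_pow_iff_left₀ (norm_nonneg _) hρ hm

theorem exists_root {m : ℕ} (hm : m ≠ 0) (ζ : ℂ) : ∃ w : ℂ, w ^ m = ζ :=
  ⟨ζ ^ ((m : ℂ)⁻¹), cpow_nat_inv_pow ζ hm⟩

theorem isOpenMap_pow {m : ℕ} (hm : m ≠ 0) : IsOpenMap (fun w : ℂ => w ^ m) :=
  haveI : NeZero m := ⟨hm⟩
  (Complex.isOpenQuotientMap_pow m).isOpenMap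

/-- descent of continuity along `w ↦ w^m`. -/
theorem continuousAt_descend {X : Type*} [TopologicalSpace X] {Y : Type*} [TopologicalSpace Y]
    {m : ℕ} (hm : m ≠ 0) {F : ℂ × X → Y} {w : ℂ} {x : X}
    (h : ContinuousAt (fun p : ℂ × X => F (p.1 ^ m, p.2)) (w, x)) :
    ContinuousAt F (w ^ m, x) := by
  have h1 : IsOpenMap (Prod.map (fun w : ℂ => w ^ m) (id : X → X)) :=
    (isOpenMap_pow hm).prodMap IsOpenMap.id
  have h2 := h1.nhds_le (w, x)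
  intro V hV
  refine h2 ?_
  show Prod.map (fun w : ℂ => w ^ m) (id : X → X) ⁻¹' (F ⁻¹' V) ∈ 𝓝 (w, x)
  exact h hV

/-- the product function is continuous. -/
theorem continuousAt_rp {m : ℕ} (hm : m ≠ 0) {Z : ℂ → ℂ} {ρ : ℝ} (hρ : 0 ≤ ρ)
    (hZ : ContinuousOn Z (ball 0 ρ)) {ζ z : ℂ} (hζ : ‖ζ‖ < ρ ^ m) :
    ContinuousAt (fun p : ℂ × ℂ => rp m Z p.1 p.2) (ζ, z) := by
  obtain ⟨w, rfl⟩ := exists_root hm ζ
  rw [norm_root_lt hm hρ] at hζ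
  refine continuousAt_descend hm (F := fun p : ℂ × ℂ => rp m Z p.1 p.2) ?_
  have e : (fun p : ℂ × ℂ => rp m Z (p.1 ^ m) p.2) =
      fun p : ℂ × ℂ => ∏ j ∈ Finset.range m, (p.2 - Z (xi m ^ j * p.1)) := by
    funext p
    exact rp_pow hm Z rfl p.2
  show ContinuousAt (fun p : ℂ × ℂ => rp m Z (p.1 ^ m) p.2) (w, z)
  rw [e]
  refine tendsto_finsetProd _ fun j _ => ?_
  have h1 : ContinuousAt Z (xi m ^ j * w) := by
    refine hZ.continuousAt (isOpen_ball.mem_nhds ?_)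
    rw [mem_ball_zero_iff, norm_mul, norm_xi_pow hm, one_mul]
    exact hζ
  have h2 : ContinuousAt (fun p : ℂ × ℂ => Z (xi m ^ j * p.1)) (w, z) :=
    ContinuousAt.comp (f := fun p : ℂ × ℂ => xi m ^ j * p.1) (g := Z) h1 (by fun_prop)
  exact ContinuousAt.sub (by fun_prop) h2


/-! ### local roots -/

/-- the root near `ζ₀ = w₀^m`. -/
def bt (m : ℕ) (w₀ ζ : ℂ) : ℂ := w₀ * (ζ / w₀ ^ m) ^ ((m : ℂ)⁻¹)

theorem bt_pow {m : ℕ} (hm : m ≠ 0) {w₀ : ℂ} (h0 : w₀ ≠ 0) (ζ : ℂ) : bt m w₀ ζ ^ m = ζ := by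
  rw [bt, mul_pow, cpow_nat_inv_pow _ hm]
  field_simp

theorem bt_self {m : ℕ} {w₀ : ℂ} (h0 : w₀ ≠ 0) : bt m w₀ (w₀ ^ m) = w₀ := by
  rw [bt, div_self (pow_ne_zero _ h0)]
  simp

/-- the domain of the local root: the plane cut along the ray opposite to `ζ₀`. -/
def cutPlane (m : ℕ) (w₀ : ℂ) : Set ℂ := {ζ | ζ / w₀ ^ m ∈ slitPlane}


theorem self_mem_cutPlane {m : ℕ} {w₀ : ℂ} (h0 : w₀ ≠ 0) : w₀ ^ m ∈ cutPlane m w₀ := by
  simp [cutPlane, div_self (pow_ne_zero m h0)]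

theorem bt_ne {m : ℕ} (hm : m ≠ 0) {w₀ : ℂ} (h0 : w₀ ≠ 0) {ζ : ℂ} (h : ζ ≠ 0) :
    bt m w₀ ζ ≠ 0 := by
  intro h2
  have := bt_pow hm h0 ζ
  rw [h2, zero_pow hm] at this
  exact h this.symm

theorem analyticAt_bt {m : ℕ} {w₀ ζ : ℂ} (h : ζ ∈ cutPlane m w₀) :
    AnalyticAt ℂ (bt m w₀) ζ := by
  have h2 : AnalyticAt ℂ (fun ζ : ℂ => ζ / w₀ ^ m) ζ := by fun_prop
  exact analyticAt_const.mul (h2.cpow analyticAt_const h)

theorem hasDerivAt_bt {m : ℕ} (hm : m ≠ 0) {w₀ : ℂ} (h0 : w₀ ≠ 0) {ζ : ℂ}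
    (h : ζ ∈ cutPlane m w₀) : HasDerivAt (bt m w₀) (bt m w₀ ζ / (m * ζ)) ζ := by
  have hζ : ζ ≠ 0 := by
    rintro rfl
    simp [cutPlane] at h
  have h1 := (analyticAt_bt h).differentiableAt.hasDerivAt
  have h2 : HasDerivAt (fun x => bt m w₀ x ^ m) (m * bt m w₀ ζ ^ (m - 1) * deriv (bt m w₀) ζ) ζ :=
    h1.pow m
  have h3 : (fun x => bt m w₀ x ^ m) = fun x => x := by
    funext x
    exact bt_pow hm h0 x
  rw [h3] at h2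
  have h4 := h2.unique (hasDerivAt_id ζ)
  have hb := bt_ne hm h0 hζ
  have hmC : (m : ℂ) ≠ 0 := by exact_mod_cast hm
  have h5 : deriv (bt m w₀) ζ = bt m w₀ ζ / (m * ζ) := by
    rw [eq_div_iff (mul_ne_zero hmC hζ)]
    have h6 : bt m w₀ ζ ^ (m - 1) * bt m w₀ ζ = ζ := by
      rw [← pow_succ, Nat.sub_add_cancel (Nat.pos_of_ne_zero hm), bt_pow hm h0]
    calc deriv (bt m w₀) ζ * (m * ζ)
        = deriv (bt m w₀) ζ * (m * (bt m w₀ ζ ^ (m - 1) * bt m w₀ ζ)) := by rw [h6]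
      _ = (m * bt m w₀ ζ ^ (m - 1) * deriv (bt m w₀) ζ) * bt m w₀ ζ := by ring
      _ = bt m w₀ ζ := by rw [h4, one_mul]
  rw [← h5]
  exact h1

/-- the product function near a point with `ζ₀ ≠ 0`. -/
theorem rp_bt {m : ℕ} (hm : m ≠ 0) (Z : ℂ → ℂ) {w₀ : ℂ} (h0 : w₀ ≠ 0) (ζ z : ℂ) :
    rp m Z ζ z = ∏ j ∈ Finset.range m, (z - Z (xi m ^ j * bt m w₀ ζ)) :=
  rp_pow hm Z (bt_pow hm h0 ζ) z

theorem rs_bt {E : Type*} [AddCommMonoid E] {m : ℕ} (hm : m ≠ 0) (F : ℂ → E) {w₀ : ℂ}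
    (h0 : w₀ ≠ 0) (ζ : ℂ) :
    rs m F ζ = ∑ j ∈ Finset.range m, F (xi m ^ j * bt m w₀ ζ) :=
  rs_pow hm F (bt_pow hm h0 ζ)


/-- smoothness of the product function off `ζ = 0`. -/
theorem contDiffAt_rp {m : ℕ} (hm : m ≠ 0) {Z : ℂ → ℂ} {n : ℕ∞} {ζ z : ℂ} (hζ : ζ ≠ 0)
    (hZ : ∀ w, w ^ m = ζ → ContDiffAt ℝ n Z w) :
    ContDiffAt ℝ n (fun p : ℂ × ℂ => rp m Z p.1 p.2) (ζ, z) := by
  obtain ⟨w₀, rfl⟩ := exists_root hm ζ
  have h0 : w₀ ≠ 0 := by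
    rintro rfl
    exact hζ (zero_pow hm)
  have e : (fun p : ℂ × ℂ => rp m Z p.1 p.2) =
      fun p : ℂ × ℂ => ∏ j ∈ Finset.range m, (p.2 - Z (xi m ^ j * bt m w₀ p.1)) := by
    funext p
    exact rp_bt hm Z h0 p.1 p.2
  rw [e]
  refine contDiffAt_prod fun j _ => ?_
  refine contDiffAt_snd.sub ?_
  have h1 : ContDiffAt ℝ n (bt m w₀) (w₀ ^ m) :=
    (analyticAt_bt (self_mem_cutPlane h0)).contDiffAt.restrict_scalars ℝ
  have h2 : ContDiffAt ℝ n Z (xi m ^ j * bt m w₀ (w₀ ^ m)) := by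
    refine hZ _ ?_
    rw [mul_pow, xi_pow_pow hm, one_mul, bt_self h0]
  have h3 : ContDiffAt ℝ n (fun p : ℂ × ℂ => xi m ^ j * bt m w₀ p.1) (w₀ ^ m, z) :=
    contDiffAt_const.mul (ContDiffAt.comp (f := fun p : ℂ × ℂ => p.1) (g := bt m w₀) _ h1
      contDiffAt_fst)
  exact ContDiffAt.comp (f := fun p : ℂ × ℂ => xi m ^ j * bt m w₀ p.1) (g := Z) _ h2 h3

/-! ### the logarithmic derivative -/

/-- multiplication by a complex number as a real linear map. -/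
def mc (c : ℂ) : ℂ →L[ℝ] ℂ := c • (1 : ℂ →L[ℝ] ℂ)

@[simp] theorem mc_apply (c v : ℂ) : mc c v = c * v := by simp [mc]

/-- the differential of `(ζ, z) ↦ z - Z w` along the sheet through `w`, `w^m = ζ`. -/
def dsh (m : ℕ) (Z : ℂ → ℂ) (ζ w : ℂ) : ℂ × ℂ →L[ℝ] ℂ :=
  ContinuousLinearMap.snd ℝ ℂ ℂ -
    (fderiv ℝ Z w ∘L mc (w / (m * ζ))) ∘L ContinuousLinearMap.fst ℝ ℂ ℂ

theorem dsh_apply (m : ℕ) (Z : ℂ → ℂ) (ζ w : ℂ) (v : ℂ × ℂ) :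
    dsh m Z ζ w v = v.2 - fderiv ℝ Z w (w / (m * ζ) * v.1) := by
  simp [dsh]

/-- the logarithmic differential of the product function. -/
def ld (m : ℕ) (Z : ℂ → ℂ) (p : ℂ × ℂ) : ℂ × ℂ →L[ℝ] ℂ :=
  rs m (fun w => (p.2 - Z w)⁻¹ • dsh m Z p.1 w) p.1

/-- derivative of one sheet. -/
theorem hasFDerivAt_sheet {m : ℕ} (hm : m ≠ 0) {Z : ℂ → ℂ} {w₀ : ℂ} (h0 : w₀ ≠ 0) (j : ℕ)
    {ζ z : ℂ} (hζ : ζ ∈ cutPlane m w₀) (hZ : DifferentiableAt ℝ Z (xi m ^ j * bt m w₀ ζ)) :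
    HasFDerivAt (fun p : ℂ × ℂ => p.2 - Z (xi m ^ j * bt m w₀ p.1))
      (dsh m Z ζ (xi m ^ j * bt m w₀ ζ)) (ζ, z) := by
  have h1 : HasFDerivAt (bt m w₀) (mc (bt m w₀ ζ / (m * ζ))) ζ := by
    refine (hasDerivAt_bt hm h0 hζ).hasFDerivAt.restrictScalars ℝ |>.congr_fderiv ?_
    ext
    simp [mul_comm]
  have h2 : HasFDerivAt (fun ζ => xi m ^ j * bt m w₀ ζ)
      (mc (xi m ^ j * bt m w₀ ζ / (m * ζ))) ζ := by
    refine (h1.const_mul (xi m ^ j)).congr_fderiv ?_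
    ext
    simp
    ring
  have h3 : HasFDerivAt (fun p : ℂ × ℂ => xi m ^ j * bt m w₀ p.1)
      (mc (xi m ^ j * bt m w₀ ζ / (m * ζ)) ∘L ContinuousLinearMap.fst ℝ ℂ ℂ) (ζ, z) :=
    HasFDerivAt.comp (f := fun p : ℂ × ℂ => p.1) (g := fun ζ => xi m ^ j * bt m w₀ ζ) (ζ, z) h2
      hasFDerivAt_fst
  have h4 := HasFDerivAt.comp (f := fun p : ℂ × ℂ => xi m ^ j * bt m w₀ p.1) (g := Z) (ζ, z)
    hZ.hasFDerivAt h3
  exact (hasFDerivAt_snd.sub h4)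

/-- **the logarithmic derivative of the product function.** -/
theorem hasFDerivAt_rp {m : ℕ} (hm : m ≠ 0) {Z : ℂ → ℂ} {ζ z : ℂ} (hζ : ζ ≠ 0)
    (hZ : ∀ w, w ^ m = ζ → DifferentiableAt ℝ Z w) (hne : rp m Z ζ z ≠ 0) :
    HasFDerivAt (fun p : ℂ × ℂ => rp m Z p.1 p.2) (rp m Z ζ z • ld m Z (ζ, z)) (ζ, z) := by
  obtain ⟨w₀, rfl⟩ := exists_root hm ζ
  have h0 : w₀ ≠ 0 := by
    rintro rfl
    exact hζ (zero_pow hm)
  have e : (fun p : ℂ × ℂ => rp m Z p.1 p.2) =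
      fun p : ℂ × ℂ => ∏ j ∈ Finset.range m, (p.2 - Z (xi m ^ j * bt m w₀ p.1)) := by
    funext p
    exact rp_bt hm Z h0 p.1 p.2
  have hs : ∀ j ∈ Finset.range m, HasFDerivAt
      (fun p : ℂ × ℂ => p.2 - Z (xi m ^ j * bt m w₀ p.1))
      (dsh m Z (w₀ ^ m) (xi m ^ j * bt m w₀ (w₀ ^ m))) (w₀ ^ m, z) := by
    intro j _
    refine hasFDerivAt_sheet hm h0 j (self_mem_cutPlane h0) (hZ _ ?_)
    rw [mul_pow, xi_pow_pow hm, one_mul, bt_self h0]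
  have h1 := HasFDerivAt.finsetProd hs
  rw [e]
  refine h1.congr_fderiv ?_
  have hne' : ∏ j ∈ Finset.range m, (z - Z (xi m ^ j * bt m w₀ (w₀ ^ m))) ≠ 0 := by
    rw [← rp_bt hm Z h0]
    exact hne
  rw [rp_bt hm Z h0, ld, rs_bt hm _ h0, Finset.smul_sum]
  refine Finset.sum_congr rfl fun j hj => ?_
  rw [smul_smul]
  congr 1
  rw [← Finset.mul_prod_erase _ _ hj]
  have h2 : z - Z (xi m ^ j * bt m w₀ (w₀ ^ m)) ≠ 0 := (Finset.prod_ne_zero_iff.1 hne') j hj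
  show _ = ((z - Z (xi m ^ j * bt m w₀ (w₀ ^ m))) * _) * (z - Z (xi m ^ j * bt m w₀ (w₀ ^ m)))⁻¹
  rw [mul_comm (z - Z (xi m ^ j * bt m w₀ (w₀ ^ m))), mul_assoc, mul_inv_cancel₀ h2, mul_one]




/-! ### integration over the roots -/

theorem det_smul_one (a : ℂ) :
    (a • (1 : ℂ →L[ℝ] ℂ) : ℂ →L[ℝ] ℂ).det = Complex.normSq a := by
  unfold ContinuousLinearMap.det
  rw [← LinearMap.det_toMatrix Complex.basisOneI, Matrix.det_fin_two]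
  simp only [LinearMap.toMatrix_apply]
  simp [Complex.normSq_apply]




theorem hasFDerivAt_pow_real (m : ℕ) (w : ℂ) :
    HasFDerivAt (fun w : ℂ => w ^ m) ((m * w ^ (m - 1) : ℂ) • (1 : ℂ →L[ℝ] ℂ)) w := by
  have h := (hasDerivAt_pow m w).hasFDerivAt.restrictScalars ℝ
  refine h.congr_fderiv ?_
  ext
  simp [mul_comm]


/-- the standard branch. -/
def b1 (m : ℕ) (ζ : ℂ) : ℂ := ζ ^ ((m : ℂ)⁻¹)

theorem b1_pow {m : ℕ} (hm : m ≠ 0) (ζ : ℂ) : b1 m ζ ^ m = ζ := cpow_nat_inv_pow ζ hm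

theorem measurable_b1 (m : ℕ) : Measurable (b1 m) := by
  unfold b1
  fun_prop

theorem rs_b1 {E : Type*} [AddCommMonoid E] {m : ℕ} (hm : m ≠ 0) (F : ℂ → E) (ζ : ℂ) :
    rs m F ζ = ∑ j ∈ Finset.range m, F (xi m ^ j * b1 m ζ) :=
  rs_pow hm F (b1_pow hm ζ)

theorem rp_b1 {m : ℕ} (hm : m ≠ 0) (Z : ℂ → ℂ) (ζ z : ℂ) :
    rp m Z ζ z = ∏ j ∈ Finset.range m, (z - Z (xi m ^ j * b1 m ζ)) :=
  rp_pow hm Z (b1_pow hm ζ) z

/-- the sectors. -/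
def sec (m j : ℕ) : Set ℂ := {w | w ≠ 0 ∧ w = xi m ^ j * b1 m (w ^ m)}

theorem measurableSet_sec (m j : ℕ) : MeasurableSet (sec m j) := by
  refine (measurableSet_singleton (0 : ℂ)).compl.inter ?_
  exact measurableSet_eq_fun measurable_id
    (((measurable_b1 m).comp (measurable_id.pow_const m)).const_mul _)

theorem b1_ne {m : ℕ} (hm : m ≠ 0) {ζ : ℂ} (h : ζ ≠ 0) : b1 m ζ ≠ 0 := by
  intro h2
  have := b1_pow hm ζ
  rw [h2, zero_pow hm] at this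
  exact h this.symm

theorem sec_disj {m : ℕ} (hm : m ≠ 0) {i j : ℕ} (hi : i < m) (hj : j < m) (hij : i ≠ j) :
    Disjoint (sec m i) (sec m j) := by
  rw [Set.disjoint_left]
  rintro w ⟨h0, hw⟩ ⟨-, hw'⟩
  have hb : b1 m (w ^ m) ≠ 0 := b1_ne hm (pow_ne_zero _ h0)
  have h2 : xi m ^ i = xi m ^ j := by
    apply mul_right_cancel₀ hb
    rw [← hw, ← hw']
  exact hij ((xi_prim hm).pow_inj hi hj h2)

theorem sec_cover {m : ℕ} (hm : m ≠ 0) {w : ℂ} (h : w ≠ 0) : ∃ j < m, w ∈ sec m j := by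
  have hb : b1 m (w ^ m) ≠ 0 := b1_ne hm (pow_ne_zero _ h)
  have h2 : (w / b1 m (w ^ m)) ^ m = 1 := by
    rw [div_pow, b1_pow hm, div_self (pow_ne_zero _ h)]
  have : NeZero m := ⟨hm⟩
  obtain ⟨j, hj, h3⟩ := (xi_prim hm).eq_pow_of_pow_eq_one h2
  exact ⟨j, hj, h, by rw [h3, div_mul_cancel₀ _ hb]⟩

theorem injOn_sec {m : ℕ} {j : ℕ} : InjOn (fun w : ℂ => w ^ m) (sec m j) := by
  rintro w ⟨-, hw⟩ w' ⟨-, hw'⟩ h
  have h' : w ^ m = w' ^ m := h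
  rw [hw, hw', h']


variable {E : Type*} [NormedAddCommGroup E] [NormedSpace ℝ E]

theorem ae_ne_zero (S : Set ℂ) : (S \ {0} : Set ℂ) =ᵐ[volume] S := by
  refine sdiff_null_ae_eq_self ?_
  simp


end

end Crest.Agent.R235.RootProd_266
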