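import Crest.Agent.R235.FBoxG_130
import Crest.Agent.R235.AdjPair_43
import Crest.Agent.R235.BoxE_266
import Crest.Agent.R235.AdjBoxW_688
import Mathlib
import Crest.Agent.R240.Lin1
import Crest.Agent.R235.Pull_129
import Crest.Agent.R240.Mono1
import Crest.Agent.R235.RootProd_266
import Crest.Agent.R240.IntTop
import Crest.Agent.R235.BranchProd_266
import Crest.Agent.R235.AdjBox_43
import Crest.Agent.R235.Ip_288

-- ▼ part R235/FBoxP_130
section

/-!
# Row 235 (S0364), PACKAGE ADJ (helper130): `fboxp_of : FolStmt → FBOXP`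

Foliation boxes of `c` at `p` whose vertical leaf meets the second curve `c'` at most at `p`.
-/

set_option autoImplicit false
set_option maxSynthPendingDepth 3

open Set Function Filter MeasureTheory Metric
open scoped Manifold ContDiff Topology

universe u

namespace Crest.Agent.R235.FBoxP_130

open Crest.Agent.R240 Crest.Agent.R240.Ch
open Crest.Agent.R235 Crest.Agent.R235.Glob_370 Crest.Agent.R235.Adj
open Crest.Agent.R235.NWDefs_334 Crest.Agent.R235.FBoxG_130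

noncomputable section

/-- radii for a smaller box. -/
theorem exists_radius {M : Type u} [TopologicalSpace M] [ChartedSpace E4 M]
    [IsManifold 𝓘(ℝ, E4) ∞ M] {J : EndF E4 M} {p : M} {V : Set M} {ι : Type} [Finite ι]
    {u : ι → ℂ → M} (B : GBox J p V u) (hu0 : ∀ j, u j 0 = p) {R' : ℝ} (hR' : 0 < R') :
    ∃ r : ℝ, 0 < r ∧ r ≤ B.r1 ∧ ∀ j, ∀ s ∈ ball (0 : ℂ) r, B.v j s ∈ ball (0 : ℂ × ℂ) R' := by
  have h1 : ∀ j, ∃ r : ℝ, 0 < r ∧ ∀ s ∈ ball (0 : ℂ) r, B.v j s ∈ ball (0 : ℂ × ℂ) R' := by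
    intro j
    have h2 : ContinuousAt (B.v j) 0 :=
      ((B.v_smooth j).continuousOn).continuousAt (ball_mem_nhds _ B.r1_pos)
    have h3 : B.v j ⁻¹' ball (0 : ℂ × ℂ) R' ∈ 𝓝 (0 : ℂ) :=
      h2.preimage_mem_nhds (by rw [B.v_zero (hu0 j)]; exact ball_mem_nhds _ hR')
    obtain ⟨r, hr, h4⟩ := Metric.mem_nhds_iff.1 h3
    exact ⟨r, hr, fun s hs => h4 hs⟩
  choose r hr hr' using h1
  obtain ⟨r0, h2, -, h4⟩ := exists_pos_le r hr
  exact ⟨min r0 B.r1, lt_min h2 B.r1_pos, min_le_right _ _, fun j s hs =>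
    hr' j s (ball_subset_ball ((min_le_left _ _).trans (h4 j)) hs)⟩

/-- a branch meets the vertical leaf through `p` only at its centre. -/
theorem exists_radius' {M : Type u} [TopologicalSpace M] [ChartedSpace E4 M]
    [IsManifold 𝓘(ℝ, E4) ∞ M] {J : EndF E4 M} {p : M} {V : Set M} {ι : Type} [Finite ι]
    {u : ι → ℂ → M} (B : GBox J p V u) :
    ∃ r : ℝ, 0 < r ∧ r ≤ B.r1 ∧ ∀ j, ∀ s ∈ ball (0 : ℂ) r, (B.v j s).1 = 0 → s = 0 := by
  have h1 : ∀ j, ∃ r : ℝ, 0 < r ∧ r ≤ B.r1 ∧ ∀ s ∈ ball (0 : ℂ) r, (B.v j s).1 = 0 → s = 0 := by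
    intro j
    have hb : 0 < ‖(B.b j).1‖ := norm_pos_iff.2 (B.b_ne j)
    have hC := B.C_nonneg
    refine ⟨min B.r1 (‖(B.b j).1‖ / (B.C + 1)), lt_min B.r1_pos (by positivity), min_le_left _ _,
      fun s hs h => ?_⟩
    by_contra hs0
    have hs1 : 0 < ‖s‖ := norm_pos_iff.2 hs0
    have h2 := B.ζ0 j s (ball_subset_ball (min_le_left _ _) hs)
    rw [h, zero_sub, norm_neg, norm_mul, norm_pow, pow_succ] at h2
    have h3 : ‖(B.b j).1‖ ≤ B.C * ‖s‖ := by
      have h4 : 0 < ‖s‖ ^ B.m j := pow_pos hs1 _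
      have h5 : ‖(B.b j).1‖ * ‖s‖ ^ B.m j ≤ (B.C * ‖s‖) * ‖s‖ ^ B.m j := by
        calc _ ≤ B.C * (‖s‖ ^ B.m j * ‖s‖) := h2
          _ = _ := by ring
      exact le_of_mul_le_mul_right h5 h4
    have h4 : ‖s‖ < ‖(B.b j).1‖ / (B.C + 1) := by
      have := ball_subset_ball (min_le_right B.r1 (‖(B.b j).1‖ / (B.C + 1))) hs
      rwa [mem_ball_zero_iff] at this
    rw [lt_div_iff₀ (by positivity)] at h4
    nlinarith
  choose r hr hr1 hr' using h1
  obtain ⟨r0, h2, -, h4⟩ := exists_pos_le r hr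
  exact ⟨min r0 B.r1, lt_min h2 B.r1_pos, min_le_right _ _, fun j s hs =>
    hr' j s (ball_subset_ball ((min_le_left _ _).trans (h4 j)) hs)⟩

/-- **FBOXP** -/
theorem fboxp_of (hF : FolStmt) : FBOXP.{u} := by
  intro M _ _ _ _ _ _ J hJs hJ2 c c' p V hV hpV _
  -- the common box
  let u : Fin (c.L p).n ⊕ Fin (c'.L p).n → ℂ → M := Sum.elim (c.L p).u (c'.L p).u
  have hu : ∀ j, IsDisc J (u j) := by
    rintro (j | j)
    · exact (c.L p).disc j
    · exact (c'.L p).disc j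
  have hu0 : ∀ j, u j 0 = p := by
    rintro (j | j)
    · exact (c.L p).centre j
    · exact (c'.L p).centre j
  obtain ⟨B⟩ := gbox_of hF hJs hJ2 u hu hu0 (hV.inter (c.L p).openU) ⟨hpV, (c.L p).mem⟩
  obtain ⟨r0, hr0, hr0', hvert⟩ := exists_radius' B
  -- near `p` the second curve consists of its branches
  obtain ⟨N', hN', hN''⟩ := near_lemma c' p hr0
  obtain ⟨R', hR', hR'B, hR'N⟩ : ∃ R' : ℝ, 0 < R' ∧ R' ≤ B.R ∧
      ∀ x ∈ ball (0 : ℂ × ℂ) R', B.Θ x ∈ N' := by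
    have h1 : B.Θ ⁻¹' N' ∈ 𝓝 (0 : ℂ × ℂ) := by
      refine (B.Θ.continuousAt (by rw [B.source]; exact mem_ball_self B.R_pos)).preimage_mem_nhds ?_
      rw [B.centre]; exact hN'
    obtain ⟨R', h2, h3⟩ := Metric.mem_nhds_iff.1 h1
    exact ⟨min R' B.R, lt_min h2 B.R_pos, min_le_right _ _,
      fun x hx => h3 (ball_subset_ball (min_le_left _ _) hx)⟩
  obtain ⟨r1, hr1, hr1', hr1B⟩ := exists_radius B hu0 hR'
  have hΘV : ∀ x ∈ ball (0 : ℂ × ℂ) R', B.Θ x ∈ V ∩ (c.L p).U := fun x hx =>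
    B.target (B.Θ.map_source (by rw [B.source]; exact ball_subset_ball hR'B hx))
  let B' : GBox J p (V ∩ (c.L p).U) u :=
    B.restr (V ∩ (c.L p).U) R' hR' hR'B r1 hr1 hr1' hΘV hr1B
  -- near `p` the first curve consists of its branches
  obtain ⟨N, hN, hN1⟩ := near_lemma c p hr1
  obtain ⟨ρ, hρ, hρN⟩ : ∃ ρ : ℝ, 0 < ρ ∧ ∀ x ∈ ball (0 : ℂ × ℂ) ρ, B.Θ x ∈ N := by
    have h1 : B.Θ ⁻¹' N ∈ 𝓝 (0 : ℂ × ℂ) := by
      refine (B.Θ.continuousAt (by rw [B.source]; exact mem_ball_self B.R_pos)).preimage_mem_nhds ?_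
      rw [B.centre]; exact hN
    obtain ⟨ρ, h2, h3⟩ := Metric.mem_nhds_iff.1 h1
    exact ⟨ρ, h2, fun x hx => h3 hx⟩
  let F : FBox c p V :=
    { Θ := B'.Θ
      R := R'
      R_pos := hR'
      source := B'.source
      centre := B'.centre
      target := B'.target
      smooth := B'.smooth
      smooth_symm := B'.smooth_symm
      J' := B'.J'
      smoothJ := B'.smoothJ
      conj := B'.conj
      leaf := B'.leaf
      J0 := B'.J0
      r1 := r1
      r1_pos := hr1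
      r1_le := B'.r1_le
      inT := fun j => B'.inT (Sum.inl j)
      v := fun j => B'.v (Sum.inl j)
      v_eq := fun j => B'.v_eq (Sum.inl j)
      v_smooth := fun j => B'.v_smooth (Sum.inl j)
      v_hol := fun j => B'.v_hol (Sum.inl j)
      m := fun j => B'.m (Sum.inl j)
      m_pos := fun j => B'.m_pos (Sum.inl j)
      a := fun j => (B'.b (Sum.inl j)).1
      a_ne := fun j => B'.b_ne (Sum.inl j)
      C := B'.C
      C_nonneg := B'.C_nonneg
      ζ0 := fun j => B'.ζ0 (Sum.inl j)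
      ζ1 := fun j => B'.ζ1 (Sum.inl j)
      z0 := fun j => B'.z0 (Sum.inl j)
      z1 := fun j => B'.z1 (Sum.inl j)
      ρ := min ρ R'
      ρ_pos := lt_min hρ hR'
      ρ_le := min_le_right _ _
      near := by
        intro x hx hxf
        obtain ⟨j, s, hs, hjs⟩ := hN1 (B.Θ x) (hρN x (ball_subset_ball (min_le_left _ _) hx)) hxf
        refine ⟨j, s, hs, ?_⟩
        show B.v (Sum.inl j) s = x
        have h1 : u (Sum.inl j) s = B.Θ x := hjs
        rw [B.v_eq, h1]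
        exact B.Θ.left_inv (by
          rw [B.source]
          exact ball_subset_ball ((min_le_right _ _).trans hR'B) hx) }
  refine ⟨F, ?_⟩
  intro x hx hx1 hxc
  have hx' : x ∈ ball (0 : ℂ × ℂ) R' := hx
  have hxc' : B.Θ x ∈ range c'.f := hxc
  obtain ⟨j, s, hs, hjs⟩ := hN'' (B.Θ x) (hR'N x hx') hxc'
  have h1 : u (Sum.inr j) s = B.Θ x := hjs
  have h2 : B.v (Sum.inr j) s = x := by
    rw [B.v_eq, h1]
    exact B.Θ.left_inv (by rw [B.source]; exact ball_subset_ball hR'B hx')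
  have h3 : s = 0 := hvert (Sum.inr j) s hs (by rw [h2]; exact hx1)
  rw [← h2, h3]
  exact B.v_zero (hu0 (Sum.inr j))

end

end Crest.Agent.R235.FBoxP_130
end

-- ▼ part R235/BoxF_266
section

/-!
Row 235 (S0364), package ADJ (helper266): `WINDP` holds (688's L4), `BOXP` from `FolStmt` and `WEAKP`.
-/

set_option autoImplicit false
set_option maxSynthPendingDepth 3

open Set Function Filter MeasureTheory Metric
open scoped Manifold ContDiff Topology

universe u

namespace Crest.Agent.R235.BoxL2_266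

open Crest.Agent.R235 Crest.Agent.R235.Adj

/-- **WINDP**. -/
theorem windp : WINDP.{u} := by
  intro M _ _ _ _ _ _ w J hw hJ c p V B P
  obtain ⟨r0, hr0, -, -, -, mm, h1, h2, h3⟩ := AdjBoxW_688.kappa_wind hw hJ P
  exact ⟨r0, hr0, mm, h1, h2, h3, fun hp v hv hv0 hsep =>
    AdjBoxW_688.other_wind hJ.sq P hp v hv hv0 hsep⟩

/-- **BOXP** from the foliation statement and the weak equation. -/
theorem boxp_of_fol (hF : NWDefs_334.FolStmt) (hW : WEAKP.{u}) : BOXP.{u} :=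
  boxp_of (FBoxP_130.fboxp_of hF) hW windp

end Crest.Agent.R235.BoxL2_266
end

-- ▼ part R235/WkA_250
section

/-!
Row 235 (S0364), package ADJ, helper250: coordinates `(s, v)` on `E4`, the shear along a graph,
the planar approximate identity `kap`.
-/

set_option autoImplicit false
set_option maxSynthPendingDepth 3

open Set Function Filter MeasureTheory Metric Module
open scoped ContDiff Topology ENNReal

namespace Crest.Agent.R235.Wk_250

open Crest.Agent.R240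

noncomputable section

/-! ### coordinates -/

/-- the first complex coordinate. -/
def sL : E4 →L[ℝ] ℂ :=
  (EuclideanSpace.proj (0 : Fin 4) : E4 →L[ℝ] ℝ).smulRight (1 : ℂ) +
    (EuclideanSpace.proj (1 : Fin 4) : E4 →L[ℝ] ℝ).smulRight Complex.I

/-- the second complex coordinate. -/
def vL : E4 →L[ℝ] ℂ :=
  (EuclideanSpace.proj (2 : Fin 4) : E4 →L[ℝ] ℝ).smulRight (1 : ℂ) +
    (EuclideanSpace.proj (3 : Fin 4) : E4 →L[ℝ] ℝ).smulRight Complex.I

lemma sL_apply (y : E4) : sL y = ⟨y 0, y 1⟩ := by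
  apply Complex.ext <;> simp [sL]

lemma vL_apply (y : E4) : vL y = ⟨y 2, y 3⟩ := by
  apply Complex.ext <;> simp [vL]

/-- the point with coordinates `(s, v)`. -/
def mk (s v : ℂ) : E4 := s.re • ee 0 + s.im • ee 1 + v.re • ee 2 + v.im • ee 3

lemma mk_0 (s v : ℂ) : mk s v 0 = s.re := by simp [mk]
lemma mk_1 (s v : ℂ) : mk s v 1 = s.im := by simp [mk]
lemma mk_2 (s v : ℂ) : mk s v 2 = v.re := by simp [mk]
lemma mk_3 (s v : ℂ) : mk s v 3 = v.im := by simp [mk]

@[simp] lemma sL_mk (s v : ℂ) : sL (mk s v) = s := by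
  rw [sL_apply, mk_0, mk_1]

@[simp] lemma vL_mk (s v : ℂ) : vL (mk s v) = v := by
  rw [vL_apply, mk_2, mk_3]

@[simp] lemma mk_sL_vL (y : E4) : mk (sL y) (vL y) = y := by
  ext j
  fin_cases j
  · simp [mk_0, sL_apply]
  · simp [mk_1, sL_apply]
  · simp [mk_2, vL_apply]
  · simp [mk_3, vL_apply]

/-- the linear map `(s, v) ↦ mk s v`. -/
def mkL : ℂ × ℂ →L[ℝ] E4 :=
  ((Complex.reCLM.comp (ContinuousLinearMap.fst ℝ ℂ ℂ)).smulRight (ee 0) +
    (Complex.imCLM.comp (ContinuousLinearMap.fst ℝ ℂ ℂ)).smulRight (ee 1)) +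
  (Complex.reCLM.comp (ContinuousLinearMap.snd ℝ ℂ ℂ)).smulRight (ee 2) +
    (Complex.imCLM.comp (ContinuousLinearMap.snd ℝ ℂ ℂ)).smulRight (ee 3)

lemma mkL_apply (p : ℂ × ℂ) : mkL p = mk p.1 p.2 := by
  simp [mkL, mk]



/-- the coordinates as a continuous linear equivalence. -/
def mkE : (ℂ × ℂ) ≃L[ℝ] E4 :=
  ContinuousLinearEquiv.equivOfInverse mkL (sL.prod vL)
    (fun p => by simp [mkL_apply]) (fun y => by simp [mkL_apply])

lemma mkE_apply (p : ℂ × ℂ) : mkE p = mk p.1 p.2 := mkL_apply p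

lemma mkE_symm_apply (y : E4) : mkE.symm y = (sL y, vL y) := rfl

lemma norm_mk (s v : ℂ) : ‖mk s v‖ ^ 2 = ‖s‖ ^ 2 + ‖v‖ ^ 2 := by
  rw [EuclideanSpace.norm_sq_eq, Fin.sum_univ_four, mk_0, mk_1, mk_2, mk_3,
    ← Complex.normSq_eq_norm_sq, ← Complex.normSq_eq_norm_sq, Complex.normSq_apply,
    Complex.normSq_apply]
  simp only [Real.norm_eq_abs, sq_abs]
  ring

/-- the isometry. -/
def mkI : WithLp 2 (ℂ × ℂ) ≃ₗᵢ[ℝ] E4 where
  toLinearEquiv := (WithLp.linearEquiv 2 ℝ (ℂ × ℂ)).trans mkE.toLinearEquiv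
  norm_map' := fun p => by
    have h1 : ‖mk p.fst p.snd‖ ^ 2 = ‖p‖ ^ 2 := by
      rw [norm_mk, WithLp.prod_norm_sq_eq_of_L2]
    have h2 := (pow_left_inj₀ (norm_nonneg _) (norm_nonneg _) two_ne_zero).1 h1
    exact h2

theorem mp_mk : MeasurePreserving (fun p : ℂ × ℂ => mk p.1 p.2) volume volume := by
  have h1 : MeasurePreserving (WithLp.toLp 2 : ℂ × ℂ → WithLp 2 (ℂ × ℂ)) volume volume :=
    WithLp.volume_preserving_toLp ℂ ℂ
  have h2 : MeasurePreserving (mkI : WithLp 2 (ℂ × ℂ) → E4) volume volume :=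
    mkI.measurePreserving
  exact h2.comp h1

/-- the shear along the graph of `g`. -/
def T (g : ℂ → ℂ) (p : ℂ × ℂ) : E4 := mk p.1 (g p.1 + p.2)

lemma sL_T (g : ℂ → ℂ) (p : ℂ × ℂ) : sL (T g p) = p.1 := by simp [T]
lemma vL_T (g : ℂ → ℂ) (p : ℂ × ℂ) : vL (T g p) = g p.1 + p.2 := by simp [T]

/-- the shear as a homeomorphism. -/
def Th {g : ℂ → ℂ} (hg : Continuous g) : (ℂ × ℂ) ≃ₜ E4 where
  toFun := T g
  invFun y := (sL y, vL y - g (sL y))
  left_inv p := by simp [T]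
  right_inv y := by simp [T]
  continuous_toFun := by
    have : (T g) = fun p => mkL (p.1, g p.1 + p.2) := by
      funext p; rw [mkL_apply]; rfl
    rw [this]
    fun_prop
  continuous_invFun := by fun_prop

theorem mp_T {g : ℂ → ℂ} (hg : Continuous g) : MeasurePreserving (T g) volume volume := by
  have h1 : MeasurePreserving (fun p : ℂ × ℂ => (p.1, g p.1 + p.2)) volume volume := by
    have := (MeasurePreserving.id (volume : Measure ℂ)).skew_product
      (g := fun s v => g s + v) (μc := (volume : Measure ℂ)) (μd := (volume : Measure ℂ))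
      (by
        show Measurable fun p : ℂ × ℂ => g p.1 + p.2
        exact ((hg.comp continuous_fst).add continuous_snd).measurable)
      (ae_of_all _ fun s => (measurePreserving_add_left volume (g s)).map_eq)
    exact this
  exact mp_mk.comp h1

lemma emb_T {g : ℂ → ℂ} (hg : Continuous g) : MeasurableEmbedding (T g) :=
  (Th hg).measurableEmbedding

theorem integral_T {g : ℂ → ℂ} (hg : Continuous g) (f : E4 → ℝ) :
    ∫ p, f (T g p) = ∫ y, f y := (mp_T hg).integral_comp (emb_T hg) f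

theorem integrable_T {g : ℂ → ℂ} (hg : Continuous g) {f : E4 → ℝ} :
    Integrable f ↔ Integrable fun p => f (T g p) :=
  ((mp_T hg).integrable_comp_emb (emb_T hg)).symm

/-! ### the approximate identity -/

/-- the kernel. -/
def kap (w : ℂ) : ℝ := Real.pi⁻¹ * ((1 + ‖w‖ ^ 2) ^ 2)⁻¹

lemma kap_nonneg (w : ℂ) : 0 ≤ kap w := by unfold kap; positivity

lemma kap_continuous : Continuous kap := by
  unfold kap
  refine continuous_const.mul (Continuous.inv₀ (by fun_prop) fun w => by positivity)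

theorem kap_integral : ∫ w, kap w = 1 := by
  have h := integral_fun_norm_addHaar (volume : Measure ℂ)
    (fun r : ℝ => Real.pi⁻¹ * ((1 + r ^ 2) ^ 2)⁻¹)
  have h1 : (volume : Measure ℂ).real (ball 0 1) = Real.pi := by
    rw [measureReal_def, Complex.volume_ball]
    simp
  have h2 : ∫ r in Ioi (0 : ℝ), r * ((1 + r ^ 2) ^ 2)⁻¹ = 1 / 2 := by
    have hd : ∀ x ∈ Ici (0 : ℝ), HasDerivAt (fun r : ℝ => -(1 / 2) * (1 + r ^ 2)⁻¹)
        (x * ((1 + x ^ 2) ^ 2)⁻¹) x := by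
      intro x _
      have h0 : (1 + x ^ 2) ≠ 0 := by positivity
      have h3 : HasDerivAt (fun r : ℝ => 1 + r ^ 2) (2 * x) x := by
        simpa using ((hasDerivAt_id x).pow 2).const_add 1
      have h4 := (h3.inv h0).const_mul (-(1 / 2) : ℝ)
      refine h4.congr_deriv ?_
      field_simp
    have hl : Tendsto (fun r : ℝ => -(1 / 2) * (1 + r ^ 2)⁻¹) atTop (𝓝 0) := by
      have : Tendsto (fun r : ℝ => (1 + r ^ 2)⁻¹) atTop (𝓝 0) :=
        tendsto_inv_atTop_zero.comp (tendsto_atTop_add_const_left _ _ (tendsto_pow_atTop two_ne_zero))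
      have h5 := this.const_mul (-(1 / 2) : ℝ)
      rwa [mul_zero] at h5
    have := integral_Ioi_of_hasDerivAt_of_nonneg' hd (fun x hx => by
      have : (0 : ℝ) < x := hx
      positivity) hl
    rw [this]; norm_num
  have h3 : ∫ y in Ioi (0 : ℝ), y ^ (finrank ℝ ℂ - 1) • (Real.pi⁻¹ * ((1 + y ^ 2) ^ 2)⁻¹) =
      Real.pi⁻¹ * (1 / 2) := by
    rw [← h2, ← integral_const_mul]
    refine setIntegral_congr_fun measurableSet_Ioi fun y _ => ?_
    simp only [Complex.finrank_real_complex, smul_eq_mul]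
    norm_num
    ring
  unfold kap
  rw [h, h1, h3, Complex.finrank_real_complex]
  simp only [nsmul_eq_mul, smul_eq_mul]
  have := Real.pi_pos.ne'
  field_simp
  norm_num

theorem kap_decay : Tendsto (fun w : ℂ => ‖w‖ ^ finrank ℝ ℂ * kap w) (Bornology.cobounded ℂ)
    (𝓝 0) := by
  rw [Complex.finrank_real_complex]
  have h1 : Tendsto (fun r : ℝ => r ^ 2 * (Real.pi⁻¹ * ((1 + r ^ 2) ^ 2)⁻¹)) atTop (𝓝 0) := by
    have h2 : Tendsto (fun r : ℝ => (1 + r ^ 2)⁻¹) atTop (𝓝 0) :=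
      tendsto_inv_atTop_zero.comp (tendsto_atTop_add_const_left _ _ (tendsto_pow_atTop two_ne_zero))
    have h3 : Tendsto (fun r : ℝ => Real.pi⁻¹ * (1 + r ^ 2)⁻¹) atTop (𝓝 0) := by
      simpa using h2.const_mul Real.pi⁻¹
    refine squeeze_zero (fun r => by positivity) (fun r => ?_) h3
    have hp := Real.pi_pos
    have h4 : r ^ 2 * ((1 + r ^ 2) ^ 2)⁻¹ ≤ (1 + r ^ 2)⁻¹ := by
      rw [← div_eq_mul_inv, div_le_iff₀ (by positivity), inv_mul_eq_div, le_div_iff₀ (by positivity)]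
      nlinarith [sq_nonneg r]
    calc r ^ 2 * (Real.pi⁻¹ * ((1 + r ^ 2) ^ 2)⁻¹) = Real.pi⁻¹ * (r ^ 2 * ((1 + r ^ 2) ^ 2)⁻¹) := by
          ring
      _ ≤ _ := mul_le_mul_of_nonneg_left h4 (by positivity)
  exact h1.comp tendsto_norm_cobounded_atTop

theorem kap_tendsto {h : ℂ → ℝ} (hi : Integrable h) (hc : ContinuousAt h 0) :
    Tendsto (fun c : ℝ => ∫ w, (c ^ 2 * kap (c • w)) * h w) atTop (𝓝 (h 0)) := by
  have := tendsto_integral_comp_smul_smul_of_integrable kap_nonneg kap_integral kap_decay hi hc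
  simpa [Complex.finrank_real_complex] using this



end

end Crest.Agent.R235.Wk_250
end

-- ▼ part R235/WkB_250
section

/-!
Row 235 (S0364), package ADJ, helper250: the angular form of a smooth graph in `E4`.

`graph_stokes`: `∫ (ψ ∧ dχ) ∧ b = ∫_graph χ b` for `b` closed, `χ` with compact support,
`ψ = (1/2π) d arg (v - g s)`.
-/

set_option autoImplicit false
set_option maxSynthPendingDepth 3

open Set Function Filter MeasureTheory Metric Module
open scoped ContDiff Topology ENNReal ComplexConjugate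

namespace Crest.Agent.R235.Wk_250

open Crest.Agent.R240 Crest.Agent.R240.En

noncomputable section

/-! ### planar angular forms -/

/-- `h ↦ Im (conj w * h)`. -/
def th (w : ℂ) : ℂ →L[ℝ] ℝ := w.re • Complex.imCLM - w.im • Complex.reCLM

lemma th_apply (w h : ℂ) : th w h = w.re * h.im - w.im * h.re := by
  simp [th]

/-- the angular form `(1/2π) d arg` of the plane. -/
def sg (w : ℂ) : ℂ →L[ℝ] ℝ := ((2 * Real.pi)⁻¹ * (‖w‖ ^ 2)⁻¹) • th w

/-- the smoothed angular form. -/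
def sgc (c : ℝ) (w : ℂ) : ℂ →L[ℝ] ℝ := ((2 * Real.pi)⁻¹ * (c ^ 2 * (1 + c ^ 2 * ‖w‖ ^ 2)⁻¹)) • th w

/-- the cut-off factor. -/
def rc (c : ℝ) (w : ℂ) : ℝ := c ^ 2 * ‖w‖ ^ 2 * (1 + c ^ 2 * ‖w‖ ^ 2)⁻¹

lemma sgc_eq (c : ℝ) (w : ℂ) : sgc c w = rc c w • sg w := by
  by_cases h : w = 0
  · subst h
    have : th 0 = 0 := by
      ext h; simp [th_apply]
    simp [sgc, sg, this]
  · have h0 : ‖w‖ ^ 2 ≠ 0 := by positivity
    rw [sgc, sg, rc, smul_smul]
    congr 1
    field_simp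

lemma rc_nonneg (c : ℝ) (w : ℂ) : 0 ≤ rc c w := by unfold rc; positivity

lemma rc_le_one (c : ℝ) (w : ℂ) : rc c w ≤ 1 := by
  unfold rc
  rw [← div_eq_mul_inv, div_le_one (by positivity)]
  linarith

lemma rc_tendsto {w : ℂ} (hw : w ≠ 0) : Tendsto (fun c : ℝ => rc c w) atTop (𝓝 1) := by
  have h0 : 0 < ‖w‖ ^ 2 := by positivity
  have h1 : Tendsto (fun c : ℝ => 1 + c ^ 2 * ‖w‖ ^ 2) atTop atTop :=
    tendsto_atTop_add_const_left _ _ ((tendsto_pow_atTop two_ne_zero).atTop_mul_const h0)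
  have h2 : Tendsto (fun c : ℝ => 1 - (1 + c ^ 2 * ‖w‖ ^ 2)⁻¹) atTop (𝓝 (1 - 0)) :=
    tendsto_const_nhds.sub (tendsto_inv_atTop_zero.comp h1)
  rw [sub_zero] at h2
  refine h2.congr fun c => ?_
  unfold rc
  have : (1 + c ^ 2 * ‖w‖ ^ 2) ≠ 0 := by positivity
  field_simp
  ring

lemma norm_sq_c (w : ℂ) : ‖w‖ ^ 2 = w.re ^ 2 + w.im ^ 2 := by
  rw [← Complex.normSq_eq_norm_sq, Complex.normSq_apply]; ring

/-- `th` is linear. -/
def thL : ℂ →L[ℝ] (ℂ →L[ℝ] ℝ) :=
  Complex.reCLM.smulRight Complex.imCLM - Complex.imCLM.smulRight Complex.reCLM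

lemma th_eq : th = fun w => thL w := by
  funext w; ext h; simp [th, thL]

lemma contDiff_th : ContDiff ℝ ∞ th := by
  rw [th_eq]; exact thL.contDiff

lemma contDiff_sgc (c : ℝ) : ContDiff ℝ ∞ (sgc c) := by
  have h1 : ContDiff ℝ ∞ fun w : ℂ => 1 + c ^ 2 * ‖w‖ ^ 2 :=
    contDiff_const.add (contDiff_const.mul (contDiff_norm_sq ℝ))
  have h2 : ContDiff ℝ ∞ fun w : ℂ => (1 + c ^ 2 * ‖w‖ ^ 2)⁻¹ := h1.inv fun w => by
    have : (0 : ℝ) < 1 + c ^ 2 * ‖w‖ ^ 2 := by positivity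
    exact this.ne'
  have h3 : ContDiff ℝ ∞ fun w : ℂ => (2 * Real.pi)⁻¹ * (c ^ 2 * (1 + c ^ 2 * ‖w‖ ^ 2)⁻¹) :=
    contDiff_const.mul (contDiff_const.mul h2)
  exact h3.smul contDiff_th

lemma fderiv_th (w h : ℂ) : fderiv ℝ th w h = th h := by
  rw [th_eq, thL.fderiv]

/-- the exterior derivative of the smoothed angular form. -/
theorem d1_sgc (c : ℝ) (w h k : ℂ) : Ch.d1 (sgc c) w h k =
    (c ^ 2 * kap (c • w)) * (h.re * k.im - h.im * k.re) := by
  set a : ℂ → ℝ := fun w => (2 * Real.pi)⁻¹ * (c ^ 2 * (1 + c ^ 2 * ‖w‖ ^ 2)⁻¹) with ha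
  have hq : ∀ w : ℂ, (1 + c ^ 2 * ‖w‖ ^ 2) ≠ 0 := fun w => by positivity
  have hn : ∀ h, fderiv ℝ (fun w : ℂ => ‖w‖ ^ 2) w h = 2 * (w.re * h.re + w.im * h.im) := by
    intro h
    have h2 : HasFDerivAt (fun w : ℂ => w.re ^ 2) ((2 * w.re) • Complex.reCLM) w := by
      have := (Complex.reCLM.hasFDerivAt (x := w)).pow 2
      refine this.congr_fderiv ?_
      ext k; simp
    have h3 : HasFDerivAt (fun w : ℂ => w.im ^ 2) ((2 * w.im) • Complex.imCLM) w := by
      have := (Complex.imCLM.hasFDerivAt (x := w)).pow 2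
      refine this.congr_fderiv ?_
      ext k; simp
    have h1 : HasFDerivAt (fun w : ℂ => w.re ^ 2 + w.im ^ 2)
        ((2 * w.re) • Complex.reCLM + (2 * w.im) • Complex.imCLM) w := h2.add h3
    have h4 : (fun w : ℂ => ‖w‖ ^ 2) = fun w : ℂ => w.re ^ 2 + w.im ^ 2 := funext norm_sq_c
    rw [h4, h1.fderiv]
    simp
    ring
  have hda : ∀ h, fderiv ℝ a w h =
      -((2 * Real.pi)⁻¹ * (c ^ 2 * (c ^ 2 * (2 * (w.re * h.re + w.im * h.im)) *
        ((1 + c ^ 2 * ‖w‖ ^ 2) ^ 2)⁻¹))) := by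
    intro h
    have hd : DifferentiableAt ℝ (fun w : ℂ => ‖w‖ ^ 2) w :=
      (contDiff_norm_sq ℝ (n := 1)).differentiable one_ne_zero w
    have h1 : HasFDerivAt (fun w : ℂ => 1 + c ^ 2 * ‖w‖ ^ 2)
        (c ^ 2 • fderiv ℝ (fun w : ℂ => ‖w‖ ^ 2) w) w :=
      (hd.hasFDerivAt.const_mul (c ^ 2)).const_add 1
    have h2 := ((((hasDerivAt_inv (hq w)).comp_hasFDerivAt w h1).const_mul (c ^ 2)).const_mul
      ((2 * Real.pi)⁻¹))
    have h3 : fderiv ℝ a w = _ := h2.fderiv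
    rw [h3]
    simp only [smul_apply, smul_eq_mul, hn]
    ring
  have hs : ∀ h k, fderiv ℝ (sgc c) w h k = fderiv ℝ a w h * th w k + a w * th h k := by
    intro h k
    have hd : DifferentiableAt ℝ a w := by
      have : ContDiff ℝ 1 a :=
        contDiff_const.mul (contDiff_const.mul (ContDiff.inv
          (contDiff_const.add (contDiff_const.mul (contDiff_norm_sq ℝ))) fun w => hq w))
      exact this.differentiable one_ne_zero w
    have hth : DifferentiableAt ℝ th w := contDiff_th.differentiable (by simp) w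
    have h1 : fderiv ℝ (fun w => a w • th w) w = a w • fderiv ℝ th w +
        (fderiv ℝ a w).smulRight (th w) := fderiv_fun_smul hd hth
    have h2 : sgc c = fun w => a w • th w := rfl
    rw [h2, h1]
    simp only [add_apply, smul_apply, smul_eq_mul, ContinuousLinearMap.smulRight_apply, fderiv_th]
    ring
  rw [Ch.d1_apply, hs, hs, hda, hda]
  simp only [ha, th_apply, kap]
  rw [norm_smul, mul_pow, Real.norm_eq_abs, sq_abs]
  have h1 := hq w
  have hp := Real.pi_pos.ne'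
  rw [norm_sq_c] at h1 ⊢
  field_simp
  ring

end

end Crest.Agent.R235.Wk_250
end

-- ▼ part R235/WkC_250
section

/-!
Row 235 (S0364), package ADJ, helper250: the angular form of a smooth graph in `E4`.

`graph_core`: `∫ (ψ ∧ dχ) ∧ b = ∫_graph χ b` for `b` closed on the support of the compactly
supported function `χ`, `ψ = (1/2π) d arg (v - g s)`.
-/

set_option autoImplicit false
set_option maxSynthPendingDepth 3

open Set Function Filter MeasureTheory Metric Module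
open scoped ContDiff Topology ENNReal ComplexConjugate

namespace Crest.Agent.R235.Wk_250

open Crest.Agent.R240 Crest.Agent.R240.En

noncomputable section

/-- the defining function of the graph. -/
def wf (g : ℂ → ℂ) (y : E4) : ℂ := vL y - g (sL y)

/-- its differential. -/
def Dw (g : ℂ → ℂ) (y : E4) : E4 →L[ℝ] ℂ := vL - (fderiv ℝ g (sL y)).comp sL

lemma Dw_apply (g : ℂ → ℂ) (y u : E4) : Dw g y u = vL u - fderiv ℝ g (sL y) (sL u) := rfl

lemma hasFDerivAt_wf {g : ℂ → ℂ} {y : E4} (hg : DifferentiableAt ℝ g (sL y)) :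
    HasFDerivAt (wf g) (Dw g y) y :=
  vL.hasFDerivAt.sub (hg.hasFDerivAt.comp y sL.hasFDerivAt)

lemma contDiff_wf {g : ℂ → ℂ} {n : WithTop ℕ∞} (hg : ContDiff ℝ n g) : ContDiff ℝ n (wf g) :=
  vL.contDiff.sub (hg.comp sL.contDiff)

/-- the angular form of the graph. -/
def psi (g : ℂ → ℂ) (y : E4) : Cov := (sg (wf g y)).comp (Dw g y)

/-- the smoothed angular form of the graph. -/
def psic (g : ℂ → ℂ) (c : ℝ) (y : E4) : Cov := (sgc c (wf g y)).comp (Dw g y)

lemma psic_eq (g : ℂ → ℂ) (c : ℝ) (y : E4) : psic g c y = rc c (wf g y) • psi g y := by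
  rw [psic, psi, sgc_eq]; rfl

/-- the tangent vectors of the graph. -/
def t1 (g : ℂ → ℂ) (s : ℂ) : E4 := mk 1 (fderiv ℝ g s 1)
/-- the tangent vectors of the graph. -/
def t2 (g : ℂ → ℂ) (s : ℂ) : E4 := mk Complex.I (fderiv ℝ g s Complex.I)

lemma sL_ee : sL (ee 0) = 1 ∧ sL (ee 1) = Complex.I ∧ sL (ee 2) = 0 ∧ sL (ee 3) = 0 := by
  refine ⟨?_, ?_, ?_, ?_⟩ <;> rw [sL_apply] <;> apply Complex.ext <;> simp

lemma vL_ee : vL (ee 0) = 0 ∧ vL (ee 1) = 0 ∧ vL (ee 2) = 1 ∧ vL (ee 3) = Complex.I := by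
  refine ⟨?_, ?_, ?_, ?_⟩ <;> rw [vL_apply] <;> apply Complex.ext <;> simp

lemma W_graph {b : Bil} (hb : Alt b) (A : ℂ →L[ℝ] ℂ) :
    W b (wed (Complex.reCLM.comp (vL - A.comp sL)) (Complex.imCLM.comp (vL - A.comp sL))) =
      b (mk 1 (A 1)) (mk Complex.I (A Complex.I)) := by
  rw [alt_expand hb]
  simp only [mk_0, mk_1, mk_2, mk_3, W, ent, wed_apply, ContinuousLinearMap.comp_apply,
    sub_apply, sL_ee.1, sL_ee.2.1, sL_ee.2.2.1, sL_ee.2.2.2, vL_ee.1, vL_ee.2.1, vL_ee.2.2.1,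
    vL_ee.2.2.2, map_zero, sub_zero, zero_sub, Complex.reCLM_apply, Complex.imCLM_apply,
    Complex.neg_re, Complex.neg_im, Complex.one_re, Complex.one_im, Complex.I_re, Complex.I_im]
  ring

lemma d1_psic {g : ℂ → ℂ} (hg : ContDiff ℝ ∞ g) (c : ℝ) (y : E4) :
    En.d1 (psic g c) y = (c ^ 2 * kap (c • wf g y)) •
      wed (Complex.reCLM.comp (Dw g y)) (Complex.imCLM.comp (Dw g y)) := by
  have hgd : Differentiable ℝ g := hg.differentiable (by simp)
  have hf : ∀ y, fderiv ℝ (wf g) y = Dw g y := fun y => (hasFDerivAt_wf (hgd _)).fderiv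
  ext u v
  have h1 := Pull_129.d1_pull (s := sgc c) (t := psic g c) (φ := wf g) (y := y)
    (contDiff_wf hg).contDiffAt ((contDiff_sgc c).differentiable (by simp) _)
    (Eventually.of_forall fun z => by rw [hf]; rfl) u v
  have h2 : En.d1 (psic g c) y u v = Ch.d1 (psic g c) y u v := by
    rw [En.d1_apply, Ch.d1_apply]
  rw [h2, h1, d1_sgc, hf]
  simp only [smul_apply, smul_eq_mul, wed_apply, ContinuousLinearMap.comp_apply,
    Complex.reCLM_apply, Complex.imCLM_apply]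

lemma psic_contDiff {g : ℂ → ℂ} (hg : ContDiff ℝ ∞ g) (c : ℝ) : ContDiff ℝ ∞ (psic g c) := by
  unfold psic
  have h1 : ContDiff ℝ ∞ (fun y => Dw g y) := by
    unfold Dw
    refine contDiff_const.sub ?_
    have h2 : ContDiff ℝ ∞ (fderiv ℝ g) := hg.fderiv_right (by simp)
    exact (h2.comp sL.contDiff).clm_comp contDiff_const
  exact ((contDiff_sgc c).comp (contDiff_wf hg)).clm_comp h1

/-! ### integrability of `1/|w|` -/

lemma inv_norm_integrable (R : ℝ) : Integrable (indicator (ball (0 : ℂ) R) fun t => ‖t‖⁻¹) := by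
  have h := (integrable_fun_norm_addHaar (volume : Measure ℂ)
    (f := fun r : ℝ => indicator (Iio R) (fun r => r⁻¹) r)).2 ?_
  · refine h.congr (ae_of_all _ fun t => ?_)
    show indicator (Iio R) (fun r => r⁻¹) ‖t‖ = indicator (ball (0 : ℂ) R) (fun t => ‖t‖⁻¹) t
    by_cases ht : ‖t‖ < R
    · rw [indicator_of_mem (show t ∈ ball (0 : ℂ) R by simpa using ht)]
      exact indicator_of_mem (show ‖t‖ ∈ Iio R from ht) _
    · rw [indicator_of_notMem (show t ∉ ball (0 : ℂ) R by simpa using ht)]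
      exact indicator_of_notMem (show ‖t‖ ∉ Iio R from ht) _
  · rw [Complex.finrank_real_complex]
    have h1 : IntegrableOn (fun _ : ℝ => (1 : ℝ)) (Ioo 0 R) := by simp
    have h2 : IntegrableOn (indicator (Iio R) (fun _ : ℝ => (1 : ℝ))) (Ioi 0) := by
      rw [integrableOn_indicator_iff measurableSet_Iio, inter_comm, Ioi_inter_Iio]
      exact h1
    refine h2.congr_fun (fun r hr => ?_) measurableSet_Ioi
    have hr' : (0 : ℝ) < r := hr
    show indicator (Iio R) (fun _ => (1 : ℝ)) r = r ^ (2 - 1) • indicator (Iio R) (fun r => r⁻¹) r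
    by_cases hr2 : r < R
    · rw [indicator_of_mem (show r ∈ Iio R from hr2), indicator_of_mem (show r ∈ Iio R from hr2)]
      simp only [smul_eq_mul]
      field_simp
      norm_num
    · rw [indicator_of_notMem (show r ∉ Iio R from hr2),
        indicator_of_notMem (show r ∉ Iio R from hr2)]
      simp

lemma norm_th_le (w : ℂ) : ‖th w‖ ≤ ‖w‖ := by
  refine ContinuousLinearMap.opNorm_le_bound _ (norm_nonneg _) fun h => ?_
  have h1 : th w h = ((conj w) * h).im := by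
    rw [th_apply]; simp
    ring
  rw [h1, Real.norm_eq_abs]
  calc |(conj w * h).im| ≤ ‖conj w * h‖ := Complex.abs_im_le_norm _
    _ = ‖w‖ * ‖h‖ := by rw [norm_mul, RCLike.norm_conj]

/-! ### the core theorem -/

section Core

variable {g : ℂ → ℂ} {b : E4 → Bil} {χ : E4 → ℝ}

/-- the continuous factor. -/
def kk (g : ℂ → ℂ) (b : E4 → Bil) (χ : E4 → ℝ) (y : E4) : ℝ :=
  W (wed ((th (wf g y)).comp (Dw g y)) (fderiv ℝ χ y)) (b y)

/-- the integrand. -/
def FF (g : ℂ → ℂ) (b : E4 → Bil) (χ : E4 → ℝ) (y : E4) : ℝ :=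
  W (wed (psi g y) (fderiv ℝ χ y)) (b y)

lemma FF_eq (y : E4) : FF g b χ y = ((2 * Real.pi)⁻¹ * (‖wf g y‖ ^ 2)⁻¹) * kk g b χ y := by
  have h : psi g y = ((2 * Real.pi)⁻¹ * (‖wf g y‖ ^ 2)⁻¹) • (th (wf g y)).comp (Dw g y) := by
    rw [psi, sg]; rfl
  rw [FF, h, wed_smul_left, W_smul_left, kk]

lemma continuous_Dw (hg : ContDiff ℝ 1 g) : Continuous (Dw g) := by
  unfold Dw
  exact continuous_const.sub (((hg.continuous_fderiv one_ne_zero).comp sL.continuous).clm_comp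
    continuous_const)

lemma continuous_wf (hg : ContDiff ℝ 1 g) : Continuous (wf g) := (contDiff_wf hg).continuous

lemma continuous_kk (hg : ContDiff ℝ 1 g) (hb : Continuous b) (hχ : ContDiff ℝ 1 χ) :
    Continuous (kk g b χ) := by
  have h1 : Continuous fun y => (th (wf g y)).comp (Dw g y) :=
    (contDiff_th.continuous.comp (continuous_wf hg)).clm_comp (continuous_Dw hg)
  have h2 : Continuous fun y => fderiv ℝ χ y := hχ.continuous_fderiv one_ne_zero
  have h3 : Continuous fun y => wed ((th (wf g y)).comp (Dw g y)) (fderiv ℝ χ y) := by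
    unfold wed
    fun_prop
  have := Mono.ContOn_W (s := univ) h3.continuousOn hb.continuousOn
  exact continuousOn_univ.1 this

lemma kk_bound (hg : ContDiff ℝ 1 g) (hb : Continuous b) (hχ : ContDiff ℝ 1 χ)
    (hc : HasCompactSupport χ) : ∃ C, 0 ≤ C ∧ ∀ y, |kk g b χ y| ≤ C * ‖wf g y‖ := by
  have h0 : Continuous fun y => ‖Dw g y‖ * ‖fderiv ℝ χ y‖ * ‖b y‖ :=
    ((continuous_Dw hg).norm.mul (hχ.continuous_fderiv one_ne_zero).norm).mul hb.norm
  have h1 : HasCompactSupport fun y => ‖Dw g y‖ * ‖fderiv ℝ χ y‖ * ‖b y‖ := by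
    have h2 := hc.fderiv (𝕜 := ℝ)
    exact (HasCompactSupport.mul_left (h2.norm)).mul_right
  obtain ⟨C, hC⟩ := h1.exists_bound_of_continuous h0
  refine ⟨12 * |C|, by positivity, fun y => ?_⟩
  have h3 := hC y
  have h4 : ‖(th (wf g y)).comp (Dw g y)‖ ≤ ‖wf g y‖ * ‖Dw g y‖ :=
    (ContinuousLinearMap.opNorm_comp_le _ _).trans
      (mul_le_mul_of_nonneg_right (norm_th_le _) (norm_nonneg _))
  have h5 := Mono.abs_W_le (wed ((th (wf g y)).comp (Dw g y)) (fderiv ℝ χ y)) (b y)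
  have h6 := Mono.norm_wed_le1 ((th (wf g y)).comp (Dw g y)) (fderiv ℝ χ y)
  have h7 : ‖Dw g y‖ * ‖fderiv ℝ χ y‖ * ‖b y‖ ≤ |C| := by
    refine le_trans (le_trans (le_abs_self _) ?_) (le_abs_self C)
    simpa using h3
  unfold kk
  calc |W (wed ((th (wf g y)).comp (Dw g y)) (fderiv ℝ χ y)) (b y)|
      ≤ 6 * (‖wed ((th (wf g y)).comp (Dw g y)) (fderiv ℝ χ y)‖ * ‖b y‖) := h5
    _ ≤ 6 * ((2 * ((‖wf g y‖ * ‖Dw g y‖) * ‖fderiv ℝ χ y‖)) * ‖b y‖) := by gcongr; exact h6.trans (by gcongr)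
    _ = 12 * (‖Dw g y‖ * ‖fderiv ℝ χ y‖ * ‖b y‖) * ‖wf g y‖ := by ring
    _ ≤ 12 * |C| * ‖wf g y‖ := by gcongr

lemma measurable_FF (hg : ContDiff ℝ 1 g) (hb : Continuous b) (hχ : ContDiff ℝ 1 χ) :
    Measurable (FF g b χ) := by
  have h : FF g b χ = fun y => ((2 * Real.pi)⁻¹ * (‖wf g y‖ ^ 2)⁻¹) * kk g b χ y :=
    funext fun y => FF_eq y
  rw [h]
  exact (measurable_const.mul (((continuous_wf hg).norm.pow 2).measurable.inv)).mul
    (continuous_kk hg hb hχ).measurable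

lemma wf_T (g : ℂ → ℂ) (p : ℂ × ℂ) : wf g (T g p) = p.2 := by
  rw [wf, sL_T, vL_T]; ring

theorem integrable_FF (hg : ContDiff ℝ 1 g) (hb : Continuous b) (hχ : ContDiff ℝ 1 χ)
    (hc : HasCompactSupport χ) : Integrable (FF g b χ) := by
  obtain ⟨C, hC0, hC⟩ := kk_bound (b := b) hg hb hχ hc
  rw [integrable_T hg.continuous]
  have hK : IsCompact (T g ⁻¹' tsupport χ) :=
    (Th hg.continuous).isCompact_preimage.2 hc
  obtain ⟨R, hR⟩ := hK.isBounded.subset_ball 0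
  have hI : Integrable fun p : ℂ × ℂ => indicator (ball (0 : ℂ) R) (fun _ => (1 : ℝ)) p.1 *
      (((2 * Real.pi)⁻¹ * C) * indicator (ball (0 : ℂ) R) (fun t => ‖t‖⁻¹) p.2) := by
    refine Integrable.mul_prod (f := indicator (ball (0 : ℂ) R) (fun _ => (1 : ℝ)))
      (g := fun t => ((2 * Real.pi)⁻¹ * C) * indicator (ball (0 : ℂ) R) (fun t => ‖t‖⁻¹) t) ?_ ?_
    · rw [integrable_indicator_iff measurableSet_ball]
      exact integrableOn_const measure_ball_lt_top.ne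
    · exact (inv_norm_integrable R).const_mul _
  refine hI.mono' ((measurable_FF hg hb hχ).comp (Th hg.continuous).measurable).aestronglyMeasurable
    (ae_of_all _ fun p => ?_)
  rw [FF_eq, wf_T]
  by_cases hp : T g p ∈ tsupport χ
  · have h1 : p ∈ ball (0 : ℂ × ℂ) R := hR hp
    rw [mem_ball_zero_iff, Prod.norm_def, max_lt_iff] at h1
    rw [indicator_of_mem (show p.1 ∈ ball (0 : ℂ) R by simpa using h1.1),
      indicator_of_mem (show p.2 ∈ ball (0 : ℂ) R by simpa using h1.2), one_mul, Real.norm_eq_abs,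
      abs_mul, abs_of_nonneg (show (0 : ℝ) ≤ (2 * Real.pi)⁻¹ * (‖p.2‖ ^ 2)⁻¹ by positivity)]
    have h2 := hC (T g p)
    rw [wf_T] at h2
    by_cases h0 : p.2 = 0
    · simp [h0]
    have h3 : 0 < ‖p.2‖ := norm_pos_iff.2 h0
    calc (2 * Real.pi)⁻¹ * (‖p.2‖ ^ 2)⁻¹ * |kk g b χ (T g p)|
        ≤ (2 * Real.pi)⁻¹ * (‖p.2‖ ^ 2)⁻¹ * (C * ‖p.2‖) := by gcongr
      _ = (2 * Real.pi)⁻¹ * C * ‖p.2‖⁻¹ := by field_simp
  · have h1 : fderiv ℝ χ (T g p) = 0 := by
      by_contra h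
      exact hp (support_fderiv_subset ℝ h)
    have h2 : kk g b χ (T g p) = 0 := by
      rw [kk, h1]
      simp [W, ent]
    rw [h2, mul_zero, norm_zero]
    exact mul_nonneg (indicator_nonneg (fun _ _ => zero_le_one) _)
      (mul_nonneg (by positivity) (indicator_nonneg (fun _ _ => by positivity) _))

/-- the boundary integrand. -/
def hh (g : ℂ → ℂ) (b : E4 → Bil) (χ : E4 → ℝ) (y : E4) : ℝ :=
  χ y * b y (t1 g (sL y)) (t2 g (sL y))

lemma continuous_hh (hg : ContDiff ℝ 1 g) (hb : Continuous b) (hχ : Continuous χ) :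
    Continuous (hh g b χ) := by
  unfold hh t1 t2
  have h1 : Continuous (fderiv ℝ g) := hg.continuous_fderiv one_ne_zero
  have e : ∀ s v, mk s v = mkL (s, v) := fun s v => (mkL_apply (s, v)).symm
  simp only [e]
  refine hχ.mul ((hb.clm_apply ?_).clm_apply ?_)
  · exact mkL.continuous.comp (continuous_const.prodMk
      ((h1.comp sL.continuous).clm_apply continuous_const))
  · exact mkL.continuous.comp (continuous_const.prodMk
      ((h1.comp sL.continuous).clm_apply continuous_const))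


/-- Stokes for the smoothed angular form. -/
lemma stokes_c (hg : ContDiff ℝ ∞ g) (hb : ContDiff ℝ 1 b) (halt : ∀ x, Alt (b x))
    (hχ : ContDiff ℝ 1 χ) (hc : HasCompactSupport χ) (hcl : ∀ x ∈ tsupport χ, Cl b x) (c : ℝ) :
    ∫ y, rc c (wf g y) * FF g b χ y = ∫ y, (c ^ 2 * kap (c • wf g y)) * hh g b χ y := by
  have hgd : Differentiable ℝ g := hg.differentiable (by simp)
  have hg1 : ContDiff ℝ 1 g := hg.of_le (by exact_mod_cast le_top)
  have hp := psic_contDiff hg c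
  have hp1 : ContDiff ℝ 1 (psic g c) := hp.of_le (by exact_mod_cast le_top)
  have h0 : HasCompactSupport fun y => χ y • psic g c y := hc.mono fun y hy h => hy (by
    show χ y • psic g c y = 0
    rw [h, zero_smul])
  have h1 := stokes hb halt (S := fun y => χ y • psic g c y) (hχ.smul hp1)
    h0 (fun x hx => hcl x (tsupport_smul_subset_left χ _ hx))
  have h2 : ∀ y, W (b y) (En.d1 (fun y => χ y • psic g c y) y) =
      (c ^ 2 * kap (c • wf g y)) * hh g b χ y - rc c (wf g y) * FF g b χ y := by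
    intro y
    rw [En.d1_smul (hχ.differentiable one_ne_zero y) (hp1.differentiable one_ne_zero y),
      W_add_right, d1_psic hg, W_smul_right, W_smul_right]
    have h3 : W (b y) (wed (Complex.reCLM.comp (Dw g y)) (Complex.imCLM.comp (Dw g y))) =
        b y (t1 g (sL y)) (t2 g (sL y)) := W_graph (halt y) (fderiv ℝ g (sL y))
    have h4 : wed (fderiv ℝ χ y) (psic g c y) = - (rc c (wf g y) • wed (psi g y) (fderiv ℝ χ y)) := by
      rw [psic_eq, wed_smul_right]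
      ext u v
      simp only [smul_apply, neg_apply, smul_eq_mul, wed_apply]
      ring
    have h5 : W (b y) (wed (fderiv ℝ χ y) (psic g c y)) = - (rc c (wf g y) * FF g b χ y) := by
      rw [h4, W_comm, ← neg_smul, W_smul_left, FF]
      ring
    rw [h3, h5, hh]
    ring
  simp only [h2] at h1
  have hi1 : Integrable fun y => (c ^ 2 * kap (c • wf g y)) * hh g b χ y := by
    have hcont : Continuous fun y => (c ^ 2 * kap (c • wf g y)) * hh g b χ y :=
      (continuous_const.mul (kap_continuous.comp ((continuous_wf hg1).const_smul c))).mul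
        (continuous_hh hg1 hb.continuous hχ.continuous)
    refine hcont.integrable_of_hasCompactSupport ?_
    refine HasCompactSupport.mul_left (HasCompactSupport.mul_right hc)
  have hi2 : Integrable fun y => rc c (wf g y) * FF g b χ y := by
    have h6 := integrable_FF hg1 hb.continuous hχ hc
    refine h6.bdd_mul (c := 1) ?_ ?_
    · have : Continuous fun y => rc c (wf g y) := by
        unfold rc
        have hw := (continuous_wf hg1).norm
        refine (continuous_const.mul (hw.pow 2)).mul (Continuous.inv₀ ?_ fun y => ?_)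
        · exact continuous_const.add (continuous_const.mul (hw.pow 2))
        · have : (0 : ℝ) < 1 + c ^ 2 * ‖wf g y‖ ^ 2 := by positivity
          exact this.ne'
      exact this.aestronglyMeasurable
    · refine ae_of_all _ fun y => ?_
      rw [Real.norm_eq_abs, abs_of_nonneg (rc_nonneg _ _)]
      exact rc_le_one _ _
  rw [integral_sub hi1 hi2] at h1
  linarith

/-- **the weak equation of a smooth graph** (global version). -/
theorem graph_core (hg : ContDiff ℝ ∞ g) (hb : ContDiff ℝ 1 b) (halt : ∀ x, Alt (b x))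
    (hχ : ContDiff ℝ 1 χ) (hc : HasCompactSupport χ) (hcl : ∀ x ∈ tsupport χ, Cl b x) :
    ∫ y, FF g b χ y = ∫ s, χ (mk s (g s)) * b (mk s (g s)) (t1 g s) (t2 g s) := by
  have hg1 : ContDiff ℝ 1 g := hg.of_le (by exact_mod_cast le_top)
  have hgc := hg1.continuous
  have hF := integrable_FF hg1 hb.continuous hχ hc
  -- left-hand side
  have hL : Tendsto (fun c : ℝ => ∫ y, rc c (wf g y) * FF g b χ y) atTop
      (𝓝 (∫ y, FF g b χ y)) := by
    refine tendsto_integral_filter_of_dominated_convergence (fun y => ‖FF g b χ y‖) ?_ ?_ hF.norm ?_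
    · refine Eventually.of_forall fun c => ?_
      have : Measurable fun y => rc c (wf g y) := by
        unfold rc
        have hw := (continuous_wf hg1).norm.measurable
        exact (measurable_const.mul (hw.pow_const 2)).mul
          (measurable_const.add (measurable_const.mul (hw.pow_const 2))).inv
      exact (this.mul (measurable_FF hg1 hb.continuous hχ)).aestronglyMeasurable
    · refine Eventually.of_forall fun c => ae_of_all _ fun y => ?_
      rw [norm_mul, Real.norm_eq_abs, abs_of_nonneg (rc_nonneg _ _)]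
      exact mul_le_of_le_one_left (norm_nonneg _) (rc_le_one _ _)
    · have h1 : ∀ᵐ y : E4, wf g y ≠ 0 := by
        have h2 : ∀ᵐ p : ℂ × ℂ, p.2 ≠ 0 :=
          (Measure.quasiMeasurePreserving_snd (μ := (volume : Measure ℂ))
            (ν := (volume : Measure ℂ))).ae (by simp [ae_iff] : ∀ᵐ t : ℂ, t ≠ 0)
        have h3 : ∀ᵐ p : ℂ × ℂ, wf g (T g p) ≠ 0 := by
          filter_upwards [h2] with p hp
          rwa [wf_T]
        rw [← (mp_T hgc).map_eq, ae_map_iff (emb_T hgc).measurable.aemeasurable]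
        · exact h3
        · exact (measurableSet_singleton (0 : ℂ)).compl.preimage (continuous_wf hg1).measurable
      filter_upwards [h1] with y hy
      have := (rc_tendsto hy).mul_const (FF g b χ y)
      rwa [one_mul] at this
  -- right-hand side
  have hR : Tendsto (fun c : ℝ => ∫ y, (c ^ 2 * kap (c • wf g y)) * hh g b χ y) atTop
      (𝓝 (∫ s, hh g b χ (T g (s, 0)))) := by
    have hcont : Continuous fun p : ℂ × ℂ => hh g b χ (T g p) :=
      (continuous_hh hg1 hb.continuous hχ.continuous).comp (Th hgc).continuous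
    have hcs : HasCompactSupport fun p : ℂ × ℂ => hh g b χ (T g p) := by
      have h1 : HasCompactSupport fun p : ℂ × ℂ => χ (T g p) :=
        hc.comp_isClosedEmbedding (Th hgc).isClosedEmbedding
      exact HasCompactSupport.mul_right h1
    have hint : Integrable fun p : ℂ × ℂ => hh g b χ (T g p) :=
      hcont.integrable_of_hasCompactSupport hcs
    set H : ℂ → ℝ := fun t => ∫ s, hh g b χ (T g (s, t)) with hH
    have hHi : Integrable H := hint.integral_prod_right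
    have hHc : Continuous H := by
      obtain ⟨R, hR⟩ := hcs.isCompact.isBounded.subset_closedBall 0
      have h2 := continuous_parametric_integral_of_continuous
        (f := fun t s : ℂ => hh g b χ (T g (s, t))) (μ := volume)
        (hcont.comp continuous_swap) (isCompact_closedBall (0 : ℂ) R)
      have h3 : H = fun t => ∫ s in closedBall (0 : ℂ) R, hh g b χ (T g (s, t)) := by
        funext t
        rw [hH]
        refine (setIntegral_eq_integral_of_forall_compl_eq_zero fun s hs => ?_).symm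
        by_contra hne
        apply hs
        have h4 : (s, t) ∈ closedBall (0 : ℂ × ℂ) R :=
          hR (subset_tsupport _ (mem_support.2 hne))
        rw [mem_closedBall_zero_iff, Prod.norm_def, max_le_iff] at h4
        simpa using h4.1
      rw [h3]
      exact h2
    have h5 := kap_tendsto hHi hHc.continuousAt
    refine h5.congr fun c => ?_
    rw [← integral_T hgc]
    have h6 : ∀ p, (c ^ 2 * kap (c • wf g (T g p))) * hh g b χ (T g p) =
        (c ^ 2 * kap (c • p.2)) * hh g b χ (T g p) := fun p => by rw [wf_T]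
    simp only [h6]
    have h7 : Integrable fun p : ℂ × ℂ => (c ^ 2 * kap (c • p.2)) * hh g b χ (T g p) := by
      have hcont2 : Continuous fun p : ℂ × ℂ => (c ^ 2 * kap (c • p.2)) * hh g b χ (T g p) :=
        (continuous_const.mul (kap_continuous.comp (continuous_snd.const_smul c))).mul hcont
      exact hcont2.integrable_of_hasCompactSupport (HasCompactSupport.mul_left hcs)
    rw [show (∫ p : ℂ × ℂ, (c ^ 2 * kap (c • p.2)) * hh g b χ (T g p)) =
      ∫ t : ℂ, ∫ s : ℂ, (c ^ 2 * kap (c • t)) * hh g b χ (T g (s, t)) from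
        integral_prod_symm _ h7]
    refine integral_congr_ae (ae_of_all _ fun t => ?_)
    show (c ^ 2 * kap (c • t)) * H t = _
    rw [hH, ← integral_const_mul]
  have hE := tendsto_nhds_unique hL (hR.congr fun c => (stokes_c hg hb halt hχ hc hcl c).symm)
  rw [hE]
  refine integral_congr_ae (ae_of_all _ fun s => ?_)
  show χ (T g (s, 0)) * b (T g (s, 0)) (t1 g (sL (T g (s, 0)))) (t2 g (sL (T g (s, 0)))) = _
  rw [sL_T]
  simp [T]

end Core

end

end Crest.Agent.R235.Wk_250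
end

-- ▼ part R235/WkD_250
section

/-!
Row 235 (S0364), package ADJ, helper250: the area formula for the `m`-fold covering
`(s, v) ↦ (f s, v)`, `f = e ^ m`.
-/

set_option autoImplicit false
set_option maxSynthPendingDepth 3

open Set Function Filter MeasureTheory Metric Module
open scoped ContDiff Topology ENNReal ComplexConjugate

namespace Crest.Agent.R235.Wk_250

open Crest.Agent.R240 Crest.Agent.R240.En Crest.Agent.R235.RootProd_266

noncomputable section

section Area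

variable {m : ℕ} {f : ℂ → ℂ} {e : OpenPartialHomeomorph ℂ ℂ} {ρ : ℝ}

/-- the sectors upstairs. -/
def secU (e : OpenPartialHomeomorph ℂ ℂ) (m j : ℕ) : Set ℂ := e.source ∩ e ⁻¹' (e.target ∩ sec m j)

lemma measurableSet_secU (e : OpenPartialHomeomorph ℂ ℂ) (m j : ℕ) :
    MeasurableSet (secU e m j) := by
  rw [secU, ← e.symm_image_target_inter_eq]
  exact (e.open_target.measurableSet.inter (measurableSet_sec m j)).image_of_continuousOn_injOn
    (e.continuousOn_symm.mono inter_subset_left) (e.symm.injOn.mono inter_subset_left)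

lemma secU_sub (e : OpenPartialHomeomorph ℂ ℂ) (m j : ℕ) : secU e m j ⊆ e.source :=
  inter_subset_left

lemma injOn_secU (hpow : ∀ s ∈ e.source, e s ^ m = f s) (j : ℕ) : InjOn f (secU e m j) := by
  intro s hs s' hs' h
  have h1 : e s ^ m = e s' ^ m := by rw [hpow s hs.1, hpow s' hs'.1, h]
  exact e.injOn hs.1 hs'.1 (injOn_sec hs.2.2 hs'.2.2 h1)

lemma image_secU (hm : m ≠ 0) (hρ : 0 < ρ) (htgt : e.target = ball 0 ρ)
    (hpow : ∀ s ∈ e.source, e s ^ m = f s) (j : ℕ) :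
    f '' (secU e m j) = ball 0 (ρ ^ m) \ {0} := by
  ext ζ
  constructor
  · rintro ⟨s, ⟨hs, ht, h0, -⟩, rfl⟩
    rw [← hpow s hs]
    refine ⟨?_, pow_ne_zero _ h0⟩
    rw [htgt, mem_ball_zero_iff] at ht
    rw [mem_ball_zero_iff, norm_pow]
    exact pow_lt_pow_left₀ ht (norm_nonneg _) hm
  · rintro ⟨hζ, h0⟩
    have h0' : ζ ≠ 0 := h0
    have e1 : (xi m ^ j * b1 m ζ) ^ m = ζ := by
      rw [mul_pow, xi_pow_pow hm, one_mul, b1_pow hm]
    have h2 : xi m ^ j * b1 m ζ ∈ e.target := by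
      rw [htgt, mem_ball_zero_iff]
      rw [mem_ball_zero_iff, ← e1, norm_pow] at hζ
      exact lt_of_pow_lt_pow_left₀ m hρ.le hζ
    have h3 := e.right_inv h2
    refine ⟨e.symm (xi m ^ j * b1 m ζ), ⟨e.map_target h2, ?_, ?_, ?_⟩, ?_⟩
    · rw [h3]; exact h2
    · rw [h3]; exact mul_ne_zero (xi_pow_ne hm j) (b1_ne hm h0')
    · rw [h3, e1]
    · rw [← hpow _ (e.map_target h2), h3, e1]

lemma secU_disj (hm : m ≠ 0) {i j : ℕ} (hi : i < m) (hj : j < m) (hij : i ≠ j) :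
    Disjoint (secU e m i) (secU e m j) := by
  rw [Set.disjoint_left]
  intro s hs hs'
  exact Set.disjoint_left.1 (sec_disj hm hi hj hij) hs.2.2 hs'.2.2

lemma secU_cover (hm : m ≠ 0) (h0 : (0 : ℂ) ∈ e.source) (he0 : e 0 = 0) :
    e.source \ {0} = ⋃ j ∈ Finset.range m, secU e m j := by
  ext s
  simp only [mem_iUnion, Finset.mem_range, exists_prop]
  constructor
  · rintro ⟨hs, hs0⟩
    have h1 : e s ≠ 0 := by
      intro h
      exact hs0 (e.injOn hs h0 (h.trans he0.symm))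
    obtain ⟨j, hj, h2⟩ := sec_cover hm h1
    exact ⟨j, hj, hs, e.map_source hs, h2⟩
  · rintro ⟨j, hj, hs, h2⟩
    refine ⟨hs, ?_⟩
    rintro rfl
    exact h2.2.1 he0

lemma det_prod_id (A : ℂ →L[ℝ] ℂ) :
    (A.prodMap (ContinuousLinearMap.id ℝ ℂ)).det = A.det := by
  have h : ((A.prodMap (ContinuousLinearMap.id ℝ ℂ) : ℂ × ℂ →L[ℝ] ℂ × ℂ) : ℂ × ℂ →ₗ[ℝ] ℂ × ℂ) =
      LinearMap.prodMap (A : ℂ →ₗ[ℝ] ℂ) (LinearMap.id) := rfl
  unfold ContinuousLinearMap.det
  rw [h, LinearMap.det_prodMap, LinearMap.det_id, mul_one]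

lemma prod_ae_ne_zero (S : Set ℂ) :
    ((S \ {0}) ×ˢ univ : Set (ℂ × ℂ)) =ᵐ[volume] S ×ˢ univ :=
  Measure.set_prod_ae_eq (ae_ne_zero S) (ae_eq_refl _)

/-- **area formula** for `(s, v) ↦ (f s, v)`, `f = e ^ m`. -/
theorem area (hm : m ≠ 0) (hρ : 0 < ρ) (htgt : e.target = ball 0 ρ) (h0 : (0 : ℂ) ∈ e.source)
    (he0 : e 0 = 0) (hpow : ∀ s ∈ e.source, e s ^ m = f s)
    (hd : ∀ s ∈ e.source, DifferentiableAt ℝ f s) {G : ℂ → ℂ × ℂ → ℝ}
    (hI : IntegrableOn (fun p : ℂ × ℂ => |(fderiv ℝ f p.1).det| • G (e p.1) (f p.1, p.2))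
      (e.source ×ˢ univ)) :
    IntegrableOn (fun p : ℂ × ℂ => rs m (fun w => G w p) p.1) (ball 0 (ρ ^ m) ×ˢ univ) ∧
      ∫ p in ball (0 : ℂ) (ρ ^ m) ×ˢ univ, rs m (fun w => G w p) p.1 =
        ∫ p in e.source ×ˢ univ, |(fderiv ℝ f p.1).det| • G (e p.1) (f p.1, p.2) := by
  have : (volume : Measure (ℂ × ℂ)).IsAddHaarMeasure :=
    Measure.prod.instIsAddHaarMeasure (volume : Measure ℂ) (volume : Measure ℂ)
  have key : ∀ j < m,
      IntegrableOn (fun p : ℂ × ℂ => G (xi m ^ j * b1 m p.1) p) (ball 0 (ρ ^ m) ×ˢ univ) ∧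
      ∫ p in ball (0 : ℂ) (ρ ^ m) ×ˢ univ, G (xi m ^ j * b1 m p.1) p =
        ∫ p in secU e m j ×ˢ univ, |(fderiv ℝ f p.1).det| • G (e p.1) (f p.1, p.2) := by
    intro j hj
    have hms : MeasurableSet (secU e m j ×ˢ (univ : Set ℂ)) :=
      (measurableSet_secU e m j).prod MeasurableSet.univ
    have hd' : ∀ x ∈ secU e m j ×ˢ (univ : Set ℂ), HasFDerivWithinAt
        (fun p : ℂ × ℂ => (f p.1, p.2))
        ((fderiv ℝ f x.1).prodMap (ContinuousLinearMap.id ℝ ℂ)) (secU e m j ×ˢ univ) x := by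
      intro x hx
      have h1 : HasFDerivAt f (fderiv ℝ f x.1) x.1 := (hd x.1 hx.1.1).hasFDerivAt
      have h2 : HasFDerivAt (Prod.map f id)
          ((fderiv ℝ f x.1).prodMap (ContinuousLinearMap.id ℝ ℂ)) x :=
        HasFDerivAt.prodMap x h1 (hasFDerivAt_id x.2)
      exact h2.hasFDerivWithinAt
    have hi : InjOn (fun p : ℂ × ℂ => (f p.1, p.2)) (secU e m j ×ˢ univ) := by
      rintro ⟨s, v⟩ ⟨hs, -⟩ ⟨s', v'⟩ ⟨hs', -⟩ h
      simp only [Prod.mk.injEq] at h
      have h3 : s = s' := injOn_secU hpow j hs hs' h.1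
      rw [h3, h.2]
    have himg : (fun p : ℂ × ℂ => (f p.1, p.2)) '' (secU e m j ×ˢ univ) =
        (ball 0 (ρ ^ m) \ {0}) ×ˢ univ := by
      rw [← image_secU hm hρ htgt hpow j]
      ext ⟨ζ, v⟩
      constructor
      · rintro ⟨⟨s, v'⟩, ⟨hs, -⟩, h⟩
        simp only [Prod.mk.injEq] at h
        exact ⟨⟨s, hs, h.1⟩, trivial⟩
      · rintro ⟨⟨s, hs, h⟩, -⟩
        exact ⟨(s, v), ⟨hs, trivial⟩, by simpa using h⟩
    have hc : ∀ p ∈ secU e m j ×ˢ (univ : Set ℂ),
        |((fderiv ℝ f p.1).prodMap (ContinuousLinearMap.id ℝ ℂ)).det| •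
          G (xi m ^ j * b1 m (f p.1)) (f p.1, p.2) =
        |(fderiv ℝ f p.1).det| • G (e p.1) (f p.1, p.2) := by
      rintro ⟨s, v⟩ ⟨hs, -⟩
      have h1 : e s = xi m ^ j * b1 m (f s) := by
        rw [← hpow s hs.1]; exact hs.2.2.2
      show |((fderiv ℝ f s).prodMap (ContinuousLinearMap.id ℝ ℂ)).det| •
          G (xi m ^ j * b1 m (f s)) (f s, v) = |(fderiv ℝ f s).det| • G (e s) (f s, v)
      rw [det_prod_id, ← h1]
    have h1 := integrableOn_image_iff_integrableOn_abs_det_fderiv_smul volume hms hd' hi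
      (fun p => G (xi m ^ j * b1 m p.1) p)
    have h2 := integral_image_eq_integral_abs_det_fderiv_smul volume hms hd' hi
      (fun p => G (xi m ^ j * b1 m p.1) p)
    rw [himg] at h1 h2
    rw [setIntegral_congr_set (prod_ae_ne_zero _)] at h2
    rw [integrableOn_congr_set_ae (prod_ae_ne_zero _)] at h1
    constructor
    · rw [h1]
      refine (integrableOn_congr_fun (fun w hw => ?_) hms).2
        (hI.mono_set (prod_mono (secU_sub e m j) le_rfl))
      exact hc w hw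
    · rw [h2]
      exact setIntegral_congr_fun hms fun w hw => hc w hw
  have hfun : (fun p : ℂ × ℂ => rs m (fun w => G w p) p.1) =
      fun p => ∑ j ∈ Finset.range m, G (xi m ^ j * b1 m p.1) p :=
    funext fun p => rs_b1 hm (fun w => G w p) p.1
  rw [hfun]
  refine ⟨integrable_finsetSum _ fun j hj => (key j (Finset.mem_range.1 hj)).1, ?_⟩
  rw [integral_finsetSum _ fun j hj => (key j (Finset.mem_range.1 hj)).1]
  rw [Finset.sum_congr rfl fun j hj => (key j (Finset.mem_range.1 hj)).2]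
  have hun : ((e.source \ {0}) ×ˢ univ : Set (ℂ × ℂ)) =
      ⋃ j ∈ Finset.range m, (secU e m j ×ˢ univ) := by
    rw [secU_cover hm h0 he0]
    ext p
    simp
  rw [← setIntegral_congr_set (prod_ae_ne_zero e.source), hun, integral_biUnion_finset]
  · intro j _
    exact (measurableSet_secU e m j).prod MeasurableSet.univ
  · intro i hi j hj hij
    exact Set.disjoint_prod.2 (Or.inl (secU_disj hm (by simpa using hi) (by simpa using hj) hij))
  · intro j _
    exact hI.mono_set (prod_mono (secU_sub e m j) le_rfl)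

end Area

/-! ### cut-offs -/

section Cut

variable {E : Type*} [NormedAddCommGroup E] [NormedSpace ℝ E] [FiniteDimensional ℝ E]

lemma exists_cut {K U : Set E} (hK : IsCompact K) (hU : IsOpen U) (h : K ⊆ U) :
    ∃ (κ : E → ℝ) (K' : Set E), ContDiff ℝ ∞ κ ∧ IsCompact K' ∧ K' ⊆ U ∧
      (∀ x ∈ K, ∀ᶠ y in 𝓝 x, κ y = 1) ∧ ∀ x ∉ K', κ x = 0 := by
  obtain ⟨K', hK', hKK', hKU⟩ := exists_compact_between hK hU h
  obtain ⟨f, hf1, hf0, -⟩ := exists_contMDiffMap_one_nhds_of_subset_interior (n := (⊤ : ℕ∞))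
    (modelWithCornersSelf ℝ E) hK.isClosed hKK'
  exact ⟨f, K', f.contMDiff.contDiff, hK', hKU, fun x hx =>
    hf1.filter_mono (nhds_le_nhdsSet hx), hf0⟩

variable {F : Type*} [NormedAddCommGroup F] [NormedSpace ℝ F]

omit [FiniteDimensional ℝ E] in
lemma cut_smooth {κ : E → ℝ} {K' U : Set E} {g : E → F} {n : ℕ∞} (hκ : ContDiff ℝ ∞ κ)
    (hK' : IsCompact K') (hU : IsOpen U) (hKU : K' ⊆ U) (h0 : ∀ x ∉ K', κ x = 0)
    (hg : ContDiffOn ℝ n g U) : ContDiff ℝ n fun x => κ x • g x := by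
  rw [contDiff_iff_contDiffAt]
  intro x
  by_cases hx : x ∈ U
  · exact (hκ.of_le (by exact_mod_cast le_top)).contDiffAt.smul (hg.contDiffAt (hU.mem_nhds hx))
  · have hxK : K'ᶜ ∈ 𝓝 x := hK'.isClosed.isOpen_compl.mem_nhds (fun h => hx (hKU h))
    refine (contDiffAt_const (c := (0 : F))).congr_of_eventuallyEq ?_
    filter_upwards [hxK] with y hy
    simp [h0 y hy]

end Cut

lemma FF_congr {g g' : ℂ → ℂ} {b b' : E4 → Bil} {χ : E4 → ℝ} {y : E4}
    (h : y ∈ tsupport χ → g =ᶠ[𝓝 (sL y)] g') (hb : y ∈ tsupport χ → b y = b' y) :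
    FF g b χ y = FF g' b' χ y := by
  by_cases hy : y ∈ tsupport χ
  · have h1 : g (sL y) = g' (sL y) := (h hy).self_of_nhds
    have h2 : fderiv ℝ g (sL y) = fderiv ℝ g' (sL y) := (h hy).fderiv_eq
    rw [FF, FF, psi, psi, wf, wf, Dw, Dw, h1, h2, hb hy]
  · have h1 : fderiv ℝ χ y = 0 := by
      by_contra h
      exact hy (support_fderiv_subset ℝ h)
    rw [FF, FF, h1]
    simp [W, ent]

lemma hh_congr {g g' : ℂ → ℂ} {b b' : E4 → Bil} {χ : E4 → ℝ} {y : E4}
    (h : y ∈ tsupport χ → g =ᶠ[𝓝 (sL y)] g') (hb : y ∈ tsupport χ → b y = b' y) :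
    hh g b χ y = hh g' b' χ y := by
  by_cases hy : y ∈ tsupport χ
  · have h2 : fderiv ℝ g (sL y) = fderiv ℝ g' (sL y) := (h hy).fderiv_eq
    rw [hh, hh, t1, t1, t2, t2, h2, hb hy]
  · rw [hh, hh, image_eq_zero_of_notMem_tsupport hy, zero_mul, zero_mul]

/-- **the weak equation of a smooth graph** (local version). -/
theorem graph_loc {O : Set E4} (hO : IsOpen O) {Og : Set ℂ} (hOg : IsOpen Og) {g : ℂ → ℂ}
    (hg : ContDiffOn ℝ ∞ g Og) (hOO : ∀ y ∈ O, sL y ∈ Og) {b : E4 → Bil}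
    (hb : ContDiffOn ℝ 1 b O) (halt : ∀ y ∈ O, Alt (b y)) (hcl : ∀ y ∈ O, Cl b y) {χ : E4 → ℝ}
    (hχ : ContDiff ℝ 1 χ) (hc : HasCompactSupport χ) (hsub : tsupport χ ⊆ O) :
    Integrable (FF g b χ) ∧ ∫ y, FF g b χ y = ∫ s, hh g b χ (mk s (g s)) := by
  have hKg : IsCompact (sL '' tsupport χ) := hc.isCompact.image sL.continuous
  have hKgO : sL '' tsupport χ ⊆ Og := by
    rintro _ ⟨y, hy, rfl⟩
    exact hOO y (hsub hy)
  obtain ⟨κ, K1, hκ, hK1, hK1O, hκ1, hκ0⟩ := exists_cut hKg hOg hKgO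
  obtain ⟨μ, K2, hμ, hK2, hK2O, hμ1, hμ0⟩ := exists_cut hc.isCompact hO hsub
  set g' : ℂ → ℂ := fun s => κ s • g s with hg'
  set b' : E4 → Bil := fun y => μ y • b y with hb'
  have hgs : ContDiff ℝ ∞ g' := cut_smooth (n := (⊤ : ℕ∞)) hκ hK1 hOg hK1O hκ0 hg
  have hbs : ContDiff ℝ 1 b' := cut_smooth (n := 1) hμ hK2 hO hK2O hμ0 hb
  have hbalt : ∀ y, Alt (b' y) := by
    intro y v
    by_cases hy : y ∈ O
    · simp [hb', halt y hy v]
    · simp [hb', hμ0 y (fun h => hy (hK2O h))]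
  have ebn : ∀ y ∈ tsupport χ, b' =ᶠ[𝓝 y] b := by
    intro y hy
    filter_upwards [hμ1 y hy] with x hx
    simp [hb', hx]
  have egn : ∀ y ∈ tsupport χ, g =ᶠ[𝓝 (sL y)] g' := by
    intro y hy
    filter_upwards [hκ1 (sL y) ⟨y, hy, rfl⟩] with x hx
    simp [hg', hx]
  have hbcl : ∀ y ∈ tsupport χ, Cl b' y := by
    intro y hy
    have := hcl y (hsub hy)
    unfold Cl at this ⊢
    rw [(ebn y hy).fderiv_eq]
    exact this
  have e1 : FF g b χ = FF g' b' χ := funext fun y =>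
    FF_congr (egn y) fun hy => ((ebn y hy).self_of_nhds).symm
  have hg1 : ContDiff ℝ 1 g' := hgs.of_le (by exact_mod_cast le_top)
  rw [e1]
  refine ⟨integrable_FF hg1 hbs.continuous hχ hc, ?_⟩
  rw [graph_core hgs hbs hbalt hχ hc hbcl]
  refine integral_congr_ae (ae_of_all _ fun s => ?_)
  show χ (mk s (g' s)) * b' (mk s (g' s)) (t1 g' s) (t2 g' s) = hh g b χ (mk s (g s))
  have e2 : χ (mk s (g' s)) * b' (mk s (g' s)) (t1 g' s) (t2 g' s) = hh g' b' χ (mk s (g' s)) := by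
    rw [hh, sL_mk]
  rw [e2]
  by_cases h1 : s ∈ sL '' tsupport χ
  · obtain ⟨y, hy, rfl⟩ := h1
    have h2 : g (sL y) = g' (sL y) := (egn y hy).self_of_nhds
    rw [← h2]
    refine (hh_congr (fun _ => ?_) fun h3 => ((ebn _ h3).self_of_nhds).symm).symm
    rw [sL_mk]
    exact egn y hy
  · have h2 : ∀ v, χ (mk s v) = 0 := by
      intro v
      by_contra h
      exact h1 ⟨mk s v, subset_tsupport _ h, by simp⟩
    rw [hh, hh, h2, h2, zero_mul, zero_mul]

end

end Crest.Agent.R235.Wk_250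
end

-- ▼ part R235/WkE_250
section

/-!
Row 235 (S0364), package ADJ, helper250: the weak equation of one branch in `E4`.
-/

set_option autoImplicit false
set_option maxSynthPendingDepth 3

open Set Function Filter MeasureTheory Metric Module
open scoped ContDiff Topology ENNReal ComplexConjugate

namespace Crest.Agent.R235.Wk_250

open Crest.Agent.R240 Crest.Agent.R240.En Crest.Agent.R235.RootProd_266

noncomputable section

/-! ### closedness -/

lemma alt_fderiv {b : E4 → Bil} {y : E4} (hb : DifferentiableAt ℝ b y)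
    (halt : ∀ᶠ z in 𝓝 y, Alt (b z)) (u : E4) : Alt (fderiv ℝ b y u) := by
  intro v
  have h1 : fderiv ℝ (fun z => b z v v) y u = fderiv ℝ b y u v v := by
    have h2 : DifferentiableAt ℝ (fun z => b z v) y := hb.clm_apply (differentiableAt_const v)
    rw [fderiv_clm_apply h2 (differentiableAt_const v),
      fderiv_clm_apply hb (differentiableAt_const v)]
    simp
  have h3 : (fun z => b z v v) =ᶠ[𝓝 y] fun _ => 0 := halt.mono fun z hz => hz v
  rw [← h1, h3.fderiv_eq]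
  simp

lemma cl_iff_dd {b : E4 → Bil} {y : E4} (hb : DifferentiableAt ℝ b y)
    (halt : ∀ᶠ z in 𝓝 y, Alt (b z)) : Cl b y ↔ ∀ u v w, Ch.dd b y u v w = 0 := by
  have h : ∀ u v w, Ch.dd b y u v w =
      fderiv ℝ b y u v w + fderiv ℝ b y v w u + fderiv ℝ b y w u v := by
    intro u v w
    rw [Ch.dd, (alt_fderiv hb halt v).swap u w]
    ring
  constructor
  · intro h1 u v w
    rw [h, h1 u v w]
  · intro h1 u v w
    rw [← h, h1 u v w]

/-! ### the map `P` -/

/-- linear model of `P`. -/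
def PL (A : ℂ →L[ℝ] ℂ) : E4 →L[ℝ] E4 := mkL.comp ((A.comp sL).prod vL)

lemma PL_eq (A : ℂ →L[ℝ] ℂ) : PL A =
    (mkL.comp (ContinuousLinearMap.inl ℝ ℂ ℂ)).comp (A.comp sL) +
      (mkL.comp (ContinuousLinearMap.inr ℝ ℂ ℂ)).comp vL := by
  ext1 u
  simp only [PL, ContinuousLinearMap.comp_apply, add_apply, ContinuousLinearMap.inl_apply,
    ContinuousLinearMap.inr_apply, ContinuousLinearMap.prod_apply, ← map_add, Prod.mk_add_mk,
    add_zero, zero_add]

lemma PL_apply (A : ℂ →L[ℝ] ℂ) (u : E4) : PL A u = mk (A (sL u)) (vL u) := by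
  rw [PL, ContinuousLinearMap.comp_apply, mkL_apply]; rfl

lemma det_PL (A : ℂ →L[ℝ] ℂ) : LinearMap.det (PL A : E4 →ₗ[ℝ] E4) = A.det := by
  have h : (PL A : E4 →ₗ[ℝ] E4) = (mkE.toLinearEquiv : (ℂ × ℂ) →ₗ[ℝ] E4) ∘ₗ
      (LinearMap.prodMap (A : ℂ →ₗ[ℝ] ℂ) LinearMap.id) ∘ₗ
      (mkE.toLinearEquiv.symm : E4 →ₗ[ℝ] (ℂ × ℂ)) := by
    ext1 u
    simp only [LinearMap.comp_apply]
    show PL A u = mkE ((LinearMap.prodMap (A : ℂ →ₗ[ℝ] ℂ) LinearMap.id) (mkE.symm u))
    rw [PL_apply, mkE_symm_apply, mkE_apply]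
    rfl
  rw [h, LinearMap.det_conj, LinearMap.det_prodMap, LinearMap.det_id, mul_one]

/-- the map `(s, v) ↦ (f s, v)`. -/
def PP (f : ℂ → ℂ) (y : E4) : E4 := mk (f (sL y)) (vL y)

lemma PP_eq (f : ℂ → ℂ) : PP f = fun y => mkL (f (sL y), vL y) := by
  funext y; rw [mkL_apply]; rfl

lemma hasFDerivAt_PP {f : ℂ → ℂ} {y : E4} (hf : DifferentiableAt ℝ f (sL y)) :
    HasFDerivAt (PP f) (PL (fderiv ℝ f (sL y))) y := by
  rw [PP_eq]
  exact mkL.hasFDerivAt.comp y ((hf.hasFDerivAt.comp y sL.hasFDerivAt).prodMk vL.hasFDerivAt)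

lemma contDiffAt_PP {f : ℂ → ℂ} {y : E4} {n : WithTop ℕ∞} (hf : ContDiffAt ℝ n f (sL y)) :
    ContDiffAt ℝ n (PP f) y := by
  rw [PP_eq]
  exact mkL.contDiff.contDiffAt.comp y
    ((hf.comp y sL.contDiff.contDiffAt).prodMk vL.contDiff.contDiffAt)

lemma pull_wed' (A : E4 →L[ℝ] E4) (ξ η : Cov) : pull A (wed ξ η) = wed (ξ.comp A) (η.comp A) := by
  ext u v
  simp

/-! ### the sheets -/

lemma sg_apply (w h : ℂ) : sg w h = (2 * Real.pi)⁻¹ * (w⁻¹ * h).im := by
  rw [sg, smul_apply, th_apply, smul_eq_mul, Complex.inv_def, mul_assoc]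
  congr 1
  rw [← Complex.normSq_eq_norm_sq]
  simp
  ring

/-- the angular form of one sheet. -/
def om (Z : ℂ → ℂ) (m : ℕ) (w : ℂ) (y : E4) : Cov :=
  (2 * Real.pi)⁻¹ • Complex.imCLM.comp
    (((vL y - Z w)⁻¹ • dsh m Z (sL y) w).comp (sL.prod vL))

lemma om_apply (Z : ℂ → ℂ) (m : ℕ) (w : ℂ) (y u : E4) : om Z m w y u =
    (2 * Real.pi)⁻¹ * ((vL y - Z w)⁻¹ * (vL u - fderiv ℝ Z w (w / (m * sL y) * sL u))).im := by
  simp [om, dsh_apply]

/-- the angular form of a branch. -/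
def OM (Z : ℂ → ℂ) (m : ℕ) (y : E4) : Cov := rs m (fun w => om Z m w y) (sL y)

/-- the data of a branch `s ↦ (f s, z s)`, `f = e ^ m`. -/
structure Br (f z : ℂ → ℂ) (m : ℕ) (e : OpenPartialHomeomorph ℂ ℂ) (ρ : ℝ) : Prop where
  mkBr ::
  hm : m ≠ 0
  ρ0 : 0 < ρ
  tgt : e.target = ball 0 ρ
  src : (0 : ℂ) ∈ e.source
  zero : e 0 = 0
  pow : ∀ s ∈ e.source, e s ^ m = f s
  smf : ContDiffOn ℝ ∞ f e.source
  smz : ContDiffOn ℝ ∞ z e.source
  de : ∀ s ∈ e.source, DifferentiableAt ℝ e s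
  des : ∀ w ∈ ball (0 : ℂ) ρ, DifferentiableAt ℝ e.symm w
  det : ∀ s ∈ e.source, 0 ≤ (fderiv ℝ f s).det

section Branch

variable {f z : ℂ → ℂ} {m : ℕ} {e : OpenPartialHomeomorph ℂ ℂ} {ρ : ℝ}

lemma Br.diff_f (B : Br f z m e ρ) {s : ℂ} (hs : s ∈ e.source) : DifferentiableAt ℝ f s :=
  (B.smf.contDiffAt (e.open_source.mem_nhds hs)).differentiableAt (by simp)

lemma Br.diff_z (B : Br f z m e ρ) {s : ℂ} (hs : s ∈ e.source) : DifferentiableAt ℝ z s :=
  (B.smz.contDiffAt (e.open_source.mem_nhds hs)).differentiableAt (by simp)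

lemma Br.ne (B : Br f z m e ρ) {s : ℂ} (hs : s ∈ e.source) (h0 : s ≠ 0) : e s ≠ 0 := by
  intro h
  exact h0 (e.injOn hs B.src (h.trans B.zero.symm))

lemma Br.de_eq (B : Br f z m e ρ) {s : ℂ} (hs : s ∈ e.source) (h0 : s ≠ 0) (h : ℂ) :
    e s / (m * f s) * fderiv ℝ f s h = fderiv ℝ e s h := by
  have hne := B.ne hs h0
  have h1 : (fun x => e x ^ m) =ᶠ[𝓝 s] f := by
    filter_upwards [e.open_source.mem_nhds hs] with x hx using B.pow x hx
  have h2 : HasFDerivAt (fun x => e x ^ m) ((m * e s ^ (m - 1) : ℂ) • fderiv ℝ e s) s := by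
    have := (hasFDerivAt_pow_real m (e s)).comp s (B.de s hs).hasFDerivAt
    refine this.congr_fderiv ?_
    ext k
    simp
  have h3 : fderiv ℝ f s = (m * e s ^ (m - 1) : ℂ) • fderiv ℝ e s := by
    rw [← h1.fderiv_eq, h2.fderiv]
  rw [h3, ← B.pow s hs]
  have hm : (m : ℂ) ≠ 0 := by exact_mod_cast B.hm
  have h4 : e s ^ m = e s ^ (m - 1) * e s := by
    rw [← pow_succ, Nat.sub_add_cancel (Nat.one_le_iff_ne_zero.2 B.hm)]
  rw [h4]
  have h5 : e s ^ (m - 1) ≠ 0 := pow_ne_zero _ hne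
  show e s / (m * (e s ^ (m - 1) * e s)) * ((m * e s ^ (m - 1) : ℂ) * fderiv ℝ e s h) = _
  field_simp

/-- the pull-back of the angular form of a sheet is the angular form of the graph of `z`. -/
lemma Br.om_pull (B : Br f z m e ρ) {y : E4} (hs : sL y ∈ e.source) (h0 : sL y ≠ 0) :
    (om (fun w => z (e.symm w)) m (e (sL y)) (PP f y)).comp (PL (fderiv ℝ f (sL y))) =
      psi z y := by
  ext u
  have hw : e (sL y) ∈ ball (0 : ℂ) ρ := by rw [← B.tgt]; exact e.map_source hs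
  have h1 : fderiv ℝ (fun w => z (e.symm w)) (e (sL y)) =
      (fderiv ℝ z (sL y)).comp (fderiv ℝ e.symm (e (sL y))) := by
    have h2 : HasFDerivAt z (fderiv ℝ z (sL y)) (e.symm (e (sL y))) := by
      rw [e.left_inv hs]; exact (B.diff_z hs).hasFDerivAt
    exact (h2.comp (e (sL y)) (B.des _ hw).hasFDerivAt).fderiv
  have h3 : (fderiv ℝ e.symm (e (sL y))).comp (fderiv ℝ e (sL y)) = ContinuousLinearMap.id ℝ ℂ := by
    have h4 : (fun x => e.symm (e x)) =ᶠ[𝓝 (sL y)] id := by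
      filter_upwards [e.open_source.mem_nhds hs] with x hx using e.left_inv hx
    have h5 := ((B.des _ hw).hasFDerivAt.comp (sL y) (B.de _ hs).hasFDerivAt).fderiv
    rw [← h5]
    have h6 : fderiv ℝ (fun x => e.symm (e x)) (sL y) = fderiv ℝ id (sL y) := h4.fderiv_eq
    rw [fderiv_id] at h6
    exact h6
  rw [ContinuousLinearMap.comp_apply, om_apply, PL_apply, vL_mk, sL_mk, psi,
    ContinuousLinearMap.comp_apply, sg_apply, Dw_apply, wf]
  have h7 : sL (PP f y) = f (sL y) := sL_mk _ _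
  have h8 : vL (PP f y) = vL y := vL_mk _ _
  rw [h7, h8, B.de_eq hs h0, h1, ContinuousLinearMap.comp_apply]
  have h9 : fderiv ℝ e.symm (e (sL y)) (fderiv ℝ e (sL y) (sL u)) = sL u := by
    have := congrArg (fun A : ℂ →L[ℝ] ℂ => A (sL u)) h3
    simpa using this
  rw [h9, e.left_inv hs]

/-! ### the objects upstairs -/

/-- the compact set upstairs. -/
def upS (f : ℂ → ℂ) (e : OpenPartialHomeomorph ℂ ℂ) (K : Set E4) : Set E4 :=
  {y | sL y ∈ e.source ∧ PP f y ∈ K}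

lemma Br.compact_up (B : Br f z m e ρ) {K : Set E4} (hK : IsCompact K)
    (hKρ : ∀ y ∈ K, sL y ∈ ball (0 : ℂ) (ρ ^ m)) : IsCompact (upS f e K) := by
  set A : Set (ℂ × ℂ) := {p | mk (p.1 ^ m) p.2 ∈ K} ∩ (closedBall 0 ρ ×ˢ (vL '' K)) with hA
  have hcont : Continuous fun p : ℂ × ℂ => mk (p.1 ^ m) p.2 := by
    have h : (fun p : ℂ × ℂ => mk (p.1 ^ m) p.2) = fun p => mkL (p.1 ^ m, p.2) := by
      funext p; rw [mkL_apply]
    rw [h]
    exact mkL.continuous.comp ((continuous_fst.pow m).prodMk continuous_snd)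
  have hAc : IsCompact A :=
    ((isCompact_closedBall (0 : ℂ) ρ).prod (hK.image vL.continuous)).inter_left
      (hK.isClosed.preimage hcont)
  have hAt : ∀ p ∈ A, p.1 ∈ e.target := by
    rintro p ⟨h1, -⟩
    have h2 := hKρ _ h1
    rw [sL_mk, mem_ball_zero_iff, norm_pow] at h2
    rw [B.tgt, mem_ball_zero_iff]
    exact lt_of_pow_lt_pow_left₀ m B.ρ0.le h2
  have himg : upS f e K = (fun p : ℂ × ℂ => mk (e.symm p.1) p.2) '' A := by
    ext y
    constructor
    · rintro ⟨hs, hy⟩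
      have h1 : e (sL y) ∈ ball (0 : ℂ) ρ := by rw [← B.tgt]; exact e.map_source hs
      refine ⟨(e (sL y), vL y), ⟨?_, ?_, ?_⟩, ?_⟩
      · show mk (e (sL y) ^ m) (vL y) ∈ K
        rw [B.pow _ hs]; exact hy
      · exact ball_subset_closedBall h1
      · exact ⟨PP f y, hy, vL_mk _ _⟩
      · show mk (e.symm (e (sL y))) (vL y) = y
        rw [e.left_inv hs, mk_sL_vL]
    · rintro ⟨p, hp, rfl⟩
      have h1 := hAt p hp
      have h2 : sL (mk (e.symm p.1) p.2) = e.symm p.1 := sL_mk _ _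
      refine ⟨?_, ?_⟩
      · show sL (mk (e.symm p.1) p.2) ∈ e.source
        rw [h2]; exact e.map_target h1
      · show mk (f (sL (mk (e.symm p.1) p.2))) (vL (mk (e.symm p.1) p.2)) ∈ K
        rw [h2, vL_mk, ← B.pow _ (e.map_target h1), e.right_inv h1]
        exact hp.1
  rw [himg]
  refine hAc.image_of_continuousOn ?_
  have h3 : (fun p : ℂ × ℂ => mk (e.symm p.1) p.2) = fun p => mkL (e.symm p.1, p.2) := by
    funext p; rw [mkL_apply]
  rw [h3]
  exact mkL.continuous.comp_continuousOn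
    ((e.continuousOn_symm.comp continuous_fst.continuousOn hAt).prodMk continuous_snd.continuousOn)

/-- the cut-off upstairs. -/
def chU (f : ℂ → ℂ) (e : OpenPartialHomeomorph ℂ ℂ) (χ : E4 → ℝ) : E4 → ℝ :=
  indicator (sL ⁻¹' e.source) fun y => χ (PP f y)

/-- the form upstairs. -/
def bU (f : ℂ → ℂ) (b : E4 → Bil) (y : E4) : Bil := pull (PL (fderiv ℝ f (sL y))) (b (PP f y))

lemma isOpen_src (e : OpenPartialHomeomorph ℂ ℂ) : IsOpen (sL ⁻¹' e.source) :=
  e.open_source.preimage sL.continuous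

lemma chU_of_mem {χ : E4 → ℝ} {y : E4} (hy : sL y ∈ e.source) : chU f e χ y = χ (PP f y) :=
  indicator_of_mem (show y ∈ sL ⁻¹' e.source from hy) _

lemma chU_ev {χ : E4 → ℝ} {y : E4} (hy : sL y ∈ e.source) :
    chU f e χ =ᶠ[𝓝 y] fun y => χ (PP f y) := by
  filter_upwards [(isOpen_src e).mem_nhds hy] with x hx using chU_of_mem hx

lemma chU_zero {χ : E4 → ℝ} {y : E4} (hy : y ∉ upS f e (tsupport χ)) : chU f e χ y = 0 := by
  by_cases hs : sL y ∈ e.source
  · rw [chU_of_mem hs]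
    exact image_eq_zero_of_notMem_tsupport fun h => hy ⟨hs, h⟩
  · exact indicator_of_notMem (show y ∉ sL ⁻¹' e.source from hs) _

variable {O : Set E4} {b : E4 → Bil} {χ : E4 → ℝ}

lemma Br.chU_smooth (B : Br f z m e ρ) (hχ : ContDiff ℝ 1 χ) (hc : HasCompactSupport χ)
    (hρ : ∀ y ∈ tsupport χ, sL y ∈ ball (0 : ℂ) (ρ ^ m)) : ContDiff ℝ 1 (chU f e χ) := by
  have hK := B.compact_up hc.isCompact hρ
  rw [contDiff_iff_contDiffAt]
  intro y
  by_cases hy : sL y ∈ e.source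
  · refine ContDiffAt.congr_of_eventuallyEq ?_ (chU_ev hy)
    exact hχ.contDiffAt.comp y (contDiffAt_PP
      ((B.smf.contDiffAt (e.open_source.mem_nhds hy)).of_le (by exact_mod_cast le_top)))
  · have hyK : (upS f e (tsupport χ))ᶜ ∈ 𝓝 y :=
      hK.isClosed.isOpen_compl.mem_nhds fun h => hy h.1
    refine (contDiffAt_const (c := (0 : ℝ))).congr_of_eventuallyEq ?_
    filter_upwards [hyK] with x hx using chU_zero hx

lemma Br.chU_tsupport (B : Br f z m e ρ) (hc : HasCompactSupport χ)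
    (hρ : ∀ y ∈ tsupport χ, sL y ∈ ball (0 : ℂ) (ρ ^ m)) :
    tsupport (chU f e χ) ⊆ upS f e (tsupport χ) := by
  have hK := B.compact_up hc.isCompact hρ
  refine closure_minimal (fun y hy => ?_) hK.isClosed
  by_contra h
  exact hy (chU_zero h)

lemma Br.chU_compact (B : Br f z m e ρ) (hc : HasCompactSupport χ)
    (hρ : ∀ y ∈ tsupport χ, sL y ∈ ball (0 : ℂ) (ρ ^ m)) : HasCompactSupport (chU f e χ) :=
  (B.compact_up hc.isCompact hρ).of_isClosed_subset (isClosed_tsupport _) (B.chU_tsupport hc hρ)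

lemma Br.isOpen_up (B : Br f z m e ρ) (hO : IsOpen O) : IsOpen (upS f e O) := by
  rw [isOpen_iff_mem_nhds]
  rintro y ⟨hs, hy⟩
  have h1 : ContinuousAt (PP f) y := (hasFDerivAt_PP (B.diff_f hs)).continuousAt
  filter_upwards [(isOpen_src e).mem_nhds hs, h1.preimage_mem_nhds (hO.mem_nhds hy)] with x hx hx'
  exact ⟨hx, hx'⟩

lemma contDiffAt_pull {A : E4 → E4 →L[ℝ] E4} {c : E4 → Bil} {y : E4} {n : WithTop ℕ∞}
    (hA : ContDiffAt ℝ n A y) (hc : ContDiffAt ℝ n c y) :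
    ContDiffAt ℝ n (fun y => pull (A y) (c y)) y := by
  unfold pull
  have h1 : ContDiffAt ℝ n (fun y => (ContinuousLinearMap.compL ℝ E4 E4 ℝ |>.flip (A y))) y :=
    (ContinuousLinearMap.contDiff _).contDiffAt.comp y hA
  exact h1.clm_comp (hc.clm_comp hA)

lemma Br.bU_smooth (B : Br f z m e ρ) (hO : IsOpen O) (hb : ContDiffOn ℝ 1 b O) :
    ContDiffOn ℝ 1 (bU f b) (upS f e O) := by
  rintro y ⟨hs, hy⟩
  have h1 : ContDiffAt ℝ ∞ f (sL y) := B.smf.contDiffAt (e.open_source.mem_nhds hs)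
  have h2 : ContDiffAt ℝ 1 (fun y => PL (fderiv ℝ f (sL y))) y := by
    have h3 : ContDiffAt ℝ 1 (fderiv ℝ f) (sL y) :=
      (h1.fderiv_right (m := ∞) (by simp)).of_le (by exact_mod_cast le_top)
    have h4 : ContDiffAt ℝ 1 (fun y => fderiv ℝ f (sL y)) y :=
      h3.comp y sL.contDiff.contDiffAt
    simp only [PL_eq]
    exact (contDiffAt_const.clm_comp (h4.clm_comp contDiffAt_const)).add contDiffAt_const
  have h5 : ContDiffAt ℝ 1 (fun y => b (PP f y)) y :=
    (hb.contDiffAt (hO.mem_nhds hy)).comp y (contDiffAt_PP (h1.of_le (by exact_mod_cast le_top)))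
  exact (contDiffAt_pull h2 h5).contDiffWithinAt

lemma bU_alt {y : E4} (h : Alt (b (PP f y))) : Alt (bU f b y) := h.pull _

lemma Br.bU_closed (B : Br f z m e ρ) (hO : IsOpen O) (hb : ContDiffOn ℝ 1 b O)
    (halt : ∀ y ∈ O, Alt (b y)) (hcl : ∀ y ∈ O, Cl b y) : ∀ y ∈ upS f e O, Cl (bU f b) y := by
  rintro y ⟨hs, hy⟩
  have hU := (B.isOpen_up hO).mem_nhds (show y ∈ upS f e O from ⟨hs, hy⟩)
  have hbd : DifferentiableAt ℝ b (PP f y) :=
    (hb.contDiffAt (hO.mem_nhds hy)).differentiableAt one_ne_zero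
  have hUd : DifferentiableAt ℝ (bU f b) y :=
    ((B.bU_smooth hO hb).contDiffAt hU).differentiableAt one_ne_zero
  have h1 : ContDiffAt ℝ ∞ f (sL y) := B.smf.contDiffAt (e.open_source.mem_nhds hs)
  rw [cl_iff_dd hUd (by filter_upwards [hU] with x hx using bU_alt (halt _ hx.2))]
  intro u v w
  rw [Pull_129.dd_pull (b := b) (t := bU f b) (φ := PP f) (contDiffAt_PP h1) hbd
    (fun u v => (halt _ hy).swap u v) hUd]
  · exact (cl_iff_dd hbd (by filter_upwards [hO.mem_nhds hy] with x hx using halt x hx)).1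
      (hcl _ hy) _ _ _
  · filter_upwards [(isOpen_src e).mem_nhds hs] with x hx u v
    rw [(hasFDerivAt_PP (B.diff_f hx)).fderiv, bU, pull_apply]

end Branch

end

end Crest.Agent.R235.Wk_250
end

-- ▼ part R235/WkF_250
section

/-!
Row 235 (S0364), package ADJ, helper250: the weak equation of one branch in `E4`:
`∫ (dArg (∏_{w^m = ζ} (v - Z w)) ∧ dχ) ∧ b = ∫ u^* (χ b)`, `u s = (f s, z s)`.
-/

set_option autoImplicit false
set_option maxSynthPendingDepth 3

open Set Function Filter MeasureTheory Metric Module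
open scoped ContDiff Topology ENNReal ComplexConjugate

namespace Crest.Agent.R235.Wk_250

open Crest.Agent.R240 Crest.Agent.R240.En Crest.Agent.R235.RootProd_266

noncomputable section

lemma emb_mk : MeasurableEmbedding (fun p : ℂ × ℂ => mk p.1 p.2) := by
  have h : (fun p : ℂ × ℂ => mk p.1 p.2) = mkE.toHomeomorph := by
    funext p
    exact (mkE_apply p).symm
  rw [h]
  exact mkE.toHomeomorph.measurableEmbedding

theorem integral_mk (f : E4 → ℝ) : ∫ p : ℂ × ℂ, f (mk p.1 p.2) = ∫ y, f y :=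
  mp_mk.integral_comp emb_mk f

theorem integrable_mk {f : E4 → ℝ} :
    Integrable f ↔ Integrable fun p : ℂ × ℂ => f (mk p.1 p.2) :=
  (mp_mk.integrable_comp_emb emb_mk).symm

lemma W_wed_rs {m : ℕ} (hm : m ≠ 0) (F : ℂ → Cov) (ζ : ℂ) (η : Cov) (c : Bil) :
    W (wed (rs m F ζ) η) c = rs m (fun w => W (wed (F w) η) c) ζ := by
  rw [rs_b1 hm, rs_b1 hm]
  induction (Finset.range m) using Finset.cons_induction with
  | empty => simp [W, ent, wed]
  | cons a s ha ih =>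
    rw [Finset.sum_cons, Finset.sum_cons, wed_add_left, W_add_left, ih]

section Branch

variable {f z : ℂ → ℂ} {m : ℕ} {e : OpenPartialHomeomorph ℂ ℂ} {ρ : ℝ}
variable {O : Set E4} {b : E4 → Bil} {χ : E4 → ℝ}

/-- the integrand of a sheet. -/
def GG (Z : ℂ → ℂ) (m : ℕ) (b : E4 → Bil) (χ : E4 → ℝ) (w : ℂ) (p : ℂ × ℂ) : ℝ :=
  W (wed (om Z m w (mk p.1 p.2)) (fderiv ℝ χ (mk p.1 p.2))) (b (mk p.1 p.2))

lemma fderiv_zero_of {χ : E4 → ℝ} {y : E4} (hy : y ∉ tsupport χ) : fderiv ℝ χ y = 0 := by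
  by_contra h
  exact hy (support_fderiv_subset ℝ h)

lemma W_wed_zero (ξ : Cov) (c : Bil) : W (wed ξ 0) c = 0 := by simp [W, ent]

lemma Br.point (B : Br f z m e ρ) (halt : ∀ y ∈ O, Alt (b y)) (hχ : ContDiff ℝ 1 χ)
    (hsub : tsupport χ ⊆ O) {p : ℂ × ℂ} (hp : p.1 ∈ e.source) (h0 : p.1 ≠ 0) :
    |(fderiv ℝ f p.1).det| • GG (fun w => z (e.symm w)) m b χ (e p.1) (f p.1, p.2) =
      FF z (bU f b) (chU f e χ) (mk p.1 p.2) := by
  have hs : sL (mk p.1 p.2) = p.1 := sL_mk _ _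
  have hs' : sL (mk p.1 p.2) ∈ e.source := by rw [hs]; exact hp
  have h0' : sL (mk p.1 p.2) ≠ 0 := by rw [hs]; exact h0
  have hP : PP f (mk p.1 p.2) = mk (f p.1) p.2 := by rw [PP, hs, vL_mk]
  have h1 : fderiv ℝ (chU f e χ) (mk p.1 p.2) =
      (fderiv ℝ χ (mk (f p.1) p.2)).comp (PL (fderiv ℝ f p.1)) := by
    rw [(chU_ev hs').fderiv_eq]
    have h2 := hasFDerivAt_PP (f := f) (y := mk p.1 p.2) (by rw [hs]; exact B.diff_f hp)
    have h3 : HasFDerivAt χ (fderiv ℝ χ (mk (f p.1) p.2)) (PP f (mk p.1 p.2)) := by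
      rw [hP]; exact (hχ.differentiable one_ne_zero _).hasFDerivAt
    rw [hs] at h2
    exact (h3.comp _ h2).fderiv
  have h4 := B.om_pull hs' h0'
  rw [hs, hP] at h4
  rw [FF, h1, ← h4, ← pull_wed', bU, hs, hP, GG]
  by_cases hy : mk (f p.1) p.2 ∈ tsupport χ
  · rw [W_pull (wed_alt _ _) (halt _ (hsub hy)), det_PL, abs_of_nonneg (B.det _ hp), smul_eq_mul]
  · rw [fderiv_zero_of hy, W_wed_zero, smul_zero, pull_wed', ContinuousLinearMap.zero_comp,
      W_wed_zero]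

/-- **the weak equation of one branch.** -/
theorem Br.branch (B : Br f z m e ρ) (hO : IsOpen O)
    (hOρ : ∀ y ∈ O, sL y ∈ ball (0 : ℂ) (ρ ^ m)) (hb : ContDiffOn ℝ 1 b O)
    (halt : ∀ y ∈ O, Alt (b y)) (hcl : ∀ y ∈ O, Cl b y) (hχ : ContDiff ℝ 1 χ)
    (hc : HasCompactSupport χ) (hsub : tsupport χ ⊆ O) :
    Integrable (fun y => W (wed (OM (fun w => z (e.symm w)) m y) (fderiv ℝ χ y)) (b y)) ∧
    ∫ y, W (wed (OM (fun w => z (e.symm w)) m y) (fderiv ℝ χ y)) (b y) =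
      ∫ s in e.source, χ (mk (f s) (z s)) * b (mk (f s) (z s))
        (mk (fderiv ℝ f s 1) (fderiv ℝ z s 1))
        (mk (fderiv ℝ f s Complex.I) (fderiv ℝ z s Complex.I)) := by
  have hρ : ∀ y ∈ tsupport χ, sL y ∈ ball (0 : ℂ) (ρ ^ m) := fun y hy => hOρ y (hsub hy)
  set Z : ℂ → ℂ := fun w => z (e.symm w) with hZ
  obtain ⟨hU1, hU2⟩ := graph_loc (B.isOpen_up hO) e.open_source B.smz (fun y hy => hy.1)
    (B.bU_smooth hO hb) (fun y hy => bU_alt (halt _ hy.2)) (B.bU_closed hO hb halt hcl)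
    (B.chU_smooth hχ hc hρ) (B.chU_compact hc hρ)
    ((B.chU_tsupport hc hρ).trans fun y hy => ⟨hy.1, hsub hy.2⟩)
  have hms : MeasurableSet (e.source ×ˢ (univ : Set ℂ)) :=
    e.open_source.measurableSet.prod MeasurableSet.univ
  have hae : ∀ᵐ p : ℂ × ℂ, p.1 ≠ 0 :=
    (Measure.quasiMeasurePreserving_fst (μ := (volume : Measure ℂ))
      (ν := (volume : Measure ℂ))).ae (by simp [ae_iff] : ∀ᵐ t : ℂ, t ≠ 0)
  have hcong : ∀ᵐ p : ℂ × ℂ ∂(volume.restrict (e.source ×ˢ (univ : Set ℂ))),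
      |(fderiv ℝ f p.1).det| • GG Z m b χ (e p.1) (f p.1, p.2) =
        FF z (bU f b) (chU f e χ) (mk p.1 p.2) := by
    filter_upwards [ae_restrict_mem hms, ae_restrict_of_ae hae] with p hp h0
    exact B.point halt hχ hsub hp.1 h0
  have hFi : Integrable fun p : ℂ × ℂ => FF z (bU f b) (chU f e χ) (mk p.1 p.2) :=
    integrable_mk.1 hU1
  have hI : IntegrableOn (fun p : ℂ × ℂ => |(fderiv ℝ f p.1).det| •
      GG Z m b χ (e p.1) (f p.1, p.2)) (e.source ×ˢ univ) :=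
    (hFi.integrableOn).congr (hcong.mono fun p hp => hp.symm)
  obtain ⟨hA1, hA2⟩ := area B.hm B.ρ0 B.tgt B.src B.zero B.pow (fun s hs => B.diff_f hs) hI
  have hbase : ∀ p : ℂ × ℂ, rs m (fun w => GG Z m b χ w p) p.1 =
      W (wed (OM Z m (mk p.1 p.2)) (fderiv ℝ χ (mk p.1 p.2))) (b (mk p.1 p.2)) := by
    intro p
    rw [OM, W_wed_rs B.hm, sL_mk]
    rfl
  have hout : ∀ p : ℂ × ℂ, p ∉ ball (0 : ℂ) (ρ ^ m) ×ˢ (univ : Set ℂ) →
      rs m (fun w => GG Z m b χ w p) p.1 = 0 := by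
    intro p hp
    rw [hbase, fderiv_zero_of, W_wed_zero]
    intro h
    have h1 := hρ _ h
    rw [sL_mk] at h1
    exact hp ⟨h1, trivial⟩
  have hA3 : Integrable fun p : ℂ × ℂ => rs m (fun w => GG Z m b χ w p) p.1 := by
    rw [← integrableOn_iff_integrable_of_support_subset
      (s := ball (0 : ℂ) (ρ ^ m) ×ˢ (univ : Set ℂ))]
    · exact hA1
    · intro p hp
      by_contra h
      exact hp (hout p h)
  rw [setIntegral_eq_integral_of_forall_compl_eq_zero hout] at hA2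
  have hfun : (fun p : ℂ × ℂ => rs m (fun w => GG Z m b χ w p) p.1) =
      fun p : ℂ × ℂ => (fun y => W (wed (OM Z m y) (fderiv ℝ χ y)) (b y)) (mk p.1 p.2) :=
    funext hbase
  rw [hfun] at hA2 hA3
  refine ⟨integrable_mk.2 hA3, ?_⟩
  rw [← integral_mk (fun y => W (wed (OM Z m y) (fderiv ℝ χ y)) (b y)), hA2,
    integral_congr_ae hcong]
  have hz : ∀ p : ℂ × ℂ, p ∉ e.source ×ˢ (univ : Set ℂ) →
      FF z (bU f b) (chU f e χ) (mk p.1 p.2) = 0 := by
    intro p hp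
    rw [FF, fderiv_zero_of, W_wed_zero]
    intro h
    have h1 := (B.chU_tsupport hc hρ h).1
    rw [sL_mk] at h1
    exact hp ⟨h1, trivial⟩
  rw [setIntegral_eq_integral_of_forall_compl_eq_zero hz,
    integral_mk (FF z (bU f b) (chU f e χ)), hU2]
  have hz2 : ∀ s, s ∉ e.source → hh z (bU f b) (chU f e χ) (mk s (z s)) = 0 := by
    intro s hs
    rw [hh, chU, indicator_of_notMem, zero_mul]
    show sL (mk s (z s)) ∉ e.source
    rw [sL_mk]; exact hs
  rw [← setIntegral_eq_integral_of_forall_compl_eq_zero hz2]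
  refine setIntegral_congr_fun e.open_source.measurableSet fun s hs => ?_
  have hs1 : sL (mk s (z s)) = s := sL_mk _ _
  have hs2 : sL (mk s (z s)) ∈ e.source := by rw [hs1]; exact hs
  show hh z (bU f b) (chU f e χ) (mk s (z s)) = _
  rw [hh, chU_of_mem hs2, bU, pull_apply, PP, hs1, vL_mk, PL_apply, PL_apply, t1, t2, sL_mk, sL_mk,
    vL_mk, vL_mk]

end Branch

end

end Crest.Agent.R235.Wk_250
end

-- ▼ part R235/WkG_250
section

/-!
Row 235 (S0364), package ADJ, helper250: the pairing `Int.I F b c` in a smooth parametrisation.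

`I_param`: `Ψ : OpenPartialHomeomorph E4 M` smooth, target in one chart, oriented by `F`
(`0 < W (Ψ^*F) (Ψ^*F)`): if `qG F b c` vanishes off the target then
`I F b c = ∫ y in Ψ.source, W (Ψ^* b) (Ψ^* c)`.  No measurability is needed.
-/

set_option autoImplicit false
set_option maxSynthPendingDepth 3

open Set Function Filter MeasureTheory Metric
open scoped Manifold ContDiff Topology ENNReal NNReal

namespace Crest.Agent.R235.WkG_250

open Crest.Agent.R240 Crest.Agent.R240.Ch Crest.Agent.R240.Int Crest.Agent.R235.Pull_129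

noncomputable section

section Basic

variable {M : Type*} [TopologicalSpace M] [ChartedSpace E4 M] [IsManifold 𝓘(ℝ, E4) ∞ M]

lemma pb2_eq_pull (Ψ : E4 → M) (a : F2 E4 M) (y : E4) :
    pb2 Ψ a y = pull (dL (E := E4) Ψ y) (at2 a (Ψ y)) := by
  ext u v
  rw [pull_apply, pb2_apply]

lemma pb2_eq_pull_rep {Ψ : E4 → M} {y : E4} {p : M}
    (h : ContMDiffAt 𝓘(ℝ, E4) 𝓘(ℝ, E4) ∞ Ψ y) (hp : Ψ y ∈ (chartAt E4 p).source)
    (a : F2 E4 M) : pb2 Ψ a y =
      pull (fderiv ℝ (inC (E := E4) p Ψ) y) (rep p a (inC p Ψ y)) := by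
  ext u v
  rw [pull_apply, pb2_chart h hp]

/-- the pairing at a point in the parametrisation. -/
lemma qG_pb {F b c : F2 E4 M} (hF : ∀ x, Alt (at2 F x)) (hb : ∀ x, Alt (at2 b x))
    (hc : ∀ x, Alt (at2 c x)) {Ψ : E4 → M} {y : E4}
    (hpos : 0 < W (pb2 Ψ F y) (pb2 Ψ F y)) :
    W (pb2 Ψ F y) (pb2 Ψ F y) * qG F b c (Ψ y) = W (pb2 Ψ b y) (pb2 Ψ c y) := by
  rw [pb2_eq_pull, W_pull (hF _) (hF _)] at hpos
  rw [pb2_eq_pull, pb2_eq_pull, pb2_eq_pull, W_pull (hF _) (hF _), W_pull (hb _) (hc _)]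
  have h1 : W (at2 F (Ψ y)) (at2 F (Ψ y)) ≠ 0 := by
    intro h
    rw [h, mul_zero] at hpos
    exact lt_irrefl _ hpos
  unfold qG q
  field_simp

end Basic

section Meas

variable {M : Type*} [TopologicalSpace M] [T2Space M] [CompactSpace M] [ChartedSpace E4 M]
  [IsManifold 𝓘(ℝ, E4) ∞ M] [MeasurableSpace M] [BorelSpace M]

variable {F : F2 E4 M} {Ψ : OpenPartialHomeomorph E4 M} {p : M}

/-- the density. -/
def dn (F : F2 E4 M) (Ψ : E4 → M) (y : E4) : ℝ≥0 := Real.toNNReal (W (pb2 Ψ F y) (pb2 Ψ F y))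

omit [T2Space M] [CompactSpace M] [IsManifold 𝓘(ℝ, E4) ∞ M] [MeasurableSpace M] [BorelSpace M] in
lemma smAt (hΨ : ContMDiffOn 𝓘(ℝ, E4) 𝓘(ℝ, E4) ∞ Ψ Ψ.source) {y : E4} (hy : y ∈ Ψ.source) :
    ContMDiffAt 𝓘(ℝ, E4) 𝓘(ℝ, E4) ∞ Ψ y := hΨ.contMDiffAt (Ψ.open_source.mem_nhds hy)

theorem lint_param (hF : Vol F) (hΨ : ContMDiffOn 𝓘(ℝ, E4) 𝓘(ℝ, E4) ∞ Ψ Ψ.source)
    (hsub : Ψ.target ⊆ (chartAt E4 p).source)
    (hpos : ∀ y ∈ Ψ.source, 0 < W (pb2 Ψ F y) (pb2 Ψ F y)) {f : M → ℝ≥0∞} (hf : Measurable f)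
    (h0 : ∀ x ∉ Ψ.target, f x = 0) :
    ∫⁻ x, f x ∂(mu F) = ∫⁻ y in Ψ.source, (dn F Ψ y : ℝ≥0∞) * f (Ψ y) := by
  have h1 : ∫⁻ x, f x ∂(mu F) = ∫⁻ x in (chartAt E4 p).source, f x ∂(mu F) := by
    refine (setLIntegral_eq_of_support_subset ?_).symm
    intro x hx
    by_contra h
    exact hx (h0 x fun h' => h (hsub h'))
  rw [h1, lintegral_mu hF p hf]
  set τ : E4 → E4 := inC (E := E4) p Ψ with hτ
  have hτd : ∀ y ∈ Ψ.source, HasFDerivWithinAt τ (fderiv ℝ τ y) Ψ.source y := by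
    intro y hy
    exact ((inC_contDiffAt (smAt hΨ hy) (hsub (Ψ.map_source hy))).differentiableAt
      (by simp)).hasFDerivAt.hasFDerivWithinAt
  have hτi : InjOn τ Ψ.source := by
    intro y hy y' hy' h
    exact Ψ.injOn hy hy' ((chartAt E4 p).injOn (hsub (Ψ.map_source hy))
      (hsub (Ψ.map_source hy')) h)
  have hτs : τ '' Ψ.source ⊆ (chartAt E4 p).target := by
    rintro _ ⟨y, hy, rfl⟩
    exact (chartAt E4 p).map_source (hsub (Ψ.map_source hy))
  have h2 : ∫⁻ y in (chartAt E4 p).target, ENNReal.ofReal (dens F p y) *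
      f ((chartAt E4 p).symm y) = ∫⁻ y in τ '' Ψ.source, ENNReal.ofReal (dens F p y) *
      f ((chartAt E4 p).symm y) := by
    have hm1 : MeasurableSet (chartAt E4 p).target := (chartAt E4 p).open_target.measurableSet
    have hm2 : MeasurableSet (τ '' Ψ.source) :=
      measurable_image_of_fderivWithin Ψ.open_source.measurableSet hτd hτi
    rw [← lintegral_indicator hm1, ← lintegral_indicator hm2]
    congr 1
    funext y
    by_cases hy : y ∈ τ '' Ψ.source
    · rw [indicator_of_mem hy, indicator_of_mem (hτs hy)]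
    · rw [indicator_of_notMem hy]
      by_cases hy' : y ∈ (chartAt E4 p).target
      · rw [indicator_of_mem hy', h0, mul_zero]
        intro h
        apply hy
        refine ⟨Ψ.symm ((chartAt E4 p).symm y), Ψ.map_target h, ?_⟩
        show chartAt E4 p (Ψ (Ψ.symm ((chartAt E4 p).symm y))) = y
        rw [Ψ.right_inv h, (chartAt E4 p).right_inv hy']
      · rw [indicator_of_notMem hy']
  rw [h2, lintegral_image_eq_lintegral_abs_det_fderiv_mul volume
    Ψ.open_source.measurableSet hτd hτi]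
  refine setLIntegral_congr_fun Ψ.open_source.measurableSet fun y hy => ?_
  have hy1 := hsub (Ψ.map_source hy)
  have h3 : (chartAt E4 p).symm (τ y) = Ψ y := (chartAt E4 p).left_inv hy1
  have h4 : W (pb2 Ψ F y) (pb2 Ψ F y) = |(fderiv ℝ τ y).det| * dens F p (τ y) := by
    rw [← abs_of_pos (hpos y hy), pb2_eq_pull_rep (smAt hΨ hy) hy1,
      W_pull (rep_alt hF.alt _ _) (rep_alt hF.alt _ _), abs_mul]
    rfl
  show ENNReal.ofReal |(fderiv ℝ τ y).det| * (ENNReal.ofReal (dens F p (τ y)) *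
    f ((chartAt E4 p).symm (τ y))) = _
  rw [h3, ← mul_assoc, ← ENNReal.ofReal_mul (abs_nonneg _), ← h4]
  rfl

omit [MeasurableSpace M] [BorelSpace M] [T2Space M] [CompactSpace M] in
lemma continuousOn_WF (hF : Vol F) (hΨ : ContMDiffOn 𝓘(ℝ, E4) 𝓘(ℝ, E4) ∞ Ψ Ψ.source)
    (hsub : Ψ.target ⊆ (chartAt E4 p).source) :
    ContinuousOn (fun y => W (pb2 Ψ F y) (pb2 Ψ F y)) Ψ.source := by
  have h1 : ∀ y ∈ Ψ.source, W (pb2 Ψ F y) (pb2 Ψ F y) =
      LinearMap.det (fderiv ℝ (inC (E := E4) p Ψ) y : E4 →ₗ[ℝ] E4) *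
        W (rep p F (inC p Ψ y)) (rep p F (inC p Ψ y)) := by
    intro y hy
    rw [pb2_eq_pull_rep (smAt hΨ hy) (hsub (Ψ.map_source hy)),
      W_pull (rep_alt hF.alt _ _) (rep_alt hF.alt _ _)]
  refine ContinuousOn.congr ?_ h1
  have h2 : ContDiffOn ℝ ∞ (inC (E := E4) p Ψ) Ψ.source := fun y hy =>
    (inC_contDiffAt (smAt hΨ hy) (hsub (Ψ.map_source hy))).contDiffWithinAt
  have h3 : ContinuousOn (fderiv ℝ (inC (E := E4) p Ψ)) Ψ.source :=
    h2.continuousOn_fderiv_of_isOpen Ψ.open_source (by simp)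
  have h4 : ContinuousOn (fun y => rep p F (inC p Ψ y)) Ψ.source :=
    (hF.cont p).comp h2.continuousOn fun y hy =>
      (chartAt E4 p).map_source (hsub (Ψ.map_source hy))
  have h5 : Continuous fun A : E4 →L[ℝ] E4 => A.det := ContinuousLinearMap.continuous_det
  exact (h5.comp_continuousOn h3).mul (continuousOn_W h4 h4)

theorem meas_param (hF : Vol F) (hΨ : ContMDiffOn 𝓘(ℝ, E4) 𝓘(ℝ, E4) ∞ Ψ Ψ.source)
    (hsub : Ψ.target ⊆ (chartAt E4 p).source)
    (hpos : ∀ y ∈ Ψ.source, 0 < W (pb2 Ψ F y) (pb2 Ψ F y)) :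
    (mu F).restrict Ψ.target = Measure.map (Ψ.source.domRestrict Ψ)
      (Measure.comap (Subtype.val : Ψ.source → E4)
        (volume.withDensity fun y => (dn F Ψ y : ℝ≥0∞))) := by
  have hemb : MeasurableEmbedding (Ψ.source.domRestrict Ψ) :=
    Ψ.isOpenEmbedding_restrict.measurableEmbedding
  ext s hs
  rw [Measure.restrict_apply hs, hemb.map_apply]
  have h1 : (mu F) (s ∩ Ψ.target) = ∫⁻ x, indicator (s ∩ Ψ.target) (fun _ => 1) x ∂(mu F) := by
    rw [lintegral_indicator (hs.inter Ψ.open_target.measurableSet)]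
    simp
  rw [h1, lint_param hF hΨ hsub hpos
    (measurable_const.indicator (hs.inter Ψ.open_target.measurableSet))
    (fun x hx => indicator_of_notMem (fun h => hx h.2) _)]
  rw [(MeasurableEmbedding.subtype_coe Ψ.open_source.measurableSet).comap_apply]
  have h2 : Subtype.val '' (Ψ.source.domRestrict Ψ ⁻¹' s) = Ψ.source ∩ Ψ ⁻¹' s := by
    ext y
    constructor
    · rintro ⟨⟨y', hy'⟩, h, rfl⟩
      exact ⟨hy', h⟩
    · rintro ⟨hy, h⟩
      exact ⟨⟨y, hy⟩, h, rfl⟩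
  have h3 : MeasurableSet (Ψ.source ∩ Ψ ⁻¹' s) := by
    rw [← h2]
    exact (MeasurableEmbedding.subtype_coe Ψ.open_source.measurableSet).measurableSet_image.2
      (hemb.measurable hs)
  rw [h2, withDensity_apply _ h3, ← lintegral_indicator Ψ.open_source.measurableSet,
    ← lintegral_indicator h3]
  congr 1
  funext y
  by_cases hy : y ∈ Ψ.source
  · rw [indicator_of_mem hy]
    by_cases hy' : Ψ y ∈ s
    · rw [indicator_of_mem (show y ∈ Ψ.source ∩ Ψ ⁻¹' s from ⟨hy, hy'⟩),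
        indicator_of_mem (show Ψ y ∈ s ∩ Ψ.target from ⟨hy', Ψ.map_source hy⟩), mul_one]
    · rw [indicator_of_notMem (show y ∉ Ψ.source ∩ Ψ ⁻¹' s from fun h => hy' h.2),
        indicator_of_notMem (show Ψ y ∉ s ∩ Ψ.target from fun h => hy' h.1), mul_zero]
  · rw [indicator_of_notMem hy, indicator_of_notMem (show y ∉ Ψ.source ∩ Ψ ⁻¹' s from
      fun h => hy h.1)]

/-- **integration in a parametrisation.** -/
theorem integral_param (hF : Vol F) (hΨ : ContMDiffOn 𝓘(ℝ, E4) 𝓘(ℝ, E4) ∞ Ψ Ψ.source)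
    (hsub : Ψ.target ⊆ (chartAt E4 p).source)
    (hpos : ∀ y ∈ Ψ.source, 0 < W (pb2 Ψ F y) (pb2 Ψ F y)) {f : M → ℝ}
    (h0 : ∀ x ∉ Ψ.target, f x = 0) :
    ∫ x, f x ∂(mu F) = ∫ y in Ψ.source, W (pb2 Ψ F y) (pb2 Ψ F y) * f (Ψ y) := by
  have hemb : MeasurableEmbedding (Ψ.source.domRestrict Ψ) :=
    Ψ.isOpenEmbedding_restrict.measurableEmbedding
  rw [← setIntegral_eq_integral_of_forall_compl_eq_zero h0, meas_param hF hΨ hsub hpos,
    hemb.integral_map]
  have h1 := integral_subtype_comap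
    (μ := (volume : Measure E4).withDensity fun y => (dn F Ψ y : ℝ≥0∞))
    Ψ.open_source.measurableSet (fun y => f (Ψ y))
  refine h1.trans ?_
  rw [setIntegral_withDensity_eq_setIntegral_smul₀ _ _ Ψ.open_source.measurableSet]
  · refine setIntegral_congr_fun Ψ.open_source.measurableSet fun y hy => ?_
    show (dn F Ψ y : ℝ) * f (Ψ y) = _
    rw [dn, Real.coe_toNNReal _ (hpos y hy).le]
  · exact ((continuousOn_WF hF hΨ hsub).aemeasurable Ψ.open_source.measurableSet).real_toNNReal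

/-- **the pairing in a parametrisation.** -/
theorem I_param (hF : Vol F) (hΨ : ContMDiffOn 𝓘(ℝ, E4) 𝓘(ℝ, E4) ∞ Ψ Ψ.source)
    (hsub : Ψ.target ⊆ (chartAt E4 p).source)
    (hpos : ∀ y ∈ Ψ.source, 0 < W (pb2 Ψ F y) (pb2 Ψ F y)) {b c : F2 E4 M}
    (hb : ∀ x, Alt (at2 b x)) (hc : ∀ x, Alt (at2 c x))
    (h0 : ∀ x ∉ Ψ.target, qG F b c x = 0) :
    I F b c = ∫ y in Ψ.source, W (pb2 Ψ b y) (pb2 Ψ c y) := by
  rw [I, integral_param hF hΨ hsub hpos h0]
  exact setIntegral_congr_fun Ψ.open_source.measurableSet fun y hy =>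
    qG_pb hF.alt hb hc (hpos y hy)

end Meas

end

end Crest.Agent.R235.WkG_250
end

-- ▼ part R235/WkH_250
section

/-!
Row 235 (S0364), package ADJ, helper250: the weak equation of several branches, in a smooth
parametrisation `Ψ` of an open set of the manifold.
-/

set_option autoImplicit false
set_option maxSynthPendingDepth 3

open Set Function Filter MeasureTheory Metric Module
open scoped Manifold ContDiff Topology ENNReal

namespace Crest.Agent.R235.Wk_250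

open Crest.Agent.R240 Crest.Agent.R240.En Crest.Agent.R235.RootProd_266

noncomputable section

/-! ### several branches in `E4` -/

lemma W_wed_sum {ι : Type*} (s : Finset ι) (ξ : ι → Cov) (η : Cov) (c : Bil) :
    W (wed (∑ j ∈ s, ξ j) η) c = ∑ j ∈ s, W (wed (ξ j) η) c := by
  classical
  induction s using Finset.cons_induction with
  | empty => simp [W, ent, wed]
  | cons a s ha ih =>
    rw [Finset.sum_cons, Finset.sum_cons, wed_add_left, W_add_left, ih]

theorem planar {n : ℕ} {f z : Fin n → ℂ → ℂ} {m : Fin n → ℕ}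
    {e : Fin n → OpenPartialHomeomorph ℂ ℂ} {ρ : Fin n → ℝ}
    (B : ∀ j, Br (f j) (z j) (m j) (e j) (ρ j)) {O : Set E4} {b : E4 → Bil} {χ : E4 → ℝ}
    (hO : IsOpen O) (hOρ : ∀ j, ∀ y ∈ O, sL y ∈ ball (0 : ℂ) (ρ j ^ m j))
    (hb : ContDiffOn ℝ 1 b O) (halt : ∀ y ∈ O, Alt (b y)) (hcl : ∀ y ∈ O, Cl b y)
    (hχ : ContDiff ℝ 1 χ) (hc : HasCompactSupport χ) (hsub : tsupport χ ⊆ O) :
    ∫ y in O, W (wed (∑ j, OM (fun w => z j ((e j).symm w)) (m j) y) (fderiv ℝ χ y)) (b y) =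
      ∑ j, ∫ s in (e j).source, χ (mk (f j s) (z j s)) * b (mk (f j s) (z j s))
        (mk (fderiv ℝ (f j) s 1) (fderiv ℝ (z j) s 1))
        (mk (fderiv ℝ (f j) s Complex.I) (fderiv ℝ (z j) s Complex.I)) := by
  rw [setIntegral_eq_integral_of_forall_compl_eq_zero]
  · simp only [W_wed_sum]
    rw [integral_finsetSum]
    · exact Finset.sum_congr rfl fun j _ =>
        ((B j).branch hO (hOρ j) hb halt hcl hχ hc hsub).2
    · exact fun j _ => ((B j).branch hO (hOρ j) hb halt hcl hχ hc hsub).1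
  · intro y hy
    rw [fderiv_zero_of fun h => hy (hsub h), W_wed_zero]

/-! ### the zero set is null -/

lemma graph_null {h : ℂ → ℂ} (hh : Measurable h) : ∀ᵐ p : ℂ × ℂ, p.2 ≠ h p.1 := by
  have hm : MeasurableSet {p : ℂ × ℂ | p.2 = h p.1} :=
    measurableSet_eq_fun measurable_snd (hh.comp measurable_fst)
  rw [ae_iff]
  simp only [ne_eq, not_not]
  rw [Measure.volume_eq_prod, Measure.measure_prod_null hm]
  refine ae_of_all _ fun x => ?_
  have h1 : Prod.mk x ⁻¹' {p : ℂ × ℂ | p.2 = h p.1} = {h x} := by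
    ext v; simp
  show volume (Prod.mk x ⁻¹' {p : ℂ × ℂ | p.2 = h p.1}) = 0
  rw [h1]
  simp

lemma rp_ae {m : ℕ} (hm : m ≠ 0) {Z : ℂ → ℂ} {ρ : ℝ} (hρ : 0 ≤ ρ)
    (hZ : ContinuousOn Z (ball 0 ρ)) :
    ∀ᵐ p : ℂ × ℂ, p.1 ∈ ball (0 : ℂ) (ρ ^ m) → rp m Z p.1 p.2 ≠ 0 := by
  classical
  have hZ' : Measurable (piecewise (ball (0 : ℂ) ρ) Z (fun _ => 0)) :=
    hZ.measurable_piecewise continuousOn_const measurableSet_ball
  have h1 : ∀ j : ℕ, ∀ᵐ p : ℂ × ℂ, p.2 ≠ piecewise (ball (0 : ℂ) ρ) Z (fun _ => 0)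
      (xi m ^ j * b1 m p.1) := fun j =>
    graph_null (h := fun ζ => piecewise (ball (0 : ℂ) ρ) Z (fun _ => 0) (xi m ^ j * b1 m ζ))
      (hZ'.comp ((measurable_b1 m).const_mul _))
  filter_upwards [ae_all_iff.2 h1] with p hp hball
  rw [rp_b1 hm, Finset.prod_ne_zero_iff]
  intro j _ h
  apply hp j
  have h2 : xi m ^ j * b1 m p.1 ∈ ball (0 : ℂ) ρ := by
    rw [mem_ball_zero_iff, norm_mul, norm_xi_pow hm, one_mul]
    rw [mem_ball_zero_iff] at hball
    refine lt_of_pow_lt_pow_left₀ m hρ ?_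
    rw [← norm_pow, b1_pow hm]
    exact hball
  rw [piecewise_eq_of_mem _ _ _ h2]
  exact sub_eq_zero.1 h

/-! ### functions extended by zero -/

section Ext

variable {M : Type*} [TopologicalSpace M] [T2Space M] [CompactSpace M] [ChartedSpace E4 M]
  [IsManifold 𝓘(ℝ, E4) ∞ M]

/-- `χ ∘ Ψ` extended by zero. -/
def exF (Ψ : OpenPartialHomeomorph E4 M) (χ : M → ℝ) : E4 → ℝ :=
  indicator Ψ.source fun y => χ (Ψ y)

variable {Ψ : OpenPartialHomeomorph E4 M} {χ : M → ℝ}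

omit [T2Space M] [CompactSpace M] [ChartedSpace E4 M] [IsManifold 𝓘(ℝ, E4) ∞ M] in
lemma exF_of_mem {y : E4} (hy : y ∈ Ψ.source) : exF Ψ χ y = χ (Ψ y) := indicator_of_mem hy _

omit [T2Space M] [CompactSpace M] [ChartedSpace E4 M] [IsManifold 𝓘(ℝ, E4) ∞ M] in
lemma exF_ev {y : E4} (hy : y ∈ Ψ.source) : exF Ψ χ =ᶠ[𝓝 y] fun y => χ (Ψ y) := by
  filter_upwards [Ψ.open_source.mem_nhds hy] with x hx using exF_of_mem hx

omit [T2Space M] [ChartedSpace E4 M] [IsManifold 𝓘(ℝ, E4) ∞ M] in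
lemma exF_K (hsub : tsupport χ ⊆ Ψ.target) : IsCompact (Ψ.symm '' tsupport χ) ∧
    Ψ.symm '' tsupport χ ⊆ Ψ.source ∧ ∀ y, y ∉ Ψ.symm '' tsupport χ → exF Ψ χ y = 0 := by
  refine ⟨(isClosed_tsupport χ).isCompact.image_of_continuousOn (Ψ.continuousOn_symm.mono hsub),
    ?_, ?_⟩
  · rintro _ ⟨x, hx, rfl⟩
    exact Ψ.map_target (hsub hx)
  · intro y hy
    by_cases hs : y ∈ Ψ.source
    · rw [exF_of_mem hs]
      refine image_eq_zero_of_notMem_tsupport fun h => hy ⟨Ψ y, h, Ψ.left_inv hs⟩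
    · exact indicator_of_notMem hs _

omit [T2Space M] [IsManifold 𝓘(ℝ, E4) ∞ M] in
lemma exF_smooth (hΨ : ContMDiffOn 𝓘(ℝ, E4) 𝓘(ℝ, E4) ∞ Ψ Ψ.source)
    (hχ : ContMDiff 𝓘(ℝ, E4) 𝓘(ℝ, ℝ) ∞ χ) (hsub : tsupport χ ⊆ Ψ.target) :
    ContDiff ℝ 1 (exF Ψ χ) := by
  obtain ⟨hK, hKs, hK0⟩ := exF_K (χ := χ) hsub
  rw [contDiff_iff_contDiffAt]
  intro y
  by_cases hy : y ∈ Ψ.source
  · refine ContDiffAt.congr_of_eventuallyEq ?_ (exF_ev hy)
    have h1 : ContMDiffAt 𝓘(ℝ, E4) 𝓘(ℝ, ℝ) ∞ (fun y => χ (Ψ y)) y :=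
      hχ.contMDiffAt.comp y (hΨ.contMDiffAt (Ψ.open_source.mem_nhds hy))
    exact h1.contDiffAt.of_le (by exact_mod_cast le_top)
  · have hyK : (Ψ.symm '' tsupport χ)ᶜ ∈ 𝓝 y :=
      hK.isClosed.isOpen_compl.mem_nhds fun h => hy (hKs h)
    refine (contDiffAt_const (c := (0 : ℝ))).congr_of_eventuallyEq ?_
    filter_upwards [hyK] with x hx using hK0 x hx

omit [T2Space M] [ChartedSpace E4 M] [IsManifold 𝓘(ℝ, E4) ∞ M] in
lemma exF_tsupport (hsub : tsupport χ ⊆ Ψ.target) :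
    tsupport (exF Ψ χ) ⊆ Ψ.source ∧ HasCompactSupport (exF Ψ χ) := by
  obtain ⟨hK, hKs, hK0⟩ := exF_K (χ := χ) hsub
  have h1 : tsupport (exF Ψ χ) ⊆ Ψ.symm '' tsupport χ := by
    refine closure_minimal (fun y hy => ?_) hK.isClosed
    by_contra h
    exact hy (hK0 y h)
  exact ⟨h1.trans hKs, hK.of_isClosed_subset (isClosed_tsupport _) h1⟩

end Ext

end

end Crest.Agent.R235.Wk_250
end

-- ▼ part R235/WkI_250
section

/-!
Row 235 (S0364), package ADJ, helper250: the weak equation in a smooth parametrisation `Ψ` of an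
open set of the manifold.
-/

set_option autoImplicit false
set_option maxSynthPendingDepth 3

open Set Function Filter MeasureTheory Metric Module
open scoped Manifold ContDiff Topology ENNReal

namespace Crest.Agent.R235.Wk_250

open Crest.Agent.R240 Crest.Agent.R240.En Crest.Agent.R240.Ch Crest.Agent.R235.RootProd_266
open Crest.Agent.R235.Pull_129 Crest.Agent.R235.BranchProd_266 Crest.Agent.R235.WkG_250
open Crest.Agent.R240.Int (Vol)
open Crest.Agent.R235.Adj (dArg)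

noncomputable section

lemma OM_apply {m : ℕ} (hm : m ≠ 0) (Z : ℂ → ℂ) (y u : E4) :
    OM Z m y u = (2 * Real.pi)⁻¹ * (ld m Z (sL y, vL y) (sL u, vL u)).im := by
  rw [OM, ld, rs_b1 hm, rs_b1 hm]
  simp only [sum_apply, om, smul_apply, ContinuousLinearMap.comp_apply,
    ContinuousLinearMap.prod_apply, Complex.imCLM_apply, Complex.im_sum, smul_eq_mul,
    Finset.mul_sum]

section Man

variable {M : Type*} [TopologicalSpace M] [ChartedSpace E4 M] [IsManifold 𝓘(ℝ, E4) ∞ M]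

/-- the pull-back of `(1/2π) d arg G`. -/
lemma pb_dArg {Ψ : OpenPartialHomeomorph E4 M}
    (hΨ : ContMDiffOn 𝓘(ℝ, E4) 𝓘(ℝ, E4) ∞ Ψ Ψ.source)
    (hΨs : ContMDiffOn 𝓘(ℝ, E4) 𝓘(ℝ, E4) ∞ Ψ.symm Ψ.target) {y : E4} (hy : y ∈ Ψ.source)
    {G : M → ℂ} (hG : DifferentiableAt ℝ (fun y => G (Ψ y)) y) :
    pb1 Ψ (dArg G) y = (2 * Real.pi)⁻¹ • Complex.imCLM.comp
      ((G (Ψ y))⁻¹ • fderiv ℝ (fun y => G (Ψ y)) y) := by
  set x : M := Ψ y with hx
  set g : E4 → ℂ := fun y' => G ((chartAt E4 x).symm y') with hg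
  set h : E4 → E4 := fun z => chartAt E4 x (Ψ z) with hh
  have hyT : Ψ y ∈ Ψ.target := Ψ.map_source hy
  have hxs : x ∈ (chartAt E4 x).source := mem_chart_source E4 x
  have hh1 : DifferentiableAt ℝ h y :=
    (inC_contDiffAt (hΨ.contMDiffAt (Ψ.open_source.mem_nhds hy)) hxs).differentiableAt (by simp)
  have hhy : h y = chartAt E4 x x := rfl
  -- the inverse coordinates
  have hk : ContDiffAt ℝ ∞ (fun y' => Ψ.symm ((chartAt E4 x).symm y')) (h y) := by
    have h1 : ContMDiffAt 𝓘(ℝ, E4) 𝓘(ℝ, E4) ∞ (chartAt E4 x).symm (chartAt E4 x x) :=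
      (contMDiffOn_chart_symm (I := 𝓘(ℝ, E4)) (x := x)).contMDiffAt
        ((chartAt E4 x).open_target.mem_nhds (mem_chart_target E4 x))
    have h2 : (chartAt E4 x).symm (chartAt E4 x x) = x := (chartAt E4 x).left_inv hxs
    have h3 : ContMDiffAt 𝓘(ℝ, E4) 𝓘(ℝ, E4) ∞ Ψ.symm ((chartAt E4 x).symm (chartAt E4 x x)) := by
      rw [h2]; exact hΨs.contMDiffAt (Ψ.open_target.mem_nhds hyT)
    exact (h3.comp (chartAt E4 x x) h1).contDiffAt
  have hg1 : DifferentiableAt ℝ g (h y) := by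
    have h4 : Ψ.symm ((chartAt E4 x).symm (h y)) = y := by
      rw [hhy, (chartAt E4 x).left_inv hxs, hx, Ψ.left_inv hy]
    have h5 : DifferentiableAt ℝ (fun y => G (Ψ y)) (Ψ.symm ((chartAt E4 x).symm (h y))) := by
      rw [h4]; exact hG
    have h6 := h5.comp (h y) (hk.differentiableAt (by simp))
    refine h6.congr_of_eventuallyEq ?_
    have h7 : ContinuousAt (chartAt E4 x).symm (h y) :=
      ((chartAt E4 x).continuousAt_symm (by rw [hhy]; exact mem_chart_target E4 x))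
    have h8 : Ψ.target ∈ 𝓝 ((chartAt E4 x).symm (h y)) := by
      rw [hhy, (chartAt E4 x).left_inv hxs]
      exact Ψ.open_target.mem_nhds hyT
    filter_upwards [h7.preimage_mem_nhds h8] with y' hy'
    show G ((chartAt E4 x).symm y') = G (Ψ (Ψ.symm ((chartAt E4 x).symm y')))
    rw [Ψ.right_inv hy']
  have hcomp : fderiv ℝ (fun y => G (Ψ y)) y = (fderiv ℝ g (h y)).comp (fderiv ℝ h y) := by
    rw [← fderiv_comp y hg1 hh1]
    refine Filter.EventuallyEq.fderiv_eq ?_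
    have h7 : ContinuousAt Ψ y := Ψ.continuousAt hy
    filter_upwards [h7.preimage_mem_nhds ((chartAt E4 x).open_source.mem_nhds hxs)] with y' hy'
    show G (Ψ y') = G ((chartAt E4 x).symm (chartAt E4 x (Ψ y')))
    rw [(chartAt E4 x).left_inv hy']
  rw [hcomp]
  rfl

end Man

section Weak

variable {M : Type*} [TopologicalSpace M] [T2Space M] [CompactSpace M] [ChartedSpace E4 M]
  [IsManifold 𝓘(ℝ, E4) ∞ M] [MeasurableSpace M] [BorelSpace M]

theorem weak_param {F : F2 E4 M} (hF : Vol F) {Ψ : OpenPartialHomeomorph E4 M}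
    (hΨ : ContMDiffOn 𝓘(ℝ, E4) 𝓘(ℝ, E4) ∞ Ψ Ψ.source)
    (hΨs : ContMDiffOn 𝓘(ℝ, E4) 𝓘(ℝ, E4) ∞ Ψ.symm Ψ.target) {p : M}
    (hsub : Ψ.target ⊆ (chartAt E4 p).source)
    (hpos : ∀ y ∈ Ψ.source, 0 < W (pb2 Ψ F y) (pb2 Ψ F y))
    {n : ℕ} {f z : Fin n → ℂ → ℂ} {m : Fin n → ℕ}
    {e : Fin n → OpenPartialHomeomorph ℂ ℂ} {ρ : Fin n → ℝ}
    (B : ∀ j, Br (f j) (z j) (m j) (e j) (ρ j))
    (hOρ : ∀ j, ∀ y ∈ Ψ.source, sL y ∈ ball (0 : ℂ) (ρ j ^ m j))
    {G : M → ℂ} (hG : ∀ y ∈ Ψ.source,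
      G (Ψ y) = bp m (fun j w => z j ((e j).symm w)) (sL y) (vL y))
    {χ : M → ℝ} (hχ : SmoothF E4 χ) (hχs : tsupport χ ⊆ Ψ.target) {η : F2 E4 M}
    (hη : Smooth2 η) (hηc : Closed2 η) :
    Int.I F (wedG (dArg G) (dF χ)) η =
      ∑ j, ∫ s in (e j).source, exF Ψ χ (mk (f j s) (z j s)) * pb2 Ψ η (mk (f j s) (z j s))
        (mk (fderiv ℝ (f j) s 1) (fderiv ℝ (z j) s 1))
        (mk (fderiv ℝ (f j) s Complex.I) (fderiv ℝ (z j) s Complex.I)) := by
  have hχm : ContMDiff 𝓘(ℝ, E4) 𝓘(ℝ, ℝ) ∞ χ := fun x =>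
    (contMDiffAt_F (mem_chart_source E4 x) χ).2 (hχ.at (mem_chart_target E4 x))
  have hbs : ContDiffOn ℝ ∞ (pb2 Ψ η) Ψ.source := pb2_contDiffOn Ψ.open_source hΨ hη
  have halt : ∀ y ∈ Ψ.source, Alt (pb2 Ψ η y) := by
    intro y _ v
    rw [pb2_apply]
    exact hη.1 _ _
  have hcl : ∀ y ∈ Ψ.source, Cl (pb2 Ψ η) y := by
    intro y hy
    have hd : DifferentiableAt ℝ (pb2 Ψ η) y :=
      (hbs.contDiffAt (Ψ.open_source.mem_nhds hy)).differentiableAt (by simp)
    rw [cl_iff_dd hd (by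
      filter_upwards [Ψ.open_source.mem_nhds hy] with x hx using halt x hx)]
    exact fun u v w => dd_pb2 Ψ.open_source hΨ hy hη hηc u v w
  have h0 : ∀ x ∉ Ψ.target, qG F (wedG (dArg G) (dF χ)) η x = 0 := by
    intro x hx
    have h1 : at1 (dF (E := E4) χ) x = 0 := Int.at1_dF_zero fun h => hx (hχs h)
    have h2 : at2 (wedG (dArg G) (dF χ)) x = 0 := by
      ext u v
      have : at2 (wedG (dArg G) (dF χ)) x u v =
        at1 (dArg G) x u * at1 (dF (E := E4) χ) x v - at1 (dF (E := E4) χ) x u * at1 (dArg G) x v := rfl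
      rw [this, h1]
      simp
    rw [qG, h2]
    simp [q, W, ent]
  have hwa : ∀ x, Alt (at2 (wedG (dArg G) (dF χ)) x) := fun x =>
    wed_alt (at1 (dArg G) x) (at1 (dF (E := E4) χ) x)
  rw [I_param hF hΨ hsub hpos hwa hη.1 h0,
    ← planar B Ψ.open_source hOρ (hbs.of_le (by exact_mod_cast le_top)) halt hcl
      (exF_smooth hΨ hχm hχs) (exF_tsupport hχs).2 (exF_tsupport hχs).1]
  set Z : Fin n → ℂ → ℂ := fun j w => z j ((e j).symm w) with hZ
  have hZd : ∀ j, ∀ w ∈ ball (0 : ℂ) (ρ j), DifferentiableAt ℝ (Z j) w := by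
    intro j w hw
    have h1 : w ∈ (e j).target := by rw [(B j).tgt]; exact hw
    exact ((B j).diff_z ((e j).map_target h1)).comp w ((B j).des w hw)
  -- almost every point
  have hae : ∀ᵐ y : E4, sL y ≠ 0 ∧ ∀ j, sL y ∈ ball (0 : ℂ) (ρ j ^ m j) →
      rp (m j) (Z j) (sL y) (vL y) ≠ 0 := by
    rw [← mp_mk.map_eq, emb_mk.ae_map_iff]
    have h1 : ∀ᵐ p : ℂ × ℂ, p.1 ≠ 0 :=
      (Measure.quasiMeasurePreserving_fst (μ := (volume : Measure ℂ))
        (ν := (volume : Measure ℂ))).ae (by simp [ae_iff] : ∀ᵐ t : ℂ, t ≠ 0)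
    have h2 : ∀ j, ∀ᵐ p : ℂ × ℂ, p.1 ∈ ball (0 : ℂ) (ρ j ^ m j) →
        rp (m j) (Z j) p.1 p.2 ≠ 0 := fun j =>
      rp_ae (B j).hm (B j).ρ0.le fun w hw => (hZd j w hw).continuousAt.continuousWithinAt
    filter_upwards [h1, ae_all_iff.2 h2] with p hp hp2
    simp only [sL_mk, vL_mk]
    exact ⟨hp, hp2⟩
  refine setIntegral_congr_ae Ψ.open_source.measurableSet ?_
  filter_upwards [hae] with y hy hys
  have hdF : pb1 Ψ (dF (E := E4) χ) y = fderiv ℝ (exF Ψ χ) y := by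
    rw [pb1_dF (hΨ.contMDiffAt (Ψ.open_source.mem_nhds hys)) hχ, (exF_ev hys).fderiv_eq]
  have hne : bp m Z (sL y) (vL y) ≠ 0 :=
    Finset.prod_ne_zero_iff.2 fun j _ => hy.2 j (hOρ j y hys)
  have hder : HasFDerivAt (fun y => G (Ψ y)) ((bp m Z (sL y) (vL y) •
      ∑ j, ld (m j) (Z j) (sL y, vL y)).comp (sL.prod vL)) y := by
    have h1 := hasFDerivAt_bp (m := m) (Z := Z) (fun j => (B j).hm) hy.1 (z := vL y)
      (fun c w hw => hZd c w (by
        have h2 := hOρ c y hys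
        rw [mem_ball_zero_iff, ← hw, norm_pow] at h2
        rw [mem_ball_zero_iff]
        exact lt_of_pow_lt_pow_left₀ (m c) (B c).ρ0.le h2)) hne
    have h3 : HasFDerivAt (fun y : E4 => (sL y, vL y)) (sL.prod vL) y := (sL.prod vL).hasFDerivAt
    refine (h1.comp y h3).congr_of_eventuallyEq ?_
    filter_upwards [Ψ.open_source.mem_nhds hys] with x hx
    exact hG x hx
  have hdA : pb1 Ψ (dArg G) y = ∑ j, OM (Z j) (m j) y := by
    rw [pb_dArg hΨ hΨs hys hder.differentiableAt, hder.fderiv, hG y hys]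
    ext u
    simp only [sum_apply, smul_apply, ContinuousLinearMap.comp_apply,
      ContinuousLinearMap.prod_apply, Complex.imCLM_apply, smul_eq_mul]
    rw [← mul_assoc, inv_mul_cancel₀ hne, one_mul, Complex.im_sum, Finset.mul_sum]
    exact Finset.sum_congr rfl fun j _ => (OM_apply (B j).hm (Z j) y u).symm
  have hpb : pb2 Ψ (wedG (dArg G) (dF χ)) y =
      wed (∑ j, OM (Z j) (m j) y) (fderiv ℝ (exF Ψ χ) y) := by
    rw [← hdA, ← hdF]
    ext u v
    rw [pb2_wedG, wed_apply]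
  rw [hpb]

end Weak

end

end Crest.Agent.R235.Wk_250
end

-- ▼ part R235/WkJ_250
section

/-!
Row 235 (S0364), package ADJ, helper250: **WEAK**, the field `weak` of `Adj.Box`, from a foliation
box `Adj.FBox`.
-/

set_option autoImplicit false
set_option maxSynthPendingDepth 3

open Set Function Filter MeasureTheory Metric Module
open scoped Manifold ContDiff Topology ENNReal

universe u

namespace Crest.Agent.R235.Wk_250

open Crest.Agent.R240 Crest.Agent.R240.En Crest.Agent.R240.Ch Crest.Agent.R235.RootProd_266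
open Crest.Agent.R235.Pull_129 Crest.Agent.R235.BranchProd_266 Crest.Agent.R235.WkG_250
open Crest.Agent.R240.Int (Vol)
open Crest.Agent.R235.Glob_370 Crest.Agent.R235.BrNF_266
open Crest.Agent.R235.Adj (dArg FBox II)

noncomputable section

/-! ### orientation of a branch -/

section NF

variable {f : ℂ → ℂ} {m : ℕ} {e : OpenPartialHomeomorph ℂ ℂ} {b : ℂ} {ρ K : ℝ} {n : ℕ∞}

lemma nf_diff (h : NF n f m e b ρ K) {s : ℂ} (hs : s ∈ e.source) : DifferentiableAt ℝ e s :=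
  (h.c1.contDiffAt (e.open_source.mem_nhds hs)).differentiableAt one_ne_zero

lemma nf_diffs (h : NF n f m e b ρ K) {w : ℂ} (hw : w ∈ ball (0 : ℂ) ρ) :
    DifferentiableAt ℝ e.symm w :=
  (h.c1s.contDiffAt (isOpen_ball.mem_nhds hw)).differentiableAt one_ne_zero

lemma nf_det_ne (h : NF n f m e b ρ K) {s : ℂ} (hs : s ∈ e.source) :
    (fderiv ℝ e s).det ≠ 0 := by
  have hw : e s ∈ ball (0 : ℂ) ρ := by rw [← h.tgt]; exact e.map_source hs
  have h3 : (fderiv ℝ e.symm (e s)).comp (fderiv ℝ e s) = ContinuousLinearMap.id ℝ ℂ := by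
    have h4 : (fun x => e.symm (e x)) =ᶠ[𝓝 s] id := by
      filter_upwards [e.open_source.mem_nhds hs] with x hx using e.left_inv hx
    have h5 := ((nf_diffs h hw).hasFDerivAt.comp s (nf_diff h hs).hasFDerivAt).fderiv
    rw [← h5]
    have h6 : fderiv ℝ (fun x => e.symm (e x)) s = fderiv ℝ id s := h4.fderiv_eq
    rw [fderiv_id] at h6
    exact h6
  intro h0
  have h1 : ((fderiv ℝ e.symm (e s)).comp (fderiv ℝ e s)).det = 1 := by
    rw [h3]; exact LinearMap.det_id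
  have h2 : ((fderiv ℝ e.symm (e s)).comp (fderiv ℝ e s)).det =
      (fderiv ℝ e.symm (e s)).det * (fderiv ℝ e s).det :=
    LinearMap.det_comp _ _
  rw [h2, h0, mul_zero] at h1
  exact zero_ne_one h1

lemma nf_det_pos (h : NF n f m e b ρ K) {s : ℂ} (hs : s ∈ e.source) :
    0 < (fderiv ℝ e s).det := by
  set D : ℂ → ℝ := fun w => (fderiv ℝ e (e.symm w)).det with hD
  have hsrc : ∀ w ∈ ball (0 : ℂ) ρ, e.symm w ∈ e.source := fun w hw =>
    e.map_target (by rw [h.tgt]; exact hw)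
  have hc : ContinuousOn D (ball 0 ρ) := by
    have h1 : ContinuousOn (fderiv ℝ e) e.source :=
      h.c1.continuousOn_fderiv_of_isOpen e.open_source le_rfl
    have h2 : ContinuousOn e.symm (ball 0 ρ) := by rw [← h.tgt]; exact e.continuousOn_symm
    exact ContinuousLinearMap.continuous_det.comp_continuousOn (h1.comp h2 hsrc)
  have h0 : 0 < D 0 := by
    have h1 : e.symm 0 = 0 := by
      have := e.left_inv h.src
      rwa [h.zero] at this
    have h2 : fderiv ℝ e 0 = mulc b := by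
      have := h.dbd 0 h.src
      rw [norm_zero, mul_zero] at this
      exact sub_eq_zero.1 (norm_le_zero_iff.1 this)
    show 0 < (fderiv ℝ e (e.symm 0)).det
    rw [h1, h2, mulc, det_smul_one]
    exact Complex.normSq_pos.2 h.b0
  have hw : e s ∈ ball (0 : ℂ) ρ := by rw [← h.tgt]; exact e.map_source hs
  have hDs : D (e s) = (fderiv ℝ e s).det := by
    show (fderiv ℝ e (e.symm (e s))).det = _
    rw [e.left_inv hs]
  rw [← hDs]
  by_contra hneg
  have h5 : (0 : ℝ) ∈ Icc (D (e s)) (D 0) := ⟨not_lt.1 hneg, h0.le⟩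
  obtain ⟨w, hw', hw0⟩ := (convex_ball (0 : ℂ) ρ).isPreconnected.intermediate_value hw
    (mem_ball_self h.ρ0) hc h5
  exact nf_det_ne h (hsrc w hw') hw0

lemma nf_det (h : NF n f m e b ρ K) {s : ℂ} (hs : s ∈ e.source) :
    0 ≤ (fderiv ℝ f s).det := by
  have h1 : (fun x => e x ^ m) =ᶠ[𝓝 s] f := by
    filter_upwards [e.open_source.mem_nhds hs] with x hx using h.pow x hx
  have h2 : HasFDerivAt (fun x => e x ^ m)
      (((m * e s ^ (m - 1) : ℂ) • (1 : ℂ →L[ℝ] ℂ)).comp (fderiv ℝ e s)) s :=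
    (hasFDerivAt_pow_real m (e s)).comp s (nf_diff h hs).hasFDerivAt
  rw [← h1.fderiv_eq, h2.fderiv]
  have h3 : (((m * e s ^ (m - 1) : ℂ) • (1 : ℂ →L[ℝ] ℂ)).comp (fderiv ℝ e s)).det =
      ((m * e s ^ (m - 1) : ℂ) • (1 : ℂ →L[ℝ] ℂ)).det * (fderiv ℝ e s).det :=
    LinearMap.det_comp _ _
  rw [h3, det_smul_one]
  exact mul_nonneg (Complex.normSq_nonneg _) (nf_det_pos h hs).le

end NF

/-! ### tamed forms are positively oriented -/

lemma W_pos_of_tame {b : Bil} (hb : Alt b)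
    (h : ∀ v : ℂ × ℂ, v ≠ 0 → 0 < b (mk v.1 v.2) (mk (Complex.I * v.1) (Complex.I * v.2))) :
    0 < W b b := by
  have h1 : ∀ x t : ℝ, 0 < ent b 0 1 + (x ^ 2 + t ^ 2) * ent b 2 3 +
      x * (ent b 0 3 - ent b 1 2) - t * (ent b 0 2 + ent b 1 3) := by
    intro x t
    have h2 := h (1, ⟨x, t⟩) (fun h => by simp [Prod.ext_iff] at h)
    rw [alt_expand hb] at h2
    simp only [mk_0, mk_1, mk_2, mk_3] at h2
    simp at h2
    linarith
  have h23 : 0 < ent b 2 3 := by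
    have h2 := h (0, 1) (fun h => by simp [Prod.ext_iff] at h)
    rw [alt_expand hb] at h2
    simp only [mk_0, mk_1, mk_2, mk_3] at h2
    simp at h2
    linarith
  set α := ent b 0 3 - ent b 1 2 with hα
  set β := ent b 0 2 + ent b 1 3 with hβ
  have h3 := h1 (-α / (2 * ent b 2 3)) (β / (2 * ent b 2 3))
  have h4 : 0 < ent b 0 1 * ent b 2 3 - (α ^ 2 + β ^ 2) / 4 := by
    have h5 : ent b 0 1 + ((-α / (2 * ent b 2 3)) ^ 2 + (β / (2 * ent b 2 3)) ^ 2) * ent b 2 3 +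
      (-α / (2 * ent b 2 3)) * α - (β / (2 * ent b 2 3)) * β =
      (ent b 0 1 * ent b 2 3 - (α ^ 2 + β ^ 2) / 4) / ent b 2 3 := by
      field_simp
      ring
    rw [h5] at h3
    exact (div_pos_iff_of_pos_right h23).1 h3
  unfold W
  nlinarith [sq_nonneg (ent b 0 3 + ent b 1 2), sq_nonneg (ent b 0 2 - ent b 1 3)]

/-! ### the parametrisation of a foliation box -/

section Box

variable {M : Type u} [TopologicalSpace M] [ChartedSpace E4 M] [IsManifold 𝓘(ℝ, E4) ∞ M]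
variable {J : EndF E4 M} {c : JCurve J} {p : M} {V : Set M}

/-- the coordinates on `E4`. -/
def PsiB (B : FBox c p V) (δ : ℝ) : OpenPartialHomeomorph E4 M :=
  (mkE.symm.toHomeomorph.toOpenPartialHomeomorph).trans (B.Θ.restrOpen (ball 0 δ) isOpen_ball)

lemma PsiB_apply (B : FBox c p V) (δ : ℝ) (y : E4) : PsiB B δ y = B.Θ (sL y, vL y) := rfl


lemma PsiB_source (B : FBox c p V) {δ : ℝ} (hδ : δ ≤ B.R) (y : E4) :
    y ∈ (PsiB B δ).source ↔ (sL y, vL y) ∈ ball (0 : ℂ × ℂ) δ := by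
  have h : (PsiB B δ).source = {y | (sL y, vL y) ∈ B.Θ.source ∩ ball (0 : ℂ × ℂ) δ} := by
    ext y
    simp [PsiB, mkE_symm_apply]
  rw [h, B.source, inter_eq_self_of_subset_right (ball_subset_ball hδ)]
  rfl

lemma PsiB_target (B : FBox c p V) {δ : ℝ} (hδ : δ ≤ B.R) :
    (PsiB B δ).target = B.Θ '' ball (0 : ℂ × ℂ) δ := by
  rw [← (PsiB B δ).image_source_eq_target]
  ext x
  constructor
  · rintro ⟨y, hy, rfl⟩
    exact ⟨(sL y, vL y), (PsiB_source B hδ y).1 hy, rfl⟩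
  · rintro ⟨q, hq, rfl⟩
    refine ⟨mk q.1 q.2, (PsiB_source B hδ _).2 (by simpa using hq), ?_⟩
    rw [PsiB_apply, sL_mk, vL_mk]

lemma PsiB_smooth (B : FBox c p V) {δ : ℝ} (hδ : δ ≤ B.R) :
    ContMDiffOn 𝓘(ℝ, E4) 𝓘(ℝ, E4) ∞ (PsiB B δ) (PsiB B δ).source := by
  have h1 : ContMDiff 𝓘(ℝ, E4) 𝓘(ℝ, ℂ × ℂ) ∞ (fun y : E4 => (sL y, vL y)) :=
    (sL.contDiff.prodMk vL.contDiff).contMDiff
  exact B.smooth.comp h1.contMDiffOn fun y hy =>
    ball_subset_ball hδ ((PsiB_source B hδ y).1 hy)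

lemma PsiB_smooth_symm (B : FBox c p V) {δ : ℝ} (hδ : δ ≤ B.R) :
    ContMDiffOn 𝓘(ℝ, E4) 𝓘(ℝ, E4) ∞ (PsiB B δ).symm (PsiB B δ).target := by
  have h1 : ContMDiff 𝓘(ℝ, ℂ × ℂ) 𝓘(ℝ, E4) ∞ (fun q : ℂ × ℂ => mkE q) :=
    mkE.contDiff.contMDiff
  refine (h1.comp_contMDiffOn (B.smooth_symm)).mono ?_
  rw [PsiB_target B hδ, ← B.Θ.image_source_eq_target, B.source]
  exact image_mono (ball_subset_ball hδ)

lemma B_smAt (B : FBox c p V) {q : ℂ × ℂ} (hq : q ∈ ball (0 : ℂ × ℂ) B.R) :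
    ContMDiffAt 𝓘(ℝ, ℂ × ℂ) 𝓘(ℝ, E4) ∞ B.Θ q := B.smooth.contMDiffAt (isOpen_ball.mem_nhds hq)

/-- the differential of the coordinates in `ℂ × ℂ`. -/
lemma dL_PsiB (B : FBox c p V) {y : E4} (hy : (sL y, vL y) ∈ ball (0 : ℂ × ℂ) B.R) (δ : ℝ)
    (u : E4) : dL (E := E4) (PsiB B δ) y u = dmap B.Θ (sL y, vL y) (sL u, vL u) := by
  have h1 : DifferentiableAt ℝ (fun y : E4 => (sL y, vL y)) y :=
    ((sL.prod vL).hasFDerivAt (x := y)).differentiableAt
  have h2 := dL_comp (Φ := B.Θ) (g := fun y : E4 => (sL y, vL y)) (z := y) (B_smAt B hy) h1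
  have h3 : fderiv ℝ (fun y : E4 => (sL y, vL y)) y = sL.prod vL :=
    ((sL.prod vL).hasFDerivAt (x := y)).fderiv
  rw [h3] at h2
  have h4 := congrArg (fun A : E4 →L[ℝ] E4 => A u) h2
  exact h4

lemma dmap_inj (B : FBox c p V) {q : ℂ × ℂ} (hq : q ∈ ball (0 : ℂ × ℂ) B.R) {v : ℂ × ℂ}
    (h : dmap B.Θ q v = 0) : v = 0 := by
  have hqs : q ∈ B.Θ.source := by rw [B.source]; exact hq
  set x : M := B.Θ q with hx
  have hxs : x ∈ (chartAt E4 x).source := mem_chart_source E4 x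
  have hh1 : DifferentiableAt ℝ (fun z => chartAt E4 x (B.Θ z)) q :=
    (inC_contDiffAt (B_smAt B hq) hxs).differentiableAt (by simp)
  have hk : DifferentiableAt ℝ (fun y' => B.Θ.symm ((chartAt E4 x).symm y')) (chartAt E4 x x) := by
    have h1 : ContMDiffAt 𝓘(ℝ, E4) 𝓘(ℝ, E4) ∞ (chartAt E4 x).symm (chartAt E4 x x) :=
      (contMDiffOn_chart_symm (I := 𝓘(ℝ, E4)) (x := x)).contMDiffAt
        ((chartAt E4 x).open_target.mem_nhds (mem_chart_target E4 x))
    have h2 : (chartAt E4 x).symm (chartAt E4 x x) = x := (chartAt E4 x).left_inv hxs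
    have h3 : ContMDiffAt 𝓘(ℝ, E4) 𝓘(ℝ, ℂ × ℂ) ∞ B.Θ.symm
        ((chartAt E4 x).symm (chartAt E4 x x)) := by
      rw [h2]
      exact B.smooth_symm.contMDiffAt (B.Θ.open_target.mem_nhds (B.Θ.map_source hqs))
    exact (h3.comp (chartAt E4 x x) h1).contDiffAt.differentiableAt (by simp)
  have hid : (fun z => B.Θ.symm ((chartAt E4 x).symm (chartAt E4 x (B.Θ z)))) =ᶠ[𝓝 q] id := by
    have h7 : ContinuousAt B.Θ q := B.Θ.continuousAt hqs
    filter_upwards [h7.preimage_mem_nhds ((chartAt E4 x).open_source.mem_nhds hxs),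
      B.Θ.open_source.mem_nhds hqs] with z hz hz'
    rw [(chartAt E4 x).left_inv hz, B.Θ.left_inv hz']
    rfl
  have hcomp := fderiv_comp (f := fun z => chartAt E4 x (B.Θ z))
    (g := fun y' => B.Θ.symm ((chartAt E4 x).symm y')) q hk hh1
  have h5 : fderiv ℝ (fun z => B.Θ.symm ((chartAt E4 x).symm (chartAt E4 x (B.Θ z)))) q v = v := by
    rw [hid.fderiv_eq, fderiv_id]; rfl
  have h6 : fderiv ℝ (fun z => chartAt E4 x (B.Θ z)) q v = 0 := h
  have h7 : fderiv ℝ (fun z => B.Θ.symm ((chartAt E4 x).symm (chartAt E4 x (B.Θ z)))) q v =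
      fderiv ℝ (fun y' => B.Θ.symm ((chartAt E4 x).symm y')) (chartAt E4 x (B.Θ q))
        (fderiv ℝ (fun z => chartAt E4 x (B.Θ z)) q v) :=
    congrArg (fun A : ℂ × ℂ →L[ℝ] ℂ × ℂ => A v) hcomp
  rw [h5, h6, map_zero] at h7
  exact h7

end Box

section Pos

variable {M : Type u} [TopologicalSpace M] [T2Space M] [CompactSpace M]
  [ChartedSpace E4 M] [IsManifold 𝓘(ℝ, E4) ∞ M]
variable {J : EndF E4 M} {c : JCurve J} {p : M} {V : Set M} {w : Trip M}

omit [T2Space M] [CompactSpace M] in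
/-- the coordinates are positively oriented near the centre. -/
lemma PsiB_pos (hJ : IsJ w J) (B : FBox c p V) (δ : ℝ) :
    ∀ᶠ y in 𝓝 (0 : E4), 0 < W (pb2 (PsiB B δ) ((w 0).1.1 : F2 E4 M) y)
      (pb2 (PsiB B δ) ((w 0).1.1 : F2 E4 M) y) := by
  have h00 : (sL (0 : E4), vL (0 : E4)) = (0 : ℂ × ℂ) := by simp
  have hRm : (sL (0 : E4), vL (0 : E4)) ∈ ball (0 : ℂ × ℂ) B.R := by
    rw [h00]; exact mem_ball_self B.R_pos
  have hsm : Smooth2 ((w 0).1.1 : F2 E4 M) := (w 0).1.2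
  have h0 : 0 < W (pb2 (PsiB B δ) ((w 0).1.1 : F2 E4 M) 0)
      (pb2 (PsiB B δ) ((w 0).1.1 : F2 E4 M) 0) := by
    refine W_pos_of_tame ?_ ?_
    · rw [pb2_eq_pull]
      exact Alt.pull (hsm.1 _) _
    · intro v hv
      rw [pb2_apply, dL_PsiB B hRm, dL_PsiB B hRm]
      simp only [sL_mk, vL_mk]
      have h1 : ((Complex.I * v.1, Complex.I * v.2) : ℂ × ℂ) = B.J' (sL (0 : E4), vL (0 : E4)) v := by
        rw [h00, B.J0]; rfl
      rw [h1, B.conj _ hRm]
      exact hJ.tame _ _ fun h => hv (dmap_inj B hRm h)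
  have hU : IsOpen {y : E4 | (sL y, vL y) ∈ ball (0 : ℂ × ℂ) B.R} :=
    isOpen_ball.preimage (sL.continuous.prodMk vL.continuous)
  have hsmo : ContMDiffOn 𝓘(ℝ, E4) 𝓘(ℝ, E4) ∞ (PsiB B δ)
      {y : E4 | (sL y, vL y) ∈ ball (0 : ℂ × ℂ) B.R} := by
    have h1 : ContMDiff 𝓘(ℝ, E4) 𝓘(ℝ, ℂ × ℂ) ∞ (fun y : E4 => (sL y, vL y)) :=
      (sL.contDiff.prodMk vL.contDiff).contMDiff
    exact B.smooth.comp h1.contMDiffOn fun y hy => hy
  have hc : ContinuousAt (pb2 (PsiB B δ) ((w 0).1.1 : F2 E4 M)) 0 :=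
    ((pb2_contDiffOn hU hsmo hsm).contDiffAt (hU.mem_nhds hRm)).continuousAt
  have hcW : ContinuousAt (fun y => W (pb2 (PsiB B δ) ((w 0).1.1 : F2 E4 M) y)
      (pb2 (PsiB B δ) ((w 0).1.1 : F2 E4 M) y)) 0 := by
    have h2 : ContinuousOn (fun b : Bil => W b b) univ :=
      Int.continuousOn_W continuousOn_id continuousOn_id
    exact (continuousOn_univ.1 h2).continuousAt.comp hc
  exact hcW.eventually (lt_mem_nhds h0)

end Pos

end

end Crest.Agent.R235.Wk_250
end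

-- ▼ part R235/WkK_250

/-!
Row 235 (S0364), package ADJ, helper250: **WEAKP** (`BoxE_266`), the weak equation
`d ((1/2π) d arg F) = [c]` near a point of a `J`-curve.
-/

set_option autoImplicit false
set_option maxSynthPendingDepth 3

open Set Function Filter MeasureTheory Metric Module
open scoped Manifold ContDiff Topology ENNReal

universe u

namespace Crest.Agent.R235.Wk_250

open Crest.Agent.R240 Crest.Agent.R240.En Crest.Agent.R240.Ch Crest.Agent.R235.RootProd_266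
open Crest.Agent.R235.Pull_129 Crest.Agent.R235.BranchProd_266 Crest.Agent.R235.WkG_250
open Crest.Agent.R240.Int (Vol)
open Crest.Agent.R235.Glob_370 Crest.Agent.R235.BrNF_266
open Crest.Agent.R235.Adj (dArg FBox II)
open Crest.Agent.R235.BoxL2_266

noncomputable section

section Closed

variable {M : Type u} [TopologicalSpace M] [T2Space M] [CompactSpace M]
  [ChartedSpace E4 M] [IsManifold 𝓘(ℝ, E4) ∞ M]
variable {J : EndF E4 M} {c : JCurve J} {p : M} {V : Set M}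

omit [CompactSpace M] in
/-- near `p` only the small discs meet `Θ (ball 0 δ)`. -/
lemma proper_near (B : FBox c p V) (j : Fin (c.L p).n) {O : Set ℂ} (hO : IsOpen O)
    (h0 : (0 : ℂ) ∈ O) : ∀ᶠ q in 𝓝 (0 : ℂ × ℂ), ∀ s ∈ ball (0 : ℂ) 1,
      (c.L p).u j s = B.Θ q → s ∈ O := by
  -- a compact neighbourhood of `p` in `U_p`
  have hΘc : ContinuousAt B.Θ 0 := B.Θ.continuousAt (by rw [B.source]; exact mem_ball_self B.R_pos)
  set K : Set M := B.Θ '' closedBall (0 : ℂ × ℂ) (B.R / 2) with hK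
  have hsub : closedBall (0 : ℂ × ℂ) (B.R / 2) ⊆ B.Θ.source := by
    rw [B.source]
    exact closedBall_subset_ball (by linarith [B.R_pos])
  have hKc : IsCompact K := (isCompact_closedBall _ _).image_of_continuousOn
    (B.Θ.continuousOn.mono hsub)
  have hKU : K ⊆ (c.L p).U := by
    rintro _ ⟨q, hq, rfl⟩
    exact (B.target (B.Θ.map_source (hsub hq))).2
  obtain ⟨r, hr, hprop⟩ := (c.L p).proper j K hKc hKU
  -- the compact set of bad parameters
  set A : Set ℂ := closedBall (0 : ℂ) r \ O with hA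
  have hAc : IsCompact A := (isCompact_closedBall _ _).diff hO
  have hAb : A ⊆ ball 0 1 := fun s hs => closedBall_subset_ball hr hs.1
  have huc : ContinuousOn ((c.L p).u j) (ball 0 1) := ((c.L p).disc j).hol.smooth.continuousOn
  have huA : IsCompact ((c.L p).u j '' A) := hAc.image_of_continuousOn (huc.mono hAb)
  have hp : p ∉ (c.L p).u j '' A := by
    rintro ⟨s, hs, hsp⟩
    have h1 : s = 0 := ((c.L p).disc j).inj (hAb hs) (mem_ball_self one_pos)
      (hsp.trans ((c.L p).centre j).symm)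
    rw [h1] at hs
    exact hs.2 h0
  have hn : ((c.L p).u j '' A)ᶜ ∈ 𝓝 (B.Θ 0) := by
    rw [B.centre]
    exact huA.isClosed.isOpen_compl.mem_nhds hp
  filter_upwards [hΘc.preimage_mem_nhds hn, closedBall_mem_nhds (0 : ℂ × ℂ)
    (half_pos B.R_pos)] with q hq hq' s hs hsq
  by_contra hsO
  apply hq
  refine ⟨s, ⟨?_, hsO⟩, hsq⟩
  rw [mem_closedBall_zero_iff]
  exact hprop s hs (by rw [hsq]; exact ⟨q, hq', rfl⟩)

end Closed

/-- **WEAKP.** -/
theorem weakp : WEAKP.{u} := by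
  intro M _ _ _ _ _ _ w J hw hJ c p V B P
  -- the branches
  have hBr : ∀ j, Br (fun s => (B.v j s).1) (fun s => (B.v j s).2) (B.m j) (P.e j) P.ρ := by
    intro j
    have hvs : ContDiffOn ℝ ∞ (B.v j) (P.e j).source := (B.v_smooth j).mono (P.src j)
    exact
      { hm := Nat.one_le_iff_ne_zero.1 (B.m_pos j)
        ρ0 := P.ρ_pos
        tgt := (P.nf j).tgt
        src := (P.nf j).src
        zero := (P.nf j).zero
        pow := (P.nf j).pow
        smf := contDiff_fst.comp_contDiffOn hvs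
        smz := contDiff_snd.comp_contDiffOn hvs
        de := fun s hs => nf_diff (P.nf j) hs
        des := fun s hs => nf_diffs (P.nf j) hs
        det := fun s hs => nf_det (P.nf j) hs }
  -- the radius
  have hΘc : ContinuousAt B.Θ 0 := B.Θ.continuousAt (by rw [B.source]; exact mem_ball_self B.R_pos)
  have hev1 : ∀ᶠ q in 𝓝 (0 : ℂ × ℂ), B.Θ q ∈ (chartAt E4 p).source :=
    hΘc.preimage_mem_nhds (by
      rw [B.centre]; exact (chartAt E4 p).open_source.mem_nhds (mem_chart_source E4 p))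
  have hev2 : ∀ᶠ q in 𝓝 (0 : ℂ × ℂ), ∀ j, ∀ s ∈ ball (0 : ℂ) 1,
      (c.L p).u j s = B.Θ q → s ∈ (P.e j).source := by
    rw [eventually_all]
    exact fun j => proper_near B j (P.e j).open_source (P.nf j).src
  have hev3 : ∀ᶠ q in 𝓝 (0 : ℂ × ℂ), ∀ δ, 0 < W (pb2 (PsiB B δ) ((w 0).1.1 : F2 E4 M) (mkE q))
      (pb2 (PsiB B δ) ((w 0).1.1 : F2 E4 M) (mkE q)) := by
    have h1 := PsiB_pos hJ B 0
    have h2 : Tendsto (fun q : ℂ × ℂ => mkE q) (𝓝 0) (𝓝 (0 : E4)) := by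
      have := mkE.continuous.tendsto (0 : ℂ × ℂ)
      rwa [map_zero] at this
    filter_upwards [h2.eventually h1] with q hq δ using hq
  obtain ⟨δ1, hδ1, hball⟩ := Metric.eventually_nhds_iff_ball.1 (hev1.and (hev2.and hev3))
  refine ⟨min δ1 P.δ, lt_min hδ1 P.δ_pos, fun δ hδ hδle χ hχ hχs η b hb => ?_⟩
  have hδ' : δ ≤ δ1 := hδle.trans (min_le_left _ _)
  have hδP : δ ≤ P.δ := hδle.trans (min_le_right _ _)
  have hδR : δ ≤ B.R := hδP.trans (Pl.δ_le_R P)
  rw [UU_eq_image B hδR] at hχs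
  have hχT : tsupport χ ⊆ (PsiB B δ).target := by rw [PsiB_target B hδR]; exact hχs
  -- the right-hand side
  let _ : MeasurableSpace M := borel M
  have _ : BorelSpace M := ⟨rfl⟩
  have hR := weak_param (F := ((w 0).1.1 : F2 E4 M)) (hw.vol 0) (Ψ := PsiB B δ)
    (PsiB_smooth B hδR) (PsiB_smooth_symm B hδR) (p := p)
    (by
      rw [PsiB_target B hδR]
      rintro _ ⟨q, hq, rfl⟩
      exact (hball q (ball_subset_ball hδ' hq)).1)
    (by
      intro y hy
      have h1 := (PsiB_source B hδR y).1 hy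
      have h2 := (hball _ (ball_subset_ball hδ' h1)).2.2 δ
      rwa [mkE_apply, mk_sL_vL] at h2)
    hBr
    (by
      intro j y hy
      have h1 := (PsiB_source B hδR y).1 hy
      rw [mem_ball_zero_iff] at h1 ⊢
      exact ((norm_fst_le (sL y, vL y)).trans_lt h1).trans_le (hδP.trans (P.δ_lt j)))
    (G := P.F)
    (by
      intro y hy
      have h1 := (PsiB_source B hδR y).1 hy
      have h2 : B.Θ.symm (B.Θ (sL y, vL y)) = (sL y, vL y) :=
        B.Θ.left_inv (by rw [B.source]; exact ball_subset_ball hδR h1)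
      show P.G (B.Θ.symm (B.Θ (sL y, vL y))) = _
      rw [h2]
      rfl)
    hχ hχT (η := (η.1.1 : F2 E4 M)) η.1.2 η.2
  have hII : II (w 0) (wedG (dArg P.F) (dF χ)) (η.1.1 : F2 E4 M) =
      Int.I ((w 0).1.1 : F2 E4 M) (wedG (dArg P.F) (dF χ)) (η.1.1 : F2 E4 M) := rfl
  rw [hII, hR]
  -- the left-hand side
  have hcur := c.cur p b (tsupport χ) (isClosed_tsupport χ).isCompact
    (fun x hx => (UU_subL B δ) (by rw [UU_eq_image B hδR]; exact hχs hx))
    (by
      intro x hx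
      rw [hb]
      show χ x • at2 (η.1.1 : F2 E4 M) x = 0
      rw [image_eq_zero_of_notMem_tsupport hx, zero_smul])
  rw [hcur]
  refine Finset.sum_congr rfl fun j _ => ?_
  have hpbχ : ∀ s, pb ((c.L p).u j) (b.1 : F2 E4 M) s =
      χ ((c.L p).u j s) * pb ((c.L p).u j) (η.1.1 : F2 E4 M) s := by
    intro s
    rw [hb]
    rfl
  have hsub1 : (P.e j).source ⊆ ball (0 : ℂ) 1 :=
    (P.src j).trans (ball_subset_ball B.r1_le)
  rw [setIntegral_eq_of_subset_of_forall_sdiff_eq_zero measurableSet_ball hsub1]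
  · refine setIntegral_congr_fun (P.e j).open_source.measurableSet fun s hs => ?_
    show pb ((c.L p).u j) (b.1 : F2 E4 M) s = _
    have hs1 := P.src j hs
    have hvR := v_mem B j hs1
    have hΘv := Θ_v B j hs1
    rw [hpbχ]
    by_cases hq : B.v j s ∈ ball (0 : ℂ × ℂ) δ
    · have hmem : mk (B.v j s).1 (B.v j s).2 ∈ (PsiB B δ).source :=
        (PsiB_source B hδR _).2 (by rw [sL_mk, vL_mk]; exact hq)
      have hval : PsiB B δ (mk (B.v j s).1 (B.v j s).2) = (c.L p).u j s := by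
        rw [PsiB_apply, sL_mk, vL_mk]; exact hΘv
      rw [exF_of_mem hmem, hval]
      congr 1
      set g : ℂ → E4 := fun s => mk (B.v j s).1 (B.v j s).2 with hg
      have hvd : DifferentiableAt ℝ (B.v j) s :=
        ((B.v_smooth j).contDiffAt (isOpen_ball.mem_nhds hs1)).differentiableAt (by simp)
      have hgd : HasFDerivAt g (mkL.comp (fderiv ℝ (B.v j) s)) s := by
        have h1 : g = fun s => mkL (B.v j s) := by
          funext t; rw [mkL_apply]
        rw [h1]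
        exact mkL.hasFDerivAt.comp s hvd.hasFDerivAt
      have hf1 : ∀ h, fderiv ℝ g s h = mk (fderiv ℝ (fun s => (B.v j s).1) s h)
          (fderiv ℝ (fun s => (B.v j s).2) s h) := by
        intro h
        have h1 : HasFDerivAt (fun s => (B.v j s).1)
            ((ContinuousLinearMap.fst ℝ ℂ ℂ).comp (fderiv ℝ (B.v j) s)) s := hvd.hasFDerivAt.fst
        have h2 : HasFDerivAt (fun s => (B.v j s).2)
            ((ContinuousLinearMap.snd ℝ ℂ ℂ).comp (fderiv ℝ (B.v j) s)) s := hvd.hasFDerivAt.snd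
        rw [hgd.fderiv, h1.fderiv, h2.fderiv, ContinuousLinearMap.comp_apply, mkL_apply]
        rfl
      have hev : (c.L p).u j =ᶠ[𝓝 s] fun s => PsiB B δ (g s) := by
        filter_upwards [isOpen_ball.mem_nhds hs1] with t ht
        rw [PsiB_apply, sL_mk, vL_mk]
        exact (Θ_v B j ht).symm
      have h3 : pb ((c.L p).u j) (η.1.1 : F2 E4 M) s =
          pb2 ((c.L p).u j) (η.1.1 : F2 E4 M) s 1 Complex.I := rfl
      have hsm : ContMDiffAt 𝓘(ℝ, E4) 𝓘(ℝ, E4) ∞ (PsiB B δ) (g s) :=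
        (PsiB_smooth B hδR).contMDiffAt ((PsiB B δ).open_source.mem_nhds hmem)
      rw [h3, pb2_congr hev, pb2_comp (Φ := PsiB B δ) (g := g) (z := s) hsm
        hgd.differentiableAt, hf1, hf1]
    · have h1 : mk (B.v j s).1 (B.v j s).2 ∉ (PsiB B δ).source := by
        intro h
        have h2 := (PsiB_source B hδR _).1 h
        rw [sL_mk, vL_mk] at h2
        exact hq h2
      have h2 : (c.L p).u j s ∉ tsupport χ := by
        intro h
        obtain ⟨q, hq', hqs⟩ := hχs h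
        have h3 : q = B.v j s := B.Θ.injOn (by rw [B.source]; exact ball_subset_ball hδR hq')
          (by rw [B.source]; exact hvR) (hqs.trans hΘv.symm)
        rw [← h3] at hq
        exact hq hq'
      rw [exF, indicator_of_notMem h1, image_eq_zero_of_notMem_tsupport h2, zero_mul, zero_mul]
  · intro s hs
    have h2 : (c.L p).u j s ∉ tsupport χ := by
      intro h
      obtain ⟨q, hq, hqs⟩ := hχs h
      exact hs.2 ((hball q (ball_subset_ball hδ' hq)).2.1 j s hs.1 hqs.symm)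
    rw [hpbχ, image_eq_zero_of_notMem_tsupport h2, zero_mul]

end

end Crest.Agent.R235.Wk_250
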