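import Crest.Agent.R235.HopfM_453
import Crest.Agent.R235.NumJ2_723
import Crest.Agent.R235.FamModT_307
import Crest.Agent.R235.ModXG_399
import Crest.Agent.R235.FamModX_307
import Crest.Agent.R235.FvD_952_Mg
import Crest.Agent.R235.Rn2_820
import Crest.Agent.R235.RcQc_215_Mg
import Crest.Agent.R235.FamTop_307
import Crest.Agent.R235.Weyl3_820
import Crest.Agent.R235.SWPfC_435
import Crest.Agent.R235.Fred_649
import Crest.Agent.R235.SWPfx_435
import Crest.Agent.R235.KumDisc_601_Mg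
import Crest.Agent.R235.Yauk_819
import Crest.Agent.R235.AdjCut_470_Mg
import Crest.Agent.R235.TorFamT_384
import Crest.Agent.R235.Cur3_4_Mg
import Crest.Agent.R235.SwcPRB_766_Mg
import Crest.Agent.R235.RegCMain_522
import Crest.Agent.R235.CurGeo2_133_Mg
import Crest.Agent.R235.SphPatch_61_Mg
import Crest.Agent.R235.KumK4T_305_Mg
import Crest.Agent.R235.CurDel_538
import Crest.Agent.R235.Glob8_370
import Crest.Agent.R235.KumThC_785_Mg
import Crest.Agent.R235.K12Rprim_82_Mg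
import Crest.Agent.R235.K12Radf_843
import Crest.Agent.R235.K12StdA_235
import Crest.Agent.R235.KUp_604
import Crest.Agent.R235.X1_61
import Crest.Agent.R235.NWBel_601_Mg
import Crest.Agent.R235.NWFin_334_Mg
import Crest.Agent.R235.Same_796
import Crest.Agent.R235.WkK_250_Mg
import Crest.Agent.R235.NumC_692
import Crest.Agent.R235.FamEndB_307_Mg
import Crest.Agent.R235.HodgeEnd_194
import Crest.Agent.R235.IndTW_692
import Crest.Agent.R235.SWNd_918_Mg
import Crest.Agent.R235.ModXE_399_Mg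
import Crest.Agent.R235.Sph_47_Mg

-- ▼ part R235/ModT_344
section

/-!
Row 235 (S0364), PACKAGES SW / FAM (helper344): **`MODT` is a theorem**: the model of the trivial bundle
over the Jacobian torus of a given integral basis of `H¹` of length four.
-/

set_option autoImplicit false
set_option maxSynthPendingDepth 3
set_option linter.unusedSectionVars false
set_option maxHeartbeats 1000000

open scoped ContDiff ENNReal NNReal Topology Manifold Bundle RealInnerProductSpace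
open MeasureTheory Set Filter Metric Bundle Matrix

namespace Crest.Agent.R235.ModB_344

open Crest.Agent.R240 Crest.Agent.R240.Ch Crest.Agent.R235.SWDefs_53
open Crest.Agent.R235.IndTri_451
open Crest.Agent.R249.Tz805 (ToF)
open Crest.Agent.R235.SwsL_755
open Crest.Agent.R235.LTwLd_774 (ldOf)
open Crest.Agent.R235.QSTri_451 (qs)

/-- **MODT** from the Hopf family of the model. -/
theorem modt_of (hH : HOPFM) : FamModT_307.MODT := by
  intro M _ _ _ _ _ _ _ _ _ _ _ _ _ w e hw he hin σ hσ a b ha hb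
  obtain ⟨m, ⟨s⟩⟩ := R249.Tz2_805.exists_PF (n := 4) (M := M)
  let T : ToF 4 M := R249.Tof352.tof 4 M
  obtain ⟨ww, τ, C, th, pi, U, hD, hA⟩ := hH M w e he hin isLine1 _ T s
  obtain ⟨d0, d1, bp, K0, K1, K2, h, hn⟩ :=
    nums_bas hw he hin T s isLine1 isChern1 (pI_zero_zero (w 0)) hσ
  obtain ⟨j, hj, hnum⟩ := NumJ_723.exists_jd_SL (T := T) he hin s (ldOf (fun _ => 1) isLine1)
    hσ ha hb
  have hsym := sym_L T (qs he hin) s (ldOf (fun _ => 1) isLine1)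
  exact ⟨_, _, _, inferInstance, inferInstance, inferInstance,
    SL T (qs he hin) s (ldOf (fun _ => 1) isLine1), _, _, j, ww, τ, C, th, pi, U, d0, d1, bp,
    hsym, SWJ1_133.cj1 hsym, grdH_SL T s (qs he hin) _, hj, hD, hA, K0, K1, K2, h, hn,
    fun h1 h2 => h1 (by rw [hnum, h2, mul_zero])⟩

/-- **MODT**. -/
theorem modt : FamModT_307.MODT := modt_of HopfM_453.hopfm

end Crest.Agent.R235.ModB_344
end

-- ▼ part R235/ModXH_399
section

/-!
Row 235 (S0364), helper399: `MODXG` of `FamModX_307`.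
-/

set_option autoImplicit false

namespace Crest.Agent.R235.ModXG_399

/-- **MODXG**. -/
theorem modxg : FamModX_307.MODXG := by
  intro M _ _ _ _ _ _ _ _ _ _ _ _ _ w e hw hT he hin c hc hcc _
  obtain ⟨κ0, κ1, κT, i0, i1, iT, S, T, cc, W, sT, τ, C, K, J1, j, d0, d1, bp, hD, hcf, hS, hJ, -,
    hj, hn, k0, k1, kL, hd, hN⟩ := modxg_core hw hT he hin hc hcc
  exact ⟨κ0, κ1, κT, i0, i1, iT, S, T, cc, W, sT, -1, _, τ, C, K, _, J1, j, d0, d1, bp, hD, hcf,
    hS, hJ, hj, k0, k1, kL, hd, hN, hn⟩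

end Crest.Agent.R235.ModXG_399
end

-- ▼ part R235/FvZ_143
section

/-!
Row 235 (S0364), block FAM (helper143, helper952, helper844, helper151): **`fwxh : FWXH`**.
-/

set_option autoImplicit false
set_option maxSynthPendingDepth 3
set_option linter.unusedSectionVars false

open scoped ContDiff ENNReal NNReal Topology Manifold Bundle RealInnerProductSpace
open MeasureTheory Set Filter Metric Bundle Module

universe v

noncomputable section

namespace Crest.Agent.R235.FvZ_143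

open Crest.Agent.R249.Tv57 Crest.Agent.R247.Ms322 Crest.Agent.R247.Dir593
open Crest.Agent.R235.SWDefs_53 Crest.Agent.R235.CptB_755 Crest.Agent.R235.Fs4_546
open Crest.Agent.R235.CptC_755 Crest.Agent.R235.Cpt_755 Crest.Agent.R235.Fred_649
open Crest.Agent.R235.Swx_333 Crest.Agent.R235.SWSym_451 Crest.Agent.R235.SWJc_365
open Crest.Agent.R235.SWJq_365 Crest.Agent.R235.SWJz_365 Crest.Agent.R235.FvA_844
open Crest.Agent.R235.FamR_151 Crest.Agent.R235.FamTop_307 Crest.Agent.R235.FamW_307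
open Crest.Agent.R235.FvX_844 Crest.Agent.R235.FvY_143
open Crest.Agent.R235.Hopf_143 (hopf)

/-- **FWXH**. -/
theorem fwxh (hZ : ZER.{v}) : FWXH.{v} := by
  intro M _ _ _ _ _ _ _ _ _ _ _ _ _ κ0 κ1 κT _ _ _ S cc J1 j d ww τ C th pi U hc hJ hg hj hH hF
    hA X Y _ _ _ _ _ _ Φ eX eY φ h hind hK
  have hS : S.OK := hH.fam.ok
  have hd : d.Adm S := hF.adm
  obtain ⟨A, hA⟩ := hA
  obtain ⟨K⟩ := hK
  obtain ⟨s0⟩ := spec_DL hS
  obtain ⟨sT⟩ := spec4 S.DT (exists_p_ne S.H s0)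
  obtain ⟨C0, hC00, hC0⟩ := SWJn_900.supJ hS hj hd
  obtain ⟨B, hB0, hB⟩ := us_bdd hH hF.rpos
  have hm : 0 ≤ √(max C0 B) := Real.sqrt_nonneg _
  have hR : 0 < √(max C0 B) + 1 := by positivity
  have hR2 : max C0 B < (√(max C0 B) + 1) ^ 2 := by
    have h1 := Real.sq_sqrt (hC00.trans (le_max_left C0 B))
    nlinarith
  have hCR : C0 < (√(max C0 B) + 1) ^ 2 := (le_max_left _ _).trans_lt hR2
  have hsup : ∀ (h : Fin 4 → ℝ) (t : E3) (a : κT → M → ℝ) (u : κ0 → M → ℝ), ‖t‖ ≤ 1 →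
      TSol S (d.tw j h) (√(max C0 B) + 1) t a u →
      ∀ᵐ z ∂(μHE[4] : Measure M), ∑ y, u y z ^ 2 ≤ C0 := fun h t a u ht hT =>
    hC0 h _ hCR hR t a u ht hT
  have hBR : ∀ s : C2, ‖s‖ = 1 → ∀ z, ∑ y, us τ pi U d.r s y z ^ 2 < (√(max C0 B) + 1) ^ 2 :=
    fun s hs z => (hB s hs z).trans_lt ((le_max_right _ _).trans_lt hR2)
  have hw := swd h hS hc hJ hj hd s0 (HW hS hd K) hR hsup
  have hP := hopfP h hZ hc hj hS hd hH hF s0 (HW hS hd K) hR hCR hsup A hA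
    (FvD_952.hopf_z0 hZ h hc hj hH hF hS hd s0 (HW hS hd K) hR Hopf_143.norm_s0
      fun z => (hBR _ Hopf_143.norm_s0 z).le)
    (FvD_952.hopf_der SWNd_918.nd h hc hg hj hH hF hS hd s0 sT (HW hS hd K) hR Hopf_143.norm_s0
      (hBR _ Hopf_143.norm_s0) hind rfl)
  obtain ⟨W, hWf, hWs, n, fr, fR, fW, R', hfw, hone, hnz⟩ := fw_hopf hw A hP (Lr hd)
    (fun t ht s hs => FvX_844.seg hS hd K hR ht hs) hind
  exact ⟨W, hWf, n, _, fr, _, fR, fW, R', hWs, hfw, hone, fun i k _ t h' ψ ht hh hψ h1 h2 =>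
    hnz t h' ψ ht (slice_half hh) hψ h1 h2⟩

/-- **FWXH**, unconditional. -/
theorem fwxh0 : FWXH.{v} := fwxh SWFin_53.zer

end Crest.Agent.R235.FvZ_143

end
end

-- ▼ part R235/Rn3_820
section

/-!
Row 235, block FAM/RC (helper820), RC-MAN part 8: the Dirac pair of the manifold.

* `rp H C hj : RP (RF H C hj) S.D1.toAD.WE`;
* `re H C hj S0 S1 : RE (rp H C hj) S0.μ S1.μ ..` for spectral data `S0`, `S1`.
-/

set_option autoImplicit false
set_option linter.unusedSectionVars false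
set_option maxSynthPendingDepth 3

open scoped ContDiff ENNReal NNReal Topology Manifold Bundle RealInnerProductSpace
open MeasureTheory Set Filter Metric Bundle Module

universe v

namespace Crest.Agent.R235.Rn_820

open Crest.Agent.R249.Tv57 Crest.Agent.R247.Ms322 Crest.Agent.R247.Dir593
open Crest.Agent.R235.SWSym_451 Crest.Agent.R235.Fs4_546 Crest.Agent.R235.Fred_649
open Crest.Agent.R235.SWDefs_53 Crest.Agent.R235.SWPf_435 Crest.Agent.R235.RcX_435

noncomputable section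

variable {M : Type v} [MetricSpace M] [CompactSpace M] [ConnectedSpace M]
  [ChartedSpace (EuclideanSpace ℝ (Fin 4)) M] [IsManifold (𝓡 4) ∞ M]
  [RiemannianBundle (fun p : M => TangentSpace (𝓡 4) p)]
  [IsContMDiffRiemannianBundle (𝓡 4) ∞ (EuclideanSpace ℝ (Fin 4))
    (fun p : M => TangentSpace (𝓡 4) p)]
  [IsRiemannianManifold (𝓡 4) M] [MeasurableSpace M] [BorelSpace M]
  [SecondCountableTopology M] [Nonempty M] [IsFiniteMeasureOnCompacts (μHE[4] : Measure M)]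

section op

variable {κ κ' : Type} [Fintype κ] [Fintype κ'] {D0 : Dat 4 M κ} {D1 : Dat 4 M κ'}

/-- an element orthogonal to the smooth sections is zero. -/
lemma eq_of_jj (S0 : Spec D0) {f g : D0.toAD.HE} (h : ∀ v : D0.toAD.WE, ⟪D0.toAD.jj v, f⟫ =
    (⟪D0.toAD.jj v, g⟫ : ℝ)) : f = g := by
  refine sub_eq_zero.1 (eq_zero_of_coef S0 fun k => ?_)
  have h1 := h (cW D0 (ph S0 k))
  rw [jj_cW] at h1
  rw [inner_sub_left, real_inner_comm, real_inner_comm (cH D0 (ph S0 k)) g, h1, sub_self]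

/-- the dual eigensections. -/
lemma Ah_dual (P : OpPair D0 D1) (S1 : Spec D1) (k : ℕ) :
    Ah P (cW D0 (lA P.swap (ph S1 k))) = S1.μ k • D1.toAD.jj (cW D1 (ph S1 k)) := by
  refine eq_of_jj S1 fun w => ?_
  rw [real_inner_comm, adj (dns4 D0) (dns4 D1), jj_cW]
  have h1 : cH D0 (lA P.swap (ph S1 k)) = Ah P.swap (cW D1 (ph S1 k)) :=
    (Ah_cW (P := P.swap) (dns4 D1) (ph S1 k)).symm
  rw [h1, Ah_eig S1 (dns4 D1), real_inner_smul_right, real_inner_comm]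

lemma mu_nonneg (P : OpPair D0 D1) (S0 : Spec D0) (k : ℕ) : 0 ≤ S0.μ k := by
  have h := Ah_ortho (P := P) S0 (dns4 D0) k k
  rw [if_pos rfl] at h
  rw [← h]
  exact real_inner_self_nonneg

lemma Ah_eig' (P : OpPair D0 D1) (S0 : Spec D0) (k : ℕ) (v : D0.toAD.WE) :
    (⟪Ah P v, Ah P (cW D0 (ph S0 k))⟫ : ℝ) =
      S0.μ k * ⟪D0.toAD.jj v, D0.toAD.jj (cW D0 (ph S0 k))⟫ := by
  have h := Ah_eig (P := P) S0 (dns4 D0) k v
  rw [real_inner_comm, h, real_inner_comm]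

lemma pars' (S0 : Spec D0) (x : D0.toAD.HE) :
    HasSum (fun k => (⟪D0.toAD.jj (cW D0 (ph S0 k)), x⟫ : ℝ) ^ 2) (‖x‖ ^ 2) := by
  have h := hasSum_HE S0 x
  have e : (fun k => ⟪x, cH D0 (ph S0 k)⟫ ^ 2) =
      fun k => (⟪D0.toAD.jj (cW D0 (ph S0 k)), x⟫ : ℝ) ^ 2 := by
    funext k
    rw [real_inner_comm, jj_cW]
  rwa [e] at h

lemma jj_dual (P : OpPair D0 D1) (S1 : Spec D1) (k : ℕ) :
    D0.toAD.jj (cW D0 (lA P.swap (ph S1 k))) = Ah P.swap (cW D1 (ph S1 k)) :=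
  (jj_cW D0 (lA P.swap (ph S1 k))).trans (Ah_cW (P := P.swap) (dns4 D1) (ph S1 k)).symm

end op

variable {κ0 κ1 κT : Type} [Fintype κ0] [Fintype κ1] [Fintype κT]
  {S : SWS M κ0 κ1 κT} {cc : κ1 → κ0 → M → EuclideanSpace ℝ (Fin 4)} {J1 : κ1 → κ1 → M → ℝ}
  {j : JD M κT 4}

/-- the adjoint operator commutes with the complex structures. -/
theorem Ah_swap_JW (H : Sym S cc) (C : CJ1 S cc J1) (w : S.D1.toAD.WE) :
    Ah S.P.swap (JW (cs1 C) w) = JH (cs0 H) (Ah S.P.swap w) := by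
  obtain ⟨S0⟩ := spec0 H
  refine eq_of_jj S0 fun v => ?_
  have h1 := adj (P := S.P) (dns4 S.D0) (dns4 S.D1) v (JW (cs1 C) w)
  have h2 := adj (P := S.P) (dns4 S.D0) (dns4 S.D1) (JW (cs0 H) v) w
  have sk0 := Cx_172.inner_J_left (JH_JH (cs0 H)) (norm_JH (cs0 H))
    (S.D0.toAD.jj v) (Ah S.P.swap w)
  have sk1 := Cx_172.inner_J_left (JH_JH (cs1 C)) (norm_JH (cs1 C))
    (Ah S.P v) (S.D1.toAD.jj w)
  rw [← h1, jj_JW]
  rw [Ah_JW H C, jj_JW] at h2
  linarith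

/-- **the adjoint Dirac operator.** -/
def rp (H : Sym S cc) (C : CJ1 S cc J1) (hj : j.OK S) : RP (RF H C hj) S.D1.toAD.WE where
  J1 := JW (cs1 C)
  hJ1 := JW_JW (cs1 C)
  jj1 := S.D1.toAD.jj
  DB := Ah S.P.swap
  jj1_J := jj_JW (cs1 C)
  DB_J := Ah_swap_JW H C
  coer1 := by
    obtain ⟨c, hc, h⟩ := garding (P := S.P.swap) (dns4 S.D1)
    refine ⟨c, fun x => ?_⟩
    refine (h x).trans (le_of_eq ?_)
    rw [add_comm]
  adj v w := by
    have h1 : (RF H C hj).D 0 = Ah S.P := DR_zero H hj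
    rw [h1]
    exact adj (dns4 S.D0) (dns4 S.D1) v w

lemma D0_eq (H : Sym S cc) (C : CJ1 S cc J1) (hj : j.OK S) : (RF H C hj).D 0 = Ah S.P :=
  DR_zero H hj

set_option maxHeartbeats 2000000 in
/-- **the eigenbases.** -/
theorem re (H : Sym S cc) (C : CJ1 S cc J1) (hj : j.OK S) (S0 : Spec S.D0) (S1 : Spec S.D1) :
    RE (rp H C hj) S0.μ S1.μ (fun k => cW S.D0 (ph S0 k)) (fun k => cW S.D1 (ph S1 k))
      (fun k => cW S.D0 (lA S.P.swap (ph S1 k))) where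
  μ0 := mu_nonneg S.P S0
  ν0 := mu_nonneg S.P.swap S1
  eo k l := ortho_ph S0 k l
  fo k l := ortho_ph S1 k l
  ep := pars' S0
  fp := pars' S1
  eE k v := by
    rw [D0_eq]
    exact Ah_eig' S.P S0 k v
  fE k w := Ah_eig' S.P.swap S1 k w
  jg k := jj_dual S.P S1 k
  Dg k := by
    rw [D0_eq]
    exact Ah_dual S.P S1 k

end

end Crest.Agent.R235.Rn_820
end

-- ▼ part R235/Rn4_820
section

/-!
Row 235, block FAM/RC (helper820), RC-MAN part 9: **RCMAN** from the commutator bounds `P2X` and the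
weights `WX`.
-/

set_option autoImplicit false
set_option linter.unusedSectionVars false
set_option maxSynthPendingDepth 3

open scoped ContDiff ENNReal NNReal Topology Manifold Bundle RealInnerProductSpace
open MeasureTheory Set Filter Metric Bundle Module

namespace Crest.Agent.R235.Rn_820

open Crest.Agent.R249.Tv57 Crest.Agent.R247.Ms322 Crest.Agent.R247.Dir593
open Crest.Agent.R235.SWSym_451 Crest.Agent.R235.Fs4_546 Crest.Agent.R235.Fred_649
open Crest.Agent.R235.SWDefs_53 Crest.Agent.R235.SWPf_435 Crest.Agent.R235.RcX_435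
open Crest.Agent.R235.FamTop_307

noncomputable section

/-- **the commutator bounds.** -/
def P2X : Prop :=
  ∀ (M : Type) [MetricSpace M] [CompactSpace M] [ConnectedSpace M]
    [ChartedSpace (EuclideanSpace ℝ (Fin 4)) M] [IsManifold (𝓡 4) ∞ M]
    [RiemannianBundle (fun p : M => TangentSpace (𝓡 4) p)]
    [IsContMDiffRiemannianBundle (𝓡 4) ∞ (EuclideanSpace ℝ (Fin 4))
      (fun p : M => TangentSpace (𝓡 4) p)]
    [IsRiemannianManifold (𝓡 4) M] [MeasurableSpace M] [BorelSpace M]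
    [SecondCountableTopology M] [Nonempty M] [IsFiniteMeasureOnCompacts (μHE[4] : Measure M)]
    (κ0 κ1 κT : Type) [Fintype κ0] [Fintype κ1] [Fintype κT]
    (S : SWS M κ0 κ1 κT) (cc : κ1 → κ0 → M → EuclideanSpace ℝ (Fin 4)) (J1 : κ1 → κ1 → M → ℝ)
    (j : JD M κT 4) (H : Sym S cc) (C : CJ1 S cc J1) (hj : j.OK S) (a : Fin 4),
    ∃ (Bt : S.D1.toAD.HE →L[ℝ] S.D0.toAD.HE) (bu : S.D0.toAD.WE →L[ℝ] S.D1.toAD.WE)
      (bv : S.D1.toAD.WE →L[ℝ] S.D0.toAD.WE) (K : ℝ),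
      RQ (rp H C hj) (rj H C hj) a Bt bu bv K ∧
      ∀ f, ∀ᵐ z ∂(μHE[4] : Measure M), ∀ y, rf (Bt f) y z = ∑ x, mth S (ei j a) x y z * rf f x z

/-- **the weights.** -/
def WX : Prop :=
  ∀ (M : Type) [MetricSpace M] [CompactSpace M] [ConnectedSpace M]
    [ChartedSpace (EuclideanSpace ℝ (Fin 4)) M] [IsManifold (𝓡 4) ∞ M]
    [RiemannianBundle (fun p : M => TangentSpace (𝓡 4) p)]
    [IsContMDiffRiemannianBundle (𝓡 4) ∞ (EuclideanSpace ℝ (Fin 4))
      (fun p : M => TangentSpace (𝓡 4) p)]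
    [IsRiemannianManifold (𝓡 4) M] [MeasurableSpace M] [BorelSpace M]
    [SecondCountableTopology M] [Nonempty M] [IsFiniteMeasureOnCompacts (μHE[4] : Measure M)]
    (κ0 κ1 κT : Type) [Fintype κ0] [Fintype κ1] [Fintype κT]
    (S : SWS M κ0 κ1 κT) (cc : κ1 → κ0 → M → EuclideanSpace ℝ (Fin 4)) (J1 : κ1 → κ1 → M → ℝ)
    (j : JD M κT 4) (H : Sym S cc) (C : CJ1 S cc J1) (hj : j.OK S) (S0 : Spec S.D0)
    (S1 : Spec S.D1) (Bt : Fin 4 → S.D1.toAD.HE →L[ℝ] S.D0.toAD.HE),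
    (∀ a f, ∀ᵐ z ∂(μHE[4] : Measure M), ∀ y,
      rf (Bt a f) y z = ∑ x, mth S (ei j a) x y z * rf f x z) →
    ∃ w0 w1 : ℕ → ℝ,
      (∀ k, (⟪cH S.D0 (ph S0 k), R0 (fun a => CH H (sm_ei hj a)) Bt (cH S.D0 (ph S0 k))⟫ : ℝ) =
        w0 k) ∧
      (∀ k, (⟪JH (cs0 H) (cH S.D0 (ph S0 k)),
        R0 (fun a => CH H (sm_ei hj a)) Bt (cH S.D0 (ph S0 k))⟫ : ℝ) = 0) ∧
      (∀ k, (⟪cH S.D1 (ph S1 k), R1 (fun a => CH H (sm_ei hj a)) Bt (cH S.D1 (ph S1 k))⟫ : ℝ) =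
        -(w1 k)) ∧
      (∀ k, (⟪JH (cs1 C) (cH S.D1 (ph S1 k)),
        R1 (fun a => CH H (sm_ei hj a)) Bt (cH S.D1 (ph S1 k))⟫ : ℝ) = 0) ∧
      Tendsto (fun l : ℝ => l ^ 2 * ∑' k, ((l + S0.μ k) ^ 4)⁻¹ * w0 k) atTop
        (𝓝 ((96 * Real.pi ^ 2)⁻¹ * numJ S j)) ∧
      Tendsto (fun l : ℝ => l ^ 2 * ∑' k, ((l + S1.μ k) ^ 4)⁻¹ * w1 k) atTop
        (𝓝 ((96 * Real.pi ^ 2)⁻¹ * numJ S j))

set_option maxHeartbeats 2000000 in
/-- **RCMAN** from `P2X` and `WX`. -/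
theorem rcman_of (hP : P2X) (hW : WX) : RCMAN.{0} := by
  refine ⟨(((192 * Real.pi ^ 2)⁻¹ : ℝ) : ℂ), ?_, ?_⟩
  · have := Real.pi_pos
    exact Complex.ofReal_ne_zero.2 (by positivity)
  intro M _ _ _ _ _ _ _ _ _ _ _ _ _ κ0 κ1 κT _ _ _ S cc J1 j _ H C hj
  refine ⟨(RF H C hj).X, (RF H C hj).Y, inferInstance, inferInstance, inferInstance,
    inferInstance, inferInstance, inferInstance, (RF H C hj).toP, (RF H C hj).eX,
    (RF H C hj).eY, phi j, rep H C hj, ?_, ?_⟩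
  · intro d0 h0 h1
    have e0 := index0 H C hj h0
    have e1 := index1 H C hj h1
    omega
  · intro E _ n fr hs
    obtain ⟨S0⟩ := spec0 H
    obtain ⟨S1⟩ := spec1 H
    choose Bt bu bv K hQ hBt using hP M κ0 κ1 κT S cc J1 j H C hj
    obtain ⟨w0, w1, a0, a0', a1, a1', l0, l1⟩ := hW M κ0 κ1 κT S cc J1 j H C hj S0 S1 Bt hBt
    obtain ⟨Ct, hCt⟩ := Weyl_820.trace_le S.D0 S0
    have h := final RC_746.rc (re H C hj S0 S1) hQ S0.mono
      (fun t ht => Weyl_820.summable_exp S.D0 S0 ht) hCt a0 a0' a1 a1' l0 l1 E fr hs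
    rw [h]
    have e1 : ((96 * Real.pi ^ 2)⁻¹ * numJ S j + (96 * Real.pi ^ 2)⁻¹ * numJ S j) / 4 =
        (192 * Real.pi ^ 2)⁻¹ * numJ S j := by
      have := Real.pi_pos
      field_simp
      ring
    rw [e1, Complex.ofReal_mul]

end

end Crest.Agent.R235.Rn_820
end

-- ▼ part R235/RcR5_723
section

/-!
Row 235 (S0364), block FAM, RCMAN (R5) (helper723): the alternating sum of
`b_{σ0}ᵀ b_{σ1} b_{σ2}ᵀ b_{σ3}` (`b_i = c(2π al_i) i`) is `r(z) p₀`, the one of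
`b_{σ0} b_{σ1}ᵀ b_{σ2} b_{σ3}ᵀ` is `- r(z) p₁`, `r` smooth, and `numJ S j = 4 ∫ r`.
-/

set_option autoImplicit false
set_option maxSynthPendingDepth 3
set_option linter.unusedSectionVars false

open scoped ContDiff ENNReal NNReal Topology Manifold Bundle RealInnerProductSpace
open MeasureTheory Set Filter Metric Bundle
open Matrix hiding J

universe v

namespace Crest.Agent.R235.RcR5_723

open Crest.Agent.R249.Tv57 (Dat OpPair SmF SmV)
open Crest.Agent.R235.SWDefs_53 Crest.Agent.R235.SWSym_451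
open Crest.Agent.R235.FamTop_307 (bJ L4 numJ)

noncomputable section

variable {M : Type v} [MetricSpace M] [CompactSpace M] [ConnectedSpace M]
  [ChartedSpace (EuclideanSpace ℝ (Fin 4)) M] [IsManifold (𝓡 4) ∞ M]
  [RiemannianBundle (fun p : M => TangentSpace (𝓡 4) p)]
  [IsContMDiffRiemannianBundle (𝓡 4) ∞ (EuclideanSpace ℝ (Fin 4))
    (fun p : M => TangentSpace (𝓡 4) p)]
  [IsRiemannianManifold (𝓡 4) M] [MeasurableSpace M] [BorelSpace M]
  [SecondCountableTopology M] [Nonempty M]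
  {κ0 κ1 κT : Type} [Fintype κ0] [Fintype κ1] [Fintype κT]


/-- the matrix of `b_i`. -/
def Bm (S : SWS M κ0 κ1 κT) (j : JD M κT 4) (z : M) (i : Fin 4) : Matrix κ1 κ0 ℝ :=
  Matrix.of fun x y => bJ S j i x y z

theorem L4_mul (S : SWS M κ0 κ1 κT) (j : JD M κT 4) (i k l m : Fin 4) (y y' : κ0) (z : M) :
    L4 S j i k l m y y' z =
      ((Bm S j z i)ᵀ * Bm S j z k * (Bm S j z l)ᵀ * Bm S j z m) y y' := by
  have h : ((Bm S j z i)ᵀ * Bm S j z k * (Bm S j z l)ᵀ * Bm S j z m) y y' =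
      ∑ x, ∑ y1, ∑ x1, bJ S j i x y z * bJ S j k x y1 z * bJ S j l x1 y1 z *
        bJ S j m x1 y' z := by
    rw [Matrix.mul_apply]
    simp only [Matrix.mul_apply, Matrix.transpose_apply, Finset.sum_mul]
    have e1 : ∀ x1 : κ1, ∑ y1, ∑ x, Bm S j z i x y * Bm S j z k x y1 * Bm S j z l x1 y1 *
        Bm S j z m x1 y' = ∑ x, ∑ y1, Bm S j z i x y * Bm S j z k x y1 * Bm S j z l x1 y1 *
        Bm S j z m x1 y' := fun x1 => Finset.sum_comm
    simp only [e1]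
    rw [Finset.sum_comm]
    exact Finset.sum_congr rfl fun x _ => Finset.sum_comm
  exact h.symm


/-! ### the pointwise Clifford module -/

section pt

variable {S : SWS M κ0 κ1 κT} {cc : κ1 → κ0 → M → EuclideanSpace ℝ (Fin 4)}

/-- Clifford multiplication as a linear map to matrices. -/
def cm (cc : κ1 → κ0 → M → EuclideanSpace ℝ (Fin 4)) (z : M) :
    EuclideanSpace ℝ (Fin 4) →ₗ[ℝ] Matrix κ1 κ0 ℝ where
  toFun X := Matrix.of fun x y => inner ℝ (cc x y z) X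
  map_add' X Y := by ext x y; exact inner_add_right (cc x y z) X Y
  map_smul' a X := by ext x y; exact real_inner_smul_right (cc x y z) X a

theorem cm_apply (z : M) (X : EuclideanSpace ℝ (Fin 4)) (x : κ1) (y : κ0) :
    cm cc z X x y = inner ℝ (cc x y z) X := rfl

/-- `p₀`. -/
def p0m (S : SWS M κ0 κ1 κT) (z : M) : Matrix κ0 κ0 ℝ := Matrix.of fun y y' => S.D0.p y y' z

/-- `p₁`. -/
def p1m (S : SWS M κ0 κ1 κT) (z : M) : Matrix κ1 κ1 ℝ := Matrix.of fun x x' => S.D1.p x x' z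

/-- `J`. -/
def Jm (S : SWS M κ0 κ1 κT) (z : M) : Matrix κ0 κ0 ℝ := Matrix.of fun y y' => S.J y y' z

theorem p0_T (z : M) : (p0m S z)ᵀ = p0m S z := by
  ext y y'; exact S.D0.symmp y' y z

theorem p1_T (z : M) : (p1m S z)ᵀ = p1m S z := by
  ext y y'; exact S.D1.symmp y' y z

theorem p0_sq (z : M) : p0m S z * p0m S z = p0m S z := by
  ext y y'
  rw [Matrix.mul_apply]
  exact S.D0.idem y y' z

theorem p1_sq (z : M) : p1m S z * p1m S z = p1m S z := by
  ext y y'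
  rw [Matrix.mul_apply]
  exact S.D1.idem y y' z

variable (H : Sym S cc)
include H

theorem cm_p (z : M) (X : EuclideanSpace ℝ (Fin 4)) : cm cc z X * p0m S z = cm cc z X := by
  ext x y
  rw [Matrix.mul_apply, cm_apply, ← H.cc_p x y z, sum_inner]
  refine Finset.sum_congr rfl fun y' _ => ?_
  rw [real_inner_smul_left]
  show inner ℝ (cc x y' z) X * S.D0.p y' y z = _
  ring

theorem p_cm (z : M) (X : EuclideanSpace ℝ (Fin 4)) : p1m S z * cm cc z X = cm cc z X := by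
  ext x y
  rw [Matrix.mul_apply, cm_apply, ← H.p_cc x y z, sum_inner]
  refine Finset.sum_congr rfl fun y' _ => ?_
  rw [real_inner_smul_left]
  rfl

theorem cl0 (z : M) (X Y : EuclideanSpace ℝ (Fin 4)) :
    (cm cc z X)ᵀ * cm cc z Y + (cm cc z Y)ᵀ * cm cc z X = (2 * inner ℝ X Y) • p0m S z := by
  ext y y'
  rw [Matrix.add_apply, Matrix.mul_apply, Matrix.mul_apply, ← Finset.sum_add_distrib]
  exact H.clif0 z X Y y y'

theorem cl1 (z : M) (X Y : EuclideanSpace ℝ (Fin 4)) :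
    cm cc z X * (cm cc z Y)ᵀ + cm cc z Y * (cm cc z X)ᵀ = (2 * inner ℝ X Y) • p1m S z := by
  ext y y'
  rw [Matrix.add_apply, Matrix.mul_apply, Matrix.mul_apply, ← Finset.sum_add_distrib]
  exact H.clif1 z X Y y y'

theorem tr0 (z : M) : (p0m S z).trace = 4 := H.rk0 z

/-- the vector fields `X_i = 2π ∑ al_i A s_A`. -/
def Xv (S : SWS M κ0 κ1 κT) (j : JD M κT 4) (z : M) (i : Fin 4) : EuclideanSpace ℝ (Fin 4) :=
  (2 * Real.pi) • ∑ A, j.al i A z • S.s A z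

theorem Bm_eq (j : JD M κT 4) (z : M) (i : Fin 4) :
    Bm S j z i = cm cc z (Xv S j z i) * Jm S z := by
  ext x y
  rw [Matrix.mul_apply]
  show bJ S j i x y z = ∑ y', inner ℝ (cc x y' z) (Xv S j z i) * S.J y' y z
  unfold bJ Xv
  simp only [H.cl_eq, real_inner_smul_right, inner_sum]
  rw [Finset.mul_sum]
  have h1 : ∀ A, 2 * Real.pi * (j.al i A z * ∑ y', inner ℝ (cc x y' z) (S.s A z) * S.J y' y z) =
      ∑ y', 2 * Real.pi * (j.al i A z * inner ℝ (cc x y' z) (S.s A z)) * S.J y' y z := by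
    intro A
    rw [Finset.mul_sum, Finset.mul_sum]
    exact Finset.sum_congr rfl fun y' _ => by ring
  simp only [h1]
  rw [Finset.sum_comm]
  refine Finset.sum_congr rfl fun y' _ => ?_
  rw [Finset.mul_sum, Finset.sum_mul]

theorem J_T (z : M) : (Jm S z)ᵀ = - Jm S z := by
  ext y y'
  show S.J y' y z = - S.J y y' z
  rw [H.skewJ y' y z]

theorem J_sq (z : M) : Jm S z * Jm S z = - p0m S z := by
  ext y y'
  rw [Matrix.mul_apply]
  exact H.Jsq y y' z

/-- `cᵀ c` commutes with `J`. -/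
theorem cc_J (z : M) (X Y : EuclideanSpace ℝ (Fin 4)) :
    Jm S z * ((cm cc z X)ᵀ * cm cc z Y) = (cm cc z X)ᵀ * cm cc z Y * Jm S z := by
  obtain ⟨J1, h1, h2⟩ := H.exJ1 z
  set Q : Matrix κ1 κ1 ℝ := Matrix.of J1 with hQ
  have hT : Qᵀ = -Q := by ext x x'; exact h1 x' x
  have hc : ∀ X, Q * cm cc z X = cm cc z X * Jm S z := by
    intro X
    ext x y
    rw [Matrix.mul_apply, Matrix.mul_apply]
    have h3 := congrArg (fun v => inner ℝ v X) (h2 x y)
    simp only [sum_inner, real_inner_smul_left] at h3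
    refine h3.trans (Finset.sum_congr rfl fun y' _ => ?_)
    show S.J y' y z * inner ℝ (cc x y' z) X = inner ℝ (cc x y' z) X * S.J y' y z
    ring
  have hc' : ∀ X, (cm cc z X)ᵀ * Q = Jm S z * (cm cc z X)ᵀ := by
    intro X
    have h3 := congrArg Matrix.transpose (hc X)
    rw [Matrix.transpose_mul, Matrix.transpose_mul, hT, J_T H, Matrix.mul_neg,
      Matrix.neg_mul] at h3
    exact neg_injective h3
  rw [← Matrix.mul_assoc, ← hc', Matrix.mul_assoc, hc, Matrix.mul_assoc]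

theorem bTb (j : JD M κT 4) (z : M) (i k : Fin 4) :
    (Bm S j z i)ᵀ * Bm S j z k = (cm cc z (Xv S j z i))ᵀ * cm cc z (Xv S j z k) := by
  rw [Bm_eq H, Bm_eq H, Matrix.transpose_mul, J_T H, Matrix.neg_mul, Matrix.neg_mul,
    ← Matrix.mul_assoc, Matrix.mul_assoc (Jm S z), cc_J H, Matrix.mul_assoc _ (Jm S z), J_sq H,
    Matrix.mul_neg, neg_neg, Matrix.mul_assoc, cm_p H]

theorem bbT (j : JD M κT 4) (z : M) (i k : Fin 4) :
    Bm S j z i * (Bm S j z k)ᵀ = cm cc z (Xv S j z i) * (cm cc z (Xv S j z k))ᵀ := by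
  rw [Bm_eq H, Bm_eq H, Matrix.transpose_mul, J_T H, Matrix.mul_assoc, ← Matrix.mul_assoc (Jm S z),
    Matrix.mul_neg, J_sq H, neg_neg, ← p0_T, ← Matrix.transpose_mul, cm_p H]

theorem exists_pt (j : JD M κT 4) (z : M) :
    ∃ r : ℝ, (∑ σ : Equiv.Perm (Fin 4), ((Equiv.Perm.sign σ : ℤ) : ℝ) •
        ((Bm S j z (σ 0))ᵀ * Bm S j z (σ 1) * (Bm S j z (σ 2))ᵀ * Bm S j z (σ 3))) =
          r • p0m S z ∧
      (∑ σ : Equiv.Perm (Fin 4), ((Equiv.Perm.sign σ : ℤ) : ℝ) •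
        (Bm S j z (σ 0) * (Bm S j z (σ 1))ᵀ * Bm S j z (σ 2) * (Bm S j z (σ 3))ᵀ)) =
          (-r) • p1m S z := by
  classical
  obtain ⟨r, h1, h2⟩ := La4_291.la4 (cm cc z) (p0m S z) (p1m S z) (p0_T z) (p1_T z) (p0_sq z)
    (p1_sq z) (cm_p H z) (p_cm H z) (cl0 H z) (cl1 H z) (tr0 H z) (Xv S j z)
  refine ⟨r, ?_, ?_⟩
  · rw [← h1]
    refine Finset.sum_congr rfl fun σ _ => ?_
    rw [Matrix.mul_assoc ((Bm S j z (σ 0))ᵀ * Bm S j z (σ 1)), bTb H, bTb H, ← Matrix.mul_assoc]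
  · rw [← h2]
    refine Finset.sum_congr rfl fun σ _ => ?_
    rw [Matrix.mul_assoc (Bm S j z (σ 0) * (Bm S j z (σ 1))ᵀ), bbT H, bbT H, ← Matrix.mul_assoc]

end pt

/-! ### the function `r` -/

/-- `r = (1/4) ∑ sgn tr (b_σ0^T b_σ1 b_σ2^T b_σ3)`. -/
def rr (S : SWS M κ0 κ1 κT) (j : JD M κT 4) (z : M) : ℝ :=
  (1 / 4) * ∑ σ : Equiv.Perm (Fin 4), ((Equiv.Perm.sign σ : ℤ) : ℝ) *
    ∑ y, L4 S j (σ 0) (σ 1) (σ 2) (σ 3) y y z

theorem numJ_rr (S : SWS M κ0 κ1 κT) (j : JD M κT 4) :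
    numJ S j = 4 * ∫ z, rr S j z ∂(μHE[4] : Measure M) := by
  unfold numJ rr
  rw [integral_const_mul]
  ring

section main

variable {S : SWS M κ0 κ1 κT} {cc : κ1 → κ0 → M → EuclideanSpace ℝ (Fin 4)}
  (H : Sym S cc) (j : JD M κT 4)
include H

theorem rr_mat (z : M) :
    (∑ σ : Equiv.Perm (Fin 4), ((Equiv.Perm.sign σ : ℤ) : ℝ) •
        ((Bm S j z (σ 0))ᵀ * Bm S j z (σ 1) * (Bm S j z (σ 2))ᵀ * Bm S j z (σ 3))) =
          rr S j z • p0m S z ∧
      (∑ σ : Equiv.Perm (Fin 4), ((Equiv.Perm.sign σ : ℤ) : ℝ) •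
        (Bm S j z (σ 0) * (Bm S j z (σ 1))ᵀ * Bm S j z (σ 2) * (Bm S j z (σ 3))ᵀ)) =
          (-rr S j z) • p1m S z := by
  obtain ⟨r, h1, h2⟩ := exists_pt H j z
  have hr : rr S j z = r := by
    have h3 := congrArg Matrix.trace h1
    rw [Matrix.trace_sum, Matrix.trace_smul, tr0 H z, smul_eq_mul] at h3
    have h4 : ∑ σ : Equiv.Perm (Fin 4), ((Equiv.Perm.sign σ : ℤ) : ℝ) *
        ∑ y, L4 S j (σ 0) (σ 1) (σ 2) (σ 3) y y z = r * 4 := by
      rw [← h3]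
      refine Finset.sum_congr rfl fun σ _ => ?_
      rw [Matrix.trace_smul, smul_eq_mul]
      congr 1
      exact Finset.sum_congr rfl fun y _ => L4_mul S j _ _ _ _ y y z
    unfold rr
    rw [h4]
    ring
  rw [hr]
  exact ⟨h1, h2⟩



end main

end

end Crest.Agent.R235.RcR5_723
end

-- ▼ part R235/RcPt_723
section

/-!
Row 235 (S0364), block FAM, RCMAN (P3) (helper723): `pt`, helper820's exact text.
-/

set_option autoImplicit false
set_option maxSynthPendingDepth 3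
set_option linter.unusedSectionVars false

open scoped ContDiff ENNReal NNReal Topology Manifold Bundle RealInnerProductSpace
open MeasureTheory Set Filter Metric Bundle

universe v

namespace Crest.Agent.R235.RcR5_723

open Crest.Agent.R249.Tv57 (Dat OpPair SmF SmV)
open Crest.Agent.R235.SWDefs_53 Crest.Agent.R235.SWSym_451
open Crest.Agent.R235.FamTop_307 (bJ L4 numJ)

noncomputable section

variable {M : Type v} [MetricSpace M] [CompactSpace M] [ConnectedSpace M]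
  [ChartedSpace (EuclideanSpace ℝ (Fin 4)) M] [IsManifold (𝓡 4) ∞ M]
  [RiemannianBundle (fun p : M => TangentSpace (𝓡 4) p)]
  [IsContMDiffRiemannianBundle (𝓡 4) ∞ (EuclideanSpace ℝ (Fin 4))
    (fun p : M => TangentSpace (𝓡 4) p)]
  [IsRiemannianManifold (𝓡 4) M] [MeasurableSpace M] [BorelSpace M]
  [SecondCountableTopology M] [Nonempty M] [IsFiniteMeasureOnCompacts (μHE[4] : Measure M)]
  {κ0 κ1 κT : Type} [Fintype κ0] [Fintype κ1] [Fintype κT]
  {S : SWS M κ0 κ1 κT} {cc : κ1 → κ0 → M → EuclideanSpace ℝ (Fin 4)} {J1 : κ1 → κ1 → M → ℝ}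
  {j : JD M κT 4}

theorem sm_bJ (H : Sym S cc) (hj : j.OK S) (i : Fin 4) (x : κ1) (y : κ0) :
    ContMDiff (𝓡 4) 𝓘(ℝ, ℝ) ∞ (bJ S j i x y) := by
  unfold bJ
  exact contMDiff_const.mul (contMDiff_finsetSum fun A _ =>
    (hj.sm i A).mul (SWPf_435.smcl H A x y))

theorem sm_L4 (H : Sym S cc) (hj : j.OK S) (i k l m : Fin 4) (y y' : κ0) :
    ContMDiff (𝓡 4) 𝓘(ℝ, ℝ) ∞ (L4 S j i k l m y y') := by
  unfold L4
  exact contMDiff_finsetSum fun x _ => contMDiff_finsetSum fun y1 _ => contMDiff_finsetSum fun x1 _ =>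
    (((sm_bJ H hj i x y).mul (sm_bJ H hj k x y1)).mul (sm_bJ H hj l x1 y1)).mul
      (sm_bJ H hj m x1 y')

theorem sm_rr (H : Sym S cc) (hj : j.OK S) : ContMDiff (𝓡 4) 𝓘(ℝ, ℝ) ∞ (rr S j) := by
  unfold rr
  exact contMDiff_const.mul (contMDiff_finsetSum fun σ _ => contMDiff_const.mul
    (contMDiff_finsetSum fun y _ => sm_L4 H hj _ _ _ _ y y))


end

end Crest.Agent.R235.RcR5_723
end

-- ▼ part R235/RcE_746
section

/-!
Row 235, block FAM/RC (helper746), for RCMAN (P4): the concrete real facts about the eigensections.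

* `pars_HE`, `eig_Ah`, `mu_nonneg`, `gS`, `jj_gS`, `Ah_gS`;
* `inner_NH`, `tendsto_wt` : weights `⟪φ_k, f φ_k⟫` and their limit (`weyl_res`).
-/

set_option autoImplicit false
set_option maxSynthPendingDepth 3
set_option linter.unusedSectionVars false

open scoped ContDiff ENNReal NNReal Topology Manifold Bundle RealInnerProductSpace
open MeasureTheory Set Filter Metric Bundle

namespace Crest.Agent.R235.RcE_746

open Crest.Agent.R249.Tv57 Crest.Agent.R247.Ms322 Crest.Agent.R247.Dir593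
open Crest.Agent.R247.Frd657 Crest.Agent.R202.Sp
open Crest.Agent.R235.Fs4_546 Crest.Agent.R235.Fred_649

noncomputable section

section gen

variable {n : ℕ} {M : Type*} [MetricSpace M] [ChartedSpace (EuclideanSpace ℝ (Fin n)) M]
  [IsManifold (𝓡 n) ∞ M]
  [RiemannianBundle (fun p : M => TangentSpace (𝓡 n) p)]
  [IsContMDiffRiemannianBundle (𝓡 n) ∞ (EuclideanSpace ℝ (Fin n)) (fun p : M => TangentSpace (𝓡 n) p)]
  [IsRiemannianManifold (𝓡 n) M] [MeasurableSpace M] [BorelSpace M]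
  [SecondCountableTopology M] [Nonempty M]
  [CompactSpace M] [IsFiniteMeasureOnCompacts (μHE[n] : Measure M)]
variable {κ κ' : Type} [Fintype κ] [Fintype κ'] {D0 : Dat n M κ} {D1 : Dat n M κ'}







end gen

section four

open Crest.Agent.R235.SWPf_435 Crest.Agent.R235.FamR_151 Crest.Agent.R235.L4_433
open Crest.Agent.R235.Cpt_755 Crest.Agent.R275 Crest.Agent.R235.SWPfA_435

variable {M : Type*} [MetricSpace M] [ConnectedSpace M] [ChartedSpace (EuclideanSpace ℝ (Fin 4)) M]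
  [IsManifold (𝓡 4) ∞ M]
  [RiemannianBundle (fun p : M => TangentSpace (𝓡 4) p)]
  [IsContMDiffRiemannianBundle (𝓡 4) ∞ (EuclideanSpace ℝ (Fin 4)) (fun p : M => TangentSpace (𝓡 4) p)]
  [IsRiemannianManifold (𝓡 4) M] [MeasurableSpace M] [BorelSpace M]
  [SecondCountableTopology M] [Nonempty M]
  [CompactSpace M] [IsFiniteMeasureOnCompacts (μHE[4] : Measure M)]
variable {κ : Type} [Fintype κ] {D : Dat 4 M κ}

/-- the weight of an eigensection. -/
theorem inner_wt (S : Spec D) (k : ℕ) {T : D.toAD.HE} {f : M → ℝ}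
    (hT : ∀ᵐ z ∂(μHE[4] : Measure M), ∀ a, rf T a z = f z * S.φ k a z) :
    (⟪cH D (ph S k), T⟫ : ℝ) = ∫ z, f z * ∑ a, S.φ k a z ^ 2 ∂(μHE[4] : Measure M) := by
  have h1 := inner_HH (clH (S.φ k) (S.smooth k)) (T : HH (μHE[4] : Measure M) κ)
    (f := S.φ k) (g := fun a z => f z * S.φ k a z) (coe_clH (S.φ k) (S.smooth k)) hT
  refine h1.trans (integral_congr_ae (Eventually.of_forall fun z => ?_))
  simp only [Finset.mul_sum]
  exact Finset.sum_congr rfl fun a _ => by ring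



end four

end

end Crest.Agent.R235.RcE_746
end

-- ▼ part R235/RcW_723
section

/-!
Row 235 (S0364), block FAM/RC (helper723), leaf (W) of RCMAN: the weights.  `R0` is the
multiplication by `r` and `R1` the one by `- r` (`r = RcR5_723.rr S j`); `L0`, `L1` are the limits
of the weights.
-/

set_option autoImplicit false
set_option maxSynthPendingDepth 3
set_option linter.unusedSectionVars false

open scoped ContDiff ENNReal NNReal Topology Manifold Bundle InnerProductSpace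
open MeasureTheory Set Filter Metric Bundle

universe v

namespace Crest.Agent.R235.RcW_723

open Crest.Agent.R249.Tv57 Crest.Agent.R247.Ms322 Crest.Agent.R247.Dir593
open Crest.Agent.R247.Frd657 Crest.Agent.R202.Sp
open Crest.Agent.R235.SWSym_451 Crest.Agent.R235.Fs4_546 Crest.Agent.R235.Fred_649
open Crest.Agent.R235.FamR_151 Crest.Agent.R235.SWDefs_53 Crest.Agent.R235.L4_433
open Crest.Agent.R235.Cpt_755 Crest.Agent.R275 Crest.Agent.R235.SWPfA_435
open Crest.Agent.R235.SWPf_435 Crest.Agent.R235.FamTop_307 Crest.Agent.R235.RcR5_723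
open Crest.Agent.R235.Rn_820 (R0 R1)
open Crest.Agent.R235.Weyl_820 (wt)

noncomputable section

variable {M : Type v} [MetricSpace M] [CompactSpace M] [ConnectedSpace M]
  [ChartedSpace (EuclideanSpace ℝ (Fin 4)) M] [IsManifold (𝓡 4) ∞ M]
  [RiemannianBundle (fun p : M => TangentSpace (𝓡 4) p)]
  [IsContMDiffRiemannianBundle (𝓡 4) ∞ (EuclideanSpace ℝ (Fin 4))
    (fun p : M => TangentSpace (𝓡 4) p)]
  [IsRiemannianManifold (𝓡 4) M] [MeasurableSpace M] [BorelSpace M]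
  [SecondCountableTopology M] [Nonempty M] [IsFiniteMeasureOnCompacts (μHE[4] : Measure M)]

local notation "μM" => (μHE[4] : Measure M)

theorem rf_sum {κ : Type} [Fintype κ] {D : Dat 4 M κ} {ι : Type} (s : Finset ι)
    (F : ι → D.toAD.HE) :
    ∀ᵐ z ∂μM, ∀ a, rf (∑ i ∈ s, F i) a z = ∑ i ∈ s, rf (F i) a z := by
  classical
  induction s using Finset.induction_on with
  | empty =>
    rw [ae_all_iff]
    intro a
    simp only [Finset.sum_empty]
    exact Lp.coeFn_zero ℝ 2 μM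
  | insert i s hi ih =>
    rw [Finset.sum_insert hi]
    filter_upwards [ih, rf_add (F i) (∑ i ∈ s, F i)] with z e1 e2 a
    rw [e2 a, e1 a, Finset.sum_insert hi]

theorem orth_ae {κ : Type} [Fintype κ] {D : Dat 4 M κ} {J : κ → κ → M → ℝ} (H : CS D J)
    {u T : D.toAD.HE} {r : M → ℝ} (hT : ∀ᵐ z ∂μM, ∀ a, rf T a z = r z * rf u a z) :
    (⟪JH H u, T⟫_ℝ : ℝ) = 0 := by
  have h1 := inner_HH (JH H u : HH μM κ) (T : HH μM κ)
    (f := fun a z => jv J (fun b => rf u b z) z a) (g := fun a z => r z * rf u a z)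
    (coe_JH H u) hT
  refine h1.trans ((integral_congr_ae (Eventually.of_forall fun z => ?_)).trans
    (integral_zero M ℝ))
  show ∑ a, jv J (fun b => rf u b z) z a * (r z * rf u a z) = 0
  have h2 := orth_jv H (fun b => rf u b z) z
  have h3 : ∀ a, jv J (fun b => rf u b z) z a * (r z * rf u a z) =
      r z * (rf u a z * jv J (fun b => rf u b z) z a) := fun a => by ring
  simp only [h3, ← Finset.mul_sum]
  rw [h2, mul_zero]

variable {κ0 κ1 κT : Type} [Fintype κ0] [Fintype κ1] [Fintype κT]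
  {S : SWS M κ0 κ1 κT} {cc : κ1 → κ0 → M → EuclideanSpace ℝ (Fin 4)} {J1 : κ1 → κ1 → M → ℝ}
  {j : JD M κT 4}

theorem mth_eq (a : Fin 4) (x : κ1) (y : κ0) (z : M) : mth S (ei j a) x y z = Bm S j z a x y := by
  show mth S (ei j a) x y z = bJ S j a x y z
  unfold bJ mth ei
  rw [Finset.mul_sum]
  exact Finset.sum_congr rfl fun A _ => by ring

theorem rf_B (H : Sym S cc) (hj : j.OK S) (a : Fin 4) (f : S.D0.toAD.HE) :
    ∀ᵐ z ∂μM, (fun x => rf (CH H (sm_ei hj a) f) x z) =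
      (Bm S j z a).mulVec fun y => rf f y z := by
  filter_upwards [coe_CH H (sm_ei hj a) f] with z e1
  funext x
  rw [e1 x, ← cm_mth]
  exact Finset.sum_congr rfl fun y _ => by rw [mth_eq, mul_comm]

section bt

variable {Bt : Fin 4 → S.D1.toAD.HE →L[ℝ] S.D0.toAD.HE}
  (hBt : ∀ a f, ∀ᵐ z ∂(μHE[4] : Measure M), ∀ y,
    rf (Bt a f) y z = ∑ x, mth S (ei j a) x y z * rf f x z)
include hBt

theorem rf_Bt (a : Fin 4) (f : S.D1.toAD.HE) :
    ∀ᵐ z ∂μM, (fun y => rf (Bt a f) y z) =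
      (Bm S j z a).transpose.mulVec fun x => rf f x z := by
  filter_upwards [hBt a f] with z e1
  funext y
  rw [e1 y]
  exact Finset.sum_congr rfl fun x _ => by rw [mth_eq]; rfl

variable (H : Sym S cc) (hj : j.OK S)

theorem rf_R0 (u : S.D0.toAD.HE) :
    ∀ᵐ z ∂μM, ∀ y, rf (R0 (fun a => CH H (sm_ei hj a)) Bt u) y z = rr S j z * rf u y z := by
  set B : Fin 4 → S.D0.toAD.HE →L[ℝ] S.D1.toAD.HE := fun a => CH H (sm_ei hj a) with hB
  have h1 : ∀ σ : Equiv.Perm (Fin 4), ∀ᵐ z ∂μM,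
      (fun y => rf ((((Equiv.Perm.sign σ : ℤ) : ℝ)) •
        Bt (σ 0) (B (σ 1) (Bt (σ 2) (B (σ 3) u)))) y z) =
      ((((Equiv.Perm.sign σ : ℤ) : ℝ)) • ((Bm S j z (σ 0)).transpose * Bm S j z (σ 1) *
        (Bm S j z (σ 2)).transpose * Bm S j z (σ 3))).mulVec fun y => rf u y z := by
    intro σ
    filter_upwards [rf_smul (((Equiv.Perm.sign σ : ℤ) : ℝ))
        (Bt (σ 0) (B (σ 1) (Bt (σ 2) (B (σ 3) u)))),
      rf_Bt hBt (σ 0) (B (σ 1) (Bt (σ 2) (B (σ 3) u))),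
      rf_B H hj (σ 1) (Bt (σ 2) (B (σ 3) u)), rf_Bt hBt (σ 2) (B (σ 3) u),
      rf_B H hj (σ 3) u] with z e0 e1 e2 e3 e4
    have e5 : (fun y => rf ((((Equiv.Perm.sign σ : ℤ) : ℝ)) •
        Bt (σ 0) (B (σ 1) (Bt (σ 2) (B (σ 3) u)))) y z) =
        (((Equiv.Perm.sign σ : ℤ) : ℝ)) •
          fun y => rf (Bt (σ 0) (B (σ 1) (Bt (σ 2) (B (σ 3) u)))) y z := funext fun y => e0 y
    rw [e5, e1, e2, e3, e4, Matrix.smul_mulVec, Matrix.mulVec_mulVec, Matrix.mulVec_mulVec,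
      Matrix.mulVec_mulVec, Matrix.mul_assoc, Matrix.mul_assoc]
  have h2 : ∀ᵐ z ∂μM, ∀ σ : Equiv.Perm (Fin 4),
      (fun y => rf ((((Equiv.Perm.sign σ : ℤ) : ℝ)) •
        Bt (σ 0) (B (σ 1) (Bt (σ 2) (B (σ 3) u)))) y z) =
      ((((Equiv.Perm.sign σ : ℤ) : ℝ)) • ((Bm S j z (σ 0)).transpose * Bm S j z (σ 1) *
        (Bm S j z (σ 2)).transpose * Bm S j z (σ 3))).mulVec fun y => rf u y z :=
    ae_all_iff.2 h1
  filter_upwards [rf_sum Finset.univ fun σ : Equiv.Perm (Fin 4) =>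
    (((Equiv.Perm.sign σ : ℤ) : ℝ)) • Bt (σ 0) (B (σ 1) (Bt (σ 2) (B (σ 3) u))), h2, sec_rf u]
    with z e1 e2 e3 y
  have e4 : rf (R0 B Bt u) y z = _ := e1 y
  rw [e4]
  have e5 : (∑ σ : Equiv.Perm (Fin 4), fun y => rf ((((Equiv.Perm.sign σ : ℤ) : ℝ)) •
        Bt (σ 0) (B (σ 1) (Bt (σ 2) (B (σ 3) u)))) y z) =
      (rr S j z • p0m S z).mulVec fun y => rf u y z := by
    rw [Finset.sum_congr rfl fun σ _ => e2 σ, ← Matrix.sum_mulVec, (rr_mat H j z).1]
  have e6 := congrFun e5 y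
  rw [Finset.sum_apply] at e6
  rw [e6, Matrix.smul_mulVec]
  show rr S j z * ∑ y', S.D0.p y y' z * rf u y' z = _
  rw [e3 y]

theorem rf_R1 (w : S.D1.toAD.HE) :
    ∀ᵐ z ∂μM, ∀ x, rf (R1 (fun a => CH H (sm_ei hj a)) Bt w) x z = - rr S j z * rf w x z := by
  set B : Fin 4 → S.D0.toAD.HE →L[ℝ] S.D1.toAD.HE := fun a => CH H (sm_ei hj a) with hB
  have h1 : ∀ σ : Equiv.Perm (Fin 4), ∀ᵐ z ∂μM,
      (fun x => rf ((((Equiv.Perm.sign σ : ℤ) : ℝ)) •
        B (σ 0) (Bt (σ 1) (B (σ 2) (Bt (σ 3) w)))) x z) =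
      ((((Equiv.Perm.sign σ : ℤ) : ℝ)) • (Bm S j z (σ 0) * (Bm S j z (σ 1)).transpose *
        Bm S j z (σ 2) * (Bm S j z (σ 3)).transpose)).mulVec fun x => rf w x z := by
    intro σ
    filter_upwards [rf_smul (((Equiv.Perm.sign σ : ℤ) : ℝ))
        (B (σ 0) (Bt (σ 1) (B (σ 2) (Bt (σ 3) w)))),
      rf_B H hj (σ 0) (Bt (σ 1) (B (σ 2) (Bt (σ 3) w))),
      rf_Bt hBt (σ 1) (B (σ 2) (Bt (σ 3) w)), rf_B H hj (σ 2) (Bt (σ 3) w),
      rf_Bt hBt (σ 3) w] with z e0 e1 e2 e3 e4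
    have e5 : (fun x => rf ((((Equiv.Perm.sign σ : ℤ) : ℝ)) •
        B (σ 0) (Bt (σ 1) (B (σ 2) (Bt (σ 3) w)))) x z) =
        (((Equiv.Perm.sign σ : ℤ) : ℝ)) •
          fun x => rf (B (σ 0) (Bt (σ 1) (B (σ 2) (Bt (σ 3) w)))) x z := funext fun x => e0 x
    rw [e5, e1, e2, e3, e4, Matrix.smul_mulVec, Matrix.mulVec_mulVec, Matrix.mulVec_mulVec,
      Matrix.mulVec_mulVec, Matrix.mul_assoc, Matrix.mul_assoc]
  have h2 : ∀ᵐ z ∂μM, ∀ σ : Equiv.Perm (Fin 4),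
      (fun x => rf ((((Equiv.Perm.sign σ : ℤ) : ℝ)) •
        B (σ 0) (Bt (σ 1) (B (σ 2) (Bt (σ 3) w)))) x z) =
      ((((Equiv.Perm.sign σ : ℤ) : ℝ)) • (Bm S j z (σ 0) * (Bm S j z (σ 1)).transpose *
        Bm S j z (σ 2) * (Bm S j z (σ 3)).transpose)).mulVec fun x => rf w x z :=
    ae_all_iff.2 h1
  filter_upwards [rf_sum Finset.univ fun σ : Equiv.Perm (Fin 4) =>
    (((Equiv.Perm.sign σ : ℤ) : ℝ)) • B (σ 0) (Bt (σ 1) (B (σ 2) (Bt (σ 3) w))), h2, sec_rf w]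
    with z e1 e2 e3 x
  have e4 : rf (R1 B Bt w) x z = _ := e1 x
  rw [e4]
  have e5 : (∑ σ : Equiv.Perm (Fin 4), fun x => rf ((((Equiv.Perm.sign σ : ℤ) : ℝ)) •
        B (σ 0) (Bt (σ 1) (B (σ 2) (Bt (σ 3) w)))) x z) =
      (-rr S j z • p1m S z).mulVec fun x => rf w x z := by
    rw [Finset.sum_congr rfl fun σ _ => e2 σ, ← Matrix.sum_mulVec, (rr_mat H j z).2]
  have e6 := congrFun e5 x
  rw [Finset.sum_apply] at e6
  rw [e6, Matrix.smul_mulVec]
  show -rr S j z * ∑ x', S.D1.p x x' z * rf w x' z = _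
  rw [e3 x]

/-- **(h0)** -/
theorem h0 (S0 : Spec S.D0) (k : ℕ) :
    ⟪cH S.D0 (ph S0 k), R0 (fun a => CH H (sm_ei hj a)) Bt (cH S.D0 (ph S0 k))⟫_ℝ =
      wt S.D0 S0 (rr S j) k := by
  refine RcE_746.inner_wt S0 k ?_
  filter_upwards [rf_R0 hBt H hj (cH S.D0 (ph S0 k)), rf_cH (ph S0 k)] with z e1 e2 a
  rw [e1 a, e2 a]
  rfl

/-- **(h0')** -/
theorem h0' (S0 : Spec S.D0) (k : ℕ) :
    ⟪JH (cs0 H) (cH S.D0 (ph S0 k)),
      R0 (fun a => CH H (sm_ei hj a)) Bt (cH S.D0 (ph S0 k))⟫_ℝ = 0 :=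
  orth_ae (cs0 H) (rf_R0 hBt H hj (cH S.D0 (ph S0 k)))

/-- **(h1)** -/
theorem h1 (S1 : Spec S.D1) (k : ℕ) :
    ⟪cH S.D1 (ph S1 k), R1 (fun a => CH H (sm_ei hj a)) Bt (cH S.D1 (ph S1 k))⟫_ℝ =
      -(wt S.D1 S1 (rr S j) k) := by
  have h2 : ⟪cH S.D1 (ph S1 k), R1 (fun a => CH H (sm_ei hj a)) Bt (cH S.D1 (ph S1 k))⟫_ℝ =
      ∫ z, -rr S j z * ∑ a, S1.φ k a z ^ 2 ∂μM := by
    refine RcE_746.inner_wt S1 k (f := fun z => -rr S j z) ?_
    filter_upwards [rf_R1 hBt H hj (cH S.D1 (ph S1 k)), rf_cH (ph S1 k)] with z e1 e2 a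
    rw [e1 a, e2 a]
    rfl
  rw [h2]
  unfold wt
  rw [← integral_neg]
  exact integral_congr_ae (Eventually.of_forall fun z => neg_mul _ _)

/-- **(h1')** -/
theorem h1' (C : CJ1 S cc J1) (S1 : Spec S.D1) (k : ℕ) :
    ⟪JH (cs1 C) (cH S.D1 (ph S1 k)),
      R1 (fun a => CH H (sm_ei hj a)) Bt (cH S.D1 (ph S1 k))⟫_ℝ = 0 :=
  orth_ae (cs1 C) (r := fun z => -rr S j z) (rf_R1 hBt H hj (cH S.D1 (ph S1 k)))

end bt

theorem L_aux {κ : Type} [Fintype κ] {D : Dat 4 M κ} (hp : ∀ z, ∑ a, D.p a a z = 4)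
    (H : Sym S cc) (hj : j.OK S) (S0 : Spec D) :
    Tendsto (fun l : ℝ => l ^ 2 * ∑' k, ((l + S0.μ k) ^ 4)⁻¹ * wt D S0 (rr S j) k) atTop
      (𝓝 ((96 * Real.pi ^ 2)⁻¹ * numJ S j)) := by
  have h1 := Weyl_820.weyl_res D S0 (f := rr S j) (sm_rr H hj).continuous
  have h2 : ∫ z, rr S j z * ∑ a, D.p a a z ∂μM = numJ S j := by
    simp only [hp]
    rw [integral_mul_const, numJ_rr, mul_comm]
  rw [h2] at h1
  exact h1

/-- **(L0)** -/
theorem L0 (H : Sym S cc) (hj : j.OK S) (S0 : Spec S.D0) :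
    Tendsto (fun l : ℝ => l ^ 2 * ∑' k, ((l + S0.μ k) ^ 4)⁻¹ * wt S.D0 S0 (rr S j) k) atTop
      (𝓝 ((96 * Real.pi ^ 2)⁻¹ * numJ S j)) := L_aux H.rk0 H hj S0

/-- **(L1)** -/
theorem L1 (H : Sym S cc) (hj : j.OK S) (S1 : Spec S.D1) :
    Tendsto (fun l : ℝ => l ^ 2 * ∑' k, ((l + S1.μ k) ^ 4)⁻¹ * wt S.D1 S1 (rr S j) k) atTop
      (𝓝 ((96 * Real.pi ^ 2)⁻¹ * numJ S j)) := L_aux H.rk1 H hj S1

/-- **(W)**, all six. -/
theorem W (H : Sym S cc) (C : CJ1 S cc J1) (hj : j.OK S) (S0 : Spec S.D0) (S1 : Spec S.D1)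
    (Bt : Fin 4 → S.D1.toAD.HE →L[ℝ] S.D0.toAD.HE)
    (hBt : ∀ a f, ∀ᵐ z ∂μM, ∀ y, rf (Bt a f) y z = ∑ x, mth S (ei j a) x y z * rf f x z) :
    ∃ f0 : M → ℝ,
      (∀ k, ⟪cH S.D0 (ph S0 k), R0 (fun a => CH H (sm_ei hj a)) Bt (cH S.D0 (ph S0 k))⟫_ℝ =
        wt S.D0 S0 f0 k) ∧
      (∀ k, ⟪JH (cs0 H) (cH S.D0 (ph S0 k)),
        R0 (fun a => CH H (sm_ei hj a)) Bt (cH S.D0 (ph S0 k))⟫_ℝ = 0) ∧
      (∀ k, ⟪cH S.D1 (ph S1 k), R1 (fun a => CH H (sm_ei hj a)) Bt (cH S.D1 (ph S1 k))⟫_ℝ =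
        -(wt S.D1 S1 f0 k)) ∧
      (∀ k, ⟪JH (cs1 C) (cH S.D1 (ph S1 k)),
        R1 (fun a => CH H (sm_ei hj a)) Bt (cH S.D1 (ph S1 k))⟫_ℝ = 0) ∧
      Tendsto (fun l : ℝ => l ^ 2 * ∑' k, ((l + S0.μ k) ^ 4)⁻¹ * wt S.D0 S0 f0 k) atTop
        (𝓝 ((96 * Real.pi ^ 2)⁻¹ * numJ S j)) ∧
      Tendsto (fun l : ℝ => l ^ 2 * ∑' k, ((l + S1.μ k) ^ 4)⁻¹ * wt S.D1 S1 f0 k) atTop
        (𝓝 ((96 * Real.pi ^ 2)⁻¹ * numJ S j)) :=
  ⟨rr S j, h0 hBt H hj S0, h0' hBt H hj S0, h1 hBt H hj S1, h1' hBt H hj C S1, L0 H hj S0,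
    L1 H hj S1⟩

end

end Crest.Agent.R235.RcW_723
end

-- ▼ part R235/RcWX_837
section

/-!
Row 235 (S0364), block FAM/RC: `WX` (helper723's `RcW_723.W` in the form of `Rn4_820`), and `RCMAN` from `P2X`.
-/

set_option autoImplicit false
set_option maxSynthPendingDepth 3

namespace Crest.Agent.R235.RcWX_837

theorem wx : Rn_820.WX := by
  intro M _ _ _ _ _ _ _ _ _ _ _ _ _ κ0 κ1 κT _ _ _ S cc J1 j H C hj S0 S1 Bt hBt
  obtain ⟨f0, h⟩ := RcW_723.W H C hj S0 S1 Bt hBt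
  exact ⟨_, _, h⟩

theorem rcman_of (hP : Rn_820.P2X) : FamTop_307.RCMAN.{0} := Rn_820.rcman_of hP wx

end Crest.Agent.R235.RcWX_837
end

-- ▼ part R235/RcP2_215
section

/-!
Row 235 (S0364), PACKAGE FAM, RCMAN, piece (P2), part 4 (helper215): **P2X**.
-/

set_option autoImplicit false
set_option maxSynthPendingDepth 3
set_option linter.unusedSectionVars false

open scoped ContDiff ENNReal NNReal Topology Manifold Bundle RealInnerProductSpace
open MeasureTheory Set Filter Metric Bundle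

universe v

namespace Crest.Agent.R235.RcP2_215

open Crest.Agent.R249.Tv57 Crest.Agent.R247.Ms322 Crest.Agent.R247.Dir593
open Crest.Agent.R247.Frd657 Crest.Agent.R235.Fs4_546
open Crest.Agent.R235.SWSym_451 Crest.Agent.R235.Fred_649
open Crest.Agent.R235.SWDefs_53 Crest.Agent.R235.SWPf_435 Crest.Agent.R235.RcX_435
open Crest.Agent.R235.FamTop_307 Crest.Agent.R235.RcQ_215
open Crest.Agent.R235.L4_433 Crest.Agent.R235.Cpt_755

noncomputable section

variable {M : Type v} [MetricSpace M] [CompactSpace M] [ConnectedSpace M]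
  [ChartedSpace (EuclideanSpace ℝ (Fin 4)) M] [IsManifold (𝓡 4) ∞ M]
  [RiemannianBundle (fun p : M => TangentSpace (𝓡 4) p)]
  [IsContMDiffRiemannianBundle (𝓡 4) ∞ (EuclideanSpace ℝ (Fin 4))
    (fun p : M => TangentSpace (𝓡 4) p)]
  [IsRiemannianManifold (𝓡 4) M] [MeasurableSpace M] [BorelSpace M]
  [SecondCountableTopology M] [Nonempty M] [IsFiniteMeasureOnCompacts (μHE[4] : Measure M)]

local notation "μM" => (μHE[4] : Measure M)

section gen

variable {κ κ' : Type} [Fintype κ] [Fintype κ'] {D0 : Dat 4 M κ} {D1 : Dat 4 M κ'}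
  {β : κ' → κ → M → ℝ}

theorem inner_rf (f g : D0.toAD.HE) : (⟪f, g⟫ : ℝ) = ∫ z, ∑ a, rf f a z * rf g a z ∂μM :=
  inner_HH (f : HH μM κ) (g : HH μM κ) (Eventually.of_forall fun _ _ => rfl)
    (Eventually.of_forall fun _ _ => rfl)

/-- the multiplication operator `L²(D0) → L²(D1)`. -/
def BH (h : BMap D0 D1 β) : D0.toAD.HE →L[ℝ] D1.toAD.HE :=
  ((matR fun x y => bm_smooth (h.sm x y)).comp D0.toAD.HE.subtypeL).codRestrict
    D1.toAD.HE fun f => by
      set F : HH μM κ' := matR (fun x y => bm_smooth (h.sm x y)) (f : HH μM κ) with hF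
      have h1 : ∀ᵐ z ∂μM, ∀ x, (F x : M → ℝ) z = ∑ y, β x y z * rf f y z := by
        filter_upwards [coe_matR (fun x y => bm_smooth (h.sm x y)) (f : HH μM κ)]
          with z e1 x
        rw [e1 x]
        exact Finset.sum_congr rfl fun y _ => mul_comm _ _
      show D1.toAD.P F = F
      ext x
      filter_upwards [D1.toAD.coe_P F, h1] with z e1 e2
      rw [e1 x, e2 x]
      simp only [e2, Finset.mul_sum]
      rw [Finset.sum_comm]
      refine Finset.sum_congr rfl fun y _ => ?_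
      rw [← h.p1 x y z, Finset.sum_mul]
      exact Finset.sum_congr rfl fun x' _ => by
        show D1.p x x' z * (β x' y z * rf f y z) = _
        ring

theorem coe_BH (h : BMap D0 D1 β) (f : D0.toAD.HE) :
    ∀ᵐ z ∂μM, ∀ x, rf (BH h f) x z = ∑ y, β x y z * rf f y z := by
  filter_upwards [coe_matR (fun x y => bm_smooth (h.sm x y)) (f : HH μM κ)] with z e1 x
  refine (e1 x).trans ?_
  exact Finset.sum_congr rfl fun y _ => mul_comm _ _

theorem BH_cH (h : BMap D0 D1 β) (u : SmS D0) : BH h (cH D0 u) = cH D1 (bS h u) := by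
  refine HE_ext ?_
  filter_upwards [coe_BH h (cH D0 u), rf_cH u, rf_cH (bS h u)] with z e1 e2 e3 x
  rw [e1 x, e3 x]
  simp only [e2]
  rfl

theorem BH_adj (h : BMap D0 D1 β) (f : D0.toAD.HE) (g : D1.toAD.HE) :
    (⟪BH h f, g⟫ : ℝ) = ⟪f, BH h.tr g⟫ := by
  rw [inner_rf, inner_rf]
  refine integral_congr_ae ?_
  filter_upwards [coe_BH h f, coe_BH h.tr g] with z e1 e2
  simp only [e1, e2, Finset.mul_sum, Finset.sum_mul]
  rw [Finset.sum_comm]
  refine Finset.sum_congr rfl fun y _ => Finset.sum_congr rfl fun x _ => ?_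
  show β x y z * rf f y z * rf g x z = rf f y z * (β x y z * rf g x z)
  ring

theorem jj_BW' (h : BMap D0 D1 β) (v : D0.toAD.WE) :
    D1.toAD.jj (BW h v) = BH h (D0.toAD.jj v) :=
  jj_BW (dns4 D0) h (BH_cH h) v

/-- **the commutator bound**. -/
theorem bd_W (P : OpPair D0 D1) (h : BMap D0 D1 β) : ∃ K : ℝ, 0 ≤ K ∧
    ∀ (v : D0.toAD.WE) (w : D1.toAD.WE),
      |(⟪Ah P.swap (BW h v), Ah P.swap w⟫ - ⟪Ah P v, Ah P (BW h.tr w)⟫ : ℝ)| ≤
          K * (‖v‖ * ‖D1.toAD.jj w‖) ∧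
      |(⟪Ah P.swap (BW h v), Ah P.swap w⟫ - ⟪Ah P v, Ah P (BW h.tr w)⟫ : ℝ)| ≤
          K * (‖D0.toAD.jj v‖ * ‖w‖) := by
  obtain ⟨K, hK, hb⟩ := bd_TT P h
  refine ⟨K, hK, fun v w => ?_⟩
  have hd : ∀ (u : SmS D0) (w : SmS D1),
      (⟪Ah P.swap (BW h (cW D0 u)), Ah P.swap (cW D1 w)⟫ -
        ⟪Ah P (cW D0 u), Ah P (BW h.tr (cW D1 w))⟫ : ℝ) = TT P h u w := by
    intro u w
    rw [BW_cW (dns4 D0), BW_cW (dns4 D1), Ah_cW (P := P.swap) (dns4 D1),
      Ah_cW (P := P.swap) (dns4 D1), Ah_cW (P := P) (dns4 D0), Ah_cW (P := P) (dns4 D0)]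
    rfl
  have c1 : Continuous fun v : D0.toAD.WE => Ah P.swap (BW h v) := by fun_prop
  have c2 : Continuous fun v : D0.toAD.WE => Ah P v := by fun_prop
  have c3 : Continuous fun w : D1.toAD.WE => Ah P.swap w := by fun_prop
  have c4 : Continuous fun w : D1.toAD.WE => Ah P (BW h.tr w) := by fun_prop
  constructor
  · refine (dns4 D0).induction_on (p := fun v : D0.toAD.WE =>
      |(⟪Ah P.swap (BW h v), Ah P.swap w⟫ - ⟪Ah P v, Ah P (BW h.tr w)⟫ : ℝ)| ≤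
        K * (‖v‖ * ‖D1.toAD.jj w‖)) v ?_ fun u => ?_
    · exact isClosed_le (((c1.inner continuous_const).sub (c2.inner continuous_const)).abs)
        (continuous_const.mul (continuous_norm.mul continuous_const))
    · refine (dns4 D1).induction_on (p := fun w : D1.toAD.WE =>
        |(⟪Ah P.swap (BW h (cW D0 u)), Ah P.swap w⟫ - ⟪Ah P (cW D0 u), Ah P (BW h.tr w)⟫ : ℝ)| ≤
          K * (‖cW D0 u‖ * ‖D1.toAD.jj w‖)) w ?_ fun w => ?_
      · exact isClosed_le (((continuous_const.inner c3).sub (continuous_const.inner c4)).abs)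
          (continuous_const.mul (continuous_const.mul (D1.toAD.jj.continuous.norm)))
      · rw [hd, jj_cW]
        exact (hb u w).1
  · refine (dns4 D0).induction_on (p := fun v : D0.toAD.WE =>
      |(⟪Ah P.swap (BW h v), Ah P.swap w⟫ - ⟪Ah P v, Ah P (BW h.tr w)⟫ : ℝ)| ≤
        K * (‖D0.toAD.jj v‖ * ‖w‖)) v ?_ fun u => ?_
    · exact isClosed_le (((c1.inner continuous_const).sub (c2.inner continuous_const)).abs)
        (continuous_const.mul ((D0.toAD.jj.continuous.norm).mul continuous_const))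
    · refine (dns4 D1).induction_on (p := fun w : D1.toAD.WE =>
        |(⟪Ah P.swap (BW h (cW D0 u)), Ah P.swap w⟫ - ⟪Ah P (cW D0 u), Ah P (BW h.tr w)⟫ : ℝ)| ≤
          K * (‖D0.toAD.jj (cW D0 u)‖ * ‖w‖)) w ?_ fun w => ?_
      · exact isClosed_le (((continuous_const.inner c3).sub (continuous_const.inner c4)).abs)
          (continuous_const.mul (continuous_const.mul continuous_norm))
      · rw [hd, jj_cW]
        exact (hb u w).2

end gen

variable {κ0 κ1 κT : Type} [Fintype κ0] [Fintype κ1] [Fintype κT]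
  {S : SWS M κ0 κ1 κT} {cc : κ1 → κ0 → M → EuclideanSpace ℝ (Fin 4)} {J1 : κ1 → κ1 → M → ℝ}
  {j : JD M κT 4}

theorem Jp (H : Sym S cc) (a b : κ0) (z : M) : ∑ c, S.J a c z * S.D0.p c b z = S.J a b z := by
  rw [H.skewJ a b z, ← H.pJ b a z, ← Finset.sum_neg_distrib]
  refine Finset.sum_congr rfl fun c _ => ?_
  rw [S.D0.symmp c b z, H.skewJ a c z]
  ring

theorem bmap (H : Sym S cc) {θ : κT → M → ℝ} (hθ : SmV (n := 4) θ) :
    BMap S.D0 S.D1 (mth S θ) where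
  sm := sm_mth H hθ
  p1 x y z := by
    unfold mth
    simp only [Finset.mul_sum]
    rw [Finset.sum_comm]
    refine Finset.sum_congr rfl fun A _ => ?_
    rw [← clsec H A x y z, Finset.mul_sum]
    exact Finset.sum_congr rfl fun x' _ => by ring
  p0 x y z := by
    unfold mth
    simp only [Finset.sum_mul]
    rw [Finset.sum_comm]
    refine Finset.sum_congr rfl fun A _ => ?_
    have h1 : ∑ y', S.cl A x y' z * S.D0.p y' y z = S.cl A x y z := by
      simp only [H.cl_eq, Finset.sum_mul]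
      rw [Finset.sum_comm]
      refine Finset.sum_congr rfl fun y'' _ => ?_
      rw [← Jp H y'' y z, Finset.mul_sum]
      exact Finset.sum_congr rfl fun y' _ => by ring
    rw [← h1, Finset.mul_sum]
    exact Finset.sum_congr rfl fun y' _ => by ring

theorem CH_eq (H : Sym S cc) {θ : κT → M → ℝ} (hθ : SmV (n := 4) θ) (f : S.D0.toAD.HE) :
    CH H hθ f = BH (bmap H hθ) f := by
  refine HE_ext ?_
  filter_upwards [coe_CH H hθ f, coe_BH (bmap H hθ) f] with z e1 e2 x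
  rw [e1 x, e2 x, ← cm_mth]
  exact Finset.sum_congr rfl fun y _ => mul_comm _ _

theorem BH_JH (H : Sym S cc) (C : CJ1 S cc J1) {θ : κT → M → ℝ} (hθ : SmV (n := 4) θ)
    (f : S.D0.toAD.HE) : BH (bmap H hθ) (JH (cs0 H) f) = JH (cs1 C) (BH (bmap H hθ) f) := by
  rw [← CH_eq H hθ, ← CH_eq H hθ, CH_JH H C]

theorem BHt_JH (H : Sym S cc) (C : CJ1 S cc J1) {θ : κT → M → ℝ} (hθ : SmV (n := 4) θ)
    (g : S.D1.toAD.HE) :
    BH (bmap H hθ).tr (JH (cs1 C) g) = JH (cs0 H) (BH (bmap H hθ).tr g) := by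
  refine ext_inner_left ℝ fun x => ?_
  have s1 := Cx_172.inner_J_left (JH_JH (cs1 C)) (norm_JH (cs1 C)) (BH (bmap H hθ) x) g
  have s0 := Cx_172.inner_J_left (JH_JH (cs0 H)) (norm_JH (cs0 H)) x (BH (bmap H hθ).tr g)
  rw [← BH_JH H C hθ] at s1
  have a1 := BH_adj (bmap H hθ) x (JH (cs1 C) g)
  have a2 := BH_adj (bmap H hθ) (JH (cs0 H) x) g
  linarith

set_option maxHeartbeats 1000000 in
theorem p2x : Rn_820.P2X := by
  intro M _ _ _ _ _ _ _ _ _ _ _ _ _ κ0 κ1 κT _ _ _ S cc J1 j H C hj a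
  obtain ⟨K, hK, hb⟩ := bd_W S.P (bmap H (sm_ei hj a))
  refine ⟨BH (bmap H (sm_ei hj a)).tr, BW (bmap H (sm_ei hj a)), BW (bmap H (sm_ei hj a)).tr, K,
    ?_, fun f => coe_BH (bmap H (sm_ei hj a)).tr f⟩
  exact
    { adj := fun x y => by
        show (⟪CH H (sm_ei hj a) x, y⟫ : ℝ) = _
        rw [CH_eq]
        exact BH_adj _ x y
      buJ := fun v => by
        apply S.D1.toAD.jj_injective
        show S.D1.toAD.jj (BW (bmap H (sm_ei hj a)) (JW (cs0 H) v)) =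
          S.D1.toAD.jj (JW (cs1 C) (BW (bmap H (sm_ei hj a)) v))
        rw [jj_BW', jj_JW, jj_JW, jj_BW', BH_JH H C (sm_ei hj a)]
      bvJ := fun w => by
        apply S.D0.toAD.jj_injective
        show S.D0.toAD.jj (BW (bmap H (sm_ei hj a)).tr (JW (cs1 C) w)) =
          S.D0.toAD.jj (JW (cs0 H) (BW (bmap H (sm_ei hj a)).tr w))
        rw [jj_BW', jj_JW, jj_JW, jj_BW', BHt_JH H C (sm_ei hj a)]
      jbu := fun v => by
        show S.D1.toAD.jj (BW (bmap H (sm_ei hj a)) v) = CH H (sm_ei hj a) (S.D0.toAD.jj v)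
        rw [jj_BW', CH_eq]
      jbv := fun w => jj_BW' (bmap H (sm_ei hj a)).tr w
      K0 := hK
      q0 := fun v w => by
        rw [Rn_820.D0_eq]
        exact (hb v w).1
      q1 := fun v w => by
        rw [Rn_820.D0_eq]
        exact (hb v w).2 }

end

end Crest.Agent.R235.RcP2_215
end

-- ▼ part R235/Final_837

/-!
Row 235 (S0364), helper837 (captain): the assembly of `MAIN`: all the nodes are theorems.
-/

set_option autoImplicit false

universe u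

namespace Crest.Agent.R235.Final_837

open Crest.Agent.R235 Crest.Agent.R240

theorem rcman : FamTop_307.RCMAN.{0} := RcWX_837.rcman_of RcP2_215.p2x

theorem bplus : BPLUS.{0} := SWFin_53.bplus

theorem fam4 : DichProps_723.FAM4W.{0} :=
  FamEndT_307.fam4w_of (FamTop_307.famhx_of rcman FvZ_143.fwxh0 FdsFin_778.finh4) bplus ModB_344.modt

theorem modx : SwcProd_215.MODX.{0} :=
  ModXE_399.modx_of (FamTop2_307.famxc_of rcman FvX_844.fwx0c FdsFin_778.fin4) bplus ModXG_399.modxg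

theorem prod : SwcProd_215.PROD.{u} :=
  SwcProd_215.prod2 SwcPWN_215.pwd (SwcPRB_766.prb SwcPWN_215.pwd SwcVOLD_57.vold)

theorem sig235 : DichProps_723.SIG235.{0} := IndSig2_723.sig235_of_HODGE Hodge_194.hodge

open CurDefs_132 in
theorem siul : SIUL :=
  have h2 : LIN2 := CurLin2_679.lin2
  have h3 : LIN3 := CurLin3_400.lin3 h2
  have hm : MON := RegFin_460.mon
  have h4 : LIN4 := CurLin4_253.LIN4_proof
  have h1 : LIN1' := CurLin1_785.lin1'
  have g1 : GEO1 := CurGeo1_679.geo1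
  CurSiul_531.siul (CurLim_510.lim hm)
    (CurClo_505.clo (CurGra_109.gra h1 h3 h4 g1 CurGeo2_133.geo2)
      (CurGri_538.gri (CurDel_538.del hm h1 h4 g1) h1 h4 g1) hm h4 g1) g1 h4

theorem cur3 : Curves_489.CUR3.{u} := Cur3_4.cur3_of siul

theorem jdec : JDEC.{u} := Curves_489.jdec cur3 RegCMain_522.regc Glob_370.glob

theorem t2s : Swc.T2S.{u} := Curves_489.t2s cur3 RegCMain_522.regc Glob_370.glob

theorem adj : Adj.ADJ.{u} :=
  AdjMain_43.adj (BoxL2_266.boxp_of_fol NWFin_334.fol_stmt Wk_250.weakp) AdjPush_470.push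
    Field_910.field IntW_659.intw Cord_659.cord AdjCut_470.cutf Brint_464.brint Degs_370.degs
    Bch_370.bch

theorem isec : Adj.ISEC.{u} :=
  AdjIsec_43.isec (BoxL2_266.boxp_of_fol NWFin_334.fol_stmt Wk_250.weakp) IntW_659.intw
    Cord_659.cord AdjCut_470.cutf Brint_464.brint

/-- THE MAP, level 3. -/
theorem main : MAIN.{u} := by
  have hB : BPLUS.{0} := bplus
  have hRoot : ROOT.{0} := SWFin_53.root
  have hFl : FLATK.{0} := SWFin_53.flatk
  have hEv : DichProps_723.EVEN235.{0} := IndEven_692.even235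
  have hD : DICHR.{0} := dichr_open sig235 hEv hB fam4
  have hPD : STF_861.PD.{0} := PD_819.pd_of_dichr hD
  have hCLS : CLS.{0} := cls_of_dichr hD
  have hJDEC : JDEC.{0} := jdec
  have hT2S : Swc.T2S.{0} := t2s
  have hADJ : Adj.ADJ.{0} := adj
  have hISEC : Adj.ISEC.{0} := isec
  have hJI : JINT.{0} := CurTop_844.jint integ
  have hJS : JSAME.{0} := Same_796.jsame NWFin_334.fol_stmt
  have hSPH : SPH.{0} := sph_open hD hRoot hJDEC hADJ hISEC hJS
  have hDISJ : DISJ.{0} := X1_61.disj_of NWBel_601.bel NWRegF_930.reg_stmt hISEC hJS hPD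
  have hINTT : INTT.{0} := X1_61.intt_of NWBel_601.bel NWRegF_930.reg_stmt hISEC hJS hPD
  have hNT : NECKTH.{0} := KumDisc_601.neckth_of
    fun M _ _ _ _ _ _ w hw hK m σ d hσ hd K hC hT i =>
      KumThom_785.thom K12Phi_291.phi K12Radf_843.radf K12S2_423.s2prim K12Rprim_82.rprim
        hw hK (hσ i) (hd i) K i (hC i) (hT i)
  have hTR : TORUSR.{0} := Swc.torusr_of (SwcTop_291.swcur_of SwcANF_34.an prod modx hB) hT2S hJI
    (Swc.jtor_of RS.CAtl.rsec hADJ) hCLS Exj_900.exj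
  have hAt : ATLAS.{0} := Tor3_225.atlas TorFam_384.fam hINTT Limt.limt hT2S hJI RS.CAtl.rsec
    hADJ hCLS Exj_900.exj
  have hEVT : EVT.{0} := KumEvt_152.evt_of' Exj_900.exj (cone_open hD hJDEC hADJ) lattr hTR hAt
    hINTT
  have hK12 : K12T.{0} := K12_417.k12t
  have hK : KUM.{0} := KumTop_152.kum_of hSPH hDISJ hK12 hNT (KumTwD_800.ktw hFl)
    (fun M _ _ _ _ _ _ w d hw hK hP => KumCode_766.exists_eight (hw.vol 0) hK hP)
    KTA_172.kt (KumK4T_305.k4t hD hFl) KumMinus_918.minusx hEVT KUp_604.kup_stmt KDown_604.kdown_stmt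
    Yauk_819.yauk
  have hTORR : TORR.{0} := Tor2_225.torr_of hTR hAt FibTop_129.coframe TorFlat_68.flatc
  exact finalR_of sig235 hEv hB fam4 hRoot hJDEC hADJ hK hTORR

end Crest.Agent.R235.Final_837
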