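import Crest.Agent.R235.Ip_288
import Crest.Agent.R235.HodgeAbs_194
import Crest.Agent.R240.Fund
import Crest.Agent.R240.En4F
import Crest.Agent.R249.Idx6_789
import Crest.Agent.R249.Idx7_789
import Crest.Agent.R249.Grn6_324
import Crest.Agent.R249.DicB_129

-- ▼ part R235/HodgeForm_194
section

/-!
Row 235 (S0364), package IND, leaf IND-7 HODGE (helper194), part 1: two-forms.

* `neg_of_perp` : `W(F,F) W(m,m) < 0` for `m ≠ 0` orthogonal to an orthonormal positive triple;
* `fund_vol`    : a smooth form orthogonal to the exact ones is closed (any nondegenerate `F`).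
-/

set_option autoImplicit false
set_option maxSynthPendingDepth 3

open Set Function Filter MeasureTheory
open scoped Manifold ContDiff Topology ENNReal

universe u

namespace Crest.Agent.R235.Hodge_194

open Crest.Agent.R240 Crest.Agent.R240.Ch Crest.Agent.R240.Int

noncomputable section

/-! ### pointwise algebra -/

section Pt

/-- the self-dual part of the standard metric -/
def pl (b : Bil) : Fin 3 → ℝ :=
  ![ent b 0 1 + ent b 2 3, ent b 0 2 - ent b 1 3, ent b 0 3 + ent b 1 2]

/-- the anti-self-dual part -/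
def mi (b : Bil) : Fin 3 → ℝ :=
  ![ent b 0 1 - ent b 2 3, ent b 0 2 + ent b 1 3, ent b 0 3 - ent b 1 2]

theorem W_pm (b : Bil) : 2 * W b b = ∑ i, pl b i ^ 2 - ∑ i, mi b i ^ 2 := by
  simp only [pl, mi, Fin.sum_univ_three, W, Matrix.cons_val_zero, Matrix.cons_val_one,
    Matrix.cons_val]
  ring

theorem eq_zero_of_pm {b : Bil} (hb : Alt b) (h1 : ∀ i, pl b i = 0) (h2 : ∀ i, mi b i = 0) :
    b = 0 := by
  have a0 := h1 0; have a1 := h1 1; have a2 := h1 2
  have b0 := h2 0; have b1 := h2 1; have b2 := h2 2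
  simp only [pl, mi, Matrix.cons_val_zero, Matrix.cons_val_one,
    Matrix.cons_val] at a0 a1 a2 b0 b1 b2
  apply alt_ext hb (fun v => rfl) <;> rw [ent_zero] <;> linarith

theorem alt_comb {n : ℕ} {e : Fin n → Bil} (he : ∀ i, Alt (e i)) (c : Fin n → ℝ) :
    Alt (∑ i, c i • e i) := by
  intro v
  rw [sum_apply, sum_apply]
  refine Finset.sum_eq_zero fun i _ => ?_
  rw [smul_apply, smul_apply, he i v, smul_zero]

theorem W_sum_left {n : ℕ} (e : Fin n → Bil) (c : Fin n → ℝ) (b : Bil) :
    W (∑ i, c i • e i) b = ∑ i, c i * W (e i) b := by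
  induction n with
  | zero => simp [W, ent_zero]
  | succ n ih =>
    rw [Fin.sum_univ_succ, Fin.sum_univ_succ, W_add_left, W_smul_left, ih]


/-- a nonzero combination of four forms with vanishing self-dual (anti-self-dual) part -/
theorem exists_comb (T : Bil → Fin 3 → ℝ) (hT : ∀ b c i, T (b + c) i = T b i + T c i)
    (hT' : ∀ (r : ℝ) b i, T (r • b) i = r * T b i) (v : Fin 4 → Bil) :
    ∃ c : Fin 4 → ℝ, c ≠ 0 ∧ ∀ i, T (∑ k, c k • v k) i = 0 := by
  let L : (Fin 4 → ℝ) →ₗ[ℝ] (Fin 3 → ℝ) :=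
    { toFun := fun c i => T (∑ k, c k • v k) i
      map_add' := fun c d => by
        funext i
        have h1 : ∑ k, (c + d) k • v k = ∑ k, c k • v k + ∑ k, d k • v k := by
          rw [← Finset.sum_add_distrib]
          exact Finset.sum_congr rfl fun k _ => by rw [Pi.add_apply, add_smul]
        show T (∑ k, (c + d) k • v k) i = T (∑ k, c k • v k) i + T (∑ k, d k • v k) i
        rw [h1, hT]
      map_smul' := fun r c => by
        funext i
        have h1 : ∑ k, (r • c) k • v k = r • ∑ k, c k • v k := by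
          rw [Finset.smul_sum]
          exact Finset.sum_congr rfl fun k _ => by rw [Pi.smul_apply, smul_eq_mul, mul_smul]
        show T (∑ k, (r • c) k • v k) i = r * T (∑ k, c k • v k) i
        rw [h1, hT'] }
  have h : LinearMap.ker L ≠ ⊥ := LinearMap.ker_ne_bot_of_finrank_lt (by simp)
  obtain ⟨c, hc, h0⟩ := Submodule.exists_mem_ne_zero_of_ne_bot h
  exact ⟨c, h0, fun i => congrFun hc i⟩

/-- **the orthogonal complement of a positive three-space is negative**. -/
theorem neg_of_perp {F : Bil} (hF0 : W F F ≠ 0) {e : Fin 3 → Bil} (he : ∀ i, Alt (e i))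
    (hW : ∀ i j, W (e i) (e j) = if i = j then W F F else 0) {m : Bil} (hm : Alt m)
    (hp : ∀ i, W m (e i) = 0) (hm0 : m ≠ 0) : W F F * W m m < 0 := by
  by_contra hcon
  push Not at hcon
  set v : Fin 4 → Bil := ![e 0, e 1, e 2, m] with hv
  -- the square of a combination
  have hsq : ∀ c : Fin 4 → ℝ, W (∑ k, c k • v k) (∑ k, c k • v k) =
      (c 0 ^ 2 + c 1 ^ 2 + c 2 ^ 2) * W F F + c 3 ^ 2 * W m m := by
    intro c
    have hp' : ∀ i, W (e i) m = 0 := fun i => by rw [W_comm]; exact hp i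
    have g : ∀ i j : Fin 4, W (v i) (v j) =
        if i = j then (if i = 3 then W m m else W F F) else 0 := by
      intro i j
      fin_cases i <;> fin_cases j <;> simp [hv, hW, hp, hp']
    have e1 : ∀ i, W (v i) (∑ k, c k • v k) = ∑ k, c k * W (v i) (v k) :=
      fun i => by rw [W_comm, W_sum_left]; exact Finset.sum_congr rfl fun k _ => by rw [W_comm]
    rw [W_sum_left]
    simp only [e1]
    simp only [g, Fin.sum_univ_four]
    simp
    ring
  have halt : ∀ c : Fin 4 → ℝ, Alt (∑ k, c k • v k) := by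
    intro c
    refine alt_comb (fun k => ?_) c
    fin_cases k
    · exact he 0
    · exact he 1
    · exact he 2
    · exact hm
  have fin : ∀ c : Fin 4 → ℝ, c ≠ 0 →
      W F F * W (∑ k, c k • v k) (∑ k, c k • v k) ≤ 0 → (W F F * W (∑ k, c k • v k) (∑ k, c k • v k)
        = 0 → ∑ k, c k • v k = 0) → False := by
    intro c hc hle heq
    have hF2 : 0 < W F F ^ 2 := by positivity
    have h1 : W F F * W (∑ k, c k • v k) (∑ k, c k • v k) =
        (c 0 ^ 2 + c 1 ^ 2 + c 2 ^ 2) * W F F ^ 2 + c 3 ^ 2 * (W F F * W m m) := by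
      rw [hsq]; ring
    have h2 : 0 ≤ c 3 ^ 2 * (W F F * W m m) := by positivity
    have h3 : 0 ≤ (c 0 ^ 2 + c 1 ^ 2 + c 2 ^ 2) * W F F ^ 2 := by positivity
    have h4 : (c 0 ^ 2 + c 1 ^ 2 + c 2 ^ 2) * W F F ^ 2 = 0 := by linarith
    have h5 : c 0 ^ 2 + c 1 ^ 2 + c 2 ^ 2 = 0 := (mul_eq_zero.1 h4).resolve_right hF2.ne'
    have c0 : c 0 = 0 := by nlinarith [sq_nonneg (c 0), sq_nonneg (c 1), sq_nonneg (c 2)]
    have c1 : c 1 = 0 := by nlinarith [sq_nonneg (c 0), sq_nonneg (c 1), sq_nonneg (c 2)]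
    have c2 : c 2 = 0 := by nlinarith [sq_nonneg (c 0), sq_nonneg (c 1), sq_nonneg (c 2)]
    have h6 := heq (by linarith)
    have h7 : ∑ k, c k • v k = c 3 • m := by
      simp only [Fin.sum_univ_four, c0, c1, c2, hv, Matrix.cons_val_zero, Matrix.cons_val_one,
        Matrix.cons_val, zero_smul, zero_add]
    rw [h7] at h6
    have c3 : c 3 = 0 := (smul_eq_zero.1 h6).resolve_right hm0
    apply hc
    funext i
    fin_cases i <;> assumption
  rcases lt_or_gt_of_ne hF0 with hneg | hpos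
  · obtain ⟨c, hc, h0⟩ := exists_comb mi (fun b c i => by
      fin_cases i <;> simp [mi, ent_add] <;> ring) (fun r b i => by
      fin_cases i <;> simp [mi, ent_smul] <;> ring) v
    have h1 := W_pm (∑ k, c k • v k)
    simp only [h0] at h1
    have h2 : 0 ≤ ∑ i, pl (∑ k, c k • v k) i ^ 2 := Finset.sum_nonneg fun i _ => sq_nonneg _
    have h1' : 2 * W (∑ k, c k • v k) (∑ k, c k • v k) = ∑ i, pl (∑ k, c k • v k) i ^ 2 := by
      rw [h1]; simp
    refine fin c hc (by nlinarith) fun h3 => ?_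
    have h4 : W (∑ k, c k • v k) (∑ k, c k • v k) = 0 := (mul_eq_zero.1 h3).resolve_left hF0
    rw [h4] at h1'
    have h5 : ∑ i, pl (∑ k, c k • v k) i ^ 2 = 0 := by linarith
    refine eq_zero_of_pm (halt c) (fun i => ?_) h0
    have := (Finset.sum_eq_zero_iff_of_nonneg fun i _ => sq_nonneg _).1 h5 i (Finset.mem_univ i)
    exact pow_eq_zero_iff two_ne_zero |>.1 this
  · obtain ⟨c, hc, h0⟩ := exists_comb pl (fun b c i => by
      fin_cases i <;> simp [pl, ent_add] <;> ring) (fun r b i => by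
      fin_cases i <;> simp [pl, ent_smul] <;> ring) v
    have h1 := W_pm (∑ k, c k • v k)
    simp only [h0] at h1
    have h2 : 0 ≤ ∑ i, mi (∑ k, c k • v k) i ^ 2 := Finset.sum_nonneg fun i _ => sq_nonneg _
    have h1' : 2 * W (∑ k, c k • v k) (∑ k, c k • v k) = - ∑ i, mi (∑ k, c k • v k) i ^ 2 := by
      rw [h1]; simp
    refine fin c hc (by nlinarith) fun h3 => ?_
    have h4 : W (∑ k, c k • v k) (∑ k, c k • v k) = 0 := (mul_eq_zero.1 h3).resolve_left hF0
    rw [h4] at h1'
    have h5 : ∑ i, mi (∑ k, c k • v k) i ^ 2 = 0 := by linarith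
    refine eq_zero_of_pm (halt c) h0 (fun i => ?_)
    have := (Finset.sum_eq_zero_iff_of_nonneg fun i _ => sq_nonneg _).1 h5 i (Finset.mem_univ i)
    exact pow_eq_zero_iff two_ne_zero |>.1 this

end Pt

/-! ### the fundamental lemma for an arbitrary nondegenerate form -/

section Fund

variable {M : Type u} [TopologicalSpace M] [T2Space M] [CompactSpace M]
  [ChartedSpace E4 M] [IsManifold 𝓘(ℝ, E4) ∞ M] [MeasurableSpace M] [BorelSpace M]

/-- **a smooth two-form orthogonal to all exact forms is closed**. -/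
theorem fund_vol {F : F2 E4 M} (hV : Vol F) {η : F2 E4 M} (hsm : Smooth2 η)
    (hη : ∀ b : F2 E4 M, IsEx b → I F η b = 0) : Closed2 η := by
  intro p y0 hy0 u v w
  -- a ball on which the chart orientation is constant
  have hev := (Int.sg_locally_const hV hy0).and ((chartAt E4 p).open_target.mem_nhds hy0)
  obtain ⟨r, hr, hball⟩ := Metric.eventually_nhds_iff_ball.1 hev
  have hσ : Int.sg F p y0 ≠ 0 := by
    unfold Int.sg
    have h := hV.rep_ne hy0
    rcases lt_or_gt_of_ne h with h1 | h1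
    · rw [sign_neg h1]; norm_num
    · rw [sign_pos h1]; norm_num
  have hcl : En.Cl (rep p η) y0 := by
    refine Fund.cl_of_weak (U := Metric.ball y0 r) Metric.isOpen_ball
      ((hsm.2 p).mono fun z hz => (hball z hz).2) (fun z _ => ?_) ?_ (Metric.mem_ball_self hr)
    · intro v
      rw [rep_apply]
      exact hsm.1 _ _
    · intro S hS hSc hSU
      have hsub : tsupport S ⊆ (chartAt E4 p).target := fun z hz => (hball z (hSU hz)).2
      have hEx : IsEx (ext2 p (Ch.d1 S)) := isEx_ext2_d1' hS hSc hsub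
      have h0 := hη (ext2 p (Ch.d1 S)) hEx
      have hb2 : Smooth2 (ext2 p (Ch.d1 S)) := IsEx.smooth2 hEx
      have h1 : I F η (ext2 p (Ch.d1 S)) = ∫ y in (chartAt E4 p).target,
          Int.dens F p y • qG F η (ext2 p (Ch.d1 S)) ((chartAt E4 p).symm y) := by
        unfold Int.I
        refine Int.integral_mu_of_supp hV p
          (continuous_qG hV (Smooth2.cont2 hsm) (Smooth2.cont2 hb2)).aestronglyMeasurable ?_
        intro x hx
        unfold qG q
        rw [Sm4.at2_ext2_of_notMem hx, Fund.W_zero_right, zero_div]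
      have h2 : ∫ y in (chartAt E4 p).target,
          Int.dens F p y • qG F η (ext2 p (Ch.d1 S)) ((chartAt E4 p).symm y) =
          ∫ y in (chartAt E4 p).target, Int.sg F p y0 * W (rep p η y) (En.d1 S y) := by
        refine setIntegral_congr_fun (chartAt E4 p).open_target.measurableSet fun y hy => ?_
        rw [Int.qG_chart hV (fun x => hsm.1 x) (fun x => hb2.1 x) hy,
          smul_eq_mul, Int.dens_mul_q hV hy, Sm4.rep_ext2_self hy]
        show Int.sg F p y * W (rep p η y) (En.d1 S y) = _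
        by_cases hyU : y ∈ Metric.ball y0 r
        · rw [(hball y hyU).1]
        · have hy' : y ∉ tsupport S := fun h' => hyU (hSU h')
          have h0 : fderiv ℝ S y = 0 := by
            have : S =ᶠ[𝓝 y] fun _ => 0 := by
              filter_upwards [(isClosed_tsupport S).isOpen_compl.mem_nhds hy'] with z hz
              exact image_eq_zero_of_notMem_tsupport hz
            rw [this.fderiv_eq]; simp
          have h00 : En.d1 S y = 0 := by
            ext a b
            rw [En.d1_apply, h0]; simp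
          rw [h00, Fund.W_zero_right, mul_zero, mul_zero]
      have h3 : ∫ y in (chartAt E4 p).target, Int.sg F p y0 * W (rep p η y) (En.d1 S y) =
          ∫ y, Int.sg F p y0 * W (rep p η y) (En.d1 S y) := by
        refine setIntegral_eq_integral_of_forall_compl_eq_zero fun y hy => ?_
        have hy' : y ∉ tsupport S := fun h' => hy (hsub h')
        have h0 : fderiv ℝ S y = 0 := by
          have : S =ᶠ[𝓝 y] fun _ => 0 := by
            filter_upwards [(isClosed_tsupport S).isOpen_compl.mem_nhds hy'] with z hz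
            exact image_eq_zero_of_notMem_tsupport hz
          rw [this.fderiv_eq]; simp
        have h00 : En.d1 S y = 0 := by
          ext a b
          rw [En.d1_apply, h0]; simp
        rw [h00, Fund.W_zero_right, mul_zero]
      rw [h2, h3, integral_const_mul] at h1
      rw [h0] at h1
      exact (mul_eq_zero.1 h1.symm).resolve_left hσ
  refine Fund.dd_of_Cl (hsm.diff hy0) (fun z v => ?_) hcl u v w
  rw [rep_apply]
  exact hsm.1 _ _

end Fund

end

end Crest.Agent.R235.Hodge_194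
end

-- ▼ part R235/HodgeSys_194
section

/-!
Row 235 (S0364), package IND, leaf IND-7 HODGE (helper194), part 2: the spaces and operators.

* `CFn M`       : smooth functions; `IL`, `dL`, `DL` : intersection form, `d` on one-forms, `d` on
                  functions, as linear maps;
* `Fr F e`      : `e` is an orthonormal frame of the self-dual forms (`W(e_i,e_j) = δ_ij W(F,F)`);
* `SDp`, `SDm`  : self-dual, anti-self-dual smooth forms; `Fr.spl` : the splitting.
* `H1`          : first de Rham cohomology.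
-/

set_option autoImplicit false
set_option maxSynthPendingDepth 3

open Set Function Filter MeasureTheory
open scoped Manifold ContDiff Topology ENNReal

universe u

namespace Crest.Agent.R235.Hodge_194

open Crest.Agent.R240 Crest.Agent.R240.Ch Crest.Agent.R240.Int
open Crest.Agent.R235.HodgeAbs_194

noncomputable section

section Basic

variable {M : Type u} [TopologicalSpace M] [ChartedSpace E4 M] [IsManifold 𝓘(ℝ, E4) ∞ M]

variable (M) in
/-- smooth functions. -/
def CFn : Submodule ℝ (M → ℝ) where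
  carrier := {f | SmoothF E4 f}
  zero_mem' := fun _ => contDiffOn_const
  add_mem' hf hg := SmoothF.add hf hg
  smul_mem' r _ hf := fun p => contDiffOn_const.mul (hf p)

instance instX1ACG : AddCommGroup (X1 M) := inferInstance
instance instX1Mod : Module ℝ (X1 M) := inferInstance

/-- `d` on one-forms. -/
def dL : X1 M →ₗ[ℝ] X2 M where
  toFun s := ⟨dG s.1, Smooth2.dG s.2⟩
  map_add' s t := Subtype.ext (dG_add s.2 t.2)
  map_smul' r s := Subtype.ext (dG_smul r s.2)

@[simp] theorem dL_coe (s : X1 M) : ((dL s : X2 M) : F2 E4 M) = dG s.1 := rfl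

theorem dF_add {f g : M → ℝ} (hf : SmoothF E4 f) (hg : SmoothF E4 g) :
    dF (E := E4) (f + g) = dF f + dF g := by
  funext x
  show fderiv ℝ (repF x (f + g)) (chartAt E4 x x) =
    fderiv ℝ (repF x f) (chartAt E4 x x) + fderiv ℝ (repF x g) (chartAt E4 x x)
  exact fderiv_add (SmoothF.diffAt hf (mem_chart_target E4 x))
    (SmoothF.diffAt hg (mem_chart_target E4 x))

theorem dF_smul (r : ℝ) {f : M → ℝ} (hf : SmoothF E4 f) :
    dF (E := E4) (r • f) = r • dF f := by
  funext x
  show fderiv ℝ (repF x (r • f)) (chartAt E4 x x) = r • fderiv ℝ (repF x f) (chartAt E4 x x)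
  exact fderiv_const_smul (SmoothF.diffAt hf (mem_chart_target E4 x)) r

/-- `d` on functions. -/
def DL : CFn M →ₗ[ℝ] X1 M where
  toFun f := ⟨dF f.1, Smooth1.dF f.2⟩
  map_add' f g := Subtype.ext (dF_add f.2 g.2)
  map_smul' r f := Subtype.ext (dF_smul r f.2)

@[simp] theorem DL_coe (f : CFn M) : ((DL f : X1 M) : F1 E4 M) = dF f.1 := rfl

theorem dL_DL (f : CFn M) : dL (DL f) = 0 := Subtype.ext (dG_dF f.2)

theorem dL_closed (s : X1 M) : dL s ∈ Z2 M := Closed2.dG s.2

/-- closed one-forms in the sense of `Closed1` are the kernel of `dL`. -/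
theorem closed1_iff (s : X1 M) : Closed1 (s.1 : F1 E4 M) ↔ dL s = 0 := by
  constructor
  · intro h
    apply Subtype.ext
    funext x
    exact h.2 x _ (mem_chart_target E4 x)
  · intro h
    refine ⟨s.2, fun p y hy => ?_⟩
    have h1 : dG s.1 = 0 := congrArg Subtype.val h
    rw [← rep_dG s.2 hy, h1, rep_zero]

/-! ### the frame of the self-dual forms -/

/-- `e` is an orthonormal frame of the self-dual forms. -/
structure Fr (F : F2 E4 M) (e : Fin 3 → F2 E4 M) : Prop where
  smF : Smooth2 F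
  ne : ∀ x, W (at2 F x) (at2 F x) ≠ 0
  sm : ∀ i, Smooth2 (e i)
  orth : ∀ i j x, W (at2 (e i) x) (at2 (e j) x) = if i = j then W (at2 F x) (at2 F x) else 0

/-- self-dual forms. -/
def SDp (F : F2 E4 M) (e : Fin 3 → F2 E4 M) : Submodule ℝ (X2 M) where
  carrier := {a | ∀ x, at2 a.1 x = ∑ i, qG F a.1 (e i) x • at2 (e i) x}
  zero_mem' := by
    intro x
    have h : ∀ i, qG F (0 : X2 M).1 (e i) x = 0 := fun i => by
      have := qG_smul_left F 0 (0 : F2 E4 M) (e i) x
      rw [zero_smul, zero_mul] at this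
      exact this
    simp only [h, zero_smul, Finset.sum_const_zero]
    rfl
  add_mem' := by
    intro a b ha hb x
    show at2 a.1 x + at2 b.1 x = ∑ i, qG F (a.1 + b.1) (e i) x • at2 (e i) x
    simp only [qG_add_left, add_smul, Finset.sum_add_distrib]
    rw [← ha x, ← hb x]
  smul_mem' := by
    intro r a ha x
    show r • at2 a.1 x = ∑ i, qG F (r • a.1) (e i) x • at2 (e i) x
    simp only [qG_smul_left, mul_smul, ← Finset.smul_sum]
    rw [← ha x]

/-- anti-self-dual forms. -/
def SDm (F : F2 E4 M) (e : Fin 3 → F2 E4 M) : Submodule ℝ (X2 M) where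
  carrier := {a | ∀ i x, qG F a.1 (e i) x = 0}
  zero_mem' := by
    intro i x
    have := qG_smul_left F 0 (0 : F2 E4 M) (e i) x
    rw [zero_smul, zero_mul] at this
    exact this
  add_mem' := by
    intro a b ha hb i x
    show qG F (a.1 + b.1) (e i) x = 0
    rw [qG_add_left, ha i x, hb i x, add_zero]
  smul_mem' := by
    intro r a ha i x
    show qG F (r • a.1) (e i) x = 0
    rw [qG_smul_left, ha i x, mul_zero]

variable {F : F2 E4 M} {e : Fin 3 → F2 E4 M}


theorem mem_SDm {a : X2 M} : a ∈ SDm F e ↔ ∀ i x, qG F a.1 (e i) x = 0 := Iff.rfl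

theorem q_comb (F : F2 E4 M) (x : M) (c : Fin 3 → ℝ) (b : Bil) :
    q (at2 F x) (∑ i, c i • at2 (e i) x) b = ∑ i, c i * q (at2 F x) (at2 (e i) x) b := by
  unfold q
  rw [W_sum_left, Finset.sum_div]
  exact Finset.sum_congr rfl fun i _ => by rw [mul_div_assoc]

namespace Fr

variable (h : Fr F e)
include h

theorem q_e (i j : Fin 3) (x : M) : q (at2 F x) (at2 (e i) x) (at2 (e j) x) =
    if i = j then 1 else 0 := by
  unfold q
  rw [h.orth]
  split_ifs
  · exact div_self (h.ne x)
  · exact zero_div _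

theorem alt (i : Fin 3) (x : M) : Alt (at2 (e i) x) := (h.sm i).1 x

/-- the self-dual form with given coefficients -/
theorem smooth_comb {c : Fin 3 → M → ℝ} (hc : ∀ i, SmoothF E4 (c i)) :
    Smooth2 (fun x => (∑ i, c i x • at2 (e i) x : Bil)) := by
  have e1 : (fun x => (∑ i, c i x • at2 (e i) x : Bil)) =
      (fmul (c 0) (e 0) + fmul (c 1) (e 1)) + fmul (c 2) (e 2) := by
    funext x
    rw [Fin.sum_univ_three]
    rfl
  rw [e1]
  exact Smooth2.add (Smooth2.add (Smooth2.fmul (hc 0) (h.sm 0)) (Smooth2.fmul (hc 1) (h.sm 1)))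
    (Smooth2.fmul (hc 2) (h.sm 2))

theorem sF (a : X2 M) (i : Fin 3) : SmoothF E4 (qG F a.1 (e i)) :=
  En4.smoothF_qG h.smF h.ne a.2 (h.sm i)

/-- the self-dual form with coefficients `c`. -/
def sdf (c : Fin 3 → CFn M) : X2 M :=
  ⟨fun x => (∑ i, (c i).1 x • at2 (e i) x : Bil), h.smooth_comb fun i => (c i).2⟩

theorem q_sdf (c : Fin 3 → CFn M) (i : Fin 3) (x : M) :
    qG F (h.sdf c).1 (e i) x = (c i).1 x := by
  show q (at2 F x) (∑ j, (c j).1 x • at2 (e j) x) (at2 (e i) x) = _
  rw [q_comb]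
  simp only [h.q_e, mul_ite, mul_one, mul_zero, Finset.sum_ite_eq', Finset.mem_univ, if_true]

theorem sdf_mem (c : Fin 3 → CFn M) : h.sdf c ∈ SDp F e := by
  intro x
  show (∑ i, (c i).1 x • at2 (e i) x : Bil) = _
  exact Finset.sum_congr rfl fun i _ => by rw [h.q_sdf]

/-- the coefficients -/
def cf (a : X2 M) (i : Fin 3) : CFn M := ⟨qG F a.1 (e i), h.sF a i⟩

theorem sdf_cf {a : X2 M} (ha : a ∈ SDp F e) : h.sdf (h.cf a) = a := by
  apply Subtype.ext
  funext x
  exact (ha x).symm

theorem sub_mem (a : X2 M) : a - h.sdf (h.cf a) ∈ SDm F e := by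
  intro i x
  show qG F (a.1 - (h.sdf (h.cf a)).1) (e i) x = 0
  have h1 : qG F (a.1 - (h.sdf (h.cf a)).1) (e i) x =
      qG F a.1 (e i) x - qG F (h.sdf (h.cf a)).1 (e i) x := by
    unfold qG q
    rw [at2_sub, W_sub_left, sub_div]
  rw [h1, h.q_sdf]
  exact sub_self _

/-- `q` of a self-dual form and an arbitrary form. -/
theorem q_left {a : X2 M} (ha : a ∈ SDp F e) (b : F2 E4 M) (x : M) :
    qG F a.1 b x = ∑ i, qG F a.1 (e i) x * qG F b (e i) x := by
  show q (at2 F x) (at2 a.1 x) (at2 b x) = _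
  rw [ha x, q_comb]
  refine Finset.sum_congr rfl fun i _ => ?_
  congr 1
  show q _ _ _ = q _ _ _
  unfold q
  rw [W_comm]

theorem qG_pm {a b : X2 M} (ha : a ∈ SDp F e) (hb : b ∈ SDm F e) (x : M) :
    qG F a.1 b.1 x = 0 := by
  rw [h.q_left ha]
  exact Finset.sum_eq_zero fun i _ => by rw [hb i x, mul_zero]

theorem qG_pp {a : X2 M} (ha : a ∈ SDp F e) (x : M) :
    qG F a.1 a.1 x = ∑ i, qG F a.1 (e i) x ^ 2 := by
  rw [h.q_left ha]
  exact Finset.sum_congr rfl fun i _ => by ring

theorem qG_mm {a : X2 M} (ha : a ∈ SDm F e) {x : M} (hx : at2 a.1 x ≠ 0) :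
    qG F a.1 a.1 x < 0 := by
  have h1 := neg_of_perp (h.ne x) (fun i => h.alt i x) (fun i j => h.orth i j x) (a.2.1 x)
    (fun i => by
      have h2 : W (at2 a.1 x) (at2 (e i) x) / W (at2 F x) (at2 F x) = 0 := ha i x
      exact (div_eq_zero_iff.1 h2).resolve_right (h.ne x)) hx
  have h3 : 0 < W (at2 F x) (at2 F x) ^ 2 := by
    have := h.ne x
    positivity
  have h4 : W (at2 F x) (at2 F x) * W (at2 a.1 x) (at2 a.1 x) =
      W (at2 F x) (at2 F x) ^ 2 * qG F a.1 a.1 x := by
    show _ = _ * (W (at2 a.1 x) (at2 a.1 x) / W (at2 F x) (at2 F x))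
    have := h.ne x
    field_simp
  rw [h4] at h1
  nlinarith

theorem vol : Vol F where
  alt := h.smF.1
  cont p := (h.smF.2 p).continuousOn
  ne := h.ne

end Fr

end Basic

section Closed

variable {M : Type u} [TopologicalSpace M] [T2Space M] [CompactSpace M]
  [ChartedSpace E4 M] [IsManifold 𝓘(ℝ, E4) ∞ M] [MeasurableSpace M] [BorelSpace M]

/-- the intersection form on smooth two-forms. -/
def IL (F : F2 E4 M) (hF : Vol F) : X2 M →ₗ[ℝ] X2 M →ₗ[ℝ] ℝ :=
  LinearMap.mk₂ ℝ (fun a b => I F a.1 b.1)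
    (fun a b c => I_add_left hF (Smooth2.cont2 a.2) (Smooth2.cont2 b.2) (Smooth2.cont2 c.2))
    (fun r a b => I_smul_left F r _ _)
    (fun a b c => I_add_right hF (Smooth2.cont2 a.2) (Smooth2.cont2 b.2) (Smooth2.cont2 c.2))
    (fun r a b => I_smul_right F r _ _)

@[simp] theorem IL_apply {F : F2 E4 M} (hF : Vol F) (a b : X2 M) :
    IL F hF a b = I F a.1 b.1 := rfl

theorem IL_symm {F : F2 E4 M} (hF : Vol F) (a b : X2 M) : IL F hF a b = IL F hF b a :=
  I_comm _ _ _

theorem IL_stokes {F : F2 E4 M} (hF : Vol F) (s : X1 M) {b : X2 M} (hb : b ∈ Z2 M) :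
    IL F hF (dL s) b = 0 :=
  stokes_smooth hF s.2 (fun _ _ hy => rep_dG s.2 hy) b.2 hb

/-- **closed = orthogonal to exact**. -/
theorem mem_Z2_iff {F : F2 E4 M} (hF : Vol F) (a : X2 M) :
    a ∈ Z2 M ↔ ∀ s : X1 M, IL F hF a (dL s) = 0 := by
  constructor
  · intro ha s
    rw [IL_symm]; exact IL_stokes hF s ha
  · intro h
    refine fund_vol hF a.2 fun b hb => ?_
    obtain ⟨s, hs, rfl⟩ := isEx_iff.1 hb
    exact h ⟨s, hs⟩

/-- a continuous function with a sign and vanishing integral is zero. -/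
theorem eq_zero_of_I {F : F2 E4 M} (hF : Vol F) {a b : F2 E4 M} (ha : Cont2 a) (hb : Cont2 b)
    (hn : ∀ x, 0 ≤ qG F a b x) (h : I F a b = 0) (x : M) : qG F a b x = 0 := by
  have hfin := isFinite_mu hF
  have hop := isOpenPos_mu hF
  have hc := continuous_qG hF ha hb
  have h1 := (integral_eq_zero_iff_of_nonneg hn (integrable_qG hF ha hb)).1 h
  have h2 : qG F a b = fun _ => 0 := (hc.ae_eq_iff_eq _ continuous_const).1 h1
  rw [h2]

theorem Fr.spl {F : F2 E4 M} {e : Fin 3 → F2 E4 M} (h : Fr F e) :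
    Spl (IL F h.vol) (SDp F e) (SDm F e) where
  split a := ⟨h.sdf (h.cf a), h.sdf_mem _, _, h.sub_mem a, by abel⟩
  orth p hp m hm := by
    show ∫ x, qG F p.1 m.1 x ∂(mu F) = 0
    simp only [h.qG_pm hp hm, integral_zero]
  def1 p hp h0 := by
    have h1 := eq_zero_of_I h.vol (Smooth2.cont2 p.2) (Smooth2.cont2 p.2) (fun x => by
      rw [h.qG_pp hp]; exact Finset.sum_nonneg fun i _ => sq_nonneg _) h0
    apply Subtype.ext
    funext x
    have h2 := h1 x
    rw [h.qG_pp hp] at h2
    have h3 : ∀ i, qG F p.1 (e i) x = 0 := fun i => by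
      have := (Finset.sum_eq_zero_iff_of_nonneg fun i _ => sq_nonneg _).1 h2 i (Finset.mem_univ i)
      exact pow_eq_zero_iff two_ne_zero |>.1 this
    have h4 := hp x
    simp only [h3, zero_smul, Finset.sum_const_zero] at h4
    exact h4
  def2 m hm h0 := by
    have h1 := eq_zero_of_I (a := m.1) (b := (-1 : ℝ) • m.1) h.vol (Smooth2.cont2 m.2)
      ((Smooth2.cont2 m.2).smul _) (fun x => by
        rw [qG_smul_right]
        by_cases hx : at2 m.1 x = 0
        · have : qG F m.1 m.1 x = 0 := by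
            show q _ _ _ = 0
            rw [hx]
            unfold q
            rw [Fund.W_zero_right, zero_div]
          rw [this]; norm_num
        · have := h.qG_mm hm hx
          linarith) (by
        rw [I_smul_right]
        have h00 : I F m.1 m.1 = 0 := h0
        rw [h00, mul_zero])
    apply Subtype.ext
    funext x
    by_contra hx
    have h2 := h1 x
    rw [qG_smul_right] at h2
    have h3 := h.qG_mm hm hx
    linarith

end Closed

end

end Crest.Agent.R235.Hodge_194
end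

-- ▼ part R235/HodgeDic_194

/-!
Row 235 (S0364), package IND, leaf IND-7 HODGE (helper194), part 3: vector fields of R249 and
one-forms of R240.

* `flat X`          : `at1 (flat X) z v = ⟨X z, v⟩`; `smooth1_flat`;
* `rep1_flat`       : its representation in charts;
* `at2_dG_flat`     : `d(flat X)(u,v) = ⟨∇_u X, v⟩ - ⟨∇_v X, u⟩`;
* `dF_eq_flat`      : `df = flat (grad f)`;
* `smooth_at1`      : `z ↦ s(X z)` is smooth;
* `shp s α`         : `∑_A α(s_A) s_A`; `flat_shp`.
-/

set_option autoImplicit false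
set_option maxSynthPendingDepth 3
set_option linter.unusedSectionVars false

open Set Function Filter MeasureTheory Bundle
open scoped Manifold ContDiff Topology ENNReal
open Crest.GeometryTopology.CoordMetric Crest.GeometryTopology.ChartCurvature
  Crest.GeometryTopology.PointedLimit
open Crest.Agent.R202.Tens Crest.Agent.R247.Bo84 Crest.Agent.R249.Vf281
open Crest.Agent.R249.Tz2_805 Crest.Agent.R249.Tz805 Crest.Agent.R249.Idx789

namespace Crest.Agent.R235.Hodge_194

open Crest.Agent.R240 Crest.Agent.R240.Ch Crest.Agent.R240.Int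

noncomputable section

section Dic

variable {M : Type} [TopologicalSpace M] [ChartedSpace (EuclideanSpace ℝ (Fin 4)) M]
  [IsManifold 𝓘(ℝ, EuclideanSpace ℝ (Fin 4)) ∞ M]
  [RiemannianBundle (fun x : M => TangentSpace 𝓘(ℝ, EuclideanSpace ℝ (Fin 4)) x)]
  [IsContMDiffRiemannianBundle 𝓘(ℝ, EuclideanSpace ℝ (Fin 4)) ∞ (EuclideanSpace ℝ (Fin 4))
      (fun x : M => TangentSpace 𝓘(ℝ, EuclideanSpace ℝ (Fin 4)) x)]

local notation "𝔼" => EuclideanSpace ℝ (Fin 4)
local notation "𝓘E" => 𝓘(ℝ, EuclideanSpace ℝ (Fin 4))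

omit [RiemannianBundle (fun x : M => TangentSpace 𝓘(ℝ, EuclideanSpace ℝ (Fin 4)) x)]
  [IsContMDiffRiemannianBundle 𝓘(ℝ, EuclideanSpace ℝ (Fin 4)) ∞ (EuclideanSpace ℝ (Fin 4))
      (fun x : M => TangentSpace 𝓘(ℝ, EuclideanSpace ℝ (Fin 4)) x)] in
theorem dCh_tcc (p : M) {x : M} (hx : x ∈ (chartAt 𝔼 p).source) (v : 𝔼) :
    dCh p x v = tcc x p x v := by
  unfold dCh
  exact congrArg (fun L : 𝔼 →L[ℝ] 𝔼 => L v) (mfderiv_chart (E := E4) hx)

omit [RiemannianBundle (fun x : M => TangentSpace 𝓘(ℝ, EuclideanSpace ℝ (Fin 4)) x)]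
  [IsContMDiffRiemannianBundle 𝓘(ℝ, EuclideanSpace ℝ (Fin 4)) ∞ (EuclideanSpace ℝ (Fin 4))
      (fun x : M => TangentSpace 𝓘(ℝ, EuclideanSpace ℝ (Fin 4)) x)] in
theorem dSy_tcc (p : M) {y : 𝔼} (hy : y ∈ (chartAt 𝔼 p).target) (u : 𝔼) :
    dSy p y u = tcc p ((chartAt 𝔼 p).symm y) ((chartAt 𝔼 p).symm y) u := by
  have hx := symm_mem (E := E4) hy
  apply tcc_inj (E := E4) hx
  rw [tcc_cancel hx, ← dCh_tcc p hx]
  exact dCh_dSy p hy u

/-- the one-form of a vector at a point. -/
def flatL (z : M) (x : TangentSpace 𝓘(ℝ, EuclideanSpace ℝ (Fin 4)) z) : E4 →L[ℝ] ℝ :=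
  LinearMap.toContinuousLinearMap
    { toFun := fun v : E4 => (@inner ℝ (TangentSpace 𝓘E z) _ x v : ℝ)
      map_add' := fun u v =>
        @inner_add_right ℝ (TangentSpace 𝓘E z) _ _ _ x (u : TangentSpace 𝓘E z) (v : TangentSpace 𝓘E z)
      map_smul' := fun r v =>
        @real_inner_smul_right (TangentSpace 𝓘E z) _ _ x (v : TangentSpace 𝓘E z) r }


/-- the one-form of a field. -/
def flat (X : (p : M) → TangentSpace 𝓘(ℝ, EuclideanSpace ℝ (Fin 4)) p) : F1 E4 M :=
  fun z => flatL z (X z)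


theorem rep1_flat (X : (p : M) → TangentSpace 𝓘E p) (p : M) {y : 𝔼}
    (hy : y ∈ (chartAt 𝔼 p).target) : rep1 p (flat X) y = omf p X y := by
  ext u
  rw [rep1_apply, omf, bil_chartMetric, dSy_vCh hy, dSy_tcc p hy u]
  rfl

theorem smooth1_flat {X : (p : M) → TangentSpace 𝓘E p} (hX : ∀ z, VSm 4 ∞ X z) :
    Smooth1 (flat X) := fun p =>
  (contDiffOn_omf p hX).congr fun _ hy => rep1_flat X p hy

theorem dSy_self (z : M) (u : 𝔼) : dSy z (chartCentre 4 M z) u = u := by
  have h := dSy_tcc z (centre_mem (n := 4) z) u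
  rw [h]
  have h2 : (chartAt 𝔼 z).symm (chartCentre 4 M z) = z :=
    (chartAt 𝔼 z).left_inv (mem_chart_source 𝔼 z)
  rw [h2]
  exact tcc_self (mem_chart_source 𝔼 z) u

/-- **`d (flat X)`**. -/
theorem at2_dG_flat' {X : (p : M) → TangentSpace 𝓘E p} (hX : ∀ z, VSm 4 ∞ X z) (z : M)
    (u v : 𝔼) : at2 (dG (flat X)) z u v =
      (@inner ℝ (TangentSpace 𝓘E z) _ (mCov 4 X z u) v : ℝ) -
        (@inner ℝ (TangentSpace 𝓘E z) _ (mCov 4 X z v) u : ℝ) := by
  have hb := centre_mem (n := 4) z
  have h0 : (chartAt 𝔼 z).symm (chartCentre 4 M z) = z :=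
    (chartAt 𝔼 z).left_inv (mem_chart_source 𝔼 z)
  have hg := isRiemannianOn_chartMetric (n := 4) z
  have hX1 : VSm 4 1 X ((chartAt 𝔼 z).symm (chartCentre 4 M z)) := (hX _).of_le (by simp)
  have hev : rep1 z (flat X) =ᶠ[𝓝 (chartCentre 4 M z)] omf z X := by
    filter_upwards [(chartAt 𝔼 z).open_target.mem_nhds hb] with y hy using rep1_flat X z hy
  have key : ∀ u v : 𝔼, bil (chartMetric 4 M z (chartCentre 4 M z))
      (cov (chartMetric 4 M z) (vCh 4 z X) (chartCentre 4 M z) u) v =
      (@inner ℝ (TangentSpace 𝓘E z) _ (mCov 4 X z u) v : ℝ) := by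
    intro u v
    rw [bil_chartMetric, ← mCov_chart hb hX1, dSy_self, dSy_self]
    have : ∀ (z' : M) (h : z' = z), (@inner ℝ (TangentSpace 𝓘E z') _ (mCov 4 X z' u) v : ℝ) =
        (@inner ℝ (TangentSpace 𝓘E z) _ (mCov 4 X z u) v : ℝ) := by
      rintro z' rfl; rfl
    exact this _ h0
  have e1 : at2 (dG (flat X)) z u v = d1 (rep1 z (flat X)) (chartCentre 4 M z) u v := rfl
  rw [e1, d1_congr hev, d1_apply, fderiv_omf z hX hb, fderiv_omf z hX hb, Gam_symm hg hb v u,
    key, key]
  ring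

theorem at2_dG_flat {X : (p : M) → TangentSpace 𝓘E p} (hX : ∀ z, VSm 4 ∞ X z) (z : M)
    (u v : TangentSpace 𝓘E z) : at2 (dG (flat X)) z u v =
      (inner ℝ (mCov 4 X z u) v : ℝ) - inner ℝ (mCov 4 X z v) u :=
  at2_dG_flat' hX z u v

/-- **`df = flat (grad f)`**. -/
theorem dF_eq_flat (f : M → ℝ) : dF (E := E4) f = flat (mgrad 4 f) := by
  funext z
  apply ContinuousLinearMap.ext
  intro v
  show fderiv ℝ (repF z f) (chartAt E4 z z) v =
    (@inner ℝ (TangentSpace 𝓘E z) _ (mgrad 4 f z) v : ℝ)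
  have h1 : dCh z z v = v := by
    rw [dCh_tcc z (mem_chart_source 𝔼 z)]
    exact tcc_self (mem_chart_source 𝔼 z) v
  refine Eq.trans ?_ (inner_mgrad (n := 4) f z v).symm
  refine Eq.trans ?_ (mfderiv_centre (n := 4) f z v).symm
  rw [h1]
  rfl

theorem smoothF_iff' (f : M → ℝ) : SmoothF E4 f ↔ ContMDiff 𝓘E 𝓘(ℝ, ℝ) ∞ f :=
  (smoothF_iff (E := E4) f).symm

/-- the value of a smooth one-form on a smooth field is smooth. -/
theorem smooth_at1 {s : F1 E4 M} (hs : Smooth1 s) {X : (p : M) → TangentSpace 𝓘E p}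
    (hX : ∀ z, VSm 4 ∞ X z) : SmoothF E4 (fun z => at1 s z (X z)) := by
  intro p
  have h1 : ContDiffOn ℝ ∞ (fun y => rep1 p s y (vCh 4 p X y)) (chartAt E4 p).target := by
    refine (hs p).clm_apply fun y hy => ?_
    exact (VSm.chart (n := 4) le_rfl hy (hX _)).contDiffWithinAt
  refine h1.congr fun y hy => ?_
  show at1 s ((chartAt E4 p).symm y) (X ((chartAt E4 p).symm y)) = _
  rw [rep1_apply, ← dSy_tcc p hy, dSy_vCh hy]

variable {κ : Type} [Fintype κ] (s : PF 4 M κ)

/-- the coefficients of a one-form in a Parseval frame. -/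
def cof (α : F1 E4 M) (A : κ) (z : M) : ℝ := at1 α z (s.s A z)

/-- the field of a one-form. -/
def shp (α : F1 E4 M) : (p : M) → TangentSpace 𝓘(ℝ, EuclideanSpace ℝ (Fin 4)) p :=
  fieldOf s (cof s α)

theorem inner_shp (α : F1 E4 M) (z : M) (v : TangentSpace 𝓘E z) :
    (inner ℝ (shp s α z) v : ℝ) = at1 α z v := by
  have h1 : at1 α z v = ∑ A, (inner ℝ (s.s A z) v : ℝ) * at1 α z (s.s A z) := by
    conv_lhs => rw [← s.pars z v]
    have h2 := map_sum (at1 α z) (fun A => ((inner ℝ (s.s A z) v : ℝ) • s.s A z : E4)) Finset.univ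
    refine h2.trans (Finset.sum_congr rfl fun A _ => ?_)
    exact map_smul (at1 α z) (inner ℝ (s.s A z) v : ℝ) (s.s A z : E4)
  rw [h1, shp, fieldOf, sum_inner]
  exact Finset.sum_congr rfl fun A _ => by rw [real_inner_smul_left, mul_comm]; rfl

theorem flat_shp (α : F1 E4 M) : flat (shp s α) = α := by
  funext z
  apply ContinuousLinearMap.ext
  intro v
  exact inner_shp s α z v

theorem shp_flat (X : (p : M) → TangentSpace 𝓘E p) : shp s (flat X) = X := by
  funext z
  refine ext_inner_right ℝ fun v => ?_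
  rw [inner_shp]
  rfl

theorem smU_cof {α : F1 E4 M} (hα : Smooth1 α) : SmU (n := 4) (cof s α) := fun A =>
  (smoothF_iff' _).1 (smooth_at1 hα (s.sm A))

theorem vsm_shp {α : F1 E4 M} (hα : Smooth1 α) (z : M) : VSm 4 ∞ (shp s α) z :=
  VSm_fieldOf s (smU_cof s hα) z

theorem sec_cof (α : F1 E4 M) (A : κ) (z : M) : ∑ B, tanP s A B z * cof s α B z = cof s α A z := by
  have h := inner_shp s α z (s.s A z)
  rw [shp, fieldOf, sum_inner] at h
  rw [← show at1 α z (s.s A z) = cof s α A z from rfl, ← h]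
  refine Finset.sum_congr rfl fun B _ => ?_
  rw [real_inner_smul_left, mul_comm, tanP, real_inner_comm]

theorem cof_flat {w : κ → M → ℝ} (hs : ∀ a z, ∑ b, tanP s a b z * w b z = w a z) :
    cof s (flat (fieldOf s w)) = w := by
  funext A z
  show (inner ℝ (fieldOf s w z) (s.s A z) : ℝ) = w A z
  rw [real_inner_comm, inner_fieldOf s hs]

/-- `⟨X, Y⟩ = ∑ α(s_A) β(s_A)`. -/
theorem sum_cof (α β : F1 E4 M) (z : M) :
    ∑ A, cof s α A z * cof s β A z = (inner ℝ (shp s α z) (shp s β z) : ℝ) := by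
  rw [← pars_inner s z]
  exact Finset.sum_congr rfl fun A _ => by
    rw [real_inner_comm (shp s α z), inner_shp, real_inner_comm (shp s β z), inner_shp]; rfl

end Dic

end

end Crest.Agent.R235.Hodge_194
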