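import Crest.Agent.R235.IndDen_167
import Crest.Agent.R235.IndQS_167
import Crest.Agent.R235.IndVol_57
import Crest.Agent.R249.DenP_714
import Crest.Agent.R249.Tv12_57
import Crest.Agent.R249.HKEnd_286
import Crest.Agent.R235.IndPair_167
import Crest.Agent.R235.RiemC_399
import Crest.Agent.R249.WkD_352
import Crest.Agent.R249.TofM_352
import Crest.Agent.R235.LbA_453
import Crest.Agent.R235.IndQ2_167
import Crest.Agent.R235.IndKer4_936
import Crest.Agent.R235.RiemQ_399
import Crest.Agent.R235.QSTri_451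
import Crest.Agent.R235.DichProps_723
import Crest.Agent.R235.Ip_288

-- ▼ part R235/IndEvenA_692
section

/-!
Row 235, package IND, leaf L6 (helper692), part A: densities of Clifford pairs whose local form over an
adapted frame is 167's `bA0 F θ`, `bA1 F θ`, `cK`.

* `tw al`           : the `so(3)`-connection `(2α, 0, 0)`;  `dal F al i j = (dα)(e_i, e_j)`;
* `bA0_tw`, `bA1_tw`: `bA0 F (tw al) k = bA0 F 0 k + al k • J_0`, `bA1 .. = bA1 F 0 k + al k • K_0`;
* `sum_pf_tw`       : `∑_c pf GG_c = 4 pf dα`;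
* `dn_sub`          : `dn D0 z - dn D1 z = 1/(32π²) ev (-4 ∑ pf GG_c) + 1/(192π²) ev (TT F)`, every `θ`;
* `dn_tw`           : for `θ = tw al` : `= -1/(2π²) ev (pf dα) + 1/(192π²) ev (TT F)`;
* `rank0`, `rank1`, `tr_eq` : the hypotheses of 57's `index_D`;
* `dal_unit`        : for `α = Im ⟨v, Dv⟩ = ∑ (x Dy - y Dx)`: `dα_ij = 2 ∑ (D_i x D_j y - D_j x D_i y)`.
-/

set_option autoImplicit false
set_option maxSynthPendingDepth 3
set_option linter.unusedSectionVars false
set_option linter.unusedSimpArgs false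
set_option maxHeartbeats 1000000

open Filter Topology Set Bundle Manifold MeasureTheory
open Matrix hiding J
open scoped ContDiff ENNReal NNReal
open Crest.GeometryTopology.CoordMetric Crest.GeometryTopology.ChartCurvature
open Crest.Agent.R249.Fr129
open Crest.Agent.R249.C2_198 hiding cp half_two
open Crest.Agent.R249.Sg129 (SG ev ONF)
open Crest.Agent.R249.Tv57 hiding GG
open Crest.Agent.R249.Tz805 Crest.Agent.R249.HK9_714
open Crest.Agent.R235.IndAlg_167 hiding half_two
open Crest.Agent.R235.IndDen_167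
open Crest.Agent.R249.Fr129.Frame (half two_half)

noncomputable section

namespace Crest.Agent.R235.IndEven_692

/-! ### ring level -/

section ring

variable {S : Type*} [CommRing S] [Algebra ℝ S] (F : R249.Fr129.Frame 4 S)

/-- the `so(3)`-connection `(2α, 0, 0)` -/
def tw (al : Fin 4 → S) (k : Fin 4) (b : Fin 3) : S := if b = 0 then 2 * al k else 0

/-- `(dα)(e_i, e_j)` -/
def dal (al : Fin 4 → S) (i j : Fin 4) : S :=
  F.D i (al j) - F.D j (al i) - ∑ m, F.T i j m * al m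

lemma half_mul_two (x : S) : half (S := S) * (2 * x) = x := by
  have h : (2 : S) * half = 1 := two_half
  linear_combination x * h

lemma JJ_tw (al : Fin 4 → S) (k : Fin 4) : half (S := S) • JJ (tw al k) = al k • J S 0 := by
  ext i j
  have h := half_mul_two (al k)
  have h' : half (S := S) * (-(2 * al k)) = - al k := by rw [mul_neg, h]
  fin_cases i <;> fin_cases j <;> simp [JJ, J, tw, h, h']

lemma Kp_tw (al : Fin 4 → S) (k : Fin 4) : half (S := S) • Kp (tw al k) = al k • K S 0 := by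
  ext i j
  have h := half_mul_two (al k)
  have h' : half (S := S) * (-(2 * al k)) = - al k := by rw [mul_neg, h]
  fin_cases i <;> fin_cases j <;> simp [Kp, K, tw, h, h']

lemma bA0_tw (al : Fin 4 → S) (k : Fin 4) : bA0 F (tw al) k = bA0 F 0 k + al k • J S 0 := by
  rw [bA0_eq, bA0_eq, smul_add, smul_add, JJ_tw]
  have : JJ ((0 : Fin 4 → Fin 3 → S) k) = 0 := JJ_zero
  rw [this, smul_zero, add_zero]

lemma bA1_tw (al : Fin 4 → S) (k : Fin 4) : bA1 F (tw al) k = bA1 F 0 k + al k • K S 0 := by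
  rw [bA1_eq, bA1_eq, smul_add, smul_add, Kp_tw]
  have : Kp ((0 : Fin 4 → Fin 3 → S) k) = 0 := Kp_zero
  rw [this, smul_zero, add_zero]

lemma D_two (k : Fin 4) (x : S) : F.D k (2 * x) = 2 * F.D k x := by
  rw [two_mul, map_add, two_mul]

lemma GG_tw_zero (al : Fin 4 → S) (i j : Fin 4) : GG F (tw al) i j 0 = 2 * dal F al i j := by
  simp only [GG, tw, cp, dal, if_true, D_two, Fin.isValue]
  simp only [Fin.isValue, Matrix.cons_val_zero, one_ne_zero, if_false, Fin.reduceEq, mul_zero, sub_zero]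
  have : ∑ m, F.T i j m * (2 * al m) = 2 * ∑ m, F.T i j m * al m := by
    rw [Finset.mul_sum]; exact Finset.sum_congr rfl fun m _ => by ring
  rw [this]; ring

lemma GG_tw_one (al : Fin 4 → S) (i j : Fin 4) : GG F (tw al) i j 1 = 0 := by
  simp [GG, tw, cp]

lemma GG_tw_two (al : Fin 4 → S) (i j : Fin 4) : GG F (tw al) i j 2 = 0 := by
  simp [GG, tw, cp]


lemma sum_pf_tw (al : Fin 4 → S) :
    ∑ c, pf (fun i j => GG F (tw al) i j c) = 4 * pf (dal F al) := by
  rw [Fin.sum_univ_three]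
  simp only [GG_tw_zero, GG_tw_one, GG_tw_two, pf]
  ring


/-- curvature of `α = ∑_a (x_a D y_a - y_a D x_a)` -/
lemma dal_unit {ι : Type*} [Fintype ι] (x y : ι → S) (i j : Fin 4) :
    dal F (fun k => ∑ a, (x a * F.D k (y a) - y a * F.D k (x a))) i j
      = 2 * ∑ a, (F.D i (x a) * F.D j (y a) - F.D j (x a) * F.D i (y a)) := by
  have h : ∀ a, F.D i (x a * F.D j (y a) - y a * F.D j (x a))
      - F.D j (x a * F.D i (y a) - y a * F.D i (x a))
      - ∑ m, F.T i j m * (x a * F.D m (y a) - y a * F.D m (x a))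
      = 2 * (F.D i (x a) * F.D j (y a) - F.D j (x a) * F.D i (y a)) := by
    intro a
    have h1 := F.tors' i j (y a)
    have h2 := F.tors' i j (x a)
    have e1 : ∑ m, F.T i j m * (x a * F.D m (y a) - y a * F.D m (x a))
        = x a * ∑ m, F.T i j m * F.D m (y a) - y a * ∑ m, F.T i j m * F.D m (x a) := by
      rw [Finset.mul_sum, Finset.mul_sum, ← Finset.sum_sub_distrib]
      exact Finset.sum_congr rfl fun m _ => by ring
    rw [e1]
    simp only [map_sub, F.D_mul]
    linear_combination x a * h1 - y a * h2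
  have e3 : ∑ m, F.T i j m * ∑ a, (x a * F.D m (y a) - y a * F.D m (x a))
      = ∑ a, ∑ m, F.T i j m * (x a * F.D m (y a) - y a * F.D m (x a)) := by
    rw [Finset.sum_comm]
    exact Finset.sum_congr rfl fun m _ => Finset.mul_sum _ _ _
  unfold dal
  rw [F.D_sum, F.D_sum, e3, ← Finset.sum_sub_distrib, ← Finset.sum_sub_distrib, Finset.mul_sum]
  exact Finset.sum_congr rfl fun a _ => h a

end ring

/-! ### densities -/

section dens

variable {M : Type*} [MetricSpace M] [ChartedSpace (EuclideanSpace ℝ (Fin 4)) M]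
  [IsManifold (𝓡 4) ∞ M]
  [RiemannianBundle (fun p : M => TangentSpace (𝓡 4) p)]
  [IsContMDiffRiemannianBundle (𝓡 4) ∞ (EuclideanSpace ℝ (Fin 4)) (fun p : M => TangentSpace (𝓡 4) p)]
  [IsRiemannianManifold (𝓡 4) M] [MeasurableSpace M] [BorelSpace M]
  [SecondCountableTopology M] [Nonempty M]

variable {κ κ0 κ1 : Type} [Fintype κ] [Fintype κ0] [Fintype κ1]
  {T : ToF 4 M} {P : CPair 4 M κ κ0 κ1} {D0 : Dat 4 M κ0} {D1 : Dat 4 M κ1}
  (W : WD T P D0 D1)
  {z : M} {e : Fin 4 → EuclideanSpace ℝ (Fin 4) → EuclideanSpace ℝ (Fin 4)}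
  {h : ONF (chartMetric 4 M z) (chartAt (EuclideanSpace ℝ (Fin 4)) z).target (chartCentre 4 M z) e}
  {θ : Fin 4 → Fin 3 → SG (chartCentre 4 M z)}
  {j0 : Matrix κ0 (Fin 4) (SG (chartCentre 4 M z))} {j1 : Matrix κ1 (Fin 4) (SG (chartCentre 4 M z))}
  (C : CLoc P.D0 P.D1 P.cc h (bA0 h.frameOf θ) (bA1 h.frameOf θ)
    (cK (SG (chartCentre 4 M z))) j0 j1)

include W C

theorem rank0 : ∑ x, D0.p x x z = 4 := by
  have h := W.rank0 C
  simp only [Fintype.card_fin] at h
  exact_mod_cast h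

theorem rank1 : ∑ x, D1.p x x z = 4 := by
  have h := W.rank1 C
  simp only [Fintype.card_fin] at h
  exact_mod_cast h

theorem tr_eq : ∑ x, ∑ y, D0.Q x y z * D0.p x y z = ∑ x, ∑ y, D1.Q x y z * D1.p x y z := by
  rw [W.tr0 C, W.tr1 C, IndDen_167.trQ]

/-- **the density**, for every `θ` -/
theorem dn_sub : dn D0 z - dn D1 z
    = 1 / (32 * Real.pi ^ 2) * ev (-4 * ∑ c, pf (fun i j => GG h.frameOf θ i j c))
      + 1 / (192 * Real.pi ^ 2) * ev (TT h.frameOf) := by
  rw [W.dn0 C, W.dn1 C, ← trQQ, ← tO_b h.frameOf θ, map_sub, map_sub]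
  ring

end dens

section dens2

variable {M : Type*} [MetricSpace M] [ChartedSpace (EuclideanSpace ℝ (Fin 4)) M]
  [IsManifold (𝓡 4) ∞ M]
  [RiemannianBundle (fun p : M => TangentSpace (𝓡 4) p)]
  [IsContMDiffRiemannianBundle (𝓡 4) ∞ (EuclideanSpace ℝ (Fin 4)) (fun p : M => TangentSpace (𝓡 4) p)]
  [IsRiemannianManifold (𝓡 4) M] [MeasurableSpace M] [BorelSpace M]
  [SecondCountableTopology M] [Nonempty M]

variable {κ κ0 κ1 : Type} [Fintype κ] [Fintype κ0] [Fintype κ1]
  {T : ToF 4 M} {P : CPair 4 M κ κ0 κ1} {D0 : Dat 4 M κ0} {D1 : Dat 4 M κ1}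
  (W : WD T P D0 D1)
  {z : M} {e : Fin 4 → EuclideanSpace ℝ (Fin 4) → EuclideanSpace ℝ (Fin 4)}
  {h : ONF (chartMetric 4 M z) (chartAt (EuclideanSpace ℝ (Fin 4)) z).target (chartCentre 4 M z) e}
  {j0 : Matrix κ0 (Fin 4) (SG (chartCentre 4 M z))} {j1 : Matrix κ1 (Fin 4) (SG (chartCentre 4 M z))}

include W


/-- the density of the twist by a connection `α` -/
theorem dn_tw {al : Fin 4 → SG (chartCentre 4 M z)}
    (C : CLoc P.D0 P.D1 P.cc h (bA0 h.frameOf (tw al)) (bA1 h.frameOf (tw al))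
      (cK (SG (chartCentre 4 M z))) j0 j1) :
    dn D0 z - dn D1 z = - (1 / (2 * Real.pi ^ 2)) * ev (pf (dal h.frameOf al))
      + 1 / (192 * Real.pi ^ 2) * ev (TT h.frameOf) := by
  rw [dn_sub W C, sum_pf_tw, map_mul, map_mul, map_neg]
  have h4 : ev (4 : SG (chartCentre 4 M z)) = 4 := map_ofNat ev 4
  rw [h4]
  have hp := Real.pi_ne_zero
  field_simp
  ring

end dens2

end Crest.Agent.R235.IndEven_692
end
end

-- ▼ part R235/IndEvenB_692
section

/-!
Row 235, package IND, leaf L6 (helper692), part B: the index of a twist of the quaternionic pair.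

* `LocTw q P b` : over every adapted frame of `q : QS M` the pair `P` is `bA0 F (tw al)`, `bA1 F (tw al)`,
  `cK` with `(dα)(e_i, e_j) = b(e_i, e_j)`;
* `dn_qG`  : `dn D0 z - dn D1 z = r0 + 1/(4π²) · 2 q_F(b, b)`, `F = ⟨I_0 ·, ·⟩`, same `r0` for all pairs;
* `exists_index` : `∃ d0 d1, KerD .. d0, KerD .. d1, (d0:ℝ) - d1 = ∫ (dn D0 - dn D1)`;
* `index_diff`   : `(d0' - d1') - (d0 - d1) = 1/(4π²) (I F b' b' - I F b b)`.
-/

set_option autoImplicit false
set_option maxSynthPendingDepth 3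
set_option linter.unusedSectionVars false
set_option linter.unusedSimpArgs false
set_option maxHeartbeats 1000000

open Filter Topology Set Bundle Manifold MeasureTheory
open Matrix hiding J
open scoped ContDiff ENNReal NNReal
open Crest.GeometryTopology.CoordMetric Crest.GeometryTopology.ChartCurvature
open Crest.Agent.R240 Crest.Agent.R240.Ch
open Crest.Agent.R202.Tens
open Crest.Agent.R247.Bo84 hiding trans
open Crest.Agent.R249.Vf281 Crest.Agent.R249.Tz2_805 Crest.Agent.R249.Tz1_805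
open Crest.Agent.R249.Fr129
open Crest.Agent.R249.C2_198 hiding cp half_two
open Crest.Agent.R249.Sg129 (SG ev ONF)
open Crest.Agent.R249.Tv57 hiding GG
open Crest.Agent.R249.Tz805 Crest.Agent.R249.Dic805 Crest.Agent.R249.HK9_714
open Crest.Agent.R235.IndAlg_167 hiding half_two
open Crest.Agent.R235.IndDen_167 Crest.Agent.R235.Ind167
open Crest.Agent.R235.IndVol_57 Crest.Agent.R235.RiemB_399

universe u

noncomputable section

namespace Crest.Agent.R235.IndEven_692

section top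

variable {M : Type u} [TopologicalSpace M] [ChartedSpace E4 M] [IsManifold 𝓘(ℝ, E4) ∞ M]
  [RiemannianBundle (fun x : M => TangentSpace 𝓘(ℝ, E4) x)]
  [IsContMDiffRiemannianBundle 𝓘(ℝ, E4) ∞ E4 (fun x : M => TangentSpace 𝓘(ℝ, E4) x)]

/-- local form of a twist of the quaternionic pair, by a connection with curvature `b` -/
def LocTw (q : QS M) {κ κ0 κ1 : Type} [Fintype κ] [Fintype κ0] [Fintype κ1]
    (P : CPair 4 M κ κ0 κ1) (b : F2 E4 M) : Prop :=
  ∀ (z : M) (e : Fin 4 → EuclideanSpace ℝ (Fin 4) → EuclideanSpace ℝ (Fin 4))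
    (h : ONF (chartMetric 4 M z) (chartAt (EuclideanSpace ℝ (Fin 4)) z).target
      (chartCentre 4 M z) e), Adp q z e →
    ∃ (al : Fin 4 → SG (chartCentre 4 M z)) (j0 : Matrix κ0 (Fin 4) (SG (chartCentre 4 M z)))
      (j1 : Matrix κ1 (Fin 4) (SG (chartCentre 4 M z))),
      CLoc P.D0 P.D1 P.cc h (bA0 h.frameOf (tw al)) (bA1 h.frameOf (tw al))
        (cK (SG (chartCentre 4 M z))) j0 j1 ∧
      ∀ i j, ev (dal h.frameOf al i j)
        = at2 b z (e i (chartCentre 4 M z)) (e j (chartCentre 4 M z))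

/-! ### frames at the centre -/

lemma symm_centre (z : M) : (chartAt E4 z).symm (chartCentre 4 M z) = z :=
  (chartAt E4 z).left_inv (mem_chart_source E4 z)

lemma tvy_centre (z : M) (v : E4) : (tvy z (chartCentre 4 M z) v : E4) = v := by
  have h := dSy_tcc z (centre_mem (n := 4) z) v
  rw [symm_centre] at h
  refine Eq.trans ?_ (h.trans (tcc_self (mem_chart_source E4 z) v))
  rfl

/-- a vector of the model space as a tangent vector -/
def tv (z : M) (v : E4) : TangentSpace 𝓘(ℝ, E4) z := v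

lemma inner_centre (z : M) (u v : E4) :
    inner ℝ (tv z u) (tv z v) = bil (chartMetric 4 M z (chartCentre 4 M z)) u v := by
  have h := inner_eq_bil (n := 4) z (mem_chart_source E4 z) (tv z u) (tv z v)
  have hu : ∀ u : E4, dCh (n := 4) z z (tv z u) = u := fun u =>
    (dCh_tcc z (mem_chart_source E4 z) u).trans (tcc_self (mem_chart_source E4 z) u)
  rw [hu, hu] at h
  exact h

variable {q : QS M} {z : M} {e : Fin 4 → E4 → E4}

/-- the frame at the centre is the adapted frame of `e_0` -/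
lemma adp_centre (ha : Adp q z e) (k : Fin 4) :
    tv z (e k (chartCentre 4 M z)) = q.fr z (tv z (e 0 (chartCentre 4 M z))) k := by
  have h := ha.self_of_nhds k
  have h1 : ∀ (p : M), p = z → ∀ u : E4, (q.fr p (tv p u) k : E4) = (q.fr z (tv z u) k : E4) := by
    rintro p rfl u; rfl
  have h2 := h1 _ (symm_centre z) (tvy z (chartCentre 4 M z) (e 0 (chartCentre 4 M z)) : E4)
  have h3 : (tvy z (chartCentre 4 M z) (e k (chartCentre 4 M z)) : E4)
      = (q.fr z (tv z (tvy z (chartCentre 4 M z) (e 0 (chartCentre 4 M z)) : E4)) k : E4) :=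
    h.trans h2
  rw [tvy_centre] at h3
  refine h3.trans ?_
  rw [tvy_centre]

/-- the signs of the positive frame -/
def sg (i : Fin 4) : ℝ := if i = 3 then -1 else 1

lemma WF_sg (b c : Bil) (v : Fin 4 → E4) : WF b c (fun i => sg i • v i) = - WF b c v := by
  simp [WF, sg, map_smul]
  ring

lemma WF_pf (b : Bil) (v : Fin 4 → E4) :
    WF b b v = 2 * pf (fun i j => b (v i) (v j)) := by
  unfold WF pf; ring

end top

section metric

variable {M : Type u} [MetricSpace M] [ChartedSpace E4 M] [IsManifold (𝓡 4) ∞ M]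
  [RiemannianBundle (fun x : M => TangentSpace (𝓡 4) x)]
  [IsContMDiffRiemannianBundle (𝓡 4) ∞ E4 (fun x : M => TangentSpace (𝓡 4) x)]

variable {q : QS M} {z : M} {e : Fin 4 → E4 → E4}

/-- `2 q_F(b,b) = -2 pf (b(e_i, e_j))` in an adapted frame -/
theorem qG_adp [IsRiemannianManifold (𝓡 4) M] [MeasurableSpace M] [BorelSpace M] [CompactSpace M]
    {F : F2 E4 M} {J : EndF E4 M} (hC : Cpt F J)
    (hF : ∀ (x : M) (u v : TangentSpace (𝓡 4) x), at2 F x u v = inner ℝ (q.op 0 x u) v)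
    (h : ONF (chartMetric 4 M z) (chartAt E4 z).target (chartCentre 4 M z) e) (ha : Adp q z e)
    {b : F2 E4 M} (hb : Alt (at2 b z)) :
    2 * qG F b b z = -2 * pf (fun i j => at2 b z (e i (chartCentre 4 M z))
      (e j (chartCentre 4 M z))) := by
  set c : E4 := chartCentre 4 M z with hc
  have ho : ∀ i j, inner ℝ (tv z (e i c)) (tv z (e j c)) = if i = j then (1:ℝ) else 0 := by
    intro i j
    exact (inner_centre z _ _).trans (h.orth.self_of_nhds i j)
  have ho' : ∀ i j, inner ℝ (tv z (sg i • e i c)) (tv z (sg j • e j c))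
      = if i = j then (1:ℝ) else 0 := by
    intro i j
    have h0 : ∀ i, tv z (sg i • e i c) = sg i • tv z (e i c) := fun i => rfl
    rw [h0, h0, real_inner_smul_left, real_inner_smul_right, ho]
    by_cases hij : i = j
    · subst hij
      rw [if_pos rfl]
      unfold sg
      split_ifs <;> norm_num
    · rw [if_neg hij]; ring
  -- the values of `F`
  have hu : (inner ℝ (tv z (e 0 c)) (tv z (e 0 c)) : ℝ) = 1 := by
    rw [ho]; simp
  have hFe : ∀ i j, at2 F z (e i c) (e j c) = K ℝ 0 j i := by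
    intro i j
    have h1 := hF z (tv z (e i c)) (tv z (e j c))
    refine Eq.trans h1 ?_
    rw [adp_centre ha i, adp_centre ha j, q.op_fr, sum_inner]
    have h4 : ∀ l, inner ℝ (K ℝ 0 l i • q.fr z (tv z (e 0 c)) l) (q.fr z (tv z (e 0 c)) j)
        = K ℝ 0 l i * (if l = j then (1:ℝ) else 0) := by
      intro l
      rw [real_inner_smul_left, q.fr_orth z hu]
    rw [Finset.sum_congr rfl fun l _ => h4 l]
    simp
  have hWF : WF (at2 F z) (at2 F z) (fun i => e i c) = -2 := by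
    unfold WF
    simp only [hFe]
    simp [K]
    norm_num
  have hpos : 0 < WF (at2 F z) (at2 F z) (fun i => sg i • e i c) := by
    rw [WF_sg, hWF]; norm_num
  have h5 : 2 * qG F b b z = WF (at2 b z) (at2 b z) (fun i => sg i • e i c) :=
    qG_frame hC z hb hb (e := fun i => tv z (sg i • e i c)) ho' hpos
  rw [h5, WF_sg, WF_pf]
  ring

variable [IsRiemannianManifold (𝓡 4) M] [MeasurableSpace M] [BorelSpace M]
  [SecondCountableTopology M] [Nonempty M]

variable {κ κ0 κ1 : Type} [Fintype κ] [Fintype κ0] [Fintype κ1]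

/-- **the density of a twist**; `r` only depends on the frame -/
theorem dn_qG [CompactSpace M] {F : F2 E4 M} {J : EndF E4 M} (hC : Cpt F J)
    (hF : ∀ (x : M) (u v : TangentSpace (𝓡 4) x), at2 F x u v = inner ℝ (q.op 0 x u) v)
    (h : ONF (chartMetric 4 M z) (chartAt E4 z).target (chartCentre 4 M z) e) (ha : Adp q z e)
    {P : CPair 4 M κ κ0 κ1} {b : F2 E4 M} (hb : Alt (at2 b z)) (L : LocTw q P b)
    {T : ToF 4 M} {D0 : Dat 4 M κ0} {D1 : Dat 4 M κ1} (W : WD T P D0 D1) :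
    dn D0 z - dn D1 z = 1 / (192 * Real.pi ^ 2) * ev (TT h.frameOf)
      + 1 / (4 * Real.pi ^ 2) * (2 * qG F b b z) := by
  obtain ⟨al, j0, j1, C, hal⟩ := L z e h ha
  rw [dn_tw W C, qG_adp hC hF h ha hb]
  have h1 : ev (pf (dal h.frameOf al))
      = pf (fun i j => at2 b z (e i (chartCentre 4 M z)) (e j (chartCentre 4 M z))) := by
    unfold pf
    simp only [map_add, map_sub, map_mul, hal]
  rw [h1]
  have hp := Real.pi_ne_zero
  field_simp
  ring

theorem rank_loc {P : CPair 4 M κ κ0 κ1} {b : F2 E4 M} (L : LocTw q P b)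
    {T : ToF 4 M} {D0 : Dat 4 M κ0} {D1 : Dat 4 M κ1} (W : WD T P D0 D1) (z : M) :
    ∑ x, D0.p x x z = 4 ∧ ∑ x, D1.p x x z = 4 := by
  obtain ⟨e, h, ha⟩ := exists_adp q z
  obtain ⟨al, j0, j1, C, hal⟩ := L z e h ha
  exact ⟨rank0 W C, rank1 W C⟩

theorem tr_loc {P : CPair 4 M κ κ0 κ1} {b : F2 E4 M} (L : LocTw q P b)
    {T : ToF 4 M} {D0 : Dat 4 M κ0} {D1 : Dat 4 M κ1} (W : WD T P D0 D1) (z : M) :
    ∑ x, ∑ y, D0.Q x y z * D0.p x y z = ∑ x, ∑ y, D1.Q x y z * D1.p x y z := by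
  obtain ⟨e, h, ha⟩ := exists_adp q z
  obtain ⟨al, j0, j1, C, hal⟩ := L z e h ha
  exact tr_eq W C

theorem exists_ne {κ : Type} [Fintype κ] {f : κ → M → ℝ} (z : M) (h : ∑ x, f x z = 4) :
    ∃ z a, f a z ≠ 0 := by
  obtain ⟨a, -, ha⟩ := Finset.exists_ne_zero_of_sum_ne_zero
    (show ∑ x, f x z ≠ 0 by rw [h]; norm_num)
  exact ⟨z, a, ha⟩

/-- the data of the pair -/
theorem wd_dat [CompactSpace M] (T : ToF 4 M) (P : CPair 4 M κ κ0 κ1) :
    WD T P (R249.Wk352.dat0 T P) (R249.Wk352.dat0 T (R249.Wk352.swapP P)) :=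
  ⟨fun _ _ _ => rfl, rfl, rfl, fun _ _ _ => rfl, rfl, rfl⟩

/-- **the index of a twist** -/
theorem exists_index [CompactSpace M] [ConnectedSpace M] (T : ToF 4 M)
    {P : CPair 4 M κ κ0 κ1} {b : F2 E4 M} (L : LocTw q P b) :
    ∃ (d0 d1 : ℕ) (_ : KerD (R249.Wk352.dat0 T P) (opA P.D0 P.cc) d0)
      (_ : KerD (R249.Wk352.dat0 T (R249.Wk352.swapP P)) (opB P.D1 P.cc) d1),
      Integrable (fun z => dn (R249.Wk352.dat0 T P) z - dn (R249.Wk352.dat0 T (R249.Wk352.swapP P)) z)
        (μHE[4] : Measure M) ∧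
      (d0 : ℝ) - d1 = ∫ z, (dn (R249.Wk352.dat0 T P) z - dn (R249.Wk352.dat0 T (R249.Wk352.swapP P)) z)
        ∂(μHE[4] : Measure M) := by
  have W := wd_dat T P
  have z0 : M := Classical.arbitrary M
  exact index_D R249.HK286.chartStmt (R249.Wk352.dpair T P)
    (exists_ne (f := fun a z => (R249.Wk352.dat0 T P).p a a z) z0 (rank_loc L W z0).1)
    (exists_ne (f := fun a z => (R249.Wk352.dat0 T (R249.Wk352.swapP P)).p a a z) z0 (rank_loc L W z0).2)
    (fun z => by rw [(rank_loc L W z).1, (rank_loc L W z).2]) (fun z => tr_loc L W z)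


end metric

end Crest.Agent.R235.IndEven_692
end
end

-- ▼ part R235/IndEvenC_692
section

/-!
Row 235, package IND, leaf L6 (helper692), part C: the curvature of the connection `α = Im ⟨v, Dv⟩` of a
line bundle `p = v v^*` is `-2π` times the Chern form of `p`.
-/

set_option autoImplicit false
set_option maxSynthPendingDepth 3
set_option linter.unusedSectionVars false
set_option linter.unusedSimpArgs false
set_option maxHeartbeats 1000000

open Filter Topology Set Bundle Manifold MeasureTheory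
open Matrix hiding J
open scoped ContDiff ENNReal NNReal ComplexConjugate
open Crest.GeometryTopology.CoordMetric Crest.GeometryTopology.ChartCurvature
open Crest.Agent.R240 Crest.Agent.R240.Ch
open Crest.Agent.R202.Tens
open Crest.Agent.R247.Bo84 hiding trans
open Crest.Agent.R249.Vf281 Crest.Agent.R249.Tz2_805 Crest.Agent.R249.Tz1_805
open Crest.Agent.R249.Fr129
open Crest.Agent.R249.Sg129 (SG ev ONF germ ev_germ)
open Crest.Agent.R249.Tz805 Crest.Agent.R249.Dic805

universe u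

noncomputable section

namespace Crest.Agent.R235.IndEven_692

/-- derivative of real and imaginary parts -/
theorem fderiv_re {E : Type*} [NormedAddCommGroup E] [NormedSpace ℝ E] {f : E → ℂ} {y : E}
    (hf : DifferentiableAt ℝ f y) (u : E) :
    (fderiv ℝ f y u).re = fderiv ℝ (fun z => (f z).re) y u := by
  have h1 : HasFDerivAt (fun z => (f z).re) ((Complex.reCLM : ℂ →L[ℝ] ℝ).comp (fderiv ℝ f y)) y :=
    (Complex.reCLM : ℂ →L[ℝ] ℝ).hasFDerivAt.comp y hf.hasFDerivAt
  rw [h1.fderiv]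
  rfl

theorem fderiv_im {E : Type*} [NormedAddCommGroup E] [NormedSpace ℝ E] {f : E → ℂ} {y : E}
    (hf : DifferentiableAt ℝ f y) (u : E) :
    (fderiv ℝ f y u).im = fderiv ℝ (fun z => (f z).im) y u := by
  have h1 : HasFDerivAt (fun z => (f z).im) ((Complex.imCLM : ℂ →L[ℝ] ℝ).comp (fderiv ℝ f y)) y :=
    (Complex.imCLM : ℂ →L[ℝ] ℝ).hasFDerivAt.comp y hf.hasFDerivAt
  rw [h1.fderiv]
  rfl

variable {M : Type u} [TopologicalSpace M] [ChartedSpace E4 M] [IsManifold 𝓘(ℝ, E4) ∞ M]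
  [RiemannianBundle (fun x : M => TangentSpace 𝓘(ℝ, E4) x)]
  [IsContMDiffRiemannianBundle 𝓘(ℝ, E4) ∞ E4 (fun x : M => TangentSpace 𝓘(ℝ, E4) x)]

/-- the germ of a smooth function -/
theorem fg_eq {z : M} {f : M → ℝ} (hf : ContMDiff 𝓘(ℝ, E4) 𝓘(ℝ, ℝ) ∞ f) :
    ∃ h : ContDiffAt ℝ ∞ (f ∘ (chartAt E4 z).symm) (chartCentre 4 M z),
      fg (n := 4) z f = germ _ h := by
  have h : ContDiffAt ℝ ∞ (f ∘ (chartAt E4 z).symm) (chartCentre 4 M z) := by
    have h1 : ContMDiffAt 𝓘(ℝ, E4) 𝓘(ℝ, ℝ) ∞ f ((chartAt E4 z).symm (chartCentre 4 M z)) := hf _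
    have h2 : ContMDiffAt 𝓘(ℝ, E4) 𝓘(ℝ, E4) ∞ (chartAt E4 z).symm (chartCentre 4 M z) :=
      (contMDiffOn_chart_symm (I := 𝓘(ℝ, E4)) (n := ∞) (x := z)).contMDiffAt
        ((chartAt E4 z).open_target.mem_nhds (centre_mem (n := 4) z))
    exact (h1.comp _ h2).contDiffAt
  exact ⟨h, dif_pos h⟩

variable {z : M} {e : Fin 4 → E4 → E4}
  (h : ONF (chartMetric 4 M z) (chartAt E4 z).target (chartCentre 4 M z) e)

theorem ev_fg' {f : M → ℝ} (hf : ContMDiff 𝓘(ℝ, E4) 𝓘(ℝ, ℝ) ∞ f) : ev (fg (n := 4) z f) = f z := by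
  obtain ⟨h1, h2⟩ := fg_eq (z := z) hf
  rw [h2, ev_germ, Function.comp, symm_centre]

theorem ev_D_fg {f : M → ℝ} (hf : ContMDiff 𝓘(ℝ, E4) 𝓘(ℝ, ℝ) ∞ f) (i : Fin 4) :
    ev (h.frameOf.D i (fg (n := 4) z f))
      = fderiv ℝ (fun y => f ((chartAt E4 z).symm y)) (chartAt E4 z z)
          (e i (chartCentre 4 M z)) := by
  obtain ⟨h1, h2⟩ := fg_eq (z := z) hf
  rw [h2, h.D_germ, ev_germ]
  rfl

variable {N : ℕ} {p : M → Matrix (Fin N) (Fin N) ℂ}

theorem sm_re (hp : IsLine p) (a b : Fin N) :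
    ContMDiff 𝓘(ℝ, E4) 𝓘(ℝ, ℝ) ∞ (fun m => (p m a b).re) :=
  (Complex.reCLM : ℂ →L[ℝ] ℝ).contDiff.contMDiff.comp (hp.smooth a b)

theorem sm_im (hp : IsLine p) (a b : Fin N) :
    ContMDiff 𝓘(ℝ, E4) 𝓘(ℝ, ℝ) ∞ (fun m => (p m a b).im) :=
  (Complex.imCLM : ℂ →L[ℝ] ℝ).contDiff.contMDiff.comp (hp.smooth a b)

theorem diff_p (hp : IsLine p) (z : M) (a b : Fin N) :
    DifferentiableAt ℝ (fun y : E4 => p ((chartAt E4 z).symm y) a b) (chartAt E4 z z) := by
  have h1 : ContMDiffAt 𝓘(ℝ, E4) 𝓘(ℝ, ℂ) ∞ (fun x => p x a b)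
      ((chartAt E4 z).symm (chartAt E4 z z)) := hp.smooth a b _
  have h2 : ContMDiffAt 𝓘(ℝ, E4) 𝓘(ℝ, E4) ∞ (chartAt E4 z).symm (chartAt E4 z z) :=
    (contMDiffOn_chart_symm (I := 𝓘(ℝ, E4)) (n := ∞) (x := z)).contMDiffAt
      ((chartAt E4 z).open_target.mem_nhds (mem_chart_target E4 z))
  exact (h1.comp _ h2).contDiffAt.differentiableAt (by simp)

theorem dmat_re (hp : IsLine p) (i : Fin 4) (a b : Fin N) :
    (dmat p z (e i (chartCentre 4 M z)) a b).re
      = ev (h.frameOf.D i (fg (n := 4) z fun m => (p m a b).re)) := by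
  rw [ev_D_fg h (sm_re hp a b)]
  exact fderiv_re (diff_p hp z a b) _

theorem dmat_im (hp : IsLine p) (i : Fin 4) (a b : Fin N) :
    (dmat p z (e i (chartCentre 4 M z)) a b).im
      = ev (h.frameOf.D i (fg (n := 4) z fun m => (p m a b).im)) := by
  rw [ev_D_fg h (sm_im hp a b)]
  exact fderiv_im (diff_p hp z a b) _

/-- **the curvature**: `dα = -2π a`. -/
theorem chern_germ (hp : IsLine p) {a : Z2 M} (hc : IsChern p a)
    (x y : Fin N → SG (chartCentre 4 M z))
    (hr : ∀ k l, fg (n := 4) z (fun m => (p m k l).re) = x k * x l + y k * y l)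
    (hs : ∀ k l, fg (n := 4) z (fun m => (p m k l).im) = y k * x l - x k * y l)
    (hu : ∑ k, (x k * x k + y k * y k) = 1) (i j : Fin 4) :
    ev (dal h.frameOf (fun m => ∑ k, (x k * h.frameOf.D m (y k) - y k * h.frameOf.D m (x k))) i j)
      = -(2 * Real.pi) * val a z (e i (chartCentre 4 M z)) (e j (chartCentre 4 M z)) := by
  set F := h.frameOf with hF
  set V : Fin N → ℂ := fun k => (ev (x k) : ℂ) + Complex.I * (ev (y k) : ℂ) with hV
  set dV : Fin 4 → Fin N → ℂ := fun i k =>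
    (ev (F.D i (x k)) : ℂ) + Complex.I * (ev (F.D i (y k)) : ℂ) with hdV
  have hcV : ∀ k, conj (V k) = (ev (x k) : ℂ) - Complex.I * (ev (y k) : ℂ) := by
    intro k
    simp only [hV, map_add, map_mul, Complex.conj_ofReal, Complex.conj_I]
    ring
  have hcdV : ∀ i k, conj (dV i k)
      = (ev (F.D i (x k)) : ℂ) - Complex.I * (ev (F.D i (y k)) : ℂ) := by
    intro i k
    simp only [hdV, map_add, map_mul, Complex.conj_ofReal, Complex.conj_I]
    ring
  have hI : Complex.I * Complex.I = -1 := Complex.I_mul_I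
  -- the projection at `z`
  have h1 : p z = Lb453.pr V := by
    ext k l
    rw [Lb453.pr, hcV]
    have e1 := congrArg ev (hr k l)
    have e2 := congrArg ev (hs k l)
    rw [ev_fg' (sm_re hp k l), map_add, map_mul, map_mul] at e1
    rw [ev_fg' (sm_im hp k l), map_sub, map_mul, map_mul] at e2
    have e3 : p z k l = ((p z k l).re : ℂ) + ((p z k l).im : ℂ) * Complex.I :=
      (Complex.re_add_im _).symm
    rw [e3, e1, e2]
    push_cast
    simp only [hV]
    linear_combination ((ev (y k) : ℂ) * (ev (y l) : ℂ)) * hI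
  -- the derivative at `z`
  have h2 : ∀ i, dmat p z (e i (chartCentre 4 M z))
      = Matrix.of fun k l => dV i k * conj (V l) + V k * conj (dV i l) := by
    intro i
    ext k l
    have e1 : (dmat p z (e i (chartCentre 4 M z)) k l).re
        = ev (F.D i (x k * x l + y k * y l)) :=
      (dmat_re h hp i k l).trans (congrArg (fun t => ev (F.D i t)) (hr k l))
    have e2 : (dmat p z (e i (chartCentre 4 M z)) k l).im
        = ev (F.D i (y k * x l - x k * y l)) :=
      (dmat_im h hp i k l).trans (congrArg (fun t => ev (F.D i t)) (hs k l))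
    rw [map_add, F.D_mul, F.D_mul] at e1
    rw [map_sub, F.D_mul, F.D_mul] at e2
    have e3 : dmat p z (e i (chartCentre 4 M z)) k l
        = ((dmat p z (e i (chartCentre 4 M z)) k l).re : ℂ)
          + ((dmat p z (e i (chartCentre 4 M z)) k l).im : ℂ) * Complex.I :=
      (Complex.re_add_im _).symm
    rw [e3, e1, e2]
    rw [Matrix.of_apply, hcV, hcdV]
    simp only [map_add, map_sub, map_mul, hV, hdV]
    push_cast
    linear_combination ((ev (F.D i (y k)) : ℂ) * (ev (y l) : ℂ)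
      + (ev (y k) : ℂ) * (ev (F.D i (y l)) : ℂ)) * hI
  -- unit length
  have h3 : ∑ k, conj (V k) * V k = 1 := by
    have e1 := congrArg ev hu
    rw [map_sum, map_one] at e1
    have e2 : ∀ k, conj (V k) * V k = ((ev (x k * x k + y k * y k) : ℝ) : ℂ) := by
      intro k
      rw [hcV, map_add, map_mul, map_mul]
      push_cast
      simp only [hV]
      linear_combination (-(ev (y k) : ℂ) * (ev (y k) : ℂ)) * hI
    rw [Finset.sum_congr rfl fun k _ => e2 k, ← Complex.ofReal_sum, e1]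
    simp
  have h4 : ∀ i, ∑ k, conj (dV i k) * V k = - ∑ k, conj (V k) * dV i k := by
    intro i
    have e1 := congrArg (fun t => ev (F.D i t)) hu
    have e0 : F.D i (1 : SG (chartCentre 4 M z)) = 0 := (F.D i).map_one_eq_zero
    simp only [F.D_sum, map_sum, e0, map_zero] at e1
    rw [eq_neg_iff_add_eq_zero, ← Finset.sum_add_distrib]
    have e2 : ∀ k, conj (dV i k) * V k + conj (V k) * dV i k
        = ((ev (F.D i (x k * x k + y k * y k)) : ℝ) : ℂ) := by
      intro k
      rw [hcV, hcdV, map_add, F.D_mul, F.D_mul]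
      simp only [map_add, map_mul]
      push_cast
      simp only [hV, hdV]
      linear_combination (-2 * (ev (y k) : ℂ) * (ev (F.D i (y k)) : ℂ)) * hI
    rw [Finset.sum_congr rfl fun k _ => e2 k, ← Complex.ofReal_sum, e1]
    simp
  -- the trace
  have h5 := Lb453.curv_alg h3 (h4 i) (h4 j)
  have h6 : ∑ k, (conj (dV i k) * dV j k - conj (dV j k) * dV i k)
      = 2 * Complex.I * ((∑ k, (ev (F.D i (x k)) * ev (F.D j (y k))
          - ev (F.D j (x k)) * ev (F.D i (y k))) : ℝ) : ℂ) := by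
    rw [Complex.ofReal_sum, Finset.mul_sum]
    refine Finset.sum_congr rfl fun k _ => ?_
    rw [hcdV, hcdV]
    push_cast
    simp only [hdV]
    ring
  have h7 := hc z (e i (chartCentre 4 M z)) (e j (chartCentre 4 M z))
  rw [h7, h2 i, h2 j, h1, h5, h6, dal_unit, map_mul, map_sum]
  have h8 : ev (2 : SG (chartCentre 4 M z)) = 2 := map_ofNat ev 2
  rw [h8]
  simp only [map_sub, map_mul]
  set S : ℝ := ∑ k, (ev (F.D i (x k)) * ev (F.D j (y k)) - ev (F.D j (x k)) * ev (F.D i (y k)))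
    with hS
  have hpi : (Real.pi : ℂ) ≠ 0 := by exact_mod_cast Real.pi_ne_zero
  have h9 : Complex.I / (2 * (Real.pi : ℂ)) * (2 * Complex.I * (S : ℂ))
      = ((-(S / Real.pi) : ℝ) : ℂ) := by
    push_cast
    field_simp
    linear_combination (S : ℂ) * hI
  rw [h9, Complex.ofReal_re]
  have := Real.pi_ne_zero
  field_simp

end Crest.Agent.R235.IndEven_692
end
end

-- ▼ part R235/IndEvenD_692
section

/-!
Row 235, package IND, leaf L6 (helper692), part D: the index of a twist of the quaternionic pair.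

* `dens_tw`  : `dens T P z = dens T (pairZ q s) z + 1/(4π²) · 2 q_F(b, b)`;
* `index_tw` : `d0 - d1 = ∫ dens (pairZ) + 1/(4π²) I F b b`;
* `even_tw`  : if the twist is complex then `1/(4π²) I F b b` is an even integer.
-/

set_option autoImplicit false
set_option maxSynthPendingDepth 3
set_option linter.unusedSectionVars false
set_option linter.unusedSimpArgs false
set_option maxHeartbeats 1000000

open Filter Topology Set Bundle Manifold MeasureTheory
open Matrix hiding J
open scoped ContDiff ENNReal NNReal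
open Crest.GeometryTopology.CoordMetric Crest.GeometryTopology.ChartCurvature
open Crest.Agent.R240 Crest.Agent.R240.Ch
open Crest.Agent.R249.Tz2_805 Crest.Agent.R249.Tz1_805
open Crest.Agent.R249.Sg129 (SG ev ONF)
open Crest.Agent.R249.Tv57 hiding GG
open Crest.Agent.R249.Tz805 Crest.Agent.R249.HK9_714
open Crest.Agent.R235.Ind167 Crest.Agent.R235.IndVol_57

universe u

noncomputable section

namespace Crest.Agent.R235.IndEven_692

variable {M : Type u} [MetricSpace M] [ChartedSpace E4 M] [IsManifold (𝓡 4) ∞ M]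
  [RiemannianBundle (fun x : M => TangentSpace (𝓡 4) x)]
  [IsContMDiffRiemannianBundle (𝓡 4) ∞ E4 (fun x : M => TangentSpace (𝓡 4) x)]
  [IsRiemannianManifold (𝓡 4) M] [MeasurableSpace M] [BorelSpace M]
  [SecondCountableTopology M] [Nonempty M] [CompactSpace M]

variable {κ κ' κ0 κ1 : Type} [Fintype κ] [Fintype κ'] [Fintype κ0] [Fintype κ1]
  {q : QS M} (s : PF 4 M κ) (T : ToF 4 M) {F : F2 E4 M} {J : EndF E4 M} (hC : Cpt F J)
  (hF : ∀ (x : M) (u v : TangentSpace (𝓡 4) x), at2 F x u v = inner ℝ (q.op 0 x u) v)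
  {P : CPair 4 M κ' κ0 κ1} {b : F2 E4 M} (hb : ∀ x, Alt (at2 b x)) (L : LocTw q P b)

include hC hF hb L

/-- **density of a twist** -/
theorem dens_tw (z : M) : dens T P z = dens T (pairZ q s) z
    + 1 / (4 * Real.pi ^ 2) * (2 * qG F b b z) := by
  obtain ⟨e, h, ha⟩ := exists_adp q z
  rw [rZ_eq T s h ha]
  exact dn_qG hC hF h ha (hb z) L (wdd T P)

variable [ConnectedSpace M]

/-- **index of a twist** -/
theorem index_tw : ∃ (d0 d1 : ℕ) (_ : KerD (R249.Wk352.dat0 T P) (opA P.D0 P.cc) d0)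
      (_ : KerD (R249.Wk352.dat0 T (R249.Wk352.swapP P)) (opB P.D1 P.cc) d1),
      Integrable (dens T P) (μHE[4] : Measure M) ∧
      (d0 : ℝ) - d1 = ∫ z, dens T (pairZ q s) z ∂(μHE[4] : Measure M)
        + 1 / (4 * Real.pi ^ 2) * Int.I F b b := by
  obtain ⟨d0, d1, K0, K1, hi, he⟩ := exists_index T L
  obtain ⟨c0, c1, k0, k1, hj, hf⟩ := index_Z T q s
  refine ⟨d0, d1, K0, K1, hi, ?_⟩
  have h1 : ∀ z, dens T P z = dens T (pairZ q s) z + 1 / (4 * Real.pi ^ 2) * (2 * qG F b b z) :=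
    fun z => dens_tw s T hC hF hb L z
  have h2 : Integrable (fun z => 1 / (4 * Real.pi ^ 2) * (2 * qG F b b z))
      (μHE[4] : Measure M) := by
    have h3 := hi.sub hj
    refine h3.congr (Eventually.of_forall fun z => ?_)
    have h4 := h1 z
    show dens T P z - dens T (pairZ q s) z = _
    rw [h4]; ring
  rw [he, I_eq hC, ← integral_const_mul, ← integral_add hj h2]
  exact integral_congr_ae (Eventually.of_forall h1)

include s T in
/-- **parity**: if the twist is complex then `1/(4π²) I F b b` is even. -/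
theorem even_tw {J0 : κ0 → κ0 → M → ℝ} {J1 : κ1 → κ1 → M → ℝ}
    (h0 : PJ P.D0 J0) (h1 : PJ P.D1 J1)
    (hc : ∀ A y z, ∑ B, J1 A B z • P.cc B y z = ∑ x, J0 x y z • P.cc A x z) :
    ∃ n : ℤ, 1 / (4 * Real.pi ^ 2) * Int.I F b b = 2 * n := by
  obtain ⟨d0, d1, K0, K1, hi, he⟩ := index_tw s T hC hF hb L
  obtain ⟨c0, c1, k0, k1, hj, hf⟩ := index_Z T q s
  obtain ⟨m0, rfl⟩ := IndKer4_936.two_dvd_A h0 hc (E := R249.Wk352.dat0 T P)
    (fun _ _ _ => rfl) K0
  obtain ⟨m1, rfl⟩ := IndKer4_936.two_dvd_B h0 h1 hc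
    (E := R249.Wk352.dat0 T (R249.Wk352.swapP P)) (fun _ _ _ => rfl) K1
  obtain ⟨n0, rfl⟩ := IndKer4_936.ker4_A q s (E := R249.Wk352.dat0 T (pairZ q s))
    (fun _ _ _ => rfl) k0
  obtain ⟨n1, rfl⟩ := IndKer4_936.ker4_B q s
    (E := R249.Wk352.dat0 T (R249.Wk352.swapP (pairZ q s))) (fun _ _ _ => rfl) k1
  refine ⟨(m0 : ℤ) - m1 - 2 * n0 + 2 * n1, ?_⟩
  push_cast at he hf ⊢
  rw [← hf] at he
  linarith

end Crest.Agent.R235.IndEven_692
end
end

-- ▼ part R235/IndEvenE_692

/-!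
Row 235, package IND, leaf L6 (helper692), part E: descent.

* `TW`      : for every line bundle there is a complex Clifford pair which is the twist of the quaternionic
              pair (453);
* `even_of` : `TW → EVEN235`.
-/

set_option autoImplicit false
set_option maxSynthPendingDepth 3
set_option linter.unusedSectionVars false
set_option linter.unusedSimpArgs false
set_option maxHeartbeats 1000000

open Filter Topology Set Bundle Manifold MeasureTheory
open scoped ContDiff ENNReal NNReal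
open Crest.GeometryTopology.CoordMetric Crest.GeometryTopology.ChartCurvature
open Crest.Agent.R240 Crest.Agent.R240.Ch
open Crest.Agent.R249.Tz2_805 Crest.Agent.R249.Tz1_805
open Crest.Agent.R249.Tz805
open Crest.Agent.R235.Ind167 Crest.Agent.R235.IndVol_57

universe u

noncomputable section

namespace Crest.Agent.R235.IndEven_692

/-- the twist of the quaternionic pair by a line bundle -/
def TW : Prop :=
  ∀ (M : Type u) [TopologicalSpace M] [ChartedSpace E4 M] [IsManifold (𝓡 4) ∞ M]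
    [RiemannianBundle (fun x : M => TangentSpace (𝓡 4) x)]
    [IsContMDiffRiemannianBundle (𝓡 4) ∞ E4 (fun x : M => TangentSpace (𝓡 4) x)]
    (q : QS M) (κ : Type) [Fintype κ] (_ : PF 4 M κ) (N : ℕ)
    (p : M → Matrix (Fin N) (Fin N) ℂ) (a : Z2 M), IsLine p → IsChern p a →
    ∃ (κ0 κ1 : Type) (_ : Fintype κ0) (_ : Fintype κ1) (P : CPair 4 M κ κ0 κ1)
      (J0 : κ0 → κ0 → M → ℝ) (J1 : κ1 → κ1 → M → ℝ), PJ P.D0 J0 ∧ PJ P.D1 J1 ∧
      (∀ A y z, ∑ B, J1 A B z • P.cc B y z = ∑ x, J0 x y z • P.cc A x z) ∧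
      LocTw q P ((-(2 * Real.pi)) • (a.1.1 : F2 E4 M))

section inst

variable {M : Type u} [MetricSpace M] [CompactSpace M] [ConnectedSpace M]
  [ChartedSpace E4 M] [IsManifold (𝓡 4) ∞ M]
  [RiemannianBundle (fun x : M => TangentSpace (𝓡 4) x)]
  [IsContMDiffRiemannianBundle (𝓡 4) ∞ E4 (fun x : M => TangentSpace (𝓡 4) x)]
  [IsRiemannianManifold (𝓡 4) M] [MeasurableSpace M] [BorelSpace M]
  [SecondCountableTopology M] [Nonempty M]

/-- the constant of the twist -/
theorem I_smul_chern {F a : Z2 M} {J : EndF E4 M} (hC : Cpt (F.1.1 : F2 E4 M) J) :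
    1 / (4 * Real.pi ^ 2) * Int.I (F.1.1 : F2 E4 M) ((-(2 * Real.pi)) • (a.1.1 : F2 E4 M))
      ((-(2 * Real.pi)) • (a.1.1 : F2 E4 M)) = pI F a a := by
  have h1 := pI_eq_I F ((-(2 * Real.pi)) • a) ((-(2 * Real.pi)) • a)
  rw [pI_smul_left, pI_smul_right] at h1
  have h2 : Int.I (F.1.1 : F2 E4 M) ((-(2 * Real.pi)) • (a.1.1 : F2 E4 M))
      ((-(2 * Real.pi)) • (a.1.1 : F2 E4 M)) = -(2 * Real.pi) * (-(2 * Real.pi) * pI F a a) :=
    h1.symm
  rw [h2]
  have := Real.pi_ne_zero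
  field_simp
  ring

theorem even_inst (hTW : TW.{u}) (w : Trip M) (e : Fin 3 → F2 E4 M)
    (he : IndTri_451.IsTri (IndTri_451.und w) e)
    (hin : ∀ (x : M) (u v : TangentSpace (𝓡 4) x), inner ℝ u v = at2 (IndTri_451.gg e) x u v)
    {N : ℕ} {p : M → Matrix (Fin N) (Fin N) ℂ} {a : Z2 M} (hp : IsLine p) (hc : IsChern p a) :
    ∃ n : ℤ, pI (w 0) a a = 2 * n := by
  obtain ⟨m, ⟨s⟩⟩ := exists_PF (n := 4) (M := M)
  have hC : Cpt ((w 0).1.1 : F2 E4 M) (IndTri_451.II e 0) := (QSTri_451.comp_w he hin).cpt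
  obtain ⟨κ0, κ1, i0, i1, P, J0, J1, h0, h1, hcc, L⟩ :=
    hTW M (RiemQ_399.qsTri hin he) _ s N p a hp hc
  have hb : ∀ x, Alt (at2 ((-(2 * Real.pi)) • (a.1.1 : F2 E4 M)) x) := fun x =>
    val_alt ((-(2 * Real.pi)) • a) x
  obtain ⟨n, hn⟩ := even_tw s (R249.Tof352.tof 4 M) hC
    (fun x u v => RiemQ_399.w_inner hin he x u v) hb L h0 h1 hcc
  exact ⟨n, by rw [← I_smul_chern hC, hn]⟩

end inst

/-- **EVEN235** -/
theorem even_of (hTW : TW.{u}) : DichProps_723.EVEN235.{u} := by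
  intro M _ _ _ _ _ _ w hw c hc
  obtain ⟨N, p, a, hp, hch, rfl⟩ := hc
  rw [ip_cls (hw.vol 0)]
  obtain ⟨e, he⟩ := IndTri_451.exists_tri hw
  obtain ⟨rb, crb, mM, rfl, hd, hin⟩ := Riem_399.exists_riem (QSTri_451.met_gg he)
  haveI : IsRiemannianManifold (𝓡 4) M := ⟨hd⟩
  letI : MeasurableSpace M := borel M
  haveI : BorelSpace M := ⟨rfl⟩
  haveI := Riem_399.secondCountable (M := M)
  exact even_inst hTW w e he hin hp hch

end Crest.Agent.R235.IndEven_692
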