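import Crest.Agent.R249.Tv7_57
import Crest.Agent.R249.Tv9_57

-- ▼ part R235/IndSolveA_956
section

/-!
# R235, PACKAGE IND, node IND-6 SOLVE (helper956), part A: Fredholm alternative for the abstract form.

* `formSolve`  : `a(v, w) - s <j v, j w> = <f, j w>` is solvable when `f` is orthogonal to the
                 eigenvectors with `lam k = s`;
* `weakSolve`  : the same for `∫ en u v` on `L²(E)` (`AD`);
* `weak_div_rhs` : the equation component by component.
-/

set_option autoImplicit false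
set_option linter.unusedSectionVars false
open MeasureTheory Set Filter Topology
open scoped ENNReal NNReal RealInnerProductSpace

noncomputable section
namespace Crest.Agent.R235.IndSolve_956

open Crest.Agent.R202.Sp Crest.Agent.R247.Dir593 Crest.Agent.R249.Tv57

/-! ### the abstract form -/

section form
variable {H : Type*} [NormedAddCommGroup H] [InnerProductSpace ℝ H] [CompleteSpace H]
variable {V : Type*} [NormedAddCommGroup V] [InnerProductSpace ℝ V] [CompleteSpace V]
variable {j : V →L[ℝ] H} {A : CForm j}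

/-- multipliers bounded on the spectrum -/
theorem exists_bound {lam : ℕ → ℝ} (hl : Tendsto lam atTop atTop) (s : ℝ) :
    ∃ C : ℝ, 0 ≤ C ∧ ∀ k, |(lam k - s)⁻¹| ≤ C := by
  have h1 : ∀ᶠ k in atTop, s + 1 ≤ lam k := hl.eventually_ge_atTop _
  obtain ⟨N, hN⟩ := eventually_atTop.1 h1
  refine ⟨1 + ∑ k ∈ Finset.range N, |(lam k - s)⁻¹|, by positivity, fun k => ?_⟩
  by_cases hk : k < N
  · have := Finset.single_le_sum (f := fun k => |(lam k - s)⁻¹|) (fun i _ => abs_nonneg _)
      (Finset.mem_range.2 hk)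
    linarith
  · have h2 := hN k (not_lt.1 hk)
    have h3 : 1 ≤ lam k - s := by linarith
    have h4 : |(lam k - s)⁻¹| ≤ 1 := by
      rw [abs_inv, abs_of_pos (by linarith)]
      exact inv_le_one_of_one_le₀ h3
    have h5 : 0 ≤ ∑ k ∈ Finset.range N, |(lam k - s)⁻¹| := Finset.sum_nonneg fun i _ => abs_nonneg _
    linarith

/-- multiplication of the coefficients by a bounded sequence -/
theorem exists_mult (e : HilbertBasis ℕ ℝ H) {m : ℕ → ℝ} {C : ℝ} (hm : ∀ k, |m k| ≤ C) (f : H) :
    ∃ y : H, ∀ k, ⟪e k, y⟫ = m k * ⟪e k, f⟫ := by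
  have h1 : Memℓp (fun k => m k * ⟪e k, f⟫) 2 := by
    have h2 : Memℓp (fun k => e.repr f k) 2 := (e.repr f).2
    refine memℓp_gen ?_
    have h3 : Summable fun k => ‖e.repr f k‖ ^ (2 : ℝ≥0∞).toReal := h2.summable (by norm_num)
    refine Summable.of_nonneg_of_le (fun k => by positivity) (fun k => ?_) (h3.mul_left (C ^ 2))
    have h4 : e.repr f k = ⟪e k, f⟫ := e.repr_apply_apply f k
    rw [h4]
    simp only [ENNReal.toReal_ofNat, Real.rpow_ofNat, norm_mul, mul_pow, Real.norm_eq_abs, sq_abs]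
    have h5 : m k ^ 2 ≤ C ^ 2 := by
      rw [← sq_abs (m k)]
      exact pow_le_pow_left₀ (abs_nonneg _) (hm k) 2
    exact mul_le_mul_of_nonneg_right h5 (sq_nonneg _)
  refine ⟨e.repr.symm ⟨_, h1⟩, fun k => ?_⟩
  rw [← e.repr_apply_apply, LinearIsometryEquiv.apply_symm_apply]

theorem ext_basis (e : HilbertBasis ℕ ℝ H) {x y : H} (h : ∀ k, ⟪e k, x⟫ = ⟪e k, y⟫) : x = y := by
  apply e.repr.injective
  ext k
  rw [e.repr_apply_apply, e.repr_apply_apply, h k]

/-- **Fredholm alternative** for a form with compact resolvent -/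
theorem formSolve (S : FormSeq A) (s : ℝ) {f : H} (hf : ∀ k, S.lam k = s → ⟪S.e k, f⟫ = 0) :
    ∃ v : V, ∀ w, A.a v w - s * ⟪j v, j w⟫ = ⟪f, j w⟫ := by
  obtain ⟨C, -, hC⟩ := exists_bound S.lim s
  obtain ⟨y, hy⟩ := exists_mult S.e hC f
  set g : H := f + (s + 1) • y with hg
  have h1 : j (A.T g) = y := by
    refine ext_basis S.e fun k => ?_
    have a1 : A.B (A.T g) (S.ev k) = ⟪g, S.e k⟫ := by rw [A.B_T, S.j_ev]
    have a2 := S.B_ev k (A.T g)
    rw [A.B_symm, a1] at a2
    have a3 : ⟪g, S.e k⟫ = ⟪S.e k, f⟫ + (s + 1) * ⟪S.e k, y⟫ := by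
      rw [real_inner_comm, hg, inner_add_right, real_inner_smul_right]
    rw [a3, hy] at a2
    rw [hy]
    have a4 : 0 < S.lam k + 1 := by have := S.nonneg k; linarith
    by_cases hk : S.lam k = s
    · rw [hf k hk, mul_zero, mul_zero, add_zero] at a2
      rw [hf k hk, mul_zero]
      rcases mul_eq_zero.1 a2.symm with h | h
      · linarith
      · exact h
    · have a5 : S.lam k - s ≠ 0 := sub_ne_zero.2 hk
      field_simp at a2 ⊢
      nlinarith [mul_comm (S.lam k + 1) (⟪S.e k, j (A.T g)⟫ * (S.lam k - s)), a2]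
  refine ⟨A.T g, fun w => ?_⟩
  have h2 := A.B_T g w
  rw [A.B_apply, h1] at h2
  have h3 : ⟪g, j w⟫ = ⟪f, j w⟫ + (s + 1) * ⟪y, j w⟫ := by
    rw [hg, inner_add_left, real_inner_smul_left]
  rw [h3] at h2
  rw [h1]
  linarith

end form

/-! ### the form `∫ en u v` -/

section ad
variable {X : Type*} [MetricSpace X] [MeasurableSpace X] [BorelSpace X] {F : Type*}
  [NormedAddCommGroup F] [InnerProductSpace ℝ F] {μ : Measure X} [IsFiniteMeasureOnCompacts μ]
variable {S : GradS X F μ} {κ : Type} [Fintype κ] (A : AD S κ)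

/-- **Fredholm alternative** for `∫ en u v` on `L²(E)` -/
theorem weakSolve [CompleteSpace F] (hS : AD.Fried S) (hd : Dense (S.V : Set (Lp ℝ 2 μ)))
    (hinf : ¬ FiniteDimensional ℝ A.HE) {f : HH μ κ} (hPf : A.P f = f)
    (hker : ∀ u : HH μ κ, (∀ a, u a ∈ S.V) → A.P u = u →
      (∀ v : HH μ κ, (∀ a, v a ∈ S.V) → ∫ x, A.en u v x ∂μ = 0) → ⟪u, f⟫ = 0) :
    ∃ u : HH μ κ, (∀ a, u a ∈ S.V) ∧ A.P u = u ∧
      ∀ v : HH μ κ, (∀ a, v a ∈ S.V) → ∫ x, A.en u v x ∂μ = ⟪f, v⟫ := by
  obtain ⟨Sq⟩ := A.form.exists_formSeq (A.compact_jj hS) (A.dense_jj hd) hinf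
  have hju : ∀ k, A.i1 (Sq.ev k) = (Sq.e k : HH μ κ) := fun k => congrArg Subtype.val (Sq.j_ev k)
  -- test with all `v`
  have htest : ∀ (w : A.WE) (c : ℝ) (g : A.HE),
      (∀ w' : A.WE, A.form.a w w' - A.shift * ⟪A.jj w, A.jj w'⟫ = c * ⟪g, A.jj w'⟫) →
      ∀ v : HH μ κ, (∀ a, v a ∈ S.V) → ∫ x, A.en (A.i1 w) v x ∂μ = c * ⟪(g : HH μ κ), v⟫ := by
    intro w c g hw v hv
    have hv' : ∀ a, A.P v a ∈ S.V := fun a => (A.P_mem hv a).1
    have h1 := hw (A.mkW (A.P v) hv' (A.P_P v))
    rw [AD.form_apply, AD.form_eq] at h1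
    have h2 : A.i1 (A.mkW (A.P v) hv' (A.P_P v)) = A.P v := rfl
    have hwV : ∀ a, A.i1 w a ∈ S.V := fun a => S.mem_V.2 ⟨_, w.2.1 a⟩
    have hwP : A.P (A.i1 w) = A.i1 w := w.2.2
    have h3 : ⟪A.jj w, A.jj (A.mkW (A.P v) hv' (A.P_P v))⟫ = ⟪A.i1 w, A.P v⟫ := rfl
    have h4 : ⟪g, A.jj (A.mkW (A.P v) hv' (A.P_P v))⟫ = ⟪(g : HH μ κ), v⟫ := by
      have : ⟪g, A.jj (A.mkW (A.P v) hv' (A.P_P v))⟫ = ⟪(g : HH μ κ), A.P v⟫ := rfl
      rw [this, ← A.inner_P, show A.P (g : HH μ κ) = g from g.2]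
    rw [h2, h3, h4, integral_congr_ae (A.en_P hwV hv hwP)] at h1
    linarith
  have hmem : ∀ k a, (Sq.e k : HH μ κ) a ∈ S.V := by
    intro k a
    rw [← hju]
    exact S.mem_V.2 ⟨_, (Sq.ev k).2.1 a⟩
  obtain ⟨w, hw⟩ := formSolve Sq A.shift (f := (⟨f, hPf⟩ : A.HE)) (by
    intro k hk
    have h1 := hker (Sq.e k : HH μ κ) (hmem k) (Sq.e k).2 (by
      intro v hv
      have h2 := htest (Sq.ev k) 0 (Sq.e k) (by
        intro w'
        rw [Sq.eig, Sq.j_ev, hk]
        ring) v hv
      rw [hju] at h2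
      rw [h2, zero_mul])
    exact h1)
  refine ⟨A.i1 w, fun a => S.mem_V.2 ⟨_, w.2.1 a⟩, w.2.2, fun v hv => ?_⟩
  have := htest w 1 ⟨f, hPf⟩ (by intro w'; rw [hw w', one_mul]) v hv
  rw [this, one_mul]

open Classical in
/-- **the weak equation with right hand side, component by component** -/
theorem weak_div_rhs {u f : HH μ κ}
    (h : ∀ v : HH μ κ, (∀ a, v a ∈ S.V) → ∫ x, A.en u v x ∂μ = ⟪f, v⟫) (a : κ) {p : X → ℝ}
    (hp : GradS.IsT p) :
    ∫ x, ⟪A.cvf u a x, S.G p x⟫ ∂μ = - ∫ x, (A.low u 0 a x - f a x) * p x ∂μ := by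
  set v : HH μ κ := WithLp.toLp 2 (fun c => if c = a then GradS.tL hp else 0) with hv
  have hva : ∀ c, v c = if c = a then GradS.tL hp else 0 := fun c => rfl
  have hvV : ∀ c, v c ∈ S.V := by
    intro c
    rw [hva]
    split_ifs
    · exact S.tL_mem hp
    · exact S.V.zero_mem
  have h1 := h v hvV
  -- values of `v`
  have hvx : ∀ᵐ x ∂μ, ∀ c, (v c : Lp ℝ 2 μ) x = if c = a then p x else 0 := by
    rw [ae_all_iff]
    intro c
    rw [hva]
    split_ifs with hc
    · filter_upwards [GradS.coe_tL (μ := μ) hp] with x e1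
      rw [e1]
    · filter_upwards [Lp.coeFn_zero ℝ 2 μ] with x e1
      rw [e1, Pi.zero_apply]
  have hDx : ∀ᵐ x ∂μ, ∀ c, (S.D (v c) : Lp F 2 μ) x = if c = a then S.G p x else 0 := by
    rw [ae_all_iff]
    intro c
    rw [hva]
    split_ifs with hc
    · filter_upwards [S.D_tL hp] with x e1
      rw [e1]
    · rw [S.D_zero]
      filter_upwards [Lp.coeFn_zero F 2 μ] with x e1
      rw [e1, Pi.zero_apply]
  have hen : ∀ᵐ x ∂μ, A.en u v x = ⟪A.cvf u a x, S.G p x⟫ +
      (∑ c, ⟪A.cvf u c x, A.w c a x⟫ + ∑ b, A.q a b x * u b x) * p x := by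
    filter_upwards [hvx, hDx] with x e1 e2
    rw [AD.en]
    have e3 : ∀ c, A.cvf v c x = (if c = a then S.G p x else 0) + p x • A.w c a x := by
      intro c
      rw [AD.cvf, e2 c]
      congr 1
      simp only [e1, ite_smul, zero_smul, Finset.sum_ite_eq', Finset.mem_univ, if_true]
    simp only [e3, inner_add_right, Finset.sum_add_distrib, real_inner_smul_right, e1]
    have e4 : ∑ c, ⟪A.cvf u c x, if c = a then S.G p x else 0⟫ = ⟪A.cvf u a x, S.G p x⟫ := by
      rw [Finset.sum_eq_single a]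
      · rw [if_pos rfl]
      · intro b _ hb
        rw [if_neg hb, inner_zero_right]
      · intro h; exact absurd (Finset.mem_univ a) h
    have e5 : ∑ c, ∑ b, A.q c b x * u b x * (if c = a then p x else 0) =
        (∑ b, A.q a b x * u b x) * p x := by
      rw [Finset.sum_eq_single a]
      · simp only [if_pos]
        rw [Finset.sum_mul]
      · intro b _ hb
        simp only [if_neg hb, mul_zero, Finset.sum_const_zero]
      · intro h; exact absurd (Finset.mem_univ a) h
    have e6 : ∑ c, p x * ⟪A.cvf u c x, A.w c a x⟫ = (∑ c, ⟪A.cvf u c x, A.w c a x⟫) * p x := by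
      rw [Finset.sum_mul]
      exact Finset.sum_congr rfl fun c _ => mul_comm _ _
    rw [e4, e5, e6]
    ring
  have hin : ⟪f, v⟫ = ∫ x, f a x * p x ∂μ := by
    rw [PiLp.inner_apply]
    simp only [L2.inner_def]
    rw [Finset.sum_eq_single a]
    · refine integral_congr_ae ?_
      filter_upwards [hvx] with x e1
      rw [e1 a, if_pos rfl, rin]
    · intro b _ hb
      rw [← integral_zero X ℝ (μ := μ)]
      refine integral_congr_ae ?_
      filter_upwards [hvx] with x e1
      rw [e1 b, if_neg hb, inner_zero_right]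
    · intro h; exact absurd (Finset.mem_univ a) h
  have i1 : Integrable (fun x => (⟪A.cvf u a x, S.G p x⟫ : ℝ)) μ :=
    integrable_inner' (A.memLp_cvf u a) (hp.memLpG S)
  have ip : ∀ c, MemLp (fun x => p x • A.w c a x) 2 μ := by
    intro c
    refine (memLp_congr_ae ?_).1 ((A.hw c a).memLp (GradS.tL hp))
    filter_upwards [GradS.coe_tL (μ := μ) hp] with x e1
    rw [e1]
  have iq : ∀ b, MemLp (fun x => A.q a b x * u b x) 2 μ := by
    intro b
    refine (memLp_congr_ae ?_).1 ((A.hq a b).memLp (u b))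
    refine Eventually.of_forall fun x => ?_
    simp only [smul_eq_mul]
    ring
  have i2 : Integrable (fun x => (∑ c, ⟪A.cvf u c x, A.w c a x⟫ + ∑ b, A.q a b x * u b x) * p x) μ := by
    have j1 : Integrable (fun x => ∑ c, (⟪A.cvf u c x, p x • A.w c a x⟫ : ℝ)) μ :=
      integrable_finsetSum _ fun c _ => integrable_inner' (A.memLp_cvf u c) (ip c)
    have j2 : Integrable (fun x => ∑ b, (⟪A.q a b x * u b x, p x⟫ : ℝ)) μ :=
      integrable_finsetSum _ fun b _ => integrable_inner' (iq b) hp.memLp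
    refine (j1.add j2).congr (Eventually.of_forall fun x => ?_)
    simp only [Pi.add_apply, real_inner_smul_right, rin]
    have e6 : ∑ c, p x * ⟪A.cvf u c x, A.w c a x⟫ = (∑ c, ⟪A.cvf u c x, A.w c a x⟫) * p x := by
      rw [Finset.sum_mul]
      exact Finset.sum_congr rfl fun c _ => mul_comm _ _
    rw [e6, add_mul, Finset.sum_mul, Finset.sum_mul]
  have i3 : Integrable (fun x => f a x * p x) μ :=
    (integrable_inner' (Lp.memLp (f a)) hp.memLp).congr (Eventually.of_forall fun x => rin _ _)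
  rw [integral_congr_ae hen, integral_add i1 i2, hin] at h1
  have h2 : ∫ x, (A.low u 0 a x - f a x) * p x ∂μ =
      (∫ x, (∑ c, ⟪A.cvf u c x, A.w c a x⟫ + ∑ b, A.q a b x * u b x) * p x ∂μ) -
        ∫ x, f a x * p x ∂μ := by
    rw [← integral_sub i2 i3]
    refine integral_congr_ae (Eventually.of_forall fun x => ?_)
    simp only [AD.low]
    ring
  rw [h2]
  linarith

end ad

end Crest.Agent.R235.IndSolve_956
end
end

-- ▼ part R235/IndSolveB_956

/-!
# R235, PACKAGE IND, node IND-6 SOLVE (helper956), part B: regularity with a smooth right hand side.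

* `sys_reg_rhs`   : `Tv57.sys_reg_div` with a right hand side (adding the component `1`);
* `chart_reg_rhs` : in a chart;
* `smooth_rhs`    : weak solutions of `D* D u + Q u = f`, `f` smooth, are smooth.
-/

set_option autoImplicit false
set_option linter.unusedSectionVars false
set_option maxSynthPendingDepth 3
open scoped ContDiff ENNReal NNReal Topology Manifold Bundle RealInnerProductSpace
open MeasureTheory Set Filter Metric Bundle

noncomputable section
namespace Crest.Agent.R235.IndSolve_956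

open Crest.Agent.R247.Dir593 Crest.Agent.R247.Ms322 Crest.Agent.R247.Frd657
open Crest.GeometryTopology.CoordMetric Crest.GeometryTopology.ChartCurvature
open Crest.Agent.R202.Ell Crest.Agent.R249.Tv57 Crest.Agent.R249.SReg352

/-- the integral of a derivative of a test function vanishes -/
theorem integral_pderiv_test {n : ℕ} (i : Fin n) {φ : EuclideanSpace ℝ (Fin n) → ℝ}
    (h1 : ContDiff ℝ ∞ φ) (h2 : HasCompactSupport φ) : ∫ x, pderiv i φ x = 0 := by
  have hd : Differentiable ℝ φ := h1.differentiable (by simp)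
  have hc : Continuous fun x => fderiv ℝ φ x (EuclideanSpace.single i (1:ℝ)) :=
    (h1.continuous_fderiv (by simp)).clm_apply continuous_const
  have h3 := integral_mul_fderiv_eq_neg_fderiv_mul_of_integrable (𝕜 := ℝ)
    (μ := (volume : Measure (EuclideanSpace ℝ (Fin n)))) (f := fun _ => (1:ℝ)) (g := φ)
    (v := EuclideanSpace.single i (1:ℝ)) (by simp)
    (by
      simp only [one_mul]
      exact hc.integrable_of_hasCompactSupport (h2.fderiv_apply ℝ _))
    (by
      simp only [one_mul]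
      exact h1.continuous.integrable_of_hasCompactSupport h2)
    (fun x _ => differentiableAt_const _) (fun x _ => hd x)
  simp only [one_mul] at h3
  unfold pderiv
  rw [h3]
  simp

section euclid
variable {n : ℕ} {κ : Type*} [Fintype κ]

/-- **regularity**, divergence form with lower order terms on both sides and right hand side -/
theorem sys_reg_rhs {U : Set (EuclideanSpace ℝ (Fin n))} (hU : IsOpen U)
    {A : Fin n → Fin n → EuclideanSpace ℝ (Fin n) → ℝ} (hA : ∀ i j, ContDiffOn ℝ ∞ (A i j) U)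
    (hpos : ∀ x ∈ U, (Matrix.of fun i j => A i j x).PosDef)
    {W : κ → κ → Fin n → EuclideanSpace ℝ (Fin n) → ℝ} (hW : ∀ a b j, ContDiffOn ℝ ∞ (W a b j) U)
    {q : κ → κ → EuclideanSpace ℝ (Fin n) → ℝ} (hq : ∀ a b, ContDiffOn ℝ ∞ (q a b) U)
    {f : κ → EuclideanSpace ℝ (Fin n) → ℝ} (hf : ∀ a, ContDiffOn ℝ ∞ (f a) U)
    {u : κ → EuclideanSpace ℝ (Fin n) → ℝ} {u' : Fin n → κ → EuclideanSpace ℝ (Fin n) → ℝ}
    (hu : ∀ a, L2on U (u a)) (hu' : ∀ i a, L2on U (u' i a))
    (hWD : ∀ i a, ∀ φ : EuclideanSpace ℝ (Fin n) → ℝ, ContDiff ℝ ∞ φ → HasCompactSupport φ →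
      tsupport φ ⊆ U → ∫ x, u a x * pderiv i φ x = - ∫ x, u' i a x * φ x)
    (heq : ∀ a, ∀ φ : EuclideanSpace ℝ (Fin n) → ℝ, ContDiff ℝ ∞ φ → HasCompactSupport φ →
      tsupport φ ⊆ U → ∫ x, ∑ i, ∑ j, A i j x * (u' j a x + ∑ b, u b x * W a b j x) * pderiv i φ x =
        - ∫ x, (∑ c, ∑ i, ∑ j, A i j x * (u' j c x + ∑ b, u b x * W c b j x) * W c a i x
          + ∑ b, q a b x * u b x - f a x) * φ x) :
    ∃ v : κ → EuclideanSpace ℝ (Fin n) → ℝ, (∀ a, ContDiffOn ℝ ∞ (v a) U) ∧
      (∀ a, ∀ᵐ x, x ∈ U → v a x = u a x) ∧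
      (∀ i a, ∀ᵐ x, x ∈ U → pderiv i (v a) x = u' i a x) := by
  set W' : Option κ → Option κ → Fin n → EuclideanSpace ℝ (Fin n) → ℝ := fun a b j x =>
    match a, b with
    | some a, some b => W a b j x
    | _, _ => 0 with hW'
  set q' : Option κ → Option κ → EuclideanSpace ℝ (Fin n) → ℝ := fun a b x =>
    match a, b with
    | some a, some b => q a b x
    | some a, none => - f a x
    | none, _ => 0 with hq'
  set w : Option κ → EuclideanSpace ℝ (Fin n) → ℝ := fun a x =>
    match a with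
    | some a => u a x
    | none => 1 with hw
  set w' : Fin n → Option κ → EuclideanSpace ℝ (Fin n) → ℝ := fun i a x =>
    match a with
    | some a => u' i a x
    | none => 0 with hw'
  obtain ⟨v, h1, h2, h3⟩ := sys_reg_div (κ := Option κ) hU (A := A) hA hpos (W := W') (by
      intro a b j
      rcases a with _ | a
      · exact contDiffOn_const
      · rcases b with _ | b
        · exact contDiffOn_const
        · exact hW a b j) (q := q') (by
      intro a b
      rcases a with _ | a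
      · exact contDiffOn_const
      · rcases b with _ | b
        · exact (hf a).neg
        · exact hq a b) (u := w) (u' := w') (by
      intro a
      rcases a with _ | a
      · exact ⟨locallyIntegrableOn_const _, by
          show LocallyIntegrableOn (fun _ => (1:ℝ) ^ 2) U volume
          exact locallyIntegrableOn_const _⟩
      · exact hu a) (by
      intro i a
      rcases a with _ | a
      · exact ⟨locallyIntegrableOn_const _, by
          show LocallyIntegrableOn (fun _ => (0:ℝ) ^ 2) U volume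
          exact locallyIntegrableOn_const _⟩
      · exact hu' i a) (by
      intro i a φ hφ1 hφ2 hφ3
      rcases a with _ | a
      · show ∫ x, (1:ℝ) * pderiv i φ x = - ∫ x, (0:ℝ) * φ x
        simp only [one_mul, zero_mul, integral_zero, neg_zero]
        exact integral_pderiv_test i hφ1 hφ2
      · exact hWD i a φ hφ1 hφ2 hφ3) (by
      intro a φ hφ1 hφ2 hφ3
      rcases a with _ | a
      · have e1 : ∀ x, ∑ i, ∑ j, A i j x * (w' j none x + ∑ b, w b x * W' none b j x) * pderiv i φ x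
            = 0 := by
          intro x
          simp only [hw', hW', mul_zero, Finset.sum_const_zero, add_zero, zero_mul]
        have e2 : ∀ x, (∑ c, ∑ i, ∑ j, A i j x * (w' j c x + ∑ b, w b x * W' c b j x) *
            W' c none i x + ∑ b, q' none b x * w b x) * φ x = 0 := by
          intro x
          have : ∀ c i, W' c none i x = 0 := by
            intro c i
            rcases c with _ | c <;> rfl
          simp only [this, hq', mul_zero, Finset.sum_const_zero, add_zero, zero_mul]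
        simp only [e1, e2, integral_zero, neg_zero]
      · have e0 : ∀ c j x, w' j (some c) x + ∑ b, w b x * W' (some c) b j x =
            u' j c x + ∑ b, u b x * W c b j x := by
          intro c j x
          rw [Fintype.sum_option]
          simp only [hw, hw', hW', mul_zero, zero_add]
        have e1 : ∀ x, ∑ i, ∑ j, A i j x * (w' j (some a) x + ∑ b, w b x * W' (some a) b j x) *
            pderiv i φ x = ∑ i, ∑ j, A i j x * (u' j a x + ∑ b, u b x * W a b j x) *
              pderiv i φ x := by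
          intro x
          simp only [e0]
        have e2 : ∀ x, (∑ c, ∑ i, ∑ j, A i j x * (w' j c x + ∑ b, w b x * W' c b j x) *
            W' c (some a) i x + ∑ b, q' (some a) b x * w b x) * φ x =
            (∑ c, ∑ i, ∑ j, A i j x * (u' j c x + ∑ b, u b x * W c b j x) * W c a i x
              + ∑ b, q a b x * u b x - f a x) * φ x := by
          intro x
          rw [Fintype.sum_option, Fintype.sum_option]
          simp only [e0]
          simp only [hw, hW', hq', mul_zero, mul_one, Finset.sum_const_zero, zero_add]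
          ring
        simp only [e1, e2]
        exact heq a φ hφ1 hφ2 hφ3)
  exact ⟨fun a => v (some a), fun a => h1 (some a), fun a => h2 (some a), fun i a => h3 i (some a)⟩

end euclid

variable {n : ℕ} {M : Type*} [MetricSpace M] [ChartedSpace (EuclideanSpace ℝ (Fin n)) M]
  [IsManifold (𝓡 n) ∞ M]
  [RiemannianBundle (fun p : M => TangentSpace (𝓡 n) p)]
  [IsContMDiffRiemannianBundle (𝓡 n) ∞ (EuclideanSpace ℝ (Fin n)) (fun p : M => TangentSpace (𝓡 n) p)]
  [IsRiemannianManifold (𝓡 n) M] [MeasurableSpace M] [BorelSpace M]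
  [SecondCountableTopology M] [Nonempty M]

local notation "𝔼" => EuclideanSpace ℝ (Fin n)

variable [CompactSpace M] [IsFiniteMeasureOnCompacts (μHE[n] : Measure M)] {κ : Type} [Fintype κ]

open Classical in
/-- **regularity in a chart**, smooth right hand side -/
theorem chart_reg_rhs (D : Dat n M κ) {u g : HH (μHE[n] : Measure M) κ}
    (hu : ∀ a, u a ∈ (gradS n M).V) {f : κ → M → ℝ} (hf : SmV (n := n) f)
    (hgf : ∀ᵐ z ∂(μHE[n] : Measure M), ∀ a, (g a : M → ℝ) z = f a z)
    (h : ∀ v : HH (μHE[n] : Measure M) κ, (∀ a, v a ∈ (gradS n M).V) →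
      ∫ x, D.toAD.en u v x ∂(μHE[n] : Measure M) = ⟪g, v⟫) (x₀ : M) :
    ∃ v : κ → EuclideanSpace ℝ (Fin n) → ℝ, (∀ a, ContDiffOn ℝ ∞ (v a) (chartAt 𝔼 x₀).target) ∧
      ∀ a, ∀ᵐ b : 𝔼, b ∈ (chartAt 𝔼 x₀).target → v a b = u a ((chartAt 𝔼 x₀).symm b) := by
  have hU := (chartAt 𝔼 x₀).open_target
  have hA := coefOn_Ac (n := n) x₀
  have hsymm : ∀ b ∈ (chartAt 𝔼 x₀).target, ∀ i j, Ac (n := n) x₀ i j b = Ac x₀ j i b := by
    intro b hb i j
    rw [Ac, Ac, inv_symm x₀ hb]
  obtain ⟨v, h1, h2, -⟩ := sys_reg_rhs (κ := κ) hU (A := Ac (n := n) x₀) hA.smooth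
    (fun b hb => by
      rw [Matrix.posDef_iff_dotProduct_mulVec]
      refine ⟨?_, fun ξ hξ => ?_⟩
      · ext i j
        simp only [Matrix.conjTranspose_apply, Matrix.of_apply, star_trivial]
        exact hsymm b hb j i
      · refine lt_of_lt_of_eq (hA.pos b hb ξ hξ) ?_
        simp only [star_trivial, dotProduct, Matrix.mulVec, Matrix.of_apply, Finset.mul_sum]
        refine Finset.sum_congr rfl fun i _ => Finset.sum_congr rfl fun j _ => ?_
        ring)
    (W := fun a b j => cf x₀ j (D.X a b)) (fun a b j => D.smX a b x₀ j)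
    (q := fun a b y => dens (n := n) x₀ y * D.Q a b ((chartAt 𝔼 x₀).symm y))
    (fun a b => (contDiffOn_dens x₀).mul (chart_smooth (D.smQ a b) x₀))
    (f := fun a y => dens (n := n) x₀ y * f a ((chartAt 𝔼 x₀).symm y))
    (fun a => (contDiffOn_dens x₀).mul (chart_smooth (hf a) x₀))
    (u := fun a b => u a ((chartAt 𝔼 x₀).symm b))
    (u' := fun i a => cf x₀ i ((gradS n M).D (u a)))
    (fun a => l2on_of_L2On hU (L2On_chart fun K _ => (Lp.memLp (u a)).restrict K))
    (fun i a => l2on_of_L2On hU (L2On_cf x₀ i (Lp.memLp _)))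
    (fun i a φ hφ1 hφ2 hφ3 => wdOn_cf (gradS n M) (fun f => rfl) x₀ i (hu a) φ ⟨hφ1, hφ2⟩ hφ3)
    (fun a φ hφ1 hφ2 hφ3 => by
      have h3 := weak_eq_chart (n := n) (F := D.toAD.cvf u a)
        (f := fun z => D.toAD.low u 0 a z - f a z)
        (fun p hp => by
          have e0 := weak_div_rhs D.toAD h a hp
          have e0' : ∫ x, ⟪D.toAD.cvf u a x, Gr (n := n) p x⟫ ∂(μHE[n] : Measure M) =
            - ∫ x, (D.toAD.low u 0 a x - g a x) * p x ∂(μHE[n] : Measure M) := e0
          rw [e0']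
          congr 1
          refine integral_congr_ae ?_
          filter_upwards [hgf] with z e1
          rw [e1 a]) x₀ ⟨hφ1, hφ2⟩ hφ3
      have hcf : ∀ c j b, cf x₀ j (D.toAD.cvf u c) b = cf x₀ j ((gradS n M).D (u c)) b +
          ∑ b', u b' ((chartAt 𝔼 x₀).symm b) * cf x₀ j (D.X c b') b := by
        intro c j b
        simp only [cf, AD.cvf, inner_add_right, inner_sum, real_inner_smul_right]
        rfl
      have e1 : ∫ b, ∑ i, ∑ j, Ac (n := n) x₀ i j b * (cf x₀ j ((gradS n M).D (u a)) b +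
          ∑ b', u b' ((chartAt 𝔼 x₀).symm b) * cf x₀ j (D.X a b') b) * pderiv i φ b =
          ∫ b, ∑ i, ∑ j, Ac x₀ i j b * cf x₀ j (D.toAD.cvf u a) b * pderiv i φ b := by
        simp only [hcf]
      rw [e1, h3]
      congr 1
      refine integral_congr_ae (Eventually.of_forall fun b => ?_)
      simp only
      by_cases hb : b ∈ (chartAt 𝔼 x₀).target
      · congr 1
        rw [AD.low]
        have e2 : ∀ c, dens (n := n) x₀ b * ⟪D.toAD.cvf u c ((chartAt 𝔼 x₀).symm b),
            D.toAD.w c a ((chartAt 𝔼 x₀).symm b)⟫ = ∑ i, ∑ j, Ac x₀ i j b *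
            (cf x₀ j ((gradS n M).D (u c)) b + ∑ b', u b' ((chartAt 𝔼 x₀).symm b) *
              cf x₀ j (D.X c b') b) * cf x₀ i (D.X c a) b := by
          intro c
          have h5 := inner_cf x₀ (D.toAD.cvf u c) (D.X c a) hb
          rw [show D.toAD.w c a = D.X c a from rfl, h5, Finset.mul_sum]
          refine Finset.sum_congr rfl fun i _ => ?_
          rw [Finset.mul_sum]
          refine Finset.sum_congr rfl fun j _ => ?_
          rw [hcf, Ac]
          ring
        rw [zero_mul, sub_zero, mul_sub, mul_add, Finset.mul_sum,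
          Finset.sum_congr rfl fun c _ => e2 c]
        have e3 : ∑ b', dens (n := n) x₀ b * D.Q a b' ((chartAt 𝔼 x₀).symm b) *
            u b' ((chartAt 𝔼 x₀).symm b) =
            dens (n := n) x₀ b * (∑ b', D.toAD.q a b' ((chartAt 𝔼 x₀).symm b) *
              u b' ((chartAt 𝔼 x₀).symm b)) := by
          rw [Finset.mul_sum]
          refine Finset.sum_congr rfl fun b' _ => ?_
          rw [show D.toAD.q a b' = D.Q a b' from rfl]
          ring
        rw [e3]
      · have : φ b = 0 := image_eq_zero_of_notMem_tsupport fun h => hb (hφ3 h)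
        rw [this, mul_zero, mul_zero])
  exact ⟨v, h1, h2⟩

/-- **weak solutions with smooth right hand side are smooth** -/
theorem smooth_rhs (D : Dat n M κ) {u g : HH (μHE[n] : Measure M) κ}
    (hu : ∀ a, u a ∈ (gradS n M).V) {f : κ → M → ℝ} (hf : SmV (n := n) f)
    (hgf : ∀ᵐ z ∂(μHE[n] : Measure M), ∀ a, (g a : M → ℝ) z = f a z)
    (h : ∀ v : HH (μHE[n] : Measure M) κ, (∀ a, v a ∈ (gradS n M).V) →
      ∫ x, D.toAD.en u v x ∂(μHE[n] : Measure M) = ⟪g, v⟫) :
    ∃ φ : κ → M → ℝ, (∀ a, ContMDiff (𝓡 n) 𝓘(ℝ, ℝ) ∞ (φ a)) ∧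
      ∀ᵐ z ∂(μHE[n] : Measure M), ∀ a, (u a : M → ℝ) z = φ a z := by
  have h1 : ∀ a, ∃ φ : M → ℝ, ContMDiff (𝓡 n) 𝓘(ℝ, ℝ) ∞ φ ∧ φ =ᵐ[(μHE[n] : Measure M)] (u a : M → ℝ) := by
    intro a
    refine glue fun x₀ => ?_
    obtain ⟨v, h1, h2⟩ := chart_reg_rhs D hu hf hgf h x₀
    exact ⟨v a, h1 a, h2 a⟩
  choose φ h2 h3 using h1
  refine ⟨φ, h2, ae_all_iff.2 fun a => ?_⟩
  filter_upwards [h3 a] with z hz using hz.symm

end Crest.Agent.R235.IndSolve_956
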