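import Crest.Agent.R235.TorLF_348

/-!
Row 235 (S0364), PACKAGE TOR, leaf TOR-LT (helper348), part 1: pull-back of a smooth closed
two-form by a smooth map `Φ : V → M` (components only), and homotopy invariance of the torus
integrals along a `ℤ²`-periodic map `Φ : E4 → M`: `torI (slice Φ y) b = torI (slice Φ 0) b`.
-/

set_option autoImplicit false
set_option maxSynthPendingDepth 3

open Set Function Filter MeasureTheory
open scoped Manifold ContDiff Topology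

universe u

namespace Crest.Agent.R235.TorLTa_348

open Crest.Agent.R235 Crest.Agent.R240 Crest.Agent.R240.Ch

noncomputable section

section PB

variable {V : Type} [NormedAddCommGroup V] [NormedSpace ℝ V]
variable {V' : Type} [NormedAddCommGroup V'] [NormedSpace ℝ V']
variable {M : Type u} [TopologicalSpace M] [ChartedSpace E4 M]

/-- the map read in the chart at `p`. -/
def cr (p : M) (Φ : V → M) (z : V) : E4 := chartAt E4 p (Φ z)

theorem dmap_eq (Φ : V → M) (y v : V) : dmap Φ y v = fderiv ℝ (cr (Φ y) Φ) y v := rfl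

variable [IsManifold 𝓘(ℝ, E4) ∞ M]

theorem cr_contDiffAt {Φ : V → M} {y : V} (h : ContMDiffAt 𝓘(ℝ, V) 𝓘(ℝ, E4) ∞ Φ y) {p : M}
    (hp : Φ y ∈ (chartAt E4 p).source) : ContDiffAt ℝ ∞ (cr p Φ) y := by
  have h1 : ContMDiffAt 𝓘(ℝ, E4) 𝓘(ℝ, E4) ∞ (chartAt E4 p) (Φ y) :=
    (contMDiffOn_chart (I := 𝓘(ℝ, E4)) (x := p)).contMDiffAt
      ((chartAt E4 p).open_source.mem_nhds hp)
  exact (h1.comp y h).contDiffAt

/-- the differential in another chart. -/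
theorem tcc_dmap {Φ : V → M} {y : V} (h : ContMDiffAt 𝓘(ℝ, V) 𝓘(ℝ, E4) ∞ Φ y) {p : M}
    (hp : Φ y ∈ (chartAt E4 p).source) (v : V) :
    tcc (Φ y) p (Φ y) (dmap Φ y v) = fderiv ℝ (cr p Φ) y v := by
  have h0 : Φ y ∈ (chartAt E4 (Φ y)).source := mem_chart_source E4 _
  have hy : chartAt E4 (Φ y) (Φ y) ∈ (chartAt E4 (Φ y)).target :=
    (chartAt E4 (Φ y)).map_source h0
  have hq : (chartAt E4 (Φ y)).symm (chartAt E4 (Φ y) (Φ y)) ∈ (chartAt E4 p).source := by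
    rw [(chartAt E4 (Φ y)).left_inv h0]; exact hp
  have h1 : DifferentiableAt ℝ (trans (E := E4) (Φ y) p) (cr (Φ y) Φ y) :=
    (trans_contDiffAt hy hq).differentiableAt (by simp)
  have h2 : DifferentiableAt ℝ (cr (Φ y) Φ) y := (cr_contDiffAt h h0).differentiableAt (by simp)
  have hev : cr p Φ =ᶠ[𝓝 y] fun z => trans (E := E4) (Φ y) p (cr (Φ y) Φ z) := by
    have h3 := h.continuousAt.preimage_mem_nhds ((chartAt E4 (Φ y)).open_source.mem_nhds h0)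
    filter_upwards [h3] with z hz
    exact (trans_apply hz).symm
  rw [hev.fderiv_eq, tcc_eq_fderiv_trans]
  have h4 := fderiv_comp y h1 h2
  have h5 : fderiv ℝ (fun z => trans (E := E4) (Φ y) p (cr (Φ y) Φ z)) y =
      (fderiv ℝ (trans (E := E4) (Φ y) p) (cr (Φ y) Φ y)).comp (fderiv ℝ (cr (Φ y) Φ) y) := h4
  rw [h5]
  rfl

/-- chain rule. -/
theorem dmap_comp {Φ : V → M} {G : V' → V} {y : V'}
    (h : ContMDiffAt 𝓘(ℝ, V) 𝓘(ℝ, E4) ∞ Φ (G y)) (hG : DifferentiableAt ℝ G y) (v : V') :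
    dmap (fun z => Φ (G z)) y v = dmap Φ (G y) (fderiv ℝ G y v) := by
  have h2 : DifferentiableAt ℝ (cr (Φ (G y)) Φ) (G y) :=
    (cr_contDiffAt h (mem_chart_source E4 _)).differentiableAt (by simp)
  have h3 := fderiv_comp y h2 hG
  have h4 : fderiv ℝ (cr (Φ (G y)) fun z => Φ (G z)) y =
      (fderiv ℝ (cr (Φ (G y)) Φ) (G y)).comp (fderiv ℝ G y) := h3
  rw [dmap_eq, h4]
  rfl

/-- the pull-back of a two-form, as a function of the vectors. -/
def pm (Φ : V → M) (b : F2 E4 M) (u v : V) (z : V) : ℝ :=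
  at2 b (Φ z) (dmap Φ z u) (dmap Φ z v)

theorem pm_chart {Φ : V → M} {y : V} (h : ContMDiffAt 𝓘(ℝ, V) 𝓘(ℝ, E4) ∞ Φ y) {p : M}
    (hp : Φ y ∈ (chartAt E4 p).source) (b : F2 E4 M) (u v : V) :
    pm Φ b u v y = rep p b (cr p Φ y) (fderiv ℝ (cr p Φ) y u) (fderiv ℝ (cr p Φ) y v) := by
  rw [pm, apply_eq_rep hp, tcc_dmap h hp, tcc_dmap h hp]
  rfl

theorem pm_eventually {Φ : V → M} (h : ContMDiff 𝓘(ℝ, V) 𝓘(ℝ, E4) ∞ Φ) {y : V} {p : M}
    (hp : Φ y ∈ (chartAt E4 p).source) (b : F2 E4 M) (u v : V) :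
    pm Φ b u v =ᶠ[𝓝 y] fun z =>
      rep p b (cr p Φ z) (fderiv ℝ (cr p Φ) z u) (fderiv ℝ (cr p Φ) z v) := by
  have h3 := (h y).continuousAt.preimage_mem_nhds ((chartAt E4 p).open_source.mem_nhds hp)
  filter_upwards [h3] with z hz2
  exact pm_chart (h z) hz2 b u v

theorem pm_contDiff {Φ : V → M} (h : ContMDiff 𝓘(ℝ, V) 𝓘(ℝ, E4) ∞ Φ) {b : F2 E4 M}
    (hb : Smooth2 b) (u v : V) : ContDiff ℝ ∞ (pm Φ b u v) := by
  rw [contDiff_iff_contDiffAt]
  intro y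
  have hp : Φ y ∈ (chartAt E4 (Φ y)).source := mem_chart_source E4 _
  have hc := cr_contDiffAt (h y) hp
  have hfc : ContDiffAt ℝ ∞ (fderiv ℝ (cr (Φ y) Φ)) y := hc.fderiv_right (m := ∞) (by simp)
  have hr : ContDiffAt ℝ ∞ (rep (Φ y) b) (cr (Φ y) Φ y) :=
    contDiffOn_chart_iff.1 (hb.2 (Φ y)) _ ((chartAt E4 (Φ y)).map_source hp)
  refine ContDiffAt.congr_of_eventuallyEq ?_ (pm_eventually h hp b u v)
  have h1 : ContDiffAt ℝ ∞ (fun z => rep (Φ y) b (cr (Φ y) Φ z)) y := hr.comp y hc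
  exact (h1.clm_apply (hfc.clm_apply contDiffAt_const)).clm_apply
    (hfc.clm_apply contDiffAt_const)

/-- the derivative of the pull-back, in a chart. -/
theorem fderiv_pm {Φ : V → M} (h : ContMDiff 𝓘(ℝ, V) 𝓘(ℝ, E4) ∞ Φ) {b : F2 E4 M}
    (hb : Smooth2 b) (y u v w : V) :
    fderiv ℝ (pm Φ b v w) y u =
      fderiv ℝ (rep (Φ y) b) (cr (Φ y) Φ y) (fderiv ℝ (cr (Φ y) Φ) y u)
        (fderiv ℝ (cr (Φ y) Φ) y v) (fderiv ℝ (cr (Φ y) Φ) y w)
      + rep (Φ y) b (cr (Φ y) Φ y) (fderiv ℝ (fderiv ℝ (cr (Φ y) Φ)) y u v)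
        (fderiv ℝ (cr (Φ y) Φ) y w)
      + rep (Φ y) b (cr (Φ y) Φ y) (fderiv ℝ (cr (Φ y) Φ) y v)
        (fderiv ℝ (fderiv ℝ (cr (Φ y) Φ)) y u w) := by
  have hp : Φ y ∈ (chartAt E4 (Φ y)).source := mem_chart_source E4 _
  have hc := cr_contDiffAt (h y) hp
  have hfc : ContDiffAt ℝ ∞ (fderiv ℝ (cr (Φ y) Φ)) y := hc.fderiv_right (m := ∞) (by simp)
  have hr : ContDiffAt ℝ ∞ (rep (Φ y) b) (cr (Φ y) Φ y) :=
    contDiffOn_chart_iff.1 (hb.2 (Φ y)) _ ((chartAt E4 (Φ y)).map_source hp)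
  have dc : HasFDerivAt (cr (Φ y) Φ) (fderiv ℝ (cr (Φ y) Φ) y) y :=
    (hc.differentiableAt (by simp)).hasFDerivAt
  have dfc : HasFDerivAt (fderiv ℝ (cr (Φ y) Φ)) (fderiv ℝ (fderiv ℝ (cr (Φ y) Φ)) y) y :=
    (hfc.differentiableAt (by simp)).hasFDerivAt
  have dr : HasFDerivAt (rep (Φ y) b) (fderiv ℝ (rep (Φ y) b) (cr (Φ y) Φ y)) (cr (Φ y) Φ y) :=
    (hr.differentiableAt (by simp)).hasFDerivAt
  have d1 := dr.comp y dc
  have d2 : ∀ v : V, HasFDerivAt (fun z => fderiv ℝ (cr (Φ y) Φ) z v)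
      ((fderiv ℝ (fderiv ℝ (cr (Φ y) Φ)) y).flip v) y := fun v => by
    have := dfc.clm_apply (hasFDerivAt_const v y)
    simpa using this
  have d3 := (d1.clm_apply (d2 v)).clm_apply (d2 w)
  rw [(pm_eventually h hp b v w).fderiv_eq]
  have d4 := d3.fderiv
  have e : (fun z => rep (Φ y) b (cr (Φ y) Φ z) (fderiv ℝ (cr (Φ y) Φ) z v)
      (fderiv ℝ (cr (Φ y) Φ) z w)) = fun z => ((rep (Φ y) b ∘ cr (Φ y) Φ) z)
      (fderiv ℝ (cr (Φ y) Φ) z v) (fderiv ℝ (cr (Φ y) Φ) z w) := rfl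
  rw [e, d4]
  simp only [add_apply, ContinuousLinearMap.comp_apply, ContinuousLinearMap.flip_apply,
    comp_apply]
  ring

/-- the pull-back of a closed form is closed. -/
theorem pm_closed {Φ : V → M} (h : ContMDiff 𝓘(ℝ, V) 𝓘(ℝ, E4) ∞ Φ) {b : F2 E4 M}
    (hb : Smooth2 b) (hc : Closed2 b) (y u v w : V) :
    fderiv ℝ (pm Φ b v w) y u - fderiv ℝ (pm Φ b u w) y v + fderiv ℝ (pm Φ b u v) y w = 0 := by
  have hp : Φ y ∈ (chartAt E4 (Φ y)).source := mem_chart_source E4 _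
  have hs := (cr_contDiffAt (h y) hp).isSymmSndFDerivAt (by
    simp only [minSmoothness_of_isRCLikeNormedField]
    exact ENat.LEInfty.out)
  have h0 := hc (Φ y) (cr (Φ y) Φ y) ((chartAt E4 (Φ y)).map_source hp)
    (fderiv ℝ (cr (Φ y) Φ) y u) (fderiv ℝ (cr (Φ y) Φ) y v) (fderiv ℝ (cr (Φ y) Φ) y w)
  rw [dd] at h0
  rw [fderiv_pm h hb, fderiv_pm h hb, fderiv_pm h hb, hs.eq u v, hs.eq u w, hs.eq v w,
    hb.antisymm_rep (Φ y) _ (fderiv ℝ (fderiv ℝ (cr (Φ y) Φ)) y w u)]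
  linarith

end PB

section Tor

variable {M : Type u} [TopologicalSpace M] [ChartedSpace E4 M] [IsManifold 𝓘(ℝ, E4) ∞ M]

theorem lv_add (s t s' t' : ℝ) : lv (s + s') (t + t') = lv s t + lv s' t' := by
  ext i
  fin_cases i <;> simp [lv]

theorem lv_smul (c s t : ℝ) : lv (c * s) (c * t) = c • lv s t := by
  ext i
  fin_cases i <;> simp [lv]

theorem lv_zero : lv 0 0 = 0 := by
  ext i
  fin_cases i <;> simp [lv]

/-- the leaf directions, as a continuous linear map. -/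
def lvL : Ep →L[ℝ] E4 :=
  LinearMap.toContinuousLinearMap
    { toFun := fun v => lv (v 0) (v 1)
      map_add' := fun u v => by
        ext i
        fin_cases i <;> simp [lv]
      map_smul' := fun c v => by
        ext i
        fin_cases i <;> simp [lv] }


omit [IsManifold 𝓘(ℝ, E4) ∞ M] in
/-- the differential of a periodic map is periodic. -/
theorem dmap_per {Φ : E4 → M} (hper : ∀ (y : E4) (m n : ℤ), Φ (y + lv m n) = Φ y) (y : E4)
    (m n : ℤ) (v : E4) : dmap Φ (y + lv m n) v = dmap Φ y v := by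
  have h1 : (fun z => chartAt E4 (Φ (y + lv m n)) (Φ z)) =
      fun z : E4 => chartAt E4 (Φ y) (Φ z) := by rw [hper]
  have h2 : (fun z : E4 => chartAt E4 (Φ y) (Φ (z + lv m n))) =
      fun z : E4 => chartAt E4 (Φ y) (Φ z) := by
    funext z
    rw [hper]
  have h3 := fderiv_comp_add_right (𝕜 := ℝ) (f := fun z : E4 => chartAt E4 (Φ y) (Φ z)) (x := y)
    (lv m n)
  rw [dmap, dmap, h1, ← h3, h2]

omit [IsManifold 𝓘(ℝ, E4) ∞ M] in
theorem pm_per {Φ : E4 → M} (hper : ∀ (y : E4) (m n : ℤ), Φ (y + lv m n) = Φ y) (b : F2 E4 M)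
    (u v : E4) (y : E4) (m n : ℤ) : pm Φ b u v (y + lv m n) = pm Φ b u v y := by
  have h1 : ∀ x x' : M, x = x' → at2 b x = at2 b x' := fun x x' h => by rw [h]
  rw [pm, pm, dmap_per hper, dmap_per hper, h1 _ _ (hper y m n)]

/-- the differential of a slice. -/
theorem dmap_slice {Φ : E4 → M} (h : ContMDiff 𝓘(ℝ, E4) 𝓘(ℝ, E4) ∞ Φ) (y : E4) (q v : Ep) :
    dmap (slice Φ y) q v = dmap Φ (y + lv (q 0) (q 1)) (lv (v 0) (v 1)) := by
  have hd : HasFDerivAt (fun q : Ep => y + lvL q) lvL q :=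
    (lvL.hasFDerivAt).const_add y
  have h1 := dmap_comp (Φ := Φ) (G := fun q : Ep => y + lvL q) (y := q) (h _)
    hd.differentiableAt v
  rw [hd.fderiv] at h1
  exact h1

theorem torI_slice_eq {Φ : E4 → M} (h : ContMDiff 𝓘(ℝ, E4) 𝓘(ℝ, E4) ∞ Φ) (b : F2 E4 M) (y : E4) :
    torI (slice Φ y) b = ∫ q : Fin 2 → ℝ in Icc 0 1,
      pm Φ b (lv 1 0) (lv 0 1) (y + lv (q 0) (q 1)) := by
  have e : Set.pi univ (fun _ : Fin 2 => Set.Icc (0 : ℝ) 1) = Icc (0 : Fin 2 → ℝ) 1 := by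
    rw [Set.pi_univ_Icc]
    rfl
  rw [torI, e]
  refine setIntegral_congr_fun measurableSet_Icc fun q _ => ?_
  simp only [dmap_slice h]
  simp [slice, pm]

/-- HOMOTOPY INVARIANCE of the torus integrals. -/
theorem torI_slice {Φ : E4 → M} (h : ContMDiff 𝓘(ℝ, E4) 𝓘(ℝ, E4) ∞ Φ)
    (hper : ∀ (y : E4) (m n : ℤ), Φ (y + lv m n) = Φ y) {b : F2 E4 M}
    (hb : Smooth2 b) (hc : Closed2 b) (y : E4) :
    torI (slice Φ y) b = torI (slice Φ 0) b := by
  set e1 : E4 := lv 1 0 with he1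
  set e2 : E4 := lv 0 1 with he2
  let Z : (Fin 3 → ℝ) →L[ℝ] E4 := LinearMap.toContinuousLinearMap
    { toFun := fun x => x 0 • y + lv (x 1) (x 2)
      map_add' := fun u v => by
        simp only [Pi.add_apply, lv_add, add_smul]
        abel
      map_smul' := fun c v => by
        simp only [Pi.smul_apply, smul_eq_mul, lv_smul, mul_smul, RingHom.id_apply, smul_add] }
  have hZ : ∀ x, Z x = x 0 • y + lv (x 1) (x 2) := fun x => rfl
  have hZ0 : Z (Pi.single 0 1) = y := by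
    rw [hZ]; simp [lv_zero]
  have hZ1 : Z (Pi.single 1 1) = e1 := by
    rw [hZ]; simp [he1]
  have hZ2 : Z (Pi.single 2 1) = e2 := by
    rw [hZ]; simp [he2]
  let g : Fin 3 → E4 → ℝ := ![pm Φ b e1 e2, fun z => -(pm Φ b y e2 z), pm Φ b y e1]
  have hg : ∀ i, ContDiff ℝ ∞ (g i) := by
    intro i
    fin_cases i
    · exact pm_contDiff h hb e1 e2
    · exact (pm_contDiff h hb y e2).neg
    · exact pm_contDiff h hb y e1
  have hgd : ∀ i z, HasFDerivAt (g i) (fderiv ℝ (g i) z) z := fun i z =>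
    ((hg i).differentiable (by simp) z).hasFDerivAt
  let f : (Fin 3 → ℝ) → Fin 3 → ℝ := fun x i => g i (Z x)
  let f' : (Fin 3 → ℝ) → (Fin 3 → ℝ) →L[ℝ] (Fin 3 → ℝ) := fun x =>
    ContinuousLinearMap.pi fun i => (fderiv ℝ (g i) (Z x)).comp Z
  have hf : ∀ x, HasFDerivAt f (f' x) x := by
    intro x
    rw [hasFDerivAt_pi]
    intro i
    exact (hgd i (Z x)).comp x Z.hasFDerivAt
  have hdiv : ∀ x, ∑ i, f' x (Pi.single i 1) i = 0 := by
    intro x
    have h0 := pm_closed h hb hc (Z x) y e1 e2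
    have h1 : fderiv ℝ (g 1) (Z x) = - fderiv ℝ (pm Φ b y e2) (Z x) := by
      have : g 1 = fun z => -(pm Φ b y e2 z) := rfl
      rw [this, fderiv_fun_neg]
    rw [Fin.sum_univ_three]
    have t0 : f' x (Pi.single 0 1) 0 = fderiv ℝ (pm Φ b e1 e2) (Z x) y := by
      change fderiv ℝ (g 0) (Z x) (Z (Pi.single 0 1)) = _
      rw [hZ0]; rfl
    have t1 : f' x (Pi.single 1 1) 1 = - fderiv ℝ (pm Φ b y e2) (Z x) e1 := by
      change fderiv ℝ (g 1) (Z x) (Z (Pi.single 1 1)) = _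
      rw [hZ1, h1]; rfl
    have t2 : f' x (Pi.single 2 1) 2 = fderiv ℝ (pm Φ b y e1) (Z x) e2 := by
      change fderiv ℝ (g 2) (Z x) (Z (Pi.single 2 1)) = _
      rw [hZ2]; rfl
    rw [t0, t1, t2]
    linarith
  have key := integral_divergence_of_hasFDerivAt_off_countable (0 : Fin 3 → ℝ) 1
    (fun _ => zero_le_one) f f' ∅ countable_empty
    (fun x _ => (hf x).continuousAt.continuousWithinAt) (fun x _ => hf x) (by
      simp only [hdiv]
      exact integrableOn_zero)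
  simp only [hdiv, integral_zero] at key
  rw [Fin.sum_univ_three] at key
  have face : ∀ i : Fin 3, Icc ((0 : Fin 3 → ℝ) ∘ i.succAbove) ((1 : Fin 3 → ℝ) ∘ i.succAbove) =
      Icc (0 : Fin 2 → ℝ) 1 := fun i => rfl
  have hf0 : ∀ (a : ℝ) (q : Fin 2 → ℝ), f ((0 : Fin 3).insertNth a q) 0 =
      pm Φ b e1 e2 (a • y + lv (q 0) (q 1)) := fun a q => by
    change g 0 (Z _) = _
    rw [hZ]
    rfl
  have hf1 : ∀ q : Fin 2 → ℝ, f ((1 : Fin 3).insertNth 1 q) 1 =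
      f ((1 : Fin 3).insertNth 0 q) 1 := fun q => by
    change -(pm Φ b y e2 (Z _)) = -(pm Φ b y e2 (Z _))
    rw [hZ, hZ]
    have h1 := pm_per hper b y e2 (q 0 • y + lv 0 (q 1)) 1 0
    have h2 : q 0 • y + lv 0 (q 1) + lv ((1 : ℤ) : ℝ) ((0 : ℤ) : ℝ) =
        q 0 • y + lv 1 (q 1) := by
      rw [add_assoc, ← lv_add]
      simp
    rw [h2] at h1
    exact congrArg Neg.neg h1
  have hf2 : ∀ q : Fin 2 → ℝ, f ((2 : Fin 3).insertNth 1 q) 2 =
      f ((2 : Fin 3).insertNth 0 q) 2 := fun q => by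
    change pm Φ b y e1 (Z _) = pm Φ b y e1 (Z _)
    rw [hZ, hZ]
    have h1 := pm_per hper b y e1 (q 0 • y + lv (q 1) 0) 0 1
    have h2 : q 0 • y + lv (q 1) 0 + lv ((0 : ℤ) : ℝ) ((1 : ℤ) : ℝ) =
        q 0 • y + lv (q 1) 1 := by
      rw [add_assoc, ← lv_add]
      simp
    rw [h2] at h1
    exact h1
  have k0 : ∀ a : ℝ, (∫ q : Fin 2 → ℝ in Icc 0 1, f ((0 : Fin 3).insertNth a q) 0) =
      ∫ q : Fin 2 → ℝ in Icc 0 1, pm Φ b e1 e2 (a • y + lv (q 0) (q 1)) := fun a => by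
    simp only [hf0]
  rw [torI_slice_eq h, torI_slice_eq h]
  simp only [face, Pi.one_apply, Pi.zero_apply, hf1, hf2, hf0, sub_self, add_zero, one_smul,
    zero_smul] at key
  linarith

end Tor

end

end Crest.Agent.R235.TorLTa_348
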