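import Crest.Agent.R235.TorDefs_225
import Crest.Agent.R235.Ip_288
import Crest.Agent.R235.Ip2_288
import Crest.Agent.R235.SwcDefs_215
import Crest.Agent.R235.AdjET2_61
import Crest.Agent.R235.Sph0_464
import Crest.Agent.R235.Pull_153
import Crest.Agent.R281.Mc2_673
import Crest.Agent.R281.Mc5_673
import Crest.Agent.R235.TorFamDefs_384
import Crest.Agent.R235.NoZeroT_504
import Crest.Agent.R235.TorLF_348
import Crest.Agent.R235.TorLTa_348
import Mathlib
import Crest.Agent.R235.AdjGen_83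
import Crest.Agent.R240.IntTop
import Crest.Agent.R240.NrmM

-- ▼ part R235/Tor2_225
section

/-!
Row 235 (S0364), PACKAGE TOR (helper225): `LOCTUBE, INTT, TORLIM ⇒ ATLAS` (globalisation), and
`TORUSR, ATLAS, COFRAME, FLATC ⇒ TORR`.
-/

set_option autoImplicit false
set_option maxSynthPendingDepth 3

open Set Function Filter MeasureTheory
open scoped Manifold ContDiff Topology

universe u

namespace Crest.Agent.R235.Tor2_225

open Crest.Agent.R240 Crest.Agent.R240.Ch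

noncomputable section

section Open

variable {M : Type u} [TopologicalSpace M] [ChartedSpace E4 M] [IsManifold 𝓘(ℝ, E4) ∞ M]

/-- an immersion `E4 → M` is open. -/
theorem map_nhds {Φ : E4 → M} (hs : ContMDiff 𝓘(ℝ, E4) 𝓘(ℝ, E4) ∞ Φ) {y : E4}
    (hi : ∀ v : E4, dmap Φ y v = 0 → v = 0) : map Φ (𝓝 y) = 𝓝 (Φ y) := by
  set F : E4 → E4 := fun z => chartAt E4 (Φ y) (Φ z) with hF
  have hsrc : ∀ᶠ z in 𝓝 y, Φ z ∈ (chartAt E4 (Φ y)).source :=
    hs.continuous.continuousAt ((chartAt E4 (Φ y)).open_source.mem_nhds (mem_chart_source E4 (Φ y)))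
  have hc : ContMDiffAt 𝓘(ℝ, E4) 𝓘(ℝ, E4) ∞ F y :=
    ((contMDiffOn_chart (I := 𝓘(ℝ, E4)) (n := ∞) (x := Φ y)).contMDiffAt
      ((chartAt E4 (Φ y)).open_source.mem_nhds (mem_chart_source E4 (Φ y)))).comp y (hs y)
  have hcd : ContDiffAt ℝ ∞ F y := hc.contDiffAt
  have hst : HasStrictFDerivAt F (fderiv ℝ F y) y := hcd.hasStrictFDerivAt (by simp)
  have hinj : Function.Injective (fderiv ℝ F y) := by
    intro u v huv
    have h0 : fderiv ℝ F y (u - v) = 0 := by rw [map_sub, huv, sub_self]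
    exact sub_eq_zero.1 (hi _ h0)
  have hsurj : (fderiv ℝ F y : E4 →L[ℝ] E4).range = ⊤ :=
    LinearMap.range_eq_top.2 (LinearMap.injective_iff_surjective.1 hinj)
  have h1 : map F (𝓝 y) = 𝓝 (F y) := hst.map_nhds_eq_of_surj hsurj
  have h2 : Φ =ᶠ[𝓝 y] fun z => (chartAt E4 (Φ y)).symm (F z) := by
    filter_upwards [hsrc] with z hz
    exact ((chartAt E4 (Φ y)).left_inv hz).symm
  have h3 : map (chartAt E4 (Φ y)).symm (𝓝 (F y)) = 𝓝 (Φ y) := by
    have := (chartAt E4 (Φ y)).symm.map_nhds_eq (x := F y)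
      ((chartAt E4 (Φ y)).map_source (mem_chart_source E4 (Φ y)))
    rw [this]
    congr 1
    exact (chartAt E4 (Φ y)).left_inv (mem_chart_source E4 (Φ y))
  calc map Φ (𝓝 y) = map (fun z => (chartAt E4 (Φ y)).symm (F z)) (𝓝 y) := map_congr h2
    _ = map (chartAt E4 (Φ y)).symm (map F (𝓝 y)) := (map_map).symm
    _ = 𝓝 (Φ y) := by rw [h1, h3]

theorem isOpenMap {Φ : E4 → M} (hs : ContMDiff 𝓘(ℝ, E4) 𝓘(ℝ, E4) ∞ Φ)
    (hi : ∀ y v : E4, dmap Φ y v = 0 → v = 0) : IsOpenMap Φ :=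
  isOpenMap_iff_nhds_le.2 fun y => (map_nhds hs (hi y)).ge

end Open

section TubeLemmas

variable {M : Type u} [TopologicalSpace M] [T2Space M] [CompactSpace M]
  [ChartedSpace E4 M] [IsManifold 𝓘(ℝ, E4) ∞ M]

omit [TopologicalSpace M] [T2Space M] [CompactSpace M] [ChartedSpace E4 M]
  [IsManifold 𝓘(ℝ, E4) ∞ M] in
theorem slice_translate (Φ : E4 → M) (a y : E4) :
    slice (fun z => Φ (z + a)) y = slice Φ (y + a) := by
  funext q
  simp only [slice]
  congr 1
  abel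

theorem tube_translate {w : Trip M} {f : H2 M} {Φ : E4 → M} (h : Tube w f Φ) (a : E4) :
    Tube w f (fun z => Φ (z + a)) where
  smooth := h.smooth.comp (contDiff_id.add contDiff_const).contMDiff
  per := fun y m n => by
    have := h.per (y + a) m n
    rw [← this]
    congr 1
    abel
  inj := fun y z hyz => by
    obtain ⟨m, n, e⟩ := h.inj (y + a) (z + a) hyz
    refine ⟨m, n, ?_⟩
    have : z = y + a + lv m n - a := by rw [← e]; abel
    rw [this]; abel
  imm := fun y v hv => by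
    apply h.imm (y + a) v
    rw [← hv]
    simp only [dmap]
    have h1 := fderiv_comp_add_right (𝕜 := ℝ)
      (f := fun z : E4 => chartAt E4 (Φ (y + a)) (Φ z)) (x := y) a
    exact (congrArg (fun L : E4 →L[ℝ] E4 => L v) h1).symm
  leaf := fun y => by
    rw [slice_translate]
    exact h.leaf (y + a)

omit [TopologicalSpace M] [T2Space M] [CompactSpace M] [ChartedSpace E4 M]
  [IsManifold 𝓘(ℝ, E4) ∞ M] in
theorem mem_slice (Φ : E4 → M) (y : E4) : Φ y ∈ range (slice Φ y) := by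
  refine ⟨0, ?_⟩
  simp only [slice]
  congr 1
  have : lv ((0 : Ep) 0) ((0 : Ep) 1) = 0 := by
    ext i
    fin_cases i <;> simp [lv]
  rw [this, add_zero]

theorem tube_pts {w : Trip M} {f : H2 M} {Φ : E4 → M} (h : Tube w f Φ) (y : E4) :
    Φ y ∈ TorPts w f := ⟨_, h.leaf y, mem_slice Φ y⟩

theorem tube_open {w : Trip M} {f : H2 M} {Φ : E4 → M} (h : Tube w f Φ) :
    IsOpen (range Φ) := (isOpenMap h.smooth h.imm).isOpen_range

end TubeLemmas

/-- a torus point has a tube centred at it. -/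
theorem exists_tube (hL : LOCTUBE.{u}) {M : Type u} [TopologicalSpace M] [T2Space M]
    [CompactSpace M] [ConnectedSpace M] [ChartedSpace E4 M] [IsManifold 𝓘(ℝ, E4) ∞ M]
    {w : Trip M} (hw : Pos3 w) {f : H2 M} {x : M} (hx : x ∈ TorPts w f) :
    ∃ Φ : E4 → M, Tube w f Φ ∧ Φ 0 = x := by
  obtain ⟨σ, hσ, q, rfl⟩ := hx
  obtain ⟨Φ, hΦ, he⟩ := hL M w hw f σ hσ
  exact ⟨_, tube_translate hΦ (lv (q 0) (q 1)), by simpa using he q⟩

/-- globalisation (B2). -/
theorem atlas_of (hL : LOCTUBE.{u}) (hI : INTT.{u}) (hC : TORLIM.{u}) : ATLAS.{u} := by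
  intro M _ _ _ _ _ _ w e hw hT he k hk hne
  have hV : Int.Vol ((w 0).1.1 : F2 E4 M) := hw.vol 0
  have hz : ∀ k k' : ℕ, ip (w 0) ((k : ℝ) • e) ((k' : ℝ) • e) ≤ 0 := fun k k' => by
    rw [ip_smul_left hV, ip_smul_right hV, he.iso]
    simp
  have hopen : IsOpen (TorPts w ((k : ℝ) • e)) := by
    rw [isOpen_iff_mem_nhds]
    intro x hx
    obtain ⟨Φ, hΦ, h0⟩ := exists_tube hL hw hx
    refine mem_of_superset ((tube_open hΦ).mem_nhds ⟨0, h0⟩) ?_
    rintro _ ⟨y, rfl⟩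
    exact tube_pts hΦ y
  have hclosed : IsClosed (TorPts w ((k : ℝ) • e)) := by
    refine isClosed_of_closure_subset fun x hx => ?_
    obtain ⟨k', hk', hx'⟩ := hC M w e hw hT he _ x hx
    obtain ⟨Φ, hΦ, h0⟩ := exists_tube hL hw hx'
    obtain ⟨_, ⟨y, rfl⟩, σ, hσ, hz'⟩ :=
      mem_closure_iff_nhds.1 hx _ ((tube_open hΦ).mem_nhds ⟨0, h0⟩)
    have h1 := (hI M w hw _ _ σ (slice Φ y) hσ (hΦ.leaf y) (hz k k') ⟨_, hz', mem_slice Φ y⟩).2
    rw [h1]
    exact hx'
  have huniv : TorPts w ((k : ℝ) • e) = univ := IsClopen.eq_univ ⟨hclosed, hopen⟩ hne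
  refine ⟨{Φ | Tube w ((k : ℝ) • e) Φ}, ⟨fun Φ h => h, fun x => ?_, ?_⟩⟩
  · have hx : x ∈ TorPts w ((k : ℝ) • e) := by rw [huniv]; trivial
    exact exists_tube hL hw hx
  · intro Φ hΦ Ψ hΨ y z hyz
    refine (hI M w hw _ _ (slice Φ y) (slice Ψ z) (Tube.leaf hΦ y) (Tube.leaf hΨ z)
      (hz k k) ⟨Φ y, mem_slice Φ y, ?_⟩).1
    rw [hyz]
    exact mem_slice Ψ z

/-- the variant with `TORUSX`. -/
theorem torlim_of (hX : TORUSX.{u}) : TORLIM.{u} :=
  fun M _ _ _ _ _ _ w e hw hT he _ x _ => hX M w e hw hT he x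

/-- the package output. -/
theorem torr_of (hTorus : TORUSR.{u}) (hA : ATLAS.{u}) (hC : COFRAME.{u}) (hF : FLATC.{u}) :
    TORR.{u} := by
  intro M _ _ _ _ _ _ w e hw hT he
  obtain ⟨k, hk, hσ⟩ := hTorus M w e hw hT he
  obtain ⟨T, hTA⟩ := hA M w e hw hT he k hk hσ
  obtain ⟨l, a, hla⟩ := hC M w _ hw hT T hTA
  obtain ⟨w1, w', h1, h2, h3, -⟩ := hF M w hw l a hla
  exact ⟨w', h1.pl.trans h2.pl, h3⟩

end

end Crest.Agent.R235.Tor2_225
end

-- ▼ part R235/Swc1_215
section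

/-!
Row 235 (S0364), PACKAGE SWC (helper215): `RSEC, ADJ ⇒ JTOR`; `SWCUR, T2S, JINT, JTOR, CLS, EXJ ⇒
TORUSR`; `LIMT, T2S, JINT, JTOR, CPOS, CLS, EXJ ⇒ TORLIM`.
-/

set_option autoImplicit false
set_option maxSynthPendingDepth 3
set_option linter.unusedSectionVars false
set_option linter.style.haveILetI false

open Set Function Filter MeasureTheory Metric
open scoped Manifold ContDiff Topology

universe u

namespace Crest.Agent.R235.Swc

open Crest.Agent.R240 Crest.Agent.R240.Ch Crest.Agent.R235 Crest.Agent.R235.Glob_370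

noncomputable section

section Basic

variable {M : Type u} [TopologicalSpace M] [T2Space M] [CompactSpace M]
  [ChartedSpace E4 M] [IsManifold 𝓘(ℝ, E4) ∞ M]

/-- currents of type (1,1) kill the pair. -/
theorem pcur_pair1 {w : Trip M} {J : EndF E4 M} (hJ : IsJ w J) {S : X2 M →ₗ[ℝ] ℝ}
    (hS : PCur J S) : S (w 1).1 = 0 := by
  rw [hS.inv (w 1).1 0 ?_, map_zero]
  intro x
  ext u v
  have h := hJ.anti1 x u v
  simp only [invp_apply]
  show (val (w 1) x u v + val (w 1) x (atJ J x u) (atJ J x v)) / 2 = (0 : ℝ)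
  rw [h]; ring

theorem pcur_pair2 {w : Trip M} {J : EndF E4 M} (hJ : IsJ w J) {S : X2 M →ₗ[ℝ] ℝ}
    (hS : PCur J S) : S (w 2).1 = 0 := by
  rw [hS.inv (w 2).1 0 ?_, map_zero]
  intro x
  ext u v
  have h := hJ.anti2 x u v
  simp only [invp_apply]
  show (val (w 2) x u v + val (w 2) x (atJ J x u) (atJ J x v)) / 2 = (0 : ℝ)
  rw [h]; ring

end Basic

/-- **JTOR** from the section theorem and adjunction. -/
theorem jtor_of (hR : Adj.RSEC.{u}) (hA : Adj.ADJ.{u}) : JTOR.{u} := by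
  intro M _ _ _ _ _ _ w J hw hJ hT c s hs h0 hpos
  have hV : Int.Vol ((w 0).1.1 : F2 E4 M) := hw.vol 0
  obtain ⟨k, hk⟩ := hR c.N c.A
  obtain ⟨hle, hemb⟩ := hA M w J hw hJ c s hs k
  rcases hk with ⟨hsph, -⟩ | ⟨htor, hZ⟩ | h1
  · exfalso
    obtain ⟨⟨t, ht, -, a, ha, -, -, hspan⟩, -⟩ := hT
    have hz : ∀ i j, ip (w 0) s (cls (a i j)) = 0 := fun i j => by
      rw [← hs]
      exact Sph0_464.sph0 c hsph (ht i) (ht j) _ (ha i j)
    have hall : ∀ d : H2 M, ip (w 0) s d = 0 := by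
      intro d
      obtain ⟨n, rfl⟩ := hspan d
      rw [ip_sum_right hV]
      refine Finset.sum_eq_zero fun i _ => ?_
      rw [ip_sum_right hV]
      refine Finset.sum_eq_zero fun j _ => ?_
      rw [ip_smul_right hV, hz, mul_zero]
    rw [hall] at hpos
    exact lt_irrefl _ hpos
  · have hd : k.deg = 0 := by
      unfold Adj.KSec.deg
      rw [hZ, Finset.sum_empty]
    exact AdjET_61.tor_jTor hJ c (hemb (by rw [h0, hd, Int.cast_zero])) htor s hs
  · rw [h0] at hle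
    have : (1 : ℝ) ≤ (k.deg : ℝ) := by exact_mod_cast h1
    linarith

section Main

variable {M : Type u} [TopologicalSpace M] [T2Space M] [CompactSpace M] [ConnectedSpace M]
  [ChartedSpace E4 M] [IsManifold 𝓘(ℝ, E4) ∞ M]

/-- a `J`-curve of positive area, in elliptic position, is a torus of class `k e`. -/
theorem tor_of_curve (hI : JINT.{u}) (hTr : JTOR.{u}) (hC : CLS.{u}) {w : Trip M} {J : EndF E4 M}
    {e : H2 M} (hw : Pos3 w) (hJ : IsJ w J) (hT : T4R (w 0)) (he : TorPos (w 0) e (clw w))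
    (c : JCurve J) (hc : 0 < c.T (w 0).1) :
    ∃ k : ℕ, 0 < k ∧ range c.f ⊆ TorPts w ((k : ℝ) • e) ∧ (range c.f).Nonempty := by
  have hV : Int.Vol ((w 0).1.1 : F2 E4 M) := hw.vol 0
  obtain ⟨s, hs⟩ := hC M w J hw hJ c.T c.pcur
  have hsZ := hI M w J hw hJ c s hs
  have h1 : ip (w 0) s (cls (w 1)) = 0 := by rw [← hs]; exact pcur_pair1 hJ c.pcur
  have h2 : ip (w 0) s (cls (w 2)) = 0 := by rw [← hs]; exact pcur_pair2 hJ c.pcur
  have h0 : 0 < ip (w 0) s (cls (w 0)) := by rw [← hs]; exact hc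
  obtain ⟨n, hn⟩ := he.only s hsZ h1 h2
  have hpos : 0 < ip (w 0) e (cls (w 0)) := he.pos
  have hn0 : 0 < n := by
    rw [hn, ip_smul_left hV] at h0
    have : (0 : ℝ) < n := by
      by_contra hcon
      exact absurd h0 (not_lt.2 (mul_nonpos_of_nonpos_of_nonneg (not_lt.1 hcon) hpos.le))
    exact_mod_cast this
  have hss : ip (w 0) s s = 0 := by
    rw [hn, ip_smul_left hV, ip_smul_right hV, he.iso]; ring
  obtain ⟨σ, hσ, hr⟩ := hTr M w J hw hJ hT c s hs hss h0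
  have hk : ((n.toNat : ℕ) : ℝ) = (n : ℝ) := by
    have : ((n.toNat : ℤ) : ℝ) = (n : ℝ) := by rw [Int.toNat_of_nonneg hn0.le]
    exact_mod_cast this
  refine ⟨n.toNat, by omega, ?_, ?_⟩
  · rintro x hx
    refine ⟨σ, ?_, by rw [hr]; exact hx⟩
    rw [hk, ← hn]
    exact hσ
  · rw [← hr]
    exact range_nonempty σ

end Main

/-- **TORUSR**. -/
theorem torusr_of (hS : SWCUR.{u}) (h2 : T2S.{u}) (hI : JINT.{u}) (hTr : JTOR.{u}) (hC : CLS.{u})
    (hE : EXJ.{u}) : TORUSR.{u} := by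
  intro M tM _ _ _ _ _ w e hw hT he
  obtain ⟨m, hm, hb⟩ := Met.exists_metric (E := E4) (M := M)
  subst hm
  letI : MeasurableSpace M := borel M
  haveI : BorelSpace M := ⟨rfl⟩
  obtain ⟨J, hJ⟩ := hE M w hw
  obtain ⟨D, hD1, hD2⟩ := T1A_195.exists_bridge hb hJ
  subst hD1
  obtain ⟨S, s, hcur, hcl, hlow⟩ := hS M D w hw hJ hD2 hT e he.int he.iso he.perp1 he.perp2 he.pos
  obtain ⟨k, c, a, ha, hSum, -⟩ := h2 M D w hw hJ hD2 S s hcur hlow
  have hpos : 0 < S (w 0).1 := by rw [hcl]; exact he.pos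
  obtain ⟨i, hi⟩ : ∃ i, 0 < (c i).T (w 0).1 := by
    by_contra hcon
    push Not at hcon
    have : S (w 0).1 ≤ 0 := by
      rw [hSum, LinearMap.sum_apply]
      refine Finset.sum_nonpos fun i _ => ?_
      rw [LinearMap.smul_apply, smul_eq_mul]
      exact mul_nonpos_of_nonneg_of_nonpos (ha i).le (hcon i)
    linarith
  obtain ⟨k, hk, hsub, hne⟩ := tor_of_curve hI hTr hC hw hJ hT he (c i) hi
  exact ⟨k, hk, hne.mono hsub⟩

/-- **TORLIM**. -/
theorem torlim_of (hL : LIMT.{u}) (h2 : T2S.{u}) (hI : JINT.{u}) (hTr : JTOR.{u}) (hP : CPOS.{u})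
    (hC : CLS.{u}) (hE : EXJ.{u}) : TORLIM.{u} := by
  intro M tM _ _ _ _ _ w e hw hT he f x hx
  obtain ⟨m, hm, hb⟩ := Met.exists_metric (E := E4) (M := M)
  subst hm
  letI : MeasurableSpace M := borel M
  haveI : BorelSpace M := ⟨rfl⟩
  obtain ⟨J, hJ⟩ := hE M w hw
  obtain ⟨D, hD1, hD2⟩ := T1A_195.exists_bridge hb hJ
  subst hD1
  obtain ⟨S, s, hcur, -, hlow, hsup⟩ := hL M D w hw hJ hD2 f x hx
  obtain ⟨k, c, a, ha, -, hcov⟩ := h2 M D w hw hJ hD2 S s hcur hlow
  obtain ⟨i, hi⟩ := hcov x hsup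
  obtain ⟨k, hk, hsub, -⟩ := tor_of_curve hI hTr hC hw hJ hT he (c i) (hP M w D.J hw hJ (c i))
  exact ⟨k, hk, hsub hi⟩

end

end Crest.Agent.R235.Swc
end

-- ▼ part R235/Spray_153
section

/-!
# Row 235, TOR / FIB-B1 (helper153): sprays

`exists_spray` : on a compact manifold `M` there are `n` and `F : M → ℝⁿ → M`, smooth near the zero
section, `F x 0 = x`, with `D_v F (x, 0)` onto for every `x`.
-/

set_option autoImplicit false
set_option maxSynthPendingDepth 3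

open Set Function Filter Metric
open scoped Manifold ContDiff Topology

universe u

namespace Crest.Agent.R235.Spray_153

open Crest.Agent.R240 Crest.Agent.R240.Ch Crest.Agent.R235.Pull_153

noncomputable section

variable {M : Type u} [TopologicalSpace M] [ChartedSpace E4 M]

/-- a spray over `K` -/
structure IsSpr {V : Type} [NormedAddCommGroup V] [NormedSpace ℝ V] (F : M → V → M) (r : ℝ)
    (K : Set M) : Prop where
  pos : 0 < r
  zero : ∀ x, F x 0 = x
  smooth : ∀ (x : M) (v : V), ‖v‖ < r →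
    ContMDiffAt (𝓘(ℝ, E4).prod 𝓘(ℝ, V)) 𝓘(ℝ, E4) ∞ (fun q : M × V => F q.1 q.2) (x, v)
  onto : ∀ x ∈ K, Surjective (Dm (F x) 0)

/-- there is a spray over `K` -/
def HasSpr (K : Set M) : Prop :=
  ∃ (V : Type) (_ : NormedAddCommGroup V) (_ : NormedSpace ℝ V) (_ : FiniteDimensional ℝ V)
    (F : M → V → M) (r : ℝ), IsSpr F r K

theorem IsSpr.mono {V : Type} [NormedAddCommGroup V] [NormedSpace ℝ V] {F : M → V → M} {r : ℝ}
    {K K' : Set M} (h : IsSpr F r K') (hK : K ⊆ K') : IsSpr F r K :=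
  ⟨h.pos, h.zero, h.smooth, fun x hx => h.onto x (hK hx)⟩

theorem IsSpr.smooth1 {V : Type} [NormedAddCommGroup V] [NormedSpace ℝ V] {F : M → V → M} {r : ℝ}
    {K : Set M} (h : IsSpr F r K) (x : M) {v : V} (hv : ‖v‖ < r) :
    ContMDiffAt 𝓘(ℝ, V) 𝓘(ℝ, E4) ∞ (F x) v :=
  ContMDiffAt.comp v (g := fun q : M × V => F q.1 q.2) (f := fun v : V => (x, v))
    (h.smooth x v hv) (contMDiffAt_const.prodMk contMDiffAt_id)

/-- change of the parameter space -/
theorem IsSpr.equiv {V V' : Type} [NormedAddCommGroup V] [NormedSpace ℝ V]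
    [NormedAddCommGroup V'] [NormedSpace ℝ V'] [IsManifold 𝓘(ℝ, E4) ∞ M] {F : M → V → M} {r : ℝ}
    {K : Set M} (h : IsSpr F r K) (e : V' ≃L[ℝ] V) :
    ∃ r' : ℝ, IsSpr (fun x v => F x (e v)) r' K := by
  have hc : 0 < ‖(e : V' →L[ℝ] V)‖ + 1 := by positivity
  have hlt : ∀ v : V', ‖v‖ < r / (‖(e : V' →L[ℝ] V)‖ + 1) → ‖e v‖ < r := by
    intro v hv
    rw [lt_div_iff₀ hc] at hv
    calc ‖e v‖ ≤ ‖(e : V' →L[ℝ] V)‖ * ‖v‖ := (e : V' →L[ℝ] V).le_opNorm v
      _ ≤ ‖v‖ * (‖(e : V' →L[ℝ] V)‖ + 1) := by nlinarith [norm_nonneg v]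
      _ < r := hv
  refine ⟨r / (‖(e : V' →L[ℝ] V)‖ + 1), div_pos h.pos hc, fun x => by simp [h.zero],
    fun x v hv => ?_, fun x hx => ?_⟩
  · have h1 := h.smooth x (e v) (hlt v hv)
    refine ContMDiffAt.comp (x, v) (g := fun q : M × V => F q.1 q.2)
      (f := fun q : M × V' => (q.1, e q.2)) h1 ?_
    refine contMDiffAt_fst.prodMk ?_
    exact ContMDiffAt.comp (x, v) (g := fun v : V' => e v) (f := fun q : M × V' => q.2)
      (e.contDiff.contMDiff.contMDiffAt) contMDiffAt_snd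
  · have h1 : ContMDiffAt 𝓘(ℝ, V) 𝓘(ℝ, E4) 1 (F x) (e 0) := by
      rw [map_zero]
      exact (h.smooth1 x (by simpa using h.pos)).of_le (by simp)
    have h2 := Dm_comp (σ := F x) (g := fun v : V' => e v) (y := 0) h1
      e.differentiableAt
    have h3 : Dm (fun v => F x (e v)) 0 = (Dm (F x) 0).comp (e : V' →L[ℝ] V) := by
      have h4 : fderiv ℝ (fun v : V' => e v) 0 = (e : V' →L[ℝ] V) := e.fderiv
      rw [h4, map_zero] at h2
      exact h2
    rw [h3]
    exact (h.onto x hx).comp e.surjective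

section Chart

variable [T2Space M] [IsManifold 𝓘(ℝ, E4) ∞ M]

open Classical in
/-- the one-chart spray -/
def F1c (p : M) (θ : E4 → ℝ) (x : M) (v : E4) : M :=
  if x ∈ (chartAt E4 p).source then (chartAt E4 p).symm (chartAt E4 p x + θ (chartAt E4 p x) • v)
  else x

theorem local_spray (p : M) : ∃ U ∈ 𝓝 p, HasSpr U := by
  classical
  set φ := chartAt E4 p with hφ
  have hp : p ∈ φ.source := mem_chart_source E4 p
  have ht : φ.target ∈ 𝓝 (φ p) := φ.open_target.mem_nhds (φ.map_source hp)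
  obtain ⟨δ, hδ, hsub⟩ := Metric.mem_nhds_iff.1 ht
  set ρ := δ / 4 with hρ
  have hρ0 : 0 < ρ := by positivity
  let b : ContDiffBump (φ p) := ⟨ρ / 2, ρ, by positivity, by linarith⟩
  have hb0 : ∀ y, y ∉ ball (φ p) ρ → b y = 0 := by
    intro y hy
    have h1 : y ∉ support b := by rw [b.support_eq]; exact hy
    simpa using h1
  have hb1 : ∀ y, y ∈ closedBall (φ p) (ρ / 2) → b y = 1 := fun y hy => b.one_of_mem_closedBall hy
  -- the moved point stays in the target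
  have hmem : ∀ y ∈ φ.target, ∀ v : E4, ‖v‖ < ρ → y + b y • v ∈ φ.target := by
    intro y hy v hv
    by_cases h : y ∈ ball (φ p) ρ
    · apply hsub
      rw [mem_ball, dist_eq_norm]
      have h1 : ‖y - φ p‖ < ρ := by rwa [mem_ball, dist_eq_norm] at h
      have h2 : ‖b y • v‖ ≤ ‖v‖ := by
        rw [norm_smul, Real.norm_eq_abs, abs_of_nonneg b.nonneg]
        exact mul_le_of_le_one_left (norm_nonneg _) b.le_one
      calc ‖y + b y • v - φ p‖ = ‖(y - φ p) + b y • v‖ := by congr 1; abel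
        _ ≤ ‖y - φ p‖ + ‖b y • v‖ := norm_add_le _ _
        _ < δ := by linarith
    · rw [hb0 y h, zero_smul, add_zero]; exact hy
  -- the compact set off which nothing moves
  have hcb : closedBall (φ p) ρ ⊆ φ.target :=
    (closedBall_subset_ball (by linarith)).trans hsub
  have hK : IsClosed (φ.symm '' closedBall (φ p) ρ) :=
    ((isCompact_closedBall (φ p) ρ).image_of_continuousOn
      (φ.continuousOn_symm.mono hcb)).isClosed
  have hoff : ∀ x, x ∉ φ.symm '' closedBall (φ p) ρ → ∀ v, F1c p b x v = x := by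
    intro x hx v
    unfold F1c
    split_ifs with h
    · have h1 : φ x ∉ ball (φ p) ρ := fun h2 =>
        hx ⟨φ x, ball_subset_closedBall h2, φ.left_inv h⟩
      rw [hb0 _ h1, zero_smul, add_zero]
      exact φ.left_inv h
    · rfl
  refine ⟨φ.source ∩ φ ⁻¹' ball (φ p) (ρ / 2), ?_, E4, inferInstance, inferInstance,
    inferInstance, F1c p b, ρ, hρ0, fun x => ?_, fun x v hv => ?_, fun x hx => ?_⟩
  · have h1 : φ ⁻¹' ball (φ p) (ρ / 2) ∈ 𝓝 p :=
      (φ.continuousAt hp).preimage_mem_nhds (ball_mem_nhds _ (by positivity))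
    exact inter_mem (φ.open_source.mem_nhds hp) h1
  · unfold F1c
    split_ifs with h
    · rw [smul_zero, add_zero]
      exact φ.left_inv h
    · rfl
  · by_cases h : x ∈ φ.source
    · have hev : (fun q : M × E4 => F1c p b q.1 q.2) =ᶠ[𝓝 (x, v)]
          fun q => φ.symm (φ q.1 + b (φ q.1) • q.2) := by
        have h1 : ∀ᶠ q : M × E4 in 𝓝 (x, v), q.1 ∈ φ.source :=
          (continuous_fst.tendsto (x, v)).eventually (φ.open_source.mem_nhds h)
        filter_upwards [h1] with q hq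
        exact if_pos hq
      refine ContMDiffAt.congr_of_eventuallyEq ?_ hev
      have hs : ContMDiffAt 𝓘(ℝ, E4) 𝓘(ℝ, E4) ∞ φ.symm (φ x + b (φ x) • v) :=
        (contMDiffOn_chart_symm (I := 𝓘(ℝ, E4)) (x := p)).contMDiffAt
          (φ.open_target.mem_nhds (hmem _ (φ.map_source h) v hv))
      have hc : ContMDiffAt 𝓘(ℝ, E4) 𝓘(ℝ, E4) ∞ φ x :=
        (contMDiffOn_chart (I := 𝓘(ℝ, E4)) (x := p)).contMDiffAt (φ.open_source.mem_nhds h)
      have hc1 : ContMDiffAt (𝓘(ℝ, E4).prod 𝓘(ℝ, E4)) 𝓘(ℝ, E4) ∞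
          (fun q : M × E4 => φ q.1) (x, v) :=
        ContMDiffAt.comp (x, v) (g := φ) (f := fun q : M × E4 => q.1) hc contMDiffAt_fst
      have hb : ContMDiffAt (𝓘(ℝ, E4).prod 𝓘(ℝ, E4)) 𝓘(ℝ, ℝ) ∞
          (fun q : M × E4 => b (φ q.1)) (x, v) :=
        ContMDiffAt.comp (x, v) (g := b) (f := fun q : M × E4 => φ q.1)
          (b.contDiff.contMDiff.contMDiffAt) hc1
      have hg : ContMDiffAt (𝓘(ℝ, E4).prod 𝓘(ℝ, E4)) 𝓘(ℝ, E4) ∞
          (fun q : M × E4 => φ q.1 + b (φ q.1) • q.2) (x, v) :=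
        hc1.add (hb.smul contMDiffAt_snd)
      exact ContMDiffAt.comp (x, v) (g := φ.symm)
        (f := fun q : M × E4 => φ q.1 + b (φ q.1) • q.2) hs hg
    · have hx : x ∉ φ.symm '' closedBall (φ p) ρ := by
        rintro ⟨y, hy, rfl⟩
        exact h (φ.map_target (hcb hy))
      have hev : (fun q : M × E4 => F1c p b q.1 q.2) =ᶠ[𝓝 (x, v)] fun q => q.1 := by
        have h1 : ∀ᶠ q : M × E4 in 𝓝 (x, v), q.1 ∉ φ.symm '' closedBall (φ p) ρ :=
          (continuous_fst.tendsto (x, v)).eventually (hK.isOpen_compl.mem_nhds hx)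
        filter_upwards [h1] with q hq
        exact hoff _ hq _
      exact contMDiffAt_fst.congr_of_eventuallyEq hev
  · -- surjectivity
    have hxs : x ∈ (chartAt E4 p).source := hx.1
    have hb : b (φ x) = 1 := hb1 _ (ball_subset_closedBall hx.2)
    have h0 : F1c p b x 0 = x := by
      unfold F1c
      rw [if_pos hx.1, smul_zero, add_zero]
      exact φ.left_inv hx.1
    have hFx : ∀ v, F1c p b x v = φ.symm (φ x + v) := by
      intro v
      unfold F1c
      rw [if_pos hx.1, hb, one_smul]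
    have hs : ContMDiffAt 𝓘(ℝ, E4) 𝓘(ℝ, E4) 1 (F1c p b x) 0 := by
      have h1 : (F1c p b x) = φ.symm ∘ fun v => φ x + v := funext hFx
      rw [h1]
      have h2 : ContMDiffAt 𝓘(ℝ, E4) 𝓘(ℝ, E4) 1 φ.symm (φ x + 0) := by
        rw [add_zero]
        exact ((contMDiffOn_chart_symm (I := 𝓘(ℝ, E4)) (n := ∞) (x := p)).contMDiffAt
          (φ.open_target.mem_nhds (φ.map_source hx.1))).of_le (by simp)
      refine ContMDiffAt.comp (0 : E4) (g := φ.symm) (f := fun v => φ x + v) h2 ?_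
      exact (contDiff_const.add contDiff_id).contMDiff.contMDiffAt
    have h1 := fderiv_chart (σ := F1c p b x) (y := 0) hs (p := p) (by rw [h0]; exact hx.1)
    have h2 : (fun v => chartAt E4 p (F1c p b x v)) =ᶠ[𝓝 0] fun v => φ x + v := by
      have h3 : ∀ᶠ v : E4 in 𝓝 0, φ x + v ∈ φ.target := by
        have h4 : ContinuousAt (fun v : E4 => φ x + v) 0 := by fun_prop
        apply h4.preimage_mem_nhds
        rw [add_zero]
        exact φ.open_target.mem_nhds (φ.map_source hx.1)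
      filter_upwards [h3] with v hv
      rw [hFx]
      exact φ.right_inv hv
    have h5 : fderiv ℝ (fun v => chartAt E4 p (F1c p b x v)) 0 = ContinuousLinearMap.id ℝ E4 := by
      rw [h2.fderiv_eq, fderiv_const_add]
      exact fderiv_fun_id
    rw [h5, h0] at h1
    intro w
    refine ⟨tcc x p x w, tcc_inj hxs ?_⟩
    have h6 := congrArg (fun L : E4 →L[ℝ] E4 => L (tcc x p x w)) h1
    simpa using h6.symm

end Chart

/-- the composition of two sprays -/
theorem IsSpr.union [IsManifold 𝓘(ℝ, E4) ∞ M] {V₁ V₂ : Type} [NormedAddCommGroup V₁]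
    [NormedSpace ℝ V₁] [NormedAddCommGroup V₂] [NormedSpace ℝ V₂] {F₁ : M → V₁ → M}
    {F₂ : M → V₂ → M} {r₁ r₂ : ℝ} {K₁ K₂ : Set M} (h₁ : IsSpr F₁ r₁ K₁) (h₂ : IsSpr F₂ r₂ K₂) :
    IsSpr (fun (x : M) (v : V₁ × V₂) => F₂ (F₁ x v.1) v.2) (min r₁ r₂) (K₁ ∪ K₂) := by
  have hsm : ∀ (x : M) (v : V₁ × V₂), ‖v‖ < min r₁ r₂ →
      ContMDiffAt (𝓘(ℝ, E4).prod 𝓘(ℝ, V₁ × V₂)) 𝓘(ℝ, E4) ∞
        (fun q : M × (V₁ × V₂) => F₂ (F₁ q.1 q.2.1) q.2.2) (x, v) := by
    intro x v hv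
    have hv1 : ‖v.1‖ < r₁ := (norm_fst_le v).trans_lt (hv.trans_le (min_le_left _ _))
    have hv2 : ‖v.2‖ < r₂ := (norm_snd_le v).trans_lt (hv.trans_le (min_le_right _ _))
    have e1 : ContMDiffAt (𝓘(ℝ, E4).prod 𝓘(ℝ, V₁ × V₂)) 𝓘(ℝ, V₁) ∞
        (fun q : M × (V₁ × V₂) => q.2.1) (x, v) :=
      ContMDiffAt.comp (x, v) (g := fun w : V₁ × V₂ => w.1) (f := fun q : M × (V₁ × V₂) => q.2)
        (contDiff_fst.contMDiff.contMDiffAt) contMDiffAt_snd
    have e2 : ContMDiffAt (𝓘(ℝ, E4).prod 𝓘(ℝ, V₁ × V₂)) 𝓘(ℝ, V₂) ∞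
        (fun q : M × (V₁ × V₂) => q.2.2) (x, v) :=
      ContMDiffAt.comp (x, v) (g := fun w : V₁ × V₂ => w.2) (f := fun q : M × (V₁ × V₂) => q.2)
        (contDiff_snd.contMDiff.contMDiffAt) contMDiffAt_snd
    have e3 : ContMDiffAt (𝓘(ℝ, E4).prod 𝓘(ℝ, V₁ × V₂)) 𝓘(ℝ, E4) ∞
        (fun q : M × (V₁ × V₂) => F₁ q.1 q.2.1) (x, v) :=
      ContMDiffAt.comp (x, v) (g := fun q : M × V₁ => F₁ q.1 q.2)
        (f := fun q : M × (V₁ × V₂) => (q.1, q.2.1)) (h₁.smooth x v.1 hv1)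
        (contMDiffAt_fst.prodMk e1)
    exact ContMDiffAt.comp (x, v) (g := fun q : M × V₂ => F₂ q.1 q.2)
        (f := fun q : M × (V₁ × V₂) => (F₁ q.1 q.2.1, q.2.2)) (h₂.smooth (F₁ x v.1) v.2 hv2)
        (e3.prodMk e2)
  have hpos : 0 < min r₁ r₂ := lt_min h₁.pos h₂.pos
  have hsm1 : ∀ x : M, ContMDiffAt 𝓘(ℝ, V₁ × V₂) 𝓘(ℝ, E4) 1
      (fun v : V₁ × V₂ => F₂ (F₁ x v.1) v.2) 0 := fun x =>
    (ContMDiffAt.comp (0 : V₁ × V₂) (g := fun q : M × (V₁ × V₂) => F₂ (F₁ q.1 q.2.1) q.2.2)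
      (f := fun v : V₁ × V₂ => (x, v)) (hsm x 0 (by simpa using hpos))
      (contMDiffAt_const.prodMk contMDiffAt_id)).of_le (by simp)
  refine ⟨hpos, fun x => ?_, hsm, fun x hx => ?_⟩
  · show F₂ (F₁ x (0 : V₁ × V₂).1) (0 : V₁ × V₂).2 = x
    rw [Prod.fst_zero, Prod.snd_zero, h₁.zero, h₂.zero]
  · rcases hx with hx | hx
    · have h1 : Dm (F₁ x) 0 = (Dm (fun v : V₁ × V₂ => F₂ (F₁ x v.1) v.2) 0).comp
          (ContinuousLinearMap.inl ℝ V₁ V₂) := by
        have h2 := Dm_comp (σ := fun v : V₁ × V₂ => F₂ (F₁ x v.1) v.2)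
          (g := fun v : V₁ => ContinuousLinearMap.inl ℝ V₁ V₂ v) (y := 0)
          (by rw [map_zero]; exact hsm1 x)
          (ContinuousLinearMap.inl ℝ V₁ V₂).differentiableAt
        have h3 : ((fun v : V₁ × V₂ => F₂ (F₁ x v.1) v.2) ∘
            fun v : V₁ => ContinuousLinearMap.inl ℝ V₁ V₂ v) = F₁ x := by
          funext v
          show F₂ (F₁ x v) 0 = F₁ x v
          exact h₂.zero _
        have h4 : fderiv ℝ (fun v : V₁ => ContinuousLinearMap.inl ℝ V₁ V₂ v) 0 =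
            ContinuousLinearMap.inl ℝ V₁ V₂ := (ContinuousLinearMap.inl ℝ V₁ V₂).fderiv
        rw [h3, h4, map_zero] at h2
        exact h2
      have h5 := h₁.onto x hx
      rw [h1] at h5
      intro w
      obtain ⟨v, hv⟩ := h5 w
      exact ⟨_, hv⟩
    · have h1 : Dm (F₂ x) 0 = (Dm (fun v : V₁ × V₂ => F₂ (F₁ x v.1) v.2) 0).comp
          (ContinuousLinearMap.inr ℝ V₁ V₂) := by
        have h2 := Dm_comp (σ := fun v : V₁ × V₂ => F₂ (F₁ x v.1) v.2)
          (g := fun v : V₂ => ContinuousLinearMap.inr ℝ V₁ V₂ v) (y := 0)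
          (by rw [map_zero]; exact hsm1 x)
          (ContinuousLinearMap.inr ℝ V₁ V₂).differentiableAt
        have h3 : ((fun v : V₁ × V₂ => F₂ (F₁ x v.1) v.2) ∘
            fun v : V₂ => ContinuousLinearMap.inr ℝ V₁ V₂ v) = F₂ x := by
          funext v
          show F₂ (F₁ x 0) v = F₂ x v
          rw [h₁.zero]
        have h4 : fderiv ℝ (fun v : V₂ => ContinuousLinearMap.inr ℝ V₁ V₂ v) 0 =
            ContinuousLinearMap.inr ℝ V₁ V₂ := (ContinuousLinearMap.inr ℝ V₁ V₂).fderiv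
        rw [h3, h4, map_zero] at h2
        exact h2
      have h5 := h₂.onto x hx
      rw [h1] at h5
      intro w
      obtain ⟨v, hv⟩ := h5 w
      exact ⟨_, hv⟩

/-- **sprays exist** -/
theorem exists_spray [T2Space M] [CompactSpace M] [IsManifold 𝓘(ℝ, E4) ∞ M] :
    ∃ (n : ℕ) (F : M → EuclideanSpace ℝ (Fin n) → M) (r : ℝ), IsSpr F r univ := by
  have h : HasSpr (univ : Set M) := by
    refine isCompact_univ.induction_on (p := HasSpr) ?_ ?_ ?_ ?_
    · refine ⟨ℝ, inferInstance, inferInstance, inferInstance, fun x _ => x, 1, one_pos,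
        fun _ => rfl, fun x v _ => contMDiffAt_fst, fun x hx => hx.elim⟩
    · rintro s t hst ⟨V, _, _, _, F, r, hF⟩
      exact ⟨V, inferInstance, inferInstance, inferInstance, F, r, hF.mono hst⟩
    · rintro s t ⟨V, _, _, _, F, r, hF⟩ ⟨V', _, _, _, F', r', hF'⟩
      exact ⟨V × V', inferInstance, inferInstance, inferInstance, _, _, hF.union hF'⟩
    · intro x _
      obtain ⟨U, hU, h⟩ := local_spray x
      exact ⟨U, mem_nhdsWithin_of_mem_nhds hU, h⟩
  obtain ⟨V, _, _, _, F, r, hF⟩ := h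
  have e : EuclideanSpace ℝ (Fin (Module.finrank ℝ V)) ≃L[ℝ] V :=
    ContinuousLinearEquiv.ofFinrankEq (by simp)
  obtain ⟨r', hr'⟩ := hF.equiv e
  exact ⟨_, _, r', hr'⟩

end

end Crest.Agent.R235.Spray_153
end

-- ▼ part R235/Tube_153
section

/-!
# Row 235, TOR / FIB-B1a (helper153): the normalised tube around a lagrangian torus

`exists_tube`: `EmbT s`, `Pos3 w`, `w 1`, `w 2` vanish on `s` ⇒ `∃ r T, TubeT w s r T`.
-/

set_option autoImplicit false
set_option maxSynthPendingDepth 3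

open Set Function Filter
open scoped Manifold ContDiff Topology

universe u

namespace Crest.Agent.R235.Tube_153

open Crest.Agent.R240 Crest.Agent.R240.Ch Crest.Agent.R235.Pull_153 Crest.Agent.R235.Spray_153
open Crest.Agent.R281.Mc673 (kv tube cube isCompact_cube exists_cube Per ClF isOpen_tube)

noncomputable section

/-! ### linear algebra -/

theorem nondeg {b : Bil} (hb : Alt b) (hW : Crest.Agent.R240.W b b ≠ 0) {v : E4}
    (h : ∀ u, b v u = 0) : v = 0 := by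
  have h0 := h (ee 0)
  have h1 := h (ee 1)
  have h2 := h (ee 2)
  have h3 := h (ee 3)
  rw [alt_expand hb] at h0 h1 h2 h3
  simp [ee] at h0 h1 h2 h3
  have hW' : ent b 0 1 * ent b 2 3 - ent b 0 2 * ent b 1 3 + ent b 0 3 * ent b 1 2 ≠ 0 := by
    intro h5
    apply hW
    unfold Crest.Agent.R240.W
    linear_combination 2 * h5
  ext i
  have key : (ent b 0 1 * ent b 2 3 - ent b 0 2 * ent b 1 3 + ent b 0 3 * ent b 1 2) * v i = 0 := by
    fin_cases i
    · simp only [Fin.zero_eta, Fin.isValue]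
      linear_combination ent b 2 3 * h1 - ent b 1 3 * h2 + ent b 1 2 * h3
    · simp only [Fin.mk_one, Fin.isValue]
      linear_combination - ent b 2 3 * h0 + ent b 0 3 * h2 - ent b 0 2 * h3
    · simp only [Fin.reduceFinMk, Fin.isValue]
      linear_combination ent b 1 3 * h0 - ent b 0 3 * h1 + ent b 0 1 * h3
    · simp only [Fin.reduceFinMk, Fin.isValue]
      linear_combination - ent b 1 2 * h0 + ent b 0 2 * h1 - ent b 0 1 * h2
  simpa using (mul_eq_zero.1 key).resolve_left hW'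

/-! ### generalities on maps to `M` -/

section Gen

variable {V : Type} [NormedAddCommGroup V] [NormedSpace ℝ V]
variable {M : Type u} [TopologicalSpace M] [ChartedSpace E4 M]

theorem Dm_add {T : V → M} {c : V} (h : ∀ q, T (q + c) = T q) (p : V) :
    Dm T (p + c) = Dm T p := by
  unfold Dm
  rw [h p]
  have h5 : (fun z : V => chartAt E4 (T p) (T z)) =
      fun z => (fun z' : V => chartAt E4 (T p) (T z')) (z + c) := by
    funext z
    show chartAt E4 (T p) (T z) = chartAt E4 (T p) (T (z + c))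
    rw [h z]
  have h6 := fderiv_comp_add_right (𝕜 := ℝ) (f := fun z' : V => chartAt E4 (T p) (T z'))
    (x := p) c
  rw [← h6, ← h5]

theorem pbF_add {T : V → M} {c : V} (h : ∀ q, T (q + c) = T q) (a : F2 E4 M) (p : V) :
    pbF T a (p + c) = pbF T a p := by
  unfold pbF
  rw [Dm_add h, h]

variable [IsManifold 𝓘(ℝ, E4) ∞ M]

/-- a smooth map with bijective differential is locally injective -/
theorem loc_inj [FiniteDimensional ℝ V] {T : V → M} {p : V}
    (hT : ContMDiffAt 𝓘(ℝ, V) 𝓘(ℝ, E4) ∞ T p) (hb : Bijective (Dm T p)) :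
    ∃ g : E4 → V, ∀ᶠ x in 𝓝 p, g (chartAt E4 (T p) (T x)) = x := by
  have h1 : ContDiffAt ℝ ∞ (fun z => chartAt E4 (T p) (T z)) p :=
    chart_comp le_rfl hT (mem_chart_source E4 (T p))
  have h2 : HasStrictFDerivAt (fun z => chartAt E4 (T p) (T z)) (Dm T p) p :=
    h1.hasStrictFDerivAt (by simp)
  have : CompleteSpace V := FiniteDimensional.complete ℝ V
  let e : V ≃L[ℝ] E4 := ContinuousLinearEquiv.ofBijective (Dm T p)
    (LinearMap.ker_eq_bot.2 hb.1) (LinearMap.range_eq_top.2 hb.2)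
  have he : (e : V →L[ℝ] E4) = Dm T p := by
    ext v; rfl
  rw [← he] at h2
  exact ⟨_, h2.eventually_left_inverse⟩

variable {V' : Type} [NormedAddCommGroup V'] [NormedSpace ℝ V']

theorem Dm_left {T : V × V' → M} {y : V} {v : V'}
    (hT : ContMDiffAt 𝓘(ℝ, V × V') 𝓘(ℝ, E4) 1 T (y, v)) (u : V) :
    Dm T (y, v) (u, 0) = Dm (fun z => T (z, v)) y u := by
  have hg : HasFDerivAt (fun z : V => (z, v)) (ContinuousLinearMap.inl ℝ V V') y :=
    (hasFDerivAt_id y).prodMk (hasFDerivAt_const v y)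
  have h := Dm_comp (σ := T) (g := fun z : V => (z, v)) (y := y) hT hg.differentiableAt
  have h2 : Dm (fun z => T (z, v)) y = Dm (T ∘ fun z : V => (z, v)) y := rfl
  rw [h2, h, hg.fderiv]
  rfl

theorem Dm_right {T : V × V' → M} {y : V} {v : V'}
    (hT : ContMDiffAt 𝓘(ℝ, V × V') 𝓘(ℝ, E4) 1 T (y, v)) (u : V') :
    Dm T (y, v) (0, u) = Dm (fun z => T (y, z)) v u := by
  have hg : HasFDerivAt (fun z : V' => (y, z)) (ContinuousLinearMap.inr ℝ V V') v :=
    (hasFDerivAt_const y v).prodMk (hasFDerivAt_id v)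
  have h := Dm_comp (σ := T) (g := fun z : V' => (y, z)) (y := v) hT hg.differentiableAt
  have h2 : Dm (fun z => T (y, z)) v = Dm (T ∘ fun z : V' => (y, z)) v := rfl
  rw [h2, h, hg.fderiv]
  rfl

end Gen

/-! ### the structure -/

section Str

variable {M : Type u} [TopologicalSpace M] [ChartedSpace E4 M] [IsManifold 𝓘(ℝ, E4) ∞ M]

/-- a normalised tube around the torus `s`, lagrangian for `w 1` and `w 2` -/
structure TubeT (w : Trip M) (s : Ep → M) (r : ℝ) (T : Ep × Ep → M) : Prop where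
  pos : 0 < r
  smooth : ∀ p ∈ tube 2 r, ContMDiffAt 𝓘(ℝ, Ep × Ep) 𝓘(ℝ, E4) ∞ T p
  per : ∀ (n : Fin 2 → ℤ) (p : Ep × Ep), T (p.1 + kv n, p.2) = T p
  zero : ∀ y, T (y, 0) = s y
  bij : ∀ p ∈ tube 2 r, Bijective (Dm T p)
  inj : ∀ p ∈ tube 2 r, ∀ q ∈ tube 2 r, T p = T q → q.2 = p.2 ∧ ∃ n : Fin 2 → ℤ, q.1 = p.1 + kv n
  norm : ∀ y u v : Ep, pbF T (w 1).1.1 (y, 0) (0, v) (u, 0) = inner ℝ v u
  hor1 : ∀ y u v : Ep, pbF T (w 1).1.1 (y, 0) (u, 0) (v, 0) = 0
  hor2 : ∀ y u v : Ep, pbF T (w 2).1.1 (y, 0) (u, 0) (v, 0) = 0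
  nondeg : ∀ p ∈ tube 2 r, ∀ c : Fin 3 → ℝ, c ≠ 0 → ∀ u,
    (∀ v, ∑ i, c i * pbF T (w i).1.1 p u v = 0) → u = 0

/-- the pulled back forms -/
theorem TubeT.clF {w : Trip M} {s : Ep → M} {r : ℝ} {T : Ep × Ep → M} (h : TubeT w s r T)
    (a : Z2 M) : ClF r (pbF T (a.1.1 : F2 E4 M)) :=
  clF_pbF h.smooth h.per a

theorem TubeT.mono {w : Trip M} {s : Ep → M} {r r' : ℝ} {T : Ep × Ep → M} (h : TubeT w s r T)
    (h0 : 0 < r') (hr : r' ≤ r) : TubeT w s r' T := by
  have hs : tube 2 r' ⊆ tube 2 r := fun p hp => lt_of_lt_of_le (show ‖p.2‖ < r' from hp) hr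
  exact ⟨h0, fun p hp => h.smooth p (hs hp), h.per, h.zero, fun p hp => h.bij p (hs hp),
    fun p hp q hq => h.inj p (hs hp) q (hs hq), h.norm, h.hor1, h.hor2,
    fun p hp => h.nondeg p (hs hp)⟩

end Str

/-! ### the normal frame -/

section Frame

variable {n : ℕ}

/-- the Riesz vector of a linear form -/
def rz (l : EuclideanSpace ℝ (Fin n) →L[ℝ] ℝ) : EuclideanSpace ℝ (Fin n) :=
  ∑ i, l (EuclideanSpace.single i 1) • EuclideanSpace.single i (1 : ℝ)

theorem rz_inner (l : EuclideanSpace ℝ (Fin n) →L[ℝ] ℝ) (v : EuclideanSpace ℝ (Fin n)) :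
    inner ℝ (rz l) v = l v := by
  have hv : v = ∑ i, v i • EuclideanSpace.single i (1 : ℝ) := by
    ext j
    simp [Finset.sum_apply, Pi.single_apply]
  conv_rhs => rw [hv, map_sum]
  rw [rz, sum_inner]
  refine Finset.sum_congr rfl fun i _ => ?_
  rw [inner_smul_left, EuclideanSpace.inner_single_left, map_smul]
  simp [mul_comm]


/-- the dual frame of two linearly independent vectors -/
def dfr (x y : EuclideanSpace ℝ (Fin n)) : EuclideanSpace ℝ (Fin n) :=
  (inner ℝ x x * inner ℝ y y - inner ℝ x y * inner ℝ x y : ℝ)⁻¹ •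
    ((inner ℝ y y : ℝ) • x - (inner ℝ x y : ℝ) • y)

theorem gram_ne {x y : EuclideanSpace ℝ (Fin n)}
    (h : ∀ a b : ℝ, a • x + b • y = 0 → a = 0 ∧ b = 0) :
    (inner ℝ x x * inner ℝ y y - inner ℝ x y * inner ℝ x y : ℝ) ≠ 0 := by
  intro h0
  have hz : (inner ℝ y y : ℝ) • x + (-(inner ℝ x y : ℝ)) • y = 0 := by
    rw [← inner_self_eq_zero (𝕜 := ℝ)]
    simp only [inner_add_left, inner_add_right, inner_smul_left, inner_smul_right,
      RCLike.conj_to_real]
    rw [real_inner_comm x y]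
    linear_combination (inner ℝ y y : ℝ) * h0
  have h1 := (h _ _ hz).1
  rw [inner_self_eq_zero] at h1
  have h2 := (h 0 1 (by simp [h1])).2
  exact one_ne_zero h2

theorem dfr_left {x y : EuclideanSpace ℝ (Fin n)}
    (h : (inner ℝ x x * inner ℝ y y - inner ℝ x y * inner ℝ x y : ℝ) ≠ 0) :
    inner ℝ x (dfr x y) = (1 : ℝ) := by
  rw [dfr, inner_smul_right, inner_sub_right, inner_smul_right, inner_smul_right,
    mul_comm (inner ℝ y y : ℝ) (inner ℝ x x : ℝ)]
  exact inv_mul_cancel₀ h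

theorem dfr_right {x y : EuclideanSpace ℝ (Fin n)} :
    inner ℝ y (dfr x y) = (0 : ℝ) := by
  rw [dfr, inner_smul_right, inner_sub_right, inner_smul_right, inner_smul_right,
    real_inner_comm x y]
  ring

theorem dfr_contDiff {V : Type} [NormedAddCommGroup V] [NormedSpace ℝ V]
    {f g : V → EuclideanSpace ℝ (Fin n)} (hf : ContDiff ℝ ∞ f) (hg : ContDiff ℝ ∞ g)
    (h : ∀ v, (inner ℝ (f v) (f v) * inner ℝ (g v) (g v) -
      inner ℝ (f v) (g v) * inner ℝ (f v) (g v) : ℝ) ≠ 0) :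
    ContDiff ℝ ∞ fun v => dfr (f v) (g v) := by
  unfold dfr
  refine (ContDiff.inv ?_ h).smul ?_
  · exact ((hf.inner ℝ hf).mul (hg.inner ℝ hg)).sub ((hf.inner ℝ hg).mul (hf.inner ℝ hg))
  · exact ((hg.inner ℝ hg).smul hf).sub ((hf.inner ℝ hg).smul hg)

end Frame

/-! ### the construction -/

section Con

variable {M : Type u} [TopologicalSpace M] [ChartedSpace E4 M] [IsManifold 𝓘(ℝ, E4) ∞ M]

theorem alt_val (a : Z2 M) (x : M) : Alt (at2 (a.1.1 : F2 E4 M) x) := by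
  intro v
  have h := a.1.2.antisymm x v v
  linarith

theorem nondeg_val {w : Trip M} (hw : Pos3 w) (x : M) {c : Fin 3 → ℝ} (hc : c ≠ 0) {v : E4}
    (h : ∀ u, ∑ i, c i * at2 ((w i).1.1 : F2 E4 M) x v u = 0) : v = 0 := by
  have h1 := hw x c hc
  have hb : Alt (∑ i, c i • val (w i) x) := by
    intro v
    simp only [_root_.sum_apply, _root_.smul_apply]
    refine Finset.sum_eq_zero fun i _ => ?_
    have h2 : val (w i) x v v = 0 := alt_val (w i) x v
    rw [h2, smul_zero]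
  refine nondeg hb h1 fun u => ?_
  simp only [_root_.sum_apply, _root_.smul_apply, smul_eq_mul]
  exact h u

variable [T2Space M] [CompactSpace M]

theorem exists_map (w : Trip M) (hw : Pos3 w) (s : Ep → M) (hs : EmbT s) :
    ∃ (r : ℝ) (T : Ep × Ep → M), 0 < r ∧
      (∀ p ∈ tube 2 r, ContMDiffAt 𝓘(ℝ, Ep × Ep) 𝓘(ℝ, E4) ∞ T p) ∧
      (∀ (n : Fin 2 → ℤ) (p : Ep × Ep), T (p.1 + kv n, p.2) = T p) ∧
      (∀ y, T (y, 0) = s y) ∧
      (∀ y u v : Ep, pbF T (w 1).1.1 (y, 0) (0, v) (u, 0) = inner ℝ v u) := by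
  obtain ⟨n, F, r, hF⟩ := exists_spray (M := M)
  have hss : ∀ y, ContMDiffAt 𝓘(ℝ, Ep) 𝓘(ℝ, E4) ∞ s y := fun y => hs.smooth y
  set Φ : Ep × EuclideanSpace ℝ (Fin n) → M := fun p => F (s p.1) p.2 with hΦd
  have hΦ : ∀ (y : Ep) (v : EuclideanSpace ℝ (Fin n)), ‖v‖ < r →
      ContMDiffAt 𝓘(ℝ, Ep × EuclideanSpace ℝ (Fin n)) 𝓘(ℝ, E4) ∞ Φ (y, v) := by
    intro y v hv
    have h1 : ContMDiffAt 𝓘(ℝ, Ep × EuclideanSpace ℝ (Fin n)) 𝓘(ℝ, E4) ∞
        (fun p : Ep × EuclideanSpace ℝ (Fin n) => s p.1) (y, v) :=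
      ContMDiffAt.comp (y, v) (hss y) contDiff_fst.contMDiff.contMDiffAt
    have h2 : ContMDiffAt 𝓘(ℝ, Ep × EuclideanSpace ℝ (Fin n)) 𝓘(ℝ, EuclideanSpace ℝ (Fin n)) ∞
        (fun p : Ep × EuclideanSpace ℝ (Fin n) => p.2) (y, v) :=
      contDiff_snd.contMDiff.contMDiffAt
    exact ContMDiffAt.comp (y, v) (g := fun q : M × EuclideanSpace ℝ (Fin n) => F q.1 q.2)
      (f := fun p : Ep × EuclideanSpace ℝ (Fin n) => (s p.1, p.2)) (hF.smooth (s y) v hv)
      (h1.prodMk h2)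
  have hΦ0 : ∀ y, ContMDiffAt 𝓘(ℝ, Ep × EuclideanSpace ℝ (Fin n)) 𝓘(ℝ, E4) ∞ Φ (y, 0) :=
    fun y => hΦ y 0 (by rw [norm_zero]; exact hF.pos)
  have hs1 : (fun z => Φ (z, 0)) = s := funext fun z => hF.zero (s z)
  have hΦz : ∀ y, Φ (y, 0) = s y := fun y => hF.zero (s y)
  have hD1 : ∀ y u, Dm Φ (y, 0) (u, 0) = Dm s y u := by
    intro y u
    rw [Dm_left ((hΦ0 y).of_le (by simp)), hs1]
  have hD2 : ∀ y (x : EuclideanSpace ℝ (Fin n)), Dm Φ (y, 0) (0, x) = Dm (F (s y)) 0 x := by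
    intro y x
    rw [Dm_right ((hΦ0 y).of_le (by simp))]
  -- the pairing
  set q : Ep → Ep × EuclideanSpace ℝ (Fin n) →L[ℝ] Ep × EuclideanSpace ℝ (Fin n) →L[ℝ] ℝ :=
    fun y => pbF Φ (w 1).1.1 (y, 0) with hqd
  have hq : ContDiff ℝ ∞ q := contDiff_iff_contDiffAt.2 fun y =>
    ContDiffAt.comp y (g := pbF Φ (w 1).1.1) (f := fun y : Ep => (y, (0 : EuclideanSpace ℝ (Fin n))))
      (pbF_contDiffAt (hΦ0 y) (w 1).1.2) (contDiff_id.prodMk contDiff_const).contDiffAt
  have hqp : ∀ (k : Fin 2 → ℤ) (y : Ep), q (y + kv k) = q y := by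
    intro k y
    have h := pbF_add (T := Φ) (c := ((kv k : Ep), (0 : EuclideanSpace ℝ (Fin n))))
      (fun p => by
        show F (s (p.1 + kv k)) (p.2 + 0) = F (s p.1) p.2
        rw [add_zero, show s (p.1 + kv k) = s p.1 from hs.per p.1 k]) (w 1).1.1 (y, 0)
    have h2 : ((y, 0) + (kv k, 0) : Ep × EuclideanSpace ℝ (Fin n)) = (y + kv k, 0) := by
      ext1 <;> simp
    rw [h2] at h
    exact h
  have hqe : ∀ y (x : EuclideanSpace ℝ (Fin n)) (u : Ep), q y (0, x) (u, 0) =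
      at2 ((w 1).1.1 : F2 E4 M) (s y) (Dm (F (s y)) 0 x) (Dm s y u) := by
    intro y x u
    show pbF Φ (w 1).1.1 (y, 0) (0, x) (u, 0) = _
    rw [pbF_apply, hD1, hD2, hΦz]
  let l : Fin 2 → Ep → EuclideanSpace ℝ (Fin n) →L[ℝ] ℝ := fun k y =>
    ((q y).flip (EuclideanSpace.single k 1, 0)).comp (ContinuousLinearMap.inr ℝ Ep _)
  have hl : ∀ k y x, l k y x = q y (0, x) (EuclideanSpace.single k 1, 0) := fun _ _ _ => rfl
  let β : Fin 2 → Ep → EuclideanSpace ℝ (Fin n) := fun k y => rz (l k y)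
  have hβs : ∀ k, ContDiff ℝ ∞ (β k) := by
    intro k
    show ContDiff ℝ ∞ fun y => ∑ i, (q y (0, EuclideanSpace.single i 1)
      (EuclideanSpace.single k 1, 0)) • EuclideanSpace.single i (1 : ℝ)
    exact ContDiff.sum fun i _ =>
      ((hq.clm_apply contDiff_const).clm_apply contDiff_const).smul contDiff_const
  have hβp : ∀ k (m : Fin 2 → ℤ) y, β k (y + kv m) = β k y := by
    intro k m y
    show rz (l k (y + kv m)) = rz (l k y)
    have : l k (y + kv m) = l k y := by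
      show ((q (y + kv m)).flip _).comp _ = ((q y).flip _).comp _
      rw [hqp]
    rw [this]
  have hu : ∀ u : Ep, u = u 0 • EuclideanSpace.single 0 (1 : ℝ) +
      u 1 • EuclideanSpace.single 1 (1 : ℝ) := by
    intro u
    ext i
    fin_cases i <;> simp
  have hqβ : ∀ y x (u : Ep), q y (0, x) (u, 0) =
      u 0 * inner ℝ (β 0 y) x + u 1 * inner ℝ (β 1 y) x := by
    intro y x u
    have h1 : inner ℝ (β 0 y) x = q y (0, x) (EuclideanSpace.single 0 1, 0) := rz_inner _ _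
    have h2 : inner ℝ (β 1 y) x = q y (0, x) (EuclideanSpace.single 1 1, 0) := rz_inner _ _
    have h3 : ((u, 0) : Ep × EuclideanSpace ℝ (Fin n)) =
        u 0 • (EuclideanSpace.single 0 (1 : ℝ), 0) + u 1 • (EuclideanSpace.single 1 (1 : ℝ), 0) := by
      ext1
      · simpa using hu u
      · simp
    rw [h1, h2, h3, map_add, map_smul, map_smul, smul_eq_mul, smul_eq_mul]
  have hLI : ∀ y, ∀ a b : ℝ, a • β 0 y + b • β 1 y = 0 → a = 0 ∧ b = 0 := by
    intro y a b hab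
    set u : Ep := a • EuclideanSpace.single 0 (1 : ℝ) + b • EuclideanSpace.single 1 (1 : ℝ) with hud
    have hu0 : u 0 = a := by simp [hud]
    have hu1 : u 1 = b := by simp [hud]
    have h1 : ∀ x, q y (0, x) (u, 0) = 0 := by
      intro x
      rw [hqβ, hu0, hu1]
      have h2 : inner ℝ (a • β 0 y + b • β 1 y) x = (0 : ℝ) := by rw [hab, inner_zero_left]
      rw [inner_add_left, inner_smul_left, inner_smul_left] at h2
      simpa using h2
    have h3 : Dm s y u = 0 := by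
      refine nondeg_val hw (s y) (c := Pi.single 1 1) (by simp) fun z => ?_
      obtain ⟨x, rfl⟩ := hF.onto (s y) (mem_univ _) z
      have h4 := h1 x
      rw [hqe] at h4
      rw [Finset.sum_eq_single 1]
      · rw [Pi.single_eq_same, one_mul, (alt_val (w 1) (s y)).swap, h4, neg_zero]
      · intro i _ hi
        rw [Pi.single_eq_of_ne hi, zero_mul]
      · intro h; exact absurd (Finset.mem_univ _) h
    have h5 : u = 0 := hs.imm y u h3
    rw [← hu0, ← hu1, h5]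
    simp
  have hne : ∀ y, _ := fun y => gram_ne (hLI y)
  have hne' : ∀ y, (inner ℝ (β 1 y) (β 1 y) * inner ℝ (β 0 y) (β 0 y) -
      inner ℝ (β 1 y) (β 0 y) * inner ℝ (β 1 y) (β 0 y) : ℝ) ≠ 0 := by
    intro y
    rw [real_inner_comm (β 0 y) (β 1 y), mul_comm (inner ℝ (β 1 y) (β 1 y) : ℝ)]
    exact hne y
  let N0 : Ep → EuclideanSpace ℝ (Fin n) := fun y => dfr (β 0 y) (β 1 y)
  let N1 : Ep → EuclideanSpace ℝ (Fin n) := fun y => dfr (β 1 y) (β 0 y)
  have hN0 : ContDiff ℝ ∞ N0 := dfr_contDiff (hβs 0) (hβs 1) hne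
  have hN1 : ContDiff ℝ ∞ N1 := dfr_contDiff (hβs 1) (hβs 0) hne'
  have hN0p : Per N0 := fun k y => by
    show dfr (β 0 (y + kv k)) (β 1 (y + kv k)) = dfr (β 0 y) (β 1 y)
    rw [hβp, hβp]
  have hN1p : Per N1 := fun k y => by
    show dfr (β 1 (y + kv k)) (β 0 (y + kv k)) = dfr (β 1 y) (β 0 y)
    rw [hβp, hβp]
  obtain ⟨C0, hC0, hC0'⟩ := hN0p.bdd hN0.continuous
  obtain ⟨C1, hC1, hC1'⟩ := hN1p.bdd hN1.continuous
  let L : Ep → Ep →L[ℝ] EuclideanSpace ℝ (Fin n) := fun y =>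
    (EuclideanSpace.proj (0 : Fin 2)).smulRight (N0 y) +
      (EuclideanSpace.proj (1 : Fin 2)).smulRight (N1 y)
  have hL : ∀ y (v : Ep), L y v = v 0 • N0 y + v 1 • N1 y := fun _ _ => rfl
  have hLb : ∀ y (v : Ep), ‖L y v‖ ≤ (C0 + C1) * ‖v‖ := by
    intro y v
    have a0 : |v 0| ≤ ‖v‖ := PiLp.norm_apply_le v 0
    have a1 : |v 1| ≤ ‖v‖ := PiLp.norm_apply_le v 1
    rw [hL]
    refine (norm_add_le _ _).trans ?_
    rw [norm_smul, norm_smul, Real.norm_eq_abs, Real.norm_eq_abs]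
    have b0 := hC0' y
    have b1 := hC1' y
    have := mul_le_mul a0 b0 (norm_nonneg _) (norm_nonneg v)
    have := mul_le_mul a1 b1 (norm_nonneg _) (norm_nonneg v)
    linarith
  have hr0 : 0 < r / (C0 + C1 + 1) := div_pos hF.pos (by positivity)
  let T : Ep × Ep → M := fun p => F (s p.1) (L p.1 p.2)
  have hh : ContDiff ℝ ∞ fun p : Ep × Ep => (p.1, L p.1 p.2) := by
    refine contDiff_fst.prodMk ?_
    show ContDiff ℝ ∞ fun p : Ep × Ep => p.2 0 • N0 p.1 + p.2 1 • N1 p.1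
    have c0 : ContDiff ℝ ∞ fun p : Ep × Ep => p.2 0 :=
      (EuclideanSpace.proj (𝕜 := ℝ) (0 : Fin 2)).contDiff.comp contDiff_snd
    have c1 : ContDiff ℝ ∞ fun p : Ep × Ep => p.2 1 :=
      (EuclideanSpace.proj (𝕜 := ℝ) (1 : Fin 2)).contDiff.comp contDiff_snd
    exact (c0.smul (hN0.comp contDiff_fst)).add (c1.smul (hN1.comp contDiff_fst))
  have hTs : ∀ p ∈ tube 2 (r / (C0 + C1 + 1)), ContMDiffAt 𝓘(ℝ, Ep × Ep) 𝓘(ℝ, E4) ∞ T p := by
    intro p hp
    have hp' : ‖p.2‖ < r / (C0 + C1 + 1) := hp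
    have h1 : ‖L p.1 p.2‖ < r := by
      rw [lt_div_iff₀ (by positivity)] at hp'
      refine (hLb p.1 p.2).trans_lt (lt_of_le_of_lt ?_ hp')
      nlinarith [norm_nonneg p.2]
    exact ContMDiffAt.comp p (g := Φ) (f := fun p : Ep × Ep => (p.1, L p.1 p.2))
      (hΦ p.1 (L p.1 p.2) h1) hh.contMDiff.contMDiffAt
  have hT0 : ∀ y, T (y, 0) = s y := by
    intro y
    show F (s y) (L y 0) = s y
    rw [map_zero, hF.zero]
  have hTy : (fun z => T (z, 0)) = s := funext hT0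
  refine ⟨r / (C0 + C1 + 1), T, hr0, hTs, ?_, hT0, ?_⟩
  · intro k p
    show F (s (p.1 + kv k)) (L (p.1 + kv k) p.2) = F (s p.1) (L p.1 p.2)
    rw [show s (p.1 + kv k) = s p.1 from hs.per p.1 k, hL, hL, hN0p, hN1p]
  · intro y u v
    have hTy0 : ContMDiffAt 𝓘(ℝ, Ep × Ep) 𝓘(ℝ, E4) 1 T (y, 0) :=
      (hTs (y, 0) (show ‖(0 : Ep)‖ < _ by rw [norm_zero]; exact hr0)).of_le (by simp)
    have e1 : Dm T (y, 0) (u, 0) = Dm s y u := by rw [Dm_left hTy0, hTy]
    have e2 : Dm T (y, 0) (0, v) = Dm (F (s y)) 0 (L y v) := by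
      rw [Dm_right hTy0]
      have h3 : (fun z => T (y, z)) = F (s y) ∘ (L y) := rfl
      have h4 : ContMDiffAt 𝓘(ℝ, EuclideanSpace ℝ (Fin n)) 𝓘(ℝ, E4) 1 (F (s y)) (L y 0) := by
        rw [map_zero]
        exact (hF.smooth1 (s y) (by rw [norm_zero]; exact hF.pos)).of_le (by simp)
      rw [h3, Dm_comp h4 (L y).differentiableAt, (L y).fderiv, map_zero]
      rfl
    rw [pbF_apply, e1, e2, hT0, ← hqe, hqβ, hL]
    simp only [inner_add_right, inner_smul_right]
    have f00 : inner ℝ (β 0 y) (N0 y) = (1 : ℝ) := dfr_left (hne y)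
    have f10 : inner ℝ (β 1 y) (N0 y) = (0 : ℝ) := dfr_right
    have f11 : inner ℝ (β 1 y) (N1 y) = (1 : ℝ) := dfr_left (hne' y)
    have f01 : inner ℝ (β 0 y) (N1 y) = (0 : ℝ) := dfr_right
    rw [f00, f10, f11, f01, PiLp.inner_apply]
    simp

end Con

/-! ### the tube -/

section Fin

variable {M : Type u} [TopologicalSpace M] [ChartedSpace E4 M] [IsManifold 𝓘(ℝ, E4) ∞ M]

theorem dim_bij (A : Ep × Ep →L[ℝ] E4) (h : Injective A) : Bijective A := by
  refine ⟨h, ?_⟩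
  have hd : Module.finrank ℝ (Ep × Ep) = Module.finrank ℝ E4 := by
    rw [Module.finrank_prod]
    simp
  exact (LinearMap.injective_iff_surjective_of_finrank_eq_finrank
    (f := (A : Ep × Ep →ₗ[ℝ] E4)) hd).1 h


/-- a local property along the zero section holds on a tube -/
theorem tube_of_nhds {P : Ep × Ep → Prop} (hper : ∀ (n : Fin 2 → ℤ) (p : Ep × Ep), P p →
    P (p.1 + kv n, p.2)) (h : ∀ y : Ep, ∀ᶠ p in 𝓝 ((y, 0) : Ep × Ep), P p) :
    ∃ r : ℝ, 0 < r ∧ ∀ p ∈ tube 2 r, P p := by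
  have h1 : ∀ᶠ v in 𝓝 (0 : Ep), ∀ y ∈ cube 2, P (y, v) := by
    refine isCompact_cube.eventually_forall_of_forall_eventually fun y _ => ?_
    have hsw : Tendsto (fun z : Ep × Ep => (z.2, z.1)) (𝓝 (0, y)) (𝓝 (y, 0)) :=
      (continuous_snd.prodMk continuous_fst).tendsto' _ _ rfl
    exact hsw.eventually (h y)
  obtain ⟨r, hr, hr'⟩ := Metric.eventually_nhds_iff.1 h1
  refine ⟨r, hr, fun p hp => ?_⟩
  obtain ⟨k, y, hy, hk⟩ := exists_cube p.1
  have h2 := hr' (y := p.2) (by rw [dist_zero_right]; exact hp) y hy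
  have h3 := hper k _ h2
  have h4 : p = (y + kv k, p.2) := by rw [← hk]
  rw [h4]
  exact h3

theorem kv_add (m n : Fin 2 → ℤ) : (kv (m + n) : Ep) = kv m + kv n := by
  ext i; simp [kv]

theorem kv_neg (n : Fin 2 → ℤ) : (kv (-n) : Ep) = - kv n := by
  ext i; simp [kv]

variable [T2Space M]

/-- injectivity modulo the lattice on a small tube -/
theorem tube_inj {s : Ep → M} (hs : EmbT s) {T : Ep × Ep → M}
    (hper : ∀ (n : Fin 2 → ℤ) (p : Ep × Ep), T (p.1 + kv n, p.2) = T p)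
    (hz : ∀ y, T (y, 0) = s y)
    (hsm : ∀ y : Ep, ContMDiffAt 𝓘(ℝ, Ep × Ep) 𝓘(ℝ, E4) ∞ T (y, 0))
    (hb : ∀ y : Ep, Bijective (Dm T (y, 0))) :
    ∃ r : ℝ, 0 < r ∧ ∀ p ∈ tube 2 r, ∀ q ∈ tube 2 r, T p = T q →
      q.2 = p.2 ∧ ∃ n : Fin 2 → ℤ, q.1 = p.1 + kv n := by
  have h1 : ∀ᶠ v in 𝓝 ((0, 0) : Ep × Ep), ∀ y ∈ cube 2 ×ˢ cube 2,
      T (y.1, v.1) = T (y.2, v.2) → v.2 = v.1 ∧ ∃ n : Fin 2 → ℤ, y.2 = y.1 + kv n := by
    refine (isCompact_cube.prod isCompact_cube).eventually_forall_of_forall_eventually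
      fun y _ => ?_
    obtain ⟨y, y'⟩ := y
    have t1 : Tendsto (fun z : (Ep × Ep) × (Ep × Ep) => (z.2.1, z.1.1)) (𝓝 ((0, 0), (y, y')))
        (𝓝 (y, 0)) := by
      have : Continuous fun z : (Ep × Ep) × (Ep × Ep) => (z.2.1, z.1.1) := by fun_prop
      exact this.tendsto' _ _ rfl
    have t2 : Tendsto (fun z : (Ep × Ep) × (Ep × Ep) => (z.2.2, z.1.2)) (𝓝 ((0, 0), (y, y')))
        (𝓝 (y', 0)) := by
      have : Continuous fun z : (Ep × Ep) × (Ep × Ep) => (z.2.2, z.1.2) := by fun_prop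
      exact this.tendsto' _ _ rfl
    by_cases hyy : s y = s y'
    · obtain ⟨n, hn⟩ := hs.inj y y' hyy
      obtain ⟨g, hg⟩ := loc_inj (hsm y) (hb y)
      have t3 : Tendsto (fun z : (Ep × Ep) × (Ep × Ep) => (z.2.2 + kv (-n), z.1.2))
          (𝓝 ((0, 0), (y, y'))) (𝓝 (y, 0)) := by
        have : Continuous fun z : (Ep × Ep) × (Ep × Ep) => (z.2.2 + kv (-n), z.1.2) := by fun_prop
        refine this.tendsto' _ _ ?_
        ext1
        · show y' + kv (-n) = y
          rw [kv_neg, hn]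
          show y + kv n + - kv n = y
          abel
        · rfl
      filter_upwards [t1.eventually hg, t3.eventually hg] with z h2 h3 h4
      have h5 : T (z.2.2 + kv (-n), z.1.2) = T (z.2.2, z.1.2) := hper (-n) (z.2.2, z.1.2)
      rw [h5, ← h4, h2] at h3
      have h6 := congrArg Prod.fst h3
      have h7 := congrArg Prod.snd h3
      simp only at h6 h7
      refine ⟨h7.symm, n, ?_⟩
      rw [h6, kv_neg]
      abel
    · have c1 : Tendsto (fun z : (Ep × Ep) × (Ep × Ep) => T (z.2.1, z.1.1)) (𝓝 ((0, 0), (y, y')))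
          (𝓝 (s y)) := by
        have := (hsm y).continuousAt.tendsto
        rw [hz] at this
        exact this.comp t1
      have c2 : Tendsto (fun z : (Ep × Ep) × (Ep × Ep) => T (z.2.2, z.1.2)) (𝓝 ((0, 0), (y, y')))
          (𝓝 (s y')) := by
        have := (hsm y').continuousAt.tendsto
        rw [hz] at this
        exact this.comp t2
      have hop : IsOpen {q : M × M | q.1 ≠ q.2} := isClosed_diagonal.isOpen_compl
      filter_upwards [(c1.prodMk_nhds c2).eventually (hop.mem_nhds hyy)] with z h2 h3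
      exact absurd h3 h2
  obtain ⟨r, hr, hr'⟩ := Metric.eventually_nhds_iff.1 h1
  refine ⟨r, hr, fun p hp q hq hpq => ?_⟩
  obtain ⟨k, y, hy, hk⟩ := exists_cube p.1
  obtain ⟨k', y', hy', hk'⟩ := exists_cube q.1
  have hp2 : ‖p.2‖ < r := hp
  have hq2 : ‖q.2‖ < r := hq
  have e1 : T p = T (y, p.2) := by
    have := hper k (y, p.2)
    simp only at this
    rw [← this, ← hk]
  have e2 : T q = T (y', q.2) := by
    have := hper k' (y', q.2)
    simp only at this
    rw [← this, ← hk']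
  have h2 := hr' (y := (p.2, q.2)) (by
    rw [Prod.dist_eq]
    simp only [dist_zero_right]
    exact max_lt hp2 hq2) (y, y') ⟨hy, hy'⟩ (by
      show T (y, p.2) = T (y', q.2)
      rw [← e1, ← e2, hpq])
  obtain ⟨h3, n, h4⟩ := h2
  simp only at h3 h4
  refine ⟨h3, n - k + k', ?_⟩
  rw [hk', h4, hk, kv_add, sub_eq_add_neg, kv_add, kv_neg]
  abel

variable [CompactSpace M]

/-- **TUBE** (B1a): the normalised tube around a torus which is lagrangian for `w 1`, `w 2` -/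
theorem exists_tube (w : Trip M) (hw : Pos3 w) (s : Ep → M) (hs : EmbT s)
    (lag1 : ∀ y u v : Ep, val (w 1) (s y) (dmap s y u) (dmap s y v) = 0)
    (lag2 : ∀ y u v : Ep, val (w 2) (s y) (dmap s y u) (dmap s y v) = 0) :
    ∃ (r : ℝ) (T : Ep × Ep → M), TubeT w s r T := by
  obtain ⟨r0, T, hr0, hsm, hper, hz, hno⟩ := exists_map w hw s hs
  have hsm0 : ∀ y : Ep, ContMDiffAt 𝓘(ℝ, Ep × Ep) 𝓘(ℝ, E4) ∞ T (y, 0) := fun y =>
    hsm (y, 0) (show ‖(0 : Ep)‖ < _ by rw [norm_zero]; exact hr0)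
  have hTy : (fun z => T (z, 0)) = s := funext hz
  have hD1 : ∀ y u, Dm T (y, 0) (u, 0) = Dm s y u := by
    intro y u
    rw [Dm_left ((hsm0 y).of_le (by simp)), hTy]
  have hor1 : ∀ y u v : Ep, pbF T (w 1).1.1 (y, 0) (u, 0) (v, 0) = 0 := by
    intro y u v
    rw [pbF_apply, hD1, hD1, hz]
    exact lag1 y u v
  have hor2 : ∀ y u v : Ep, pbF T (w 2).1.1 (y, 0) (u, 0) (v, 0) = 0 := by
    intro y u v
    rw [pbF_apply, hD1, hD1, hz]
    exact lag2 y u v
  have hinj0 : ∀ y : Ep, Injective (pbF T (w 1).1.1 (y, 0)) := by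
    intro y
    rw [injective_iff_map_eq_zero]
    rintro ⟨u, v⟩ h
    have h1 : ∀ e : Ep, pbF T (w 1).1.1 (y, 0) (u, v) (e, 0) = 0 := fun e => by rw [h]; rfl
    have hsp : ((u, v) : Ep × Ep) = (u, 0) + (0, v) := by ext1 <;> simp
    have h2 : ∀ e : Ep, inner ℝ v e = (0 : ℝ) := by
      intro e
      have := h1 e
      rw [hsp, map_add, _root_.add_apply, hor1, hno, zero_add] at this
      exact this
    have hv : v = 0 := by
      have := h2 v
      rwa [inner_self_eq_zero] at this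
    have h3 : ∀ e : Ep, inner ℝ e u = (0 : ℝ) := by
      intro e
      have h4 : pbF T (w 1).1.1 (y, 0) (u, v) (0, e) = 0 := by rw [h]; rfl
      rw [pbF_alt (w 1).1.2, hv, hno] at h4
      linarith
    have hu : u = 0 := by
      have := h3 u
      rwa [inner_self_eq_zero] at this
    rw [hu, hv]
    rfl
  have hDinj : ∀ p : Ep × Ep, Injective (pbF T (w 1).1.1 p) → Bijective (Dm T p) := by
    intro p hp
    refine dim_bij _ ?_
    rw [injective_iff_map_eq_zero] at hp ⊢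
    intro v hv
    refine hp v (ContinuousLinearMap.ext fun e => ?_)
    rw [pbF_apply, hv]
    simp
  obtain ⟨r1, hr1, hr1'⟩ := tube_of_nhds (P := fun p => Injective (pbF T (w 1).1.1 p))
    (by
      intro n p hp
      have h := pbF_add (T := T) (c := ((kv n : Ep), (0 : Ep)))
        (fun p => by
          have h2 := hper n p
          rw [← h2]
          congr 1
          ext1 <;> simp) (w 1).1.1 p
      have h2 : ((p.1 + kv n, p.2) : Ep × Ep) = p + (kv n, 0) := by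
        ext1 <;> simp
      rw [h2, h]
      exact hp)
    (by
      intro y
      have hc : ContinuousAt (pbF T (w 1).1.1) ((y, 0) : Ep × Ep) :=
        (pbF_contDiffAt (hsm0 y) (w 1).1.2).continuousAt
      exact hc.eventually (ContinuousLinearMap.isOpen_injective.mem_nhds (hinj0 y)))
  obtain ⟨r2, hr2, hr2'⟩ := tube_inj hs hper hz hsm0 (fun y => hDinj _ (hinj0 y))
  have hs0 : tube 2 (min r0 (min r1 r2)) ⊆ tube 2 r0 := fun p hp =>
    lt_of_lt_of_le (show ‖p.2‖ < min r0 (min r1 r2) from hp) (min_le_left _ _)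
  have hs1 : tube 2 (min r0 (min r1 r2)) ⊆ tube 2 r1 := fun p hp =>
    lt_of_lt_of_le (show ‖p.2‖ < min r0 (min r1 r2) from hp)
      ((min_le_right _ _).trans (min_le_left _ _))
  have hs2 : tube 2 (min r0 (min r1 r2)) ⊆ tube 2 r2 := fun p hp =>
    lt_of_lt_of_le (show ‖p.2‖ < min r0 (min r1 r2) from hp)
      ((min_le_right _ _).trans (min_le_right _ _))
  refine ⟨min r0 (min r1 r2), T, lt_min hr0 (lt_min hr1 hr2), fun p hp => hsm p (hs0 hp), hper, hz,
    fun p hp => hDinj p (hr1' p (hs1 hp)), fun p hp q hq => hr2' p (hs2 hp) q (hs2 hq), hno, hor1,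
    hor2, ?_⟩
  intro p hp c hc u h
  have hbij := hDinj p (hr1' p (hs1 hp))
  have h1 : Dm T p u = 0 := by
    refine nondeg_val hw (T p) hc fun z => ?_
    obtain ⟨x, rfl⟩ := hbij.2 z
    exact h x
  exact hbij.1 (by rw [h1, map_zero])

end Fin

end

end Crest.Agent.R235.Tube_153
end

-- ▼ part R235/FamDefs_153
section

/-!
# Row 235, TOR / FIB-B1b (helper153, helper384): the node `FAM` (no manifold)

`x`, `z` are closed two-forms on `{(y, v) : |v| < r}`, periodic in `y`, zero on the horizontal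
vectors along `v = 0`.  Output: a smooth family `a (·, c)` of periodic graphs which are isotropic
for `x` and `z`.
-/

set_option autoImplicit false
set_option maxSynthPendingDepth 3

open Set Function Filter
open scoped ContDiff Topology

namespace Crest.Agent.R235.Fam_153

open Crest.Agent.R281.Mc673

/-- two closed forms on the tube, isotropic along the zero section, `x` normalised there, the pair
elliptic there -/
structure FamIn (r : ℝ) (x z : Fo 2) : Prop where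
  pos : 0 < r
  cx : ClF r x
  cz : ClF r z
  hx : ∀ y u v : V 2, x (y, 0) (u, 0) (v, 0) = 0
  hz : ∀ y u v : V 2, z (y, 0) (u, 0) (v, 0) = 0
  nx : ∀ y u v : V 2, x (y, 0) (0, v) (u, 0) = inner ℝ v u
  ell : ∀ (y : V 2) (a b : ℝ), (a ≠ 0 ∨ b ≠ 0) → ∀ u : W 2,
    (∀ v : W 2, a * x (y, 0) u v + b * z (y, 0) u v = 0) → u = 0

/-- a smooth family of graphs isotropic for `x` and `z`; the mean of `a (·, c)` is `c` -/
structure FamOut (r : ℝ) (x z : Fo 2) (d : ℝ) (a : W 2 → V 2) : Prop where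
  pos : 0 < d
  sm : ContDiffOn ℝ ∞ a (tube 2 d)
  per : ∀ (n : Fin 2 → ℤ), ∀ p ∈ tube 2 d, a (p.1 + kv n, p.2) = a p
  zero : ∀ y : V 2, a (y, 0) = 0
  bd : ∀ p ∈ tube 2 d, ‖a p‖ < r
  ix : ∀ p ∈ tube 2 d, ∀ u v : V 2,
    x (p.1, a p) (u, fderiv ℝ a p (u, 0)) (v, fderiv ℝ a p (v, 0)) = 0
  iz : ∀ p ∈ tube 2 d, ∀ u v : V 2,
    z (p.1, a p) (u, fderiv ℝ a p (u, 0)) (v, fderiv ℝ a p (v, 0)) = 0
  mean : ∀ c : V 2, ‖c‖ < d → ∀ i : Fin 2, mn (fun y => a (y, c) i) = c i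

/-- **FAM** (B1b) -/
def FAM : Prop :=
  ∀ (r : ℝ) (x z : Fo 2), FamIn r x z → ∃ (d : ℝ) (a : W 2 → V 2), FamOut r x z d a

end Crest.Agent.R235.Fam_153
end

-- ▼ part R235/LocFolA_153
section

/-!
# Row 235, TOR / FIB-B1 (helper153): from the mean version of the family to the immersed version

`famT_of` : `FamIn r x z → FamOut r x z d a → ∃ δ a', FamT r x z δ a'`
(`NOZERO` of helper504 gives that the `c`-derivative of the family is injective).
-/

set_option autoImplicit false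
set_option maxSynthPendingDepth 3

open Set Function Filter MeasureTheory
open scoped ContDiff Topology

namespace Crest.Agent.R235.LocFolA_153

open Crest.Agent.R281.Mc673 Crest.Agent.R235.Fam_153 Crest.Agent.R235.TorFam_384
open Crest.Agent.R235.Pull_153 (pl pl_apply pl_contDiffAt pl_closed)
open Crest.Agent.R240.Ch (dd)

noncomputable section

/-- the graph map -/
def gm (a : W 2 → V 2) (p : W 2) : W 2 := (p.1, a p)

theorem hasFDerivAt_gm {a : W 2 → V 2} {p : W 2} (ha : DifferentiableAt ℝ a p) :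
    HasFDerivAt (gm a) ((ContinuousLinearMap.fst ℝ (V 2) (V 2)).prod (fderiv ℝ a p)) p :=
  hasFDerivAt_fst.prodMk ha.hasFDerivAt

theorem fderiv_gm {a : W 2 → V 2} {p : W 2} (ha : DifferentiableAt ℝ a p) (u : W 2) :
    fderiv ℝ (gm a) p u = (u.1, fderiv ℝ a p u) := by
  rw [(hasFDerivAt_gm ha).fderiv]
  rfl

theorem contDiffAt_gm {a : W 2 → V 2} {p : W 2} (ha : ContDiffAt ℝ ∞ a p) :
    ContDiffAt ℝ ∞ (gm a) p := contDiffAt_fst.prodMk ha

theorem zero_mem_tube {d : ℝ} (hd : 0 < d) (y : V 2) : ((y, 0) : W 2) ∈ tube 2 d := by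
  show ‖(0 : V 2)‖ < d
  rwa [norm_zero]

theorem tube_nhds {d : ℝ} {p : W 2} (hp : p ∈ tube 2 d) : tube 2 d ∈ 𝓝 p :=
  (isOpen_tube d).mem_nhds hp



/-! ### algebra -/











/-! ### the mean -/




/-! ### no zeros -/






end

end Crest.Agent.R235.LocFolA_153
end

-- ▼ part R235/LocFol_153
section

/-!
# Row 235, TOR / FIB-B1d (helper153): `FAM ⇒ LOCFOL`

`Ψ (y, c) = T (y, a (y, c))` with the tube `T` of `Tube_153` and the family `a` of `FAM`.
-/

set_option autoImplicit false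
set_option maxSynthPendingDepth 3

open Set Function Filter MeasureTheory
open scoped Manifold ContDiff Topology

universe u

namespace Crest.Agent.R235.LocFol_153

open Crest.Agent.R240 Crest.Agent.R240.Ch Crest.Agent.R235.Pull_153 Crest.Agent.R235.Tube_153
open Crest.Agent.R281.Mc673 (kv tube cube ClF isOpen_tube)
open Crest.Agent.R235.LocFolA_153 (gm fderiv_gm contDiffAt_gm zero_mem_tube tube_nhds)
open Crest.Agent.R235.TorFam_384 (FamH FamT FAM)
open Crest.Agent.R235.TorLF_348 (LFol LOCFOL iv)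

noncomputable section

variable {M : Type u} [TopologicalSpace M] [ChartedSpace E4 M] [IsManifold 𝓘(ℝ, E4) ∞ M]

/-- the tube gives the input of FAM -/
theorem famH_of {w : Trip M} {s : Ep → M} {r : ℝ} {T : Ep × Ep → M} (h : TubeT w s r T) :
    FamH r (pbF T (w 1).1.1) (pbF T (w 2).1.1) where
  pos := h.pos
  clx := h.clF (w 1)
  cly := h.clF (w 2)
  horx := h.hor1
  hory := h.hor2
  norm := h.norm
  nondeg := fun p hp c d hcd u hu => by
    refine h.nondeg p hp ![0, c, d] (fun h0 => ?_) u fun v => ?_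
    · have h1 := congrFun h0 1
      have h2 := congrFun h0 2
      simp at h1 h2
      rcases hcd with h | h
      · exact h h1
      · exact h h2
    · rw [Fin.sum_univ_three]
      simpa using hu v

/-- the family of graphs gives the foliation -/
theorem lfol_of [T2Space M] {w : Trip M} {s : Ep → M} (hs : EmbT s) {r : ℝ} {T : Ep × Ep → M}
    (h : TubeT w s r T) {δ : ℝ} {a : Ep × Ep → Ep}
    (ha : FamT r (pbF T (w 1).1.1) (pbF T (w 2).1.1) δ a) :
    ∃ (r' : ℝ) (Ψ : Ep × Ep → M), LFol w s r' Ψ := by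
  have haa : ∀ p ∈ tube 2 δ, ContDiffAt ℝ ∞ a p := fun p hp => ha.smooth.contDiffAt (tube_nhds hp)
  have had : ∀ p ∈ tube 2 δ, DifferentiableAt ℝ a p := fun p hp =>
    (haa p hp).differentiableAt (by simp)
  have hgt : ∀ p ∈ tube 2 δ, gm a p ∈ tube 2 r := fun p hp => ha.small p hp
  let Ψ : Ep × Ep → M := T ∘ gm a
  have hΨs : ∀ p ∈ tube 2 δ, ContMDiffAt 𝓘(ℝ, Ep × Ep) 𝓘(ℝ, E4) ∞ Ψ p := fun p hp =>
    ContMDiffAt.comp p (h.smooth _ (hgt p hp)) (contDiffAt_gm (haa p hp)).contMDiffAt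
  have hgd : ∀ p ∈ tube 2 δ, DifferentiableAt ℝ (gm a) p := fun p hp =>
    (contDiffAt_gm (haa p hp)).differentiableAt (by simp)
  have hD : ∀ p ∈ tube 2 δ, ∀ u, Dm Ψ p u = Dm T (gm a p) (u.1, fderiv ℝ a p u) := by
    intro p hp u
    have h1 := Dm_comp (σ := T) (g := gm a) (y := p) ((h.smooth _ (hgt p hp)).of_le (by simp))
      (hgd p hp)
    have h2 : Dm Ψ p u = Dm T (gm a p) (fderiv ℝ (gm a) p u) := congrArg (fun L => L u) h1
    rw [h2, fderiv_gm (had p hp)]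
  have hinj : ∀ p ∈ tube 2 δ, Injective (Dm Ψ p) := by
    intro p hp
    rw [injective_iff_map_eq_zero]
    intro u hu
    rw [hD p hp] at hu
    have h1 := (h.bij _ (hgt p hp)).1 (hu.trans (map_zero _).symm)
    have h2 : u.1 = 0 := congrArg Prod.fst h1
    have h3 : fderiv ℝ a p u = 0 := congrArg Prod.snd h1
    have h4 : u = (0, u.2) := by
      ext1
      · exact h2
      · rfl
    rw [h4] at h3
    have h5 := ha.inj p hp u.2 h3
    rw [h4, h5]
    rfl
  have hbij : ∀ p ∈ tube 2 δ, Bijective (Dm Ψ p) := fun p hp => dim_bij _ (hinj p hp)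
  have hper : ∀ (n : Fin 2 → ℤ) (p : Ep × Ep), Ψ (p.1 + kv n, p.2) = Ψ p := by
    intro n p
    show T (p.1 + kv n, a (p.1 + kv n, p.2)) = T (p.1, a p)
    rw [ha.per n p]
    exact h.per n (p.1, a p)
  have hz : ∀ y, Ψ (y, 0) = s y := by
    intro y
    show T (y, a (y, 0)) = s y
    rw [ha.zero]
    exact h.zero y
  obtain ⟨ρ, hρ, hρ'⟩ := tube_inj hs hper hz (fun y => hΨs _ (zero_mem_tube ha.pos y))
    (fun y => hbij _ (zero_mem_tube ha.pos y))
  have hm1 : ∀ c : Ep, c ∈ Metric.ball (0 : Ep) (min δ ρ) → ∀ y : Ep, (y, c) ∈ tube 2 δ := by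
    intro c hc y
    rw [mem_ball_zero_iff] at hc
    exact lt_of_lt_of_le hc (min_le_left _ _)
  have hm2 : ∀ c : Ep, c ∈ Metric.ball (0 : Ep) (min δ ρ) → ∀ y : Ep, (y, c) ∈ tube 2 ρ := by
    intro c hc y
    rw [mem_ball_zero_iff] at hc
    exact lt_of_lt_of_le hc (min_le_right _ _)
  refine ⟨min δ ρ, Ψ, lt_min ha.pos hρ, ?_, hz, ?_, ?_, ?_, ?_, ?_⟩
  · rintro ⟨y, c⟩ ⟨-, hc⟩
    exact (hΨs _ (hm1 c hc y)).contMDiffWithinAt
  · intro y c n _
    exact hper n (y, c)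
  · intro y c y' c' hc hc' hyc
    obtain ⟨h1, n, h2⟩ := hρ' _ (hm2 c hc y) _ (hm2 c' hc' y') hyc
    exact ⟨h1.symm, n, h2⟩
  · intro y c v hc hv
    have h1 := hinj _ (hm1 c hc y)
    rw [injective_iff_map_eq_zero] at h1
    exact h1 v hv
  · intro y c u v hc
    have h1 := ha.lagx _ (hm1 c hc y) u v
    show at2 ((w 1).1.1 : F2 E4 M) (Ψ (y, c)) (Dm Ψ (y, c) (u, 0)) (Dm Ψ (y, c) (v, 0)) = 0
    rw [hD _ (hm1 c hc y), hD _ (hm1 c hc y)]
    exact h1
  · intro y c u v hc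
    have h1 := ha.lagy _ (hm1 c hc y) u v
    show at2 ((w 2).1.1 : F2 E4 M) (Ψ (y, c)) (Dm Ψ (y, c) (u, 0)) (Dm Ψ (y, c) (v, 0)) = 0
    rw [hD _ (hm1 c hc y), hD _ (hm1 c hc y)]
    exact h1

/-- **B1d**: `FAM ⇒ LOCFOL` -/
theorem locfol_of (hF : FAM) : LOCFOL.{u} := by
  intro M _ _ _ _ _ _ w hw s hs l1 l2
  obtain ⟨r, T, hT⟩ := exists_tube w hw s hs l1 l2
  obtain ⟨δ, a, ha⟩ := hF r _ _ (famH_of hT)
  exact lfol_of hs hT ha


end

end Crest.Agent.R235.LocFol_153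
end

-- ▼ part R235/TorLT_348
section

/-!
Row 235 (S0364), PACKAGE TOR, leaf TOR-LT (helper348): `LOCFOL ⇒ LOCTUBE`.
The ball chart `Ψ` is rescaled to a total chart `Φ y = Ψ ((y 2, y 3), β (y 0, y 1))`,
`β : ℝ² ≃ ball 0 r`; all slices are `J`-tori in the class of `σ`.
-/

set_option autoImplicit false
set_option maxSynthPendingDepth 3

open Set Function Filter MeasureTheory
open scoped Manifold ContDiff Topology

universe u

namespace Crest.Agent.R235.TorLT_348

open Crest.Agent.R235 Crest.Agent.R240 Crest.Agent.R240.Ch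
open Crest.Agent.R235.TorLF_348 Crest.Agent.R235.TorLTa_348

noncomputable section

/-- the base coordinates. -/
def bL : E4 →L[ℝ] Ep :=
  LinearMap.toContinuousLinearMap
    { toFun := fun y => WithLp.toLp 2 ![y 0, y 1]
      map_add' := fun u v => by
        ext i
        fin_cases i <;> simp
      map_smul' := fun c v => by
        ext i
        fin_cases i <;> simp }

/-- the leaf coordinates. -/
def fL : E4 →L[ℝ] Ep :=
  LinearMap.toContinuousLinearMap
    { toFun := fun y => WithLp.toLp 2 ![y 2, y 3]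
      map_add' := fun u v => by
        ext i
        fin_cases i <;> simp
      map_smul' := fun c v => by
        ext i
        fin_cases i <;> simp }

theorem bL_lv (s t : ℝ) : bL (lv s t) = 0 := by
  ext i
  fin_cases i <;> simp [bL, lv]

theorem fL_lv (v : Ep) : fL (lv (v 0) (v 1)) = v := by
  ext i
  fin_cases i <;> simp [fL, lv]

theorem fL_lv' (m n : ℤ) : fL (lv m n) = iv ![m, n] := by
  ext i
  fin_cases i <;> simp [fL, lv, iv]

theorem eq_of_bL_fL {y z : E4} (h1 : bL y = bL z) (h2 : fL y = fL z) : y = z := by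
  have a0 := congrArg (fun v : Ep => v 0) h1
  have a1 := congrArg (fun v : Ep => v 1) h1
  have a2 := congrArg (fun v : Ep => v 0) h2
  have a3 := congrArg (fun v : Ep => v 1) h2
  simp [bL, fL] at a0 a1 a2 a3
  ext i
  fin_cases i <;> assumption

/-- the rescaling. -/
def rs (r : ℝ) (y : E4) : Ep × Ep := (fL y, OpenPartialHomeomorph.univBall (0 : Ep) r (bL y))

theorem rs_contDiff (r : ℝ) : ContDiff ℝ ∞ (rs r) :=
  fL.contDiff.prodMk ((OpenPartialHomeomorph.contDiff_univBall).comp bL.contDiff)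

variable {r : ℝ}

theorem univBall_mem (hr : 0 < r) (c : Ep) :
    OpenPartialHomeomorph.univBall (0 : Ep) r c ∈ Metric.ball (0 : Ep) r := by
  have h := (OpenPartialHomeomorph.univBall (0 : Ep) r).map_source
    (x := c) (by rw [OpenPartialHomeomorph.univBall_source]; exact mem_univ _)
  rwa [OpenPartialHomeomorph.univBall_target _ hr] at h

theorem univBall_inj {c c' : Ep} (h : OpenPartialHomeomorph.univBall (0 : Ep) r c =
    OpenPartialHomeomorph.univBall (0 : Ep) r c') : c = c' := by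
  refine (OpenPartialHomeomorph.univBall (0 : Ep) r).injOn ?_ ?_ h
  all_goals
    rw [OpenPartialHomeomorph.univBall_source]
    exact mem_univ _

theorem fderiv_univBall_inj (hr : 0 < r) (c : Ep) {v : Ep}
    (h : fderiv ℝ (OpenPartialHomeomorph.univBall (0 : Ep) r) c v = 0) : v = 0 := by
  have h1 : DifferentiableAt ℝ (OpenPartialHomeomorph.univBall (0 : Ep) r) c :=
    (OpenPartialHomeomorph.contDiff_univBall (n := 1)).differentiable (by simp) c
  have h2 : DifferentiableAt ℝ (OpenPartialHomeomorph.univBall (0 : Ep) r).symm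
      (OpenPartialHomeomorph.univBall (0 : Ep) r c) :=
    ((OpenPartialHomeomorph.contDiffOn_univBall_symm (n := 1)).contDiffAt
      (Metric.isOpen_ball.mem_nhds (univBall_mem hr c))).differentiableAt (by simp)
  have h3 := fderiv_comp c h2 h1
  have h4 : (OpenPartialHomeomorph.univBall (0 : Ep) r).symm ∘
      (OpenPartialHomeomorph.univBall (0 : Ep) r) = id := by
    funext x
    exact (OpenPartialHomeomorph.univBall (0 : Ep) r).left_inv
      (by rw [OpenPartialHomeomorph.univBall_source]; exact mem_univ _)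
  rw [h4, fderiv_id] at h3
  have h5 := congrArg (fun L : Ep →L[ℝ] Ep => L v) h3
  simp only [ContinuousLinearMap.comp_apply, h, map_zero] at h5
  exact h5

/-- the derivative of the rescaling. -/
theorem fderiv_rs (y v : E4) : fderiv ℝ (rs r) y v =
    (fL v, fderiv ℝ (OpenPartialHomeomorph.univBall (0 : Ep) r) (bL y) (bL v)) := by
  have h1 : DifferentiableAt ℝ (OpenPartialHomeomorph.univBall (0 : Ep) r) (bL y) :=
    (OpenPartialHomeomorph.contDiff_univBall (n := 1)).differentiable (by simp) _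
  have h2 := h1.hasFDerivAt.comp y bL.hasFDerivAt
  have h3 := (fL.hasFDerivAt (x := y)).prodMk h2
  have h4 : fderiv ℝ (rs r) y = _ := h3.fderiv
  rw [h4]
  rfl

section Main

variable {M : Type u} [TopologicalSpace M] [T2Space M] [CompactSpace M]
  [ChartedSpace E4 M] [IsManifold 𝓘(ℝ, E4) ∞ M]
variable {w : Trip M} {f : H2 M} {σ : Ep → M} {Ψ : Ep × Ep → M}

/-- the total chart. -/
def tot (r : ℝ) (Ψ : Ep × Ep → M) (y : E4) : M := Ψ (rs r y)

theorem tube (h : LFol w σ r Ψ) (hσ : JTor w σ f) :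
    Tube w f (tot r Ψ) ∧ ∀ q : Ep, tot r Ψ (lv (q 0) (q 1)) = σ q := by
  have hr := h.rpos
  have hmem : ∀ y, rs r y ∈ (univ : Set Ep) ×ˢ Metric.ball (0 : Ep) r := fun y =>
    ⟨mem_univ _, univBall_mem hr _⟩
  have hopen : IsOpen ((univ : Set Ep) ×ˢ Metric.ball (0 : Ep) r) :=
    isOpen_univ.prod Metric.isOpen_ball
  have hΨ : ∀ y, ContMDiffAt 𝓘(ℝ, Ep × Ep) 𝓘(ℝ, E4) ∞ Ψ (rs r y) := fun y =>
    h.smooth.contMDiffAt (hopen.mem_nhds (hmem y))
  have hsm : ContMDiff 𝓘(ℝ, E4) 𝓘(ℝ, E4) ∞ (tot r Ψ) := fun y =>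
    (hΨ y).comp y (rs_contDiff r).contMDiff.contMDiffAt
  have hper : ∀ (y : E4) (m n : ℤ), tot r Ψ (y + lv m n) = tot r Ψ y := by
    intro y m n
    have h1 : rs r (y + lv m n) = (fL y + iv ![m, n],
        OpenPartialHomeomorph.univBall (0 : Ep) r (bL y)) := by
      rw [rs, map_add, map_add, bL_lv, add_zero, fL_lv']
    rw [tot, h1, h.per _ _ _ (univBall_mem hr _)]
    rfl
  have hd : ∀ y v : E4, dmap (tot r Ψ) y v = dmap Ψ (rs r y) (fderiv ℝ (rs r) y v) :=
    fun y v => dmap_comp (hΨ y) ((rs_contDiff r).differentiable (by simp) y) v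
  have himm : ∀ y v : E4, dmap (tot r Ψ) y v = 0 → v = 0 := by
    intro y v hv
    rw [hd] at hv
    have h1 := h.imm _ _ _ (univBall_mem hr (bL y)) hv
    rw [fderiv_rs] at h1
    have h2 := congrArg Prod.fst h1
    have h3 := congrArg Prod.snd h1
    have h4 := fderiv_univBall_inj hr _ h3
    exact eq_of_bL_fL (by rw [h4, map_zero]) (h2.trans (map_zero fL).symm)
  have hinj : ∀ y z : E4, tot r Ψ y = tot r Ψ z → ∃ m n : ℤ, z = y + lv m n := by
    intro y z hyz
    obtain ⟨h1, n, h2⟩ := h.inj _ _ _ _ (univBall_mem hr (bL y)) (univBall_mem hr (bL z)) hyz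
    refine ⟨n 0, n 1, eq_of_bL_fL ?_ ?_⟩
    · rw [map_add, bL_lv, add_zero]
      exact (univBall_inj h1).symm
    · rw [map_add, h2, fL_lv']
      congr 2
      ext i
      fin_cases i <;> rfl
  have hzero : ∀ q : Ep, tot r Ψ (lv (q 0) (q 1)) = σ q := by
    intro q
    rw [tot, rs, bL_lv, OpenPartialHomeomorph.univBall_apply_zero, fL_lv]
    exact h.zero q
  have hds : ∀ (y : E4) (q v : Ep), dmap (slice (tot r Ψ) y) q v =
      dmap Ψ (rs r (y + lv (q 0) (q 1))) (v, 0) := by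
    intro y q v
    rw [dmap_slice hsm, hd, fderiv_rs, bL_lv, fL_lv, map_zero]
  have hs0 : slice (tot r Ψ) 0 = σ := by
    funext q
    rw [slice, zero_add]
    exact hzero q
  refine ⟨⟨hsm, hper, hinj, himm, fun y => ?_⟩, hzero⟩
  refine ⟨⟨?_, ?_, ?_, ?_⟩, ?_, ?_, ?_, hσ.pos⟩
  · have h1 : ContMDiff 𝓘(ℝ, Ep) 𝓘(ℝ, E4) ∞ (fun q : Ep => y + lvL q) :=
      (contDiff_const.add lvL.contDiff).contMDiff
    exact hsm.comp h1
  · intro q n
    have h1 := hper (y + lv (q 0) (q 1)) (n 0) (n 1)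
    rw [add_assoc, ← lv_add] at h1
    simpa [slice] using h1
  · intro q q' hq
    obtain ⟨m, n, h1⟩ := hinj _ _ hq
    refine ⟨![m, n], ?_⟩
    have h2 := congrArg fL h1
    rw [map_add, map_add, map_add, fL_lv, fL_lv, fL_lv', add_assoc] at h2
    exact add_left_cancel h2
  · intro q v hv
    rw [hds] at hv
    have h1 := h.imm _ _ _ (univBall_mem hr _) hv
    exact congrArg Prod.fst h1
  · intro q u v
    rw [hds, hds]
    exact h.lag1 _ _ _ _ (univBall_mem hr _)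
  · intro q u v
    rw [hds, hds]
    exact h.lag2 _ _ _ _ (univBall_mem hr _)
  · intro b
    rw [torI_slice hsm hper b.1.2 b.2, hs0]
    exact hσ.rep b

end Main

/-- LEAF TOR-LT. -/
theorem loctube_of (h : LOCFOL.{u}) : LOCTUBE.{u} := by
  intro M _ _ _ _ _ _ w hw f σ hσ
  obtain ⟨r, Ψ, h1⟩ := h M w hw σ hσ.emb hσ.lag1 hσ.lag2
  exact ⟨tot r Ψ, tube h1 hσ⟩

end

end Crest.Agent.R235.TorLT_348
end

-- ▼ part R235/LocTube_153
section

/-!
# Row 235, TOR / FIB-B1 (helper153): `FAM ⇒ LOCTUBE`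
-/

set_option autoImplicit false

universe u

namespace Crest.Agent.R235.LocTube_153

/-- `FAM ⇒ LOCTUBE` -/
theorem loctube_of (h : TorFam_384.FAM) : LOCTUBE.{u} :=
  TorLT_348.loctube_of (LocFol_153.locfol_of h)


end Crest.Agent.R235.LocTube_153
end

-- ▼ part R235/JPos_225

/-!
Row 235 (S0364), helper225: the current of a `J`-curve is positive on the taming form.
-/

set_option autoImplicit false
set_option maxSynthPendingDepth 3

open Set Function Filter MeasureTheory Metric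
open scoped Manifold ContDiff Topology

universe u

namespace Crest.Agent.R235.JPos_225

open Crest.Agent.R240 Crest.Agent.R240.Ch Crest.Agent.R235.Glob_370

noncomputable section

variable {M : Type u} [TopologicalSpace M] [T2Space M] [CompactSpace M] [ChartedSpace E4 M]
  [IsManifold 𝓘(ℝ, E4) ∞ M]

/-- a smooth cut-off. -/
theorem exists_bump (p : M) (U : Set M) (hU : IsOpen U) (hp : p ∈ U) :
    ∃ χ : M → ℝ, SmoothF E4 χ ∧ (∀ x, 0 ≤ χ x) ∧ (∀ x, χ x ≤ 1) ∧ χ p = 1 ∧ tsupport χ ⊆ U := by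
  obtain ⟨V, hV, hVo, hVU⟩ : ∃ V : Set M, IsOpen V ∧ p ∈ V ∧ closure V ⊆ U := by
    obtain ⟨K, hK, hKc, hKU⟩ := exists_mem_nhds_isClosed_subset (hU.mem_nhds hp)
    exact ⟨interior K, isOpen_interior, mem_interior_iff_mem_nhds.2 hK,
      (closure_minimal interior_subset hKc).trans hKU⟩
  obtain ⟨f, hf0, hf1, hf⟩ := exists_contMDiffMap_zero_one_of_isClosed 𝓘(ℝ, E4) (n := (⊤ : ℕ∞))
    (M := M) (s := Vᶜ) (t := {p}) hV.isClosed_compl isClosed_singleton
    (by rw [Set.disjoint_singleton_right]; exact fun h => h hVo)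
  refine ⟨fun x => f x, (smoothF_iff _).1 f.contMDiff, fun x => (hf x).1, fun x => (hf x).2,
    hf1 rfl, ?_⟩
  refine subset_trans (closure_mono fun x hx => ?_) hVU
  by_contra h
  exact hx (hf0 h)

theorem T_pos {w : Trip M} {J : EndF E4 M} (hJ : IsJ w J) (c : JCurve J) :
    0 < c.T (w 0).1 := by
  set F : X2 M := ⟨bp J (w 0).1.1, Smooth2.bp hJ.smooth (w 0).1.2⟩ with hFdef
  have hF : SPosG J (F : F2 E4 M) := Int.sposG_bp hJ.sq (w 0).1.2.1 hJ.tame
  have h0 : c.T (w 0).1 = c.T F := c.pcur.inv _ _ fun x => rfl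
  obtain ⟨x0⟩ : Nonempty c.N := inferInstance
  set p := c.f x0 with hp
  set L := c.L p with hL
  obtain ⟨χ, hχs, hχ0, hχ1, hχp, hχU⟩ := exists_bump p L.U L.openU L.mem
  set b : X2 M := ⟨fmul χ F.1, Smooth2.fmul hχs F.2⟩ with hb
  have hj : ∃ j : Fin L.n, True := by
    have h1 : p ∈ range c.f ∩ L.U := ⟨⟨x0, rfl⟩, L.mem⟩
    rw [L.supp] at h1
    obtain ⟨j, -⟩ := mem_iUnion.1 h1
    exact ⟨j, trivial⟩
  obtain ⟨j0, -⟩ := hj
  have hK : IsCompact (tsupport χ) := (isClosed_tsupport χ).isCompact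
  have hbK : ∀ x ∉ tsupport χ, at2 (b.1 : F2 E4 M) x = 0 := by
    intro x hx
    show χ x • at2 (F.1 : F2 E4 M) x = 0
    rw [image_eq_zero_of_notMem_tsupport hx, zero_smul]
  have hT := c.cur p b (tsupport χ) hK hχU hbK
  have hpb : ∀ (j : Fin L.n) (z : ℂ), pb (L.u j) (b.1 : F2 E4 M) z =
      χ (L.u j z) * pb (L.u j) (F.1 : F2 E4 M) z := fun j z => rfl
  have hD : ∀ (j : Fin L.n), ∀ z ∈ ball (0 : ℂ) 1, dmap (L.u j) z Complex.I =
      atJ J (L.u j z) (dmap (L.u j) z 1) := by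
    intro j z hz
    have := (L.disc j).hol.jhol z hz 1
    rwa [mul_one] at this
  have hnn : ∀ (j : Fin L.n), ∀ z ∈ ball (0 : ℂ) 1, 0 ≤ pb (L.u j) (b.1 : F2 E4 M) z := by
    intro j z hz
    rw [hpb]
    refine mul_nonneg (hχ0 _) ?_
    show 0 ≤ at2 (F.1 : F2 E4 M) (L.u j z) (dmap (L.u j) z 1) (dmap (L.u j) z Complex.I)
    rw [hD j z hz]
    by_cases hv : dmap (L.u j) z 1 = 0
    · rw [hv]; simp
    · exact ((hF (L.u j z)).pos _ hv).le
  have hTb : 0 < c.T b := by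
    rw [hT]
    refine Finset.sum_pos' (fun j _ => setIntegral_nonneg measurableSet_ball (hnn j))
      ⟨j0, Finset.mem_univ _, ?_⟩
    have hint := AdjGen_83.integrableOn_disc c p j0 b.2 hK hχU hbK
    rw [setIntegral_pos_iff_support_of_nonneg_ae
      ((ae_restrict_iff' measurableSet_ball).2 (Eventually.of_forall (hnn j0))) hint]
    -- near the centre
    have hc : ContinuousAt (fun z => χ (L.u j0 z)) 0 := by
      have h1 : ContinuousAt (L.u j0) 0 :=
        ((L.disc j0).hol.smooth.continuousOn).continuousAt (isOpen_ball.mem_nhds (mem_ball_self one_pos))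
      exact ((smoothF_iff _).2 hχs).continuous.continuousAt.comp h1
    have h2 : ∀ᶠ z in 𝓝 (0 : ℂ), 0 < χ (L.u j0 z) := by
      refine hc.eventually (lt_mem_nhds ?_)
      show 0 < χ (L.u j0 0)
      rw [L.centre, hχp]
      exact one_pos
    obtain ⟨r, hr, hr2⟩ := Metric.eventually_nhds_iff_ball.1 h2
    have hsub : ball (0 : ℂ) (min r 1) \ {0} ⊆
        (support (pb (L.u j0) (b.1 : F2 E4 M))) ∩ ball (0 : ℂ) 1 := by
      rintro z ⟨hz, hz0⟩
      have hz1 : z ∈ ball (0 : ℂ) 1 := ball_subset_ball (min_le_right _ _) hz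
      have hzr : z ∈ ball (0 : ℂ) r := ball_subset_ball (min_le_left _ _) hz
      refine ⟨?_, hz1⟩
      rw [mem_support, hpb]
      refine mul_ne_zero (hr2 z hzr).ne' ?_
      have hv : dmap (L.u j0) z 1 ≠ 0 := fun h =>
        one_ne_zero ((L.disc j0).imm z hz1 hz0 1 h)
      show at2 (F.1 : F2 E4 M) (L.u j0 z) (dmap (L.u j0) z 1) (dmap (L.u j0) z Complex.I) ≠ 0
      rw [hD j0 z hz1]
      exact ((hF (L.u j0 z)).pos _ hv).ne'
    refine lt_of_lt_of_le ?_ (measure_mono hsub)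
    refine (isOpen_ball.sdiff isClosed_singleton).measure_pos volume ?_
    have hρ : 0 < min r 1 := lt_min hr one_pos
    refine ⟨((min r 1 / 2 : ℝ) : ℂ), ?_, ?_⟩
    · rw [mem_ball_zero_iff, Complex.norm_real, Real.norm_eq_abs, abs_of_pos (half_pos hρ)]
      exact half_lt_self hρ
    · intro h
      have h3 : ((min r 1 / 2 : ℝ) : ℂ) = 0 := h
      have h4 : (min r 1 / 2 : ℝ) = 0 := by exact_mod_cast h3
      linarith
  have hχs' : SmoothF E4 (fun x => 1 - χ x) := by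
    refine (smoothF_iff _).1 ?_
    exact contMDiff_const.sub ((smoothF_iff _).2 hχs)
  set b' : X2 M := ⟨fmul (fun x => 1 - χ x) F.1, Smooth2.fmul hχs' F.2⟩ with hb'
  have hT' : 0 ≤ c.T b' := by
    refine c.pcur.nonneg _ ?_
    have hFP : PosG J (F.1 : F2 E4 M) := fun x => ⟨(hF x).alt, (hF x).inv, fun v => by
      by_cases hv : v = 0
      · rw [hv]; simp
      · exact ((hF x).pos v hv).le⟩
    exact NM.posG_fmul hFP fun x => by linarith [hχ1 x]
  have hsum : F = b + b' := by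
    apply Subtype.ext
    funext x
    show (F.1 : F2 E4 M) x = χ x • (F.1 : F2 E4 M) x + (1 - χ x) • (F.1 : F2 E4 M) x
    rw [← add_smul]
    simp
  rw [h0, hsum, map_add]
  linarith

end

end Crest.Agent.R235.JPos_225
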