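import Crest.Agent.R235.K12AnDefs_776
import Crest.Agent.R235.K12Num_776
import Crest.Agent.R235.K12Geo_128
import Crest.Agent.R235.K12Ext2_168
import Crest.Agent.R235.K12Radf_843

-- ▼ part R235/K12Lip_895
section

/-!
Row 235 (S0364), block K12, analytic assembly of helper776: leaves BUMP and LIP (task 363).
-/

set_option autoImplicit false
set_option maxSynthPendingDepth 3

open Set Function Filter MeasureTheory
open scoped Manifold ContDiff Topology RealInnerProductSpace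

namespace Crest.Agent.R235.K12Lip_895

open Crest.Agent.R235.K12_417 Crest.Agent.R235.K12An_776

/-! ### BUMP -/

/-- the step: `1` on `(-∞, 1/2]`, `0` on `[3/4, ∞)`. -/
noncomputable def th (x : ℝ) : ℝ := 1 - Real.smoothTransition (4 * x - 2)

theorem th_contDiff : ContDiff ℝ ∞ th := by
  have : ContDiff ℝ ∞ Real.smoothTransition := Real.smoothTransition.contDiff
  exact contDiff_const.sub (this.comp ((contDiff_const.mul contDiff_id).sub contDiff_const))

theorem th_one {x : ℝ} (h : x ≤ 1 / 2) : th x = 1 := by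
  unfold th; rw [Real.smoothTransition.zero_of_nonpos (by linarith)]; ring

theorem th_zero {x : ℝ} (h : 3 / 4 ≤ x) : th x = 0 := by
  unfold th; rw [Real.smoothTransition.one_of_one_le (by linarith)]; ring

theorem th_nonneg (x : ℝ) : 0 ≤ th x := by
  unfold th; linarith [Real.smoothTransition.le_one (4 * x - 2)]

theorem th_le_one (x : ℝ) : th x ≤ 1 := by
  unfold th; linarith [Real.smoothTransition.nonneg (4 * x - 2)]

/-- `∫₀^y x θ(x) dx`. -/
noncomputable def F (y : ℝ) : ℝ := ∫ x in (0 : ℝ)..y, x * th x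

theorem xth_contDiff : ContDiff ℝ ∞ (fun x : ℝ => x * th x) := contDiff_id.mul th_contDiff

theorem F_hasDerivAt (y : ℝ) : HasDerivAt F (y * th y) y :=
  intervalIntegral.integral_hasDerivAt_right (xth_contDiff.continuous.intervalIntegrable _ _)
    (xth_contDiff.continuous.stronglyMeasurableAtFilter _ _) xth_contDiff.continuous.continuousAt

theorem F_contDiff : ContDiff ℝ ∞ F := by
  rw [contDiff_infty_iff_deriv]
  refine ⟨fun y => (F_hasDerivAt y).differentiableAt, ?_⟩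
  have : deriv F = fun x : ℝ => x * th x := funext fun y => (F_hasDerivAt y).deriv
  rw [this]; exact xth_contDiff

theorem F_small {y : ℝ} (h : y ≤ 1 / 2) : F y = y ^ 2 / 2 := by
  unfold F
  rw [intervalIntegral.integral_congr (g := fun x => x)]
  · simp
  · intro x hx
    have hx' : x ≤ 1 / 2 := by
      rcases le_total 0 y with h0 | h0
      · rw [uIcc_of_le h0] at hx; exact hx.2.trans h
      · rw [uIcc_of_ge h0] at hx; linarith [hx.2]
    simp only [th_one hx', mul_one]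

theorem F_mono : MonotoneOn F (Ici 0) := by
  apply monotoneOn_of_deriv_nonneg (convex_Ici 0) F_contDiff.continuous.continuousOn
  · exact fun y _ => (F_hasDerivAt y).differentiableAt.differentiableWithinAt
  · intro y hy
    rw [interior_Ici] at hy
    rw [(F_hasDerivAt y).deriv]
    exact mul_nonneg (le_of_lt hy) (th_nonneg y)

theorem F_large {y : ℝ} (h : 1 ≤ y) : F y = F 1 := by
  have h1 : F y - F 1 = ∫ x in (1 : ℝ)..y, x * th x :=
    intervalIntegral.integral_interval_sub_left (xth_contDiff.continuous.intervalIntegrable _ _)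
      (xth_contDiff.continuous.intervalIntegrable _ _)
  rw [intervalIntegral.integral_congr (g := fun _ => (0 : ℝ))] at h1
  · simp at h1; linarith
  · intro x hx
    rw [uIcc_of_le h] at hx
    simp only [th_zero (show (3 : ℝ) / 4 ≤ x by linarith [hx.1]), mul_zero]

theorem F_one_le : F 1 ≤ 1 / 2 := by
  unfold F
  have : ∫ x in (0 : ℝ)..1, x * th x ≤ ∫ x in (0 : ℝ)..1, x := by
    apply intervalIntegral.integral_mono_on (by norm_num)
      (xth_contDiff.continuous.intervalIntegrable _ _) (continuous_id.intervalIntegrable _ _)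
    intro x hx
    have := th_le_one x
    show x * th x ≤ x
    nlinarith [hx.1]
  refine this.trans ?_
  simp

theorem le_F_one : 1 / 8 ≤ F 1 := by
  have h1 : F (1 / 2) ≤ F 1 := F_mono (by norm_num [mem_Ici]) (by norm_num [mem_Ici]) (by norm_num)
  rw [F_small le_rfl] at h1
  norm_num at h1 ⊢
  linarith

/-- LEAF BUMP. -/
theorem bump : BUMP := by
  refine ⟨8, by norm_num, ?_⟩
  intro A s hA hs
  have hc1 := F_one_le
  have hc2 := le_F_one
  set c₀ : ℝ := F 1 with hc₀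
  have hc0 : 0 < c₀ := by linarith
  let h : ℝ → ℝ := fun t => A / c₀ * (F (t / s) - c₀)
  have hd : ∀ t, HasDerivAt h (A / c₀ * ((t / s) * th (t / s) * (1 / s))) t := by
    intro t
    have h1 : HasDerivAt (fun t : ℝ => t / s) (1 / s) t := (hasDerivAt_id t).div_const s
    exact (((F_hasDerivAt (t / s)).comp t h1).sub_const c₀).const_mul (A / c₀)
  have hs8 : 1 / c₀ ≤ 8 := by
    rw [div_le_iff₀ hc0]; linarith
  have hAc : A / c₀ ≤ 8 * A := by
    have : A / c₀ = A * (1 / c₀) := by ring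
    rw [this]; nlinarith
  have hAc0 : 0 < A / c₀ := by positivity
  have hmono : ∀ t, 0 ≤ t → F 0 ≤ F (t / s) ∧ F (t / s) ≤ c₀ := by
    intro t ht
    have h0 : 0 ≤ t / s := by positivity
    refine ⟨F_mono (mem_Ici.mpr le_rfl) (mem_Ici.mpr h0) h0, ?_⟩
    rcases le_total 1 (t / s) with h1 | h1
    · rw [F_large h1]
    · exact F_mono (mem_Ici.mpr h0) (mem_Ici.mpr (by norm_num)) h1
  have hF0 : F 0 = 0 := by simp [F]
  refine ⟨h, A / (c₀ * s ^ 2), s / 2, ⟨?_, by positivity, ?_⟩, by linarith, ?_, ?_, ?_, ?_⟩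
  · exact contDiff_const.mul ((F_contDiff.comp (contDiff_id.div_const s)).sub contDiff_const)
  · intro t ht
    show A / c₀ * (F (t / s) - c₀) = -A + A / (c₀ * s ^ 2) * t ^ 2 / 2
    have : t / s ≤ 1 / 2 := by rw [div_le_iff₀ hs]; linarith
    rw [F_small this]
    field_simp
    ring
  · rw [div_le_div_iff₀ (by positivity) (by positivity)]
    have : c₀ * s ^ 2 ≤ 1 * s ^ 2 := by gcongr; linarith
    nlinarith
  · intro t ht
    obtain ⟨h1, h2⟩ := hmono t ht
    show -A ≤ A / c₀ * (F (t / s) - c₀) ∧ A / c₀ * (F (t / s) - c₀) ≤ 0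
    rw [hF0] at h1
    constructor
    · have : A / c₀ * (0 - c₀) ≤ A / c₀ * (F (t / s) - c₀) := by gcongr
      have e : A / c₀ * (0 - c₀) = -A := by field_simp; ring
      linarith
    · apply mul_nonpos_of_nonneg_of_nonpos hAc0.le; linarith
  · intro t ht
    show A / c₀ * (F (t / s) - c₀) = 0
    have : 1 ≤ t / s := by rw [le_div_iff₀ hs]; linarith
    rw [F_large this]; simp [hc₀]
  · intro t ht
    rw [(hd t).deriv]
    have h0 : 0 ≤ t / s := by positivity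
    have ht1 := th_nonneg (t / s)
    refine ⟨by positivity, ?_⟩
    have e : t * (A / c₀ * ((t / s) * th (t / s) * (1 / s)))
        = A / c₀ * ((t / s) ^ 2 * th (t / s)) := by field_simp
    rw [e]
    have h2 : (t / s) ^ 2 * th (t / s) ≤ 1 := by
      rcases le_total 1 (t / s) with h1 | h1
      · rw [th_zero (by linarith)]; simp
      · have h3 := th_le_one (t / s)
        have h4 : (t / s) ^ 2 ≤ 1 := by nlinarith
        nlinarith [sq_nonneg (t / s)]
    calc A / c₀ * ((t / s) ^ 2 * th (t / s)) ≤ A / c₀ * 1 := by gcongr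
      _ ≤ 8 * A := by linarith

/-! ### LIP -/

theorem norm_cr_sq (a b : E3) : ‖cr a b‖ ^ 2 = ‖a‖ ^ 2 * ‖b‖ ^ 2 - ⟪a, b⟫ ^ 2 := by
  simp only [EuclideanSpace.norm_sq_eq, Fin.sum_univ_three, PiLp.inner_apply, Real.norm_eq_abs,
    sq_abs, cr, RCLike.inner_apply, conj_trivial]
  simp
  ring

theorem norm_cr_le (a b : E3) : ‖cr a b‖ ≤ ‖a‖ * ‖b‖ := by
  have h := norm_cr_sq a b
  refine le_of_sq_le_sq ?_ (by positivity)
  rw [h, mul_pow]
  nlinarith [sq_nonneg ⟪a, b⟫]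

theorem norm_hor_le {z : E6} {e : E3} {r : ℝ} (h1 : ‖z.1‖ = 1) (h2 : ‖z.2‖ ≤ r) (he : ‖e‖ ≤ 1) :
    ‖hor z e‖ ≤ 1 + r := by
  have hr : 0 ≤ r := (norm_nonneg _).trans h2
  unfold hor
  rw [Prod.norm_def]
  apply max_le
  · show ‖e‖ ≤ 1 + r
    linarith
  · show ‖-(⟪z.2, e⟫ • z.1)‖ ≤ 1 + r
    rw [norm_neg, norm_smul, h1, mul_one, Real.norm_eq_abs]
    have := abs_real_inner_le_norm z.2 e
    have h3 : ‖z.2‖ * ‖e‖ ≤ r * 1 := by gcongr
    linarith

theorem norm_ver_le {e : E3} {r : ℝ} (hr : 0 ≤ r) (he : ‖e‖ ≤ 1) : ‖ver e‖ ≤ 1 + r := by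
  unfold ver
  rw [Prod.norm_def]
  apply max_le
  · show ‖(0 : E3)‖ ≤ 1 + r
    rw [norm_zero]; linarith
  · show ‖e‖ ≤ 1 + r
    linarith

theorem norm_cr_fr_le {q e : E3} (h : IsFr q e) : ‖cr q e‖ ≤ 1 := by
  have := norm_cr_le q e
  rw [h.1, h.2.1] at this
  linarith

theorem norm_X_le {z : E6} {e : E3} {r : ℝ} (h2 : ‖z.2‖ ≤ r) (h : IsFr z.1 e) (i : Fin 4) :
    ‖X z e i‖ ≤ 1 + r := by
  have hr : 0 ≤ r := (norm_nonneg _).trans h2
  fin_cases i
  · exact norm_hor_le h.1 h2 h.2.1.le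
  · exact norm_hor_le h.1 h2 (norm_cr_fr_le h)
  · exact norm_ver_le hr h.2.1.le
  · exact norm_ver_le hr (norm_cr_fr_le h)

theorem norm_hor_sub_le {z : E6} {e : E3} (h1 : ‖z.1‖ = 1) (he : ‖e‖ ≤ 1) :
    ‖hor z e - hor (z.1, 0) e‖ ≤ ‖z.2‖ := by
  have : hor z e - hor (z.1, 0) e = (0, -(⟪z.2, e⟫ • z.1)) := by
    unfold hor; ext1 <;> simp
  rw [this, Prod.norm_def]
  apply max_le
  · simp
  · show ‖-(⟪z.2, e⟫ • z.1)‖ ≤ ‖z.2‖
    rw [norm_neg, norm_smul, h1, mul_one, Real.norm_eq_abs]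
    have := abs_real_inner_le_norm z.2 e
    have h3 : ‖z.2‖ * ‖e‖ ≤ ‖z.2‖ * 1 := by gcongr
    linarith

theorem norm_X_sub_le {z : E6} {e : E3} (h : IsFr z.1 e) (i : Fin 4) :
    ‖X z e i - X (z.1, 0) e i‖ ≤ ‖z.2‖ := by
  fin_cases i
  · exact norm_hor_sub_le h.1 h.2.1.le
  · exact norm_hor_sub_le h.1 (norm_cr_fr_le h)
  · show ‖ver e - ver e‖ ≤ ‖z.2‖
    simp
  · show ‖ver (cr z.1 e) - ver (cr z.1 e)‖ ≤ ‖z.2‖
    simp

/-- the closed disc bundle. -/
def KK (r : ℝ) : Set E6 := {z | ‖z.1‖ = 1 ∧ ⟪z.1, z.2⟫ = 0 ∧ ‖z.2‖ ≤ r}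

theorem isCompact_KK (r : ℝ) : IsCompact (KK r) := by
  have h1 : IsCompact ((Metric.sphere (0 : E3) 1) ×ˢ (Metric.closedBall (0 : E3) r)) :=
    (isCompact_sphere _ _).prod (isCompact_closedBall _ _)
  have h2 : IsClosed {z : E6 | ⟪z.1, z.2⟫ = 0} :=
    isClosed_eq (continuous_fst.inner continuous_snd) continuous_const
  have : KK r = ((Metric.sphere (0 : E3) 1) ×ˢ (Metric.closedBall (0 : E3) r)) ∩
      {z : E6 | ⟪z.1, z.2⟫ = 0} := by
    ext z
    simp [KK, mem_prod]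
    tauto
  rw [this]
  exact h1.inter_right h2

/-- LEAF LIP. -/
theorem lip (hG : GEO) : LIP := by
  intro r r' W hr' hr'r hW
  have hsub : KK r' ⊆ OS r := by
    intro z hz
    exact hG.TS_sub r ⟨hz.1, hz.2.1, lt_of_le_of_lt hz.2.2 hr'r⟩
  obtain ⟨B₀, hB₀⟩ := (isCompact_KK r').exists_bound_of_continuousOn (hW.continuousOn.mono hsub)
  obtain ⟨B₁, hB₁⟩ := (isCompact_KK r').exists_bound_of_continuousOn
    ((hW.continuousOn_fderiv_of_isOpen (hG.open_OS r) (by simp)).mono hsub)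
  set B : ℝ := max (max B₀ B₁) 1 with hB
  have hB0 : 0 < B := lt_of_lt_of_le one_pos (le_max_right _ _)
  have hBW : ∀ z ∈ KK r', ‖W z‖ ≤ B := fun z hz =>
    (hB₀ z hz).trans ((le_max_left _ _).trans (le_max_left _ _))
  have hBD : ∀ z ∈ KK r', ‖fderiv ℝ W z‖ ≤ B := fun z hz =>
    (hB₁ z hz).trans ((le_max_right _ _).trans (le_max_left _ _))
  set N : ℝ := 1 + r' with hN
  have hN0 : 0 < N := by positivity
  have hN1 : 1 ≤ N := by linarith
  refine ⟨3 * (B * N ^ 2), by positivity, ?_⟩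
  intro z e hz hzr he i j
  have hzK : z ∈ KK r' := ⟨hz.1, hz.2.1, hzr⟩
  have hz0K : ((z.1, 0) : E6) ∈ KK r' := ⟨hz.1, by simp, by simpa using hr'.le⟩
  have hXi := norm_X_le hzr he i
  have hXj := norm_X_le hzr he j
  have hX0i : ‖X (z.1, 0) e i‖ ≤ N := norm_X_le (z := (z.1, 0)) (by simpa using hr'.le) he i
  have hdi := norm_X_sub_le he i
  have hdj := norm_X_sub_le he j
  have hWd : ‖W z - W (z.1, 0)‖ ≤ B * ‖z.2‖ := by
    have hseg : segment ℝ ((z.1, 0) : E6) z ⊆ KK r' := by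
      intro y hy
      rw [segment_eq_image'] at hy
      obtain ⟨t, ht, rfl⟩ := hy
      have h1 : ((z.1, 0) : E6) + t • (z - (z.1, 0)) = (z.1, t • z.2) := by
        ext1 <;> simp
      show ((z.1, 0) : E6) + t • (z - (z.1, 0)) ∈ KK r'
      rw [h1]
      refine ⟨hz.1, ?_, ?_⟩
      · show ⟪z.1, t • z.2⟫ = 0
        rw [real_inner_smul_right, hz.2.1, mul_zero]
      · show ‖t • z.2‖ ≤ r'
        rw [norm_smul, Real.norm_eq_abs, abs_of_nonneg ht.1]
        calc t * ‖z.2‖ ≤ 1 * ‖z.2‖ := by gcongr; exact ht.2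
          _ ≤ r' := by linarith
    have h1 := (convex_segment ((z.1, 0) : E6) z).norm_image_sub_le_of_norm_hasFDerivWithin_le
      (f := W) (f' := fderiv ℝ W) (C := B)
      (fun y hy => (((hW.contDiffAt ((hG.open_OS r).mem_nhds (hsub (hseg hy)))).differentiableAt
        (by simp)).hasFDerivAt).hasFDerivWithinAt)
      (fun y hy => hBD y (hseg hy)) (left_mem_segment ℝ _ _) (right_mem_segment ℝ _ _)
    refine h1.trans ?_
    gcongr
    have : z - ((z.1, 0) : E6) = (0, z.2) := by ext1 <;> simp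
    rw [this, Prod.norm_def]
    simp
  have hz2 := norm_nonneg z.2
  constructor
  · unfold en
    have h1 : |W z (X z e i) (X z e j)| ≤ ‖W z‖ * ‖X z e i‖ * ‖X z e j‖ := by
      rw [← Real.norm_eq_abs]; exact (W z).le_opNorm₂ _ _
    calc |W z (X z e i) (X z e j)| ≤ ‖W z‖ * ‖X z e i‖ * ‖X z e j‖ := h1
      _ ≤ B * N * N := by
          have := hBW z hzK
          gcongr
      _ ≤ 3 * (B * N ^ 2) := by nlinarith [mul_pos hB0 (mul_pos hN0 hN0)]
  · unfold en
    have e1 : W z (X z e i) (X z e j) - W (z.1, 0) (X (z.1, 0) e i) (X (z.1, 0) e j)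
        = (W z - W (z.1, 0)) (X z e i) (X z e j)
          + W (z.1, 0) (X z e i - X (z.1, 0) e i) (X z e j)
          + W (z.1, 0) (X (z.1, 0) e i) (X z e j - X (z.1, 0) e j) := by
      simp only [map_sub, sub_apply]
      ring
    rw [e1]
    have a1 : |(W z - W (z.1, 0)) (X z e i) (X z e j)| ≤ B * ‖z.2‖ * N * N := by
      rw [← Real.norm_eq_abs]
      refine ((W z - W (z.1, 0)).le_opNorm₂ _ _).trans ?_
      gcongr
    have a2 : |W (z.1, 0) (X z e i - X (z.1, 0) e i) (X z e j)| ≤ B * ‖z.2‖ * N := by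
      rw [← Real.norm_eq_abs]
      refine ((W (z.1, 0)).le_opNorm₂ _ _).trans ?_
      have := hBW _ hz0K
      gcongr
    have a3 : |W (z.1, 0) (X (z.1, 0) e i) (X z e j - X (z.1, 0) e j)| ≤ B * N * ‖z.2‖ := by
      rw [← Real.norm_eq_abs]
      refine ((W (z.1, 0)).le_opNorm₂ _ _).trans ?_
      have := hBW _ hz0K
      gcongr
    refine (abs_add_three _ _ _).trans ?_
    have h5 : B * ‖z.2‖ * N ≤ B * ‖z.2‖ * N * N := by
      have : 0 ≤ B * ‖z.2‖ * N := by positivity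
      nlinarith
    nlinarith

end Crest.Agent.R235.K12Lip_895
end

-- ▼ part R235/K12Pos_776

/-!
Row 235 (S0364), block K12, analytic assembly (helper776): linearity of `Om`, pull-backs are
basic, existence of frames, the segment lemma, positivity on the whole tube and its uniform bound.
-/

set_option autoImplicit false
set_option maxSynthPendingDepth 3
set_option linter.unusedSectionVars false

open Set Function Filter MeasureTheory
open scoped Manifold ContDiff Topology RealInnerProductSpace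

universe u

namespace Crest.Agent.R235.K12Pos_776

open Crest.Agent.R240 Crest.Agent.R240.Ch Crest.Agent.R235 Crest.Agent.R235.K12_417
  Crest.Agent.R235.K12An_776 Crest.Agent.R235.PB_604 Crest.Agent.R235.K12Ext_168

noncomputable section

/-! ### frames -/

theorem exists_fr {q : E3} (hq : ‖q‖ = 1) : ∃ e : E3, IsFr q e := by
  have h1 : ∃ v : E3, v ≠ 0 ∧ ⟪q, v⟫ = 0 := by
    by_cases h : q 0 = 0 ∧ q 1 = 0
    · refine ⟨EuclideanSpace.single 0 1, ?_, ?_⟩
      · intro hc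
        have := congrArg (fun v : E3 => v 0) hc
        simp at this
      · simp [EuclideanSpace.inner_single_right, h.1]
    · refine ⟨!₂[q 1, - q 0, 0], ?_, ?_⟩
      · intro hc
        have h0 := congrArg (fun v : E3 => v 0) hc
        have h1 := congrArg (fun v : E3 => v 1) hc
        simp at h0 h1
        exact h ⟨h1, h0⟩
      · rw [K12Radf_843.inn]
        simp
        ring
  obtain ⟨v, hv0, hv⟩ := h1
  have hn : ‖v‖ ≠ 0 := norm_ne_zero_iff.2 hv0
  refine ⟨‖v‖⁻¹ • v, hq, ?_, ?_⟩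
  · rw [norm_smul, norm_inv, norm_norm, inv_mul_cancel₀ hn]
  · rw [real_inner_smul_right, hv, mul_zero]

/-! ### entries -/

theorem en_add (a b : B6) (z : E6) (e : E3) (i j : Fin 4) :
    en (a + b) z e i j = en a z e i j + en b z e i j := rfl


theorem en_smul (c : ℝ) (b : B6) (z : E6) (e : E3) (i j : Fin 4) :
    en (c • b) z e i j = c * en b z e i j := rfl

theorem en_sum (c : Fin 3 → ℝ) (b : Fin 3 → B6) (z : E6) (e : E3) (i j : Fin 4) :
    en (∑ k, c k • b k) z e i j = ∑ k, c k * en (b k) z e i j := by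
  simp [en, Fin.sum_univ_three]

theorem pf_sum (c : Fin 3 → ℝ) (b : Fin 3 → B6) (z : E6) (e : E3) :
    pf (∑ k, c k • b k) z e = pfE (fun i j => ∑ k, c k * en (b k) z e i j) := by
  simp only [pf, pfE, en_sum]

theorem posF_iff (b : Fin 3 → B6) (z : E6) (e : E3) : PosF b z e ↔
    ∀ c : Fin 3 → ℝ, c ≠ 0 → pfE (fun i j => ∑ k, c k * en (b k) z e i j) < 0 := by
  unfold PosF
  simp only [pf_sum]

/-! ### the pull-back -/

section Man

variable {M : Type u} [TopologicalSpace M] [T2Space M] [CompactSpace M]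
  [ChartedSpace E4 M] [IsManifold 𝓘(ℝ, E4) ∞ M]

variable {σ : E3 → M} {r : ℝ} {Ps : E6 → M} {G : M → E6} {U : Set M}

theorem Om_eq (Ps : E6 → M) (a : Z2 M) (z : E6) :
    Om Ps a z = pl (D1 E6 E4 Ps z) (val a (Ps z)) := rfl

theorem Om_add (a b : Z2 M) (z : E6) : Om Ps (a + b) z = Om Ps a z + Om Ps b z := by
  rw [Om_eq, Om_eq, Om_eq, ← pl_add]; rfl

theorem Om_smul (c : ℝ) (a : Z2 M) (z : E6) : Om Ps (c • a) z = c • Om Ps a z := by
  rw [Om_eq, Om_eq, ← pl_smul]; rfl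

theorem Om_neg (a : Z2 M) (z : E6) : Om Ps (-a) z = - Om Ps a z := by
  have := Om_smul (Ps := Ps) (-1) a z
  simpa using this

theorem Om_sum (c : Fin 3 → ℝ) (a : Fin 3 → Z2 M) (z : E6) :
    Om Ps (∑ k, c k • a k) z = ∑ k, c k • Om Ps (a k) z := by
  simp only [Fin.sum_univ_three, Om_add, Om_smul]

theorem val_sum (c : Fin 3 → ℝ) (a : Fin 3 → Z2 M) (x : M) :
    val (∑ k, c k • a k) x = ∑ k, c k • val (a k) x := by
  simp only [Fin.sum_univ_three]; rfl

theorem val_add (a b : Z2 M) (x : M) : val (a + b) x = val a x + val b x := rfl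

theorem val_smul (c : ℝ) (a : Z2 M) (x : M) : val (c • a) x = c • val a x := rfl

theorem z2At_rep {W : F2 E6 E6} {z : E6} (h : Z2At (E := E6) (X := E6) W z) :
    ContDiffAt ℝ ∞ (fun y => at2 W y) z ∧ (∀ u v w, dd (fun y => at2 W y) z u v w = 0) := by
  have h1 : rep z W = fun y => at2 W y := by
    funext y; exact rep_model z W y
  exact ⟨h1 ▸ h.sm, fun u v w => h1 ▸ h.cl u v w⟩

/-- the pull-back of a closed form by a tube is basic. -/
theorem basOm (h : Tube σ r Ps G U) (a : Z2 M) : Bas r (Om Ps a) := by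
  have hz2 : ∀ z ∈ OS r, Z2At (E := E6) (X := E6)
      (pb2 (E := E6) (F := E4) (X := E6) (M := M) Ps (a.1.1 : F2 E4 M)) z := fun z hz =>
    (z2At_of_mem a.1.2 a.2 (Ps z)).pb2 (smoothAt h hz)
  refine ⟨?_, ?_, ?_, ?_⟩
  · intro z hz
    exact ((z2At_rep (hz2 z hz)).1).contDiffWithinAt
  · intro z hz V
    exact (hz2 z hz).alt V
  · intro z hz V Y T
    exact (z2At_rep (hz2 z hz)).2 V Y T
  · intro z hz V Y
    have hP : ContMDiffAt 𝓘(ℝ, E6) 𝓘(ℝ, E4) 1 Ps (Pi z) :=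
      (smoothAt h (TS_subset_OS r (Pi_mem_TS hz))).of_le one_le_infty
    have hPi : ContMDiffAt 𝓘(ℝ, E6) 𝓘(ℝ, E6) 1 Pi z :=
      ((contDiffAt_Pi hz.1).contMDiffAt).of_le one_le_infty
    have h1 : (Ps ∘ Pi) =ᶠ[𝓝 z] Ps := by
      filter_upwards [(isOpen_OS r).mem_nhds hz] with y hy
      exact h.fac y hy
    have h2 := D1_comp (E := E6) (F := E6) (G := E4) hPi hP
    have h3 : D1 E6 E4 (Ps ∘ Pi) z = D1 E6 E4 Ps z := D1_congr h1
    rw [h3, D1_Pi] at h2
    rw [Om_eq, Om_eq, h.fac z hz, pl_apply, pl_apply, h2]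
    rfl

/-! ### the segment lemma -/

theorem posF_ne (hPF : PFIFF M) (hT : Tube σ r Ps G U) {w : Trip M} {z : E6} {e : E3}
    (hz : z ∈ TS r) (he : IsFr z.1 e) (hp : PosF (fun i => Om Ps (w i) z) z e)
    {c : Fin 3 → ℝ} (hc : c ≠ 0) :
    W (∑ i, c i • val (w i) (Ps z)) (∑ i, c i • val (w i) (Ps z)) ≠ 0 := by
  have h1 := hp c hc
  rw [← Om_sum] at h1
  have h2 := (hPF σ r Ps G U hT (∑ k, c k • w k) z e hz he).not.2 h1.ne
  rwa [val_sum] at h2

theorem seg_of (hPF : PFIFF M) (hT : Tube σ r Ps G U) {w : Trip M} (hw : Pos3 w)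
    (a : Fin 3 → Z2 M) {r' : ℝ} (_hr' : r' < r)
    (hs : ∀ i x, (∀ z ∈ TS r, ‖z.2‖ ≤ r' → x ≠ Ps z) → val (a i) x = 0)
    (hp : ∀ t ∈ Icc (0 : ℝ) 1, ∀ z ∈ TS r, ‖z.2‖ ≤ r' → ∀ e, IsFr z.1 e →
      PosF (fun i => Om Ps (w i) z + t • Om Ps (a i) z) z e) :
    Seg w (fun i => w i + a i) := by
  intro t h0 h1 x c hc
  have hseg : ∀ i, seg w (fun i => w i + a i) t i = w i + t • a i := by
    intro i
    show (1 - t) • w i + t • (w i + a i) = _
    rw [smul_add]
    module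
  by_cases hx : ∃ z ∈ TS r, ‖z.2‖ ≤ r' ∧ x = Ps z
  · obtain ⟨z, hz, hzr, rfl⟩ := hx
    obtain ⟨e, he⟩ := exists_fr hz.1
    have h2 := hp t ⟨h0, h1⟩ z hz hzr e he
    refine posF_ne hPF hT (w := seg w (fun i => w i + a i) t) hz he ?_ hc
    have h3 : (fun i => Om Ps (seg w (fun i => w i + a i) t i) z) =
        fun i => Om Ps (w i) z + t • Om Ps (a i) z := by
      funext i
      rw [hseg, Om_add, Om_smul]
    rw [h3]
    exact h2
  · push Not at hx
    have h2 : ∀ i, val (seg w (fun i => w i + a i) t i) x = val (w i) x := by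
      intro i
      rw [hseg, val_add, val_smul, hs i x (fun z hz hzr => hx z hz hzr), smul_zero, add_zero]
    simp only [h2]
    exact hw x c hc

theorem pos_end {w w' : Trip M} (h : Seg w w') : Pos3 w' := by
  have h1 := h 1 zero_le_one le_rfl
  have h2 : seg w w' 1 = w' := by
    funext i
    show (1 - (1 : ℝ)) • w i + (1 : ℝ) • w' i = w' i
    simp
  rwa [h2] at h1

/-! ### continuity of the entries -/

theorem continuous_cr : Continuous (fun x : E3 × E3 => cr x.1 x.2) := by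
  unfold cr
  refine (PiLp.continuous_toLp 2 _).comp ?_
  refine continuous_pi fun i => ?_
  fin_cases i <;> simp <;> fun_prop

theorem continuous_X (i : Fin 4) : Continuous (fun x : E6 × E3 => X x.1 x.2 i) := by
  have h1 : Continuous (fun x : E6 × E3 => cr x.1.1 x.2) :=
    continuous_cr.comp ((continuous_fst.comp continuous_fst).prodMk continuous_snd)
  fin_cases i
  · show Continuous (fun x : E6 × E3 => ((x.2, -(⟪x.1.2, x.2⟫ • x.1.1)) : E6))
    fun_prop
  · show Continuous (fun x : E6 × E3 => ((cr x.1.1 x.2, -(⟪x.1.2, cr x.1.1 x.2⟫ • x.1.1)) : E6))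
    fun_prop
  · show Continuous (fun x : E6 × E3 => ((0, x.2) : E6))
    fun_prop
  · show Continuous (fun x : E6 × E3 => ((0, cr x.1.1 x.2) : E6))
    fun_prop

theorem continuousOn_en {W : E6 → B6} (hW : ContinuousOn W (OS r)) (i j : Fin 4) :
    ContinuousOn (fun x : E6 × E3 => en (W x.1) x.1 x.2 i j) (OS r ×ˢ univ) := by
  have h1 : ContinuousOn (fun x : E6 × E3 => W x.1) (OS r ×ˢ univ) :=
    hW.comp continuous_fst.continuousOn fun x hx => hx.1
  exact (h1.clm_apply (continuous_X i).continuousOn).clm_apply (continuous_X j).continuousOn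

/-- the entries of the combination, as a function of everything. -/
def QF (b : Fin 3 → E6 → B6) (x : (E6 × E3) × (Fin 3 → ℝ)) : ℝ :=
  pfE (fun i j => ∑ k, x.2 k * en (b k x.1.1) x.1.1 x.1.2 i j)

theorem continuousOn_QF {b : Fin 3 → E6 → B6} (hb : ∀ k, ContinuousOn (b k) (OS r)) :
    ContinuousOn (QF b) ((OS r ×ˢ univ) ×ˢ univ) := by
  have h1 : ∀ i j, ContinuousOn (fun x : (E6 × E3) × (Fin 3 → ℝ) =>
      ∑ k, x.2 k * en (b k x.1.1) x.1.1 x.1.2 i j) ((OS r ×ˢ univ) ×ˢ univ) := by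
    intro i j
    refine continuousOn_finsetSum _ fun k _ => ?_
    refine ContinuousOn.mul (by fun_prop) ?_
    exact (continuousOn_en (hb k) i j).comp continuous_fst.continuousOn fun x hx => hx.1
  unfold QF pfE
  exact (((h1 0 1).mul (h1 2 3)).sub ((h1 0 2).mul (h1 1 3))).add ((h1 0 3).mul (h1 1 2))

theorem QF_smul (b : Fin 3 → E6 → B6) (x : E6 × E3) (t : ℝ) (c : Fin 3 → ℝ) :
    QF b (x, t • c) = t ^ 2 * QF b (x, c) := by
  unfold QF pfE
  simp only [Fin.sum_univ_three, Pi.smul_apply, smul_eq_mul]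
  ring

/-! ### positivity on the tube -/

theorem QF_ne (hPF : PFIFF M) (hT : Tube σ r Ps G U) {w : Trip M} (hw : Pos3 w) {z : E6} {e : E3}
    (hz : z ∈ TS r) (he : IsFr z.1 e) {c : Fin 3 → ℝ} (hc : c ≠ 0) :
    QF (fun k => Om Ps (w k)) ((z, e), c) ≠ 0 := by
  have h1 := hw (Ps z) c hc
  rw [← val_sum] at h1
  have h2 := (hPF σ r Ps G U hT (∑ k, c k • w k) z e hz he).not.1 h1
  rw [Om_sum, pf_sum] at h2
  exact h2

/-- all the forms are positive in the sense of `PosF` on the tube. -/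
theorem pos_tube (hPF : PFIFF M) (hT : Tube σ r Ps G U) {w : Trip M} (hw : Pos3 w)
    (h1 : ∀ q e : E3, IsFr q e → en (Om Ps (w 1) (q, 0)) (q, 0) e 0 1 = 0 ∧
      en (Om Ps (w 1) (q, 0)) (q, 0) e 0 2 = -1 ∧ en (Om Ps (w 1) (q, 0)) (q, 0) e 1 3 = -1 ∧
        en (Om Ps (w 1) (q, 0)) (q, 0) e 0 3 = 0)
    {z : E6} {e : E3} (hz : z ∈ TS r) (he : IsFr z.1 e) :
    PosF (fun i => Om Ps (w i) z) z e := by
  rw [posF_iff]
  intro c hc
  -- the path
  set F : ℝ × (Fin 3 → ℝ) → ℝ := fun x =>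
    QF (fun k => Om Ps (w k)) ((((z.1, x.1 • z.2) : E6), e), x.2) with hF
  set S : Set (ℝ × (Fin 3 → ℝ)) := Icc (0 : ℝ) 1 ×ˢ {(0 : Fin 3 → ℝ)}ᶜ with hS
  have hmem : ∀ x ∈ S, ((z.1, x.1 • z.2) : E6) ∈ TS r := by
    intro x hx
    have hx1 := hx.1
    refine ⟨hz.1, ?_, ?_⟩
    · show ⟪z.1, x.1 • z.2⟫ = 0
      rw [real_inner_smul_right, hz.2.1, mul_zero]
    · show ‖x.1 • z.2‖ < r
      rw [norm_smul, Real.norm_of_nonneg hx1.1]
      have h3 : x.1 * ‖z.2‖ ≤ ‖z.2‖ := mul_le_of_le_one_left (norm_nonneg _) hx1.2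
      exact lt_of_le_of_lt h3 hz.2.2
  have hcont : ContinuousOn F S := by
    have hb : ∀ k, ContinuousOn ((fun k => Om Ps (w k)) k) (OS r) := fun k =>
      (basOm hT (w k)).smooth.continuousOn
    refine (continuousOn_QF hb).comp ?_ ?_
    · fun_prop
    · intro x hx
      exact ⟨⟨TS_subset_OS r (hmem x hx), mem_univ _⟩, mem_univ _⟩
  have hpre : IsPreconnected S := by
    refine isPreconnected_Icc.prod ?_
    refine (isConnected_compl_singleton_of_one_lt_rank ?_ 0).isPreconnected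
    rw [rank_fun']
    norm_num
  have hne : ∀ x ∈ S, F x ≠ 0 := fun x hx => QF_ne hPF hT hw (hmem x hx) he hx.2
  -- the value at the zero section
  set c₁ : Fin 3 → ℝ := ![0, 1, 0] with hc₁
  have hx0 : ((0 : ℝ), c₁) ∈ S := by
    refine ⟨⟨le_rfl, zero_le_one⟩, ?_⟩
    intro h
    have := congrFun h 1
    simp [hc₁] at this
  have hv0 : F (0, c₁) < 0 := by
    obtain ⟨t1, t2, t3, t4⟩ := h1 z.1 e he
    simp only [hF, QF, pfE, Fin.sum_univ_three, hc₁]
    simp [t1, t2, t3, t4]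
  have hx1 : ((1 : ℝ), c) ∈ S := ⟨⟨zero_le_one, le_rfl⟩, hc⟩
  have hFc : F (1, c) = pfE (fun i j => ∑ k, c k * en (Om Ps (w k) z) z e i j) := by
    simp only [hF, QF, one_smul]
  rw [← hFc]
  by_contra hcon
  have hpos : 0 < F (1, c) := lt_of_le_of_ne (not_lt.1 hcon) (hne _ hx1).symm
  obtain ⟨x, hx, hxe⟩ := hpre.intermediate_value hx0 hx1 hcont ⟨hv0.le, hpos.le⟩
  exact hne x hx hxe

/-- the set of frames over the closed disc bundle. -/
def FR (r : ℝ) : Set (E6 × E3) := {x | x.1 ∈ K12Lip_895.KK r ∧ ‖x.2‖ = 1 ∧ ⟪x.1.1, x.2⟫ = 0}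

theorem isCompact_FR (r : ℝ) : IsCompact (FR r) := by
  have h1 : IsCompact ((K12Lip_895.KK r) ×ˢ (Metric.sphere (0 : E3) 1)) :=
    (K12Lip_895.isCompact_KK r).prod (isCompact_sphere _ _)
  have h2 : IsClosed {x : E6 × E3 | ⟪x.1.1, x.2⟫ = 0} :=
    isClosed_eq ((continuous_fst.comp continuous_fst).inner continuous_snd) continuous_const
  have : FR r = ((K12Lip_895.KK r) ×ˢ (Metric.sphere (0 : E3) 1)) ∩
      {x : E6 × E3 | ⟪x.1.1, x.2⟫ = 0} := by
    ext x
    simp [FR, mem_prod]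
    tauto
  rw [this]
  exact h1.inter_right h2

theorem mem_FR {r' : ℝ} {z : E6} {e : E3} (hz : z ∈ TS r) (hr : ‖z.2‖ ≤ r') (he : IsFr z.1 e) :
    (z, e) ∈ FR r' := ⟨⟨hz.1, hz.2.1, hr⟩, he.2.1, he.2.2⟩

/-- uniform positivity. -/
theorem kappa (hPF : PFIFF M) (hT : Tube σ r Ps G U) {w : Trip M} (hw : Pos3 w)
    (h1 : ∀ q e : E3, IsFr q e → en (Om Ps (w 1) (q, 0)) (q, 0) e 0 1 = 0 ∧
      en (Om Ps (w 1) (q, 0)) (q, 0) e 0 2 = -1 ∧ en (Om Ps (w 1) (q, 0)) (q, 0) e 1 3 = -1 ∧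
        en (Om Ps (w 1) (q, 0)) (q, 0) e 0 3 = 0) {r' : ℝ} (hr' : r' < r) :
    ∃ κ : ℝ, 0 < κ ∧ ∀ z ∈ TS r, ‖z.2‖ ≤ r' → ∀ e, IsFr z.1 e → ∀ c : Fin 3 → ℝ,
      κ * (c 0 ^ 2 + c 1 ^ 2 + c 2 ^ 2) ≤
        - pfE (fun i j => ∑ k, c k * en (Om Ps (w k) z) z e i j) := by
  set Sph : Set (Fin 3 → ℝ) := {c | c 0 ^ 2 + c 1 ^ 2 + c 2 ^ 2 = 1} with hSph
  have hSc : IsCompact Sph := by
    refine Metric.isCompact_of_isClosed_isBounded ?_ ?_
    · exact isClosed_eq (by fun_prop) continuous_const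
    · refine (Metric.isBounded_closedBall (x := (0 : Fin 3 → ℝ)) (r := 1)).subset ?_
      intro c hc
      rw [mem_closedBall_zero_iff, pi_norm_le_iff_of_nonneg zero_le_one]
      intro i
      rw [Real.norm_eq_abs, abs_le_one_iff_mul_self_le_one]
      have hc' : c 0 ^ 2 + c 1 ^ 2 + c 2 ^ 2 = 1 := hc
      fin_cases i <;> simp <;> nlinarith [sq_nonneg (c 0), sq_nonneg (c 1), sq_nonneg (c 2)]
  have hsub : FR r' ×ˢ Sph ⊆ (OS r ×ˢ univ) ×ˢ univ := by
    rintro ⟨⟨z, e⟩, c⟩ ⟨h, _⟩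
    refine ⟨⟨TS_subset_OS r ?_, mem_univ _⟩, mem_univ _⟩
    exact ⟨h.1.1, h.1.2.1, lt_of_le_of_lt h.1.2.2 hr'⟩
  have hb : ∀ k, ContinuousOn ((fun k => Om Ps (w k)) k) (OS r) := fun k =>
    (basOm hT (w k)).smooth.continuousOn
  have hcont : ContinuousOn (fun x => - QF (fun k => Om Ps (w k)) x) (FR r' ×ˢ Sph) :=
    ((continuousOn_QF hb).mono hsub).neg
  have hK : IsCompact (FR r' ×ˢ Sph) := (isCompact_FR r').prod hSc
  have hpos : ∀ x ∈ FR r' ×ˢ Sph, 0 < - QF (fun k => Om Ps (w k)) x := by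
    rintro ⟨⟨z, e⟩, c⟩ ⟨h, hc⟩
    have hz : z ∈ TS r := ⟨h.1.1, h.1.2.1, lt_of_le_of_lt h.1.2.2 hr'⟩
    have h2 := pos_tube hPF hT hw h1 hz (e := e) ⟨h.1.1, h.2.1, h.2.2⟩
    rw [posF_iff] at h2
    have hc0 : c ≠ 0 := by
      rintro rfl
      have : (0 : ℝ) ^ 2 + 0 ^ 2 + 0 ^ 2 = 1 := hc
      norm_num at this
    have h3 := h2 c hc0
    show 0 < - pfE _
    linarith
  obtain ⟨κ, hκ0, hκ⟩ : ∃ κ : ℝ, 0 < κ ∧ ∀ x ∈ FR r' ×ˢ Sph,
      κ ≤ - QF (fun k => Om Ps (w k)) x := by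
    rcases (FR r' ×ˢ Sph).eq_empty_or_nonempty with h | h
    · exact ⟨1, one_pos, fun x hx => by rw [h] at hx; exact absurd hx (notMem_empty x)⟩
    · obtain ⟨x0, hx0, hmin⟩ := hK.exists_isMinOn h hcont
      exact ⟨_, hpos x0 hx0, fun x hx => hmin hx⟩
  refine ⟨κ, hκ0, ?_⟩
  intro z hz hzr e he c
  by_cases hc : c 0 ^ 2 + c 1 ^ 2 + c 2 ^ 2 = 0
  · have h0 : c 0 = 0 := by nlinarith [sq_nonneg (c 0), sq_nonneg (c 1), sq_nonneg (c 2)]
    have h1 : c 1 = 0 := by nlinarith [sq_nonneg (c 0), sq_nonneg (c 1), sq_nonneg (c 2)]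
    have h2 : c 2 = 0 := by nlinarith [sq_nonneg (c 0), sq_nonneg (c 1), sq_nonneg (c 2)]
    simp [pfE, Fin.sum_univ_three, h0, h1, h2]
  · set N : ℝ := c 0 ^ 2 + c 1 ^ 2 + c 2 ^ 2 with hN
    have hN0 : 0 < N := lt_of_le_of_ne (by positivity) (Ne.symm hc)
    set t : ℝ := (√N)⁻¹ with ht
    have hsq : √N ^ 2 = N := Real.sq_sqrt hN0.le
    have hsp : 0 < √N := Real.sqrt_pos.2 hN0
    have ht2 : t ^ 2 * N = 1 := by
      rw [ht, inv_pow, hsq]; field_simp
    have hmem : (((z, e), t • c) : (E6 × E3) × (Fin 3 → ℝ)) ∈ FR r' ×ˢ Sph := by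
      refine ⟨mem_FR hz hzr he, ?_⟩
      show (t • c) 0 ^ 2 + (t • c) 1 ^ 2 + (t • c) 2 ^ 2 = 1
      simp only [Pi.smul_apply, smul_eq_mul]
      rw [← ht2, hN]; ring
    have h2 := hκ _ hmem
    rw [QF_smul] at h2
    have h3 : κ * N ≤ (- (t ^ 2 * QF (fun k => Om Ps (w k)) ((z, e), c))) * N :=
      mul_le_mul_of_nonneg_right h2 hN0.le
    have h4 : (- (t ^ 2 * QF (fun k => Om Ps (w k)) ((z, e), c))) * N =
        - ((t ^ 2 * N) * QF (fun k => Om Ps (w k)) ((z, e), c)) := by ring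
    rw [h4, ht2, one_mul] at h3
    exact h3

end Man

end

end Crest.Agent.R235.K12Pos_776
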