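import Crest.Agent.R235.K12S1_776
import Crest.Agent.R235.K12Num_776
import Crest.Agent.R235.K12S2b_776
import Crest.Agent.R235.K12Defs_417
import Crest.Agent.R235.K12Pos_776
import Crest.Agent.R235.K12AnDefs_776
import Crest.Agent.R235.K12Ext2_168

-- ▼ part R235/K12S2a_776
section

/-!
Row 235 (S0364), block K12, analytic assembly (helper776): STEP II, the primitives `β k` of the
differences with the model forms, and the cut-off functions on `OS r`.
-/

set_option autoImplicit false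
set_option maxSynthPendingDepth 3
set_option linter.unusedSectionVars false

open Set Function Filter MeasureTheory
open scoped Manifold ContDiff Topology RealInnerProductSpace

universe u

namespace Crest.Agent.R235.K12S2a_776

open Crest.Agent.R240 Crest.Agent.R240.Ch Crest.Agent.R235 Crest.Agent.R235.K12_417
  Crest.Agent.R235.K12An_776 Crest.Agent.R235.K12Pos_776 Crest.Agent.R235.K12S1_776
  Crest.Agent.R235.K12Ext_168

noncomputable section

/-! ### linearity of `Bas` and `Bas1` -/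

variable {r : ℝ}

theorem bas_add {W W' : E6 → B6} (h : Bas r W) (h' : Bas r W') :
    Bas r (fun z => W z + W' z) := by
  have hd : ∀ {V : E6 → B6}, Bas r V → ∀ z ∈ OS r, DifferentiableAt ℝ V z := fun hV z hz =>
    (hV.smooth.contDiffAt ((isOpen_OS r).mem_nhds hz)).differentiableAt (by simp)
  refine ⟨h.smooth.add h'.smooth, ?_, ?_, ?_⟩
  · intro z hz U
    show W z U U + W' z U U = 0
    rw [h.alt z hz, h'.alt z hz, add_zero]
  · intro z hz U V Y
    rw [dd_add (hd h z hz) (hd h' z hz), h.closed z hz, h'.closed z hz, add_zero]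
  · intro z hz U V
    show W z U V + W' z U V = W (Pi z) (fderiv ℝ Pi z U) (fderiv ℝ Pi z V) +
      W' (Pi z) (fderiv ℝ Pi z U) (fderiv ℝ Pi z V)
    rw [h.bas z hz, h'.bas z hz]

theorem bas_smul {W : E6 → B6} (c : ℝ) (h : Bas r W) : Bas r (fun z => c • W z) := by
  have hd : ∀ {V : E6 → B6}, Bas r V → ∀ z ∈ OS r, DifferentiableAt ℝ V z := fun hV z hz =>
    (hV.smooth.contDiffAt ((isOpen_OS r).mem_nhds hz)).differentiableAt (by simp)
  refine ⟨h.smooth.const_smul c, ?_, ?_, ?_⟩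
  · intro z hz U
    show c * W z U U = 0
    rw [h.alt z hz, mul_zero]
  · intro z hz U V Y
    rw [dd_const_smul c (hd h z hz), h.closed z hz, mul_zero]
  · intro z hz U V
    show c * W z U V = c * W (Pi z) (fderiv ℝ Pi z U) (fderiv ℝ Pi z V)
    rw [h.bas z hz]

theorem bas_sub {W W' : E6 → B6} (h : Bas r W) (h' : Bas r W') :
    Bas r (fun z => W z - W' z) := by
  have h1 := bas_add h (bas_smul (-1) h')
  have h2 : (fun z => W z - W' z) = fun z => W z + (-1 : ℝ) • W' z := by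
    funext z; rw [neg_one_smul, sub_eq_add_neg]
  rw [h2]; exact h1

theorem bas1_add {β β' : E6 → E6 →L[ℝ] ℝ} (h : Bas1 r β) (h' : Bas1 r β') :
    Bas1 r (fun z => β z + β' z) := by
  refine ⟨h.smooth.add h'.smooth, ?_⟩
  intro z hz U
  show β z U + β' z U = β (Pi z) (fderiv ℝ Pi z U) + β' (Pi z) (fderiv ℝ Pi z U)
  rw [h.bas z hz, h'.bas z hz]

theorem bas1_diff {β : E6 → E6 →L[ℝ] ℝ} (h : Bas1 r β) {z : E6} (hz : z ∈ OS r) :
    ContDiffAt ℝ ∞ β z := h.smooth.contDiffAt ((isOpen_OS r).mem_nhds hz)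

/-! ### the constant multiple of the area form -/

theorem FG_const (c t₀ : ℝ) (z : E6) : FG (fun _ => c) c 0 t₀ z = c • PB2 ar z := by
  unfold FG
  have h1 : (fun y : E6 => (- kf (fun _ => c) c 0 t₀ (rho y)) • PB1 l3 y) = fun _ => 0 := by
    funext y
    have : kf (fun _ => c) c 0 t₀ (rho y) = 0 := by
      unfold kf; split_ifs <;> simp
    rw [this, neg_zero, zero_smul]
  rw [h1]
  have h2 : d1 (fun _ : E6 => (0 : E6 →L[ℝ] ℝ)) z = 0 := by
    unfold d1; simp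
  rw [h2, zero_add]

theorem prof_const (c : ℝ) {t₀ : ℝ} (h : 0 < t₀) : Prof (fun _ => c) c 0 t₀ :=
  ⟨contDiff_const, h, fun t _ => by simp⟩

theorem Pi_zero' {q : E3} (hq : ‖q‖ = 1) : Pi ((q, 0) : E6) = (q, 0) := by
  unfold Pi; simp [hq]

theorem PB2_ar_zero (hG : GEO) {q u v : E3} (hq : ‖q‖ = 1) (hu : ⟪q, u⟫ = 0) (hv : ⟪q, v⟫ = 0) :
    PB2 ar (q, 0) (u, 0) (v, 0) = ⟪q, cr u v⟫ := by
  rw [PB2, PB_604.pl_apply, hG.fixh q u hq hu, hG.fixh q v hq hv, Pi_zero' hq]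
  rw [K12Radf_843.inn]
  simp [ar, wd, dq, cr]

theorem FGc_zero (hG : GEO) (c t₀ : ℝ) {q u v : E3} (hq : ‖q‖ = 1) (hu : ⟪q, u⟫ = 0)
    (hv : ⟪q, v⟫ = 0) : FG (fun _ => c) c 0 t₀ (q, 0) (u, 0) (v, 0) = c * ⟪q, cr u v⟫ := by
  rw [FG_const]
  show c * PB2 ar (q, 0) (u, 0) (v, 0) = _
  rw [PB2_ar_zero hG hq hu hv]

/-! ### the pulled-back potential on the base -/

/-- the one-form `γ` read on `E6`. -/
def Gam (γ : E3 → E3 →L[ℝ] ℝ) (z : E6) : E6 →L[ℝ] ℝ :=
  (γ z.1).comp (ContinuousLinearMap.fst ℝ E3 E3)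

theorem Gam_smooth {γ : E3 → E3 →L[ℝ] ℝ} (hγ : ContDiffOn ℝ ∞ γ {0}ᶜ) {z : E6} (hz : z.1 ≠ 0) :
    ContDiffAt ℝ ∞ (Gam γ) z := by
  have h1 : ContDiffAt ℝ ∞ γ z.1 := hγ.contDiffAt (isOpen_compl_singleton.mem_nhds hz)
  exact (h1.comp z contDiffAt_fst).clm_comp contDiffAt_const

theorem d1_Gam {γ : E3 → E3 →L[ℝ] ℝ} (hγ : ContDiffOn ℝ ∞ γ {0}ᶜ) {z : E6} (hz : z.1 ≠ 0)
    (U V : E6) : d1 (Gam γ) z U V = d1 γ z.1 U.1 V.1 := by
  have h1 : DifferentiableAt ℝ γ z.1 :=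
    (hγ.contDiffAt (isOpen_compl_singleton.mem_nhds hz)).differentiableAt (by simp)
  have h2 : ∀ U V : E6, fderiv ℝ (Gam γ) z U V = fderiv ℝ γ z.1 U.1 V.1 := by
    intro U V
    have h3 : HasFDerivAt (fun y : E6 => γ y.1)
        ((fderiv ℝ γ z.1).comp (ContinuousLinearMap.fst ℝ E3 E3)) z :=
      h1.hasFDerivAt.comp z hasFDerivAt_fst
    have h4 : HasFDerivAt (Gam γ) _ z :=
      h3.clm_comp (hasFDerivAt_const (ContinuousLinearMap.fst ℝ E3 E3) z)
    rw [h4.fderiv]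
    simp
  rw [d1_apply, d1_apply, h2, h2]

theorem PB1_Gam_zero (hG : GEO) {γ : E3 → E3 →L[ℝ] ℝ} (hγ : ContDiffOn ℝ ∞ γ {0}ᶜ)
    (hr : 0 < r) {q u v : E3} (hq : ‖q‖ = 1) (hu : ⟪q, u⟫ = 0) (hv : ⟪q, v⟫ = 0) :
    d1 (PB1 (Gam γ)) (q, 0) (u, 0) (v, 0) = d1 γ q u v := by
  have hq0 : q ≠ 0 := by rintro rfl; simp at hq
  have hmem : ((q, 0) : E6) ∈ OS r := TS_subset_OS r ⟨hq, by simp, by simpa using hr⟩
  rw [hG.d1PB r (Gam γ) (q, 0) hmem (by
    rw [Pi_zero' hq]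
    exact (Gam_smooth hγ hq0).differentiableAt (by simp)),
    PB_604.pl_apply, hG.fixh q u hq hu, hG.fixh q v hq hv, Pi_zero' hq]
  exact d1_Gam hγ hq0 _ _

theorem bas_l1 (hG : GEO) (r : ℝ) : Bas r (d1 (PB1 l1)) :=
  hG.basd r _ (hG.bas1 r l1 fun _ _ => K12Radf_843.contDiff_l1.contDiffAt)

theorem bas_l2 (hG : GEO) (r : ℝ) : Bas r (d1 (PB1 l2)) :=
  hG.basd r _ (hG.bas1 r l2 fun _ _ => K12Radf_843.contDiff_l2.contDiffAt)

theorem en_l1 (hG : GEO) {z : E6} {e : E3} (hz : z ∈ TS r) (he : IsFr z.1 e) (i j : Fin 4) :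
    en (d1 (PB1 l1) z) z e i j = en (d1 l1 z) z e i j := by
  have h1 := hG.d1PB r l1 z (hG.TS_sub r hz)
    (K12Radf_843.contDiff_l1.differentiable (by simp)).differentiableAt
  rw [h1, en, PB_604.pl_apply, hG.fix r z e hz he, hG.fix r z e hz he, hG.Pi_TS r z hz]
  rfl

theorem en_l2 (hG : GEO) {z : E6} {e : E3} (hz : z ∈ TS r) (he : IsFr z.1 e) (i j : Fin 4) :
    en (d1 (PB1 l2) z) z e i j = en (d1 l2 z) z e i j := by
  have h1 := hG.d1PB r l2 z (hG.TS_sub r hz)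
    (K12Radf_843.contDiff_l2.differentiable (by simp)).differentiableAt
  rw [h1, en, PB_604.pl_apply, hG.fix r z e hz he, hG.fix r z e hz he, hG.Pi_TS r z hz]
  rfl

theorem l2_zero (hG : GEO) (hr : 0 < r) {q u v : E3} (hq : ‖q‖ = 1) (hu : ⟪q, u⟫ = 0)
    (hv : ⟪q, v⟫ = 0) : d1 (PB1 l2) (q, 0) (u, 0) (v, 0) = 0 := by
  have hmem : ((q, 0) : E6) ∈ OS r := TS_subset_OS r ⟨hq, by simp, by simpa using hr⟩
  rw [hG.d1PB r l2 (q, 0) hmem (K12Radf_843.contDiff_l2.differentiable (by simp)).differentiableAt,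
    PB_604.pl_apply, hG.fixh q u hq hu, hG.fixh q v hq hv, Pi_zero' hq, K12Radf_843.d1_l2]
  simp

/-! ### the mean value of the density -/

theorem exists_mean {f : E3 → ℝ} (hf : Hom0 f) (hpos : ∀ q, q ≠ 0 → 0 < f q) :
    ∃ c : ℝ, 0 < c ∧
      ∫ y : Metric.sphere (0 : E3) 1, (f y - c) ∂((volume : Measure E3).toSphere) = 0 := by
  set μ := (volume : Measure E3).toSphere with hμ
  have hcont : Continuous fun y : Metric.sphere (0 : E3) 1 => f y := by
    have h1 : ContinuousOn f {0}ᶜ := hf.1.continuousOn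
    refine h1.comp_continuous continuous_subtype_val ?_
    intro y hy
    have h2 := y.2
    rw [mem_singleton_iff] at hy
    rw [hy] at h2
    simp at h2
  have hne : (univ : Set (Metric.sphere (0 : E3) 1)).Nonempty :=
    ⟨⟨EuclideanSpace.single 0 1, by simp⟩, mem_univ _⟩
  have hint : Integrable (fun y : Metric.sphere (0 : E3) 1 => f y) μ :=
    hcont.integrable_of_hasCompactSupport (HasCompactSupport.of_compactSpace _)
  have hμ0 : μ ≠ 0 := by
    intro h0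
    have h1 := congrArg (fun m : Measure (Metric.sphere (0 : E3) 1) => m univ) h0
    simp only [hμ] at h1
    rw [Measure.toSphere_apply_univ] at h1
    simp only [Measure.coe_zero, Pi.zero_apply, mul_eq_zero] at h1
    rcases h1 with h1 | h1
    · simp at h1
    · exact (Metric.measure_ball_pos volume (0 : E3) one_pos).ne' h1
  have hreal : 0 < μ.real univ := by
    rw [Measure.real, ENNReal.toReal_pos_iff]
    exact ⟨by
      rw [pos_iff_ne_zero]
      exact fun h => hμ0 (Measure.measure_univ_eq_zero.1 h), measure_lt_top μ univ⟩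
  have hpos' : 0 < ∫ y : Metric.sphere (0 : E3) 1, f y ∂μ := by
    obtain ⟨y0, _, hmin⟩ := isCompact_univ.exists_isMinOn hne hcont.continuousOn
    have hy0 : 0 < f y0 := hpos y0 (by
      intro hy
      have h2 := y0.2
      rw [hy] at h2
      simp at h2)
    have h1 : ∫ _ : Metric.sphere (0 : E3) 1, f y0 ∂μ ≤ ∫ y : Metric.sphere (0 : E3) 1, f y ∂μ :=
      integral_mono (integrable_const _) hint fun y => hmin (mem_univ y)
    rw [integral_const, smul_eq_mul] at h1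
    exact lt_of_lt_of_le (mul_pos hreal hy0) h1
  refine ⟨(∫ y : Metric.sphere (0 : E3) 1, f y ∂μ) / μ.real univ, div_pos hpos' hreal, ?_⟩
  rw [integral_sub hint (integrable_const _), integral_const, smul_eq_mul]
  field_simp
  ring

/-! ### the cut-off function -/

theorem rho_cont {z : E6} (hz : z.1 ≠ 0) : ContinuousAt rho z :=
  (continuous_norm.comp continuous_snd).continuousAt.comp (contDiffAt_Pi hz).continuousAt

variable {χ : ℝ → ℝ} {ρ' : ℝ}

theorem chi_ev {z : E6} (hz : z.1 ≠ 0) (hz2 : rho z < ρ') {c : ℝ} (h1 : ∀ t ≤ ρ', χ t = c) :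
    (fun y => χ (rho y)) =ᶠ[𝓝 z] fun _ => c := by
  filter_upwards [(rho_cont hz).eventually_lt_const hz2] with y hy
  exact h1 _ hy.le

theorem chi_smooth (hχ : ContDiff ℝ ∞ χ) (hρ : 0 < ρ') {c : ℝ} (h1 : ∀ t ≤ ρ', χ t = c) {z : E6}
    (hz : z.1 ≠ 0) : ContDiffAt ℝ ∞ (fun y => χ (rho y)) z := by
  by_cases h : rho z < ρ'
  · exact contDiffAt_const.congr_of_eventuallyEq (chi_ev hz h h1)
  · have h2 : (Pi z).2 ≠ 0 := by
      intro h0
      apply h
      show ‖(Pi z).2‖ < ρ'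
      rw [h0, norm_zero]
      exact hρ
    have h3 : ContDiffAt ℝ ∞ rho z :=
      (contDiffAt_norm ℝ h2).comp z (contDiffAt_snd.comp z (contDiffAt_Pi hz))
    exact hχ.contDiffAt.comp z h3

/-- the derivative of the radius in the frame. -/
theorem drho (hG : GEO) {z : E6} {e : E3} (hz : z ∈ TS r) (he : IsFr z.1 e) (h0 : z.2 ≠ 0)
    (i : Fin 4) : HasFDerivAt rho (fderiv ℝ rho z) z ∧
      fderiv ℝ rho z (X z e i) = ⟪z.2, (X z e i).2⟫ / ‖z.2‖ := by
  have hz1 : z.1 ≠ 0 := (TS_subset_OS r hz).1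
  have hPi : HasFDerivAt Pi (fderiv ℝ Pi z) z :=
    ((contDiffAt_Pi hz1).differentiableAt (by simp)).hasFDerivAt
  have hP2 : HasFDerivAt (fun y => (Pi y).2)
      ((ContinuousLinearMap.snd ℝ E3 E3).comp (fderiv ℝ Pi z)) z := hasFDerivAt_snd.comp z hPi
  have hn := hP2.norm_sq
  have hPz : (Pi z).2 = z.2 := by rw [hG.Pi_TS r z hz]
  have hne : ‖(Pi z).2‖ ^ 2 ≠ 0 := by
    rw [hPz]; exact pow_ne_zero 2 (norm_ne_zero_iff.2 h0)
  have hs := hn.sqrt hne
  have he2 : (fun y => √(‖(Pi y).2‖ ^ 2)) = rho := by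
    funext y
    exact Real.sqrt_sq (norm_nonneg _)
  rw [he2] at hs
  refine ⟨hs.differentiableAt.hasFDerivAt, ?_⟩
  rw [hs.fderiv]
  simp only [hPz, smul_apply, ContinuousLinearMap.comp_apply,
    hG.fix r z e hz he, smul_eq_mul, Real.sqrt_sq (norm_nonneg z.2)]
  show 1 / (2 * ‖z.2‖) * (2 • ⟪z.2, (X z e i).2⟫) = _
  have : ‖z.2‖ ≠ 0 := norm_ne_zero_iff.2 h0
  simp only [nsmul_eq_mul]
  field_simp
  norm_num

theorem dchi (hG : GEO) (hχ : ContDiff ℝ ∞ χ) (hρ : 0 < ρ') {c : ℝ} (h1 : ∀ t ≤ ρ', χ t = c)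
    {z : E6} {e : E3} (hz : z ∈ TS r) (he : IsFr z.1 e) :
    fderiv ℝ (fun y => χ (rho y)) z (X z e 0) = 0 ∧
    fderiv ℝ (fun y => χ (rho y)) z (X z e 1) = 0 ∧
    |fderiv ℝ (fun y => χ (rho y)) z (X z e 2)| ≤ |deriv χ ‖z.2‖| ∧
    |fderiv ℝ (fun y => χ (rho y)) z (X z e 3)| ≤ |deriv χ ‖z.2‖| := by
  have hz1 : z.1 ≠ 0 := (TS_subset_OS r hz).1
  have hrz : rho z = ‖z.2‖ := rho_TS hG hz
  by_cases h : rho z < ρ'
  · have h2 : fderiv ℝ (fun y => χ (rho y)) z = fderiv ℝ (fun _ : E6 => c) z :=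
      (chi_ev hz1 h h1).fderiv_eq
    have h3 : fderiv ℝ (fun _ : E6 => c) z = 0 := by simp
    rw [h2, h3]
    simp
  · have h0 : z.2 ≠ 0 := by
      intro h0
      apply h
      rw [hrz, h0, norm_zero]
      exact hρ
    have hn0 : ‖z.2‖ ≠ 0 := norm_ne_zero_iff.2 h0
    have hn1 : 0 < ‖z.2‖ := norm_pos_iff.2 h0
    have hd : ∀ i, fderiv ℝ (fun y => χ (rho y)) z (X z e i) =
        deriv χ ‖z.2‖ * (⟪z.2, (X z e i).2⟫ / ‖z.2‖) := by
      intro i
      obtain ⟨h3, h4⟩ := drho hG hz he h0 i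
      have h5 : HasDerivAt χ (deriv χ (rho z)) (rho z) :=
        (hχ.differentiable (by simp)).differentiableAt.hasDerivAt
      have h6 := h5.comp_hasFDerivAt z h3
      have h7 : fderiv ℝ (fun y => χ (rho y)) z = deriv χ (rho z) • fderiv ℝ rho z := h6.fderiv
      rw [h7, smul_apply, smul_eq_mul, h4, hrz]
    have hin : ∀ v : E3, ‖v‖ = 1 → |⟪z.2, v⟫ / ‖z.2‖| ≤ 1 := by
      intro v hv
      rw [abs_div, abs_of_pos hn1, div_le_one hn1]
      have := abs_real_inner_le_norm z.2 v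
      rwa [hv, mul_one] at this
    refine ⟨?_, ?_, ?_, ?_⟩
    · rw [hd 0]
      have h8 : (X z e 0).2 = -(⟪z.2, e⟫ • z.1) := rfl
      rw [h8, inner_neg_right, real_inner_smul_right, real_inner_comm z.1 z.2, hz.2.1]
      simp
    · rw [hd 1]
      have h8 : (X z e 1).2 = -(⟪z.2, cr z.1 e⟫ • z.1) := rfl
      rw [h8, inner_neg_right, real_inner_smul_right, real_inner_comm z.1 z.2, hz.2.1]
      simp
    · rw [hd 2, abs_mul]
      exact mul_le_of_le_one_right (abs_nonneg _) (hin e he.2.1)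
    · rw [hd 3, abs_mul]
      exact mul_le_of_le_one_right (abs_nonneg _) (hin _ (K12Radf_843.fr_norm_e3 he))

theorem rho_Pi {z : E6} (hz : z.1 ≠ 0) : rho (Pi z) = rho z := by
  unfold rho; rw [K12Geo_128.Pi_Pi hz]

theorem bas1_chi (hχ : ContDiff ℝ ∞ χ) (hρ : 0 < ρ') {c : ℝ} (h1 : ∀ t ≤ ρ', χ t = c)
    {β : E6 → E6 →L[ℝ] ℝ} (hβ : Bas1 r β) : Bas1 r (fun z => χ (rho z) • β z) := by
  refine ⟨fun z hz => ((chi_smooth hχ hρ h1 hz.1).smul (bas1_diff hβ hz)).contDiffWithinAt, ?_⟩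
  intro z hz U
  show χ (rho z) * β z U = χ (rho (Pi z)) * β (Pi z) (fderiv ℝ Pi z U)
  rw [rho_Pi hz.1, hβ.bas z hz]

theorem d1_chi (hχ : ContDiff ℝ ∞ χ) (hρ : 0 < ρ') {c : ℝ} (h1 : ∀ t ≤ ρ', χ t = c)
    {β : E6 → E6 →L[ℝ] ℝ} (hβ : Bas1 r β) {z : E6} (hz : z ∈ OS r) (U V : E6) :
    d1 (fun z => χ (rho z) • β z) z U V =
      fderiv ℝ (fun y => χ (rho y)) z U * β z V - fderiv ℝ (fun y => χ (rho y)) z V * β z U +
        χ (rho z) * d1 β z U V :=
  Ch.d1_smul ((chi_smooth hχ hρ h1 hz.1).differentiableAt (by simp))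
    ((bas1_diff hβ hz).differentiableAt (by simp)) U V

theorem d1_chi_near {β : E6 → E6 →L[ℝ] ℝ} {c : ℝ} (h1 : ∀ t ≤ ρ', χ t = c) {z : E6}
    (hz : z.1 ≠ 0) (hz2 : rho z < ρ') :
    d1 (fun z => χ (rho z) • β z) z = d1 (fun z => c • β z) z := by
  refine Ch.d1_congr ?_
  filter_upwards [chi_ev hz hz2 h1] with y hy
  rw [hy]

end

end Crest.Agent.R235.K12S2a_776
end

-- ▼ part R235/K12S2c_776
section

/-!
Row 235 (S0364), block K12, analytic assembly (helper776): STEP II, existence of the primitives.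
-/

set_option autoImplicit false
set_option maxSynthPendingDepth 3
set_option linter.unusedSectionVars false

open Set Function Filter MeasureTheory
open scoped Manifold ContDiff Topology RealInnerProductSpace

universe u

namespace Crest.Agent.R235.K12S2c_776

open Crest.Agent.R240 Crest.Agent.R240.Ch Crest.Agent.R235 Crest.Agent.R235.K12_417
  Crest.Agent.R235.K12An_776 Crest.Agent.R235.K12Pos_776 Crest.Agent.R235.K12S1_776
  Crest.Agent.R235.K12Ext_168 Crest.Agent.R235.K12S2a_776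

noncomputable section

section Man

variable {M : Type u} [TopologicalSpace M] [T2Space M] [CompactSpace M]
  [ChartedSpace E4 M] [IsManifold 𝓘(ℝ, E4) ∞ M]

variable {σ : E3 → M} {r : ℝ} {Ps : E6 → M} {G : M → E6} {U : Set M}

/-- the primitives of the differences with the model forms. -/
structure BD (w : Trip M) (Ps : E6 → M) (r r' c s C : ℝ) (β : Fin 3 → E6 → E6 →L[ℝ] ℝ) :
    Prop where
  bas : ∀ k, Bas1 r (β k)
  d0 : ∀ z ∈ OS r, d1 (β 0) z = Om Ps (w 0) z - FG (fun _ => c) c 0 1 z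
  d1 : ∀ z ∈ OS r, Ch.d1 (β 1) z = Om Ps (w 1) z - Ch.d1 (PB1 l1) z
  d2 : ∀ z ∈ OS r, Ch.d1 (β 2) z = Om Ps (w 2) z - s • Ch.d1 (PB1 l2) z
  C_pos : 0 < C
  b0 : ∀ z ∈ TS r, ‖z.2‖ ≤ r' → ∀ e, IsFr z.1 e → ∀ i, |β 0 z (X z e i)| ≤ C
  b02 : ∀ z ∈ TS r, ‖z.2‖ ≤ r' → ∀ e, IsFr z.1 e → |β 0 z (X z e 2)| ≤ C * ‖z.2‖
  b03 : ∀ z ∈ TS r, ‖z.2‖ ≤ r' → ∀ e, IsFr z.1 e → |β 0 z (X z e 3)| ≤ C * ‖z.2‖
  b1 : ∀ z ∈ TS r, ‖z.2‖ ≤ r' → ∀ e, IsFr z.1 e → ∀ i, |β 1 z (X z e i)| ≤ C * ‖z.2‖ ^ 2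
  b2 : ∀ z ∈ TS r, ‖z.2‖ ≤ r' → ∀ e, IsFr z.1 e → ∀ i, |β 2 z (X z e i)| ≤ C * ‖z.2‖

/-- bounds on the frames from bounds of norms. -/
theorem fr_bound {β : E6 → E6 →L[ℝ] ℝ} {r' B : ℝ} {z : E6} {e : E3}
    (hzr : ‖z.2‖ ≤ r') (he : IsFr z.1 e) (h : ‖β z‖ ≤ B) (i : Fin 4) :
    |β z (X z e i)| ≤ (1 + r') * B := by
  have h1 : |β z (X z e i)| ≤ ‖β z‖ * ‖X z e i‖ := (β z).le_opNorm _
  have h2 := K12Lip_895.norm_X_le hzr he i
  have h3 : 0 ≤ B := (norm_nonneg _).trans h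
  calc |β z (X z e i)| ≤ ‖β z‖ * ‖X z e i‖ := h1
    _ ≤ B * (1 + r') := mul_le_mul h h2 (norm_nonneg _) h3
    _ = _ := mul_comm _ _

theorem exists_BD (hG : GEO) (hF : FGL) (hS : S2PRIM) (hRP : RPRIM)
    (hT : Tube σ r Ps G U) {w : Trip M} (hJ : Jet w Ps) {f : E3 → ℝ} (hZ : ZD w Ps f) {c : ℝ}
    (hc : ∫ y : Metric.sphere (0 : E3) 1, (f y - c) ∂((volume : Measure E3).toSphere) = 0)
    (s : ℝ) {r' : ℝ} (hr'0 : 0 < r') (hr' : r' < r) :
    ∃ (C : ℝ) (β : Fin 3 → E6 → E6 →L[ℝ] ℝ), BD w Ps r r' c s C β := by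
  have hr := hT.r_pos
  set r2 : ℝ := (r + r') / 2 with hr2
  have hr2r : r2 < r := by rw [hr2]; linarith
  have hr2' : r' < r2 := by rw [hr2]; linarith
  have hmem2 : ∀ z ∈ TS r, ‖z.2‖ ≤ r' → z ∈ TS r2 := fun z hz hzr =>
    ⟨hz.1, hz.2.1, lt_of_le_of_lt hzr hr2'⟩
  -- the zeroth form
  obtain ⟨γ, hγ, _, _, hγd⟩ := hS (fun q => f q - c)
    ⟨hZ.hom.1.sub contDiffOn_const, fun t q ht => by
      show f (t • q) - c = f q - c
      rw [hZ.hom.2 t q ht]⟩ hc
  have hΓb : Bas1 r (PB1 (Gam γ)) := hG.bas1 r (Gam γ) fun z hz =>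
    Gam_smooth hγ (hG.TS_sub r (hG.Pi_mem r z hz)).1
  have hFc : Bas r (FG (fun _ => c) c 0 1) := hF.bas r _ c 0 1 (prof_const c one_pos)
  obtain ⟨β0, hβ0, hβ0d, hβ0b, _⟩ := hRP r
    (fun z => Om Ps (w 0) z - FG (fun _ => c) c 0 1 z - d1 (PB1 (Gam γ)) z) hr
    (bas_sub (bas_sub (basOm hT (w 0)) hFc) (hG.basd r _ hΓb)) (by
      intro q u v hq hu hv
      show Om Ps (w 0) (q, 0) (u, 0) (v, 0) - FG (fun _ => c) c 0 1 (q, 0) (u, 0) (v, 0) -
        d1 (PB1 (Gam γ)) (q, 0) (u, 0) (v, 0) = 0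
      rw [hZ.area q u v hq hu hv, FGc_zero hG c 1 hq hu hv, PB1_Gam_zero hG hγ hr hq hu hv,
        hγd q u v hq hu hv]
      ring)
  obtain ⟨B0, hB0⟩ := hβ0b r2 hr2r
  -- the first form
  obtain ⟨β1, hβ1, hβ1d, _, hβ1b⟩ := hRP r (fun z => Om Ps (w 1) z - d1 (PB1 l1) z) hr
    (bas_sub (basOm hT (w 1)) (bas_l1 hG r)) (by
      intro q u v hq _ _
      show (Om Ps (w 1) (q, 0) - d1 (PB1 l1) (q, 0)) (u, 0) (v, 0) = 0
      have h1 : Om Ps (w 1) (q, 0) = d1 (PB1 l1) (q, 0) := hJ.one q hq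
      rw [h1, sub_self]
      rfl)
  obtain ⟨B1, hB1⟩ := hβ1b (fun q hq => by
    have h1 : Om Ps (w 1) (q, 0) = d1 (PB1 l1) (q, 0) := hJ.one q hq
    show Om Ps (w 1) (q, 0) - d1 (PB1 l1) (q, 0) = 0
    rw [h1, sub_self]) r2 hr2r
  -- the second form
  obtain ⟨β2, hβ2, hβ2d, hβ2b, _⟩ := hRP r (fun z => Om Ps (w 2) z - s • d1 (PB1 l2) z) hr
    (bas_sub (basOm hT (w 2)) (bas_smul s (bas_l2 hG r))) (by
      intro q u v hq hu hv
      show Om Ps (w 2) (q, 0) (u, 0) (v, 0) - s * d1 (PB1 l2) (q, 0) (u, 0) (v, 0) = 0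
      rw [l2_zero hG hr hq hu hv]
      have h1 : Om Ps (w 2) (q, 0) (u, 0) (v, 0) = 0 := hJ.hor2 q u v hq
      rw [h1]; ring)
  obtain ⟨B2, hB2⟩ := hβ2b r2 hr2r
  -- bound for the potential on the base
  obtain ⟨Bg, hBg⟩ : ∃ Bg : ℝ, ∀ q : E3, ‖q‖ = 1 → ‖γ q‖ ≤ Bg := by
    have hcont : ContinuousOn (fun q => ‖γ q‖) (Metric.sphere (0 : E3) 1) := by
      refine (hγ.continuousOn.mono fun q hq => ?_).norm
      rintro rfl
      simp at hq
    obtain ⟨B, hB⟩ := (isCompact_sphere (0 : E3) 1).bddAbove_image hcont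
    exact ⟨B, fun q hq => hB (mem_image_of_mem _ (by simpa using hq))⟩
  set B : ℝ := |B0| + |B1| + |B2| + |Bg| + 1 with hB
  have hBpos : 0 < B := by positivity
  have h0B : B0 ≤ B := by
    have := le_abs_self B0; have := abs_nonneg B1; have := abs_nonneg B2; have := abs_nonneg Bg
    rw [hB]; linarith
  have h1B : B1 ≤ B := by
    have := le_abs_self B1; have := abs_nonneg B0; have := abs_nonneg B2; have := abs_nonneg Bg
    rw [hB]; linarith
  have h2B : B2 ≤ B := by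
    have := le_abs_self B2; have := abs_nonneg B0; have := abs_nonneg B1; have := abs_nonneg Bg
    rw [hB]; linarith
  have hgB : Bg ≤ B := by
    have := le_abs_self Bg; have := abs_nonneg B0; have := abs_nonneg B1; have := abs_nonneg B2
    rw [hB]; linarith
  set C : ℝ := 2 * ((1 + r') * (B * (1 + r'))) with hC
  have hCpos : 0 < C := by positivity
  have hle1 : (1 + r') * B ≤ C := by
    rw [hC]
    have h1 : 0 < (1 + r') * B := by positivity
    nlinarith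
  have hle2 : (1 + r') * (B * r') + (1 + r') * B ≤ C := by
    rw [hC]
    have h1 : 0 < (1 + r') * B := by positivity
    nlinarith
  have hΓX : ∀ z ∈ TS r, ∀ e, IsFr z.1 e → ∀ i,
      PB1 (Gam γ) z (X z e i) = γ z.1 ((X z e i).1) := fun z hz e he i => by
    rw [hG.en_PB1 r _ z e hz he i]; rfl
  have hb0 : ∀ z ∈ TS r, ‖z.2‖ ≤ r' → ∀ e, IsFr z.1 e → ∀ i,
      |β0 z (X z e i)| ≤ (1 + r') * (B * ‖z.2‖) := fun z hz hzr e he i =>
    fr_bound hzr he ((hB0 z (hmem2 z hz hzr)).trans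
      (mul_le_mul_of_nonneg_right h0B (norm_nonneg _))) i
  have hle3 : ∀ z : E6, (1 + r') * (B * ‖z.2‖) ≤ C * ‖z.2‖ := fun z => by
    have := mul_le_mul_of_nonneg_right hle1 (norm_nonneg z.2)
    linarith
  refine ⟨C, ![fun z => PB1 (Gam γ) z + β0 z, β1, β2], ?_, ?_, hβ1d, hβ2d, hCpos, ?_, ?_, ?_,
    ?_, ?_⟩
  · intro k
    fin_cases k
    · exact bas1_add hΓb hβ0
    · exact hβ1
    · exact hβ2
  · intro z hz
    show Ch.d1 (fun z => PB1 (Gam γ) z + β0 z) z = _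
    rw [Ch.d1_add ((bas1_diff hΓb hz).differentiableAt (by simp))
      ((bas1_diff hβ0 hz).differentiableAt (by simp)), hβ0d z hz]
    abel
  · intro z hz hzr e he i
    show |PB1 (Gam γ) z (X z e i) + β0 z (X z e i)| ≤ C
    refine (abs_add_le _ _).trans ?_
    have h1 : |PB1 (Gam γ) z (X z e i)| ≤ (1 + r') * B := by
      rw [hΓX z hz e he i]
      have h2 : ‖(X z e i).1‖ ≤ 1 + r' :=
        (norm_fst_le _).trans (K12Lip_895.norm_X_le hzr he i)
      have h3 : |γ z.1 ((X z e i).1)| ≤ ‖γ z.1‖ * ‖(X z e i).1‖ := (γ z.1).le_opNorm _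
      have h4 : ‖γ z.1‖ * ‖(X z e i).1‖ ≤ B * (1 + r') :=
        mul_le_mul ((hBg z.1 hz.1).trans hgB) h2 (norm_nonneg _) hBpos.le
      linarith
    have h2 := hb0 z hz hzr e he i
    have h3 : (1 + r') * (B * ‖z.2‖) ≤ (1 + r') * (B * r') := by
      have : B * ‖z.2‖ ≤ B * r' := mul_le_mul_of_nonneg_left hzr hBpos.le
      exact mul_le_mul_of_nonneg_left this (by positivity)
    linarith
  · intro z hz hzr e he
    show |PB1 (Gam γ) z (X z e 2) + β0 z (X z e 2)| ≤ C * ‖z.2‖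
    have h1 : PB1 (Gam γ) z (X z e 2) = 0 := by
      rw [hΓX z hz e he 2]
      show γ z.1 0 = 0
      simp
    rw [h1, zero_add]
    exact (hb0 z hz hzr e he 2).trans (hle3 z)
  · intro z hz hzr e he
    show |PB1 (Gam γ) z (X z e 3) + β0 z (X z e 3)| ≤ C * ‖z.2‖
    have h1 : PB1 (Gam γ) z (X z e 3) = 0 := by
      rw [hΓX z hz e he 3]
      show γ z.1 0 = 0
      simp
    rw [h1, zero_add]
    exact (hb0 z hz hzr e he 3).trans (hle3 z)
  · intro z hz hzr e he i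
    show |β1 z (X z e i)| ≤ C * ‖z.2‖ ^ 2
    have h1 := fr_bound (β := β1) hzr he ((hB1 z (hmem2 z hz hzr)).trans
      (mul_le_mul_of_nonneg_right h1B (sq_nonneg _))) i
    have h2 := mul_le_mul_of_nonneg_right hle1 (sq_nonneg ‖z.2‖)
    linarith
  · intro z hz hzr e he i
    show |β2 z (X z e i)| ≤ C * ‖z.2‖
    have h1 := fr_bound (β := β2) hzr he ((hB2 z (hmem2 z hz hzr)).trans
      (mul_le_mul_of_nonneg_right h2B (norm_nonneg _))) i
    exact h1.trans (hle3 z)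

end Man

end

end Crest.Agent.R235.K12S2c_776
end

-- ▼ part R235/K12S2n_776
section

/-!
Row 235 (S0364), block K12, analytic assembly (helper776): STEP II, numerical part: the entries of
the path of the second step satisfy the hypotheses of `numQ`.
-/

set_option autoImplicit false
set_option maxSynthPendingDepth 3

namespace Crest.Agent.R235.K12S2n_776

open Crest.Agent.R235.K12_417

noncomputable section

/-- the conclusion of `numQ`. -/
def NQ (α C κ K₀ Λ δ : ℝ) : Prop :=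
  ∀ (ρ K Y : ℝ) (E : Fin 3 → Fin 4 → Fin 4 → ℝ),
      0 ≤ ρ → ρ ≤ δ → K₀ ≤ K → 0 ≤ Y → K * ρ ^ 2 ≤ δ → Λ * Y * ρ ^ 2 ≤ δ →
      α ≤ E 0 0 1 → E 0 0 1 ≤ C → K / 2 + Λ * Y ≤ - E 0 2 3 → - E 0 2 3 ≤ 2 * K + Λ * Y →
      |E 0 0 2| ≤ C * (1 + √Y) → |E 0 0 3| ≤ C * (1 + √Y) → |E 0 1 2| ≤ C * (1 + √Y) →
      |E 0 1 3| ≤ C * (1 + √Y) →
      |E 1 0 1| ≤ C * ρ → |E 2 0 1| ≤ C * ρ → |E 1 2 3| ≤ C → |E 2 2 3| ≤ C →
      |E 1 0 2| ≤ C → |E 1 0 3| ≤ C → |E 1 1 2| ≤ C → |E 1 1 3| ≤ C →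
      |E 2 0 2| ≤ C → |E 2 0 3| ≤ C → |E 2 1 2| ≤ C → |E 2 1 3| ≤ C →
      (∀ x y : ℝ, κ * (x ^ 2 + y ^ 2) ≤ detE (fun i j => x * E 1 i j + y * E 2 i j)) →
      ∀ c : Fin 3 → ℝ, c ≠ 0 → pfE (fun i j => ∑ k, c k * E k i j) < 0

theorem exists_NQ (hQ : ALGQ) {α C κ : ℝ} (hα : 0 < α) (hC : 1 ≤ C) (hκ : 0 < κ) :
    ∃ K₀ Λ δ : ℝ, 0 < K₀ ∧ 0 < Λ ∧ 0 < δ ∧ NQ α C κ K₀ Λ δ :=
  K12Num_776.numQ hQ hα hC hκ

/-- entry of the path of step II. -/
def EE (e std : Fin 4 → Fin 4 → ℝ) (b D : Fin 4 → ℝ) (t χ : ℝ) (i j : Fin 4) : ℝ :=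
  e i j - t * (D i * b j - D j * b i + χ * (e i j - std i j))

/-- hypotheses on the original entries. -/
structure NH (α C ρ c s : ℝ) (e std : Fin 3 → Fin 4 → Fin 4 → ℝ) (z2 : Fin 4 → Fin 4 → ℝ)
    (b : Fin 3 → Fin 4 → ℝ) : Prop where
  eC : ∀ k i j, |e k i j| ≤ C
  ea : α ≤ e 0 0 1
  e1 : |e 1 0 1| ≤ C * ρ
  e2 : |e 2 0 1| ≤ C * ρ
  l1 : ∀ i j, |e 1 i j - std 1 i j| ≤ C * ρ
  l2 : ∀ i j, |e 2 i j - z2 i j| ≤ C * ρ
  zC : ∀ i j, |z2 i j| ≤ C
  b0 : ∀ i, |b 0 i| ≤ C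
  b02 : |b 0 2| ≤ C * ρ
  b03 : |b 0 3| ≤ C * ρ
  b1 : ∀ i, |b 1 i| ≤ C * ρ ^ 2
  b2 : ∀ i, |b 2 i| ≤ C * ρ
  s001 : std 0 0 1 = c
  s023 : std 0 2 3 = 0
  s002 : std 0 0 2 = 0
  s003 : std 0 0 3 = 0
  s012 : std 0 1 2 = 0
  s013 : std 0 1 3 = 0
  s101 : std 1 0 1 = 0
  s123 : std 1 2 3 = 0
  s102 : std 1 0 2 = -1
  s103 : std 1 0 3 = 0
  s112 : std 1 1 2 = 0
  s113 : std 1 1 3 = -1
  s201 : std 2 0 1 = 0
  s223 : std 2 2 3 = 0
  s202 : std 2 0 2 = 0
  s203 : std 2 0 3 = s * (-1)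
  s212 : std 2 1 2 = s * 1
  s213 : std 2 1 3 = 0

theorem sC {s : ℝ} (hs : s = 1 ∨ s = -1) : |s| = 1 := by
  rcases hs with h | h <;> rw [h] <;> simp

/-- bound of an interpolation. -/
theorem itp {T a b C : ℝ} (h0 : 0 ≤ T) (h1 : T ≤ 1) (ha : |a| ≤ C) (hb : |b| ≤ C) :
    |(1 - T) * a + T * b| ≤ C := by
  refine (abs_add_le _ _).trans ?_
  rw [abs_mul, abs_mul, abs_of_nonneg h0, abs_of_nonneg (by linarith : (0 : ℝ) ≤ 1 - T)]
  have h2 := mul_le_mul_of_nonneg_left ha (by linarith : (0 : ℝ) ≤ 1 - T)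
  have h3 := mul_le_mul_of_nonneg_left hb h0
  linarith

set_option maxHeartbeats 1600000 in
theorem num2 {α C κ K₀ Λ δ ρ c s A h ca K t χ χ' η ε : ℝ} {e std : Fin 3 → Fin 4 → Fin 4 → ℝ}
    {z2 : Fin 4 → Fin 4 → ℝ} {b : Fin 3 → Fin 4 → ℝ} {D : Fin 4 → ℝ}
    {E : Fin 3 → Fin 4 → Fin 4 → ℝ}
    (hC : 1 ≤ C) (hN : NQ (α / 4) (3 * C) (κ / 2) K₀ Λ δ) (H : NH α C ρ c s e std z2 b)
    (hs : s = 1 ∨ s = -1) (hρ0 : 0 ≤ ρ) (hρ1 : ρ ≤ 1)
    (hD0 : D 0 = 0) (hD1 : D 1 = 0) (hD2 : |D 2| ≤ |χ'|) (hD3 : |D 3| ≤ |χ'|)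
    (hη1 : η ≤ 1) (hρχ : |ρ * χ'| ≤ η) (ht0 : 0 ≤ t) (ht1 : t ≤ 1) (hχ0 : 0 ≤ χ) (hχ1 : χ ≤ 1)
    (hA : 2 * A ≤ α) (hh0 : -A ≤ h) (hh1 : h ≤ 0) (hca0 : 0 ≤ ca) (hca1 : ca ≤ η) (hΛ : 0 < Λ)
    (hΛη : Λ * η ≤ α / 4) (hαc : α ≤ c) (hcC : c ≤ C) (hK : 6 * C ≤ K) (hK0 : K₀ ≤ K)
    (hρδ : ρ ≤ δ) (hKδ : K * ρ ^ 2 ≤ δ) (hΛδ : Λ * η ^ 2 ≤ δ)
    (hε1 : 2 * (C * ρ) ≤ ε) (hε2 : C * ρ + C * η ≤ ε) (hε3 : ε ≤ 1)
    (hε4 : 16 * (C + 1) * ε ≤ κ / 2)
    (hdet : ∀ τ : ℝ, 0 ≤ τ → τ ≤ 1 → ∀ F : Fin 4 → Fin 4 → ℝ,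
      (F 0 2 = (1 - τ) * z2 0 2 + τ * 0) → (F 1 3 = (1 - τ) * z2 1 3 + τ * 0) →
      (F 0 3 = (1 - τ) * z2 0 3 + τ * (s * (-1))) → (F 1 2 = (1 - τ) * z2 1 2 + τ * (s * 1)) →
      ∀ x y : ℝ, κ * (x ^ 2 + y ^ 2) ≤ detE (fun i j => x * std 1 i j + y * F i j))
    (E001 : E 0 0 1 = EE (e 0) (std 0) (b 0) D t χ 0 1 + h - t * (Λ * ca))
    (E023 : E 0 2 3 = EE (e 0) (std 0) (b 0) D t χ 2 3 - K - t * (Λ * χ' ^ 2))
    (E002 : E 0 0 2 = EE (e 0) (std 0) (b 0) D t χ 0 2)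
    (E003 : E 0 0 3 = EE (e 0) (std 0) (b 0) D t χ 0 3)
    (E012 : E 0 1 2 = EE (e 0) (std 0) (b 0) D t χ 1 2)
    (E013 : E 0 1 3 = EE (e 0) (std 0) (b 0) D t χ 1 3)
    (E1 : ∀ i j, E 1 i j = EE (e 1) (std 1) (b 1) D t χ i j)
    (E2 : ∀ i j, E 2 i j = EE (e 2) (std 2) (b 2) D t χ i j) :
    ∀ c : Fin 3 → ℝ, c ≠ 0 → pfE (fun i j => ∑ k, c k * E k i j) < 0 := by
  have hC0 : 0 < C := by linarith
  have hη0 : 0 ≤ η := (abs_nonneg _).trans hρχ
  set T : ℝ := t * χ with hT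
  have hT0 : 0 ≤ T := mul_nonneg ht0 hχ0
  have hT1 : T ≤ 1 := by
    have := mul_le_mul ht1 hχ1 hχ0 zero_le_one
    linarith
  have hρχ' : ρ * |χ'| ≤ η := by
    have : |ρ * χ'| = ρ * |χ'| := by rw [abs_mul, abs_of_nonneg hρ0]
    rwa [this] at hρχ
  set X : ℝ := |χ'| with hX
  have hX0 : 0 ≤ X := abs_nonneg _
  have hX2 : X ^ 2 = χ' ^ 2 := sq_abs _
  set Y : ℝ := t * χ' ^ 2 with hY
  have hY0 : 0 ≤ Y := by positivity
  -- `t X ≤ √Y`
  have hsq : t * X ≤ √Y := by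
    rw [Real.le_sqrt (by positivity) hY0]
    have h1 : (t * X) ^ 2 = t * (t * χ' ^ 2) := by rw [mul_pow, hX2]; ring
    rw [h1, ← hY]
    exact mul_le_of_le_one_left hY0 ht1
  have htX : 0 ≤ t * X := by positivity
  have htXX : t * X ≤ X := mul_le_of_le_one_left hX0 ht1
  -- products with the derivative of the cut-off
  have prod : ∀ d β B : ℝ, |d| ≤ X → |β| ≤ B → |t * (d * β)| ≤ t * X * B := by
    intro d β B h1 h2
    rw [abs_mul, abs_mul, abs_of_nonneg ht0]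
    have h3 : |d| * |β| ≤ X * B := mul_le_mul h1 h2 (abs_nonneg _) hX0
    have h4 := mul_le_mul_of_nonneg_left h3 ht0
    linarith
  have hXρ : t * X * (C * ρ) ≤ C * η := by
    have h1 : t * X * (C * ρ) ≤ X * (C * ρ) :=
      mul_le_mul_of_nonneg_right htXX (by positivity)
    have h2 : X * (C * ρ) = C * (ρ * X) := by ring
    have h3 := mul_le_mul_of_nonneg_left hρχ' hC0.le
    linarith
  have hCη : C * η ≤ C := mul_le_of_le_one_right hC0.le hη1
  have hXρ2 : t * X * (C * ρ ^ 2) ≤ C * ρ := by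
    have h1 : t * X * (C * ρ ^ 2) = (t * X * (C * ρ)) * ρ := by ring
    rw [h1]
    exact mul_le_mul_of_nonneg_right (hXρ.trans hCη) hρ0
  have hCρ : C * ρ ≤ C := mul_le_of_le_one_right hC0.le hρ1
  have h1C : |(-1 : ℝ)| ≤ C := by simpa using hC
  have h0C : |(0 : ℝ)| ≤ C := by simpa using hC0.le
  have hsC1 : |s * (-1)| ≤ C := by rw [abs_mul, sC hs]; simpa using hC
  have hsC2 : |s * 1| ≤ C := by rw [mul_one, sC hs]; exact hC
  -- the shape of the entries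
  have f01 : ∀ k, EE (e k) (std k) (b k) D t χ 0 1 = (1 - T) * e k 0 1 + T * std k 0 1 := by
    intro k; simp only [EE, hD0, hD1, hT]; ring
  have f23 : ∀ k, EE (e k) (std k) (b k) D t χ 2 3 =
      ((1 - T) * e k 2 3 + T * std k 2 3) + (t * (D 3 * b k 2) - t * (D 2 * b k 3)) := by
    intro k; simp only [EE, hT]; ring
  have f02 : ∀ k, EE (e k) (std k) (b k) D t χ 0 2 =
      ((1 - T) * e k 0 2 + T * std k 0 2) + t * (D 2 * b k 0) := by
    intro k; simp only [EE, hD0, hT]; ring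
  have f03 : ∀ k, EE (e k) (std k) (b k) D t χ 0 3 =
      ((1 - T) * e k 0 3 + T * std k 0 3) + t * (D 3 * b k 0) := by
    intro k; simp only [EE, hD0, hT]; ring
  have f12 : ∀ k, EE (e k) (std k) (b k) D t χ 1 2 =
      ((1 - T) * e k 1 2 + T * std k 1 2) + t * (D 2 * b k 1) := by
    intro k; simp only [EE, hD1, hT]; ring
  have f13 : ∀ k, EE (e k) (std k) (b k) D t χ 1 3 =
      ((1 - T) * e k 1 3 + T * std k 1 3) + t * (D 3 * b k 1) := by
    intro k; simp only [EE, hD1, hT]; ring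
  -- mixed entries of the zeroth form
  have m0 : ∀ x y d : ℝ, |x| ≤ C → |d| ≤ X → |y| ≤ C →
      |((1 - T) * x + T * 0) + t * (d * y)| ≤ 3 * C * (1 + √Y) := by
    intro x y d hx hd hy
    refine (abs_add_le _ _).trans ?_
    have h1 := itp hT0 hT1 hx h0C
    have h2 := prod d y C hd hy
    have h3 : t * X * C ≤ √Y * C := mul_le_mul_of_nonneg_right hsq hC0.le
    have h4 : 0 ≤ √Y * C := by positivity
    have h5 : 3 * C * (1 + √Y) = 3 * C + 3 * (√Y * C) := by ring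
    rw [h5]
    linarith
  -- mixed entries of the other forms
  have m1 : ∀ x x' y d B : ℝ, |x| ≤ C → |x'| ≤ C → |d| ≤ X → |y| ≤ B → t * X * B ≤ C →
      |((1 - T) * x + T * x') + t * (d * y)| ≤ 3 * C := by
    intro x x' y d B hx hx' hd hy hB
    refine (abs_add_le _ _).trans ?_
    have h1 := itp hT0 hT1 hx hx'
    have h2 := prod d y B hd hy
    linarith
  have v1 : ∀ x x' y y' d d' B : ℝ, |x| ≤ C → |x'| ≤ C → |d| ≤ X → |d'| ≤ X → |y| ≤ B →
      |y'| ≤ B → t * X * B ≤ C →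
      |((1 - T) * x + T * x') + (t * (d * y) - t * (d' * y'))| ≤ 3 * C := by
    intro x x' y y' d d' B hx hx' hd hd' hy hy' hB
    refine (abs_add_le _ _).trans ?_
    have h1 := itp hT0 hT1 hx hx'
    have h2 := prod d y B hd hy
    have h3 := prod d' y' B hd' hy'
    have h4 := abs_sub (t * (d * y)) (t * (d' * y'))
    linarith
  have hB1 : t * X * (C * ρ ^ 2) ≤ C := hXρ2.trans hCρ
  have hB2 : t * X * (C * ρ) ≤ C := hXρ.trans hCη
  -- the entry `01` of the zeroth form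
  have hΛca : t * (Λ * ca) ≤ α / 4 := by
    have h1 : Λ * ca ≤ Λ * η := mul_le_mul_of_nonneg_left hca1 hΛ.le
    have h2 : 0 ≤ Λ * ca := by positivity
    have h3 := mul_le_of_le_one_left h2 ht1
    linarith
  have hΛca0 : 0 ≤ t * (Λ * ca) := by positivity
  have hα01 : α / 4 ≤ E 0 0 1 := by
    rw [E001, f01, H.s001]
    have h1 := mul_le_mul_of_nonneg_left H.ea (by linarith : (0 : ℝ) ≤ 1 - T)
    have h2 := mul_le_mul_of_nonneg_left hαc hT0
    linarith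
  have hα01' : E 0 0 1 ≤ 3 * C := by
    rw [E001, f01, H.s001]
    have h1 := mul_le_mul_of_nonneg_left ((le_abs_self _).trans (H.eC 0 0 1))
      (by linarith : (0 : ℝ) ≤ 1 - T)
    have h2 := mul_le_mul_of_nonneg_left hcC hT0
    linarith
  -- the entry `23` of the zeroth form
  have hb : |((1 - T) * e 0 2 3 + T * std 0 2 3) + (t * (D 3 * b 0 2) - t * (D 2 * b 0 3))| ≤
      3 * C := v1 _ _ _ _ _ _ (C * ρ) (H.eC 0 2 3) (by rw [H.s023]; exact h0C) hD3 hD2 H.b02 H.b03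
        hB2
  have hΛY : t * (Λ * χ' ^ 2) = Λ * Y := by rw [hY]; ring
  refine hN ρ K Y E hρ0 hρδ hK0 hY0 hKδ ?_ hα01 hα01' ?_ ?_ ?_ ?_ ?_ ?_ ?_ ?_ ?_ ?_ ?_ ?_ ?_ ?_
    ?_ ?_ ?_ ?_ ?_
  · -- Λ Y ρ²
    have h1 : Λ * Y * ρ ^ 2 = t * (Λ * (ρ * X) ^ 2) := by rw [hY, mul_pow, hX2]; ring
    have h2 : (ρ * X) ^ 2 ≤ η ^ 2 := by
      have : 0 ≤ ρ * X := by positivity
      nlinarith
    have h3 : Λ * (ρ * X) ^ 2 ≤ Λ * η ^ 2 := mul_le_mul_of_nonneg_left h2 hΛ.le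
    have h4 : 0 ≤ Λ * (ρ * X) ^ 2 := by positivity
    rw [h1]
    exact ((mul_le_of_le_one_left h4 ht1).trans h3).trans hΛδ
  · rw [E023, f23, hΛY]
    have := (abs_le.1 hb).2
    linarith
  · rw [E023, f23, hΛY]
    have := (abs_le.1 hb).1
    linarith
  · rw [E002, f02, H.s002]; exact m0 _ _ _ (H.eC 0 0 2) hD2 (H.b0 0)
  · rw [E003, f03, H.s003]; exact m0 _ _ _ (H.eC 0 0 3) hD3 (H.b0 0)
  · rw [E012, f12, H.s012]; exact m0 _ _ _ (H.eC 0 1 2) hD2 (H.b0 1)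
  · rw [E013, f13, H.s013]; exact m0 _ _ _ (H.eC 0 1 3) hD3 (H.b0 1)
  · rw [E1, f01, H.s101]
    have h1 := itp (C := C * ρ) hT0 hT1 H.e1 (by rw [abs_zero]; positivity : |(0 : ℝ)| ≤ C * ρ)
    have h2 : 0 ≤ C * ρ := by positivity
    linarith
  · rw [E2, f01, H.s201]
    have h1 := itp (C := C * ρ) hT0 hT1 H.e2 (by rw [abs_zero]; positivity : |(0 : ℝ)| ≤ C * ρ)
    have h2 : 0 ≤ C * ρ := by positivity
    linarith
  · rw [E1, f23]
    exact v1 _ _ _ _ _ _ (C * ρ ^ 2) (H.eC 1 2 3) (by rw [H.s123]; exact h0C) hD3 hD2 (H.b1 2)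
      (H.b1 3) hB1
  · rw [E2, f23]
    exact v1 _ _ _ _ _ _ (C * ρ) (H.eC 2 2 3) (by rw [H.s223]; exact h0C) hD3 hD2 (H.b2 2)
      (H.b2 3) hB2
  · rw [E1, f02, H.s102]; exact m1 _ _ _ _ _ (H.eC 1 0 2) h1C hD2 (H.b1 0) hB1
  · rw [E1, f03, H.s103]; exact m1 _ _ _ _ _ (H.eC 1 0 3) h0C hD3 (H.b1 0) hB1
  · rw [E1, f12, H.s112]; exact m1 _ _ _ _ _ (H.eC 1 1 2) h0C hD2 (H.b1 1) hB1
  · rw [E1, f13, H.s113]; exact m1 _ _ _ _ _ (H.eC 1 1 3) h1C hD3 (H.b1 1) hB1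
  · rw [E2, f02, H.s202]; exact m1 _ _ _ _ _ (H.eC 2 0 2) h0C hD2 (H.b2 0) hB2
  · rw [E2, f03, H.s203]; exact m1 _ _ _ _ _ (H.eC 2 0 3) hsC1 hD3 (H.b2 0) hB2
  · rw [E2, f12, H.s212]; exact m1 _ _ _ _ _ (H.eC 2 1 2) hsC2 hD2 (H.b2 1) hB2
  · rw [E2, f13, H.s213]; exact m1 _ _ _ _ _ (H.eC 2 1 3) h0C hD3 (H.b2 1) hB2
  · -- the determinant
    have hε0 : 0 ≤ ε := by
      have : 0 ≤ 2 * (C * ρ) := by positivity
      linarith
    set F : Fin 4 → Fin 4 → ℝ := fun i j => (1 - T) * z2 i j + T * std 2 i j with hF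
    have hdet' := hdet T hT0 hT1 F (by simp only [hF, H.s202]) (by simp only [hF, H.s213])
      (by simp only [hF, H.s203]) (by simp only [hF, H.s212])
    have d1 : ∀ i j (d y : ℝ), E 1 i j = ((1 - T) * e 1 i j + T * std 1 i j) + t * (d * y) →
        |d| ≤ X → |y| ≤ C * ρ ^ 2 → |E 1 i j - std 1 i j| ≤ ε := by
      intro i j d y h1 h2 h3
      have h4 : E 1 i j - std 1 i j = (1 - T) * (e 1 i j - std 1 i j) + t * (d * y) := by
        rw [h1]; ring
      rw [h4]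
      refine (abs_add_le _ _).trans ?_
      rw [abs_mul, abs_of_nonneg (by linarith : (0 : ℝ) ≤ 1 - T)]
      have h5 : (1 - T) * |e 1 i j - std 1 i j| ≤ C * ρ :=
        (mul_le_of_le_one_left (abs_nonneg _) (by linarith)).trans (H.l1 i j)
      have h6 := prod d y _ h2 h3
      linarith
    have d2 : ∀ i j (d y : ℝ), E 2 i j = ((1 - T) * e 2 i j + T * std 2 i j) + t * (d * y) →
        |d| ≤ X → |y| ≤ C * ρ → |E 2 i j - F i j| ≤ ε := by
      intro i j d y h1 h2 h3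
      have h4 : E 2 i j - F i j = (1 - T) * (e 2 i j - z2 i j) + t * (d * y) := by
        rw [h1, hF]; ring
      rw [h4]
      refine (abs_add_le _ _).trans ?_
      rw [abs_mul, abs_of_nonneg (by linarith : (0 : ℝ) ≤ 1 - T)]
      have h5 : (1 - T) * |e 2 i j - z2 i j| ≤ C * ρ :=
        (mul_le_of_le_one_left (abs_nonneg _) (by linarith)).trans (H.l2 i j)
      have h6 := prod d y _ h2 h3
      linarith
    refine K12Num_776.pert (B := C) hε0 hε3 hC0.le hε4 (A' := std 1) (F' := F)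
      (by rw [H.s102]; exact h1C) (by rw [H.s103]; exact h0C) (by rw [H.s112]; exact h0C)
      (by rw [H.s113]; exact h1C)
      (itp hT0 hT1 (H.zC 0 2) (by rw [H.s202]; exact h0C))
      (itp hT0 hT1 (H.zC 0 3) (by rw [H.s203]; exact hsC1))
      (itp hT0 hT1 (H.zC 1 2) (by rw [H.s212]; exact hsC2))
      (itp hT0 hT1 (H.zC 1 3) (by rw [H.s213]; exact h0C))
      (d1 0 2 _ _ (by rw [E1, f02]) hD2 (H.b1 0)) (d1 0 3 _ _ (by rw [E1, f03]) hD3 (H.b1 0))
      (d1 1 2 _ _ (by rw [E1, f12]) hD2 (H.b1 1)) (d1 1 3 _ _ (by rw [E1, f13]) hD3 (H.b1 1))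
      (d2 0 2 _ _ (by rw [E2, f02]) hD2 (H.b2 0)) (d2 0 3 _ _ (by rw [E2, f03]) hD3 (H.b2 0))
      (d2 1 2 _ _ (by rw [E2, f12]) hD2 (H.b2 1)) (d2 1 3 _ _ (by rw [E2, f13]) hD3 (H.b2 1))
      hdet'

end

end Crest.Agent.R235.K12S2n_776
end

-- ▼ part R235/K12S2d_776
section

/-!
Row 235 (S0364), block K12, analytic assembly (helper776): STEP II, the logarithmic cut-off.
-/

set_option autoImplicit false
set_option maxSynthPendingDepth 3
set_option linter.unusedSectionVars false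

open Set Function Filter MeasureTheory
open scoped Manifold ContDiff Topology RealInnerProductSpace

universe u

namespace Crest.Agent.R235.K12S2d_776

open Crest.Agent.R240 Crest.Agent.R240.Ch Crest.Agent.R235 Crest.Agent.R235.K12_417
  Crest.Agent.R235.K12An_776 Crest.Agent.R235.K12Pos_776 Crest.Agent.R235.K12S1_776
  Crest.Agent.R235.K12Ext_168 Crest.Agent.R235.K12S2a_776 Crest.Agent.R235.K12S2b_776
  Crest.Agent.R235.K12S2c_776 Crest.Agent.R235.K12S2n_776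

noncomputable section

/-! ### `gd` of the profiles -/

theorem deriv_prof {g : ℝ → ℝ} {c K t₀ t : ℝ} (hp : Prof g c K t₀) (ht : t < t₀) :
    deriv g t = K * t := by
  have h1 : g =ᶠ[𝓝 t] fun x => c + K * x ^ 2 / 2 := by
    filter_upwards [Iio_mem_nhds ht] with x hx
    exact hp.eq x (le_of_lt hx)
  rw [h1.deriv_eq]
  have h2 : HasDerivAt (fun x : ℝ => c + K * x ^ 2 / 2) (K * t) t := by
    have h3 := (((hasDerivAt_id t).pow 2).const_mul K).div_const 2
    have h4 := h3.const_add c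
    refine (h4.congr_deriv ?_)
    simp
    ring
  exact h2.deriv

theorem gd_prof {g : ℝ → ℝ} {c K t₀ t : ℝ} (hp : Prof g c K t₀) (ht : t < t₀) :
    gd g K t = K := by
  unfold gd
  split_ifs with h
  · rfl
  · rw [deriv_prof hp ht]
    field_simp

theorem gd_const (c t : ℝ) : gd (fun _ => c) 0 t = 0 := by
  unfold gd; simp

section Man

variable {M : Type u} [TopologicalSpace M] [T2Space M] [CompactSpace M]
  [ChartedSpace E4 M] [IsManifold 𝓘(ℝ, E4) ∞ M]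

variable {σ : E3 → M} {r : ℝ} {Ps : E6 → M} {G : M → E6} {U : Set M}

theorem CD.mono {w : Trip M} {r' κ α C C' : ℝ} (h : CD w Ps r r' κ α C) (hC : C ≤ C') :
    CD w Ps r r' κ α C' where
  κ_pos := h.κ_pos
  α_pos := h.α_pos
  C_pos := h.C_pos.trans_le hC
  r'_pos := h.r'_pos
  r'_lt := h.r'_lt
  kap := h.kap
  alp := h.alp
  bd := fun z hz hzr e he k i j => (h.bd z hz hzr e he k i j).trans hC
  lip := fun z hz hzr e he k i j => (h.lip z hz hzr e he k i j).trans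
    (mul_le_mul_of_nonneg_right hC (norm_nonneg _))

theorem BD.mono {w : Trip M} {r' c s C C' : ℝ} {β : Fin 3 → E6 → E6 →L[ℝ] ℝ}
    (h : BD w Ps r r' c s C β) (hC : C ≤ C') : BD w Ps r r' c s C' β where
  bas := h.bas
  d0 := h.d0
  d1 := h.d1
  d2 := h.d2
  C_pos := h.C_pos.trans_le hC
  b0 := fun z hz hzr e he i => (h.b0 z hz hzr e he i).trans hC
  b02 := fun z hz hzr e he => (h.b02 z hz hzr e he).trans
    (mul_le_mul_of_nonneg_right hC (norm_nonneg _))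
  b03 := fun z hz hzr e he => (h.b03 z hz hzr e he).trans
    (mul_le_mul_of_nonneg_right hC (norm_nonneg _))
  b1 := fun z hz hzr e he i => (h.b1 z hz hzr e he i).trans
    (mul_le_mul_of_nonneg_right hC (sq_nonneg _))
  b2 := fun z hz hzr e he i => (h.b2 z hz hzr e he i).trans
    (mul_le_mul_of_nonneg_right hC (norm_nonneg _))

/-- the constant of the interpolated mixed block. -/
def kap2 (κ C : ℝ) : ℝ := min (1 / 2) (min (4 * κ) 4 / 2 / (4 + 2 * (2 * C) ^ 2))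

theorem kap2_pos {κ C : ℝ} (h : 0 < κ) : 0 < kap2 κ C := by
  unfold kap2; positivity

/-- the standard entries. -/
def stdE (c s : ℝ) (z : E6) (e : E3) : Fin 3 → Fin 4 → Fin 4 → ℝ :=
  ![fun i j => en (FG (fun _ => c) c 0 1 z) z e i j, fun i j => en (d1 (PB1 l1) z) z e i j,
    fun i j => s * en (d1 (PB1 l2) z) z e i j]

/-- the numerical hypotheses hold at every point of the tube. -/
theorem nh (hG : GEO) (hF : FGL) (hR : RADF) {w : Trip M} (hJ : Jet w Ps) {f : E3 → ℝ}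
    (hZ : ZD w Ps f) {r' κ α C c s : ℝ} (hD : CD w Ps r r' κ α C)
    {β : Fin 3 → E6 → E6 →L[ℝ] ℝ} (hB : BD w Ps r r' c s C β) {z : E6} {e : E3}
    (hz : z ∈ TS r) (hzr : ‖z.2‖ ≤ r') (he : IsFr z.1 e) :
    NH α C ‖z.2‖ c s (fun k i j => en (Om Ps (w k) z) z e i j) (stdE c s z e)
      (z2 w Ps z.1 e) (fun k i => β k z (X z e i)) := by
  have hr : 0 < r := hD.r'_pos.trans hD.r'_lt
  obtain ⟨f1, f2, f3, f4, f5, f6, f7, f8, f9⟩ := hZ.ent z.1 e he
  have hl := hD.lip z hz hzr e he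
  have hz0 : ((z.1, 0) : E6) ∈ TS r := zmem hr hz.1
  have hcp := prof_const c one_pos
  constructor
  · exact fun k i j => hD.bd z hz hzr e he k i j
  · exact hD.alp z hz hzr e he
  · have := hl 1 0 1
    rwa [f2, sub_zero] at this
  · have := hl 2 0 1
    rwa [f8, sub_zero] at this
  · intro i j
    have h1 := hl 1 i j
    have h2 : en (Om Ps (w 1) (z.1, 0)) (z.1, 0) e i j = stdE c s z e 1 i j := by
      have h3 : Om Ps (w 1) (z.1, 0) = d1 (PB1 l1) (z.1, 0) := hJ.one z.1 hz.1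
      rw [h3]
      show _ = en (d1 (PB1 l1) z) z e i j
      rw [en_l1 hG hz0 he, en_l1 hG hz he, hR.l1f _ r e hz0 he, hR.l1f _ r e hz he]
    rw [h2] at h1
    exact h1
  · exact fun i j => hl 2 i j
  · exact fun i j => hD.bd (z.1, 0) hz0 (by simpa using hD.r'_pos.le) e he 2 i j
  · exact fun i => hB.b0 z hz hzr e he i
  · exact hB.b02 z hz hzr e he
  · exact hB.b03 z hz hzr e he
  · exact fun i => hB.b1 z hz hzr e he i
  · exact fun i => hB.b2 z hz hzr e he i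
  · exact FG01 hF hcp hz he
  · show en (FG (fun _ => c) c 0 1 z) z e 2 3 = 0
    rw [FG23 hF hcp hz he, gd_const, neg_zero]
  · exact FG02 hF hcp hz he
  · exact FG03 hF hcp hz he
  · exact FG12 hF hcp hz he
  · exact FG13 hF hcp hz he
  · show en (d1 (PB1 l1) z) z e 0 1 = 0
    rw [en_l1 hG hz he, hR.l1f _ r e hz he]; simp
  · show en (d1 (PB1 l1) z) z e 2 3 = 0
    rw [en_l1 hG hz he, hR.l1f _ r e hz he]; simp
  · show en (d1 (PB1 l1) z) z e 0 2 = -1
    rw [en_l1 hG hz he, hR.l1f _ r e hz he]; simp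
  · show en (d1 (PB1 l1) z) z e 0 3 = 0
    rw [en_l1 hG hz he, hR.l1f _ r e hz he]; simp
  · show en (d1 (PB1 l1) z) z e 1 2 = 0
    rw [en_l1 hG hz he, hR.l1f _ r e hz he]; simp
  · show en (d1 (PB1 l1) z) z e 1 3 = -1
    rw [en_l1 hG hz he, hR.l1f _ r e hz he]; simp
  · show s * en (d1 (PB1 l2) z) z e 0 1 = 0
    rw [en_l2 hG hz he, hR.l2f _ r e hz he]; simp
  · show s * en (d1 (PB1 l2) z) z e 2 3 = 0
    rw [en_l2 hG hz he, hR.l2f _ r e hz he]; simp
  · show s * en (d1 (PB1 l2) z) z e 0 2 = 0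
    rw [en_l2 hG hz he, hR.l2f _ r e hz he]; simp
  · show s * en (d1 (PB1 l2) z) z e 0 3 = s * (-1)
    rw [en_l2 hG hz he, hR.l2f _ r e hz he]; simp
  · show s * en (d1 (PB1 l2) z) z e 1 2 = s * 1
    rw [en_l2 hG hz he, hR.l2f _ r e hz he]; simp
  · show s * en (d1 (PB1 l2) z) z e 1 3 = 0
    rw [en_l2 hG hz he, hR.l2f _ r e hz he]; simp

/-- the data of the cut-off. -/
structure CU (ρ η ρ' : ℝ) (χ a : ℝ → ℝ) : Prop where
  ρ'_pos : 0 < ρ'
  ρ'_lt : ρ' < ρ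
  smooth : ContDiff ℝ ∞ χ
  mem : ∀ t, 0 ≤ χ t ∧ χ t ≤ 1
  one : ∀ t ≤ ρ', χ t = 1
  zero : ∀ t, ρ ≤ t → χ t = 0
  der : ∀ t, |t * deriv χ t| ≤ η
  smootha : ContDiff ℝ ∞ a
  mema : ∀ t, 0 ≤ t → 0 ≤ a t ∧ a t ≤ η
  zeroa : ∀ t, ρ ≤ t → a t = 0
  cona : ∀ t ≤ ρ', a t = a 0
  dera : ∀ t, deriv a t = - (t * deriv χ t ^ 2)

theorem exists_CU (h : CUT) {ρ η : ℝ} (hρ : 0 < ρ) (hη : 0 < η) :
    ∃ (ρ' : ℝ) (χ a : ℝ → ℝ), CU ρ η ρ' χ a := by
  obtain ⟨ρ', χ, a, h1, h2, h3, h4, h5, h6, h7, h8, h9, h10, h11, h12⟩ := h ρ η hρ hη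
  exact ⟨ρ', χ, a, h1, h2, h3, h4, h5, h6, h7, h8, h9, h10, h11, h12⟩

theorem prof_a {ρ η ρ' : ℝ} {χ a : ℝ → ℝ} (h : CU ρ η ρ' χ a) (Λ : ℝ) :
    Prof (fun t => -(Λ * a t)) (-(Λ * a 0)) 0 ρ' := by
  refine ⟨(contDiff_const.mul h.smootha).neg, h.ρ'_pos, fun t ht => ?_⟩
  rw [h.cona t ht]
  ring

theorem deriv_chi_zero {ρ η ρ' : ℝ} {χ a : ℝ → ℝ} (h : CU ρ η ρ' χ a) : deriv χ 0 = 0 := by
  have h1 : χ =ᶠ[𝓝 0] fun _ => 1 := by
    filter_upwards [Iio_mem_nhds h.ρ'_pos] with x hx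
    exact h.one x (le_of_lt hx)
  rw [h1.deriv_eq]
  simp

theorem gd_a {ρ η ρ' : ℝ} {χ a : ℝ → ℝ} (h : CU ρ η ρ' χ a) (Λ t : ℝ) :
    gd (fun t => -(Λ * a t)) 0 t = Λ * deriv χ t ^ 2 := by
  unfold gd
  split_ifs with h0
  · rw [h0, deriv_chi_zero h]; ring
  · have h1 : deriv (fun t => -(Λ * a t)) t = Λ * (t * deriv χ t ^ 2) := by
      have h2 : HasDerivAt a (deriv a t) t :=
        (h.smootha.differentiable (by simp)).differentiableAt.hasDerivAt
      have h3 := (h2.const_mul Λ).neg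
      have h4 : deriv (fun t => -(Λ * a t)) t = -(Λ * deriv a t) := h3.deriv
      rw [h4, h.dera]
      ring
    rw [h1]
    field_simp

/-- the entries of the differential of the cut-off primitive. -/
theorem en_chi {χ : ℝ → ℝ} {ρ' : ℝ} (hχ : ContDiff ℝ ∞ χ) (hρ : 0 < ρ')
    (h1 : ∀ t ≤ ρ', χ t = 1) {β : E6 → E6 →L[ℝ] ℝ} (hβ : Bas1 r β) {z : E6} (hz : z ∈ OS r)
    (e : E3) (i j : Fin 4) {o st : ℝ} (hd : en (d1 β z) z e i j = o - st) :
    en (d1 (fun z => χ (rho z) • β z) z) z e i j =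
      fderiv ℝ (fun y => χ (rho y)) z (X z e i) * β z (X z e j) -
        fderiv ℝ (fun y => χ (rho y)) z (X z e j) * β z (X z e i) + χ (rho z) * (o - st) := by
  rw [en, d1_chi hχ hρ h1 hβ hz, ← hd]
  rfl

/-- STEP II. -/
theorem step2 (hG : GEO) (hF : FGL) (hR : RADF) (hPF : PFIFF M) (hE1 : K12_417.EXT M)
    (hE2 : K12An_776.EXT2 M) (hT : Tube σ r Ps G U) {w w' : Trip M} (hJ : Jet w Ps) {f : E3 → ℝ}
    (hZ : ZD w Ps f) {r' κ α C c s : ℝ} (hD : CD w Ps r r' κ α C)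
    {β : Fin 3 → E6 → E6 →L[ℝ] ℝ} (hB : BD w Ps r r' c s C β)
    (hs : s = 1 ∨ s = -1)
    (hsgn : ∀ q e, IsFr q e → 0 < s * (z2 w Ps q e 1 2 - z2 w Ps q e 0 3))
    {K₀ Λ δ : ℝ} (hC : 1 ≤ C) (hN : NQ (α / 4) (3 * C) (kap2 κ C / 2) K₀ Λ δ)
    {h : ℝ → ℝ} {A K t₀ d η ε ρ' : ℝ} {χ a : ℝ → ℝ}
    (hp : Prof h (-A) K t₀) (hh : ∀ t, 0 ≤ t → -A ≤ h t ∧ h t ≤ 0)
    (hw' : Pos3 w') (hw0 : ∀ z ∈ OS r, Om Ps (w' 0) z = Om Ps (w 0) z + FG h (-A) K t₀ z)
    (hw1 : ∀ z ∈ OS r, Om Ps (w' 1) z = Om Ps (w 1) z)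
    (hw2 : ∀ z ∈ OS r, Om Ps (w' 2) z = Om Ps (w 2) z)
    (hcu : CU d η ρ' χ a) (hd1 : d ≤ 1) (hdr : d ≤ r') (hdt : d < t₀) (hη1 : η ≤ 1)
    (hA : 2 * A ≤ α) (hΛ : 0 < Λ) (hΛη : Λ * η ≤ α / 4) (hαc : α ≤ c) (hcC : c ≤ C)
    (hK : 6 * C ≤ K) (hK0 : K₀ ≤ K) (hdδ : d ≤ δ) (hKδ : K * d ^ 2 ≤ δ)
    (hΛδ : Λ * η ^ 2 ≤ δ) (hε1 : 2 * (C * d) ≤ ε) (hε2 : C * d + C * η ≤ ε) (hε3 : ε ≤ 1)
    (hε4 : 16 * (C + 1) * ε ≤ kap2 κ C / 2) :
    ∃ b : Fin 3 → Z2 M, (∀ i x, x ∉ U → val (b i) x = 0) ∧ Seg w' (fun i => w' i + b i) ∧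
      (∀ z ∈ OS r, rho z < ρ' → Om Ps (b 0) z =
        -(Om Ps (w 0) z - FG (fun _ => c) c 0 1 z) +
          FG (fun t => -(Λ * a t)) (-(Λ * a 0)) 0 ρ' z) ∧
      (∀ z ∈ OS r, rho z < ρ' → Om Ps (b 1) z = -(Om Ps (w 1) z - d1 (PB1 l1) z)) ∧
      (∀ z ∈ OS r, rho z < ρ' → Om Ps (b 2) z = -(Om Ps (w 2) z - s • d1 (PB1 l2) z)) := by
  have hdlt : d < r := lt_of_le_of_lt hdr hD.r'_lt
  have hC0 : 0 < C := by linarith
  -- the forms
  have hex : ∀ k, ∃ b : Z2 M, (∀ x, (∀ z ∈ TS r, ‖z.2‖ ≤ d → x ≠ Ps z) → val b x = 0) ∧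
      ∀ z ∈ OS r, Om Ps b z = d1 (fun z => χ (rho z) • β k z) z := by
    intro k
    obtain ⟨b, _, h2, h3⟩ := hE1 σ r Ps G U hT (fun z => χ (rho z) • β k z) d hdlt
      (bas1_chi hcu.smooth hcu.ρ'_pos hcu.one (hB.bas k)) (by
        intro z hz hzd
        show χ (rho z) • β k z = 0
        rw [rho_TS hG hz, hcu.zero _ hzd, zero_smul])
    exact ⟨b, h2, h3⟩
  choose b hb1 hb2 using hex
  have hpa := prof_a hcu Λ
  obtain ⟨b', hb'1, hb'2⟩ := hE2.ext σ r Ps G U hT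
    (FG (fun t => -(Λ * a t)) (-(Λ * a 0)) 0 ρ') d hdlt (hF.bas r _ _ _ _ hpa)
    (fun z hz hzd => hF.supp r _ _ _ _ hpa d (fun t ht => by rw [hcu.zeroa t ht]; simp) z
      (hG.TS_sub r hz) (by rw [rho_TS hG hz]; exact hzd))
  set bb : Fin 3 → Z2 M := ![-(b 0) + b', -(b 1), -(b 2)] with hbb
  have hO0 : ∀ z ∈ OS r, Om Ps (bb 0) z = -(d1 (fun z => χ (rho z) • β 0 z) z) +
      FG (fun t => -(Λ * a t)) (-(Λ * a 0)) 0 ρ' z := by
    intro z hz
    show Om Ps (-(b 0) + b') z = _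
    rw [Om_add, Om_neg, hb2 0 z hz, hb'2 z hz]
  have hO1 : ∀ z ∈ OS r, Om Ps (bb 1) z = -(d1 (fun z => χ (rho z) • β 1 z) z) := by
    intro z hz
    show Om Ps (-(b 1)) z = _
    rw [Om_neg, hb2 1 z hz]
  have hO2 : ∀ z ∈ OS r, Om Ps (bb 2) z = -(d1 (fun z => χ (rho z) • β 2 z) z) := by
    intro z hz
    show Om Ps (-(b 2)) z = _
    rw [Om_neg, hb2 2 z hz]
  have hval_neg : ∀ (a : Z2 M) x, val (-a) x = - val a x := fun a x => rfl
  have hsupp : ∀ i x, (∀ z ∈ TS r, ‖z.2‖ ≤ d → x ≠ Ps z) → val (bb i) x = 0 := by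
    intro i x hx
    fin_cases i
    · show val (-(b 0) + b') x = 0
      rw [val_add, hval_neg, hb1 0 x hx, hb'1 x hx]; simp
    · show val (-(b 1)) x = 0
      rw [hval_neg, hb1 1 x hx]; simp
    · show val (-(b 2)) x = 0
      rw [hval_neg, hb1 2 x hx]; simp
  have hnear : ∀ k, ∀ z ∈ OS r, rho z < ρ' →
      d1 (fun z => χ (rho z) • β k z) z = d1 (β k) z := by
    intro k z hz hzρ
    rw [d1_chi_near hcu.one hz.1 hzρ]
    simp only [one_smul]
  refine ⟨bb, ?_, ?_, ?_, ?_, ?_⟩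
  · intro i x hx
    refine hsupp i x fun z hz _ hxe => hx ?_
    rw [hxe]
    exact hT.maps z (hG.TS_sub r hz)
  · refine seg_of hPF hT hw' bb hdlt hsupp ?_
    intro t ht z hz hzd e he
    rw [posF_iff]
    have hzO := hG.TS_sub r hz
    have hzr : ‖z.2‖ ≤ r' := hzd.trans hdr
    have hρ0 : 0 ≤ ‖z.2‖ := norm_nonneg _
    have H := nh hG hF hR hJ hZ hD hB hz hzr he
    have hrz : rho z = ‖z.2‖ := rho_TS hG hz
    obtain ⟨D0, D1, D2, D3⟩ := dchi hG hcu.smooth hcu.ρ'_pos hcu.one hz he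
    -- entries of the cut-off forms
    have hc0 : ∀ i j, en (d1 (fun z => χ (rho z) • β 0 z) z) z e i j = _ := fun i j =>
      en_chi hcu.smooth hcu.ρ'_pos hcu.one (hB.bas 0) hzO e i j
        (o := en (Om Ps (w 0) z) z e i j) (st := stdE c s z e 0 i j) (by rw [hB.d0 z hzO]; rfl)
    have hc1 : ∀ i j, en (d1 (fun z => χ (rho z) • β 1 z) z) z e i j = _ := fun i j =>
      en_chi hcu.smooth hcu.ρ'_pos hcu.one (hB.bas 1) hzO e i j
        (o := en (Om Ps (w 1) z) z e i j) (st := stdE c s z e 1 i j) (by rw [hB.d1 z hzO]; rfl)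
    have hc2 : ∀ i j, en (d1 (fun z => χ (rho z) • β 2 z) z) z e i j = _ := fun i j =>
      en_chi hcu.smooth hcu.ρ'_pos hcu.one (hB.bas 2) hzO e i j
        (o := en (Om Ps (w 2) z) z e i j) (st := stdE c s z e 2 i j) (by rw [hB.d2 z hzO]; rfl)
    have hE0 : ∀ i j, en (Om Ps (w' 0) z + t • Om Ps (bb 0) z) z e i j =
        EE (fun i j => en (Om Ps (w 0) z) z e i j) (stdE c s z e 0)
          (fun i => β 0 z (X z e i)) (fun i => fderiv ℝ (fun y => χ (rho y)) z (X z e i)) t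
          (χ ‖z.2‖) i j + en (FG h (-A) K t₀ z) z e i j +
          t * en (FG (fun t => -(Λ * a t)) (-(Λ * a 0)) 0 ρ' z) z e i j := by
      intro i j
      rw [en_add, en_smul, hw0 z hzO, hO0 z hzO, en_add, en_add]
      have h1 : en (-(d1 (fun z => χ (rho z) • β 0 z) z)) z e i j =
        -en (d1 (fun z => χ (rho z) • β 0 z) z) z e i j := rfl
      rw [h1, hc0 i j, hrz]
      simp only [EE]
      ring
    have hE1' : ∀ i j, en (Om Ps (w' 1) z + t • Om Ps (bb 1) z) z e i j =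
        EE (fun i j => en (Om Ps (w 1) z) z e i j) (stdE c s z e 1)
          (fun i => β 1 z (X z e i)) (fun i => fderiv ℝ (fun y => χ (rho y)) z (X z e i)) t
          (χ ‖z.2‖) i j := by
      intro i j
      rw [en_add, en_smul, hw1 z hzO, hO1 z hzO]
      have h1 : en (-(d1 (fun z => χ (rho z) • β 1 z) z)) z e i j =
        -en (d1 (fun z => χ (rho z) • β 1 z) z) z e i j := rfl
      rw [h1, hc1 i j, hrz]
      simp only [EE]
      ring
    have hE2' : ∀ i j, en (Om Ps (w' 2) z + t • Om Ps (bb 2) z) z e i j =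
        EE (fun i j => en (Om Ps (w 2) z) z e i j) (stdE c s z e 2)
          (fun i => β 2 z (X z e i)) (fun i => fderiv ℝ (fun y => χ (rho y)) z (X z e i)) t
          (χ ‖z.2‖) i j := by
      intro i j
      rw [en_add, en_smul, hw2 z hzO, hO2 z hzO]
      have h1 : en (-(d1 (fun z => χ (rho z) • β 2 z) z)) z e i j =
        -en (d1 (fun z => χ (rho z) • β 2 z) z) z e i j := rfl
      rw [h1, hc2 i j, hrz]
      simp only [EE]
      ring
    have hCd : C * ‖z.2‖ ≤ C * d := mul_le_mul_of_nonneg_left hzd hC0.le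
    have hρsq : ‖z.2‖ ^ 2 ≤ d ^ 2 := by nlinarith
    have hK' : 0 ≤ K := by linarith
    refine num2 (α := α) (C := C) (κ := kap2 κ C) (K₀ := K₀) (Λ := Λ) (δ := δ) (ρ := ‖z.2‖)
      (c := c) (s := s) (A := A) (h := h ‖z.2‖) (ca := a ‖z.2‖) (K := K) (t := t)
      (χ := χ ‖z.2‖) (χ' := deriv χ ‖z.2‖) (η := η) (ε := ε)
      (e := fun k i j => en (Om Ps (w k) z) z e i j) (std := stdE c s z e)
      (z2 := z2 w Ps z.1 e) (b := fun k i => β k z (X z e i))
      (D := fun i => fderiv ℝ (fun y => χ (rho y)) z (X z e i))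
      (E := fun k i j => en (Om Ps (w' k) z + t • Om Ps (bb k) z) z e i j)
      hC hN H hs hρ0 (hzd.trans hd1) D0 D1 D2 D3 hη1 (hcu.der _) ht.1 ht.2 (hcu.mem _).1
      (hcu.mem _).2 hA (hh _ hρ0).1 (hh _ hρ0).2 (hcu.mema _ hρ0).1 (hcu.mema _ hρ0).2 hΛ hΛη
      hαc hcC hK hK0 (hzd.trans hdδ)
      ((mul_le_mul_of_nonneg_left hρsq hK').trans hKδ) hΛδ (by linarith) (by linarith) hε3 hε4
      ?_ ?_ ?_ ?_ ?_ ?_ ?_ hE1' hE2'
    · intro τ hτ0 hτ1 F b1 b2 b3 b4 x y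
      exact mix hD hZ hs he (hsgn z.1 e he) hτ0 hτ1 H.s102 H.s113 H.s103 H.s112 b1 b2 b3 b4 x y
    · show en (Om Ps (w' 0) z + t • Om Ps (bb 0) z) z e 0 1 = _
      rw [hE0, FG01 hF hp hz he, FG01 hF hpa hz he]
      ring
    · show en (Om Ps (w' 0) z + t • Om Ps (bb 0) z) z e 2 3 = _
      rw [hE0, FG23 hF hp hz he, FG23 hF hpa hz he, gd_a hcu,
        gd_prof hp (lt_of_le_of_lt hzd hdt)]
      ring
    · show en (Om Ps (w' 0) z + t • Om Ps (bb 0) z) z e 0 2 = _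
      rw [hE0, FG02 hF hp hz he, FG02 hF hpa hz he]
      ring
    · show en (Om Ps (w' 0) z + t • Om Ps (bb 0) z) z e 0 3 = _
      rw [hE0, FG03 hF hp hz he, FG03 hF hpa hz he]
      ring
    · show en (Om Ps (w' 0) z + t • Om Ps (bb 0) z) z e 1 2 = _
      rw [hE0, FG12 hF hp hz he, FG12 hF hpa hz he]
      ring
    · show en (Om Ps (w' 0) z + t • Om Ps (bb 0) z) z e 1 3 = _
      rw [hE0, FG13 hF hp hz he, FG13 hF hpa hz he]
      ring
  · intro z hz hzρ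
    rw [hO0 z hz, hnear 0 z hz hzρ, hB.d0 z hz]
  · intro z hz hzρ
    rw [hO1 z hz, hnear 1 z hz hzρ, hB.d1 z hz]
  · intro z hz hzρ
    rw [hO2 z hz, hnear 2 z hz hzρ, hB.d2 z hz]

end Man

end

end Crest.Agent.R235.K12S2d_776
end

-- ▼ part R235/K12S3_776
section

/-!
Row 235 (S0364), block K12, analytic assembly (helper776): STEP III, the flat zone.
-/

set_option autoImplicit false
set_option maxSynthPendingDepth 3
set_option linter.unusedSectionVars false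

open Set Function Filter MeasureTheory
open scoped Manifold ContDiff Topology RealInnerProductSpace

universe u

namespace Crest.Agent.R235.K12S3_776

open Crest.Agent.R240 Crest.Agent.R240.Ch Crest.Agent.R235 Crest.Agent.R235.K12_417
  Crest.Agent.R235.K12An_776 Crest.Agent.R235.K12Pos_776 Crest.Agent.R235.K12S1_776
  Crest.Agent.R235.K12Ext_168 Crest.Agent.R235.K12S2a_776 Crest.Agent.R235.K12S2d_776

noncomputable section

/-- the quadratic profile. -/
def qd (c K : ℝ) (t : ℝ) : ℝ := c + K * t ^ 2 / 2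

theorem prof_qd (c K : ℝ) {t₀ : ℝ} (h : 0 < t₀) : Prof (qd c K) c K t₀ :=
  ⟨by unfold qd; fun_prop, h, fun _ _ => rfl⟩

theorem prof_add {g g' : ℝ → ℝ} {c K t₀ c' K' t₀' : ℝ} (h : Prof g c K t₀)
    (h' : Prof g' c' K' t₀') (t : ℝ) {t₁ : ℝ} (h0 : 0 < t₁) (h1 : t₁ ≤ t₀) (h2 : t₁ ≤ t₀') :
    Prof (fun x => g x + t * g' x) (c + t * c') (K + t * K') t₁ := by
  refine ⟨h.smooth.add (contDiff_const.mul h'.smooth), h0, fun x hx => ?_⟩
  rw [h.eq x (hx.trans h1), h'.eq x (hx.trans h2)]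
  ring

/-- the Pfaffian of a block diagonal combination. -/
theorem pf_diag {E : Fin 3 → Fin 4 → Fin 4 → ℝ} {a b s : ℝ} (ha : 0 < a) (hb : 0 < b)
    (hs : s = 1 ∨ s = -1)
    (h001 : E 0 0 1 = a) (h023 : E 0 2 3 = -b) (h002 : E 0 0 2 = 0) (h003 : E 0 0 3 = 0)
    (h012 : E 0 1 2 = 0) (h013 : E 0 1 3 = 0)
    (h101 : E 1 0 1 = 0) (h123 : E 1 2 3 = 0) (h102 : E 1 0 2 = -1) (h103 : E 1 0 3 = 0)
    (h112 : E 1 1 2 = 0) (h113 : E 1 1 3 = -1)
    (h201 : E 2 0 1 = 0) (h223 : E 2 2 3 = 0) (h202 : E 2 0 2 = 0) (h203 : E 2 0 3 = s * (-1))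
    (h212 : E 2 1 2 = s * 1) (h213 : E 2 1 3 = 0) (c : Fin 3 → ℝ) (hc : c ≠ 0) :
    pfE (fun i j => ∑ k, c k * E k i j) < 0 := by
  have hs2 : s * s = 1 := by rcases hs with h | h <;> rw [h] <;> norm_num
  have e : pfE (fun i j => ∑ k, c k * E k i j) =
      -(a * b * c 0 ^ 2 + c 1 ^ 2 + (s * s) * c 2 ^ 2) := by
    simp only [pfE, Fin.sum_univ_three, h001, h023, h002, h003, h012, h013, h101, h123, h102,
      h103, h112, h113, h201, h223, h202, h203, h212, h213]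
    ring
  rw [e, hs2]
  have hab : 0 < a * b := mul_pos ha hb
  have h0 : 0 ≤ a * b * c 0 ^ 2 := by positivity
  have h1 : 0 ≤ c 1 ^ 2 := sq_nonneg _
  have h2 : 0 ≤ c 2 ^ 2 := sq_nonneg _
  by_contra hcon
  have hsum : a * b * c 0 ^ 2 + c 1 ^ 2 + 1 * c 2 ^ 2 ≤ 0 := by linarith
  have e0 : a * b * c 0 ^ 2 = 0 := by linarith
  have e1 : c 1 ^ 2 = 0 := by linarith
  have e2 : c 2 ^ 2 = 0 := by linarith
  have f0 : c 0 = 0 := by
    rcases mul_eq_zero.1 e0 with h | h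
    · exact absurd h hab.ne'
    · exact pow_eq_zero_iff (two_ne_zero) |>.1 h
  have f1 : c 1 = 0 := pow_eq_zero_iff (two_ne_zero) |>.1 e1
  have f2 : c 2 = 0 := pow_eq_zero_iff (two_ne_zero) |>.1 e2
  apply hc
  funext i
  fin_cases i
  · exact f0
  · exact f1
  · exact f2

section Man

variable {M : Type u} [TopologicalSpace M] [T2Space M] [CompactSpace M]
  [ChartedSpace E4 M] [IsManifold 𝓘(ℝ, E4) ∞ M]

variable {σ : E3 → M} {r : ℝ} {Ps : E6 → M} {G : M → E6} {U : Set M}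

/-- STEP III. -/
theorem step3 (hG : GEO) (hF : FGL) (hR : RADF) (hPF : PFIFF M)
    (hE2 : K12An_776.EXT2 M) (hFl : FLAT) (hT : Tube σ r Ps G U) {w : Trip M} (hw : Pos3 w)
    {c K ρ₁ s : ℝ} (hc : 0 < c) (hK : 0 < K) (hρ : 0 < ρ₁) (hρr : ρ₁ ≤ r)
    (hs : s = 1 ∨ s = -1)
    (h0 : ∀ z ∈ OS r, rho z < ρ₁ → Om Ps (w 0) z = FG (qd c K) c K 1 z)
    (h1 : ∀ z ∈ OS r, rho z < ρ₁ → Om Ps (w 1) z = d1 (PB1 l1) z)
    (h2 : ∀ z ∈ OS r, rho z < ρ₁ → Om Ps (w 2) z = s • d1 (PB1 l2) z) :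
    ∃ (a : Z2 M) (ρ : ℝ) (g : ℝ → ℝ) (c' K' t₀ t₁ : ℝ), (∀ x, x ∉ U → val a x = 0) ∧
      Seg w (fun i => w i + at0 a i) ∧ 0 < ρ ∧ ρ < ρ₁ ∧ Prof g c' K' t₀ ∧ 0 < c' ∧ 0 < K' ∧
      (∀ t, 0 ≤ t → t < ρ → 0 < g t) ∧ (∀ t, 0 < t → t < ρ → 0 < deriv g t) ∧ 0 < t₁ ∧ t₁ < ρ ∧
      (∀ t, t₁ ≤ t → t < ρ → g t = t) ∧
      ∀ z ∈ OS r, rho z < ρ₁ → Om Ps (w 0 + a) z = FG g c' K' t₀ z := by
  obtain ⟨t₁, t₂, t₃, g, ht1, ht12, ht23, ht3, hgs, hg3, hgf, hgp, hgd, c', K', t₀, hc', hK', ht0,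
    hg0⟩ := hFl c K ρ₁ hc hK hρ
  have hpg : Prof g c' K' t₀ := ⟨hgs, ht0, hg0⟩
  have hpq : Prof (qd c K) c K t₀ := prof_qd c K ht0
  have hpq1 : Prof (qd c K) c K 1 := prof_qd c K one_pos
  have hpd := prof_add hpg hpq (-1) ht0 le_rfl le_rfl
  have ht3r : t₃ < r := lt_of_lt_of_le ht3 hρr
  obtain ⟨a, ha1, ha2⟩ := hE2.ext σ r Ps G U hT
    (FG (fun x => g x + (-1) * qd c K x) (c' + (-1) * c) (K' + (-1) * K) t₀) t₃ ht3r
    (hF.bas r _ _ _ _ hpd)
    (fun z hz hzd => hF.supp r _ _ _ _ hpd t₃ (fun t ht => by rw [hg3 t ht, qd]; ring) z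
      (hG.TS_sub r hz) (by rw [rho_TS hG hz]; exact hzd))
  have hsum : ∀ z ∈ OS r, FG (fun x => g x + (-1) * qd c K x) (c' + (-1) * c) (K' + (-1) * K) t₀ z
      = FG g c' K' t₀ z + (-1 : ℝ) • FG (qd c K) c K t₀ z := fun z hz =>
    hF.add r g (qd c K) c' K' t₀ c K t₀ hpg hpq (-1) t₀ ht0 le_rfl le_rfl z hz
  have hq1 : ∀ z ∈ OS r, FG (qd c K) c K 1 z = FG (qd c K) c K t₀ z := fun z hz =>
    hF.congr r _ _ c K 1 t₀ hpq1 hpq (rho z + 1) (fun _ _ => rfl) z hz (lt_add_one _)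
  have ht2 : 0 < t₂ := ht1.trans ht12
  refine ⟨a, t₂, g, c', K', t₀, t₁, ?_, ?_, ht2, ht23.trans ht3, hpg, hc', hK',
    fun t h _ => hgp t h, fun t h _ => hgd t h, ht1, ht12, fun t h h' => hgf t h h'.le, ?_⟩
  · intro x hx
    refine ha1 x fun z hz _ hxe => hx ?_
    rw [hxe]
    exact hT.maps z (hG.TS_sub r hz)
  · refine seg_of hPF hT hw (at0 a) ht3r ?_ ?_
    · intro i x hx
      fin_cases i
      · exact ha1 x hx
      · exact val_zero x
      · exact val_zero x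
    · intro t ht z hz hzd e he
      rw [posF_iff]
      have hzO := hG.TS_sub r hz
      have hrz : rho z = ‖z.2‖ := rho_TS hG hz
      have hzρ : rho z < ρ₁ := by rw [hrz]; exact lt_of_le_of_lt hzd ht3
      have hρ0 : 0 ≤ ‖z.2‖ := norm_nonneg _
      have e0 : ∀ i j, en (Om Ps (w 0) z + t • Om Ps (at0 a 0) z) z e i j =
          en (FG (qd c K) c K t₀ z) z e i j + t * en (FG (fun x => g x + (-1) * qd c K x)
            (c' + (-1) * c) (K' + (-1) * K) t₀ z) z e i j := by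
        intro i j
        rw [en_add, en_smul, show at0 a 0 = a from rfl, ha2 z hzO, h0 z hzO hzρ, hq1 z hzO]
      have e1 : ∀ i j, en (Om Ps (w 1) z + t • Om Ps (at0 a 1) z) z e i j =
          en (d1 l1 z) z e i j := by
        intro i j
        rw [show at0 a 1 = 0 from rfl, Om_zero, smul_zero, add_zero, h1 z hzO hzρ,
          en_l1 hG hz he]
      have e2 : ∀ i j, en (Om Ps (w 2) z + t • Om Ps (at0 a 2) z) z e i j =
          s * en (d1 l2 z) z e i j := by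
        intro i j
        rw [show at0 a 2 = 0 from rfl, Om_zero, smul_zero, add_zero, h2 z hzO hzρ, en_smul,
          en_l2 hG hz he]
      have hq0 : 0 < qd c K ‖z.2‖ := by unfold qd; positivity
      have ha : 0 < (1 - t) * qd c K ‖z.2‖ + t * g ‖z.2‖ := by
        have h3 := hgp _ hρ0
        rcases eq_or_lt_of_le ht.1 with h4 | h4
        · rw [← h4]; simpa using hq0
        · have h5 : 0 ≤ (1 - t) * qd c K ‖z.2‖ := mul_nonneg (by linarith [ht.2]) hq0.le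
          have h6 : 0 < t * g ‖z.2‖ := mul_pos h4 h3
          linarith
      -- the entry `23`
      have hbv : gd (qd c K) K ‖z.2‖ + t * gd (fun x => g x + (-1) * qd c K x) (K' + (-1) * K)
          ‖z.2‖ = (1 - t) * K + t * gd g K' ‖z.2‖ := by
        rw [gd_prof (prof_qd c K (by positivity : 0 < ‖z.2‖ + 1)) (lt_add_one _)]
        have h5 : gd (fun x => g x + (-1) * qd c K x) (K' + (-1) * K) ‖z.2‖ =
            gd g K' ‖z.2‖ - K := by
          unfold gd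
          split_ifs with h6
          · ring
          · have h7 : HasDerivAt g (deriv g ‖z.2‖) ‖z.2‖ :=
              (hgs.differentiable (by simp)).differentiableAt.hasDerivAt
            have h8 : HasDerivAt (qd c K) (deriv (qd c K) ‖z.2‖) ‖z.2‖ :=
              (hpq.smooth.differentiable (by simp)).differentiableAt.hasDerivAt
            have h9 := h7.add (h8.const_mul (-1))
            have h10 : deriv (fun x => g x + (-1) * qd c K x) ‖z.2‖ =
              deriv g ‖z.2‖ + (-1) * deriv (qd c K) ‖z.2‖ := h9.deriv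
            rw [h10, deriv_prof (prof_qd c K (by positivity : 0 < ‖z.2‖ + 1)) (lt_add_one _)]
            field_simp
            ring
        rw [h5]; ring
      have hb : 0 < (1 - t) * K + t * gd g K' ‖z.2‖ := by
        have h3 : 0 < gd g K' ‖z.2‖ := by
          unfold gd
          split_ifs with h6
          · exact hK'
          · have h7 : 0 < ‖z.2‖ := lt_of_le_of_ne hρ0 (Ne.symm h6)
            exact div_pos (hgd _ h7) h7
        rcases eq_or_lt_of_le ht.1 with h4 | h4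
        · rw [← h4]; simpa using hK
        · have h5 : 0 ≤ (1 - t) * K := mul_nonneg (by linarith [ht.2]) hK.le
          have h6 : 0 < t * gd g K' ‖z.2‖ := mul_pos h4 h3
          linarith
      refine pf_diag ha hb hs ?_ ?_ ?_ ?_ ?_ ?_ ?_ ?_ ?_ ?_ ?_ ?_ ?_ ?_ ?_ ?_ ?_ ?_
      · rw [e0, FG01 hF hpq hz he, FG01 hF hpd hz he]; ring
      · rw [e0, FG23 hF hpq hz he, FG23 hF hpd hz he, ← hbv]; ring
      · rw [e0, FG02 hF hpq hz he, FG02 hF hpd hz he]; ring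
      · rw [e0, FG03 hF hpq hz he, FG03 hF hpd hz he]; ring
      · rw [e0, FG12 hF hpq hz he, FG12 hF hpd hz he]; ring
      · rw [e0, FG13 hF hpq hz he, FG13 hF hpd hz he]; ring
      · rw [e1, hR.l1f _ r e hz he]; simp
      · rw [e1, hR.l1f _ r e hz he]; simp
      · rw [e1, hR.l1f _ r e hz he]; simp
      · rw [e1, hR.l1f _ r e hz he]; simp
      · rw [e1, hR.l1f _ r e hz he]; simp
      · rw [e1, hR.l1f _ r e hz he]; simp
      · rw [e2, hR.l2f _ r e hz he]; simp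
      · rw [e2, hR.l2f _ r e hz he]; simp
      · rw [e2, hR.l2f _ r e hz he]; simp
      · rw [e2, hR.l2f _ r e hz he]; simp
      · rw [e2, hR.l2f _ r e hz he]; simp
      · rw [e2, hR.l2f _ r e hz he]; simp
  · intro z hz hzρ
    rw [Om_add, ha2 z hz, h0 z hz hzρ, hsum z hz, hq1 z hz]
    module

end Man

end

end Crest.Agent.R235.K12S3_776
end

-- ▼ part R235/K12One_776
section

/-!
Row 235 (S0364), block K12, analytic assembly (helper776): the ONE-SPHERE THEOREM.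
-/

set_option autoImplicit false
set_option maxSynthPendingDepth 3
set_option linter.unusedSectionVars false

open Set Function Filter MeasureTheory
open scoped Manifold ContDiff Topology RealInnerProductSpace

universe u

namespace Crest.Agent.R235.K12One_776

open Crest.Agent.R240 Crest.Agent.R240.Ch Crest.Agent.R235 Crest.Agent.R235.K12_417
  Crest.Agent.R235.K12An_776 Crest.Agent.R235.K12Pos_776 Crest.Agent.R235.K12S1_776
  Crest.Agent.R235.K12Ext_168 Crest.Agent.R235.K12S2a_776 Crest.Agent.R235.K12S2b_776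
  Crest.Agent.R235.K12S2c_776 Crest.Agent.R235.K12S2n_776 Crest.Agent.R235.K12S2d_776
  Crest.Agent.R235.K12S3_776

noncomputable section

/-- the depth of the bump. -/
theorem exists_A {κ α C Cb : ℝ} (hκ : 0 < κ) (hα : 0 < α) (hC : 0 < C) (hCb : 0 < Cb) :
    ∃ A : ℝ, 0 < A ∧ 2 * A ≤ α ∧ 16 * (A * C) ≤ κ ∧ 16 * (C ^ 2 * (Cb * A)) ≤ κ * α := by
  refine ⟨min (α / 2) (min (κ / (16 * C)) (κ * α / (16 * (C ^ 2 * Cb)))), by positivity, ?_, ?_,
    ?_⟩
  · have := min_le_left (α / 2) (min (κ / (16 * C)) (κ * α / (16 * (C ^ 2 * Cb))))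
    linarith
  · have h1 := (min_le_right (α / 2) (min (κ / (16 * C)) (κ * α / (16 * (C ^ 2 * Cb))))).trans
      (min_le_left _ _)
    rw [le_div_iff₀ (by positivity)] at h1
    linarith
  · have h1 := (min_le_right (α / 2) (min (κ / (16 * C)) (κ * α / (16 * (C ^ 2 * Cb))))).trans
      (min_le_right _ _)
    rw [le_div_iff₀ (by positivity)] at h1
    linarith

/-- the radius of the bump. -/
theorem exists_s {A L r' : ℝ} (hA : 0 < A) (hL : 0 < L) (hr' : 0 < r') :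
    ∃ s : ℝ, 0 < s ∧ s ≤ r' ∧ L ≤ A / s ^ 2 := by
  refine ⟨min r' (√(A / L)), by positivity, min_le_left _ _, ?_⟩
  have h1 : 0 < min r' (√(A / L)) := by positivity
  rw [le_div_iff₀ (by positivity)]
  have h2 : (min r' (√(A / L))) ^ 2 ≤ √(A / L) ^ 2 := by
    have := min_le_right r' (√(A / L))
    nlinarith
  rw [Real.sq_sqrt (by positivity)] at h2
  have h3 := mul_le_mul_of_nonneg_left h2 hL.le
  have h4 : L * (A / L) = A := by field_simp
  linarith

/-- the parameters of the cut-off. -/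
theorem exists_dη {α Λ δ C K t₀ r' κ₂ : ℝ} (hα : 0 < α) (hΛ : 0 < Λ) (hδ : 0 < δ) (hC : 0 < C)
    (hK : 0 < K) (ht₀ : 0 < t₀) (hr' : 0 < r') (hκ₂ : 0 < κ₂) :
    ∃ d η ε : ℝ, 0 < d ∧ 0 < η ∧ d ≤ 1 ∧ d ≤ r' ∧ d < t₀ ∧ η ≤ 1 ∧ Λ * η ≤ α / 4 ∧ d ≤ δ ∧
      K * d ^ 2 ≤ δ ∧ Λ * η ^ 2 ≤ δ ∧ 2 * (C * d) ≤ ε ∧ C * d + C * η ≤ ε ∧ ε ≤ 1 ∧
      16 * (C + 1) * ε ≤ κ₂ / 2 := by
  set ε : ℝ := min 1 (κ₂ / (32 * (C + 1))) with hε
  have hε0 : 0 < ε := by positivity
  set η : ℝ := min 1 (min (α / (4 * Λ)) (min (δ / Λ) (ε / (2 * C)))) with hη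
  have hη0 : 0 < η := by positivity
  set d : ℝ := min 1 (min r' (min (t₀ / 2) (min δ (min (δ / K) (ε / (2 * C)))))) with hd
  have hd0 : 0 < d := by positivity
  have d1 : d ≤ 1 := min_le_left _ _
  have d2 : d ≤ r' := (min_le_right _ _).trans (min_le_left _ _)
  have d3 : d ≤ t₀ / 2 := (min_le_right _ _).trans ((min_le_right _ _).trans (min_le_left _ _))
  have d4 : d ≤ δ := (min_le_right _ _).trans ((min_le_right _ _).trans
    ((min_le_right _ _).trans (min_le_left _ _)))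
  have d5 : d ≤ δ / K := (min_le_right _ _).trans ((min_le_right _ _).trans
    ((min_le_right _ _).trans ((min_le_right _ _).trans (min_le_left _ _))))
  have d6 : d ≤ ε / (2 * C) := (min_le_right _ _).trans ((min_le_right _ _).trans
    ((min_le_right _ _).trans ((min_le_right _ _).trans (min_le_right _ _))))
  have n1 : η ≤ 1 := min_le_left _ _
  have n2 : η ≤ α / (4 * Λ) := (min_le_right _ _).trans (min_le_left _ _)
  have n3 : η ≤ δ / Λ := (min_le_right _ _).trans ((min_le_right _ _).trans (min_le_left _ _))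
  have n4 : η ≤ ε / (2 * C) := (min_le_right _ _).trans ((min_le_right _ _).trans
    (min_le_right _ _))
  rw [le_div_iff₀ (by positivity)] at d5 d6 n2 n3 n4
  refine ⟨d, η, ε, hd0, hη0, d1, d2, by linarith, n1, by linarith, d4, ?_, ?_, by linarith,
    by linarith, min_le_left _ _, ?_⟩
  · have h1 : d ^ 2 ≤ d := by nlinarith
    have h2 := mul_le_mul_of_nonneg_left h1 hK.le
    linarith
  · have h1 : η ^ 2 ≤ η := by nlinarith
    have h2 := mul_le_mul_of_nonneg_left h1 hΛ.le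
    linarith
  · have h1 : ε ≤ κ₂ / (32 * (C + 1)) := min_le_right _ _
    rw [le_div_iff₀ (by positivity)] at h1
    linarith

section Man

variable {M : Type u} [TopologicalSpace M] [T2Space M] [CompactSpace M]
  [ChartedSpace E4 M] [IsManifold 𝓘(ℝ, E4) ∞ M]

/-- the ONE-SPHERE THEOREM. -/
theorem one (hG : GEO) (hF : FGL) (hR : RADF) (hBu : BUMP) (hL : LIP) (hPF : PFIFF M)
    (hZ : ZERO M) (hI : ALGI) (hQ : ALGQ) (hCu : CUT) (hFl : FLAT) (hS : S2PRIM) (hRP : RPRIM)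
    (hE1 : K12_417.EXT M) (hE2 : K12An_776.EXT2 M) (hTu : TUBE M) : ONE M := by
  intro w hw σ hσ hl1 hl2 harea O hO hσO
  obtain ⟨r, Ps, G, U, hT, hUO, hJ⟩ := hTu w hw σ hσ hl1 hl2 O hO hσO
  obtain ⟨f, f1, f2, f3, f4⟩ := hZ w hw σ hσ harea r Ps G U hT hJ
  have hZD : ZD w Ps f := ⟨f1, f2, f3, f4⟩
  obtain ⟨c, hc0, hc⟩ := exists_mean f1 f2
  obtain ⟨r', κ, α, C₁, hD₁, hαc, hcC₁⟩ := exists_CD hPF hT hw hZD hL hc0
  obtain ⟨s, hs, hsgn⟩ := exists_sgn hT hD₁ hZD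
  obtain ⟨C₂, β, hB₂⟩ := exists_BD hG hF hS hRP hT hJ hZD hc s hD₁.r'_pos hD₁.r'_lt
  set C : ℝ := max (max C₁ C₂) 1 with hC
  have hC1 : 1 ≤ C := le_max_right _ _
  have hC0 : 0 < C := by linarith
  have hD : CD w Ps r r' κ α C := CD.mono hD₁ ((le_max_left _ _).trans (le_max_left _ _))
  have hB : BD w Ps r r' c s C β := BD.mono hB₂ ((le_max_right _ _).trans (le_max_left _ _))
  have hcC : c ≤ C := hcC₁.trans ((le_max_left _ _).trans (le_max_left _ _))
  obtain ⟨Cb, hCb0, hbump⟩ := hBu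
  obtain ⟨A, hA0, hA1, hA2, hA3⟩ := exists_A hD.κ_pos hD.α_pos hC0 hCb0
  have hκ₂ := kap2_pos (C := C) hD.κ_pos
  obtain ⟨K₀, Λ, δ, hK₀, hΛ, hδ, hN⟩ := exists_NQ hQ (α := α / 4) (C := 3 * C)
    (κ := kap2 κ C / 2) (by have := hD.α_pos; positivity) (by linarith) (by positivity)
  -- the bump
  obtain ⟨sb, hsb0, hsbr, hsbK⟩ := exists_s (A := A) (L := max K₀ (6 * C)) (r' := r') hA0
    (lt_of_lt_of_le hK₀ (le_max_left _ _)) hD.r'_pos
  obtain ⟨h, K, t₀, hp, ht₀s, hKs, hh1, hh2, hh3⟩ := hbump A sb hA0 hsb0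
  have hKm : max K₀ (6 * C) ≤ K := hsbK.trans hKs
  have hK0 : K₀ ≤ K := (le_max_left _ _).trans hKm
  have hK6 : 6 * C ≤ K := (le_max_right _ _).trans hKm
  have hKpos : 0 < K := by linarith
  obtain ⟨a, ha1, ha2, ha3⟩ := step1 hG hPF hT hw hZD hF hI hE2 hD hsbr hA1 hA2 hA3 hp hKpos.le
    hh1 hh2 hh3
  set w₁ : Trip M := fun i => w i + at0 a i with hw₁
  have hw₁p : Pos3 w₁ := pos_end ha3
  -- the cut-off
  obtain ⟨d, η, ε, hd0, hη0, d1, d2, d3, n1, n2, d4, d5, n3, e1, e2, e3, e4⟩ :=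
    exists_dη hD.α_pos hΛ hδ hC0 hKpos hp.pos hD.r'_pos hκ₂
  obtain ⟨ρ', χ, ca, hcu⟩ := exists_CU hCu hd0 hη0
  have hw₁0 : ∀ z ∈ OS r, Om Ps (w₁ 0) z = Om Ps (w 0) z + FG h (-A) K t₀ z := by
    intro z hz
    show Om Ps (w 0 + a) z = _
    rw [Om_add, ha2 z hz]
  have hw₁1 : ∀ z ∈ OS r, Om Ps (w₁ 1) z = Om Ps (w 1) z := by
    intro z hz
    show Om Ps (w 1 + 0) z = _
    rw [add_zero]
  have hw₁2 : ∀ z ∈ OS r, Om Ps (w₁ 2) z = Om Ps (w 2) z := by
    intro z hz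
    show Om Ps (w 2 + 0) z = _
    rw [add_zero]
  obtain ⟨b, hb1, hb2, hb3, hb4, hb5⟩ := step2 hG hF hR hPF hE1 hE2 hT hJ hZD hD hB hs hsgn hC1
    hN hp hh1 hw₁p hw₁0 hw₁1 hw₁2 hcu d1 d2 d3 n1 hA1 hΛ n2 hαc hcC hK6 hK0 d4 d5 n3 e1 e2 e3 e4
  set w₂ : Trip M := fun i => w₁ i + b i with hw₂
  have hw₂p : Pos3 w₂ := pos_end hb2
  -- the triple near the zero section
  have hd_lt : d < r := lt_of_le_of_lt d2 hD.r'_lt
  have hρ'r : ρ' < r := hcu.ρ'_lt.trans hd_lt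
  set c₂ : ℝ := -A + 1 * c + 1 * (-(Λ * ca 0)) with hc₂
  have hc₂0 : 0 < c₂ := by
    have h1 := (hcu.mema 0 le_rfl).2
    have h2 := mul_le_mul_of_nonneg_left h1 hΛ.le
    have h3 := hD.α_pos
    rw [hc₂]
    linarith
  set K₂ : ℝ := K + 1 * 0 + 1 * 0 with hK₂
  have hK₂0 : 0 < K₂ := by rw [hK₂]; linarith
  set ρ₁ : ℝ := min ρ' t₀ with hρ₁
  have hρ₁0 : 0 < ρ₁ := lt_min hcu.ρ'_pos hp.pos
  have hρ₁' : ρ₁ ≤ ρ' := min_le_left _ _
  have hρ₁t : ρ₁ ≤ t₀ := min_le_right _ _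
  have hpc := prof_const c one_pos
  have hpa := prof_a hcu Λ
  set T1 : ℝ := min t₀ 1 with hT1
  have hT10 : 0 < T1 := lt_min hp.pos one_pos
  have hp1 := prof_add hp hpc 1 hT10 (min_le_left _ _) (min_le_right _ _)
  set T2 : ℝ := min T1 ρ' with hT2
  have hT20 : 0 < T2 := lt_min hT10 hcu.ρ'_pos
  have hp2 := prof_add hp1 hpa 1 hT20 (min_le_left _ _) (min_le_right _ _)
  have hFG : ∀ z ∈ OS r, rho z < ρ₁ → FG h (-A) K t₀ z + FG (fun _ => c) c 0 1 z +
      FG (fun t => -(Λ * ca t)) (-(Λ * ca 0)) 0 ρ' z = FG (qd c₂ K₂) c₂ K₂ 1 z := by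
    intro z hz hzρ
    have h1 := hF.add r h (fun _ => c) (-A) K t₀ c 0 1 hp hpc 1 T1 hT10 (min_le_left _ _)
      (min_le_right _ _) z hz
    have h2 := hF.add r _ (fun t => -(Λ * ca t)) _ _ _ (-(Λ * ca 0)) 0 ρ' hp1 hpa 1 T2 hT20
      (min_le_left _ _) (min_le_right _ _) z hz
    rw [one_smul] at h1 h2
    rw [← h1, ← h2]
    refine hF.congr r _ _ c₂ K₂ T2 1 hp2 (prof_qd c₂ K₂ one_pos) ρ₁ ?_ z hz hzρ
    intro t ht
    show h t + 1 * c + 1 * -(Λ * ca t) = qd c₂ K₂ t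
    rw [hp.eq t (ht.le.trans hρ₁t), hcu.cona t (ht.le.trans hρ₁'), qd, hc₂, hK₂]
    ring
  have hw₂0 : ∀ z ∈ OS r, rho z < ρ₁ → Om Ps (w₂ 0) z = FG (qd c₂ K₂) c₂ K₂ 1 z := by
    intro z hz hzρ
    show Om Ps (w₁ 0 + b 0) z = _
    rw [Om_add, hw₁0 z hz, hb3 z hz (lt_of_lt_of_le hzρ hρ₁'), ← hFG z hz hzρ]
    abel
  have hw₂1 : ∀ z ∈ OS r, rho z < ρ₁ → Om Ps (w₂ 1) z = Ch.d1 (PB1 l1) z := by
    intro z hz hzρ
    show Om Ps (w₁ 1 + b 1) z = _
    rw [Om_add, hw₁1 z hz, hb4 z hz (lt_of_lt_of_le hzρ hρ₁')]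
    abel
  have hw₂2 : ∀ z ∈ OS r, rho z < ρ₁ → Om Ps (w₂ 2) z = s • Ch.d1 (PB1 l2) z := by
    intro z hz hzρ
    show Om Ps (w₁ 2 + b 2) z = _
    rw [Om_add, hw₁2 z hz, hb5 z hz (lt_of_lt_of_le hzρ hρ₁')]
    abel
  obtain ⟨a₃, ρ, g, c₃, K₃, t₃, t₁, g1, g2, g3, g4, g5, g6, g7, g8, g9, g10, g11, g12, g13⟩ :=
    step3 hG hF hR hPF hE2 hFl hT hw₂p hc₂0 hK₂0 hρ₁0 (hρ₁'.trans hρ'r.le) hs hw₂0 hw₂1 hw₂2
  set w₃ : Trip M := fun i => w₂ i + at0 a₃ i with hw₃
  have hρr : ρ < r := g4.trans_le (hρ₁'.trans hρ'r.le)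
  have hsub : ∀ z ∈ OS ρ, z ∈ OS r ∧ rho z < ρ₁ := fun z hz =>
    ⟨⟨hz.1, hz.2.trans hρr⟩, hz.2.trans g4⟩
  refine ⟨w₃, r, Ps, G, U, ρ, s, g, c₃, K₃, t₃, t₁, ?_, pos_end g2, ?_, ?_⟩
  · exact ((Relation.ReflTransGen.single ha3).tail hb2).tail g2
  · intro i x hx
    have hxU : x ∉ U := fun h => hx (hUO h)
    have h1 : ∀ (a : Z2 M), (∀ x, x ∉ U → val a x = 0) → val (at0 a i) x = 0 := by
      intro a ha
      fin_cases i
      · exact ha x hxU
      · exact val_zero x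
      · exact val_zero x
    show val (w i + at0 a i + b i + at0 a₃ i) x = val (w i) x
    rw [val_add, val_add, val_add, h1 a ha1, h1 a₃ g1, hb1 i x hxU]
    simp
  · exact
      { tube := hT
        sub := hUO
        ρ_pos := g3
        ρ_lt := hρr
        sgn := hs
        one := fun z hz => by
          show Om Ps (w₂ 1 + 0) z = _
          rw [add_zero]
          exact hw₂1 z (hsub z hz).1 (hsub z hz).2
        two := fun z hz => by
          show Om Ps (w₂ 2 + 0) z = _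
          rw [add_zero]
          exact hw₂2 z (hsub z hz).1 (hsub z hz).2
        prof := g5
        c_pos := g6
        K_pos := g7
        g_pos := g8
        g_deriv := g9
        t_pos := g10
        t_lt := g11
        flat := g12
        zero := fun z hz => g13 z (hsub z hz).1 (hsub z hz).2 }

end Man

end

end Crest.Agent.R235.K12One_776
end

-- ▼ part R235/K12Posf_601
section

/-!
Row 235 (S0364), package KUM, block K12, leaf POSF (helper601): positivity at a point of the tube,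
read in a frame.
-/

set_option autoImplicit false
set_option maxSynthPendingDepth 3

open Set Function Filter MeasureTheory
open scoped Manifold ContDiff Topology RealInnerProductSpace

universe u

namespace Crest.Agent.R235.K12Posf_601

open Crest.Agent.R240 Crest.Agent.R240.Ch Crest.Agent.R235 Crest.Agent.R235.K12_417

noncomputable section

/-- the linear map with columns `Y i`. -/
def colM (Y : Fin 4 → E4) : E4 →L[ℝ] E4 :=
  ∑ i, (EuclideanSpace.proj i : E4 →L[ℝ] ℝ).smulRight (Y i)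

theorem colM_ee (Y : Fin 4 → E4) (i : Fin 4) : colM Y (ee i) = Y i := by
  simp [colM, sum_apply]


section Closed

variable {M : Type u} [TopologicalSpace M] [ChartedSpace E4 M] [IsManifold 𝓘(ℝ, E4) ∞ M]


end Closed

end

end Crest.Agent.R235.K12Posf_601
end

-- ▼ part R235/K12Pf_776
section

/-!
Row 235 (S0364), block K12 (helper776): LEAF PFIFF (a form is degenerate at a point of the tube iff
its Pfaffian in the frame vanishes) and LEAF EXT2 in the form of `K12AnDefs_776`.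
-/

set_option autoImplicit false
set_option maxSynthPendingDepth 3
set_option linter.unusedSectionVars false

open Set Function Filter MeasureTheory
open scoped Manifold ContDiff Topology RealInnerProductSpace

universe u

namespace Crest.Agent.R235.K12Pf_776

open Crest.Agent.R240 Crest.Agent.R240.Ch Crest.Agent.R235 Crest.Agent.R235.K12_417
  Crest.Agent.R235.K12An_776 Crest.Agent.R235.PB_604 Crest.Agent.R235.K12Ext_168
  Crest.Agent.R235.K12Posf_601

noncomputable section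

variable {M : Type u} [TopologicalSpace M] [T2Space M] [CompactSpace M]
  [ChartedSpace E4 M] [IsManifold 𝓘(ℝ, E4) ∞ M]

variable {σ : E3 → M} {r : ℝ} {Ps : E6 → M} {G : M → E6} {U : Set M}

/-- the frame is linearly independent. -/
theorem X_indep {z : E6} {e : E3} (he : IsFr z.1 e) {c : Fin 4 → ℝ}
    (h : ∑ i, c i • X z e i = 0) : c = 0 := by
  rw [Fin.sum_univ_four] at h
  have h1 := congrArg Prod.fst h
  have h2 := congrArg Prod.snd h
  have x0 : X z e 0 = (e, -(⟪z.2, e⟫ • z.1)) := rfl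
  have x1 : X z e 1 = (cr z.1 e, -(⟪z.2, cr z.1 e⟫ • z.1)) := rfl
  have x2 : X z e 2 = (0, e) := rfl
  have x3 : X z e 3 = (0, cr z.1 e) := rfl
  rw [x0, x1, x2, x3] at h1 h2
  simp only [Prod.fst_add, Prod.smul_fst, Prod.fst_zero, smul_zero, add_zero, Prod.snd_add,
    Prod.smul_snd, Prod.snd_zero] at h1 h2
  have hee : ⟪e, e⟫ = 1 := by rw [real_inner_self_eq_norm_sq, he.2.1]; norm_num
  have h33 : ⟪cr z.1 e, cr z.1 e⟫ = 1 := K12Radf_843.fr_e3 he
  have he3 : ⟪e, cr z.1 e⟫ = 0 := K12Radf_843.inn_cr_right z.1 e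
  have h3e : ⟪cr z.1 e, e⟫ = 0 := by rw [real_inner_comm]; exact he3
  have c0 : c 0 = 0 := by
    have := congrArg (fun v => ⟪e, v⟫) h1
    simp only [inner_add_right, inner_smul_right, hee, he3, inner_zero_right] at this
    linarith
  have c1 : c 1 = 0 := by
    have := congrArg (fun v => ⟪cr z.1 e, v⟫) h1
    simp only [inner_add_right, inner_smul_right, h3e, h33, inner_zero_right] at this
    linarith
  rw [c0, c1, zero_smul, zero_smul, zero_add, zero_add] at h2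
  have c2 : c 2 = 0 := by
    have := congrArg (fun v => ⟪e, v⟫) h2
    simp only [inner_add_right, inner_smul_right, hee, he3, inner_zero_right] at this
    linarith
  have c3 : c 3 = 0 := by
    have := congrArg (fun v => ⟪cr z.1 e, v⟫) h2
    simp only [inner_add_right, inner_smul_right, h3e, h33, inner_zero_right] at this
    linarith
  funext i
  fin_cases i
  · exact c0
  · exact c1
  · exact c2
  · exact c3

theorem colM_apply (Y : Fin 4 → E4) (v : E4) : colM Y v = ∑ i, v i • Y i := by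
  simp [colM, sum_apply]

/-- the images of the frame are independent. -/
theorem colM_inj (hT : Tube σ r Ps G U) {z : E6} {e : E3} (hz : z ∈ TS r) (he : IsFr z.1 e) :
    LinearMap.det (colM (fun i => D1 E6 E4 Ps z (X z e i)) : E4 →ₗ[ℝ] E4) ≠ 0 := by
  have hzO := TS_subset_OS r hz
  have hU : Ps z ∈ U := hT.maps z hzO
  have hP : ContMDiffAt 𝓘(ℝ, E6) 𝓘(ℝ, E4) 1 Ps z := (smoothAt hT hzO).of_le one_le_infty
  have hG : ContMDiffAt 𝓘(ℝ, E4) 𝓘(ℝ, E6) 1 G (Ps z) := (smoothGAt hT hU).of_le one_le_infty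
  have h1 := D1_comp (E := E6) (F := E4) (G := E6) hP hG
  have h2 : D1 E6 E6 (G ∘ Ps) z = fderiv ℝ Pi z := by
    rw [D1_congr (comp_ev hT hzO), D1_Pi]
  rw [h2] at h1
  have hinj : Function.Injective
      (colM (fun i => D1 E6 E4 Ps z (X z e i)) : E4 →ₗ[ℝ] E4) := by
    rw [injective_iff_map_eq_zero]
    intro v hv
    have hv' : ∑ i, v i • D1 E6 E4 Ps z (X z e i) = 0 := by
      rw [← colM_apply]; exact hv
    have h3 : ∑ i, v i • X z e i = 0 := by
      have h4 : ∑ i, v i • X z e i = fderiv ℝ Pi z (∑ i, v i • X z e i) := by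
        rw [map_sum]
        refine Finset.sum_congr rfl fun i _ => ?_
        rw [map_smul, K12Geo_128.fix hz he i]
      rw [h4, h1]
      show D1 E4 E6 G (Ps z) (D1 E6 E4 Ps z (∑ i, v i • X z e i)) = 0
      have h5 : D1 E6 E4 Ps z (∑ i, v i • X z e i) =
          ∑ i, v i • D1 E6 E4 Ps z (X z e i) := by
        rw [map_sum]
        exact Finset.sum_congr rfl fun i _ => map_smul _ _ _
      rw [h5, hv', map_zero]
    have h4 := X_indep he (c := fun i => v i) h3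
    ext i
    exact congrFun h4 i
  exact (LinearEquiv.isUnit_det' (LinearEquiv.ofInjectiveEndo _ hinj)).ne_zero

variable (M) in
/-- LEAF PFIFF. -/
theorem pfiff : PFIFF M := by
  intro σ r Ps G U hT a z e hz he
  set A : E6 →L[ℝ] E4 := D1 E6 E4 Ps z with hA
  set b : Bil := val a (Ps z) with hb
  have halt : Alt b := fun v => a.1.2.1 (Ps z) v
  have hen : ∀ i j : Fin 4, en (Om Ps a z) z e i j = b (A (X z e i)) (A (X z e j)) := by
    intro i j
    rw [en, K12Pos_776.Om_eq, pl_apply]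
  have h1 := W_pull halt halt (colM (fun i => A (X z e i)))
  have h2 : W (pull (colM (fun i => A (X z e i))) b) (pull (colM (fun i => A (X z e i))) b) =
      2 * pf (Om Ps a z) z e := by
    unfold W ent pf
    simp only [pull_apply, colM_ee, hen]
    ring
  rw [h2] at h1
  have h3 := colM_inj hT hz he
  constructor
  · intro h
    rw [h, mul_zero] at h1
    linarith
  · intro h
    rw [h, mul_zero] at h1
    rcases mul_eq_zero.1 h1.symm with h4 | h4
    · exact absurd h4 h3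
    · exact h4

variable (M) in
/-- LEAF EXT2. -/
theorem ext2 : K12An_776.EXT2 M where
  ext := K12Ext2_168.ext2 M
  bas := fun _ _ _ _ _ h a => K12Pos_776.basOm h a

end

end Crest.Agent.R235.K12Pf_776
end

-- ▼ part R235/K12Zero_692
section

/-!
Row 235 (S0364), package KUM, block K12, leaf ZERO (task 364, helper692): the entries of the
triple at the zero section; the area density `f > 0`.
-/

set_option autoImplicit false
set_option maxSynthPendingDepth 3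
set_option linter.unusedSectionVars false

open Set Function Filter MeasureTheory
open scoped Manifold ContDiff Topology RealInnerProductSpace

universe u

namespace Crest.Agent.R235.K12Zero_692

open Crest.Agent.R240 Crest.Agent.R240.Ch Crest.Agent.R235 Crest.Agent.R235.K12_417
  Crest.Agent.R235.K12An_776 Crest.Agent.R235.PB_604 Crest.Agent.R235.K12Ext_168

noncomputable section

/-! ### algebra in `ℝ³` -/

theorem inner3 (a b : E3) : ⟪a, b⟫ = a 0 * b 0 + a 1 * b 1 + a 2 * b 2 := by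
  rw [PiLp.inner_apply, Fin.sum_univ_three]
  simp only [RCLike.inner_apply, conj_trivial]
  ring

theorem norm3 {q : E3} (hq : ‖q‖ = 1) : q 0 * q 0 + q 1 * q 1 + q 2 * q 2 = 1 := by
  rw [← inner3, real_inner_self_eq_norm_sq, hq]
  norm_num

theorem cr0 (a b : E3) : cr a b 0 = a 1 * b 2 - a 2 * b 1 := by simp [cr]
theorem cr1 (a b : E3) : cr a b 1 = a 2 * b 0 - a 0 * b 2 := by simp [cr]
theorem cr2 (a b : E3) : cr a b 2 = a 0 * b 1 - a 1 * b 0 := by simp [cr]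

/-- the standard basis. -/
abbrev b3 (i : Fin 3) : E3 := EuclideanSpace.single i 1

theorem expand3 (u : E3) : u = u 0 • b3 0 + u 1 • b3 1 + u 2 • b3 2 := by
  ext i
  fin_cases i <;> simp [b3]

/-- an alternating form on `ℝ³` with kernel `q`. -/
theorem alt_axis (B : E3 →ₗ[ℝ] E3 →ₗ[ℝ] ℝ) (hB : ∀ u, B u u = 0) {q : E3} (hq : ‖q‖ = 1)
    (hk : ∀ v, B q v = 0) (u v : E3) :
    B u v = (q 2 * B (b3 0) (b3 1) + q 0 * B (b3 1) (b3 2) + q 1 * B (b3 2) (b3 0)) *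
      ⟪q, cr u v⟫ := by
  have hs : ∀ a b, B b a = - B a b := by
    intro a b
    have h1 := hB (a + b)
    simp only [map_add, LinearMap.add_apply, hB] at h1
    linarith
  have h1 : ∀ u v : E3, B u v = (u 0 * v 1 - u 1 * v 0) * B (b3 0) (b3 1) +
      (u 1 * v 2 - u 2 * v 1) * B (b3 1) (b3 2) + (u 2 * v 0 - u 0 * v 2) * B (b3 2) (b3 0) := by
    intro u v
    conv_lhs => rw [expand3 u, expand3 v]
    simp only [map_add, map_smul, LinearMap.add_apply, LinearMap.smul_apply, smul_eq_mul, hB]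
    rw [hs (b3 0) (b3 1), hs (b3 1) (b3 2), hs (b3 2) (b3 0)]
    ring
  have k0 := hk (b3 0)
  have k1 := hk (b3 1)
  have k2 := hk (b3 2)
  rw [h1] at k0 k1 k2
  simp [b3] at k0 k1 k2
  rw [h1 u v, inner3, cr0, cr1, cr2]
  set x := B (b3 0) (b3 1)
  set y := B (b3 1) (b3 2)
  set z := B (b3 2) (b3 0)
  have hn := norm3 hq
  have e0 : q 1 * x = q 2 * z := by
    have : x = B (EuclideanSpace.single 0 1) (EuclideanSpace.single 1 1) := rfl
    have : z = B (EuclideanSpace.single 2 1) (EuclideanSpace.single 0 1) := rfl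
    linarith
  have e1 : q 0 * x = q 2 * y := by
    have : x = B (EuclideanSpace.single 0 1) (EuclideanSpace.single 1 1) := rfl
    have : y = B (EuclideanSpace.single 1 1) (EuclideanSpace.single 2 1) := rfl
    linarith
  have e2 : q 1 * y = q 0 * z := by
    have : y = B (EuclideanSpace.single 1 1) (EuclideanSpace.single 2 1) := rfl
    have : z = B (EuclideanSpace.single 2 1) (EuclideanSpace.single 0 1) := rfl
    linarith
  have f0 : y = (q 2 * x + q 0 * y + q 1 * z) * q 0 := by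
    linear_combination (-y) * hn + q 2 * e1 * (-1) + q 1 * e2
  have f1 : z = (q 2 * x + q 0 * y + q 1 * z) * q 1 := by
    linear_combination (-z) * hn + q 2 * e0 * (-1) - q 0 * e2
  have f2 : x = (q 2 * x + q 0 * y + q 1 * z) * q 2 := by
    linear_combination (-x) * hn + q 1 * e0 + q 0 * e1
  linear_combination (u 0 * v 1 - u 1 * v 0) * f2 + (u 1 * v 2 - u 2 * v 1) * f0 +
    (u 2 * v 0 - u 0 * v 2) * f1

theorem inner_cr_cr {q e : E3} (h : IsFr q e) : ⟪q, cr e (cr q e)⟫ = 1 := by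
  obtain ⟨h1, h2, h3⟩ := h
  have n1 := norm3 h1
  have n2 := norm3 h2
  rw [inner3] at h3
  simp only [inner3, cr0, cr1, cr2]
  have : (q 0 * q 0 + q 1 * q 1 + q 2 * q 2) * (e 0 * e 0 + e 1 * e 1 + e 2 * e 2) -
      (q 0 * e 0 + q 1 * e 1 + q 2 * e 2) ^ 2 = 1 := by
    rw [n1, n2, h3]; norm_num
  linear_combination this

theorem inner_cr_self {q e : E3} : ⟪q, cr q e⟫ = 0 := by
  rw [inner3, cr0, cr1, cr2]; ring

/-- existence of frames. -/
theorem exists_fr {q : E3} (hq : ‖q‖ = 1) : ∃ e, IsFr q e := by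
  obtain ⟨v, hv, hv0⟩ : ∃ v : E3, ⟪q, v⟫ = 0 ∧ v ≠ 0 := by
    by_cases h : q 0 = 0 ∧ q 1 = 0
    · refine ⟨b3 0, ?_, ?_⟩
      · rw [inner3, h.1, h.2]; simp [b3]
      · intro h0
        have := congrArg (fun v : E3 => v 0) h0
        simp [b3] at this
    · refine ⟨!₂[-q 1, q 0, 0], ?_, ?_⟩
      · rw [inner3]; simp; ring
      · intro h0
        have e1 := congrArg (fun v : E3 => v 0) h0
        have e2 := congrArg (fun v : E3 => v 1) h0
        simp at e1 e2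
        exact h ⟨e2, e1⟩
  refine ⟨‖v‖⁻¹ • v, hq, ?_, ?_⟩
  · rw [norm_smul, norm_inv, norm_norm, inv_mul_cancel₀ (norm_ne_zero_iff.2 hv0)]
  · rw [inner_smul_right, hv, mul_zero]

/-- a pencil of `2 × 2` matrices with the identity contains a singular one. -/
theorem exists_sing (a b c d a' b' c' d' : ℝ) : ∃ x y z : ℝ, (x ≠ 0 ∨ y ≠ 0 ∨ z ≠ 0) ∧
    (x * a - y + z * a') * (x * d - y + z * d') - (x * b + z * b') * (x * c + z * c') = 0 := by
  obtain ⟨x, z, hxz, h1⟩ : ∃ x z : ℝ, (x ≠ 0 ∨ z ≠ 0) ∧ x * b + z * b' = x * c + z * c' := by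
    by_cases h : b - c = 0
    · exact ⟨1, 0, Or.inl one_ne_zero, by linarith⟩
    · refine ⟨-(b' - c'), b - c, Or.inr h, by ring⟩
  set A := x * a + z * a' with hA
  set D := x * d + z * d' with hD
  set β := x * b + z * b' with hβ
  refine ⟨x, ((A + D) + Real.sqrt ((A - D) ^ 2 + 4 * β ^ 2)) / 2, z, ?_, ?_⟩
  · rcases hxz with h | h
    · exact Or.inl h
    · exact Or.inr (Or.inr h)
  · rw [← h1]
    have hs : Real.sqrt ((A - D) ^ 2 + 4 * β ^ 2) ^ 2 = (A - D) ^ 2 + 4 * β ^ 2 :=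
      Real.sq_sqrt (by positivity)
    set s := Real.sqrt ((A - D) ^ 2 + 4 * β ^ 2)
    have e1 : x * a - (A + D + s) / 2 + z * a' = (A - D - s) / 2 := by rw [hA]; ring
    have e2 : x * d - (A + D + s) / 2 + z * d' = (D - A - s) / 2 := by rw [hD]; ring
    rw [e1, e2]
    linear_combination (1 / 4) * hs

/-! ### the zero section -/

section Closed

variable {M : Type u} [TopologicalSpace M] [T2Space M] [CompactSpace M]
  [ChartedSpace E4 M] [IsManifold 𝓘(ℝ, E4) ∞ M]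
variable {σ : E3 → M} {r : ℝ} {Ps : E6 → M} {G : M → E6} {U : Set M}

theorem mem_TS_zero (h : Tube σ r Ps G U) {q : E3} (hq : ‖q‖ = 1) : ((q, 0) : E6) ∈ TS r :=
  ⟨hq, by simp, by simpa using h.r_pos⟩

theorem Pi_zero (q : E3) : Pi ((q, 0) : E6) = (‖q‖⁻¹ • q, 0) := by
  simp [Pi]

theorem mem_OS_zero (h : Tube σ r Ps G U) {q : E3} (hq : q ≠ 0) : ((q, 0) : E6) ∈ OS r := by
  refine ⟨hq, ?_⟩
  rw [Pi_zero]
  simpa using h.r_pos

theorem om_apply (a : Z2 M) (z X Y : E6) :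
    Om Ps a z X Y = at2 (a.1.1 : F2 E4 M) (Ps z) (D1 E6 E4 Ps z X) (D1 E6 E4 Ps z Y) := rfl

theorem om_alt (a : Z2 M) (z X : E6) : Om Ps a z X X = 0 := by
  rw [om_apply]; exact a.1.2.1 _ _

/-- `D Ps` kills the radial direction. -/
theorem D1_rad (h : Tube σ r Ps G U) {q : E3} (hq : ‖q‖ = 1) :
    D1 E6 E4 Ps ((q, 0) : E6) ((q, 0) : E6) = 0 := by
  have hq0 : q ≠ 0 := by
    intro h0; rw [h0, norm_zero] at hq; exact zero_ne_one hq
  have hz : ((q, 0) : E6) ∈ OS r := mem_OS_zero h hq0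
  have hPz : Pi ((q, 0) : E6) = (q, 0) := by rw [Pi_zero, hq]; simp
  have e1 : Ps ∘ Pi =ᶠ[𝓝 ((q, 0) : E6)] Ps := by
    filter_upwards [(isOpen_OS r).mem_nhds hz] with z hz
    exact h.fac z hz
  have hPi : ContMDiffAt 𝓘(ℝ, E6) 𝓘(ℝ, E6) 1 Pi ((q, 0) : E6) :=
    ((contDiffAt_Pi (z := ((q, 0) : E6)) hq0).contMDiffAt).of_le one_le_infty
  have hPs : ContMDiffAt 𝓘(ℝ, E6) 𝓘(ℝ, E4) 1 Ps (Pi ((q, 0) : E6)) := by
    rw [hPz]; exact (smoothAt h hz).of_le one_le_infty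
  have e2 := D1_comp (E := E6) (F := E6) (G := E4) hPi hPs
  have e3 : (D1 E6 E4 (Ps ∘ Pi) ((q, 0) : E6) : E6 →L[ℝ] E4) = D1 E6 E4 Ps ((q, 0) : E6) :=
    D1_congr e1
  rw [← e3, e2, ContinuousLinearMap.comp_apply]
  have e4 : D1 E6 E6 Pi ((q, 0) : E6) ((q, 0) : E6) = 0 := by
    rw [D1_Pi]
    have hd : DifferentiableAt ℝ Pi ((q, 0) : E6) :=
      (contDiffAt_Pi (z := ((q, 0) : E6)) hq0).differentiableAt infty_ne_zero
    have hc : HasDerivAt (fun t : ℝ => (((1 + t) • q, 0) : E6)) (q, 0) 0 := by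
      have h1 : HasDerivAt (fun t : ℝ => (1 + t) • q) q 0 := by
        have := ((hasDerivAt_id (0 : ℝ)).const_add 1).smul_const q
        simpa using this
      exact h1.prodMk (hasDerivAt_const _ _)
    have hc' : HasDerivAt (fun t : ℝ => Pi (((1 + t) • q, 0) : E6)) (fderiv ℝ Pi (q, 0) (q, 0)) 0 := by
      have h2 : HasFDerivAt Pi (fderiv ℝ Pi ((q, 0) : E6)) (((1 + (0 : ℝ)) • q, 0) : E6) := by
        simpa using hd.hasFDerivAt
      exact h2.comp_hasDerivAt (0 : ℝ) hc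
    have hev : (fun t : ℝ => Pi (((1 + t) • q, 0) : E6)) =ᶠ[𝓝 0] fun _ => (q, 0) := by
      filter_upwards [lt_mem_nhds (show (-1 : ℝ) < 0 by norm_num)] with t ht
      have h1t : 0 < 1 + t := by linarith
      rw [Pi_zero, norm_smul, Real.norm_of_nonneg h1t.le, hq, mul_one, smul_smul,
        inv_mul_cancel₀ h1t.ne', one_smul]
    have h3 := hc'.congr_of_eventuallyEq hev.symm
    exact h3.unique (hasDerivAt_const _ _)
  rw [e4, map_zero]

/-- the form on `ℝ³` induced at the zero section. -/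
def B0 (Ps : E6 → M) (a : Z2 M) (q : E3) : E3 →ₗ[ℝ] E3 →ₗ[ℝ] ℝ :=
  LinearMap.mk₂ ℝ (fun u v => Om Ps a (q, 0) (u, 0) (v, 0))
    (fun u u' v => by
      have : ((u + u', 0) : E6) = (u, 0) + (u', 0) := by simp
      rw [this, map_add]; rfl)
    (fun c u v => by
      have : ((c • u, 0) : E6) = c • ((u, 0) : E6) := by simp
      rw [this, map_smul]; rfl)
    (fun u v v' => by
      have : ((v + v', 0) : E6) = (v, 0) + (v', 0) := by simp
      rw [this, map_add])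
    (fun c u v => by
      have : ((c • v, 0) : E6) = c • ((v, 0) : E6) := by simp
      rw [this, map_smul])

/-- the area density of `a` on the unit sphere. -/
def dens (Ps : E6 → M) (a : Z2 M) (q : E3) : ℝ :=
  q 2 * Om Ps a (q, 0) (b3 0, 0) (b3 1, 0) + q 0 * Om Ps a (q, 0) (b3 1, 0) (b3 2, 0) +
    q 1 * Om Ps a (q, 0) (b3 2, 0) (b3 0, 0)

theorem om_dens (h : Tube σ r Ps G U) (a : Z2 M) {q : E3} (hq : ‖q‖ = 1) (u v : E3) :
    Om Ps a (q, 0) (u, 0) (v, 0) = dens Ps a q * ⟪q, cr u v⟫ := by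
  refine alt_axis (B0 Ps a q) (fun u => om_alt a _ _) hq (fun v => ?_) u v
  show Om Ps a (q, 0) (q, 0) (v, 0) = 0
  rw [om_apply, D1_rad h hq, map_zero]
  rfl

theorem contDiffAt_om (h : Tube σ r Ps G U) (a : Z2 M) {z : E6} (hz : z ∈ OS r) :
    ContDiffAt ℝ ∞ (Om Ps a) z := by
  have h1 : Z2At (pb2 (E := E6) (F := E4) Ps (a.1.1 : F2 E4 M)) z :=
    (z2At_of_mem a.1.2 a.2 (Ps z)).pb2 (smoothAt h hz)
  have h2 := h1.sm
  have h3 : rep z (pb2 (E := E6) (F := E4) Ps (a.1.1 : F2 E4 M)) = Om Ps a := by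
    funext y
    exact rep_model z _ y
  rw [h3] at h2
  exact h2

/-- the density, extended. -/
def fz (Ps : E6 → M) (a : Z2 M) (q : E3) : ℝ := dens Ps a (‖q‖⁻¹ • q)

theorem hom0_fz (h : Tube σ r Ps G U) (a : Z2 M) : Hom0 (fz Ps a) := by
  refine ⟨fun q hq => ContDiffAt.contDiffWithinAt ?_, fun t q ht => ?_⟩
  · have hq0 : q ≠ 0 := hq
    have hne : ‖q‖ ≠ 0 := norm_ne_zero_iff.2 hq0
    have h1 : ContDiffAt ℝ ∞ (fun q : E3 => ‖q‖⁻¹ • q) q :=
      ((contDiffAt_id.norm ℝ hq0).inv hne).smul contDiffAt_id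
    have h1' : ContDiffAt ℝ ∞ (fun q : E3 => ((‖q‖⁻¹ • q, 0) : E6)) q := h1.prodMk contDiffAt_const
    have hm : (((‖q‖⁻¹ • q, 0) : E6)) ∈ OS r := mem_OS_zero h (by
      rw [Ne, smul_eq_zero, not_or]
      exact ⟨inv_ne_zero hne, hq0⟩)
    have h2 : ContDiffAt ℝ ∞ (fun q : E3 => Om Ps a ((‖q‖⁻¹ • q, 0) : E6)) q :=
      (contDiffAt_om h a hm).comp q h1'
    have h3 : ∀ i : Fin 3, ContDiffAt ℝ ∞ (fun q : E3 => (‖q‖⁻¹ • q) i) q := fun i =>
      (EuclideanSpace.proj i : E3 →L[ℝ] ℝ).contDiff.contDiffAt.comp q h1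
    have h4 : ∀ i j : Fin 3, ContDiffAt ℝ ∞
        (fun q : E3 => Om Ps a ((‖q‖⁻¹ • q, 0) : E6) (b3 i, 0) (b3 j, 0)) q := fun i j =>
      (h2.clm_apply contDiffAt_const).clm_apply contDiffAt_const
    unfold fz dens
    exact (((h3 2).mul (h4 0 1)).add ((h3 0).mul (h4 1 2))).add ((h3 1).mul (h4 2 0))
  · unfold fz
    have e : ‖t • q‖⁻¹ • t • q = ‖q‖⁻¹ • q := by
      rw [norm_smul, Real.norm_of_nonneg ht.le, smul_smul, mul_inv]
      congr 1
      rw [mul_comm t⁻¹, mul_assoc, inv_mul_cancel₀ ht.ne', mul_one]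
    rw [e]

theorem fz_unit (a : Z2 M) {q : E3} (hq : ‖q‖ = 1) : fz Ps a q = dens Ps a q := by
  unfold fz
  rw [hq, inv_one, one_smul]

/-! #### entries -/

theorem en01 (h : Tube σ r Ps G U) (a : Z2 M) {q e : E3} (he : IsFr q e) :
    en (Om Ps a (q, 0)) (q, 0) e 0 1 = dens Ps a q := by
  have e1 : X ((q, 0) : E6) e 0 = (e, 0) := by simp [X, hor]
  have e2 : X ((q, 0) : E6) e 1 = (cr q e, 0) := by simp [X, hor]
  unfold en
  rw [e1, e2, om_dens h a he.1, inner_cr_cr he, mul_one]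

theorem en_one (hG : GEO) (hR : RADF) (h : Tube σ r Ps G U) {w : Trip M} (hJ : Jet w Ps)
    {q e : E3} (he : IsFr q e) (i j : Fin 4) :
    en (Om Ps (w 1) (q, 0)) (q, 0) e i j =
      if (i = 0 ∧ j = 2) ∨ (i = 1 ∧ j = 3) then -1
      else if (i = 2 ∧ j = 0) ∨ (i = 3 ∧ j = 1) then 1 else 0 := by
  have hz : ((q, 0) : E6) ∈ TS r := mem_TS_zero h he.1
  have e1 : Om Ps (w 1) (q, 0) = d1 (PB1 l1) (q, 0) := hJ.one q he.1
  have hd : DifferentiableAt ℝ l1 (Pi ((q, 0) : E6)) := by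
    unfold l1
    have h1 : DifferentiableAt ℝ (fun z : E6 => (innerSL ℝ z.2 : E3 →L[ℝ] ℝ)) (Pi ((q, 0) : E6)) :=
      ((innerSL ℝ : E3 →L[ℝ] E3 →L[ℝ] ℝ).comp (ContinuousLinearMap.snd ℝ E3 E3)).differentiableAt
    exact h1.clm_comp (differentiableAt_const _)
  have e2 : d1 (PB1 l1) (q, 0) = PB2 (d1 l1) (q, 0) := hG.d1PB r l1 (q, 0) (hG.TS_sub r hz) hd
  rw [e1, e2, hG.en_PB2 r (d1 l1) (q, 0) e hz he i j, hR.l1f (q, 0) r e hz he i j]

/-! #### the density does not vanish -/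

theorem dens_ne (hG : GEO) (hP : PFIFF M) (hR : RADF) {w : Trip M} (hw : Pos3 w)
    (h : Tube σ r Ps G U) (hJ : Jet w Ps) {q : E3} (hq : ‖q‖ = 1) : dens Ps (w 0) q ≠ 0 := by
  intro h0
  obtain ⟨e, he⟩ := exists_fr hq
  have hz : ((q, 0) : E6) ∈ TS r := mem_TS_zero h hq
  obtain ⟨x, y, z, hne, hs⟩ := exists_sing
    (en (Om Ps (w 0) (q, 0)) (q, 0) e 0 2) (en (Om Ps (w 0) (q, 0)) (q, 0) e 0 3)
    (en (Om Ps (w 0) (q, 0)) (q, 0) e 1 2) (en (Om Ps (w 0) (q, 0)) (q, 0) e 1 3)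
    (en (Om Ps (w 2) (q, 0)) (q, 0) e 0 2) (en (Om Ps (w 2) (q, 0)) (q, 0) e 0 3)
    (en (Om Ps (w 2) (q, 0)) (q, 0) e 1 2) (en (Om Ps (w 2) (q, 0)) (q, 0) e 1 3)
  have hen : ∀ i j, en (Om Ps (x • w 0 + y • w 1 + z • w 2) (q, 0)) (q, 0) e i j =
      x * en (Om Ps (w 0) (q, 0)) (q, 0) e i j + y * en (Om Ps (w 1) (q, 0)) (q, 0) e i j +
        z * en (Om Ps (w 2) (q, 0)) (q, 0) e i j := fun i j => rfl
  have a2 : en (Om Ps (w 2) (q, 0)) (q, 0) e 0 1 = 0 := by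
    unfold en
    have e1 : X ((q, 0) : E6) e 0 = (e, 0) := by simp [X, hor]
    have e2 : X ((q, 0) : E6) e 1 = (cr q e, 0) := by simp [X, hor]
    rw [e1, e2]
    exact hJ.hor2 q e _ hq
  have hpf : pf (Om Ps (x • w 0 + y • w 1 + z • w 2) (q, 0)) (q, 0) e = 0 := by
    unfold pf
    simp only [hen]
    have c01 : en (Om Ps (w 1) (q, 0)) (q, 0) e 0 1 = 0 := by
      rw [en_one hG hR h hJ he]; simp
    have c02 : en (Om Ps (w 1) (q, 0)) (q, 0) e 0 2 = -1 := by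
      rw [en_one hG hR h hJ he]; simp
    have c03 : en (Om Ps (w 1) (q, 0)) (q, 0) e 0 3 = 0 := by
      rw [en_one hG hR h hJ he]; simp
    have c12 : en (Om Ps (w 1) (q, 0)) (q, 0) e 1 2 = 0 := by
      rw [en_one hG hR h hJ he]; simp
    have c13 : en (Om Ps (w 1) (q, 0)) (q, 0) e 1 3 = -1 := by
      rw [en_one hG hR h hJ he]; simp
    rw [a2, en01 h (w 0) he, h0, c01, c02, c03, c12, c13]
    linear_combination -hs
  have h1 := (hP σ r Ps G U h (x • w 0 + y • w 1 + z • w 2) (q, 0) e hz he).2 hpf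
  refine hw (Ps (q, 0)) ![x, y, z] (fun hc => ?_) ?_
  · have c0 := congrFun hc 0
    have c1 := congrFun hc 1
    have c2 := congrFun hc 2
    simp at c0 c1 c2
    rcases hne with h | h | h
    · exact h c0
    · exact h c1
    · exact h c2
  · have e3 : ∑ i, (![x, y, z] : Fin 3 → ℝ) i • val (w i) (Ps (q, 0)) =
        val (x • w 0 + y • w 1 + z • w 2) (Ps (q, 0)) := by
      rw [Fin.sum_univ_three]
      rfl
    rw [e3]
    exact h1

/-! #### the sign -/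

theorem sigma_eq (hσ : EmbS σ) (h : Tube σ r Ps G U) {q : E3} (hq : q ≠ 0) :
    σ q = Ps (q, 0) := by
  have hn : ‖q‖ ≠ 0 := norm_ne_zero_iff.2 hq
  rw [← h.fac _ (mem_OS_zero h hq), Pi_zero, h.zero _ (by
    rw [norm_smul, norm_inv, norm_norm, inv_mul_cancel₀ hn]),
    hσ.hom _ _ (inv_pos.2 (norm_pos_iff.2 hq)) hq]

theorem dmap_eq (hσ : EmbS σ) (h : Tube σ r Ps G U) {q : E3} (hq : q ≠ 0) (v : E3) :
    dmap σ q v = D1 E6 E4 Ps (q, 0) (v, 0) := by
  have h1 : dmap σ q v = D1 E3 E4 σ q v := rfl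
  have h2 : σ =ᶠ[𝓝 q] Ps ∘ (fun q : E3 => ((q, 0) : E6)) := by
    filter_upwards [isOpen_ne.mem_nhds hq] with y hy
    exact sigma_eq hσ h hy
  have hi : ContMDiffAt 𝓘(ℝ, E3) 𝓘(ℝ, E6) 1 (fun q : E3 => ((q, 0) : E6)) q :=
    (contDiffAt_id.prodMk contDiffAt_const).contMDiffAt
  have hPs : ContMDiffAt 𝓘(ℝ, E6) 𝓘(ℝ, E4) 1 Ps ((fun q : E3 => ((q, 0) : E6)) q) :=
    (smoothAt h (mem_OS_zero h hq)).of_le one_le_infty
  have e2 := D1_comp (E := E3) (F := E6) (G := E4) hi hPs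
  have e3 : (D1 E3 E4 σ q : E3 →L[ℝ] E4) = D1 E3 E4 (Ps ∘ (fun q : E3 => ((q, 0) : E6))) q :=
    D1_congr h2
  rw [h1, e3, e2, ContinuousLinearMap.comp_apply]
  congr 1
  show fderiv ℝ (fun q : E3 => ((q, 0) : E6)) q v = (v, 0)
  have : HasFDerivAt (fun q : E3 => ((q, 0) : E6)) (ContinuousLinearMap.inl ℝ E3 E3) q :=
    (hasFDerivAt_id q).prodMk (hasFDerivAt_const _ _)
  rw [this.fderiv]
  rfl

theorem sphI_eq (hσ : EmbS σ) (h : Tube σ r Ps G U) (a : Z2 M) :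
    sphI σ (a.1.1 : F2 E4 M) =
      ∫ y : Metric.sphere (0 : E3) 1, fz Ps a y ∂((volume : Measure E3).toSphere) := by
  unfold sphI
  refine integral_congr_ae (Eventually.of_forall fun y => ?_)
  have hy : ‖(y : E3)‖ = 1 := by simp
  have hy0 : (y : E3) ≠ 0 := by
    intro h0; rw [h0, norm_zero] at hy; exact zero_ne_one hy
  beta_reduce
  rw [fz_unit a hy, dmap_eq hσ h hy0, dmap_eq hσ h hy0, dmap_eq hσ h hy0, sigma_eq hσ h hy0]
  rfl

theorem fz_pos (hG : GEO) (hP : PFIFF M) (hR : RADF) {w : Trip M} (hw : Pos3 w)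
    (hσ : EmbS σ) (hI : 0 < sphI σ ((w 0).1.1 : F2 E4 M)) (h : Tube σ r Ps G U)
    (hJ : Jet w Ps) {q : E3} (hq : ‖q‖ = 1) : 0 < fz Ps (w 0) q := by
  by_contra hn
  have hne : ∀ q : E3, ‖q‖ = 1 → fz Ps (w 0) q ≠ 0 := fun q hq => by
    rw [fz_unit _ hq]; exact dens_ne hG hP hR hw h hJ hq
  have hneg : fz Ps (w 0) q < 0 := lt_of_le_of_ne (not_lt.1 hn) (hne q hq)
  have hall : ∀ y : E3, ‖y‖ = 1 → fz Ps (w 0) y ≤ 0 := by
    intro y hy
    by_contra hy'
    have hconn : IsPreconnected (Metric.sphere (0 : E3) 1) := by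
      refine (isConnected_sphere ?_ (0 : E3) zero_le_one).isPreconnected
      rw [← Module.finrank_eq_rank, finrank_euclideanSpace_fin]
      norm_cast
    have hcont : ContinuousOn (fz Ps (w 0)) (Metric.sphere (0 : E3) 1) :=
      ((hom0_fz h (w 0)).1.continuousOn).mono fun z hz h0 => by
        rw [mem_sphere_zero_iff_norm] at hz
        have : z = 0 := h0
        rw [this, norm_zero] at hz
        exact zero_ne_one hz
    obtain ⟨z, hz, hz0⟩ := hconn.intermediate_value (f := fz Ps (w 0))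
      (a := q) (b := y) (by simpa using hq) (by simpa using hy) hcont
      ⟨hneg.le, (not_le.1 hy').le⟩
    exact hne z (by simpa using hz) hz0
  have hint : ∫ y : Metric.sphere (0 : E3) 1, fz Ps (w 0) y ∂((volume : Measure E3).toSphere) ≤ 0 :=
    integral_nonpos fun y => hall y (by simp)
  rw [← sphI_eq hσ h] at hint
  linarith

/-- **LEAF ZERO**. -/
theorem zero (hG : K12An_776.GEO) (hP : K12An_776.PFIFF M) (hR : K12_417.RADF) :
    K12An_776.ZERO M := by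
  intro w hw σ hσ hI r Ps G U h hJ
  refine ⟨fz Ps (w 0), hom0_fz h (w 0), fun q hq => ?_, fun q u v hq _ _ => ?_, fun q e he => ?_⟩
  · have hn : ‖q‖ ≠ 0 := norm_ne_zero_iff.2 hq
    have h1 : fz Ps (w 0) q = fz Ps (w 0) (‖q‖⁻¹ • q) :=
      ((hom0_fz h (w 0)).2 _ q (inv_pos.2 (norm_pos_iff.2 hq))).symm
    rw [h1]
    exact fz_pos hG hP hR hw hσ hI h hJ (by
      rw [norm_smul, norm_inv, norm_norm, inv_mul_cancel₀ hn])
  · rw [om_dens h (w 0) hq, fz_unit _ hq]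
  · refine ⟨?_, ?_, ?_, ?_, ?_, ?_, ?_, ?_, ?_⟩
    · rw [en01 h (w 0) he, fz_unit _ he.1]
    · rw [en_one hG hR h hJ he]; simp
    · rw [en_one hG hR h hJ he]; simp
    · rw [en_one hG hR h hJ he]; simp
    · rw [en_one hG hR h hJ he]; simp
    · rw [en_one hG hR h hJ he]; simp
    · rw [en_one hG hR h hJ he]; simp
    · unfold en
      have e1 : X ((q, 0) : E6) e 0 = (e, 0) := by simp [X, hor]
      have e2 : X ((q, 0) : E6) e 1 = (cr q e, 0) := by simp [X, hor]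
      rw [e1, e2]
      exact hJ.hor2 q e _ he.1
    · exact hJ.ver2 q e (cr q e) he.1 he.2.2 inner_cr_self

end Closed

end

end Crest.Agent.R235.K12Zero_692
end

-- ▼ part R235/K12Cut_895

/-!
Row 235 (S0364), package KUM, block K12: leaves CUT and FLAT (task 314): logarithmic cut-off
functions with the compensating function, and the radial profile with a flat zone.
-/

set_option autoImplicit false

open Set Function Filter MeasureTheory
open scoped Manifold ContDiff Topology RealInnerProductSpace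
open Crest.Agent.R235.K12_417

namespace Crest.Agent.R235.K12Cut_895

/-! ### the smooth step -/

theorem st_contDiff : ContDiff ℝ ∞ Real.smoothTransition := Real.smoothTransition.contDiff

theorem st_differentiable : Differentiable ℝ Real.smoothTransition :=
  st_contDiff.differentiable (by simp)

theorem st_deriv_nonneg (x : ℝ) : 0 ≤ deriv Real.smoothTransition x :=
  Real.smoothTransition.monotone.deriv_nonneg

theorem st_deriv_left {x : ℝ} (h : x < 0) : deriv Real.smoothTransition x = 0 := by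
  have : Real.smoothTransition =ᶠ[𝓝 x] fun _ => 0 := by
    filter_upwards [Iio_mem_nhds h] with y hy
    exact Real.smoothTransition.zero_of_nonpos (le_of_lt hy)
  rw [this.deriv_eq]; simp

theorem st_deriv_right {x : ℝ} (h : 1 < x) : deriv Real.smoothTransition x = 0 := by
  have : Real.smoothTransition =ᶠ[𝓝 x] fun _ => 1 := by
    filter_upwards [Ioi_mem_nhds h] with y hy
    exact Real.smoothTransition.one_of_one_le (le_of_lt hy)
  rw [this.deriv_eq]; simp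

theorem st_deriv_bdd : ∃ C : ℝ, 0 < C ∧ ∀ x, |deriv Real.smoothTransition x| ≤ C := by
  have hc : Continuous (deriv Real.smoothTransition) :=
    st_contDiff.continuous_deriv (by simp)
  obtain ⟨C, hC⟩ := (isCompact_Icc (a := (0 : ℝ)) (b := 1)).exists_bound_of_continuousOn
    hc.continuousOn
  refine ⟨max C 1, by positivity, fun x => ?_⟩
  by_cases h0 : x < 0
  · rw [st_deriv_left h0]; simp
  by_cases h1 : 1 < x
  · rw [st_deriv_right h1]; simp
  have := hC x ⟨not_lt.mp h0, not_lt.mp h1⟩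
  rw [Real.norm_eq_abs] at this
  exact this.trans (le_max_left _ _)

/-! ### LEAF CUT -/

theorem cut : CUT := by
  intro ρ η hρ hη
  obtain ⟨C, hC0, hC⟩ := st_deriv_bdd
  obtain ⟨N, hN1, hN⟩ : ∃ N : ℝ, 1 ≤ N ∧ C / N ≤ η := by
    refine ⟨max 1 (C / η), le_max_left _ _, ?_⟩
    have h1 : 0 < max 1 (C / η) := by positivity
    rw [div_le_iff₀ h1]
    have h2 : C / η ≤ max 1 (C / η) := le_max_right _ _
    rw [div_le_iff₀ hη] at h2
    linarith
  have hN0 : 0 < N := by linarith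
  set ρ' : ℝ := ρ * Real.exp (-N) with hρ'
  have hρ'0 : 0 < ρ' := by positivity
  have hρ'ρ : ρ' < ρ := by
    have : Real.exp (-N) < 1 := by rw [Real.exp_lt_one_iff]; linarith
    rw [hρ']; nlinarith
  have hρ'2 : ρ' / 2 < ρ' := by linarith
  -- the logarithmic variable
  let x : ℝ → ℝ := fun t => Real.log (ρ / t) / N
  have hx1 : ∀ t, 0 < t → t ≤ ρ' → 1 ≤ x t := by
    intro t ht h
    show 1 ≤ Real.log (ρ / t) / N
    rw [le_div_iff₀ hN0, one_mul, Real.le_log_iff_exp_le (by positivity), le_div_iff₀ ht]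
    have h1 : Real.exp N * t ≤ Real.exp N * ρ' := by gcongr
    have h2 : Real.exp N * ρ' = ρ := by
      rw [hρ', mul_left_comm, ← Real.exp_add]; simp
    linarith
  have hx0 : ∀ t, ρ ≤ t → x t ≤ 0 := by
    intro t ht
    show Real.log (ρ / t) / N ≤ 0
    apply div_nonpos_of_nonpos_of_nonneg _ hN0.le
    have ht0 : 0 < t := by linarith
    apply Real.log_nonpos (by positivity)
    rw [div_le_one ht0]; exact ht
  have hxd : ∀ t, 0 < t → HasDerivAt x (-(1 / (N * t))) t := by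
    intro t ht
    have h1 : HasDerivAt (fun t => ρ / t) (ρ * (-(t ^ 2)⁻¹)) t := by
      have := (hasDerivAt_inv ht.ne').const_mul ρ
      simpa only [div_eq_mul_inv] using this
    have h2 := (h1.log (by positivity)).div_const N
    refine h2.congr_deriv ?_
    field_simp
  let χ : ℝ → ℝ := fun t => if t ≤ ρ' then 1 else Real.smoothTransition (x t)
  have hχ1 : ∀ t ≤ ρ', χ t = 1 := fun t ht => if_pos ht
  have hχx : ∀ t, 0 < t → χ t = Real.smoothTransition (x t) := by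
    intro t ht
    by_cases h : t ≤ ρ'
    · rw [hχ1 t h, Real.smoothTransition.one_of_one_le (hx1 t ht h)]
    · exact if_neg h
  have hχd : ∀ t, 0 < t → HasDerivAt χ (deriv Real.smoothTransition (x t) * (-(1 / (N * t)))) t := by
    intro t ht
    have h1 := (st_differentiable (x t)).hasDerivAt.comp t (hxd t ht)
    refine h1.congr_of_eventuallyEq ?_
    filter_upwards [Ioi_mem_nhds ht] with s hs
    exact hχx s hs
  have hχl : ∀ t, t < ρ' → HasDerivAt χ 0 t := by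
    intro t ht
    refine (hasDerivAt_const t (1 : ℝ)).congr_of_eventuallyEq ?_
    filter_upwards [Iio_mem_nhds ht] with s hs
    exact hχ1 s (le_of_lt hs)
  have hχs : ContDiff ℝ ∞ χ := by
    rw [contDiff_iff_contDiffAt]
    intro t
    by_cases h : t < ρ'
    · refine (contDiffAt_const (c := (1 : ℝ))).congr_of_eventuallyEq ?_
      filter_upwards [Iio_mem_nhds h] with s hs
      exact hχ1 s (le_of_lt hs)
    · have ht : 0 < t := by linarith [not_lt.mp h]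
      have h1 : ContDiffAt ℝ ∞ x t := by
        show ContDiffAt ℝ ∞ (fun t => Real.log (ρ / t) / N) t
        apply ContDiffAt.div_const
        apply ContDiffAt.log
        · exact contDiffAt_const.div contDiffAt_id ht.ne'
        · positivity
      refine (st_contDiff.contDiffAt.comp t h1).congr_of_eventuallyEq ?_
      filter_upwards [Ioi_mem_nhds ht] with s hs
      exact hχx s hs
  have hχnn : ∀ t, 0 ≤ χ t ∧ χ t ≤ 1 := by
    intro t
    by_cases h : t ≤ ρ'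
    · rw [hχ1 t h]; norm_num
    · have : χ t = Real.smoothTransition (x t) := if_neg h
      rw [this]
      exact ⟨Real.smoothTransition.nonneg _, Real.smoothTransition.le_one _⟩
  have hχ0 : ∀ t, ρ ≤ t → χ t = 0 := by
    intro t ht
    rw [hχx t (by linarith), Real.smoothTransition.zero_of_nonpos (hx0 t ht)]
  have hχneg : ∀ t, deriv χ t ≤ 0 := by
    intro t
    by_cases h : t < ρ'
    · rw [(hχl t h).deriv]
    · have ht : 0 < t := by linarith [not_lt.mp h]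
      rw [(hχd t ht).deriv]
      have h1 := st_deriv_nonneg (x t)
      have h2 : 0 ≤ 1 / (N * t) := by positivity
      nlinarith
  have hχt : ∀ t, |t * deriv χ t| ≤ η := by
    intro t
    by_cases h : t < ρ'
    · rw [(hχl t h).deriv]; simpa using hη.le
    · have ht : 0 < t := by linarith [not_lt.mp h]
      rw [(hχd t ht).deriv]
      have h1 : t * (deriv Real.smoothTransition (x t) * (-(1 / (N * t))))
          = - (deriv Real.smoothTransition (x t) / N) := by field_simp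
      rw [h1, abs_neg, abs_div, abs_of_pos hN0]
      exact (div_le_div_of_nonneg_right (hC _) hN0.le).trans hN
  have hχ't0 : ∀ t, ρ ≤ t → deriv χ t = 0 := by
    intro t ht
    rcases eq_or_lt_of_le ht with h | h
    · -- a minimum
      have hmin : IsLocalMin χ t := by
        filter_upwards with s
        rw [hχ0 t ht]; exact (hχnn s).1
      exact hmin.deriv_eq_zero
    · have : χ =ᶠ[𝓝 t] fun _ => 0 := by
        filter_upwards [Ioi_mem_nhds h] with s hs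
        exact hχ0 s (le_of_lt hs)
      rw [this.deriv_eq]; simp
  have hχ'l0 : ∀ t, t ≤ ρ' → deriv χ t = 0 := by
    intro t ht
    have hmax : IsLocalMax χ t := by
      filter_upwards with s
      rw [hχ1 t ht]; exact (hχnn s).2
    exact hmax.deriv_eq_zero
  -- the compensating function
  have hdχ : ContDiff ℝ ∞ (deriv χ) := by
    have := contDiff_infty_iff_deriv.mp hχs
    exact this.2
  let f : ℝ → ℝ := fun t => - (t * deriv χ t ^ 2)
  have hf : ContDiff ℝ ∞ f := (contDiff_id.mul (hdχ.pow 2)).neg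
  let a : ℝ → ℝ := fun t => ∫ s in ρ..t, f s
  have had : ∀ t, HasDerivAt a (f t) t := fun t =>
    intervalIntegral.integral_hasDerivAt_right (hf.continuous.intervalIntegrable _ _)
      (hf.continuous.stronglyMeasurableAtFilter _ _) hf.continuous.continuousAt
  have hader : deriv a = f := funext fun t => (had t).deriv
  have has : ContDiff ℝ ∞ a := by
    rw [contDiff_infty_iff_deriv]
    exact ⟨fun t => (had t).differentiableAt, by rw [hader]; exact hf⟩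
  have haρ : a ρ = 0 := by simp [a]
  have ha0 : ∀ t, ρ ≤ t → a t = 0 := by
    intro t ht
    show ∫ s in ρ..t, f s = 0
    rw [intervalIntegral.integral_congr (g := fun _ => (0 : ℝ))]
    · simp
    · intro s hs
      rw [uIcc_of_le ht] at hs
      show - (s * deriv χ s ^ 2) = 0
      rw [hχ't0 s hs.1]; simp
  have hanti : AntitoneOn a (Ici 0) := by
    apply antitoneOn_of_deriv_nonpos (convex_Ici 0) has.continuous.continuousOn
    · exact fun t _ => (had t).differentiableAt.differentiableWithinAt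
    · intro t ht
      rw [interior_Ici] at ht
      rw [hader]
      show - (t * deriv χ t ^ 2) ≤ 0
      have : 0 ≤ t * deriv χ t ^ 2 := mul_nonneg (le_of_lt ht) (sq_nonneg _)
      linarith
  have hmono : MonotoneOn (fun t => a t - η * χ t) (Ici 0) := by
    have hd : ∀ t, HasDerivAt (fun t => a t - η * χ t) (f t - η * deriv χ t) t := fun t =>
      (had t).sub (((hχs.differentiable (by simp)) t).hasDerivAt.const_mul η)
    apply monotoneOn_of_deriv_nonneg (convex_Ici 0)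
    · exact fun t _ => (hd t).continuousAt.continuousWithinAt
    · exact fun t _ => (hd t).differentiableAt.differentiableWithinAt
    · intro t ht
      rw [interior_Ici] at ht
      rw [(hd t).deriv]
      show 0 ≤ - (t * deriv χ t ^ 2) - η * deriv χ t
      have h1 := (abs_le.mp (hχt t)).1
      have h2 := hχneg t
      nlinarith
  have hab : ∀ t, 0 ≤ t → 0 ≤ a t ∧ a t ≤ η := by
    intro t ht
    constructor
    · have h1 := hanti (show t ∈ Ici (0 : ℝ) from ht)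
        (show max t ρ ∈ Ici (0 : ℝ) from le_trans ht (le_max_left _ _)) (le_max_left _ _)
      rwa [ha0 _ (le_max_right _ _)] at h1
    · have h1 : a t ≤ a 0 := hanti (mem_Ici.mpr (le_refl (0 : ℝ))) (mem_Ici.mpr ht) ht
      have h2 := hmono (mem_Ici.mpr (le_refl (0 : ℝ))) (mem_Ici.mpr hρ.le) hρ.le
      simp only [haρ, hχ0 ρ le_rfl, hχ1 0 hρ'0.le, mul_one, mul_zero, sub_zero] at h2
      linarith
  have hac : ∀ t ≤ ρ', a t = a 0 := by
    intro t ht
    have key : ∀ t : ℝ, t ≤ ρ' → a t = a ρ' := by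
      intro t ht
      have h1 : a t - a ρ' = ∫ s in ρ'..t, f s :=
        intervalIntegral.integral_interval_sub_left (hf.continuous.intervalIntegrable _ _)
          (hf.continuous.intervalIntegrable _ _)
      rw [intervalIntegral.integral_congr (g := fun _ => (0 : ℝ))] at h1
      · simp at h1; linarith
      · intro s hs
        rw [uIcc_of_ge ht] at hs
        show - (s * deriv χ s ^ 2) = 0
        rw [hχ'l0 s hs.2]; simp
    rw [key t ht, key 0 hρ'0.le]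
  refine ⟨ρ', χ, a, hρ'0, hρ'ρ, hχs, hχnn, hχ1, hχ0, hχt, has, hab, ha0, hac, ?_⟩
  intro t
  rw [hader]

/-! ### LEAF FLAT -/

theorem step_deriv {A B t : ℝ} :
    HasDerivAt (fun t => Real.smoothTransition (A * t + B))
      (A * deriv Real.smoothTransition (A * t + B)) t := by
  have h1 : HasDerivAt (fun t : ℝ => A * t + B) A t := by
    simpa using ((hasDerivAt_id t).const_mul A).add_const B
  have := (st_differentiable (A * t + B)).hasDerivAt.comp t h1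
  rw [mul_comm]; exact this

theorem flat : FLAT := by
  intro c K ρ hc hK hρ
  set T : ℝ := min ρ c / 2 with hT
  have hmin : 0 < min ρ c := lt_min hρ hc
  have hT0 : 0 < T := by positivity
  have hTρ : T < ρ := by
    have := min_le_left ρ c; rw [hT]; linarith
  have hTc : 2 * T ≤ c := by
    have := min_le_right ρ c; rw [hT]; linarith
  let S1 : ℝ → ℝ := fun t => Real.smoothTransition (8 / T * t + -1)
  let S2 : ℝ → ℝ := fun t => Real.smoothTransition (2 / T * t + -1)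
  have hS1z : ∀ t, t ≤ T / 8 → S1 t = 0 := by
    intro t ht
    apply Real.smoothTransition.zero_of_nonpos
    have : 8 / T * t ≤ 8 / T * (T / 8) := by gcongr
    have h2 : 8 / T * (T / 8) = 1 := by field_simp
    linarith
  have hS1o : ∀ t, T / 4 ≤ t → S1 t = 1 := by
    intro t ht
    apply Real.smoothTransition.one_of_one_le
    have : 8 / T * (T / 4) ≤ 8 / T * t := by gcongr
    have h2 : 8 / T * (T / 4) = 2 := by field_simp; norm_num
    linarith
  have hS2z : ∀ t, t ≤ T / 2 → S2 t = 0 := by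
    intro t ht
    apply Real.smoothTransition.zero_of_nonpos
    have : 2 / T * t ≤ 2 / T * (T / 2) := by gcongr
    have h2 : 2 / T * (T / 2) = 1 := by field_simp
    linarith
  have hS2o : ∀ t, T ≤ t → S2 t = 1 := by
    intro t ht
    apply Real.smoothTransition.one_of_one_le
    have : 2 / T * T ≤ 2 / T * t := by gcongr
    have h2 : 2 / T * T = 2 := by field_simp
    linarith
  have hS1n : ∀ t, 0 ≤ S1 t ∧ S1 t ≤ 1 := fun t =>
    ⟨Real.smoothTransition.nonneg _, Real.smoothTransition.le_one _⟩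
  have hS2n : ∀ t, 0 ≤ S2 t ∧ S2 t ≤ 1 := fun t =>
    ⟨Real.smoothTransition.nonneg _, Real.smoothTransition.le_one _⟩
  set D1 : ℝ → ℝ := fun t => 8 / T * deriv Real.smoothTransition (8 / T * t + -1) with hD1
  set D2 : ℝ → ℝ := fun t => 2 / T * deriv Real.smoothTransition (2 / T * t + -1) with hD2
  have hS1d : ∀ t, HasDerivAt S1 (D1 t) t := fun t => step_deriv
  have hS2d : ∀ t, HasDerivAt S2 (D2 t) t := fun t => step_deriv
  have hD1n : ∀ t, 0 ≤ D1 t := fun t => mul_nonneg (by positivity) (st_deriv_nonneg _)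
  have hD2n : ∀ t, 0 ≤ D2 t := fun t => mul_nonneg (by positivity) (st_deriv_nonneg _)
  have hD1l : ∀ t, t < T / 8 → D1 t = 0 := by
    intro t ht
    have : 8 / T * t < 8 / T * (T / 8) := by gcongr
    have h2 : 8 / T * (T / 8) = 1 := by field_simp
    simp only [hD1]
    rw [st_deriv_left (by linarith), mul_zero]
  have hD1r : ∀ t, T / 4 < t → D1 t = 0 := by
    intro t ht
    have : 8 / T * (T / 4) < 8 / T * t := by gcongr
    have h2 : 8 / T * (T / 4) = 2 := by field_simp; norm_num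
    simp only [hD1]
    rw [st_deriv_right (by linarith), mul_zero]
  have hD2r : ∀ t, T < t → D2 t = 0 := by
    intro t ht
    have : 2 / T * T < 2 / T * t := by gcongr
    have h2 : 2 / T * T = 2 := by field_simp
    simp only [hD2]
    rw [st_deriv_right (by linarith), mul_zero]
  let h0 : ℝ → ℝ := fun t => T / 16 + 1 / T * t ^ 2 / 2
  let h2 : ℝ → ℝ := fun t => c + K * t ^ 2 / 2
  have h0d : ∀ t, HasDerivAt h0 (1 / T * t) t := by
    intro t
    have := (((hasDerivAt_pow 2 t).const_mul (1 / T)).div_const 2).const_add (T / 16)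
    refine this.congr_deriv ?_
    norm_num; ring
  have h2d : ∀ t, HasDerivAt h2 (K * t) t := by
    intro t
    have := (((hasDerivAt_pow 2 t).const_mul K).div_const 2).const_add c
    refine this.congr_deriv ?_
    norm_num; ring
  let g : ℝ → ℝ := fun t => (1 - S1 t) * h0 t + S1 t * ((1 - S2 t) * t + S2 t * h2 t)
  have hgd : ∀ t, HasDerivAt g (((0 - D1 t) * h0 t + (1 - S1 t) * (1 / T * t)) +
      (D1 t * ((1 - S2 t) * t + S2 t * h2 t) +
        S1 t * (((0 - D2 t) * t + (1 - S2 t) * 1) + (D2 t * h2 t + S2 t * (K * t))))) t := by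
    intro t
    exact (((hasDerivAt_const t (1 : ℝ)).sub (hS1d t)).mul (h0d t)).add
      ((hS1d t).mul ((((hasDerivAt_const t (1 : ℝ)).sub (hS2d t)).mul (hasDerivAt_id t)).add
        ((hS2d t).mul (h2d t))))
  have hS1s : ContDiff ℝ ∞ S1 := st_contDiff.comp ((contDiff_const.mul contDiff_id).add contDiff_const)
  have hS2s : ContDiff ℝ ∞ S2 := st_contDiff.comp ((contDiff_const.mul contDiff_id).add contDiff_const)
  have hh0s : ContDiff ℝ ∞ h0 := by
    show ContDiff ℝ ∞ (fun t : ℝ => T / 16 + 1 / T * t ^ 2 / 2)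
    fun_prop
  have hh2s : ContDiff ℝ ∞ h2 := by
    show ContDiff ℝ ∞ (fun t : ℝ => c + K * t ^ 2 / 2)
    fun_prop
  have hgs : ContDiff ℝ ∞ g :=
    ((contDiff_const.sub hS1s).mul hh0s).add
      (hS1s.mul (((contDiff_const.sub hS2s).mul contDiff_id).add (hS2s.mul hh2s)))
  have hh0p : ∀ t, 0 < h0 t := by
    intro t
    show 0 < T / 16 + 1 / T * t ^ 2 / 2
    positivity
  have hh2p : ∀ t, 0 < h2 t := by
    intro t
    show 0 < c + K * t ^ 2 / 2
    positivity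
  refine ⟨T / 4, T / 2, T, g, by positivity, by linarith, by linarith, hTρ, hgs, ?_, ?_, ?_, ?_,
    T / 16, 1 / T, T / 8, by positivity, by positivity, by positivity, ?_⟩
  · intro t ht
    show (1 - S1 t) * h0 t + S1 t * ((1 - S2 t) * t + S2 t * h2 t) = c + K * t ^ 2 / 2
    rw [hS1o t (by linarith), hS2o t ht]
    simp [h2]
  · intro t ht ht'
    show (1 - S1 t) * h0 t + S1 t * ((1 - S2 t) * t + S2 t * h2 t) = t
    rw [hS1o t ht, hS2z t ht']
    simp
  · intro t ht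
    show 0 < (1 - S1 t) * h0 t + S1 t * ((1 - S2 t) * t + S2 t * h2 t)
    rcases eq_or_lt_of_le ht with h | h
    · rw [hS1z t (by rw [← h]; positivity)]
      simpa using hh0p t
    · have e1 := hh0p t
      have e2 := hh2p t
      have hin : 0 < (1 - S2 t) * t + S2 t * h2 t := by
        rcases eq_or_lt_of_le (hS2n t).1 with hs | hs
        · rw [← hs]; simpa using h
        · have : 0 ≤ (1 - S2 t) * t := mul_nonneg (by linarith [(hS2n t).2]) h.le
          have : 0 < S2 t * h2 t := mul_pos hs e2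
          linarith
      rcases eq_or_lt_of_le (hS1n t).1 with hs | hs
      · rw [← hs]; simpa using e1
      · have : 0 ≤ (1 - S1 t) * h0 t := mul_nonneg (by linarith [(hS1n t).2]) e1.le
        have : 0 < S1 t * ((1 - S2 t) * t + S2 t * h2 t) := mul_pos hs hin
        linarith
  · intro t ht
    rw [(hgd t).deriv]
    have c1 : 0 ≤ D2 t * (h2 t - t) := by
      by_cases h : T < t
      · rw [hD2r t h]; simp
      · apply mul_nonneg (hD2n t)
        have : c ≤ h2 t := by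
          show c ≤ c + K * t ^ 2 / 2
          have : 0 ≤ K * t ^ 2 / 2 := by positivity
          linarith
        linarith [not_lt.mp h]
    have c2 : 0 ≤ D1 t * (((1 - S2 t) * t + S2 t * h2 t) - h0 t) := by
      by_cases ha : t < T / 8
      · rw [hD1l t ha]; simp
      by_cases hb : T / 4 < t
      · rw [hD1r t hb]; simp
      push Not at ha hb
      apply mul_nonneg (hD1n t)
      rw [hS2z t (by linarith)]
      have e1 : h0 t ≤ t := by
        show T / 16 + 1 / T * t ^ 2 / 2 ≤ t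
        have e2 : t ^ 2 ≤ T ^ 2 / 16 := by nlinarith
        have e3 : 1 / T * t ^ 2 ≤ 1 / T * (T ^ 2 / 16) := by gcongr
        have e4 : 1 / T * (T ^ 2 / 16) = T / 16 := by field_simp
        linarith
      simp only [sub_zero, one_mul, zero_mul, add_zero]
      linarith
    have c3 : 0 < (1 - S1 t) * (1 / T * t) + S1 t * ((1 - S2 t) * 1 + S2 t * (K * t)) := by
      have e1 : 0 < 1 / T * t := by positivity
      have e2 : 0 < K * t := by positivity
      have hin : 0 < (1 - S2 t) * 1 + S2 t * (K * t) := by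
        rcases eq_or_lt_of_le (hS2n t).1 with hs | hs
        · rw [← hs]; simp
        · have : 0 ≤ (1 - S2 t) * 1 := mul_nonneg (by linarith [(hS2n t).2]) (by norm_num)
          have : 0 < S2 t * (K * t) := mul_pos hs e2
          linarith
      rcases eq_or_lt_of_le (hS1n t).1 with hs | hs
      · rw [← hs]; simpa using e1
      · have : 0 ≤ (1 - S1 t) * (1 / T * t) := mul_nonneg (by linarith [(hS1n t).2]) e1.le
        have : 0 < S1 t * ((1 - S2 t) * 1 + S2 t * (K * t)) := mul_pos hs hin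
        linarith
    have c4 : 0 ≤ S1 t * (D2 t * (h2 t - t)) := mul_nonneg (hS1n t).1 c1
    have : (((0 - D1 t) * h0 t + (1 - S1 t) * (1 / T * t)) +
      (D1 t * ((1 - S2 t) * t + S2 t * h2 t) +
        S1 t * (((0 - D2 t) * t + (1 - S2 t) * 1) + (D2 t * h2 t + S2 t * (K * t)))))
      = ((1 - S1 t) * (1 / T * t) + S1 t * ((1 - S2 t) * 1 + S2 t * (K * t)))
        + D1 t * (((1 - S2 t) * t + S2 t * h2 t) - h0 t) + S1 t * (D2 t * (h2 t - t)) := by ring
    rw [this]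
    linarith
  · intro t ht
    show (1 - S1 t) * h0 t + S1 t * ((1 - S2 t) * t + S2 t * h2 t) = T / 16 + 1 / T * t ^ 2 / 2
    rw [hS1z t ht]
    simp [h0]

end Crest.Agent.R235.K12Cut_895
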