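import Mathlib
import Crest.Agent.R213.J0bGen
import Crest.Agent.R235.K12Defs_417
import Crest.Agent.R106.Cal

-- ▼ part R235/K12S2A_423
section

/-!
Row 235 (S0364), package KUM, block K12, leaf S2PRIM (task 315, helper423), part A:
parametric integrals on open sets; primitives of homogeneous angular forms on `ℂ \ {0}`.
-/

set_option autoImplicit false

open Set MeasureTheory Filter Complex
open scoped ContDiff Topology

namespace Crest.Agent.R235.K12S2_423

noncomputable section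

/-! ### parametric integrals on open sets -/

section PI

variable {E F : Type} [NormedAddCommGroup E] [NormedSpace ℝ E] [NormedAddCommGroup F]
  [NormedSpace ℝ F] {U : Set E} {a b : ℝ} {H : ℝ × E → F}

theorem pint_smooth (hab : a < b) (hU : IsOpen U) (hH : ContDiffOn ℝ ∞ H (Icc a b ×ˢ U)) :
    ContDiffOn ℝ ∞ (fun q => ∫ r in a..b, H (r, q)) U := by
  intro x hx
  obtain ⟨ε, hε, hb⟩ := Metric.isOpen_iff.1 hU x hx
  have h1 := R213.contDiffOn_pint hab (convex_ball x ε) Metric.isOpen_ball.uniqueDiffOn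
    (hH.mono (prod_mono_right hb))
  exact ((h1 x (Metric.mem_ball_self hε)).contDiffAt
    (Metric.ball_mem_nhds x hε)).contDiffWithinAt

theorem pint_deriv (hab : a ≤ b) (hU : IsOpen U) {H' : ℝ × E → E →L[ℝ] F}
    (hH : ContinuousOn H (Icc a b ×ˢ U)) (hH' : ContinuousOn H' (Icc a b ×ˢ U))
    (hd : ∀ r ∈ Icc a b, ∀ q ∈ U, HasFDerivAt (fun q => H (r, q)) (H' (r, q)) q)
    {p : E} (hp : p ∈ U) :
    HasFDerivAt (fun q => ∫ r in a..b, H (r, q)) (∫ r in a..b, H' (r, p)) p := by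
  obtain ⟨ε, hε, hb⟩ := Metric.isOpen_iff.1 hU p hp
  have h1 := R213.hasFDerivWithinAt_pint hab (convex_ball p ε)
    (hH.mono (prod_mono_right hb)) (hH'.mono (prod_mono_right hb))
    (fun r hr q hq => (hd r hr q (hb hq)).hasFDerivWithinAt) (Metric.mem_ball_self hε)
  exact h1.hasFDerivAt (Metric.ball_mem_nhds p hε)

theorem pint_cont (hU : IsOpen U) (hH : ContDiffOn ℝ ∞ H ((univ : Set ℝ) ×ˢ U)) :
    ContinuousOn (fun z : ℝ × E => (fderiv ℝ H z).comp (ContinuousLinearMap.inr ℝ ℝ E))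
      ((univ : Set ℝ) ×ˢ U) :=
  (hH.continuousOn_fderiv_of_isOpen (isOpen_univ.prod hU) (by simp)).clm_comp continuousOn_const

theorem pint_slice (hU : IsOpen U) (hH : ContDiffOn ℝ ∞ H ((univ : Set ℝ) ×ˢ U)) (r : ℝ) {q : E}
    (hq : q ∈ U) : HasFDerivAt (fun q => H (r, q))
      ((fderiv ℝ H (r, q)).comp (ContinuousLinearMap.inr ℝ ℝ E)) q := by
  have h1 : HasFDerivAt H (fderiv ℝ H (r, q)) (r, q) :=
    ((hH.contDiffAt ((isOpen_univ.prod hU).mem_nhds ⟨mem_univ _, hq⟩)).differentiableAt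
      (by simp)).hasFDerivAt
  have h2 : HasFDerivAt (fun q : E => ((r, q) : ℝ × E)) (ContinuousLinearMap.inr ℝ ℝ E) q :=
    (hasFDerivAt_const r q).prodMk (hasFDerivAt_id q)
  exact h1.comp q h2

theorem pint_deriv' (hU : IsOpen U) (hH : ContDiffOn ℝ ∞ H ((univ : Set ℝ) ×ˢ U)) {p : E}
    (hp : p ∈ U) : HasFDerivAt (fun q => ∫ r in (0 : ℝ)..1, H (r, q))
      (∫ r in (0 : ℝ)..1, (fderiv ℝ H (r, p)).comp (ContinuousLinearMap.inr ℝ ℝ E)) p :=
  pint_deriv (H' := fun z : ℝ × E => (fderiv ℝ H z).comp (ContinuousLinearMap.inr ℝ ℝ E))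
    zero_le_one hU
    (hH.continuousOn.mono (prod_mono_left (subset_univ _)))
    ((pint_cont hU hH).mono (prod_mono_left (subset_univ _)))
    (fun r _ _ hq => pint_slice hU hH r hq) hp

theorem pint_line (hU : IsOpen U) (hH : ContDiffOn ℝ ∞ H ((univ : Set ℝ) ×ˢ U)) (r : ℝ) {x : E}
    (hx : x ∈ U) (a : E) : HasDerivAt (fun τ : ℝ => H (r, x + τ • a))
      (((fderiv ℝ H (r, x)).comp (ContinuousLinearMap.inr ℝ ℝ E)) a) 0 := by
  have h1 : HasFDerivAt (fun q => H (r, q))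
      ((fderiv ℝ H (r, x)).comp (ContinuousLinearMap.inr ℝ ℝ E)) (x + (0 : ℝ) • a) := by
    rw [zero_smul, add_zero]
    exact pint_slice hU hH r hx
  have e0 : HasDerivAt (fun τ : ℝ => x + τ • a) a 0 := by
    simpa using ((hasDerivAt_id (0 : ℝ)).smul_const a).const_add x
  have h2 := h1.comp_hasDerivAt (0 : ℝ) e0
  exact h2

/-- FTC under the integral sign. -/
theorem pint_ftc [CompleteSpace F] (hU : IsOpen U) (hH : ContDiffOn ℝ ∞ H ((univ : Set ℝ) ×ˢ U))
    {p : E} (hp : p ∈ U) (a : E) {P : ℝ → F}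
    (hP : ∀ t, HasDerivAt P (((fderiv ℝ H (t, p)).comp (ContinuousLinearMap.inr ℝ ℝ E)) a) t) :
    fderiv ℝ (fun q => ∫ r in (0 : ℝ)..1, H (r, q)) p a = P 1 - P 0 := by
  rw [(pint_deriv' hU hH hp).fderiv]
  have hc2 : Continuous (fun r : ℝ => (fderiv ℝ H (r, p)).comp
      (ContinuousLinearMap.inr ℝ ℝ E)) := by
    rw [← continuousOn_univ]
    exact (pint_cont hU hH).comp (by fun_prop) fun r _ => ⟨mem_univ _, hp⟩
  rw [ContinuousLinearMap.intervalIntegral_apply (hc2.intervalIntegrable _ _)]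
  exact intervalIntegral.integral_eq_sub_of_hasDerivAt (fun t _ => hP t)
    ((hc2.clm_apply continuous_const).intervalIntegrable _ _)

end PI

/-! ### the planar lemma -/

/-- homogeneous of degree zero and smooth off the origin. -/
structure Hc (lam : ℂ → ℝ) : Prop where
  smooth : ContDiffOn ℝ ∞ lam {0}ᶜ
  hom : ∀ (t : ℝ) (z : ℂ), 0 < t → lam (t • z) = lam z

/-- the primitive `(1/2π) ∫_0^{2π} s λ(e^{is} z) ds`. -/
def pr2 (lam : ℂ → ℝ) (z : ℂ) : ℝ :=
  (2 * Real.pi)⁻¹ * ∫ s in (0 : ℝ)..(2 * Real.pi), s * lam (cexp (s * I) * z)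

/-- the mean value over the circle. -/
def mean2 (lam : ℂ → ℝ) : ℝ := ∫ s in (0 : ℝ)..(2 * Real.pi), lam (cexp (s * I))

variable {lam : ℂ → ℝ}

theorem rot_smooth : ContDiff ℝ ∞ (fun p : ℝ × ℂ => cexp (p.1 * I) * p.2) := by
  have h1 : ContDiff ℝ ∞ (fun p : ℝ × ℂ => cexp ((p.1 : ℂ) * I)) := by
    have h2 : ContDiff ℝ ∞ (fun p : ℝ × ℂ => (p.1 : ℂ) * I) :=
      (ofRealCLM.contDiff.comp contDiff_fst).mul contDiff_const
    exact (Complex.contDiff_exp (𝕜 := ℝ)).comp h2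
  exact h1.mul contDiff_snd

theorem rot_ne {s : ℝ} {z : ℂ} (hz : z ≠ 0) : cexp (s * I) * z ≠ 0 :=
  mul_ne_zero (Complex.exp_ne_zero _) hz

theorem pr2_smooth (h : Hc lam) : ContDiffOn ℝ ∞ (pr2 lam) {0}ᶜ := by
  unfold pr2
  refine contDiffOn_const.mul ?_
  refine pint_smooth (H := fun p : ℝ × ℂ => p.1 * lam (cexp (p.1 * I) * p.2)) (by positivity)
    isOpen_compl_singleton ?_
  refine (contDiff_fst.contDiffOn).mul ?_
  exact h.smooth.comp rot_smooth.contDiffOn fun p hp => rot_ne hp.2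

theorem pr2_hom (h : Hc lam) (t : ℝ) (z : ℂ) (ht : 0 < t) : pr2 lam (t • z) = pr2 lam z := by
  unfold pr2
  congr 1
  refine intervalIntegral.integral_congr fun s _ => ?_
  rw [mul_smul_comm, h.hom t _ ht]

/-- the values of `λ` on the circle through `z`. -/
def ell (lam : ℂ → ℝ) (z : ℂ) (s : ℝ) : ℝ := lam (cexp (s * I) * z)

theorem ell_cont (h : Hc lam) {z : ℂ} (hz : z ≠ 0) : Continuous (ell lam z) := by
  unfold ell
  have h1 : Continuous fun s : ℝ => cexp (s * I) * z := by fun_prop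
  rw [← continuousOn_univ]
  exact h.smooth.continuousOn.comp h1.continuousOn fun s _ => rot_ne hz

theorem ell_per (z : ℂ) : Function.Periodic (ell lam z) (2 * Real.pi) := by
  intro s
  unfold ell
  congr 2
  push_cast
  rw [add_mul, Complex.exp_add, Complex.exp_two_pi_mul_I, mul_one]

theorem ell_add (z : ℂ) (s t : ℝ) : ell lam (cexp (t * I) * z) s = ell lam z (s + t) := by
  unfold ell
  congr 1
  push_cast
  rw [add_mul, Complex.exp_add, mul_assoc]

theorem int_ell (h : Hc lam) {z : ℂ} (hz : z ≠ 0) :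
    ∫ s in (0 : ℝ)..(2 * Real.pi), ell lam z s = mean2 lam := by
  have h1 : z = ‖z‖ • (cexp (z.arg * I) * 1) := by
    rw [mul_one, real_smul]
    exact (Complex.norm_mul_exp_arg_mul_I z).symm
  have h2 : ∀ s : ℝ, ell lam z s = ell lam 1 (s + z.arg) := by
    intro s
    have h3 : ell lam z s = ell lam (‖z‖ • (cexp (z.arg * I) * 1)) s := by rw [← h1]
    rw [h3, ← ell_add]
    unfold ell
    rw [mul_smul_comm, h.hom _ _ (norm_pos_iff.2 hz)]
  simp only [h2]
  rw [intervalIntegral.integral_comp_add_right (fun s => ell lam 1 s)]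
  have h4 := (ell_per (lam := lam) 1).intervalIntegral_add_eq (z.arg) 0
  rw [zero_add, add_comm z.arg] at h4 
  rw [zero_add, h4]
  simp only [ell, mul_one, mean2]

theorem pr2_rot (h : Hc lam) {z : ℂ} (hz : z ≠ 0) :
    HasDerivAt (fun ε : ℝ => pr2 lam (cexp (ε * I) * z))
      (lam z - (2 * Real.pi)⁻¹ * mean2 lam) 0 := by
  have hc := ell_cont h hz
  have hpi : (0 : ℝ) < 2 * Real.pi := by positivity
  set g : ℝ → ℝ := fun s => s * ell lam z s with hg
  have hgc : Continuous g := continuous_id.mul hc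
  have e1 : ∀ ε : ℝ, pr2 lam (cexp (ε * I) * z) = (2 * Real.pi)⁻¹ *
      ((∫ s in (0 : ℝ)..(2 * Real.pi + ε), g s) - (∫ s in (0 : ℝ)..ε, g s) - ε * mean2 lam) := by
    intro ε
    unfold pr2
    congr 1
    have e2 : ∀ s : ℝ, s * lam (cexp (s * I) * (cexp (ε * I) * z)) =
        (s + ε) * ell lam z (s + ε) - ε * ell lam z (s + ε) := by
      intro s
      have := ell_add (lam := lam) z s ε
      rw [ell] at this
      rw [this]; ring
    simp only [e2]
    have i1 : IntervalIntegrable (fun s => (s + ε) * ell lam z (s + ε)) volume 0 (2 * Real.pi) := by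
      apply Continuous.intervalIntegrable
      fun_prop
    have i2 : IntervalIntegrable (fun s => ε * ell lam z (s + ε)) volume 0 (2 * Real.pi) := by
      apply Continuous.intervalIntegrable
      fun_prop
    rw [intervalIntegral.integral_sub i1 i2, intervalIntegral.integral_const_mul,
      intervalIntegral.integral_comp_add_right (fun s => s * ell lam z s),
      intervalIntegral.integral_comp_add_right (fun s => ell lam z s)]
    have h4 := (ell_per (lam := lam) z).intervalIntegral_add_eq ε 0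
    rw [zero_add, add_comm ε] at h4
    rw [zero_add, h4, int_ell h hz]
    have h5 := intervalIntegral.integral_interval_sub_left
      (hgc.intervalIntegrable (μ := volume) 0 (2 * Real.pi + ε))
      (hgc.intervalIntegrable (μ := volume) 0 ε)
    rw [h5]
  have e3 : HasDerivAt (fun ε : ℝ => ∫ s in (0 : ℝ)..(2 * Real.pi + ε), g s)
      (g (2 * Real.pi)) 0 := by
    have h1 : HasDerivAt (fun x : ℝ => ∫ s in (0 : ℝ)..x, g s) (g (2 * Real.pi + 0))
        (2 * Real.pi + 0) :=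
      intervalIntegral.integral_hasDerivAt_right (hgc.intervalIntegrable _ _)
        (hgc.stronglyMeasurableAtFilter _ _) hgc.continuousAt
    have h2 := HasDerivAt.comp_const_add (2 * Real.pi) 0 h1
    rwa [add_zero] at h2
  have e4 : HasDerivAt (fun ε : ℝ => ∫ s in (0 : ℝ)..ε, g s) (g 0) 0 :=
      intervalIntegral.integral_hasDerivAt_right (hgc.intervalIntegrable _ _)
        (hgc.stronglyMeasurableAtFilter _ _) hgc.continuousAt
  have e5 := ((e3.sub e4).sub ((hasDerivAt_id (0 : ℝ)).mul_const (mean2 lam))).const_mul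
    ((2 * Real.pi)⁻¹)
  have e6 : (fun ε : ℝ => pr2 lam (cexp (ε * I) * z)) = fun ε => (2 * Real.pi)⁻¹ *
      ((∫ s in (0 : ℝ)..(2 * Real.pi + ε), g s) - (∫ s in (0 : ℝ)..ε, g s) - ε * mean2 lam) :=
    funext e1
  have h6 : ell lam z (2 * Real.pi) = lam z := by
    have := ell_per (lam := lam) z 0
    rw [zero_add] at this
    rw [this]
    simp [ell]
  have h7 : g (2 * Real.pi) = 2 * Real.pi * lam z := by rw [hg]; simp only [h6]
  have h8 : g 0 = 0 := by rw [hg]; simp only [zero_mul]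
  have h9 : (2 * Real.pi)⁻¹ * (g (2 * Real.pi) - g 0 - 1 * mean2 lam) =
      lam z - (2 * Real.pi)⁻¹ * mean2 lam := by
    rw [h7, h8]
    field_simp
    ring
  rw [e6, ← h9]
  exact e5

/-- **planar lemma**: the differential of `pr2 λ`. -/
theorem pr2_fderiv (h : Hc lam) (h0 : mean2 lam = 0) {z : ℂ} (hz : z ≠ 0) (v : ℂ) :
    fderiv ℝ (pr2 lam) z v = lam z * ((z.re * v.im - z.im * v.re) / (z.re ^ 2 + z.im ^ 2)) := by
  have hd : DifferentiableAt ℝ (pr2 lam) z :=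
    ((pr2_smooth h).contDiffAt (isOpen_compl_singleton.mem_nhds hz)).differentiableAt (by simp)
  have hn : z.re ^ 2 + z.im ^ 2 ≠ 0 := by
    have := Complex.normSq_pos.2 hz
    rw [Complex.normSq_apply] at this
    nlinarith
  -- radial direction
  have h1 : fderiv ℝ (pr2 lam) z z = 0 := by
    have c1 : HasDerivAt (fun t : ℝ => t • z) z 1 := by
      simpa using (hasDerivAt_id (1 : ℝ)).smul_const z
    have hd' : HasFDerivAt (pr2 lam) (fderiv ℝ (pr2 lam) z) ((1 : ℝ) • z) := by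
      rw [one_smul]; exact hd.hasFDerivAt
    have c2 := hd'.comp_hasDerivAt (1 : ℝ) c1
    have c3 : (fun t : ℝ => pr2 lam (t • z)) =ᶠ[𝓝 1] fun _ => pr2 lam z := by
      filter_upwards [lt_mem_nhds (zero_lt_one : (0 : ℝ) < 1)] with t ht
      exact pr2_hom h t z ht
    have c4 : HasDerivAt (fun t : ℝ => pr2 lam (t • z)) 0 1 :=
      (hasDerivAt_const (1 : ℝ) (pr2 lam z)).congr_of_eventuallyEq c3
    exact c2.unique c4
  -- rotation
  have h2 : fderiv ℝ (pr2 lam) z (I * z) = lam z := by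
    have c1 : HasDerivAt (fun ε : ℝ => cexp (ε * I) * z) (I * z) 0 := by
      have d1 : HasDerivAt (fun ε : ℝ => (ε : ℂ) * I) I 0 := by
        simpa using (Complex.ofRealCLM.hasDerivAt (x := (0 : ℝ))).mul_const I
      have d2 : HasDerivAt (fun ε : ℝ => cexp ((ε : ℂ) * I)) (cexp (((0 : ℝ) : ℂ) * I) * I) 0 :=
        d1.cexp
      have d3 := d2.mul_const z
      simpa using d3
    have hd' : HasFDerivAt (pr2 lam) (fderiv ℝ (pr2 lam) z) (cexp (((0 : ℝ) : ℂ) * I) * z) := by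
      simpa using hd.hasFDerivAt
    have c2 := hd'.comp_hasDerivAt (0 : ℝ) c1
    have c3 := pr2_rot h hz
    rw [h0, mul_zero, sub_zero] at c3
    exact c2.unique c3
  have h3 : v = ((z.re * v.re + z.im * v.im) / (z.re ^ 2 + z.im ^ 2)) • z +
      ((z.re * v.im - z.im * v.re) / (z.re ^ 2 + z.im ^ 2)) • (I * z) := by
    apply Complex.ext
    · simp only [Complex.add_re, Complex.smul_re, Complex.I_mul_re, smul_eq_mul]
      field_simp
      ring
    · simp only [Complex.add_im, Complex.smul_im, Complex.I_mul_im, smul_eq_mul]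
      field_simp
      ring
  have h4 : fderiv ℝ (pr2 lam) z v = fderiv ℝ (pr2 lam) z
      (((z.re * v.re + z.im * v.im) / (z.re ^ 2 + z.im ^ 2)) • z +
      ((z.re * v.im - z.im * v.re) / (z.re ^ 2 + z.im ^ 2)) • (I * z)) := by rw [← h3]
  rw [h4, map_add, map_smul, map_smul, h1, h2, smul_zero, zero_add, smul_eq_mul, mul_comm]

end

end Crest.Agent.R235.K12S2_423
end

-- ▼ part R235/K12S2B_423
section

/-!
Row 235 (S0364), package KUM, block K12, leaf S2PRIM (task 315, helper423), part B: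
the monopole potential `γ_a(x) = - F_a(x) ⟪x, a × ·⟫` of `f · area` on the complement of a ray.
-/

set_option autoImplicit false
set_option maxSynthPendingDepth 3

open Set MeasureTheory Filter
open scoped ContDiff Topology RealInnerProductSpace

namespace Crest.Agent.R235.K12S2_423

open Crest.Agent.R235 Crest.Agent.R240.Ch Crest.Agent.R235.K12_417

noncomputable section

/-! ### coordinates -/

theorem inner3 (x y : E3) : ⟪x, y⟫ = x 0 * y 0 + x 1 * y 1 + x 2 * y 2 := by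
  rw [PiLp.inner_apply, Fin.sum_univ_three]
  simp only [RCLike.inner_apply, conj_trivial]
  ring

theorem cr0 (a b : E3) : cr a b 0 = a 1 * b 2 - a 2 * b 1 := rfl
theorem cr1 (a b : E3) : cr a b 1 = a 2 * b 0 - a 0 * b 2 := rfl
theorem cr2 (a b : E3) : cr a b 2 = a 0 * b 1 - a 1 * b 0 := rfl

/-- standard basis vectors. -/
def ee (i : Fin 3) : E3 := EuclideanSpace.single i 1

theorem lin3 (D : E3 →L[ℝ] ℝ) (u : E3) :
    D u = u 0 * D (ee 0) + u 1 * D (ee 1) + u 2 * D (ee 2) := by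
  have h : u = u 0 • ee 0 + u 1 • ee 1 + u 2 • ee 2 := by
    ext i
    fin_cases i <;> simp [ee]
  conv_lhs => rw [h]
  simp only [map_add, map_smul, smul_eq_mul]

/-- the four vector identity. -/
theorem four (D : E3 →L[ℝ] ℝ) (x a u v : E3) :
    D u * ⟪x, cr a v⟫ - D v * ⟪x, cr a u⟫ + D x * ⟪a, cr u v⟫ = D a * ⟪x, cr u v⟫ := by
  rw [lin3 D u, lin3 D v, lin3 D x, lin3 D a]
  simp only [inner3, cr0, cr1, cr2]
  ring

theorem cr_anti (a u v : E3) : ⟪u, cr a v⟫ - ⟪v, cr a u⟫ = -(2 * ⟪a, cr u v⟫) := by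
  simp only [inner3, cr0, cr1, cr2]
  ring

theorem inner_cr_self (a x : E3) : ⟪x, cr a x⟫ = 0 := by
  simp only [inner3, cr0, cr1, cr2]
  ring

/-- Euler's relation. -/
theorem euler {g : E3 → ℝ} {x : E3} (k : ℕ) (hd : DifferentiableAt ℝ g x)
    (h : ∀ s : ℝ, 0 < s → g (s • x) = (s ^ k)⁻¹ * g x) : fderiv ℝ g x x = -(k * g x) := by
  have c1 : HasDerivAt (fun t : ℝ => t • x) x 1 := by
    simpa using (hasDerivAt_id (1 : ℝ)).smul_const x
  have hd' : HasFDerivAt g (fderiv ℝ g x) ((1 : ℝ) • x) := by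
    rw [one_smul]; exact hd.hasFDerivAt
  have c2 := hd'.comp_hasDerivAt (1 : ℝ) c1
  have c3 : (fun t : ℝ => g (t • x)) =ᶠ[𝓝 1] fun t => (t ^ k)⁻¹ * g x := by
    filter_upwards [lt_mem_nhds (zero_lt_one : (0 : ℝ) < 1)] with t ht
    exact h t ht
  have c4 : HasDerivAt (fun t : ℝ => (t ^ k)⁻¹ * g x) (-(k * g x)) 1 := by
    have d1 := ((hasDerivAt_pow k (1 : ℝ)).inv (by simp)).mul_const (g x)
    have d2 : -(↑k * (1 : ℝ) ^ (k - 1)) / (1 ^ k) ^ 2 * g x = -(k * g x) := by simp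
    rw [← d2]
    exact d1
  exact c2.unique (c4.congr_of_eventuallyEq c3)

/-! ### the radial integrals -/

/-- `f(y) |y|⁻³`. -/
def GG (f : E3 → ℝ) (y : E3) : ℝ := f y * (‖y‖ ^ 3)⁻¹

/-- the path from `x` to infinity in direction `a`. -/
def ww (a : E3) (t : ℝ) (x : E3) : E3 := (1 - t) • x + (t * ‖x‖) • a

/-- the integrand. -/
def HH (f : E3 → ℝ) (a : E3) (p : ℝ × E3) : ℝ := ‖p.2‖ * (1 - p.1) * GG f (ww a p.1 p.2)

/-- `∫_0^∞ f(x + s a) |x + s a|⁻³ ds`. -/
def FF (f : E3 → ℝ) (a x : E3) : ℝ := ∫ t in (0 : ℝ)..1, HH f a (t, x)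

/-- the complement of the ray `- ℝ₊ a`. -/
def VV (a : E3) : Set E3 := {x | 0 < ‖x‖ + ⟪x, a⟫}

theorem VV_open (a : E3) : IsOpen (VV a) :=
  isOpen_lt continuous_const (by fun_prop)

theorem VV_ne {a x : E3} (hx : x ∈ VV a) : x ≠ 0 := by
  rintro rfl
  simp [VV] at hx


theorem ww_ne {a : E3} (ha : ‖a‖ = 1) {x : E3} (hx : x ∈ VV a) (t : ℝ) : ww a t x ≠ 0 := by
  intro h
  have hx0 : 0 < ‖x‖ := norm_pos_iff.2 (VV_ne hx)
  have h1 : (1 - t) • x = (-(t * ‖x‖)) • a := by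
    unfold ww at h
    rw [neg_smul]
    exact eq_neg_of_add_eq_zero_left h
  have h2 : |1 - t| * ‖x‖ = |t| * ‖x‖ := by
    have := congrArg norm h1
    rw [norm_smul, norm_smul, Real.norm_eq_abs, Real.norm_eq_abs, ha, mul_one, abs_neg,
      abs_mul, abs_norm] at this
    exact this
  have h3 : |1 - t| = |t| := mul_right_cancel₀ hx0.ne' h2
  have h4 : t = 1 / 2 := by
    rcases abs_eq_abs.1 h3 with h | h <;> linarith
  have h5 : (1 - t) * ⟪x, a⟫ = -(t * ‖x‖) := by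
    have := congrArg (fun y => ⟪y, a⟫) h1
    simp only [real_inner_smul_left, real_inner_self_eq_norm_sq, ha] at this
    linarith
  rw [h4] at h5
  have h6 : 0 < ‖x‖ + ⟪x, a⟫ := hx
  linarith

theorem ww_zero (a x : E3) : ww a 0 x = x := by simp [ww]

theorem GG_smooth {f : E3 → ℝ} (hf : Hom0 f) : ContDiffOn ℝ ∞ (GG f) {0}ᶜ := by
  unfold GG
  refine hf.1.mul (ContDiffOn.inv ?_ fun x hx => pow_ne_zero _ (norm_ne_zero_iff.2 hx))
  exact (contDiffOn_id.norm ℝ fun x hx => hx).pow 3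

theorem GG_hom {f : E3 → ℝ} (hf : Hom0 f) (x : E3) (s : ℝ) (hs : 0 < s) :
    GG f (s • x) = (s ^ 3)⁻¹ * GG f x := by
  unfold GG
  rw [hf.2 s x hs, norm_smul, Real.norm_eq_abs, abs_of_pos hs, mul_pow, mul_inv]
  ring

theorem ww_hom (a x : E3) (t : ℝ) {s : ℝ} (hs : 0 < s) : ww a t (s • x) = s • ww a t x := by
  unfold ww
  rw [norm_smul, Real.norm_eq_abs, abs_of_pos hs, smul_add, smul_smul, smul_smul, smul_smul]
  congr 2 <;> ring

theorem FF_hom {f : E3 → ℝ} (hf : Hom0 f) (a x : E3) (s : ℝ) (hs : 0 < s) :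
    FF f a (s • x) = (s ^ 2)⁻¹ * FF f a x := by
  unfold FF
  rw [← intervalIntegral.integral_const_mul]
  refine intervalIntegral.integral_congr fun t _ => ?_
  simp only [HH]
  rw [ww_hom a x t hs, GG_hom hf _ s hs, norm_smul, Real.norm_eq_abs, abs_of_pos hs]
  field_simp

theorem HH_smooth {f : E3 → ℝ} (hf : Hom0 f) {a : E3} (ha : ‖a‖ = 1) :
    ContDiffOn ℝ ∞ (HH f a) (univ ×ˢ VV a) := by
  have hn : ContDiffOn ℝ ∞ (fun p : ℝ × E3 => ‖p.2‖) (univ ×ˢ VV a) :=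
    contDiffOn_snd.norm ℝ fun p hp => VV_ne hp.2
  have h1 : ContDiffOn ℝ ∞ (fun p : ℝ × E3 => 1 - p.1) (univ ×ˢ VV a) :=
    contDiffOn_const.sub contDiffOn_fst
  have hw : ContDiffOn ℝ ∞ (fun p : ℝ × E3 => ww a p.1 p.2) (univ ×ˢ VV a) := by
    unfold ww
    exact (h1.smul contDiffOn_snd).add ((contDiffOn_fst.mul hn).smul contDiffOn_const)
  exact (hn.mul h1).mul ((GG_smooth hf).comp hw fun p hp => ww_ne ha hp.2 _)


theorem FF_smooth {f : E3 → ℝ} (hf : Hom0 f) {a : E3} (ha : ‖a‖ = 1) :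
    ContDiffOn ℝ ∞ (FF f a) (VV a) :=
  pint_smooth zero_lt_one (VV_open a) ((HH_smooth hf ha).mono (prod_mono_left (subset_univ _)))

theorem norm_line {x a : E3} (hx : x ≠ 0) :
    HasDerivAt (fun τ : ℝ => ‖x + τ • a‖) (⟪x, a⟫ / ‖x‖) 0 := by
  have h1 : HasDerivAt (fun τ : ℝ => x + τ • a) a 0 := by
    simpa using ((hasDerivAt_id (0 : ℝ)).smul_const a).const_add x
  have h2 := h1.norm_sq
  have h3 : ‖x + (0 : ℝ) • a‖ ^ 2 ≠ 0 := by
    simpa using hx
  have h4 := h2.sqrt h3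
  have h5 : (fun τ : ℝ => ‖x + τ • a‖) = fun τ : ℝ => √(‖x + τ • a‖ ^ 2) := by
    funext τ; rw [Real.sqrt_sq (norm_nonneg _)]
  rw [h5]
  convert h4 using 1
  rw [zero_smul, add_zero, Real.sqrt_sq (norm_nonneg _)]
  field_simp

/-- the key computation: `∂_a` of the integrand is a `t`-derivative. -/
theorem key {f : E3 → ℝ} (hf : Hom0 f) {a : E3} (ha : ‖a‖ = 1) {x : E3} (hx : x ∈ VV a) (t : ℝ) :
    HasDerivAt (fun s : ℝ => (1 - s) ^ 2 * (1 - s + s * (⟪x, a⟫ / ‖x‖)) * GG f (ww a s x))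
      (((fderiv ℝ (HH f a) (t, x)).comp (ContinuousLinearMap.inr ℝ ℝ E3)) a) t := by
  set c : ℝ := ⟪x, a⟫ / ‖x‖ with hc
  set w : E3 := ww a t x with hw
  have hw0 : w ≠ 0 := ww_ne ha hx t
  have hGd : DifferentiableAt ℝ (GG f) w :=
    ((GG_smooth hf).contDiffAt (isOpen_compl_singleton.mem_nhds hw0)).differentiableAt (by simp)
  set D := fderiv ℝ (GG f) w with hD
  have hDf : HasFDerivAt (GG f) D w := hGd.hasFDerivAt
  have hE : D w = -(3 * GG f w) := by
    have := euler 3 hGd (fun s hs => GG_hom hf w s hs)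
    simpa using this
  -- derivative in `s`
  have w1 : HasDerivAt (fun s : ℝ => ww a s x) (‖x‖ • a - x) t := by
    have e1 : HasDerivAt (fun s : ℝ => (1 - s) • x) ((-1 : ℝ) • x) t :=
      ((hasDerivAt_id t).const_sub 1).smul_const x
    have e2 : HasDerivAt (fun s : ℝ => (s * ‖x‖) • a) ((1 * ‖x‖) • a) t :=
      ((hasDerivAt_id t).mul_const ‖x‖).smul_const a
    have e3 := e1.add e2
    have e4 : (-1 : ℝ) • x + (1 * ‖x‖) • a = ‖x‖ • a - x := by
      rw [one_mul]; module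
    rw [e4] at e3
    exact e3
  have hDf1 : HasFDerivAt (GG f) D ((fun s : ℝ => ww a s x) t) := hDf
  have g0 := hDf1.comp_hasDerivAt t w1
  have g1 : HasDerivAt (fun s : ℝ => GG f (ww a s x)) (D (‖x‖ • a - x)) t := g0
  have p1 : HasDerivAt (fun s : ℝ => (1 - s) ^ 2 * (1 - s + s * c))
      (-(2 * (1 - t)) * (1 - t + t * c) + (1 - t) ^ 2 * (-1 + c)) t := by
    have e1 : HasDerivAt (fun s : ℝ => 1 - s) (-1) t := (hasDerivAt_id t).const_sub 1
    have e2 := e1.pow 2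
    have e3 : HasDerivAt (fun s : ℝ => 1 - s + s * c) (-1 + 1 * c) t :=
      e1.add ((hasDerivAt_id t).mul_const c)
    have e4 := e2.mul e3
    have e5 : ((2 : ℕ) : ℝ) * (1 - t) ^ (2 - 1) * (-1) * (1 - t + t * c) +
        (1 - t) ^ 2 * (-1 + 1 * c) =
        -(2 * (1 - t)) * (1 - t + t * c) + (1 - t) ^ 2 * (-1 + c) := by
      norm_num
    rw [← e5]
    exact e4
  have P := p1.mul g1
  -- derivative in direction `a`
  have hn := norm_line (a := a) (VV_ne hx)
  have w2 : HasDerivAt (fun τ : ℝ => ww a t (x + τ • a)) ((1 - t + t * c) • a) 0 := by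
    have e0 : HasDerivAt (fun τ : ℝ => x + τ • a) a 0 := by
      simpa using ((hasDerivAt_id (0 : ℝ)).smul_const a).const_add x
    have e1 := e0.const_smul (1 - t)
    have e2 := (hn.const_mul t).smul_const a
    have e3 := e1.add e2
    have e4 : (1 - t) • a + (t * (⟪x, a⟫ / ‖x‖)) • a = (1 - t + t * c) • a := by
      rw [← add_smul]
    rw [e4] at e3
    exact e3
  have hDf0 : HasFDerivAt (GG f) D ((fun τ : ℝ => ww a t (x + τ • a)) 0) := by
    change HasFDerivAt (GG f) D (ww a t (x + (0 : ℝ) • a))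
    rw [zero_smul, add_zero]; exact hDf
  have g3 := hDf0.comp_hasDerivAt (0 : ℝ) w2
  have g2 : HasDerivAt (fun τ : ℝ => GG f (ww a t (x + τ • a))) (D ((1 - t + t * c) • a)) 0 := g3
  have Q := (hn.mul_const (1 - t)).mul g2
  have Q' := pint_line (VV_open a) (HH_smooth hf ha) t hx a
  have e6 : ((fderiv ℝ (HH f a) (t, x)).comp (ContinuousLinearMap.inr ℝ ℝ E3)) a =
      c * (1 - t) * GG f w + ‖x‖ * (1 - t) * D ((1 - t + t * c) • a) := by
    have e7 := Q'.unique Q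
    rw [e7]
    simp only [zero_smul, add_zero]
    rfl
  rw [e6]
  have e13 : c * (1 - t) * GG f w + ‖x‖ * (1 - t) * D ((1 - t + t * c) • a) =
      (-(2 * (1 - t)) * (1 - t + t * c) + (1 - t) ^ 2 * (-1 + c)) * GG f (ww a t x) +
        (1 - t) ^ 2 * (1 - t + t * c) * D (‖x‖ • a - x) := ?_
  · rw [e13]; exact P
  -- algebra
  have e9 : (1 - t) * D (‖x‖ • a - x) = ‖x‖ * D a + 3 * GG f w := by
    have e10 : (1 - t) • (‖x‖ • a - x) = ‖x‖ • a - w := by
      rw [hw]; unfold ww; module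
    have e11 : D ((1 - t) • (‖x‖ • a - x)) = D (‖x‖ • a - w) := by rw [e10]
    have e12 : D (‖x‖ • a - w) = ‖x‖ * D a - D w := by
      rw [map_sub, map_smul, smul_eq_mul]
    have e13 : D ((1 - t) • (‖x‖ • a - x)) = (1 - t) * D (‖x‖ • a - x) := by
      rw [map_smul, smul_eq_mul]
    rw [e12, hE] at e11
    rw [← e13, e11]
    ring
  rw [map_smul, smul_eq_mul]
  have e12 : (1 - t) ^ 2 * (1 - t + t * c) * D (‖x‖ • a - x) =
      (1 - t) * (1 - t + t * c) * (‖x‖ * D a + 3 * GG f w) := by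
    rw [← e9]; ring
  rw [e12, ← hw]
  ring

theorem FF_deriv_a {f : E3 → ℝ} (hf : Hom0 f) {a : E3} (ha : ‖a‖ = 1) {x : E3} (hx : x ∈ VV a) :
    fderiv ℝ (FF f a) x a = -GG f x := by
  have h := pint_ftc (VV_open a) (HH_smooth hf ha) hx a (fun t => key hf ha hx t)
  have h2 : FF f a = fun q => ∫ r in (0 : ℝ)..1, HH f a (r, q) := rfl
  rw [h2, h, ww_zero]
  norm_num

/-! ### the potential -/

/-- `x ↦ ⟪x, a × ·⟫`. -/
def etaL (a : E3) : E3 →L[ℝ] (E3 →L[ℝ] ℝ) :=
  LinearMap.toContinuousLinearMap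
    { toFun := fun x => (innerSL ℝ x).comp (crL a)
      map_add' := fun x y => by
        ext v
        simp
      map_smul' := fun c x => by
        ext v
        simp }

theorem etaL_apply (a x v : E3) : etaL a x v = ⟪x, cr a v⟫ := rfl

/-- the monopole potential. -/
def gam (f : E3 → ℝ) (a x : E3) : E3 →L[ℝ] ℝ := -(FF f a x • etaL a x)

theorem gam_apply (f : E3 → ℝ) (a x v : E3) : gam f a x v = -(FF f a x * ⟪x, cr a v⟫) := rfl

theorem gam_smooth {f : E3 → ℝ} (hf : Hom0 f) {a : E3} (ha : ‖a‖ = 1) :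
    ContDiffOn ℝ ∞ (gam f a) (VV a) :=
  ((FF_smooth hf ha).smul (etaL a).contDiff.contDiffOn).neg

theorem gam_self (f : E3 → ℝ) (a x : E3) : gam f a x x = 0 := by
  rw [gam_apply, inner_cr_self, mul_zero, neg_zero]

theorem gam_hom {f : E3 → ℝ} (hf : Hom0 f) (a x : E3) (t : ℝ) (ht : 0 < t) :
    gam f a (t • x) = t⁻¹ • gam f a x := by
  ext v
  rw [_root_.smul_apply, gam_apply, gam_apply, FF_hom hf a x t ht,
    real_inner_smul_left, smul_eq_mul]
  field_simp

theorem gam_d1 {f : E3 → ℝ} (hf : Hom0 f) {a : E3} (ha : ‖a‖ = 1) {x : E3} (hx : x ∈ VV a)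
    (u v : E3) : d1 (gam f a) x u v = GG f x * ⟪x, cr u v⟫ := by
  have hFd : DifferentiableAt ℝ (FF f a) x :=
    ((FF_smooth hf ha).contDiffAt ((VV_open a).mem_nhds hx)).differentiableAt (by simp)
  have h1 : HasFDerivAt (gam f a) (-(FF f a x • etaL a +
      (fderiv ℝ (FF f a) x).smulRight (etaL a x))) x :=
    (hFd.hasFDerivAt.smul (etaL a).hasFDerivAt).neg
  have h2 : fderiv ℝ (FF f a) x x = -(2 * FF f a x) := by
    have := euler 2 hFd (fun s hs => FF_hom hf a x s hs)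
    simpa using this
  have h3 := FF_deriv_a hf ha hx
  have h4 := four (fderiv ℝ (FF f a) x) x a u v
  rw [h2, h3] at h4
  have h5 := cr_anti a u v
  rw [d1_apply, h1.fderiv]
  simp only [_root_.neg_apply, _root_.add_apply,
    _root_.smul_apply, ContinuousLinearMap.smulRight_apply, etaL_apply, smul_eq_mul]
  linear_combination (-1 : ℝ) * h4 - FF f a x * h5

end

end Crest.Agent.R235.K12S2_423
end

-- ▼ part R235/K12S2C_423
section

/-!
Row 235 (S0364), package KUM, block K12, leaf S2PRIM (task 315, helper423), part C: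
gluing of the two monopole potentials.
-/

set_option autoImplicit false
set_option maxSynthPendingDepth 3

open Set MeasureTheory Filter
open scoped ContDiff Topology RealInnerProductSpace

namespace Crest.Agent.R235.K12S2_423

open Crest.Agent.R235 Crest.Agent.R240.Ch Crest.Agent.R235.K12_417

noncomputable section

/-! ### the axis -/

theorem norm_ee (i : Fin 3) : ‖ee i‖ = 1 := by simp [ee]

theorem norm_nee (i : Fin 3) : ‖-ee i‖ = 1 := by rw [norm_neg, norm_ee]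

theorem normsq3 (x : E3) : ‖x‖ ^ 2 = x 0 ^ 2 + x 1 ^ 2 + x 2 ^ 2 := by
  rw [← real_inner_self_eq_norm_sq, inner3]; ring

theorem inner_ee2 (x : E3) : ⟪x, ee 2⟫ = x 2 := by
  rw [inner3]; simp [ee]

/-- projection to the plane. -/
def prC : E3 →L[ℝ] ℂ :=
  LinearMap.toContinuousLinearMap
    { toFun := fun x => (⟨x 0, x 1⟩ : ℂ)
      map_add' := fun x y => by apply Complex.ext <;> simp
      map_smul' := fun c x => by apply Complex.ext <;> simp }

theorem prC_re (x : E3) : (prC x).re = x 0 := rfl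
theorem prC_im (x : E3) : (prC x).im = x 1 := rfl

/-- the plane in space. -/
def inC : ℂ →L[ℝ] E3 :=
  LinearMap.toContinuousLinearMap
    { toFun := fun z => !₂[z.re, z.im, 0]
      map_add' := fun x y => by ext i; fin_cases i <;> simp
      map_smul' := fun c x => by ext i; fin_cases i <;> simp }

theorem inC_prC (x : E3) : inC (prC x) = x + (-(x 2)) • ee 2 := by
  ext i
  fin_cases i <;> simp [inC, prC, ee]

theorem prC_inC (z : ℂ) : prC (inC z) = z := by
  apply Complex.ext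
  · rw [prC_re]; rfl
  · rw [prC_im]; rfl

theorem prC_add (x : E3) (τ : ℝ) : prC (x + τ • ee 2) = prC x := by
  apply Complex.ext
  · rw [prC_re, prC_re]; simp [ee]
  · rw [prC_im, prC_im]; simp [ee]

theorem off_pos {x : E3} (hx : prC x ≠ 0) : 0 < x 0 ^ 2 + x 1 ^ 2 := by
  by_contra h
  push Not at h
  apply hx
  have h0 : x 0 = 0 := by nlinarith [sq_nonneg (x 0), sq_nonneg (x 1)]
  have h1 : x 1 = 0 := by nlinarith [sq_nonneg (x 0), sq_nonneg (x 1)]
  apply Complex.ext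
  · rw [prC_re, h0]; rfl
  · rw [prC_im, h1]; rfl

theorem off_lt {x : E3} (hx : prC x ≠ 0) : |x 2| < ‖x‖ := by
  have h1 := off_pos hx
  have h2 := normsq3 x
  refine abs_lt_of_sq_lt_sq ?_ (norm_nonneg _)
  linarith

theorem off_V {x : E3} (hx : prC x ≠ 0) : x ∈ VV (ee 2) := by
  have h1 := off_lt hx
  have h2 := (abs_lt.1 h1).1
  change 0 < ‖x‖ + ⟪x, ee 2⟫
  rw [inner_ee2]; linarith

theorem off_V' {x : E3} (hx : prC x ≠ 0) : x ∈ VV (-ee 2) := by
  have h1 := off_lt hx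
  have h2 := (abs_lt.1 h1).2
  change 0 < ‖x‖ + ⟪x, -ee 2⟫
  rw [inner_neg_right, inner_ee2]; linarith

theorem off_open : IsOpen {x : E3 | prC x ≠ 0} :=
  isOpen_ne_fun prC.continuous continuous_const

/-! ### the angular function -/

/-- the sum of the two radial integrals. -/
def LL (f : E3 → ℝ) (x : E3) : ℝ := FF f (ee 2) x + FF f (-ee 2) x

theorem LL_hom {f : E3 → ℝ} (hf : Hom0 f) (x : E3) (s : ℝ) (hs : 0 < s) :
    LL f (s • x) = (s ^ 2)⁻¹ * LL f x := by
  unfold LL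
  rw [FF_hom hf _ _ _ hs, FF_hom hf _ _ _ hs]; ring

theorem LL_smooth {f : E3 → ℝ} (hf : Hom0 f) : ContDiffOn ℝ ∞ (LL f) {x : E3 | prC x ≠ 0} :=
  ((FF_smooth hf (norm_ee 2)).mono fun _ hx => off_V hx).add
    ((FF_smooth hf (norm_nee 2)).mono fun _ hx => off_V' hx)

theorem LL_line {f : E3 → ℝ} (hf : Hom0 f) {x : E3} (hx : prC x ≠ 0) (τ : ℝ) :
    LL f (x + τ • ee 2) = LL f x := by
  have key : ∀ s : ℝ, HasDerivAt (fun τ : ℝ => LL f (x + τ • ee 2)) 0 s := by
    intro s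
    set y : E3 := x + s • ee 2 with hy
    have hy0 : prC y ≠ 0 := by rw [hy, prC_add]; exact hx
    have d1 : HasFDerivAt (FF f (ee 2)) (fderiv ℝ (FF f (ee 2)) y)
        ((fun τ : ℝ => x + τ • ee 2) s) :=
      (((FF_smooth hf (norm_ee 2)).contDiffAt
        ((VV_open _).mem_nhds (off_V hy0))).differentiableAt (by simp)).hasFDerivAt
    have d2 : HasFDerivAt (FF f (-ee 2)) (fderiv ℝ (FF f (-ee 2)) y)
        ((fun τ : ℝ => x + τ • ee 2) s) :=
      (((FF_smooth hf (norm_nee 2)).contDiffAt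
        ((VV_open _).mem_nhds (off_V' hy0))).differentiableAt (by simp)).hasFDerivAt
    have e0 : HasDerivAt (fun τ : ℝ => x + τ • ee 2) (ee 2) s := by
      simpa using ((hasDerivAt_id s).smul_const (ee 2)).const_add x
    have c1 := d1.comp_hasDerivAt s e0
    have c2 := d2.comp_hasDerivAt s e0
    have c3 := c1.add c2
    have h1 := FF_deriv_a hf (norm_ee 2) (off_V hy0)
    have h2 := FF_deriv_a hf (norm_nee 2) (off_V' hy0)
    rw [map_neg] at h2
    have h3 : fderiv ℝ (FF f (-ee 2)) y (ee 2) = GG f y := by linarith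
    rw [h1, h3, neg_add_cancel] at c3
    exact c3
  have h := is_const_of_deriv_eq_zero (f := fun τ : ℝ => LL f (x + τ • ee 2))
    (fun s => (key s).differentiableAt) (fun s => (key s).deriv) τ 0
  simpa using h

theorem LL_eq {f : E3 → ℝ} (hf : Hom0 f) {x : E3} (hx : prC x ≠ 0) :
    LL f (inC (prC x)) = LL f x := by
  rw [inC_prC, LL_line hf hx]

/-- the density of the angular form. -/
def lam (f : E3 → ℝ) (z : ℂ) : ℝ := ‖z‖ ^ 2 * LL f (inC z)

theorem lam_Hc {f : E3 → ℝ} (hf : Hom0 f) : Hc (lam f) where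
  smooth := by
    refine (contDiff_norm_sq ℝ).contDiffOn.mul ?_
    refine (LL_smooth hf).comp inC.contDiff.contDiffOn fun z hz => ?_
    change prC (inC z) ≠ 0
    rw [prC_inC]; exact hz
  hom := fun t z ht => by
    unfold lam
    rw [map_smul, LL_hom hf _ _ ht, norm_smul, Real.norm_eq_abs, abs_of_pos ht]
    field_simp

/-- the primitive of the angular form. -/
def Hh (f : E3 → ℝ) (x : E3) : ℝ := pr2 (lam f) (prC x)

theorem Hh_smooth {f : E3 → ℝ} (hf : Hom0 f) : ContDiffOn ℝ ∞ (Hh f) {x : E3 | prC x ≠ 0} :=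
  (pr2_smooth (lam_Hc hf)).comp prC.contDiff.contDiffOn fun _ hx => hx

theorem Hh_hom {f : E3 → ℝ} (hf : Hom0 f) (x : E3) (t : ℝ) (ht : 0 < t) :
    Hh f (t • x) = Hh f x := by
  unfold Hh
  rw [map_smul, pr2_hom (lam_Hc hf) t _ ht]

theorem Hh_fderiv {f : E3 → ℝ} (hf : Hom0 f) (h0 : mean2 (lam f) = 0) {x : E3}
    (hx : prC x ≠ 0) : fderiv ℝ (Hh f) x = gam f (ee 2) x - gam f (-ee 2) x := by
  have hd : DifferentiableAt ℝ (pr2 (lam f)) (prC x) :=
    ((pr2_smooth (lam_Hc hf)).contDiffAt (isOpen_compl_singleton.mem_nhds hx)).differentiableAt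
      (by simp)
  have h1 : HasFDerivAt (Hh f) ((fderiv ℝ (pr2 (lam f)) (prC x)).comp prC) x :=
    hd.hasFDerivAt.comp x prC.hasFDerivAt
  rw [h1.fderiv]
  ext v
  have h2 : ((fderiv ℝ (pr2 (lam f)) (prC x)).comp prC) v =
      fderiv ℝ (pr2 (lam f)) (prC x) (prC v) := rfl
  have h3 : (gam f (ee 2) x - gam f (-ee 2) x) v = gam f (ee 2) x v - gam f (-ee 2) x v := rfl
  have hp := off_pos hx
  have h4 : ‖prC x‖ ^ 2 = x 0 ^ 2 + x 1 ^ 2 := by
    rw [← Complex.normSq_eq_norm_sq, Complex.normSq_apply, prC_re, prC_im]; ring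
  rw [h2, h3, pr2_fderiv (lam_Hc hf) h0 hx, gam_apply, gam_apply, lam, LL_eq hf hx, h4,
    prC_re, prC_im, prC_re, prC_im, LL]
  simp only [inner3, cr0, cr1, cr2]
  simp only [ee, PiLp.neg_apply, PiLp.single_apply]
  simp
  field_simp
  ring

/-! ### the cut-off -/

/-- the cut-off function. -/
def chi (x : E3) : ℝ := Real.smoothTransition (1 / 2 - x 2 / ‖x‖)

theorem chi_smooth : ContDiffOn ℝ ∞ chi {0}ᶜ := by
  refine Real.smoothTransition.contDiff.comp_contDiffOn ?_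
  refine contDiffOn_const.sub (ContDiffOn.div ?_ (contDiffOn_id.norm ℝ fun x hx => hx)
    fun x hx => norm_ne_zero_iff.2 hx)
  exact (contDiff_apply_apply_e2).contDiffOn
  where contDiff_apply_apply_e2 : ContDiff ℝ ∞ (fun x : E3 => x 2) := by fun_prop

theorem chi_hom (x : E3) (t : ℝ) (ht : 0 < t) : chi (t • x) = chi x := by
  unfold chi
  congr 2
  rw [norm_smul, Real.norm_eq_abs, abs_of_pos ht]
  change t * x 2 / (t * ‖x‖) = x 2 / ‖x‖
  rw [mul_div_mul_left _ _ ht.ne']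

theorem chi_zero {x : E3} (hx : ‖x‖ / 2 < x 2) : chi x = 0 := by
  refine Real.smoothTransition.zero_of_nonpos ?_
  have h0 : 0 < ‖x‖ := by
    rcases (norm_nonneg x).lt_or_eq with h | h
    · exact h
    · rw [← h] at hx
      have h1 := normsq3 x
      rw [← h] at h1
      nlinarith [sq_nonneg (x 0), sq_nonneg (x 1)]
  have h2 : 1 / 2 ≤ x 2 / ‖x‖ := by
    rw [le_div_iff₀ h0]; linarith
  linarith

theorem chi_one {x : E3} (hx : x 2 < -(‖x‖ / 2)) : chi x = 1 := by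
  refine Real.smoothTransition.one_of_one_le ?_
  have h0 : 0 < ‖x‖ := by
    rcases (norm_nonneg x).lt_or_eq with h | h
    · exact h
    · rw [← h] at hx
      have h1 := normsq3 x
      rw [← h] at h1
      nlinarith [sq_nonneg (x 0), sq_nonneg (x 1)]
  have h2 : x 2 / ‖x‖ ≤ -(1 / 2) := by
    rw [div_le_iff₀ h0]; linarith
  linarith

theorem open_up : IsOpen {x : E3 | ‖x‖ / 2 < x 2} := isOpen_lt (by fun_prop) (by fun_prop)
theorem open_dn : IsOpen {x : E3 | x 2 < -(‖x‖ / 2)} := isOpen_lt (by fun_prop) (by fun_prop)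

theorem dchi_up {x : E3} (hx : ‖x‖ / 2 < x 2) : fderiv ℝ chi x = 0 := by
  have h : chi =ᶠ[𝓝 x] fun _ => (0 : ℝ) := by
    filter_upwards [open_up.mem_nhds hx] with y hy using chi_zero hy
  rw [h.fderiv_eq]; simp

theorem dchi_dn {x : E3} (hx : x 2 < -(‖x‖ / 2)) : fderiv ℝ chi x = 0 := by
  have h : chi =ᶠ[𝓝 x] fun _ => (1 : ℝ) := by
    filter_upwards [open_dn.mem_nhds hx] with y hy using chi_one hy
  rw [h.fderiv_eq]; simp

theorem mid_off {x : E3} (hx : x ≠ 0) (h1 : ¬ ‖x‖ / 2 < x 2) (h2 : ¬ x 2 < -(‖x‖ / 2)) :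
    prC x ≠ 0 := by
  intro h
  have e0 : x 0 = 0 := by rw [← prC_re, h]; rfl
  have e1 : x 1 = 0 := by rw [← prC_im, h]; rfl
  have e2 := normsq3 x
  rw [e0, e1] at e2
  have h0 : 0 < ‖x‖ := norm_pos_iff.2 hx
  push Not at h1 h2
  nlinarith

/-! ### the glued potential -/

/-- the primitive. -/
def Gam (f : E3 → ℝ) (x : E3) : E3 →L[ℝ] ℝ :=
  (1 - chi x) • gam f (ee 2) x + chi x • gam f (-ee 2) x - Hh f x • fderiv ℝ chi x

theorem Gam_up (f : E3 → ℝ) {x : E3} (hx : ‖x‖ / 2 < x 2) : Gam f x = gam f (ee 2) x := by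
  unfold Gam
  rw [chi_zero hx, dchi_up hx, sub_zero, one_smul, zero_smul, smul_zero, add_zero, sub_zero]

theorem Gam_dn (f : E3 → ℝ) {x : E3} (hx : x 2 < -(‖x‖ / 2)) : Gam f x = gam f (-ee 2) x := by
  unfold Gam
  rw [chi_one hx, dchi_dn hx, sub_self, one_smul, zero_smul, smul_zero, zero_add, sub_zero]

theorem up_V {x : E3} (hx : ‖x‖ / 2 < x 2) : x ∈ VV (ee 2) := by
  change 0 < ‖x‖ + ⟪x, ee 2⟫
  rw [inner_ee2]
  have := norm_nonneg x
  by_cases h : ‖x‖ = 0
  · rw [h] at hx ⊢; linarith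
  · have : 0 < ‖x‖ := lt_of_le_of_ne this (Ne.symm h)
    linarith

theorem dn_V {x : E3} (hx : x 2 < -(‖x‖ / 2)) : x ∈ VV (-ee 2) := by
  change 0 < ‖x‖ + ⟪x, -ee 2⟫
  rw [inner_neg_right, inner_ee2]
  have := norm_nonneg x
  linarith

theorem Gam_smooth {f : E3 → ℝ} (hf : Hom0 f) : ContDiffOn ℝ ∞ (Gam f) {0}ᶜ := by
  intro x hx
  refine ContDiffAt.contDiffWithinAt ?_
  by_cases h1 : ‖x‖ / 2 < x 2
  · have h : Gam f =ᶠ[𝓝 x] gam f (ee 2) := by
      filter_upwards [open_up.mem_nhds h1] with y hy using Gam_up f hy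
    exact ((gam_smooth hf (norm_ee 2)).contDiffAt
      ((VV_open _).mem_nhds (up_V h1))).congr_of_eventuallyEq h
  by_cases h2 : x 2 < -(‖x‖ / 2)
  · have h : Gam f =ᶠ[𝓝 x] gam f (-ee 2) := by
      filter_upwards [open_dn.mem_nhds h2] with y hy using Gam_dn f hy
    exact ((gam_smooth hf (norm_nee 2)).contDiffAt
      ((VV_open _).mem_nhds (dn_V h2))).congr_of_eventuallyEq h
  have h3 := mid_off hx h1 h2
  have a1 := (gam_smooth hf (norm_ee 2)).contDiffAt ((VV_open _).mem_nhds (off_V h3))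
  have a2 := (gam_smooth hf (norm_nee 2)).contDiffAt ((VV_open _).mem_nhds (off_V' h3))
  have a3 := (Hh_smooth hf).contDiffAt (off_open.mem_nhds h3)
  have a4 : ContDiffAt ℝ ∞ chi x := chi_smooth.contDiffAt (isOpen_compl_singleton.mem_nhds hx)
  have a5 : ContDiffAt ℝ ∞ (fderiv ℝ chi) x := a4.fderiv_right (m := ∞) (by simp)
  unfold Gam
  exact (((contDiffAt_const.sub a4).smul a1).add (a4.smul a2)).sub (a3.smul a5)

theorem d1_congr {g h : E3 → E3 →L[ℝ] ℝ} {x : E3} (e : g =ᶠ[𝓝 x] h) : d1 g x = d1 h x := by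
  unfold d1; rw [e.fderiv_eq]

theorem Gam_d1 {f : E3 → ℝ} (hf : Hom0 f) (h0 : mean2 (lam f) = 0) {x : E3} (hx : x ≠ 0)
    (u v : E3) : d1 (Gam f) x u v = GG f x * ⟪x, cr u v⟫ := by
  by_cases h1 : ‖x‖ / 2 < x 2
  · have h : Gam f =ᶠ[𝓝 x] gam f (ee 2) := by
      filter_upwards [open_up.mem_nhds h1] with y hy using Gam_up f hy
    rw [d1_congr h, gam_d1 hf (norm_ee 2) (up_V h1)]
  by_cases h2 : x 2 < -(‖x‖ / 2)
  · have h : Gam f =ᶠ[𝓝 x] gam f (-ee 2) := by
      filter_upwards [open_dn.mem_nhds h2] with y hy using Gam_dn f hy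
    rw [d1_congr h, gam_d1 hf (norm_nee 2) (dn_V h2)]
  have h3 := mid_off hx h1 h2
  have a3 := (Hh_smooth hf).contDiffAt (off_open.mem_nhds h3)
  have a4 : ContDiffAt ℝ ∞ chi x := chi_smooth.contDiffAt (isOpen_compl_singleton.mem_nhds hx)
  set K : E3 → ℝ := fun y => chi y * Hh f y with hK
  have hKs : ContDiffAt ℝ ∞ K x := a4.mul a3
  have h : Gam f =ᶠ[𝓝 x] fun y => gam f (ee 2) y - fderiv ℝ K y := by
    filter_upwards [off_open.mem_nhds h3, isOpen_compl_singleton.mem_nhds hx] with y hy hy0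
    have b3 := ((Hh_smooth hf).contDiffAt (off_open.mem_nhds hy)).differentiableAt
      (by simp : (∞ : WithTop ℕ∞) ≠ 0)
    have b4 : DifferentiableAt ℝ chi y :=
      (chi_smooth.contDiffAt (isOpen_compl_singleton.mem_nhds hy0)).differentiableAt (by simp)
    have b5 : fderiv ℝ K y = chi y • fderiv ℝ (Hh f) y + Hh f y • fderiv ℝ chi y :=
      fderiv_fun_mul b4 b3
    rw [b5, Hh_fderiv hf h0 hy]
    unfold Gam
    module
  have hg : DifferentiableAt ℝ (gam f (ee 2)) x :=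
    ((gam_smooth hf (norm_ee 2)).contDiffAt
      ((VV_open _).mem_nhds (off_V h3))).differentiableAt (by simp)
  have hK1 : DifferentiableAt ℝ (fderiv ℝ K) x :=
    (hKs.fderiv_right (m := ∞) (by simp)).differentiableAt (by simp)
  have hsym : fderiv ℝ (fderiv ℝ K) x u v = fderiv ℝ (fderiv ℝ K) x v u :=
    (hKs.isSymmSndFDerivAt (by simp only [minSmoothness_of_isRCLikeNormedField]; exact WithTop.coe_le_coe.2 le_top)) u v
  rw [d1_congr h, d1_apply, fderiv_fun_sub hg hK1]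
  have e1 := gam_d1 hf (norm_ee 2) (off_V h3) u v
  rw [d1_apply] at e1
  simp only [_root_.sub_apply]
  linarith

theorem Gam_self (f : E3 → ℝ) (x : E3) : Gam f x x = 0 := by
  have h1 : fderiv ℝ chi x x = 0 := by
    by_cases hx : x = 0
    · rw [hx, map_zero]
    · have hd : DifferentiableAt ℝ chi x :=
        (chi_smooth.contDiffAt (isOpen_compl_singleton.mem_nhds hx)).differentiableAt (by simp)
      have := euler 0 hd (fun s hs => by rw [chi_hom x s hs]; simp)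
      simpa using this
  unfold Gam
  simp only [_root_.sub_apply, _root_.add_apply, _root_.smul_apply, gam_self, h1, smul_zero,
    add_zero, sub_zero]

theorem Gam_hom {f : E3 → ℝ} (hf : Hom0 f) (t : ℝ) (x : E3) (ht : 0 < t) :
    Gam f (t • x) = t⁻¹ • Gam f x := by
  have h1 : fderiv ℝ chi (t • x) = t⁻¹ • fderiv ℝ chi x := by
    have h2 : (fun y : E3 => chi (t • y)) = chi := funext fun y => chi_hom y t ht
    have h3 : fderiv ℝ (fun y : E3 => chi (t • y)) x = t • fderiv ℝ chi (t • x) :=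
      fderiv_comp_smul t
    rw [h2] at h3
    rw [h3, smul_smul, inv_mul_cancel₀ ht.ne', one_smul]
  unfold Gam
  rw [chi_hom x t ht, gam_hom hf _ _ _ ht, gam_hom hf _ _ _ ht, Hh_hom hf _ _ ht, h1]
  module

end

end Crest.Agent.R235.K12S2_423
end

-- ▼ part R235/K12S2_423
section

/-!
Row 235 (S0364), package KUM, block K12, leaf S2PRIM (task 315, helper423): final part:
Stokes' formula, normalisation, conclusion.
-/

set_option autoImplicit false
set_option maxSynthPendingDepth 3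

open Set MeasureTheory Filter Module
open scoped ContDiff Topology RealInnerProductSpace

namespace Crest.Agent.R235.K12S2_423

open Crest.Agent.R235 Crest.Agent.R240.Ch Crest.Agent.R235.K12_417

noncomputable section

/-! ### polar coordinates -/

theorem int_hom {s : E3 → ℝ} (hs : ∀ (r : ℝ) (y : E3), 0 < r → s (r • y) = s y) (h : ℝ → ℝ) :
    ∫ y : E3, s y * h ‖y‖ =
      (∫ u : Metric.sphere (0 : E3) 1, s u ∂(volume : Measure E3).toSphere) *
        ∫ r : Ioi (0 : ℝ), h r ∂(Measure.volumeIoiPow (finrank ℝ E3 - 1)) := by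
  calc ∫ y : E3, s y * h ‖y‖
      = ∫ x : ({(0)}ᶜ : Set E3), s x.1 * h ‖x.1‖ ∂((volume : Measure E3).comap (↑)) := by
        rw [integral_subtype_comap (measurableSet_singleton _).compl fun x => s x * h ‖x‖,
          restrict_compl_singleton]
    _ = ∫ x, s (x.1 : E3) * h (x.2 : ℝ) ∂((volume : Measure E3).toSphere.prod
          (.volumeIoiPow (finrank ℝ E3 - 1))) := by
        rw [← (volume : Measure E3).measurePreserving_homeomorphUnitSphereProd.integral_comp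
          (Homeomorph.measurableEmbedding _)
          (fun x : Metric.sphere (0 : E3) 1 × Ioi (0 : ℝ) => s (x.1 : E3) * h (x.2 : ℝ))]
        congr 1
        funext x
        simp only [homeomorphUnitSphereProd_apply_fst_coe, homeomorphUnitSphereProd_apply_snd_coe]
        rw [hs]
        exact inv_pos.2 (norm_pos_iff.2 x.2)
    _ = _ := integral_prod_mul (fun u : Metric.sphere (0 : E3) 1 => s u)
        (fun r : Ioi (0 : ℝ) => h r)

/-! ### the radial cut-off -/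

/-- a bump on `(1, 2)`. -/
def bmp : ContDiffBump (3 / 2 : ℝ) := ⟨1 / 4, 1 / 2, by norm_num, by norm_num⟩

/-- the radial bump. -/
def ph (x : E3) : ℝ := bmp ‖x‖

theorem ph_zero_in {x : E3} (hx : ‖x‖ < 1) : ph x = 0 := by
  refine bmp.zero_of_le_dist ?_
  change (1 / 2 : ℝ) ≤ dist ‖x‖ (3 / 2)
  rw [Real.dist_eq, abs_of_neg (by linarith)]
  linarith

theorem ph_zero_out {x : E3} (hx : 2 < ‖x‖) : ph x = 0 := by
  refine bmp.zero_of_le_dist ?_
  change (1 / 2 : ℝ) ≤ dist ‖x‖ (3 / 2)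
  rw [Real.dist_eq, abs_of_pos (by linarith)]
  linarith

theorem ph_near {x : E3} (hx : x = 0) : ph =ᶠ[𝓝 x] fun _ => 0 := by
  have h : {y : E3 | ‖y‖ < 1} ∈ 𝓝 x := (isOpen_lt (by fun_prop) (by fun_prop)).mem_nhds
    (by rw [hx]; simp)
  filter_upwards [h] with y hy using ph_zero_in hy

theorem ph_smooth : ContDiff ℝ ∞ ph := by
  rw [contDiff_iff_contDiffAt]
  intro x
  by_cases hx : x = 0
  · exact contDiffAt_const.congr_of_eventuallyEq (ph_near hx)
  · exact bmp.contDiff.contDiffAt.comp x (contDiffAt_norm ℝ hx)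

theorem ph_supp : HasCompactSupport ph := by
  refine HasCompactSupport.intro (isCompact_closedBall (0 : E3) 2) fun x hx => ?_
  refine ph_zero_out ?_
  rw [mem_closedBall_zero_iff, not_le] at hx
  exact hx

theorem ph_deriv {x : E3} (hx : x ≠ 0) (v : E3) :
    fderiv ℝ ph x v = deriv (fun r => bmp r) ‖x‖ * (‖x‖⁻¹ * ⟪x, v⟫) := by
  have h1 : HasDerivAt (fun r => bmp r) (deriv (fun r => bmp r) ‖x‖) ‖x‖ :=
    (bmp.contDiffAt.differentiableAt (n := 1) (by simp)).hasDerivAt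
  have h2 : HasDerivAt (fun τ : ℝ => ‖x + τ • v‖) (⟪x, v⟫ / ‖x‖) 0 := norm_line hx
  have h3 : HasFDerivAt ph (fderiv ℝ ph x) (x + (0 : ℝ) • v) := by
    rw [zero_smul, add_zero]
    exact (ph_smooth.contDiffAt.differentiableAt (by simp)).hasFDerivAt
  have e0 : HasDerivAt (fun τ : ℝ => x + τ • v) v 0 := by
    simpa using ((hasDerivAt_id (0 : ℝ)).smul_const v).const_add x
  have c1 := h3.comp_hasDerivAt (0 : ℝ) e0
  have h4 : HasDerivAt (fun r => bmp r) (deriv (fun r => bmp r) ‖x‖) ‖x + (0 : ℝ) • v‖ := by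
    rw [zero_smul, add_zero]; exact h1
  have c2 := h4.comp (0 : ℝ) h2
  have c3 := c1.unique c2
  rw [c3]
  ring

/-! ### Stokes -/

variable {γ : E3 → E3 →L[ℝ] ℝ}

/-- the test function. -/
def tf (γ : E3 → E3 →L[ℝ] ℝ) (u w x : E3) : ℝ := ph x * (γ x u * ⟪x, w⟫)

theorem tf_smooth (hγ : ContDiffOn ℝ ∞ γ {0}ᶜ) (u w : E3) : ContDiff ℝ ∞ (tf γ u w) := by
  rw [contDiff_iff_contDiffAt]
  intro x
  by_cases hx : x = 0
  · refine (contDiffAt_const (c := (0 : ℝ))).congr_of_eventuallyEq ?_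
    filter_upwards [ph_near hx] with y hy
    rw [tf, hy, zero_mul]
  · have h1 : ContDiffAt ℝ ∞ γ x := hγ.contDiffAt (isOpen_compl_singleton.mem_nhds hx)
    refine ph_smooth.contDiffAt.mul ((h1.clm_apply contDiffAt_const).mul ?_)
    exact (contDiff_id.inner ℝ contDiff_const).contDiffAt

theorem tf_supp (u w : E3) : HasCompactSupport (tf γ u w) := ph_supp.mul_right

theorem tf_deriv (hγ : ContDiffOn ℝ ∞ γ {0}ᶜ) (u w e : E3) {x : E3} (hx : x ≠ 0) :
    fderiv ℝ (tf γ u w) x e = fderiv ℝ ph x e * (γ x u * ⟪x, w⟫) +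
      ph x * (fderiv ℝ γ x e u * ⟪x, w⟫ + γ x u * ⟪e, w⟫) := by
  have h1 : HasFDerivAt γ (fderiv ℝ γ x) x :=
    ((hγ.contDiffAt (isOpen_compl_singleton.mem_nhds hx)).differentiableAt (by simp)).hasFDerivAt
  have e0 : HasDerivAt (fun τ : ℝ => x + τ • e) e 0 := by
    simpa using ((hasDerivAt_id (0 : ℝ)).smul_const e).const_add x
  have g1 : HasFDerivAt γ (fderiv ℝ γ x) (x + (0 : ℝ) • e) := by
    rw [zero_smul, add_zero]; exact h1
  have g2 := g1.comp_hasDerivAt (0 : ℝ) e0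
  have g3 := g2.clm_apply (hasDerivAt_const (0 : ℝ) u)
  have p1 : HasFDerivAt ph (fderiv ℝ ph x) (x + (0 : ℝ) • e) := by
    rw [zero_smul, add_zero]
    exact (ph_smooth.contDiffAt.differentiableAt (by simp)).hasFDerivAt
  have p2 := p1.comp_hasDerivAt (0 : ℝ) e0
  have i1 : HasDerivAt (fun τ : ℝ => ⟪x + τ • e, w⟫) ⟪e, w⟫ 0 := by
    have := e0.inner ℝ (hasDerivAt_const (0 : ℝ) w)
    simpa using this
  have q := p2.mul (g3.mul i1)
  have t1 : HasFDerivAt (tf γ u w) (fderiv ℝ (tf γ u w) x) (x + (0 : ℝ) • e) := by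
    rw [zero_smul, add_zero]
    exact ((tf_smooth hγ u w).contDiffAt.differentiableAt (by simp)).hasFDerivAt
  have t2 := t1.comp_hasDerivAt (0 : ℝ) e0
  have t3 := t2.unique q
  rw [t3]
  simp

theorem tf_int (hγ : ContDiffOn ℝ ∞ γ {0}ᶜ) (u w e : E3) :
    Integrable (fun x => fderiv ℝ (tf γ u w) x e) ∧ ∫ x, fderiv ℝ (tf γ u w) x e = 0 :=
  ⟨R106.UQ.integrable_fderiv _ ((tf_smooth hγ u w).of_le (by exact_mod_cast le_top)) (tf_supp u w) e,
   R106.UQ.integral_fderiv_eq_zero _ ((tf_smooth hγ u w).of_le (by exact_mod_cast le_top))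
    (tf_supp u w) e⟩

/-- Stokes: `f · area = dγ` implies `∫ f = 0`. -/
theorem stokes {f : E3 → ℝ} (hf : Hom0 f) (hγ : ContDiffOn ℝ ∞ γ {0}ᶜ)
    (hd : ∀ x : E3, x ≠ 0 → ∀ u v, d1 γ x u v = GG f x * ⟪x, cr u v⟫) :
    ∫ y : Metric.sphere (0 : E3) 1, f y ∂((volume : Measure E3).toSphere) = 0 := by
  set a := ee 0 with ha
  set b := ee 1 with hb
  set c := ee 2 with hc
  have key : ∀ x : E3, (fderiv ℝ (tf γ b c) x a - fderiv ℝ (tf γ c b) x a) +
      (fderiv ℝ (tf γ c a) x b - fderiv ℝ (tf γ a c) x b) +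
      (fderiv ℝ (tf γ a b) x c - fderiv ℝ (tf γ b a) x c) =
      f x * (bmp ‖x‖ * ‖x‖⁻¹) := by
    intro x
    by_cases hx : x = 0
    · have h1 : ∀ u w e : E3, fderiv ℝ (tf γ u w) x e = 0 := by
        intro u w e
        have h : tf γ u w =ᶠ[𝓝 x] fun _ => 0 := by
          filter_upwards [ph_near hx] with y hy
          rw [tf, hy, zero_mul]
        rw [h.fderiv_eq]; simp
      rw [h1, h1, h1, h1, h1, h1, hx]; simp
    · have hn : ‖x‖ ≠ 0 := norm_ne_zero_iff.2 hx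
      have hN := normsq3 x
      have k1 := hd x hx a b
      have k2 := hd x hx b c
      have k3 := hd x hx c a
      rw [d1_apply] at k1 k2 k3
      simp only [tf_deriv hγ _ _ _ hx, ph_deriv hx]
      have x0 : ⟪x, a⟫ = x 0 := by rw [inner3]; simp [ha, ee]
      have x1 : ⟪x, b⟫ = x 1 := by rw [inner3]; simp [hb, ee]
      have x2 : ⟪x, c⟫ = x 2 := by rw [inner3]; simp [hc, ee]
      have y1 : ⟪a, b⟫ = 0 := by rw [inner3]; simp [ha, hb, ee]
      have y2 : ⟪b, a⟫ = 0 := by rw [inner3]; simp [ha, hb, ee]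
      have y3 : ⟪a, c⟫ = 0 := by rw [inner3]; simp [ha, hc, ee]
      have y4 : ⟪c, a⟫ = 0 := by rw [inner3]; simp [ha, hc, ee]
      have y5 : ⟪b, c⟫ = 0 := by rw [inner3]; simp [hb, hc, ee]
      have y6 : ⟪c, b⟫ = 0 := by rw [inner3]; simp [hb, hc, ee]
      have z1 : ⟪x, cr a b⟫ = x 2 := by rw [inner3, cr0, cr1, cr2]; simp [ha, hb, ee]
      have z2 : ⟪x, cr b c⟫ = x 0 := by rw [inner3, cr0, cr1, cr2]; simp [hb, hc, ee]
      have z3 : ⟪x, cr c a⟫ = x 1 := by rw [inner3, cr0, cr1, cr2]; simp [hc, ha, ee]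
      rw [z1] at k1
      rw [z2] at k2
      rw [z3] at k3
      rw [x0, x1, x2, y1, y2, y3, y4, y5, y6]
      have hG : GG f x * ‖x‖ ^ 2 = f x * ‖x‖⁻¹ := by
        unfold GG; field_simp
      have hp : ph x = bmp ‖x‖ := rfl
      rw [hp]
      have h9 : f x * (bmp ‖x‖ * ‖x‖⁻¹) = bmp ‖x‖ * (GG f x * (x 0 ^ 2 + x 1 ^ 2 + x 2 ^ 2)) := by
        rw [← hN, hG]; ring
      rw [h9]
      linear_combination (bmp ‖x‖ * x 2) * k1 + (bmp ‖x‖ * x 0) * k2 + (bmp ‖x‖ * x 1) * k3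
  have hint : ∫ x : E3, f x * (bmp ‖x‖ * ‖x‖⁻¹) = 0 := by
    simp only [← key]
    have t : ∀ u w e u' w' e' : E3,
        Integrable (fun x => fderiv ℝ (tf γ u w) x e - fderiv ℝ (tf γ u' w') x e') ∧
        ∫ x, (fderiv ℝ (tf γ u w) x e - fderiv ℝ (tf γ u' w') x e') = 0 := by
      intro u w e u' w' e'
      refine ⟨(tf_int hγ u w e).1.sub (tf_int hγ u' w' e').1, ?_⟩
      rw [integral_sub (tf_int hγ u w e).1 (tf_int hγ u' w' e').1, (tf_int hγ u w e).2,
        (tf_int hγ u' w' e').2, sub_zero]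
    have t2 : Integrable (fun x => (fderiv ℝ (tf γ b c) x a - fderiv ℝ (tf γ c b) x a) +
        (fderiv ℝ (tf γ c a) x b - fderiv ℝ (tf γ a c) x b)) := (t _ _ _ _ _ _).1.add
          (t _ _ _ _ _ _).1
    rw [integral_add t2 (t _ _ _ _ _ _).1, integral_add (t _ _ _ _ _ _).1 (t _ _ _ _ _ _).1,
      (t _ _ _ _ _ _).2, (t _ _ _ _ _ _).2, (t _ _ _ _ _ _).2, add_zero, add_zero]
  have h1 := int_hom (s := f) (fun r y hr => hf.2 r y hr) (fun r => bmp r * r⁻¹)
  have h2 := int_hom (s := fun _ => (1 : ℝ)) (fun _ _ _ => rfl) (fun r => bmp r * r⁻¹)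
  rw [hint] at h1
  have hpos : 0 < ∫ y : E3, (1 : ℝ) * (bmp ‖y‖ * ‖y‖⁻¹) := by
    simp only [one_mul]
    have hcont : Continuous fun y : E3 => bmp ‖y‖ * ‖y‖⁻¹ := by
      rw [continuous_iff_continuousAt]
      intro x
      by_cases hx : x = 0
      · have h : (fun y : E3 => bmp ‖y‖ * ‖y‖⁻¹) =ᶠ[𝓝 x] fun _ => 0 := by
          filter_upwards [ph_near hx] with y hy
          have : bmp ‖y‖ = 0 := hy
          rw [this, zero_mul]
        exact continuousAt_const.congr h.symm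
      · have : ContinuousAt (fun y : E3 => ‖y‖⁻¹) x :=
          continuousAt_id.norm.inv₀ (norm_ne_zero_iff.2 hx)
        exact (bmp.continuous.comp continuous_norm).continuousAt.mul this
    refine Continuous.integral_pos_of_hasCompactSupport_nonneg_nonzero hcont ?_ ?_
      (x := (3 / 2 : ℝ) • ee 0) ?_
    · exact (ph_supp : HasCompactSupport fun y : E3 => bmp ‖y‖).mul_right
    · intro y
      exact mul_nonneg bmp.nonneg (inv_nonneg.2 (norm_nonneg _))
    · have h3 : ‖(3 / 2 : ℝ) • ee 0‖ = 3 / 2 := by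
        rw [norm_smul, norm_ee, mul_one, Real.norm_eq_abs]; norm_num
      rw [h3, bmp.one_of_mem_closedBall (Metric.mem_closedBall_self (by
        change (0 : ℝ) ≤ 1 / 4; norm_num))]
      norm_num
  rw [h2] at hpos
  have h3 : (∫ r : Ioi (0 : ℝ), bmp (r : ℝ) * (r : ℝ)⁻¹
      ∂(Measure.volumeIoiPow (finrank ℝ E3 - 1))) ≠ 0 := by
    intro h; rw [h, mul_zero] at hpos; exact lt_irrefl _ hpos
  exact (mul_eq_zero.1 h1.symm).resolve_right h3

/-! ### linearity and conclusion -/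

theorem one_Hom0 : Hom0 (fun _ => (1 : ℝ)) := ⟨contDiffOn_const, fun _ _ _ => rfl⟩

theorem sub_Hom0 {f : E3 → ℝ} (hf : Hom0 f) (c : ℝ) : Hom0 (fun x => f x - c) :=
  ⟨hf.1.sub contDiffOn_const, fun t q ht => by
    change f (t • q) - c = f q - c
    rw [hf.2 t q ht]⟩

theorem HH_int {f : E3 → ℝ} (hf : Hom0 f) {a : E3} (ha : ‖a‖ = 1) {x : E3} (hx : x ∈ VV a) :
    IntervalIntegrable (fun t : ℝ => HH f a (t, x)) volume 0 1 := by
  have h : Continuous fun t : ℝ => HH f a (t, x) := by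
    rw [← continuousOn_univ]
    exact (HH_smooth hf ha).continuousOn.comp (by fun_prop) fun r _ => ⟨mem_univ _, hx⟩
  exact h.intervalIntegrable _ _

theorem FF_sub {f : E3 → ℝ} (hf : Hom0 f) (c : ℝ) {a : E3} (ha : ‖a‖ = 1) {x : E3}
    (hx : x ∈ VV a) : FF (fun x => f x - c) a x = FF f a x - c * FF (fun _ => 1) a x := by
  unfold FF
  rw [← intervalIntegral.integral_const_mul, ← intervalIntegral.integral_sub (HH_int hf ha hx)
    ((HH_int one_Hom0 ha hx).const_mul c)]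
  refine intervalIntegral.integral_congr fun t _ => ?_
  simp only [HH, GG]
  ring

theorem lam_cont {f : E3 → ℝ} (hf : Hom0 f) :
    Continuous fun s : ℝ => lam f (Complex.exp (s * Complex.I)) := by
  have h := ell_cont (lam_Hc hf) (one_ne_zero (α := ℂ))
  have h2 : (fun s : ℝ => lam f (Complex.exp (s * Complex.I))) = ell (lam f) 1 := by
    funext s; rw [ell, mul_one]
  rw [h2]; exact h

theorem mean_sub {f : E3 → ℝ} (hf : Hom0 f) (c : ℝ) :
    mean2 (lam (fun x => f x - c)) = mean2 (lam f) - c * mean2 (lam (fun _ => 1)) := by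
  unfold mean2
  rw [← intervalIntegral.integral_const_mul, ← intervalIntegral.integral_sub
    ((lam_cont hf).intervalIntegrable _ _)
    (((lam_cont one_Hom0).intervalIntegrable _ _).const_mul c)]
  refine intervalIntegral.integral_congr fun s _ => ?_
  have hz : prC (inC (Complex.exp (s * Complex.I))) ≠ 0 := by
    rw [prC_inC]; exact Complex.exp_ne_zero _
  simp only [lam, LL]
  rw [FF_sub hf c (norm_ee 2) (off_V hz), FF_sub hf c (norm_nee 2) (off_V' hz)]
  ring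

/-- **S2PRIM.** -/
theorem s2prim : S2PRIM := by
  intro f hf hf0
  have hS : ((volume : Measure E3).toSphere).real univ ≠ 0 := by
    have : Nonempty (Metric.sphere (0 : E3) 1) := ⟨⟨ee 0, by simp [norm_ee]⟩⟩
    exact (measureReal_univ_pos (μ := (volume : Measure E3).toSphere)).ne'
  have h1 : mean2 (lam (fun _ => 1)) ≠ 0 := by
    intro h
    have := stokes one_Hom0 (Gam_smooth one_Hom0) (fun x hx u v => Gam_d1 one_Hom0 h hx u v)
    simp only [integral_const, smul_eq_mul, mul_one] at this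
    exact hS this
  set c : ℝ := mean2 (lam f) / mean2 (lam (fun _ => 1)) with hc
  have h2 : mean2 (lam (fun x => f x - c)) = 0 := by
    rw [mean_sub hf c, hc]; field_simp; ring
  have hfc := sub_Hom0 hf c
  have h3 := stokes hfc (Gam_smooth hfc) (fun x hx u v => Gam_d1 hfc h2 hx u v)
  have hcf : Continuous fun y : Metric.sphere (0 : E3) 1 => f y := by
    rw [← continuousOn_univ]
    refine hf.1.continuousOn.comp continuous_subtype_val.continuousOn fun y _ => ?_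
    have h4 : ‖(y : E3)‖ = 1 := mem_sphere_zero_iff_norm.1 y.2
    intro h5
    have h6 : (y : E3) = 0 := h5
    rw [h6, norm_zero] at h4
    exact zero_ne_one h4
  have hif : Integrable (fun y : Metric.sphere (0 : E3) 1 => f y)
      ((volume : Measure E3).toSphere) :=
    hcf.integrable_of_hasCompactSupport (HasCompactSupport.of_compactSpace _)
  rw [integral_sub hif (integrable_const c), hf0, integral_const, smul_eq_mul, zero_sub,
    neg_eq_zero] at h3
  have hc0 : c = 0 := (mul_eq_zero.1 h3).resolve_left hS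
  have h4 : mean2 (lam f) = 0 := by
    rw [hc] at hc0
    exact (div_eq_zero_iff.1 hc0).resolve_right h1
  refine ⟨Gam f, Gam_smooth hf, Gam_self f, fun t q ht _ => Gam_hom hf t q ht, ?_⟩
  intro q u v hq _ _
  have hq0 : q ≠ 0 := by
    intro h; rw [h, norm_zero] at hq; exact zero_ne_one hq
  rw [Gam_d1 hf h4 hq0, GG, hq]
  norm_num

end

end Crest.Agent.R235.K12S2_423
end

-- ▼ part R235/K12Rprim_82

/-!
Row 235 (S0364), package KUM, block K12, leaf RPRIM (helper82): the relative Poincaré lemma on the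
disc bundle of `T S²`.
-/

set_option autoImplicit false
set_option maxSynthPendingDepth 3

open Set Function Filter MeasureTheory
open scoped Manifold ContDiff Topology RealInnerProductSpace Interval

namespace Crest.Agent.R235.K12Rprim_82

open Crest.Agent.R240 Crest.Agent.R240.Ch Crest.Agent.R235 Crest.Agent.R235.K12_417

noncomputable section

/-! ### parametric integrals on open sets -/

section Pint

variable {E F : Type} [NormedAddCommGroup E] [NormedSpace ℝ E] [NormedAddCommGroup F]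
  [NormedSpace ℝ F]

theorem pint_hasFDerivAt {H : ℝ × E → F} {Ω : Set (ℝ × E)} (hΩ : IsOpen Ω)
    (hH : ContDiffOn ℝ ∞ H Ω) {O : Set E} (hO : IsOpen O) (hs : Icc (0 : ℝ) 1 ×ˢ O ⊆ Ω)
    {q : E} (hq : q ∈ O) :
    HasFDerivAt (fun q => ∫ t in (0 : ℝ)..1, H (t, q))
      (∫ t in (0 : ℝ)..1, (fderiv ℝ H (t, q)).comp (ContinuousLinearMap.inr ℝ ℝ E)) q := by
  obtain ⟨δ, hδ, hb⟩ := Metric.isOpen_iff.1 hO q hq
  have hsub : Icc (0 : ℝ) 1 ×ˢ Metric.ball q δ ⊆ Ω := (prod_mono_right hb).trans hs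
  have hc : ContinuousOn (fun z : ℝ × E => (fderiv ℝ H z).comp (ContinuousLinearMap.inr ℝ ℝ E))
      (Icc (0 : ℝ) 1 ×ˢ Metric.ball q δ) :=
    ((hH.continuousOn_fderiv_of_isOpen hΩ (by simp)).mono hsub).clm_comp continuousOn_const
  have h := R213.hasFDerivWithinAt_pint (a := 0) (b := 1) zero_le_one (convex_ball q δ)
    (H := H) (H' := fun z : ℝ × E => (fderiv ℝ H z).comp (ContinuousLinearMap.inr ℝ ℝ E))
    (hH.continuousOn.mono hsub) hc (fun r hr p hp => by
      have hm : (r, p) ∈ Ω := hsub ⟨hr, hp⟩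
      have h1 := ((hH.contDiffAt (hΩ.mem_nhds hm)).differentiableAt (by simp)).hasFDerivAt
      have h2 : HasFDerivAt (fun q : E => ((r, q) : ℝ × E)) (ContinuousLinearMap.inr ℝ ℝ E) p :=
        (hasFDerivAt_const r p).prodMk (hasFDerivAt_id p)
      exact (HasFDerivAt.comp p (g := H) h1 h2).hasFDerivWithinAt) (Metric.mem_ball_self hδ)
  exact h.hasFDerivAt (Metric.ball_mem_nhds q hδ)

theorem pint_smooth {H : ℝ × E → F} {Ω : Set (ℝ × E)}
    (hH : ContDiffOn ℝ ∞ H Ω) {O : Set E} (hO : IsOpen O) (hs : Icc (0 : ℝ) 1 ×ˢ O ⊆ Ω) :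
    ContDiffOn ℝ ∞ (fun q => ∫ t in (0 : ℝ)..1, H (t, q)) O := by
  intro q hq
  obtain ⟨δ, hδ, hb⟩ := Metric.isOpen_iff.1 hO q hq
  have h := R213.contDiffOn_pint (a := 0) (b := 1) zero_lt_one (convex_ball q δ)
    (Metric.isOpen_ball.uniqueDiffOn) (H := H) (hH.mono ((prod_mono_right hb).trans hs))
  exact (h.contDiffAt (Metric.ball_mem_nhds q hδ)).contDiffWithinAt

theorem pint_fderiv [CompleteSpace F] {H : ℝ × E → F} {Ω : Set (ℝ × E)} (hΩ : IsOpen Ω)
    (hH : ContDiffOn ℝ ∞ H Ω) {O : Set E} (hO : IsOpen O) (hs : Icc (0 : ℝ) 1 ×ˢ O ⊆ Ω)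
    {q : E} (hq : q ∈ O) (w : E) :
    fderiv ℝ (fun q => ∫ t in (0 : ℝ)..1, H (t, q)) q w =
      ∫ t in (0 : ℝ)..1, fderiv ℝ (fun q => H (t, q)) q w := by
  have hc : ContinuousOn (fun t : ℝ => (fderiv ℝ H (t, q)).comp (ContinuousLinearMap.inr ℝ ℝ E))
      (uIcc (0 : ℝ) 1) := by
    rw [uIcc_of_le zero_le_one]
    have h1 : ContinuousOn (fun t : ℝ => fderiv ℝ H (t, q)) (Icc (0 : ℝ) 1) :=
      (hH.continuousOn_fderiv_of_isOpen hΩ (by simp)).comp (by fun_prop)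
        (fun t ht => hs ⟨ht, hq⟩)
    exact h1.clm_comp continuousOn_const
  rw [(pint_hasFDerivAt hΩ hH hO hs hq).fderiv,
    ContinuousLinearMap.intervalIntegral_apply hc.intervalIntegrable]
  refine intervalIntegral.integral_congr fun r hr => ?_
  rw [uIcc_of_le zero_le_one] at hr
  have hm : (r, q) ∈ Ω := hs ⟨hr, hq⟩
  have h1 := ((hH.contDiffAt (hΩ.mem_nhds hm)).differentiableAt (by simp)).hasFDerivAt
  have h2 : HasFDerivAt (fun q : E => ((r, q) : ℝ × E)) (ContinuousLinearMap.inr ℝ ℝ E) q :=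
    (hasFDerivAt_const r q).prodMk (hasFDerivAt_id q)
  have h3 : fderiv ℝ (fun q : E => H (r, q)) q = _ :=
    (HasFDerivAt.comp q (g := H) h1 h2).fderiv
  rw [h3]

end Pint

/-! ### the retraction -/

theorem Pi_smooth {z : E6} (hz : z.1 ≠ 0) : ContDiffAt ℝ ∞ Pi z := by
  have h1 : ContDiffAt ℝ ∞ (fun z : E6 => ‖z.1‖) z := contDiffAt_fst.norm ℝ hz
  have hn : ‖z.1‖ ≠ 0 := norm_ne_zero_iff.2 hz
  exact ((h1.inv hn).smul contDiffAt_fst).prodMk
    (contDiffAt_snd.sub (((contDiffAt_fst.inner ℝ contDiffAt_snd).div (h1.pow 2)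
      (pow_ne_zero 2 hn)).smul contDiffAt_fst))

theorem isOpen_ne : IsOpen {z : E6 | z.1 ≠ 0} :=
  isOpen_compl_singleton.preimage continuous_fst

theorem isOpen_OS (r : ℝ) : IsOpen (OS r) := by
  have h1 : ContinuousOn Pi {z : E6 | z.1 ≠ 0} := fun z hz =>
    (Pi_smooth hz).continuousAt.continuousWithinAt
  have h2 : IsOpen {z : E6 | ‖z.2‖ < r} := isOpen_lt (by fun_prop) continuous_const
  have h3 := h1.isOpen_inter_preimage isOpen_ne h2
  have h4 : OS r = {z : E6 | z.1 ≠ 0} ∩ Pi ⁻¹' {z : E6 | ‖z.2‖ < r} := by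
    ext z
    exact Iff.rfl
  rw [h4]
  exact h3

theorem Pi_one {z : E6} (hz : z.1 ≠ 0) : ‖(Pi z).1‖ = 1 := by
  have hn : ‖z.1‖ ≠ 0 := norm_ne_zero_iff.2 hz
  show ‖‖z.1‖⁻¹ • z.1‖ = 1
  rw [norm_smul, norm_inv, norm_norm, inv_mul_cancel₀ hn]

/-- `(q, p) ↦ (q, 0)`. -/
def A0 : E6 →L[ℝ] E6 := (ContinuousLinearMap.inl ℝ E3 E3).comp (ContinuousLinearMap.fst ℝ E3 E3)

/-- `(q, p) ↦ (0, p)`. -/
def B0 : E6 →L[ℝ] E6 := (ContinuousLinearMap.inr ℝ E3 E3).comp (ContinuousLinearMap.snd ℝ E3 E3)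

/-- `(q, p) ↦ (q, t p)`. -/
def Sc (t : ℝ) : E6 →L[ℝ] E6 := A0 + t • B0

theorem B0_apply (z : E6) : B0 z = (0, z.2) := rfl

theorem Sc_apply (t : ℝ) (z : E6) : Sc t z = (z.1, t • z.2) := by
  simp [Sc, A0, B0]

theorem Sc_one (z : E6) : Sc 1 z = z := by
  rw [Sc_apply, one_smul]

theorem Pi_Sc (t : ℝ) (z : E6) : Pi (Sc t z) = Sc t (Pi z) := by
  rw [Sc_apply, Sc_apply]
  unfold Pi
  refine Prod.ext rfl ?_
  show t • z.2 - (⟪z.1, t • z.2⟫ / ‖z.1‖ ^ 2) • z.1 =
    t • (z.2 - (⟪z.1, z.2⟫ / ‖z.1‖ ^ 2) • z.1)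
  rw [inner_smul_right, smul_sub, smul_smul, mul_div_assoc]

theorem Sc_mem {r t : ℝ} (ht : t ∈ Icc (0 : ℝ) 1) {z : E6} (hz : z ∈ OS r) : Sc t z ∈ OS r := by
  refine ⟨?_, ?_⟩
  · rw [Sc_apply]
    exact hz.1
  · rw [Pi_Sc, Sc_apply]
    show ‖t • (Pi z).2‖ < r
    rw [norm_smul, Real.norm_of_nonneg ht.1]
    exact lt_of_le_of_lt (mul_le_of_le_one_left (norm_nonneg _) ht.2) hz.2

theorem TS_sub {r : ℝ} : TS r ⊆ OS r := by
  rintro z ⟨h1, h2, h3⟩
  refine ⟨fun h => by simp [h] at h1, ?_⟩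
  show ‖z.2 - (⟪z.1, z.2⟫ / ‖z.1‖ ^ 2) • z.1‖ < r
  rw [h2, zero_div, zero_smul, sub_zero]
  exact h3

theorem fderiv_Pi_Sc {z : E6} (hz : z.1 ≠ 0) (t : ℝ) (U : E6) :
    fderiv ℝ Pi (Sc t z) (Sc t U) = Sc t (fderiv ℝ Pi z U) := by
  have hz' : (Sc t z).1 ≠ 0 := by rw [Sc_apply]; exact hz
  have h1 : HasFDerivAt (fun y => Pi (Sc t y)) ((fderiv ℝ Pi (Sc t z)).comp (Sc t)) z :=
    HasFDerivAt.comp z (g := Pi) ((Pi_smooth hz').differentiableAt (by simp)).hasFDerivAt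
      (Sc t).hasFDerivAt
  have h2 : HasFDerivAt (fun y => Sc t (Pi y)) ((Sc t).comp (fderiv ℝ Pi z)) z :=
    (Sc t).hasFDerivAt.comp z ((Pi_smooth hz).differentiableAt (by simp)).hasFDerivAt
  have h3 : (fun y => Pi (Sc t y)) = fun y => Sc t (Pi y) := funext fun y => Pi_Sc t y
  rw [h3] at h1
  have h4 := h1.unique h2
  exact congrArg (fun L : E6 →L[ℝ] E6 => L U) h4

theorem hasDerivAt_Sc (z : E6) (t : ℝ) : HasDerivAt (fun t => Sc t z) (B0 z) t := by
  have h : (fun t => Sc t z) = fun t : ℝ => A0 z + t • B0 z := by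
    funext t
    rfl
  rw [h]
  simpa using ((hasDerivAt_id t).smul_const (B0 z)).const_add (A0 z)

theorem fderiv_Pi_B0 {z : E6} (hz : z.1 ≠ 0) (t : ℝ) :
    fderiv ℝ Pi (Sc t z) (B0 z) = B0 (Pi z) := by
  have hz' : (Sc t z).1 ≠ 0 := by rw [Sc_apply]; exact hz
  have hP : HasFDerivAt Pi (fderiv ℝ Pi (Sc t z)) (Sc t z) :=
    ((Pi_smooth hz').differentiableAt (by simp)).hasFDerivAt
  have h1 : HasDerivAt (fun t => Pi (Sc t z)) (fderiv ℝ Pi (Sc t z) (B0 z)) t :=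
    HasFDerivAt.comp_hasDerivAt t (l := Pi) hP (hasDerivAt_Sc z t)
  have h2 := hasDerivAt_Sc (Pi z) t
  have h3 : (fun t => Pi (Sc t z)) = fun t => Sc t (Pi z) := funext fun t => Pi_Sc t z
  rw [h3] at h1
  exact h1.unique h2

theorem fderiv_Pi_orth {z : E6} (hz : z.1 ≠ 0) (U : E6) :
    ⟪(Pi z).1, (fderiv ℝ Pi z U).1⟫ = 0 := by
  have h0 := ((Pi_smooth hz).differentiableAt (by simp)).hasFDerivAt
  have h1 : HasFDerivAt (fun y => (Pi y).1)
      ((ContinuousLinearMap.fst ℝ E3 E3).comp (fderiv ℝ Pi z)) z :=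
    (ContinuousLinearMap.fst ℝ E3 E3).hasFDerivAt.comp z h0
  have h2 := h1.inner ℝ h1
  have h3 : (fun y : E6 => ⟪(Pi y).1, (Pi y).1⟫) =ᶠ[𝓝 z] fun _ => (1 : ℝ) := by
    filter_upwards [isOpen_ne.mem_nhds hz] with y hy
    rw [real_inner_self_eq_norm_sq, Pi_one hy, one_pow]
  have h4 : HasFDerivAt (fun y : E6 => ⟪(Pi y).1, (Pi y).1⟫) (0 : E6 →L[ℝ] ℝ) z :=
    (hasFDerivAt_const (1 : ℝ) z).congr_of_eventuallyEq h3
  have h5 := congrArg (fun L : E6 →L[ℝ] ℝ => L U) (h2.unique h4)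
  simp only [zero_apply] at h5
  have h6 : ⟪(Pi z).1, (fderiv ℝ Pi z U).1⟫ + ⟪(fderiv ℝ Pi z U).1, (Pi z).1⟫ = 0 := by
    simpa using h5
  have h7 := real_inner_comm (Pi z).1 (fderiv ℝ Pi z U).1
  linarith

/-! ### the primitive -/

/-- the integrand. -/
def HH (W : E6 → B6) (x : ℝ × E6) : E6 →L[ℝ] ℝ := (W (Sc x.1 x.2) (B0 x.2)).comp (Sc x.1)

/-- the primitive. -/
def bt (W : E6 → B6) (z : E6) : E6 →L[ℝ] ℝ := ∫ t in (0 : ℝ)..1, HH W (t, z)


/-- the domain of the integrand. -/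
def Om (r : ℝ) : Set (ℝ × E6) := {x | Sc x.1 x.2 ∈ OS r}

theorem Sc_contDiff : ContDiff ℝ ∞ (fun x : ℝ × E6 => Sc x.1 x.2) := by
  have : (fun x : ℝ × E6 => Sc x.1 x.2) = fun x => A0 x.2 + x.1 • B0 x.2 := rfl
  rw [this]
  fun_prop

theorem Sc_contDiff' : ContDiff ℝ ∞ (fun x : ℝ × E6 => Sc x.1) := by
  unfold Sc
  fun_prop

theorem cSc (z : E6) : Continuous (fun t : ℝ => Sc t z) := by
  have h : (fun t => Sc t z) = fun t : ℝ => A0 z + t • B0 z := by
    funext t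
    rfl
  rw [h]
  fun_prop

theorem isOpen_Om (r : ℝ) : IsOpen (Om r) := (isOpen_OS r).preimage Sc_contDiff.continuous

theorem sub_Om (r : ℝ) : Icc (0 : ℝ) 1 ×ˢ OS r ⊆ Om r := fun _ hx => Sc_mem hx.1 hx.2

variable {r : ℝ} {W : E6 → B6}

theorem HH_smooth (hW : Bas r W) : ContDiffOn ℝ ∞ (HH W) (Om r) := by
  have h1 : ContDiffOn ℝ ∞ (fun x : ℝ × E6 => W (Sc x.1 x.2)) (Om r) :=
    hW.smooth.comp Sc_contDiff.contDiffOn (fun x hx => hx)
  have h2 : ContDiffOn ℝ ∞ (fun x : ℝ × E6 => W (Sc x.1 x.2) (B0 x.2)) (Om r) :=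
    h1.clm_apply (by fun_prop)
  exact h2.clm_comp Sc_contDiff'.contDiffOn

theorem cont_line (hW : Bas r W) {z : E6} (hz : z ∈ OS r) :
    ContinuousOn (fun t : ℝ => HH W (t, z)) (Icc 0 1) :=
  (HH_smooth hW).continuousOn.comp (by fun_prop) (fun _ ht => sub_Om r ⟨ht, hz⟩)

theorem int_line (hW : Bas r W) {z : E6} (hz : z ∈ OS r) :
    IntervalIntegrable (fun t : ℝ => HH W (t, z)) volume 0 1 := by
  refine ContinuousOn.intervalIntegrable ?_
  rw [uIcc_of_le zero_le_one]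
  exact cont_line hW hz

theorem bt_apply (hW : Bas r W) {z : E6} (hz : z ∈ OS r) (V : E6) :
    bt W z V = ∫ t in (0 : ℝ)..1, W (Sc t z) (B0 z) (Sc t V) :=
  ContinuousLinearMap.intervalIntegral_apply (int_line hW hz) V

theorem bt_smooth (hW : Bas r W) : ContDiffOn ℝ ∞ (bt W) (OS r) :=
  pint_smooth (HH_smooth hW) (isOpen_OS r) (sub_Om r)

theorem Bas.bil_alt (hW : Bas r W) {z : E6} (hz : z ∈ OS r) (U V : E6) :
    W z U V = - W z V U := by
  have h := hW.alt z hz (U + V)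
  simp only [map_add, add_apply, hW.alt z hz U, hW.alt z hz V] at h
  linarith

theorem Pi_mem {z : E6} (hz : z ∈ OS r) : Pi z ∈ OS r := by
  have h1 := Pi_one hz.1
  have h0 : (Pi z).1 ≠ 0 := fun h => by simp [h] at h1
  have hn : ‖z.1‖ ≠ 0 := norm_ne_zero_iff.2 hz.1
  refine ⟨h0, ?_⟩
  have h2 : ⟪(Pi z).1, (Pi z).2⟫ = 0 := by
    show ⟪‖z.1‖⁻¹ • z.1, z.2 - (⟪z.1, z.2⟫ / ‖z.1‖ ^ 2) • z.1⟫ = 0
    rw [inner_smul_left, inner_sub_right, inner_smul_right, real_inner_self_eq_norm_sq]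
    field_simp
    simp
  show ‖(Pi z).2 - (⟪(Pi z).1, (Pi z).2⟫ / ‖(Pi z).1‖ ^ 2) • (Pi z).1‖ < r
  rw [h2, zero_div, zero_smul, sub_zero]
  exact hz.2

theorem bt_bas (hW : Bas r W) : Bas1 r (bt W) where
  smooth := bt_smooth hW
  bas z hz U := by
    rw [bt_apply hW hz, bt_apply hW (Pi_mem hz)]
    refine intervalIntegral.integral_congr fun t ht => ?_
    rw [uIcc_of_le zero_le_one] at ht
    show W (Sc t z) (B0 z) (Sc t U) = W (Sc t (Pi z)) (B0 (Pi z)) (Sc t (fderiv ℝ Pi z U))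
    rw [hW.bas _ (Sc_mem ht hz), Pi_Sc, fderiv_Pi_B0 hz.1, fderiv_Pi_Sc hz.1]

/-- the derivative of the integrand. -/
theorem HH_fderiv (hW : Bas r W) {z : E6} (hz : z ∈ OS r) {t : ℝ} (ht : t ∈ Icc (0 : ℝ) 1)
    (U V : E6) : fderiv ℝ (fun z => HH W (t, z)) z U V =
      fderiv ℝ W (Sc t z) (Sc t U) (B0 z) (Sc t V) + W (Sc t z) (B0 U) (Sc t V) := by
  have h0 : HasFDerivAt W (fderiv ℝ W (Sc t z)) (Sc t z) :=
    ((hW.smooth.contDiffAt ((isOpen_OS r).mem_nhds (Sc_mem ht hz))).differentiableAt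
      (by simp)).hasFDerivAt
  have h1 : HasFDerivAt (fun y => W (Sc t y)) ((fderiv ℝ W (Sc t z)).comp (Sc t)) z :=
    HasFDerivAt.comp z h0 (Sc t).hasFDerivAt
  have h2 := (h1.clm_apply B0.hasFDerivAt).clm_comp (hasFDerivAt_const (Sc t) z)
  have h3 : fderiv ℝ (fun z => HH W (t, z)) z = _ := h2.fderiv
  rw [h3]
  simp
  ring

/-- the derivative of `t ↦ S_t^* W`. -/
theorem line_deriv (hW : Bas r W) {z : E6} (hz : z ∈ OS r) {t : ℝ} (ht : t ∈ Icc (0 : ℝ) 1)
    (U V : E6) : HasDerivAt (fun t => W (Sc t z) (Sc t U) (Sc t V))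
      (fderiv ℝ W (Sc t z) (B0 z) (Sc t U) (Sc t V) + W (Sc t z) (B0 U) (Sc t V)
        + W (Sc t z) (Sc t U) (B0 V)) t := by
  have h0 : HasFDerivAt W (fderiv ℝ W (Sc t z)) (Sc t z) :=
    ((hW.smooth.contDiffAt ((isOpen_OS r).mem_nhds (Sc_mem ht hz))).differentiableAt
      (by simp)).hasFDerivAt
  have h1 : HasDerivAt (fun t => W (Sc t z)) (fderiv ℝ W (Sc t z) (B0 z)) t :=
    h0.comp_hasDerivAt t (hasDerivAt_Sc z t)
  have h2 := (h1.clm_apply (hasDerivAt_Sc U t)).clm_apply (hasDerivAt_Sc V t)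
  refine h2.congr_deriv ?_
  simp only [add_apply]

theorem bt_d1 (hW : Bas r W)
    (h0 : ∀ q u v : E3, ‖q‖ = 1 → ⟪q, u⟫ = 0 → ⟪q, v⟫ = 0 → W (q, 0) (u, 0) (v, 0) = 0)
    {z : E6} (hz : z ∈ OS r) : d1 (bt W) z = W z := by
  refine ContinuousLinearMap.ext fun U => ContinuousLinearMap.ext fun V => ?_
  rw [d1_apply]
  have hI : ∀ U V : E6, fderiv ℝ (bt W) z U V = ∫ t in (0 : ℝ)..1,
      (fderiv ℝ W (Sc t z) (Sc t U) (B0 z) (Sc t V) + W (Sc t z) (B0 U) (Sc t V)) := by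
    intro U V
    have hd : HasFDerivAt (bt W) (fderiv ℝ (bt W) z) z :=
      (((bt_smooth hW).contDiffAt ((isOpen_OS r).mem_nhds hz)).differentiableAt
        (by simp)).hasFDerivAt
    have e1 : fderiv ℝ (bt W) z U V = fderiv ℝ (fun z => bt W z V) z U := by
      have := (hd.clm_apply (hasFDerivAt_const V z)).fderiv
      have e' : fderiv ℝ (fun z => bt W z V) z = _ := this
      rw [e']
      simp
    have sV : ContDiffOn ℝ ∞ (fun x : ℝ × E6 => HH W x V) (Om r) :=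
      (HH_smooth hW).clm_apply contDiffOn_const
    have e2 : fderiv ℝ (fun z => bt W z V) z =
        fderiv ℝ (fun z => ∫ t in (0 : ℝ)..1, HH W (t, z) V) z := by
      refine Filter.EventuallyEq.fderiv_eq ?_
      filter_upwards [(isOpen_OS r).mem_nhds hz] with y hy
      exact bt_apply hW hy V
    rw [e1, e2, pint_fderiv (isOpen_Om r) sV (isOpen_OS r) (sub_Om r) hz]
    refine intervalIntegral.integral_congr fun t ht => ?_
    rw [uIcc_of_le zero_le_one] at ht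
    show fderiv ℝ (fun z => HH W (t, z) V) z U = _
    rw [← HH_fderiv hW hz ht]
    have hm : (t, z) ∈ Om r := sub_Om r ⟨ht, hz⟩
    have h5 := (((HH_smooth hW).contDiffAt ((isOpen_Om r).mem_nhds hm)).differentiableAt
      (by simp)).hasFDerivAt
    have h6 : HasFDerivAt (fun q : E6 => ((t, q) : ℝ × E6)) (ContinuousLinearMap.inr ℝ ℝ E6) z :=
      (hasFDerivAt_const t z).prodMk (hasFDerivAt_id z)
    have h7 : DifferentiableAt ℝ (fun z => HH W (t, z)) z :=
      (HasFDerivAt.comp z (g := HH W) h5 h6).differentiableAt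
    have h8 := (h7.hasFDerivAt.clm_apply (hasFDerivAt_const V z)).fderiv
    have h9 : fderiv ℝ (fun z => HH W (t, z) V) z = _ := h8
    rw [h9]
    simp
  rw [hI, hI]
  have cW : ContinuousOn (fun t : ℝ => W (Sc t z)) (Icc 0 1) :=
    ContinuousOn.comp (g := W) hW.smooth.continuousOn (cSc z).continuousOn
      (fun t ht => Sc_mem ht hz)
  have cD : ContinuousOn (fun t : ℝ => fderiv ℝ W (Sc t z)) (Icc 0 1) :=
    ContinuousOn.comp (g := fderiv ℝ W)
      (hW.smooth.continuousOn_fderiv_of_isOpen (isOpen_OS r) (by simp))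
      (cSc z).continuousOn (fun t ht => Sc_mem ht hz)
  have cS : ∀ U : E6, ContinuousOn (fun t : ℝ => Sc t U) (Icc 0 1) := fun U =>
    (cSc U).continuousOn
  have hint : ∀ U V : E6, IntervalIntegrable (fun t : ℝ =>
      fderiv ℝ W (Sc t z) (Sc t U) (B0 z) (Sc t V) + W (Sc t z) (B0 U) (Sc t V)) volume 0 1 := by
    intro U V
    refine ContinuousOn.intervalIntegrable ?_
    rw [uIcc_of_le zero_le_one]
    exact (((cD.clm_apply (cS U)).clm_apply continuousOn_const).clm_apply (cS V)).add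
      ((cW.clm_apply continuousOn_const).clm_apply (cS V))
  rw [← intervalIntegral.integral_sub (hint U V) (hint V U)]
  have hL : ∀ t ∈ uIcc (0 : ℝ) 1, HasDerivAt (fun t => W (Sc t z) (Sc t U) (Sc t V))
      (fderiv ℝ W (Sc t z) (Sc t U) (B0 z) (Sc t V) + W (Sc t z) (B0 U) (Sc t V) -
        (fderiv ℝ W (Sc t z) (Sc t V) (B0 z) (Sc t U) + W (Sc t z) (B0 V) (Sc t U))) t := by
    intro t ht
    rw [uIcc_of_le zero_le_one] at ht
    refine (line_deriv hW hz ht U V).congr_deriv ?_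
    have h1 := hW.closed _ (Sc_mem ht hz) (B0 z) (Sc t U) (Sc t V)
    unfold dd at h1
    have h2 := Bas.bil_alt hW (Sc_mem ht hz) (Sc t U) (B0 V)
    -- the derivative of the alternating form is alternating
    have h3 : fderiv ℝ W (Sc t z) (Sc t V) (B0 z) (Sc t U) =
        - fderiv ℝ W (Sc t z) (Sc t V) (Sc t U) (B0 z) := by
      have hd : HasFDerivAt W (fderiv ℝ W (Sc t z)) (Sc t z) :=
        ((hW.smooth.contDiffAt ((isOpen_OS r).mem_nhds (Sc_mem ht hz))).differentiableAt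
          (by simp)).hasFDerivAt
      have e1 := (hd.clm_apply (hasFDerivAt_const (B0 z) (Sc t z))).clm_apply
        (hasFDerivAt_const (Sc t U) (Sc t z))
      have e2 := (hd.clm_apply (hasFDerivAt_const (Sc t U) (Sc t z))).clm_apply
        (hasFDerivAt_const (B0 z) (Sc t z))
      have e3 := e1.add e2
      have e4 : (fun y => W y (B0 z) (Sc t U) + W y (Sc t U) (B0 z)) =ᶠ[𝓝 (Sc t z)]
          fun _ => (0 : ℝ) := by
        filter_upwards [(isOpen_OS r).mem_nhds (Sc_mem ht hz)] with y hy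
        rw [Bas.bil_alt hW hy (B0 z) (Sc t U)]
        ring
      have e5 : HasFDerivAt (fun y => W y (B0 z) (Sc t U) + W y (Sc t U) (B0 z))
          (0 : E6 →L[ℝ] ℝ) (Sc t z) :=
        (hasFDerivAt_const (0 : ℝ) (Sc t z)).congr_of_eventuallyEq e4
      have e6 := congrArg (fun L : E6 →L[ℝ] ℝ => L (Sc t V)) (e3.unique e5)
      have e7 : fderiv ℝ W (Sc t z) (Sc t V) (B0 z) (Sc t U) +
          fderiv ℝ W (Sc t z) (Sc t V) (Sc t U) (B0 z) = 0 := by
        simpa using e6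
      linarith
    rw [h2]
    linarith
  have hc : ContinuousOn (fun t : ℝ => fderiv ℝ W (Sc t z) (Sc t U) (B0 z) (Sc t V) +
      W (Sc t z) (B0 U) (Sc t V) - (fderiv ℝ W (Sc t z) (Sc t V) (B0 z) (Sc t U) +
        W (Sc t z) (B0 V) (Sc t U))) (uIcc 0 1) := by
    rw [uIcc_of_le zero_le_one]
    exact ((((cD.clm_apply (cS U)).clm_apply continuousOn_const).clm_apply (cS V)).add
      ((cW.clm_apply continuousOn_const).clm_apply (cS V))).sub
      ((((cD.clm_apply (cS V)).clm_apply continuousOn_const).clm_apply (cS U)).add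
      ((cW.clm_apply continuousOn_const).clm_apply (cS U)))
  rw [intervalIntegral.integral_eq_sub_of_hasDerivAt hL hc.intervalIntegrable, Sc_one, Sc_one,
    Sc_one]
  have h00 : W (Sc 0 z) (Sc 0 U) (Sc 0 V) = 0 := by
    have h01 : (0 : ℝ) ∈ Icc (0 : ℝ) 1 := ⟨le_rfl, zero_le_one⟩
    rw [hW.bas _ (Sc_mem h01 hz), Pi_Sc, fderiv_Pi_Sc hz.1, fderiv_Pi_Sc hz.1]
    simp only [Sc_apply, zero_smul]
    exact h0 _ _ _ (Pi_one hz.1) (fderiv_Pi_orth hz.1 U) (fderiv_Pi_orth hz.1 V)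
  rw [h00, sub_zero]

/-! ### the bounds -/

/-- the closed disc bundle. -/
def KS (r' : ℝ) : Set E6 := {z | ‖z.1‖ = 1 ∧ ⟪z.1, z.2⟫ = 0 ∧ ‖z.2‖ ≤ r'}

theorem isCompact_KS (r' : ℝ) : IsCompact (KS r') := by
  refine Metric.isCompact_of_isClosed_isBounded ?_ ?_
  · have h1 : IsClosed {z : E6 | ‖z.1‖ = 1} := isClosed_eq (by fun_prop) continuous_const
    have h2 : IsClosed {z : E6 | ⟪z.1, z.2⟫ = 0} := isClosed_eq (by fun_prop) continuous_const
    have h3 : IsClosed {z : E6 | ‖z.2‖ ≤ r'} := isClosed_le (by fun_prop) continuous_const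
    exact h1.inter (h2.inter h3)
  · refine (Metric.isBounded_iff_subset_closedBall 0).2 ⟨max 1 r', ?_⟩
    rintro z ⟨h1, _, h3⟩
    rw [mem_closedBall_zero_iff, Prod.norm_def]
    exact max_le_max h1.le h3

theorem KS_sub {r' : ℝ} (h : r' < r) : KS r' ⊆ OS r := fun _ hz =>
  TS_sub ⟨hz.1, hz.2.1, lt_of_le_of_lt hz.2.2 h⟩

theorem Sc_KS {r' : ℝ} {t : ℝ} (ht : t ∈ Icc (0 : ℝ) 1) {z : E6} (hz : z ∈ KS r') :
    Sc t z ∈ KS r' := by
  rw [Sc_apply]
  refine ⟨hz.1, ?_, ?_⟩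
  · show ⟪z.1, t • z.2⟫ = 0
    rw [inner_smul_right, hz.2.1, mul_zero]
  · show ‖t • z.2‖ ≤ r'
    rw [norm_smul, Real.norm_of_nonneg ht.1]
    exact (mul_le_of_le_one_left (norm_nonneg _) ht.2).trans hz.2.2

theorem norm_B0 (z : E6) : ‖B0 z‖ = ‖z.2‖ := by
  rw [B0_apply, Prod.norm_def]
  simp

theorem norm_Sc {t : ℝ} (ht : t ∈ Icc (0 : ℝ) 1) (V : E6) : ‖Sc t V‖ ≤ ‖V‖ := by
  rw [Sc_apply, Prod.norm_def, Prod.norm_def]
  refine max_le_max le_rfl ?_
  show ‖t • V.2‖ ≤ ‖V.2‖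
  rw [norm_smul, Real.norm_of_nonneg ht.1]
  exact mul_le_of_le_one_left (norm_nonneg _) ht.2

theorem bt_bound (hW : Bas r W) {z : E6} (hz : z ∈ OS r) {C : ℝ} (hC0 : 0 ≤ C)
    (hC : ∀ t ∈ Icc (0 : ℝ) 1, ‖W (Sc t z)‖ ≤ C) : ‖bt W z‖ ≤ C * ‖z.2‖ := by
  refine ContinuousLinearMap.opNorm_le_bound _ (by positivity) fun V => ?_
  rw [bt_apply hW hz]
  have h1 : ∀ t ∈ Ι (0 : ℝ) 1, ‖W (Sc t z) (B0 z) (Sc t V)‖ ≤ C * ‖z.2‖ * ‖V‖ := by
    intro t ht
    rw [uIoc_of_le zero_le_one] at ht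
    have ht' : t ∈ Icc (0 : ℝ) 1 := ⟨ht.1.le, ht.2⟩
    calc ‖W (Sc t z) (B0 z) (Sc t V)‖ ≤ ‖W (Sc t z) (B0 z)‖ * ‖Sc t V‖ :=
          ContinuousLinearMap.le_opNorm _ _
      _ ≤ (‖W (Sc t z)‖ * ‖B0 z‖) * ‖Sc t V‖ :=
          mul_le_mul_of_nonneg_right (ContinuousLinearMap.le_opNorm _ _) (norm_nonneg _)
      _ ≤ (C * ‖z.2‖) * ‖V‖ := by
          rw [norm_B0]
          exact mul_le_mul (mul_le_mul_of_nonneg_right (hC t ht') (norm_nonneg _))
            (norm_Sc ht' V) (norm_nonneg _) (by positivity)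
  have h2 := intervalIntegral.norm_integral_le_of_norm_le_const h1
  simpa using h2

/-- LEAF RPRIM. -/
theorem rprim : RPRIM := by
  intro r W _ hW h0
  refine ⟨bt W, bt_bas hW, fun z hz => bt_d1 hW h0 hz, ?_, ?_⟩
  · intro r' hr'
    obtain ⟨C, hC⟩ := (isCompact_KS r').exists_bound_of_continuousOn
      (hW.smooth.continuousOn.mono (KS_sub hr'))
    refine ⟨max C 0, fun z hz => ?_⟩
    have hz' : z ∈ KS r' := ⟨hz.1, hz.2.1, hz.2.2.le⟩
    exact bt_bound hW (KS_sub hr' hz') (le_max_right _ _) fun t ht =>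
      (hC _ (Sc_KS ht hz')).trans (le_max_left _ _)
  · intro hq r' hr'
    obtain ⟨C, hC⟩ := (isCompact_KS r').exists_bound_of_continuousOn
      ((hW.smooth.continuousOn_fderiv_of_isOpen (isOpen_OS r) (by simp)).mono (KS_sub hr'))
    refine ⟨max C 0, fun z hz => ?_⟩
    have hz' : z ∈ KS r' := ⟨hz.1, hz.2.1, hz.2.2.le⟩
    have hzO := KS_sub hr' hz'
    have key : ∀ t ∈ Icc (0 : ℝ) 1, ‖W (Sc t z)‖ ≤ max C 0 * ‖z.2‖ := by
      intro t ht
      have h1 : ∀ s ∈ Icc (0 : ℝ) 1, HasDerivWithinAt (fun s => W (Sc s z))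
          (fderiv ℝ W (Sc s z) (B0 z)) (Icc 0 1) s := by
        intro s hs
        have h2 : HasFDerivAt W (fderiv ℝ W (Sc s z)) (Sc s z) :=
          ((hW.smooth.contDiffAt ((isOpen_OS r).mem_nhds (Sc_mem hs hzO))).differentiableAt
            (by simp)).hasFDerivAt
        exact (h2.comp_hasDerivAt s (hasDerivAt_Sc z s)).hasDerivWithinAt
      have h3 : ∀ s ∈ Icc (0 : ℝ) 1, ‖fderiv ℝ W (Sc s z) (B0 z)‖ ≤ max C 0 * ‖z.2‖ := by
        intro s hs
        refine (ContinuousLinearMap.le_opNorm _ _).trans ?_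
        rw [norm_B0]
        exact mul_le_mul_of_nonneg_right ((hC _ (Sc_KS hs hz')).trans (le_max_left _ _))
          (norm_nonneg _)
      have h4 := (convex_Icc (0 : ℝ) 1).norm_image_sub_le_of_norm_hasDerivWithin_le h1 h3
        (⟨le_rfl, zero_le_one⟩ : (0 : ℝ) ∈ Icc (0 : ℝ) 1) ht
      have h5 : W (Sc 0 z) = 0 := by
        rw [Sc_apply, zero_smul]
        exact hq z.1 hz.1
      rw [h5, sub_zero, sub_zero, Real.norm_of_nonneg ht.1] at h4
      refine h4.trans ?_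
      exact mul_le_of_le_one_right (by positivity) ht.2
    have h6 := bt_bound hW hzO (by positivity) key
    calc ‖bt W z‖ ≤ max C 0 * ‖z.2‖ * ‖z.2‖ := h6
      _ = max C 0 * ‖z.2‖ ^ 2 := by ring

end

end Crest.Agent.R235.K12Rprim_82
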