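import Crest.Agent.R235.K12Tuba_930_Mg
import Crest.Agent.R235.KumDefs2_152
import Crest.Agent.R235.K12Geo_128
import Crest.Agent.R235.K12Radf_843
import Crest.Agent.R235.K12StdA_235
import Crest.Agent.R235.K12Cut_895_Mg
import Crest.Agent.R235.K12Rprim_82_Mg
import Crest.Agent.R235.Spray_417
import Crest.Agent.R235.TorLTa_348

-- ▼ part R235/K12Fin_417
section

/-!
Row 235 (S0364), block K12 (helper417): final assembly, node `K12T` of `KumDefs2_152`
(`stdl` of helper235 with the tubes).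
-/

set_option autoImplicit false
set_option maxSynthPendingDepth 3

open Set Function Filter MeasureTheory
open scoped Manifold ContDiff Topology RealInnerProductSpace

universe u

namespace Crest.Agent.R235.K12_417

open Crest.Agent.R240 Crest.Agent.R240.Ch Crest.Agent.R235 Crest.Agent.R235.K12An_776
  Crest.Agent.R235.K12Std_235

noncomputable section

/-- `K12T` from the one-sphere theorem. -/
theorem k12t_of (hL : FGL) (hone : ∀ (M : Type u) [TopologicalSpace M] [T2Space M] [CompactSpace M]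
    [ChartedSpace E4 M] [IsManifold 𝓘(ℝ, E4) ∞ M], ONE M) : K12T.{u} := by
  intro M _ _ _ _ _ _ w hw m σ hemb hl1 hl2 hpos hdis
  have hR : RADF := K12Radf_843.radf
  have hF : PHI := K12Phi_291.phi
  obtain ⟨O, hO, hsub, hdisj⟩ := sep_opens (fun i => isCompact_im (hemb i)) hdis
  obtain ⟨w', hPL, hw', -, hout⟩ := induct (hone M) hw hemb hl1 hl2 hpos hO hsub hdisj m le_rfl
  have hout' := fun i : Fin m => hout i i.2
  choose r Ps G U ρ s g c K t₀ t₁ h using hout'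
  obtain ⟨S, hS, hsgn⟩ := sign_eq hw'
  have hst := fun i => lstd_of hF hL hR (h i)
  have hs : ∀ i, -(s i) = S := fun i => hsgn _ _ _ _ _ _ _ (hst i)
  have hUO : ∀ i, U i ⊆ O i := fun i => (h i).sub
  refine ⟨w', fun i => nk (Ps i) (ρ i), S, fun i => 4 * ρ i, fun i => Real.sqrt (t₁ i / ρ i),
    fun i t => g i (ρ i * t) / ρ i, hPL, hw', ?_, fun i =>
      ⟨r i, ρ i, Ps i, G i, U i, (h i).tube, (h i).ρ_pos, (h i).ρ_lt, fun z _ => rfl⟩⟩
  exact
    { smooth := fun i => (hst i).smooth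
      even := fun i => (hst i).even
      inj := fun i => (hst i).inj
      imm := fun i => (hst i).imm
      out := by
        intro i j z hz hz'
        by_cases hij : i = j
        · subst hij
          exact (hst i).out z hz hz'
        · exact (Set.disjoint_left.1 (hdisj i j hij)) (hUO i ((hst i).mapsU z hz)) (hsub j hz')
      sep := by
        intro i j hij z hz z' hz' he
        exact (Set.disjoint_left.1 (hdisj i j hij)) (hUO i ((hst i).mapsU z hz))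
          (by rw [he]; exact hUO j ((hst j).mapsU z' hz'))
      nbh := fun i => (hst i).nbh
      shrink := fun i => (hst i).shrink
      sgn := hS
      R_pos := fun i => (hst i).R_pos
      r_pos := fun i => (hst i).r_pos
      w1 := fun i => (hst i).w1
      w2 := fun i z hz u v => by rw [(hst i).w2 z hz u v, hs i]
      w0 := fun i => (hst i).w0
      g_smooth := fun i => (hst i).g_smooth
      g_pos := fun i => (hst i).g_pos
      g_flat := fun i => (hst i).g_flat }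

end

end Crest.Agent.R235.K12_417
end

-- ▼ part R235/K12OneA_776
section

/-!
Row 235 (S0364), block K12 (helper776): `ONE` and `K12T` from the two leaves `FGL` and `TUBE`.
-/

set_option autoImplicit false
set_option maxSynthPendingDepth 3

open scoped Manifold ContDiff

universe u

namespace Crest.Agent.R235.K12OneA_776

open Crest.Agent.R240 Crest.Agent.R240.Ch Crest.Agent.R235 Crest.Agent.R235.K12_417
  Crest.Agent.R235.K12An_776

theorem one_of (M : Type u) [TopologicalSpace M] [T2Space M] [CompactSpace M]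
    [ChartedSpace E4 M] [IsManifold 𝓘(ℝ, E4) ∞ M] (hF : FGL) (hTu : TUBE M) : ONE M :=
  K12One_776.one K12Geo_128.geo hF K12Radf_843.radf K12Lip_895.bump
    (K12Lip_895.lip K12Geo_128.geo) (K12Pf_776.pfiff M)
    (K12Zero_692.zero K12Geo_128.geo (K12Pf_776.pfiff M) K12Radf_843.radf) K12_417.algi
    K12_417.algq K12Cut_895.cut K12Cut_895.flat K12S2_423.s2prim K12Rprim_82.rprim
    (K12Ext_168.ext M) (K12Pf_776.ext2 M) hTu

theorem k12t_of (hF : FGL) (hTu : ∀ (M : Type u) [TopologicalSpace M] [T2Space M]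
    [CompactSpace M] [ChartedSpace E4 M] [IsManifold 𝓘(ℝ, E4) ∞ M], TUBE M) : K12T.{u} :=
  K12_417.k12t_of hF fun M _ _ _ _ _ => one_of M hF (hTu M)

end Crest.Agent.R235.K12OneA_776
end

-- ▼ part R235/K12NuB_417

/-!
Row 235 (S0364), block K12 (helper417): the map `Psi (q,p) = exp_{σ q} ν(q,p)`, its smoothness and
its one-jet; theorem `nux : NUX M`, `tube : TUBE M`.
-/

set_option autoImplicit false
set_option maxSynthPendingDepth 3

open Set Function Filter MeasureTheory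
open scoped Manifold ContDiff Topology RealInnerProductSpace

universe u

namespace Crest.Agent.R235.K12_417

open Crest.Agent.R240 Crest.Agent.R240.Ch Crest.Agent.R235 Crest.Agent.R235.Exj_900
  Crest.Agent.R235.Spray_417

noncomputable section

/-! ### smoothness of the algebraic expression -/

theorem contDiff_cr : ContDiff ℝ ∞ (fun z : E6 => cr z.1 z.2) := by
  have h1 : ∀ i, ContDiff ℝ ∞ (fun z : E6 => z.1 i) := fun i =>
    ((EuclideanSpace.proj i : E3 →L[ℝ] ℝ).comp (ContinuousLinearMap.fst ℝ E3 E3)).contDiff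
  have h2 : ∀ i, ContDiff ℝ ∞ (fun z : E6 => z.2 i) := fun i =>
    ((EuclideanSpace.proj i : E3 →L[ℝ] ℝ).comp (ContinuousLinearMap.snd ℝ E3 E3)).contDiff
  rw [contDiff_euclidean]
  intro i
  fin_cases i
  · exact ((h1 1).mul (h2 2)).sub ((h1 2).mul (h2 1))
  · exact ((h1 2).mul (h2 0)).sub ((h1 0).mul (h2 2))
  · exact ((h1 0).mul (h2 1)).sub ((h1 1).mul (h2 0))

section Sm

variable {f a : E6 → Bil} {J : E6 → E4 →L[ℝ] E4} {T : E6 → E3 →L[ℝ] E4} {z0 : E6}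

theorem cda_ent {a : E6 → Bil} {y : E6} (h : ContDiffAt ℝ ∞ a y) (i j : Fin 4) :
    ContDiffAt ℝ ∞ (fun z => ent (a z) i j) y :=
  (h.clm_apply contDiffAt_const).clm_apply contDiffAt_const

theorem cda_W {a b : E6 → Bil} {y : E6} (ha : ContDiffAt ℝ ∞ a y)
    (hb : ContDiffAt ℝ ∞ b y) : ContDiffAt ℝ ∞ (fun z => W (a z) (b z)) y := by
  unfold W
  have h := fun i j => cda_ent ha i j
  have h' := fun i j => cda_ent hb i j
  exact (((((((h 0 1).mul (h' 2 3)).sub ((h 0 2).mul (h' 1 3))).add ((h 0 3).mul (h' 1 2))).add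
    ((h 1 2).mul (h' 0 3))).sub ((h 1 3).mul (h' 0 2))).add ((h 2 3).mul (h' 0 1)))

theorem cda_dn (hf : ContDiffAt ℝ ∞ f z0) (hT : ContDiffAt ℝ ∞ T z0) :
    ContDiffAt ℝ ∞ (fun z => dn (f z) (T z) z.1) z0 := by
  have h1 : ∀ i, ContDiffAt ℝ ∞ (fun z : E6 => z.1 i) z0 := fun i =>
    ((EuclideanSpace.proj i : E3 →L[ℝ] ℝ).comp (ContinuousLinearMap.fst ℝ E3 E3)).contDiff.contDiffAt
  have h2 : ∀ i j, ContDiffAt ℝ ∞ (fun z => f z (T z (bs i)) (T z (bs j))) z0 := fun i j =>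
    (hf.clm_apply (hT.clm_apply contDiffAt_const)).clm_apply (hT.clm_apply contDiffAt_const)
  exact (((h1 0).mul (h2 1 2)).add ((h1 1).mul (h2 2 0))).add ((h1 2).mul (h2 0 1))

theorem cda_KJ (hf : ContDiffAt ℝ ∞ f z0) (ha : ContDiffAt ℝ ∞ a z0) (hJ : ContDiffAt ℝ ∞ J z0)
    {u : E6 → E4} (hu : ContDiffAt ℝ ∞ u z0) (h0 : W (a z0) (a z0) ≠ 0) :
    ContDiffAt ℝ ∞ (fun z => KJ (f z) (a z) (J z) (u z)) z0 := by
  have h := fun i j => cda_ent ha i j
  have h' : ∀ j, ContDiffAt ℝ ∞ (fun z => FJ (f z) (J z) (u z) (ee j)) z0 := by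
    intro j
    simp only [FJ_apply]
    refine ContDiffAt.div_const ?_ 2
    exact ((hf.clm_apply hu).clm_apply contDiffAt_const).add
      ((hf.clm_apply (hJ.clm_apply hu)).clm_apply (hJ.clm_apply contDiffAt_const))
  simp only [KJ, ainv, Kop]
  refine ContDiffAt.smul (contDiffAt_const.div (cda_W ha ha) h0) ?_
  have k0 : ContDiffAt ℝ ∞ (fun z => (ent (a z) 2 3 * FJ (f z) (J z) (u z) (ee 1) -
      ent (a z) 1 3 * FJ (f z) (J z) (u z) (ee 2) +
      ent (a z) 1 2 * FJ (f z) (J z) (u z) (ee 3)) • ee 0) z0 :=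
    ((((h 2 3).mul (h' 1)).sub ((h 1 3).mul (h' 2))).add ((h 1 2).mul (h' 3))).smul
      contDiffAt_const
  have k1 : ContDiffAt ℝ ∞ (fun z => (- ent (a z) 2 3 * FJ (f z) (J z) (u z) (ee 0) +
      ent (a z) 0 3 * FJ (f z) (J z) (u z) (ee 2) -
      ent (a z) 0 2 * FJ (f z) (J z) (u z) (ee 3)) • ee 1) z0 :=
    ((((h 2 3).neg.mul (h' 0)).add ((h 0 3).mul (h' 2))).sub ((h 0 2).mul (h' 3))).smul
      contDiffAt_const
  have k2 : ContDiffAt ℝ ∞ (fun z => (ent (a z) 1 3 * FJ (f z) (J z) (u z) (ee 0) -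
      ent (a z) 0 3 * FJ (f z) (J z) (u z) (ee 1) +
      ent (a z) 0 1 * FJ (f z) (J z) (u z) (ee 3)) • ee 2) z0 :=
    ((((h 1 3).mul (h' 0)).sub ((h 0 3).mul (h' 1))).add ((h 0 1).mul (h' 3))).smul
      contDiffAt_const
  have k3 : ContDiffAt ℝ ∞ (fun z => (- ent (a z) 1 2 * FJ (f z) (J z) (u z) (ee 0) +
      ent (a z) 0 2 * FJ (f z) (J z) (u z) (ee 1) -
      ent (a z) 0 1 * FJ (f z) (J z) (u z) (ee 2)) • ee 3) z0 :=
    ((((h 1 2).neg.mul (h' 0)).add ((h 0 2).mul (h' 1))).sub ((h 0 1).mul (h' 2))).smul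
      contDiffAt_const
  exact ((k0.add k1).add k2).add k3

theorem cda_nu (hf : ContDiffAt ℝ ∞ f z0) (ha : ContDiffAt ℝ ∞ a z0) (hJ : ContDiffAt ℝ ∞ J z0)
    (hT : ContDiffAt ℝ ∞ T z0) (h0 : W (a z0) (a z0) ≠ 0) (hd : dn (f z0) (T z0) z0.1 ≠ 0) :
    ContDiffAt ℝ ∞ (fun z => nu (f z) (a z) (J z) (T z) z.1 z.2) z0 := by
  unfold nu
  exact ((cda_dn hf hT).inv hd).neg.smul
    (cda_KJ hf ha hJ (hT.clm_apply contDiff_cr.contDiffAt) h0)

end Sm

theorem KJ_zero (f a : Bil) (J : E4 →L[ℝ] E4) : KJ f a J 0 = 0 := by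
  have h1 : FJ f J 0 = 0 := by
    ext v; simp [FJ_apply]
  have h2 : Kop a 0 = 0 := by simp [Kop]
  rw [KJ, h1, ainv, h2, smul_zero]

theorem nu_zero' (f a : Bil) (J : E4 →L[ℝ] E4) (T : E3 →L[ℝ] E4) (q : E3) :
    nu f a J T q 0 = 0 := by
  have h3 : cr q 0 = 0 := by refine e3ext ?_ ?_ ?_ <;> simp [cr0, cr1, cr2]
  rw [nu, h3, map_zero, KJ_zero, smul_zero]

section Man

variable {M : Type u} [TopologicalSpace M] [ChartedSpace E4 M] [IsManifold 𝓘(ℝ, E4) ∞ M]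

/-- the differential of `σ` in the chart at `p`. -/
def Tp (p : M) (σ : E3 → M) (q : E3) : E3 →L[ℝ] E4 := fderiv ℝ (fun z => chartAt E4 p (σ z)) q

/-- `ν` in the preferred chart at `σ q`. -/
def nuM (w : Trip M) (J : EndF E4 M) (σ : E3 → M) (z : E6) : E4 :=
  nu (val (w 0) (σ z.1)) (val (w 1) (σ z.1)) (atJ J (σ z.1)) (Tp (σ z.1) σ z.1) z.1 z.2

/-- `ν` in the chart at `p`. -/
def nuP (w : Trip M) (J : EndF E4 M) (σ : E3 → M) (p : M) (z : E6) : E4 :=
  nu (rep p ((w 0).1.1 : F2 E4 M) (chartAt E4 p (σ z.1)))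
    (rep p ((w 1).1.1 : F2 E4 M) (chartAt E4 p (σ z.1)))
    (repJ p J (chartAt E4 p (σ z.1))) (Tp p σ z.1) z.1 z.2

/-- the data. -/
structure Dat (w : Trip M) (J : EndF E4 M) (σ : E3 → M) : Prop where
  hw : Pos3 w
  hJ : IsJ w J
  hσ : EmbS σ
  h1 : ∀ y u v : E3, ‖y‖ = 1 → val (w 1) (σ y) (dmap σ y u) (dmap σ y v) = 0
  h2 : ∀ y u v : E3, ‖y‖ = 1 → val (w 2) (σ y) (dmap σ y u) (dmap σ y v) = 0

variable {w : Trip M} {J : EndF E4 M} {σ : E3 → M}

theorem sm_σ (h : EmbS σ) {q : E3} (hq : q ≠ 0) : ContMDiffAt 𝓘(ℝ, E3) 𝓘(ℝ, E4) ∞ σ q :=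
  h.smooth.contMDiffAt (isOpen_compl_singleton.mem_nhds hq)

theorem ne_of_norm {q : E3} (hq : ‖q‖ = 1) : q ≠ 0 := by
  intro h; rw [h, norm_zero] at hq; exact zero_ne_one hq

theorem dmap_self (h : EmbS σ) {q : E3} (hq : q ≠ 0) : dmap σ q q = 0 := by
  have h1 : DifferentiableAt ℝ (fun z : E3 => chartAt E4 (σ q) (σ z)) q :=
    (TorLTa_348.cr_contDiffAt (sm_σ h hq) (mem_chart_source E4 _)).differentiableAt (by simp)
  have h2 : HasDerivAt (fun t : ℝ => q + t • q) q 0 := by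
    simpa using ((hasDerivAt_id (0 : ℝ)).smul_const q).const_add q
  have h3 : HasFDerivAt (fun z : E3 => chartAt E4 (σ q) (σ z)) (fderiv ℝ
      (fun z : E3 => chartAt E4 (σ q) (σ z)) q) (q + (0 : ℝ) • q) := by
    rw [zero_smul, add_zero]; exact h1.hasFDerivAt
  have h4 : HasDerivAt (fun t : ℝ => chartAt E4 (σ q) (σ (q + t • q))) (dmap σ q q) 0 :=
    HasFDerivAt.comp_hasDerivAt (0 : ℝ) (l := fun z : E3 => chartAt E4 (σ q) (σ z)) h3 h2
  have h5 : (fun t : ℝ => chartAt E4 (σ q) (σ (q + t • q))) =ᶠ[𝓝 0]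
      fun _ => chartAt E4 (σ q) (σ q) := by
    have h6 : ∀ᶠ t : ℝ in 𝓝 0, 0 < 1 + t := by
      have : ContinuousAt (fun t : ℝ => 1 + t) 0 := by fun_prop
      exact this.eventually (lt_mem_nhds (by norm_num))
    filter_upwards [h6] with t ht
    have h7 : q + t • q = (1 + t) • q := by module
    rw [h7, h.hom _ _ ht hq]
  exact h4.unique ((hasDerivAt_const (0 : ℝ) _).congr_of_eventuallyEq h5)

theorem Dat.pt (h : Dat w J σ) {q : E3} (hq : ‖q‖ = 1) :
    Pt (val (w 0) (σ q)) (val (w 1) (σ q)) (val (w 2) (σ q)) (atJ J (σ q)) (Tp (σ q) σ q) q where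
  hf := fun v => (w 0).1.2.1 _ v
  ha := fun v => (w 1).1.2.1 _ v
  hb := fun v => (w 2).1.2.1 _ v
  P := P3_of_Pos3 h.hw _
  J := (isJ_iff h.hw).1 h.hJ _
  hq := hq
  Tq := dmap_self h.hσ (ne_of_norm hq)
  Ti := fun u hu => h.hσ.imm q u hq hu
  la := fun u v => h.h1 q u v hq
  lb := fun u v => h.h2 q u v hq

theorem tcc_nuP (h : Dat w J σ) {p : M} {z : E6} (hz : ‖z.1‖ = 1)
    (hp : σ z.1 ∈ (chartAt E4 p).source) :
    tcc p (σ z.1) (σ z.1) (nuP w J σ p z) = nuM w J σ z := by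
  have hP := h.pt hz
  have hli := (chartAt E4 p).left_inv hp
  have hy := (chartAt E4 p).map_source hp
  have hP' : P3 (rep p ((w 0).1.1 : F2 E4 M) (chartAt E4 p (σ z.1)))
      (rep p ((w 1).1.1 : F2 E4 M) (chartAt E4 p (σ z.1)))
      (rep p ((w 2).1.1 : F2 E4 M) (chartAt E4 p (σ z.1))) :=
    P3_rep (fun x v => (w 0).1.2.1 x v) (fun x v => (w 1).1.2.1 x v)
      (fun x v => (w 2).1.2.1 x v) (fun x => P3_of_Pos3 h.hw x) hy
  refine nu_pull (fun v => ⟨tcc (σ z.1) p (σ z.1) v, tcc_cancel' hp v⟩) hP.ha hP.P.ne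
    (alt_rep (fun x v => (w 1).1.2.1 x v) p _) hP'.ne (fun u v => ?_) (fun u v => ?_) (fun u => ?_)
    (fun u => ?_) z.2
  · rw [rep_apply, hli]; rfl
  · rw [rep_apply, hli]; rfl
  · rw [repJ_apply, hli, tcc_cancel' hp]
  · have h3 : tcc (σ z.1) p (σ z.1) (dmap σ z.1 u) = Tp p σ z.1 u :=
      TorLTa_348.tcc_dmap (sm_σ h.hσ (ne_of_norm hz)) hp u
    rw [← h3, tcc_cancel' hp]
    rfl

theorem cda_y (h : Dat w J σ) {p : M} {z : E6} (hz : z.1 ≠ 0)
    (hp : σ z.1 ∈ (chartAt E4 p).source) :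
    ContDiffAt ℝ ∞ (fun z : E6 => chartAt E4 p (σ z.1)) z :=
  (TorLTa_348.cr_contDiffAt (sm_σ h.hσ hz) hp).comp z contDiffAt_fst

theorem cda_nuP (h : Dat w J σ) {p : M} {z : E6} (hz : ‖z.1‖ = 1)
    (hp : σ z.1 ∈ (chartAt E4 p).source) : ContDiffAt ℝ ∞ (nuP w J σ p) z := by
  have hz0 := ne_of_norm hz
  have hli := (chartAt E4 p).left_inv hp
  have hy := (chartAt E4 p).map_source hp
  have hcy := cda_y h hz0 hp
  have hP := h.pt hz
  have hP' : P3 (rep p ((w 0).1.1 : F2 E4 M) (chartAt E4 p (σ z.1)))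
      (rep p ((w 1).1.1 : F2 E4 M) (chartAt E4 p (σ z.1)))
      (rep p ((w 2).1.1 : F2 E4 M) (chartAt E4 p (σ z.1))) :=
    P3_rep (fun x v => (w 0).1.2.1 x v) (fun x v => (w 1).1.2.1 x v)
      (fun x v => (w 2).1.2.1 x v) (fun x => P3_of_Pos3 h.hw x) hy
  have hT : ContDiffAt ℝ ∞ (fun z : E6 => Tp p σ z.1) z := by
    have h1 : ContDiffAt ℝ ∞ (fun q : E3 => chartAt E4 p (σ q)) z.1 :=
      TorLTa_348.cr_contDiffAt (sm_σ h.hσ hz0) hp
    exact (h1.fderiv_right (m := ∞) (by simp)).comp z contDiffAt_fst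
  refine cda_nu (f := fun z : E6 => rep p ((w 0).1.1 : F2 E4 M) (chartAt E4 p (σ z.1)))
    (a := fun z : E6 => rep p ((w 1).1.1 : F2 E4 M) (chartAt E4 p (σ z.1)))
    (J := fun z : E6 => repJ p J (chartAt E4 p (σ z.1)))
    (T := fun z : E6 => Tp p σ z.1) ?_ ?_ ?_ hT hP'.ne ?_
  · exact ContDiffAt.comp (g := rep p ((w 0).1.1 : F2 E4 M))
      (f := fun z : E6 => chartAt E4 p (σ z.1)) z (Smooth2.at (w 0).1.2 hy) hcy
  · exact ContDiffAt.comp (g := rep p ((w 1).1.1 : F2 E4 M))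
      (f := fun z : E6 => chartAt E4 p (σ z.1)) z (Smooth2.at (w 1).1.2 hy) hcy
  · exact ContDiffAt.comp (g := repJ p J)
      (f := fun z : E6 => chartAt E4 p (σ z.1)) z (SmoothJ.at h.hJ.smooth hy) hcy
  · have h3 : ∀ u, Tp (σ z.1) σ z.1 u = tcc p (σ z.1) (σ z.1) (Tp p σ z.1 u) := by
      intro u
      have h3 : tcc (σ z.1) p (σ z.1) (dmap σ z.1 u) = Tp p σ z.1 u :=
        TorLTa_348.tcc_dmap (sm_σ h.hσ hz0) hp u
      rw [← h3, tcc_cancel' hp]
      rfl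
    have h4 : dn (rep p ((w 0).1.1 : F2 E4 M) (chartAt E4 p (σ z.1))) (Tp p σ z.1) z.1 =
        dn (val (w 0) (σ z.1)) (Tp (σ z.1) σ z.1) z.1 := by
      simp only [dn, rep_apply, hli, h3]
      rfl
    rw [h4]
    exact hP.dn_ne

/-! ### the map -/

/-- the map. -/
def Psi (e : M → E4 → M) (w : Trip M) (J : EndF E4 M) (σ : E3 → M) (z : E6) : M :=
  e (σ (Pi z).1) (nuM w J σ (Pi z))

/-- the exponential map in the chart at `p`. -/
def Ex (e : M → E4 → M) (p : M) (z : E4 × E4) : M := e ((chartAt E4 p).symm z.1)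
    (tcc p ((chartAt E4 p).symm z.1) ((chartAt E4 p).symm z.1) z.2)

/-- its arguments. -/
def Gx (w : Trip M) (J : EndF E4 M) (σ : E3 → M) (p : M) (z : E6) : E4 × E4 :=
  (chartAt E4 p (σ z.1), nuP w J σ p z)

variable {e : M → E4 → M}

theorem Psi_ev (h : Dat w J σ) {z : E6} (hz : z.1 ≠ 0) {p : M}
    (hp : σ (Pi z).1 ∈ (chartAt E4 p).source) :
    Psi e w J σ =ᶠ[𝓝 z] fun y => Ex e p (Gx w J σ p (Pi y)) := by
  have hne : (Pi z).1 ≠ 0 := ne_of_norm (K12Ext_168.Pi_fst_norm hz)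
  have h1 : ContinuousAt (fun y : E6 => σ (Pi y).1) z := by
    have h2 : ContinuousAt (fun y : E6 => (Pi y).1) z :=
      (K12Ext_168.contDiffAt_Pi hz).continuousAt.fst
    exact ContinuousAt.comp (f := fun y : E6 => (Pi y).1) (g := σ)
      (sm_σ h.hσ hne).continuousAt h2
  filter_upwards [h1.preimage_mem_nhds ((chartAt E4 p).open_source.mem_nhds hp),
    K12Geo_128.isOpen_ne.mem_nhds hz] with y hy hy0
  have hn : ‖(Pi y).1‖ = 1 := K12Ext_168.Pi_fst_norm hy0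
  have hy' : σ (Pi y).1 ∈ (chartAt E4 p).source := hy
  show e (σ (Pi y).1) (nuM w J σ (Pi y)) = e ((chartAt E4 p).symm (chartAt E4 p (σ (Pi y).1)))
    (tcc p ((chartAt E4 p).symm (chartAt E4 p (σ (Pi y).1)))
      ((chartAt E4 p).symm (chartAt E4 p (σ (Pi y).1))) (nuP w J σ p (Pi y)))
  rw [(chartAt E4 p).left_inv hy', tcc_nuP h hn hy']

theorem cda_Gx (h : Dat w J σ) {p : M} {z : E6} (hz : ‖z.1‖ = 1)
    (hp : σ z.1 ∈ (chartAt E4 p).source) : ContDiffAt ℝ ∞ (Gx w J σ p) z :=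
  (cda_y h (ne_of_norm hz) hp).prodMk (cda_nuP h hz hp)

theorem smooth_Ex (he : SmoothExp e) {p : M} {z : E4 × E4} (hz : z.1 ∈ (chartAt E4 p).target) :
    ContMDiffAt 𝓘(ℝ, E4 × E4) 𝓘(ℝ, E4) ∞ (Ex e p) z :=
  (he p).contMDiffAt (((chartAt E4 p).open_target.prod isOpen_univ).mem_nhds ⟨hz, mem_univ _⟩)

theorem smooth_Psi (h : Dat w J σ) (he : SmoothExp e) :
    ContMDiffOn 𝓘(ℝ, E6) 𝓘(ℝ, E4) ∞ (Psi e w J σ) {z | z.1 ≠ 0} := by
  intro z hz
  have hn : ‖(Pi z).1‖ = 1 := K12Ext_168.Pi_fst_norm hz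
  have hp : σ (Pi z).1 ∈ (chartAt E4 (σ (Pi z).1)).source := mem_chart_source E4 _
  have h1 : ContMDiffAt 𝓘(ℝ, E6) 𝓘(ℝ, E4) ∞
      (fun y => Ex e (σ (Pi z).1) (Gx w J σ (σ (Pi z).1) (Pi y))) z := by
    have h2 : ContDiffAt ℝ ∞ (fun y => Gx w J σ (σ (Pi z).1) (Pi y)) z :=
      (cda_Gx h hn hp).comp z (K12Ext_168.contDiffAt_Pi hz)
    exact (smooth_Ex he ((chartAt E4 (σ (Pi z).1)).map_source hp)).comp z h2.contMDiffAt
  exact (h1.congr_of_eventuallyEq (Psi_ev h hz hp)).contMDiffWithinAt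

/-! ### the one-jet -/

/-- the exponential map read in the chart at `p`, derivative at the zero vector. -/
theorem fderiv_Ex (he : SmoothExp e) (he0 : ∀ x, e x 0 = x)
    (heD : ∀ x, DV e x = ContinuousLinearMap.id ℝ E4) (p : M) :
    HasFDerivAt (fun z : E4 × E4 => chartAt E4 p (Ex e p z))
      (ContinuousLinearMap.fst ℝ E4 E4 + ContinuousLinearMap.snd ℝ E4 E4)
      ((chartAt E4 p p, 0) : E4 × E4) := by
  have hp : p ∈ (chartAt E4 p).source := mem_chart_source E4 _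
  have hy : chartAt E4 p p ∈ (chartAt E4 p).target := (chartAt E4 p).map_source hp
  have hli : (chartAt E4 p).symm (chartAt E4 p p) = p := (chartAt E4 p).left_inv hp
  have hE0 : Ex e p ((chartAt E4 p p, 0) : E4 × E4) = p := by
    show e ((chartAt E4 p).symm (chartAt E4 p p)) (tcc p _ _ (0 : E4)) = p
    rw [_root_.map_zero, he0, hli]
  have hd : ContDiffAt ℝ ∞ (fun z : E4 × E4 => chartAt E4 p (Ex e p z))
      ((chartAt E4 p p, 0) : E4 × E4) := by
    refine TorLTa_348.cr_contDiffAt (smooth_Ex he hy) ?_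
    rw [hE0]; exact hp
  have hD := (hd.differentiableAt (by simp)).hasFDerivAt
  set D := fderiv ℝ (fun z : E4 × E4 => chartAt E4 p (Ex e p z))
    ((chartAt E4 p p, 0) : E4 × E4) with hDdef
  have h1 : ∀ a : E4, D (a, 0) = a := by
    intro a
    have h2 : HasFDerivAt (fun y : E4 => ((y, 0) : E4 × E4)) (ContinuousLinearMap.inl ℝ E4 E4)
        (chartAt E4 p p) := (hasFDerivAt_id _).prodMk (hasFDerivAt_const (0 : E4) _)
    have h3 : HasFDerivAt (fun y : E4 => chartAt E4 p (Ex e p (y, 0)))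
        (D.comp (ContinuousLinearMap.inl ℝ E4 E4)) (chartAt E4 p p) :=
      HasFDerivAt.comp (chartAt E4 p p) (g := fun z : E4 × E4 => chartAt E4 p (Ex e p z)) hD h2
    have h4 : (fun y : E4 => chartAt E4 p (Ex e p (y, 0))) =ᶠ[𝓝 (chartAt E4 p p)] id := by
      filter_upwards [(chartAt E4 p).open_target.mem_nhds hy] with y hy
      show chartAt E4 p (e ((chartAt E4 p).symm y) (tcc p _ _ (0 : E4))) = y
      rw [_root_.map_zero, he0, (chartAt E4 p).right_inv hy]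
    have h5 := h3.unique ((hasFDerivAt_id _).congr_of_eventuallyEq h4)
    exact congrArg (fun L : E4 →L[ℝ] E4 => L a) h5
  have h2 : ∀ b : E4, D (0, b) = b := by
    intro b
    have h2 : HasFDerivAt (fun y : E4 => ((chartAt E4 p p, y) : E4 × E4))
        (ContinuousLinearMap.inr ℝ E4 E4) 0 :=
      (hasFDerivAt_const (chartAt E4 p p) (0 : E4)).prodMk (hasFDerivAt_id _)
    have h3 : HasFDerivAt (fun y : E4 => chartAt E4 p (Ex e p (chartAt E4 p p, y)))
        (D.comp (ContinuousLinearMap.inr ℝ E4 E4)) 0 :=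
      HasFDerivAt.comp (0 : E4) (g := fun z : E4 × E4 => chartAt E4 p (Ex e p z)) hD h2
    have h4 : (fun y : E4 => chartAt E4 p (Ex e p (chartAt E4 p p, y))) =
        fun y => chartAt E4 p (e p y) := by
      funext y
      show chartAt E4 p (e ((chartAt E4 p).symm (chartAt E4 p p)) (tcc p _ _ y)) = _
      rw [hli, tcc_self hp]
    rw [h4] at h3
    have h5 : DV e p = D.comp (ContinuousLinearMap.inr ℝ E4 E4) := h3.fderiv
    rw [heD] at h5
    exact (congrArg (fun L : E4 →L[ℝ] E4 => L b) h5).symm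
  have h3 : D = ContinuousLinearMap.fst ℝ E4 E4 + ContinuousLinearMap.snd ℝ E4 E4 := by
    refine ContinuousLinearMap.ext fun z => ?_
    have h4 : z = (z.1, 0) + (0, z.2) := by simp
    conv_lhs => rw [h4, map_add, h1, h2]
    rfl
  rw [← h3]
  exact hD

theorem fderiv_nuP (h : Dat w J σ) {q : E3} (hq : ‖q‖ = 1) (U : E6) :
    fderiv ℝ (nuP w J σ (σ q)) ((q, 0) : E6) U = nuM w J σ (q, U.2) := by
  have hp : σ q ∈ (chartAt E4 (σ q)).source := mem_chart_source E4 _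
  have hd := ((cda_nuP h (z := ((q, 0) : E6)) hq hp).differentiableAt (by simp)).hasFDerivAt
  set D := fderiv ℝ (nuP w J σ (σ q)) ((q, 0) : E6) with hD
  have h1 : ∀ u : E3, D (u, 0) = 0 := by
    intro u
    have h2 : HasFDerivAt (fun y : E3 => ((y, 0) : E6)) (ContinuousLinearMap.inl ℝ E3 E3)
        q := (hasFDerivAt_id _).prodMk (hasFDerivAt_const (0 : E3) _)
    have h3 : HasFDerivAt (fun y : E3 => nuP w J σ (σ q) (y, 0))
        (D.comp (ContinuousLinearMap.inl ℝ E3 E3)) q :=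
      HasFDerivAt.comp q (g := nuP w J σ (σ q)) hd h2
    have h4 : (fun y : E3 => nuP w J σ (σ q) (y, 0)) = fun _ => 0 := by
      funext y
      exact nu_zero' _ _ _ _ _
    rw [h4] at h3
    have h5 := h3.unique (hasFDerivAt_const (0 : E4) q)
    exact congrArg (fun L : E3 →L[ℝ] E4 => L u) h5
  have h2 : ∀ v : E3, D (0, v) = nuM w J σ (q, v) := by
    intro v
    have h2 : HasDerivAt (fun t : ℝ => ((q, t • v) : E6)) (0, v) 0 := by
      have h3 : HasDerivAt (fun t : ℝ => t • v) v 0 := by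
        simpa using (hasDerivAt_id (0 : ℝ)).smul_const v
      exact (hasDerivAt_const (0 : ℝ) q).prodMk h3
    have hd' : HasFDerivAt (nuP w J σ (σ q)) D ((q, (0 : ℝ) • v) : E6) := by
      rw [zero_smul]; exact hd
    have h3 : HasDerivAt (fun t : ℝ => nuP w J σ (σ q) (q, t • v)) (D (0, v)) 0 :=
      HasFDerivAt.comp_hasDerivAt (0 : ℝ) (l := nuP w J σ (σ q)) hd' h2
    have h4 : (fun t : ℝ => nuP w J σ (σ q) (q, t • v)) = fun t => t • nuM w J σ (q, v) := by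
      funext t
      have h5 : nuP w J σ (σ q) (q, t • v) = nuM w J σ (q, t • v) := by
        have h6 := tcc_nuP h (p := σ q) (z := ((q, t • v) : E6)) hq hp
        rw [tcc_self hp] at h6
        exact h6
      rw [h5]
      exact nu_lin (h.pt hq).ha (h.pt hq).P.ne t v
    rw [h4] at h3
    have h5 : HasDerivAt (fun t : ℝ => t • nuM w J σ (q, v)) (nuM w J σ (q, v)) 0 := by
      simpa using (hasDerivAt_id (0 : ℝ)).smul_const (nuM w J σ (q, v))
    exact h3.unique h5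
  have h3 : U = (U.1, 0) + (0, U.2) := by simp
  rw [h3, map_add, h1, h2]
  simp

theorem Pi_q0 {q : E3} (hq : ‖q‖ = 1) : Pi ((q, 0) : E6) = (q, 0) :=
  K12Ext_168.Pi_of_TS (r := 1) ⟨hq, inner_zero_right _, by simp⟩

theorem Psi_q0 (he0 : ∀ x, e x 0 = x) {q : E3} (hq : ‖q‖ = 1) :
    Psi e w J σ ((q, 0) : E6) = σ q := by
  rw [Psi, Pi_q0 hq, nuM, nu_zero', he0]

/-- **the one-jet at the zero section.** -/
theorem dmap_Psi (h : Dat w J σ) (he : SmoothExp e) (he0 : ∀ x, e x 0 = x)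
    (heD : ∀ x, DV e x = ContinuousLinearMap.id ℝ E4) {q : E3} (hq : ‖q‖ = 1) (U : E6) :
    dmap (Psi e w J σ) ((q, 0) : E6) U = Tp (σ q) σ q (fderiv ℝ Pi ((q, 0) : E6) U).1 +
      nuM w J σ (q, (fderiv ℝ Pi ((q, 0) : E6) U).2) := by
  have hq0 : ((q, 0) : E6).1 ≠ 0 := ne_of_norm hq
  have hp : σ q ∈ (chartAt E4 (σ q)).source := mem_chart_source E4 _
  have hp' : σ (Pi ((q, 0) : E6)).1 ∈ (chartAt E4 (σ q)).source := by rw [Pi_q0 hq]; exact hp
  have h1 : dmap (Psi e w J σ) ((q, 0) : E6) U = fderiv ℝ (fun z : E6 => chartAt E4 (σ q)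
      (Psi e w J σ z)) ((q, 0) : E6) U := by
    unfold dmap
    rw [Psi_q0 he0 hq]
  have h2 : (fun z : E6 => chartAt E4 (σ q) (Psi e w J σ z)) =ᶠ[𝓝 ((q, 0) : E6)]
      fun z => chartAt E4 (σ q) (Ex e (σ q) (Gx w J σ (σ q) (Pi z))) := by
    filter_upwards [Psi_ev (e := e) h hq0 hp'] with z hz
    rw [hz]
  have hP : HasFDerivAt Pi (fderiv ℝ Pi ((q, 0) : E6)) ((q, 0) : E6) :=
    ((K12Ext_168.contDiffAt_Pi hq0).differentiableAt (by simp)).hasFDerivAt
  have hy : HasFDerivAt (fun z : E6 => chartAt E4 (σ q) (σ z.1))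
      ((Tp (σ q) σ q).comp (ContinuousLinearMap.fst ℝ E3 E3)) ((q, 0) : E6) := by
    have h3 : DifferentiableAt ℝ (fun z : E3 => chartAt E4 (σ q) (σ z)) q :=
      (TorLTa_348.cr_contDiffAt (sm_σ h.hσ (ne_of_norm hq)) hp).differentiableAt (by simp)
    exact HasFDerivAt.comp ((q, 0) : E6) (g := fun z : E3 => chartAt E4 (σ q) (σ z))
      (f := fun z : E6 => z.1) h3.hasFDerivAt hasFDerivAt_fst
  have hη := ((cda_nuP h (z := ((q, 0) : E6)) hq hp).differentiableAt (by simp)).hasFDerivAt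
  have hG : HasFDerivAt (Gx w J σ (σ q)) (((Tp (σ q) σ q).comp
      (ContinuousLinearMap.fst ℝ E3 E3)).prod (fderiv ℝ (nuP w J σ (σ q)) ((q, 0) : E6)))
      ((q, 0) : E6) := hy.prodMk hη
  have hG' : HasFDerivAt (Gx w J σ (σ q)) (((Tp (σ q) σ q).comp
      (ContinuousLinearMap.fst ℝ E3 E3)).prod (fderiv ℝ (nuP w J σ (σ q)) ((q, 0) : E6)))
      (Pi ((q, 0) : E6)) := by rw [Pi_q0 hq]; exact hG
  have hGP := HasFDerivAt.comp ((q, 0) : E6) hG' hP
  have hE := fderiv_Ex he he0 heD (σ q)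
  have hval : Gx w J σ (σ q) (Pi ((q, 0) : E6)) = (chartAt E4 (σ q) (σ q), 0) := by
    rw [Pi_q0 hq]
    show (chartAt E4 (σ q) (σ q), nuP w J σ (σ q) (q, 0)) = _
    rw [show nuP w J σ (σ q) (q, 0) = 0 from nu_zero' _ _ _ _ _]
  rw [← hval] at hE
  have h3 := HasFDerivAt.comp ((q, 0) : E6)
    (g := fun z : E4 × E4 => chartAt E4 (σ q) (Ex e (σ q) z))
    (f := fun z => Gx w J σ (σ q) (Pi z)) hE hGP
  have h4 := h3.congr_of_eventuallyEq h2
  rw [h1, h4.fderiv]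
  simp only [ContinuousLinearMap.comp_apply, add_apply, ContinuousLinearMap.coe_fst',
    ContinuousLinearMap.coe_snd', ContinuousLinearMap.prod_apply, fderiv_nuP h hq]

/-- the tangential part. -/
theorem fderiv_Pi_tan2 {q : E3} (hq : ‖q‖ = 1) (U : E6) :
    ⟪q, (fderiv ℝ Pi ((q, 0) : E6) U).1⟫ = 0 ∧ ⟪q, (fderiv ℝ Pi ((q, 0) : E6) U).2⟫ = 0 := by
  have hz : ((q, 0) : E6).1 ≠ 0 := ne_of_norm hq
  have h0 := ((K12Ext_168.contDiffAt_Pi hz).differentiableAt (by simp)).hasFDerivAt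
  have h1 : HasFDerivAt (fun y => (Pi y).1)
      ((ContinuousLinearMap.fst ℝ E3 E3).comp (fderiv ℝ Pi ((q, 0) : E6))) ((q, 0) : E6) :=
    (ContinuousLinearMap.fst ℝ E3 E3).hasFDerivAt.comp _ h0
  have h2 : HasFDerivAt (fun y => (Pi y).2)
      ((ContinuousLinearMap.snd ℝ E3 E3).comp (fderiv ℝ Pi ((q, 0) : E6))) ((q, 0) : E6) :=
    (ContinuousLinearMap.snd ℝ E3 E3).hasFDerivAt.comp _ h0
  have hPq : Pi ((q, 0) : E6) = (q, 0) := Pi_q0 hq
  constructor
  · have h3 := h1.inner ℝ h1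
    have h4 : (fun y : E6 => ⟪(Pi y).1, (Pi y).1⟫) =ᶠ[𝓝 ((q, 0) : E6)] fun _ => (1 : ℝ) := by
      filter_upwards [K12Geo_128.isOpen_ne.mem_nhds hz] with y hy
      rw [real_inner_self_eq_norm_sq, K12Ext_168.Pi_fst_norm hy, one_pow]
    have h5 : HasFDerivAt (fun y : E6 => ⟪(Pi y).1, (Pi y).1⟫) (0 : E6 →L[ℝ] ℝ)
        ((q, 0) : E6) := (hasFDerivAt_const (1 : ℝ) _).congr_of_eventuallyEq h4
    have h6 := congrArg (fun L : E6 →L[ℝ] ℝ => L U) (h3.unique h5)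
    have h7 : ⟪(Pi ((q, 0) : E6)).1, (fderiv ℝ Pi ((q, 0) : E6) U).1⟫ +
        ⟪(fderiv ℝ Pi ((q, 0) : E6) U).1, (Pi ((q, 0) : E6)).1⟫ = 0 := by simpa using h6
    rw [hPq] at h7
    have h8 := real_inner_comm q (fderiv ℝ Pi ((q, 0) : E6) U).1
    simp only at h7
    linarith
  · have h3 := h1.inner ℝ h2
    have h4 : (fun y : E6 => ⟪(Pi y).1, (Pi y).2⟫) =ᶠ[𝓝 ((q, 0) : E6)] fun _ => (0 : ℝ) := by
      filter_upwards [K12Geo_128.isOpen_ne.mem_nhds hz] with y hy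
      exact K12Ext_168.Pi_inner hy
    have h5 : HasFDerivAt (fun y : E6 => ⟪(Pi y).1, (Pi y).2⟫) (0 : E6 →L[ℝ] ℝ)
        ((q, 0) : E6) := (hasFDerivAt_const (0 : ℝ) _).congr_of_eventuallyEq h4
    have h6 := congrArg (fun L : E6 →L[ℝ] ℝ => L U) (h3.unique h5)
    have h7 : ⟪(Pi ((q, 0) : E6)).1, (fderiv ℝ Pi ((q, 0) : E6) U).2⟫ +
        ⟪(fderiv ℝ Pi ((q, 0) : E6) U).1, (Pi ((q, 0) : E6)).2⟫ = 0 := by simpa using h6
    rw [hPq] at h7
    simpa using h7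

theorem fderiv_Pi_uv {q u v : E3} (hq : ‖q‖ = 1) (hu : ⟪q, u⟫ = 0) (hv : ⟪q, v⟫ = 0) :
    fderiv ℝ Pi ((q, 0) : E6) (u, v) = (u, v) := by
  have h1 : ((u, v) : E6) = (u, 0) + (0, v) := by simp
  rw [h1, map_add, K12Geo_128.fixh q u hq hu, K12Geo_128.fixv q v hq hv]

theorem fderiv_Pi_u0 {q : E3} (hq : ‖q‖ = 1) (u : E3) :
    (fderiv ℝ Pi ((q, 0) : E6) (u, 0)).2 = 0 := by
  have hz : ((q, 0) : E6).1 ≠ 0 := ne_of_norm hq
  have h0 := ((K12Ext_168.contDiffAt_Pi hz).differentiableAt (by simp)).hasFDerivAt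
  have h1 : HasFDerivAt (fun y => (Pi y).2)
      ((ContinuousLinearMap.snd ℝ E3 E3).comp (fderiv ℝ Pi ((q, 0) : E6))) ((q, 0) : E6) :=
    (ContinuousLinearMap.snd ℝ E3 E3).hasFDerivAt.comp _ h0
  have h2 : HasFDerivAt (fun y : E3 => ((y, 0) : E6)) (ContinuousLinearMap.inl ℝ E3 E3)
      q := (hasFDerivAt_id _).prodMk (hasFDerivAt_const (0 : E3) _)
  have h3 := HasFDerivAt.comp q (g := fun y : E6 => (Pi y).2) (f := fun y : E3 => ((y, 0) : E6))
    h1 h2
  have h4 : (fun y : E6 => (Pi y).2) ∘ (fun y : E3 => ((y, 0) : E6)) = fun _ => 0 := by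
    funext y
    simp [Pi]
  rw [h4] at h3
  have h5 := h3.unique (hasFDerivAt_const (0 : E3) q)
  exact congrArg (fun L : E3 →L[ℝ] E3 => L u) h5

theorem P2_apply (Ps : E6 → M) (a : F2 E4 M) (z U V : E6) :
    P2 Ps a z U V = at2 a (Ps z) (dmap Ps z U) (dmap Ps z V) := rfl

end Man

section Closed

variable {M : Type u} [TopologicalSpace M] [T2Space M] [CompactSpace M]
  [ChartedSpace E4 M] [IsManifold 𝓘(ℝ, E4) ∞ M]

set_option maxHeartbeats 1000000 in
/-- **NUX.** -/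
theorem nux : NUX M := by
  intro w hw σ hσ h1 h2
  obtain ⟨J, hJ⟩ := exists_isJ hw
  obtain ⟨e, he, he0, heD⟩ := exists_exp (E := E4) (M := M)
  have h : Dat w J σ := ⟨hw, hJ, hσ, h1, h2⟩
  have hD := fun {q : E3} (hq : ‖q‖ = 1) (U : E6) => dmap_Psi h he he0 heD hq U
  have hz := fun {q : E3} (hq : ‖q‖ = 1) => Psi_q0 (w := w) (J := J) (σ := σ) he0 hq
  have hT0 : ∀ q : E3, Tp (σ q) σ q = fderiv ℝ (fun z => chartAt E4 (σ q) (σ z)) q := fun _ => rfl
  refine ⟨Psi e w J σ, smooth_Psi h he, fun z hz => ?_, fun q hq => hz hq, ?_, ?_⟩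
  · rw [Psi, K12Geo_128.Pi_Pi hz]; rfl
  · intro q u v hq hu hv h0
    have hP := h.pt hq
    have htan : fderiv ℝ Pi ((q, 0) : E6) (u, v) = (u, v) := fderiv_Pi_uv hq hu hv
    rw [hD hq, htan] at h0
    have hv0 : v = 0 := by
      have h3 := congrArg (fun x : E4 => val (w 1) (σ q) x (Tp (σ q) σ q v)) h0
      simp only [map_add, add_apply, map_zero, zero_apply] at h3
      rw [hP.la, show nuM w J σ (q, v) = nu (val (w 0) (σ q)) (val (w 1) (σ q)) (atJ J (σ q))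
        (Tp (σ q) σ q) q v from rfl, hP.nu_T hv, zero_add, real_inner_self_eq_norm_sq] at h3
      exact norm_eq_zero.1 ((pow_eq_zero_iff two_ne_zero).1 h3)
    refine ⟨?_, hv0⟩
    rw [hv0, show nuM w J σ (q, 0) = 0 from nu_zero' _ _ _ _ _, add_zero] at h0
    by_contra hu0
    exact hP.ne hu hu0 h0
  · refine ⟨fun q hq => ?_, fun q u v hq => ?_, fun q u v hq hu hv => ?_⟩
    · have hP := h.pt hq
      have hOS : ((q, 0) : E6) ∈ OS 1 := by
        refine ⟨ne_of_norm hq, ?_⟩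
        rw [Pi_q0 hq]; simp
      have hl : DifferentiableAt ℝ l1 (Pi ((q, 0) : E6)) := by
        unfold l1
        refine DifferentiableAt.clm_comp ?_ (differentiableAt_const _)
        exact (innerSL ℝ (E := E3)).differentiableAt.comp _ differentiableAt_snd
      have h3 := K12Geo_128.d1PB 1 l1 ((q, 0) : E6) hOS hl
      have h4 : (fun z => (l1 (Pi z)).comp (fderiv ℝ Pi z)) = K12An_776.PB1 l1 := rfl
      rw [h4, h3]
      refine ContinuousLinearMap.ext fun U => ContinuousLinearMap.ext fun V => ?_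
      rw [P2_apply, hD hq, hD hq, PB_604.pl_apply, K12Radf_843.radf.d1l1, hz hq]
      obtain ⟨t1, t2⟩ := fderiv_Pi_tan2 hq U
      obtain ⟨t3, t4⟩ := fderiv_Pi_tan2 hq V
      set U' := fderiv ℝ Pi ((q, 0) : E6) U
      set V' := fderiv ℝ Pi ((q, 0) : E6) V
      have e1 : ∀ x y : E3, val (w 1) (σ q) (Tp (σ q) σ q x) (Tp (σ q) σ q y) = 0 := hP.la
      have e2 : ∀ x y : E3, ⟪q, x⟫ = 0 →
          val (w 1) (σ q) (nuM w J σ (q, x)) (Tp (σ q) σ q y) = ⟪x, y⟫ := fun x y hx =>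
        hP.nu_T hx y
      have e3 : ∀ x y : E3, ⟪q, x⟫ = 0 →
          val (w 1) (σ q) (nuM w J σ (q, x)) (nuM w J σ (q, y)) = 0 := fun x y hx =>
        (hP.nu_nu hx).1
      have e4 : ∀ x y : E3, ⟪q, y⟫ = 0 →
          val (w 1) (σ q) (Tp (σ q) σ q x) (nuM w J σ (q, y)) = - ⟪y, x⟫ := fun x y hy => by
        rw [hP.ha.swap, e2 y x hy]
      show val (w 1) (σ q) _ _ = _
      simp only [map_add, add_apply]
      rw [e1, e2 _ _ t2, e3 _ _ t2, e4 _ _ t4]
      ring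
    · have hP := h.pt hq
      rw [P2_apply, hD hq, hD hq, hz hq]
      have e0 : nuM w J σ (q, 0) = 0 := nu_zero' _ _ _ _ _
      rw [fderiv_Pi_u0 hq, fderiv_Pi_u0 hq, e0, add_zero, add_zero]
      exact hP.lb _ _
    · have hP := h.pt hq
      rw [P2_apply, hD hq, hD hq, hz hq, K12Geo_128.fixv q u hq hu, K12Geo_128.fixv q v hq hv]
      simp only [map_zero, zero_add]
      exact (hP.nu_nu hu).2

theorem tube : TUBE M := tube_of M (K12Tuba_930.tuba M) nux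

end Closed

end

end Crest.Agent.R235.K12_417
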