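import Mathlib

/-!
# Row 235, package REG-B: planar theory of k-valued graphs (definitions + leaf Props)

`KG k D` : a k-valued function on the open set `D ⊆ ℂ` (values `s z i`, `i : Fin k`, arbitrary
labelling, continuity up to permutations), which near every point with `k` distinct values is given
by `k` sheets of class `C²`; `A z i` is the real derivative of the sheet through `(z, s z i)`.
`Bad` = points with a repeated value, `Zs` = points where all values coincide.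
-/

namespace Crest.Agent.R235.KG_460

open Complex Metric Set MeasureTheory Filter Topology

/-- Wirtinger derivatives of a real linear map. -/
noncomputable def del (L : ℂ →L[ℝ] ℂ) : ℂ := (L 1 - I * L I) / 2
noncomputable def dbar (L : ℂ →L[ℝ] ℂ) : ℂ := (L 1 + I * L I) / 2


/-- A k-valued graph over `D`. -/
structure KG (k : ℕ) (D : Set ℂ) where
  s : ℂ → Fin k → ℂ
  A : ℂ → Fin k → (ℂ →L[ℝ] ℂ)
  cont : ∀ p ∈ D, ∀ ε > 0, ∀ᶠ z in 𝓝 p, ∃ τ : Equiv.Perm (Fin k), ∀ i, ‖s z (τ i) - s p i‖ < ε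
  loc : ∀ p ∈ D, Function.Injective (s p) → ∃ r > 0, ∃ f : Fin k → ℂ → ℂ,
    (∀ i, ContDiffOn ℝ 2 (f i) (ball p r)) ∧
    ∀ z ∈ ball p r, ∃ τ : Equiv.Perm (Fin k), ∀ i, s z (τ i) = f i z ∧ A z (τ i) = fderiv ℝ (f i) z

variable {k : ℕ} {D : Set ℂ}

/-- points with a repeated value -/
def KG.Bad (G : KG k D) : Set ℂ := {z | z ∈ D ∧ ¬ Function.Injective (G.s z)}

/-- points where all values coincide -/
def KG.Zs (G : KG k D) : Set ℂ := {z | z ∈ D ∧ ∀ i j, G.s z i = G.s z j}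

/-- good points -/
def KG.U (G : KG k D) : Set ℂ := {z | z ∈ D ∧ Function.Injective (G.s z)}

/-- `v_ij = - log |ζ_i - ζ_j|` -/
noncomputable def KG.v (G : KG k D) (z : ℂ) (i j : Fin k) : ℝ := - Real.log ‖G.s z i - G.s z j‖

/-- `ℓ_ij = d log (ζ_i - ζ_j)` -/
noncomputable def KG.l (G : KG k D) (z : ℂ) (i j : Fin k) : ℂ →L[ℝ] ℂ :=
  (G.s z i - G.s z j)⁻¹ • (G.A z i - G.A z j)




/-- energy density -/
noncomputable def KG.en (G : KG k D) (z : ℂ) : ℝ := ∑ i, ‖G.A z i‖ ^ 2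

/-- The analytic hypotheses: `J`-equation with Lipschitz coefficients, bounded sheets, locally
finite energy, `Z` null, and (induction) bad points locally finite off `Z`. -/
structure Hyp (G : KG k D) (mu be : ℂ → ℂ → ℂ) (m Lam Mb : ℝ) : Prop where
  openD : IsOpen D
  m_lt : m < 1
  mu_le : ∀ z ∈ D, ∀ i, ‖mu z (G.s z i)‖ ≤ m
  mu_lip : ∀ z ∈ D, ∀ z' ∈ D, ∀ i j,
    ‖mu z (G.s z i) - mu z' (G.s z' j)‖ ≤ Lam * (‖z - z'‖ + ‖G.s z i - G.s z' j‖)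
  be_lip : ∀ z ∈ D, ∀ z' ∈ D, ∀ i j,
    ‖be z (G.s z i) - be z' (G.s z' j)‖ ≤ Lam * (‖z - z'‖ + ‖G.s z i - G.s z' j‖)
  bdd : ∀ z ∈ D, ∀ i, ‖G.s z i‖ ≤ Mb
  eqn : ∀ z ∈ G.U, ∀ i, dbar (G.A z i) = mu z (G.s z i) * del (G.A z i) - be z (G.s z i)
  energy : ∀ K ⊆ D, IsCompact K → IntegrableOn G.en (K ∩ G.U)
  null : volume G.Zs = 0
  fin : ∀ K ⊆ D \ G.Zs, IsCompact K → (G.Bad ∩ K).Finite


/-- THEOREM I (output of REG-B): almost every circle avoids the bad points. -/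
def CIRC : Prop := ∀ (k : ℕ) (D : Set ℂ) (G : KG k D) (mu be : ℂ → ℂ → ℂ) (m Lam Mb : ℝ),
  2 ≤ k → Hyp G mu be m Lam Mb → ∀ c R, closedBall c R ⊆ D →
    ∀ᵐ r : ℝ ∂(volume.restrict (Ioo 0 R)), sphere c r ∩ G.Bad = ∅


/-! ### pure leaves -/

/-- L1: Stokes in the plane, `L²` one-forms do not see points. -/
def L1 : Prop := ∀ (B : Finset ℂ) (P Q : ℂ → ℝ), HasCompactSupport P → HasCompactSupport Q →
  (∀ z ∉ B, ContDiffAt ℝ 1 P z) → (∀ z ∉ B, ContDiffAt ℝ 1 Q z) →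
  Integrable (fun z => P z ^ 2 + Q z ^ 2) →
  Integrable (fun z => fderiv ℝ Q z 1 - fderiv ℝ P z I) →
  ∫ z, (fderiv ℝ Q z 1 - fderiv ℝ P z I) = 0

/-- L2: a function of finite energy which is `+∞` on a null set `Z`: almost every circle and almost
every ray around `c` avoid `Z ∪ B`. -/
def L2 : Prop := ∀ (D Z B : Set ℂ) (h : ℂ → ℝ) (c : ℂ) (R : ℝ),
  IsOpen (D \ (Z ∪ B)) → B.Countable → volume Z = 0 →
  ContDiffOn ℝ 1 h (D \ (Z ∪ B)) →
  (∀ p ∈ D ∩ Z, Tendsto h (𝓝[D \ (Z ∪ B)] p) atTop) →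
  ball c R ⊆ D →
  IntegrableOn (fun z => ‖fderiv ℝ h z‖ ^ 2) (ball c R \ (Z ∪ B)) →
  (∀ᵐ r : ℝ ∂(volume.restrict (Ioo 0 R)), sphere c r ∩ (Z ∪ B) = ∅) ∧
  (∀ᵐ φ : ℝ ∂(volume.restrict (Ioo (-Real.pi) Real.pi)), ∀ r ∈ Ioo 0 R,
    c + r * exp (φ * I) ∉ Z ∪ B)



end Crest.Agent.R235.KG_460
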