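import Crest.Agent.R235.KT_604
import Crest.Agent.R235.LbB_453
import Crest.Agent.R281.Poi_234
import Mathlib
import Crest.Agent.R235.KumDefs_152
import Crest.Agent.R235.Pull_129
import Crest.Agent.R235.Loc_524

-- ▼ part R235/Mono_387
section

/-!
# Row 235, KUM-KTW (a), part 1: MONO

Systems of germs (`congr`, `opn`, `uniq`, `sep`, `ext`) have global sections on star-shaped open
sets and on the punctured ball of `E4`.
-/

set_option autoImplicit false

open Set Filter Topology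

namespace Crest.Agent.R235.Mono_387

variable {X Y : Type*}

/-- a system of germs over `O`: `Par z f` = "the germ of `f` at `z` belongs to the system";
germs are determined by their value, and extend to a neighbourhood of uniform size. -/
structure Sys [TopologicalSpace X] (O : Set X) (Par : X → (X → Y) → Prop) : Prop where
  congr : ∀ z f g, Par z f → f =ᶠ[𝓝 z] g → Par z g
  opn : ∀ z f, Par z f → ∀ᶠ y in 𝓝 z, Par y f
  uniq : ∀ z f g, Par z f → Par z g → f z = g z → f =ᶠ[𝓝 z] g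
  sep : ∀ z f g, Par z f → Par z g → f z ≠ g z → ∀ᶠ y in 𝓝 z, f y ≠ g y
  ext : ∀ z ∈ O, ∃ U ∈ 𝓝 z, ∀ y ∈ U, ∀ g, Par y g → ∃ f, (∀ x ∈ U, Par x f) ∧ f y = g y

section Top

variable [TopologicalSpace X] {O : Set X} {Par : X → (X → Y) → Prop}

/-- two sections over a preconnected set which agree at a point agree -/
theorem Sys.eqOn (S : Sys O Par) {s : Set X} (hs : IsPreconnected s) {f g : X → Y}
    (hf : ∀ x ∈ s, Par x f) (hg : ∀ x ∈ s, Par x g) {a : X} (ha : a ∈ s) (h : f a = g a) :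
    ∀ x ∈ s, f =ᶠ[𝓝 x] g := by
  have hsub : s ⊆ {x | ∀ᶠ y in 𝓝 x, f y = g y} := by
    refine hs.subset_left_of_subset_union (v := {x | ∀ᶠ y in 𝓝 x, f y ≠ g y})
      isOpen_setOfPred_eventually_nhds isOpen_setOfPred_eventually_nhds ?_ ?_ ?_
    · rw [Set.disjoint_left]
      intro x h1 h2
      have h3 : ∀ᶠ y in 𝓝 x, f y = g y := h1
      have h4 : ∀ᶠ y in 𝓝 x, f y ≠ g y := h2
      exact h4.self_of_nhds h3.self_of_nhds
    · intro x hx
      by_cases he : f x = g x
      · exact Or.inl (S.uniq x f g (hf x hx) (hg x hx) he)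
      · exact Or.inr (S.sep x f g (hf x hx) (hg x hx) he)
    · exact ⟨a, ha, S.uniq a f g (hf a ha) (hg a ha) h⟩
  exact fun x hx => hsub hx

theorem Sys.eqOn' (S : Sys O Par) {s : Set X} (hs : IsPreconnected s) {f g : X → Y}
    (hf : ∀ x ∈ s, Par x f) (hg : ∀ x ∈ s, Par x g) {a : X} (ha : a ∈ s) (h : f a = g a) :
    ∀ x ∈ s, f x = g x :=
  fun x hx => (S.eqOn hs hf hg ha h x hx).self_of_nhds

/-- gluing of two sections -/
theorem Sys.union (S : Sys O Par) {A B : Set X} (hA : IsOpen A) (hB : IsOpen B)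
    (hAB : IsPreconnected (A ∩ B)) {f g : X → Y} (hf : ∀ x ∈ A, Par x f) (hg : ∀ x ∈ B, Par x g)
    {q : X} (hq : q ∈ A ∩ B) (h : f q = g q) :
    ∃ F : X → Y, (∀ x ∈ A ∪ B, Par x F) ∧ (∀ x ∈ A, F x = f x) ∧ ∀ x ∈ B, F x = g x := by
  classical
  have he := S.eqOn' hAB (fun x hx => hf x hx.1) (fun x hx => hg x hx.2) hq h
  have h1 : ∀ x ∈ A, (if x ∈ A then f x else g x) = f x := fun x hx => if_pos hx
  have h2 : ∀ x ∈ B, (if x ∈ A then f x else g x) = g x := by
    intro x hx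
    by_cases hxA : x ∈ A
    · rw [if_pos hxA]; exact he x ⟨hxA, hx⟩
    · rw [if_neg hxA]
  refine ⟨fun x => if x ∈ A then f x else g x, ?_, h1, h2⟩
  rintro x (hx | hx)
  · refine S.congr x f _ (hf x hx) ?_
    filter_upwards [hA.mem_nhds hx] with y hy using (h1 y hy).symm
  · refine S.congr x g _ (hg x hx) ?_
    filter_upwards [hB.mem_nhds hx] with y hy using (h2 y hy).symm

end Top

section Seg

variable [NormedAddCommGroup X] [InnerProductSpace ℝ X] {O : Set X} {Par : X → (X → Y) → Prop}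

/-- continuation along a segment -/
theorem Sys.seg (S : Sys O Par) {a b : X} (hab : segment ℝ a b ⊆ O) {g : X → Y} (hg : Par a g) :
    ∃ f : X → Y, f a = g a ∧ ∀ y ∈ segment ℝ a b, Par y f := by
  classical
  rcases eq_or_ne a b with rfl | hne
  · refine ⟨g, rfl, ?_⟩
    intro y hy
    rw [segment_same] at hy
    rw [mem_singleton_iff.1 hy]; exact hg
  have hd : 0 < ‖b - a‖ ^ 2 := by
    have : 0 < ‖b - a‖ := norm_pos_iff.2 (sub_ne_zero.2 hne.symm)
    positivity
  let γ : ℝ → X := fun t => a + t • (b - a)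
  have hγ : Continuous γ := by fun_prop
  let φ : X → ℝ := fun x => inner ℝ (x - a) (b - a) / ‖b - a‖ ^ 2
  have hφ : Continuous φ := by fun_prop
  have hφγ : ∀ t, φ (γ t) = t := by
    intro t
    simp only [φ, γ, add_sub_cancel_left, real_inner_smul_left, real_inner_self_eq_norm_sq]
    exact mul_div_cancel_right₀ t hd.ne'
  have hγO : ∀ t ∈ Icc (0 : ℝ) 1, γ t ∈ O := by
    intro t ht
    refine hab ?_
    rw [segment_eq_image']
    exact ⟨t, ht, rfl⟩
  let A : ℝ → Prop := fun t => ∃ f : X → Y, f a = g a ∧ ∀ s ∈ Icc 0 t, Par (γ s) f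
  have hγ0 : γ 0 = a := by simp [γ]
  have step : ∀ (t₁ t₂ : ℝ) (U : Set X), 0 ≤ t₁ → (∀ s ∈ uIcc t₁ t₂, γ s ∈ U) →
      (∀ y ∈ U, ∀ g, Par y g → ∃ f, (∀ x ∈ U, Par x f) ∧ f y = g y) → A t₁ → A t₂ := by
    intro t₁ t₂ U h0 hU hext ⟨f, hfa, hf⟩
    rcases le_or_gt t₂ t₁ with hle | hlt
    · exact ⟨f, hfa, fun s hs => hf s ⟨hs.1, hs.2.trans hle⟩⟩
    · rw [uIcc_of_le hlt.le] at hU
      obtain ⟨f', hf', he⟩ := hext (γ t₁) (hU t₁ ⟨le_rfl, hlt.le⟩) f (hf t₁ ⟨h0, le_rfl⟩)
      have hγ1 : φ (γ t₁) = t₁ := hφγ t₁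
      have hmid : f =ᶠ[𝓝 (γ t₁)] f' :=
        S.uniq _ _ _ (hf t₁ ⟨h0, le_rfl⟩) (hf' _ (hU t₁ ⟨le_rfl, hlt.le⟩)) he.symm
      refine ⟨fun x => if φ x < t₁ then f x else f' x, ?_, ?_⟩
      · by_cases h : φ a < t₁
        · simp only [if_pos h]; exact hfa
        · simp only [if_neg h]
          have h1 : t₁ = 0 := by
            have h2 : φ a = 0 := by rw [← hγ0, hφγ]
            rw [h2] at h
            linarith [not_lt.1 h]
          have h3 : γ t₁ = a := by rw [h1, hγ0]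
          rw [h3] at he
          rw [he, hfa]
      · intro s hs
        rcases lt_trichotomy s t₁ with h | h | h
        · refine S.congr _ f _ (hf s ⟨hs.1, h.le⟩) ?_
          have : ∀ᶠ x in 𝓝 (γ s), φ x < t₁ :=
            hφ.continuousAt.eventually_lt continuousAt_const (by rw [hφγ]; exact h)
          filter_upwards [this] with x hx
          simp only [if_pos hx]
        · subst h
          refine S.congr _ f _ (hf s ⟨h0, le_rfl⟩) ?_
          filter_upwards [hmid] with x hx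
          split_ifs
          · rfl
          · exact hx
        · refine S.congr _ f' _ (hf' _ (hU s ⟨h.le, hs.2⟩)) ?_
          have : ∀ᶠ x in 𝓝 (γ s), t₁ < φ x :=
            continuousAt_const.eventually_lt hφ.continuousAt (by rw [hφγ]; exact h)
          filter_upwards [this] with x hx
          simp only [if_neg (not_lt.2 hx.le)]
  have key : ∀ s t : Icc (0 : ℝ) 1, (A s → A t) := by
    intro s t
    refine PreconnectedSpace.induction₂' (fun s t : Icc (0 : ℝ) 1 => (A s → A t)) ?_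
      ⟨fun _ _ _ h1 h2 h => h2 (h1 h)⟩ s t
    intro s
    obtain ⟨U, hU, hext⟩ := S.ext (γ s) (hγO s s.2)
    have h1 : γ ⁻¹' U ∈ 𝓝 (s : ℝ) := hγ.continuousAt hU
    obtain ⟨ε, hε, hball⟩ := Metric.mem_nhds_iff.1 h1
    have h2 : ∀ᶠ t : Icc (0 : ℝ) 1 in 𝓝 s, (t : ℝ) ∈ Metric.ball (s : ℝ) ε :=
      (continuous_subtype_val.continuousAt).preimage_mem_nhds (Metric.ball_mem_nhds _ hε)
    filter_upwards [h2] with t ht
    have hs : (s : ℝ) ∈ Metric.ball (s : ℝ) ε := Metric.mem_ball_self hε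
    have hconv := (convex_ball (s : ℝ) ε).ordConnected
    constructor
    · exact step s t U s.2.1 (fun r hr => hball (hconv.uIcc_subset hs ht hr)) hext
    · exact step t s U t.2.1 (fun r hr => hball (hconv.uIcc_subset ht hs hr)) hext
  have hA0 : A 0 := by
    refine ⟨g, rfl, fun s hs => ?_⟩
    have : s = 0 := le_antisymm hs.2 hs.1
    rw [this, hγ0]; exact hg
  obtain ⟨f, hfa, hf⟩ := key ⟨0, by simp⟩ ⟨1, by simp⟩ hA0
  refine ⟨f, hfa, fun y hy => ?_⟩
  rw [segment_eq_image'] at hy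
  obtain ⟨t, ht, rfl⟩ := hy
  exact hf t ht

/-- global section on a star-shaped open set -/
theorem Sys.star (S : Sys O Par) (hO : IsOpen O) {a : X} (ha : a ∈ O)
    (hst : ∀ x ∈ O, segment ℝ a x ⊆ O) {g : X → Y} (hg : Par a g) :
    ∃ F : X → Y, F a = g a ∧ ∀ x ∈ O, Par x F := by
  classical
  choose f hfa hf using fun (x : X) (hx : x ∈ O) => S.seg (hst x hx) hg
  refine ⟨fun x => if h : x ∈ O then f x h x else g x, ?_, ?_⟩
  · simp only [dif_pos ha, hfa]
  · intro x hx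
    refine S.congr x (f x hx) _ (hf x hx x (right_mem_segment ℝ a x)) ?_
    have h1 : ∀ᶠ y in 𝓝 x, ∀ t ∈ Icc (0 : ℝ) 1, Par (a + t • (y - a)) (f x hx) := by
      refine isCompact_Icc.eventually_forall_of_forall_eventually ?_
      intro t ht
      have hc : Continuous (fun p : X × ℝ => a + p.2 • (p.1 - a)) := by fun_prop
      have h2 : Par (a + t • (x - a)) (f x hx) := by
        refine hf x hx _ ?_
        rw [segment_eq_image']
        exact ⟨t, ht, rfl⟩
      exact hc.continuousAt.eventually (S.opn _ _ h2)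
    filter_upwards [h1, hO.mem_nhds hx] with y hy hyO
    simp only [dif_pos hyO]
    have hpre : IsPreconnected (segment ℝ a y) := (convex_segment a y).isPreconnected
    refine S.eqOn' hpre (fun z hz => ?_) (hf y hyO) (left_mem_segment ℝ a y)
      ((hfa x hx).trans (hfa y hyO).symm) y (right_mem_segment ℝ a y)
    rw [segment_eq_image'] at hz
    obtain ⟨t, ht, rfl⟩ := hz
    exact hy t ht

/-- global section with a prescribed germ at any point -/
theorem Sys.star' (S : Sys O Par) (hO : IsOpen O) {a b : X} (ha : a ∈ O) (hb : b ∈ O)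
    (hst : ∀ x ∈ O, segment ℝ a x ⊆ O) {g : X → Y} (hg : Par b g) :
    ∃ F : X → Y, F b = g b ∧ ∀ x ∈ O, Par x F := by
  have h1 : segment ℝ b a ⊆ O := by rw [segment_symm]; exact hst b hb
  obtain ⟨f, hfb, hf⟩ := S.seg h1 hg
  obtain ⟨F, hFa, hF⟩ := S.star hO ha hst (hf a (right_mem_segment ℝ b a))
  refine ⟨F, ?_, hF⟩
  rw [← hfb]
  exact S.eqOn' (convex_segment b a).isPreconnected (fun z hz => hF z (h1 hz)) hf
    (right_mem_segment ℝ b a) hFa b (left_mem_segment ℝ b a)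

omit [InnerProductSpace ℝ X] in
theorem Sys.mono {O O' : Set X} {Par : X → (X → Y) → Prop} (S : Sys O Par) (h : O' ⊆ O) :
    Sys O' Par := ⟨S.congr, S.opn, S.uniq, S.sep, fun z hz => S.ext z (h hz)⟩

end Seg

section Ball

open Crest.Agent.R240 Crest.Agent.R235.KT_604

/-- half balls -/
def hp (r : ℝ) (i : Fin 4) : Set E4 := {z | ‖z‖ < r ∧ 0 < z i}
def hm (r : ℝ) (i : Fin 4) : Set E4 := {z | ‖z‖ < r ∧ z i < 0}

theorem convex_hp (r : ℝ) (i : Fin 4) : Convex ℝ (hp r i) := by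
  have h1 : Convex ℝ {z : E4 | ‖z‖ < r} := by
    rw [← ball_zero_eq]; exact convex_ball (0 : E4) r
  have h2 : Convex ℝ {z : E4 | 0 < z i} := by
    intro x hx y hy a b ha hb hab
    simp only [mem_ofPred_eq, PiLp.add_apply, PiLp.smul_apply, smul_eq_mul] at *
    rcases ha.eq_or_lt with rfl | ha'
    · have : b = 1 := by linarith
      subst this; simpa using hy
    · have := mul_pos ha' hx
      have := mul_nonneg hb hy.le
      linarith
  exact h1.inter h2

theorem convex_hm (r : ℝ) (i : Fin 4) : Convex ℝ (hm r i) := by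
  have h1 : Convex ℝ {z : E4 | ‖z‖ < r} := by
    rw [← ball_zero_eq]; exact convex_ball (0 : E4) r
  have h2 : Convex ℝ {z : E4 | z i < 0} := by
    intro x hx y hy a b ha hb hab
    simp only [mem_ofPred_eq, PiLp.add_apply, PiLp.smul_apply, smul_eq_mul] at *
    rcases ha.eq_or_lt with rfl | ha'
    · have : b = 1 := by linarith
      subst this; simpa using hy
    · have := mul_neg_of_pos_of_neg ha' hx
      have := mul_nonpos_of_nonneg_of_nonpos hb hy.le
      linarith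
  exact h1.inter h2

/-- a point with two prescribed small coordinates -/
noncomputable def pt (i j : Fin 4) (s t : ℝ) : E4 :=
  s • EuclideanSpace.single i (1 : ℝ) + t • EuclideanSpace.single j (1 : ℝ)

theorem norm_pt {r : ℝ} (hr : 0 < r) (i j : Fin 4) {s t : ℝ} (hs : |s| ≤ r / 4)
    (ht : |t| ≤ r / 4) : ‖pt i j s t‖ < r := by
  unfold pt
  refine (norm_add_le _ _).trans_lt ?_
  rw [norm_smul, norm_smul]
  simp only [PiLp.norm_single, norm_one, mul_one, Real.norm_eq_abs]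
  linarith

theorem pt_left {i j : Fin 4} (h : i ≠ j) (s t : ℝ) : pt i j s t i = s := by
  simp [pt, h]

theorem pt_right {i j : Fin 4} (h : i ≠ j) (s t : ℝ) : pt i j s t j = t := by
  simp [pt, h.symm]

/-- the union of the `2 |s|` half balls is connected -/
def cyl (r : ℝ) (s : Finset (Fin 4)) : Set E4 := {z | ‖z‖ < r ∧ ∃ i ∈ s, z i ≠ 0}

theorem cyl_eq (r : ℝ) (s : Finset (Fin 4)) : cyl r s = ⋃ i ∈ s, (hp r i ∪ hm r i) := by
  ext z
  simp only [cyl, mem_ofPred_eq, mem_iUnion, mem_union, hp, hm, exists_prop]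
  constructor
  · rintro ⟨h, i, hi, hz⟩
    refine ⟨i, hi, ?_⟩
    rcases lt_or_gt_of_ne hz with h' | h'
    · exact Or.inr ⟨h, h'⟩
    · exact Or.inl ⟨h, h'⟩
  · rintro ⟨i, hi, (⟨h, h'⟩ | ⟨h, h'⟩)⟩
    · exact ⟨h, i, hi, h'.ne'⟩
    · exact ⟨h, i, hi, h'.ne⟩

theorem pre_pair {r : ℝ} (hr : 0 < r) {i j : Fin 4} (h : i ≠ j) :
    IsPreconnected (hp r i ∪ hm r i ∪ (hp r j ∪ hm r j)) := by
  have m : ∀ (s t : ℝ), |s| ≤ r / 4 → |t| ≤ r / 4 → ‖pt i j s t‖ < r :=
    fun s t hs ht => norm_pt hr i j hs ht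
  have a1 : |r / 4| ≤ r / 4 := by rw [abs_of_pos (by positivity)]
  have a2 : |-(r / 4)| ≤ r / 4 := by rw [abs_neg, abs_of_pos (by positivity)]
  have c1 : IsPreconnected (hp r i ∪ hp r j) :=
    IsPreconnected.union (pt i j (r / 4) (r / 4))
      ⟨m _ _ a1 a1, by rw [pt_left h]; positivity⟩
      ⟨m _ _ a1 a1, by rw [pt_right h]; positivity⟩
      (convex_hp r i).isPreconnected (convex_hp r j).isPreconnected
  have c2 : IsPreconnected (hp r i ∪ hp r j ∪ hm r i) :=
    IsPreconnected.union (pt i j (-(r / 4)) (r / 4))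
      (Or.inr ⟨m _ _ a2 a1, by rw [pt_right h]; positivity⟩)
      ⟨m _ _ a2 a1, by rw [pt_left h]; linarith⟩
      c1 (convex_hm r i).isPreconnected
  have c3 : IsPreconnected (hp r i ∪ hp r j ∪ hm r i ∪ hm r j) :=
    IsPreconnected.union (pt i j (r / 4) (-(r / 4)))
      (Or.inl (Or.inl ⟨m _ _ a1 a2, by rw [pt_left h]; positivity⟩))
      ⟨m _ _ a1 a2, by rw [pt_right h]; linarith⟩
      c2 (convex_hm r j).isPreconnected
  convert c3 using 1
  ext z
  simp only [mem_union]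
  tauto

/-- `ball` minus a coordinate subspace of codimension `≥ 2` is preconnected -/
theorem pre_cyl {r : ℝ} (hr : 0 < r) {s : Finset (Fin 4)} (hs : 2 ≤ s.card) :
    IsPreconnected (cyl r s) := by
  rw [cyl_eq]
  obtain ⟨i₀, hi₀, j₀, hj₀, hij⟩ := Finset.one_lt_card.1 (show 1 < s.card by omega)
  have hp0 : ∀ i ∈ s, (pt i₀ j₀ (r / 4) (r / 4)) ∈ (⋃ i ∈ s, (hp r i ∪ hm r i)) := by
    intro i _
    refine mem_biUnion hi₀ (Or.inl ⟨norm_pt hr _ _ ?_ ?_, ?_⟩)
    · rw [abs_of_pos (by positivity)]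
    · rw [abs_of_pos (by positivity)]
    · rw [pt_left hij]; positivity
  refine isPreconnected_of_forall (pt i₀ j₀ (r / 4) (r / 4)) ?_
  intro z hz
  simp only [mem_iUnion] at hz
  obtain ⟨i, hi, hz⟩ := hz
  by_cases h : i = i₀
  · subst h
    refine ⟨_, ?_, ?_, ?_, pre_pair hr hij⟩
    · exact union_subset (subset_biUnion_of_mem (u := fun i => hp r i ∪ hm r i) hi₀)
        (subset_biUnion_of_mem (u := fun i => hp r i ∪ hm r i) hj₀)
    · refine Or.inl (Or.inl ⟨norm_pt hr _ _ ?_ ?_, ?_⟩)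
      · rw [abs_of_pos (by positivity)]
      · rw [abs_of_pos (by positivity)]
      · rw [pt_left hij]; positivity
    · exact Or.inl hz
  · refine ⟨_, ?_, ?_, ?_, pre_pair hr (Ne.symm h)⟩
    · exact union_subset (subset_biUnion_of_mem (u := fun i => hp r i ∪ hm r i) hi₀)
        (subset_biUnion_of_mem (u := fun i => hp r i ∪ hm r i) hi)
    · refine Or.inl (Or.inl ⟨norm_pt hr _ _ ?_ ?_, ?_⟩)
      · rw [abs_of_pos (by positivity)]
      · rw [abs_of_pos (by positivity)]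
      · rw [pt_left hij]; positivity
    · exact Or.inr hz

theorem PB_eq_cyl (r : ℝ) : PB r = cyl r Finset.univ := by
  ext z
  simp only [PB, cyl, mem_ofPred_eq, Finset.mem_univ, true_and]
  constructor
  · rintro ⟨h1, h2⟩
    refine ⟨h2, ?_⟩
    by_contra h
    push Not at h
    exact h1 (by ext i; simpa using h i)
  · rintro ⟨h1, i, hi⟩
    refine ⟨?_, h1⟩
    rintro rfl
    simp at hi

theorem isOpen_PB (r : ℝ) : IsOpen (PB r) := by
  have : PB r = {z : E4 | z ≠ 0} ∩ {z : E4 | ‖z‖ < r} := by ext z; simp [PB]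
  rw [this]
  exact isOpen_ne.inter (isOpen_lt continuous_norm continuous_const)

theorem isPreconnected_PB {r : ℝ} (hr : 0 < r) : IsPreconnected (PB r) := by
  rw [PB_eq_cyl]
  exact pre_cyl hr (by decide)

/-- slit balls: `σ = 1`: minus the half line `z 0 ≤ 0`; `σ = -1`: minus `z 0 ≥ 0` -/
def slit (r σ : ℝ) : Set E4 := {z | ‖z‖ < r ∧ ((∃ i ∈ ({1, 2, 3} : Finset (Fin 4)), z i ≠ 0) ∨
  0 < σ * z 0)}

theorem isOpen_slit (r σ : ℝ) : IsOpen (slit r σ) := by
  have : slit r σ = {z : E4 | ‖z‖ < r} ∩ ((⋃ i ∈ ({1, 2, 3} : Finset (Fin 4)),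
      {z : E4 | z i ≠ 0}) ∪ {z : E4 | 0 < σ * z 0}) := by
    ext z; simp [slit]
  rw [this]
  refine (isOpen_lt continuous_norm continuous_const).inter (IsOpen.union ?_ ?_)
  · refine isOpen_biUnion fun i _ => ?_
    exact isOpen_ne_fun (by fun_prop) continuous_const
  · exact isOpen_lt continuous_const (by fun_prop)

theorem slit_union (r : ℝ) : slit r 1 ∪ slit r (-1) = PB r := by
  rw [PB_eq_cyl]
  ext z
  simp only [mem_union, slit, cyl, mem_ofPred_eq, Finset.mem_univ, true_and, one_mul, neg_mul,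
    Left.neg_pos_iff]
  constructor
  · rintro (⟨h, (⟨i, _, hi⟩ | hz)⟩ | ⟨h, (⟨i, _, hi⟩ | hz)⟩)
    · exact ⟨h, i, hi⟩
    · exact ⟨h, 0, hz.ne'⟩
    · exact ⟨h, i, hi⟩
    · exact ⟨h, 0, hz.ne⟩
  · rintro ⟨h, i, hi⟩
    by_cases h0 : i = 0
    · subst h0
      rcases lt_or_gt_of_ne hi with h' | h'
      · exact Or.inr ⟨h, Or.inr h'⟩
      · exact Or.inl ⟨h, Or.inr h'⟩
    · refine Or.inl ⟨h, Or.inl ⟨i, ?_, hi⟩⟩
      fin_cases i <;> simp_all

theorem slit_inter (r : ℝ) : slit r 1 ∩ slit r (-1) = cyl r {1, 2, 3} := by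
  ext z
  simp only [mem_inter_iff, slit, cyl, mem_ofPred_eq, one_mul, neg_mul, Left.neg_pos_iff]
  constructor
  · rintro ⟨⟨h, (h1 | h1)⟩, ⟨_, (h2 | h2)⟩⟩
    · exact ⟨h, h1⟩
    · exact ⟨h, h1⟩
    · exact ⟨h, h2⟩
    · exact absurd h1 (not_lt.2 h2.le)
  · rintro ⟨h, h1⟩
    exact ⟨⟨h, Or.inl h1⟩, ⟨h, Or.inl h1⟩⟩

theorem slit_center {r : ℝ} (hr : 0 < r) {σ : ℝ} (hσ : σ ^ 2 = 1) :
    (σ * (r / 2)) • EuclideanSpace.single 0 (1 : ℝ) ∈ slit r σ := by
  have h1 : |σ| = 1 := by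
    rcases mul_self_eq_one_iff.1 ((pow_two σ).symm.trans hσ) with h | h <;> simp [h]
  refine ⟨?_, Or.inr ?_⟩
  · rw [norm_smul]
    simp only [PiLp.norm_single, norm_one, mul_one, Real.norm_eq_abs, abs_mul, h1,
      one_mul, abs_of_pos (half_pos hr)]
    linarith
  · simp only [PiLp.smul_apply, PiLp.single_apply, if_true, smul_eq_mul, mul_one]
    have : σ * (σ * (r / 2)) = σ ^ 2 * (r / 2) := by ring
    rw [this, hσ]; linarith

theorem slit_star {r : ℝ} (hr : 0 < r) {σ : ℝ} (hσ : σ ^ 2 = 1) {z : E4} (hz : z ∈ slit r σ) :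
    segment ℝ ((σ * (r / 2)) • EuclideanSpace.single 0 (1 : ℝ)) z ⊆ slit r σ := by
  rintro w ⟨a, b, ha, hb, hab, rfl⟩
  have h0 := slit_center hr hσ
  have hball : Convex ℝ {z : E4 | ‖z‖ < r} := by
    rw [← ball_zero_eq]; exact convex_ball (0 : E4) r
  refine ⟨hball h0.1 hz.1 ha hb hab, ?_⟩
  rcases hb.eq_or_lt with rfl | hb'
  · have : a = 1 := by linarith
    subst this
    simpa using h0.2
  · rcases hz.2 with ⟨i, hi, hzi⟩ | hz0
    · left
      refine ⟨i, hi, ?_⟩
      have h0i : (EuclideanSpace.single 0 (1 : ℝ) : E4) i = 0 := by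
        simp only [Finset.mem_insert, Finset.mem_singleton] at hi
        rcases hi with rfl | rfl | rfl <;> simp
      simp only [PiLp.add_apply, PiLp.smul_apply, smul_eq_mul, h0i, mul_zero, zero_add]
      exact mul_ne_zero hb'.ne' hzi
    · right
      simp only [PiLp.add_apply, PiLp.smul_apply, PiLp.single_apply, if_true,
        smul_eq_mul, mul_one]
      have e : σ * (a * (σ * (r / 2)) + b * z 0) = a * (σ ^ 2 * (r / 2)) + b * (σ * z 0) := by ring
      rw [e, hσ]
      have := mul_nonneg ha (by linarith : (0 : ℝ) ≤ 1 * (r / 2))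
      have := mul_pos hb' hz0
      linarith

/-- **MONO**: a system of germs on the punctured ball has a global section through every germ. -/
theorem Sys.punctured {Par : E4 → (E4 → Y) → Prop} {r : ℝ} (hr : 0 < r) (S : Sys (PB r) Par)
    {q : E4} (hq : q ∈ PB r) {g : E4 → Y} (hg : Par q g) :
    ∃ F : E4 → Y, F q = g q ∧ ∀ z ∈ PB r, Par z F := by
  have h1 : slit r 1 ⊆ PB r := by rw [← slit_union]; exact subset_union_left
  have h2 : slit r (-1) ⊆ PB r := by rw [← slit_union]; exact subset_union_right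
  have key : ∀ σ : ℝ, σ ^ 2 = 1 → slit r σ ⊆ PB r → ∀ (p : E4) (f : E4 → Y), p ∈ slit r σ →
      Par p f → ∃ F : E4 → Y, F p = f p ∧ ∀ z ∈ slit r σ, Par z F := by
    intro σ hσ hsub p f hp hf
    exact (S.mono hsub).star' (isOpen_slit r σ) (slit_center hr hσ) hp
      (fun x hx => slit_star hr hσ hx) hf
  have hmid : pt 1 2 (r / 4) (r / 4) ∈ slit r 1 ∩ slit r (-1) := by
    rw [slit_inter]
    refine ⟨norm_pt hr _ _ ?_ ?_, 1, by simp, ?_⟩
    · rw [abs_of_pos (by positivity)]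
    · rw [abs_of_pos (by positivity)]
    · rw [pt_left (by decide)]; positivity
  have hpre : IsPreconnected (slit r 1 ∩ slit r (-1)) := by
    rw [slit_inter]; exact pre_cyl hr (by decide)
  rw [← slit_union] at hq
  rcases hq with hq | hq
  · obtain ⟨F₁, e₁, hF₁⟩ := key 1 (by norm_num) h1 q g hq hg
    obtain ⟨F₂, e₂, hF₂⟩ := key (-1) (by norm_num) h2 _ F₁ hmid.2 (hF₁ _ hmid.1)
    obtain ⟨F, hF, hFA, _⟩ := S.union (isOpen_slit r 1) (isOpen_slit r (-1)) hpre hF₁ hF₂ hmid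
      e₂.symm
    refine ⟨F, (hFA q hq).trans e₁, ?_⟩
    rw [← slit_union]; exact hF
  · obtain ⟨F₂, e₂, hF₂⟩ := key (-1) (by norm_num) h2 q g hq hg
    obtain ⟨F₁, e₁, hF₁⟩ := key 1 (by norm_num) h1 _ F₂ hmid.1 (hF₂ _ hmid.2)
    obtain ⟨F, hF, _, hFB⟩ := S.union (isOpen_slit r 1) (isOpen_slit r (-1)) hpre hF₁ hF₂ hmid e₁
    refine ⟨F, (hFB q hq).trans e₂, ?_⟩
    rw [← slit_union]; exact hF

end Ball

end Crest.Agent.R235.Mono_387
end

-- ▼ part R235/Par_387
section

/-!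
# Row 235, KUM-KTW (a), part 2: parallel sections of a line bundle `P` (rank one hermitian
projections on `ℂ^N`) with the connection `P ∘ d - 2πi T`, over open subsets of a normed space.
`d T = - Chern form of P`, so the connection is flat.
-/

set_option autoImplicit false
set_option linter.unusedSectionVars false

open Set Function Filter Topology Complex
open scoped ContDiff ComplexConjugate Matrix ComplexOrder

namespace Crest.Agent.R235.Par_387

open Crest.Agent.R240.Ch Crest.Agent.R235.Lb453 Crest.Agent.R235.Mono_387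

noncomputable section

/-! ### algebra -/

section Alg

variable {ι : Type} [Fintype ι]

/-- hermitian product -/
def hh (x y : ι → ℂ) : ℂ := ∑ i, conj (x i) * y i

theorem hh_add_right (x y z : ι → ℂ) : hh x (y + z) = hh x y + hh x z := by
  simp [hh, mul_add, Finset.sum_add_distrib]

theorem hh_smul_right (c : ℂ) (x y : ι → ℂ) : hh x (c • y) = c * hh x y := by
  simp only [hh, Pi.smul_apply, smul_eq_mul, Finset.mul_sum]
  exact Finset.sum_congr rfl fun i _ => by ring

theorem hh_smul_left (c : ℂ) (x y : ι → ℂ) : hh (c • x) y = conj c * hh x y := by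
  simp only [hh, Pi.smul_apply, smul_eq_mul, Finset.mul_sum, map_mul]
  exact Finset.sum_congr rfl fun i _ => by ring

theorem hh_conj (x y : ι → ℂ) : conj (hh x y) = hh y x := by
  simp only [hh, map_sum, map_mul, Complex.conj_conj]
  exact Finset.sum_congr rfl fun i _ => by ring

theorem ne_zero_of_unit {x : ι → ℂ} (h : hh x x = 1) : x ≠ 0 := by
  rintro rfl
  simp [hh] at h

theorem pr_mulVec (e x : ι → ℂ) : (pr e).mulVec x = hh e x • e := by
  ext i
  simp only [Matrix.mulVec, dotProduct, pr, hh, Pi.smul_apply, smul_eq_mul, Finset.sum_mul]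
  exact Finset.sum_congr rfl fun k _ => by ring

/-- `⟨P x, y⟩ = ⟨x, P y⟩` -/
theorem hh_mulVec {P : Matrix ι ι ℂ} (hP : P.conjTranspose = P) (x y : ι → ℂ) :
    hh (P.mulVec x) y = hh x (P.mulVec y) := by
  simp only [hh, Matrix.mulVec, dotProduct, map_sum, map_mul, Finset.sum_mul, Finset.mul_sum]
  rw [Finset.sum_comm]
  refine Finset.sum_congr rfl fun i _ => Finset.sum_congr rfl fun j _ => ?_
  have h : conj (P j i) = P i j := by
    have := congrFun (congrFun hP i) j
    simpa [Matrix.conjTranspose_apply] using this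
  rw [h]; ring

/-- a rank one hermitian projection with a unit vector `e` in its image is `e e^*` -/
theorem proj_eq {P : Matrix ι ι ℂ} (h1 : P * P = P) (h2 : P.conjTranspose = P)
    (h3 : P.trace = 1) {e : ι → ℂ} (he : P.mulVec e = e) (hu : hh e e = 1) : P = pr e := by
  have a1 : P * pr e = pr e := by
    ext i j
    have := congrFun he i
    simp only [Matrix.mulVec, dotProduct] at this
    simp only [Matrix.mul_apply, pr]
    rw [← this, Finset.sum_mul]
    exact Finset.sum_congr rfl fun k _ => by ring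
  have a2 : pr e * P = pr e := by
    have := congrArg Matrix.conjTranspose a1
    rwa [Matrix.conjTranspose_mul, h2, pr_herm] at this
  have a3 : pr e * pr e = pr e := pr_idem hu
  have hQ : (P - pr e).conjTranspose * (P - pr e) = P - pr e := by
    rw [Matrix.conjTranspose_sub, h2, pr_herm]
    rw [sub_mul, mul_sub, mul_sub, h1, a1, a2, a3]
    simp
  have hz : ((P - pr e).conjTranspose * (P - pr e)).trace = 0 := by
    rw [hQ, Matrix.trace_sub, h3, pr_trace hu, sub_self]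
  exact sub_eq_zero.1 (Matrix.trace_conjTranspose_mul_self_eq_zero_iff.1 hz)

end Alg

/-! ### calculus -/

variable {E : Type} [NormedAddCommGroup E] [NormedSpace ℝ E] {N : ℕ}

/-- derivative of a vector -/
def dv (l : E → Fin N → ℂ) (z u : E) : Fin N → ℂ := fun i => fderiv ℝ (fun y => l y i) z u

/-- derivative of a matrix -/
def dP (P : E → Matrix (Fin N) (Fin N) ℂ) (z u : E) : Matrix (Fin N) (Fin N) ℂ :=
  Matrix.of fun i j => fderiv ℝ (fun y => P y i j) z u

/-- a line bundle `P` with a potential `T` of minus the Chern form. -/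
structure Bun (P : E → Matrix (Fin N) (Fin N) ℂ) (T : E → E →L[ℝ] ℝ) (O : Set E) : Prop where
  smP : ∀ z ∈ O, ∀ i j, ContDiffAt ℝ ∞ (fun y => P y i j) z
  smT : ∀ z ∈ O, ContDiffAt ℝ ∞ T z
  idem : ∀ z ∈ O, P z * P z = P z
  herm : ∀ z ∈ O, (P z).conjTranspose = P z
  rank : ∀ z ∈ O, (P z).trace = 1
  curv : ∀ z ∈ O, ∀ u v, d1 T z u v =
    - ((I / (2 * Real.pi)) * (P z * (dP P z u * dP P z v - dP P z v * dP P z u)).trace).re

/-- `l` is a unit section of `P` at `z`, parallel at `z`. -/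
structure Good (P : E → Matrix (Fin N) (Fin N) ℂ) (T : E → E →L[ℝ] ℝ) (l : E → Fin N → ℂ)
    (z : E) : Prop where
  sm : ∀ i, ContDiffAt ℝ ∞ (fun y => l y i) z
  mem : (P z).mulVec (l z) = l z
  unit : hh (l z) (l z) = 1
  par : ∀ v, (P z).mulVec (dv l z v) = (2 * Real.pi * I * T z v) • l z

/-- the system of germs. -/
def Par (P : E → Matrix (Fin N) (Fin N) ℂ) (T : E → E →L[ℝ] ℝ) (z : E) (l : E → Fin N → ℂ) :
    Prop := ∀ᶠ y in 𝓝 z, Good P T l y

variable {P : E → Matrix (Fin N) (Fin N) ℂ} {T : E → E →L[ℝ] ℝ} {O : Set E}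

theorem Bun.mono {O' : Set E} (h : Bun P T O) (hO : O' ⊆ O) : Bun P T O' :=
  ⟨fun z hz => h.smP z (hO hz), fun z hz => h.smT z (hO hz), fun z hz => h.idem z (hO hz),
    fun z hz => h.herm z (hO hz), fun z hz => h.rank z (hO hz), fun z hz => h.curv z (hO hz)⟩

theorem dv_congr {f g : E → Fin N → ℂ} {z : E} (h : f =ᶠ[𝓝 z] g) (u : E) :
    dv f z u = dv g z u := by
  funext i
  have : (fun y => f y i) =ᶠ[𝓝 z] fun y => g y i := h.mono fun y hy => by
    show f y i = g y i
    rw [hy]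
  unfold dv
  rw [this.fderiv_eq]

theorem Good.congr {f g : E → Fin N → ℂ} {z : E} (hf : Good P T f z) (h : f =ᶠ[𝓝 z] g) :
    Good P T g z := by
  have h0 : f z = g z := h.self_of_nhds
  refine ⟨fun i => (hf.sm i).congr_of_eventuallyEq (h.symm.mono fun y hy => by
    show g y i = f y i; rw [hy]), ?_, ?_, fun v => ?_⟩
  · rw [← h0]; exact hf.mem
  · rw [← h0]; exact hf.unit
  · rw [← h0, ← dv_congr h]; exact hf.par v

theorem Good.smul {f : E → Fin N → ℂ} {z : E} (hf : Good P T f z) {c : ℂ}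
    (hc : conj c * c = 1) : Good P T (fun y => c • f y) z := by
  have hd : ∀ v, dv (fun y => c • f y) z v = c • dv f z v := by
    intro v
    funext i
    have : (fun y => (c • f y) i) = fun y => c * f y i := rfl
    unfold dv
    rw [this, fderiv_const_mul ((hf.sm i).differentiableAt (by simp))]
    rfl
  refine ⟨fun i => contDiffAt_const.mul (hf.sm i), ?_, ?_, fun v => ?_⟩
  · rw [Matrix.mulVec_smul, hf.mem]
  · rw [hh_smul_left, hh_smul_right, hf.unit, mul_one, hc]
  · rw [hd, Matrix.mulVec_smul, hf.par, smul_comm]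

/-- derivative of a hermitian product -/
theorem fderiv_hh {f g : E → Fin N → ℂ} {z : E}
    (hf : ∀ i, DifferentiableAt ℝ (fun y => f y i) z)
    (hg : ∀ i, DifferentiableAt ℝ (fun y => g y i) z) (v : E) :
    fderiv ℝ (fun y => hh (f y) (g y)) z v = hh (dv f z v) (g z) + hh (f z) (dv g z v) := by
  have h1 : (fun y => hh (f y) (g y)) = fun y => ∑ i, conj (f y i) * g y i := rfl
  rw [h1, fderiv_fun_sum (fun i _ => (diff_conj (hf i)).fun_mul (hg i)), sum_apply]
  unfold hh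
  rw [← Finset.sum_add_distrib]
  refine Finset.sum_congr rfl fun i _ => ?_
  rw [fderiv_fun_mul (diff_conj (hf i)) (hg i)]
  simp only [add_apply, smul_apply, smul_eq_mul, fderiv_conj (hf i)]
  unfold dv
  ring

theorem diff_hh {f g : E → Fin N → ℂ} {z : E}
    (hf : ∀ i, DifferentiableAt ℝ (fun y => f y i) z)
    (hg : ∀ i, DifferentiableAt ℝ (fun y => g y i) z) :
    DifferentiableAt ℝ (fun y => hh (f y) (g y)) z := by
  have h1 : (fun y => hh (f y) (g y)) = fun y => ∑ i, conj (f y i) * g y i := rfl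
  rw [h1]
  exact DifferentiableAt.fun_sum fun i _ => (diff_conj (hf i)).fun_mul (hg i)

theorem Good.diff {f : E → Fin N → ℂ} {z : E} (hf : Good P T f z) (i : Fin N) :
    DifferentiableAt ℝ (fun y => f y i) z := (hf.sm i).differentiableAt (by simp)

/-- the projection is `f f^*` -/
theorem Good.proj {f : E → Fin N → ℂ} {z : E} (hf : Good P T f z) (h : Bun P T O)
    (hz : z ∈ O) : P z = pr (f z) :=
  proj_eq (h.idem z hz) (h.herm z hz) (h.rank z hz) hf.mem hf.unit

/-- two parallel unit sections over a preconnected open set differ by a constant phase. -/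
theorem exists_const (h : Bun P T O) {s : Set E} (hsO : s ⊆ O) (hs : IsOpen s)
    (hc : IsPreconnected s) {f g : E → Fin N → ℂ} (hf : ∀ z ∈ s, Good P T f z)
    (hg : ∀ z ∈ s, Good P T g z) :
    ∃ c : ℂ, conj c * c = 1 ∧ ∀ z ∈ s, f z = c • g z := by
  rcases s.eq_empty_or_nonempty with rfl | ⟨z0, hz0⟩
  · exact ⟨1, by simp, fun z hz => absurd hz (notMem_empty z)⟩
  have hd : ∀ z ∈ s, DifferentiableAt ℝ (fun y => hh (g y) (f y)) z := fun z hz =>
    diff_hh (hg z hz).diff (hf z hz).diff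
  have h0 : ∀ z ∈ s, fderiv ℝ (fun y => hh (g y) (f y)) z = 0 := by
    intro z hz
    ext v
    rw [fderiv_hh (hg z hz).diff (hf z hz).diff]
    have hP := h.herm z (hsO hz)
    have e1 : hh (dv g z v) (f z) = conj (2 * Real.pi * I * T z v) * hh (g z) (f z) := by
      rw [← (hf z hz).mem, ← hh_mulVec hP, (hg z hz).par, hh_smul_left, (hf z hz).mem]
    have e2 : hh (g z) (dv f z v) = (2 * Real.pi * I * T z v) * hh (g z) (f z) := by
      rw [← (hg z hz).mem, hh_mulVec hP, (hf z hz).par, hh_smul_right, (hg z hz).mem]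
    rw [e1, e2]
    simp only [map_mul, map_ofNat, Complex.conj_ofReal, Complex.conj_I, zero_apply]
    ring
  have hconst : ∀ z ∈ s, hh (g z) (f z) = hh (g z0) (f z0) := fun z hz =>
    hs.is_const_of_fderiv_eq_zero (𝕜 := ℝ) hc (fun y hy => (hd y hy).differentiableWithinAt)
      (fun y hy => h0 y hy) hz hz0
  have hfg : ∀ z ∈ s, f z = hh (g z0) (f z0) • g z := by
    intro z hz
    rw [← hconst z hz, ← pr_mulVec, ← (hg z hz).proj h (hsO hz), (hf z hz).mem]
  refine ⟨hh (g z0) (f z0), ?_, hfg⟩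
  have h1 := (hf z0 hz0).unit
  rw [hfg z0 hz0, hh_smul_left, hh_smul_right, (hg z0 hz0).unit, mul_one] at h1
  exact h1

/-! ### local frames -/

/-- a smooth unit frame of `P` near `z`. -/
structure Frame (P : E → Matrix (Fin N) (Fin N) ℂ) (e : E → Fin N → ℂ) (z : E) : Prop where
  sm : ∀ i, ContDiffAt ℝ ∞ (fun y => e y i) z
  unit : hh (e z) (e z) = 1
  eq : P z = pr (e z)

theorem exists_frame' (smP : ∀ z ∈ O, ∀ i j, ContDiffAt ℝ ∞ (fun y => P y i j) z)
    (idem : ∀ z ∈ O, P z * P z = P z) (herm : ∀ z ∈ O, (P z).conjTranspose = P z)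
    (rank : ∀ z ∈ O, (P z).trace = 1) (hO : IsOpen O) {z0 : E} (hz0 : z0 ∈ O) :
    ∃ e : E → Fin N → ℂ, ∀ᶠ z in 𝓝 z0, z ∈ O ∧ Frame P e z := by
  have hcol : ∀ z ∈ O, ∀ j, hh (fun i => P z i j) (fun i => P z i j) = P z j j := by
    intro z hz j
    have h1 := congrFun (congrFun (idem z hz) j) j
    rw [Matrix.mul_apply] at h1
    rw [← h1]
    refine Finset.sum_congr rfl fun i _ => ?_
    have : conj (P z i j) = P z j i := by
      have := congrFun (congrFun (herm z hz) j) i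
      simpa [Matrix.conjTranspose_apply] using this
    rw [this]
  have hreal : ∀ z ∈ O, ∀ j, ((P z j j).re : ℂ) = P z j j := by
    intro z hz j
    have : conj (P z j j) = P z j j := by
      have := congrFun (congrFun (herm z hz) j) j
      simpa [Matrix.conjTranspose_apply] using this
    exact Complex.conj_eq_iff_re.1 this
  obtain ⟨j, hj⟩ : ∃ j, P z0 j j ≠ 0 := by
    by_contra hcon
    push Not at hcon
    have := rank z0 hz0
    rw [Matrix.trace, Finset.sum_eq_zero (fun j _ => (Matrix.diag_apply _ _).trans (hcon j))] at this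
    exact zero_ne_one this
  have hpos0 : 0 < (P z0 j j).re := by
    have h1 := hcol z0 hz0 j
    have h2 : (P z0 j j).re = ∑ i, Complex.normSq (P z0 i j) := by
      rw [← h1]
      simp only [hh, Complex.re_sum]
      refine Finset.sum_congr rfl fun i _ => ?_
      rw [← Complex.normSq_eq_conj_mul_self, Complex.ofReal_re]
    have h3 : 0 ≤ (P z0 j j).re := by
      rw [h2]; exact Finset.sum_nonneg fun i _ => Complex.normSq_nonneg _
    rcases h3.eq_or_lt with h4 | h4
    · exact absurd (by rw [← hreal z0 hz0 j, ← h4]; simp) hj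
    · exact h4
  have hcre : ContinuousAt (fun z => (P z j j).re) z0 :=
    Complex.continuous_re.continuousAt.comp (smP z0 hz0 j j).continuousAt
  refine ⟨fun z i => P z i j * ((√(P z j j).re)⁻¹ : ℝ), ?_⟩
  filter_upwards [hO.mem_nhds hz0, hcre.eventually_const_lt hpos0] with z hz hpos
  have hsq : ((√(P z j j).re : ℝ) : ℂ) ^ 2 = P z j j := by
    rw [← Complex.ofReal_pow, Real.sq_sqrt hpos.le, hreal z hz j]
  have hs0 : ((√(P z j j).re : ℝ) : ℂ) ≠ 0 := by
    exact_mod_cast (Real.sqrt_pos.2 hpos).ne'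
  have hunit : hh (fun i => P z i j * ((√(P z j j).re)⁻¹ : ℝ))
      (fun i => P z i j * ((√(P z j j).re)⁻¹ : ℝ)) = 1 := by
    have e1 : (fun i => P z i j * ((√(P z j j).re)⁻¹ : ℝ)) =
        (((√(P z j j).re)⁻¹ : ℝ) : ℂ) • fun i => P z i j := by
      funext i; simp [mul_comm]
    rw [e1, hh_smul_left, hh_smul_right, hcol z hz j, Complex.conj_ofReal]
    push_cast
    field_simp
    exact hsq.symm
  refine ⟨hz, fun i => ?_, hunit, ?_⟩
  · refine (smP z hz i j).mul ?_
    have h1 : ContDiffAt ℝ ∞ (fun y => (P y j j).re) z :=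
      Complex.reCLM.contDiff.contDiffAt.comp z (smP z hz j j)
    have h2 : ContDiffAt ℝ ∞ (fun y => (√(P y j j).re)⁻¹) z :=
      (h1.sqrt hpos.ne').inv (Real.sqrt_pos.2 hpos).ne'
    exact Complex.ofRealCLM.contDiff.contDiffAt.comp z h2
  · refine proj_eq (idem z hz) (herm z hz) (rank z hz) ?_ hunit
    have e1 : (fun i => P z i j * ((√(P z j j).re)⁻¹ : ℝ)) =
        (((√(P z j j).re)⁻¹ : ℝ) : ℂ) • fun i => P z i j := by
      funext i; simp [mul_comm]
    rw [e1, Matrix.mulVec_smul]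
    congr 1
    funext i
    exact congrFun (congrFun (idem z hz) i) j

theorem exists_frame (h : Bun P T O) (hO : IsOpen O) {z0 : E} (hz0 : z0 ∈ O) :
    ∃ e : E → Fin N → ℂ, ∀ᶠ z in 𝓝 z0, z ∈ O ∧ Frame P e z :=
  exists_frame' h.smP h.idem h.herm h.rank hO hz0

/-- the connection form of a frame, `⟨e, de⟩ = 2πi al e`. -/
def al (e : E → Fin N → ℂ) (z : E) : E →L[ℝ] ℝ :=
  (1 / (2 * Real.pi)) • ∑ i, ((e z i).re • fderiv ℝ (fun y => (e y i).im) z -
    (e z i).im • fderiv ℝ (fun y => (e y i).re) z)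

theorem sm_re {e : E → ℂ} {z : E} (he : ContDiffAt ℝ ∞ e z) :
    ContDiffAt ℝ ∞ (fun y => (e y).re) z := Complex.reCLM.contDiff.contDiffAt.comp z he

theorem sm_im {e : E → ℂ} {z : E} (he : ContDiffAt ℝ ∞ e z) :
    ContDiffAt ℝ ∞ (fun y => (e y).im) z := Complex.imCLM.contDiff.contDiffAt.comp z he

theorem sm_al {e : E → Fin N → ℂ} {z : E} (he : ∀ i, ContDiffAt ℝ ∞ (fun y => e y i) z) :
    ContDiffAt ℝ ∞ (al e) z := by
  have h1 : ContDiffAt ℝ ∞ (fun z => ∑ i, ((e z i).re • fderiv ℝ (fun y => (e y i).im) z -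
      (e z i).im • fderiv ℝ (fun y => (e y i).re) z)) z := by
    refine ContDiffAt.sum fun i _ => ?_
    refine ContDiffAt.sub ?_ ?_
    · exact (sm_re (he i)).smul ((sm_im (he i)).fderiv_right (m := ∞) (by simp))
    · exact (sm_im (he i)).smul ((sm_re (he i)).fderiv_right (m := ∞) (by simp))
  exact (contDiffAt_const (c := (1 / (2 * Real.pi) : ℝ))).smul h1

theorem fderiv_re {e : E → ℂ} {z : E} (he : DifferentiableAt ℝ e z) (u : E) :
    fderiv ℝ (fun y => (e y).re) z u = (fderiv ℝ e z u).re := by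
  have h := (Complex.reCLM.hasFDerivAt (x := e z)).comp z he.hasFDerivAt
  have h2 : fderiv ℝ (fun y => (e y).re) z = _ := h.fderiv
  rw [h2]; rfl

theorem fderiv_im {e : E → ℂ} {z : E} (he : DifferentiableAt ℝ e z) (u : E) :
    fderiv ℝ (fun y => (e y).im) z u = (fderiv ℝ e z u).im := by
  have h := (Complex.imCLM.hasFDerivAt (x := e z)).comp z he.hasFDerivAt
  have h2 : fderiv ℝ (fun y => (e y).im) z = _ := h.fderiv
  rw [h2]; rfl

/-- `al` is the imaginary part of `⟨e, de⟩ / 2π` -/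
theorem al_apply {e : E → Fin N → ℂ} {z : E} (he : ∀ i, DifferentiableAt ℝ (fun y => e y i) z)
    (u : E) : al e z u = (1 / (2 * Real.pi)) * (hh (e z) (dv e z u)).im := by
  simp only [al, smul_apply, sum_apply, sub_apply, smul_eq_mul, hh, dv, Complex.im_sum]
  congr 1
  refine Finset.sum_congr rfl fun i _ => ?_
  rw [fderiv_re (he i), fderiv_im (he i)]
  simp only [Complex.mul_im, Complex.conj_re, Complex.conj_im]
  ring

/-- `⟨e, de⟩ = 2πi al` for unit frames. -/
theorem hh_dv {e : E → Fin N → ℂ} {z : E} (he : ∀ i, DifferentiableAt ℝ (fun y => e y i) z)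
    (h1 : ∀ᶠ y in 𝓝 z, hh (e y) (e y) = 1) (u : E) :
    hh (e z) (dv e z u) = 2 * Real.pi * I * al e z u := by
  have h2 := deriv_unit he h1 u
  have h3 : conj (hh (e z) (dv e z u)) = - hh (e z) (dv e z u) := by
    rw [hh_conj]; exact h2
  have h4 : (hh (e z) (dv e z u)).re = 0 := by
    have := congrArg Complex.re h3
    simp only [Complex.conj_re, Complex.neg_re] at this
    linarith
  rw [al_apply he]
  apply Complex.ext
  · rw [h4]; simp
  · have hpi : Real.pi ≠ 0 := Real.pi_ne_zero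
    simp only [Complex.mul_im, Complex.mul_re, Complex.I_re, Complex.I_im, Complex.ofReal_re,
      Complex.ofReal_im, Complex.re_ofNat, Complex.im_ofNat]
    field_simp
    ring

/-- exterior derivative of the connection form -/
theorem d1_al {e : E → Fin N → ℂ} {z : E} (he : ∀ i, ContDiffAt ℝ ∞ (fun y => e y i) z)
    (u v : E) : d1 (al e) z u v = (1 / (2 * Real.pi)) * ∑ i,
      2 * ((dv e z u i).re * (dv e z v i).im - (dv e z v i).re * (dv e z u i).im) := by
  have hd : ∀ i, DifferentiableAt ℝ (fun y => e y i) z := fun i =>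
    (he i).differentiableAt (by simp)
  have hre : ∀ i, DifferentiableAt ℝ (fun y => (e y i).re) z := fun i =>
    (sm_re (he i)).differentiableAt (by simp)
  have him : ∀ i, DifferentiableAt ℝ (fun y => (e y i).im) z := fun i =>
    (sm_im (he i)).differentiableAt (by simp)
  have hre2 : ∀ i, DifferentiableAt ℝ (fderiv ℝ (fun y => (e y i).re)) z := fun i =>
    ((sm_re (he i)).fderiv_right (m := ∞) (by simp)).differentiableAt (by simp)
  have him2 : ∀ i, DifferentiableAt ℝ (fderiv ℝ (fun y => (e y i).im)) z := fun i =>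
    ((sm_im (he i)).fderiv_right (m := ∞) (by simp)).differentiableAt (by simp)
  have key : ∀ u v, fderiv ℝ (al e) z u v = (1 / (2 * Real.pi)) * ∑ i,
      (((dv e z u i).re * (dv e z v i).im - (dv e z u i).im * (dv e z v i).re) +
        ((e z i).re * fderiv ℝ (fderiv ℝ (fun y => (e y i).im)) z u v -
          (e z i).im * fderiv ℝ (fderiv ℝ (fun y => (e y i).re)) z u v)) := by
    intro u v
    have h1 : HasFDerivAt (al e) ((1 / (2 * Real.pi)) • ∑ i,
        (((e z i).re • fderiv ℝ (fderiv ℝ (fun y => (e y i).im)) z +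
          (fderiv ℝ (fun y => (e y i).re) z).smulRight (fderiv ℝ (fun y => (e y i).im) z)) -
        ((e z i).im • fderiv ℝ (fderiv ℝ (fun y => (e y i).re)) z +
          (fderiv ℝ (fun y => (e y i).im) z).smulRight (fderiv ℝ (fun y => (e y i).re) z)))) z := by
      have h2 : HasFDerivAt (fun z => ∑ i, ((e z i).re • fderiv ℝ (fun y => (e y i).im) z -
          (e z i).im • fderiv ℝ (fun y => (e y i).re) z)) (∑ i,
        (((e z i).re • fderiv ℝ (fderiv ℝ (fun y => (e y i).im)) z +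
          (fderiv ℝ (fun y => (e y i).re) z).smulRight (fderiv ℝ (fun y => (e y i).im) z)) -
        ((e z i).im • fderiv ℝ (fderiv ℝ (fun y => (e y i).re)) z +
          (fderiv ℝ (fun y => (e y i).im) z).smulRight (fderiv ℝ (fun y => (e y i).re) z)))) z := by
        refine HasFDerivAt.fun_sum fun i _ => ?_
        exact ((hre i).hasFDerivAt.smul (him2 i).hasFDerivAt).sub
          ((him i).hasFDerivAt.smul (hre2 i).hasFDerivAt)
      exact h2.const_smul (1 / (2 * Real.pi) : ℝ)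
    rw [h1.fderiv]
    simp only [smul_apply, sum_apply, sub_apply, add_apply, smul_eq_mul,
      ContinuousLinearMap.smulRight_apply]
    congr 1
    refine Finset.sum_congr rfl fun i _ => ?_
    rw [fderiv_re (hd i), fderiv_im (hd i), fderiv_re (hd i), fderiv_im (hd i)]
    unfold dv
    ring
  rw [d1_apply, key, key, ← mul_sub, ← Finset.sum_sub_distrib]
  congr 1
  refine Finset.sum_congr rfl fun i _ => ?_
  rw [snd_symm (sm_re (he i)) u v, snd_symm (sm_im (he i)) u v]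
  ring

/-- curvature in terms of the frame -/
theorem curv_frame {e : E → Fin N → ℂ} {z : E} (he : ∀ᶠ y in 𝓝 z, Frame P e y) (u v : E) :
    ((I / (2 * Real.pi)) * (P z * (dP P z u * dP P z v - dP P z v * dP P z u)).trace).re =
      - d1 (al e) z u v := by
  have h0 := he.self_of_nhds
  have hd : ∀ i, DifferentiableAt ℝ (fun y => e y i) z := fun i =>
    (h0.sm i).differentiableAt (by simp)
  have hP : ∀ u, dP P z u = Matrix.of fun i j => fderiv ℝ (fun y => pr (e y) i j) z u := by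
    intro u
    unfold dP
    congr 1
    funext i j
    have : (fun y => P y i j) =ᶠ[𝓝 z] fun y => pr (e y) i j :=
      he.mono fun y hy => by show P y i j = _; rw [hy.eq]
    rw [this.fderiv_eq]
  rw [hP, hP, h0.eq, curv_pr hd (he.mono fun y hy => hy.unit), d1_al h0.sm]
  have h1 : ∀ i, conj (fderiv ℝ (fun y => e y i) z u) * fderiv ℝ (fun y => e y i) z v -
      conj (fderiv ℝ (fun y => e y i) z v) * fderiv ℝ (fun y => e y i) z u =
      I * ((2 * ((dv e z u i).re * (dv e z v i).im - (dv e z v i).re * (dv e z u i).im) : ℝ) : ℂ) := by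
    intro i
    unfold dv
    apply Complex.ext
    · simp only [Complex.sub_re, Complex.mul_re, Complex.conj_re, Complex.conj_im, Complex.I_re,
        Complex.I_im, Complex.ofReal_re, Complex.ofReal_im]
      ring
    · simp only [Complex.sub_im, Complex.mul_im, Complex.conj_re, Complex.conj_im, Complex.I_re,
        Complex.I_im, Complex.ofReal_re, Complex.ofReal_im]
      ring
  simp only [h1]
  rw [← Finset.mul_sum, ← Complex.ofReal_sum]
  have h2 : (I / (2 * Real.pi)) * (I * ((∑ i, 2 * ((dv e z u i).re * (dv e z v i).im -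
      (dv e z v i).re * (dv e z u i).im) : ℝ) : ℂ)) =
      ((-(1 / (2 * Real.pi) * ∑ i, 2 * ((dv e z u i).re * (dv e z v i).im -
      (dv e z v i).re * (dv e z u i).im)) : ℝ) : ℂ) := by
    push_cast
    linear_combination (1 / (2 * (Real.pi : ℂ)) * ∑ i, 2 * (((dv e z u i).re : ℂ) *
      (dv e z v i).im - (dv e z v i).re * (dv e z u i).im)) * Complex.I_mul_I
  rw [h2, Complex.ofReal_re]

variable [FiniteDimensional ℝ E]

/-- **local existence of parallel sections.** -/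
theorem exists_par (h : Bun P T O) (hO : IsOpen O) {z0 : E} (hz0 : z0 ∈ O) :
    ∃ r : ℝ, 0 < r ∧ Metric.ball z0 r ⊆ O ∧ ∃ l : E → Fin N → ℂ,
      ∀ z ∈ Metric.ball z0 r, Good P T l z := by
  obtain ⟨e, he⟩ := exists_frame h hO hz0
  obtain ⟨r, hr, hb⟩ := Metric.eventually_nhds_iff_ball.1 he
  have hev : ∀ z ∈ Metric.ball z0 r, ∀ᶠ y in 𝓝 z, Frame P e y := fun z hz => by
    filter_upwards [Metric.isOpen_ball.mem_nhds hz] with y hy using (hb y hy).2
  have hsm : ContDiffOn ℝ ∞ (fun z => T z - al e z) (Metric.ball z0 r) := fun z hz =>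
    ((h.smT z (hb z hz).1).sub (sm_al (hb z hz).2.sm)).contDiffWithinAt
  obtain ⟨g, hg⟩ := R281.Poi_234.poincare1 Metric.isOpen_ball (convex_ball z0 r) hsm (by
    intro z hz u v
    have hT := (h.smT z (hb z hz).1).differentiableAt (n := ∞) (by simp)
    have ha := (sm_al (hb z hz).2.sm).differentiableAt (n := ∞) (by simp)
    have h1 := h.curv z (hb z hz).1 u v
    rw [curv_frame (hev z hz) u v, neg_neg, d1_apply, d1_apply] at h1
    have h2 : fderiv ℝ (fun z => T z - al e z) z = fderiv ℝ T z - fderiv ℝ (al e) z :=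
      (hT.hasFDerivAt.sub ha.hasFDerivAt).fderiv
    rw [h2]
    simp only [sub_apply]
    linarith)
  have hgs := R281.Poi_234.contDiffOn_of_hasFDerivAt Metric.isOpen_ball hsm hg
  refine ⟨r, hr, fun z hz => (hb z hz).1, fun z => ex (g z) • e z, fun z hz => ?_⟩
  have hF := (hb z hz).2
  have hgd : DifferentiableAt ℝ g z := (hg z hz).differentiableAt
  have hed : ∀ i, DifferentiableAt ℝ (fun y => e y i) z := fun i =>
    (hF.sm i).differentiableAt (by simp)
  have hexs : ContDiffAt ℝ ∞ (fun y => ex (g y)) z :=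
    contDiff_ex.contDiffAt.comp z (hgs.contDiffAt (Metric.isOpen_ball.mem_nhds hz))
  have hdl : ∀ v, dv (fun z => ex (g z) • e z) z v =
      (2 * Real.pi * I * ex (g z) * ((T z v - al e z v : ℝ) : ℂ)) • e z + ex (g z) • dv e z v := by
    intro v
    funext i
    have e1 : (fun y => (ex (g y) • e y) i) = fun y => ex (g y) * e y i := rfl
    unfold dv
    rw [e1, fderiv_fun_mul (hexs.differentiableAt (by simp)) (hed i)]
    simp only [add_apply, smul_apply, smul_eq_mul, Pi.add_apply, Pi.smul_apply]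
    rw [fderiv_ex hgd, (hg z hz).fderiv]
    simp only [sub_apply]
    push_cast
    ring
  have hunit := hF.unit
  refine ⟨fun i => hexs.mul (hF.sm i), ?_, ?_, fun v => ?_⟩
  · rw [hF.eq, pr_mulVec, hh_smul_right, hunit, mul_one]
  · rw [hh_smul_left, hh_smul_right, hunit, mul_one, ex_mul_conj]
  · rw [hdl, hF.eq, pr_mulVec, hh_add_right, hh_smul_right, hh_smul_right, hunit,
      hh_dv hed ((hev z hz).mono fun y hy => hy.unit), smul_smul]
    congr 1
    push_cast
    ring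


theorem par_cmp (h : Bun P T O) (hO : IsOpen O) {z : E} (hz : z ∈ O) {f g : E → Fin N → ℂ}
    (hf : Par P T z f) (hg : Par P T z g) :
    ∃ c : ℂ, conj c * c = 1 ∧ ∀ᶠ y in 𝓝 z, f y = c • g y ∧ Good P T g y := by
  obtain ⟨r, hr, hb⟩ := Metric.eventually_nhds_iff_ball.1 ((hO.eventually_mem hz).and (hf.and hg))
  obtain ⟨c, hc, he⟩ := exists_const h (fun y hy => (hb y hy).1) Metric.isOpen_ball
    (convex_ball z r).isPreconnected (fun y hy => (hb y hy).2.1) (fun y hy => (hb y hy).2.2)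
  refine ⟨c, hc, ?_⟩
  filter_upwards [Metric.ball_mem_nhds z hr] with y hy
  exact ⟨he y hy, (hb y hy).2.2⟩

/-- the germs form a system. -/
theorem sys (h : Bun P T O) (hO : IsOpen O) : Sys O (fun z l => z ∈ O ∧ Par P T z l) where
  congr z f g := by
    rintro ⟨hz, hf⟩ hfg
    refine ⟨hz, ?_⟩
    filter_upwards [hf, hfg.eventuallyEq_nhds] with y h1 h2
    exact h1.congr h2
  opn z f := by
    rintro ⟨hz, hf⟩
    exact (hO.eventually_mem hz).and (eventually_eventually_nhds.2 hf)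
  uniq z f g := by
    rintro ⟨hz, hf⟩ ⟨_, hg⟩ hfg
    obtain ⟨c, _, he⟩ := par_cmp h hO hz hf hg
    have h1 := he.self_of_nhds
    have hc1 : c = 1 := by
      have h2 : (c - 1) • g z = 0 := by
        rw [sub_smul, one_smul, ← h1.1, hfg, sub_self]
      rcases smul_eq_zero.1 h2 with h3 | h3
      · exact sub_eq_zero.1 h3
      · exact absurd h3 (ne_zero_of_unit h1.2.unit)
    filter_upwards [he] with y hy
    rw [hy.1, hc1, one_smul]
  sep z f g := by
    rintro ⟨hz, hf⟩ ⟨_, hg⟩ hfg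
    obtain ⟨c, _, he⟩ := par_cmp h hO hz hf hg
    have hc1 : c ≠ 1 := by
      rintro rfl
      exact hfg (by rw [he.self_of_nhds.1, one_smul])
    filter_upwards [he] with y hy
    intro h1
    have h2 : (c - 1) • g y = 0 := by
      rw [sub_smul, one_smul, ← hy.1, h1, sub_self]
    rcases smul_eq_zero.1 h2 with h3 | h3
    · exact hc1 (sub_eq_zero.1 h3)
    · exact ne_zero_of_unit hy.2.unit h3
  ext z hz := by
    obtain ⟨r, hr, hrO, l, hl⟩ := exists_par h hO hz
    have hpar : ∀ y ∈ Metric.ball z r, Par P T y l := fun y hy => by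
      filter_upwards [Metric.isOpen_ball.mem_nhds hy] with x hx using hl x hx
    refine ⟨Metric.ball z r, Metric.ball_mem_nhds z hr, fun y hy g hg => ?_⟩
    obtain ⟨c, hc, he⟩ := par_cmp h hO (hrO hy) hg.2 (hpar y hy)
    refine ⟨fun x => c • l x, fun x hx => ⟨hrO hx, ?_⟩, he.self_of_nhds.1.symm⟩
    filter_upwards [hpar x hx] with w hw using hw.smul hc

end

section Punctured

open Crest.Agent.R240 Crest.Agent.R235.KT_604

variable {N : ℕ} {P : E4 → Matrix (Fin N) (Fin N) ℂ} {T : E4 → E4 →L[ℝ] ℝ} {r : ℝ}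

/-- **global parallel unit section on the punctured ball.** -/
theorem exists_psi (hr : 0 < r) (h : Bun P T (PB r)) :
    ∃ psi : E4 → Fin N → ℂ, ∀ z ∈ PB r, Good P T psi z := by
  have hq : pt 1 2 (r / 4) (r / 4) ∈ PB r := by
    rw [PB_eq_cyl]
    refine ⟨norm_pt hr _ _ ?_ ?_, 1, by simp, ?_⟩
    · rw [abs_of_pos (by positivity)]
    · rw [abs_of_pos (by positivity)]
    · rw [pt_left (by decide)]; positivity
  obtain ⟨s, hs, hsO, l, hl⟩ := exists_par h (isOpen_PB r) hq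
  have hpar : Par P T (pt 1 2 (r / 4) (r / 4)) l := by
    filter_upwards [Metric.ball_mem_nhds _ hs] with y hy using hl y hy
  obtain ⟨F, _, hF⟩ := (sys h (isOpen_PB r)).punctured hr hq ⟨hq, hpar⟩
  exact ⟨F, fun z hz => (hF z hz).2.self_of_nhds⟩

theorem neg_mem_PB {z : E4} (hz : z ∈ PB r) : -z ∈ PB r := ⟨neg_ne_zero.2 hz.1, by
  rw [norm_neg]; exact hz.2⟩

/-- the pull-back of a parallel section by `z ↦ -z`. -/
theorem Good.comp_neg {psi : E4 → Fin N → ℂ} {z : E4} (hP : P (-z) = P z) (hT : T (-z) = - T z)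
    (h : Good P T psi (-z)) : Good P T (fun y => psi (-y)) z := by
  have hd : ∀ v, dv (fun y => psi (-y)) z v = - dv psi (-z) v := by
    intro v
    funext i
    unfold dv
    have h1 : HasFDerivAt (fun y : E4 => psi (-y) i)
        ((fderiv ℝ (fun y => psi y i) (-z)).comp (-(ContinuousLinearMap.id ℝ E4))) z := by
      have h2 : HasFDerivAt (fun y : E4 => -y) (-(ContinuousLinearMap.id ℝ E4)) z :=
        (hasFDerivAt_id z).neg
      exact HasFDerivAt.comp z (g := fun y => psi y i) (h.diff i).hasFDerivAt h2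
    rw [h1.fderiv]
    simp
  refine ⟨fun i => ?_, ?_, h.unit, fun v => ?_⟩
  · exact ContDiffAt.comp z (g := fun y => psi y i) (h.sm i) contDiff_neg.contDiffAt
  · rw [← hP]; exact h.mem
  · rw [hd, Matrix.mulVec_neg, ← hP, h.par, ← neg_smul]
    congr 1
    rw [hT]
    simp

/-- if the data are even, `psi (-z) = c psi z` with a constant `c = ± 1`. -/
theorem exists_sign (hr : 0 < r) (h : Bun P T (PB r)) (hP : ∀ z ∈ PB r, P (-z) = P z)
    (hT : ∀ z ∈ PB r, T (-z) = - T z) {psi : E4 → Fin N → ℂ}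
    (hpsi : ∀ z ∈ PB r, Good P T psi z) :
    ∃ c : ℂ, (c = 1 ∨ c = -1) ∧ ∀ z ∈ PB r, psi (-z) = c • psi z := by
  obtain ⟨c, hc, he⟩ := exists_const h Subset.rfl (isOpen_PB r) (isPreconnected_PB hr)
    (f := fun z => psi (-z)) (fun z hz => (hpsi _ (neg_mem_PB hz)).comp_neg (hP z hz) (hT z hz))
    hpsi
  refine ⟨c, ?_, he⟩
  have hq : pt 1 2 (r / 4) (r / 4) ∈ PB r := by
    rw [PB_eq_cyl]
    refine ⟨norm_pt hr _ _ ?_ ?_, 1, by simp, ?_⟩
    · rw [abs_of_pos (by positivity)]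
    · rw [abs_of_pos (by positivity)]
    · rw [pt_left (by decide)]; positivity
  have h1 := he _ hq
  have h2 := he _ (neg_mem_PB hq)
  rw [neg_neg, h1, smul_smul] at h2
  have h3 : (c * c - 1) • psi (pt 1 2 (r / 4) (r / 4)) = 0 := by
    rw [sub_smul, one_smul, ← h2, sub_self]
  rcases smul_eq_zero.1 h3 with h4 | h4
  · exact mul_self_eq_one_iff.1 (sub_eq_zero.1 h4)
  · exact absurd h4 (ne_zero_of_unit (hpsi _ hq).unit)

end Punctured

end Crest.Agent.R235.Par_387
end

-- ▼ part R235/KumTwB_303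
section

/-!
Row 235, PACKAGE KUM, node KTW (b), helper303: the monodromy sign of a parallel section on a neck.

`ode_sign`: if `y' = (i s / 2 + 2 π i α) y` on `[0, 2π]`, `y (2π) = c y (0)`, with `|α| ≤ C r` for
small `r`, then `c = exp (π i s)`.
`sign`: the manifold version (disc through the removed sphere).
-/

set_option autoImplicit false
set_option maxSynthPendingDepth 3

open Set Function Filter MeasureTheory
open scoped Manifold ContDiff Topology

universe u

namespace Crest.Agent.R235.KumTwB_303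

open Crest.Agent.R240 Crest.Agent.R240.Ch Crest.Agent.R235.KT_604 Crest.Agent.R235.Pull_129
open Complex

noncomputable section

/-! ### the ordinary differential equation -/

/-- one loop: the holonomy is close to `exp (i s π)`. -/
theorem loop_bound {y : ℝ → ℂ} {α : ℝ → ℝ} {s B : ℝ} {c : ℂ} (hB : 0 ≤ B)
    (h0 : y 0 ≠ 0) (hc : y (2 * Real.pi) = c * y 0)
    (hy : ∀ t ∈ Icc (0 : ℝ) (2 * Real.pi),
      HasDerivAt y ((I * (s / 2) + 2 * Real.pi * I * α t) * y t) t)
    (hα : ∀ t ∈ Icc (0 : ℝ) (2 * Real.pi), |α t| ≤ B) :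
    ‖Complex.exp (-(I * (s * Real.pi))) * c - 1‖ ≤
      Real.exp (2 * Real.pi * B * (2 * Real.pi)) - 1 := by
  set g : ℝ → ℂ := fun t => Complex.exp (-(I * (s / 2)) * t) * y t with hg
  have hg' : ∀ t ∈ Icc (0 : ℝ) (2 * Real.pi),
      HasDerivAt g (2 * Real.pi * I * α t * g t) t := by
    intro t ht
    have h1 : HasDerivAt (fun t : ℝ => -(I * (s / 2 : ℂ)) * (t : ℂ)) (-(I * (s / 2 : ℂ)) * 1) t :=
      (Complex.ofRealCLM.hasDerivAt (x := t)).const_mul _
    have h2 := h1.cexp.mul (hy t ht)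
    refine h2.congr_deriv ?_
    simp only [hg]
    ring
  have hpi : 0 < Real.pi := Real.pi_pos
  have hn : ∀ t ∈ Icc (0 : ℝ) (2 * Real.pi), ‖2 * Real.pi * I * α t * g t‖ ≤
      2 * Real.pi * B * ‖g t‖ := by
    intro t ht
    rw [norm_mul, norm_mul, norm_mul, norm_mul, Complex.norm_I, mul_one, Complex.norm_real,
      Complex.norm_real, Complex.norm_ofNat, Real.norm_of_nonneg hpi.le, Real.norm_eq_abs]
    exact mul_le_mul_of_nonneg_right (mul_le_mul_of_nonneg_left (hα t ht) (by positivity))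
      (norm_nonneg _)
  have hK : 0 ≤ 2 * Real.pi * B := by positivity
  have hgr := norm_le_gronwallBound_of_norm_deriv_right_le (f := fun t => g t - g 0)
    (f' := fun t => 2 * Real.pi * I * α t * g t) (δ := 0) (K := 2 * Real.pi * B)
    (ε := 2 * Real.pi * B * ‖g 0‖) (a := 0) (b := 2 * Real.pi)
    (fun t ht => ((hg' t ht).sub_const (g 0)).continuousAt.continuousWithinAt)
    (fun t ht => ((hg' t ⟨ht.1, ht.2.le⟩).sub_const (g 0)).hasDerivWithinAt)
    (by simp)
    (fun t ht => by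
      refine (hn t ⟨ht.1, ht.2.le⟩).trans ?_
      rw [← mul_add]
      refine mul_le_mul_of_nonneg_left ?_ hK
      calc ‖g t‖ = ‖(g t - g 0) + g 0‖ := by ring_nf
        _ ≤ _ := norm_add_le _ _)
    (2 * Real.pi) ⟨by positivity, le_rfl⟩
  have hbound : gronwallBound 0 (2 * Real.pi * B) (2 * Real.pi * B * ‖g 0‖) (2 * Real.pi - 0) =
      ‖g 0‖ * (Real.exp (2 * Real.pi * B * (2 * Real.pi)) - 1) := by
    by_cases hz : 2 * Real.pi * B = 0
    · rw [hz, gronwallBound_K0]; simp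
    · rw [gronwallBound_of_K_ne_0 hz]
      simp only [zero_mul, zero_add, sub_zero]
      rw [mul_comm (2 * Real.pi * B) ‖g 0‖, mul_div_assoc, div_self hz, mul_one]
  rw [hbound] at hgr
  have hg0 : g 0 = y 0 := by simp [hg]
  have hg2 : g (2 * Real.pi) = Complex.exp (-(I * (s * Real.pi))) * c * y 0 := by
    simp only [hg]
    rw [hc]
    rw [show (-(I * ((s : ℂ) / 2)) * ((2 * Real.pi : ℝ) : ℂ)) = -(I * (s * Real.pi)) by
      push_cast; ring]
    ring
  have hpos : 0 < ‖y 0‖ := norm_pos_iff.2 h0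
  rw [hg2, hg0] at hgr
  have e : Complex.exp (-(I * (s * Real.pi))) * c * y 0 - y 0 =
      y 0 * (Complex.exp (-(I * (s * Real.pi))) * c - 1) := by ring
  rw [e, norm_mul] at hgr
  exact le_of_mul_le_mul_left hgr hpos

/-- the holonomy of small loops. -/
theorem ode_sign {s C r₀ : ℝ} {c : ℂ} (hC : 0 ≤ C) (hr₀ : 0 < r₀)
    (h : ∀ r : ℝ, 0 < r → r < r₀ → ∃ (y : ℝ → ℂ) (α : ℝ → ℝ), y 0 ≠ 0 ∧
      y (2 * Real.pi) = c * y 0 ∧
      (∀ t ∈ Icc (0 : ℝ) (2 * Real.pi),
        HasDerivAt y ((I * (s / 2) + 2 * Real.pi * I * α t) * y t) t) ∧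
      ∀ t ∈ Icc (0 : ℝ) (2 * Real.pi), |α t| ≤ C * r) :
    c = Complex.exp (Real.pi * I * s) := by
  have h1 : ∀ᶠ r : ℝ in 𝓝[>] 0, ‖Complex.exp (-(I * (s * Real.pi))) * c - 1‖ ≤
      Real.exp (2 * Real.pi * (C * r) * (2 * Real.pi)) - 1 := by
    filter_upwards [Ioo_mem_nhdsGT hr₀] with r hr
    obtain ⟨y, α, h2, h3, h4, h5⟩ := h r hr.1 hr.2
    exact loop_bound (mul_nonneg hC hr.1.le) h2 h3 h4 h5
  have h2 : Tendsto (fun r : ℝ => Real.exp (2 * Real.pi * (C * r) * (2 * Real.pi)) - 1)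
      (𝓝[>] 0) (𝓝 0) := by
    have hc : Continuous fun r : ℝ => Real.exp (2 * Real.pi * (C * r) * (2 * Real.pi)) - 1 := by
      fun_prop
    have := (hc.tendsto 0).mono_left (nhdsWithin_le_nhds (s := Ioi (0 : ℝ)))
    simpa using this
  have h3 : ‖Complex.exp (-(I * (s * Real.pi))) * c - 1‖ ≤ 0 := ge_of_tendsto h2 h1
  have h4 : Complex.exp (-(I * (s * Real.pi))) * c = 1 := by
    rw [← sub_eq_zero]
    exact norm_le_zero_iff.1 h3
  have h5 : Complex.exp (Real.pi * I * s) * Complex.exp (-(I * (s * Real.pi))) = 1 := by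
    rw [← Complex.exp_add]
    rw [show (Real.pi * I * s : ℂ) + -(I * (s * Real.pi)) = 0 by ring, Complex.exp_zero]
  calc c = Complex.exp (Real.pi * I * s) * Complex.exp (-(I * (s * Real.pi))) * c := by
        rw [h5, one_mul]
    _ = Complex.exp (Real.pi * I * s) * (Complex.exp (-(I * (s * Real.pi))) * c) := by ring
    _ = _ := by rw [h4, mul_one]

/-! ### quaternions -/

theorem qi_add (z w : E4) : qi (z + w) = qi z + qi w := by
  ext i; fin_cases i <;> simp [qi] <;> ring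

theorem qi_smul (a : ℝ) (z : E4) : qi (a • z) = a • qi z := by
  ext i; fin_cases i <;> simp [qi]

theorem qi_qi (z : E4) : qi (qi z) = -z := by
  ext i; fin_cases i <;> simp [qi]

theorem inner_qi (z : E4) : inner ℝ z (qi z) = 0 := by
  simp [PiLp.inner_apply, Fin.sum_univ_four, qi]
  ring

theorem norm_qi (z : E4) : ‖qi z‖ = ‖z‖ := by
  rw [EuclideanSpace.norm_eq, EuclideanSpace.norm_eq]
  congr 1
  simp [Fin.sum_univ_four, qi]
  ring

/-- the half loop. -/
def zz (v : E4) (r t : ℝ) : E4 := √r • (Real.cos (t / 2) • v + Real.sin (t / 2) • qi v)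

theorem norm_zz {v : E4} (hv : ‖v‖ = 1) (r t : ℝ) : ‖zz v r t‖ = √r := by
  unfold zz
  rw [norm_smul, Real.norm_of_nonneg (Real.sqrt_nonneg r)]
  have h : ‖Real.cos (t / 2) • v + Real.sin (t / 2) • qi v‖ ^ 2 = 1 := by
    rw [norm_add_sq_real, norm_smul, norm_smul, norm_qi, hv, real_inner_smul_left,
      real_inner_smul_right, inner_qi]
    simp
  have h2 : ‖Real.cos (t / 2) • v + Real.sin (t / 2) • qi v‖ = 1 := by
    rw [← Real.sqrt_sq (norm_nonneg (Real.cos (t / 2) • v + Real.sin (t / 2) • qi v)), h,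
      Real.sqrt_one]
  rw [h2, mul_one]

theorem hasDerivAt_zz (v : E4) (r t : ℝ) :
    HasDerivAt (zz v r) ((1 / 2 : ℝ) • qi (zz v r t)) t := by
  have hh : HasDerivAt (fun t : ℝ => t / 2) (1 / 2) t := (hasDerivAt_id t).div_const 2
  have h1 : HasDerivAt (fun t : ℝ => Real.cos (t / 2)) (-Real.sin (t / 2) * (1 / 2)) t :=
    hh.cos
  have h2 : HasDerivAt (fun t : ℝ => Real.sin (t / 2)) (Real.cos (t / 2) * (1 / 2)) t :=
    hh.sin
  have h3 := ((h1.smul_const v).add (h2.smul_const (qi v))).const_smul (√r)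
  refine h3.congr_deriv ?_
  unfold zz
  rw [qi_smul, qi_add, qi_smul, qi_smul, qi_qi]
  module

theorem zz_end (v : E4) (r : ℝ) : zz v r (2 * Real.pi) = - zz v r 0 := by
  unfold zz
  rw [show 2 * Real.pi / 2 = Real.pi by ring]
  simp

theorem thL_zz {z : E4} (hz : z ≠ 0) : thL z ((1 / 2 : ℝ) • qi z) = 1 := by
  unfold thL
  have h : ‖z‖ ≠ 0 := norm_ne_zero_iff.2 hz
  simp only [smul_apply, innerSL_apply_apply, smul_eq_mul, real_inner_smul_right,
    real_inner_self_eq_norm_sq, norm_qi]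
  field_simp

/-! ### circles in the plane -/

/-- the circle of radius `r`. -/
def ee (r t : ℝ) : Ep := WithLp.toLp 2 ![r * Real.cos t, r * Real.sin t]

/-- its velocity. -/
def ee' (r t : ℝ) : Ep := WithLp.toLp 2 ![r * -Real.sin t, r * Real.cos t]

theorem norm_ee {r : ℝ} (hr : 0 ≤ r) (t : ℝ) : ‖ee r t‖ = r := by
  rw [EuclideanSpace.norm_eq]
  have : ∑ i : Fin 2, ‖(ee r t) i‖ ^ 2 = r ^ 2 := by
    simp only [ee, Fin.sum_univ_two, Real.norm_eq_abs, sq_abs]
    simp only [Matrix.cons_val_zero, Matrix.cons_val_one]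
    nlinarith [Real.sin_sq_add_cos_sq t]
  rw [this, Real.sqrt_sq hr]

theorem norm_ee' {r : ℝ} (hr : 0 ≤ r) (t : ℝ) : ‖ee' r t‖ = r := by
  rw [EuclideanSpace.norm_eq]
  have : ∑ i : Fin 2, ‖(ee' r t) i‖ ^ 2 = r ^ 2 := by
    simp only [ee', Fin.sum_univ_two, Real.norm_eq_abs, sq_abs]
    simp only [Matrix.cons_val_zero, Matrix.cons_val_one]
    nlinarith [Real.sin_sq_add_cos_sq t]
  rw [this, Real.sqrt_sq hr]

theorem hasDerivAt_ee (r t : ℝ) : HasDerivAt (ee r) (ee' r t) t := by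
  have h0 : ∀ a b : ℝ, (WithLp.toLp 2 ![a, b] : Ep) =
      a • (WithLp.toLp 2 ![1, 0] : Ep) + b • (WithLp.toLp 2 ![0, 1] : Ep) := by
    intro a b
    ext i; fin_cases i <;> simp
  have h1 : ee r = fun t => (r * Real.cos t) • (WithLp.toLp 2 ![1, 0] : Ep) +
      (r * Real.sin t) • (WithLp.toLp 2 ![0, 1] : Ep) := funext fun t => h0 _ _
  rw [h1]
  exact ((((Real.hasDerivAt_cos t).const_mul r).smul_const (WithLp.toLp 2 ![1, 0] : Ep)).add
    (((Real.hasDerivAt_sin t).const_mul r).smul_const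
      (WithLp.toLp 2 ![0, 1] : Ep))).congr_deriv (h0 _ _).symm

/-! ### the monodromy -/

variable {M : Type u} [TopologicalSpace M] [ChartedSpace E4 M] [IsManifold 𝓘(ℝ, E4) ∞ M]

theorem isOpen_PB (r : ℝ) : IsOpen (PB r) := by
  have : PB r = {z : E4 | z ≠ 0} ∩ Metric.ball 0 r := by
    ext z; simp [PB]
  rw [this]
  exact isOpen_ne.inter Metric.isOpen_ball

/-- the velocity of a curve `Φ ∘ z`. -/
theorem hasDerivAt_dL {G : Type*} [NormedAddCommGroup G] [NormedSpace ℝ G] {Φ : G → M}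
    {z : ℝ → G} {z' : G} {t : ℝ} (hΦ : ContMDiffAt 𝓘(ℝ, G) 𝓘(ℝ, E4) ∞ Φ (z t))
    (hz : HasDerivAt z z' t) :
    HasDerivAt (fun s => chartAt E4 (Φ (z t)) (Φ (z s))) (dL Φ (z t) z') t := by
  have h1 : DifferentiableAt ℝ (inC (E := E4) (Φ (z t)) Φ) (z t) :=
    (inC_contDiffAt hΦ (mem_chart_source E4 (Φ (z t)))).differentiableAt infty_ne_zero
  have h2 : HasFDerivAt (inC (E := E4) (Φ (z t)) Φ) (dL Φ (z t)) (z t) := h1.hasFDerivAt
  exact h2.comp_hasDerivAt t hz

/-- **KTW (b): the monodromy of a parallel section** (`A` only smooth near `p`). -/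
theorem sign' {m : ℕ} (K : Neck M m) (i : Fin m) (hD : IsDisc K i) {r₁ : ℝ} (hr₁ : 0 < r₁)
    (c : ℂ) (s : ℝ)
    (h : ∀ p ∈ K.C i, ∃ U ∈ 𝓝 p, ∃ (A : F1 E4 M) (u : E4 → ℂ),
      ContDiffAt ℝ ∞ (rep1 p A) (chartAt E4 p p) ∧
      ∀ z ∈ PB r₁, K.phi i z ∈ U → DifferentiableAt ℝ u z ∧ u z ≠ 0 ∧ u (-z) = c * u z ∧
        ∀ v : E4, fderiv ℝ u z v =
          2 * Real.pi * I * ((pb1 (K.phi i) A z v + s / (4 * Real.pi) * thL z v : ℝ) : ℂ) * u z) :
    c = Complex.exp (Real.pi * I * s) := by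
  obtain ⟨v, D, r₀, hv, hr0, hr01, hDs, hD0, hDφ⟩ := hD
  obtain ⟨U, hU, A, u, hA, hu⟩ := h (D 0) hD0
  have hDat : ∀ y ∈ Metric.ball (0 : Ep) r₀, ContMDiffAt 𝓘(ℝ, Ep) 𝓘(ℝ, E4) ∞ D y := fun y hy =>
    hDs.contMDiffAt (Metric.isOpen_ball.mem_nhds hy)
  have h0b : (0 : Ep) ∈ Metric.ball (0 : Ep) r₀ := Metric.mem_ball_self hr0
  have hpb : ContinuousAt (pb1 D A) 0 :=
    (pb1_contDiffAt Metric.isOpen_ball hDs h0b (mem_chart_source E4 (D 0)) hA).continuousAt
  have h1 : ∀ᶠ y in 𝓝 (0 : Ep), ‖pb1 D A y‖ < ‖pb1 D A 0‖ + 1 :=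
    hpb.norm.eventually (gt_mem_nhds (lt_add_one _))
  have h2 : ∀ᶠ y in 𝓝 (0 : Ep), D y ∈ U := (hDat 0 h0b).continuousAt.eventually hU
  obtain ⟨δ, hδ, hδs⟩ := Metric.eventually_nhds_iff_ball.1 (h1.and h2)
  refine ode_sign (C := ‖pb1 D A 0‖ + 1) (r₀ := min (min δ r₀) (min (r₁ ^ 2) 1))
    (by positivity) (by positivity) ?_
  intro r hr hr'
  have hrδ : r < δ := lt_of_lt_of_le hr' ((min_le_left _ _).trans (min_le_left _ _))
  have hrr : r < r₀ := lt_of_lt_of_le hr' ((min_le_left _ _).trans (min_le_right _ _))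
  have hr2 : r < r₁ ^ 2 := lt_of_lt_of_le hr' ((min_le_right _ _).trans (min_le_left _ _))
  have hr3 : r < 1 := lt_of_lt_of_le hr' ((min_le_right _ _).trans (min_le_right _ _))
  have hDe : ∀ t, D (ee r t) = K.phi i (zz v r t) := fun t => hDφ r t hr hrr
  have hzn : ∀ t, ‖zz v r t‖ = √r := norm_zz hv r
  have hz0 : ∀ t, zz v r t ≠ 0 := fun t => by
    rw [← norm_pos_iff, hzn]; exact Real.sqrt_pos.2 hr
  have hz1 : ∀ t, zz v r t ∈ PB r₁ := fun t => ⟨hz0 t, by
    rw [hzn]; exact (Real.sqrt_lt' hr₁).2 hr2⟩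
  have hz2 : ∀ t, zz v r t ∈ PB 1 := fun t => ⟨hz0 t, by
    rw [hzn]; exact (Real.sqrt_lt' one_pos).2 (by simpa using hr3)⟩
  have he : ∀ t, ee r t ∈ Metric.ball (0 : Ep) δ := fun t => by
    rw [mem_ball_zero_iff, norm_ee hr.le]; exact hrδ
  have he0 : ∀ t, ee r t ∈ Metric.ball (0 : Ep) r₀ := fun t => by
    rw [mem_ball_zero_iff, norm_ee hr.le]; exact hrr
  have hU' : ∀ t, K.phi i (zz v r t) ∈ U := fun t => by
    rw [← hDe]; exact (hδs _ (he t)).2
  have hphi : ∀ t, ContMDiffAt 𝓘(ℝ, E4) 𝓘(ℝ, E4) ∞ (K.phi i) (zz v r t) := fun t =>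
    (K.smooth i).contMDiffAt ((isOpen_PB 1).mem_nhds (hz2 t))
  have hαe : ∀ t, pb1 (K.phi i) A (zz v r t) ((1 / 2 : ℝ) • qi (zz v r t)) =
      pb1 D A (ee r t) (ee' r t) := by
    intro t
    have k1 := hasDerivAt_dL (hphi t) (hasDerivAt_zz v r t)
    have k2 := hasDerivAt_dL (hDat _ (he0 t)) (hasDerivAt_ee r t)
    have k3 : (fun s => chartAt E4 (D (ee r t)) (D (ee r s))) =
        fun s => chartAt E4 (K.phi i (zz v r t)) (K.phi i (zz v r s)) := by
      funext s; rw [hDe, hDe]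
    rw [k3] at k2
    have k4 := k1.unique k2
    rw [pb1_apply, pb1_apply, ← k4, hDe]
  refine ⟨fun t => u (zz v r t), fun t => pb1 (K.phi i) A (zz v r t)
    ((1 / 2 : ℝ) • qi (zz v r t)), (hu _ (hz1 0) (hU' 0)).2.1, ?_, fun t _ => ?_, fun t _ => ?_⟩
  · show u (zz v r (2 * Real.pi)) = c * u (zz v r 0)
    rw [zz_end]
    exact (hu _ (hz1 0) (hU' 0)).2.2.1
  · obtain ⟨d1, -, -, d2⟩ := hu _ (hz1 t) (hU' t)
    have k := d1.hasFDerivAt.comp_hasDerivAt t (hasDerivAt_zz v r t)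
    refine k.congr_deriv ?_
    rw [d2, thL_zz (hz0 t)]
    have hpi : (Real.pi : ℂ) ≠ 0 := by exact_mod_cast Real.pi_ne_zero
    push_cast
    field_simp
    ring
  · simp only
    rw [hαe, ← Real.norm_eq_abs]
    refine ((pb1 D A (ee r t)).le_opNorm _).trans ?_
    rw [norm_ee' hr.le]
    exact mul_le_mul_of_nonneg_right (hδs _ (he t)).1.le hr.le

/-- **KTW (b): the monodromy of a parallel section.** -/
theorem sign {m : ℕ} (K : Neck M m) (i : Fin m) (hD : IsDisc K i) {r₁ : ℝ} (hr₁ : 0 < r₁)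
    (c : ℂ) (s : ℝ)
    (h : ∀ p ∈ K.C i, ∃ U ∈ 𝓝 p, ∃ (A : F1 E4 M) (u : E4 → ℂ), Smooth1 A ∧
      ∀ z ∈ PB r₁, K.phi i z ∈ U → DifferentiableAt ℝ u z ∧ u z ≠ 0 ∧ u (-z) = c * u z ∧
        ∀ v : E4, fderiv ℝ u z v =
          2 * Real.pi * I * ((pb1 (K.phi i) A z v + s / (4 * Real.pi) * thL z v : ℝ) : ℂ) * u z) :
    c = Complex.exp (Real.pi * I * s) := by
  refine sign' K i hD hr₁ c s fun p hp => ?_
  obtain ⟨U, hU, A, u, hA, hu⟩ := h p hp
  exact ⟨U, hU, A, u, hA.at (mem_chart_target E4 p), hu⟩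

/-- the case `i ∈ I`. -/
theorem exp_one : Complex.exp (Real.pi * I * ((1 : ℝ) : ℂ)) = -1 := by
  rw [Complex.ofReal_one, mul_one]; exact Complex.exp_pi_mul_I

/-- the case `i ∉ I`. -/
theorem exp_zero' : Complex.exp (Real.pi * I * ((0 : ℝ) : ℂ)) = 1 := by simp

end

end Crest.Agent.R235.KumTwB_303
end

-- ▼ part R235/KumTwM_387

/-!
# Row 235, KUM-KTW (a), part 3: parallel sections on the manifold and on the necks
-/

set_option autoImplicit false
set_option linter.unusedSectionVars false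
set_option maxSynthPendingDepth 3

open Set Function Filter Topology Complex
open scoped ContDiff ComplexConjugate Matrix Manifold

universe u

namespace Crest.Agent.R235.KumTwM_387

open Crest.Agent.R240 Crest.Agent.R240.Ch Crest.Agent.R235 Crest.Agent.R235.KT_604
  Crest.Agent.R235.Pull_129 Crest.Agent.R235.Lb453 Crest.Agent.R235.Par_387
  Crest.Agent.R235.Mono_387 Crest.Agent.R235.Loc_524

noncomputable section

variable {M : Type u} [TopologicalSpace M] [ChartedSpace E4 M] [IsManifold 𝓘(ℝ, E4) ∞ M]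
variable {N : ℕ}

/-! ### chain rule for complex functions -/

theorem comp_symm {f : M → ℂ} {x q : M} (hx : x ∈ (chartAt E4 q).source)
    (hf : ContMDiffAt 𝓘(ℝ, E4) 𝓘(ℝ, ℂ) ∞ f x) :
    ContDiffAt ℝ ∞ (fun y : E4 => f ((chartAt E4 q).symm y)) (chartAt E4 q x) := by
  have h1 : ContMDiffAt 𝓘(ℝ, E4) 𝓘(ℝ, E4) ∞ (chartAt E4 q).symm (chartAt E4 q x) :=
    (contMDiffOn_chart_symm (I := 𝓘(ℝ, E4)) (x := q)).contMDiffAt
      ((chartAt E4 q).open_target.mem_nhds ((chartAt E4 q).map_source hx))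
  have h2 : (chartAt E4 q).symm (chartAt E4 q x) = x := (chartAt E4 q).left_inv hx
  have h3 : ContMDiffAt 𝓘(ℝ, E4) 𝓘(ℝ, ℂ) ∞ f ((chartAt E4 q).symm (chartAt E4 q x)) := by
    rw [h2]; exact hf
  exact (h3.comp (chartAt E4 q x) h1).contDiffAt

/-- the differential of a complex function on `M`, preferred chart. -/
def dC (f : M → ℂ) (x : M) : E4 →L[ℝ] ℂ :=
  fderiv ℝ (fun y : E4 => f ((chartAt E4 x).symm y)) (chartAt E4 x x)

variable {G : Type} [NormedAddCommGroup G] [NormedSpace ℝ G]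

theorem comp_smooth {Φ : G → M} {z : G} {f : M → ℂ} (hΦ : ContMDiffAt 𝓘(ℝ, G) 𝓘(ℝ, E4) ∞ Φ z)
    (hf : ContMDiffAt 𝓘(ℝ, E4) 𝓘(ℝ, ℂ) ∞ f (Φ z)) : ContDiffAt ℝ ∞ (fun y => f (Φ y)) z :=
  (hf.comp z hΦ).contDiffAt

theorem fderiv_comp' {Φ : G → M} {z : G} {f : M → ℂ} (hΦ : ContMDiffAt 𝓘(ℝ, G) 𝓘(ℝ, E4) ∞ Φ z)
    (hf : ContMDiffAt 𝓘(ℝ, E4) 𝓘(ℝ, ℂ) ∞ f (Φ z)) (v : G) :
    fderiv ℝ (fun y => f (Φ y)) z v = dC f (Φ z) (dL Φ z v) := by
  have h1 : (fun y => f (Φ y)) =ᶠ[𝓝 z]
      fun y => (fun w : E4 => f ((chartAt E4 (Φ z)).symm w)) (chartAt E4 (Φ z) (Φ y)) := by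
    filter_upwards [hΦ.continuousAt.eventually
      ((chartAt E4 (Φ z)).open_source.mem_nhds (mem_chart_source E4 (Φ z)))] with y hy
    show f (Φ y) = f ((chartAt E4 (Φ z)).symm (chartAt E4 (Φ z) (Φ y)))
    rw [(chartAt E4 (Φ z)).left_inv hy]
  rw [h1.fderiv_eq]
  have h2 : DifferentiableAt ℝ (fun w : E4 => f ((chartAt E4 (Φ z)).symm w))
      (chartAt E4 (Φ z) (Φ z)) :=
    (comp_symm (mem_chart_source E4 (Φ z)) hf).differentiableAt (by simp)
  have h3 : DifferentiableAt ℝ (fun y => chartAt E4 (Φ z) (Φ y)) z :=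
    (inC_contDiffAt hΦ (mem_chart_source E4 (Φ z))).differentiableAt (by simp)
  have h4 := fderiv_comp z (g := fun w : E4 => f ((chartAt E4 (Φ z)).symm w))
    (f := fun y => chartAt E4 (Φ z) (Φ y)) h2 h3
  have h5 := congrArg (fun A => A v) h4
  exact h5

/-! ### the bundle -/

/-- the pull-back of a line bundle with a flat connection. -/
theorem bun_comp {p : M → Matrix (Fin N) (Fin N) ℂ} {a : Z2 M} {T : F1 E4 M} (hp : IsLine p)
    (ha : IsChern p a) {Φ : G → M} {O : Set G} (hO : IsOpen O)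
    (hΦ : ContMDiffOn 𝓘(ℝ, G) 𝓘(ℝ, E4) ∞ Φ O) (hT : ∀ z ∈ O, SmAt1 T (Φ z))
    (hd : ∀ z ∈ O, at2 (dG T) (Φ z) = - val a (Φ z)) :
    Bun (fun z => p (Φ z)) (pb1 Φ T) O where
  smP z hz i j := comp_smooth (hΦ.contMDiffAt (hO.mem_nhds hz)) ((hp.smooth i j) _)
  smT z hz := pb1_contDiffAt hO hΦ hz (mem_chart_source E4 (Φ z)) (hT z hz)
  idem z _ := hp.idem _
  herm z _ := hp.herm _
  rank z _ := hp.rank _
  curv z hz u v := by
    have h0 := hΦ.contMDiffAt (hO.mem_nhds hz)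
    have hx := mem_chart_source E4 (Φ z)
    have hdP : ∀ u, dP (fun z => p (Φ z)) z u = dmat p (Φ z) (dL Φ z u) := by
      intro u
      ext i j
      exact fderiv_comp' h0 ((hp.smooth i j) _) u
    have h1 : d1 (pb1 Φ T) z u v = pb2 Φ (dG T) z u v := by
      rw [d1_pull (inC_contDiffAt h0 hx) (SmAt1.chart (hT z hz) hx |>.differentiableAt (by simp))
        (pb1_chart_ev hO hΦ hz hx T), pb2_chart h0 hx]
      have h2 : rep (Φ z) (dG T) (inC (Φ z) Φ z) = d1 (rep1 (Φ z) T) (inC (Φ z) Φ z) :=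
        rep_dG_at' hx (hT z hz)
      rw [h2]
    rw [h1, hdP, hdP, ← ha (Φ z) (dL Φ z u) (dL Φ z v), pb2_apply, hd z hz]
    rfl

/-- `s` is a unit section of `p`, parallel for `p ∘ d - 2πi T` at `x`. -/
structure GoodM (p : M → Matrix (Fin N) (Fin N) ℂ) (T : F1 E4 M) (s : M → Fin N → ℂ)
    (x : M) : Prop where
  sm : ∀ i, ContMDiffAt 𝓘(ℝ, E4) 𝓘(ℝ, ℂ) ∞ (fun y => s y i) x
  mem : (p x).mulVec (s x) = s x
  unit : Par_387.hh (s x) (s x) = 1
  par : ∀ v : E4, (p x).mulVec (fun i => dC (fun y => s y i) x v) =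
    (2 * Real.pi * I * (at1 T x v : ℝ)) • s x

variable {p : M → Matrix (Fin N) (Fin N) ℂ} {T : F1 E4 M}

/-- (M1) pull-back of parallel sections. -/
theorem GoodM.pull {s : M → Fin N → ℂ} {Φ : G → M} {z : G}
    (hΦ : ContMDiffAt 𝓘(ℝ, G) 𝓘(ℝ, E4) ∞ Φ z) (h : GoodM p T s (Φ z)) :
    Good (fun z => p (Φ z)) (pb1 Φ T) (fun y => s (Φ y)) z := by
  refine ⟨fun i => comp_smooth hΦ (h.sm i), h.mem, h.unit, fun v => ?_⟩
  have h1 : dv (fun y => s (Φ y)) z v = fun i => dC (fun y => s y i) (Φ z) (dL Φ z v) := by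
    funext i
    exact fderiv_comp' hΦ (h.sm i) v
  rw [h1]
  exact h.par (dL Φ z v)

/-- the inverse of a chart. -/
theorem smooth_symm (q : M) : ContMDiffOn 𝓘(ℝ, E4) 𝓘(ℝ, E4) ∞ (chartAt E4 q).symm
    (chartAt E4 q).target := contMDiffOn_chart_symm (I := 𝓘(ℝ, E4)) (x := q)

theorem dL_symm_surj {q : M} {y : E4} (hy : y ∈ (chartAt E4 q).target) (v : E4) :
    ∃ u, dL (E := E4) (chartAt E4 q).symm y u = v := by
  have h0 : ContMDiffAt 𝓘(ℝ, E4) 𝓘(ℝ, E4) ∞ (chartAt E4 q).symm y :=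
    (smooth_symm q).contMDiffAt ((chartAt E4 q).open_target.mem_nhds hy)
  have hx : (chartAt E4 q).symm y ∈ (chartAt E4 q).source := (chartAt E4 q).map_target hy
  refine ⟨tcc ((chartAt E4 q).symm y) q ((chartAt E4 q).symm y) v, ?_⟩
  have h1 : ∀ u, tcc ((chartAt E4 q).symm y) q ((chartAt E4 q).symm y)
      (dL (E := E4) (chartAt E4 q).symm y u) = u := by
    intro u
    rw [← fderiv_inC h0 hx u]
    have h2 : inC (E := E4) q (chartAt E4 q).symm =ᶠ[𝓝 y] id := by
      filter_upwards [(chartAt E4 q).open_target.mem_nhds hy] with w hw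
      exact (chartAt E4 q).right_inv hw
    rw [h2.fderiv_eq, fderiv_id]
    rfl
  have h3 := h1 (tcc ((chartAt E4 q).symm y) q ((chartAt E4 q).symm y) v)
  have h4 := congrArg (fun w => tcc (E := E4) q ((chartAt E4 q).symm y) ((chartAt E4 q).symm y) w) h3
  simpa only [tcc_cancel' hx] using h4

/-- parallel sections in a chart give parallel sections on `M`. -/
theorem goodM_of_chart {l : E4 → Fin N → ℂ} {q : M} {y : E4} (hy : y ∈ (chartAt E4 q).target)
    (h : Good (fun z => p ((chartAt E4 q).symm z)) (pb1 (chartAt E4 q).symm T) l y) :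
    GoodM p T (fun x => l (chartAt E4 q x)) ((chartAt E4 q).symm y) := by
  have hx : (chartAt E4 q).symm y ∈ (chartAt E4 q).source := (chartAt E4 q).map_target hy
  have hr : chartAt E4 q ((chartAt E4 q).symm y) = y := (chartAt E4 q).right_inv hy
  have hsm : ∀ i, ContMDiffAt 𝓘(ℝ, E4) 𝓘(ℝ, ℂ) ∞ (fun x => l (chartAt E4 q x) i)
      ((chartAt E4 q).symm y) := by
    intro i
    have hc : ContMDiffAt 𝓘(ℝ, E4) 𝓘(ℝ, E4) ∞ (chartAt E4 q) ((chartAt E4 q).symm y) :=
      (contMDiffOn_chart (I := 𝓘(ℝ, E4)) (x := q)).contMDiffAt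
        ((chartAt E4 q).open_source.mem_nhds hx)
    have hl : ContMDiffAt 𝓘(ℝ, E4) 𝓘(ℝ, ℂ) ∞ (fun z => l z i)
        (chartAt E4 q ((chartAt E4 q).symm y)) := by
      rw [hr]; exact (h.sm i).contMDiffAt
    exact hl.comp ((chartAt E4 q).symm y) hc
  refine ⟨hsm, ?_, ?_, fun v => ?_⟩
  · simp only [hr]; exact h.mem
  · simp only [hr]; exact h.unit
  · obtain ⟨u, rfl⟩ := dL_symm_surj hy v
    have h0 : ContMDiffAt 𝓘(ℝ, E4) 𝓘(ℝ, E4) ∞ (chartAt E4 q).symm y :=
      (smooth_symm q).contMDiffAt ((chartAt E4 q).open_target.mem_nhds hy)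
    have h1 : (fun i => dC (fun x => l (chartAt E4 q x) i) ((chartAt E4 q).symm y)
        (dL (chartAt E4 q).symm y u)) = dv l y u := by
      funext i
      rw [← fderiv_comp' h0 (hsm i) u]
      have h2 : (fun w => l (chartAt E4 q ((chartAt E4 q).symm w)) i) =ᶠ[𝓝 y]
          fun w => l w i := by
        filter_upwards [(chartAt E4 q).open_target.mem_nhds hy] with w hw
        rw [(chartAt E4 q).right_inv hw]
      rw [h2.fderiv_eq]
      rfl
    rw [h1]
    simp only [hr]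
    exact h.par u

/-- the data near a point of `M`. -/
theorem bun_chart {a : Z2 M} (hp : IsLine p) (ha : IsChern p a) {x0 : M}
    (hT : ∀ᶠ x in 𝓝 x0, SmAt1 T x ∧ at2 (dG T) x = - val a x) :
    ∃ O : Set E4, IsOpen O ∧ chartAt E4 x0 x0 ∈ O ∧ O ⊆ (chartAt E4 x0).target ∧
      Bun (fun z => p ((chartAt E4 x0).symm z)) (pb1 (chartAt E4 x0).symm T) O := by
  obtain ⟨V, hV, hVo, hxV⟩ := eventually_nhds_iff.1 hT
  refine ⟨(chartAt E4 x0).target ∩ (chartAt E4 x0).symm ⁻¹' V,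
    (chartAt E4 x0).isOpen_inter_preimage_symm hVo, ⟨mem_chart_target E4 x0, ?_⟩,
    inter_subset_left, ?_⟩
  · show (chartAt E4 x0).symm (chartAt E4 x0 x0) ∈ V
    rw [(chartAt E4 x0).left_inv (mem_chart_source E4 x0)]; exact hxV
  · exact bun_comp hp ha ((chartAt E4 x0).isOpen_inter_preimage_symm hVo)
      ((smooth_symm x0).mono inter_subset_left) (fun z hz => (hV _ hz.2).1)
      (fun z hz => (hV _ hz.2).2)

/-- (M2) local existence. -/
theorem exists_goodM {a : Z2 M} (hp : IsLine p) (ha : IsChern p a) {x0 : M}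
    (hT : ∀ᶠ x in 𝓝 x0, SmAt1 T x ∧ at2 (dG T) x = - val a x) :
    ∃ s : M → Fin N → ℂ, ∀ᶠ x in 𝓝 x0, GoodM p T s x := by
  obtain ⟨O, hO, hx0, hOt, hB⟩ := bun_chart hp ha hT
  obtain ⟨r, hr, hrO, l, hl⟩ := exists_par hB hO hx0
  refine ⟨fun x => l (chartAt E4 x0 x), ?_⟩
  have hc : ContinuousAt (chartAt E4 x0) x0 :=
    (chartAt E4 x0).continuousAt (mem_chart_source E4 x0)
  filter_upwards [hc.eventually (Metric.ball_mem_nhds _ hr),
    (chartAt E4 x0).open_source.mem_nhds (mem_chart_source E4 x0)] with x hx hxs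
  have h1 := goodM_of_chart (hOt (hrO hx)) (hl _ hx)
  rwa [(chartAt E4 x0).left_inv hxs] at h1

/-- (M3) two parallel germs differ by a constant phase. -/
theorem goodM_cmp {a : Z2 M} (hp : IsLine p) (ha : IsChern p a) {x0 : M}
    (hT : ∀ᶠ x in 𝓝 x0, SmAt1 T x ∧ at2 (dG T) x = - val a x) {s t : M → Fin N → ℂ}
    (hs : ∀ᶠ x in 𝓝 x0, GoodM p T s x) (ht : ∀ᶠ x in 𝓝 x0, GoodM p T t x) :
    ∃ c : ℂ, conj c * c = 1 ∧ ∀ᶠ x in 𝓝 x0, s x = c • t x := by
  obtain ⟨O, hO, hx0, hOt, hB⟩ := bun_chart hp ha hT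
  have hpull : ∀ s : M → Fin N → ℂ, (∀ᶠ x in 𝓝 x0, GoodM p T s x) →
      Par (fun z => p ((chartAt E4 x0).symm z)) (pb1 (chartAt E4 x0).symm T)
        (chartAt E4 x0 x0) (fun y => s ((chartAt E4 x0).symm y)) := by
    intro s hs
    have h1 : ContinuousAt (chartAt E4 x0).symm (chartAt E4 x0 x0) :=
      (chartAt E4 x0).continuousAt_symm (mem_chart_target E4 x0)
    have h2 : ∀ᶠ y in 𝓝 (chartAt E4 x0 x0), GoodM p T s ((chartAt E4 x0).symm y) := by
      refine h1.eventually ?_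
      rw [(chartAt E4 x0).left_inv (mem_chart_source E4 x0)]; exact hs
    filter_upwards [h2, (chartAt E4 x0).open_target.mem_nhds (mem_chart_target E4 x0)]
      with y hy hyt
    exact hy.pull ((smooth_symm x0).contMDiffAt ((chartAt E4 x0).open_target.mem_nhds hyt))
  obtain ⟨c, hc, he⟩ := par_cmp hB hO hx0 (hpull s hs) (hpull t ht)
  refine ⟨c, hc, ?_⟩
  have hcc : ContinuousAt (chartAt E4 x0) x0 :=
    (chartAt E4 x0).continuousAt (mem_chart_source E4 x0)
  filter_upwards [hcc.eventually he,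
    (chartAt E4 x0).open_source.mem_nhds (mem_chart_source E4 x0)] with x hx hxs
  have h1 := hx.1
  rwa [(chartAt E4 x0).left_inv hxs] at h1

/-! ### necks -/

variable {m : ℕ}

/-- (M4a) the bundle on the neck. -/
theorem bun_neck {a : Z2 M} (hp : IsLine p) (ha : IsChern p a) (K : Neck M m) (i : Fin m)
    (hT : ∀ z ∈ PB 1, SmAt1 T (K.phi i z))
    (hd : ∀ z ∈ PB 1, at2 (dG T) (K.phi i z) = - val a (K.phi i z)) :
    Bun (fun z => p (K.phi i z)) (pb1 (K.phi i) T) (PB 1) :=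
  bun_comp hp ha (isOpen_PB 1) (K.smooth i) hT hd

/-- (M4b) the pulled back form is even. -/
theorem pb1_neck_even (K : Neck M m) (i : Fin m) (T : F1 E4 M) {z : E4} (hz : z ∈ PB 1) :
    pb1 (K.phi i) T (-z) = - pb1 (K.phi i) T z := by
  have h0 : ContMDiffAt 𝓘(ℝ, E4) 𝓘(ℝ, E4) ∞ (K.phi i) (-z) :=
    (K.smooth i).contMDiffAt ((isOpen_PB 1).mem_nhds (neg_mem_PB hz))
  have hneg : HasFDerivAt (fun y : E4 => -y) (-(ContinuousLinearMap.id ℝ E4)) z :=
    (hasFDerivAt_id z).neg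
  have h1 : pb1 (fun y => K.phi i (-y)) T z =
      (pb1 (K.phi i) T (-z)).comp (fderiv ℝ (fun y : E4 => -y) z) :=
    pb1_comp (g := fun y : E4 => -y) h0 hneg.differentiableAt T
  have h2 : (fun y => K.phi i (-y)) =ᶠ[𝓝 z] K.phi i := by
    filter_upwards [(isOpen_PB 1).mem_nhds hz] with y hy using K.even i y hy
  rw [pb1_congr h2, hneg.fderiv] at h1
  ext v
  have h3 := congrArg (fun A => A v) h1
  simp only [ContinuousLinearMap.comp_apply, neg_apply, ContinuousLinearMap.id_apply,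
    map_neg] at h3
  rw [neg_apply, h3, neg_neg]

/-- (M4c) the parallel section on the neck and its sign. -/
theorem exists_neck {a : Z2 M} (hp : IsLine p) (ha : IsChern p a) (K : Neck M m) (i : Fin m)
    (hT : ∀ z ∈ PB 1, SmAt1 T (K.phi i z))
    (hd : ∀ z ∈ PB 1, at2 (dG T) (K.phi i z) = - val a (K.phi i z)) :
    ∃ psi : E4 → Fin N → ℂ,
      (∀ z ∈ PB 1, Good (fun z => p (K.phi i z)) (pb1 (K.phi i) T) psi z) ∧
      ∃ c : ℂ, (c = 1 ∨ c = -1) ∧ ∀ z ∈ PB 1, psi (-z) = c • psi z := by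
  have hB := bun_neck hp ha K i hT hd
  obtain ⟨psi, hpsi⟩ := exists_psi one_pos hB
  exact ⟨psi, hpsi, exists_sign one_pos hB (fun z hz => by rw [K.even i z hz])
    (fun z hz => pb1_neck_even K i T hz) hpsi⟩

/-- (M4d) comparison with a parallel section of `M`. -/
theorem neck_cmp {a : Z2 M} (hp : IsLine p) (ha : IsChern p a) (K : Neck M m) (i : Fin m)
    (hT : ∀ z ∈ PB 1, SmAt1 T (K.phi i z))
    (hd : ∀ z ∈ PB 1, at2 (dG T) (K.phi i z) = - val a (K.phi i z)) {psi : E4 → Fin N → ℂ}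
    (hpsi : ∀ z ∈ PB 1, Good (fun z => p (K.phi i z)) (pb1 (K.phi i) T) psi z)
    {z : E4} (hz : z ∈ PB 1) {s : M → Fin N → ℂ} (hs : ∀ᶠ x in 𝓝 (K.phi i z), GoodM p T s x) :
    ∃ c : ℂ, conj c * c = 1 ∧ ∀ᶠ y in 𝓝 z, s (K.phi i y) = c • psi y := by
  have hB := bun_neck hp ha K i hT hd
  have hc : ContinuousAt (K.phi i) z :=
    ((K.smooth i).contMDiffAt ((isOpen_PB 1).mem_nhds hz)).continuousAt
  have h1 : Par (fun z => p (K.phi i z)) (pb1 (K.phi i) T) z (fun y => s (K.phi i y)) := by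
    filter_upwards [hc.eventually hs, (isOpen_PB 1).mem_nhds hz] with y hy hyP
    exact hy.pull ((K.smooth i).contMDiffAt ((isOpen_PB 1).mem_nhds hyP))
  have h2 : Par (fun z => p (K.phi i z)) (pb1 (K.phi i) T) z psi := by
    filter_upwards [(isOpen_PB 1).mem_nhds hz] with y hy using hpsi y hy
  obtain ⟨c, hc, he⟩ := par_cmp hB (isOpen_PB 1) hz h1 h2
  exact ⟨c, hc, he.mono fun y hy => hy.1⟩

/-- `al` is natural. -/
theorem al_comp {e : E4 → Fin N → ℂ} {g : G → E4} {z : G} (hg : DifferentiableAt ℝ g z)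
    (he : ∀ i, DifferentiableAt ℝ (fun y => e y i) (g z)) (v : G) :
    al (fun y => e (g y)) z v = al e (g z) (fderiv ℝ g z v) := by
  have hd : ∀ i, HasFDerivAt (fun y => e (g y) i)
      ((fderiv ℝ (fun y => e y i) (g z)).comp (fderiv ℝ g z)) z := fun i =>
    HasFDerivAt.comp z (g := fun y => e y i) (he i).hasFDerivAt hg.hasFDerivAt
  have h1 : dv (fun y => e (g y)) z v = dv e (g z) (fderiv ℝ g z v) := by
    funext i
    unfold dv
    rw [(hd i).fderiv]
    rfl
  rw [al_apply (fun i => (hd i).differentiableAt), al_apply he, h1]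

/-- coefficient of a parallel section in a frame. -/
theorem coeff {P : G → Matrix (Fin N) (Fin N) ℂ} {T : G → G →L[ℝ] ℝ} {psi e : G → Fin N → ℂ}
    {z : G} (hpsi : Good P T psi z) (hP : P z = pr (e z))
    (he : ∀ i, DifferentiableAt ℝ (fun y => e y i) z)
    (hu : ∀ᶠ y in 𝓝 z, Par_387.hh (e y) (e y) = 1) :
    DifferentiableAt ℝ (fun y => Par_387.hh (e y) (psi y)) z ∧
    Par_387.hh (e z) (psi z) ≠ 0 ∧ ∀ v, fderiv ℝ (fun y => Par_387.hh (e y) (psi y)) z v =
      2 * Real.pi * I * ((T z v - al e z v : ℝ) : ℂ) * Par_387.hh (e z) (psi z) := by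
  have h1 : psi z = Par_387.hh (e z) (psi z) • e z := by
    rw [← pr_mulVec, ← hP, hpsi.mem]
  have hunit := hu.self_of_nhds
  refine ⟨diff_hh he hpsi.diff, ?_, fun v => ?_⟩
  · intro h0
    rw [h0, zero_smul] at h1
    exact ne_zero_of_unit hpsi.unit h1
  · rw [fderiv_hh he hpsi.diff]
    have hherm : (P z).conjTranspose = P z := by rw [hP]; exact pr_herm _
    have hmem : (P z).mulVec (e z) = e z := by
      rw [hP, pr_mulVec, hunit, one_smul]
    have e1 : Par_387.hh (dv e z v) (psi z) =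
        - (2 * Real.pi * I * al e z v) * Par_387.hh (e z) (psi z) := by
      conv_lhs => rw [h1]
      rw [hh_smul_right, ← hh_conj (e z) (dv e z v), hh_dv he hu]
      simp only [map_mul, map_ofNat, Complex.conj_ofReal, Complex.conj_I]
      ring
    have e2 : Par_387.hh (e z) (dv psi z v) =
        (2 * Real.pi * I * T z v) * Par_387.hh (e z) (psi z) := by
      rw [← hmem, hh_mulVec hherm, hpsi.par, hh_smul_right, hmem]
    rw [e1, e2]
    push_cast
    ring

/-- (M5) the monodromy on the neck. -/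
theorem sign_psi (hp : IsLine p) (K : Neck M m) (i : Fin m)
    (hD : IsDisc K i) {r₁ : ℝ} (hr₁ : 0 < r₁) (hr₁' : r₁ ≤ 1) {s : ℝ} {A₀ : F1 E4 M}
    (hA₀ : ∀ q ∈ K.C i, SmAt1 A₀ q)
    (hTA : ∀ z ∈ PB r₁, ∀ v, pb1 (K.phi i) T z v =
      pb1 (K.phi i) A₀ z v + s / (4 * Real.pi) * thL z v)
    {psi : E4 → Fin N → ℂ}
    (hpsi : ∀ z ∈ PB 1, Good (fun z => p (K.phi i z)) (pb1 (K.phi i) T) psi z)
    {c : ℂ} (hc : ∀ z ∈ PB 1, psi (-z) = c • psi z) : c = Complex.exp (Real.pi * I * s) := by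
  refine KumTwB_303.sign' K i hD hr₁ c s fun q hq => ?_
  have hPB : ∀ z ∈ PB r₁, z ∈ PB 1 := fun z hz => ⟨hz.1, hz.2.trans_le hr₁'⟩
  -- frame in the chart at q
  obtain ⟨e, he⟩ := exists_frame' (P := fun z => p ((chartAt E4 q).symm z))
    (O := (chartAt E4 q).target)
    (fun z hz i j => by
      have h1 := comp_symm (q := q) ((chartAt E4 q).map_target hz)
        ((hp.smooth i j) ((chartAt E4 q).symm z))
      rwa [(chartAt E4 q).right_inv hz] at h1)
    (fun z _ => hp.idem _) (fun z _ => hp.herm _) (fun z _ => hp.rank _)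
    (chartAt E4 q).open_target (mem_chart_target E4 q)
  obtain ⟨W, hW, hWo, hqW⟩ := eventually_nhds_iff.1 he
  have hcq : ContinuousAt (chartAt E4 q) q :=
    (chartAt E4 q).continuousAt (mem_chart_source E4 q)
  have hUo : IsOpen ((chartAt E4 q).source ∩ chartAt E4 q ⁻¹' W) :=
    (chartAt E4 q).isOpen_inter_preimage hWo
  refine ⟨(chartAt E4 q).source ∩ chartAt E4 q ⁻¹' W,
    hUo.mem_nhds ⟨mem_chart_source E4 q, hqW⟩, A₀ - ext1 q (al e),
    fun z => Par_387.hh (e (chartAt E4 q (K.phi i z))) (psi z), ?_, ?_⟩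
  · have h1 : SmAt1 (ext1 q (al e) : F1 E4 M) q := by
      have h2 : rep1 q (ext1 q (al e) : F1 E4 M) =ᶠ[𝓝 (chartAt E4 q q)] al e := by
        filter_upwards [(chartAt E4 q).open_target.mem_nhds (mem_chart_target E4 q)] with y hy
        exact rep1_ext1_self hy _
      exact (sm_al (hW _ hqW).2.sm).congr_of_eventuallyEq h2
    exact (hA₀ q hq).sub h1
  · intro z hz hzU
    have hz1 := hPB z hz
    have hΦ : ContMDiffAt 𝓘(ℝ, E4) 𝓘(ℝ, E4) ∞ (K.phi i) z :=
      (K.smooth i).contMDiffAt ((isOpen_PB 1).mem_nhds hz1)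
    have hg : DifferentiableAt ℝ (fun y => chartAt E4 q (K.phi i y)) z :=
      (inC_contDiffAt hΦ hzU.1).differentiableAt (by simp)
    have hF := (hW _ hzU.2).2
    have hed : ∀ j, DifferentiableAt ℝ (fun y => e y j) (chartAt E4 q (K.phi i z)) := fun j =>
      (hF.sm j).differentiableAt (by simp)
    have hed' : ∀ j, DifferentiableAt ℝ (fun y => e (chartAt E4 q (K.phi i y)) j) z := fun j =>
      DifferentiableAt.comp z (g := fun y => e y j) (hed j) hg
    have hevU : ∀ᶠ y in 𝓝 z, K.phi i y ∈ (chartAt E4 q).source ∩ chartAt E4 q ⁻¹' W :=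
      hΦ.continuousAt.eventually (hUo.mem_nhds hzU)
    have hproj : p (K.phi i z) = pr (e (chartAt E4 q (K.phi i z))) := by
      have h1 := hF.eq
      rwa [(chartAt E4 q).left_inv hzU.1] at h1
    obtain ⟨h1, h2, h3⟩ := coeff (e := fun y => e (chartAt E4 q (K.phi i y)))
      (hpsi z hz1) hproj hed' (hevU.mono fun y hy => (hW _ hy.2).2.unit)
    refine ⟨h1, h2, ?_, fun v => ?_⟩
    · show Par_387.hh (e (chartAt E4 q (K.phi i (-z)))) (psi (-z)) = _
      rw [K.even i z hz1, hc z hz1, hh_smul_right]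
    · rw [h3 v]
      congr 3
      have h4 : pb1 (K.phi i) (A₀ - ext1 q (al e)) z v =
          pb1 (K.phi i) A₀ z v - pb1 (K.phi i) (ext1 q (al e)) z v := rfl
      have h5 : pb1 (K.phi i) (ext1 q (al e)) z v =
          al (fun y => e (chartAt E4 q (K.phi i y))) z v := by
        rw [pb1_chart hΦ hzU.1, ContinuousLinearMap.comp_apply,
          al_comp (g := fun y => chartAt E4 q (K.phi i y)) hg hed]
        have h6 : rep1 q (ext1 q (al e) : F1 E4 M) (inC q (K.phi i) z) =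
            al e (inC q (K.phi i) z) :=
          rep1_ext1_self ((chartAt E4 q).map_source hzU.1) _
        rw [h6]
        rfl
      rw [h4, h5, hTA z hz v]
      ring

end

end Crest.Agent.R235.KumTwM_387
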