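import Crest.Agent.R235.CurTop_844_Mg
import Crest.Agent.R235.Cone_288
import Crest.Agent.R235.Sph_47_Mg
import Crest.Agent.R235.Exj_900
import Crest.Agent.R235.CurB_288
import Crest.Agent.R235.LatK_766
import Crest.Agent.R235.DichW_723
import Crest.Agent.R235.Dich_723
import Crest.Agent.R235.H1Fin_692
import Crest.Agent.R235.KumThC_785_Mg
import Crest.Agent.R235.KumDefs2_152
import Crest.Agent.R235.TopA_844
import Crest.Agent.R235.KumDefs_152
import Crest.Agent.R235.Pull_129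
import Crest.Agent.R235.Loc_524
import Crest.Agent.R235.KumTwC_57
import Crest.Agent.R235.KumTwM_387

-- ▼ part R235/FinalR_844
section

/-!
Row 235 (S0364), helper844: FINAL MAP (real torus type), version 2 (20:55Z).
`MAIN` (hence `S0364` by `Glue_856.result_of_main`) from the nodes which are still open:
`SIG235, EVEN235, BPLUS, FAM4W` (⇒ `DICHR`), `ROOT`, `JDEC`, `ADJ`, `KUM`, `TORR`.
`KUM` uses in addition `SPH` (⇐ `NEGK` ⇐ `ISEC, JSAME`) and `DISJ`.
-/

set_option autoImplicit false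

universe u

namespace Crest.Agent.R235

open DichProps_723

/-- `CLS` from Poincaré duality `PD`. -/
theorem cls_of_pd (h : STF_861.PD.{u}) : CLS.{u} := by
  intro M _ _ _ _ _ _ w J hw _ S hS
  obtain ⟨s, hs⟩ := h M w hw S hS.closed
  exact ⟨cls s, fun b => by rw [hs b, ip_cls (hw.vol 0)]⟩

/-- `CLS` from the dichotomy. -/
theorem cls_of_dichr (h : DICHR.{u}) : CLS.{u} := cls_of_pd (PD_819.pd_of_dichr h)

/-- `INTEG` is a theorem. -/
theorem integ : INTEG.{u} := by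
  intro M _ _ _ _ _ _ w J _ _ c N p a hp ha
  exact Integ_796.integ c hp ha

/-- `DICHR` from its open nodes. -/
theorem dichr_open (hS : SIG235.{0}) (hE : EVEN235.{0}) (hB : BPLUS.{0}) (hF4 : FAM4W.{0}) :
    DICHR.{0} :=
  dichr_of HZFin_524.hzlat H1Fin_692.h1bas hS hE hB hF4 LatH_283.evenclass

/-- `NEGN` from the open nodes. -/
theorem negn_open (hD : DICHR.{0}) (hJ : JDEC.{0}) (hA : Adj.ADJ.{0}) : NEGN.{0} :=
  CurTop_844.negn hJ (cls_of_dichr hD) integ hA hD

/-- `ZD` from the open nodes. -/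
theorem zd_open (hD : DICHR.{0}) (hJ : JDEC.{0}) (hA : Adj.ADJ.{0}) : STF_861.ZD.{0} :=
  CurTop_844.zd hJ (cls_of_dichr hD) integ hA hD

/-- `NEGK` from the open nodes. -/
theorem negk_open (hD : DICHR.{0}) (hJ : JDEC.{0}) (hA : Adj.ADJ.{0}) (hI : Adj.ISEC.{0})
    (hE : JSAME.{0}) : NEGK.{0} :=
  CurTop_844.negk hJ (cls_of_dichr hD) integ hA hD hI hE

/-- `STF` from the open nodes. -/
theorem stf_open (hD : DICHR.{0}) (hJ : JDEC.{0}) (hA : Adj.ADJ.{0}) : STF.{0} :=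
  STFin_861.stf Exj_900.exj (bplus_of_dichr hD) (zd_open hD hJ hA) (PD_819.pd_of_dichr hD)

/-- `CONE` from the open nodes. -/
theorem cone_open (hD : DICHR.{0}) (hJ : JDEC.{0}) (hA : Adj.ADJ.{0}) : CONE.{0} :=
  Cone_288.cone_of Hbn_195.hbn Exj_900.exj (cls_of_dichr hD) (negn_open hD hJ hA)
    (bplus_of_dichr hD)

/-- `HKCONE` from the open nodes. -/
theorem hkcone_open (hD : DICHR.{0}) (hJ : JDEC.{0}) (hA : Adj.ADJ.{0}) : HKCONE.{0} :=
  HkCone_288.hkcone_of (stf_open hD hJ hA) (bplus_of_dichr hD)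

/-- `SPH` from the open nodes. -/
theorem sph_open (hD : DICHR.{0}) (hR : ROOT.{0}) (hJ : JDEC.{0}) (hA : Adj.ADJ.{0})
    (hI : Adj.ISEC.{0}) (hE : JSAME.{0}) : SPH.{0} :=
  Sph_47.sph_of hR Hbn_195.hbn (cls_of_dichr hD) Exj_900.exj (negk_open hD hJ hA hI hE)
    (bplus_of_dichr hD)

/-- THE MAP. -/
theorem finalR_of (hS : SIG235.{0}) (hE : EVEN235.{0}) (hB : BPLUS.{0}) (hF4 : FAM4W.{0})
    (hR : ROOT.{0}) (hJ : JDEC.{0}) (hA : Adj.ADJ.{0}) (hK : KUM.{0}) (hT : TORR.{0}) :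
    MAIN.{u} :=
  have hD : DICHR.{0} := dichr_open hS hE hB hF4
  Univ_417.main_univ (main_of_props' hD Exj_900.exj hR (cone_open hD hJ hA)
    (hkcone_open hD hJ hA) LatK_766.latk hK lattr hT)

end Crest.Agent.R235
end

-- ▼ part R235/KumTop_152
section

/-!
Row 235 (S0364), PACKAGE KUM (helper152): ASSEMBLY
`SPH, DISJ, K12T, NECKTH, KTW, KCODE, KT, K4T, MINUSX, EVT, KUP, KDOWN, YAUK ⇒ KUM`.
-/

set_option autoImplicit false
set_option maxSynthPendingDepth 3

open Set Function Filter MeasureTheory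
open scoped Manifold ContDiff Topology RealInnerProductSpace

universe u

namespace Crest.Agent.R235.KumTop_152

open Crest.Agent.R240 Crest.Agent.R240.Ch Crest.Agent.R235 Crest.Agent.R235.KT_604
  Crest.Agent.R235.K12_417

noncomputable section

section Basic

variable {M : Type u} [TopologicalSpace M] [T2Space M] [CompactSpace M]
  [ChartedSpace E4 M] [IsManifold 𝓘(ℝ, E4) ∞ M]

theorem rec3_seg (A : Matrix (Fin 3) (Fin 3) ℝ) (w w' : Trip M) (t : ℝ) :
    seg (rec3 A w) (rec3 A w') t = rec3 A (seg w w' t) := by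
  funext i
  simp only [seg, rec3, Finset.smul_sum, ← Finset.sum_add_distrib]
  refine Finset.sum_congr rfl fun j _ => ?_
  rw [smul_add, smul_comm (1 - t) (A i j), smul_comm t (A i j)]

theorem rec3_pos {A : Matrix (Fin 3) (Fin 3) ℝ} (hA : A.det ≠ 0) {w : Trip M} (hw : Pos3 w) :
    Pos3 (rec3 A w) := hw.linear hA

theorem rec3_Seg {A : Matrix (Fin 3) (Fin 3) ℝ} (hA : A.det ≠ 0) {w w' : Trip M}
    (h : Seg w w') : Seg (rec3 A w) (rec3 A w') := fun t h0 h1 => by
  rw [rec3_seg]; exact rec3_pos hA (h t h0 h1)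

theorem rec3_PL {A : Matrix (Fin 3) (Fin 3) ℝ} (hA : A.det ≠ 0) {w w' : Trip M}
    (h : PL w w') : PL (rec3 A w) (rec3 A w') := by
  induction h with
  | refl => exact Relation.ReflTransGen.refl
  | tail _ h ih => exact ih.tail (rec3_Seg hA h)

theorem rec3_HK {A : Matrix (Fin 3) (Fin 3) ℝ} (hA : A.det ≠ 0) {w : Trip M} (h : HK w) :
    HK (rec3 A w) := h.linear hA

theorem rec3_mul (A B : Matrix (Fin 3) (Fin 3) ℝ) (w : Trip M) :
    rec3 A (rec3 B w) = rec3 (A * B) w := by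
  funext i
  simp only [rec3, Finset.smul_sum, smul_smul, Matrix.mul_apply, Finset.sum_smul]
  rw [Finset.sum_comm]

theorem rec3_one (w : Trip M) : rec3 1 w = w := by
  funext i
  simp only [rec3, Matrix.one_apply, ite_smul, one_smul, zero_smul, Finset.sum_ite_eq,
    Finset.mem_univ, if_true]

/-- the sign change of the last form. -/
def fl (s : ℝ) : Matrix (Fin 3) (Fin 3) ℝ := Matrix.diagonal ![1, 1, s]

theorem fl_fl {s : ℝ} (hs : s = 1 ∨ s = -1) : fl s * fl s = 1 := by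
  unfold fl
  rw [Matrix.diagonal_mul_diagonal, ← Matrix.diagonal_one]
  congr 1
  funext i
  fin_cases i <;> rcases hs with rfl | rfl <;> simp

theorem fl_det {s : ℝ} (hs : s = 1 ∨ s = -1) : (fl s).det ≠ 0 := by
  intro h
  have := congrArg Matrix.det (fl_fl hs)
  rw [Matrix.det_mul, h, Matrix.det_one] at this
  norm_num at this

theorem rec3_fl (s : ℝ) (w : Trip M) : rec3 (fl s) w = fun i => (![1, 1, s] i : ℝ) • w i := by
  funext i
  simp only [rec3, fl, Matrix.diagonal_apply, ite_smul, zero_smul, Finset.sum_ite_eq,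
    Finset.mem_univ, if_true]

theorem std_fl {m : ℕ} {σ : Fin m → E3 → M} {w : Trip M} {φ : Fin m → E4 → M} {s : ℝ}
    {R r₀ : Fin m → ℝ} {g : Fin m → ℝ → ℝ} (h : Std σ w φ s R r₀ g) :
    Std σ (rec3 (fl s) w) φ 1 R r₀ g := by
  have hs2 : s * s = 1 := by rcases h.sgn with rfl | rfl <;> norm_num
  have hw : ∀ i, rec3 (fl s) w i = (![1, 1, s] i : ℝ) • w i := fun i => by rw [rec3_fl]
  exact
    { smooth := h.smooth
      even := h.even
      inj := h.inj
      imm := h.imm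
      out := h.out
      sep := h.sep
      nbh := h.nbh
      shrink := h.shrink
      sgn := Or.inl rfl
      R_pos := h.R_pos
      r_pos := h.r_pos
      w1 := fun i z hz u v => by
        rw [hw 1, ← h.w1 i z hz u v]
        show (1 : ℝ) * val (w 1) _ _ _ = _
        rw [one_mul]
      w2 := fun i z hz u v => by
        rw [hw 2]
        show s * val (w 2) _ _ _ = _
        rw [h.w2 i z hz u v]
        calc s * (s * R i * ⟪qK u, v⟫) = (s * s) * (R i * ⟪qK u, v⟫) := by ring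
          _ = 1 * R i * ⟪qK u, v⟫ := by rw [hs2]; ring
      w0 := fun i z hz u v => by
        rw [hw 0, ← h.w0 i z hz u v]
        show (1 : ℝ) * val (w 0) _ _ _ = _
        rw [one_mul]
      g_smooth := h.g_smooth
      g_pos := h.g_pos
      g_flat := h.g_flat }

/-- the neck of a standardised triple. -/
def neckOf {m : ℕ} {σ : Fin m → E3 → M} {w : Trip M} {φ : Fin m → E4 → M} {s : ℝ}
    {R r₀ : Fin m → ℝ} {g : Fin m → ℝ → ℝ} (h : Std σ w φ s R r₀ g)
    (hσ : ∀ i, EmbS (σ i)) (hd : ∀ i j, i ≠ j → Disjoint (im (σ i)) (im (σ j))) : Neck M m where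
  C := fun i => im (σ i)
  cpt := fun i => (isCompact_sphere (0 : E3) 1).image_of_continuousOn
    ((hσ i).smooth.continuousOn.mono fun y hy => by
      have : ‖y‖ = 1 := by simpa using hy
      intro h0
      rw [h0, norm_zero] at this
      exact zero_ne_one this)
  disj := hd
  phi := φ
  smooth := h.smooth
  even := h.even
  inj := h.inj
  imm := h.imm
  out := h.out
  sep := h.sep
  nbh := h.nbh
  shrink := h.shrink

end Basic

/-- ASSEMBLY of package KUM. -/
theorem kum_of (hSPH : SPH.{u}) (hDISJ : DISJ.{u}) (hK12 : K12T.{u}) (hN : NECKTH.{u})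
    (hTW : KTW.{u}) (hCode : KCODE.{u}) (hKT : KT.{u}) (hK4 : K4T.{u}) (hMin : MINUSX.{u})
    (hEVT : EVT.{u}) (hUp : KUP.{u}) (hDn : KDOWN.{u}) (hY : YAUK.{u}) : KUM.{u} := by
  intro M _ _ _ _ _ _ w d hw hK hd
  -- the spheres
  have hsph : ∀ i, ∃ σ : E3 → M, JSph w σ (d i) := by
    intro i
    refine hSPH M w hw hK (d i) (hd.conf.root i) (hd.perp1 i) (hd.perp2 i) (hd.pos i) ?_
    intro d' hd' h1 h2 h3 hne
    obtain ⟨j, rfl | rfl⟩ := hd.only d' hd' h1 h2
    · rw [hd.conf.orth j i fun h => hne (by rw [h])]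
    · exfalso
      have h4 : ip (w 0) (-(d j)) (cls (w 0)) = - ip (w 0) (d j) (cls (w 0)) :=
        ip_neg_left (hw.vol 0) _ _
      have h5 : 0 < ip (w 0) (d j) (cls (w 0)) := hd.pos j
      rw [h4] at h3
      linarith
  choose σ hσ using hsph
  have hdne : ∀ i j, i ≠ j → d i ≠ d j := by
    intro i j hij h
    have h1 := hd.conf.orth i j hij
    have h2 : ip (w 0) (d i) (d i) = -2 := (hd.conf.root i).2
    rw [← h, h2] at h1
    norm_num at h1
  have hdisj : ∀ i j, i ≠ j → Disjoint (im (σ i)) (im (σ j)) := by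
    intro i j hij
    have h1 := (hDISJ M w hw (σ i) (σ j) (d i) (d j) (hσ i) (hσ j) (hdne i j hij)).2
      (hd.conf.orth i j hij)
    rw [Set.disjoint_left]
    rintro x ⟨y, hy, rfl⟩ ⟨z, hz, hyz⟩
    have hy1 : ‖y‖ = 1 := by simpa using hy
    have hz1 : ‖z‖ = 1 := by simpa using hz
    refine h1 y z ?_ ?_ hyz.symm
    · rintro rfl; rw [norm_zero] at hy1; exact zero_ne_one hy1
    · rintro rfl; rw [norm_zero] at hz1; exact zero_ne_one hz1
  -- standardisation
  obtain ⟨w', φ, s, R, r₀, g, hPL, hw', hstd, htube⟩ := hK12 M w hw 16 σ (fun i => (hσ i).emb)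
    (fun i => (hσ i).lag1) (fun i => (hσ i).lag2)
    (fun i => by rw [(hσ i).rep (w 0)]; exact (hσ i).pos) hdisj
  have hs := hstd.sgn
  set w1 : Trip M := rec3 (fl s) w' with hw1def
  have hw1 : Pos3 w1 := rec3_pos (fl_det hs) hw'
  have hstd1 : Std σ w1 φ 1 R r₀ g := std_fl hstd
  -- the neck and the double cover
  let K : Neck M 16 := neckOf hstd (fun i => (hσ i).emb) hdisj
  have hNT : NeckT K d := hN M w hw hK 16 σ d hσ hd.conf.root K (fun _ => rfl) htube
  obtain ⟨t0⟩ := hTW M w hw hK 16 K d hNT Finset.univ hd.conf.half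
  have ht0 : (fun i : Fin 16 => if i ∈ (Finset.univ : Finset (Fin 16)) then (-1 : ℝ) else 1) =
      fun _ => (-1 : ℝ) := by
    funext i
    rw [if_pos (Finset.mem_univ i)]
  obtain ⟨t⟩ : Nonempty (Twist K (fun _ => -1)) := by
    rw [← ht0]; exact ⟨t0⟩
  obtain ⟨I, hI, hIZ⟩ := hCode M w d hw hK hd
  have hIne : I.Nonempty := by
    rw [← Finset.card_pos, hI]; norm_num
  have hIu : I ≠ Finset.univ := by
    intro h
    rw [h, Finset.card_univ, Fintype.card_fin] at hI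
    norm_num at hI
  obtain ⟨X, iT, iT2, iC, iCn, iCh, iM, ⟨O⟩⟩ := hKT M 16 (by norm_num) (K.kin t)
  obtain ⟨u, hu, hL⟩ := hUp M w1 hw1 16 σ φ R r₀ g hstd1 (K.kin t) (fun _ => rfl) rfl X O
  have hT4 : T4R (u 0) := hK4 M 16 K t I hIne hIu (hTW M w hw hK 16 K d hNT I hIZ) X O u hu
  have hMO : MinusOne O.io := hMin M hK.1 16 (K.kin t) X O
  have hInv : Invol u O.io := ⟨O.io_smooth, O.io_io, hL.even⟩
  obtain ⟨u', sf, hP, hu', hev, hflat, hodd⟩ := hEVT X u O.io hu hT4 hInv hMO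
  obtain ⟨w2, hPL2, hw2, A, hA, hrel⟩ := hDn M w1 hw1 16 σ φ R r₀ g hstd1
    (fun i => (hσ i).emb) (K.kin t) (fun _ => rfl) rfl X O u u' hu hL hP hu' hev sf hflat hodd
  obtain ⟨v', hseg, hHK⟩ := hY M (rec3 A w2) (rec3_pos hA hw2) hrel
  -- back
  have hAi : (A⁻¹).det ≠ 0 := by
    have h1 : A⁻¹.det * A.det = 1 := by
      rw [← Matrix.det_mul, Matrix.nonsing_inv_mul A (isUnit_iff_ne_zero.2 hA), Matrix.det_one]
    intro h2
    rw [h2, zero_mul] at h1
    exact zero_ne_one h1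
  have hseg2 : Seg w2 (rec3 A⁻¹ v') := by
    have := rec3_Seg hAi hseg
    rwa [rec3_mul, Matrix.nonsing_inv_mul A (isUnit_iff_ne_zero.2 hA), rec3_one] at this
  have hPL3 : PL w1 (rec3 A⁻¹ v') := hPL2.tail hseg2
  have hPL4 : PL w' (rec3 (fl s) (rec3 A⁻¹ v')) := by
    have := rec3_PL (fl_det hs) hPL3
    rwa [hw1def, rec3_mul, fl_fl hs, rec3_one] at this
  exact ⟨rec3 (fl s) (rec3 A⁻¹ v'), hPL.trans hPL4, rec3_HK (fl_det hs) (rec3_HK hAi hHK)⟩

end

end Crest.Agent.R235.KumTop_152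
end

-- ▼ part R235/KumTau_800
section

/-!
Row 235 (S0364), package KUM, node KTW, part (d) (helper800): the connection form `τ`.

`exists_tau`: if `NeckT K d` and `c = ½ ∑_{i ∈ I} d i` is the class of the closed form `a`, there is
a one-form `τ` on `M`, smooth outside of the removed sets with `dτ = a`, and a smooth one-form `s₀`
on `M` such that on the neck `i`, near the removed set,
`phi i ^* τ = phi i ^* s₀ - 1/(4π) θ` (`i ∈ I`), `phi i ^* τ = phi i ^* s₀` (`i ∉ I`).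
-/

set_option autoImplicit false
set_option maxSynthPendingDepth 3

open Set Function Filter MeasureTheory
open scoped Manifold ContDiff Topology

universe u

namespace Crest.Agent.R235.KumTau_800

open Crest.Agent.R240 Crest.Agent.R240.Ch Crest.Agent.R235.KT_604 Crest.Agent.R235.Loc_524
open Crest.Agent.R235.Pull_129 (dL pb1 pb2 inC pb1_apply)

noncomputable section

theorem isOpen_PB (r : ℝ) : IsOpen (PB r) :=
  (isOpen_ne_fun continuous_id continuous_const).inter (isOpen_lt continuous_norm continuous_const)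

theorem neg_mem_PB {r : ℝ} {z : E4} (hz : z ∈ PB r) : -z ∈ PB r :=
  ⟨neg_ne_zero.2 hz.1, by rw [norm_neg]; exact hz.2⟩

theorem bij_of_inj {A : E4 →L[ℝ] E4} (h : ∀ v, A v = 0 → v = 0) : Bijective A := by
  have h1 : Injective (A : E4 →ₗ[ℝ] E4) := (injective_iff_map_eq_zero A).2 h
  exact ⟨h1, LinearMap.injective_iff_surjective.1 h1⟩

section Neck

variable {M : Type u} [TopologicalSpace M] [ChartedSpace E4 M]
variable {m : ℕ} (K : Neck M m)

theorem phi_at (i : Fin m) {z : E4} (hz : z ∈ PB 1) :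
    ContMDiffAt 𝓘(ℝ, E4) 𝓘(ℝ, E4) ∞ (K.phi i) z :=
  (K.smooth i).contMDiffAt ((isOpen_PB 1).mem_nhds hz)

theorem bij_dL (i : Fin m) {z : E4} (hz : z ∈ PB 1) :
    Bijective (dL (E := E4) (K.phi i) z) :=
  bij_of_inj fun v hv => K.imm i z hz v hv

/-- the removed set with the closed half neck is closed. -/
theorem isClosed_half [T2Space M] (i : Fin m) :
    IsClosed (K.C i ∪ K.phi i '' {z | z ≠ 0 ∧ ‖z‖ ≤ 1 / 2}) := by
  rw [← isOpen_compl_iff, isOpen_iff_mem_nhds]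
  intro x hx
  rw [mem_compl_iff, mem_union, not_or] at hx
  obtain ⟨O, O', hO, hO', hCO, hxO', hdis⟩ := (K.cpt i).separation_of_notMem hx.1
  obtain ⟨r, hr0, hr1, hrO⟩ := K.shrink i O hO hCO
  have hS : IsCompact {z : E4 | r / 2 ≤ ‖z‖ ∧ ‖z‖ ≤ 1 / 2} := by
    refine (isCompact_closedBall (0 : E4) (1 / 2)).of_isClosed_subset
      ((isClosed_le continuous_const continuous_norm).inter
        (isClosed_le continuous_norm continuous_const)) fun z hz => ?_
    rw [mem_closedBall_zero_iff]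
    exact hz.2
  have hSP : {z : E4 | r / 2 ≤ ‖z‖ ∧ ‖z‖ ≤ 1 / 2} ⊆ PB 1 := fun z hz =>
    ⟨norm_pos_iff.1 (lt_of_lt_of_le (by positivity) hz.1), lt_of_le_of_lt hz.2 (by norm_num)⟩
  have hS2 : IsCompact (K.phi i '' {z : E4 | r / 2 ≤ ‖z‖ ∧ ‖z‖ ≤ 1 / 2}) :=
    hS.image_of_continuousOn ((K.smooth i).continuousOn.mono hSP)
  have hx2 : x ∉ K.phi i '' {z : E4 | r / 2 ≤ ‖z‖ ∧ ‖z‖ ≤ 1 / 2} := by
    rintro ⟨z, hz, rfl⟩
    exact hx.2 ⟨z, ⟨(hSP hz).1, hz.2⟩, rfl⟩
  filter_upwards [hO'.mem_nhds hxO', hS2.isClosed.isOpen_compl.mem_nhds hx2] with y h1 h2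
  rintro (h3 | ⟨z, hz, rfl⟩)
  · exact Set.disjoint_left.1 hdis (hCO h3) h1
  · by_cases h4 : r / 2 ≤ ‖z‖
    · exact h2 ⟨z, ⟨h4, hz.2⟩, rfl⟩
    · push Not at h4
      exact Set.disjoint_left.1 hdis (hrO ⟨z, ⟨hz.1, h4.trans (by linarith)⟩, rfl⟩) h1

/-- the differential at `-z`. -/
theorem dL_neg [IsManifold 𝓘(ℝ, E4) ∞ M] (i : Fin m) {z : E4} (hz : z ∈ PB 1) :
    dL (E := E4) (K.phi i) (-z) = -dL (E := E4) (K.phi i) z := by
  have h1 : (fun y : E4 => K.phi i (-y)) =ᶠ[𝓝 z] K.phi i := by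
    filter_upwards [(isOpen_PB 1).mem_nhds hz] with y hy
    exact K.even i y hy
  have h2 := Pull_129.dL_comp (E := E4) (Φ := K.phi i) (g := fun y : E4 => -y) (z := z)
    (phi_at K i (neg_mem_PB hz)) (by fun_prop)
  rw [Pull_129.dL_congr h1] at h2
  rw [h2]
  ext1 v
  rw [neg_apply, ContinuousLinearMap.comp_apply, fderiv_fun_neg, neg_apply, map_neg, neg_neg]
  simp

/-- push-forward of an odd covector field. -/
theorem exists_push [IsManifold 𝓘(ℝ, E4) ∞ M] (i : Fin m) {T : E4 → E4 →L[ℝ] ℝ} (hT : ∀ z ∈ PB 1, T (-z) = -T z) :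
    ∃ η : F1 E4 M, (∀ z ∈ PB 1, pb1 (K.phi i) η z = T z) ∧
      ∀ x, (∀ z ∈ PB 1, x ≠ K.phi i z) → at1 η x = 0 := by
  classical
  let η : F1 E4 M := fun x => if h : (∃ z ∈ PB 1, x = K.phi i z) ∧ ∃ l : E4 →L[ℝ] ℝ,
    ∀ z ∈ PB 1, x = K.phi i z → l.comp (dL (K.phi i) z) = T z then h.2.choose else 0
  refine ⟨η, fun z hz => ?_, fun x hx => dif_neg fun h => ?_⟩
  · have hb := bij_dL K i hz
    let e : E4 ≃L[ℝ] E4 := ContinuousLinearEquiv.ofBijective (dL (K.phi i) z)
      (LinearMap.ker_eq_bot.2 hb.1) (LinearMap.range_eq_top.2 hb.2)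
    have hl : ((T z).comp (e.symm : E4 →L[ℝ] E4)).comp (dL (K.phi i) z) = T z := by
      ext1 v
      show T z (e.symm (e v)) = _
      rw [e.symm_apply_apply]
    have h : (∃ z' ∈ PB 1, K.phi i z = K.phi i z') ∧ ∃ l : E4 →L[ℝ] ℝ, ∀ z' ∈ PB 1,
        K.phi i z = K.phi i z' → l.comp (dL (K.phi i) z') = T z' := by
      refine ⟨⟨z, hz, rfl⟩, (T z).comp (e.symm : E4 →L[ℝ] E4), fun z' hz' hzz => ?_⟩
      rcases K.inj i z hz z' hz' hzz with rfl | rfl
      · exact hl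
      · rw [dL_neg K i hz, hT z hz, ContinuousLinearMap.comp_neg, hl]
    have h1 : at1 η (K.phi i z) = h.2.choose := dif_pos h
    show (at1 η (K.phi i z)).comp (dL (K.phi i) z) = T z
    rw [h1]
    exact h.2.choose_spec z hz rfl
  · obtain ⟨z, hz, hxz⟩ := h.1
    exact hx z hz hxz

end Neck

section Smooth

variable {M : Type u} [TopologicalSpace M] [ChartedSpace E4 M] [IsManifold 𝓘(ℝ, E4) ∞ M]
variable {m : ℕ} (K : Neck M m)

theorem smAt_of_pb (i : Fin m) {η : F1 E4 M} {z : E4} (hz : z ∈ PB 1)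
    (h : ContDiffAt ℝ ∞ (pb1 (K.phi i) η) z) : SmAt1 η (K.phi i z) :=
  Pull_129.rep1_contDiffAt (isOpen_PB 1) (K.smooth i) (fun _ hz => bij_dL K i hz) hz
    (mem_chart_source E4 _) h

theorem dG_of_pb (i : Fin m) {η : F1 E4 M} {z : E4} (hz : z ∈ PB 1)
    (h : ContDiffAt ℝ ∞ (pb1 (K.phi i) η) z) (u v : E4) :
    at2 (dG η) (K.phi i z) (dL (K.phi i) z u) (dL (K.phi i) z v) = d1 (pb1 (K.phi i) η) z u v := by
  have hs := smAt_of_pb K i hz h
  have hp := mem_chart_source E4 (K.phi i z)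
  have h0 := phi_at K i hz
  rw [Pull_129.d1_pull (Pull_129.inC_contDiffAt h0 hp)
    (ContDiffAt.differentiableAt hs infty_ne_zero)
    (Pull_129.pb1_chart_ev (isOpen_PB 1) (K.smooth i) hz hp η)]
  rfl

/-- a 2-tensor is determined by its pull-back. -/
theorem bil_ext {A : E4 →L[ℝ] E4} (h : Surjective A) {b b' : Bil}
    (e : ∀ u v, b (A u) (A v) = b' (A u) (A v)) : b = b' := by
  ext1 u
  ext1 v
  obtain ⟨u', rfl⟩ := h u
  obtain ⟨v', rfl⟩ := h v
  exact e u' v'

theorem thL_neg (z : E4) : thL (-z) = -thL z := by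
  have h1 : qi (-z) = -qi z := by
    ext j; fin_cases j <;> simp [qi]
  rw [thL, thL, norm_neg, h1, map_neg, smul_neg]

theorem contDiff_qi : ContDiff ℝ ∞ qi := by
  refine contDiff_euclidean.2 fun j => ?_
  fin_cases j
  · show ContDiff ℝ ∞ (fun z : E4 => -z 1)
    fun_prop
  · show ContDiff ℝ ∞ (fun z : E4 => z 0)
    fun_prop
  · show ContDiff ℝ ∞ (fun z : E4 => -z 3)
    fun_prop
  · show ContDiff ℝ ∞ (fun z : E4 => z 2)
    fun_prop

theorem contDiffAt_thL {z : E4} (hz : z ≠ 0) : ContDiffAt ℝ ∞ thL z := by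
  have h1 : ContDiffAt ℝ ∞ (fun z : E4 => 2 / ‖z‖ ^ 2) z :=
    contDiffAt_const.div (contDiff_norm_sq ℝ).contDiffAt (by positivity)
  exact h1.smul ((innerSL ℝ (E := E4)).contDiff.contDiffAt.comp z contDiff_qi.contDiffAt)

/-- the primitive of a Thom form. -/
theorem exists_eta [T2Space M] [CompactSpace M] {i : Fin m} {d : H2 M} {T : Z2 M}
    (hT : IsThom K i d T) : ∃ η : F1 E4 M, (∀ x, x ∉ K.C i → SmAt1 η x ∧
      at2 (dG η) x = val T x) ∧ (∃ r > 0, r ≤ 1 ∧ ∀ z ∈ PB r,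
        pb1 (K.phi i) η z = (-1 / (2 * Real.pi)) • thL z) ∧
      ∀ x, (∀ z ∈ PB 1, x ≠ K.phi i z) → at1 η x = 0 := by
  obtain ⟨-, hsupp, f, hf, ⟨r, hr0, hr⟩, hf0, hpull⟩ := hT
  obtain ⟨η, h1, h2⟩ := exists_push K i (T := fun y => f (‖y‖ ^ 2) • thL y) (fun z hz => by
    rw [norm_neg, thL_neg, smul_neg])
  have hsm : ∀ z ∈ PB 1, ContDiffAt ℝ ∞ (fun y : E4 => f (‖y‖ ^ 2) • thL y) z := fun z hz =>
    ((hf.comp (contDiff_norm_sq ℝ)).contDiffAt (x := z)).smul (contDiffAt_thL hz.1)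
  have hev : ∀ z ∈ PB 1, pb1 (K.phi i) η =ᶠ[𝓝 z] fun y : E4 => f (‖y‖ ^ 2) • thL y := fun z hz => by
    filter_upwards [(isOpen_PB 1).mem_nhds hz] with y hy
    exact h1 y hy
  refine ⟨η, fun x hx => ?_, ⟨min (min r 1) 1, by positivity, min_le_right _ _, fun z hz => ?_⟩, h2⟩
  · by_cases hxn : ∃ z ∈ PB 1, x = K.phi i z
    · obtain ⟨z, hz, rfl⟩ := hxn
      have h3 : ContDiffAt ℝ ∞ (pb1 (K.phi i) η) z :=
        (hsm z hz).congr_of_eventuallyEq (hev z hz)
      refine ⟨smAt_of_pb K i hz h3, bil_ext (bij_dL K i hz).2 fun u v => ?_⟩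
      rw [dG_of_pb K i hz h3, d1_congr (hev z hz)]
      exact (hpull z hz u v).symm
    · push Not at hxn
      have h3 : η =ᶠ[𝓝 x] (0 : F1 E4 M) := by
        have h4 : x ∉ K.C i ∪ K.phi i '' {z | z ≠ 0 ∧ ‖z‖ ≤ 1 / 2} := by
          rintro (h | ⟨z, hz, h⟩)
          · exact hx h
          · exact hxn z ⟨hz.1, lt_of_le_of_lt hz.2 (by norm_num)⟩ h.symm
        filter_upwards [(isClosed_half K i).isOpen_compl.mem_nhds h4] with y hy
        by_cases hy1 : ∃ z ∈ PB 1, y = K.phi i z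
        · obtain ⟨z, hz, rfl⟩ := hy1
          have h5 : 1 / 2 < ‖z‖ := by
            by_contra hcon
            push Not at hcon
            exact hy (Or.inr ⟨z, ⟨hz.1, hcon⟩, rfl⟩)
          have h6 : pb1 (K.phi i) η z = 0 := by
            rw [h1 z hz, hf0 _ (by nlinarith), zero_smul]
          refine ContinuousLinearMap.ext fun v => ?_
          obtain ⟨w, rfl⟩ := (bij_dL K i hz).2 v
          exact congrArg (fun L : E4 →L[ℝ] ℝ => L w) h6
        · push Not at hy1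
          exact h2 y hy1
      have h7 : SmAt1 (0 : F1 E4 M) x := smAt1_of_smooth smooth1_zero x
      refine ⟨h7.congr h3, ?_⟩
      have h8 : dG (0 : F1 E4 M) = 0 := by
        have h := dG_smul (0 : ℝ) (smooth1_zero (E := E4) (M := M))
        simpa using h
      rw [dG_congr h3, h8, hsupp x hx fun z hz h => hxn z ⟨hz.1, hz.2.trans (by norm_num)⟩ h]
      rfl
  · have hz1 : ‖z‖ < 1 := hz.2.trans_le (min_le_right _ _)
    have hzr : ‖z‖ < r := hz.2.trans_le ((min_le_left _ _).trans (min_le_left _ _))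
    rw [h1 z ⟨hz.1, hz1⟩, hr]
    nlinarith [norm_nonneg z]

end Smooth

section Tau

variable {M : Type u} [TopologicalSpace M] [T2Space M] [CompactSpace M] [ChartedSpace E4 M]
  [IsManifold 𝓘(ℝ, E4) ∞ M]
variable {m : ℕ} (K : Neck M m)

omit [T2Space M] [CompactSpace M] in
theorem dG_add_at {s t : F1 E4 M} {x : M} (hs : SmAt1 s x) (ht : SmAt1 t x) :
    at2 (dG (s + t)) x = at2 (dG s) x + at2 (dG t) x :=
  d1_add (ContDiffAt.differentiableAt hs infty_ne_zero)
    (ContDiffAt.differentiableAt ht infty_ne_zero)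

omit [T2Space M] [CompactSpace M] in
theorem dG_smul_at (c : ℝ) {s : F1 E4 M} {x : M} (hs : SmAt1 s x) :
    at2 (dG (c • s)) x = c • at2 (dG s) x := by
  have hd := ContDiffAt.differentiableAt hs infty_ne_zero
  show d1 (fun y => c • rep1 x s y) (chartAt E4 x x) = c • d1 (rep1 x s) (chartAt E4 x x)
  ext u v
  simp only [d1_apply, smul_apply, smul_eq_mul]
  rw [fderiv_fun_const_smul hd]
  simp only [smul_apply, smul_eq_mul]
  ring

omit [T2Space M] [CompactSpace M] in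
theorem sum_at {ι : Type*} (I : Finset ι) {η : ι → F1 E4 M} {b : ι → Bil} {x : M}
    (h : ∀ i, SmAt1 (η i) x ∧ at2 (dG (η i)) x = b i) :
    SmAt1 (∑ i ∈ I, η i) x ∧ at2 (dG (∑ i ∈ I, η i)) x = ∑ i ∈ I, b i := by
  classical
  induction I using Finset.induction_on with
  | empty =>
    rw [Finset.sum_empty, Finset.sum_empty]
    refine ⟨smAt1_of_smooth smooth1_zero x, ?_⟩
    have h8 : dG (0 : F1 E4 M) = 0 := by
      have h := dG_smul (0 : ℝ) (smooth1_zero (E := E4) (M := M))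
      simpa using h
    rw [h8]
    rfl
  | insert i I hi ih =>
    rw [Finset.sum_insert hi, Finset.sum_insert hi]
    exact ⟨(h i).1.add ih.1, by rw [dG_add_at (h i).1 ih.1, (h i).2, ih.2]⟩

omit [T2Space M] [CompactSpace M] in
theorem pb1_sum {ι : Type*} (I : Finset ι) (Φ : E4 → M) (η : ι → F1 E4 M) (z : E4) :
    pb1 Φ (∑ i ∈ I, η i) z = ∑ i ∈ I, pb1 Φ (η i) z := by
  classical
  induction I using Finset.induction_on with
  | empty => rfl
  | insert i I hi ih => rw [Finset.sum_insert hi, Finset.sum_insert hi, Pull_129.pb1_add, ih]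

omit [T2Space M] [CompactSpace M] in
theorem val_sum {ι : Type*} (I : Finset ι) (T : ι → Z2 M) (x : M) :
    val (∑ i ∈ I, T i) x = ∑ i ∈ I, val (T i) x := by
  classical
  induction I using Finset.induction_on with
  | empty => rfl
  | insert i I hi ih =>
    rw [Finset.sum_insert hi, Finset.sum_insert hi, ← ih]
    rfl

/-- **the connection form `τ`.** -/
theorem exists_tau {d : Fin m → H2 M} (hN : NeckT K d) (I : Finset (Fin m)) {a : Z2 M}
    (ha : cls a = ((1 : ℝ) / 2) • ∑ i ∈ I, d i) :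
    ∃ (τ s₀ : F1 E4 M), Smooth1 s₀ ∧
      (∀ x, (∀ i, x ∉ K.C i) → SmAt1 τ x ∧ at2 (dG τ) x = val a x) ∧
      ∃ r > 0, r ≤ 1 ∧ ∀ i, ∀ z ∈ PB r, pb1 (K.phi i) τ z = pb1 (K.phi i) s₀ z +
        ((if i ∈ I then -1 else 0) / (4 * Real.pi)) • thL z := by
  choose T hT using hN.thom
  choose η h1 h2 h3 using fun i => exists_eta K (hT i)
  choose r hr0 hr1 hr using h2
  -- the exact part
  have hex : a - ((1 : ℝ) / 2) • ∑ i ∈ I, T i ∈ B2 M := by
    rw [← Submodule.Quotient.mk_eq_zero]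
    show cls _ = 0
    rw [map_sub, map_smul, map_sum, ha]
    simp only [(hT _).1]
    exact sub_self _
  obtain ⟨s₀, hs₀, hs₁⟩ := isEx_iff.1 hex
  refine ⟨s₀ + ((1 : ℝ) / 2) • ∑ i ∈ I, η i, s₀, hs₀, fun x hx => ?_, ?_⟩
  · obtain ⟨k1, k2⟩ := sum_at I (x := x) (η := η) (b := fun i => val (T i) x)
      (fun i => h1 i x (hx i))
    refine ⟨(smAt1_of_smooth hs₀ x).add (k1.smul _), ?_⟩
    rw [dG_add_at (smAt1_of_smooth hs₀ x) (k1.smul _), dG_smul_at _ k1, k2, ← hs₁, ← val_sum]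
    show (val a x - ((1 : ℝ) / 2) • val (∑ i ∈ I, T i) x) + _ = _
    exact sub_add_cancel _ _
  · have hev : ∀ᶠ ρ : ℝ in 𝓝[>] 0, 0 < ρ ∧ ρ ≤ 1 ∧ ∀ i, ρ ≤ r i := by
      have e1 : ∀ᶠ ρ : ℝ in 𝓝[>] 0, 0 < ρ := self_mem_nhdsWithin
      have e2 : ∀ c : ℝ, 0 < c → ∀ᶠ ρ : ℝ in 𝓝[>] 0, ρ ≤ c := fun c hc =>
        nhdsWithin_le_nhds (Iic_mem_nhds hc)
      filter_upwards [e1, e2 1 one_pos, eventually_all.2 fun i => e2 (r i) (hr0 i)] with ρ a b c
      exact ⟨a, b, c⟩
    obtain ⟨ρ, hρ0, hρ1, hρ⟩ := hev.exists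
    refine ⟨ρ, hρ0, hρ1, fun i z hz => ?_⟩
    rw [Pull_129.pb1_add, Pull_129.pb1_smul, pb1_sum]
    congr 1
    have hz1 : z ∈ PB 1 := ⟨hz.1, hz.2.trans_le hρ1⟩
    have k1 : ∀ j, j ≠ i → pb1 (K.phi i) (η j) z = 0 := fun j hj => by
      have : at1 (η j) (K.phi i z) = 0 := h3 j _ fun z' hz' => K.sep i j hj.symm z hz1 z' hz'
      show (at1 (η j) (K.phi i z)).comp _ = 0
      rw [this, ContinuousLinearMap.zero_comp]
    by_cases hi : i ∈ I
    · rw [if_pos hi, Finset.sum_eq_single i (fun j _ hj => k1 j hj) (fun h => absurd hi h),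
        hr i z ⟨hz.1, hz.2.trans_le (hρ i)⟩, smul_smul]
      congr 1
      have := Real.pi_ne_zero
      field_simp
      ring
    · rw [if_neg hi, Finset.sum_eq_zero fun j hj => k1 j (fun h => hi (h ▸ hj)), smul_zero,
        zero_div, zero_smul]

end Tau

end

end Crest.Agent.R235.KumTau_800
end

-- ▼ part R235/KumTwD_800
section

/-!
Row 235 (S0364), package KUM, node KTW, part (d) (helper800): ASSEMBLY.

`PSec K sg` = unit local sections over `M ∖ ⋃ C` (parallel sections of a flat hermitian line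
bundle inside `ℂ^N`), any two of which differ by a locally constant phase, and unit sections
`psi i` on the necks with `psi i (-z) = sg i • psi i z`.

`twist_of`: if every locally constant `U(1)` cocycle on `M` is a locally constant coboundary
(`Coco M`), then `PSec K sg` gives a double-valued function `Twist K sg`.

`ktw : FLATK → KTW`: the parallel sections are those of `KumTwM_387` for the connection form of
`KumTau_800`, the coboundaries those of `KumTwC_57`.
-/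

set_option autoImplicit false
set_option maxSynthPendingDepth 3

open Set Function Filter MeasureTheory
open scoped Manifold ContDiff Topology ComplexConjugate

universe u

namespace Crest.Agent.R235.KumTwD_800

open Crest.Agent.R240 Crest.Agent.R240.Ch Crest.Agent.R235.KT_604

noncomputable section

/-- the parallel sections. -/
structure PSec {M : Type u} [TopologicalSpace M] [ChartedSpace E4 M] {m : ℕ} (K : Neck M m)
    (sg : Fin m → ℝ) where
  N : ℕ
  Q : Set M → (M → CN N) → Prop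
  op : ∀ U s, Q U s → IsOpen U
  out : ∀ U s, Q U s → ∀ y ∈ U, ∀ i, y ∉ K.C i
  cont : ∀ U s, Q U s → ContinuousOn s U
  unit : ∀ U s, Q U s → ∀ y ∈ U, ‖s y‖ = 1
  loc : ∀ x, (∀ i, x ∉ K.C i) → ∃ U s, x ∈ U ∧ Q U s
  cmp : ∀ U s U' s', Q U s → Q U' s' → ∀ x ∈ U, x ∈ U' →
    ∃ c : ℂ, ‖c‖ = 1 ∧ ∀ᶠ y in 𝓝 x, s y = c • s' y
  psi : Fin m → E4 → CN N
  psi_cmp : ∀ i, ∀ z ∈ PB 1, ∀ U s, Q U s → K.phi i z ∈ U →
    ∃ c : ℂ, ‖c‖ = 1 ∧ ∀ᶠ z' in 𝓝 z, psi i z' = c • s (K.phi i z')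
  psi_par : ∀ i, ∀ z ∈ PB 1, psi i (-z) = sg i • psi i z

/-- every locally constant `U(1)` cocycle is a locally constant coboundary. -/
def Coco (M : Type u) [TopologicalSpace M] : Prop :=
  ∀ (ι : Type) [Finite ι] (U : ι → Set M) (g : ι → ι → M → ℂ), (∀ a, IsOpen (U a)) →
    (∀ x, ∃ a, x ∈ U a) → (∀ a b x, x ∈ U a → x ∈ U b → ‖g a b x‖ = 1) →
    (∀ a b x, x ∈ U a → x ∈ U b → ∀ᶠ y in 𝓝 x, g a b y = g a b x) →
    (∀ a b c x, x ∈ U a → x ∈ U b → x ∈ U c → g a b x * g b c x = g a c x) →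
    ∃ c : ι → M → ℂ, (∀ a x, x ∈ U a → ‖c a x‖ = 1 ∧ ∀ᶠ y in 𝓝 x, c a y = c a x) ∧
      ∀ a b x, x ∈ U a → x ∈ U b → g a b x = c a x * conj (c b x)

theorem coco (hF : FLATK.{u}) {M : Type u} [TopologicalSpace M] [T2Space M]
    [CompactSpace M] [ConnectedSpace M] [ChartedSpace E4 M] [IsManifold 𝓘(ℝ, E4) ∞ M]
    {w : Trip M} (hw : Pos3 w) (hK : K3Type (w 0)) : Coco M :=
  fun _ _ _ _ op cov unit lc coc => KumTwC_57.ktwc_finite hF hw hK op cov unit lc coc

/-! ### elementary lemmas -/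

/-- a vector is determined up to sign by its tensor square. -/
theorem sq_eq {N : ℕ} {u v : CN N} (h : ∀ j k, u j * u k = v j * v k) : u = v ∨ u = -v := by
  by_cases hv : v = 0
  · left
    ext j
    have h1 := h j j
    rw [hv] at h1 ⊢
    simpa using h1
  · obtain ⟨j, hj⟩ : ∃ j, v j ≠ 0 := by
      by_contra hcon
      push Not at hcon
      exact hv (by ext j; simpa using hcon j)
    have h1 : (u j) ^ 2 = (v j) ^ 2 := by
      rw [sq, sq]
      exact h j j
    rcases sq_eq_sq_iff_eq_or_eq_neg.1 h1 with h2 | h2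
    · left
      ext k
      have h3 := h j k
      rw [h2] at h3
      exact mul_left_cancel₀ hj h3
    · right
      ext k
      have h3 := h j k
      rw [h2] at h3
      have h4 : v j * (-(u k)) = v j * v k := by
        rw [← h3]
        ring
      have h5 := mul_left_cancel₀ hj h4
      simp only [PiLp.neg_apply]
      rw [← h5, neg_neg]

/-- the square root of a unit complex number. -/
theorem exists_root (w : ℂ) (hw : ‖w‖ = 1) : ∃ r : ℂ, r * r = w ∧ ‖r‖ = 1 := by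
  obtain ⟨r, hr⟩ := IsAlgClosed.exists_pow_nat_eq w (n := 2) (by norm_num)
  refine ⟨r, by rw [← hr, sq], ?_⟩
  have h1 : ‖r‖ ^ 2 = 1 := by rw [← norm_pow, hr, hw]
  nlinarith [norm_nonneg r]

/-- `PB 1` is preconnected. -/
theorem isPreconnected_PB : IsPreconnected (PB 1) := by
  have h1 : PB 1 = (fun q : ℝ × E4 => q.1 • q.2) '' (Ioo (0 : ℝ) 1 ×ˢ Metric.sphere (0 : E4) 1) := by
    ext z
    constructor
    · rintro ⟨h0, h1⟩
      have hz : 0 < ‖z‖ := norm_pos_iff.2 h0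
      refine ⟨(‖z‖, ‖z‖⁻¹ • z), ⟨⟨hz, h1⟩, ?_⟩, ?_⟩
      · rw [mem_sphere_zero_iff_norm, norm_smul, norm_inv, norm_norm, inv_mul_cancel₀ hz.ne']
      · show ‖z‖ • ‖z‖⁻¹ • z = z
        rw [smul_smul, mul_inv_cancel₀ hz.ne', one_smul]
    · rintro ⟨⟨t, v⟩, ⟨⟨ht0, ht1⟩, hv⟩, rfl⟩
      have hv' : ‖v‖ = 1 := mem_sphere_zero_iff_norm.1 hv
      refine ⟨?_, ?_⟩
      · show t • v ≠ 0
        rw [smul_ne_zero_iff]
        refine ⟨ht0.ne', fun h => ?_⟩
        rw [h, norm_zero] at hv'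
        exact zero_ne_one hv'
      · show ‖t • v‖ < 1
        rw [norm_smul, hv', mul_one, Real.norm_eq_abs, abs_of_pos ht0]
        exact ht1
  rw [h1]
  refine IsPreconnected.image ?_ _ (continuous_fst.smul continuous_snd).continuousOn
  refine isPreconnected_Ioo.prod ?_
  refine isPreconnected_sphere ?_ _ _
  rw [← Module.finrank_eq_rank]
  simp [finrank_euclideanSpace]

/-- a locally constant function on a preconnected set is constant. -/
theorem const_of_lc {X Y : Type*} [TopologicalSpace X] {S : Set X} (hS : IsPreconnected S)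
    {f : X → Y} (h : ∀ x ∈ S, ∀ᶠ y in 𝓝 x, f y = f x) {x y : X} (hx : x ∈ S) (hy : y ∈ S) :
    f x = f y := by
  let _ : TopologicalSpace Y := ⊥
  have _ : DiscreteTopology Y := ⟨rfl⟩
  have hc : ContinuousOn f S := by
    intro z hz
    refine ContinuousAt.continuousWithinAt ?_
    have : Tendsto f (𝓝 z) (pure (f z)) := by
      rw [tendsto_pure]
      exact h z hz
    exact this.mono_right (pure_le_nhds _)
  exact hS.constant hc hx hy

section Open

variable {M : Type u} [TopologicalSpace M] [ChartedSpace E4 M] [IsManifold 𝓘(ℝ, E4) ∞ M]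

/-- an immersive map is open at a point. -/
theorem map_nhds_at {Φ : E4 → M} {y : E4} (hs : ContMDiffAt 𝓘(ℝ, E4) 𝓘(ℝ, E4) ∞ Φ y)
    (hi : ∀ v : E4, dmap Φ y v = 0 → v = 0) : map Φ (𝓝 y) = 𝓝 (Φ y) := by
  set F : E4 → E4 := fun z => chartAt E4 (Φ y) (Φ z) with hF
  have hsrc : ∀ᶠ z in 𝓝 y, Φ z ∈ (chartAt E4 (Φ y)).source :=
    hs.continuousAt ((chartAt E4 (Φ y)).open_source.mem_nhds (mem_chart_source E4 (Φ y)))
  have hc : ContMDiffAt 𝓘(ℝ, E4) 𝓘(ℝ, E4) ∞ F y :=
    ((contMDiffOn_chart (I := 𝓘(ℝ, E4)) (n := ∞) (x := Φ y)).contMDiffAt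
      ((chartAt E4 (Φ y)).open_source.mem_nhds (mem_chart_source E4 (Φ y)))).comp y hs
  have hcd : ContDiffAt ℝ ∞ F y := hc.contDiffAt
  have hst : HasStrictFDerivAt F (fderiv ℝ F y) y := hcd.hasStrictFDerivAt (by simp)
  have hinj : Function.Injective (fderiv ℝ F y) := by
    intro u v huv
    have h0 : fderiv ℝ F y (u - v) = 0 := by rw [map_sub, huv, sub_self]
    exact sub_eq_zero.1 (hi _ h0)
  have hsurj : (fderiv ℝ F y : E4 →L[ℝ] E4).range = ⊤ :=
    LinearMap.range_eq_top.2 (LinearMap.injective_iff_surjective.1 hinj)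
  have h1 : map F (𝓝 y) = 𝓝 (F y) := hst.map_nhds_eq_of_surj hsurj
  have h2 : Φ =ᶠ[𝓝 y] fun z => (chartAt E4 (Φ y)).symm (F z) := by
    filter_upwards [hsrc] with z hz
    exact ((chartAt E4 (Φ y)).left_inv hz).symm
  have h3 : map (chartAt E4 (Φ y)).symm (𝓝 (F y)) = 𝓝 (Φ y) := by
    have := (chartAt E4 (Φ y)).symm.map_nhds_eq (x := F y)
      ((chartAt E4 (Φ y)).map_source (mem_chart_source E4 (Φ y)))
    rw [this]
    congr 1
    exact (chartAt E4 (Φ y)).left_inv (mem_chart_source E4 (Φ y))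
  calc map Φ (𝓝 y) = map (fun z => (chartAt E4 (Φ y)).symm (F z)) (𝓝 y) := map_congr h2
    _ = map (chartAt E4 (Φ y)).symm (map F (𝓝 y)) := (map_map).symm
    _ = 𝓝 (Φ y) := by rw [h1, h3]

end Open

/-! ### the double-valued function -/

section Tw

variable {M : Type u} [TopologicalSpace M] [ChartedSpace E4 M]

theorem isOpen_PB (r : ℝ) : IsOpen (PB r) := by
  have : PB r = {z : E4 | z ≠ 0} ∩ Metric.ball 0 r := by
    ext z; simp [PB]
  rw [this]
  exact isOpen_ne.inter Metric.isOpen_ball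


variable {m : ℕ} {K : Neck M m} {sg : Fin m → ℝ} (P : PSec K sg)

/-- the complement of the removed sets is a neighbourhood. -/
theorem out_nhds [T2Space M] (K : Neck M m) {x : M} (hx : ∀ i, x ∉ K.C i) : ∀ᶠ y in 𝓝 x, ∀ i, y ∉ K.C i := by
  rw [eventually_all]
  exact fun i => (K.cpt i).isClosed.isOpen_compl.mem_nhds (hx i)

theorem phi_cont (K : Neck M m) (i : Fin m) {z : E4} (hz : z ∈ PB 1) :
    ContinuousAt (K.phi i) z :=
  ((K.smooth i).contMDiffAt ((isOpen_PB 1).mem_nhds hz)).continuousAt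

theorem phi_map [IsManifold 𝓘(ℝ, E4) ∞ M] (K : Neck M m) (i : Fin m) {z : E4} (hz : z ∈ PB 1) :
    map (K.phi i) (𝓝 z) = 𝓝 (K.phi i z) :=
  map_nhds_at ((K.smooth i).contMDiffAt ((isOpen_PB 1).mem_nhds hz)) (K.imm i z hz)

theorem psi_unit (i : Fin m) {z : E4} (hz : z ∈ PB 1) : ‖P.psi i z‖ = 1 := by
  obtain ⟨U, s, hxU, hQ⟩ := P.loc (K.phi i z) (fun j => K.out i j z hz)
  obtain ⟨c, hc, hc'⟩ := P.psi_cmp i z hz U s hQ hxU
  rw [hc'.self_of_nhds, norm_smul, hc, P.unit U s hQ _ hxU, one_mul]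

theorem psi_cont (i : Fin m) {z : E4} (hz : z ∈ PB 1) : ContinuousAt (P.psi i) z := by
  obtain ⟨U, s, hxU, hQ⟩ := P.loc (K.phi i z) (fun j => K.out i j z hz)
  obtain ⟨c, hc, hc'⟩ := P.psi_cmp i z hz U s hQ hxU
  have h1 : ContinuousAt s (K.phi i z) :=
    (P.cont U s hQ).continuousAt ((P.op U s hQ).mem_nhds hxU)
  have h2 : ContinuousAt (fun z' => c • s (K.phi i z')) z :=
    (ContinuousAt.comp (g := s) h1 (phi_cont K i hz)).const_smul c
  exact h2.congr (EventuallyEq.symm hc')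

theorem psi_eps (i : Fin m) {z z' : E4} (hz : z ∈ PB 1) (hz' : z' ∈ PB 1)
    (h : K.phi i z = K.phi i z') : P.psi i z' = P.psi i z ∨ P.psi i z' = -P.psi i z := by
  rcases K.inj i z hz z' hz' h with h1 | h1
  · left; rw [h1]
  · have h2 := P.psi_par i z hz
    rw [← h1] at h2
    have h3 : |sg i| = 1 := by
      have := congrArg norm h2
      rwa [norm_smul, psi_unit P i hz, psi_unit P i hz', mul_one, Real.norm_eq_abs, eq_comm] at this
    rcases eq_or_eq_neg_of_abs_eq h3 with h4 | h4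
    · left; rw [h2, h4, one_smul]
    · right; rw [h2, h4, neg_one_smul]

/-- `l` is locally a parallel section up to sign. -/
def Rp (V : Set M) (l : M → CN P.N) : Prop :=
  ∀ x ∈ V, (∀ i, x ∉ K.C i) → ∀ U s, P.Q U s → x ∈ U →
    ∃ κ : ℂ, ‖κ‖ = 1 ∧ ∀ᶠ y in 𝓝 x, l y = κ • s y ∨ l y = -(κ • s y)

theorem rp_sec {U : Set M} {s : M → CN P.N} (hQ : P.Q U s) : Rp P U s := by
  intro x hx _ U' s' hQ' hx'
  obtain ⟨c, hc, hc'⟩ := P.cmp U s U' s' hQ hQ' x hx hx'
  exact ⟨c, hc, hc'.mono fun y hy => Or.inl hy⟩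

open Classical in
/-- the section `psi i` on the image of the neck. -/
def lN (i : Fin m) (y : M) : CN P.N :=
  if h : ∃ z ∈ PB 1, K.phi i z = y then P.psi i h.choose else 0

theorem lN_eq (i : Fin m) {z : E4} (hz : z ∈ PB 1) :
    lN P i (K.phi i z) = P.psi i z ∨ lN P i (K.phi i z) = -P.psi i z := by
  have h : ∃ z' ∈ PB 1, K.phi i z' = K.phi i z := ⟨z, hz, rfl⟩
  have h1 : lN P i (K.phi i z) = P.psi i h.choose := dif_pos h
  rw [h1]
  exact psi_eps P i hz h.choose_spec.1 h.choose_spec.2.symm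

theorem rp_neck [IsManifold 𝓘(ℝ, E4) ∞ M] (i : Fin m) : Rp P (K.C i ∪ K.phi i '' PB 1) (lN P i) := by
  intro x hx hxC U s hQ hxU
  obtain ⟨z, hz, rfl⟩ : x ∈ K.phi i '' PB 1 := hx.resolve_left (hxC i)
  obtain ⟨c, hc, hc'⟩ := P.psi_cmp i z hz U s hQ hxU
  refine ⟨c, hc, ?_⟩
  rw [← phi_map K i hz, eventually_map]
  filter_upwards [hc', (isOpen_PB 1).mem_nhds hz] with z' h1 h2
  rcases lN_eq P i h2 with h3 | h3
  · left; rw [h3, h1]
  · right; rw [h3, h1]

theorem two_rp {V V' : Set M} {l l' : M → CN P.N} (h : Rp P V l) (h' : Rp P V' l') {x : M}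
    (hx : x ∈ V) (hx' : x ∈ V') (hxC : ∀ i, x ∉ K.C i) :
    ∃ κ : ℂ, ‖κ‖ = 1 ∧ ∀ᶠ y in 𝓝 x, ‖l' y‖ = 1 ∧ (l y = κ • l' y ∨ l y = -(κ • l' y)) := by
  obtain ⟨U, s, hxU, hQ⟩ := P.loc x hxC
  obtain ⟨κ, hκ, h1⟩ := h x hx hxC U s hQ hxU
  obtain ⟨κ', hκ', h2⟩ := h' x hx' hxC U s hQ hxU
  have hk : κ' * conj κ' = 1 := by
    rw [Complex.mul_conj, Complex.normSq_eq_norm_sq, hκ']
    norm_num
  refine ⟨κ * conj κ', by rw [norm_mul, Complex.norm_conj, hκ, hκ', one_mul], ?_⟩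
  filter_upwards [h1, h2, (P.op U s hQ).mem_nhds hxU] with y k1 k2 k3
  have k4 : ‖l' y‖ = 1 := by
    rcases k2 with k2 | k2
    · rw [k2, norm_smul, hκ', P.unit U s hQ y k3, one_mul]
    · rw [k2, norm_neg, norm_smul, hκ', P.unit U s hQ y k3, one_mul]
  refine ⟨k4, ?_⟩
  have k5 : (κ * conj κ') • κ' • s y = κ • s y := by
    rw [smul_smul, mul_assoc, mul_comm (conj κ'), hk, mul_one]
  rcases k1 with k1 | k1 <;> rcases k2 with k2 | k2
  · left; rw [k1, k2, k5]
  · right; rw [k1, k2, smul_neg, k5, neg_neg]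
  · right; rw [k1, k2, k5]
  · left; rw [k1, k2, smul_neg, k5]

/-- the square of the transition function. -/
def tr {N : ℕ} (u v : CN N) : ℂ := (inner ℂ v u) ^ 2

theorem tr_eq {N : ℕ} {u v : CN N} {κ : ℂ} (hv : ‖v‖ = 1) (h : u = κ • v ∨ u = -(κ • v)) :
    tr u v = κ ^ 2 := by
  have h1 : inner ℂ v (κ • v) = κ := by
    rw [inner_smul_right, inner_self_eq_norm_sq_to_K, hv]
    simp
  rcases h with h | h
  · rw [tr, h, h1]
  · rw [tr, h, inner_neg_right, h1, neg_sq]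

/-- a finite cover by necks and domains of parallel sections. -/
theorem cover [CompactSpace M] : ∃ (n : ℕ) (U : Fin n → Set M) (s : Fin n → M → CN P.N),
    (∀ j, P.Q (U j) (s j)) ∧ ∀ x, (∃ i, x ∈ K.C i ∪ K.phi i '' PB 1) ∨ ∃ j, x ∈ U j := by
  classical
  have hcl : IsClosed (⋃ i, (K.C i ∪ K.phi i '' PB 1))ᶜ :=
    (isOpen_iUnion fun i => K.nbh i 1 one_pos le_rfl).isClosed_compl
  have hout : ∀ x : ↥(⋃ i, (K.C i ∪ K.phi i '' PB 1))ᶜ, ∀ i, (x : M) ∉ K.C i :=
    fun x i hi => x.2 (mem_iUnion.2 ⟨i, Or.inl hi⟩)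
  choose U s hxU hQ using fun x : ↥(⋃ i, (K.C i ∪ K.phi i '' PB 1))ᶜ => P.loc x (hout x)
  obtain ⟨t, ht⟩ := hcl.isCompact.elim_finite_subcover U (fun x => P.op _ _ (hQ x))
    (fun x hx => mem_iUnion.2 ⟨⟨x, hx⟩, hxU ⟨x, hx⟩⟩)
  refine ⟨t.card, fun j => U (t.equivFin.symm j), fun j => s (t.equivFin.symm j),
    fun j => hQ _, fun x => ?_⟩
  by_cases hx : ∃ i, x ∈ K.C i ∪ K.phi i '' PB 1
  · exact Or.inl hx
  · right
    have h1 : x ∈ (⋃ i, (K.C i ∪ K.phi i '' PB 1))ᶜ := by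
      rw [mem_compl_iff, mem_iUnion]
      exact hx
    obtain ⟨y, hy, hxy⟩ := mem_iUnion₂.1 (ht h1)
    refine ⟨t.equivFin ⟨y, hy⟩, ?_⟩
    show x ∈ U (t.equivFin.symm (t.equivFin ⟨y, hy⟩))
    rw [Equiv.symm_apply_apply]
    exact hxy

include P in
/-- if `U(1)` cocycles are coboundaries, the parallel sections give a double-valued function. -/
theorem twist_of [T2Space M] [CompactSpace M] [IsManifold 𝓘(ℝ, E4) ∞ M] (hco : Coco M) :
    Nonempty (Twist K sg) := by
  classical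
  obtain ⟨n, U, s, hQ, hcov⟩ := cover P
  -- the cover and the local sections
  let V : Fin m ⊕ Fin n → Set M := Sum.elim (fun i => K.C i ∪ K.phi i '' PB 1) U
  let l : Fin m ⊕ Fin n → M → CN P.N := Sum.elim (lN P) s
  have hV : ∀ a, IsOpen (V a) := by
    rintro (i | j)
    · exact K.nbh i 1 one_pos le_rfl
    · exact P.op _ _ (hQ j)
  have hl : ∀ a, Rp P (V a) (l a) := by
    rintro (i | j)
    · exact rp_neck P i
    · exact rp_sec P (hQ j)
  have hcv : ∀ x, ∃ a, x ∈ V a := fun x => by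
    rcases hcov x with ⟨i, hi⟩ | ⟨j, hj⟩
    · exact ⟨Sum.inl i, hi⟩
    · exact ⟨Sum.inr j, hj⟩
  -- only one set meets `C i`
  have hVC : ∀ i a x, x ∈ K.C i → x ∈ V a → a = Sum.inl i := by
    rintro i (j | j) x hx hxa
    · by_contra hne
      have hij : i ≠ j := fun h => hne (by rw [h])
      rcases hxa with h | ⟨z, hz, rfl⟩
      · exact Set.disjoint_left.1 (K.disj i j hij) hx h
      · exact K.out j i z hz hx
    · exact absurd hx (P.out _ _ (hQ j) x hxa i)
  let g : Fin m ⊕ Fin n → Fin m ⊕ Fin n → M → ℂ := fun a b y =>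
    if ∃ i, y ∈ K.C i then 1 else tr (l a y) (l b y)
  have hgin : ∀ a b y, (∃ i, y ∈ K.C i) → g a b y = 1 := fun a b y h => if_pos h
  have hgout : ∀ a b y, (∀ i, y ∉ K.C i) → g a b y = tr (l a y) (l b y) := fun a b y h =>
    if_neg (by push Not; exact h)
  have hg : ∀ a b x, x ∈ V a → x ∈ V b → (∀ i, x ∉ K.C i) → ∃ κ : ℂ, ‖κ‖ = 1 ∧
      ∀ᶠ y in 𝓝 x, (∀ i, y ∉ K.C i) ∧ g a b y = κ ^ 2 ∧
        (l a y = κ • l b y ∨ l a y = -(κ • l b y)) := by
    intro a b x hxa hxb hx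
    obtain ⟨κ, hκ, h⟩ := two_rp P (hl a) (hl b) hxa hxb hx
    refine ⟨κ, hκ, ?_⟩
    filter_upwards [h, out_nhds K hx] with y h1 h2
    exact ⟨h2, by rw [hgout a b y h2, tr_eq h1.1 h1.2], h1.2⟩
  have hg1 : ∀ a b x, x ∈ V a → x ∈ V b → ‖g a b x‖ = 1 := by
    intro a b x hxa hxb
    by_cases hx : ∃ i, x ∈ K.C i
    · rw [hgin a b x hx, norm_one]
    · push Not at hx
      obtain ⟨κ, hκ, h⟩ := hg a b x hxa hxb hx
      rw [h.self_of_nhds.2.1, norm_pow, hκ, one_pow]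
  have hg2 : ∀ a b x, x ∈ V a → x ∈ V b → ∀ᶠ y in 𝓝 x, g a b y = g a b x := by
    intro a b x hxa hxb
    by_cases hx : ∃ i, x ∈ K.C i
    · obtain ⟨i, hi⟩ := hx
      have ha := hVC i a x hi hxa
      have hb := hVC i b x hi hxb
      subst ha hb
      rw [hgin _ _ x ⟨i, hi⟩]
      filter_upwards [(hV (Sum.inl i)).mem_nhds hxa] with y hy
      by_cases hy' : ∃ i, y ∈ K.C i
      · exact hgin _ _ y hy'
      · push Not at hy'
        obtain ⟨κ, hκ, h⟩ := two_rp P (hl (Sum.inl i)) (hl (Sum.inl i)) hy hy hy'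
        rw [hgout _ _ y hy', tr_eq (κ := 1) h.self_of_nhds.1 (Or.inl (one_smul _ _).symm), one_pow]
    · push Not at hx
      obtain ⟨κ, hκ, h⟩ := hg a b x hxa hxb hx
      filter_upwards [h] with y hy
      rw [hy.2.1, h.self_of_nhds.2.1]
  have hg3 : ∀ a b e x, x ∈ V a → x ∈ V b → x ∈ V e → g a b x * g b e x = g a e x := by
    intro a b e x hxa hxb hxe
    by_cases hx : ∃ i, x ∈ K.C i
    · rw [hgin _ _ x hx, hgin _ _ x hx, hgin _ _ x hx, one_mul]
    · push Not at hx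
      obtain ⟨κ, hκ, h⟩ := two_rp P (hl a) (hl b) hxa hxb hx
      obtain ⟨κ', hκ', h'⟩ := two_rp P (hl b) (hl e) hxb hxe hx
      have h1 := h.self_of_nhds
      have h2 := h'.self_of_nhds
      rw [hgout _ _ x hx, hgout _ _ x hx, hgout _ _ x hx, tr_eq h1.1 h1.2, tr_eq h2.1 h2.2,
        tr_eq (κ := κ * κ') h2.1, mul_pow]
      rcases h1.2 with k1 | k1 <;> rcases h2.2 with k2 | k2
      · left; rw [k1, k2, smul_smul]
      · right; rw [k1, k2, smul_neg, smul_smul]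
      · right; rw [k1, k2, smul_smul]
      · left; rw [k1, k2, smul_neg, neg_neg, smul_smul]
  obtain ⟨c, hc1, hc2⟩ := hco (Fin m ⊕ Fin n) V g hV hcv hg1 hg2 hg3
  -- the double-valued function
  let idx : M → Fin m ⊕ Fin n := fun y => (hcv y).choose
  have hidx : ∀ y, y ∈ V (idx y) := fun y => (hcv y).choose_spec
  let tw : M → Set (CN P.N) := fun y =>
    {v | ∀ j k, v j * v k = conj (c (idx y) y) * (l (idx y) y j * l (idx y) y k)}
  have hcc : ∀ a x, x ∈ V a → conj (c a x) * c a x = 1 := fun a x hx => by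
    rw [mul_comm, Complex.mul_conj, Complex.normSq_eq_norm_sq, (hc1 a x hx).1]
    norm_num
  have key : ∀ a y, y ∈ V a → (∀ i, y ∉ K.C i) → ∀ w : CN P.N,
      (∀ j k, w j * w k = conj (c a y) * (l a y j * l a y k)) → tw y = {w, -w} := by
    intro a y hya hy w hw
    obtain ⟨κ, hκ, h⟩ := hg (idx y) a y (hidx y) hya hy
    obtain ⟨-, h2, h3⟩ := h.self_of_nhds
    have h4 := hc2 (idx y) a y (hidx y) hya
    have h5 : ∀ j k, conj (c (idx y) y) * (l (idx y) y j * l (idx y) y k) = w j * w k := by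
      intro j k
      have h6 : l (idx y) y j * l (idx y) y k = κ ^ 2 * (l a y j * l a y k) := by
        rcases h3 with h3 | h3
        · rw [h3]
          simp only [PiLp.smul_apply, smul_eq_mul]
          ring
        · rw [h3]
          simp only [PiLp.neg_apply, PiLp.smul_apply, smul_eq_mul]
          ring
      rw [h6, ← h2, h4, hw j k]
      calc conj (c (idx y) y) * (c (idx y) y * conj (c a y) * (l a y j * l a y k))
          = (conj (c (idx y) y) * c (idx y) y) * (conj (c a y) * (l a y j * l a y k)) := by ring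
        _ = _ := by rw [hcc _ _ (hidx y), one_mul]
    ext v
    rw [mem_insert_iff, mem_singleton_iff]
    constructor
    · intro hv
      exact sq_eq fun j k => (hv j k).trans (h5 j k)
    · rintro (rfl | rfl) j k
      · exact (h5 j k).symm
      · rw [h5]
        simp only [PiLp.neg_apply]
        ring
  have hroot : ∀ i : Fin m, ∃ ρ : ℂ, ∀ z ∈ PB 1, ρ * ρ = conj (c (Sum.inl i) (K.phi i z)) := by
    intro i
    by_cases h : ∃ z : E4, z ∈ PB 1
    · obtain ⟨z₀, hz₀⟩ := h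
      obtain ⟨ρ, hρ, -⟩ := exists_root (conj (c (Sum.inl i) (K.phi i z₀))) (by
        rw [Complex.norm_conj]
        exact (hc1 (Sum.inl i) _ (Or.inr ⟨z₀, hz₀, rfl⟩)).1)
      refine ⟨ρ, fun z hz => ?_⟩
      have h1 : ∀ z ∈ PB 1, ∀ᶠ z' in 𝓝 z, c (Sum.inl i) (K.phi i z') =
          c (Sum.inl i) (K.phi i z) := fun z hz =>
        (phi_cont K i hz).eventually (hc1 (Sum.inl i) _ (Or.inr ⟨z, hz, rfl⟩)).2
      rw [hρ, const_of_lc isPreconnected_PB h1 hz₀ hz]
    · exact ⟨0, fun z hz => absurd ⟨z, hz⟩ h⟩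
  choose ρ hρ using hroot
  refine ⟨⟨P.N, tw, ?_, fun i z => ρ i • P.psi i z, ?_, ?_, ?_⟩⟩
  · intro x hx
    obtain ⟨W, σ, hxW, hW⟩ := P.loc x hx
    obtain ⟨a, ha⟩ := hcv x
    obtain ⟨κ, hκ, h⟩ := hl a x ha hx W σ hW hxW
    obtain ⟨hcx, hcl⟩ := hc1 a x ha
    obtain ⟨ρ, hρ, hρn⟩ := exists_root (conj (c a x)) (by rw [Complex.norm_conj, hcx])
    refine ⟨{y | ((((l a y = κ • σ y ∨ l a y = -(κ • σ y)) ∧ c a y = c a x) ∧
          ∀ i, y ∉ K.C i) ∧ y ∈ V a) ∧ y ∈ W},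
      (((h.and hcl).and (out_nhds K hx)).and (((hV a).mem_nhds ha))).and
      ((P.op _ _ hW).mem_nhds hxW), fun y => (ρ * κ) • σ y, ?_, ?_⟩
    · have h0 : ContinuousOn σ {y | ((((l a y = κ • σ y ∨ l a y = -(κ • σ y)) ∧ c a y = c a x) ∧
          ∀ i, y ∉ K.C i) ∧ y ∈ V a) ∧ y ∈ W} := (P.cont _ _ hW).mono fun y hy => hy.2
      exact h0.const_smul (ρ * κ)
    · rintro y ⟨⟨⟨⟨h1, h2⟩, h3⟩, h4⟩, h5⟩
      have h6 : ‖(ρ * κ) • σ y‖ = 1 := by
        rw [norm_smul, norm_mul, hρn, hκ, P.unit _ _ hW y h5, one_mul, one_mul]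
      refine ⟨fun h7 => ?_, key a y h4 h3 _ fun j k => ?_⟩
      · have h8 : (ρ * κ) • σ y = 0 := h7
        rw [h8, norm_zero] at h6
        exact zero_ne_one h6
      · rw [h2, ← hρ]
        rcases h1 with h1 | h1
        · rw [h1]
          simp only [PiLp.smul_apply, smul_eq_mul]
          ring
        · rw [h1]
          simp only [PiLp.neg_apply, PiLp.smul_apply, smul_eq_mul]
          ring
  · intro i z hz
    have h0 : ContinuousAt (fun z => ρ i • P.psi i z) z := (psi_cont P i hz).const_smul (ρ i)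
    exact h0.continuousWithinAt
  · intro i z hz
    have h0 := key (Sum.inl i) (K.phi i z) (Or.inr ⟨z, hz, rfl⟩) (fun j => K.out i j z hz)
      (ρ i • P.psi i z) fun j k => by
        rw [← hρ i z hz]
        rcases lN_eq P i hz with h1 | h1
        · show _ = ρ i * ρ i * (lN P i (K.phi i z) j * lN P i (K.phi i z) k)
          rw [h1]
          simp only [PiLp.smul_apply, smul_eq_mul]
          ring
        · show _ = ρ i * ρ i * (lN P i (K.phi i z) j * lN P i (K.phi i z) k)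
          rw [h1]
          simp only [PiLp.neg_apply, PiLp.smul_apply, smul_eq_mul]
          ring
    show ρ i • P.psi i z ∈ tw (K.phi i z)
    rw [h0]
    exact mem_insert _ _
  · intro i z hz
    show ρ i • P.psi i (-z) = sg i • ρ i • P.psi i z
    rw [P.psi_par i z hz, smul_comm]

end Tw

/-! ### the parallel sections -/

section Par

open KumTwM_387 Loc_524

variable {M : Type u} [TopologicalSpace M] [T2Space M] [CompactSpace M] [ChartedSpace E4 M]
  [IsManifold 𝓘(ℝ, E4) ∞ M]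
variable {m : ℕ} (K : Neck M m)

theorem norm_of_hh {N : ℕ} {v : CN N} (h : Par_387.hh v.ofLp v.ofLp = 1) : ‖v‖ = 1 := by
  have h1 : (‖v‖ ^ 2 : ℝ) = 1 := by
    rw [EuclideanSpace.norm_sq_eq]
    have h2 : Par_387.hh v.ofLp v.ofLp = ((∑ i, ‖v i‖ ^ 2 : ℝ) : ℂ) := by
      unfold Par_387.hh
      push_cast
      refine Finset.sum_congr rfl fun i _ => ?_
      rw [mul_comm, Complex.mul_conj, Complex.normSq_eq_norm_sq]
      push_cast
      rfl
    rw [h2] at h
    exact_mod_cast h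
  nlinarith [norm_nonneg v]

theorem norm_of_conj {c : ℂ} (h : conj c * c = 1) : ‖c‖ = 1 := by
  have h1 : ((‖c‖ ^ 2 : ℝ) : ℂ) = 1 := by
    rw [mul_comm, Complex.mul_conj, Complex.normSq_eq_norm_sq] at h
    exact h
  have h2 : ‖c‖ ^ 2 = 1 := by exact_mod_cast h1
  nlinarith [norm_nonneg c]

/-- the parallel sections of `KumTwM_387`. -/
theorem exists_psec {d : Fin m → H2 M} (hN : NeckT K d) (I : Finset (Fin m))
    (hI : ((1 : ℝ) / 2) • ∑ i ∈ I, d i ∈ HZ M) :
    Nonempty (PSec K (fun i => if i ∈ I then -1 else 1)) := by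
  classical
  obtain ⟨N, p, a, hp, ha, hcls⟩ := hI
  obtain ⟨τ, s₀, hs₀, hτ, r, hr0, hr1, hpull⟩ := KumTau_800.exists_tau K hN I hcls
  set T : F1 E4 M := (-1 : ℝ) • τ with hTdef
  have hT : ∀ x, (∀ i, x ∉ K.C i) → SmAt1 T x ∧ at2 (dG T) x = -val a x := fun x hx => by
    obtain ⟨h1, h2⟩ := hτ x hx
    refine ⟨h1.smul _, ?_⟩
    rw [hTdef, KumTau_800.dG_smul_at _ h1, h2, neg_one_smul]
  have hTev : ∀ x, (∀ i, x ∉ K.C i) → ∀ᶠ y in 𝓝 x, SmAt1 T y ∧ at2 (dG T) y = -val a y :=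
    fun x hx => (out_nhds K hx).mono fun y hy => hT y hy
  have hT1 : ∀ i, ∀ z ∈ PB 1, SmAt1 T (K.phi i z) := fun i z hz =>
    (hT _ fun j => K.out i j z hz).1
  have hT2 : ∀ i, ∀ z ∈ PB 1, at2 (dG T) (K.phi i z) = -val a (K.phi i z) := fun i z hz =>
    (hT _ fun j => K.out i j z hz).2
  choose psi hpsi c hc1 hc2 using fun i => exists_neck hp ha K i (hT1 i) (hT2 i)
  have hsign : ∀ i, c i = if i ∈ I then -1 else 1 := by
    intro i
    have h1 := sign_psi hp K i (hN.disc i) hr0 hr1 (s := if i ∈ I then 1 else 0)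
      (A₀ := (-1 : ℝ) • s₀) (T := T) (fun q _ => smAt1_of_smooth (hs₀.smul _) q) (fun z hz v => by
        have h2 := hpull i z hz
        have h3 : Pull_129.pb1 (K.phi i) T z = (-1 : ℝ) • Pull_129.pb1 (K.phi i) τ z := rfl
        have h4 : Pull_129.pb1 (K.phi i) ((-1 : ℝ) • s₀) z =
          (-1 : ℝ) • Pull_129.pb1 (K.phi i) s₀ z := rfl
        rw [h3, h4, h2]
        by_cases hi : i ∈ I
        · simp only [if_pos hi, add_apply, smul_apply, smul_eq_mul]
          ring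
        · simp only [if_neg hi, add_apply, smul_apply, smul_eq_mul]
          ring) (hpsi i) (hc2 i)
    rw [h1]
    by_cases hi : i ∈ I
    · rw [if_pos hi, if_pos hi]
      exact KumTwB_303.exp_one
    · rw [if_neg hi, if_neg hi]
      exact KumTwB_303.exp_zero'
  refine ⟨{
    N := N
    Q := fun U s => IsOpen U ∧ (∀ y ∈ U, ∀ i, y ∉ K.C i) ∧
      ∀ y ∈ U, GoodM p T (fun y => (s y).ofLp) y
    op := fun U s h => h.1
    out := fun U s h => h.2.1
    cont := fun U s h y hy => ?_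
    unit := fun U s h y hy => norm_of_hh (h.2.2 y hy).unit
    loc := fun x hx => ?_
    cmp := fun U s U' s' h h' x hx hx' => ?_
    psi := fun i z => WithLp.toLp 2 (psi i z)
    psi_cmp := fun i z hz U s h hzU => ?_
    psi_par := fun i z hz => ?_ }⟩
  · have h1 : ContinuousAt (fun y => (s y).ofLp) y :=
      continuousAt_pi.2 fun i => ((h.2.2 y hy).sm i).continuousAt
    exact ((PiLp.continuous_toLp 2 (fun _ : Fin N => ℂ)).continuousAt.comp h1).continuousWithinAt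
  · obtain ⟨s, hs⟩ := exists_goodM hp ha (hTev x hx)
    obtain ⟨U, hU, hUo, hxU⟩ := eventually_nhds_iff.1 (hs.and (out_nhds K hx))
    exact ⟨U, fun y => WithLp.toLp 2 (s y), hxU, hUo, fun y hy => (hU y hy).2,
      fun y hy => (hU y hy).1⟩
  · have h1 : ∀ᶠ y in 𝓝 x, GoodM p T (fun y => (s y).ofLp) y := by
      filter_upwards [h.1.mem_nhds hx] with y hy using h.2.2 y hy
    have h2 : ∀ᶠ y in 𝓝 x, GoodM p T (fun y => (s' y).ofLp) y := by
      filter_upwards [h'.1.mem_nhds hx'] with y hy using h'.2.2 y hy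
    obtain ⟨κ, hκ, he⟩ := goodM_cmp hp ha (hTev x (h.2.1 x hx)) h1 h2
    refine ⟨κ, norm_of_conj hκ, he.mono fun y hy => ?_⟩
    ext j
    exact congrFun hy j
  · have h1 : ∀ᶠ y in 𝓝 (K.phi i z), GoodM p T (fun y => (s y).ofLp) y := by
      filter_upwards [h.1.mem_nhds hzU] with y hy using h.2.2 y hy
    obtain ⟨κ, hκ, he⟩ := neck_cmp hp ha K i (hT1 i) (hT2 i) (hpsi i) hz h1
    refine ⟨conj κ, by rw [Complex.norm_conj]; exact norm_of_conj hκ, he.mono fun y hy => ?_⟩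
    ext j
    have h2 : (s (K.phi i y)).ofLp j = κ * psi i y j := congrFun hy j
    show psi i y j = conj κ * (s (K.phi i y)).ofLp j
    rw [h2, ← mul_assoc, hκ, one_mul]
  · ext j
    have h1 : psi i (-z) j = c i * psi i z j := congrFun (hc2 i z hz) j
    show psi i (-z) j = ((if i ∈ I then -1 else 1 : ℝ) • (WithLp.toLp 2 (psi i z) : CN N)) j
    rw [h1, hsign i]
    by_cases hi : i ∈ I
    · simp [hi]
    · simp [hi]

/-- **KTW.** -/
theorem ktw (hF : FLATK.{u}) : KTW.{u} := by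
  intro M _ _ _ _ _ _ w hw hK m K d hN I hI
  obtain ⟨P⟩ := exists_psec K hN I hI
  exact twist_of P (coco hF hw hK)

end Par

end

end Crest.Agent.R235.KumTwD_800
end

-- ▼ part R235/KumThom_785
section

/-!
Row 235 (S0364), package KUM, node NECKTH (a) (helper785): the Thom form of a tube,
`thom : PHI → RADF → S2PRIM → RPRIM → … → ∃ T, IsThom K i d T`.
-/

set_option autoImplicit false
set_option maxSynthPendingDepth 3
set_option linter.unusedSectionVars false

open Set Function Filter MeasureTheory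
open scoped Manifold ContDiff Topology RealInnerProductSpace

universe u

namespace Crest.Agent.R235.KumThom_785

open Crest.Agent.R240 Crest.Agent.R240.Ch Crest.Agent.R240.Int Crest.Agent.R235
  Crest.Agent.R235.K12_417 Crest.Agent.R235.KT_604
  Crest.Agent.R235.PB_604 Crest.Agent.R235.K12Ext_168 Crest.Agent.R235.KumThA_785
  Crest.Agent.R235.KumThB_785 Crest.Agent.R235.KumThC_785

noncomputable section

/-! ### the profile -/

/-- the profile: `-1/(2π)` for `x ≤ 1/10`, `0` for `x ≥ 1/5`. -/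
def fp (x : ℝ) : ℝ := (-1 / (2 * Real.pi)) * Real.smoothTransition ((1 / 5 - x) * 10)

lemma contDiff_fp : ContDiff ℝ ∞ fp :=
  contDiff_const.mul (Real.smoothTransition.contDiff.comp
    ((contDiff_const.sub contDiff_id).mul contDiff_const))

lemma fp_small {x : ℝ} (hx : x ≤ 1 / 10) : fp x = -1 / (2 * Real.pi) := by
  unfold fp
  rw [Real.smoothTransition.one_of_one_le (by linarith), mul_one]

lemma fp_large {x : ℝ} (hx : 1 / 5 ≤ x) : fp x = 0 := by
  unfold fp
  rw [Real.smoothTransition.zero_of_nonpos (by linarith), mul_zero]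

/-- the profile as a function of `|p|`. -/
def Fp (t s : ℝ) : ℝ := fp (s / t)

lemma contDiff_Fp (t : ℝ) : ContDiff ℝ ∞ (Fp t) := contDiff_fp.comp (contDiff_id.div_const t)

lemma Fp_small {t s : ℝ} (ht : 0 < t) (hs : s < t / 10) : Fp t s = -1 / (2 * Real.pi) := by
  unfold Fp
  apply fp_small
  rw [div_le_iff₀ ht]; linarith

lemma Fp_zero {t : ℝ} (ht : 0 < t) : Fp t 0 = -1 / (2 * Real.pi) := Fp_small ht (by linarith)

lemma Fp_large {t s : ℝ} (ht : 0 < t) (hs : t / 5 ≤ s) : Fp t s = 0 := by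
  unfold Fp
  apply fp_large
  rw [le_div_iff₀ ht]; linarith

/-! ### the total mass of the sphere -/

lemma sphere_real : ((volume : Measure E3).toSphere).real univ = 4 * Real.pi := by
  rw [Measure.toSphere_real_apply_univ]
  have h : (volume : Measure E3).real (Metric.ball 0 1) = Real.pi * 4 / 3 := by
    unfold Measure.real
    rw [EuclideanSpace.volume_ball_fin_three]
    simp only [ENNReal.ofReal_one, one_pow, one_mul]
    exact ENNReal.toReal_ofReal (by positivity)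
  rw [h]
  simp
  ring

section Man

variable {M : Type u} [TopologicalSpace M] [T2Space M] [CompactSpace M]
  [ChartedSpace E4 M] [IsManifold 𝓘(ℝ, E4) ∞ M]

variable {σ : E3 → M} {r : ℝ} {Ps : E6 → M} {G : M → E6} {U : Set M}

lemma nn_gy {y : E3} (hy : y ≠ 0) : Pi (gy y) = gy y := Pi_of_TS (gy_mem_TS one_pos hy)

/-- the integral of the model form over the sphere. -/
theorem sphI_s2 (hR : RADF) (h : K12_417.Tube σ r Ps G U) (hσ : EmbS σ) {F : ℝ → ℝ} {δ : ℝ} (hδ : 0 < δ)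
    (hF : ∀ s < δ, F s = F 0) : sphI σ (s2 G U (BB F)) = F 0 * (4 * Real.pi) := by
  have key : ∀ y : Metric.sphere (0 : E3) 1,
      ((y : E3) 2 * at2 (s2 G U (BB F)) (σ y) (dmap σ y (EuclideanSpace.single 0 1))
        (dmap σ y (EuclideanSpace.single 1 1)) +
      (y : E3) 0 * at2 (s2 G U (BB F)) (σ y) (dmap σ y (EuclideanSpace.single 1 1))
        (dmap σ y (EuclideanSpace.single 2 1)) +
      (y : E3) 1 * at2 (s2 G U (BB F)) (σ y) (dmap σ y (EuclideanSpace.single 2 1))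
        (dmap σ y (EuclideanSpace.single 0 1))) = F 0 := by
    intro y
    have hy : ‖(y : E3)‖ = 1 := by simp
    have hy0 := ne_of_norm hy
    have hs : ContMDiffAt 𝓘(ℝ, E3) 𝓘(ℝ, E4) ∞ σ (y : E3) :=
      hσ.smooth.contMDiffAt (isOpen_ne.mem_nhds hy0)
    have hev := sigma_ev h hσ hy0
    have hmem : ∀ x : E3, x ≠ 0 → gy x ∈ OS r := fun x hx =>
      TS_subset_OS r (gy_mem_TS h.r_pos hx)
    have hU : σ (y : E3) ∈ U := by
      rw [hev.self_of_nhds]
      exact h.maps _ (hmem _ hy0)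
    have hg : ∀ᶠ x in 𝓝 (y : E3), G (σ x) = gy x := by
      filter_upwards [hev, isOpen_ne.mem_nhds hy0] with x hx hx0
      rw [hx, h.right _ (hmem x hx0), nn_gy hx0]
    have hp := fun u v => s2_pull h (B := BB F) hs hU hg u v
    have hz1 : (gy (y : E3)).1 ≠ 0 := by
      show sn (y : E3) ≠ 0
      exact ne_of_norm (norm_sn hy0)
    have hz2 : ‖(Pi (gy (y : E3))).2‖ < δ := by
      rw [nn_gy hy0]
      show ‖(0 : E3)‖ < δ
      rw [norm_zero]; exact hδ
    have hnn : ∀ u, fderiv ℝ nn (gy (y : E3)) (fderiv ℝ gy (y : E3) u) =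
        u - ⟪(y : E3), u⟫ • (y : E3) := by
      intro u
      have h1 := fderiv_comp (y : E3) ((contDiffAt_nn hz1).differentiableAt infty_ne_zero)
        ((contDiffAt_gy hy0).differentiableAt infty_ne_zero)
      have h2 : nn ∘ gy =ᶠ[𝓝 (y : E3)] sn := by
        filter_upwards [isOpen_ne.mem_nhds hy0] with x hx0
        show (Pi (gy x)).1 = sn x
        rw [nn_gy hx0]; rfl
      rw [← fderiv_sn hy, ← h2.fderiv_eq, h1]
      rfl
    have hval : ∀ u v : E3, at2 (s2 G U (BB F)) (σ y) (dmap σ y u) (dmap σ y v) =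
        F 0 * ⟪(y : E3), cr u v⟫ := by
      intro u v
      rw [hp, BB_of_lt hR hF hz1 hz2]
      show F 0 * (Ar _ _ _) = _
      rw [Ar_apply, hnn, hnn]
      have h3 : nn (gy (y : E3)) = y := by
        show (Pi (gy (y : E3))).1 = y
        rw [nn_gy hy0]
        show sn (y : E3) = y
        exact sn_of_norm hy
      rw [h3, cr_proj]
    simp only [hval]
    exact cf_area hy (fun u v => F 0 * ⟪(y : E3), cr u v⟫) fun u v => rfl
  unfold sphI
  rw [integral_congr_ae (Eventually.of_forall key), integral_const, sphere_real]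
  show 4 * Real.pi * F 0 = _
  ring

/-- the pairing of forms with disjoint supports. -/
lemma pI_zero {F a b : Z2 M} (h : ∀ x, val a x = 0 ∨ val b x = 0) : pI F a b = 0 := by
  let _ : MeasurableSpace M := borel M
  have _ : BorelSpace M := ⟨rfl⟩
  show Int.I (F.1.1 : F2 E4 M) (a.1.1 : F2 E4 M) (b.1.1 : F2 E4 M) = 0
  unfold Int.I
  have h0 : ∀ x, qG (F.1.1 : F2 E4 M) (a.1.1 : F2 E4 M) (b.1.1 : F2 E4 M) x = 0 := by
    intro x
    unfold qG q
    have hW : W (at2 (a.1.1 : F2 E4 M) x) (at2 (b.1.1 : F2 E4 M) x) = 0 := by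
      rcases h x with h1 | h1
      · have h2 : at2 (a.1.1 : F2 E4 M) x = 0 := h1
        rw [h2]; unfold W; simp only [ent_zero]; ring
      · have h2 : at2 (b.1.1 : F2 E4 M) x = 0 := h1
        rw [h2]; unfold W; simp only [ent_zero]; ring
    rw [hW, zero_div]
  simp [h0]

/-- nondegeneracy of `ip` for K3 type. -/
lemma ip_nondeg {F : Z2 M} (hF : Vol (F.1.1 : F2 E4 M)) (hK : K3Type F) {c : H2 M}
    (hc : ∀ x, ip F c x = 0) : c = 0 := by
  obtain ⟨-, e, hG, -⟩ := hK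
  have h1 : e.equivFun c = 0 := by
    refine LatKz_766.nondeg fun k => ?_
    have h2 := LatK_766.ip_eq hF e hG c (e k)
    rw [hc] at h2
    rw [h2]
    congr 1
    funext j
    rw [Module.Basis.equivFun_self]
    by_cases hjk : k = j
    · subst hjk; simp
    · rw [if_neg hjk, Pi.single_eq_of_ne (Ne.symm hjk)]
  exact e.equivFun.map_eq_zero_iff.1 h1


/-! ### the neck -/

lemma norm_tP (hP : PHI) {t : ℝ} (ht : 0 < t) {z : E4} (hz : z ≠ 0) :
    ‖t • K12_417.hP z‖ = t * ‖z‖ ^ 2 := by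
  rw [norm_smul, Real.norm_of_nonneg ht.le]
  congr 1
  exact (hP.mem z t hz).2.2

lemma hh_mem (hP : PHI) {t : ℝ} (ht : 0 < t) (htr : t < r) {z : E4} (hz : z ∈ PB 1) :
    hh t z ∈ TS r := by
  obtain ⟨h1, h2, h3⟩ := hP.mem z t hz.1
  refine ⟨h1, h2, ?_⟩
  show ‖t • K12_417.hP z‖ < r
  rw [norm_tP hP ht hz.1]
  have h4 : ‖z‖ ^ 2 ≤ 1 := pow_le_one₀ (norm_nonneg _) hz.2.le
  nlinarith

lemma isOpen_PB (s : ℝ) : IsOpen (PB s) := by
  have : PB s = {0}ᶜ ∩ Metric.ball (0 : E4) s := by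
    ext z
    simp only [PB, mem_ofPred_eq, mem_inter_iff, mem_compl_iff, mem_singleton_iff, mem_ball_zero_iff]
  rw [this]
  exact isOpen_compl_singleton.inter Metric.isOpen_ball

/-- the pull-back of the model primitive under `hh`. -/
lemma bb_hh (hP : PHI) {t : ℝ} (ht : 0 < t) {w : E4} (hw : w ≠ 0) (v : E4) :
    bb (Fp t) (hh t w) (fderiv ℝ (hh t) w v) = (fp (‖w‖ ^ 2) • thL w) v := by
  have hmem : ∀ x : E4, x ≠ 0 → Pi (hh t x) = hh t x := by
    intro x hx
    obtain ⟨h1, h2, h3⟩ := hP.mem x t hx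
    exact Pi_of_TS (r := ‖(hh t x).2‖ + 1) ⟨h1, h2, lt_add_one _⟩
  have hd : ContDiffAt ℝ ∞ (hh t) w := (hP.smooth t).contDiffAt (isOpen_ne.mem_nhds hw)
  have hz1 : (hh t w).1 ≠ 0 := by
    have := (hP.mem w t hw).1
    intro h0
    have h1 : hQ w = 0 := h0
    rw [h1, norm_zero] at this
    exact zero_ne_one this
  have hcomp : fderiv ℝ Pi (hh t w) (fderiv ℝ (hh t) w v) = fderiv ℝ (hh t) w v := by
    have h1 := fderiv_comp w ((contDiffAt_Pi hz1).differentiableAt infty_ne_zero)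
      (hd.differentiableAt infty_ne_zero)
    have h2 : Pi ∘ hh t =ᶠ[𝓝 w] hh t := by
      filter_upwards [isOpen_ne.mem_nhds hw] with x hx
      exact hmem x hx
    have h3 := h2.fderiv_eq (𝕜 := ℝ)
    rw [h1] at h3
    exact congrArg (fun L : E4 →L[ℝ] E6 => L v) h3
  have hpsb : psb (hh t w) (fderiv ℝ (hh t) w v) = -(2 * ⟪qI w, v⟫ / ‖w‖ ^ 2) := by
    show ps (Pi (hh t w)) (fderiv ℝ Pi (hh t w) (fderiv ℝ (hh t) w v)) = _
    rw [hcomp, hmem w hw]
    exact hP.pps w v t hw ht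
  have hn : ‖(Pi (hh t w)).2‖ = t * ‖w‖ ^ 2 := by
    rw [hmem w hw]
    exact norm_tP hP ht hw
  show (-(Fp t ‖(Pi (hh t w)).2‖)) * psb (hh t w) (fderiv ℝ (hh t) w v) =
    fp (‖w‖ ^ 2) * ((2 / ‖w‖ ^ 2) * ⟪qi w, v⟫)
  rw [hpsb, hn]
  have e1 : Fp t (t * ‖w‖ ^ 2) = fp (‖w‖ ^ 2) := by
    unfold Fp
    rw [mul_div_cancel_left₀ _ ht.ne']
  have e2 : qi w = qI w := rfl
  rw [e1, e2]
  ring

/-- **the Thom form**. -/
theorem thom (hP : PHI) (hR : RADF) (hS : S2PRIM) (hQ : RPRIM) [ConnectedSpace M] {w : Trip M}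
    (hw : Pos3 w) (hK3 : K3Type (w 0)) {d : H2 M} (hσ : JSph w σ d) (hd : d ∈ Root (w 0)) {m : ℕ}
    (K : Neck M m) (i : Fin m) (hC : K.C i = im σ) (hT : HasTube σ (K.phi i)) :
    ∃ T : Z2 M, IsThom K i d T := by
  obtain ⟨r, t, Ps, G, U, h, ht, htr, hφ⟩ := hT
  have hF : Vol ((w 0).1.1 : F2 E4 M) := hw.vol 0
  have hFs : ∀ s < t / 10, Fp t s = Fp t 0 := fun s hs => by rw [Fp_small ht hs, Fp_zero ht]
  have hz2 : ∀ z ∈ TS r, Z2At (E := E6) (X := E6) (BB (Fp t)) z := fun z hz =>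
    BB_z2 hR (contDiff_Fp t) (by linarith : 0 < t / 10) hFs (TS_subset_OS r hz).1
  have hz0 : ∀ z ∈ TS r, t / 5 < ‖z.2‖ → BB (Fp t) z = 0 := fun z hz hzt => by
    refine BB_zero (s₀ := t / 5) (by linarith) (fun s hs => Fp_large ht hs)
      (TS_subset_OS r hz).1 ?_
    rw [Pi_of_TS hz]; exact hzt
  have hz0' : ∀ z ∈ TS r, t / 4 ≤ ‖z.2‖ → BB (Fp t) z = 0 := fun z hz hzt =>
    hz0 z hz (by linarith)
  set T : Z2 M := thZ h (by linarith : t / 4 < r) hz2 hz0' with hTdef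
  have hTv : ∀ x, val T x = at2 (s2 G U (BB (Fp t))) x := fun x => rfl
  -- vanishing of `T`
  have hT0 : ∀ x, (x ∈ U → t / 5 < ‖(G x).2‖) → val T x = 0 := by
    intro x hx
    rw [hTv]
    by_cases hU : x ∈ U
    · rw [s2_of_mem hU, at2_pb2]
      have h2 : BB (Fp t) (G x) = 0 := hz0 _ (h.mapsG x hU) (hx hU)
      show pl _ (BB (Fp t) (G x)) = 0
      rw [h2]
      ext u v
      simp
    · show s2 G U (BB (Fp t)) x = _
      unfold s2
      rw [if_neg hU]
  have hsph : sphI σ (T.1.1 : F2 E4 M) = -2 := by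
    have h1 := sphI_s2 hR h hσ.emb (by linarith : 0 < t / 10) hFs
    rw [Fp_zero ht] at h1
    have h2 : sphI σ (T.1.1 : F2 E4 M) = sphI σ (s2 G U (BB (Fp t))) := rfl
    rw [h2, h1]
    have := Real.pi_ne_zero
    field_simp
    norm_num
  refine ⟨T, ?_, ?_, ?_⟩
  · -- the class
    have hdd : ip (w 0) d d = -2 := hd.2
    have hker : ∀ c : H2 M, ip (w 0) d c = 0 → ip (w 0) (cls T) c = 0 := by
      intro c hc
      obtain ⟨b, rfl⟩ := cls_surj c
      have h0 : sphI σ (b.1.1 : F2 E4 M) = 0 := by rw [hσ.rep b, hc]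
      obtain ⟨b', hb', hbz⟩ := kill hS hQ h hσ.emb ht htr b h0
      rw [ip_cls hF, ← pI_congr_right hF T hb']
      refine pI_zero fun x => ?_
      by_cases hx : x ∈ U ∧ ‖(G x).2‖ < t / 2
      · exact Or.inr (hbz x hx.1 hx.2)
      · refine Or.inl (hT0 x fun hU => ?_)
        have : t / 2 ≤ ‖(G x).2‖ := by
          by_contra hlt
          exact hx ⟨hU, not_le.1 hlt⟩
        linarith
    have hTd : ip (w 0) (cls T) d = -2 := by
      rw [ip_comm, ← hσ.rep T, hsph]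
    have hall : ∀ c, ip (w 0) (cls T) c = ip (w 0) d c := by
      intro c
      have h1 : ip (w 0) d (c + (ip (w 0) d c / 2) • d) = 0 := by
        rw [ip_add_right hF, ip_smul_right hF, hdd]; ring
      have h2 := hker _ h1
      rw [ip_add_right hF, ip_smul_right hF, hTd] at h2
      linarith
    have h3 : cls T - d = 0 := ip_nondeg hF hK3 fun c => by
      rw [ip_sub_left hF, hall, sub_self]
    exact sub_eq_zero.1 h3
  · -- the support
    intro x hxC hxφ
    refine hT0 x fun hU => ?_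
    have hG := h.mapsG x hU
    have hxG := h.left x hU
    by_cases hp : (G x).2 = 0
    · exfalso
      apply hxC
      rw [hC]
      refine ⟨(G x).1, ?_, ?_⟩
      · rw [mem_sphere_zero_iff_norm]; exact hG.1
      · rw [← h.zero _ hG.1, ← hp]
        exact hxG
    · obtain ⟨z, hz0, hz⟩ := hP.surj (G x).1 (G x).2 t hG.1 hG.2.1 hp ht
      have hn : ‖(G x).2‖ = t * ‖z‖ ^ 2 := by
        rw [← norm_tP hP ht hz0]
        have := congrArg Prod.snd hz
        exact congrArg norm this.symm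
      have hz2 : 1 / 2 ≤ ‖z‖ := by
        by_contra hlt
        have hlt' : ‖z‖ < 1 / 2 := not_le.1 hlt
        refine hxφ z ⟨hz0, hlt'⟩ ?_
        rw [hφ z ⟨hz0, by linarith⟩, hz]
        exact hxG.symm
      rw [hn]
      have h4 : 1 / 4 ≤ ‖z‖ ^ 2 := by nlinarith
      have h5 := mul_le_mul_of_nonneg_left h4 ht.le
      linarith
  · refine ⟨fp, contDiff_fp, ⟨1 / 10, by norm_num, fun s hs => fp_small hs.le⟩,
      fun s hs => fp_large (by linarith), ?_⟩
    intro z hz u v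
    have hev : ∀ᶠ x in 𝓝 z, x ∈ PB 1 := (isOpen_PB 1).mem_nhds hz
    have hf : ContMDiffAt 𝓘(ℝ, E4) 𝓘(ℝ, E4) ∞ (K.phi i) z :=
      (K.smooth i).contMDiffAt ((isOpen_PB 1).mem_nhds hz)
    have hU : K.phi i z ∈ U := by
      rw [hφ z hz]
      exact h.maps _ (TS_subset_OS r (hh_mem hP ht htr hz))
    have hg : ∀ᶠ x in 𝓝 z, G (K.phi i x) = hh t x := by
      filter_upwards [hev] with x hx
      have h1 := hh_mem hP ht htr hx
      rw [hφ x hx, h.right _ (TS_subset_OS r h1), Pi_of_TS h1]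
    rw [hTv, s2_pull h hf hU hg u v]
    have hz1 := hh_mem hP ht htr hz
    have hp : (Pi (hh t z)).2 ≠ 0 := by
      rw [Pi_of_TS hz1]
      intro h0
      have h1 := norm_tP hP ht hz.1
      have h2 : t • K12_417.hP z = 0 := h0
      rw [h2, norm_zero] at h1
      have h3 : 0 < ‖z‖ := norm_pos_iff.2 hz.1
      have : 0 < t * ‖z‖ ^ 2 := by positivity
      linarith
    rw [BB_of_ne _ hp]
    have hd : ContDiffAt ℝ ∞ (hh t) z := (hP.smooth t).contDiffAt (isOpen_ne.mem_nhds hz.1)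
    refine (d1_pullback' hd ((contDiffAt_bb (contDiff_Fp t) (TS_subset_OS r hz1).1
      hp).differentiableAt infty_ne_zero) ?_ u v).symm
    filter_upwards [hev] with x hx
    refine ContinuousLinearMap.ext fun v => ?_
    exact (bb_hh hP ht hx.1 v).symm

end Man

end

end Crest.Agent.R235.KumThom_785
end

-- ▼ part R235/KumDisc_601

/-!
Row 235 (S0364), PACKAGE KUM, node NECKTH (b) (helper601): the disc through `C i` and the assembly
of NECKTH from the Thom forms.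
-/

set_option autoImplicit false
set_option maxSynthPendingDepth 3

open Set Function Filter MeasureTheory
open scoped Manifold ContDiff Topology RealInnerProductSpace

universe u

namespace Crest.Agent.R235.KumDisc_601

open Crest.Agent.R240 Crest.Agent.R240.Ch Crest.Agent.R235 Crest.Agent.R235.KT_604
open Crest.Agent.R235.K12_417

noncomputable section

/-- the point of `S²` over which the disc lives. -/
def q0 : E3 := !₂[1, 0, 0]

/-- `x ↦ t (x₁ e₁ + x₀ e₂)`. -/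
def p0 (t : ℝ) (x : Ep) : E3 := !₂[0, t * x 1, t * x 0]

theorem norm_q0 : ‖q0‖ = 1 := by
  simp [q0, EuclideanSpace.norm_eq, Fin.sum_univ_three]

theorem inner_q0_p0 (t : ℝ) (x : Ep) : ⟪q0, p0 t x⟫ = 0 := by
  simp [q0, p0, PiLp.inner_apply, Fin.sum_univ_three]

theorem norm_p0 (t : ℝ) (x : Ep) : ‖p0 t x‖ = |t| * ‖x‖ := by
  rw [EuclideanSpace.norm_eq, EuclideanSpace.norm_eq, Fin.sum_univ_three, Fin.sum_univ_two,
    ← Real.sqrt_sq_eq_abs, ← Real.sqrt_mul (sq_nonneg t)]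
  congr 1
  simp only [p0, Real.norm_eq_abs, sq_abs, PiLp.toLp_apply]
  simp
  ring

theorem contDiff_p0 (t : ℝ) : ContDiff ℝ ∞ (p0 t) := by
  rw [contDiff_euclidean]
  intro i
  fin_cases i
  · simp only [p0]
    exact contDiff_const
  · simp only [p0]
    exact contDiff_const.mul (contDiff_piLp_apply (p := 2) (i := (1 : Fin 2)))
  · simp only [p0]
    exact contDiff_const.mul (contDiff_piLp_apply (p := 2) (i := (0 : Fin 2)))

theorem mem_OS {r : ℝ} {q p : E3} (hq : ‖q‖ = 1) (hqp : ⟪q, p⟫ = 0) (hp : ‖p‖ < r) :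
    ((q, p) : E6) ∈ OS r := by
  refine ⟨?_, ?_⟩
  · intro h
    have h' : q = 0 := h
    rw [h', norm_zero] at hq
    exact zero_ne_one hq
  · simp only [Pi, hqp, zero_div, zero_smul, sub_zero]
    exact hp

/-- the half-angle points. -/
theorem hh_half {t₀ r t : ℝ} (hr : 0 < r) :
    hh t₀ (√r • (Real.cos (t / 2) • ee 0 + Real.sin (t / 2) • qi (ee 0))) =
      (q0, p0 t₀ (WithLp.toLp 2 ![r * Real.cos t, r * Real.sin t])) := by
  have hs : √r * √r = r := Real.mul_self_sqrt hr.le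
  have hc : Real.cos t = Real.cos (t / 2) ^ 2 - Real.sin (t / 2) ^ 2 := by
    conv_lhs => rw [show t = 2 * (t / 2) by ring]
    rw [Real.cos_two_mul, Real.sin_sq]
    ring
  have hsn : Real.sin t = 2 * Real.sin (t / 2) * Real.cos (t / 2) := by
    conv_lhs => rw [show t = 2 * (t / 2) by ring]
    rw [Real.sin_two_mul]
  set z : E4 := √r • (Real.cos (t / 2) • ee 0 + Real.sin (t / 2) • qi (ee 0)) with hz
  have hz0 : z 0 = √r * Real.cos (t / 2) := by simp [hz, qi]
  have hz1 : z 1 = √r * Real.sin (t / 2) := by simp [hz, qi]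
  have hz2 : z 2 = 0 := by simp [hz, qi]
  have hz3 : z 3 = 0 := by simp [hz, qi]
  have hn : ‖z‖ ^ 2 = r := by
    rw [EuclideanSpace.norm_sq_eq, Fin.sum_univ_four, hz0, hz1, hz2, hz3]
    simp only [Real.norm_eq_abs, sq_abs, abs_zero]
    have := Real.sin_sq_add_cos_sq (t / 2)
    nlinarith
  refine Prod.ext ?_ ?_
  · simp only [hh, hQ, hn, hz0, hz1, hz2, hz3, q0]
    have h1 : (√r * Real.cos (t / 2)) ^ 2 + (√r * Real.sin (t / 2)) ^ 2 = r := by
      have := Real.sin_sq_add_cos_sq (t / 2)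
      nlinarith
    ext i
    fin_cases i
    · simp [h1, hr.ne']
    · simp
    · simp
  · simp only [hh, hP, hz0, hz1, hz2, hz3, p0]
    ext i
    fin_cases i
    · simp
    · simp [hsn]
      left
      linear_combination (2 * Real.sin (t / 2) * Real.cos (t / 2)) * hs
    · simp [hc]
      left
      linear_combination (Real.cos (t / 2) ^ 2 - Real.sin (t / 2) ^ 2) * hs

theorem norm_half {r t : ℝ} (hr : 0 < r) :
    ‖√r • (Real.cos (t / 2) • ee 0 + Real.sin (t / 2) • qi (ee 0))‖ = √r := by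
  have hs : √r * √r = r := Real.mul_self_sqrt hr.le
  set z : E4 := √r • (Real.cos (t / 2) • ee 0 + Real.sin (t / 2) • qi (ee 0)) with hz
  have hz0 : z 0 = √r * Real.cos (t / 2) := by simp [hz, qi]
  have hz1 : z 1 = √r * Real.sin (t / 2) := by simp [hz, qi]
  have hz2 : z 2 = 0 := by simp [hz, qi]
  have hz3 : z 3 = 0 := by simp [hz, qi]
  have hn : ‖z‖ ^ 2 = r := by
    rw [EuclideanSpace.norm_sq_eq, Fin.sum_univ_four, hz0, hz1, hz2, hz3]
    simp only [Real.norm_eq_abs, sq_abs, abs_zero]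
    have := Real.sin_sq_add_cos_sq (t / 2)
    nlinarith
  rw [← hn, Real.sqrt_sq (norm_nonneg _)]

section Closed

variable {M : Type u} [TopologicalSpace M] [ChartedSpace E4 M]

/-- the disc. -/
theorem disc_of {m : ℕ} (K : Neck M m) (i : Fin m) {σ : E3 → M} (hC : K.C i = im σ)
    (hT : HasTube σ (K.phi i)) : IsDisc K i := by
  obtain ⟨r, t₀, Ps, G, U, hP, ht0, htr, hphi⟩ := hT
  have hmem : ∀ x : Ep, ‖x‖ < 1 → ((q0, p0 t₀ x) : E6) ∈ OS r := by
    intro x hx
    refine mem_OS norm_q0 (inner_q0_p0 t₀ x) ?_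
    rw [norm_p0, abs_of_pos ht0]
    nlinarith [norm_nonneg x]
  refine ⟨ee 0, fun x => Ps (q0, p0 t₀ x), 1, ?_, one_pos, le_rfl, ?_, ?_, ?_⟩
  · simp [ee]
  · have h1 : ContMDiffOn 𝓘(ℝ, Ep) 𝓘(ℝ, E6) ∞ (fun x : Ep => ((q0, p0 t₀ x) : E6))
        (Metric.ball 0 1) :=
      (contDiff_const.prodMk (contDiff_p0 t₀)).contMDiff.contMDiffOn
    refine hP.smooth.comp h1 fun x hx => ?_
    rw [mem_ball_zero_iff] at hx
    exact hmem x hx
  · have h1 : p0 t₀ 0 = 0 := by
      ext j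
      fin_cases j <;> simp [p0]
    simp only [h1]
    rw [hP.zero q0 norm_q0, hC]
    exact ⟨q0, by simp [norm_q0], rfl⟩
  · intro ρ t hρ hρ1
    have hz : √ρ • (Real.cos (t / 2) • ee 0 + Real.sin (t / 2) • qi (ee 0)) ∈ PB 1 := by
      have h2 : 0 < √ρ := Real.sqrt_pos.2 hρ
      have h3 : √ρ < 1 := by
        rw [Real.sqrt_lt' one_pos]
        simpa using hρ1
      refine ⟨?_, ?_⟩
      · rw [← norm_pos_iff, norm_half hρ]
        exact h2
      · rw [norm_half hρ]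
        exact h3
    rw [hphi _ hz, hh_half hρ]

end Closed

/-- NECKTH (a): Thom forms of the tubes. -/
def THOMN : Prop :=
  ∀ (M : Type u) [TopologicalSpace M] [T2Space M] [CompactSpace M] [ConnectedSpace M]
    [ChartedSpace E4 M] [IsManifold 𝓘(ℝ, E4) ∞ M] (w : Trip M), Pos3 w → K3Type (w 0) →
    ∀ (m : ℕ) (σ : Fin m → E3 → M) (d : Fin m → H2 M), (∀ i, JSph w (σ i) (d i)) →
    (∀ i, d i ∈ Root (w 0)) → ∀ K : Neck M m, (∀ i, K.C i = im (σ i)) →
    (∀ i, HasTube (σ i) (K.phi i)) → ∀ i, ∃ T : Z2 M, IsThom K i (d i) T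

/-- assembly of NECKTH. -/
theorem neckth_of (h : THOMN.{u}) : NECKTH.{u} := by
  intro M _ _ _ _ _ _ w hw hK m σ d hσ hd K hC hT
  exact ⟨h M w hw hK m σ d hσ hd K hC hT, fun i => disc_of K i (hC i) (hT i)⟩

end

end Crest.Agent.R235.KumDisc_601
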