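import Mathlib

-- ▼ part R235/LatA_283
section

/-!
Row 235, package LAT, file A: metabolic symmetric bilinear forms over a field.
-/

open Module

namespace Crest.Agent.R235.LatA_283

open LinearMap (BilinForm)

variable {K : Type*} [Field K]
variable {V : Type*} [AddCommGroup V] [Module K V]
variable {V' : Type*} [AddCommGroup V'] [Module K V']
variable {V'' : Type*} [AddCommGroup V''] [Module K V'']

/-- `B` has a Lagrangian subspace. -/
def Met (B : BilinForm K V) : Prop :=
  ∃ N : Submodule K V, 2 * finrank K N = finrank K V ∧ ∀ x ∈ N, ∀ y ∈ N, B x y = 0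

/-- orthogonal sum -/
def oplus (B : BilinForm K V) (B' : BilinForm K V') : BilinForm K (V × V') :=
  LinearMap.mk₂ K (fun x y => B x.1 y.1 + B' x.2 y.2)
    (by intros; simp; ring) (by intros; simp; ring)
    (by intros; simp; ring) (by intros; simp; ring)

@[simp] lemma oplus_apply (B : BilinForm K V) (B' : BilinForm K V') (x y : V × V') :
    oplus B B' x y = B x.1 y.1 + B' x.2 y.2 := rfl

/-- diagonal form -/
def diagB {ι : Type*} [Fintype ι] (d : ι → K) : BilinForm K (ι → K) :=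
  LinearMap.mk₂ K (fun x y => ∑ i, d i * x i * y i)
    (by intros; simp [mul_add, add_mul, Finset.sum_add_distrib])
    (by intros; simp [Finset.mul_sum]; refine Finset.sum_congr rfl fun i _ => by ring)
    (by intros; simp [mul_add, Finset.sum_add_distrib])
    (by intros; simp [Finset.mul_sum]; refine Finset.sum_congr rfl fun i _ => by ring)

@[simp] lemma diagB_apply {ι : Type*} [Fintype ι] (d : ι → K) (x y : ι → K) :
    diagB d x y = ∑ i, d i * x i * y i := rfl

/-- isometry -/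
def Iso (B : BilinForm K V) (B' : BilinForm K V') : Prop :=
  ∃ e : V ≃ₗ[K] V', ∀ x y, B' (e x) (e y) = B x y

lemma Iso.refl (B : BilinForm K V) : Iso B B := ⟨LinearEquiv.refl K V, fun _ _ => rfl⟩

lemma Iso.symm {B : BilinForm K V} {B' : BilinForm K V'} (h : Iso B B') : Iso B' B := by
  obtain ⟨e, he⟩ := h
  exact ⟨e.symm, fun x y => by rw [← he]; simp⟩

lemma Iso.trans {B : BilinForm K V} {B' : BilinForm K V'} {B'' : BilinForm K V''}
    (h : Iso B B') (h' : Iso B' B'') : Iso B B'' := by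
  obtain ⟨e, he⟩ := h
  obtain ⟨f, hf⟩ := h'
  exact ⟨e.trans f, fun x y => by simp [hf, he]⟩

lemma Met.iso {B : BilinForm K V} {B' : BilinForm K V'} (h : Met B) (e : Iso B B') : Met B' := by
  obtain ⟨N, hN, hB⟩ := h
  obtain ⟨e, he⟩ := e
  refine ⟨N.map (e : V →ₗ[K] V'), ?_, ?_⟩
  · rw [LinearEquiv.finrank_map_eq, hN, LinearEquiv.finrank_eq e]
  · rintro _ ⟨x, hx, rfl⟩ _ ⟨y, hy, rfl⟩
    simpa [he] using hB x hx y hy

lemma finrank_sprod [FiniteDimensional K V] [FiniteDimensional K V']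
    (N : Submodule K V) (N' : Submodule K V') :
    finrank K (N.prod N') = finrank K N + finrank K N' := by
  have h : N.prod N' = LinearMap.range (N.subtype.prodMap N'.subtype) := by
    rw [LinearMap.range_prodMap]; simp
  rw [h, LinearMap.finrank_range_of_inj, finrank_prod]
  exact Prod.map_injective.2 ⟨N.subtype_injective, N'.subtype_injective⟩

lemma Met.oplus [FiniteDimensional K V] [FiniteDimensional K V']
    {B : BilinForm K V} {B' : BilinForm K V'} (h : Met B) (h' : Met B') :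
    Met (oplus B B') := by
  obtain ⟨N, hN, hB⟩ := h
  obtain ⟨N', hN', hB'⟩ := h'
  refine ⟨N.prod N', ?_, ?_⟩
  · rw [finrank_sprod, finrank_prod]; omega
  · rintro x ⟨hx1, hx2⟩ y ⟨hy1, hy2⟩
    simp [hB _ hx1 _ hy1, hB' _ hx2 _ hy2]

lemma oplus_symm {B : BilinForm K V} {B' : BilinForm K V'} (h : B.IsSymm) (h' : B'.IsSymm) :
    (LatA_283.oplus B B').IsSymm :=
  ⟨fun x y => by simp [h.eq x.1 y.1, h'.eq x.2 y.2]⟩

lemma diagB_symm {ι : Type*} [Fintype ι] (d : ι → K) : (diagB d).IsSymm :=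
  ⟨fun x y => by simp; exact Finset.sum_congr rfl fun i _ => by ring⟩

/-- left-nondegeneracy, elementary form -/
def ND (B : BilinForm K V) : Prop := ∀ x, (∀ y, B x y = 0) → x = 0

lemma ND.nondegenerate {B : BilinForm K V} (h : ND B) (hs : B.IsSymm) : B.Nondegenerate :=
  ⟨h, fun y hy => h y fun x => by rw [← hs.eq]; exact hy x⟩

lemma ND.oplus {B : BilinForm K V} {B' : BilinForm K V'} (h : ND B) (h' : ND B') :
    ND (LatA_283.oplus B B') := by
  intro x hx
  ext
  · exact h _ fun y => by simpa using hx (y, 0)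
  · exact h' _ fun y => by simpa using hx (0, y)

lemma diagB_nd {ι : Type*} [Fintype ι] (d : ι → K) (hd : ∀ i, d i ≠ 0) : ND (diagB d) := by
  classical
  intro x hx
  ext i
  have := hx (Pi.single i 1)
  simp [Pi.single_apply] at this
  rcases this with h | h
  · exact absurd h (hd i)
  · simpa using h

/-- Lagrangian = its own orthogonal -/
lemma orth_eq [FiniteDimensional K V] {B : BilinForm K V} (hs : B.IsSymm) (hn : ND B)
    {N : Submodule K V} (hN : 2 * finrank K N = finrank K V)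
    (h : ∀ x ∈ N, ∀ y ∈ N, B x y = 0) : B.orthogonal N = N := by
  symm
  apply Submodule.eq_of_le_of_finrank_eq
  · intro x hx y hy
    exact h y hy x hx
  · rw [LinearMap.BilinForm.finrank_orthogonal (hn.nondegenerate hs)]; omega

/-- isotropic subspaces have at most half the dimension -/
lemma isotropic_le [FiniteDimensional K V] {B : BilinForm K V} (hs : B.IsSymm) (hn : ND B)
    {N : Submodule K V} 
    (h : ∀ x ∈ N, ∀ y ∈ N, B x y = 0) : 2 * finrank K N ≤ finrank K V := by
  have h1 : N ≤ B.orthogonal N := fun x hx y hy => h y hy x hx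
  have h2 := Submodule.finrank_mono h1
  rw [LinearMap.BilinForm.finrank_orthogonal (hn.nondegenerate hs)] at h2
  have := Submodule.finrank_le N
  omega

/-- **Cancellation** of metabolic summands. -/
lemma Met.cancel [FiniteDimensional K V] [FiniteDimensional K V']
    {B : BilinForm K V} {B' : BilinForm K V'} (hs : B.IsSymm) (hn : ND B)
    (hs' : B'.IsSymm) (hn' : ND B')
    (h : Met (LatA_283.oplus B B')) (h' : Met B') : Met B := by
  obtain ⟨L, hL, hLB⟩ := h
  obtain ⟨N, hN, hNB⟩ := h'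
  set C := LatA_283.oplus B B' with hC
  have hCs : C.IsSymm := oplus_symm hs hs'
  have hCn : ND C := hn.oplus hn'
  -- N embedded
  set N0 : Submodule K (V × V') := Submodule.prod ⊥ N with hN0
  set N1 : Submodule K (V × V') := Submodule.prod ⊤ N with hN1
  have hfp : finrank K (V × V') = finrank K V + finrank K V' := finrank_prod
  have e0 : finrank K N0 = finrank K N := by rw [hN0, finrank_sprod]; simp
  have e1 : finrank K N1 = finrank K V + finrank K N := by rw [hN1, finrank_sprod]; simp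
  have hLo : C.orthogonal L = L := orth_eq hCs hCn hL hLB
  have hNo : C.orthogonal N0 = N1 := by
    symm
    apply Submodule.eq_of_le_of_finrank_eq
    · rintro x ⟨-, hx⟩ y ⟨hy1, hy2⟩
      have hy1' : y.1 = 0 := by simpa using hy1
      show C y x = 0
      simp [hC, hy1', hNB _ hy2 _ hx]
    · rw [LinearMap.BilinForm.finrank_orthogonal (hCn.nondegenerate hCs), e1, e0]; omega
  have hsup : C.orthogonal (L ⊔ N0) = L ⊓ N1 := by
    apply le_antisymm
    · refine le_inf ?_ ?_
      · conv_rhs => rw [← hLo]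
        exact LinearMap.BilinForm.orthogonal_le le_sup_left
      · rw [← hNo]
        exact LinearMap.BilinForm.orthogonal_le le_sup_right
    · intro x hx y hy
      obtain ⟨a, ha, b, hb, rfl⟩ := Submodule.mem_sup.1 hy
      have h1 : C a x = 0 := hLB a ha x hx.1
      have h2 : x ∈ C.orthogonal N0 := by rw [hNo]; exact hx.2
      have h3 : C b x = 0 := h2 b hb
      show C (a + b) x = 0
      rw [map_add, LinearMap.add_apply, h1, h3, add_zero]
  -- the projection
  set P : Submodule K V := (L ⊓ N1).map (LinearMap.fst K V V') with hP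
  refine ⟨P, ?_, ?_⟩
  · -- dimension
    have hker : finrank K (L ⊓ N1 : Submodule K (V × V')) = finrank K P + finrank K (L ⊓ N0 : Submodule K (V × V')) := by
      have := LinearMap.finrank_range_add_finrank_ker ((LinearMap.fst K V V').domRestrict (L ⊓ N1))
      have hr : LinearMap.range ((LinearMap.fst K V V').domRestrict (L ⊓ N1)) = P := by
        rw [LinearMap.range_domRestrict]
      have hk : finrank K (LinearMap.ker ((LinearMap.fst K V V').domRestrict (L ⊓ N1))) = finrank K (L ⊓ N0 : Submodule K (V × V')) := by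
        have hset : L ⊓ N1 ⊓ LinearMap.ker (LinearMap.fst K V V') = L ⊓ N0 := by
          ext x
          simp [hN0, hN1, Submodule.mem_prod]
          tauto
        rw [LinearMap.ker_domRestrict, ← Submodule.finrank_map_subtype_eq, Submodule.map_comap_subtype, hset]
      rw [hr, hk] at this
      omega
    have h1 := LinearMap.BilinForm.finrank_orthogonal (hCn.nondegenerate hCs) (L ⊔ N0)
    rw [hsup] at h1
    have h2 := Submodule.finrank_sup_add_finrank_inf_eq L N0
    have h3 := Submodule.finrank_le (L ⊔ N0)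
    omega
  · rintro _ ⟨x, hx, rfl⟩ _ ⟨y, hy, rfl⟩
    have h1 : C x y = 0 := hLB x hx.1 y hy.1
    have h2 : B' x.2 y.2 = 0 := hNB _ hx.2.2 _ hy.2.2
    simpa [hC, h2] using h1

end Crest.Agent.R235.LatA_283
end

-- ▼ part R235/LatB_283
section

/-!
Row 235, package LAT, file B: the Witt group of diagonal forms over a field (as a quotient of the
free abelian group on the units by metabolic differences).
-/

open Module

namespace Crest.Agent.R235.LatB_283

open LinearMap (BilinForm)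
open LatA_283

variable {K : Type} [Field K]
variable {V : Type} [AddCommGroup V] [Module K V]

/-- diagonal form with unit entries -/
noncomputable def D {ι : Type} [Fintype ι] (d : ι → Kˣ) : BilinForm K (ι → K) :=
  diagB (fun i => (d i : K))

lemma D_apply {ι : Type} [Fintype ι] (d : ι → Kˣ) (x y : ι → K) :
    D d x y = ∑ i, (d i : K) * x i * y i := rfl

lemma D_symm {ι : Type} [Fintype ι] (d : ι → Kˣ) : (D d).IsSymm := diagB_symm _

lemma D_nd {ι : Type} [Fintype ι] (d : ι → Kˣ) : ND (D d) := diagB_nd _ fun i => (d i).ne_zero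

lemma D_sum {ι κ : Type} [Fintype ι] [Fintype κ] (d : ι → Kˣ) (e : κ → Kˣ) :
    Iso (oplus (D d) (D e)) (D (Sum.elim d e)) := by
  refine ⟨(LinearEquiv.sumArrowLequivProdArrow ι κ K K).symm, fun x y => ?_⟩
  simp [D_apply]
  rfl

lemma D_equiv {ι κ : Type} [Fintype ι] [Fintype κ] (σ : ι ≃ κ) (d : ι → Kˣ) (e : κ → Kˣ)
    (h : ∀ i, e (σ i) = d i) : Iso (D d) (D e) := by
  refine ⟨LinearEquiv.funCongrLeft K K σ.symm, fun x y => ?_⟩
  simp only [D_apply]
  rw [← Equiv.sum_comp σ]
  refine Finset.sum_congr rfl fun i _ => ?_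
  simp [h]

lemma Iso.oplus_congr {V1 V2 V3 V4 : Type} [AddCommGroup V1] [Module K V1]
    [AddCommGroup V2] [Module K V2] [AddCommGroup V3] [Module K V3] [AddCommGroup V4] [Module K V4]
    {B1 : BilinForm K V1} {B2 : BilinForm K V2} {B3 : BilinForm K V3} {B4 : BilinForm K V4}
    (h : Iso B1 B3) (h' : Iso B2 B4) : Iso (oplus B1 B2) (oplus B3 B4) := by
  obtain ⟨e, he⟩ := h
  obtain ⟨f, hf⟩ := h'
  exact ⟨e.prodCongr f, fun x y => by simp [he, hf]⟩

lemma Iso.oplus_comm {V1 V2 : Type} [AddCommGroup V1] [Module K V1]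
    [AddCommGroup V2] [Module K V2]
    (B1 : BilinForm K V1) (B2 : BilinForm K V2) : Iso (oplus B1 B2) (oplus B2 B1) :=
  ⟨LinearEquiv.prodComm K V1 V2, fun x y => by simp [add_comm]⟩


/-- (1+2)+(3+4) = (1+4)+(3+2) -/
lemma Iso.shuffle {V1 V2 V3 V4 : Type} [AddCommGroup V1] [Module K V1]
    [AddCommGroup V2] [Module K V2] [AddCommGroup V3] [Module K V3] [AddCommGroup V4] [Module K V4]
    (B1 : BilinForm K V1) (B2 : BilinForm K V2) (B3 : BilinForm K V3) (B4 : BilinForm K V4) :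
    Iso (oplus (oplus B1 B2) (oplus B3 B4)) (oplus (oplus B1 B4) (oplus B3 B2)) :=
  ⟨{ toFun := fun x => ((x.1.1, x.2.2), (x.2.1, x.1.2))
     map_add' := fun _ _ => rfl
     map_smul' := fun _ _ => rfl
     invFun := fun x => ((x.1.1, x.2.2), (x.2.1, x.1.2))
     left_inv := fun _ => rfl
     right_inv := fun _ => rfl }, fun x y => by simp; ring⟩

/-- hyperbolic: `d + (-d)` -/
lemma met_neg {ι : Type} [Fintype ι] (d : ι → Kˣ) : Met (oplus (D d) (D (fun i => -(d i)))) := by
  refine ⟨LinearMap.range (LinearMap.prod LinearMap.id LinearMap.id : (ι → K) →ₗ[K] _), ?_, ?_⟩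
  · rw [LinearMap.finrank_range_of_inj, finrank_prod]
    · ring
    · intro x y h
      simpa using h
  · rintro _ ⟨x, rfl⟩ _ ⟨y, rfl⟩
    simp [D_apply]

/-! ### the group -/

/-- class of a diagonal form in the free group -/
noncomputable def cls {ι : Type} [Fintype ι] (d : ι → Kˣ) : Kˣ →₀ ℤ :=
  ∑ i, Finsupp.single (d i) 1

lemma cls_sum {ι κ : Type} [Fintype ι] [Fintype κ] (d : ι → Kˣ) (e : κ → Kˣ) :
    cls (Sum.elim d e) = cls d + cls e := by
  simp [cls]

lemma cls_equiv {ι κ : Type} [Fintype ι] [Fintype κ] (σ : ι ≃ κ) (d : ι → Kˣ) (e : κ → Kˣ)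
    (h : ∀ i, e (σ i) = d i) : cls d = cls e := by
  unfold cls
  rw [← Equiv.sum_comp σ (fun j => Finsupp.single (e j) (1 : ℤ))]
  exact Finset.sum_congr rfl fun i _ => by rw [h]

open Classical in
lemma cls_apply {ι : Type} [Fintype ι] (d : ι → Kˣ) (a : Kˣ) :
    cls d a = (Fintype.card {i // d i = a} : ℤ) := by
  unfold cls
  rw [Finsupp.finsetSum_apply, Fintype.card_subtype]
  simp [Finsupp.single_apply]

lemma exists_equiv_of_cls {ι κ : Type} [Fintype ι] [Fintype κ] (d : ι → Kˣ) (e : κ → Kˣ)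
    (h : cls d = cls e) : ∃ σ : ι ≃ κ, ∀ i, e (σ i) = d i := by
  classical
  have key : ∀ a : Kˣ, Fintype.card {i // d i = a} = Fintype.card {i // e i = a} := by
    intro a
    have := congrArg (fun f => f a) h
    simp only [cls_apply] at this
    exact_mod_cast this
  let E : ∀ a : Kˣ, {i // d i = a} ≃ {i // e i = a} := fun a => Fintype.equivOfCardEq (key a)
  exact ⟨Equiv.ofFiberEquiv E, fun i => Equiv.ofFiberEquiv_map E i⟩

/-- equivalence of diagonal forms: difference metabolic -/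
def Eqv {ι κ : Type} [Fintype ι] [Fintype κ] (d : ι → Kˣ) (e : κ → Kˣ) : Prop :=
  Met (oplus (D d) (D (fun i => -(e i))))

lemma neg_symm {V1 : Type} [AddCommGroup V1] [Module K V1] {B : BilinForm K V1} (h : Met B) :
    Met (-B) := by
  obtain ⟨N, hN, hB⟩ := h
  exact ⟨N, hN, fun x hx y hy => by simp [hB x hx y hy]⟩

lemma Eqv.symm {ι κ : Type} [Fintype ι] [Fintype κ] {d : ι → Kˣ} {e : κ → Kˣ} (h : Eqv d e) :
    Eqv e d := by
  have h1 := neg_symm h
  refine (h1.iso ?_).iso (Iso.oplus_comm _ _)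
  refine ⟨LinearEquiv.refl K _, fun x y => ?_⟩
  simp [D_apply]
  ring

lemma Eqv.sum {ι κ ι' κ' : Type} [Fintype ι] [Fintype κ] [Fintype ι'] [Fintype κ']
    {d : ι → Kˣ} {e : κ → Kˣ} {d' : ι' → Kˣ} {e' : κ' → Kˣ} (h : Eqv d e) (h' : Eqv d' e') :
    Eqv (Sum.elim d d') (Sum.elim e e') := by
  have h1 := (Met.oplus h (h'.iso (Iso.oplus_comm _ _))).iso (Iso.shuffle _ _ _ _)
  refine h1.iso (Iso.oplus_congr (D_sum d d') ?_)
  refine (Iso.oplus_comm _ _).trans ((D_sum _ _).trans ?_)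
  refine D_equiv (Equiv.refl _) _ _ ?_
  rintro (i | i) <;> rfl

lemma Eqv.equiv {ι κ ι' κ' : Type} [Fintype ι] [Fintype κ] [Fintype ι'] [Fintype κ']
    {d : ι → Kˣ} {e : κ → Kˣ} {d' : ι' → Kˣ} {e' : κ' → Kˣ} (h : Eqv d e)
    (σ : ι ≃ ι') (τ : κ ≃ κ') (hσ : ∀ i, d' (σ i) = d i) (hτ : ∀ i, e' (τ i) = e i) :
    Eqv d' e' :=
  Met.iso h (Iso.oplus_congr (D_equiv σ _ _ hσ) (D_equiv τ _ _ fun i => by simp [hτ]))

lemma Eqv.refl {ι : Type} [Fintype ι] (d : ι → Kˣ) : Eqv d d := met_neg d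

/-- transfer: if `A - d` is metabolic and `d ~ e` then `A - e` is metabolic -/
lemma Met.transfer [FiniteDimensional K V] {A : BilinForm K V} (hA : A.IsSymm) (hn : ND A)
    {ι κ : Type} [Fintype ι] [Fintype κ] {d : ι → Kˣ} {e : κ → Kˣ}
    (h : Met (oplus A (D (fun i => -(d i))))) (he : Eqv d e) :
    Met (oplus A (D (fun i => -(e i)))) := by
  have h1 := (Met.oplus h he).iso (Iso.shuffle _ _ _ _)
  refine Met.cancel (oplus_symm hA (D_symm _)) (hn.oplus (D_nd _)) ?_ ?_ h1 (met_neg d)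
  · exact oplus_symm (D_symm _) (D_symm _)
  · exact (D_nd _).oplus (D_nd _)

lemma Eqv.trans {ι κ l : Type} [Fintype ι] [Fintype κ] [Fintype l]
    {d : ι → Kˣ} {e : κ → Kˣ} {f : l → Kˣ} (h : Eqv d e) (h' : Eqv e f) : Eqv d f :=
  Met.transfer (D_symm d) (D_nd d) h h'

/-- cancellation for equivalences -/
lemma Eqv.cancel {ι κ l m : Type} [Fintype ι] [Fintype κ] [Fintype l] [Fintype m]
    {d : ι → Kˣ} {e : κ → Kˣ} {f : l → Kˣ} {g : m → Kˣ}
    (h : Eqv (Sum.elim d f) (Sum.elim e g)) (h' : Eqv f g) : Eqv d e := by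
  have h0 : Met (oplus (oplus (D d) (D fun i => -(e i))) (oplus (D f) (D fun i => -(g i)))) := by
    have h1 : Met (oplus (oplus (D d) (D f)) (oplus (D fun i => -(g i)) (D fun i => -(e i)))) := by
      refine Met.iso h (Iso.oplus_congr (D_sum d f).symm ?_)
      refine Iso.trans ?_ (Iso.oplus_comm _ _)
      refine Iso.trans ?_ (D_sum _ _).symm
      refine D_equiv (Equiv.refl _) _ _ ?_
      rintro (i | i) <;> rfl
    exact (h1.iso (Iso.shuffle _ _ _ _)).iso (Iso.oplus_congr (Iso.refl _) (Iso.oplus_comm _ _))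
  exact Met.cancel (oplus_symm (D_symm _) (D_symm _)) ((D_nd _).oplus (D_nd _))
    (oplus_symm (D_symm _) (D_symm _)) ((D_nd _).oplus (D_nd _)) h0 h'

/-- relation subgroup -/
def N0 (K : Type) [Field K] : AddSubgroup (Kˣ →₀ ℤ) where
  carrier := {f | ∃ (n m : ℕ) (d : Fin n → Kˣ) (e : Fin m → Kˣ), f = cls d - cls e ∧ Eqv d e}
  zero_mem' := by
    refine ⟨0, 0, Fin.elim0, Fin.elim0, by simp [cls], ?_⟩
    refine ⟨⊥, ?_, ?_⟩
    · simp
    · intro x hx y hy
      simp only [Submodule.mem_bot] at hx hy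
      simp [hx]
  add_mem' := by
    rintro f g ⟨n, m, d, e, rfl, h⟩ ⟨n', m', d', e', rfl, h'⟩
    refine ⟨n + n', m + m', Sum.elim d d' ∘ finSumFinEquiv.symm,
      Sum.elim e e' ∘ finSumFinEquiv.symm, ?_, ?_⟩
    · rw [← cls_equiv finSumFinEquiv (Sum.elim d d') _ (by simp),
        ← cls_equiv finSumFinEquiv (Sum.elim e e') _ (by simp), cls_sum, cls_sum]
      abel
    · exact (h.sum h').equiv finSumFinEquiv finSumFinEquiv (by simp) (by simp)
  neg_mem' := by
    rintro f ⟨n, m, d, e, rfl, h⟩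
    exact ⟨m, n, e, d, by abel, h.symm⟩

/-- the Witt group -/
abbrev W (K : Type) [Field K] := (Kˣ →₀ ℤ) ⧸ N0 K

/-- class of a unit -/
noncomputable def w (a : Kˣ) : W K := QuotientAddGroup.mk (Finsupp.single a 1)

lemma mk_cls {ι : Type} [Fintype ι] (d : ι → Kˣ) :
    (QuotientAddGroup.mk (cls d) : W K) = ∑ i, w (d i) := by
  unfold cls w
  exact map_sum (QuotientAddGroup.mk' (N0 K)) _ _

lemma sum_w_eq_iff {ι κ : Type} [Fintype ι] [Fintype κ] (d : ι → Kˣ) (e : κ → Kˣ) :
    ∑ i, w (d i) = ∑ i, w (e i) ↔ Eqv d e := by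
  rw [← mk_cls, ← mk_cls, QuotientAddGroup.eq_iff_sub_mem]
  constructor
  · rintro ⟨n, m, d', e', h, h'⟩
    have h1 : cls (Sum.elim d e') = cls (Sum.elim e d') := by
      rw [cls_sum, cls_sum]
      have := sub_eq_sub_iff_add_eq_add.1 h
      rw [this]; abel
    obtain ⟨σ, hσ⟩ := exists_equiv_of_cls _ _ h1
    -- `d + e' = e + d'`
    refine Eqv.cancel (f := e') (g := d') ?_ h'.symm
    exact (Eqv.refl (Sum.elim d e')).equiv (Equiv.refl _) σ (fun _ => rfl) hσ
  · intro h
    refine ⟨Fintype.card ι, Fintype.card κ, d ∘ (Fintype.equivFin ι).symm,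
      e ∘ (Fintype.equivFin κ).symm, ?_, ?_⟩
    · rw [← cls_equiv (Fintype.equivFin ι) d _ (by simp),
        ← cls_equiv (Fintype.equivFin κ) e _ (by simp)]
    · exact h.equiv (Fintype.equivFin ι) (Fintype.equivFin κ) (by simp) (by simp)

/-- `x` is the class of `A` -/
def Rep (A : BilinForm K V) (x : W K) : Prop :=
  ∃ (n : ℕ) (d : Fin n → Kˣ), x = ∑ i, w (d i) ∧ Met (oplus A (D (fun i => -(d i))))

lemma Rep.met [FiniteDimensional K V] {A : BilinForm K V} (hA : A.IsSymm) (hn : ND A) {x : W K}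
    (h : Rep A x) {κ : Type} [Fintype κ] (e : κ → Kˣ) (hx : x = ∑ i, w (e i)) :
    Met (oplus A (D (fun i => -(e i)))) := by
  obtain ⟨n, d, h1, h2⟩ := h
  exact Met.transfer hA hn h2 ((sum_w_eq_iff d e).1 (h1 ▸ hx))

/-! ### relations -/

lemma w_eq_of_eqv {a b : Kˣ} (h : Eqv (fun _ : Unit => a) (fun _ : Unit => b)) : w a = w b := by
  have := (sum_w_eq_iff _ _).2 h
  simpa using this

lemma w_neg (a : Kˣ) : w (-a) = -w a := by
  have h : Eqv (Sum.elim (fun _ : Unit => a) (fun _ : Unit => -a)) (fun i : Empty => i.elim) := by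
    have h0 := (met_neg (fun _ : Unit => a)).iso (D_sum _ _)
    obtain ⟨N, hN, hB⟩ := h0
    refine Met.iso ⟨N, hN, hB⟩ ?_
    refine ⟨{ toFun := fun x => (x, 0), map_add' := fun _ _ => by simp, map_smul' := fun _ _ => by simp,
              invFun := fun x => x.1, left_inv := fun _ => rfl,
              right_inv := fun x => Prod.ext rfl (Subsingleton.elim _ _) }, fun x y => ?_⟩
    simp [D_apply]
  have := (sum_w_eq_iff _ _).2 h
  simp at this
  exact eq_neg_of_add_eq_zero_right this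

lemma w_sq (a c : Kˣ) : w (a * c ^ 2) = w a := by
  refine w_eq_of_eqv ?_
  refine Met.iso (met_neg (fun _ : Unit => a)) (Iso.oplus_congr ?_ (Iso.refl _))
  refine ⟨LinearEquiv.smulOfNeZero K _ ((c : K)⁻¹) (inv_ne_zero c.ne_zero), fun x y => ?_⟩
  have := c.ne_zero
  simp [D_apply]
  field_simp

/-- Witt's relation -/
lemma w_add (a b s : Kˣ) (hs : (s : K) = a + b) : w a + w b = w s + w (a * b * s) := by
  have hs0 : (a : K) + b ≠ 0 := hs ▸ s.ne_zero
  have h : Eqv (Sum.elim (fun _ : Unit => a) (fun _ : Unit => b))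
      (Sum.elim (fun _ : Unit => s) (fun _ : Unit => a * b * s)) := by
    have h0 := met_neg (Sum.elim (fun _ : Unit => a) (fun _ : Unit => b))
    refine (Met.iso h0 (Iso.oplus_congr (Iso.refl _) ?_))
    refine ⟨{ toFun := fun x => Sum.elim (fun _ => (a * x (Sum.inl ()) + b * x (Sum.inr ())) / s)
                (fun _ => (x (Sum.inl ()) - x (Sum.inr ())) / s),
              map_add' := fun x y => ?_, map_smul' := fun c x => ?_,
              invFun := fun x => Sum.elim (fun _ => x (Sum.inl ()) + b * x (Sum.inr ()))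
                (fun _ => x (Sum.inl ()) - a * x (Sum.inr ())),
              left_inv := fun x => ?_,
              right_inv := fun x => ?_ }, fun x y => ?_⟩
    · ext (i | i) <;> simp <;> ring
    · ext (i | i) <;> simp <;> ring
    · ext (i | i) <;> simp <;> rw [hs] <;> field_simp <;> ring
    · ext (i | i) <;> simp <;> rw [hs] <;> field_simp <;> ring
    · simp [D_apply]
      rw [hs]
      field_simp
      ring
  have := (sum_w_eq_iff _ _).2 h
  simpa using this

end Crest.Agent.R235.LatB_283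
end

-- ▼ part R235/LatS_283
section

/-!
Row 235, package LAT, file S: the filtration `L k` of the Witt group of `ℚ` and the map
`φ : F_p → W(ℚ)/L (p-1)`, `x ↦ <p x>`.
-/

open Module

namespace Crest.Agent.R235.LatS_283

open LinearMap (BilinForm)
open LatA_283 LatB_283

/-- class of an integer (0 for 0) -/
noncomputable def wz (a : ℤ) : W ℚ :=
  if h : (a : ℚ) ≠ 0 then w (Units.mk0 (a : ℚ) h) else 0

lemma wz_zero : wz 0 = 0 := by simp [wz]

lemma wz_of_ne {a : ℤ} (h : (a : ℚ) ≠ 0) : wz a = w (Units.mk0 (a : ℚ) h) := by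
  rw [wz, dif_pos h]

lemma wz_neg (a : ℤ) : wz (-a) = -wz a := by
  by_cases h : a = 0
  · simp [h, wz_zero]
  · have h1 : (a : ℚ) ≠ 0 := by exact_mod_cast h
    have h2 : ((-a : ℤ) : ℚ) ≠ 0 := by exact_mod_cast neg_ne_zero.2 h
    rw [wz_of_ne h1, wz_of_ne h2, ← w_neg]
    congr 1
    ext; simp

lemma wz_sq (a : ℤ) {c : ℤ} (hc : c ≠ 0) : wz (a * c ^ 2) = wz a := by
  by_cases h : a = 0
  · simp [h]
  · have h1 : (a : ℚ) ≠ 0 := by exact_mod_cast h
    have h2 : ((a * c ^ 2 : ℤ) : ℚ) ≠ 0 := by exact_mod_cast mul_ne_zero h (pow_ne_zero 2 hc)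
    have h3 : (c : ℚ) ≠ 0 := by exact_mod_cast hc
    rw [wz_of_ne h1, wz_of_ne h2, ← w_sq (Units.mk0 (a : ℚ) h1) (Units.mk0 (c : ℚ) h3)]
    congr 1
    ext; simp

lemma wz_add (a b : ℤ) : wz a + wz b = wz (a + b) + wz (a * b * (a + b)) := by
  by_cases ha : a = 0
  · simp [ha, wz_zero]
  by_cases hb : b = 0
  · simp [hb, wz_zero]
  by_cases hab : a + b = 0
  · have : b = -a := by omega
    subst this
    simp [wz_neg, wz_zero]
  have ha' : (a : ℚ) ≠ 0 := by exact_mod_cast ha
  have hb' : (b : ℚ) ≠ 0 := by exact_mod_cast hb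
  have hab' : ((a + b : ℤ) : ℚ) ≠ 0 := by exact_mod_cast hab
  have hp : ((a * b * (a + b) : ℤ) : ℚ) ≠ 0 := by
    exact_mod_cast mul_ne_zero (mul_ne_zero ha hb) hab
  rw [wz_of_ne ha', wz_of_ne hb', wz_of_ne hab', wz_of_ne hp,
    w_add (Units.mk0 (a : ℚ) ha') (Units.mk0 (b : ℚ) hb') (Units.mk0 ((a + b : ℤ) : ℚ) hab') (by simp)]
  congr 2
  ext; simp

/-! ### multiplication -/

lemma cls_mul {ι : Type} [Fintype ι] {K : Type} [Field K] (c : Kˣ) (d : ι → Kˣ) :
    Finsupp.mapDomain (fun a => c * a) (cls d) = cls (fun i => c * d i) := by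
  unfold cls
  rw [Finsupp.mapDomain_finsetSum]
  simp [Finsupp.mapDomain_single]

lemma Eqv.mul {ι κ : Type} [Fintype ι] [Fintype κ] {K : Type} [Field K] (c : Kˣ)
    {d : ι → Kˣ} {e : κ → Kˣ}
    (h : Eqv d e) : Eqv (fun i => c * d i) (fun i => c * e i) := by
  obtain ⟨N, hN, hB⟩ := h
  refine ⟨N, hN, fun x hx y hy => ?_⟩
  have := hB x hx y hy
  simp only [oplus_apply, D_apply] at this ⊢
  have h2 : (∑ i, ((c * d i : Kˣ) : K) * x.1 i * y.1 i) + (∑ i, ((-(c * e i) : Kˣ) : K) * x.2 i * y.2 i)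
      = c * ((∑ i, (d i : K) * x.1 i * y.1 i) + (∑ i, ((-(e i) : Kˣ) : K) * x.2 i * y.2 i)) := by
    rw [mul_add, Finset.mul_sum, Finset.mul_sum]
    congr 1
    · exact Finset.sum_congr rfl fun i _ => by push_cast; ring
    · exact Finset.sum_congr rfl fun i _ => by push_cast; ring
  rw [h2, this, mul_zero]

/-- scaling of classes -/
noncomputable def mu (c : ℚˣ) : W ℚ →+ W ℚ :=
  QuotientAddGroup.map (N0 ℚ) (N0 ℚ) (Finsupp.mapDomain.addMonoidHom (fun a => c * a)) (by
    rintro _ ⟨n, m, d, e, rfl, h⟩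
    refine ⟨n, m, fun i => c * d i, fun i => c * e i, ?_, Eqv.mul c h⟩
    rw [map_sub]
    show Finsupp.mapDomain (fun a => c * a) (cls d) - Finsupp.mapDomain (fun a => c * a) (cls e) = _
    rw [cls_mul, cls_mul])

lemma mu_w (c a : ℚˣ) : mu c (w a) = w (c * a) := by
  unfold mu w
  rw [QuotientAddGroup.map_mk]
  congr 1
  show Finsupp.mapDomain (fun a => c * a) (Finsupp.single a 1) = _
  rw [Finsupp.mapDomain_single]

lemma mu_wz {c : ℤ} (hc : (c : ℚ) ≠ 0) (a : ℤ) : mu (Units.mk0 (c : ℚ) hc) (wz a) = wz (c * a) := by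
  by_cases ha : a = 0
  · simp [ha, wz_zero]
  have ha' : (a : ℚ) ≠ 0 := by exact_mod_cast ha
  have hca : ((c * a : ℤ) : ℚ) ≠ 0 := by push_cast; exact mul_ne_zero hc ha'
  rw [wz_of_ne ha', wz_of_ne hca, mu_w]
  congr 1
  ext; simp

/-! ### filtration -/

/-- all prime factors are `≤ k` (or the number is `0`) -/
def Sm (k : ℕ) (a : ℤ) : Prop := a = 0 ∨ ∀ q : ℕ, q.Prime → (q : ℤ) ∣ a → q ≤ k

lemma Sm.mul {k : ℕ} {a b : ℤ} (ha : Sm k a) (hb : Sm k b) : Sm k (a * b) := by
  rcases ha with rfl | ha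
  · left; simp
  rcases hb with rfl | hb
  · left; simp
  right
  intro q hq hd
  rcases (Nat.prime_iff_prime_int.1 hq).dvd_mul.1 hd with h | h
  · exact ha q hq h
  · exact hb q hq h

lemma Sm.neg {k : ℕ} {a : ℤ} (ha : Sm k a) : Sm k (-a) := by
  rcases ha with rfl | ha
  · left; simp
  right; intro q hq hd; exact ha q hq (by simpa using hd)

lemma Sm.of_abs {k : ℕ} {a : ℤ} (h : |a| ≤ k) : Sm k a := by
  by_cases ha : a = 0
  · exact Or.inl ha
  right
  intro q hq hd
  have := Int.le_of_dvd (abs_pos.2 ha) ((dvd_abs _ _).2 hd)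
  omega

lemma Sm.mono {k l : ℕ} (h : k ≤ l) {a : ℤ} (ha : Sm k a) : Sm l a := by
  rcases ha with rfl | ha
  · left; rfl
  right; intro q hq hd; exact (ha q hq hd).trans h

/-- the filtration -/
noncomputable def L (k : ℕ) : AddSubgroup (W ℚ) := AddSubgroup.closure (wz '' {a | Sm k a})

lemma mem_L {k : ℕ} {a : ℤ} (h : Sm k a) : wz a ∈ L k :=
  AddSubgroup.subset_closure ⟨a, h, rfl⟩

lemma L_mono {k l : ℕ} (h : k ≤ l) : L k ≤ L l :=
  AddSubgroup.closure_mono (Set.image_mono fun _ ha => Sm.mono h ha)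

lemma mu_mem_L {k : ℕ} {c : ℤ} (hc : (c : ℚ) ≠ 0) (hs : Sm k c) {x : W ℚ} (hx : x ∈ L k) :
    mu (Units.mk0 (c : ℚ) hc) x ∈ L k := by
  induction hx using AddSubgroup.closure_induction with
  | mem x hx =>
    obtain ⟨a, ha, rfl⟩ := hx
    rw [mu_wz]
    exact mem_L (hs.mul ha)
  | zero => simp
  | add x y _ _ hx hy => rw [map_add]; exact add_mem hx hy
  | neg x _ hx => rw [map_neg]; exact neg_mem hx

/-! ### the two factor lemma -/

variable (p : ℕ) [hp : Fact p.Prime]

lemma two_factor {n₁ n₂ l r : ℤ} (h1 : |n₁| ≤ (p - 1 : ℕ)) (h2 : |n₂| ≤ (p - 1 : ℕ))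
    (hl : |l| ≤ (p - 1 : ℕ)) (hr : |r| ≤ (p - 1 : ℕ)) (h : n₁ * n₂ = p * l + r) :
    wz (p * r) - wz (p * (n₁ * n₂)) ∈ L (p - 1) := by
  have hp0 : (p : ℤ) ≠ 0 := by exact_mod_cast hp.out.ne_zero
  have h3 := wz_add (p * (p * l)) (p * r)
  have e1 : (p : ℤ) * (p * l) + p * r = p * (n₁ * n₂) := by rw [h]; ring
  have e2 : (p : ℤ) * (p * l) * (p * r) * (p * (p * l) + p * r) =
      (l * r * (n₁ * n₂)) * ((p : ℤ) ^ 2) ^ 2 := by rw [h]; ring
  have e3 : (p : ℤ) * (p * l) = l * (p : ℤ) ^ 2 := by ring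
  rw [e2, e1, wz_sq _ (pow_ne_zero 2 hp0), e3, wz_sq _ hp0] at h3
  have h4 : wz (p * r) - wz (p * (n₁ * n₂)) = wz (l * r * (n₁ * n₂)) - wz l := by
    have := h3
    rw [sub_eq_sub_iff_add_eq_add, add_comm, this]; abel
  rw [h4]
  exact sub_mem (mem_L (((Sm.of_abs hl).mul (Sm.of_abs hr)).mul
    ((Sm.of_abs h1).mul (Sm.of_abs h2)))) (mem_L (Sm.of_abs hl))

lemma Sm.of_dvd {k : ℕ} {a b : ℤ} (h : Sm k b) (hb : b ≠ 0) (hab : a ∣ b) : Sm k a := by
  rcases h with h | h
  · exact absurd h hb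
  right
  intro q hq hd
  exact h q hq (hd.trans hab)

/-- two naturals below `p`, not zero modulo `p` -/
lemma two_factor_nat {a b : ℕ} (ha : a < p) (hb : b < p) :
    wz (p * ((a * b % p : ℕ) : ℤ)) - wz (p * ((a : ℤ) * b)) ∈ L (p - 1) := by
  have hp2 := hp.out.two_le
  have hlt := Nat.mod_lt (a * b) hp.out.pos
  have hdiv : a * b / p < p := by
    rw [Nat.div_lt_iff_lt_mul hp.out.pos]
    exact Nat.mul_lt_mul'' ha hb
  refine two_factor p (l := ((a * b / p : ℕ) : ℤ)) ?_ ?_ ?_ ?_ ?_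
  · rw [Nat.abs_cast]; exact_mod_cast (by omega)
  · rw [Nat.abs_cast]; exact_mod_cast (by omega)
  · rw [Nat.abs_cast]; exact_mod_cast (by omega)
  · rw [Nat.abs_cast]; exact_mod_cast (by omega)
  · exact_mod_cast (Nat.div_add_mod (a * b) p).symm

lemma nat_case (n : ℕ) (hn : Sm (p - 1) (n : ℤ)) (hn0 : n ≠ 0) :
    wz (p * (n : ℤ)) - wz (p * ((n % p : ℕ) : ℤ)) ∈ L (p - 1) := by
  have hp2 := hp.out.two_le
  induction n using Nat.recOnMul with
  | zero => exact absurd rfl hn0
  | one =>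
    rw [Nat.mod_eq_of_lt (by omega), sub_self]
    exact zero_mem _
  | prime q hq =>
    have hq' : q ≤ p - 1 := by
      rcases hn with h | h
      · exact absurd (by exact_mod_cast h) hn0
      · exact h q hq dvd_rfl
    rw [Nat.mod_eq_of_lt (by omega), sub_self]
    exact zero_mem _
  | mul a b iha ihb =>
    have ha0 : a ≠ 0 := fun h => hn0 (by simp [h])
    have hb0 : b ≠ 0 := fun h => hn0 (by simp [h])
    have hne : ((a * b : ℕ) : ℤ) ≠ 0 := by exact_mod_cast hn0
    have hSa : Sm (p - 1) (a : ℤ) := hn.of_dvd hne (by push_cast; exact dvd_mul_right _ _)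
    have hSb : Sm (p - 1) (b : ℤ) := hn.of_dvd hne (by push_cast; exact dvd_mul_left _ _)
    have h1 := iha hSa ha0
    have h2 := ihb hSb hb0
    have hbq : ((b : ℤ) : ℚ) ≠ 0 := by exact_mod_cast hb0
    have hra : a % p < p := Nat.mod_lt _ hp.out.pos
    have hrb : b % p < p := Nat.mod_lt _ hp.out.pos
    -- p ∤ a
    have hra0 : a % p ≠ 0 := by
      intro h
      have hd : (p : ℤ) ∣ (a : ℤ) := by exact_mod_cast Nat.dvd_of_mod_eq_zero h
      rcases hSa with h' | h'
      · exact ha0 (by exact_mod_cast h')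
      · have := h' p hp.out hd
        omega
    have hraq : (((a % p : ℕ) : ℤ) : ℚ) ≠ 0 := by exact_mod_cast hra0
    have h3 := mu_mem_L hbq hSb h1
    have h4 := mu_mem_L hraq (Sm.of_abs (by rw [Nat.abs_cast]; exact_mod_cast (by omega))) h2
    rw [map_sub, mu_wz, mu_wz] at h3 h4
    have h5 := two_factor_nat p hra hrb
    rw [← Nat.mul_mod] at h5
    have h6 := sub_mem (add_mem h3 h4) h5
    convert h6 using 1
    have e1 : (b : ℤ) * (p * (a : ℤ)) = p * ((a * b : ℕ) : ℤ) := by push_cast; ring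
    have e2 : (b : ℤ) * (p * ((a % p : ℕ) : ℤ)) = ((a % p : ℕ) : ℤ) * (p * (b : ℤ)) := by ring
    have e3 : ((a % p : ℕ) : ℤ) * (p * ((b % p : ℕ) : ℤ)) = p * (((a % p : ℕ) : ℤ) * ((b % p : ℕ) : ℤ)) := by ring
    rw [e1, e2, e3]
    abel

/-- the map `x ↦ <p x>` modulo `L (p-1)` -/
noncomputable def phi (x : ZMod p) : W ℚ ⧸ L (p - 1) :=
  QuotientAddGroup.mk (wz (p * ((x.val : ℕ) : ℤ)))

lemma phi_zero : phi p 0 = 0 := by simp [phi, wz_zero]

lemma phi_nat (n : ℕ) (hn : Sm (p - 1) (n : ℤ)) :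
    (QuotientAddGroup.mk (wz (p * (n : ℤ))) : W ℚ ⧸ L (p - 1)) = phi p (n : ZMod p) := by
  by_cases hn0 : n = 0
  · subst hn0; simp [phi, wz_zero]
  unfold phi
  rw [QuotientAddGroup.eq_iff_sub_mem, ZMod.val_natCast]
  exact nat_case p n hn hn0

lemma phi_neg (x : ZMod p) : phi p (-x) = -phi p x := by
  by_cases hx : x = 0
  · simp [hx, phi_zero]
  have hp2 := hp.out.two_le
  have hv := ZMod.val_lt x
  have hv0 : x.val ≠ 0 := fun h => hx ((ZMod.val_eq_zero x).1 h)
  unfold phi
  rw [← QuotientAddGroup.mk_neg, QuotientAddGroup.eq_iff_sub_mem, ← wz_neg]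
  have : NeZero x := ⟨hx⟩
  have h1 : (-x).val = p - x.val := ZMod.val_neg_of_ne_zero x
  have h2 := two_factor p (n₁ := -1) (n₂ := (x.val : ℤ)) (l := -1) (r := ((p - x.val : ℕ) : ℤ))
    (by simp; omega) (by rw [Nat.abs_cast]; exact_mod_cast (by omega)) (by simp; omega)
    (by rw [Nat.abs_cast]; exact_mod_cast (by omega)) (by
      rw [Nat.cast_sub hv.le]; ring)
  rw [h1]
  convert h2 using 3
  ring

lemma phi_int (a : ℤ) (ha : Sm (p - 1) a) :
    (QuotientAddGroup.mk (wz (p * a)) : W ℚ ⧸ L (p - 1)) = phi p (a : ZMod p) := by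
  obtain ⟨n, rfl | rfl⟩ := Int.eq_nat_or_neg a
  · rw [phi_nat p n ha]; simp
  · have : (p : ℤ) * -(n : ℤ) = -(p * n) := by ring
    rw [this, wz_neg, QuotientAddGroup.mk_neg, phi_nat p n (by simpa using ha.neg)]
    push_cast
    rw [phi_neg]

lemma Sm_val (x : ZMod p) : Sm (p - 1) ((x.val : ℕ) : ℤ) := by
  have hv := ZMod.val_lt x
  exact Sm.of_abs (by rw [Nat.abs_cast]; exact_mod_cast (by omega))

lemma phi_mul_sq (x : ZMod p) {y : ZMod p} (hy : y ≠ 0) : phi p (x * y ^ 2) = phi p x := by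
  have hv0 : (y.val : ℤ) ≠ 0 := by exact_mod_cast fun h => hy ((ZMod.val_eq_zero y).1 h)
  have h := phi_int p ((x.val : ℤ) * (y.val : ℤ) ^ 2)
    ((Sm_val p x).mul (by rw [pow_two]; exact (Sm_val p y).mul (Sm_val p y)))
  have e : (((x.val : ℤ) * (y.val : ℤ) ^ 2 : ℤ) : ZMod p) = x * y ^ 2 := by
    push_cast
    rw [ZMod.natCast_zmod_val, ZMod.natCast_zmod_val]
  rw [← mul_assoc, wz_sq _ hv0, e] at h
  rw [← h]
  rfl

lemma phi_add (hp3 : p ≠ 2) (x y : ZMod p) :
    phi p x + phi p y = phi p (x + y) + phi p (x * y * (x + y)) := by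
  have hp0 : (p : ℤ) ≠ 0 := by exact_mod_cast hp.out.ne_zero
  have hodd := hp.out.eq_two_or_odd.resolve_left hp3
  set a := x.valMinAbs with ha
  set b := y.valMinAbs with hb
  have hxa : (a : ZMod p) = x := ZMod.coe_valMinAbs x
  have hyb : (b : ZMod p) = y := ZMod.coe_valMinAbs y
  have ha2 : |a| ≤ ((p - 1) / 2 : ℕ) := by
    have := ZMod.natAbs_valMinAbs_le x
    rw [Int.abs_eq_natAbs]
    exact_mod_cast (by omega)
  have hb2 : |b| ≤ ((p - 1) / 2 : ℕ) := by
    have := ZMod.natAbs_valMinAbs_le y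
    rw [Int.abs_eq_natAbs]
    exact_mod_cast (by omega)
  have hab : |a + b| ≤ (p - 1 : ℕ) := by
    have := abs_add_le a b
    omega
  have hSa : Sm (p - 1) a := Sm.of_abs (ha2.trans (by exact_mod_cast Nat.div_le_self _ _))
  have hSb : Sm (p - 1) b := Sm.of_abs (hb2.trans (by exact_mod_cast Nat.div_le_self _ _))
  have hSab : Sm (p - 1) (a + b) := Sm.of_abs hab
  have h := wz_add (p * a) (p * b)
  have e1 : (p : ℤ) * a * (p * b) * (p * a + p * b) = (p * (a * b * (a + b))) * (p : ℤ) ^ 2 := by ring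
  have e2 : (p : ℤ) * a + p * b = p * (a + b) := by ring
  rw [e1, e2, wz_sq _ hp0] at h
  have h' := congrArg (QuotientAddGroup.mk : W ℚ → W ℚ ⧸ L (p - 1)) h
  rw [QuotientAddGroup.mk_add, QuotientAddGroup.mk_add, phi_int p a hSa, phi_int p b hSb,
    phi_int p _ hSab, phi_int p _ ((hSa.mul hSb).mul hSab)] at h'
  push_cast at h'
  rw [hxa, hyb] at h'
  exact h'

lemma phi_sq {y : ZMod p} (hy : y ≠ 0) : phi p (y ^ 2) = phi p 1 := by
  have := phi_mul_sq p 1 hy
  rwa [one_mul] at this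

lemma two_phi (hp3 : p ≠ 2) {x : ZMod p} (hx : x ≠ 0) : phi p x + phi p x = phi p 1 + phi p 1 := by
  obtain ⟨a, b, hab⟩ := ZMod.sq_add_sq p x
  by_cases ha : a = 0
  · have hb : b ≠ 0 := fun h => hx (by rw [← hab, ha, h]; ring)
    have : x = b ^ 2 := by rw [← hab, ha]; ring
    rw [this, phi_sq p hb]
  by_cases hb : b = 0
  · have : x = a ^ 2 := by rw [← hab, hb]; ring
    rw [this, phi_sq p ha]
  have h := phi_add p hp3 (a ^ 2) (b ^ 2)
  rw [hab, phi_sq p ha, phi_sq p hb] at h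
  have e : a ^ 2 * b ^ 2 * x = x * (a * b) ^ 2 := by ring
  rw [e, phi_mul_sq p x (mul_ne_zero ha hb)] at h
  exact h.symm

end Crest.Agent.R235.LatS_283
end

-- ▼ part R235/LatF_283
section

/-!
Row 235, package LAT, file F: a metabolic diagonal form over `F_p` has trivial class.
-/

open Module

namespace Crest.Agent.R235.LatF_283

open LinearMap (BilinForm)
open LatA_283 LatB_283 LatS_283
open Matrix

lemma det_rot {K : Type} [Field K] (l : ℕ) :
    (fromBlocks 0 1 (-1) 0 : Matrix (Fin l ⊕ Fin l) (Fin l ⊕ Fin l) K).det = 1 := by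
  have h : (fromBlocks 0 1 (-1) 0 : Matrix (Fin l ⊕ Fin l) (Fin l ⊕ Fin l) K) =
      fromBlocks 1 1 0 1 * fromBlocks 1 0 (-1) 1 * fromBlocks 1 1 0 1 := by
    simp [fromBlocks_multiply]
  rw [h, det_mul, det_mul]
  simp

lemma det_hyp {K : Type} [Field K] (l : ℕ) (Y Z : Matrix (Fin l) (Fin l) K) :
    (fromBlocks 0 Y Yᵀ Z).det = (-1) ^ l * Y.det ^ 2 := by
  have h : (fromBlocks 0 Y Yᵀ Z) * fromBlocks 0 1 (-1) 0 = fromBlocks (-Y) 0 (-Z) Yᵀ := by
    simp [fromBlocks_multiply]
  have h2 := congrArg Matrix.det h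
  rw [det_mul, det_rot, mul_one, det_fromBlocks_zero₁₂, det_neg, det_transpose] at h2
  rw [h2]; simp; ring

/-- discriminant of a metabolic diagonal form -/
lemma disc {K : Type} [Field K] {κ : Type} [Fintype κ] (m : κ → K)
    (h : Met (diagB m)) : ∃ l : ℕ, Fintype.card κ = 2 * l ∧ IsSquare ((-1) ^ l * ∏ j, m j) := by
  classical
  obtain ⟨N, hN, hB⟩ := h
  rw [finrank_pi] at hN
  set l := finrank K N with hl
  refine ⟨l, hN.symm, ?_⟩
  -- complement
  obtain ⟨N', hN'⟩ := N.exists_isCompl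
  have hl' : finrank K N' = l := by
    have := Submodule.finrank_add_eq_of_isCompl hN'
    rw [finrank_pi] at this
    omega
  let b : Basis (Fin l) K N := finBasis K N
  let b' : Basis (Fin l) K N' := finBasisOfFinrankEq K N' hl'
  let e := Submodule.prodEquivOfIsCompl N N' hN'
  let B : Basis (Fin l ⊕ Fin l) K (κ → K) := (b.prod b').map e
  have hcard : Fintype.card κ = Fintype.card (Fin l ⊕ Fin l) := by simp; omega
  let σ : Fin l ⊕ Fin l ≃ κ := Fintype.equivOfCardEq hcard.symm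
  let B2 := B.reindex σ
  let Q : Matrix κ κ K := (Pi.basisFun K κ).toMatrix B2
  have hQ : Q.det ≠ 0 := by
    let _ := (Pi.basisFun K κ).invertibleToMatrix B2
    exact (Matrix.isUnit_det_of_invertible Q).ne_zero
  let G : Matrix κ κ K := Qᵀ * diagonal m * Q
  have hG : ∀ a c, G a c = diagB m (B2 a) (B2 c) := by
    intro a c
    simp only [G]
    rw [Matrix.mul_apply, diagB_apply]
    refine Finset.sum_congr rfl fun i _ => ?_
    rw [Matrix.mul_diagonal]
    simp only [Q, Basis.toMatrix_apply, Pi.basisFun_repr, Matrix.transpose_apply]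
    ring
  have hGd : G.det = Q.det ^ 2 * ∏ j, m j := by
    simp only [G, det_mul, det_transpose, det_diagonal]; ring
  let Y : Matrix (Fin l) (Fin l) K := Matrix.of fun i j => diagB m (B (Sum.inl i)) (B (Sum.inr j))
  let Z : Matrix (Fin l) (Fin l) K := Matrix.of fun i j => diagB m (B (Sum.inr i)) (B (Sum.inr j))
  have hBl : ∀ i, B (Sum.inl i) ∈ N := by
    intro i
    simp [B, e]
  have hblk : G.submatrix σ σ = fromBlocks 0 Y Yᵀ Z := by
    ext (i | i) (j | j)
    · simp only [submatrix_apply, hG, fromBlocks_apply₁₁, Matrix.zero_apply]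
      simp only [B2, Basis.reindex_apply, Equiv.symm_apply_apply]
      exact hB _ (hBl i) _ (hBl j)
    · simp only [submatrix_apply, hG, fromBlocks_apply₁₂]
      simp only [B2, Basis.reindex_apply, Equiv.symm_apply_apply]
      rfl
    · simp only [submatrix_apply, hG, fromBlocks_apply₂₁]
      simp only [B2, Basis.reindex_apply, Equiv.symm_apply_apply]
      exact (diagB_symm m).eq _ _ |>.symm
    · simp only [submatrix_apply, hG, fromBlocks_apply₂₂]
      simp only [B2, Basis.reindex_apply, Equiv.symm_apply_apply]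
      rfl
  have hdet : G.det = (-1) ^ l * Y.det ^ 2 := by
    rw [← det_submatrix_equiv_self σ G, hblk, det_hyp]
  refine ⟨Y.det / Q.det, ?_⟩
  have h1 : (-1 : K) ^ l * ((-1) ^ l) = 1 := by rw [← mul_pow]; simp
  rw [hGd] at hdet
  field_simp
  calc (-1 : K) ^ l * (∏ j, m j) * Q.det ^ 2 = (-1) ^ l * (Q.det ^ 2 * ∏ j, m j) := by ring
    _ = (-1 : K) ^ l * ((-1) ^ l) * Y.det ^ 2 := by rw [hdet]; ring
    _ = Y.det ^ 2 := by rw [h1, one_mul]

/-- abstract vanishing of the class of a metabolic form over `F_p`, `p` odd -/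
lemma sum_phi_zero {p : ℕ} [hp : Fact p.Prime] {G : Type} [AddCommGroup G]
    (φ : ZMod p → G) (hneg : ∀ x, φ (-x) = -φ x) (hsq : ∀ x y, y ≠ 0 → φ (x * y ^ 2) = φ x)
    (htwo : ∀ x, x ≠ 0 → φ x + φ x = φ 1 + φ 1) {κ : Type} [Fintype κ] (m : κ → ZMod p)
    (hm : ∀ j, m j ≠ 0) (h : Met (diagB m)) : ∑ j, φ (m j) = 0 := by
  classical
  obtain ⟨l, hl, hsqr⟩ := disc m h
  set ψ : ZMod p → G := fun x => φ x - φ 1 with hψ
  have hψsq : ∀ x y, x ≠ 0 → IsSquare x → ψ (x * y) = ψ y := by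
    rintro x y hx ⟨z, rfl⟩
    have hz : z ≠ 0 := fun h => hx (by simp [h])
    have := hsq y z hz
    simp only [hψ]
    rw [← this]
    congr 2
    ring
  have hψ1 : ψ 1 = 0 := by simp [hψ]
  have hψs : ∀ x, x ≠ 0 → IsSquare x → ψ x = 0 := by
    intro x hx hs
    have := hψsq x 1 hx hs
    rwa [mul_one, hψ1] at this
  have hψ2 : ∀ x, x ≠ 0 → ψ x + ψ x = 0 := by
    intro x hx
    have := htwo x hx
    simp only [hψ]
    rw [show φ x - φ 1 + (φ x - φ 1) = (φ x + φ x) - (φ 1 + φ 1) by abel, this, sub_self]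
  have hprod : ∀ x y : ZMod p, x ≠ 0 → y ≠ 0 → ¬ IsSquare x → ¬ IsSquare y → IsSquare (x * y) := by
    intro x y hx hy h1 h2
    rw [← quadraticChar_one_iff_isSquare (mul_ne_zero hx hy), map_mul,
      quadraticChar_neg_one_iff_not_isSquare.2 h1, quadraticChar_neg_one_iff_not_isSquare.2 h2]
    norm_num
  have hψmul : ∀ x y, x ≠ 0 → y ≠ 0 → ψ (x * y) = ψ x + ψ y := by
    intro x y hx hy
    by_cases h1 : IsSquare x
    · rw [hψsq x y hx h1, hψs x hx h1, zero_add]
    by_cases h2 : IsSquare y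
    · rw [mul_comm, hψsq y x hy h2, hψs y hy h2, add_zero]
    have h3 := hprod x y hx hy h1 h2
    rw [hψs _ (mul_ne_zero hx hy) h3]
    have h4 : ψ y = ψ x := by
      have h5 := hψsq (x * y) y (mul_ne_zero hx hy) h3
      rw [← h5, show x * y * y = (y * y) * x by ring, hψsq (y * y) x (mul_ne_zero hy hy) ⟨y, rfl⟩]
    rw [h4, hψ2 x hx]
  have hψprod : ∀ s : Finset κ, ψ (∏ j ∈ s, m j) = ∑ j ∈ s, ψ (m j) := by
    intro s
    induction s using Finset.induction_on with
    | empty => simp [hψ1]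
    | insert a s ha ih =>
      rw [Finset.prod_insert ha, Finset.sum_insert ha, hψmul _ _ (hm a)
        (Finset.prod_ne_zero_iff.2 fun j _ => hm j), ih]
  have hψpow : ∀ n : ℕ, ψ ((-1) ^ n) = n • ψ (-1) := by
    intro n
    induction n with
    | zero => simp [hψ1]
    | succ n ih =>
      rw [pow_succ, hψmul _ _ (pow_ne_zero _ (neg_ne_zero.2 one_ne_zero)) (neg_ne_zero.2 one_ne_zero),
        ih, succ_nsmul]
  have hP : ∏ j, m j ≠ 0 := Finset.prod_ne_zero_iff.2 fun j _ => hm j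
  have hn1 : ((-1 : ZMod p)) ^ l ≠ 0 := pow_ne_zero _ (neg_ne_zero.2 one_ne_zero)
  have h0 := hψs _ (mul_ne_zero hn1 hP) hsqr
  rw [hψmul _ _ hn1 hP, hψprod, hψpow] at h0
  have hm1 : ψ (-1) = -(φ 1 + φ 1) := by simp only [hψ]; rw [hneg]; abel
  have h4 := hψ2 (-1) (neg_ne_zero.2 one_ne_zero)
  have hsum : ∑ j, ψ (m j) = ∑ j, φ (m j) - (2 * l) • φ 1 := by
    simp only [hψ, Finset.sum_sub_distrib]
    simp [hl]
  have h5 : l • (ψ (-1) + ψ (-1)) = 0 := by rw [h4, smul_zero]
  rw [hsum] at h0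
  have h6 : ∑ j, φ (m j) = (2 * l) • φ 1 - l • ψ (-1) := by
    rw [eq_sub_iff_add_eq]
    rw [← sub_eq_zero]
    rw [← h0]; abel
  rw [h6]
  have h7 : (2 * l) • φ 1 = - (l • ψ (-1)) := by
    rw [hm1, smul_neg, neg_neg, smul_add, mul_comm, mul_smul, two_smul, smul_add]
  rw [h7, ← h5, smul_add]
  rw [smul_add] at h5
  rw [h5]
  have h8 : l • ψ (-1) = - (l • ψ (-1)) := eq_neg_of_add_eq_zero_left h5
  rw [← h8]
  abel

end Crest.Agent.R235.LatF_283
end

-- ▼ part R235/LatR_283
section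

/-!
Row 235, package LAT, file R: reduction modulo `p` of a Lagrangian (residue lemma).
-/

open Module

namespace Crest.Agent.R235.LatR_283

open LinearMap (BilinForm)
open LatA_283 LatB_283
open Matrix

/-- bilinear form of a matrix -/
def matB {K : Type*} [Field K] {ι : Type*} [Fintype ι] (A : Matrix ι ι K) : BilinForm K (ι → K) :=
  LinearMap.mk₂ K (fun x y => x ⬝ᵥ (A *ᵥ y))
    (by intros; simp [add_dotProduct]) (by intros; simp)
    (by intros; simp [mulVec_add, dotProduct_add]) (by intros; simp [mulVec_smul])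

@[simp] lemma matB_apply {K : Type*} [Field K] {ι : Type*} [Fintype ι] (A : Matrix ι ι K)
    (x y : ι → K) : matB A x y = x ⬝ᵥ (A *ᵥ y) := rfl

lemma matB_symm {K : Type*} [Field K] {ι : Type*} [Fintype ι] {A : Matrix ι ι K}
    (h : A.IsSymm) : (matB A).IsSymm :=
  ⟨fun x y => by
    simp only [matB_apply]
    rw [dotProduct_comm, dotProduct_mulVec, ← mulVec_transpose, h.eq, dotProduct_comm,
      ← dotProduct_comm]⟩

lemma matB_nd {K : Type*} [Field K] {ι : Type*} [Fintype ι] [DecidableEq ι] {A : Matrix ι ι K}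
    (h : A.det ≠ 0) : ND (matB A) := by
  intro x hx
  refine eq_zero_of_vecMul_eq_zero h ?_
  ext j
  have := hx (Pi.single j 1)
  rw [matB_apply, dotProduct_mulVec] at this
  simpa using this

variable {τ : Type} [Fintype τ] (p : ℕ) [hp : Fact p.Prime]

/-- integral points of a rational subspace -/
def intPts (N : Submodule ℚ (τ → ℚ)) : Submodule ℤ (τ → ℤ) where
  carrier := {z | (fun i => (z i : ℚ)) ∈ N}
  zero_mem' := by
    have h : (fun i : τ => (((0 : τ → ℤ) i : ℤ) : ℚ)) = 0 := by ext; simp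
    show (fun i : τ => (((0 : τ → ℤ) i : ℤ) : ℚ)) ∈ N
    rw [h]; exact N.zero_mem
  add_mem' := by
    intro a b ha hb
    have h : (fun i : τ => (((a + b) i : ℤ) : ℚ)) = (fun i => (a i : ℚ)) + (fun i => (b i : ℚ)) := by
      ext; simp
    show (fun i : τ => (((a + b) i : ℤ) : ℚ)) ∈ N
    rw [h]; exact N.add_mem ha hb
  smul_mem' := by
    intro c x hx
    have h : (fun i : τ => (((c • x) i : ℤ) : ℚ)) = (c : ℚ) • (fun i => (x i : ℚ)) := by
      ext; simp
    show (fun i : τ => (((c • x) i : ℤ) : ℚ)) ∈ N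
    rw [h]; exact N.smul_mem _ hx

omit [Fintype τ] in
lemma mem_intPts {N : Submodule ℚ (τ → ℚ)} {z : τ → ℤ} :
    z ∈ intPts N ↔ (fun i => (z i : ℚ)) ∈ N := Iff.rfl

/-- reduction modulo `p` of a rational subspace -/
def redu (N : Submodule ℚ (τ → ℚ)) : Submodule (ZMod p) (τ → ZMod p) where
  carrier := {y | ∃ z ∈ intPts N, y = fun i => (z i : ZMod p)}
  zero_mem' := ⟨0, Submodule.zero_mem _, by ext; simp⟩
  add_mem' := by
    rintro _ _ ⟨z, hz, rfl⟩ ⟨z', hz', rfl⟩
    exact ⟨z + z', Submodule.add_mem _ hz hz', by ext; simp⟩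
  smul_mem' := by
    rintro c _ ⟨z, hz, rfl⟩
    refine ⟨(c.val : ℤ) • z, Submodule.smul_mem _ _ hz, ?_⟩
    ext i; simp

/-- common denominator -/
lemma exists_clear (x : τ → ℚ) : ∃ (d : ℤ) (z : τ → ℤ), d ≠ 0 ∧ ∀ i, (d : ℚ) * x i = z i := by
  classical
  refine ⟨∏ i, ((x i).den : ℤ), fun i => (∏ j ∈ Finset.univ.erase i, ((x j).den : ℤ)) * (x i).num, ?_, fun i => ?_⟩
  · exact Finset.prod_ne_zero_iff.2 fun i _ => by exact_mod_cast (x i).den_ne_zero
  · rw [← Finset.prod_erase_mul _ _ (Finset.mem_univ i)]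
    push_cast
    rw [mul_assoc]
    congr 1
    exact_mod_cast Rat.den_mul_eq_num (x i)

lemma finrank_le_redu (N : Submodule ℚ (τ → ℚ)) : finrank ℚ N ≤ finrank (ZMod p) (redu p N) := by
  classical
  obtain ⟨k, b⟩ := Submodule.basisOfPid (Pi.basisFun ℤ τ) (intPts N)
  have h1 : finrank ℚ N ≤ k := by
    have hle : N ≤ Submodule.span ℚ (Set.range fun j : Fin k => (fun i => ((b j : τ → ℤ) i : ℚ))) := by
      intro x hx
      obtain ⟨d, z, hd, hz⟩ := exists_clear x
      have hzN : z ∈ intPts N := by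
        rw [mem_intPts]
        have := N.smul_mem (d : ℚ) hx
        convert this using 1
        ext i; simp [hz]
      have hd' : (d : ℚ) ≠ 0 := by exact_mod_cast hd
      have hx' : x = (d : ℚ)⁻¹ • (fun i => (z i : ℚ)) := by
        ext i; simp only [Pi.smul_apply, smul_eq_mul, ← hz]; field_simp
      rw [hx']
      refine Submodule.smul_mem _ _ ?_
      have hrep := b.sum_repr ⟨z, hzN⟩
      have hz2 : (fun i => (z i : ℚ)) = ∑ j, (b.repr ⟨z, hzN⟩ j : ℚ) • (fun i => ((b j : τ → ℤ) i : ℚ)) := by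
        ext i
        have := congrArg (fun y : intPts N => ((y : τ → ℤ) i)) hrep
        simp only [Submodule.coe_sum, Finset.sum_apply, Submodule.coe_smul, Pi.smul_apply, smul_eq_mul] at this
        simp only [Finset.sum_apply, Pi.smul_apply, smul_eq_mul]
        exact_mod_cast this.symm
      rw [hz2]
      exact Submodule.sum_mem _ fun j _ => Submodule.smul_mem _ _ (Submodule.subset_span ⟨j, rfl⟩)
    calc finrank ℚ N ≤ finrank ℚ (Submodule.span ℚ (Set.range fun j : Fin k => (fun i => ((b j : τ → ℤ) i : ℚ)))) := Submodule.finrank_mono hle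
      _ ≤ (Set.range fun j : Fin k => (fun i => ((b j : τ → ℤ) i : ℚ))).toFinset.card := finrank_span_le_card _
      _ ≤ k := by
        rw [Set.toFinset_range]
        exact Finset.card_image_le.trans (by simp)
  refine h1.trans ?_
  -- linear independence modulo p
  let v : Fin k → redu p N := fun j => ⟨fun i => ((b j : τ → ℤ) i : ZMod p), ⟨_, (b j).2, rfl⟩⟩
  have hv : LinearIndependent (ZMod p) v := by
    rw [Fintype.linearIndependent_iff]
    intro g hg j
    have hg' : ∀ i, ((∑ j, ((g j).val : ℤ) • (b j : τ → ℤ)) i : ZMod p) = 0 := by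
      intro i
      have := congrArg (fun y : redu p N => (y : τ → ZMod p) i) hg
      simp only [v, Submodule.coe_sum, Finset.sum_apply, Submodule.coe_smul, Pi.smul_apply, smul_eq_mul,
        Submodule.coe_zero, Pi.zero_apply] at this
      rw [← this]
      simp only [Finset.sum_apply, Pi.smul_apply, smul_eq_mul]
      push_cast
      exact Finset.sum_congr rfl fun x _ => by rw [ZMod.natCast_zmod_val]
    have hdiv : ∀ i, ∃ y : ℤ, (∑ j, ((g j).val : ℤ) • (b j : τ → ℤ)) i = p * y := by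
      intro i
      exact (ZMod.intCast_zmod_eq_zero_iff_dvd _ p).1 (hg' i)
    choose y hy using hdiv
    have hyN : y ∈ intPts N := by
      rw [mem_intPts]
      have hmem : (∑ j, ((g j).val : ℤ) • (b j : τ → ℤ)) ∈ intPts N :=
        Submodule.sum_mem _ fun j _ => Submodule.smul_mem _ _ (b j).2
      rw [mem_intPts] at hmem
      have := N.smul_mem ((p : ℚ)⁻¹) hmem
      convert this using 1
      ext i
      simp only [Pi.smul_apply, smul_eq_mul]
      rw [hy i]
      have : (p : ℚ) ≠ 0 := by exact_mod_cast hp.out.ne_zero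
      push_cast
      field_simp
    have heq : ∑ j, ((g j).val : ℤ) • b j = ∑ j, ((p : ℤ) * b.repr ⟨y, hyN⟩ j) • b j := by
      have h1 : ∑ j, ((p : ℤ) * b.repr ⟨y, hyN⟩ j) • b j = (p : ℤ) • (⟨y, hyN⟩ : intPts N) := by
        rw [← b.sum_repr ⟨y, hyN⟩, Finset.smul_sum]
        refine Finset.sum_congr rfl fun j _ => ?_
        rw [b.sum_repr, mul_smul]
      rw [h1]
      apply Subtype.ext
      ext i
      have := hy i
      simpa [Submodule.coe_sum] using this
    have hcoef : ∀ j, ((g j).val : ℤ) = (p : ℤ) * b.repr ⟨y, hyN⟩ j := by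
      have := (Fintype.linearIndependent_iff.1 b.linearIndependent)
        (fun j => ((g j).val : ℤ) - (p : ℤ) * b.repr ⟨y, hyN⟩ j)
        (by simp only [sub_smul, Finset.sum_sub_distrib]; rw [heq, sub_self])
      intro j
      have := this j
      linarith
    have h2 : (((g j).val : ℤ) : ZMod p) = 0 := by rw [hcoef j]; simp
    simpa using h2
  simpa using hv.fintype_card_le_finrank

/-- **Residue lemma.** If `A` is unimodular at `p` and `A + p <m_1,..,m_k>` is metabolic over `ℚ`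
then `<m_1,..,m_k>` is metabolic over `F_p`. -/
theorem residue {ι κ : Type} [Fintype ι] [DecidableEq ι] [Fintype κ]
    (A : Matrix ι ι ℤ) (hA : A.IsSymm) (hdet : (A.det : ZMod p) ≠ 0) (m : κ → ℤ)
    (hm : ∀ j, (m j : ZMod p) ≠ 0)
    (h : Met (oplus (matB (A.map (Int.cast : ℤ → ℚ))) (diagB (fun j => ((p * m j : ℤ) : ℚ))))) :
    Met (diagB (fun j => (m j : ZMod p))) := by
  classical
  -- transport to functions on the sum
  obtain ⟨N0, hN0, hB0⟩ := h
  let e := (LinearEquiv.sumArrowLequivProdArrow ι κ ℚ ℚ).symm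
  set N : Submodule ℚ (ι ⊕ κ → ℚ) := N0.map (e : _ →ₗ[ℚ] _) with hN
  have hNf : 2 * finrank ℚ N = Fintype.card ι + Fintype.card κ := by
    rw [hN, LinearEquiv.finrank_map_eq, hN0]; simp
  have hNB : ∀ x ∈ N, ∀ y ∈ N, (∑ i, ∑ j, x (Sum.inl i) * (A i j : ℚ) * y (Sum.inl j))
      + ∑ j, (p * m j : ℚ) * x (Sum.inr j) * y (Sum.inr j) = 0 := by
    rintro _ ⟨x, hx, rfl⟩ _ ⟨y, hy, rfl⟩
    have := hB0 x hx y hy
    simp only [oplus_apply, matB_apply, diagB_apply, dotProduct, mulVec, Finset.mul_sum,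
      Matrix.map_apply] at this
    push_cast at this
    rw [← this]
    congr 1
    refine Finset.sum_congr rfl fun i _ => Finset.sum_congr rfl fun j _ => ?_
    show x.1 i * (A i j : ℚ) * y.1 j = x.1 i * ((A i j : ℚ) * y.1 j)
    ring
  have hZ : ∀ x ∈ intPts N, ∀ y ∈ intPts N, (∑ i, ∑ j, x (Sum.inl i) * A i j * y (Sum.inl j))
      + p * ∑ j, m j * x (Sum.inr j) * y (Sum.inr j) = 0 := by
    intro x hx y hy
    have := hNB _ hx _ hy
    have h2 : (((∑ i, ∑ j, x (Sum.inl i) * A i j * y (Sum.inl j))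
      + p * ∑ j, m j * x (Sum.inr j) * y (Sum.inr j) : ℤ) : ℚ) = 0 := by
      rw [← this]; push_cast; congr 1
      rw [Finset.mul_sum]
      exact Finset.sum_congr rfl fun j _ => by ring
    exact_mod_cast h2
  have hdim := finrank_le_redu p N
  set R := redu p N with hR
  -- projection to the first block
  let π : (ι ⊕ κ → ZMod p) →ₗ[ZMod p] (ι → ZMod p) := LinearMap.funLeft (ZMod p) (ZMod p) Sum.inl
  let σ : (κ → ZMod p) →ₗ[ZMod p] (ι ⊕ κ → ZMod p) :=
    (LinearEquiv.sumArrowLequivProdArrow ι κ (ZMod p) (ZMod p)).symm.toLinearMap ∘ₗ LinearMap.inr _ _ _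
  have hσl : ∀ c i, σ c (Sum.inl i) = 0 := fun c i => rfl
  have hσr : ∀ c j, σ c (Sum.inr j) = c j := fun c j => rfl
  set T : Submodule (ZMod p) (κ → ZMod p) := R.comap σ with hT
  set I : Submodule (ZMod p) (ι → ZMod p) := R.map π with hI
  -- I isotropic
  have hAs : (A.map (Int.cast : ℤ → ZMod p)).IsSymm := by
    ext i j
    simp only [Matrix.transpose_apply, Matrix.map_apply]
    rw [hA.apply]
  have hAd : (A.map (Int.cast : ℤ → ZMod p)).det ≠ 0 := by
    have : (A.map (Int.cast : ℤ → ZMod p)).det = (A.det : ZMod p) := by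
      exact (Int.cast_det A).symm
    rwa [this]
  have hIiso : 2 * finrank (ZMod p) I ≤ Fintype.card ι := by
    have := isotropic_le (matB_symm hAs) (matB_nd hAd) (N := I) (by
      rintro _ ⟨_, ⟨x, hx, rfl⟩, rfl⟩ _ ⟨_, ⟨y, hy, rfl⟩, rfl⟩
      have h1 := hZ x hx y hy
      have h2 := congrArg (Int.cast : ℤ → ZMod p) h1
      push_cast at h2
      simp only [CharP.cast_eq_zero, zero_mul, add_zero] at h2
      rw [← h2]
      simp only [matB_apply, dotProduct, mulVec, Finset.mul_sum, Matrix.map_apply]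
      refine Finset.sum_congr rfl fun i _ => Finset.sum_congr rfl fun j _ => ?_
      show (x (Sum.inl i) : ZMod p) * ((A i j : ZMod p) * (y (Sum.inl j) : ZMod p)) = _
      ring)
    simpa using this
  -- dimension of T
  have hTdim : finrank (ZMod p) R ≤ finrank (ZMod p) I + finrank (ZMod p) T := by
    have h1 := LinearMap.finrank_range_add_finrank_ker (π.domRestrict R)
    rw [LinearMap.range_domRestrict, ← hI] at h1
    have h2 : finrank (ZMod p) (LinearMap.ker (π.domRestrict R)) ≤ finrank (ZMod p) T := by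
      let f : LinearMap.ker (π.domRestrict R) →ₗ[ZMod p] T :=
        { toFun := fun x => ⟨fun j => (x : R).1 (Sum.inr j), by
            have h0 : ∀ i, (x : R).1 (Sum.inl i) = 0 := fun i => by
              have := x.2
              rw [LinearMap.mem_ker] at this
              exact congrFun this i
            show σ (fun j => (x : R).1 (Sum.inr j)) ∈ R
            have : σ (fun j => (x : R).1 (Sum.inr j)) = (x : R).1 := by
              ext (i | j)
              · rw [hσl, h0]
              · rw [hσr]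
            rw [this]
            exact (x : R).2⟩
          map_add' := fun x y => rfl
          map_smul' := fun c x => rfl }
      refine LinearMap.finrank_le_finrank_of_injective (f := f) ?_
      rw [injective_iff_map_eq_zero]
      intro x hx
      apply Subtype.ext
      apply Subtype.ext
      ext (i | j)
      · have := x.2
        rw [LinearMap.mem_ker] at this
        exact congrFun this i
      · exact congrFun (congrArg Subtype.val hx) j
    omega
  have hmd : ND (diagB (fun j => (m j : ZMod p))) := diagB_nd _ hm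
  have hTiso : ∀ x ∈ T, ∀ y ∈ T, diagB (fun j => (m j : ZMod p)) x y = 0 := by
    rintro c ⟨x, hx, hcx⟩ c' ⟨y, hy, hcy⟩
    have hx0 : ∀ i, ∃ a : ℤ, x (Sum.inl i) = p * a := fun i => by
      refine (ZMod.intCast_zmod_eq_zero_iff_dvd _ p).1 ?_
      exact (congrFun hcx (Sum.inl i)).symm
    have hy0 : ∀ i, ∃ a : ℤ, y (Sum.inl i) = p * a := fun i => by
      refine (ZMod.intCast_zmod_eq_zero_iff_dvd _ p).1 ?_
      exact (congrFun hcy (Sum.inl i)).symm
    choose a ha using hx0
    choose b hb using hy0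
    have h1 := hZ x hx y hy
    have h3 : (∑ j, m j * x (Sum.inr j) * y (Sum.inr j)) = - (p * ∑ i, ∑ j, a i * A i j * b j) := by
      have hp0 : (p : ℤ) ≠ 0 := by exact_mod_cast hp.out.ne_zero
      apply mul_left_cancel₀ hp0
      have h4 : (∑ i, ∑ j, x (Sum.inl i) * A i j * y (Sum.inl j)) = p * (p * ∑ i, ∑ j, a i * A i j * b j) := by
        simp only [Finset.mul_sum, ha, hb]
        exact Finset.sum_congr rfl fun i _ => Finset.sum_congr rfl fun j _ => by ring
      rw [h4] at h1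
      linarith
    have h5 := congrArg (Int.cast : ℤ → ZMod p) h3
    push_cast at h5
    simp only [CharP.cast_eq_zero, zero_mul, neg_zero] at h5
    rw [← h5]
    simp only [diagB_apply]
    refine Finset.sum_congr rfl fun j _ => ?_
    have e1 : c j = (x (Sum.inr j) : ZMod p) := by
      have := congrFun hcx (Sum.inr j)
      simpa [hσr] using this
    have e2 : c' j = (y (Sum.inr j) : ZMod p) := by
      have := congrFun hcy (Sum.inr j)
      simpa [hσr] using this
    rw [e1, e2]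
  have hle := isotropic_le (diagB_symm _) hmd hTiso
  refine ⟨T, ?_, hTiso⟩
  rw [finrank_pi] at hle ⊢
  omega

end Crest.Agent.R235.LatR_283
end

-- ▼ part R235/LatW_283
section

/-!
Row 235, package LAT, file W: every indefinite unimodular symmetric form over `ℤ` is isotropic
(the image of the Witt group of `ℤ` in the Witt group of `ℚ` is generated by `<1>`).
-/

open Module

namespace Crest.Agent.R235.LatW_283

open LinearMap (BilinForm)
open LatA_283 LatB_283 LatS_283 LatF_283 LatR_283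
open Matrix

/-- normal form of an element of `L p` -/
def NF (p : ℕ) (x : W ℚ) : Prop :=
  ∃ (ι κ : Type) (_ : Fintype ι) (_ : Fintype κ) (_ : DecidableEq ι) (s : ι → ℤ) (m : κ → ℤ),
    (∀ i, s i ≠ 0 ∧ Sm (p - 1) (s i)) ∧ (∀ j, m j ≠ 0 ∧ Sm (p - 1) (m j)) ∧
    x = ∑ i, wz (s i) + ∑ j, wz (p * m j)

lemma nf_zero (p : ℕ) : NF p 0 :=
  ⟨Empty, Empty, inferInstance, inferInstance, inferInstance, fun i => i.elim, fun i => i.elim,
    fun i => i.elim, fun i => i.elim, by simp⟩

lemma nf_add {p : ℕ} {x y : W ℚ} (hx : NF p x) (hy : NF p y) : NF p (x + y) := by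
  obtain ⟨ι, κ, _, _, _, s, m, hs, hm, rfl⟩ := hx
  obtain ⟨ι', κ', _, _, _, s', m', hs', hm', rfl⟩ := hy
  refine ⟨ι ⊕ ι', κ ⊕ κ', inferInstance, inferInstance, inferInstance, Sum.elim s s',
    Sum.elim m m', ?_, ?_, ?_⟩
  · rintro (i | i)
    · exact hs i
    · exact hs' i
  · rintro (i | i)
    · exact hm i
    · exact hm' i
  · simp
    abel

lemma nf_neg {p : ℕ} {x : W ℚ} (hx : NF p x) : NF p (-x) := by
  obtain ⟨ι, κ, _, _, _, s, m, hs, hm, rfl⟩ := hx
  refine ⟨ι, κ, inferInstance, inferInstance, inferInstance, fun i => -s i, fun j => -m j,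
    fun i => ⟨neg_ne_zero.2 (hs i).1, (hs i).2.neg⟩, fun i => ⟨neg_ne_zero.2 (hm i).1, (hm i).2.neg⟩, ?_⟩
  simp only [wz_neg, mul_neg, Finset.sum_neg_distrib]
  abel

lemma nf_wz {p : ℕ} [hp : Fact p.Prime] {a : ℤ} (ha : Sm p a) : NF p (wz a) := by
  by_cases ha0 : a = 0
  · subst ha0; rw [wz_zero]; exact nf_zero p
  have hpu : ¬ IsUnit (p : ℤ) := (Nat.prime_iff_prime_int.1 hp.out).not_isUnit
  have hfin : FiniteMultiplicity (p : ℤ) a := Int.finiteMultiplicity_iff.2 ⟨by
    simpa using hp.out.ne_one, ha0⟩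
  obtain ⟨b, hb, hnd⟩ := hfin.exists_eq_pow_mul_and_not_dvd
  set v := multiplicity (p : ℤ) a with hv
  have hb0 : b ≠ 0 := fun h => ha0 (by rw [hb, h, mul_zero])
  have hp0 : (p : ℤ) ≠ 0 := by exact_mod_cast hp.out.ne_zero
  have hbS : Sm (p - 1) b := by
    right
    intro q hq hqb
    have h1 : (q : ℤ) ∣ a := by rw [hb]; exact hqb.mul_left _
    have h2 : q ≤ p := by
      rcases ha with h | h
      · exact absurd h ha0
      · exact h q hq h1
    have h3 : q ≠ p := fun h => hnd (h ▸ hqb)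
    omega
  rcases Nat.even_or_odd' v with ⟨j, hj | hj⟩
  · have : a = b * ((p : ℤ) ^ j) ^ 2 := by rw [hb, hj]; ring
    rw [this, wz_sq _ (pow_ne_zero _ hp0)]
    exact ⟨Unit, Empty, inferInstance, inferInstance, inferInstance, fun _ => b, fun i => i.elim,
      fun _ => ⟨hb0, hbS⟩, fun i => i.elim, by simp⟩
  · have : a = (p * b) * ((p : ℤ) ^ j) ^ 2 := by rw [hb, hj]; ring
    rw [this, wz_sq _ (pow_ne_zero _ hp0)]
    exact ⟨Empty, Unit, inferInstance, inferInstance, inferInstance, fun i => i.elim, fun _ => b,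
      fun i => i.elim, fun _ => ⟨hb0, hbS⟩, by simp⟩

lemma nf_of_mem {p : ℕ} [hp : Fact p.Prime] {x : W ℚ} (hx : x ∈ L p) : NF p x := by
  induction hx using AddSubgroup.closure_induction with
  | mem x hx =>
    obtain ⟨a, ha, rfl⟩ := hx
    exact nf_wz ha
  | zero => exact nf_zero p
  | add x y _ _ hx hy => exact nf_add hx hy
  | neg x _ hx => exact nf_neg hx

lemma not_dvd_of_Sm {p : ℕ} [hp : Fact p.Prime] {a : ℤ} (h0 : a ≠ 0) (h : Sm (p - 1) a) :
    ((a : ℤ) : ZMod p) ≠ 0 := by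
  intro h1
  have h2 := (ZMod.intCast_zmod_eq_zero_iff_dvd a p).1 h1
  rcases h with h | h
  · exact h0 h
  · have := h p hp.out h2
    have := hp.out.two_le
    omega

/-- regrouping equivalence -/
def blockE (n ι κ : Type) :
    ((n → ℚ) × (ι ⊕ κ → ℚ)) ≃ₗ[ℚ] ((n ⊕ ι → ℚ) × (κ → ℚ)) where
  toFun := fun y => (Sum.elim y.1 (fun i => y.2 (Sum.inl i)), fun j => y.2 (Sum.inr j))
  map_add' := fun x y => by
    refine Prod.ext (funext fun i => ?_) (funext fun j => rfl)
    cases i <;> rfl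
  map_smul' := fun c x => by
    refine Prod.ext (funext fun i => ?_) (funext fun j => rfl)
    cases i <;> rfl
  invFun := fun y => (fun i => y.1 (Sum.inl i), Sum.elim (fun i => y.1 (Sum.inr i)) y.2)
  left_inv := fun y => by
    refine Prod.ext (funext fun i => rfl) (funext fun j => ?_)
    cases j <;> rfl
  right_inv := fun y => by
    refine Prod.ext (funext fun i => ?_) (funext fun j => rfl)
    cases i <;> rfl

lemma blockE_apply {n ι κ : Type} (y : (n → ℚ) × (ι ⊕ κ → ℚ)) :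
    blockE n ι κ y = (Sum.elim y.1 (fun i => y.2 (Sum.inl i)), fun j => y.2 (Sum.inr j)) := rfl

lemma iso_block {n ι κ : Type} [Fintype n] [Fintype ι] [Fintype κ] [DecidableEq n] [DecidableEq ι]
    (A : Matrix n n ℤ) (s : ι → ℤ) (m : κ → ℤ) (d : ι ⊕ κ → ℚˣ)
    (h1 : ∀ i, ((d (Sum.inl i) : ℚˣ) : ℚ) = s i) (h2 : ∀ j, ((d (Sum.inr j) : ℚˣ) : ℚ) = m j) :
    Iso (oplus (matB (A.map (Int.cast : ℤ → ℚ))) (D (fun i => -(d i))))
      (oplus (matB ((fromBlocks A 0 0 (diagonal fun i => -s i)).map (Int.cast : ℤ → ℚ)))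
        (diagB (fun j => ((-m j : ℤ) : ℚ)))) := by
  refine ⟨blockE n ι κ, fun x y => ?_⟩
  rw [blockE_apply, blockE_apply]
  simp only [oplus_apply, matB_apply, diagB_apply, D_apply, Fintype.sum_sum_type]
  rw [fromBlocks_map, fromBlocks_mulVec, sumElim_dotProduct_sumElim, add_assoc]
  simp only [Function.comp_def, Sum.elim_inl, Sum.elim_inr]
  have e1 : (x.1 ⬝ᵥ (((A.map (Int.cast : ℤ → ℚ)) *ᵥ fun x => y.1 x) +
      (Matrix.map (0 : Matrix n ι ℤ) (Int.cast : ℤ → ℚ)) *ᵥ fun x => y.2 (Sum.inl x))) =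
      x.1 ⬝ᵥ ((A.map (Int.cast : ℤ → ℚ)) *ᵥ y.1) := by
    congr 1
    ext i
    simp [mulVec, dotProduct]
  have e2 : ((fun i => x.2 (Sum.inl i)) ⬝ᵥ
      (((Matrix.map (0 : Matrix ι n ℤ) (Int.cast : ℤ → ℚ)) *ᵥ fun x => y.1 x) +
      (Matrix.map (diagonal fun i => -s i) (Int.cast : ℤ → ℚ)) *ᵥ fun x => y.2 (Sum.inl x))) =
      ∑ i, ((-(d (Sum.inl i)) : ℚˣ) : ℚ) * x.2 (Sum.inl i) * y.2 (Sum.inl i) := by
    simp only [dotProduct, Pi.add_apply]
    refine Finset.sum_congr rfl fun i _ => ?_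
    rw [Units.val_neg, h1]
    have : ((Matrix.map (diagonal fun i => -s i) (Int.cast : ℤ → ℚ)) *ᵥ fun x => y.2 (Sum.inl x)) i =
        -(s i : ℚ) * y.2 (Sum.inl i) := by
      rw [mulVec, dotProduct, Finset.sum_eq_single i]
      · simp
      · intro b _ hb
        simp [diagonal_apply_ne _ (Ne.symm hb)]
      · simp
    rw [this]
    simp [mulVec, dotProduct]
    ring
  rw [e1, e2]
  congr 2
  refine Finset.sum_congr rfl fun i _ => ?_
  rw [Units.val_neg, h2]
  push_cast
  rfl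

theorem descent {n : Type} [Fintype n] [DecidableEq n] (A : Matrix n n ℤ) (hA : A.IsSymm)
    (hu : IsUnit A.det) {x : W ℚ} (hRep : Rep (matB (A.map (Int.cast : ℤ → ℚ))) x) (p : ℕ)
    [hp : Fact p.Prime] (hx : x ∈ L p) : x ∈ L (p - 1) := by
  obtain ⟨ι, κ, _, _, _, s, m, hs, hm, hxe⟩ := nf_of_mem hx
  have hs0 : ∀ i, ((s i : ℤ) : ℚ) ≠ 0 := fun i => by exact_mod_cast (hs i).1
  have hp0 : (p : ℤ) ≠ 0 := by exact_mod_cast hp.out.ne_zero
  have hm0 : ∀ j, ((p * m j : ℤ) : ℚ) ≠ 0 := fun j => by exact_mod_cast mul_ne_zero hp0 (hm j).1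
  have hAs : (A.map (Int.cast : ℤ → ℚ)).IsSymm := by
    ext i j
    simp only [Matrix.transpose_apply, Matrix.map_apply]
    rw [hA.apply]
  have hAd : (A.map (Int.cast : ℤ → ℚ)).det ≠ 0 := by
    have : (A.map (Int.cast : ℤ → ℚ)).det = (A.det : ℚ) := (Int.cast_det A).symm
    rw [this]
    exact_mod_cast hu.ne_zero
  have h1 := hRep.met (matB_symm hAs) (matB_nd hAd)
    (Sum.elim (fun i => Units.mk0 _ (hs0 i)) (fun j => Units.mk0 _ (hm0 j))) (by
      rw [hxe]
      simp [wz_of_ne (hs0 _), wz_of_ne (hm0 _)])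
  let A' : Matrix (n ⊕ ι) (n ⊕ ι) ℤ := fromBlocks A 0 0 (diagonal fun i => -s i)
  have hA' : A'.IsSymm := by
    have : A'ᵀ = A' := by
      simp only [A', fromBlocks_transpose, hA.eq, transpose_zero, diagonal_transpose]
    exact this
  have hdet : (A'.det : ZMod p) ≠ 0 := by
    have : A'.det = A.det * ∏ i, (-s i) := by
      simp only [A', det_fromBlocks_zero₂₁, det_diagonal]
    rw [this, Int.cast_mul, Int.cast_prod]
    refine mul_ne_zero ?_ (Finset.prod_ne_zero_iff.2 fun i _ => ?_)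
    · have := hu.map (Int.castRingHom (ZMod p))
      exact this.ne_zero
    · rw [Int.cast_neg]
      exact neg_ne_zero.2 (not_dvd_of_Sm (hs i).1 (hs i).2)
  have h2 : Met (oplus (matB (A'.map (Int.cast : ℤ → ℚ))) (diagB (fun j => ((p * (-m j) : ℤ) : ℚ)))) := by
    have := h1.iso (iso_block A s (fun j => p * m j) _ (fun i => rfl) (fun j => rfl))
    simpa only [mul_neg] using this
  have h3 := residue p A' hA' hdet (fun j => -m j) (fun j => by
    push_cast; exact neg_ne_zero.2 (not_dvd_of_Sm (hm j).1 (hm j).2)) h2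
  have h4 : ∑ j, wz (p * m j) ∈ L (p - 1) := by
    by_cases hp2 : p = 2
    · subst hp2
      obtain ⟨l, hl, -⟩ := disc _ h3
      have e0 : wz 2 + wz 2 = wz 1 + wz 1 := by
        have := wz_add 1 1
        norm_num at this
        exact this.symm
      have e1 : wz 1 ∈ L 1 := mem_L (Sm.of_abs (by norm_num))
      have e2 : ∀ j, wz (2 * m j) - wz 2 ∈ L 1 := by
        intro j
        have hj : m j = 1 ∨ m j = -1 := by
          have : (m j).natAbs = 1 := by
            by_contra hne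
            obtain ⟨q, hq, hqd⟩ := Nat.exists_prime_and_dvd hne
            rcases (hm j).2 with h | h
            · exact (hm j).1 h
            · have := h q hq (Int.natCast_dvd.2 hqd)
              have := hq.two_le
              omega
          omega
        rcases hj with h | h
        · rw [h, mul_one, sub_self]; exact zero_mem _
        · rw [h]
          have : wz (2 * -1) - wz 2 = -(wz 1 + wz 1) := by
            rw [← e0, show (2 * -1 : ℤ) = -2 by norm_num, wz_neg]; abel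
          rw [this]
          exact neg_mem (add_mem e1 e1)
      have e3 : ∑ j, wz (2 * m j) = ∑ j, (wz (2 * m j) - wz 2) + l • (wz 1 + wz 1) := by
        rw [Finset.sum_sub_distrib, Finset.sum_const, Finset.card_univ, hl, ← e0, ← two_nsmul,
          ← mul_nsmul]
        abel
      show ∑ j, wz (2 * m j) ∈ L 1
      rw [e3]
      exact add_mem (sum_mem fun j _ => e2 j) (nsmul_mem (add_mem e1 e1) _)
    · have h5 := sum_phi_zero (phi p) (phi_neg p) (fun x y hy => phi_mul_sq p x hy)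
        (fun x hx => two_phi p hp2 hx) (fun j => ((-m j : ℤ) : ZMod p)) (fun j => by
          push_cast; exact neg_ne_zero.2 (not_dvd_of_Sm (hm j).1 (hm j).2)) h3
      rw [← QuotientAddGroup.eq_zero_iff]
      have h6 : (QuotientAddGroup.mk (∑ j, wz (p * m j)) : W ℚ ⧸ L (p - 1)) = ∑ j, phi p (m j : ZMod p) := by
        have := map_sum (QuotientAddGroup.mk' (L (p - 1))) (fun j => wz (p * m j)) Finset.univ
        refine this.trans (Finset.sum_congr rfl fun j _ => ?_)
        exact phi_int p (m j) (hm j).2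
      rw [h6]
      simp only [Int.cast_neg, phi_neg, Finset.sum_neg_distrib, neg_eq_zero] at h5
      exact h5
  rw [hxe]
  exact add_mem (sum_mem fun i _ => mem_L (hs i).2) h4

/-! ### down to `L 1` -/

theorem descent_all {n : Type} [Fintype n] [DecidableEq n] (A : Matrix n n ℤ) (hA : A.IsSymm)
    (hu : IsUnit A.det) {x : W ℚ} (hRep : Rep (matB (A.map (Int.cast : ℤ → ℚ))) x) (k : ℕ)
    (hx : x ∈ L k) : x ∈ L 1 := by
  induction k with
  | zero => exact L_mono (by norm_num) hx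
  | succ k ih =>
    by_cases hp : (k + 1).Prime
    · have : Fact (k + 1).Prime := ⟨hp⟩
      exact ih (descent A hA hu hRep (k + 1) hx)
    · refine ih (AddSubgroup.closure_mono (Set.image_mono ?_) hx)
      rintro a (h | h)
      · exact Or.inl h
      · right
        intro q hq hd
        have h1 := h q hq hd
        rcases Nat.lt_or_ge k q with h2 | h2
        · exact absurd (by omega : q = k + 1) (fun h => hp (h ▸ hq))
        · exact h2

lemma mem_L_one {x : W ℚ} (hx : x ∈ L 1) : ∃ c : ℤ, x = c • wz 1 := by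
  induction hx using AddSubgroup.closure_induction with
  | mem x hx =>
    obtain ⟨a, ha, rfl⟩ := hx
    rcases ha with rfl | ha
    · exact ⟨0, by rw [wz_zero, zero_zsmul]⟩
    · have : a.natAbs = 1 := by
        by_contra hne
        obtain ⟨q, hq, hqd⟩ := Nat.exists_prime_and_dvd hne
        have := ha q hq (Int.natCast_dvd.2 hqd)
        have := hq.two_le
        omega
      have h : a = 1 ∨ a = -1 := by omega
      rcases h with rfl | rfl
      · exact ⟨1, by rw [one_zsmul]⟩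
      · exact ⟨-1, by rw [wz_neg, neg_zsmul, one_zsmul]⟩
  | zero => exact ⟨0, by rw [zero_zsmul]⟩
  | add x y _ _ hx hy =>
    obtain ⟨c, rfl⟩ := hx
    obtain ⟨d, rfl⟩ := hy
    exact ⟨c + d, by rw [add_zsmul]⟩
  | neg x _ hx =>
    obtain ⟨c, rfl⟩ := hx
    exact ⟨-c, by rw [neg_zsmul]⟩

lemma w_eq_wz (a : ℚˣ) : w a = wz ((a : ℚ).num * ((a : ℚ).den : ℤ)) := by
  have hn : (a : ℚ).num ≠ 0 := Rat.num_ne_zero.2 a.ne_zero
  have hd : ((a : ℚ).den : ℚ) ≠ 0 := by exact_mod_cast (a : ℚ).den_ne_zero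
  have h : (((a : ℚ).num * ((a : ℚ).den : ℤ) : ℤ) : ℚ) ≠ 0 := by
    push_cast
    exact mul_ne_zero (by exact_mod_cast hn) hd
  rw [wz_of_ne h, ← w_sq a (Units.mk0 ((a : ℚ).den : ℚ) hd)]
  congr 1
  ext
  have h2 := Rat.mul_den_eq_num (a : ℚ)
  simp only [Units.val_mul, Units.val_pow_eq_pow_val, Units.val_mk0]
  push_cast
  rw [pow_two, ← mul_assoc, h2]

lemma exists_L (A : Type) [Fintype A] (d : A → ℚˣ) : ∃ k, ∑ i, w (d i) ∈ L k := by
  classical
  let k : ℕ := ∑ i, ((d i : ℚ).num * ((d i : ℚ).den : ℤ)).natAbs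
  refine ⟨k, sum_mem fun i _ => ?_⟩
  rw [w_eq_wz]
  refine mem_L (Sm.of_abs ?_)
  rw [Int.abs_eq_natAbs]
  have : ((d i : ℚ).num * ((d i : ℚ).den : ℤ)).natAbs ≤ k :=
    Finset.single_le_sum (f := fun i => ((d i : ℚ).num * ((d i : ℚ).den : ℤ)).natAbs)
      (fun _ _ => Nat.zero_le _) (Finset.mem_univ i)
  exact_mod_cast this

/-- diagonalisation: every nondegenerate symmetric form over `ℚ` has a class -/
lemma exists_rep {V : Type} [AddCommGroup V] [Module ℚ V] [FiniteDimensional ℚ V]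
    (B : BilinForm ℚ V) (hs : B.IsSymm) (hn : ND B) : ∃ x, Rep B x := by
  classical
  obtain ⟨v, hv⟩ := LinearMap.BilinForm.exists_orthogonal_basis (B := B)
    ⟨fun x y => hs.eq x y⟩
  have hne : ∀ i, B (v i) (v i) ≠ 0 := by
    intro i h
    refine v.ne_zero i (hn _ fun y => ?_)
    rw [← v.sum_repr y, map_sum]
    refine Finset.sum_eq_zero fun j _ => ?_
    rw [map_smul]
    by_cases hij : i = j
    · subst hij; rw [h, smul_zero]
    · rw [hv hij, smul_zero]
  let d : Fin (finrank ℚ V) → ℚˣ := fun i => Units.mk0 _ (hne i)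
  refine ⟨∑ i, w (d i), _, d, rfl, ?_⟩
  refine (met_neg d).iso (Iso.oplus_congr ?_ (Iso.refl _))
  refine ⟨v.equivFun.symm, fun x y => ?_⟩
  rw [Basis.equivFun_symm_apply, Basis.equivFun_symm_apply, D_apply]
  simp only [map_sum, LinearMap.sum_apply, map_smul, LinearMap.smul_apply, smul_eq_mul]
  refine Finset.sum_congr rfl fun i _ => ?_
  rw [Finset.sum_eq_single i]
  · show y i * (x i * B (v i) (v i)) = B (v i) (v i) * x i * y i
    ring
  · intro j _ hj
    rw [hv hj, mul_zero]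
  · simp

/-- class of a unimodular form -/
theorem exists_sigma {n : Type} [Fintype n] [DecidableEq n] (A : Matrix n n ℤ) (hA : A.IsSymm)
    (hu : IsUnit A.det) : ∃ (c : ℕ) (ε : ℚˣ), (ε = 1 ∨ ε = -1) ∧
      Met (oplus (matB (A.map (Int.cast : ℤ → ℚ))) (D (fun _ : Fin c => -ε))) := by
  have hAs : (A.map (Int.cast : ℤ → ℚ)).IsSymm := by
    ext i j
    simp only [Matrix.transpose_apply, Matrix.map_apply]
    rw [hA.apply]
  have hAd : (A.map (Int.cast : ℤ → ℚ)).det ≠ 0 := by
    have : (A.map (Int.cast : ℤ → ℚ)).det = (A.det : ℚ) := (Int.cast_det A).symm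
    rw [this]
    exact_mod_cast hu.ne_zero
  obtain ⟨x, hx⟩ := exists_rep _ (matB_symm hAs) (matB_nd hAd)
  have hx' := hx
  obtain ⟨m, d, hd, -⟩ := hx'
  obtain ⟨k, hk⟩ := exists_L _ d
  obtain ⟨c, hc⟩ := mem_L_one (descent_all A hA hu hx k (hd ▸ hk))
  have h1 : wz 1 = w (1 : ℚˣ) := by
    rw [wz_of_ne (by norm_num)]; congr 1; ext; simp
  obtain ⟨c', rfl | rfl⟩ := Int.eq_nat_or_neg c
  · refine ⟨c', 1, Or.inl rfl, hx.met (matB_symm hAs) (matB_nd hAd) (fun _ => 1) ?_⟩
    rw [hc, h1]; simp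
  · refine ⟨c', -1, Or.inr rfl, hx.met (matB_symm hAs) (matB_nd hAd) (fun _ => -1) ?_⟩
    rw [hc, h1, w_neg]; simp

/-! ### isotropic vectors -/

/-- from a Lagrangian of `B + c<-1>` and a negative vector of `B` to an isotropic vector -/
lemma isotropic_of_met {V : Type} [AddCommGroup V] [Module ℚ V] [FiniteDimensional ℚ V]
    (B : BilinForm ℚ V) (c : ℕ) (h : Met (oplus B (D (fun _ : Fin c => (-1 : ℚˣ)))))
    (y : V) (hy : B y y < 0) : ∃ v, v ≠ 0 ∧ B v v = 0 := by
  obtain ⟨N, hN, hB⟩ := h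
  rw [finrank_prod, finrank_pi, Fintype.card_fin] at hN
  have hy0 : y ≠ 0 := by rintro rfl; simp at hy
  -- negative definite subspace
  let S : Submodule ℚ (V × (Fin c → ℚ)) := Submodule.prod (ℚ ∙ y) ⊤
  have hS : finrank ℚ S = 1 + c := by
    rw [finrank_sprod, finrank_span_singleton hy0]; simp
  have hdisj : N ⊓ S = ⊥ := by
    rw [eq_bot_iff]
    rintro ⟨a, b⟩ ⟨h1, h2, -⟩
    obtain ⟨t, rfl⟩ := Submodule.mem_span_singleton.1 h2
    have h3 := hB _ h1 _ h1
    simp only [oplus_apply, D_apply, map_smul, LinearMap.smul_apply, smul_eq_mul] at h3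
    have h4 : t * (t * B y y) = t ^ 2 * B y y := by ring
    have h5 : ∑ i, (((-1 : ℚˣ)) : ℚ) * b i * b i = - ∑ i, b i ^ 2 := by
      rw [← Finset.sum_neg_distrib]
      exact Finset.sum_congr rfl fun i _ => by simp; ring
    rw [h4, h5] at h3
    have h6 : 0 ≤ ∑ i, b i ^ 2 := Finset.sum_nonneg fun i _ => sq_nonneg _
    have h7 : t ^ 2 * B y y ≤ 0 := mul_nonpos_of_nonneg_of_nonpos (sq_nonneg _) hy.le
    have h8 : t ^ 2 * B y y = 0 := by linarith
    have h9 : ∑ i, b i ^ 2 = 0 := by linarith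
    have ht : t = 0 := by
      rcases mul_eq_zero.1 h8 with h | h
      · exact pow_eq_zero_iff (two_ne_zero) |>.1 h
      · exact absurd h hy.ne
    have hb : b = 0 := by
      ext i
      have := (Finset.sum_eq_zero_iff_of_nonneg (fun i _ => sq_nonneg (b i))).1 h9 i (Finset.mem_univ i)
      simpa using this
    simp [ht, hb]
  have h1 := Submodule.finrank_sup_add_finrank_inf_eq N S
  have h2 := Submodule.finrank_le (N ⊔ S)
  rw [hdisj, finrank_bot, hS] at h1
  rw [finrank_prod, finrank_pi, Fintype.card_fin] at h2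
  -- intersect with V
  let T : Submodule ℚ (V × (Fin c → ℚ)) := Submodule.prod ⊤ ⊥
  have hT : finrank ℚ T = finrank ℚ V := by rw [finrank_sprod]; simp
  have h3 := Submodule.finrank_sup_add_finrank_inf_eq N T
  have h4 := Submodule.finrank_le (N ⊔ T)
  rw [finrank_prod, finrank_pi, Fintype.card_fin] at h4
  have h5 : 0 < finrank ℚ (N ⊓ T : Submodule ℚ (V × (Fin c → ℚ))) := by omega
  rw [Module.finrank_pos_iff] at h5
  obtain ⟨⟨⟨a, b⟩, h6, h7, h8⟩, h9⟩ := exists_ne (0 : (N ⊓ T : Submodule ℚ (V × (Fin c → ℚ))))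
  have hb : b = 0 := by simpa using h8
  subst hb
  refine ⟨a, ?_, ?_⟩
  · rintro rfl
    exact h9 rfl
  · have := hB _ h6 _ h6
    simpa [D_apply] using this

/-- **Indefinite unimodular forms over `ℤ` are isotropic.** -/
theorem iso {n : Type} [Fintype n] [DecidableEq n] (A : Matrix n n ℤ) (hA : A.IsSymm)
    (hu : IsUnit A.det) (hp : ∃ x : n → ℤ, 0 < x ⬝ᵥ (A *ᵥ x)) (hn : ∃ x : n → ℤ, x ⬝ᵥ (A *ᵥ x) < 0) :
    ∃ v : n → ℤ, v ≠ 0 ∧ v ⬝ᵥ (A *ᵥ v) = 0 := by
  obtain ⟨x, hx⟩ := hp
  obtain ⟨y, hy⟩ := hn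
  obtain ⟨c, ε, hε, hM⟩ := exists_sigma A hA hu
  have hcast : ∀ z : n → ℤ, (fun i => (z i : ℚ)) ⬝ᵥ ((A.map (Int.cast : ℤ → ℚ)) *ᵥ (fun i => (z i : ℚ))) =
      ((z ⬝ᵥ (A *ᵥ z) : ℤ) : ℚ) := by
    intro z
    simp [dotProduct, mulVec]
  have key : ∃ v : n → ℚ, v ≠ 0 ∧ matB (A.map (Int.cast : ℤ → ℚ)) v v = 0 := by
    rcases hε with rfl | rfl
    · refine isotropic_of_met _ c hM (fun i => (y i : ℚ)) ?_
      rw [matB_apply, hcast]
      exact_mod_cast hy
    · have h1 := neg_symm hM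
      have h2 : Met (oplus (-(matB (A.map (Int.cast : ℤ → ℚ)))) (D (fun _ : Fin c => (-1 : ℚˣ)))) := by
        refine h1.iso ⟨LinearEquiv.refl ℚ _, fun x y => ?_⟩
        simp [D_apply]
        ring
      obtain ⟨v, hv0, hv⟩ := isotropic_of_met _ c h2 (fun i => (x i : ℚ)) (by
        rw [LinearMap.neg_apply, LinearMap.neg_apply, matB_apply, hcast]
        have : (0 : ℚ) < ((x ⬝ᵥ (A *ᵥ x) : ℤ) : ℚ) := by exact_mod_cast hx
        linarith)
      exact ⟨v, hv0, by simpa using hv⟩
  obtain ⟨v, hv0, hv⟩ := key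
  obtain ⟨d, z, hd, hz⟩ := exists_clear v
  have hd' : (d : ℚ) ≠ 0 := by exact_mod_cast hd
  have hz' : (fun i => (z i : ℚ)) = (d : ℚ) • v := by
    ext i; simp [hz]
  refine ⟨z, ?_, ?_⟩
  · rintro rfl
    apply hv0
    ext i
    have := hz i
    simp only [Pi.zero_apply, Int.cast_zero, mul_eq_zero] at this
    exact this.resolve_left hd'
  · have h1 := hcast z
    rw [hz'] at h1
    have h2 : ((d : ℚ) • v) ⬝ᵥ ((A.map (Int.cast : ℤ → ℚ)) *ᵥ ((d : ℚ) • v)) = 0 := by
      rw [mulVec_smul, smul_dotProduct, dotProduct_smul]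
      rw [matB_apply] at hv
      rw [hv]; simp
    rw [h2] at h1
    exact_mod_cast h1.symm

end Crest.Agent.R235.LatW_283
end

-- ▼ part R235/LatC_283
section

/-!
Row 235, package LAT, file C: lattices (free `ℤ`-modules with a symmetric unimodular form),
splitting of unimodular sublattices, classification of odd indefinite unimodular lattices.
-/

open Module

namespace Crest.Agent.R235.LatC_283

open LinearMap (BilinForm)

variable {L : Type} [AddCommGroup L] {L' : Type} [AddCommGroup L'] {L'' : Type} [AddCommGroup L'']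

/-- symmetric -/
def Sy (B : BilinForm ℤ L) : Prop := ∀ x y, B x y = B y x

/-- unimodular -/
def Uni (B : BilinForm ℤ L) : Prop := Function.Bijective (fun x : L => (B x : L →ₗ[ℤ] ℤ))

/-- indefinite -/
def Indef (B : BilinForm ℤ L) : Prop := (∃ x, 0 < B x x) ∧ (∃ x, B x x < 0)

/-- isometric lattices -/
def IsoZ (B : BilinForm ℤ L) (B' : BilinForm ℤ L') : Prop :=
  ∃ e : L ≃ₗ[ℤ] L', ∀ x y, B' (e x) (e y) = B x y

lemma IsoZ.refl (B : BilinForm ℤ L) : IsoZ B B := ⟨LinearEquiv.refl ℤ L, fun _ _ => rfl⟩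

lemma IsoZ.symm {B : BilinForm ℤ L} {B' : BilinForm ℤ L'} (h : IsoZ B B') : IsoZ B' B := by
  obtain ⟨e, he⟩ := h
  exact ⟨e.symm, fun x y => by rw [← he]; simp⟩

lemma IsoZ.trans {B : BilinForm ℤ L} {B' : BilinForm ℤ L'} {B'' : BilinForm ℤ L''}
    (h : IsoZ B B') (h' : IsoZ B' B'') : IsoZ B B'' := by
  obtain ⟨e, he⟩ := h
  obtain ⟨f, hf⟩ := h'
  exact ⟨e.trans f, fun x y => by simp [hf, he]⟩

/-- orthogonal sum -/
def osum (B : BilinForm ℤ L) (B' : BilinForm ℤ L') : BilinForm ℤ (L × L') :=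
  LinearMap.mk₂ ℤ (fun x y => B x.1 y.1 + B' x.2 y.2)
    (by intros; simp; ring) (by intros; simp; ring)
    (by intros; simp; ring) (by intros; simp; ring)

@[simp] lemma osum_apply (B : BilinForm ℤ L) (B' : BilinForm ℤ L') (x y : L × L') :
    osum B B' x y = B x.1 y.1 + B' x.2 y.2 := rfl

lemma IsoZ.osum_congr {M M' : Type} [AddCommGroup M] [AddCommGroup M']
    {B : BilinForm ℤ L} {B' : BilinForm ℤ L'} {C : BilinForm ℤ M} {C' : BilinForm ℤ M'}
    (h : IsoZ B B') (h' : IsoZ C C') : IsoZ (osum B C) (osum B' C') := by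
  obtain ⟨e, he⟩ := h
  obtain ⟨f, hf⟩ := h'
  exact ⟨e.prodCongr f, fun x y => by simp [he, hf]⟩

lemma IsoZ.osum_comm (B : BilinForm ℤ L) (B' : BilinForm ℤ L') :
    IsoZ (osum B B') (osum B' B) :=
  ⟨LinearEquiv.prodComm ℤ L L', fun x y => by simp [add_comm]⟩

lemma IsoZ.osum_assoc (B : BilinForm ℤ L) (B' : BilinForm ℤ L') (B'' : BilinForm ℤ L'') :
    IsoZ (osum (osum B B') B'') (osum B (osum B' B'')) :=
  ⟨LinearEquiv.prodAssoc ℤ L L' L'', fun x y => by simp [add_assoc]⟩

lemma Sy.osum {B : BilinForm ℤ L} {B' : BilinForm ℤ L'} (h : Sy B) (h' : Sy B') :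
    Sy (LatC_283.osum B B') := fun x y => by simp [h x.1 y.1, h' x.2 y.2]

lemma Uni.osum {B : BilinForm ℤ L} {B' : BilinForm ℤ L'} (h : Uni B) (h' : Uni B') :
    Uni (LatC_283.osum B B') := by
  constructor
  · intro x y hxy
    ext
    · apply h.1
      ext z
      simpa using LinearMap.congr_fun hxy (z, 0)
    · apply h'.1
      ext z
      simpa using LinearMap.congr_fun hxy (0, z)
  · intro φ
    obtain ⟨a, ha⟩ := h.2 (φ ∘ₗ LinearMap.inl ℤ L L')
    obtain ⟨b, hb⟩ := h'.2 (φ ∘ₗ LinearMap.inr ℤ L L')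
    refine ⟨(a, b), ?_⟩
    ext z
    · have := LinearMap.congr_fun ha z
      simpa using this
    · have := LinearMap.congr_fun hb z
      simpa using this

lemma Sy.iso {B : BilinForm ℤ L} {B' : BilinForm ℤ L'} (h : Sy B) (e : IsoZ B B') : Sy B' := by
  obtain ⟨e, he⟩ := e.symm
  intro x y
  rw [← he, ← he, h]

lemma Uni.iso {B : BilinForm ℤ L} {B' : BilinForm ℤ L'} (h : Uni B) (e : IsoZ B B') : Uni B' := by
  obtain ⟨e, he⟩ := e
  constructor
  · intro x y hxy
    apply e.symm.injective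
    apply h.1
    ext z
    have := LinearMap.congr_fun hxy (e z)
    simp only at this
    rw [← e.apply_symm_apply x, ← e.apply_symm_apply y, he, he] at this
    simpa using this
  · intro φ
    obtain ⟨a, ha⟩ := h.2 (φ ∘ₗ (e : L →ₗ[ℤ] L'))
    refine ⟨e a, ?_⟩
    ext z
    have := LinearMap.congr_fun ha (e.symm z)
    simp only [LinearMap.comp_apply, LinearEquiv.coe_coe, LinearEquiv.apply_symm_apply] at this
    rw [← this, ← he, LinearEquiv.apply_symm_apply]

/-! ### splitting -/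

/-- restriction of a form to a submodule -/
def res (B : BilinForm ℤ L) (F : Submodule ℤ L) : BilinForm ℤ F :=
  B.compl₁₂ F.subtype F.subtype

@[simp] lemma res_apply (B : BilinForm ℤ L) (F : Submodule ℤ L) (x y : F) :
    res B F x y = B (x : L) (y : L) := rfl

/-- **Splitting of a unimodular sublattice.** -/
theorem split {M : Type} [AddCommGroup M] {BM : BilinForm ℤ M} (hM : Uni BM)
    {B : BilinForm ℤ L} (hs : Sy B) (hB : Uni B) (s : M →ₗ[ℤ] L)
    (h : ∀ a b, B (s a) (s b) = BM a b) :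
    ∃ F : Submodule ℤ L, Uni (res B F) ∧ IsoZ B (osum BM (res B F)) := by
  -- the inverse of BM
  let e : M ≃ₗ[ℤ] (M →ₗ[ℤ] ℤ) := LinearEquiv.ofBijective BM hM
  let α : L →ₗ[ℤ] M := e.symm.toLinearMap ∘ₗ (LinearMap.lcomp ℤ ℤ s) ∘ₗ B
  have hα : ∀ z b, BM (α z) b = B z (s b) := by
    intro z b
    have : e (α z) = (LinearMap.lcomp ℤ ℤ s) (B z) := by simp [α]
    have h2 := LinearMap.congr_fun this b
    exact h2
  have hαs : ∀ m, α (s m) = m := by
    intro m
    apply hM.1
    ext b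
    simp only
    rw [hα, h]
  refine ⟨LinearMap.ker α, ?_, ?_⟩
  · constructor
    · intro x y hxy
      apply Subtype.ext
      apply hB.1
      ext z
      have h1 : ∀ f : LinearMap.ker α, B (f : L) z = B (f : L) (z - s (α z)) := by
        intro f
        rw [map_sub, ← hα, LinearMap.mem_ker.1 f.2]
        simp
      have h2 : z - s (α z) ∈ LinearMap.ker α := by
        rw [LinearMap.mem_ker, map_sub, hαs, sub_self]
      have := LinearMap.congr_fun hxy ⟨_, h2⟩
      simp only [res_apply] at this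
      simp only
      rw [h1 x, h1 y, this]
    · intro φ
      let π : L →ₗ[ℤ] LinearMap.ker α :=
        (LinearMap.id - s ∘ₗ α).codRestrict _ (fun z => by
          rw [LinearMap.mem_ker]; simp [hαs])
      obtain ⟨w, hw⟩ := hB.2 (φ ∘ₗ π)
      refine ⟨π w, ?_⟩
      ext f
      have h1 : B ((π w : LinearMap.ker α) : L) (f : L) = B w f := by
        show B (w - s (α w)) (f : L) = B w f
        rw [map_sub, LinearMap.sub_apply, hs (s (α w)), ← hα, LinearMap.mem_ker.1 f.2]
        simp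
      have h2 : π (f : L) = f := by
        apply Subtype.ext
        show (f : L) - s (α (f : L)) = f
        rw [LinearMap.mem_ker.1 f.2]; simp
      have h3 := LinearMap.congr_fun hw (f : L)
      simp only [LinearMap.comp_apply, h2] at h3
      simp only [res_apply]
      rw [h1, h3]
  · refine IsoZ.symm ⟨{ toFun := fun x => s x.1 + (x.2 : L)
                        map_add' := fun x y => by simp; abel
                        map_smul' := fun c x => by simp
                        invFun := fun z => (α z, ⟨z - s (α z), by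
                          rw [LinearMap.mem_ker, map_sub, hαs, sub_self]⟩)
                        left_inv := fun x => ?_
                        right_inv := fun z => by simp }, fun x y => ?_⟩
    · have h1 : α (s x.1 + (x.2 : L)) = x.1 := by
        rw [map_add, hαs, LinearMap.mem_ker.1 x.2.2, add_zero]
      refine Prod.ext h1 (Subtype.ext ?_)
      simp only
      rw [h1]; abel
    · simp only [LinearEquiv.coe_mk, LinearMap.coe_mk, AddHom.coe_mk, map_add, LinearMap.add_apply,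
        osum_apply, res_apply, h]
      have h1 : B (x.2 : L) (s y.1) = 0 := by rw [← hα, LinearMap.mem_ker.1 x.2.2]; simp
      have h2 : B (s x.1) (y.2 : L) = 0 := by rw [hs, ← hα, LinearMap.mem_ker.1 y.2.2]; simp
      rw [h1, h2]; ring

end Crest.Agent.R235.LatC_283
end

-- ▼ part R235/LatO_283
section

/-!
Row 235, package LAT, file O: odd indefinite unimodular lattices are `<1>^p + <-1>^q`.
-/

open Module

namespace Crest.Agent.R235.LatO_283

open LinearMap (BilinForm)
open LatC_283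
open Matrix

variable {L : Type} [AddCommGroup L] {L' : Type} [AddCommGroup L'] {L'' : Type} [AddCommGroup L'']

/-- Gram matrix -/
def gram {n : Type} (B : BilinForm ℤ L) (b : n → L) : Matrix n n ℤ :=
  Matrix.of fun i j => B (b i) (b j)

lemma gram_unit {n : Type} [Fintype n] [DecidableEq n] {B : BilinForm ℤ L} (hB : Uni B)
    (b : Basis n ℤ L) : IsUnit (gram B b).det := by
  have h : ∀ j, ∃ w, B w = b.coord j := fun j => hB.2 (b.coord j)
  choose w hw using h
  let C : Matrix n n ℤ := Matrix.of fun j i => b.repr (w j) i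
  have h1 : C * gram B b = 1 := by
    ext j k
    rw [Matrix.mul_apply]
    have h2 : B (w j) (b k) = b.coord j (b k) := by rw [hw]
    rw [← b.sum_repr (w j)] at h2
    simp only [map_sum, LinearMap.sum_apply, map_smul, LinearMap.smul_apply, smul_eq_mul] at h2
    simp only [C, gram, Matrix.of_apply]
    rw [h2, Basis.coord_apply, Basis.repr_self, Finsupp.single_apply, Matrix.one_apply]
    simp [eq_comm]
  have h2 := congrArg Matrix.det h1
  rw [det_mul, det_one] at h2
  exact IsUnit.of_mul_eq_one_right _ h2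

lemma gram_apply_sum {n : Type} [Fintype n] (B : BilinForm ℤ L) (b : n → L) (v w : n → ℤ) :
    B (∑ i, v i • b i) (∑ i, w i • b i) = v ⬝ᵥ ((gram B b) *ᵥ w) := by
  simp only [map_sum, LinearMap.sum_apply, map_smul, LinearMap.smul_apply, smul_eq_mul,
    dotProduct, mulVec, gram, Matrix.of_apply, Finset.mul_sum]
  rw [Finset.sum_comm]
  refine Finset.sum_congr rfl fun i _ => Finset.sum_congr rfl fun j _ => by ring

/-- isotropic vectors, module form -/
lemma exists_isotropic [Module.Free ℤ L] [Module.Finite ℤ L] {B : BilinForm ℤ L} (hs : Sy B)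
    (hB : Uni B) (hi : Indef B) : ∃ v, v ≠ 0 ∧ B v v = 0 := by
  classical
  let b := Module.finBasis ℤ L
  obtain ⟨⟨x, hx⟩, ⟨y, hy⟩⟩ := hi
  have hrep : ∀ z : L, B z z = (b.repr z) ⬝ᵥ ((gram B b) *ᵥ (b.repr z)) := by
    intro z
    rw [← gram_apply_sum, b.sum_repr]
  obtain ⟨v, hv0, hv⟩ := LatW_283.iso (gram B b) (by
      ext i j; simp only [gram, Matrix.transpose_apply, Matrix.of_apply]; exact hs _ _)
    (gram_unit hB b) ⟨b.repr x, by rw [← hrep]; exact hx⟩ ⟨b.repr y, by rw [← hrep]; exact hy⟩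
  refine ⟨∑ i, v i • b i, ?_, ?_⟩
  · intro h
    apply hv0
    ext i
    exact Fintype.linearIndependent_iff.1 b.linearIndependent v h i
  · rw [gram_apply_sum, hv]

/-- primitive isotropic vector with a dual vector -/
lemma exists_prim [Module.Free ℤ L] [Module.Finite ℤ L] {B : BilinForm ℤ L} (hs : Sy B)
    (hB : Uni B) (hi : Indef B) : ∃ x y, B x x = 0 ∧ B x y = 1 := by
  obtain ⟨v, hv0, hv⟩ := exists_isotropic hs hB hi
  obtain ⟨g, hg⟩ := (IsPrincipalIdealRing.principal (LinearMap.range (B v)) : (LinearMap.range (B v)).IsPrincipal)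
  have hgd : ∀ z, g ∣ B v z := by
    intro z
    have : B v z ∈ LinearMap.range (B v) := ⟨z, rfl⟩
    rw [hg] at this
    exact Ideal.mem_span_singleton.1 this
  obtain ⟨y, hy⟩ : g ∈ LinearMap.range (B v) := by
    rw [hg]; exact Submodule.mem_span_singleton_self g
  have hg0 : g ≠ 0 := by
    intro h
    apply hv0
    apply hB.1
    ext z
    have := hgd z
    rw [h, zero_dvd_iff] at this
    simpa using this
  let ψ : L →ₗ[ℤ] ℤ :=
    { toFun := fun z => B v z / g
      map_add' := fun a b => by rw [map_add, Int.add_ediv_of_dvd_left (hgd a)]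
      map_smul' := fun c a => by
        rw [map_smul, smul_eq_mul, Int.mul_ediv_assoc _ (hgd a)]; simp }
  have hψ : ∀ z, B v z = g * ψ z := fun z => (Int.mul_ediv_cancel' (hgd z)).symm
  obtain ⟨x, hx⟩ := hB.2 ψ
  have hvx : v = g • x := by
    apply hB.1
    ext z
    simp only [map_smul, LinearMap.smul_apply, smul_eq_mul]
    rw [hψ]
    congr 1
    exact (LinearMap.congr_fun hx z).symm
  refine ⟨x, y, ?_, ?_⟩
  · rw [hvx] at hv
    simp only [map_smul, LinearMap.smul_apply, smul_eq_mul] at hv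
    have := (mul_eq_zero.1 ((mul_eq_zero.1 hv).resolve_left hg0)).resolve_left hg0
    exact this
  · have h1 := hψ y
    rw [hy] at h1
    have h2 : ψ y = 1 := by
      have : g * 1 = g * ψ y := by rw [mul_one]; exact h1
      exact (mul_left_cancel₀ hg0 this).symm
    rw [← h2]
    exact LinearMap.congr_fun hx y

/-- rank one form -/
def one (ε : ℤ) : BilinForm ℤ ℤ := ε • LinearMap.mul ℤ ℤ

@[simp] lemma one_apply (ε x y : ℤ) : one ε x y = ε * (x * y) := rfl

/-- diagonal form -/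
def dg (n : ℕ) (ε : ℤ) : BilinForm ℤ (Fin n → ℤ) :=
  LinearMap.mk₂ ℤ (fun x y => ε * ∑ i, x i * y i)
    (by intros; simp [add_mul, Finset.sum_add_distrib, mul_add])
    (by intros; simp [Finset.mul_sum]; exact Finset.sum_congr rfl fun i _ => by ring)
    (by intros; simp [mul_add, Finset.sum_add_distrib])
    (by intros; simp [Finset.mul_sum]; exact Finset.sum_congr rfl fun i _ => by ring)

@[simp] lemma dg_apply (n : ℕ) (ε : ℤ) (x y : Fin n → ℤ) : dg n ε x y = ε * ∑ i, x i * y i := rfl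

lemma dg_succ (n : ℕ) (ε : ℤ) : IsoZ (osum (one ε) (dg n ε)) (dg (n + 1) ε) := by
  refine ⟨Fin.consLinearEquiv ℤ (fun _ : Fin (n + 1) => ℤ), fun x y => ?_⟩
  simp [Fin.sum_univ_succ]
  ring

/-- the standard odd form -/
def Ipq (p q : ℕ) : BilinForm ℤ ((Fin p → ℤ) × (Fin q → ℤ)) := osum (dg p 1) (dg q (-1))

lemma Ipq_succ_left (p q : ℕ) : IsoZ (osum (one 1) (Ipq p q)) (Ipq (p + 1) q) :=
  (IsoZ.osum_assoc _ _ _).symm.trans (IsoZ.osum_congr (dg_succ p 1) (IsoZ.refl _))

lemma Ipq_succ_right (p q : ℕ) : IsoZ (osum (one (-1)) (Ipq p q)) (Ipq p (q + 1)) := by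
  refine (IsoZ.osum_comm _ _).trans ((IsoZ.osum_assoc _ _ _).trans (IsoZ.osum_congr (IsoZ.refl _) ?_))
  exact (IsoZ.osum_comm _ _).trans (dg_succ q (-1))

lemma one_uni {ε : ℤ} (h : ε * ε = 1) : Uni (one ε) := by
  have h0 : ε ≠ 0 := by rintro rfl; simp at h
  constructor
  · intro x y hxy
    have := LinearMap.congr_fun hxy 1
    simpa [h0] using this
  · intro φ
    refine ⟨ε * φ 1, ?_⟩
    ext
    simp only [one_apply, mul_one]
    rw [← mul_assoc, h, one_mul]

lemma one_sy (ε : ℤ) : Sy (one ε) := fun x y => by simp [mul_comm]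

/-- splitting off `<1> + <-1>` from an odd indefinite unimodular lattice -/
lemma odd_split [Module.Free ℤ L] [Module.Finite ℤ L] {B : BilinForm ℤ L} (hs : Sy B)
    (hB : Uni B) (hi : Indef B) (ho : ∃ t, ¬ Even (B t t)) :
    ∃ F : Submodule ℤ L, Uni (res B F) ∧ IsoZ B (osum (osum (one 1) (one (-1))) (res B F)) := by
  obtain ⟨x, y, hxx, hxy⟩ := exists_prim hs hB hi
  -- make `y.y` odd
  obtain ⟨y, hxy, hyy⟩ : ∃ y, B x y = 1 ∧ ¬ Even (B y y) := by
    by_cases hy : Even (B y y)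
    · obtain ⟨t, ht⟩ := ho
      refine ⟨t + (1 - B x t) • y, ?_, ?_⟩
      · simp [hxy]
      · have e : B (t + (1 - B x t) • y) (t + (1 - B x t) • y) =
            B t t + 2 * ((1 - B x t) * B t y) + (1 - B x t) ^ 2 * B y y := by
          simp only [map_add, map_smul, LinearMap.add_apply, LinearMap.smul_apply, smul_eq_mul]
          rw [hs y t]; ring
        rw [e]
        intro h
        apply ht
        have h2 : Even ((1 - B x t) ^ 2 * B y y) := hy.mul_left _
        have h3 : Even (2 * ((1 - B x t) * B t y)) := even_two_mul _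
        rw [Int.even_add, Int.even_add] at h
        tauto
    · exact ⟨y, hxy, hy⟩
  obtain ⟨m, hm⟩ := Int.not_even_iff_odd.1 hyy
  have hyx : B y x = 1 := by rw [hs]; exact hxy
  set e₁ := y - m • x with he₁
  set e₂ := x - e₁ with he₂
  have h11 : B e₁ e₁ = 1 := by
    simp only [he₁, map_sub, map_smul, LinearMap.sub_apply, LinearMap.smul_apply, smul_eq_mul,
      hxx, hxy, hyx, hm]; ring
  have hx1 : B x e₁ = 1 := by
    simp only [he₁, map_sub, map_smul, smul_eq_mul, hxx, hxy]; ring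
  have h1x : B e₁ x = 1 := by rw [hs]; exact hx1
  have h22 : B e₂ e₂ = -1 := by
    simp only [he₂, map_sub, LinearMap.sub_apply, hxx, hx1, h1x, h11]; ring
  have h12 : B e₁ e₂ = 0 := by simp only [he₂, map_sub, h1x, h11]; ring
  have h21 : B e₂ e₁ = 0 := by rw [hs]; exact h12
  let s : ℤ × ℤ →ₗ[ℤ] L := (LinearMap.toSpanSingleton ℤ L e₁).coprod (LinearMap.toSpanSingleton ℤ L e₂)
  have hsa : ∀ a, s a = a.1 • e₁ + a.2 • e₂ := fun a => by simp [s]
  refine split (BM := osum (one 1) (one (-1)))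
    ((one_uni (by norm_num)).osum (one_uni (by norm_num))) hs hB s fun a b => ?_
  rw [hsa, hsa]
  simp only [map_add, map_smul, LinearMap.add_apply, LinearMap.smul_apply, smul_eq_mul, h11, h22,
    h12, h21, osum_apply, one_apply]
  ring

/-- a nonzero unimodular lattice has a vector of nonzero norm -/
lemma exists_norm_ne [Nontrivial L] {B : BilinForm ℤ L} (hs : Sy B) (hB : Uni B) :
    ∃ f, B f f ≠ 0 := by
  by_contra hcon
  push Not at hcon
  obtain ⟨x, hx⟩ := exists_ne (0 : L)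
  apply hx
  apply hB.1
  ext y
  have h1 := hcon (x + y)
  simp only [map_add, LinearMap.add_apply, hcon x, hcon y] at h1
  have := hs x y
  simp only [map_zero, LinearMap.zero_apply]
  omega

/-- **Odd indefinite unimodular lattices.** -/
theorem odd_class (n : ℕ) : ∀ (L : Type) [AddCommGroup L] [Module.Free ℤ L] [Module.Finite ℤ L]
    (B : BilinForm ℤ L), finrank ℤ L = n → Sy B → Uni B → Indef B → (∃ t, ¬ Even (B t t)) →
    ∃ p q : ℕ, IsoZ B (Ipq p q) := by
  induction n using Nat.strong_induction_on with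
  | _ n ih =>
    intro L _ _ _ B hn hs hB hi ho
    obtain ⟨F, hF, hiso⟩ := odd_split hs hB hi ho
    have hrank : finrank ℤ L = 2 + finrank ℤ F := by
      obtain ⟨e, -⟩ := hiso
      rw [e.finrank_eq, finrank_prod, finrank_prod, finrank_self]
    have hFs : Sy (res B F) := fun x y => hs _ _
    rcases subsingleton_or_nontrivial F with hsub | hnon
    · refine ⟨1, 1, hiso.trans ?_⟩
      refine ⟨{ toFun := fun x => (fun _ => x.1.1, fun _ => x.1.2)
                map_add' := fun x y => rfl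
                map_smul' := fun c x => rfl
                invFun := fun x => ((x.1 0, x.2 0), 0)
                left_inv := fun x => Prod.ext rfl (Subsingleton.elim _ _)
                right_inv := fun x => by
                  refine Prod.ext (funext fun i => ?_) (funext fun i => ?_) <;>
                    rw [Subsingleton.elim i 0] }, fun x y => ?_⟩
      have h0 : (x.2 : L) = 0 := by rw [Subsingleton.elim x.2 0]; rfl
      simp [Ipq, h0]
    · obtain ⟨f, hf⟩ := exists_norm_ne hFs hF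
      rcases lt_or_gt_of_ne hf with hf | hf
      · -- negative: `<1> + F` indefinite
        obtain ⟨p, q, h1⟩ := ih (1 + finrank ℤ F) (by omega) (ℤ × F) (osum (one 1) (res B F))
          (by rw [finrank_prod, finrank_self]) ((one_sy 1).osum hFs)
          ((one_uni (by norm_num)).osum hF)
          ⟨⟨(1, 0), by simp⟩, ⟨(0, f), by simpa using hf⟩⟩ ⟨(1, 0), by simp⟩
        refine ⟨p, q + 1, hiso.trans ?_⟩
        refine IsoZ.trans ?_ (Ipq_succ_right p q)
        refine IsoZ.trans ?_ (IsoZ.osum_congr (IsoZ.refl _) h1)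
        exact (IsoZ.osum_congr (IsoZ.osum_comm _ _) (IsoZ.refl _)).trans (IsoZ.osum_assoc _ _ _)
      · obtain ⟨p, q, h1⟩ := ih (1 + finrank ℤ F) (by omega) (ℤ × F) (osum (one (-1)) (res B F))
          (by rw [finrank_prod, finrank_self]) ((one_sy (-1)).osum hFs)
          ((one_uni (by norm_num)).osum hF)
          ⟨⟨(0, f), by simpa using hf⟩, ⟨(1, 0), by simp⟩⟩ ⟨(1, 0), by simp⟩
        refine ⟨p + 1, q, hiso.trans ?_⟩
        refine IsoZ.trans ?_ (Ipq_succ_left p q)
        refine IsoZ.trans ?_ (IsoZ.osum_congr (IsoZ.refl _) h1)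
        exact IsoZ.osum_assoc _ _ _

end Crest.Agent.R235.LatO_283
end

-- ▼ part R235/LatE_283

/-!
Row 235, package LAT, file E: even indefinite unimodular lattices with the same rank and the same
positive index are isometric.
-/

open Module

namespace Crest.Agent.R235.LatE_283

open LinearMap (BilinForm)
open LatC_283 LatO_283

variable {L : Type} [AddCommGroup L] {L' : Type} [AddCommGroup L'] {L'' : Type} [AddCommGroup L'']

/-- there are `k` vectors spanning a positive definite sublattice of rank `k` -/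
def Pos (B : BilinForm ℤ L) (k : ℕ) : Prop :=
  ∃ f : Fin k → L, ∀ c : Fin k → ℤ, c ≠ 0 → 0 < B (∑ i, c i • f i) (∑ i, c i • f i)

lemma Pos.map {B : BilinForm ℤ L} {B' : BilinForm ℤ L'} (T : L →ₗ[ℤ] L') {m : ℤ} (hm : 0 < m)
    (h : ∀ x, B' (T x) (T x) = m * B x x) {k : ℕ} (hk : Pos B k) : Pos B' k := by
  obtain ⟨f, hf⟩ := hk
  refine ⟨fun i => T (f i), fun c hc => ?_⟩
  have : ∑ i, c i • T (f i) = T (∑ i, c i • f i) := by simp
  rw [this, h]
  exact mul_pos hm (hf c hc)

lemma Pos.iso {B : BilinForm ℤ L} {B' : BilinForm ℤ L'} (e : IsoZ B B') {k : ℕ} :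
    Pos B k ↔ Pos B' k := by
  constructor
  · intro h
    obtain ⟨e, he⟩ := e
    exact h.map (e : L →ₗ[ℤ] L') one_pos (fun x => by simp [he])
  · intro h
    obtain ⟨e, he⟩ := e.symm
    exact h.map (e : L' →ₗ[ℤ] L) one_pos (fun x => by simp [he])

/-- hyperbolic plane -/
def U : BilinForm ℤ (ℤ × ℤ) :=
  LinearMap.mk₂ ℤ (fun x y => x.1 * y.2 + x.2 * y.1)
    (by intros; simp; ring) (by intros; simp; ring)
    (by intros; simp; ring) (by intros; simp; ring)

@[simp] lemma U_apply (x y : ℤ × ℤ) : U x y = x.1 * y.2 + x.2 * y.1 := rfl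

lemma U_uni : Uni U := by
  constructor
  · intro x y hxy
    have h1 := LinearMap.congr_fun hxy (1, 0)
    have h2 := LinearMap.congr_fun hxy (0, 1)
    ext
    · simpa using h2
    · simpa using h1
  · intro φ
    refine ⟨(φ (0, 1), φ (1, 0)), ?_⟩
    ext <;> simp

lemma U_sy : Sy U := fun x y => by simp; ring

/-- `<1> + <-1>` -/
def H1 : BilinForm ℤ (ℤ × ℤ) := osum (one 1) (one (-1))

@[simp] lemma H1_apply (x y : ℤ × ℤ) : H1 x y = x.1 * y.1 - x.2 * y.2 := by
  simp [H1]; ring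

lemma H1_uni : Uni H1 := (one_uni (by norm_num)).osum (one_uni (by norm_num))

lemma H1_sy : Sy H1 := (one_sy 1).osum (one_sy (-1))

/-- splitting off `U` from an even indefinite unimodular lattice -/
lemma even_split [Module.Free ℤ L] [Module.Finite ℤ L] {B : BilinForm ℤ L} (hs : Sy B)
    (hB : Uni B) (hi : Indef B) (he : ∀ t, Even (B t t)) :
    ∃ F : Submodule ℤ L, Uni (res B F) ∧ IsoZ B (osum U (res B F)) := by
  obtain ⟨x, y, hxx, hxy⟩ := exists_prim hs hB hi
  obtain ⟨m, hm⟩ := he y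
  have hyx : B y x = 1 := by rw [hs]; exact hxy
  set e₂ := y - m • x with he₂
  have h22 : B e₂ e₂ = 0 := by
    simp only [he₂, map_sub, map_smul, LinearMap.sub_apply, LinearMap.smul_apply, smul_eq_mul,
      hxx, hxy, hyx, hm]; ring
  have h12 : B x e₂ = 1 := by simp only [he₂, map_sub, map_smul, smul_eq_mul, hxx, hxy]; ring
  have h21 : B e₂ x = 1 := by rw [hs]; exact h12
  let s : ℤ × ℤ →ₗ[ℤ] L := (LinearMap.toSpanSingleton ℤ L x).coprod (LinearMap.toSpanSingleton ℤ L e₂)
  have hsa : ∀ a, s a = a.1 • x + a.2 • e₂ := fun a => by simp [s]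
  refine split (BM := U) U_uni hs hB s fun a b => ?_
  rw [hsa, hsa]
  simp only [map_add, map_smul, LinearMap.add_apply, LinearMap.smul_apply, smul_eq_mul, hxx, h22,
    h12, h21, U_apply]
  ring

/-! ### positive index of the standard odd form -/

lemma pos_Ipq (p q : ℕ) : Pos (Ipq p q) p := by
  classical
  refine ⟨fun i => (Pi.single i 1, 0), fun c hc => ?_⟩
  have h1 : (∑ i, c i • ((Pi.single i 1, 0) : (Fin p → ℤ) × (Fin q → ℤ))) = (c, 0) := by
    refine Prod.ext ?_ ?_
    · rw [Prod.fst_sum]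
      ext j
      simp [Finset.sum_apply, Pi.single_apply]
    · rw [Prod.snd_sum]; simp
  rw [h1]
  simp only [Ipq, osum_apply, dg_apply, one_mul, Pi.zero_apply, mul_zero, Finset.sum_const_zero,
    add_zero]
  obtain ⟨i, hi⟩ := Function.ne_iff.1 hc
  refine Finset.sum_pos' (fun j _ => mul_self_nonneg _) ⟨i, Finset.mem_univ i, ?_⟩
  exact mul_self_pos.2 hi

lemma le_of_pos_Ipq {p q k : ℕ} (h : Pos (Ipq p q) k) : k ≤ p := by
  obtain ⟨f, hf⟩ := h
  by_contra hlt
  push Not at hlt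
  have hdep : ¬ LinearIndependent ℤ (fun i => (f i).1) := by
    intro hli
    have := hli.fintype_card_le_finrank
    simp at this
    omega
  rw [Fintype.not_linearIndependent_iff] at hdep
  obtain ⟨c, hc, i, hi⟩ := hdep
  have h1 := hf c (fun h => hi (by rw [h]; rfl))
  have h2 : (∑ i, c i • f i).1 = 0 := by rw [Prod.fst_sum]; exact hc
  simp only [Ipq, osum_apply, dg_apply] at h1
  rw [h2] at h1
  simp only [Pi.zero_apply, mul_zero, Finset.sum_const_zero, zero_add, neg_mul, one_mul] at h1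
  have h3 : 0 ≤ ∑ j, (∑ i, c i • f i).2 j * (∑ i, c i • f i).2 j :=
    Finset.sum_nonneg fun j _ => mul_self_nonneg _
  linarith

/-! ### from `<1>+<-1>+F` to `U + F` -/

/-- the scaling map `U + F → H1 + F`, multiplies the form by 4 -/
def TU (F : Type) [AddCommGroup F] : (ℤ × ℤ) × F →ₗ[ℤ] (ℤ × ℤ) × F where
  toFun := fun x => ((x.1.1 + 2 * x.1.2, x.1.1 - 2 * x.1.2), (2 : ℤ) • x.2)
  map_add' := fun x y => by ext <;> simp <;> ring
  map_smul' := fun c x => by
    refine Prod.ext (Prod.ext ?_ ?_) ?_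
    · simp; ring
    · simp; ring
    · simp only [Prod.smul_snd, RingHom.id_apply]; rw [smul_comm]

lemma TU_apply (F : Type) [AddCommGroup F] (x : (ℤ × ℤ) × F) :
    TU F x = ((x.1.1 + 2 * x.1.2, x.1.1 - 2 * x.1.2), (2 : ℤ) • x.2) := rfl

lemma TU_form (B : BilinForm ℤ L) (x y : (ℤ × ℤ) × L) :
    osum H1 B (TU L x) (TU L y) = 4 * osum U B x y := by
  simp only [osum_apply, TU_apply, H1_apply, U_apply, map_smul, LinearMap.smul_apply, smul_eq_mul]
  ring

/-- the scaling map `H1 + F → U + F`, multiplies the form by 4 -/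
def TH (F : Type) [AddCommGroup F] : (ℤ × ℤ) × F →ₗ[ℤ] (ℤ × ℤ) × F where
  toFun := fun x => ((2 * (x.1.1 + x.1.2), x.1.1 - x.1.2), (2 : ℤ) • x.2)
  map_add' := fun x y => by ext <;> simp <;> ring
  map_smul' := fun c x => by
    refine Prod.ext (Prod.ext ?_ ?_) ?_
    · simp; ring
    · simp; ring
    · simp only [Prod.smul_snd, RingHom.id_apply]; rw [smul_comm]

lemma TH_apply (F : Type) [AddCommGroup F] (x : (ℤ × ℤ) × F) :
    TH F x = ((2 * (x.1.1 + x.1.2), x.1.1 - x.1.2), (2 : ℤ) • x.2) := rfl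

lemma TH_form (B : BilinForm ℤ L) (x y : (ℤ × ℤ) × L) :
    osum U B (TH L x) (TH L y) = 4 * osum H1 B x y := by
  simp only [osum_apply, TH_apply, H1_apply, U_apply, map_smul, LinearMap.smul_apply, smul_eq_mul]
  ring

lemma pos_U_iff (B : BilinForm ℤ L) (k : ℕ) : Pos (osum U B) k ↔ Pos (osum H1 B) k :=
  ⟨fun h => h.map (TU L) (by norm_num : (0 : ℤ) < 4) (fun x => TU_form B x x),
   fun h => h.map (TH L) (by norm_num : (0 : ℤ) < 4) (fun x => TH_form B x x)⟩

/-- image of `TU` -/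
lemma exists_TU {F : Type} [AddCommGroup F] {z : (ℤ × ℤ) × F} (h1 : (4 : ℤ) ∣ z.1.1 - z.1.2)
    (h2 : ∃ y, z.2 = (2 : ℤ) • y) : ∃ x, TU F x = z := by
  obtain ⟨v, hv⟩ := h1
  obtain ⟨y, hy⟩ := h2
  refine ⟨((z.1.1 - 2 * v, v), y), ?_⟩
  rw [TU_apply]
  refine Prod.ext (Prod.ext ?_ ?_) hy.symm
  · simp
  · simp only; omega

/-- a linear isometric embedding between unimodular lattices of the same rank is bijective -/
lemma iso_of_embed [Module.Free ℤ L'] [Module.Finite ℤ L'] {B : BilinForm ℤ L}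
    {B' : BilinForm ℤ L'} (hB : Uni B) (hs' : Sy B') (hB' : Uni B') (hr : finrank ℤ L = finrank ℤ L')
    [Module.Free ℤ L] [Module.Finite ℤ L]
    (T : L →ₗ[ℤ] L') (h : ∀ x y, B' (T x) (T y) = B x y) : IsoZ B B' := by
  obtain ⟨F, hF, hiso⟩ := split hB hs' hB' T h
  have h0 : finrank ℤ F = 0 := by
    obtain ⟨e, -⟩ := hiso
    have := e.finrank_eq
    rw [finrank_prod] at this
    omega
  have hsub : Subsingleton F := Module.finrank_zero_iff.1 h0
  refine IsoZ.trans ?_ hiso.symm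
  exact ⟨{ toFun := fun x => (x, 0)
           map_add' := fun x y => by simp
           map_smul' := fun c x => by simp
           invFun := fun x => x.1
           left_inv := fun x => rfl
           right_inv := fun x => Prod.ext rfl (Subsingleton.elim _ _) }, fun x y => by simp⟩

/-- neighbour step -/
theorem U_of_H1 {F F' : Type} [AddCommGroup F] [AddCommGroup F'] [Module.Free ℤ F]
    [Module.Finite ℤ F] [Module.Free ℤ F'] [Module.Finite ℤ F']
    {B : BilinForm ℤ F} {B' : BilinForm ℤ F'} (hs : Sy B) (hB : Uni B) (hs' : Sy B') (hB' : Uni B')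
    (he : ∀ t, Even (B t t)) (he' : ∀ t, Even (B' t t))
    (h : IsoZ (osum H1 B) (osum H1 B')) : IsoZ (osum U B) (osum U B') := by
  obtain ⟨g, hg⟩ := h
  have hr : finrank ℤ ((ℤ × ℤ) × F) = finrank ℤ ((ℤ × ℤ) × F') := g.finrank_eq
  -- parity functional
  have hpar : ∀ z : (ℤ × ℤ) × F', (2 : ℤ) ∣ osum H1 B' z z - (z.1.1 - z.1.2) := by
    intro z
    obtain ⟨k, hk⟩ := he' z.2
    obtain ⟨a, ha⟩ := Int.even_mul_pred_self z.1.1
    obtain ⟨b, hb⟩ := Int.even_mul_pred_self z.1.2
    refine ⟨a - b + k, ?_⟩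
    simp only [osum_apply, H1_apply, hk]
    linarith
  have hpar1 : ∀ z : (ℤ × ℤ) × F, (2 : ℤ) ∣ osum H1 B z z - (z.1.1 - z.1.2) := by
    intro z
    obtain ⟨k, hk⟩ := he z.2
    obtain ⟨a, ha⟩ := Int.even_mul_pred_self z.1.1
    obtain ⟨b, hb⟩ := Int.even_mul_pred_self z.1.2
    refine ⟨a - b + k, ?_⟩
    simp only [osum_apply, H1_apply, hk]
    linarith
  -- image of the characteristic vector
  set c := g ((1, 1), 0) with hc
  have hchar : ∀ z, (2 : ℤ) ∣ osum H1 B' (c - ((1, 1), 0)) z := by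
    intro z
    have h1 : osum H1 B' c z = osum H1 B ((1, 1), 0) (g.symm z) := by
      rw [hc, ← hg, LinearEquiv.apply_symm_apply]
    have h2 := hpar1 (g.symm z)
    have h3 := hpar z
    have h4 : osum H1 B' z z = osum H1 B (g.symm z) (g.symm z) := by
      rw [← hg, LinearEquiv.apply_symm_apply]
    have h5 : osum H1 B ((1, 1), 0) (g.symm z) = (g.symm z).1.1 - (g.symm z).1.2 := by simp
    have h6 : osum H1 B' ((1, 1), 0) z = z.1.1 - z.1.2 := by simp
    rw [map_sub, LinearMap.sub_apply, h1, h5, h6]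
    rw [← h4] at h2
    obtain ⟨a, ha⟩ := h2
    obtain ⟨b, hb⟩ := h3
    exact ⟨b - a, by linarith⟩
  have hU' : Uni (osum H1 B') := H1_uni.osum hB'
  have hS' : Sy (osum H1 B') := H1_sy.osum hs'
  obtain ⟨w, hw⟩ : ∃ w, c - ((1, 1), 0) = (2 : ℤ) • w := by
    let ψ : (ℤ × ℤ) × F' →ₗ[ℤ] ℤ :=
      { toFun := fun z => osum H1 B' (c - ((1, 1), 0)) z / 2
        map_add' := fun a b => by rw [map_add, Int.add_ediv_of_dvd_left (hchar a)]
        map_smul' := fun r a => by
          rw [map_smul, smul_eq_mul, Int.mul_ediv_assoc _ (hchar a)]; simp }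
    obtain ⟨w, hw⟩ := hU'.2 ψ
    refine ⟨w, ?_⟩
    apply hU'.1
    refine LinearMap.ext fun z => ?_
    have h1 : osum H1 B' w z = osum H1 B' (c - ((1, 1), 0)) z / 2 := LinearMap.congr_fun hw z
    simp only [map_smul, LinearMap.smul_apply, smul_eq_mul]
    rw [h1, Int.mul_ediv_cancel' (hchar z)]
  have hcw : c = ((1 + 2 * w.1.1, 1 + 2 * w.1.2), (2 : ℤ) • w.2) := by
    have : c = ((1, 1), 0) + (2 : ℤ) • w := by rw [← hw]; abel
    rw [this]
    refine Prod.ext (Prod.ext ?_ ?_) ?_ <;> simp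
  -- general image
  have hgen : ∀ x : (ℤ × ℤ) × F, ∃ e : (ℤ × ℤ) × F', (2 : ℤ) ∣ e.1.1 - e.1.2 ∧
      g (TU F x) = x.1.1 • c + (2 : ℤ) • e := by
    intro x
    refine ⟨g ((x.1.2, -x.1.2), x.2), ?_, ?_⟩
    · have h1 := hpar (g ((x.1.2, -x.1.2), x.2))
      rw [hg] at h1
      obtain ⟨k, hk⟩ := he x.2
      simp only [osum_apply, H1_apply, hk] at h1
      obtain ⟨r, hr⟩ := h1
      exact ⟨k - r, by linarith⟩
    · rw [hc, ← map_smul, ← map_smul, ← map_add]
      congr 1
      rw [TU_apply]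
      refine Prod.ext (Prod.ext ?_ ?_) ?_
      · simp
      · simp; ring
      · simp
  -- reflection of the second coordinate
  let ρ : ((ℤ × ℤ) × F') ≃ₗ[ℤ] ((ℤ × ℤ) × F') :=
    { toFun := fun x => ((x.1.1, -x.1.2), x.2)
      map_add' := fun x y => by
        refine Prod.ext (Prod.ext ?_ ?_) ?_ <;> simp; ring
      map_smul' := fun r x => by
        refine Prod.ext (Prod.ext ?_ ?_) ?_ <;> simp
      invFun := fun x => ((x.1.1, -x.1.2), x.2)
      left_inv := fun x => by simp
      right_inv := fun x => by simp }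
  have hρ : ∀ x y, osum H1 B' (ρ x) (ρ y) = osum H1 B' x y := fun x y => by
    simp only [osum_apply, H1_apply, ρ, LinearEquiv.coe_mk, LinearMap.coe_mk, AddHom.coe_mk]
    ring
  -- choose the right isometry
  obtain ⟨g', hg', him⟩ : ∃ g' : ((ℤ × ℤ) × F) ≃ₗ[ℤ] ((ℤ × ℤ) × F'),
      (∀ x y, osum H1 B' (g' x) (g' y) = osum H1 B x y) ∧ ∀ x, ∃ y, TU F' y = g' (TU F x) := by
    rcases Int.even_or_odd (w.1.1 - w.1.2) with hev | hodd
    · refine ⟨g, hg, fun x => exists_TU ?_ ?_⟩
      · obtain ⟨e, he1, he2⟩ := hgen x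
        obtain ⟨r, hr⟩ := hev
        obtain ⟨r', hr'⟩ := he1
        rw [he2, hcw]
        simp only [Prod.fst_add, Prod.snd_add, Prod.smul_fst, Prod.smul_snd, smul_eq_mul]
        refine ⟨x.1.1 * r + r', ?_⟩
        have e1 : w.1.1 = r + r + w.1.2 := by omega
        have e2 : e.1.1 = 2 * r' + e.1.2 := by omega
        rw [e1, e2]; ring
      · obtain ⟨e, -, he2⟩ := hgen x
        refine ⟨x.1.1 • w.2 + e.2, ?_⟩
        rw [he2, hcw]
        simp only [Prod.snd_add, Prod.smul_snd, smul_add]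
        rw [smul_comm]
    · refine ⟨g.trans ρ, fun x y => by simp only [LinearEquiv.trans_apply]; rw [hρ, hg],
        fun x => exists_TU ?_ ?_⟩
      · obtain ⟨e, he1, he2⟩ := hgen x
        obtain ⟨r, hr⟩ := hodd
        obtain ⟨r', hr'⟩ := he1
        rw [LinearEquiv.trans_apply, he2, hcw]
        simp only [ρ, LinearEquiv.coe_mk, LinearMap.coe_mk, AddHom.coe_mk, Prod.fst_add,
          Prod.snd_add, Prod.smul_fst, Prod.smul_snd, smul_eq_mul]
        refine ⟨x.1.1 * (r + 1 + w.1.2) + r' + e.1.2, ?_⟩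
        have e1 : w.1.1 = 2 * r + 1 + w.1.2 := by omega
        have e2 : e.1.1 = 2 * r' + e.1.2 := by omega
        rw [e1, e2]; ring
      · obtain ⟨e, -, he2⟩ := hgen x
        refine ⟨x.1.1 • w.2 + e.2, ?_⟩
        rw [LinearEquiv.trans_apply, he2, hcw]
        simp only [ρ, LinearEquiv.coe_mk, LinearMap.coe_mk, AddHom.coe_mk, Prod.snd_add,
          Prod.smul_snd, smul_add]
        rw [smul_comm]
  -- divide
  have hinj : Function.Injective (TU F') := by
    intro x y hxy
    have h1 := TU_form B' x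
    apply (U_uni.osum hB').1
    refine LinearMap.ext fun z => ?_
    have h2 := TU_form B' x z
    have h3 := TU_form B' y z
    rw [hxy, h3] at h2
    simp only
    omega
  choose k hk using him
  let T : ((ℤ × ℤ) × F) →ₗ[ℤ] ((ℤ × ℤ) × F') :=
    { toFun := k
      map_add' := fun x y => hinj (by rw [hk, map_add, map_add, map_add, hk, hk])
      map_smul' := fun r x => hinj (by rw [hk, map_smul, map_smul, RingHom.id_apply, map_smul, hk]) }
  refine iso_of_embed (U_uni.osum hB) (U_sy.osum hs') (U_uni.osum hB') hr T fun x y => ?_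
  have h1 := TU_form B' (k x) (k y)
  rw [hk, hk, hg', TU_form] at h1
  show osum U B' (k x) (k y) = _
  omega

/-- **Even indefinite unimodular lattices are determined by rank and positive index.** -/
theorem even_class (L L' : Type) [AddCommGroup L] [Module.Free ℤ L] [Module.Finite ℤ L]
    [AddCommGroup L'] [Module.Free ℤ L'] [Module.Finite ℤ L']
    (B : BilinForm ℤ L) (B' : BilinForm ℤ L') (hs : Sy B) (hB : Uni B) (hi : Indef B)
    (he : ∀ t, Even (B t t)) (hs' : Sy B') (hB' : Uni B') (hi' : Indef B')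
    (he' : ∀ t, Even (B' t t)) (hr : finrank ℤ L = finrank ℤ L') (hp : ∀ k, Pos B k ↔ Pos B' k) :
    IsoZ B B' := by
  obtain ⟨F, hF, h1⟩ := even_split hs hB hi he
  obtain ⟨F', hF', h1'⟩ := even_split hs' hB' hi' he'
  have hFs : Sy (res B F) := fun x y => hs _ _
  have hFs' : Sy (res B' F') := fun x y => hs' _ _
  have r1 : finrank ℤ L = 2 + finrank ℤ F := by
    obtain ⟨e, -⟩ := h1
    rw [e.finrank_eq, finrank_prod, finrank_prod, finrank_self]
  have r2 : finrank ℤ L' = 2 + finrank ℤ F' := by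
    obtain ⟨e, -⟩ := h1'
    rw [e.finrank_eq, finrank_prod, finrank_prod, finrank_self]
  obtain ⟨p, q, h2⟩ := odd_class _ ((ℤ × ℤ) × F) (osum H1 (res B F)) rfl (H1_sy.osum hFs)
    (H1_uni.osum hF) ⟨⟨((1, 0), 0), by simp⟩, ⟨((0, 1), 0), by simp⟩⟩ ⟨((1, 0), 0), by simp⟩
  obtain ⟨p', q', h2'⟩ := odd_class _ ((ℤ × ℤ) × F') (osum H1 (res B' F')) rfl (H1_sy.osum hFs')
    (H1_uni.osum hF') ⟨⟨((1, 0), 0), by simp⟩, ⟨((0, 1), 0), by simp⟩⟩ ⟨((1, 0), 0), by simp⟩
  have hpp : ∀ k, Pos (Ipq p q) k ↔ Pos (Ipq p' q') k := fun k => by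
    rw [← Pos.iso h2, ← Pos.iso h2', ← pos_U_iff, ← pos_U_iff, ← Pos.iso h1, ← Pos.iso h1', hp]
  have e1 : p = p' := le_antisymm (le_of_pos_Ipq ((hpp p).1 (pos_Ipq p q)))
    (le_of_pos_Ipq ((hpp p').2 (pos_Ipq p' q')))
  have e2 : q = q' := by
    obtain ⟨e, -⟩ := h2
    obtain ⟨e', -⟩ := h2'
    have a1 := e.finrank_eq
    have a2 := e'.finrank_eq
    simp only [finrank_prod, finrank_self, finrank_pi, Fintype.card_fin] at a1 a2
    omega
  subst e1 e2
  have h3 : IsoZ (osum H1 (res B F)) (osum H1 (res B' F')) := h2.trans h2'.symm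
  have h4 := U_of_H1 hFs hF hFs' hF' (fun t => he _) (fun t => he' _) h3
  exact h1.trans (h4.trans h1'.symm)

end Crest.Agent.R235.LatE_283
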