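import Crest.Agent.R235.TauD_483
import Crest.Agent.R235.TauG_483

/-!
Row 235 (S0364), SW-TAU (helper483), part E: the complex line `P_E`, the connection one-form `β`,
and the translation of `∇^E` into `nab`.
-/

set_option autoImplicit false
set_option maxSynthPendingDepth 3
set_option linter.unusedSectionVars false

open scoped ContDiff ENNReal NNReal Topology Manifold Bundle RealInnerProductSpace
open MeasureTheory Set Filter Metric Bundle Matrix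

universe v

namespace Crest.Agent.R235.Tau483

open Crest.Agent.R240 Crest.Agent.R240.Ch Crest.Agent.R235.SWDefs_53 Crest.Agent.R235.IndTri_451
open Crest.Agent.R249.Tv57 (Dat OpPair SmF Spec)
open Crest.Agent.R247.Ms322 (Gr)
open Crest.Agent.R249.Vf281 (VSm mCov)
open Crest.Agent.R247.Bo84 (mgrad inner_mgrad)
open Crest.Agent.R249.Tz805 (ToF)

noncomputable section

variable {M : Type v} [MetricSpace M] [CompactSpace M] [ConnectedSpace M]
  [ChartedSpace (EuclideanSpace ℝ (Fin 4)) M] [IsManifold (𝓡 4) ∞ M]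
  [RiemannianBundle (fun p : M => TangentSpace (𝓡 4) p)]
  [IsContMDiffRiemannianBundle (𝓡 4) ∞ (EuclideanSpace ℝ (Fin 4))
    (fun p : M => TangentSpace (𝓡 4) p)]
  [IsRiemannianManifold (𝓡 4) M] [MeasurableSpace M] [BorelSpace M]
  [SecondCountableTopology M] [Nonempty M]
  {κ0 κ1 κT : Type} [Fintype κ0] [Fintype κ1] [Fintype κT]

/-! ### matrices at a point -/

/-- the projection `p`. -/
def Pm (S : SWS M κ0 κ1 κT) (z : M) : Matrix κ0 κ0 ℝ := fun y y' => S.D0.p y y' z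

/-- `J`. -/
def Jm (S : SWS M κ0 κ1 κT) (z : M) : Matrix κ0 κ0 ℝ := fun y y' => S.J y y' z

/-- `ρ_k`. -/
def Rm (S : SWS M κ0 κ1 κT) (z : M) (k : Fin 3) : Matrix κ0 κ0 ℝ := fun y y' => S.rho k y y' z

/-- `n`. -/
def nv (τ : TD M κT) (z : M) (k : Fin 3) : ℝ := τ.n k z

/-- the values of a section. -/
def sv (s : κ0 → M → ℝ) (z : M) (y : κ0) : ℝ := s y z

/-- `Π₀`. -/
def P0f (τ : TD M κT) (S : SWS M κ0 κ1 κT) (z : M) : Matrix κ0 κ0 ℝ := P0 (Pm S z) (Rm S z) (nv τ z)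

/-- the projection on the complex line `E`. -/
def PEf (τ : TD M κT) (S : SWS M κ0 κ1 κT) (z : M) : Matrix κ0 κ0 ℂ :=
  PE (Pm S z) (Jm S z) (Rm S z) (nv τ z)

/-- `(s - i J s)/√2`. -/
def hatf (S : SWS M κ0 κ1 κT) (s : κ0 → M → ℝ) (z : M) : κ0 → ℂ := hat (Jm S z) (sv s z)

/-- the vector field dual to `β₀ = -(1/2) tr (J Π₀ W)`. -/
def bV0 (τ : TD M κT) (S : SWS M κ0 κ1 κT) (W : κ0 → κ0 → (z : M) → TangentSpace (𝓡 4) z) (z : M) :
    TangentSpace (𝓡 4) z := ∑ y, ∑ y', (-(1 / 2) * (Jm S z * P0f τ S z) y y') • W y' y z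

/-- the connection form `β` of `E` in `P_E` (for `a = 0`). -/
def bF (τ : TD M κT) (S : SWS M κ0 κ1 κT) (W : κ0 → κ0 → (z : M) → TangentSpace (𝓡 4) z)
    (sT : κT → (z : M) → TangentSpace (𝓡 4) z) (e : Fin 3 → F2 E4 M) : F1 E4 M :=
  RiemB_399.flG (gg e) (fun z => fld sT τ.sh z + bV0 τ S W z)

/-- the connection form `θ = a + β`. -/
def tF (τ : TD M κT) (S : SWS M κ0 κ1 κT) (W : κ0 → κ0 → (z : M) → TangentSpace (𝓡 4) z)
    (sT : κT → (z : M) → TangentSpace (𝓡 4) z) (e : Fin 3 → F2 E4 M) (a : κT → M → ℝ) : F1 E4 M :=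
  RiemB_399.flG (gg e) (fld sT a) + bF τ S W sT e

section al

variable {S : SWS M κ0 κ1 κT} {T : ToF 4 M}
    {cc : κ1 → κ0 → (z : M) → TangentSpace (𝓡 4) z}
    {W : κ0 → κ0 → (z : M) → TangentSpace (𝓡 4) z}
    {sT : κT → (z : M) → TangentSpace (𝓡 4) z} {w : Trip M} {e : Fin 3 → F2 E4 M}
    {σ ι : ℝ}

/-- the algebra at a point. -/
theorem al_of [IsFiniteMeasureOnCompacts (μHE[4] : Measure M)] (hS : S.OK)
    (h : TG S T cc W sT w e σ ι) {n : Fin 3 → ℝ} (z : M) (hn : ∑ k, n k ^ 2 = 1) :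
    Al (Pm S z) (Jm S z) (Rm S z) n ι where
  PP := by ext y y'; rw [Matrix.mul_apply]; exact S.D0.idem y y' z
  PT := by ext y y'; exact S.D0.symmp y' y z
  JJ := by ext y y'; rw [Matrix.mul_apply]; exact h.J2 y y' z
  JT := by ext y y'; exact hS.skewJ y' y z
  PJ := by ext y y'; rw [Matrix.mul_apply]; exact h.pJ y y' z
  rT := fun k => by ext y y'; exact hS.symrho k y' y z
  Pr := fun k => by ext y y'; rw [Matrix.mul_apply]; exact h.prho k y y' z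
  Jr := fun k => by ext y y'; rw [Matrix.mul_apply, Matrix.mul_apply]; exact h.Jrho k y y' z
  r2 := fun j k => by
    ext y y'
    rw [Matrix.add_apply, Matrix.mul_apply, Matrix.mul_apply, ← Finset.sum_add_distrib]
    refine (h.rho2 j k y y' z).trans ?_
    split_ifs with hjk
    · rfl
    · rfl
  r3 := fun j => by
    ext y y'
    rw [Matrix.mul_apply, Matrix.smul_apply, Matrix.mul_apply]
    exact h.rho3 j y y' z
  nn := hn
  tr := h.tr z

end al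

/-! ### translation of the sections -/

theorem RR_apply (τ : TD M κT) (S : SWS M κ0 κ1 κT) (z : M) (y y' : κ0) :
    RR (Rm S z) (nv τ z) y y' = ∑ k, τ.n k z * S.rho k y y' z := by
  unfold RR
  rw [Matrix.sum_apply]
  rfl

theorem P0f_apply (τ : TD M κT) (S : SWS M κ0 κ1 κT) (z : M) (y y' : κ0) :
    P0f τ S z y y' = (1 / 2) * (S.D0.p y y' z - ∑ k, τ.n k z * S.rho k y y' z) := by
  rw [← RR_apply]
  rfl

theorem RR_mulVec (τ : TD M κT) (S : SWS M κ0 κ1 κT) (s : κ0 → M → ℝ) (z : M) (y : κ0) :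
    (RR (Rm S z) (nv τ z) *ᵥ sv s z) y = τ.R S s y z := by
  have h1 : (RR (Rm S z) (nv τ z) *ᵥ sv s z) y = ∑ y', RR (Rm S z) (nv τ z) y y' * s y' z := rfl
  rw [h1]
  unfold TD.R
  rw [Finset.sum_comm]
  refine Finset.sum_congr rfl fun y' _ => ?_
  rw [RR_apply, Finset.sum_mul]

theorem inE_of {τ : TD M κT} {S : SWS M κ0 κ1 κT} {s : κ0 → M → ℝ} (hs : τ.SecE S s) (z : M) :
    InE (Pm S z) (Rm S z) (nv τ z) (sv s z) := by
  refine ⟨funext fun y => hs.1 y z, funext fun y => ?_⟩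
  rw [RR_mulVec]
  exact hs.2 y z

theorem inE'_of {τ : TD M κT} {S : SWS M κ0 κ1 κT} {s : κ0 → M → ℝ} (hs : τ.SecE' S s) (z : M) :
    InE' (Pm S z) (Rm S z) (nv τ z) (sv s z) := by
  refine ⟨funext fun y => hs.1 y z, funext fun y => ?_⟩
  rw [RR_mulVec]
  exact hs.2 y z

theorem secE_of {τ : TD M κT} {S : SWS M κ0 κ1 κT} {s : κ0 → M → ℝ}
    (hs : ∀ z, InE (Pm S z) (Rm S z) (nv τ z) (sv s z)) : τ.SecE S s := by
  refine ⟨fun y z => congrFun (hs z).1 y, fun y z => ?_⟩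
  rw [← RR_mulVec]
  exact congrFun (hs z).2 y

/-! ### smoothness -/

theorem smC_mk {f : M → ℂ} (h1 : ContMDiff (𝓡 4) 𝓘(ℝ, ℝ) ∞ fun x => (f x).re)
    (h2 : ContMDiff (𝓡 4) 𝓘(ℝ, ℝ) ∞ fun x => (f x).im) : SmC f := by
  have h3 : ContMDiff (𝓡 4) 𝓘(ℝ, ℂ) ∞ fun x => Complex.equivRealProdCLM.symm ((f x).re, (f x).im) :=
    (Complex.equivRealProdCLM.symm.contDiff (n := ∞)).contMDiff.comp (h1.prodMk_space h2)
  exact h3.congr fun x => (Complex.equivRealProdCLM.symm_apply_apply (f x)).symm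

theorem sm_sum {κ : Type} [Fintype κ] {f : κ → M → ℝ} (h : ∀ a, ContMDiff (𝓡 4) 𝓘(ℝ, ℝ) ∞ (f a)) :
    ContMDiff (𝓡 4) 𝓘(ℝ, ℝ) ∞ fun z => ∑ a, f a z :=
  contMDiff_finsetSum (t := Finset.univ) fun a _ => h a

theorem sm_mul {f g : M → ℝ} (hf : ContMDiff (𝓡 4) 𝓘(ℝ, ℝ) ∞ f)
    (hg : ContMDiff (𝓡 4) 𝓘(ℝ, ℝ) ∞ g) : ContMDiff (𝓡 4) 𝓘(ℝ, ℝ) ∞ fun z => f z * g z := hf.mul hg

theorem sm_add {f g : M → ℝ} (hf : ContMDiff (𝓡 4) 𝓘(ℝ, ℝ) ∞ f)
    (hg : ContMDiff (𝓡 4) 𝓘(ℝ, ℝ) ∞ g) : ContMDiff (𝓡 4) 𝓘(ℝ, ℝ) ∞ fun z => f z + g z := hf.add hg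

theorem sm_sub {f g : M → ℝ} (hf : ContMDiff (𝓡 4) 𝓘(ℝ, ℝ) ∞ f)
    (hg : ContMDiff (𝓡 4) 𝓘(ℝ, ℝ) ∞ g) : ContMDiff (𝓡 4) 𝓘(ℝ, ℝ) ∞ fun z => f z - g z := hf.sub hg

theorem sm_const (c : ℝ) : ContMDiff (𝓡 4) 𝓘(ℝ, ℝ) ∞ fun _ : M => c := contMDiff_const

section sm

variable [IsFiniteMeasureOnCompacts (μHE[4] : Measure M)]
  {τ : TD M κT} {S : SWS M κ0 κ1 κT}

theorem sm_P0f (hS : S.OK) (hn : ∀ k, ContMDiff (𝓡 4) 𝓘(ℝ, ℝ) ∞ (τ.n k)) (y y' : κ0) :
    ContMDiff (𝓡 4) 𝓘(ℝ, ℝ) ∞ fun z => P0f τ S z y y' := by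
  simp only [P0f_apply]
  exact sm_mul (sm_const _) (sm_sub (S.D0.smp y y') (sm_sum fun k => sm_mul (hn k) (hS.smrho k y y')))

theorem sm_JP0f (hS : S.OK) (hn : ∀ k, ContMDiff (𝓡 4) 𝓘(ℝ, ℝ) ∞ (τ.n k)) (y y' : κ0) :
    ContMDiff (𝓡 4) 𝓘(ℝ, ℝ) ∞ fun z => (Jm S z * P0f τ S z) y y' := by
  simp only [Matrix.mul_apply]
  exact sm_sum fun c => sm_mul (hS.smJ y c) (sm_P0f hS hn c y')

/-- **the line bundle `E`**. -/
theorem ln_PEf {cc : κ1 → κ0 → (z : M) → TangentSpace (𝓡 4) z} {T : ToF 4 M}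
    {W : κ0 → κ0 → (z : M) → TangentSpace (𝓡 4) z}
    {sT : κT → (z : M) → TangentSpace (𝓡 4) z} {w : Trip M} {e : Fin 3 → F2 E4 M}
    {σ ι : ℝ} (hS : S.OK) (h : TG S T cc W sT w e σ ι)
    (hn : ∀ k, ContMDiff (𝓡 4) 𝓘(ℝ, ℝ) ∞ (τ.n k)) (nn : ∀ z, ∑ k, τ.n k z ^ 2 = 1) :
    Ln (PEf τ S) where
  smooth := fun i j => by
    refine smC_mk ?_ ?_
    · have h1 : (fun x => (PEf τ S x i j).re) = fun x => (1 / 2) * P0f τ S x i j := by
        funext x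
        show ((1 / 2 : ℂ) * ((P0f τ S x i j : ℂ) -
          Complex.I * (((Jm S x * P0f τ S x) i j : ℝ) : ℂ))).re = _
        simp
      rw [h1]
      exact sm_mul (sm_const _) (sm_P0f hS hn i j)
    · have h1 : (fun x => (PEf τ S x i j).im) =
          fun x => (-(1 / 2)) * (Jm S x * P0f τ S x) i j := by
        funext x
        show ((1 / 2 : ℂ) * ((P0f τ S x i j : ℂ) -
          Complex.I * (((Jm S x * P0f τ S x) i j : ℝ) : ℂ))).im = _
        simp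
      rw [h1]
      exact sm_mul (sm_const _) (sm_JP0f hS hn i j)
  idem := fun x => (al_of hS h x (nn x)).r1_PE.idem
  herm := fun x => (al_of hS h x (nn x)).r1_PE.herm
  rank := fun x => (al_of hS h x (nn x)).r1_PE.rank

theorem hatf_re (s : κ0 → M → ℝ) (x : M) (y : κ0) : (hatf S s x y).re = (1 / √2) * s y x := by
  show ((((1 / √2 : ℝ)) : ℂ) * ((s y x : ℂ) - Complex.I * (((Jm S x *ᵥ sv s x) y : ℝ) : ℂ))).re = _
  rw [Complex.re_ofReal_mul]
  simp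

theorem hatf_im (s : κ0 → M → ℝ) (x : M) (y : κ0) :
    (hatf S s x y).im = (-(1 / √2)) * ∑ y', S.J y y' x * s y' x := by
  show ((((1 / √2 : ℝ)) : ℂ) * ((s y x : ℂ) - Complex.I * (((Jm S x *ᵥ sv s x) y : ℝ) : ℂ))).im = _
  rw [Complex.im_ofReal_mul]
  simp only [Complex.sub_im, Complex.ofReal_im, Complex.mul_im, Complex.I_re, Complex.I_im,
    Complex.ofReal_re]
  have : (Jm S x *ᵥ sv s x) y = ∑ y', S.J y y' x * s y' x := rfl
  rw [this]; ring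

theorem smV_hatf (hS : S.OK) {s : κ0 → M → ℝ} (hs : Crest.Agent.R249.Tv57.SmV (n := 4) s) :
    SmV (hatf S s) := by
  intro y
  refine smC_mk ?_ ?_
  · simp only [hatf_re]
    exact sm_mul (sm_const _) (hs y)
  · simp only [hatf_im]
    exact sm_mul (sm_const _) (sm_sum fun y' => sm_mul (hS.smJ y y') (hs y'))

end sm

/-! ### derivatives -/

/-- the derivative of a function in the direction `v`. -/
def dr (T : ToF 4 M) (z : M) (v : TangentSpace (𝓡 4) z) (f : M → ℝ) : ℝ :=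
  ⟪Gr (n := 4) f z, T.toF z v⟫

theorem dF_dr (T : ToF 4 M) {f : M → ℝ} (hf : ContMDiff (𝓡 4) 𝓘(ℝ, ℝ) ∞ f) (z : M)
    (v : TangentSpace (𝓡 4) z) : at1 (dF (E := E4) f) z v = dr T z v f := by
  unfold dr
  rw [← T.grad f z hf, T.inner_toF, inner_mgrad]
  exact RiemB_399.dF_eq_mfderiv f z v

theorem mdiff {f : M → ℝ} (hf : ContMDiff (𝓡 4) 𝓘(ℝ, ℝ) ∞ f) (z : M) :
    MDifferentiableAt (𝓡 4) 𝓘(ℝ) f z := hf.mdifferentiableAt (by simp)

theorem dr_mul (T : ToF 4 M) {f g : M → ℝ} (hf : ContMDiff (𝓡 4) 𝓘(ℝ, ℝ) ∞ f)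
    (hg : ContMDiff (𝓡 4) 𝓘(ℝ, ℝ) ∞ g) (z : M) (v : TangentSpace (𝓡 4) z) :
    dr T z v (fun x => f x * g x) = f z * dr T z v g + g z * dr T z v f := by
  unfold dr
  rw [Crest.Agent.R247.Ms322.Gr_mul (mdiff hf z) (mdiff hg z), inner_add_left,
    real_inner_smul_left, real_inner_smul_left]

theorem dr_add (T : ToF 4 M) {f g : M → ℝ} (hf : ContMDiff (𝓡 4) 𝓘(ℝ, ℝ) ∞ f)
    (hg : ContMDiff (𝓡 4) 𝓘(ℝ, ℝ) ∞ g) (z : M) (v : TangentSpace (𝓡 4) z) :
    dr T z v (fun x => f x + g x) = dr T z v f + dr T z v g := by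
  unfold dr
  rw [Crest.Agent.R247.Ms322.Gr_add (mdiff hf z) (mdiff hg z), inner_add_left]

theorem dr_const_mul (T : ToF 4 M) (c : ℝ) {f : M → ℝ} (hf : ContMDiff (𝓡 4) 𝓘(ℝ, ℝ) ∞ f)
    (z : M) (v : TangentSpace (𝓡 4) z) : dr T z v (fun x => c * f x) = c * dr T z v f := by
  unfold dr
  rw [Crest.Agent.R247.Ms322.Gr_const_mul c (mdiff hf z), real_inner_smul_left]

theorem dr_zero (T : ToF 4 M) (z : M) (v : TangentSpace (𝓡 4) z) :
    dr T z v (fun _ => (0 : ℝ)) = 0 := by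
  have h := dr_const_mul T 0 (sm_const (M := M) 0) z v
  simpa using h

theorem dr_sum (T : ToF 4 M) {κ : Type} [Fintype κ] {f : κ → M → ℝ}
    (hf : ∀ a, ContMDiff (𝓡 4) 𝓘(ℝ, ℝ) ∞ (f a)) (z : M) (v : TangentSpace (𝓡 4) z) :
    dr T z v (fun x => ∑ a, f a x) = ∑ a, dr T z v (f a) := by
  classical
  have key : ∀ t : Finset κ, dr T z v (fun x => ∑ a ∈ t, f a x) = ∑ a ∈ t, dr T z v (f a) := by
    intro t
    induction t using Finset.induction_on with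
    | empty => simpa using dr_zero T z v
    | insert a t ha ih =>
      simp only [Finset.sum_insert ha]
      rw [dr_add T (hf a) (contMDiff_finsetSum (t := t) fun b _ => hf b), ih]
  exact key Finset.univ

section conn

variable [IsFiniteMeasureOnCompacts (μHE[4] : Measure M)]
  {τ : TD M κT} {S : SWS M κ0 κ1 κT} {T : ToF 4 M}
    {cc : κ1 → κ0 → (z : M) → TangentSpace (𝓡 4) z}
    {W : κ0 → κ0 → (z : M) → TangentSpace (𝓡 4) z}
    {sT : κT → (z : M) → TangentSpace (𝓡 4) z} {w : Trip M} {e : Fin 3 → F2 E4 M}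
    {σ ι : ℝ}

/-- the derivative of the values of a section. -/
def dsv (T : ToF 4 M) (z : M) (v : TangentSpace (𝓡 4) z) (s : κ0 → M → ℝ) (y : κ0) : ℝ :=
  dr T z v (s y)

/-- `J s`. -/
def Jsec (S : SWS M κ0 κ1 κT) (s : κ0 → M → ℝ) (y : κ0) (z : M) : ℝ := ∑ y', S.J y y' z * s y' z


theorem sm_Jsec (hS : S.OK) {s : κ0 → M → ℝ} (hs : Crest.Agent.R249.Tv57.SmV (n := 4) s) :
    Crest.Agent.R249.Tv57.SmV (n := 4) (Jsec S s) :=
  fun y => sm_sum fun y' => sm_mul (hS.smJ y y') (hs y')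

/-- the connection matrix. -/
def Xm (S : SWS M κ0 κ1 κT) (T : ToF 4 M) (z : M) (v : TangentSpace (𝓡 4) z) :
    Matrix κ0 κ0 ℝ := fun y y' => ⟪S.D0.X y y' z, T.toF z v⟫

theorem Xm_T (z : M) (v : TangentSpace (𝓡 4) z) : (Xm S T z v)ᵀ = - Xm S T z v := by
  ext y y'
  show ⟪S.D0.X y' y z, T.toF z v⟫ = - ⟪S.D0.X y y' z, T.toF z v⟫
  rw [S.D0.skew y' y z, inner_neg_left]

theorem cv_inner (s : κ0 → M → ℝ) (z : M) (v : TangentSpace (𝓡 4) z) (y : κ0) :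
    ⟪S.D0.cv s y z, T.toF z v⟫ = (dsv T z v s + Xm S T z v *ᵥ sv s z) y := by
  unfold Crest.Agent.R249.Tv57.Dat.cv
  rw [inner_add_left, sum_inner, Pi.add_apply]
  congr 1
  show _ = ∑ y', ⟪S.D0.X y y' z, T.toF z v⟫ * s y' z
  refine Finset.sum_congr rfl fun y' _ => ?_
  rw [real_inner_smul_left, mul_comm]

theorem par_pt (hS : S.OK) (h : TG S T cc W sT w e σ ι) {s : κ0 → M → ℝ}
    (hs : Crest.Agent.R249.Tv57.SmV (n := 4) s) (z : M) (v : TangentSpace (𝓡 4) z) :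
    dsv T z v (Jsec S s) + Xm S T z v *ᵥ (Jm S z *ᵥ sv s z) =
      Jm S z *ᵥ (dsv T z v s + Xm S T z v *ᵥ sv s z) := by
  have hJ : ∀ y y', dr T z v (S.J y y') =
      (Jm S z * Xm S T z v - Xm S T z v * Jm S z) y y' := by
    intro y y'
    have h1 := congrArg (fun x => ⟪x, T.toF z v⟫) (h.parJ y y' z)
    simp only [inner_add_left, sum_inner, inner_sub_left, real_inner_smul_left, inner_zero_left,
      Finset.sum_sub_distrib] at h1
    rw [Matrix.sub_apply, Matrix.mul_apply, Matrix.mul_apply]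
    have e1 : ∑ j, Jm S z y j * Xm S T z v j y' =
      ∑ x, S.J y x z * ⟪S.D0.X x y' z, T.toF z v⟫ := rfl
    have e2 : ∑ j, Xm S T z v y j * Jm S z j y' =
      ∑ x, S.J x y' z * ⟪S.D0.X y x z, T.toF z v⟫ :=
        Finset.sum_congr rfl fun x _ => mul_comm _ _
    rw [e1, e2]
    unfold dr
    linarith
  have h2 : dsv T z v (Jsec S s) =
      (Jm S z * Xm S T z v - Xm S T z v * Jm S z) *ᵥ sv s z + Jm S z *ᵥ dsv T z v s := by
    funext y
    unfold dsv Jsec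
    rw [dr_sum T fun y' => sm_mul (hS.smJ y y') (hs y')]
    have h3 : ∀ y', dr T z v (fun x => S.J y y' x * s y' x) =
        (Jm S z * Xm S T z v - Xm S T z v * Jm S z) y y' * s y' z +
          S.J y y' z * dr T z v (s y') := by
      intro y'
      rw [dr_mul T (hS.smJ y y') (hs y'), hJ]
      ring
    simp only [h3, Finset.sum_add_distrib]
    rfl
  rw [h2, sub_mulVec, mulVec_add, ← mulVec_mulVec, ← mulVec_mulVec]
  abel

theorem dV_hatf (hS : S.OK) {s : κ0 → M → ℝ} (hs : Crest.Agent.R249.Tv57.SmV (n := 4) s)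
    (z : M) (v : TangentSpace (𝓡 4) z) :
    dV (hatf S s) z v = (((1 / √2 : ℝ)) : ℂ) • (cV (dsv T z v s) -
      Complex.I • cV (dsv T z v (Jsec S s))) := by
  funext y
  have hsm := smV_hatf hS hs y
  apply Complex.ext
  · have h1 : (dV (hatf S s) z v y).re = at1 (dF (E := E4) fun x => (hatf S s x y).re) z v :=
      dC_re hsm z v
    rw [h1]
    simp only [hatf_re]
    rw [dF_dr T (sm_mul (sm_const _) (hs y)), dr_const_mul T _ (hs y)]
    show _ = ((((1 / √2 : ℝ)) : ℂ) * ((dsv T z v s y : ℂ) -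
      Complex.I * (dsv T z v (Jsec S s) y : ℂ))).re
    rw [Complex.re_ofReal_mul]
    simp [dsv]
  · have h1 : (dV (hatf S s) z v y).im = at1 (dF (E := E4) fun x => (hatf S s x y).im) z v :=
      dC_im hsm z v
    have h2 : at1 (dF (E := E4) fun x => (hatf S s x y).im) z v =
        (-(1 / √2)) * dr T z v (Jsec S s y) := by
      simp only [hatf_im]
      exact (dF_dr T (sm_mul (sm_const _) (sm_Jsec hS hs y)) z v).trans
        (dr_const_mul T _ (sm_Jsec hS hs y) z v)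
    rw [h1, h2]
    show _ = ((((1 / √2 : ℝ)) : ℂ) * ((dsv T z v s y : ℂ) -
      Complex.I * (dsv T z v (Jsec S s) y : ℂ))).im
    rw [Complex.im_ofReal_mul]
    simp only [Complex.sub_im, Complex.ofReal_im, Complex.mul_im, Complex.I_re, Complex.I_im,
      Complex.ofReal_re, dsv]
    ring

/-- the values of `∇^E s` in the direction `v`. -/
def gE (τ : TD M κT) (S : SWS M κ0 κ1 κT) (T : ToF 4 M) (a : κT → M → ℝ) (s : κ0 → M → ℝ)
    (z : M) (v : TangentSpace (𝓡 4) z) (y : κ0) : ℝ := ⟪τ.nE S a s y z, T.toF z v⟫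

theorem sfld (h : TG S T cc W sT w e σ ι) (a : κT → M → ℝ) (z : M) (v : TangentSpace (𝓡 4) z) :
    ⟪∑ A, a A z • S.s A z, T.toF z v⟫ = inner ℝ (fld sT a z) v := by
  unfold fld
  rw [sum_inner, sum_inner]
  refine Finset.sum_congr rfl fun A _ => ?_
  rw [real_inner_smul_left, real_inner_smul_left, h.s_eq, T.inner_toF]

theorem nab_inner (h : TG S T cc W sT w e σ ι) (a : κT → M → ℝ) (s : κ0 → M → ℝ) (z : M)
    (v : TangentSpace (𝓡 4) z) (y : κ0) : ⟪S.nab a s y z, T.toF z v⟫ =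
      (dsv T z v s + Xm S T z v *ᵥ sv s z + (inner ℝ (fld sT a z) v : ℝ) • (Jm S z *ᵥ sv s z)) y := by
  unfold SWS.nab
  rw [inner_add_left, real_inner_smul_left, sfld h, cv_inner]
  show _ = _ + (inner ℝ (fld sT a z) v : ℝ) * (∑ y', S.J y y' z * s y' z)
  rw [mul_comm]

theorem gE_eq (h : TG S T cc W sT w e σ ι) (a : κT → M → ℝ) (s : κ0 → M → ℝ) (z : M)
    (v : TangentSpace (𝓡 4) z) : gE τ S T a s z v =
      P0f τ S z *ᵥ (dsv T z v s + Xm S T z v *ᵥ sv s z +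
        (inner ℝ (fld sT a z) v : ℝ) • (Jm S z *ᵥ sv s z)) +
        (inner ℝ (fld sT τ.sh z) v : ℝ) • (Jm S z *ᵥ sv s z) := by
  funext y
  unfold gE TD.nE TD.prE
  rw [inner_add_left, real_inner_smul_left, sfld h, sum_inner]
  simp only [real_inner_smul_left, nab_inner h]
  show _ = (∑ y', P0f τ S z y y' * _) +
    (inner ℝ (fld sT τ.sh z) v : ℝ) * (∑ y', S.J y y' z * s y' z)
  simp only [P0f_apply]
  rw [mul_comm (inner ℝ (fld sT τ.sh z) v : ℝ)]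

theorem inE_gE (hS : S.OK) (h : TG S T cc W sT w e σ ι) (nn : ∀ z, ∑ k, τ.n k z ^ 2 = 1)
    (a : κT → M → ℝ) {s : κ0 → M → ℝ} (hs : τ.SecE S s) (z : M)
    (v : TangentSpace (𝓡 4) z) : InE (Pm S z) (Rm S z) (nv τ z) (gE τ S T a s z v) := by
  have hA := al_of hS h (n := nv τ z) z (nn z)
  have hE := inE_of hs z
  rw [hA.inE_iff, gE_eq h, mulVec_add, mulVec_smul, P0f, mulVec_mulVec, hA.P0P0,
    (hA.inE_iff _).1 (hA.inE_J hE)]

/-- **the connection of `E`** is `nab`. -/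
theorem hat_gE (hS : S.OK) (h : TG S T cc W sT w e σ ι) (nn : ∀ z, ∑ k, τ.n k z ^ 2 = 1)
    (a : κT → M → ℝ) {s : κ0 → M → ℝ} (hsm : Crest.Agent.R249.Tv57.SmV (n := 4) s)
    (hs : τ.SecE S s) (z : M) (v : TangentSpace (𝓡 4) z) :
    hat (Jm S z) (gE τ S T a s z v) = nab (PEf τ S) (tF τ S W sT e a) (hatf S s) z v := by
  have hA := al_of hS h (n := nv τ z) z (nn z)
  have hE := inE_of hs z
  have hJE := (hA.inE_iff _).1 (hA.inE_J hE)
  have hc := hA.conn_pt hE (Xm_T (S := S) (T := T) z v) (par_pt hS h hsm z v)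
  have hb : inner ℝ (bV0 τ S W z) v =
      -(1 / 2) * (Jm S z * P0 (Pm S z) (Rm S z) (nv τ z) * Xm S T z v).trace := by
    unfold bV0 Matrix.trace
    rw [sum_inner, Finset.mul_sum]
    refine Finset.sum_congr rfl fun y _ => ?_
    rw [sum_inner, Matrix.diag_apply, Matrix.mul_apply, Finset.mul_sum]
    refine Finset.sum_congr rfl fun y' _ => ?_
    rw [real_inner_smul_left]
    have e1 : Xm S T z v y' y = inner ℝ (W y' y z) v := by
      show ⟪S.D0.X y' y z, T.toF z v⟫ = _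
      rw [h.X_eq, T.inner_toF]
    rw [e1]
    unfold P0f
    ring
  have hθ : at1 (tF τ S W sT e a) z v = (inner ℝ (fld sT a z) v : ℝ) +
      ((inner ℝ (fld sT τ.sh z) v : ℝ) + (inner ℝ (bV0 τ S W z) v : ℝ)) := by
    rw [← inner_add_left, h.met, h.met]
    rfl
  rw [gE_eq h, mulVec_add, mulVec_smul]
  have e0 : P0f τ S z *ᵥ (Jm S z *ᵥ sv s z) = Jm S z *ᵥ sv s z := hJE
  rw [e0, hat_add, hat_add, hat_smul, hat_smul, ← hA.I_hat hE.1]
  have e1 : hat (Jm S z) (P0f τ S z *ᵥ (dsv T z v s + Xm S T z v *ᵥ sv s z)) = _ := hc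
  rw [e1, ← hb]
  unfold nab
  rw [hθ, dV_hatf (T := T) hS hsm]
  have e2 : hat (Jm S z) (sv s z) = hatf S s z := rfl
  have e3 : PE (Pm S z) (Jm S z) (Rm S z) (nv τ z) = PEf τ S z := rfl
  rw [e2, e3]
  push_cast
  module

theorem PEf_hatf (hS : S.OK) (h : TG S T cc W sT w e σ ι) (nn : ∀ z, ∑ k, τ.n k z ^ 2 = 1)
    {s : κ0 → M → ℝ} (hs : τ.SecE S s) (z : M) : PEf τ S z *ᵥ hatf S s z = hatf S s z :=
  (al_of hS h z (nn z)).PE_hat (inE_of hs z)

end conn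

end

end Crest.Agent.R235.Tau483
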