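import Crest.Agent.R235.SwcKATO4_984_Mg
import Crest.Agent.R235.JT_291
import Crest.Agent.R235.SwcRBil_291
import Crest.Agent.R235.SwcVOLD_57
import Mathlib
import Crest.Agent.R235.SwcProd_215
import Crest.Agent.R235.SWUni_312
import Crest.Agent.R235.SwcProd3_215
import Crest.Agent.R235.TauE_483
import Crest.Agent.R235.IndVol_57
import Crest.Agent.R235.Ip_288
import Crest.Agent.R235.QSTri_451

-- ▼ part R235/SwcPrF_215
section

/-!
Row 235 (S0364), PACKAGE SWC, assembly of PROD (helper215), final part: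
`prod_of : APX, TAUS, PRB, PRC, PRD, PRE ⇒ PROD`.
-/

set_option autoImplicit false
set_option maxSynthPendingDepth 3
set_option linter.unusedSectionVars false

open scoped ContDiff ENNReal NNReal Topology Manifold Bundle RealInnerProductSpace
open MeasureTheory Set Filter Metric Bundle

universe v

namespace Crest.Agent.R235.SwcProd_215

open Crest.Agent.R240 Crest.Agent.R240.Ch Crest.Agent.R235 Crest.Agent.R235.SWDefs_53
open Crest.Agent.R235.IndTri_451 Crest.Agent.R235.Tau483 Crest.Agent.R235.SwcGlob_34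
open Crest.Agent.R249.Tv57 (OpPair SmF SmV KerD)
open Crest.Agent.R249.Tz805 (ToF)

noncomputable section

set_option maxHeartbeats 1000000 in
theorem prod_of (hA : APX.{v}) (hT : TAUS.{v}) (hB : PRB.{v}) (hC : PRC.{v}) (hD : PRD.{v})
    (hE : PRE.{v}) : PROD.{v} := by
  intro M _ _ _ _ _ _ _ _ _ _ _ _ _ κ0 κ1 κT _ _ _ S T cc W sT w e ι ww τ C K c hw hd hs
  obtain ⟨K', r, t, a, u, hK', hseq⟩ := exists_seqS hA hT hd hs
  have hl : ∀ n, ∃ (a0 : Z2 M) (β : F1 E4 M), Lnk S T cc sT w e (τ (t n)) a0 β K ∧ cls a0 = c :=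
    fun n => hd.lnk (t n) (hseq.nt n)
  choose a0 β hlnk hcls using hl
  -- the ultrafilter and the limit parameter
  let U : Ultrafilter ℕ := Filter.hyperfilter ℕ
  have hU : ((U.map t : Ultrafilter E3) : Filter E3) ≤ 𝓟 (Metric.sphere (0 : E3) 1) := by
    rw [le_principal_iff]
    refine mem_map.2 (Eventually.of_forall fun n => ?_)
    rw [mem_sphere_zero_iff_norm]
    exact hseq.nt n
  obtain ⟨t0, ht0, hlim⟩ := (isCompact_sphere (0 : E3) 1).ultrafilter_le_nhds (U.map t) hU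
  rw [mem_sphere_zero_iff_norm] at ht0
  have hlim' : Tendsto t (U : Filter ℕ) (𝓝 t0) := hlim
  have ht0ne : (fun i => t0 i : Fin 3 → ℝ) ≠ 0 := by
    intro h1
    have h2 : t0 = 0 := by
      ext i
      exact congrFun h1 i
    rw [h2, norm_zero] at ht0
    exact zero_ne_one ht0
  obtain ⟨J', hJT⟩ := JT_291.exists_jt hw ht0ne
  obtain ⟨D, hDJ, hDal, hDF⟩ := JT_291.exists_dat SwcRBil_291.bilip hJT
  let V : Vars M κ0 κ1 κT :=
    { S := S, T := T, cc := cc, W := W, sT := sT, w := w, e := e, ι := ι, ww := ww, τ := τ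
      C := C, K := K, c := c, K' := K', r := r, t := t, a := a, u := u, a0 := a0, β := β
      t0 := t0, D := D, N := Fintype.card κ0, ν := (Fintype.equivFin κ0).symm }
  have hle : (U : Filter ℕ) ≤ atTop := by
    rw [← Nat.cofinite_eq_atTop]
    exact Filter.hyperfilter_le_cofinite
  have cx : Ctx V U :=
    { data := hd
      seq := hseq
      lnk := hlnk
      cls := hcls
      Kpos := hK'
      nt0 := ht0
      lim := hlim'
      limD :=
        { tri := hd.tg.tri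
          jt := by
            show Uu_291.JT w _ D.J
            rw [hDJ]
            exact hJT
          al := hDal
          F := hDF
          X := by
            intro x
            show val (Uu_291.wt w fun i => t0 i) x = ∑ k, Xw ww t0 k x • at2 (e k) x
            have h1 : val (Uu_291.wt w fun i => t0 i) x = ∑ i, t0 i • val (w i) x := by
              unfold Uu_291.wt
              rw [Fin.sum_univ_three, Fin.sum_univ_three]
              rfl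
            rw [h1]
            simp only [hd.ww_eq]
            unfold Xw
            simp only [Finset.sum_smul, Finset.smul_sum, smul_smul]
            exact Finset.sum_comm }
      le := hle }
  obtain ⟨C1, hC1, b1, b2, b3⟩ := hB M κ0 κ1 κT V U cx
  obtain ⟨C2, hC2, b4, b5, b6⟩ := hC M κ0 κ1 κT V U cx
  have b7 := hD M κ0 κ1 κT V U cx
  obtain ⟨b8, b9, ⟨C3, b10⟩, smα, secα, smθ⟩ := hE M κ0 κ1 κT V U cx
  have hr : Tendsto r (U : Filter ℕ) atTop := by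
    have h1 : Tendsto r atTop atTop := by
      refine tendsto_atTop_mono (fun n => ?_) tendsto_natCast_atTop_atTop
      have := hseq.rge n
      linarith
    exact h1.mono_left hle
  have hrpos : ∀ n, 0 ≤ V.Q.r n := by
    intro n
    have := hseq.rge n
    have h0 : (0 : ℝ) ≤ (n : ℝ) := Nat.cast_nonneg n
    show 0 ≤ r n
    linarith
  refine ⟨t0, D, Fintype.card κ0, V.Q, U, 1 / 2, max (max C1 C2) C3, ht0, ?_, hDal, hDF,
    inferInstance, ?_, hcls 0⟩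
  · rw [hDJ]
    exact hJT
  · exact
      { clF := b8
        line := fun n => (cx.lnk n).line V.N V.ν
        chern := fun n => (cx.lnk n).chern V.N V.ν
        cls0 := fun n => (hcls n).trans (hcls 0).symm
        plim := b9
        a0bd := Eventually.of_forall fun n => (b10 n).trans (le_max_right _ _)
        smα := smα
        secα := secα
        smθ := smθ
        rinf := hr
        lam_pos := by norm_num
        e1 := Eventually.of_forall fun n =>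
          (b1 n).trans ((le_max_left _ _).trans (le_max_left _ _))
        e2 := Eventually.of_forall fun n =>
          (b2 n).trans ((le_max_left _ _).trans (le_max_left _ _))
        e3 := Eventually.of_forall fun n => (b4 n).trans (mul_le_mul_of_nonneg_right
          ((le_max_right _ _).trans (le_max_left _ _)) (hrpos n))
        o1 := b5
        o2 := b6
        o3 := b3
        o4 := b7 }

/-- PROD from the remaining open leaves. -/
theorem prod_of' (hT : TAUS.{v}) (hP : PWD.{v}) (hB : PRB.{v}) (hC : PRC.{v}) (hE : PRE.{v}) :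
    PROD.{v} :=
  prod_of Apx2_649.apx hT hB hC
    (prd hP SwcVOLD_57.vold hB hC hE SwcStb_370.stb Gz_649.gz SwcNETC_984.netc) hE

end

end Crest.Agent.R235.SwcProd_215
end

-- ▼ part R235/SwcTausA_312
section

/-!
Row 235 (S0364), PACKAGE SWC, NODE PROD, **TAUS** (helper215 #2370), part A (helper312):
the abstract real analysis.  `q = √ρ`.
-/

set_option autoImplicit false
set_option linter.unusedSectionVars false

open MeasureTheory Set Filter Topology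

namespace Crest.Agent.R235.SwcTaus_312

noncomputable section

variable {X : Type*} [TopologicalSpace X] [CompactSpace X] [MeasurableSpace X] [BorelSpace X]
  {μ : Measure X} [IsFiniteMeasureOnCompacts μ]

theorem icont {f : X → ℝ} (hf : Continuous f) : Integrable f μ :=
  hf.integrable_of_hasCompactSupport (HasCompactSupport.of_compactSpace f)

theorem iadd {f g : X → ℝ} (hf : Continuous f) (hg : Continuous g) :
    ∫ x, (f x + g x) ∂μ = ∫ x, f x ∂μ + ∫ x, g x ∂μ := integral_add (icont hf) (icont hg)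

/-- the functions which occur in the energy estimates. -/
structure Est (μ : Measure X) (q G N0 N1 gn gc fn F2 A2 B2 AB W Qv : X → ℝ)
    (q0 q1 B KQ r C : ℝ) : Prop where
  cq : Continuous q
  cG : Continuous G
  cN0 : Continuous N0
  cN1 : Continuous N1
  cgn : Continuous gn
  cgc : Continuous gc
  cfn : Continuous fn
  cF2 : Continuous F2
  cA2 : Continuous A2
  cB2 : Continuous B2
  cAB : Continuous AB
  cW : Continuous W
  cQv : Continuous Qv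
  G0 : ∀ x, 0 ≤ G x
  N00 : ∀ x, 0 ≤ N0 x
  N10 : ∀ x, 0 ≤ N1 x
  A20 : ∀ x, 0 ≤ A2 x
  F20 : ∀ x, 0 ≤ F2 x
  W0 : ∀ x, 0 ≤ W x
  q0p : 0 < q0
  rp : 0 < r
  hq : ∀ x, q0 ≤ q x ∧ q x ≤ q1
  hfn : ∀ x, |fn x| ≤ B
  hQ : ∀ x, |Qv x| ≤ KQ * (q x ^ 3 * N1 x)
  hAB : ∀ x, AB x ≤ (F2 x - A2 x) / 2
  hB2 : ∀ x, B2 x ≤ 2 * F2 x + 2 * A2 x
  i2 : ∫ x, (q x)⁻¹ * A2 x ∂μ =
    ∫ x, (q x ^ 2 * G x - q x ^ 2 * (q x ^ 2 * (r + (N1 x - N0 x) / 2) + gn x) * N0 x) ∂μ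
  i3 : |∫ x, ((q x)⁻¹ * AB x - q x ^ 2 * (q x ^ 2 * (N0 x * N1 x) + gc x)) ∂μ| ≤
    C * ∫ x, √(G x) * √(N1 x) ∂μ
  i4 : ∫ x, q x ^ 2 * (q x ^ 2 * (r + (N1 x - N0 x) / 2) + gn x) ∂μ = ∫ x, q x ^ 2 * fn x ∂μ
  i6 : ∫ x, B2 x ∂μ = ∫ x, (W x + Qv x +
    q x ^ 3 * N1 x * (q x ^ 2 * (r + (N1 x - N0 x) / 2) + gn x - fn x)) ∂μ

namespace Est

variable {q G N0 N1 gn gc fn F2 A2 B2 AB W Qv : X → ℝ} {q0 q1 B KQ r C : ℝ}

theorem qpos (E : Est μ q G N0 N1 gn gc fn F2 A2 B2 AB W Qv q0 q1 B KQ r C) (x : X) : 0 < q x :=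
  E.q0p.trans_le (E.hq x).1

theorem cqi (E : Est μ q G N0 N1 gn gc fn F2 A2 B2 AB W Qv q0 q1 B KQ r C) :
    Continuous fun x => (q x)⁻¹ := E.cq.inv₀ fun x => (E.qpos x).ne'

theorem csq (E : Est μ q G N0 N1 gn gc fn F2 A2 B2 AB W Qv q0 q1 B KQ r C) :
    Continuous fun x => √(G x) * √(N1 x) := E.cG.sqrt.mul E.cN1.sqrt

/-- the first error term. -/
def err1 (q N0 gn gc F2 : X → ℝ) (r : ℝ) (x : X) : ℝ :=
  q x ^ 2 * |gn x| * N0 x + 2 * r * (q x ^ 2 * |gn x|) + (q x)⁻¹ * F2 x + 2 * (q x ^ 2 * |gc x|)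

/-- the second error term. -/
def err2 (q N1 gn gc F2 : X → ℝ) (k : ℝ) (x : X) : ℝ :=
  2 * F2 x + q x ^ 3 * N1 x * |gn x| + k * ((q x)⁻¹ * F2 x + 2 * (q x ^ 2 * |gc x|))

theorem cerr1 (E : Est μ q G N0 N1 gn gc fn F2 A2 B2 AB W Qv q0 q1 B KQ r C) :
    Continuous (err1 q N0 gn gc F2 r) := by
  have h1 := E.cq
  have h2 := E.cqi
  have h3 := E.cN0
  have h4 := E.cgn
  have h5 := E.cgc
  have h6 := E.cF2
  unfold err1
  fun_prop

theorem cerr2 (E : Est μ q G N0 N1 gn gc fn F2 A2 B2 AB W Qv q0 q1 B KQ r C) (k : ℝ) :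
    Continuous (err2 q N1 gn gc F2 k) := by
  have h1 := E.cq
  have h2 := E.cqi
  have h3 := E.cN1
  have h4 := E.cgn
  have h5 := E.cgc
  have h6 := E.cF2
  unfold err2
  fun_prop

/-- the good density of step 5. -/
def Phi (q G N0 N1 : X → ℝ) (r : ℝ) (x : X) : ℝ :=
  q x ^ 2 / 2 * G x + q x ^ 4 / 2 * ((2 * r - N0 x) ^ 2 + N1 x * (r + 3 * N0 x))

theorem cPhi (E : Est μ q G N0 N1 gn gc fn F2 A2 B2 AB W Qv q0 q1 B KQ r C) :
    Continuous (Phi q G N0 N1 r) := by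
  have h1 := E.cq
  have h2 := E.cG
  have h3 := E.cN1
  have h4 := E.cN0
  unfold Phi
  fun_prop

/-- **step 5** -/
theorem step5 (E : Est μ q G N0 N1 gn gc fn F2 A2 B2 AB W Qv q0 q1 B KQ r C)
    (hr : 4 * C ^ 2 ≤ r * q0 ^ 6) : ∫ x, Phi q G N0 N1 r x ∂μ ≤
      2 * r * ∫ x, q x ^ 2 * fn x ∂μ + ∫ x, err1 q N0 gn gc F2 r x ∂μ := by
  have h1 := E.cq
  have h2 := E.cqi
  have h3 := E.cN0
  have h4 := E.cN1
  have h5 := E.cgn
  have h6 := E.cgc
  have h7 := E.cF2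
  have h8 := E.cG
  have h9 := E.cA2
  have h10 := E.cAB
  have h11 := E.cfn
  set P1 : X → ℝ := fun x => (q x)⁻¹ * A2 x -
    (q x ^ 2 * G x - q x ^ 2 * (q x ^ 2 * (r + (N1 x - N0 x) / 2) + gn x) * N0 x) with hP1
  set P2 : X → ℝ := fun x => -((q x)⁻¹ * AB x - q x ^ 2 * (q x ^ 2 * (N0 x * N1 x) + gc x)) with hP2
  set P3 : X → ℝ := fun x => q x ^ 2 * (q x ^ 2 * (r + (N1 x - N0 x) / 2) + gn x) -
    q x ^ 2 * fn x with hP3
  have c1 : Continuous P1 := by fun_prop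
  have c2 : Continuous P2 := by fun_prop
  have c3 : Continuous P3 := by fun_prop
  have c4 : Continuous fun x => q x ^ 2 * fn x := by fun_prop
  have j1 : ∫ x, P1 x ∂μ = 0 := by
    rw [hP1, integral_sub (icont (by fun_prop)) (icont (by fun_prop)), E.i2, sub_self]
  have j2 : ∫ x, P2 x ∂μ ≤ C * ∫ x, √(G x) * √(N1 x) ∂μ := by
    rw [hP2, integral_neg]
    exact (neg_le_abs _).trans E.i3
  have j3 : ∫ x, P3 x ∂μ = 0 := by
    rw [hP3, integral_sub (icont (by fun_prop)) (icont (by fun_prop)), E.i4, sub_self]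
  have pw : ∀ x, Phi q G N0 N1 r x + 2 * C * (√(G x) * √(N1 x)) ≤
      (-1) * P1 x + (2 * P2 x + (2 * r * P3 x + (2 * r * (q x ^ 2 * fn x) +
        err1 q N0 gn gc F2 r x))) := by
    intro x
    have hq := E.qpos x
    have hr0 := E.rp
    have ex : √(G x) ^ 2 = G x := Real.sq_sqrt (E.G0 x)
    have ey : √(N1 x) ^ 2 = N1 x := Real.sq_sqrt (E.N10 x)
    have a1 : 2 * C * (√(G x) * √(N1 x)) ≤ q x ^ 2 / 2 * G x + q x ^ 4 / 2 * (r * N1 x) := by
      have b1 : 0 ≤ (q x * √(G x) - 2 * C / q x * √(N1 x)) ^ 2 := sq_nonneg _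
      have b2 : (q x * √(G x) - 2 * C / q x * √(N1 x)) ^ 2 =
          q x ^ 2 * √(G x) ^ 2 - 4 * C * (√(G x) * √(N1 x)) +
            4 * C ^ 2 / q x ^ 2 * √(N1 x) ^ 2 := by
        field_simp
        ring
      rw [ex, ey] at b2
      have b3 : 4 * C ^ 2 / q x ^ 2 ≤ q x ^ 4 * r := by
        rw [div_le_iff₀ (by positivity)]
        have : q0 ^ 6 ≤ q x ^ 6 := pow_le_pow_left₀ E.q0p.le (E.hq x).1 6
        calc 4 * C ^ 2 ≤ r * q0 ^ 6 := hr
          _ ≤ r * q x ^ 6 := mul_le_mul_of_nonneg_left this hr0.le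
          _ = _ := by ring
      have b4 := mul_le_mul_of_nonneg_right b3 (E.N10 x)
      nlinarith
    have a2 := E.hAB x
    have a3 : (q x)⁻¹ * AB x ≤ (q x)⁻¹ * ((F2 x - A2 x) / 2) :=
      mul_le_mul_of_nonneg_left a2 (inv_pos.2 hq).le
    have a4 : - (q x ^ 2 * |gc x|) ≤ q x ^ 2 * gc x := by
      rw [← mul_neg]
      exact mul_le_mul_of_nonneg_left (neg_abs_le _) (by positivity)
    have a5 : q x ^ 2 * gn x * N0 x ≤ q x ^ 2 * |gn x| * N0 x :=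
      mul_le_mul_of_nonneg_right (mul_le_mul_of_nonneg_left (le_abs_self _) (by positivity))
        (E.N00 x)
    have a6 : - (2 * r * (q x ^ 2 * |gn x|)) ≤ 2 * r * (q x ^ 2 * gn x) := by
      rw [← mul_neg, ← mul_neg]
      exact mul_le_mul_of_nonneg_left (mul_le_mul_of_nonneg_left (neg_abs_le _) (by positivity))
        (by positivity)
    simp only [hP1, hP2, hP3, Phi, err1]
    nlinarith
  have key := integral_mono (μ := μ)
    (f := fun x => Phi q G N0 N1 r x + 2 * C * (√(G x) * √(N1 x)))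
    (g := fun x => (-1) * P1 x + (2 * P2 x + (2 * r * P3 x + (2 * r * (q x ^ 2 * fn x) +
        err1 q N0 gn gc F2 r x))))
    ((icont E.cPhi).add ((icont E.csq).const_mul _))
    (((icont c1).const_mul _).add (((icont c2).const_mul _).add (((icont c3).const_mul _).add
      (((icont c4).const_mul _).add (icont E.cerr1))))) pw
  have k1 := E.cPhi
  have k2 := E.csq
  have k3 := E.cerr1
  have eL : ∫ x, (Phi q G N0 N1 r x + 2 * C * (√(G x) * √(N1 x))) ∂μ =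
      ∫ x, Phi q G N0 N1 r x ∂μ + 2 * C * ∫ x, √(G x) * √(N1 x) ∂μ := by
    rw [iadd k1 (by fun_prop), integral_const_mul]
  have eR : ∫ x, ((-1) * P1 x + (2 * P2 x + (2 * r * P3 x + (2 * r * (q x ^ 2 * fn x) +
        err1 q N0 gn gc F2 r x)))) ∂μ = (-1) * ∫ x, P1 x ∂μ + (2 * ∫ x, P2 x ∂μ +
        (2 * r * ∫ x, P3 x ∂μ + (2 * r * ∫ x, q x ^ 2 * fn x ∂μ +
          ∫ x, err1 q N0 gn gc F2 r x ∂μ))) := by
    rw [iadd (by fun_prop) (by fun_prop), iadd (by fun_prop) (by fun_prop),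
      iadd (by fun_prop) (by fun_prop), iadd (by fun_prop) (by fun_prop)]
    simp only [integral_const_mul]
  rw [eL, eR, j1, j3] at key
  linarith

/-- the good density of step 7. -/
def Psi (q N0 N1 A2 W : X → ℝ) (q0 r : ℝ) (x : X) : ℝ :=
  W x + (q x)⁻¹ * A2 x + r * q0 ^ 5 / 4 * N1 x + q0 ^ 4 * (N0 x * N1 x)

theorem cPsi (E : Est μ q G N0 N1 gn gc fn F2 A2 B2 AB W Qv q0 q1 B KQ r C) :
    Continuous (Psi q N0 N1 A2 W q0 r) := by
  have h2 := E.cqi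
  have h3 := E.cN1
  have h4 := E.cN0
  have h5 := E.cA2
  have h6 := E.cW
  unfold Psi
  fun_prop

/-- **step 7** -/
theorem step7 (E : Est μ q G N0 N1 gn gc fn F2 A2 B2 AB W Qv q0 q1 B KQ r C) (hKQ : 0 ≤ KQ)
    (hB : 0 ≤ B) (hr : 2 * ((KQ + B) * q1 ^ 3) ≤ r * q0 ^ 5) {k : ℝ} (hk : k = 2 * q1 + 1) :
    ∫ x, Psi q N0 N1 A2 W q0 r x ∂μ ≤
      ∫ x, err2 q N1 gn gc F2 k x ∂μ + 4 * k ^ 2 * C ^ 2 / (r * q0 ^ 5) * ∫ x, G x ∂μ := by
  have h1 := E.cq
  have h2 := E.cqi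
  have h3 := E.cN0
  have h4 := E.cN1
  have h5 := E.cgn
  have h6 := E.cgc
  have h7 := E.cF2
  have h8 := E.cG
  have h9 := E.cA2
  have h10 := E.cAB
  have h11 := E.cfn
  have h12 := E.cW
  have h13 := E.cQv
  have h14 := E.cB2
  set P2 : X → ℝ := fun x => -((q x)⁻¹ * AB x - q x ^ 2 * (q x ^ 2 * (N0 x * N1 x) + gc x)) with hP2
  set P6 : X → ℝ := fun x => (W x + Qv x +
    q x ^ 3 * N1 x * (q x ^ 2 * (r + (N1 x - N0 x) / 2) + gn x - fn x)) - B2 x with hP6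
  have c2 : Continuous P2 := by fun_prop
  have c6 : Continuous P6 := by fun_prop
  have j2 : ∫ x, P2 x ∂μ ≤ C * ∫ x, √(G x) * √(N1 x) ∂μ := by
    rw [hP2, integral_neg]
    exact (neg_le_abs _).trans E.i3
  have j6 : ∫ x, P6 x ∂μ = 0 := by
    rw [hP6, integral_sub (icont (by fun_prop)) (icont (by fun_prop)), E.i6, sub_self]
  by_cases hX : Nonempty X
  swap
  · have : IsEmpty X := not_nonempty_iff.1 hX
    have hμ : μ = 0 := Measure.eq_zero_of_isEmpty μ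
    simp [hμ]
  obtain ⟨x0⟩ := hX
  have hq1 : q0 ≤ q1 := (E.hq x0).1.trans (E.hq x0).2
  have hq1p : 0 < q1 := E.q0p.trans_le hq1
  have hk1 : 1 ≤ k := by rw [hk]; linarith
  have hrq : 0 < r * q0 ^ 5 := mul_pos E.rp (pow_pos E.q0p 5)
  have pw : ∀ x, Psi q N0 N1 A2 W q0 r x + 2 * k * C * (√(G x) * √(N1 x)) ≤
      P6 x + (2 * k * P2 x + (4 * k ^ 2 * C ^ 2 / (r * q0 ^ 5) * G x +
        err2 q N1 gn gc F2 k x)) := by
    intro x
    have hq := E.qpos x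
    have hr0 := E.rp
    have hqq1 := (E.hq x).2
    have hqq0 := (E.hq x).1
    have n0 := E.N00 x
    have n1 := E.N10 x
    have n01 : 0 ≤ N0 x * N1 x := mul_nonneg n0 n1
    have ex : √(G x) ^ 2 = G x := Real.sq_sqrt (E.G0 x)
    have ey : √(N1 x) ^ 2 = N1 x := Real.sq_sqrt n1
    -- Young
    have a1 : 2 * k * C * (√(G x) * √(N1 x)) ≤
        4 * k ^ 2 * C ^ 2 / (r * q0 ^ 5) * G x + r * q0 ^ 5 / 4 * N1 x := by
      set R := r * q0 ^ 5 with hR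
      have b1 : 0 ≤ (4 * k * C * √(G x) - R * √(N1 x)) ^ 2 := sq_nonneg _
      have b2 : (4 * k * C * √(G x) - R * √(N1 x)) ^ 2 =
          16 * k ^ 2 * C ^ 2 * √(G x) ^ 2 - 8 * k * C * R * (√(G x) * √(N1 x)) +
            R ^ 2 * √(N1 x) ^ 2 := by
        ring
      rw [ex, ey] at b2
      rw [b2] at b1
      have b3 : 4 * k ^ 2 * C ^ 2 / R * G x + R / 4 * N1 x - 2 * k * C * (√(G x) * √(N1 x)) =
          (16 * k ^ 2 * C ^ 2 * G x - 8 * k * C * R * (√(G x) * √(N1 x)) + R ^ 2 * N1 x) /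
            (4 * R) := by
        field_simp
        ring
      have b4 : 0 ≤ 4 * k ^ 2 * C ^ 2 / R * G x + R / 4 * N1 x -
          2 * k * C * (√(G x) * √(N1 x)) := by
        rw [b3]
        positivity
      linarith
    -- the Dirac terms
    have a3 : (q x)⁻¹ * AB x ≤ (q x)⁻¹ * ((F2 x - A2 x) / 2) :=
      mul_le_mul_of_nonneg_left (E.hAB x) (inv_pos.2 hq).le
    have a4 : - (q x ^ 2 * |gc x|) ≤ q x ^ 2 * gc x := by
      rw [← mul_neg]
      exact mul_le_mul_of_nonneg_left (neg_abs_le _) (by positivity)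
    have a34 : k * ((q x)⁻¹ * A2 x) + 2 * k * (q x ^ 4 * (N0 x * N1 x)) ≤
        2 * k * P2 x + k * ((q x)⁻¹ * F2 x + 2 * (q x ^ 2 * |gc x|)) := by
      have e : (q x)⁻¹ * A2 x + 2 * (q x ^ 4 * (N0 x * N1 x)) ≤
          2 * P2 x + ((q x)⁻¹ * F2 x + 2 * (q x ^ 2 * |gc x|)) := by
        simp only [hP2]
        nlinarith
      nlinarith
    -- `B2`
    have a5 : B2 x ≤ 2 * F2 x + 2 * q1 * ((q x)⁻¹ * A2 x) := by
      have e1 : A2 x ≤ q1 * ((q x)⁻¹ * A2 x) := by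
        have e2 : A2 x = q x * ((q x)⁻¹ * A2 x) := by
          rw [← mul_assoc, mul_inv_cancel₀ hq.ne', one_mul]
        calc A2 x = q x * ((q x)⁻¹ * A2 x) := e2
          _ ≤ _ := mul_le_mul_of_nonneg_right hqq1
            (mul_nonneg (inv_pos.2 hq).le (E.A20 x))
      have := E.hB2 x
      linarith
    have hq3 : q x ^ 3 ≤ q1 ^ 3 := pow_le_pow_left₀ hq.le hqq1 3
    have hq5 : q0 ^ 5 ≤ q x ^ 5 := pow_le_pow_left₀ E.q0p.le hqq0 5
    have hq4 : q0 ^ 4 ≤ q x ^ 4 := pow_le_pow_left₀ E.q0p.le hqq0 4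
    have hN3 : 0 ≤ q x ^ 3 * N1 x := by positivity
    have a6 : - (KQ * (q x ^ 3 * N1 x)) ≤ Qv x := (abs_le.1 (E.hQ x)).1
    have a7 : - (q x ^ 3 * N1 x * |gn x|) ≤ q x ^ 3 * N1 x * gn x := by
      rw [← mul_neg]
      exact mul_le_mul_of_nonneg_left (neg_abs_le _) hN3
    have a8 : q x ^ 3 * N1 x * fn x ≤ B * (q x ^ 3 * N1 x) := by
      rw [mul_comm B]
      exact mul_le_mul_of_nonneg_left ((le_abs_self _).trans (E.hfn x)) hN3
    have a9 : (KQ + B) * (q x ^ 3 * N1 x) ≤ r * q0 ^ 5 / 2 * N1 x := by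
      have e1 : (KQ + B) * q x ^ 3 ≤ r * q0 ^ 5 / 2 := by
        have : (KQ + B) * q x ^ 3 ≤ (KQ + B) * q1 ^ 3 :=
          mul_le_mul_of_nonneg_left hq3 (by positivity)
        linarith
      calc (KQ + B) * (q x ^ 3 * N1 x) = (KQ + B) * q x ^ 3 * N1 x := by ring
        _ ≤ _ := mul_le_mul_of_nonneg_right e1 n1
    have a10 : r * q0 ^ 5 * N1 x ≤ r * q x ^ 5 * N1 x :=
      mul_le_mul_of_nonneg_right (mul_le_mul_of_nonneg_left hq5 hr0.le) n1
    have a11 : q x ^ 5 * (N0 x * N1 x) / 2 + q0 ^ 4 * (N0 x * N1 x) ≤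
        2 * k * (q x ^ 4 * (N0 x * N1 x)) := by
      have e1 : q x ^ 5 / 2 + q0 ^ 4 ≤ 2 * k * q x ^ 4 := by
        have e2 : q x ^ 5 ≤ q1 * q x ^ 4 := by
          calc q x ^ 5 = q x * q x ^ 4 := by ring
            _ ≤ _ := mul_le_mul_of_nonneg_right hqq1 (by positivity)
        have e3 : 0 < q x ^ 4 := by positivity
        rw [hk]
        nlinarith
      calc _ = (q x ^ 5 / 2 + q0 ^ 4) * (N0 x * N1 x) := by ring
        _ ≤ (2 * k * q x ^ 4) * (N0 x * N1 x) := mul_le_mul_of_nonneg_right e1 n01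
        _ = _ := by ring
    have a12 : 0 ≤ q x ^ 5 * (N1 x * N1 x) := by positivity
    have eP6 : P6 x = W x + Qv x + (r * q x ^ 5 * N1 x + q x ^ 5 * (N1 x * N1 x) / 2 -
        q x ^ 5 * (N0 x * N1 x) / 2 + q x ^ 3 * N1 x * gn x - q x ^ 3 * N1 x * fn x) - B2 x := by
      simp only [hP6]
      ring
    rw [eP6]
    simp only [Psi, err2]
    have hkA : k * ((q x)⁻¹ * A2 x) = 2 * q1 * ((q x)⁻¹ * A2 x) + (q x)⁻¹ * A2 x := by
      rw [hk]; ring
    linarith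
  have key := integral_mono (μ := μ)
    (f := fun x => Psi q N0 N1 A2 W q0 r x + 2 * k * C * (√(G x) * √(N1 x)))
    (g := fun x => P6 x + (2 * k * P2 x + (4 * k ^ 2 * C ^ 2 / (r * q0 ^ 5) * G x +
        err2 q N1 gn gc F2 k x)))
    ((icont E.cPsi).add ((icont E.csq).const_mul _))
    ((icont c6).add (((icont c2).const_mul _).add (((icont h8).const_mul _).add
      (icont (E.cerr2 k))))) pw
  have k1 := E.cPsi
  have k2 := E.csq
  have k3 := E.cerr2 k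
  have eL : ∫ x, (Psi q N0 N1 A2 W q0 r x + 2 * k * C * (√(G x) * √(N1 x))) ∂μ =
      ∫ x, Psi q N0 N1 A2 W q0 r x ∂μ + 2 * k * C * ∫ x, √(G x) * √(N1 x) ∂μ := by
    rw [iadd k1 (by fun_prop), integral_const_mul]
  have eR : ∫ x, (P6 x + (2 * k * P2 x + (4 * k ^ 2 * C ^ 2 / (r * q0 ^ 5) * G x +
        err2 q N1 gn gc F2 k x))) ∂μ = ∫ x, P6 x ∂μ + (2 * k * ∫ x, P2 x ∂μ +
        (4 * k ^ 2 * C ^ 2 / (r * q0 ^ 5) * ∫ x, G x ∂μ +
          ∫ x, err2 q N1 gn gc F2 k x ∂μ)) := by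
    rw [iadd (by fun_prop) (by fun_prop), iadd (by fun_prop) (by fun_prop),
      iadd (by fun_prop) (by fun_prop)]
    simp only [integral_const_mul]
  rw [eL, eR, j6] at key
  have hk2 : 2 * k * ∫ x, P2 x ∂μ ≤ 2 * k * (C * ∫ x, √(G x) * √(N1 x) ∂μ) :=
    mul_le_mul_of_nonneg_left j2 (by linarith)
  linarith

end Est

end

end Crest.Agent.R235.SwcTaus_312
end

-- ▼ part R235/SwcTausB_312
section

/-!
Row 235 (S0364), PACKAGE SWC, NODE PROD, **TAUS** (helper215 #2370), part B (helper312):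
the bounds with their constants, and the error terms.
-/

set_option autoImplicit false
set_option linter.unusedSectionVars false

open MeasureTheory Set Filter Topology

namespace Crest.Agent.R235.SwcTaus_312

noncomputable section

variable {X : Type*} [TopologicalSpace X] [CompactSpace X] [MeasurableSpace X] [BorelSpace X]
  {μ : Measure X} [IsFiniteMeasureOnCompacts μ]

/-- the constant of the estimate of `∫ Phi`. -/
def Ka (q1 B V : ℝ) : ℝ := 2 * (q1 ^ 2 * B * V) + 1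

/-- the constant of the estimate of `∫ Psi`. -/
def Kb (q0 q1 B V C : ℝ) : ℝ :=
  1 + 4 * (2 * q1 + 1) ^ 2 * C ^ 2 / q0 ^ 5 * (2 / q0 ^ 2 * Ka q1 B V)

/-- the constant of `TAUS`. -/
def Kc (q0 q1 B V C : ℝ) : ℝ :=
  2 / q0 ^ 2 * Ka q1 B V + 2 / q0 ^ 4 * Ka q1 B V + 4 / q0 ^ 5 * Kb q0 q1 B V C +
    Kb q0 q1 B V C + q1 * Kb q0 q1 B V C + (q0 ^ 4)⁻¹ * Kb q0 q1 B V C

theorem Ka_pos {q1 B V : ℝ} (hB : 0 ≤ B) (hV : 0 ≤ V) : 0 < Ka q1 B V := by
  unfold Ka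
  positivity

theorem Kb_pos {q0 q1 B V C : ℝ} (h0 : 0 < q0) (hB : 0 ≤ B) (hV : 0 ≤ V) :
    0 < Kb q0 q1 B V C := by
  have := Ka_pos (q1 := q1) hB hV
  unfold Kb
  positivity

theorem Kc_pos {q0 q1 B V C : ℝ} (h0 : 0 < q0) (h1 : 0 ≤ q1) (hB : 0 ≤ B) (hV : 0 ≤ V) :
    0 < Kc q0 q1 B V C := by
  have := Ka_pos (q1 := q1) hB hV
  have := Kb_pos (q1 := q1) (C := C) h0 hB hV
  unfold Kc
  positivity

namespace Est

variable {q G N0 N1 gn gc fn F2 A2 B2 AB W Qv : X → ℝ} {q0 q1 B KQ r C : ℝ}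

theorem intPhi (E : Est μ q G N0 N1 gn gc fn F2 A2 B2 AB W Qv q0 q1 B KQ r C)
    (hB : 0 ≤ B) (h1r : 1 ≤ r) (hr : 4 * C ^ 2 ≤ r * q0 ^ 6)
    (he : ∫ x, err1 q N0 gn gc F2 r x ∂μ ≤ 1) :
    ∫ x, Phi q G N0 N1 r x ∂μ ≤ Ka q1 B (μ.real univ) * r := by
  have h1 := E.step5 hr
  have hcq := E.cq
  have hcf := E.cfn
  have h2 : ∫ x, q x ^ 2 * fn x ∂μ ≤ ∫ _, q1 ^ 2 * B ∂μ := by
    refine integral_mono (icont (by fun_prop)) (icont continuous_const) fun x => ?_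
    have a1 : q x ^ 2 ≤ q1 ^ 2 := pow_le_pow_left₀ (E.qpos x).le (E.hq x).2 2
    have a2 : fn x ≤ B := (le_abs_self _).trans (E.hfn x)
    calc q x ^ 2 * fn x ≤ q x ^ 2 * B := mul_le_mul_of_nonneg_left a2 (by positivity)
      _ ≤ q1 ^ 2 * B := mul_le_mul_of_nonneg_right a1 hB
  rw [integral_const, smul_eq_mul] at h2
  have h3 : 2 * r * ∫ x, q x ^ 2 * fn x ∂μ ≤ 2 * r * (μ.real univ * (q1 ^ 2 * B)) :=
    mul_le_mul_of_nonneg_left h2 (by linarith)
  unfold Ka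
  nlinarith

theorem intG (E : Est μ q G N0 N1 gn gc fn F2 A2 B2 AB W Qv q0 q1 B KQ r C)
    (hB : 0 ≤ B) (h1r : 1 ≤ r) (hr : 4 * C ^ 2 ≤ r * q0 ^ 6)
    (he : ∫ x, err1 q N0 gn gc F2 r x ∂μ ≤ 1) :
    ∫ x, G x ∂μ ≤ 2 / q0 ^ 2 * Ka q1 B (μ.real univ) * r := by
  have h1 := E.intPhi hB h1r hr he
  have h0 := E.q0p
  have h2 : ∫ x, q0 ^ 2 / 2 * G x ∂μ ≤ ∫ x, Phi q G N0 N1 r x ∂μ := by
    refine integral_mono ((icont E.cG).const_mul _) (icont E.cPhi) fun x => ?_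
    have a1 : q0 ^ 2 ≤ q x ^ 2 := pow_le_pow_left₀ h0.le (E.hq x).1 2
    have a2 := E.qpos x
    have a3 := E.N00 x
    have a4 := E.N10 x
    have a5 : 0 ≤ q x ^ 4 / 2 * ((2 * r - N0 x) ^ 2 + N1 x * (r + 3 * N0 x)) := by
      have := E.rp
      positivity
    have a6 : q0 ^ 2 / 2 * G x ≤ q x ^ 2 / 2 * G x :=
      mul_le_mul_of_nonneg_right (by linarith) (E.G0 x)
    unfold Phi
    linarith
  rw [integral_const_mul] at h2
  have h3 : q0 ^ 2 / 2 * ∫ x, G x ∂μ ≤ Ka q1 B (μ.real univ) * r := h2.trans h1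
  have h4 : ∫ x, G x ∂μ = 2 / q0 ^ 2 * (q0 ^ 2 / 2 * ∫ x, G x ∂μ) := by field_simp
  rw [h4, mul_assoc]
  exact mul_le_mul_of_nonneg_left h3 (by positivity)

theorem intD (E : Est μ q G N0 N1 gn gc fn F2 A2 B2 AB W Qv q0 q1 B KQ r C)
    (hB : 0 ≤ B) (h1r : 1 ≤ r) (hr : 4 * C ^ 2 ≤ r * q0 ^ 6)
    (he : ∫ x, err1 q N0 gn gc F2 r x ∂μ ≤ 1) :
    ∫ x, (2 * r - N0 x) ^ 2 ∂μ ≤ 2 / q0 ^ 4 * Ka q1 B (μ.real univ) * r := by
  have h1 := E.intPhi hB h1r hr he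
  have h0 := E.q0p
  have hN := E.cN0
  have h2 : ∫ x, q0 ^ 4 / 2 * (2 * r - N0 x) ^ 2 ∂μ ≤ ∫ x, Phi q G N0 N1 r x ∂μ := by
    refine integral_mono (icont (by fun_prop)) (icont E.cPhi) fun x => ?_
    have a1 : q0 ^ 4 ≤ q x ^ 4 := pow_le_pow_left₀ h0.le (E.hq x).1 4
    have a2 := E.qpos x
    have a3 := E.N00 x
    have a4 := E.N10 x
    have a7 := E.G0 x
    have a5 : 0 ≤ q x ^ 4 / 2 * (N1 x * (r + 3 * N0 x)) := by
      have := E.rp
      positivity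
    have a8 : 0 ≤ q x ^ 2 / 2 * G x := by positivity
    have a6 : q0 ^ 4 / 2 * (2 * r - N0 x) ^ 2 ≤ q x ^ 4 / 2 * (2 * r - N0 x) ^ 2 :=
      mul_le_mul_of_nonneg_right (by linarith) (sq_nonneg _)
    unfold Phi
    linarith
  rw [integral_const_mul] at h2
  have h3 := h2.trans h1
  have h4 : ∫ x, (2 * r - N0 x) ^ 2 ∂μ =
      2 / q0 ^ 4 * (q0 ^ 4 / 2 * ∫ x, (2 * r - N0 x) ^ 2 ∂μ) := by field_simp
  rw [h4, mul_assoc]
  exact mul_le_mul_of_nonneg_left h3 (by positivity)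

theorem intPsi (E : Est μ q G N0 N1 gn gc fn F2 A2 B2 AB W Qv q0 q1 B KQ r C) (hKQ : 0 ≤ KQ)
    (hB : 0 ≤ B) (h1r : 1 ≤ r) (hr : 4 * C ^ 2 ≤ r * q0 ^ 6)
    (hr5 : 2 * ((KQ + B) * q1 ^ 3) ≤ r * q0 ^ 5)
    (he : ∫ x, err1 q N0 gn gc F2 r x ∂μ ≤ 1)
    (he2 : ∫ x, err2 q N1 gn gc F2 (2 * q1 + 1) x ∂μ ≤ 1) :
    ∫ x, Psi q N0 N1 A2 W q0 r x ∂μ ≤ Kb q0 q1 B (μ.real univ) C := by
  have h1 := E.step7 hKQ hB hr5 rfl
  have h2 := E.intG hB h1r hr he
  have h0 := E.q0p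
  have hr0 := E.rp
  have h3 : 4 * (2 * q1 + 1) ^ 2 * C ^ 2 / (r * q0 ^ 5) * ∫ x, G x ∂μ ≤
      4 * (2 * q1 + 1) ^ 2 * C ^ 2 / (r * q0 ^ 5) *
        (2 / q0 ^ 2 * Ka q1 B (μ.real univ) * r) :=
    mul_le_mul_of_nonneg_left h2 (by positivity)
  have h4 : 4 * (2 * q1 + 1) ^ 2 * C ^ 2 / (r * q0 ^ 5) *
        (2 / q0 ^ 2 * Ka q1 B (μ.real univ) * r) =
      4 * (2 * q1 + 1) ^ 2 * C ^ 2 / q0 ^ 5 * (2 / q0 ^ 2 * Ka q1 B (μ.real univ)) := by
    field_simp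
  unfold Kb
  linarith

/-- **the bounds** -/
theorem bounds (E : Est μ q G N0 N1 gn gc fn F2 A2 B2 AB W Qv q0 q1 B KQ r C) (hKQ : 0 ≤ KQ)
    (hB : 0 ≤ B) (hq1 : 0 ≤ q1) (h1r : 1 ≤ r) (hr : 4 * C ^ 2 ≤ r * q0 ^ 6)
    (hr5 : 2 * ((KQ + B) * q1 ^ 3) ≤ r * q0 ^ 5)
    (he : ∫ x, err1 q N0 gn gc F2 r x ∂μ ≤ 1)
    (he2 : ∫ x, err2 q N1 gn gc F2 (2 * q1 + 1) x ∂μ ≤ 1) :
    ∫ x, G x ∂μ ≤ Kc q0 q1 B (μ.real univ) C * r ∧
    ∫ x, (2 * r - N0 x) ^ 2 ∂μ ≤ Kc q0 q1 B (μ.real univ) C * r ∧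
    r * ∫ x, N1 x ∂μ ≤ Kc q0 q1 B (μ.real univ) C ∧
    ∫ x, W x ∂μ ≤ Kc q0 q1 B (μ.real univ) C ∧
    ∫ x, A2 x ∂μ ≤ Kc q0 q1 B (μ.real univ) C ∧
    ∫ x, N0 x * N1 x ∂μ ≤ Kc q0 q1 B (μ.real univ) C := by
  have h0 := E.q0p
  have hr0 := E.rp
  have hV : 0 ≤ μ.real univ := measureReal_nonneg
  have pa := Ka_pos (q1 := q1) hB hV
  have pb := Kb_pos (q1 := q1) (C := C) h0 hB hV
  have h1 := E.intG hB h1r hr he
  have h2 := E.intD hB h1r hr he
  have h3 := E.intPsi hKQ hB h1r hr hr5 he he2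
  set A := Ka q1 B (μ.real univ) with hA
  set D := Kb q0 q1 B (μ.real univ) C with hD
  have t1 : 0 ≤ 2 / q0 ^ 2 * A := by positivity
  have t2 : 0 ≤ 2 / q0 ^ 4 * A := by positivity
  have t3 : 0 ≤ 4 / q0 ^ 5 * D := by positivity
  have t4 : 0 ≤ D := pb.le
  have t5 : 0 ≤ q1 * D := by positivity
  have t6 : 0 ≤ (q0 ^ 4)⁻¹ * D := by positivity
  have eK : Kc q0 q1 B (μ.real univ) C = 2 / q0 ^ 2 * A + 2 / q0 ^ 4 * A + 4 / q0 ^ 5 * D +
    D + q1 * D + (q0 ^ 4)⁻¹ * D := rfl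
  rw [eK]
  have hW := E.cW
  have hA2 := E.cA2
  have hN1 := E.cN1
  have hN0 := E.cN0
  have hqi := E.cqi
  have mono : ∀ {f : X → ℝ}, Continuous f → (∀ x, f x ≤ Psi q N0 N1 A2 W q0 r x) →
      ∫ x, f x ∂μ ≤ D := fun hf h => (integral_mono (icont hf) (icont E.cPsi) h).trans h3
  have p1 : ∀ x, 0 ≤ (q x)⁻¹ * A2 x := fun x => mul_nonneg (inv_pos.2 (E.qpos x)).le (E.A20 x)
  have p2 : ∀ x, 0 ≤ r * q0 ^ 5 / 4 * N1 x := fun x =>
    mul_nonneg (by positivity) (E.N10 x)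
  have p3 : ∀ x, 0 ≤ q0 ^ 4 * (N0 x * N1 x) := fun x =>
    mul_nonneg (by positivity) (mul_nonneg (E.N00 x) (E.N10 x))
  refine ⟨?_, ?_, ?_, ?_, ?_, ?_⟩
  · refine h1.trans (mul_le_mul_of_nonneg_right ?_ hr0.le)
    linarith
  · refine h2.trans (mul_le_mul_of_nonneg_right ?_ hr0.le)
    linarith
  · have b1 : ∫ x, r * q0 ^ 5 / 4 * N1 x ∂μ ≤ D := mono (by fun_prop) fun x => by
      have := E.W0 x
      have := p1 x
      have := p3 x
      unfold Psi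
      linarith
    rw [integral_const_mul] at b1
    have b2 : r * ∫ x, N1 x ∂μ = 4 / q0 ^ 5 * (r * q0 ^ 5 / 4 * ∫ x, N1 x ∂μ) := by field_simp
    have b3 : r * ∫ x, N1 x ∂μ ≤ 4 / q0 ^ 5 * D := by
      rw [b2]
      exact mul_le_mul_of_nonneg_left b1 (by positivity)
    linarith
  · have b1 : ∫ x, W x ∂μ ≤ D := mono hW fun x => by
      have := p1 x
      have := p2 x
      have := p3 x
      unfold Psi
      linarith
    linarith
  · have b1 : ∫ x, (q x)⁻¹ * A2 x ∂μ ≤ D := mono (by fun_prop) fun x => by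
      have := E.W0 x
      have := p2 x
      have := p3 x
      unfold Psi
      linarith
    have b2 : ∫ x, A2 x ∂μ ≤ ∫ x, q1 * ((q x)⁻¹ * A2 x) ∂μ := by
      refine integral_mono (icont hA2) (icont (by fun_prop)) fun x => ?_
      have hq := E.qpos x
      have e2 : A2 x = q x * ((q x)⁻¹ * A2 x) := by
        rw [← mul_assoc, mul_inv_cancel₀ hq.ne', one_mul]
      calc A2 x = q x * ((q x)⁻¹ * A2 x) := e2
        _ ≤ _ := mul_le_mul_of_nonneg_right (E.hq x).2 (p1 x)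
    rw [integral_const_mul] at b2
    have b3 := mul_le_mul_of_nonneg_left b1 hq1
    linarith
  · have b1 : ∫ x, q0 ^ 4 * (N0 x * N1 x) ∂μ ≤ D := mono (by fun_prop) fun x => by
      have := E.W0 x
      have := p1 x
      have := p2 x
      unfold Psi
      linarith
    rw [integral_const_mul] at b1
    have b2 : ∫ x, N0 x * N1 x ∂μ = (q0 ^ 4)⁻¹ * (q0 ^ 4 * ∫ x, N0 x * N1 x ∂μ) := by field_simp
    have b3 : ∫ x, N0 x * N1 x ∂μ ≤ (q0 ^ 4)⁻¹ * D := by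
      rw [b2]
      exact mul_le_mul_of_nonneg_left b1 (by positivity)
    linarith

end Est

/-- **the error terms are small** -/
theorem err_small {q0 q1 r V L : ℝ} (h0 : 0 < q0) (h1 : 0 ≤ q1) (hr : 0 < r) (hV : 0 ≤ V) :
    ∃ ε : ℝ, 0 < ε ∧ ∀ q N0 N1 gn gc F2 g2 u2 : X → ℝ, Continuous q → Continuous N0 →
      Continuous N1 → Continuous gn → Continuous gc → Continuous F2 → Continuous g2 →
      Continuous u2 → (∀ x, q0 ≤ q x ∧ q x ≤ q1) → (∀ x, 0 ≤ N0 x) → (∀ x, 0 ≤ N1 x) →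
      (∀ x, 0 ≤ F2 x) → (∀ x, 0 ≤ g2 x) → (∀ x, 0 ≤ u2 x) →
      (∀ x, q x ^ 3 * (N0 x + N1 x) ≤ u2 x) → (∀ x, |gn x| ≤ √(g2 x)) →
      (∀ x, |gc x| ≤ √(g2 x) * (N0 x + N1 x)) → μ.real univ ≤ V →
      ∫ x, F2 x ∂μ ≤ ε → ∫ x, g2 x ∂μ ≤ ε → ∫ x, u2 x ^ 2 ∂μ ≤ L →
      ∫ x, Est.err1 q N0 gn gc F2 r x ∂μ ≤ 1 ∧
        ∫ x, Est.err2 q N1 gn gc F2 (2 * q1 + 1) x ∂μ ≤ 1 := by
  set k := 2 * q1 + 1 with hk
  have hk0 : 0 < k := by linarith
  set c : ℝ := 3 + k * q0⁻¹ + q0⁻¹ + 3 * q1 ^ 2 * (q0 ^ 3)⁻¹ + 2 * r * q1 ^ 2 +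
    2 * k * q1 ^ 2 * (q0 ^ 3)⁻¹ with hc
  have hc0 : 0 < c := by positivity
  set δ : ℝ := 1 / (4 * c * (V + |L| + 1)) with hδ
  have hVL : 0 < V + |L| + 1 := by positivity
  have hδ0 : 0 < δ := by positivity
  refine ⟨1 / (2 * c * (1 + 1 / (4 * δ))), by positivity, ?_⟩
  intro q N0 N1 gn gc F2 g2 u2 cq cN0 cN1 cgn cgc cF2 cg2 cu2 hq hN0 hN1 hF2 hg2 hu2 hqu hgn hgc hVV
    iF ig iu
  set ε := 1 / (2 * c * (1 + 1 / (4 * δ))) with hε
  have hqp : ∀ x, 0 < q x := fun x => h0.trans_le (hq x).1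
  have cqi : Continuous fun x => (q x)⁻¹ := cq.inv₀ fun x => (hqp x).ne'
  -- the integral of the dominating density
  have key : ∀ e : X → ℝ, Continuous e → (∀ x, e x ≤ c * (F2 x + √(g2 x) * (1 + u2 x))) →
      ∫ x, e x ∂μ ≤ 1 := by
    intro e ce he
    have a1 : ∀ x, e x ≤ c * (F2 x + (1 / (4 * δ) * g2 x + 2 * δ * (1 + u2 x ^ 2))) := by
      intro x
      refine (he x).trans (mul_le_mul_of_nonneg_left ?_ hc0.le)
      have b1 : √(g2 x) ^ 2 = g2 x := Real.sq_sqrt (hg2 x)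
      have b2 : √(g2 x) * (1 + u2 x) ≤ 1 / (4 * δ) * g2 x + δ * (1 + u2 x) ^ 2 := by
        have b3 : 0 ≤ (√(g2 x) - 2 * δ * (1 + u2 x)) ^ 2 := sq_nonneg _
        have b4 : 1 / (4 * δ) * g2 x + δ * (1 + u2 x) ^ 2 - √(g2 x) * (1 + u2 x) =
            1 / (4 * δ) * (√(g2 x) - 2 * δ * (1 + u2 x)) ^ 2 := by
          rw [← b1]
          rw [Real.sqrt_sq (Real.sqrt_nonneg _)]
          field_simp
          ring
        have b5 : 0 ≤ 1 / (4 * δ) * (√(g2 x) - 2 * δ * (1 + u2 x)) ^ 2 := by positivity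
        linarith
      have b6 : (1 + u2 x) ^ 2 ≤ 2 * (1 + u2 x ^ 2) := by nlinarith [sq_nonneg (1 - u2 x)]
      have b7 := mul_le_mul_of_nonneg_left b6 hδ0.le
      linarith
    have a2 : ∫ x, e x ∂μ ≤
        ∫ x, c * (F2 x + (1 / (4 * δ) * g2 x + 2 * δ * (1 + u2 x ^ 2))) ∂μ :=
      integral_mono (icont ce) (icont (by fun_prop)) a1
    have a3 : ∫ x, c * (F2 x + (1 / (4 * δ) * g2 x + 2 * δ * (1 + u2 x ^ 2))) ∂μ =
        c * (∫ x, F2 x ∂μ + (1 / (4 * δ) * ∫ x, g2 x ∂μ +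
          2 * δ * (μ.real univ + ∫ x, u2 x ^ 2 ∂μ))) := by
      rw [integral_const_mul, iadd (by fun_prop) (by fun_prop), iadd (by fun_prop) (by fun_prop),
        integral_const_mul, integral_const_mul, iadd (by fun_prop) (by fun_prop), integral_const,
        smul_eq_mul, mul_one]
    rw [a3] at a2
    have a4 : 1 / (4 * δ) * ∫ x, g2 x ∂μ ≤ 1 / (4 * δ) * ε :=
      mul_le_mul_of_nonneg_left ig (by positivity)
    have a5 : 2 * δ * (μ.real univ + ∫ x, u2 x ^ 2 ∂μ) ≤ 2 * δ * (V + |L| + 1) := by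
      refine mul_le_mul_of_nonneg_left ?_ (by positivity)
      have := le_abs_self L
      linarith
    have a6 : c * (∫ x, F2 x ∂μ + (1 / (4 * δ) * ∫ x, g2 x ∂μ +
          2 * δ * (μ.real univ + ∫ x, u2 x ^ 2 ∂μ))) ≤
        c * (ε + (1 / (4 * δ) * ε + 2 * δ * (V + |L| + 1))) :=
      mul_le_mul_of_nonneg_left (by linarith) hc0.le
    have a7 : c * (ε + (1 / (4 * δ) * ε + 2 * δ * (V + |L| + 1))) = 1 := by
      have e1 : c * (ε + 1 / (4 * δ) * ε) = 1 / 2 := by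
        have : c * (ε + 1 / (4 * δ) * ε) = c * (1 + 1 / (4 * δ)) * ε := by ring
        rw [this, hε]
        have h5 : 0 < 1 + 1 / (4 * δ) := by positivity
        field_simp
      have e2 : c * (2 * δ * (V + |L| + 1)) = 1 / 2 := by
        rw [hδ]
        field_simp
        norm_num
      calc _ = c * (ε + 1 / (4 * δ) * ε) + c * (2 * δ * (V + |L| + 1)) := by ring
        _ = 1 := by rw [e1, e2]; norm_num
    linarith
  -- pointwise
  have hq1 : ∀ x, q x ^ 2 ≤ q1 ^ 2 := fun x => pow_le_pow_left₀ (hqp x).le (hq x).2 2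
  have hqi : ∀ x, (q x)⁻¹ ≤ q0⁻¹ := fun x => inv_anti₀ h0 (hq x).1
  have hN : ∀ x, N0 x + N1 x ≤ (q0 ^ 3)⁻¹ * u2 x := by
    intro x
    have b1 : q0 ^ 3 * (N0 x + N1 x) ≤ u2 x :=
      (mul_le_mul_of_nonneg_right (pow_le_pow_left₀ h0.le (hq x).1 3)
        (add_nonneg (hN0 x) (hN1 x))).trans (hqu x)
    have b2 : N0 x + N1 x = (q0 ^ 3)⁻¹ * (q0 ^ 3 * (N0 x + N1 x)) := by field_simp
    rw [b2]
    exact mul_le_mul_of_nonneg_left b1 (by positivity)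
  have common : ∀ x, 0 ≤ √(g2 x) ∧ q x ^ 2 * |gc x| ≤ q1 ^ 2 * (q0 ^ 3)⁻¹ * (√(g2 x) * u2 x) ∧
      q x ^ 2 * |gn x| ≤ q1 ^ 2 * √(g2 x) ∧ (q x)⁻¹ * F2 x ≤ q0⁻¹ * F2 x ∧
      q x ^ 2 * |gn x| * N0 x ≤ q1 ^ 2 * (q0 ^ 3)⁻¹ * (√(g2 x) * u2 x) ∧
      q x ^ 3 * N1 x * |gn x| ≤ √(g2 x) * u2 x := by
    intro x
    have s0 := Real.sqrt_nonneg (g2 x)
    have n0 := hN0 x
    have n1 := hN1 x
    have hqx := hqp x
    refine ⟨s0, ?_, ?_, ?_, ?_, ?_⟩
    · calc q x ^ 2 * |gc x| ≤ q1 ^ 2 * (√(g2 x) * (N0 x + N1 x)) :=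
            mul_le_mul (hq1 x) (hgc x) (abs_nonneg _) (by positivity)
        _ ≤ q1 ^ 2 * (√(g2 x) * ((q0 ^ 3)⁻¹ * u2 x)) := by
            gcongr
            exact hN x
        _ = _ := by ring
    · exact mul_le_mul (hq1 x) (hgn x) (abs_nonneg _) (by positivity)
    · exact mul_le_mul_of_nonneg_right (hqi x) (hF2 x)
    · calc q x ^ 2 * |gn x| * N0 x ≤ q1 ^ 2 * √(g2 x) * (N0 x + N1 x) := by
            refine mul_le_mul (mul_le_mul (hq1 x) (hgn x) (abs_nonneg _) (by positivity))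
              (by linarith) n0 (by positivity)
        _ ≤ q1 ^ 2 * √(g2 x) * ((q0 ^ 3)⁻¹ * u2 x) := by
            gcongr
            exact hN x
        _ = _ := by ring
    · calc q x ^ 3 * N1 x * |gn x| ≤ u2 x * √(g2 x) := by
            refine mul_le_mul ?_ (hgn x) (abs_nonneg _) (hu2 x)
            have : q x ^ 3 * N1 x ≤ q x ^ 3 * (N0 x + N1 x) :=
              mul_le_mul_of_nonneg_left (by linarith) (by positivity)
            exact this.trans (hqu x)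
        _ = _ := mul_comm _ _
  have hq03 : 0 ≤ q1 ^ 2 * (q0 ^ 3)⁻¹ := by positivity
  constructor
  · refine key _ ?_ fun x => ?_
    · unfold Est.err1
      fun_prop
    · obtain ⟨b0, b1, b2, b3, b4, b5⟩ := common x
      have u0 := hu2 x
      have f0 := hF2 x
      have su : 0 ≤ √(g2 x) * u2 x := mul_nonneg b0 u0
      have b6 : 2 * r * (q x ^ 2 * |gn x|) ≤ 2 * r * (q1 ^ 2 * √(g2 x)) :=
        mul_le_mul_of_nonneg_left b2 (by positivity)
      have d1 : q0⁻¹ * F2 x ≤ c * F2 x := by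
        refine mul_le_mul_of_nonneg_right ?_ f0
        have : 0 ≤ 3 + k * q0⁻¹ + 3 * q1 ^ 2 * (q0 ^ 3)⁻¹ + 2 * r * q1 ^ 2 +
          2 * k * q1 ^ 2 * (q0 ^ 3)⁻¹ := by positivity
        linarith
      have d2 : 2 * r * q1 ^ 2 * √(g2 x) ≤ c * √(g2 x) := by
        refine mul_le_mul_of_nonneg_right ?_ b0
        have : 0 ≤ 3 + k * q0⁻¹ + q0⁻¹ + 3 * q1 ^ 2 * (q0 ^ 3)⁻¹ +
          2 * k * q1 ^ 2 * (q0 ^ 3)⁻¹ := by positivity
        linarith
      have d3 : 3 * q1 ^ 2 * (q0 ^ 3)⁻¹ * (√(g2 x) * u2 x) ≤ c * (√(g2 x) * u2 x) := by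
        refine mul_le_mul_of_nonneg_right ?_ su
        have : 0 ≤ 3 + k * q0⁻¹ + q0⁻¹ + 2 * r * q1 ^ 2 +
          2 * k * q1 ^ 2 * (q0 ^ 3)⁻¹ := by positivity
        linarith
      unfold Est.err1
      linarith
  · refine key _ ?_ fun x => ?_
    · unfold Est.err2
      fun_prop
    · obtain ⟨b0, b1, b2, b3, b4, b5⟩ := common x
      have u0 := hu2 x
      have f0 := hF2 x
      have su : 0 ≤ √(g2 x) * u2 x := mul_nonneg b0 u0
      have b6 : k * ((q x)⁻¹ * F2 x + 2 * (q x ^ 2 * |gc x|)) ≤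
          k * (q0⁻¹ * F2 x + 2 * (q1 ^ 2 * (q0 ^ 3)⁻¹ * (√(g2 x) * u2 x))) :=
        mul_le_mul_of_nonneg_left (by linarith) hk0.le
      have d1 : (2 + k * q0⁻¹) * F2 x ≤ c * F2 x := by
        refine mul_le_mul_of_nonneg_right ?_ f0
        have : 0 ≤ q0⁻¹ + 3 * q1 ^ 2 * (q0 ^ 3)⁻¹ + 2 * r * q1 ^ 2 +
          2 * k * q1 ^ 2 * (q0 ^ 3)⁻¹ := by positivity
        linarith
      have d2 : 0 ≤ c * √(g2 x) := by positivity
      have d3 : (1 + 2 * k * q1 ^ 2 * (q0 ^ 3)⁻¹) * (√(g2 x) * u2 x) ≤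
          c * (√(g2 x) * u2 x) := by
        refine mul_le_mul_of_nonneg_right ?_ su
        have : 0 ≤ k * q0⁻¹ + q0⁻¹ + 3 * q1 ^ 2 * (q0 ^ 3)⁻¹ + 2 * r * q1 ^ 2 := by positivity
        linarith
      unfold Est.err2
      linarith

end

end Crest.Agent.R235.SwcTaus_312
end

-- ▼ part R235/SwcTausC_312
section

/-!
Row 235 (S0364), PACKAGE SWC, NODE PROD, **TAUS** (helper215 #2370), part C (helper312):
the algebra of the two components `s = cE`, `s' = cE'`.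
-/

set_option autoImplicit false
set_option maxSynthPendingDepth 3
set_option linter.unusedSectionVars false

open scoped ContDiff ENNReal NNReal Topology Manifold Bundle RealInnerProductSpace
open MeasureTheory Set Filter Metric Bundle

universe v

namespace Crest.Agent.R235.SwcTaus_312

open Crest.Agent.R249.Tv57 Crest.Agent.R247.Ms322 Crest.Agent.R247.Dir593
open Crest.Agent.R235.SWDefs_53 Crest.Agent.R235.Fs4_546 Crest.Agent.R235.SwcProd_215
open Crest.Agent.R235.SWUni_312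

noncomputable section

local notation "ipp" => Crest.Agent.R249.Tv57.ip 4

variable {M : Type v} [MetricSpace M] [CompactSpace M] [ConnectedSpace M]
  [ChartedSpace (EuclideanSpace ℝ (Fin 4)) M] [IsManifold (𝓡 4) ∞ M]
  [RiemannianBundle (fun p : M => TangentSpace (𝓡 4) p)]
  [IsContMDiffRiemannianBundle (𝓡 4) ∞ (EuclideanSpace ℝ (Fin 4))
    (fun p : M => TangentSpace (𝓡 4) p)]
  [IsRiemannianManifold (𝓡 4) M] [MeasurableSpace M] [BorelSpace M]
  [SecondCountableTopology M] [Nonempty M]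
  {κ0 κ1 κT : Type} [Fintype κ0] [Fintype κ1] [Fintype κT]
  {S : SWS M κ0 κ1 κT} {τ : TD M κT} {C : ℝ}

/-! ### at a point -/

/-- the quadratic form of `ρ_k`. -/
def rb (S : SWS M κ0 κ1 κT) (k : Fin 3) (z : M) (x y : κ0 → ℝ) : ℝ :=
  ∑ a, ∑ b, S.rho k a b z * x a * y b

theorem rb_comm (hS : S.OK) (k : Fin 3) (z : M) (x y : κ0 → ℝ) :
    rb S k z x y = rb S k z y x := by
  unfold rb
  rw [Finset.sum_comm]
  refine Finset.sum_congr rfl fun b _ => Finset.sum_congr rfl fun a _ => ?_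
  rw [hS.symrho k a b z]
  ring

theorem rb_add (hS : S.OK) (k : Fin 3) (z : M) (x y : κ0 → ℝ) :
    rb S k z (fun a => x a + y a) (fun a => x a + y a) =
      rb S k z x x + 2 * rb S k z x y + rb S k z y y := by
  have h := rb_comm hS k z x y
  have e : rb S k z (fun a => x a + y a) (fun a => x a + y a) =
      rb S k z x x + rb S k z x y + rb S k z y x + rb S k z y y := by
    unfold rb
    simp only [← Finset.sum_add_distrib]
    refine Finset.sum_congr rfl fun a _ => Finset.sum_congr rfl fun b _ => ?_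
    ring
  rw [e, ← h]
  ring

theorem rb_smul (k : Fin 3) (z : M) (c : ℝ) (x : κ0 → ℝ) :
    rb S k z (fun a => c * x a) (fun a => c * x a) = c * c * rb S k z x x := by
  unfold rb
  rw [Finset.mul_sum]
  refine Finset.sum_congr rfl fun a _ => ?_
  rw [Finset.mul_sum]
  exact Finset.sum_congr rfl fun b _ => by ring

theorem sum_n_rb (z : M) (x y : κ0 → ℝ) : ∑ k, τ.n k z * rb S k z x y =
    ∑ a, x a * ∑ k, ∑ b, τ.n k z * S.rho k a b z * y b := by
  unfold rb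
  have e : ∀ a, x a * ∑ k, ∑ b, τ.n k z * S.rho k a b z * y b =
      ∑ k, τ.n k z * ∑ b, S.rho k a b z * x a * y b := by
    intro a
    rw [Finset.mul_sum]
    refine Finset.sum_congr rfl fun k _ => ?_
    rw [Finset.mul_sum, Finset.mul_sum]
    exact Finset.sum_congr rfl fun b _ => by ring
  simp only [e]
  rw [Finset.sum_comm]
  refine Finset.sum_congr rfl fun k _ => ?_
  rw [Finset.mul_sum]

/-- the data of the two components at a point. -/
structure Pt (S : SWS M κ0 κ1 κT) (τ : TD M κT) (z : M) (s s' : κ0 → ℝ) : Prop where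
  p0 : ∀ y, ∑ y', S.D0.p y y' z * s y' = s y
  p1 : ∀ y, ∑ y', S.D0.p y y' z * s' y' = s' y
  R0 : ∀ y, ∑ k, ∑ y', τ.n k z * S.rho k y y' z * s y' = - s y
  R1 : ∀ y, ∑ k, ∑ y', τ.n k z * S.rho k y y' z * s' y' = s' y

namespace Pt

variable {z : M} {s s' : κ0 → ℝ}

theorem orth (h : Pt S τ z s s') (hS : S.OK) : ∑ a, s a * s' a = 0 := by
  have h1 := sum_n_rb (S := S) (τ := τ) z s s'
  have h2 := sum_n_rb (S := S) (τ := τ) z s' s
  simp only [h.R1] at h1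
  simp only [h.R0] at h2
  simp only [rb_comm hS _ z s' s] at h2
  rw [h1] at h2
  have e : ∑ a, s' a * - s a = - ∑ a, s a * s' a := by
    rw [← Finset.sum_neg_distrib]
    exact Finset.sum_congr rfl fun a _ => by ring
  rw [e] at h2
  linarith

theorem nc (h : Pt S τ z s s') (hS : S.OK) : ∑ k, τ.n k z * rb S k z s s' = 0 := by
  rw [sum_n_rb (S := S) (τ := τ) z s s']
  simp only [h.R1]
  exact h.orth hS

theorem rb0 (h : Pt S τ z s s') (hS : S.OK) (hτ : τ.OK S C) (k : Fin 3) :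
    rb S k z s s = - ((∑ a, s a ^ 2) * τ.n k z) := by
  refine eq_neg_of_sums (q := fun k => rb S k z s s) (n := fun k => τ.n k z)
    (c := ∑ a, s a ^ 2) ?_ ?_ (hτ.norm z) k
  · rw [sum_n_rb (S := S) (τ := τ) z s s]
    simp only [h.R0]
    rw [← Finset.sum_neg_distrib]
    exact Finset.sum_congr rfl fun a _ => by ring
  · exact hS.fierz z s h.p0

theorem rb1 (h : Pt S τ z s s') (hS : S.OK) (hτ : τ.OK S C) (k : Fin 3) :
    rb S k z s' s' = (∑ a, s' a ^ 2) * τ.n k z := by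
  have := eq_neg_of_sums (q := fun k => rb S k z s' s') (n := fun k => τ.n k z)
    (c := - ∑ a, s' a ^ 2) ?_ ?_ (hτ.norm z) k
  · rw [this]; ring
  · rw [sum_n_rb (S := S) (τ := τ) z s' s']
    simp only [h.R1]
    rw [neg_neg]
    exact Finset.sum_congr rfl fun a _ => by ring
  · rw [neg_sq]
    exact hS.fierz z s' h.p1

theorem nsq (h : Pt S τ z s s') (hS : S.OK) :
    ∑ a, (s a + s' a) ^ 2 = ∑ a, s a ^ 2 + ∑ a, s' a ^ 2 := by
  have e : ∀ a, (s a + s' a) ^ 2 = s a ^ 2 + 2 * (s a * s' a) + s' a ^ 2 := fun a => by ring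
  simp only [e, Finset.sum_add_distrib, ← Finset.mul_sum, h.orth hS]
  ring

theorem csq (h : Pt S τ z s s') (hS : S.OK) (hτ : τ.OK S C) :
    ∑ k, rb S k z s s' ^ 2 = (∑ a, s a ^ 2) * ∑ a, s' a ^ 2 := by
  have h1 := hS.fierz z (fun a => s a + s' a) (fun y => by
    simp only [mul_add, Finset.sum_add_distrib, h.p0, h.p1])
  have h2 : ∀ k, ∑ y, ∑ y', S.rho k y y' z * (s y + s' y) * (s y' + s' y') =
      ((∑ a, s' a ^ 2) - ∑ a, s a ^ 2) * τ.n k z + 2 * rb S k z s s' := by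
    intro k
    have e := rb_add hS k z s s'
    rw [h.rb0 hS hτ k, h.rb1 hS hτ k] at e
    have e' : ∑ y, ∑ y', S.rho k y y' z * (s y + s' y) * (s y' + s' y') =
      rb S k z (fun a => s a + s' a) (fun a => s a + s' a) := rfl
    rw [e', e]
    ring
  simp only [h2] at h1
  rw [h.nsq hS] at h1
  have h3 : ∀ k, (((∑ a, s' a ^ 2) - ∑ a, s a ^ 2) * τ.n k z + 2 * rb S k z s s') ^ 2 =
      ((∑ a, s' a ^ 2) - ∑ a, s a ^ 2) ^ 2 * τ.n k z ^ 2 +
        (4 * ((∑ a, s' a ^ 2) - ∑ a, s a ^ 2) * (τ.n k z * rb S k z s s') +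
          4 * rb S k z s s' ^ 2) := fun k => by ring
  simp only [h3] at h1
  rw [Finset.sum_add_distrib, Finset.sum_add_distrib, ← Finset.mul_sum, ← Finset.mul_sum,
    ← Finset.mul_sum, hτ.norm z, h.nc hS] at h1
  linarith

end Pt

/-! ### sections -/

theorem R_eq (u : κ0 → M → ℝ) (y : κ0) (z : M) :
    τ.R S u y z = ∑ y', (∑ k, τ.n k z * S.rho k y y' z) * u y' z := by
  unfold TD.R
  rw [Finset.sum_comm]
  exact Finset.sum_congr rfl fun y' _ => by rw [Finset.sum_mul]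

theorem p_R (hτ : τ.OK S C) (u : κ0 → M → ℝ) (y : κ0) (z : M) :
    ∑ y', S.D0.p y y' z * τ.R S u y' z = τ.R S u y z := by
  have e1 : ∀ y'', ∑ y', S.D0.p y y' z * (∑ k, τ.n k z * S.rho k y' y'' z) =
      ∑ k, τ.n k z * S.rho k y y'' z := by
    intro y''
    simp only [Finset.mul_sum]
    rw [Finset.sum_comm]
    refine Finset.sum_congr rfl fun k _ => ?_
    rw [← hτ.rsec k y y'' z, Finset.mul_sum]
    exact Finset.sum_congr rfl fun y' _ => by ring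
  simp only [R_eq (S := S) (τ := τ) u]
  have e2 : ∀ y', S.D0.p y y' z * ∑ y'', (∑ k, τ.n k z * S.rho k y' y'' z) * u y'' z =
      ∑ y'', (S.D0.p y y' z * (∑ k, τ.n k z * S.rho k y' y'' z)) * u y'' z := by
    intro y'
    rw [Finset.mul_sum]
    exact Finset.sum_congr rfl fun y'' _ => by ring
  simp only [e2]
  rw [Finset.sum_comm]
  refine Finset.sum_congr rfl fun y'' _ => ?_
  rw [← Finset.sum_mul, e1]

theorem R_R (hτ : τ.OK S C) {u : κ0 → M → ℝ} (hu : S.D0.Sec u) (y : κ0) (z : M) :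
    τ.R S (τ.R S u) y z = u y z := by
  rw [R_eq]
  simp only [R_eq (S := S) (τ := τ) u]
  have e2 : ∀ y', (∑ k, τ.n k z * S.rho k y y' z) *
      ∑ y'', (∑ k, τ.n k z * S.rho k y' y'' z) * u y'' z =
      ∑ y'', ((∑ k, τ.n k z * S.rho k y y' z) * (∑ k, τ.n k z * S.rho k y' y'' z)) * u y'' z := by
    intro y'
    rw [Finset.mul_sum]
    exact Finset.sum_congr rfl fun y'' _ => by ring
  simp only [e2]
  rw [Finset.sum_comm, ← hu y z]
  refine Finset.sum_congr rfl fun y'' _ => ?_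
  rw [← Finset.sum_mul, hτ.invol]

theorem R_smul (c : M → ℝ) (u w : κ0 → M → ℝ) (e : ℝ) (y : κ0) (z : M) :
    τ.R S (fun y z => c z * ((1 / 2) * (u y z + e * w y z))) y z =
      c z * ((1 / 2) * (τ.R S u y z + e * τ.R S w y z)) := by
  simp only [R_eq]
  have : ∀ y', (∑ k, τ.n k z * S.rho k y y' z) * (c z * ((1 / 2) * (u y' z + e * w y' z))) =
      c z * ((1 / 2) * ((∑ k, τ.n k z * S.rho k y y' z) * u y' z +
        e * ((∑ k, τ.n k z * S.rho k y y' z) * w y' z))) := fun y' => by ring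
  simp only [this]
  rw [← Finset.mul_sum, ← Finset.mul_sum, Finset.sum_add_distrib, ← Finset.mul_sum]

theorem cE_eq (u : κ0 → M → ℝ) : cE τ S u = fun y z => τ.rr z ^ (-(3 / 4) : ℝ) *
    ((1 / 2) * (u y z + (-1) * τ.R S u y z)) := by
  funext y z
  unfold cE
  ring

theorem cE'_eq (u : κ0 → M → ℝ) : cE' τ S u = fun y z => τ.rr z ^ (-(3 / 4) : ℝ) *
    ((1 / 2) * (u y z + 1 * τ.R S u y z)) := by
  funext y z
  unfold cE'
  ring

theorem sec_comb (hτ : τ.OK S C) (c : M → ℝ) {u : κ0 → M → ℝ} (hu : S.D0.Sec u) (e : ℝ) :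
    S.D0.Sec (fun y z => c z * ((1 / 2) * (u y z + e * τ.R S u y z))) := by
  intro y z
  have : ∀ y', S.D0.p y y' z * (c z * ((1 / 2) * (u y' z + e * τ.R S u y' z))) =
      c z * ((1 / 2) * (S.D0.p y y' z * u y' z + e * (S.D0.p y y' z * τ.R S u y' z))) :=
    fun y' => by ring
  simp only [this]
  rw [← Finset.mul_sum, ← Finset.mul_sum, Finset.sum_add_distrib, ← Finset.mul_sum, hu y z,
    p_R hτ]

theorem secE_cE (hτ : τ.OK S C) {u : κ0 → M → ℝ} (hu : S.D0.Sec u) : τ.SecE S (cE τ S u) := by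
  rw [cE_eq]
  refine ⟨sec_comb hτ _ hu _, fun y z => ?_⟩
  rw [R_smul, R_R hτ hu]
  ring

theorem secE'_cE' (hτ : τ.OK S C) {u : κ0 → M → ℝ} (hu : S.D0.Sec u) :
    τ.SecE' S (cE' τ S u) := by
  rw [cE'_eq]
  refine ⟨sec_comb hτ _ hu _, fun y z => ?_⟩
  rw [R_smul, R_R hτ hu]
  ring

theorem sm_R (hS : S.OK) (hτ : τ.OK S C) {u : κ0 → M → ℝ} (hu : SmV (n := 4) u) :
    SmV (n := 4) (τ.R S u) := fun y =>
  contMDiff_finsetSum fun k _ => contMDiff_finsetSum fun y' _ =>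
    ((hτ.smn k).mul (hS.smrho k y y')).mul (hu y')

theorem sm_cE (hS : S.OK) (hτ : τ.OK S C) {u : κ0 → M → ℝ} (hu : SmV (n := 4) u) :
    SmV (n := 4) (cE τ S u) := fun y =>
  (smooth_rpow hτ.smrr hτ.pos _).mul (contMDiff_const.mul ((hu y).sub (sm_R hS hτ hu y)))

theorem sm_cE' (hS : S.OK) (hτ : τ.OK S C) {u : κ0 → M → ℝ} (hu : SmV (n := 4) u) :
    SmV (n := 4) (cE' τ S u) := fun y =>
  (smooth_rpow hτ.smrr hτ.pos _).mul (contMDiff_const.mul ((hu y).add (sm_R hS hτ hu y)))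

theorem pt_cE (hτ : τ.OK S C) {u : κ0 → M → ℝ} (hu : S.D0.Sec u) (z : M) :
    Pt S τ z (fun y => cE τ S u y z) (fun y => cE' τ S u y z) where
  p0 := fun y => (secE_cE hτ hu).1 y z
  p1 := fun y => (secE'_cE' hτ hu).1 y z
  R0 := fun y => (secE_cE hτ hu).2 y z
  R1 := fun y => (secE'_cE' hτ hu).2 y z

theorem u_eq (hτ : τ.OK S C) (u : κ0 → M → ℝ) (y : κ0) (z : M) :
    u y z = τ.rr z ^ (3 / 4 : ℝ) * (cE τ S u y z + cE' τ S u y z) := by
  unfold cE cE'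
  have h := rpow_inv (hτ.pos z) (3 / 4 : ℝ)
  have e : τ.rr z ^ (3 / 4 : ℝ) * (τ.rr z ^ (-(3 / 4) : ℝ) * ((1 / 2) * (u y z - τ.R S u y z)) +
      τ.rr z ^ (-(3 / 4) : ℝ) * ((1 / 2) * (u y z + τ.R S u y z))) =
      (τ.rr z ^ (3 / 4 : ℝ) * τ.rr z ^ (-(3 / 4) : ℝ)) * u y z := by ring
  rw [e, h, one_mul]

theorem sc_add (hτ : τ.OK S C) (u : κ0 → M → ℝ) :
    τ.sc (3 / 4) (cE τ S u) + τ.sc (3 / 4) (cE' τ S u) = u := by
  funext y z
  rw [u_eq hτ u y z]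
  simp only [Pi.add_apply, TD.sc]
  ring

theorem sm_sc (hτ : τ.OK S C) {s : κ0 → M → ℝ} (hs : SmV (n := 4) s) :
    SmV (n := 4) (τ.sc (3 / 4) s) := fun y => (smooth_rpow hτ.smrr hτ.pos _).mul (hs y)

theorem sec_sc {s : κ0 → M → ℝ} (hs : S.D0.Sec s) : S.D0.Sec (τ.sc (3 / 4) s) := by
  intro y z
  unfold TD.sc
  rw [← hs y z, Finset.mul_sum]
  exact Finset.sum_congr rfl fun y' _ => by ring

/-- `√ρ` -/
def qq (τ : TD M κT) (z : M) : ℝ := √(τ.rr z)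

theorem qq_pos (hτ : τ.OK S C) (z : M) : 0 < qq τ z := Real.sqrt_pos.2 (hτ.pos z)

theorem qq_sq (hτ : τ.OK S C) (z : M) : qq τ z ^ 2 = τ.rr z := Real.sq_sqrt (hτ.pos z).le

theorem rpow_mhalf (hτ : τ.OK S C) (z : M) : τ.rr z ^ (-(1 / 2) : ℝ) = (qq τ z)⁻¹ := by
  rw [Real.rpow_neg (hτ.pos z).le, ← Real.sqrt_eq_rpow]
  rfl

theorem rpow_34 (hτ : τ.OK S C) (z : M) :
    τ.rr z ^ (3 / 4 : ℝ) * τ.rr z ^ (3 / 4 : ℝ) = qq τ z ^ 3 := by
  have h := hτ.pos z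
  rw [← Real.rpow_add h]
  have e : τ.rr z ^ (3 / 4 + 3 / 4 : ℝ) = (τ.rr z ^ (1 / 2 : ℝ)) ^ 3 := by
    rw [← Real.rpow_natCast, ← Real.rpow_mul h.le]
    norm_num
  rw [e, ← Real.sqrt_eq_rpow]
  rfl

/-- `|u|² = ρ^{3/2} (|s|² + |s'|²)` -/
theorem norm_u (hS : S.OK) (hτ : τ.OK S C) {u : κ0 → M → ℝ} (hu : S.D0.Sec u) (z : M) :
    ∑ y, u y z ^ 2 = qq τ z ^ 3 * (∑ y, cE τ S u y z ^ 2 + ∑ y, cE' τ S u y z ^ 2) := by
  rw [← (pt_cE hτ hu z).nsq hS, Finset.mul_sum]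
  refine Finset.sum_congr rfl fun y _ => ?_
  rw [u_eq hτ u y z, ← rpow_34 hτ z]
  ring

/-- `⟨ρ_k u, u⟩` -/
theorem rq_u (hS : S.OK) (hτ : τ.OK S C) {u : κ0 → M → ℝ} (hu : S.D0.Sec u) (k : Fin 3) (z : M) :
    S.rq k u z = qq τ z ^ 3 * ((∑ y, cE' τ S u y z ^ 2 - ∑ y, cE τ S u y z ^ 2) * τ.n k z +
      2 * rb S k z (fun y => cE τ S u y z) (fun y => cE' τ S u y z)) := by
  have hP := pt_cE hτ hu z
  have e1 : S.rq k u z = rb S k z (fun y => u y z) (fun y => u y z) := rfl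
  have e2 : (fun y => u y z) = fun y => τ.rr z ^ (3 / 4 : ℝ) * (cE τ S u y z + cE' τ S u y z) := by
    funext y
    exact u_eq hτ u y z
  rw [e1, e2, rb_smul, rpow_34 hτ z, rb_add hS, hP.rb0 hS hτ k, hP.rb1 hS hτ k]
  ring

end

end Crest.Agent.R235.SwcTaus_312
end

-- ▼ part R235/SwcTaus_312
section

/-!
Row 235 (S0364), PACKAGE SWC, NODE PROD, **TAUS** (helper215 #2370), part D (helper312):
the energy estimates of smooth approximate solutions.  `taus : TAUS`.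
-/

set_option autoImplicit false
set_option maxSynthPendingDepth 3
set_option linter.unusedSectionVars false

open scoped ContDiff ENNReal NNReal Topology Manifold Bundle RealInnerProductSpace
open MeasureTheory Set Filter Metric Bundle

universe v

namespace Crest.Agent.R235.SwcTaus_312

open Crest.Agent.R249.Tv57 Crest.Agent.R247.Ms322 Crest.Agent.R247.Dir593
open Crest.Agent.R235.SWDefs_53 Crest.Agent.R235.Fs4_546 Crest.Agent.R235.SwcProd_215
open Crest.Agent.R235.SWUni_312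

noncomputable section

local notation "ipp" => Crest.Agent.R249.Tv57.ip 4

section defs

variable {M : Type v} [MetricSpace M] [CompactSpace M] [ConnectedSpace M]
  [ChartedSpace (EuclideanSpace ℝ (Fin 4)) M] [IsManifold (𝓡 4) ∞ M]
  [RiemannianBundle (fun p : M => TangentSpace (𝓡 4) p)]
  [IsContMDiffRiemannianBundle (𝓡 4) ∞ (EuclideanSpace ℝ (Fin 4))
    (fun p : M => TangentSpace (𝓡 4) p)]
  [IsRiemannianManifold (𝓡 4) M] [MeasurableSpace M] [BorelSpace M]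
  [SecondCountableTopology M] [Nonempty M]
  {κ0 κ1 κT : Type} [Fintype κ0] [Fintype κ1] [Fintype κT]

/-- `A` is additive on smooth sections. -/
theorem A_add [IsFiniteMeasureOnCompacts (μHE[4] : Measure M)] {κ κ' : Type} [Fintype κ]
    [Fintype κ'] {D0 : Dat 4 M κ} {D1 : Dat 4 M κ'} (P : OpPair D0 D1) {u v : κ → M → ℝ}
    (hu : SmV (n := 4) u) (hus : D0.Sec u) (hv : SmV (n := 4) v) (hvs : D0.Sec v) :
    P.A (u + v) = P.A u + P.A v := by
  have h := congrArg Subtype.val (map_add (lA P) (⟨u, hu, hus⟩ : SmS D0) (⟨v, hv, hvs⟩ : SmS D0))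
  exact h

theorem sec_add {κ : Type} [Fintype κ] {D : Dat 4 M κ} {u v : κ → M → ℝ} (hu : D.Sec u)
    (hv : D.Sec v) : D.Sec (u + v) := by
  intro y z
  simp only [Pi.add_apply, mul_add, Finset.sum_add_distrib]
  rw [hu y z, hv y z]

theorem sm_add {κ : Type} {u v : κ → M → ℝ} (hu : SmV (n := 4) u) (hv : SmV (n := 4) v) :
    SmV (n := 4) (u + v) := fun y => (hu y).add (hv y)

theorem cm_add (S : SWS M κ0 κ1 κT) (b : κT → M → ℝ) (u v : κ0 → M → ℝ) :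
    S.cm b (u + v) = S.cm b u + S.cm b v := by
  funext x z
  simp only [SWS.cm, Pi.add_apply, ← Finset.sum_add_distrib]
  exact Finset.sum_congr rfl fun A _ => Finset.sum_congr rfl fun y _ => by ring

theorem sm_cm {S : SWS M κ0 κ1 κT} (hS : S.OK) {b : κT → M → ℝ} (hb : SmV (n := 4) b)
    {u : κ0 → M → ℝ} (hu : SmV (n := 4) u) : SmV (n := 4) (S.cm b u) := fun x =>
  contMDiff_finsetSum fun A _ => contMDiff_finsetSum fun y _ =>
    ((hb A).mul (hu y)).mul (hS.smcl A x y)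

/-- `(A + c(b) i) u` -/
def dD (S : SWS M κ0 κ1 κT) (b : κT → M → ℝ) (u : κ0 → M → ℝ) : κ1 → M → ℝ :=
  fun x z => S.P.A u x z + S.cm b u x z

theorem sm_dD {S : SWS M κ0 κ1 κT} (hS : S.OK) {b : κT → M → ℝ} (hb : SmV (n := 4) b)
    {u : κ0 → M → ℝ} (hu : SmV (n := 4) u) (hus : S.D0.Sec u) : SmV (n := 4) (dD S b u) :=
  fun x => (S.P.smA u hu hus x).add (sm_cm hS hb hu x)

theorem smF_nab {S : SWS M κ0 κ1 κT} (hS : S.OK) {b : κT → M → ℝ} (hb : SmV (n := 4) b)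
    {s : κ0 → M → ℝ} (hs : SmV (n := 4) s) (y : κ0) : SmF (fun z => S.nab b s y z) :=
  (smF_cv S.D0 hs y).add (SmF.smul (contMDiff_finsetSum fun y' _ => (hS.smJ y y').mul (hs y'))
    (SmF.sum _ fun A _ => SmF.smul (hb A) (hS.sms A)))

theorem cont_nsq {X : M → EuclideanSpace ℝ (Fin 4)} (hX : SmF X) :
    Continuous fun z => ‖X z‖ ^ 2 := by
  have h := (hX.inner hX).continuous
  simp only [real_inner_self_eq_norm_sq] at h
  exact h

/-- a bound of the potential. -/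
theorem exists_KQ (D : Dat 4 M κ0) : ∃ K : ℝ, 0 ≤ K ∧ ∀ z (v : κ0 → ℝ),
    |∑ y, ∑ y', D.Q y y' z * v y' * v y| ≤ K * ∑ y, v y ^ 2 := by
  have h1 : ∀ y y', ∃ c : ℝ, ∀ z, |D.Q y y' z| ≤ c := by
    intro y y'
    obtain ⟨c, hc⟩ := isCompact_univ.exists_bound_of_continuousOn
      (D.smQ y y').continuous.continuousOn
    exact ⟨c, fun z => hc z (mem_univ z)⟩
  choose c hc using h1
  obtain ⟨z0⟩ := ‹Nonempty M›
  have hc0 : ∀ y y', 0 ≤ c y y' := fun y y' => (abs_nonneg _).trans (hc y y' z0)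
  set K0 : ℝ := ∑ y, ∑ y', c y y' with hK0
  have hle : ∀ y y', c y y' ≤ K0 := by
    intro y y'
    have e1 : c y y' ≤ ∑ y', c y y' :=
      Finset.single_le_sum (f := fun y' => c y y') (fun y' _ => hc0 y y') (Finset.mem_univ y')
    have e2 : ∑ y', c y y' ≤ K0 :=
      Finset.single_le_sum (f := fun y => ∑ y', c y y')
        (fun y _ => Finset.sum_nonneg fun y' _ => hc0 y y') (Finset.mem_univ y)
    exact e1.trans e2
  have hK00 : 0 ≤ K0 := Finset.sum_nonneg fun y _ => Finset.sum_nonneg fun y' _ => hc0 y y'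
  refine ⟨K0 * Fintype.card κ0, by positivity, fun z v => ?_⟩
  have h2 : ∀ y y', |D.Q y y' z * v y' * v y| ≤ K0 * ((v y ^ 2 + v y' ^ 2) / 2) := by
    intro y y'
    rw [mul_assoc, abs_mul]
    refine mul_le_mul ((hc y y' z).trans (hle y y')) ?_ (abs_nonneg _) hK00
    rw [abs_le]
    constructor <;> nlinarith [sq_nonneg (v y' - v y), sq_nonneg (v y' + v y)]
  calc |∑ y, ∑ y', D.Q y y' z * v y' * v y| ≤ ∑ y, ∑ y', |D.Q y y' z * v y' * v y| :=
        (Finset.abs_sum_le_sum_abs _ _).trans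
          (Finset.sum_le_sum fun y _ => Finset.abs_sum_le_sum_abs _ _)
    _ ≤ ∑ y : κ0, ∑ y' : κ0, K0 * ((v y ^ 2 + v y' ^ 2) / 2) :=
        Finset.sum_le_sum fun y _ => Finset.sum_le_sum fun y' _ => h2 y y'
    _ = K0 * Fintype.card κ0 * ∑ y, v y ^ 2 := by
        simp only [← Finset.mul_sum, ← Finset.sum_div, Finset.sum_add_distrib, Finset.sum_const,
          Finset.card_univ, nsmul_eq_mul]
        ring

end defs

section main

variable {M : Type v} [MetricSpace M] [CompactSpace M] [ConnectedSpace M]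
  [ChartedSpace (EuclideanSpace ℝ (Fin 4)) M] [IsManifold (𝓡 4) ∞ M]
  [RiemannianBundle (fun p : M => TangentSpace (𝓡 4) p)]
  [IsContMDiffRiemannianBundle (𝓡 4) ∞ (EuclideanSpace ℝ (Fin 4))
    (fun p : M => TangentSpace (𝓡 4) p)]
  [IsRiemannianManifold (𝓡 4) M] [MeasurableSpace M] [BorelSpace M]
  [SecondCountableTopology M] [Nonempty M] [IsFiniteMeasureOnCompacts (μHE[4] : Measure M)]
  {κ0 κ1 κT : Type} [Fintype κ0] [Fintype κ1] [Fintype κT]
  {S : SWS M κ0 κ1 κT} {d : SWD M κT} {τ : TD M κT} {C : ℝ} {t : E3} {a : κT → M → ℝ}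
  {u : κ0 → M → ℝ}

/-- `|∇^E s|²` -/
def fG (S : SWS M κ0 κ1 κT) (τ : TD M κT) (b : κT → M → ℝ) (u : κ0 → M → ℝ) (z : M) : ℝ :=
  ∑ y, ‖τ.nE S b (cE τ S u) y z‖ ^ 2

/-- `|s|²` -/
def fN0 (S : SWS M κ0 κ1 κT) (τ : TD M κT) (u : κ0 → M → ℝ) (z : M) : ℝ := ∑ y, cE τ S u y z ^ 2

/-- `|s'|²` -/
def fN1 (S : SWS M κ0 κ1 κT) (τ : TD M κT) (u : κ0 → M → ℝ) (z : M) : ℝ := ∑ y, cE' τ S u y z ^ 2

/-- `c_k = ⟨ρ_k s, s'⟩` -/
def fc (S : SWS M κ0 κ1 κT) (τ : TD M κT) (u : κ0 → M → ℝ) (k : Fin 3) (z : M) : ℝ :=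
  rb S k z (fun y => cE τ S u y z) (fun y => cE' τ S u y z)

/-- `g · n` -/
def fgn (S : SWS M κ0 κ1 κT) (τ : TD M κT) (d : SWD M κT) (t : E3) (a : κT → M → ℝ)
    (u : κ0 → M → ℝ) (z : M) : ℝ := ∑ k : Fin 3, gC S d t a u k.succ z * τ.n k z

/-- `g · c` -/
def fgc (S : SWS M κ0 κ1 κT) (τ : TD M κT) (d : SWD M κT) (t : E3) (a : κT → M → ℝ)
    (u : κ0 → M → ℝ) (z : M) : ℝ := ∑ k : Fin 3, gC S d t a u k.succ z * fc S τ u k z

/-- `f_E · n` -/
def ffn (τ : TD M κT) (z : M) : ℝ := ∑ k : Fin 3, τ.fE k z * τ.n k z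

/-- `⟨Q v, v⟩`, `v = ρ^{3/4} s'` -/
def fQ (S : SWS M κ0 κ1 κT) (τ : TD M κT) (u : κ0 → M → ℝ) (z : M) : ℝ :=
  ∑ y, ∑ y', S.D0.Q y y' z * τ.sc (3 / 4) (cE' τ S u) y' z * τ.sc (3 / 4) (cE' τ S u) y z

/-- **(1)** the curvature equation, with the components. -/
theorem curv (hS : S.OK) (hτ : τ.OK S C) (hF : τ.Fit S d t) (ha : SmV (n := 4) a)
    (hsa : S.DT.Sec a) (hsu : S.D0.Sec u) (k : Fin 3) (z : M) :
    S.H.B (a + d.th t) k.succ z + τ.fE k z =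
      qq τ z ^ 2 * ((d.r + (fN1 S τ u z - fN0 S τ u z) / 2) * τ.n k z + fc S τ u k z) +
        gC S d t a u k.succ z := by
  have h1 : S.H.B (a + d.th t) = S.H.B a + S.H.B (d.th t) :=
    A_add S.H.swap ha hsa hF.smth hF.secth
  have h2 : rhs S d t u k.succ z =
      d.mu t z * ((1 / 2) * S.rq k u z) + d.r * d.wt t k z + d.et t k z := rfl
  have h3 : gC S d t a u k.succ z = S.H.B a k.succ z - rhs S d t u k.succ z := rfl
  have h4 : (S.H.B a + S.H.B (d.th t)) k.succ z = S.H.B a k.succ z + S.H.B (d.th t) k.succ z := rfl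
  have hq := qq_pos hτ z
  rw [h1, h4, h3, h2, hF.mu z, hF.wt k z, hF.et k z, rq_u hS hτ hsu k z, rpow_mhalf hτ z,
    ← qq_sq hτ z]
  have e : (qq τ z)⁻¹ * (1 / 2 * (qq τ z ^ 3 *
      ((∑ y, cE' τ S u y z ^ 2 - ∑ y, cE τ S u y z ^ 2) * τ.n k z +
      2 * rb S k z (fun y => cE τ S u y z) (fun y => cE' τ S u y z)))) =
      qq τ z ^ 2 * (((fN1 S τ u z - fN0 S τ u z) / 2) * τ.n k z + fc S τ u k z) := by
    unfold fN1 fN0 fc
    field_simp
  rw [e]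
  ring

theorem curv_n (hS : S.OK) (hτ : τ.OK S C) (hF : τ.Fit S d t) (ha : SmV (n := 4) a)
    (hsa : S.DT.Sec a) (hsu : S.D0.Sec u) (z : M) :
    ∑ k : Fin 3, (S.H.B (a + d.th t) k.succ z + τ.fE k z) * τ.n k z =
      qq τ z ^ 2 * (d.r + (fN1 S τ u z - fN0 S τ u z) / 2) + fgn S τ d t a u z := by
  have hP := pt_cE (S := S) hτ hsu z
  have e : ∀ k : Fin 3, (S.H.B (a + d.th t) k.succ z + τ.fE k z) * τ.n k z =
      qq τ z ^ 2 * (d.r + (fN1 S τ u z - fN0 S τ u z) / 2) * τ.n k z ^ 2 +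
        (qq τ z ^ 2 * (τ.n k z * fc S τ u k z) + gC S d t a u k.succ z * τ.n k z) := by
    intro k
    rw [curv hS hτ hF ha hsa hsu k z]
    ring
  simp only [e]
  rw [Finset.sum_add_distrib, Finset.sum_add_distrib, ← Finset.mul_sum, ← Finset.mul_sum,
    hτ.norm z]
  have h0 : ∑ k, τ.n k z * fc S τ u k z = 0 := hP.nc hS
  rw [h0]
  unfold fgn
  ring

theorem curv_c (hS : S.OK) (hτ : τ.OK S C) (hF : τ.Fit S d t) (ha : SmV (n := 4) a)
    (hsa : S.DT.Sec a) (hsu : S.D0.Sec u) (z : M) :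
    ∑ k : Fin 3, (S.H.B (a + d.th t) k.succ z + τ.fE k z) * fc S τ u k z =
      qq τ z ^ 2 * (fN0 S τ u z * fN1 S τ u z) + fgc S τ d t a u z := by
  have hP := pt_cE (S := S) hτ hsu z
  have e : ∀ k : Fin 3, (S.H.B (a + d.th t) k.succ z + τ.fE k z) * fc S τ u k z =
      qq τ z ^ 2 * (d.r + (fN1 S τ u z - fN0 S τ u z) / 2) * (τ.n k z * fc S τ u k z) +
        (qq τ z ^ 2 * fc S τ u k z ^ 2 + gC S d t a u k.succ z * fc S τ u k z) := by
    intro k
    rw [curv hS hτ hF ha hsa hsu k z]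
    ring
  simp only [e]
  rw [Finset.sum_add_distrib, Finset.sum_add_distrib, ← Finset.mul_sum, ← Finset.mul_sum]
  have h0 : ∑ k, τ.n k z * fc S τ u k z = 0 := hP.nc hS
  have h1 : ∑ k, fc S τ u k z ^ 2 = fN0 S τ u z * fN1 S τ u z := hP.csq hS hτ
  rw [h0, h1]
  unfold fgc
  ring

/-- **(4)** Stokes. -/
theorem top_int (hS : S.OK) (hτ : τ.OK S C) {b : κT → M → ℝ} (hb : SmV (n := 4) b)
    (hsb : S.DT.Sec b) :
    ∫ z, ∑ k : Fin 3, τ.rr z * τ.n k z * S.H.B b k.succ z ∂(μHE[4] : Measure M) = 0 := by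
  set w : Fin 4 → M → ℝ := Fin.cons (fun _ => 0) fun k z => τ.rr z * τ.n k z with hw
  have hsm : SmV (n := 4) w := by
    intro a
    refine Fin.cases ?_ (fun k => ?_) a
    · exact contMDiff_const
    · exact hτ.smrr.mul (hτ.smn k)
  have hsec : S.DL.Sec w := by
    intro a z
    simp only [hS.fullL, ite_mul, one_mul, zero_mul, Finset.sum_ite_eq, Finset.mem_univ, if_true]
  have h := S.H.adj w b hsm hsec hb hsb
  have e1 : Crest.Agent.R249.Tv57.ip 4 (S.H.A w) b = 0 := by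
    unfold Crest.Agent.R249.Tv57.ip
    simp only [hw, hτ.harm, zero_mul, Finset.sum_const_zero, integral_zero]
  have e2 : Crest.Agent.R249.Tv57.ip 4 w (S.H.B b) =
      ∫ z, ∑ k : Fin 3, τ.rr z * τ.n k z * S.H.B b k.succ z ∂(μHE[4] : Measure M) := by
    unfold Crest.Agent.R249.Tv57.ip
    refine integral_congr_ae (Eventually.of_forall fun z => ?_)
    simp only []
    rw [Fin.sum_univ_succ]
    have e3 : w 0 z = 0 := rfl
    rw [e3, zero_mul, zero_add]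
    rfl
  rw [e1, e2] at h
  exact h.symm

theorem cont_fc (hS : S.OK) (hτ : τ.OK S C) (hu : SmV (n := 4) u) (k : Fin 3) :
    Continuous fun z => fc S τ u k z := by
  unfold fc rb
  exact continuous_finsetSum _ fun y _ => continuous_finsetSum _ fun y' _ =>
    ((hS.smrho k y y').continuous.mul (sm_cE hS hτ hu y).continuous).mul
      (sm_cE' hS hτ hu y').continuous

theorem cont_fN0 (hS : S.OK) (hτ : τ.OK S C) (hu : SmV (n := 4) u) : Continuous (fN0 S τ u) :=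
  continuous_finsetSum _ fun y _ => (sm_cE hS hτ hu y).continuous.pow 2

theorem cont_fN1 (hS : S.OK) (hτ : τ.OK S C) (hu : SmV (n := 4) u) : Continuous (fN1 S τ u) :=
  continuous_finsetSum _ fun y _ => (sm_cE' hS hτ hu y).continuous.pow 2

theorem cont_qq (hτ : τ.OK S C) : Continuous (qq τ) := hτ.smrr.continuous.sqrt

theorem cont_g (hS : S.OK) (hτ : τ.OK S C) (hF : τ.Fit S d t) (ha : SmV (n := 4) a)
    (hsa : S.DT.Sec a) (hu : SmV (n := 4) u) (hsu : S.D0.Sec u) (k : Fin 4) :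
    Continuous fun z => gC S d t a u k z := by
  have hb : SmV (n := 4) (a + d.th t) := sm_add ha hF.smth
  have hsb : S.DT.Sec (a + d.th t) := sec_add hsa hF.secth
  have h0 := cont_fN0 hS hτ hu
  have h1 := cont_fN1 hS hτ hu
  have hq := cont_qq hτ
  refine Fin.cases ?_ (fun k => ?_) k
  · have e : (fun z => gC S d t a u 0 z) = fun z => S.H.B a 0 z := by
      funext z
      show S.H.B a 0 z - 0 = _
      rw [sub_zero]
    rw [e]
    exact (S.H.smB a ha hsa 0).continuous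
  · have e : (fun z => gC S d t a u k.succ z) = fun z =>
        S.H.B (a + d.th t) k.succ z + τ.fE k z -
        qq τ z ^ 2 * ((d.r + (fN1 S τ u z - fN0 S τ u z) / 2) * τ.n k z + fc S τ u k z) := by
      funext z
      rw [curv hS hτ hF ha hsa hsu k z]
      ring
    rw [e]
    have h2 := cont_fc hS hτ hu k
    have h3 := (S.H.smB _ hb hsb k.succ).continuous
    have h4 := (hτ.smfE k).continuous
    have h5 := (hτ.smn k).continuous
    have h6 : Continuous fun z => S.H.B (a + d.th t) k.succ z := h3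
    have h7 : Continuous fun z => τ.fE k z := h4
    have h8 : Continuous fun z => τ.n k z := h5
    exact (h6.add h7).sub ((hq.pow 2).mul (((continuous_const.add
      ((h1.sub h0).div_const 2)).mul h8).add h2))

theorem abs_n_le (hτ : τ.OK S C) (k : Fin 3) (z : M) : |τ.n k z| ≤ 1 := by
  rw [← sq_le_one_iff_abs_le_one, ← hτ.norm z]
  exact Finset.single_le_sum (f := fun k => τ.n k z ^ 2) (fun k _ => sq_nonneg _)
    (Finset.mem_univ k)

/-- **the estimates hold for the components** -/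
theorem est (hS : S.OK) (hτ : τ.OK S C) (hF : τ.Fit S d t) (ha : SmV (n := 4) a)
    (hsa : S.DT.Sec a) (hu : SmV (n := 4) u) (hsu : S.D0.Sec u) {m0 m1 B0 KQ : ℝ} (hm0 : 0 < m0)
    (hm : ∀ z, m0 ≤ τ.rr z ∧ τ.rr z ≤ m1) (hB : ∀ k z, |τ.fE k z| ≤ B0) (hr : 0 < d.r)
    (hKQ : ∀ z (v : κ0 → ℝ), |∑ y, ∑ y', S.D0.Q y y' z * v y' * v y| ≤ KQ * ∑ y, v y ^ 2) :
    Est (μHE[4] : Measure M) (qq τ) (fG S τ (a + d.th t) u) (fN0 S τ u) (fN1 S τ u)
      (fgn S τ d t a u) (fgc S τ d t a u) (ffn τ) (fun z => ∑ x, fD S d t a u x z ^ 2)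
      (fun z => ∑ x, dD S (a + d.th t) (τ.sc (3 / 4) (cE τ S u)) x z ^ 2)
      (fun z => ∑ x, dD S (a + d.th t) (τ.sc (3 / 4) (cE' τ S u)) x z ^ 2)
      (fun z => ∑ x, dD S (a + d.th t) (τ.sc (3 / 4) (cE τ S u)) x z *
        dD S (a + d.th t) (τ.sc (3 / 4) (cE' τ S u)) x z)
      (fun z => ∑ y, ‖S.nab (a + d.th t) (τ.sc (3 / 4) (cE' τ S u)) y z‖ ^ 2) (fQ S τ u)
      (√m0) (√m1) (3 * B0) KQ d.r C := by
  have hb : SmV (n := 4) (a + d.th t) := sm_add ha hF.smth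
  have hsb : S.DT.Sec (a + d.th t) := sec_add hsa hF.secth
  have hE := secE_cE hτ hsu
  have hE' := secE'_cE' hτ hsu
  have hs := sm_cE hS hτ hu
  have hs' := sm_cE' hS hτ hu
  have hv := sm_sc hτ hs
  have hvs : S.D0.Sec (τ.sc (3 / 4) (cE τ S u)) := sec_sc hE.1
  have hv' := sm_sc hτ hs'
  have hvs' : S.D0.Sec (τ.sc (3 / 4) (cE' τ S u)) := sec_sc hE'.1
  have sA := sm_dD hS hb hv hvs
  have sB := sm_dD hS hb hv' hvs'
  have hfD : ∀ x z, fD S d t a u x z = dD S (a + d.th t) (τ.sc (3 / 4) (cE τ S u)) x z +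
      dD S (a + d.th t) (τ.sc (3 / 4) (cE' τ S u)) x z := by
    intro x z
    have e0 : fD S d t a u x z = S.P.A u x z + S.cm (a + d.th t) u x z := rfl
    have e1 : S.P.A u = S.P.A (τ.sc (3 / 4) (cE τ S u)) + S.P.A (τ.sc (3 / 4) (cE' τ S u)) := by
      rw [← A_add S.P hv hvs hv' hvs', sc_add hτ u]
    have e2 : S.cm (a + d.th t) u = S.cm (a + d.th t) (τ.sc (3 / 4) (cE τ S u)) +
        S.cm (a + d.th t) (τ.sc (3 / 4) (cE' τ S u)) := by
      rw [← cm_add, sc_add hτ u]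
    rw [e0, e1, e2]
    simp only [Pi.add_apply, dD]
    ring
  have hcn : ∀ k, Continuous fun z => τ.n k z := fun k => (hτ.smn k).continuous
  refine
    { cq := cont_qq hτ
      cG := continuous_finsetSum _ fun y _ => cont_nsq (smF_nE hS hτ hb hs y)
      cN0 := cont_fN0 hS hτ hu
      cN1 := cont_fN1 hS hτ hu
      cgn := continuous_finsetSum _ fun k _ =>
        (cont_g hS hτ hF ha hsa hu hsu k.succ).mul (hcn k)
      cgc := continuous_finsetSum _ fun k _ =>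
        (cont_g hS hτ hF ha hsa hu hsu k.succ).mul (cont_fc hS hτ hu k)
      cfn := continuous_finsetSum _ fun k _ => (hτ.smfE k).continuous.mul (hcn k)
      cF2 := ?_
      cA2 := continuous_finsetSum _ fun x _ => (sA x).continuous.pow 2
      cB2 := continuous_finsetSum _ fun x _ => (sB x).continuous.pow 2
      cAB := continuous_finsetSum _ fun x _ => (sA x).continuous.mul (sB x).continuous
      cW := continuous_finsetSum _ fun y _ => cont_nsq (smF_nab hS hb hv' y)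
      cQv := continuous_finsetSum _ fun y _ => continuous_finsetSum _ fun y' _ =>
        ((S.D0.smQ y y').continuous.mul (hv' y').continuous).mul (hv' y).continuous
      G0 := fun z => Finset.sum_nonneg fun y _ => sq_nonneg _
      N00 := fun z => Finset.sum_nonneg fun y _ => sq_nonneg _
      N10 := fun z => Finset.sum_nonneg fun y _ => sq_nonneg _
      A20 := fun z => Finset.sum_nonneg fun y _ => sq_nonneg _
      F20 := fun z => Finset.sum_nonneg fun y _ => sq_nonneg _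
      W0 := fun z => Finset.sum_nonneg fun y _ => sq_nonneg _
      q0p := Real.sqrt_pos.2 hm0
      rp := hr
      hq := fun z => ⟨Real.sqrt_le_sqrt (hm z).1, Real.sqrt_le_sqrt (hm z).2⟩
      hfn := ?_
      hQ := ?_
      hAB := ?_
      hB2 := ?_
      i2 := ?_
      i3 := ?_
      i4 := ?_
      i6 := ?_ }
  · -- cF2
    have : (fun z => ∑ x, fD S d t a u x z ^ 2) = fun z => ∑ x,
        (dD S (a + d.th t) (τ.sc (3 / 4) (cE τ S u)) x z +
      dD S (a + d.th t) (τ.sc (3 / 4) (cE' τ S u)) x z) ^ 2 := by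
      funext z
      exact Finset.sum_congr rfl fun x _ => by rw [hfD x z]
    rw [this]
    exact continuous_finsetSum _ fun x _ => ((sA x).continuous.add (sB x).continuous).pow 2
  · -- hfn
    intro z
    have h1 : ∀ k, |τ.fE k z * τ.n k z| ≤ B0 := by
      intro k
      rw [abs_mul]
      calc |τ.fE k z| * |τ.n k z| ≤ B0 * 1 :=
            mul_le_mul (hB k z) (abs_n_le hτ k z) (abs_nonneg _) ((abs_nonneg _).trans (hB k z))
        _ = B0 := mul_one _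
    calc |ffn τ z| ≤ ∑ k, |τ.fE k z * τ.n k z| := Finset.abs_sum_le_sum_abs _ _
      _ ≤ ∑ _k : Fin 3, B0 := Finset.sum_le_sum fun k _ => h1 k
      _ = 3 * B0 := by simp
  · -- hQ
    intro z
    have h1 := hKQ z (fun y => τ.sc (3 / 4) (cE' τ S u) y z)
    have h2 : ∑ y, τ.sc (3 / 4) (cE' τ S u) y z ^ 2 = qq τ z ^ 3 * fN1 S τ u z := by
      unfold fN1 TD.sc
      rw [← rpow_34 hτ z, Finset.mul_sum]
      exact Finset.sum_congr rfl fun y _ => by ring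
    rw [← h2]
    exact h1
  · -- hAB
    intro z
    have : ∀ x, dD S (a + d.th t) (τ.sc (3 / 4) (cE τ S u)) x z *
        dD S (a + d.th t) (τ.sc (3 / 4) (cE' τ S u)) x z ≤
        (fD S d t a u x z ^ 2 - dD S (a + d.th t) (τ.sc (3 / 4) (cE τ S u)) x z ^ 2) / 2 := by
      intro x
      rw [hfD x z]
      nlinarith [sq_nonneg (dD S (a + d.th t) (τ.sc (3 / 4) (cE' τ S u)) x z)]
    refine (Finset.sum_le_sum fun x _ => this x).trans (le_of_eq ?_)
    rw [← Finset.sum_div, Finset.sum_sub_distrib]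
  · -- hB2
    intro z
    rw [Finset.mul_sum, Finset.mul_sum, ← Finset.sum_add_distrib]
    refine Finset.sum_le_sum fun x _ => ?_
    rw [hfD x z]
    nlinarith [sq_nonneg (2 * dD S (a + d.th t) (τ.sc (3 / 4) (cE τ S u)) x z +
      dD S (a + d.th t) (τ.sc (3 / 4) (cE' τ S u)) x z)]
  · -- i2
    have h := hτ.T1 (a + d.th t) (cE τ S u) hb hsb hs hE
    have e1 : ∀ z, (qq τ z)⁻¹ * ∑ x, dD S (a + d.th t) (τ.sc (3 / 4) (cE τ S u)) x z ^ 2 =
        τ.rr z ^ (-(1 / 2) : ℝ) * ∑ x, ((S.P.A (τ.sc (3 / 4) (cE τ S u)) +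
          S.cm (a + d.th t) (τ.sc (3 / 4) (cE τ S u))) x z) ^ 2 := by
      intro z
      rw [rpow_mhalf hτ z]
      rfl
    simp only [e1]
    rw [h]
    refine integral_congr_ae (Eventually.of_forall fun z => ?_)
    have e2 := curv_n hS hτ hF ha hsa hsu z
    simp only []
    rw [e2, ← qq_sq hτ z]
    rfl
  · -- i3
    have h := hτ.T2 (a + d.th t) (cE τ S u) (cE' τ S u) hb hsb hs hs' hE hE'
    have e1 : ∀ z, (qq τ z)⁻¹ * (∑ x, dD S (a + d.th t) (τ.sc (3 / 4) (cE τ S u)) x z *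
        dD S (a + d.th t) (τ.sc (3 / 4) (cE' τ S u)) x z) -
        qq τ z ^ 2 * (qq τ z ^ 2 * (fN0 S τ u z * fN1 S τ u z) + fgc S τ d t a u z) =
        τ.rr z ^ (-(1 / 2) : ℝ) *
        (∑ x, (S.P.A (τ.sc (3 / 4) (cE τ S u)) +
            S.cm (a + d.th t) (τ.sc (3 / 4) (cE τ S u))) x z *
          (S.P.A (τ.sc (3 / 4) (cE' τ S u)) +
            S.cm (a + d.th t) (τ.sc (3 / 4) (cE' τ S u))) x z) -
        τ.rr z * ∑ k : Fin 3, (S.H.B (a + d.th t) k.succ z + τ.fE k z) *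
          ∑ y, ∑ y', S.rho k y y' z * cE τ S u y z * cE' τ S u y' z := by
      intro z
      have e2 := curv_c hS hτ hF ha hsa hsu z
      have e3 : ∀ k : Fin 3, ∑ y, ∑ y', S.rho k y y' z * cE τ S u y z * cE' τ S u y' z =
        fc S τ u k z := fun k => rfl
      simp only [e3]
      rw [e2, rpow_mhalf hτ z, qq_sq hτ z]
      rfl
    simp only [e1]
    exact h
  · -- i4
    have h := top_int hS hτ hb hsb
    have hcB : ∀ k : Fin 3, Continuous fun z => S.H.B (a + d.th t) k.succ z := fun k =>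
      (S.H.smB _ hb hsb k.succ).continuous
    have e1 : ∀ z, qq τ z ^ 2 * (qq τ z ^ 2 * (d.r + (fN1 S τ u z - fN0 S τ u z) / 2) +
        fgn S τ d t a u z) =
        (∑ k : Fin 3, τ.rr z * τ.n k z * S.H.B (a + d.th t) k.succ z) +
          qq τ z ^ 2 * ffn τ z := by
      intro z
      rw [← curv_n hS hτ hF ha hsa hsu z, ← qq_sq hτ z]
      unfold ffn
      rw [Finset.mul_sum, Finset.mul_sum, ← Finset.sum_add_distrib]
      exact Finset.sum_congr rfl fun k _ => by ring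
    simp only [e1]
    rw [iadd, h, zero_add]
    · exact continuous_finsetSum _ fun k _ => (hτ.smrr.continuous.mul (hcn k)).mul (hcB k)
    · exact ((cont_qq hτ).pow 2).mul
        (continuous_finsetSum _ fun k _ => (hτ.smfE k).continuous.mul (hcn k))
  · -- i6
    have h := hS.weitz (a + d.th t) (τ.sc (3 / 4) (cE' τ S u)) (τ.sc (3 / 4) (cE' τ S u)) hb hsb
      hv' hvs' hv' hvs'
    have e0 : ∫ z, ∑ x, dD S (a + d.th t) (τ.sc (3 / 4) (cE' τ S u)) x z ^ 2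
        ∂(μHE[4] : Measure M) =
        Crest.Agent.R249.Tv57.ip 4 (S.P.A (τ.sc (3 / 4) (cE' τ S u)) +
          S.cm (a + d.th t) (τ.sc (3 / 4) (cE' τ S u)))
          (S.P.A (τ.sc (3 / 4) (cE' τ S u)) +
          S.cm (a + d.th t) (τ.sc (3 / 4) (cE' τ S u))) := by
      unfold Crest.Agent.R249.Tv57.ip
      refine integral_congr_ae (Eventually.of_forall fun z => ?_)
      exact Finset.sum_congr rfl fun x _ => sq _
    rw [e0, h]
    refine integral_congr_ae (Eventually.of_forall fun z => ?_)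
    simp only [real_inner_self_eq_norm_sq]
    have hP := pt_cE (S := S) hτ hsu z
    have e1 : ∀ k : Fin 3, ∑ y, ∑ y', S.rho k y y' z * τ.sc (3 / 4) (cE' τ S u) y z *
        τ.sc (3 / 4) (cE' τ S u) y' z = qq τ z ^ 3 * (fN1 S τ u z * τ.n k z) := by
      intro k
      have e2 : ∑ y, ∑ y', S.rho k y y' z * τ.sc (3 / 4) (cE' τ S u) y z *
        τ.sc (3 / 4) (cE' τ S u) y' z = rb S k z
          (fun y => τ.rr z ^ (3 / 4 : ℝ) * cE' τ S u y z)
          (fun y => τ.rr z ^ (3 / 4 : ℝ) * cE' τ S u y z) := rfl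
      rw [e2, rb_smul, hP.rb1 hS hτ k, rpow_34 hτ z]
      rfl
    simp only [e1]
    have e3 : ∑ k : Fin 3, S.H.B (a + d.th t) k.succ z *
        (qq τ z ^ 3 * (fN1 S τ u z * τ.n k z)) = qq τ z ^ 3 * fN1 S τ u z *
        (qq τ z ^ 2 * (d.r + (fN1 S τ u z - fN0 S τ u z) / 2) + fgn S τ d t a u z - ffn τ z) := by
      rw [← curv_n hS hτ hF ha hsa hsu z]
      unfold ffn
      rw [← Finset.sum_sub_distrib, Finset.mul_sum]
      exact Finset.sum_congr rfl fun k _ => by ring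
    rw [e3]
    rfl

/-- Cauchy-Schwarz for the curvature error. -/
theorem gn_le (hτ : τ.OK S C) (z : M) :
    |fgn S τ d t a u z| ≤ √(∑ k, gC S d t a u k z ^ 2) := by
  refine Real.abs_le_sqrt ?_
  have h1 := Finset.sum_mul_sq_le_sq_mul_sq Finset.univ
    (fun k : Fin 3 => gC S d t a u k.succ z) (fun k => τ.n k z)
  rw [hτ.norm z, mul_one] at h1
  refine h1.trans ?_
  rw [Fin.sum_univ_succ (n := 3)]
  have : 0 ≤ gC S d t a u 0 z ^ 2 := sq_nonneg _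
  linarith

theorem gc_le (hS : S.OK) (hτ : τ.OK S C) (hsu : S.D0.Sec u) (z : M) :
    |fgc S τ d t a u z| ≤ √(∑ k, gC S d t a u k z ^ 2) * (fN0 S τ u z + fN1 S τ u z) := by
  have hP := pt_cE (S := S) hτ hsu z
  have n0 : 0 ≤ fN0 S τ u z := Finset.sum_nonneg fun y _ => sq_nonneg _
  have n1 : 0 ≤ fN1 S τ u z := Finset.sum_nonneg fun y _ => sq_nonneg _
  have hg : 0 ≤ ∑ k, gC S d t a u k z ^ 2 := Finset.sum_nonneg fun y _ => sq_nonneg _
  have h1 := Finset.sum_mul_sq_le_sq_mul_sq Finset.univ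
    (fun k : Fin 3 => gC S d t a u k.succ z) (fun k => fc S τ u k z)
  have h2 : ∑ k, fc S τ u k z ^ 2 = fN0 S τ u z * fN1 S τ u z := hP.csq hS hτ
  rw [h2] at h1
  have h3 : ∑ k : Fin 3, gC S d t a u k.succ z ^ 2 ≤ ∑ k, gC S d t a u k z ^ 2 := by
    rw [Fin.sum_univ_succ (n := 3)]
    have : 0 ≤ gC S d t a u 0 z ^ 2 := sq_nonneg _
    linarith
  have h4 : fgc S τ d t a u z ^ 2 ≤
      (√(∑ k, gC S d t a u k z ^ 2) * (fN0 S τ u z + fN1 S τ u z)) ^ 2 := by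
    rw [mul_pow, Real.sq_sqrt hg]
    refine h1.trans (mul_le_mul h3 ?_ (mul_nonneg n0 n1) hg)
    nlinarith
  exact abs_le_of_sq_le_sq h4 (by positivity)

end main

/-- **TAUS** -/
theorem taus : TAUS.{v} := by
  intro M _ _ _ _ _ _ _ _ _ _ _ _ _ κ0 κ1 κT _ _ _ S hS m0 m1 B0 C hm0
  obtain ⟨KQ, hKQ0, hKQ⟩ := exists_KQ S.D0
  have hq0 : 0 < √m0 := Real.sqrt_pos.2 hm0
  have hq1 : 0 ≤ √m1 := Real.sqrt_nonneg _
  set V : ℝ := (μHE[4] : Measure M).real univ with hV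
  have hV0 : 0 ≤ V := measureReal_nonneg
  set B : ℝ := 3 * |B0| with hB
  have hBB : 0 ≤ B := by positivity
  refine ⟨Kc (√m0) (√m1) B V C, 1 + 4 * C ^ 2 / √m0 ^ 6 + 2 * ((KQ + B) * √m1 ^ 3) / √m0 ^ 5,
    Kc_pos hq0 hq1 hBB hV0, by positivity, ?_⟩
  intro d τ t hτ hF hm hfE hr L
  have g1 : 0 ≤ 4 * C ^ 2 / √m0 ^ 6 := by positivity
  have g2 : 0 ≤ 2 * ((KQ + B) * √m1 ^ 3) / √m0 ^ 5 := by positivity
  have h1r : 1 ≤ d.r := by linarith
  have hr0 : 0 < d.r := by linarith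
  have hr6 : 4 * C ^ 2 ≤ d.r * √m0 ^ 6 := by
    have : 4 * C ^ 2 / √m0 ^ 6 ≤ d.r := by linarith
    rwa [div_le_iff₀ (by positivity)] at this
  have hr5 : 2 * ((KQ + B) * √m1 ^ 3) ≤ d.r * √m0 ^ 5 := by
    have : 2 * ((KQ + B) * √m1 ^ 3) / √m0 ^ 5 ≤ d.r := by linarith
    rwa [div_le_iff₀ (by positivity)] at this
  obtain ⟨ε, hε, hsmall⟩ := err_small (X := M) (μ := (μHE[4] : Measure M)) (L := L) hq0 hq1 hr0 hV0
  refine ⟨ε, hε, ?_⟩
  intro a u ha hsa hu hsu hf hg hL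
  have hfE' : ∀ k z, |τ.fE k z| ≤ |B0| := fun k z => (hfE k z).trans (le_abs_self _)
  have E := est hS hτ hF ha hsa hu hsu hm0 hm hfE' hr0 hKQ
  have hs := hsmall (qq τ) (fN0 S τ u) (fN1 S τ u) (fgn S τ d t a u) (fgc S τ d t a u)
    (fun z => ∑ x, fD S d t a u x z ^ 2) (fun z => ∑ k, gC S d t a u k z ^ 2)
    (fun z => ∑ y, u y z ^ 2) E.cq E.cN0 E.cN1 E.cgn E.cgc E.cF2
    (continuous_finsetSum _ fun k _ => (cont_g hS hτ hF ha hsa hu hsu k).pow 2)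
    (continuous_finsetSum _ fun y _ => (hu y).continuous.pow 2) E.hq E.N00 E.N10 E.F20
    (fun z => Finset.sum_nonneg fun y _ => sq_nonneg _)
    (fun z => Finset.sum_nonneg fun y _ => sq_nonneg _)
    (fun z => (norm_u hS hτ hsu z).ge) (fun z => gn_le hτ z) (fun z => gc_le hS hτ hsu z) le_rfl
    hf hg hL
  obtain ⟨b1, b2, b3, b4, b5, b6⟩ := E.bounds hKQ0 hBB hq1 h1r hr6 hr5 hs.1 hs.2
  exact ⟨b1, b2, b3, b4, b5, b6⟩

end

end Crest.Agent.R235.SwcTaus_312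
end

-- ▼ part R235/SwcPRCa_57
section

/-!
Row 235 (S0364), PACKAGE SWC, node PROD, leaf PRC (helper57), part A: pointwise algebra of the
curvature equation for `u = ρ^{3/4}(c + c')`, `c ∈ E`, `c' ∈ E'`.
-/

set_option autoImplicit false
set_option maxSynthPendingDepth 3
set_option linter.unusedSectionVars false

open scoped ContDiff ENNReal NNReal Topology Manifold Bundle RealInnerProductSpace
open MeasureTheory Set Filter Metric Bundle Matrix

universe v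

namespace Crest.Agent.R235.SwcPRC_57

open Crest.Agent.R240 Crest.Agent.R240.Ch Crest.Agent.R235 Crest.Agent.R235.SWDefs_53
open Crest.Agent.R235.IndTri_451 Crest.Agent.R235.Tau483 Crest.Agent.R235.SwcGlob_34
open Crest.Agent.R235.SwcProd_215
open Crest.Agent.R249.Tv57 (OpPair SmF SmV KerD)
open Crest.Agent.R249.Tz805 (ToF)

noncomputable section

/-! ### matrices -/

section alg

variable {κ : Type*} [Fintype κ] {P J : Matrix κ κ ℝ} {ρ : Fin 3 → Matrix κ κ ℝ} {n : Fin 3 → ℝ}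
  {ι : ℝ}

theorem al_neg (h : Al P J ρ n ι) : Al P J ρ (fun k => - n k) ι :=
  { h with nn := by simpa using h.nn }

theorem RR_neg (ρ : Fin 3 → Matrix κ κ ℝ) (n : Fin 3 → ℝ) :
    RR ρ (fun k => - n k) = - RR ρ n := by
  unfold RR
  rw [← Finset.sum_neg_distrib]
  exact Finset.sum_congr rfl fun k _ => neg_smul _ _

theorem inE_neg {G : κ → ℝ} (hG : InE' P ρ n G) : InE P ρ (fun k => - n k) G := by
  refine ⟨hG.1, ?_⟩
  rw [RR_neg, neg_mulVec, hG.2]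

theorem dot_rk' (h : Al P J ρ n ι) {G H : κ → ℝ} (hG : InE' P ρ n G) (hH : InE' P ρ n H)
    (k : Fin 3) : G ⬝ᵥ (ρ k *ᵥ H) = n k * (G ⬝ᵥ H) := by
  have h1 := (al_neg h).dot_rk (inE_neg hG) (inE_neg hH) k
  simpa using h1

theorem r_dot (h : Al P J ρ n ι) (k : Fin 3) (G H : κ → ℝ) :
    (ρ k *ᵥ G) ⬝ᵥ H = G ⬝ᵥ (ρ k *ᵥ H) := by
  rw [dotProduct_comm, dotProduct_mulVec, ← mulVec_transpose, h.rT, dotProduct_comm]

theorem bsum (h : Al P J ρ n ι) {G H : κ → ℝ} (hG : InE P ρ n G) (hH : InE' P ρ n H) :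
    ∑ k, n k * (G ⬝ᵥ (ρ k *ᵥ H)) = 0 := by
  have h1 : G ⬝ᵥ (RR ρ n *ᵥ H) = ∑ k, n k * (G ⬝ᵥ (ρ k *ᵥ H)) := by
    unfold RR
    rw [sum_mulVec, dotProduct_sum]
    refine Finset.sum_congr rfl fun k _ => ?_
    rw [smul_mulVec, dotProduct_smul, smul_eq_mul]
  rw [← h1, hH.2, h.dot_EE' hG hH]

theorem quad (h : Al P J ρ n ι) {G H : κ → ℝ} (hG : InE P ρ n G) (hH : InE' P ρ n H) (k : Fin 3) :
    (G + H) ⬝ᵥ (ρ k *ᵥ (G + H)) = n k * (H ⬝ᵥ H - G ⬝ᵥ G) + 2 * (G ⬝ᵥ (ρ k *ᵥ H)) := by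
  rw [mulVec_add, dotProduct_add, add_dotProduct, add_dotProduct, h.dot_rk hG hG,
    dot_rk' h hH hH, ← r_dot h k H G, dotProduct_comm (ρ k *ᵥ H) G]
  ring

theorem fierz_b (h : Al P J ρ n ι)
    (hF : ∀ v : κ → ℝ, P *ᵥ v = v → ∑ k, (v ⬝ᵥ (ρ k *ᵥ v)) ^ 2 = (v ⬝ᵥ v) ^ 2)
    {G H : κ → ℝ} (hG : InE P ρ n G) (hH : InE' P ρ n H) :
    ∑ k, (G ⬝ᵥ (ρ k *ᵥ H)) ^ 2 = (G ⬝ᵥ G) * (H ⬝ᵥ H) := by
  have h1 := hF (G + H) (by rw [mulVec_add, hG.1, hH.1])
  have h2 : (G + H) ⬝ᵥ (G + H) = G ⬝ᵥ G + H ⬝ᵥ H := by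
    rw [dotProduct_add, add_dotProduct, add_dotProduct, h.dot_EE' hG hH, dotProduct_comm H G,
      h.dot_EE' hG hH]
    ring
  have h3 := bsum h hG hH
  have h4 := h.nn
  simp only [quad h hG hH, h2, Fin.sum_univ_three] at h1 h3 h4 ⊢
  generalize G ⬝ᵥ (ρ 0 *ᵥ H) = b0 at *
  generalize G ⬝ᵥ (ρ 1 *ᵥ H) = b1 at *
  generalize G ⬝ᵥ (ρ 2 *ᵥ H) = b2 at *
  generalize G ⬝ᵥ G = A at *
  generalize H ⬝ᵥ H = B at *
  linear_combination (1 / 4) * h1 - (B - A) * h3 - (1 / 4) * (B - A) ^ 2 * h4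

end alg

/-! ### at a point of the manifold -/

variable {M : Type v} [MetricSpace M] [CompactSpace M] [ConnectedSpace M]
  [ChartedSpace (EuclideanSpace ℝ (Fin 4)) M] [IsManifold (𝓡 4) ∞ M]
  [RiemannianBundle (fun p : M => TangentSpace (𝓡 4) p)]
  [IsContMDiffRiemannianBundle (𝓡 4) ∞ (EuclideanSpace ℝ (Fin 4))
    (fun p : M => TangentSpace (𝓡 4) p)]
  [IsRiemannianManifold (𝓡 4) M] [MeasurableSpace M] [BorelSpace M]
  [SecondCountableTopology M] [Nonempty M]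
  {κ0 κ1 κT : Type} [Fintype κ0] [Fintype κ1] [Fintype κT]

section pt

variable {S : SWS M κ0 κ1 κT} {τ : TD M κT} {u : κ0 → M → ℝ} {z : M} {ι : ℝ}

/-- `N₀ = |c|²`. -/
def N0 (τ : TD M κT) (S : SWS M κ0 κ1 κT) (u : κ0 → M → ℝ) (z : M) : ℝ := ∑ y, cE τ S u y z ^ 2

/-- `N₁ = |c'|²`. -/
def N1 (τ : TD M κT) (S : SWS M κ0 κ1 κT) (u : κ0 → M → ℝ) (z : M) : ℝ := ∑ y, cE' τ S u y z ^ 2

/-- `b_k = ⟨ρ_k c, c'⟩`. -/
def bk (τ : TD M κT) (S : SWS M κ0 κ1 κT) (u : κ0 → M → ℝ) (k : Fin 3) (z : M) : ℝ :=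
  ∑ y, ∑ y', S.rho k y y' z * cE τ S u y z * cE' τ S u y' z

theorem dot_self_sum {κ : Type*} [Fintype κ] (v : κ → ℝ) : v ⬝ᵥ v = ∑ y, v y ^ 2 := by
  unfold dotProduct
  exact Finset.sum_congr rfl fun y _ => (sq (v y)).symm

theorem dot_rho (k : Fin 3) (v w : κ0 → ℝ) : v ⬝ᵥ (Rm S z k *ᵥ w) =
    ∑ y, ∑ y', S.rho k y y' z * v y * w y' := by
  unfold dotProduct mulVec dotProduct
  refine Finset.sum_congr rfl fun y _ => ?_
  rw [Finset.mul_sum]
  refine Finset.sum_congr rfl fun y' _ => ?_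
  show v y * (S.rho k y y' z * w y') = S.rho k y y' z * v y * w y'
  ring

theorem rq_dot (k : Fin 3) (u : κ0 → M → ℝ) : S.rq k u z = sv u z ⬝ᵥ (Rm S z k *ᵥ sv u z) := by
  rw [dot_rho]
  rfl

theorem sv_cE : sv (cE τ S u) z =
    (τ.rr z ^ (-(3 / 4) : ℝ) * (1 / 2)) • (sv u z - RR (Rm S z) (nv τ z) *ᵥ sv u z) := by
  funext y
  rw [Pi.smul_apply, Pi.sub_apply, RR_mulVec, smul_eq_mul, mul_assoc]
  rfl

theorem sv_cE' : sv (cE' τ S u) z =
    (τ.rr z ^ (-(3 / 4) : ℝ) * (1 / 2)) • (sv u z + RR (Rm S z) (nv τ z) *ᵥ sv u z) := by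
  funext y
  rw [Pi.smul_apply, Pi.add_apply, RR_mulVec, smul_eq_mul, mul_assoc]
  rfl

theorem inE_cE (h : Al (Pm S z) (Jm S z) (Rm S z) (nv τ z) ι) (hu : Pm S z *ᵥ sv u z = sv u z) :
    InE (Pm S z) (Rm S z) (nv τ z) (sv (cE τ S u) z) := by
  rw [sv_cE]
  constructor
  · rw [mulVec_smul, mulVec_sub, hu, mulVec_mulVec, h.PR]
  · rw [mulVec_smul, mulVec_sub, mulVec_mulVec, h.R_sq, hu, ← smul_neg, neg_sub]

theorem inE'_cE' (h : Al (Pm S z) (Jm S z) (Rm S z) (nv τ z) ι)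
    (hu : Pm S z *ᵥ sv u z = sv u z) :
    InE' (Pm S z) (Rm S z) (nv τ z) (sv (cE' τ S u) z) := by
  rw [sv_cE']
  constructor
  · rw [mulVec_smul, mulVec_add, hu, mulVec_mulVec, h.PR]
  · rw [mulVec_smul, mulVec_add, mulVec_mulVec, h.R_sq, hu, add_comm]

theorem sv_eq (hρ : 0 < τ.rr z) : sv u z =
    (τ.rr z ^ (3 / 4 : ℝ)) • (sv (cE τ S u) z + sv (cE' τ S u) z) := by
  have h1 : τ.rr z ^ (3 / 4 : ℝ) * τ.rr z ^ (-(3 / 4) : ℝ) = 1 := by
    rw [← Real.rpow_add hρ]; norm_num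
  rw [sv_cE, sv_cE', ← smul_add, smul_smul]
  have h2 : sv u z - RR (Rm S z) (nv τ z) *ᵥ sv u z + (sv u z + RR (Rm S z) (nv τ z) *ᵥ sv u z) =
      (2 : ℝ) • sv u z := by
    rw [two_smul]; abel
  rw [h2, smul_smul]
  have h3 : τ.rr z ^ (3 / 4 : ℝ) * (τ.rr z ^ (-(3 / 4) : ℝ) * (1 / 2)) * 2 = 1 := by
    rw [← mul_assoc, h1]; norm_num
  rw [h3, one_smul]

/-- `⟨ρ_k u, u⟩ = ρ^{3/2} ((N₁ - N₀) n_k + 2 b_k)`. -/
theorem rq_eq (h : Al (Pm S z) (Jm S z) (Rm S z) (nv τ z) ι) (hu : Pm S z *ᵥ sv u z = sv u z)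
    (hρ : 0 < τ.rr z) (k : Fin 3) : S.rq k u z =
    τ.rr z ^ (3 / 2 : ℝ) * (τ.n k z * (N1 τ S u z - N0 τ S u z) + 2 * bk τ S u k z) := by
  have e : τ.rr z ^ (3 / 4 : ℝ) * τ.rr z ^ (3 / 4 : ℝ) = τ.rr z ^ (3 / 2 : ℝ) := by
    rw [← Real.rpow_add hρ]; norm_num
  rw [rq_dot, sv_eq (S := S) (τ := τ) hρ, mulVec_smul, dotProduct_smul, smul_dotProduct,
    smul_eq_mul, smul_eq_mul, ← mul_assoc, e, quad h (inE_cE h hu) (inE'_cE' h hu) k,
    dot_self_sum, dot_self_sum, dot_rho]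
  rfl

/-- `∑ b_k² = N₀ N₁`. -/
theorem sum_bk [IsFiniteMeasureOnCompacts (μHE[4] : Measure M)] (hS : S.OK)
    (h : Al (Pm S z) (Jm S z) (Rm S z) (nv τ z) ι) (hu : Pm S z *ᵥ sv u z = sv u z) :
    ∑ k, bk τ S u k z ^ 2 = N0 τ S u z * N1 τ S u z := by
  have hF : ∀ v : κ0 → ℝ, Pm S z *ᵥ v = v →
      ∑ k, (v ⬝ᵥ (Rm S z k *ᵥ v)) ^ 2 = (v ⬝ᵥ v) ^ 2 := by
    intro v hv
    have h1 := hS.fierz z v (fun y => congrFun hv y)
    rw [dot_self_sum]
    simp only [dot_rho]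
    exact h1
  have h1 := fierz_b h hF (inE_cE h hu) (inE'_cE' h hu)
  rw [dot_self_sum, dot_self_sum] at h1
  simp only [dot_rho] at h1
  exact h1

/-- `|zet c|² = |c|²`. -/
theorem sum_zet (h : Al (Pm S z) (Jm S z) (Rm S z) (nv τ z) ι) {s : κ0 → M → ℝ}
    (hs : Pm S z *ᵥ sv s z = sv s z) : ∑ y, ‖zet S s z y‖ ^ 2 = ∑ y, s y z ^ 2 := by
  have h1 : ∀ y, ‖zet S s z y‖ ^ 2 = (1 / 2) * (s y z ^ 2 + (Jm S z *ᵥ sv s z) y ^ 2) := by
    intro y
    have e : zet S s z y = ((s y z : ℂ) - Complex.I * (((Jm S z *ᵥ sv s z) y : ℝ) : ℂ)) /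
      ((√2 : ℝ) : ℂ) := rfl
    rw [e, norm_div, div_pow]
    have h2 : ‖((√2 : ℝ) : ℂ)‖ ^ 2 = 2 := by
      rw [Complex.norm_real, Real.norm_eq_abs, sq_abs, Real.sq_sqrt (by norm_num)]
    have h3 : ‖(s y z : ℂ) - Complex.I * (((Jm S z *ᵥ sv s z) y : ℝ) : ℂ)‖ ^ 2 =
        s y z ^ 2 + (Jm S z *ᵥ sv s z) y ^ 2 := by
      rw [← Complex.normSq_eq_norm_sq, Complex.normSq_apply]
      simp
      ring
    rw [h2, h3]; ring
  simp only [h1]
  rw [← Finset.mul_sum, Finset.sum_add_distrib]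
  have h4 : ∑ y, (Jm S z *ᵥ sv s z) y ^ 2 = ∑ y, s y z ^ 2 := by
    rw [← dot_self_sum, h.J_dot, h.JJG hs, dotProduct_neg, neg_neg, dot_self_sum]
    rfl
  rw [h4]; ring

end pt

end

end Crest.Agent.R235.SwcPRC_57
end

-- ▼ part R235/SwcPRCb_57
section

/-!
Row 235 (S0364), PACKAGE SWC, node PROD, leaf PRC (helper57), part B: the functions
`φ_k = q(w_0; e_k, Φ_n)`, `s_n`, `E_k`; continuity; the closed form `Φ_n`; integral bounds.
-/

set_option autoImplicit false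
set_option maxSynthPendingDepth 3
set_option linter.unusedSectionVars false

open scoped ContDiff ENNReal NNReal Topology Manifold Bundle RealInnerProductSpace
open MeasureTheory Set Filter Metric Bundle Matrix

universe v

namespace Crest.Agent.R235.SwcPRC_57

open Crest.Agent.R240 Crest.Agent.R240.Ch Crest.Agent.R235 Crest.Agent.R235.SWDefs_53
open Crest.Agent.R235.IndTri_451 Crest.Agent.R235.Tau483 Crest.Agent.R235.SwcGlob_34
open Crest.Agent.R235.SwcProd_215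
open Crest.Agent.R249.Tv57 (OpPair SmF SmV KerD)
open Crest.Agent.R249.Tz805 (ToF)
open Crest.Agent.R249.Vf281 (VSm mCov)

noncomputable section

variable {M : Type v} [MetricSpace M] [CompactSpace M] [ConnectedSpace M]
  [ChartedSpace (EuclideanSpace ℝ (Fin 4)) M] [IsManifold (𝓡 4) ∞ M]
  [RiemannianBundle (fun p : M => TangentSpace (𝓡 4) p)]
  [IsContMDiffRiemannianBundle (𝓡 4) ∞ (EuclideanSpace ℝ (Fin 4))
    (fun p : M => TangentSpace (𝓡 4) p)]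
  [IsRiemannianManifold (𝓡 4) M] [MeasurableSpace M] [BorelSpace M]
  [SecondCountableTopology M] [Nonempty M] [IsFiniteMeasureOnCompacts (μHE[4] : Measure M)]
  {κ0 κ1 κT : Type} [Fintype κ0] [Fintype κ1] [Fintype κT]

/-- continuous functions are integrable. -/
theorem intg {f : M → ℝ} (hf : Continuous f) : Integrable f (μHE[4] : Measure M) :=
  hf.integrable_of_hasCompactSupport (HasCompactSupport.of_compactSpace _)

/-! ### continuity -/

section cont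

variable {S : SWS M κ0 κ1 κT} {τ : TD M κT} {u : κ0 → M → ℝ} {C : ℝ}

theorem cont_R (hS : S.OK) (hτ : τ.OK S C) (hu : SmV (n := 4) u) (y : κ0) :
    Continuous (τ.R S u y) := by
  unfold TD.R
  refine continuous_finsetSum _ fun k _ => continuous_finsetSum _ fun y' _ => ?_
  exact ((hτ.smn k).continuous.mul (hS.smrho k y y').continuous).mul (hu y').continuous

theorem cont_rr (hτ : τ.OK S C) (p : ℝ) : Continuous fun z => τ.rr z ^ p :=
  hτ.smrr.continuous.rpow_const fun z => Or.inl (hτ.pos z).ne'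

theorem cont_cE (hS : S.OK) (hτ : τ.OK S C) (hu : SmV (n := 4) u) (y : κ0) :
    Continuous (cE τ S u y) := by
  unfold cE
  exact (cont_rr hτ _).mul (continuous_const.mul ((hu y).continuous.sub (cont_R hS hτ hu y)))

theorem cont_cE' (hS : S.OK) (hτ : τ.OK S C) (hu : SmV (n := 4) u) (y : κ0) :
    Continuous (cE' τ S u y) := by
  unfold cE'
  exact (cont_rr hτ _).mul (continuous_const.mul ((hu y).continuous.add (cont_R hS hτ hu y)))

theorem cont_N0 (hS : S.OK) (hτ : τ.OK S C) (hu : SmV (n := 4) u) : Continuous (N0 τ S u) := by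
  unfold N0
  exact continuous_finsetSum _ fun y _ => (cont_cE hS hτ hu y).pow 2

theorem cont_N1 (hS : S.OK) (hτ : τ.OK S C) (hu : SmV (n := 4) u) : Continuous (N1 τ S u) := by
  unfold N1
  exact continuous_finsetSum _ fun y _ => (cont_cE' hS hτ hu y).pow 2


theorem cont_rq (hS : S.OK) (hu : SmV (n := 4) u) (k : Fin 3) : Continuous (S.rq k u) := by
  unfold SWS.rq
  refine continuous_finsetSum _ fun y _ => continuous_finsetSum _ fun y' _ => ?_
  exact ((hS.smrho k y y').continuous.mul (hu y).continuous).mul (hu y').continuous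

theorem cont_gR (hS : S.OK) (hτ : τ.OK S C) (hu : SmV (n := 4) u) {a : κT → M → ℝ}
    (ha : SmV (n := 4) a) (hsa : S.DT.Sec a) (r : ℝ) (k : Fin 3) :
    Continuous (gR S τ r a u k) := by
  unfold gR
  refine (S.H.smB a ha hsa k.succ).continuous.sub ?_
  refine Continuous.sub (Continuous.add ?_ ?_) (hτ.smfE k).continuous
  · exact (cont_rr hτ _).mul (continuous_const.mul (cont_rq hS hu k))
  · exact continuous_const.mul (hτ.smrr.continuous.mul (hτ.smn k).continuous)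

end cont

/-! ### the functions -/

section fns

variable {V : Vars M κ0 κ1 κT} {U : Filter ℕ}

/-- the Taubes data of index `n`. -/
abbrev tn (V : Vars M κ0 κ1 κT) (n : ℕ) : TD M κT := V.τ (V.t n)

/-- `φ_k`. -/
def ph (V : Vars M κ0 κ1 κT) (n : ℕ) (k : Fin 3) (x : M) : ℝ :=
  qG (V.w 0).1.1 (V.e k) (V.Q.Phi n) x

/-- `s = (2r - N₀)/4`. -/
def sn (V : Vars M κ0 κ1 κT) (n : ℕ) (x : M) : ℝ :=
  (2 * V.r n - N0 (tn V n) V.S (V.u n) x) / 4

/-- the rest. -/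
def Ek (V : Vars M κ0 κ1 κT) (n : ℕ) (k : Fin 3) (x : M) : ℝ :=
  (tn V n).rr x * (tn V n).n k x * N1 (tn V n) V.S (V.u n) x / 4 +
    (tn V n).rr x * bk (tn V n) V.S (V.u n) k x / 2 +
    gR V.S (tn V n) (V.r n) (V.a n) (V.u n) k x / 2

theorem ok (h : Ctx V U) (n : ℕ) : (tn V n).OK V.S V.C := h.data.tau _ (h.seq.nt n)

theorem al (h : Ctx V U) (n : ℕ) (z : M) :
    Al (Pm V.S z) (Jm V.S z) (Rm V.S z) (nv (tn V n) z) V.ι :=
  al_of h.data.ok h.data.tg z ((ok h n).norm z)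

theorem secu (h : Ctx V U) (n : ℕ) (z : M) : Pm V.S z *ᵥ sv (V.u n) z = sv (V.u n) z :=
  funext fun y => h.seq.secu n y z

theorem qG_Phi (n : ℕ) (b : F2 E4 M) (F : F2 E4 M) (x : M) : qG F b (V.Q.Phi n) x =
    2 * Real.pi * qG F b ((V.a0 n).1.1 : F2 E4 M) x +
      qG F b (dG (thE V.sT V.e (V.β n) (V.a n))) x := by
  have h1 : at2 (V.Q.Phi n) x = (2 * Real.pi) • at2 ((V.a0 n).1.1 : F2 E4 M) x +
      at2 (dG (thE V.sT V.e (V.β n) (V.a n))) x := rfl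
  unfold qG q
  rw [h1, W_add_right, W_smul_right]
  ring

theorem two_ph (h : Ctx V U) (n : ℕ) (k : Fin 3) (x : M) :
    2 * ph V n k x = V.S.H.B (V.a n) k.succ x + (tn V n).fE k x := by
  unfold ph
  rw [qG_Phi]
  exact (h.lnk n).cur (V.a n) (h.seq.sma n) (h.seq.seca n) k x

/-- `φ_k = Y_k s + E_k`. -/
theorem ph_eq (h : Ctx V U) (n : ℕ) (k : Fin 3) (x : M) :
    ph V n k x = Xw V.ww (V.t n) k x * sn V n x + Ek V n k x := by
  have hρ := (ok h n).pos x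
  have h1 := two_ph h n k x
  have h2 : Xw V.ww (V.t n) k x = (tn V n).rr x * (tn V n).n k x :=
    (h.data.nn (V.t n) k x (h.seq.nt n)).symm
  have h3 := rq_eq (al h n x) (secu h n x) hρ k
  have e : (tn V n).rr x ^ (-(1 / 2) : ℝ) * (tn V n).rr x ^ (3 / 2 : ℝ) = (tn V n).rr x := by
    rw [← Real.rpow_add hρ]; norm_num
  have h4 : gR V.S (tn V n) (V.r n) (V.a n) (V.u n) k x = V.S.H.B (V.a n) k.succ x -
      ((tn V n).rr x ^ (-(1 / 2) : ℝ) * ((1 / 2) * V.S.rq k (V.u n) x) +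
        V.r n * ((tn V n).rr x * (tn V n).n k x) - (tn V n).fE k x) := rfl
  have h5 : (tn V n).rr x ^ (-(1 / 2) : ℝ) * ((1 / 2) * V.S.rq k (V.u n) x) =
      (tn V n).rr x * ((1 / 2) * ((tn V n).n k x * (N1 (tn V n) V.S (V.u n) x -
        N0 (tn V n) V.S (V.u n) x) + 2 * bk (tn V n) V.S (V.u n) k x)) := by
    rw [h3]
    calc _ = ((tn V n).rr x ^ (-(1 / 2) : ℝ) * (tn V n).rr x ^ (3 / 2 : ℝ)) *
          ((1 / 2) * ((tn V n).n k x * (N1 (tn V n) V.S (V.u n) x -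
          N0 (tn V n) V.S (V.u n) x) + 2 * bk (tn V n) V.S (V.u n) k x)) := by ring
      _ = _ := by rw [e]
  rw [h5] at h4
  unfold sn Ek
  rw [h2]
  linarith

theorem nal_eq (h : Ctx V U) (n : ℕ) (x : M) :
    V.Q.nal n x = N0 (tn V n) V.S (V.u n) x / (2 * V.r n) := by
  have hr : 0 < 2 * V.r n := by
    have := h.seq.rge n
    have h0 : (0 : ℝ) ≤ n := Nat.cast_nonneg n
    linarith
  have h1 : V.Q.nal n x = ∑ i, ‖zet V.S (cE (tn V n) V.S (V.u n)) x (V.ν i) /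
      ((√(2 * V.r n) : ℝ) : ℂ)‖ ^ 2 := rfl
  rw [h1]
  have h2 : ∀ i, ‖zet V.S (cE (tn V n) V.S (V.u n)) x (V.ν i) /
      ((√(2 * V.r n) : ℝ) : ℂ)‖ ^ 2 =
      ‖zet V.S (cE (tn V n) V.S (V.u n)) x (V.ν i)‖ ^ 2 / (2 * V.r n) := by
    intro i
    rw [norm_div, div_pow, Complex.norm_real, Real.norm_eq_abs, sq_abs, Real.sq_sqrt hr.le]
  simp only [h2]
  rw [← Finset.sum_div, Equiv.sum_comp V.ν
    (fun y => ‖zet V.S (cE (tn V n) V.S (V.u n)) x y‖ ^ 2)]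
  have h3 : Pm V.S x *ᵥ sv (cE (tn V n) V.S (V.u n)) x = sv (cE (tn V n) V.S (V.u n)) x :=
    (inE_cE (al h n x) (secu h n x)).1
  rw [sum_zet (al h n x) h3]
  rfl

theorem sn_eq (h : Ctx V U) (n : ℕ) (x : M) :
    (1 / 2) * V.Q.r n * (1 - V.Q.nal n x) = sn V n x := by
  have hr : 0 < V.r n := by
    have := h.seq.rge n
    have h0 : (0 : ℝ) ≤ n := Nat.cast_nonneg n
    linarith
  rw [nal_eq h]
  have e : V.Q.r n = V.r n := rfl
  rw [e]
  unfold sn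
  field_simp
  ring

/-- `∑ E_k² ≤ ρ² N₁² + ρ² N₀ N₁ + |g|²`. -/
theorem sum_Ek (h : Ctx V U) (n : ℕ) (x : M) : ∑ k, Ek V n k x ^ 2 ≤
    (tn V n).rr x ^ 2 * N1 (tn V n) V.S (V.u n) x ^ 2 +
      (tn V n).rr x ^ 2 * (N0 (tn V n) V.S (V.u n) x * N1 (tn V n) V.S (V.u n) x) +
      ∑ k, gR V.S (tn V n) (V.r n) (V.a n) (V.u n) k x ^ 2 := by
  have h1 := sum_bk h.data.ok (al h n x) (secu h n x)
  have h2 := (ok h n).norm x
  rw [← h1]
  simp only [Fin.sum_univ_three] at h2 ⊢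
  unfold Ek
  generalize (tn V n).rr x = ρ at *
  generalize N1 (tn V n) V.S (V.u n) x = N at *
  generalize gR V.S (tn V n) (V.r n) (V.a n) (V.u n) 0 x = g0 at *
  generalize gR V.S (tn V n) (V.r n) (V.a n) (V.u n) 1 x = g1 at *
  generalize gR V.S (tn V n) (V.r n) (V.a n) (V.u n) 2 x = g2 at *
  generalize bk (tn V n) V.S (V.u n) 0 x = b0 at *
  generalize bk (tn V n) V.S (V.u n) 1 x = b1 at *
  generalize bk (tn V n) V.S (V.u n) 2 x = b2 at *
  generalize (tn V n).n 0 x = n0 at *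
  generalize (tn V n).n 1 x = n1 at *
  generalize (tn V n).n 2 x = n2 at *
  have key : ∀ m b g : ℝ, (ρ * m * N / 4 + ρ * b / 2 + g / 2) ^ 2 ≤
      3 * (ρ ^ 2 * N ^ 2 * m ^ 2 / 16 + ρ ^ 2 * b ^ 2 / 4 + g ^ 2 / 4) := by
    intro m b g
    nlinarith [sq_nonneg (ρ * m * N / 4 - ρ * b / 2), sq_nonneg (ρ * m * N / 4 - g / 2),
      sq_nonneg (ρ * b / 2 - g / 2)]
  have k0 := key n0 b0 g0
  have k1 := key n1 b1 g1
  have k2 := key n2 b2 g2
  have e : ρ ^ 2 * N ^ 2 * n0 ^ 2 + ρ ^ 2 * N ^ 2 * n1 ^ 2 + ρ ^ 2 * N ^ 2 * n2 ^ 2 =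
      ρ ^ 2 * N ^ 2 := by
    linear_combination (ρ ^ 2 * N ^ 2) * h2
  have p1 : 0 ≤ ρ ^ 2 * N ^ 2 := by positivity
  have p2 : 0 ≤ ρ ^ 2 * (b0 ^ 2 + b1 ^ 2 + b2 ^ 2) := by positivity
  have p3 : 0 ≤ g0 ^ 2 + g1 ^ 2 + g2 ^ 2 := by positivity
  nlinarith

end fns

/-! ### continuity of the functions -/

section cont2

variable {V : Vars M κ0 κ1 κT} {U : Filter ℕ}

theorem cont_ph (h : Ctx V U) (n : ℕ) (k : Fin 3) : Continuous (ph V n k) := by
  have e : ph V n k = fun x => (V.S.H.B (V.a n) k.succ x + (tn V n).fE k x) / 2 := by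
    funext x
    rw [← two_ph h n k x]; ring
  rw [e]
  exact ((V.S.H.smB (V.a n) (h.seq.sma n) (h.seq.seca n) k.succ).continuous.add
    ((ok h n).smfE k).continuous).div_const 2

theorem cont_sn (h : Ctx V U) (n : ℕ) : Continuous (sn V n) := by
  unfold sn
  exact (continuous_const.sub (cont_N0 h.data.ok (ok h n) (h.seq.smu n))).div_const 4

theorem cont_X (h : Ctx V U) (t : E3) (k : Fin 3) : Continuous (Xw V.ww t k) := by
  unfold Xw
  exact continuous_finsetSum _ fun i _ => continuous_const.mul (h.data.smw i k).continuous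

theorem cont_Ek (h : Ctx V U) (n : ℕ) (k : Fin 3) : Continuous (Ek V n k) := by
  have e : Ek V n k = fun x => ph V n k x - Xw V.ww (V.t n) k x * sn V n x := by
    funext x
    rw [ph_eq h n k x]; ring
  rw [e]
  exact (cont_ph h n k).sub ((cont_X h _ k).mul (cont_sn h n))

end cont2

end

end Crest.Agent.R235.SwcPRC_57
end

-- ▼ part R235/SwcPRC_57

/-!
Row 235 (S0364), PACKAGE SWC, node PROD, leaf PRC (helper57): `e3`, `o1`, `o2` of the Taubes
sequence, from PWD, VOLD, KATO4.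
-/

set_option autoImplicit false
set_option maxSynthPendingDepth 3
set_option linter.unusedSectionVars false

open scoped ContDiff ENNReal NNReal Topology Manifold Bundle RealInnerProductSpace
open MeasureTheory Set Filter Metric Bundle Matrix

universe v

namespace Crest.Agent.R235.SwcPRC_57

open Crest.Agent.R240 Crest.Agent.R240.Ch Crest.Agent.R240.Int Crest.Agent.R235
open Crest.Agent.R235.SWDefs_53
open Crest.Agent.R235.IndTri_451 Crest.Agent.R235.Tau483 Crest.Agent.R235.SwcGlob_34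
open Crest.Agent.R235.SwcProd_215
open Crest.Agent.R249.Tv57 (OpPair SmF SmV KerD)
open Crest.Agent.R249.Tz805 (ToF)
open Crest.Agent.R249.Vf281 (VSm mCov)

noncomputable section

/-! ### limits -/

theorem lim_aux {U : Filter ℕ} (hU : U ≤ atTop) {r f : ℕ → ℝ} (hr : ∀ n : ℕ, (n : ℝ) + 1 ≤ r n)
    (h0 : ∀ n, 0 ≤ f n) {A B : ℝ} (hA : 0 ≤ A)
    (h : ∀ ε : ℝ, 0 < ε → ∀ᶠ n in U, f n ≤ A * ε * r n + B) :
    Tendsto (fun n => (r n)⁻¹ * f n) U (𝓝 0) := by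
  rw [Metric.tendsto_nhds]
  intro η hη
  have hε : 0 < η / (2 * (A + 1)) := by positivity
  obtain ⟨N, hN⟩ := exists_nat_gt (2 * (B + 1) / η)
  filter_upwards [h _ hε, hU (eventually_ge_atTop N)] with n h1 h2
  have hrn : 0 < r n := by
    have := hr n
    have h3 : (0 : ℝ) ≤ n := Nat.cast_nonneg n
    linarith
  rw [Real.dist_eq, sub_zero, abs_of_nonneg (mul_nonneg (inv_nonneg.2 hrn.le) (h0 n)),
    inv_mul_lt_iff₀ hrn]
  have h4 : 2 * (B + 1) / η < r n := by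
    have h5 : (N : ℝ) ≤ n := by exact_mod_cast h2
    have := hr n
    linarith
  have h6 : 2 * (B + 1) < r n * η := by rwa [div_lt_iff₀ hη] at h4
  have h7 : A * (η / (2 * (A + 1))) ≤ η / 2 := by
    have : A * (η / (2 * (A + 1))) = η / 2 * (A / (A + 1)) := by field_simp
    rw [this]
    have h8 : A / (A + 1) ≤ 1 := by rw [div_le_one (by linarith)]; linarith
    calc η / 2 * (A / (A + 1)) ≤ η / 2 * 1 := mul_le_mul_of_nonneg_left h8 (by positivity)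
      _ = η / 2 := mul_one _
  have h9 : A * (η / (2 * (A + 1))) * r n ≤ η / 2 * r n := mul_le_mul_of_nonneg_right h7 hrn.le
  linarith

variable {M : Type v} [MetricSpace M] [CompactSpace M] [ConnectedSpace M]
  [ChartedSpace (EuclideanSpace ℝ (Fin 4)) M] [IsManifold (𝓡 4) ∞ M]
  [RiemannianBundle (fun p : M => TangentSpace (𝓡 4) p)]
  [IsContMDiffRiemannianBundle (𝓡 4) ∞ (EuclideanSpace ℝ (Fin 4))
    (fun p : M => TangentSpace (𝓡 4) p)]
  [IsRiemannianManifold (𝓡 4) M] [MeasurableSpace M] [BorelSpace M]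
  [SecondCountableTopology M] [Nonempty M] [IsFiniteMeasureOnCompacts (μHE[4] : Measure M)]
  {κ0 κ1 κT : Type} [Fintype κ0] [Fintype κ1] [Fintype κT]
  {V : Vars M κ0 κ1 κT} {U : Filter ℕ}

/-! ### the closed form `Φ_n` -/

theorem smooth_th (h : Ctx V U) (n : ℕ) : Smooth1 (thE V.sT V.e (V.β n) (V.a n)) := by
  have h1 : Smooth1 (RiemB_399.flG (gg V.e) (fld V.sT (V.a n))) :=
    RiemB_399.smooth1_flG (QSTri_451.met_gg h.data.tg.tri) (fun z =>
      RiemB_399.VSm_sum fun A => VSm.smul le_rfl ((h.seq.sma n A).contMDiffAt)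
        (h.data.tg.smsT A z))
  have h2 : Smooth1 (V.β n) := (h.lnk n).smβ
  have e : thE V.sT V.e (V.β n) (V.a n) =
      (-1 : ℝ) • (RiemB_399.flG (gg V.e) (fld V.sT (V.a n))) + (-1 : ℝ) • V.β n := by
    funext x
    ext v
    show - at1 (RiemB_399.flG (gg V.e) (fld V.sT (V.a n))) x v - at1 (V.β n) x v =
      (-1 : ℝ) * at1 (RiemB_399.flG (gg V.e) (fld V.sT (V.a n))) x v + (-1 : ℝ) * at1 (V.β n) x v
    ring
  rw [e]
  exact (h1.smul _).add (h2.smul _)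

/-- `Φ_n` as a closed form. -/
def PhZ (h : Ctx V U) (n : ℕ) : Z2 M := (2 * Real.pi) • V.a0 n +
  ⟨⟨dG (thE V.sT V.e (V.β n) (V.a n)), Smooth2.dG (smooth_th h n)⟩, Closed2.dG (smooth_th h n)⟩

theorem PhZ_eq (h : Ctx V U) (n : ℕ) : ((PhZ h n).1.1 : F2 E4 M) = V.Q.Phi n := rfl

theorem cls_PhZ (h : Ctx V U) (n : ℕ) : cls (PhZ h n) = (2 * Real.pi) • V.c := by
  unfold PhZ
  rw [map_add, map_smul, h.cls n]
  have e : cls (⟨⟨dG (thE V.sT V.e (V.β n) (V.a n)), Smooth2.dG (smooth_th h n)⟩,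
      Closed2.dG (smooth_th h n)⟩ : Z2 M) = 0 := by
    rw [cls_eq_zero]
    exact isEx_dG (smooth_th h n)
  rw [e, add_zero]

theorem smooth_Phi (h : Ctx V U) (n : ℕ) : Smooth2 (V.Q.Phi n) := (PhZ h n).1.2

theorem vol0 (h : Ctx V U) : Vol ((V.w 0).1.1 : F2 E4 M) := by
  have hT := h.data.tg.tri
  have hs0 : Smooth2 ((V.w 0).1.1 : F2 E4 M) := by
    have := hT.smooth 0
    rwa [hT.e_zero] at this
  exact ⟨hs0.1, fun p => (hs0.2 p).continuousOn, fun x => hT.W_ne x⟩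

theorem cpt0 (h : Ctx V U) : IndVol_57.Cpt ((V.w 0).1.1 : F2 E4 M) (II V.e 0) := by
  have hT := h.data.tg.tri
  refine ⟨vol0 h, hT.I_sq 0, fun x u v => ?_⟩
  have h1 := hT.g_eq 0 x u v
  have h0 : V.e 0 = ((V.w 0).1.1 : F2 E4 M) := hT.e_zero
  rw [h0] at h1
  exact (h.data.tg.met x u v).trans h1

theorem int_PhPh (h : Ctx V U) (n : ℕ) :
    ∫ x, 2 * qG ((V.w 0).1.1 : F2 E4 M) (V.Q.Phi n) (V.Q.Phi n) x ∂(μHE[4] : Measure M) =
      (2 * Real.pi) * ((2 * Real.pi) * ip (V.w 0) V.c V.c) := by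
  rw [← IndVol_57.I_eq (cpt0 h)]
  have h1 := IndVol_57.pI_eq_I (V.w 0) (PhZ h n) (PhZ h n)
  rw [PhZ_eq] at h1
  rw [← h1, ← ip_cls (vol0 h), cls_PhZ, ip_smul_left (vol0 h), ip_smul_right (vol0 h)]

/-! ### bounds -/

theorem i_add {f g : M → ℝ} (hf : Continuous f) (hg : Continuous g) :
    ∫ z, (f z + g z) ∂(μHE[4] : Measure M) =
      ∫ z, f z ∂(μHE[4] : Measure M) + ∫ z, g z ∂(μHE[4] : Measure M) :=
  integral_add (intg hf) (intg hg)


theorem i_lin (a b : ℝ) {f g : M → ℝ} (hf : Continuous f) (hg : Continuous g) :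
    ∫ z, (a * f z + b * g z) ∂(μHE[4] : Measure M) =
      a * ∫ z, f z ∂(μHE[4] : Measure M) + b * ∫ z, g z ∂(μHE[4] : Measure M) := by
  rw [integral_add ((intg hf).const_mul a) ((intg hg).const_mul b), integral_const_mul,
    integral_const_mul]

theorem i_lins (a b : ℝ) {f g : M → ℝ} (hf : Continuous f) (hg : Continuous g) :
    ∫ z, (a * f z - b * g z) ∂(μHE[4] : Measure M) =
      a * ∫ z, f z ∂(μHE[4] : Measure M) - b * ∫ z, g z ∂(μHE[4] : Measure M) := by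
  rw [integral_sub ((intg hf).const_mul a) ((intg hg).const_mul b), integral_const_mul,
    integral_const_mul]

theorem r_ge (h : Ctx V U) (n : ℕ) : 1 ≤ V.r n := by
  have := h.seq.rge n
  have h0 : (0 : ℝ) ≤ n := Nat.cast_nonneg n
  linarith

theorem N1_nonneg (τ : TD M κT) (S : SWS M κ0 κ1 κT) (u : κ0 → M → ℝ) (z : M) :
    0 ≤ N1 τ S u z := Finset.sum_nonneg fun _ _ => sq_nonneg _

theorem N0_nonneg (τ : TD M κT) (S : SWS M κ0 κ1 κT) (u : κ0 → M → ℝ) (z : M) :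
    0 ≤ N0 τ S u z := Finset.sum_nonneg fun _ _ => sq_nonneg _

theorem int_N1 (hK : KATO4.{v}) (h : Ctx V U) : ∃ A : ℝ, 0 ≤ A ∧ ∀ n,
    ∫ z, N1 (tn V n) V.S (V.u n) z ^ 2 ∂(μHE[4] : Measure M) ≤ A := by
  obtain ⟨Ck, hCk, hk⟩ := hK M κ0 κ1 κT V.S h.data.ok
  obtain ⟨m0, m1, hm0, hm⟩ := h.data.bounds
  have hm1 : 0 < m1 := by
    obtain ⟨z⟩ := (inferInstance : Nonempty M)
    have := hm (V.t 0) z (h.seq.nt 0)
    linarith [this.1, this.2]
  set c0 : ℝ := (m0 ^ (3 / 4 : ℝ)) ^ 2 with hc0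
  set c1 : ℝ := (m1 ^ (3 / 4 : ℝ)) ^ 2 with hc1
  have hc0p : 0 < c0 := by positivity
  have hc1p : 0 < c1 := by positivity
  refine ⟨(c0⁻¹) ^ 2 * (Ck * (V.K' + c1 * V.K') ^ 2), by positivity, fun n => ?_⟩
  set τ := tn V n with hτ
  have hok : τ.OK V.S V.C := ok h n
  set v : κ0 → M → ℝ := τ.sc (3 / 4) (cE' τ V.S (V.u n)) with hv
  have hvy : ∀ y z, v y z = τ.rr z ^ (3 / 4 : ℝ) * cE' τ V.S (V.u n) y z := fun y z => rfl
  have hvv : v = fun y z => (1 / 2) * (V.u n y z + τ.R V.S (V.u n) y z) := by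
    funext y z
    have h1 : τ.rr z ^ (3 / 4 : ℝ) * τ.rr z ^ (-(3 / 4) : ℝ) = 1 := by
      rw [← Real.rpow_add (hok.pos z)]; norm_num
    rw [hvy]
    show τ.rr z ^ (3 / 4 : ℝ) * (τ.rr z ^ (-(3 / 4) : ℝ) *
      ((1 / 2) * (V.u n y z + τ.R V.S (V.u n) y z))) = _
    rw [← mul_assoc, h1, one_mul]
  have hsm : SmV (n := 4) v := by
    intro y
    rw [hvv]
    refine sm_mul (sm_const _) (sm_add (h.seq.smu n y) ?_)
    show ContMDiff (𝓡 4) 𝓘(ℝ, ℝ) ∞ fun z => ∑ k, ∑ y', τ.n k z * V.S.rho k y y' z * V.u n y' z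
    exact sm_sum fun k => sm_sum fun y' => sm_mul (sm_mul (hok.smn k) (h.data.ok.smrho k y y'))
      (h.seq.smu n y')
  have hsec : V.S.D0.Sec v := by
    intro y z
    have h1 := (inE'_cE' (al h n z) (secu h n z)).1
    have h2 := congrFun h1 y
    have h3 : ∑ b, V.S.D0.p y b z * cE' τ V.S (V.u n) b z = cE' τ V.S (V.u n) y z := h2
    show ∑ b, V.S.D0.p y b z * (τ.rr z ^ (3 / 4 : ℝ) * cE' τ V.S (V.u n) b z) =
      τ.rr z ^ (3 / 4 : ℝ) * cE' τ V.S (V.u n) y z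
    rw [← h3, Finset.mul_sum]
    exact Finset.sum_congr rfl fun b _ => by ring
  have key := hk (V.a n) v (h.seq.sma n) (h.seq.seca n) hsm hsec
  have hsum : ∀ z, ∑ y, v y z ^ 2 = (τ.rr z ^ (3 / 4 : ℝ)) ^ 2 * N1 τ V.S (V.u n) z := by
    intro z
    unfold N1
    rw [Finset.mul_sum]
    exact Finset.sum_congr rfl fun y _ => by rw [hvy, mul_pow]
  have hlo : ∀ z, c0 ≤ (τ.rr z ^ (3 / 4 : ℝ)) ^ 2 := by
    intro z
    have h1 := (hm (V.t n) z (h.seq.nt n)).1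
    exact pow_le_pow_left₀ (by positivity) (Real.rpow_le_rpow hm0.le h1 (by norm_num)) 2
  have hhi : ∀ z, (τ.rr z ^ (3 / 4 : ℝ)) ^ 2 ≤ c1 := by
    intro z
    have h1 := (hm (V.t n) z (h.seq.nt n)).2
    have h0 := hok.pos z
    exact pow_le_pow_left₀ (by positivity) (Real.rpow_le_rpow h0.le h1 (by norm_num)) 2
  have cN1 : Continuous (N1 τ V.S (V.u n)) := cont_N1 h.data.ok hok (h.seq.smu n)
  have cv : Continuous fun z => ∑ y, v y z ^ 2 :=
    continuous_finsetSum _ fun y _ => (hsm y).continuous.pow 2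
  -- `∫ N₁ ≤ K'`
  have hN1 : ∫ z, N1 τ V.S (V.u n) z ∂(μHE[4] : Measure M) ≤ V.K' := by
    have h1 : V.r n * ∫ z, N1 τ V.S (V.u n) z ∂(μHE[4] : Measure M) ≤ V.K' := (h.seq.ene n).e3
    have h2 : 0 ≤ ∫ z, N1 τ V.S (V.u n) z ∂(μHE[4] : Measure M) :=
      integral_nonneg fun z => N1_nonneg _ _ _ _
    have h3 := r_ge h n
    nlinarith
  have hvi : ∫ z, ∑ y, v y z ^ 2 ∂(μHE[4] : Measure M) ≤ c1 * V.K' := by
    have h1 : ∫ z, ∑ y, v y z ^ 2 ∂(μHE[4] : Measure M) ≤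
        ∫ z, c1 * N1 τ V.S (V.u n) z ∂(μHE[4] : Measure M) := by
      refine integral_mono (intg cv) (intg (continuous_const.mul cN1)) fun z => ?_
      show ∑ y, v y z ^ 2 ≤ c1 * N1 τ V.S (V.u n) z
      rw [hsum]
      exact mul_le_mul_of_nonneg_right (hhi z) (N1_nonneg _ _ _ _)
    rw [integral_const_mul] at h1
    exact h1.trans (mul_le_mul_of_nonneg_left hN1 hc1p.le)
  have hv0 : 0 ≤ ∫ z, ∑ y, v y z ^ 2 ∂(μHE[4] : Measure M) :=
    integral_nonneg fun z => Finset.sum_nonneg fun y _ => sq_nonneg _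
  have hn0 : 0 ≤ ∫ z, ∑ y, ‖V.S.nab (V.a n) v y z‖ ^ 2 ∂(μHE[4] : Measure M) :=
    integral_nonneg fun z => Finset.sum_nonneg fun y _ => sq_nonneg _
  have hn1 : ∫ z, ∑ y, ‖V.S.nab (V.a n) v y z‖ ^ 2 ∂(μHE[4] : Measure M) ≤ V.K' :=
    (h.seq.ene n).e4
  have hfin : ∫ z, (∑ y, v y z ^ 2) ^ 2 ∂(μHE[4] : Measure M) ≤
      Ck * (V.K' + c1 * V.K') ^ 2 := by
    refine key.trans (mul_le_mul_of_nonneg_left ?_ hCk.le)
    exact pow_le_pow_left₀ (add_nonneg hn0 hv0) (add_le_add hn1 hvi) 2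
  have hlast : ∫ z, N1 τ V.S (V.u n) z ^ 2 ∂(μHE[4] : Measure M) ≤
      ∫ z, (c0⁻¹) ^ 2 * (∑ y, v y z ^ 2) ^ 2 ∂(μHE[4] : Measure M) := by
    refine integral_mono (intg (cN1.pow 2)) (intg (continuous_const.mul (cv.pow 2))) fun z => ?_
    show N1 τ V.S (V.u n) z ^ 2 ≤ (c0⁻¹) ^ 2 * (∑ y, v y z ^ 2) ^ 2
    rw [← mul_pow]
    refine pow_le_pow_left₀ (N1_nonneg _ _ _ _) ?_ 2
    rw [hsum, ← mul_assoc]
    have h1 : 1 ≤ c0⁻¹ * (τ.rr z ^ (3 / 4 : ℝ)) ^ 2 := by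
      rw [inv_mul_eq_div, le_div_iff₀ hc0p, one_mul]
      exact hlo z
    calc N1 τ V.S (V.u n) z = 1 * N1 τ V.S (V.u n) z := (one_mul _).symm
      _ ≤ _ := mul_le_mul_of_nonneg_right h1 (N1_nonneg _ _ _ _)
  rw [integral_const_mul] at hlast
  exact hlast.trans (mul_le_mul_of_nonneg_left hfin (by positivity))

theorem int_E (hK : KATO4.{v}) (h : Ctx V U) : ∃ CE : ℝ, 0 ≤ CE ∧ ∀ n,
    ∫ z, ∑ k, Ek V n k z ^ 2 ∂(μHE[4] : Measure M) ≤ CE := by
  obtain ⟨A, hA, hN⟩ := int_N1 hK h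
  obtain ⟨m0, m1, hm0, hm⟩ := h.data.bounds
  have hKp := h.Kpos
  refine ⟨m1 ^ 2 * A + m1 ^ 2 * V.K' + 1, by positivity, fun n => ?_⟩
  have hok : (tn V n).OK V.S V.C := ok h n
  have cN0 : Continuous (N0 (tn V n) V.S (V.u n)) := cont_N0 h.data.ok hok (h.seq.smu n)
  have cN1 : Continuous (N1 (tn V n) V.S (V.u n)) := cont_N1 h.data.ok hok (h.seq.smu n)
  have cB : Continuous (V.S.H.B (V.a n) 0) :=
    (V.S.H.smB (V.a n) (h.seq.sma n) (h.seq.seca n) 0).continuous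
  have cg : Continuous fun z => ∑ k, gR V.S (tn V n) (V.r n) (V.a n) (V.u n) k z ^ 2 :=
    continuous_finsetSum _ fun k _ =>
      (cont_gR h.data.ok hok (h.seq.smu n) (h.seq.sma n) (h.seq.seca n) (V.r n) k).pow 2
  have cE : Continuous fun z => ∑ k, Ek V n k z ^ 2 :=
    continuous_finsetSum _ fun k _ => (cont_Ek h n k).pow 2
  have hg : ∫ z, (V.S.H.B (V.a n) 0 z ^ 2 +
      ∑ k, gR V.S (tn V n) (V.r n) (V.a n) (V.u n) k z ^ 2) ∂(μHE[4] : Measure M) ≤ 1 := by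
    refine (h.seq.g0 n).trans ?_
    rw [div_le_one (by positivity)]
    have h0 : (0 : ℝ) ≤ n := Nat.cast_nonneg n
    linarith
  have he6 : ∫ z, N0 (tn V n) V.S (V.u n) z * N1 (tn V n) V.S (V.u n) z ∂(μHE[4] : Measure M) ≤
    V.K' := (h.seq.ene n).e6
  have hcm : Continuous fun z => m1 ^ 2 * N1 (tn V n) V.S (V.u n) z ^ 2 +
      m1 ^ 2 * (N0 (tn V n) V.S (V.u n) z * N1 (tn V n) V.S (V.u n) z) :=
    (continuous_const.mul (cN1.pow 2)).add (continuous_const.mul (cN0.mul cN1))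
  have h1 : ∫ z, ∑ k, Ek V n k z ^ 2 ∂(μHE[4] : Measure M) ≤
      ∫ z, ((m1 ^ 2 * N1 (tn V n) V.S (V.u n) z ^ 2 +
        m1 ^ 2 * (N0 (tn V n) V.S (V.u n) z * N1 (tn V n) V.S (V.u n) z)) +
        (V.S.H.B (V.a n) 0 z ^ 2 + ∑ k, gR V.S (tn V n) (V.r n) (V.a n) (V.u n) k z ^ 2))
        ∂(μHE[4] : Measure M) := by
    refine integral_mono (intg cE) (intg (hcm.add ((cB.pow 2).add cg))) fun z => ?_
    refine (sum_Ek h n z).trans ?_
    have hρ : (tn V n).rr z ^ 2 ≤ m1 ^ 2 := by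
      have h2 := (hm (V.t n) z (h.seq.nt n)).2
      exact pow_le_pow_left₀ (hok.pos z).le h2 2
    have p1 := mul_le_mul_of_nonneg_right hρ (sq_nonneg (N1 (tn V n) V.S (V.u n) z))
    have p2 := mul_le_mul_of_nonneg_right hρ (mul_nonneg (N0_nonneg (tn V n) V.S (V.u n) z)
      (N1_nonneg (tn V n) V.S (V.u n) z))
    have p3 := sq_nonneg (V.S.H.B (V.a n) 0 z)
    show _ ≤ (m1 ^ 2 * N1 (tn V n) V.S (V.u n) z ^ 2 +
        m1 ^ 2 * (N0 (tn V n) V.S (V.u n) z * N1 (tn V n) V.S (V.u n) z)) +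
        (V.S.H.B (V.a n) 0 z ^ 2 + ∑ k, gR V.S (tn V n) (V.r n) (V.a n) (V.u n) k z ^ 2)
    linarith
  refine h1.trans ?_
  have cBg : Continuous fun z => V.S.H.B (V.a n) 0 z ^ 2 +
      ∑ k, gR V.S (tn V n) (V.r n) (V.a n) (V.u n) k z ^ 2 := (cB.pow 2).add cg
  have cN1s : Continuous fun z => N1 (tn V n) V.S (V.u n) z ^ 2 := cN1.pow 2
  have cNN : Continuous fun z => N0 (tn V n) V.S (V.u n) z * N1 (tn V n) V.S (V.u n) z :=
    cN0.mul cN1
  rw [i_add hcm cBg, i_lin _ _ cN1s cNN]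
  have q1 := mul_le_mul_of_nonneg_left (hN n) (sq_nonneg m1)
  have q2 := mul_le_mul_of_nonneg_left he6 (sq_nonneg m1)
  linarith

theorem int_s (h : Ctx V U) (n : ℕ) : ∫ z, sn V n z ^ 2 ∂(μHE[4] : Measure M) ≤
    V.K' * V.r n / 16 := by
  have h1 : ∫ z, (2 * V.r n - N0 (tn V n) V.S (V.u n) z) ^ 2 ∂(μHE[4] : Measure M) ≤
    V.K' * V.r n := (h.seq.ene n).e2
  have h2 : ∀ z, sn V n z ^ 2 = (1 / 16) * (2 * V.r n - N0 (tn V n) V.S (V.u n) z) ^ 2 := by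
    intro z; unfold sn; ring
  simp only [h2]
  rw [integral_const_mul]
  linarith

/-- `G = |φ - s X|²`. -/
def Gn (V : Vars M κ0 κ1 κT) (n : ℕ) (x : M) : ℝ :=
  ∑ k, (ph V n k x - sn V n x * Xw V.ww V.t0 k x) ^ 2

theorem cont_Gn (h : Ctx V U) (n : ℕ) : Continuous (Gn V n) :=
  continuous_finsetSum _ fun k _ => ((cont_ph h n k).sub ((cont_sn h n).mul (cont_X h _ k))).pow 2

theorem int_Gn (h : Ctx V U) {CE : ℝ} (hE : ∀ n,
    ∫ z, ∑ k, Ek V n k z ^ 2 ∂(μHE[4] : Measure M) ≤ CE) (n : ℕ) {d : ℝ}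
    (hd : ∀ x, ∑ k, (Xw V.ww (V.t n) k x - Xw V.ww V.t0 k x) ^ 2 ≤ d) :
    ∫ z, Gn V n z ∂(μHE[4] : Measure M) ≤ 2 * d * (V.K' * V.r n / 16) + 2 * CE := by
  have hd0 : 0 ≤ d := by
    obtain ⟨z⟩ := (inferInstance : Nonempty M)
    exact (Finset.sum_nonneg fun k _ => sq_nonneg _).trans (hd z)
  have cE : Continuous fun z => ∑ k, Ek V n k z ^ 2 :=
    continuous_finsetSum _ fun k _ => (cont_Ek h n k).pow 2
  have c1 : Continuous fun z => 2 * d * sn V n z ^ 2 :=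
    continuous_const.mul ((cont_sn h n).pow 2)
  have h1 : ∫ z, Gn V n z ∂(μHE[4] : Measure M) ≤
      ∫ z, (2 * d * sn V n z ^ 2 + 2 * ∑ k, Ek V n k z ^ 2) ∂(μHE[4] : Measure M) := by
    refine integral_mono (intg (cont_Gn h n)) (intg (c1.add (continuous_const.mul cE)))
      fun z => ?_
    show ∑ k, (ph V n k z - sn V n z * Xw V.ww V.t0 k z) ^ 2 ≤
      2 * d * sn V n z ^ 2 + 2 * ∑ k, Ek V n k z ^ 2
    have h2 : ∑ k, (ph V n k z - sn V n z * Xw V.ww V.t0 k z) ^ 2 ≤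
        ∑ k, (2 * sn V n z ^ 2 * (Xw V.ww (V.t n) k z - Xw V.ww V.t0 k z) ^ 2 +
          2 * Ek V n k z ^ 2) := by
      refine Finset.sum_le_sum fun k _ => ?_
      rw [ph_eq h n k z]
      nlinarith [sq_nonneg (sn V n z * (Xw V.ww (V.t n) k z - Xw V.ww V.t0 k z) - Ek V n k z)]
    refine h2.trans ?_
    rw [Finset.sum_add_distrib, ← Finset.mul_sum, ← Finset.mul_sum]
    have h3 := mul_le_mul_of_nonneg_left (hd z) (by positivity : 0 ≤ 2 * sn V n z ^ 2)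
    linarith
  refine h1.trans ?_
  have cs : Continuous fun z => sn V n z ^ 2 := (cont_sn h n).pow 2
  rw [i_lin _ _ cs cE]
  have q1 := mul_le_mul_of_nonneg_left (int_s h n) (by positivity : 0 ≤ 2 * d)
  have q2 := mul_le_mul_of_nonneg_left (hE n) (by norm_num : (0 : ℝ) ≤ 2)
  linarith

/-- uniform convergence of the coefficients of `w_t`. -/
theorem unif_X (h : Ctx V U) {d : ℝ} (hd : 0 < d) : ∀ᶠ n in U, ∀ x,
    ∑ k, (Xw V.ww (V.t n) k x - Xw V.ww V.t0 k x) ^ 2 ≤ d := by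
  have hs : 0 < √(d / 3) := Real.sqrt_pos.2 (by positivity)
  have h1 : ∀ k : Fin 3, ∀ᶠ n in U, ∀ x, dist (Xw V.ww (V.t n) k x) (Xw V.ww V.t0 k x) <
      √(d / 3) := fun k =>
    unif_lim (f := fun q : E3 × M => Xw V.ww q.1 k q.2)
      (continuous_Xw h.data.smw k).continuousOn h.seq.nt h.nt0 h.lim _ hs
  filter_upwards [h1 0, h1 1, h1 2] with n a0 a1 a2 x
  have key : ∀ {y z : ℝ}, dist y z < √(d / 3) → (y - z) ^ 2 ≤ d / 3 := by
    intro y z hyz
    rw [Real.dist_eq] at hyz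
    have h2 := pow_le_pow_left₀ (abs_nonneg _) hyz.le 2
    rwa [sq_abs, Real.sq_sqrt (by positivity)] at h2
  rw [Fin.sum_univ_three]
  have := key (a0 x)
  have := key (a1 x)
  have := key (a2 x)
  linarith

/-! ### the theorem -/

theorem pt1 {A s : ℝ} (hA : 0 < A) (p X : Fin 3 → ℝ) (hX : ∑ k, X k ^ 2 = A) :
    A * ((∑ k, p k * X k) / A - s) ^ 2 ≤ ∑ k, (p k - s * X k) ^ 2 := by
  have h1 := Finset.sum_mul_sq_le_sq_mul_sq Finset.univ (fun k => p k - s * X k) X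
  have h2 : ∑ k, (p k - s * X k) * X k = (∑ k, p k * X k) - s * A := by
    rw [← hX, Finset.mul_sum, ← Finset.sum_sub_distrib]
    exact Finset.sum_congr rfl fun k _ => by ring
  rw [h2, hX] at h1
  have e : A * ((∑ k, p k * X k) / A - s) ^ 2 = ((∑ k, p k * X k) - s * A) ^ 2 / A := by
    field_simp
  rw [e, div_le_iff₀ hA]
  exact h1

theorem pt2 {A s : ℝ} (hA : 0 < A) (p X : Fin 3 → ℝ) (hX : ∑ k, X k ^ 2 = A) :
    A * ((∑ k, p k ^ 2 - (∑ k, p k * X k) ^ 2 / A) / A) ≤ ∑ k, (p k - s * X k) ^ 2 := by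
  have h2 : ∑ k, (p k - s * X k) ^ 2 = ∑ k, p k ^ 2 - 2 * s * (∑ k, p k * X k) + s ^ 2 * A := by
    rw [← hX, Finset.mul_sum, Finset.mul_sum, ← Finset.sum_sub_distrib, ← Finset.sum_add_distrib]
    exact Finset.sum_congr rfl fun k _ => by ring
  rw [mul_div_cancel₀ _ hA.ne', h2]
  have h3 : 0 ≤ (s * A - ∑ k, p k * X k) ^ 2 / A := by positivity
  have e : (s * A - ∑ k, p k * X k) ^ 2 / A = s ^ 2 * A - 2 * s * (∑ k, p k * X k) +
      (∑ k, p k * X k) ^ 2 / A := by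
    field_simp
    ring
  rw [e] at h3
  linarith

theorem prc (hP : PWD.{v}) (hV : VOLD.{v}) (hK : KATO4.{v}) : PRC.{v} := by
  intro M _ _ _ _ _ _ _ _ _ _ _ _ _ κ0 κ1 κT _ _ _ V U h
  set cc : ℝ := |(2 * Real.pi) * ((2 * Real.pi) * ip (V.w 0) V.c V.c)| with hcc
  have hcc0 : 0 ≤ cc := abs_nonneg _
  have hPx := hP M V.w V.e (fun i => V.t0 i) (Xw V.ww V.t0) V.D h.limD
  have hvol := hV M V.w V.e (fun i => V.t0 i) (Xw V.ww V.t0) V.D h.limD h.data.tg.met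
  obtain ⟨CE, hCE, hE⟩ := int_E hK h
  obtain ⟨m0, m1, hm0, hm⟩ := h.data.bounds
  have hKp := h.Kpos
  -- pointwise
  set A : M → ℝ := fun x => ∑ k, Xw V.ww V.t0 k x ^ 2 with hA
  have hApos : ∀ x, 0 < A x := fun x => (hPx x).1
  have hAc : Continuous A := continuous_finsetSum _ fun k _ => (cont_X h V.t0 k).pow 2
  have halt : ∀ n x, Alt (at2 (V.Q.Phi n) x) := fun n x => (smooth_Phi h n).1 x
  have p1 : ∀ n x, qG V.D.F (V.Q.Phi n) V.D.F x =
      (∑ k, ph V n k x * Xw V.ww V.t0 k x) / A x := fun n x =>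
    ((hPx x).2.1 (V.Q.Phi n) (halt n x)).1
  have p2 : ∀ n x, nsqG V.D.J V.D.F (V.Q.Phi n) x + qG V.D.F (V.Q.Phi n) (V.Q.Phi n) x =
      2 * (∑ k, ph V n k x ^ 2) / A x := fun n x =>
    ((hPx x).2.1 (V.Q.Phi n) (halt n x)).2.1
  have p3 : ∀ n x, nsqG V.D.J V.D.F (bpp V.D.J (V.Q.Phi n)) x =
      (∑ k, ph V n k x ^ 2 - (∑ k, ph V n k x * Xw V.ww V.t0 k x) ^ 2 / A x) / A x := fun n x =>
    ((hPx x).2.1 (V.Q.Phi n) (halt n x)).2.2.1
  have p4 : ∀ n x, A x * qG V.D.F (V.Q.Phi n) (V.Q.Phi n) x =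
      qG (V.w 0).1.1 (V.Q.Phi n) (V.Q.Phi n) x := fun n x =>
    ((hPx x).2.1 (V.Q.Phi n) (halt n x)).2.2.2 (V.Q.Phi n) (halt n x)
  have cph : ∀ n, Continuous fun x => ∑ k, ph V n k x ^ 2 := fun n =>
    continuous_finsetSum _ fun k _ => (cont_ph h n k).pow 2
  have cpX : ∀ n, Continuous fun x => ∑ k, ph V n k x * Xw V.ww V.t0 k x := fun n =>
    continuous_finsetSum _ fun k _ => (cont_ph h n k).mul (cont_X h V.t0 k)
  -- o1, o2 : general
  have gen : ∀ f : ℕ → M → ℝ, (∀ n, Continuous (f n)) → (∀ n x, 0 ≤ f n x) →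
      (∀ n x, A x * f n x ≤ Gn V n x) →
      Tendsto (fun n => (V.Q.r n)⁻¹ * ∫ x, f n x ∂V.D.μ) U (𝓝 0) := by
    intro f hf hf0 hfG
    have hle : ∀ n, ∫ x, f n x ∂V.D.μ ≤ 2 * ∫ x, Gn V n x ∂(μHE[4] : Measure M) := by
      intro n
      rw [hvol (f n) (hf n), ← integral_const_mul]
      refine integral_mono (intg ((continuous_const.mul hAc).mul (hf n)))
        (intg (continuous_const.mul (cont_Gn h n))) fun x => ?_
      show 2 * A x * f n x ≤ 2 * Gn V n x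
      have := hfG n x
      nlinarith
    refine lim_aux (r := V.Q.r) (f := fun n => ∫ x, f n x ∂V.D.μ) h.le h.seq.rge
      (fun n => integral_nonneg (hf0 n)) (A := V.K' / 4) (B := 4 * CE) (by positivity)
      fun ε hε => ?_
    filter_upwards [unif_X h hε] with n hn
    have h1 := int_Gn h hE n hn
    have h2 := hle n
    have e : V.Q.r n = V.r n := rfl
    rw [e]
    show ∫ x, f n x ∂V.D.μ ≤ V.K' / 4 * ε * V.r n + 4 * CE
    linarith
  -- e3
  have he3 : ∀ n, ∫ x, nsqG V.D.J V.D.F (V.Q.Phi n) x ∂V.D.μ ≤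
      (m1 ^ 2 * V.K' / 2 + 8 * CE + 1 + cc) * V.Q.r n := by
    intro n
    have cq : Continuous (qG ((V.w 0).1.1 : F2 E4 M) (V.Q.Phi n) (V.Q.Phi n)) :=
      continuous_qG (vol0 h) (Smooth2.cont2 (smooth_Phi h n)) (Smooth2.cont2 (smooth_Phi h n))
    have ef : nsqG V.D.J V.D.F (V.Q.Phi n) = fun x => (2 * (∑ k, ph V n k x ^ 2) -
        qG ((V.w 0).1.1 : F2 E4 M) (V.Q.Phi n) (V.Q.Phi n) x) / A x := by
      funext x
      have h1 := p2 n x
      have h2 := p4 n x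
      have h3 := (hApos x).ne'
      rw [← h2]
      field_simp
      have h4 : nsqG V.D.J V.D.F (V.Q.Phi n) x = 2 * (∑ k, ph V n k x ^ 2) / A x -
        qG V.D.F (V.Q.Phi n) (V.Q.Phi n) x := by linarith
      rw [h4]
      field_simp
    have cf : Continuous (nsqG V.D.J V.D.F (V.Q.Phi n)) := by
      rw [ef]
      exact ((continuous_const.mul (cph n)).sub cq).div hAc fun x => (hApos x).ne'
    have h1 := hvol _ cf
    have h2 : (fun x => 2 * (∑ k, Xw V.ww V.t0 k x ^ 2) * nsqG V.D.J V.D.F (V.Q.Phi n) x) =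
        fun x => 4 * (∑ k, ph V n k x ^ 2) -
          2 * qG ((V.w 0).1.1 : F2 E4 M) (V.Q.Phi n) (V.Q.Phi n) x := by
      funext x
      rw [ef]
      have h3 := (hApos x).ne'
      show 2 * A x * _ = _
      field_simp
      ring
    have h3 : ∫ x, nsqG V.D.J V.D.F (V.Q.Phi n) x ∂V.D.μ ≤
        4 * ∫ x, ∑ k, ph V n k x ^ 2 ∂(μHE[4] : Measure M) + cc := by
      have hz := int_PhPh h n
      rw [integral_const_mul] at hz
      rw [h1, h2, i_lins _ _ (cph n) cq, hz]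
      have := neg_abs_le ((2 * Real.pi) * ((2 * Real.pi) * ip (V.w 0) V.c V.c))
      linarith
    refine h3.trans ?_
    have cE : Continuous fun z => ∑ k, Ek V n k z ^ 2 :=
      continuous_finsetSum _ fun k _ => (cont_Ek h n k).pow 2
    have h4 : ∫ x, ∑ k, ph V n k x ^ 2 ∂(μHE[4] : Measure M) ≤
        ∫ x, (2 * m1 ^ 2 * sn V n x ^ 2 + 2 * ∑ k, Ek V n k x ^ 2) ∂(μHE[4] : Measure M) := by
      refine integral_mono (intg (cph n)) (intg ((continuous_const.mul ((cont_sn h n).pow 2)).add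
        (continuous_const.mul cE))) fun x => ?_
      show ∑ k, ph V n k x ^ 2 ≤ 2 * m1 ^ 2 * sn V n x ^ 2 + 2 * ∑ k, Ek V n k x ^ 2
      have h5 : ∑ k, ph V n k x ^ 2 ≤ ∑ k, (2 * sn V n x ^ 2 * Xw V.ww (V.t n) k x ^ 2 +
          2 * Ek V n k x ^ 2) := by
        refine Finset.sum_le_sum fun k _ => ?_
        rw [ph_eq h n k x]
        nlinarith [sq_nonneg (Xw V.ww (V.t n) k x * sn V n x - Ek V n k x)]
      refine h5.trans ?_
      rw [Finset.sum_add_distrib, ← Finset.mul_sum, ← Finset.mul_sum]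
      have h6 : ∑ k, Xw V.ww (V.t n) k x ^ 2 ≤ m1 ^ 2 := by
        have h7 : ∀ k, Xw V.ww (V.t n) k x = (tn V n).rr x * (tn V n).n k x := fun k =>
          (h.data.nn (V.t n) k x (h.seq.nt n)).symm
        simp only [h7, mul_pow]
        rw [← Finset.mul_sum, (ok h n).norm x, mul_one]
        exact pow_le_pow_left₀ ((ok h n).pos x).le (hm (V.t n) x (h.seq.nt n)).2 2
      have h8 := mul_le_mul_of_nonneg_left h6 (by positivity : 0 ≤ 2 * sn V n x ^ 2)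
      linarith
    have cs : Continuous fun z => sn V n z ^ 2 := (cont_sn h n).pow 2
    rw [i_lin _ _ cs cE] at h4
    have h5 := mul_le_mul_of_nonneg_left (int_s h n) (by positivity : 0 ≤ 2 * m1 ^ 2)
    have h6 := hE n
    have h7 := r_ge h n
    have e : V.Q.r n = V.r n := rfl
    rw [e]
    have h8 : 8 * CE ≤ 8 * CE * V.r n := by nlinarith
    have h9 : cc ≤ cc * V.r n := by nlinarith
    nlinarith
  refine ⟨m1 ^ 2 * V.K' / 2 + 8 * CE + 1 + cc, by positivity, he3, ?_, ?_⟩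
  · refine gen (fun n x => (qG V.D.F (V.Q.Phi n) V.D.F x -
      (1 / 2) * V.Q.r n * (1 - V.Q.nal n x)) ^ 2) (fun n => ?_) (fun n x => sq_nonneg _)
      fun n x => ?_
    · have e : (fun x => (qG V.D.F (V.Q.Phi n) V.D.F x -
          (1 / 2) * V.Q.r n * (1 - V.Q.nal n x)) ^ 2) =
          fun x => ((∑ k, ph V n k x * Xw V.ww V.t0 k x) / A x - sn V n x) ^ 2 := by
        funext x
        rw [p1, sn_eq h]
      rw [e]
      exact (((cpX n).div hAc fun x => (hApos x).ne').sub (cont_sn h n)).pow 2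
    · show A x * (qG V.D.F (V.Q.Phi n) V.D.F x -
          (1 / 2) * V.Q.r n * (1 - V.Q.nal n x)) ^ 2 ≤ _
      rw [p1, sn_eq h]
      exact pt1 (hApos x) (fun k => ph V n k x) (fun k => Xw V.ww V.t0 k x) rfl
  · refine gen (fun n x => nsqG V.D.J V.D.F (bpp V.D.J (V.Q.Phi n)) x) (fun n => ?_)
      (fun n x => ?_) fun n x => ?_
    · have e : (fun x => nsqG V.D.J V.D.F (bpp V.D.J (V.Q.Phi n)) x) =
          fun x => (∑ k, ph V n k x ^ 2 -
            (∑ k, ph V n k x * Xw V.ww V.t0 k x) ^ 2 / A x) / A x := funext fun x => p3 n x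
      rw [e]
      exact ((cph n).sub (((cpX n).pow 2).div hAc fun x => (hApos x).ne')).div hAc
        fun x => (hApos x).ne'
    · show 0 ≤ nsqG V.D.J V.D.F (bpp V.D.J (V.Q.Phi n)) x
      rw [p3]
      have h1 := Finset.sum_mul_sq_le_sq_mul_sq Finset.univ (fun k => ph V n k x)
        (fun k => Xw V.ww V.t0 k x)
      refine div_nonneg (sub_nonneg.2 ?_) (hApos x).le
      rw [div_le_iff₀ (hApos x)]
      exact h1
    · show A x * nsqG V.D.J V.D.F (bpp V.D.J (V.Q.Phi n)) x ≤ _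
      rw [p3]
      exact pt2 (hApos x) (fun k => ph V n k x) (fun k => Xw V.ww V.t0 k x) rfl

end

end Crest.Agent.R235.SwcPRC_57
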