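import Crest.Agent.R235.SwcQlow_82_Mg
import Crest.Agent.R235.SwcPtw_766
import Crest.Agent.R235.Dens_253_Mg
import Crest.Agent.R235.SwcPRC_57_Mg
import Crest.Agent.R235.SwcPRE_129
import Crest.Agent.R235.FamModT_307
import Crest.Agent.R235.FamEndB_307_Mg
import Crest.Agent.R235.SWGeo_659
import Crest.Agent.R235.SWTop_53
import Crest.Agent.R235.FamModX_307

-- ▼ part R235/SwcANF_34
section

/-!
Row 235 (S0364), PACKAGE SWC-AN (leader helper34), FINAL ASSEMBLY: `AN` is a theorem.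
-/

set_option autoImplicit false

universe u

namespace Crest.Agent.R235.SwcANF_34

open Crest.Agent.R235.SwcDefs_34 Crest.Agent.R235.SwcGlob_34

/-- the box inequality. -/
theorem box : BOX :=
  SwcBox_193.box SwcPsid_370.psid (SwcNear_915.nearint (SwcSlice_751.slice SwcPsid_370.psid))
    SwcGns_734.gns2 SwcGradF_168.gradf

/-- quadratic inequality and lower density bound of the limits. -/
theorem qim : QIM.{u} :=
  qim_of (SwcQch_125.qch (SwcBoxe_312.boxe box)) (SwcQlow_82.qlow Dens_253.dens)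

/-- **AN** (output of SWC-AN): the limit of a Taubes sequence is a closed positive current in the
class of `a0`, with a lower density bound. -/
theorem an : AN.{u} :=
  SwcAn_34.an_of2 SwcPtw_766.ptw (SwcPos_34.posdom2 SwcPtw_766.ptw) SwcLoc_924.locrep qim

end Crest.Agent.R235.SwcANF_34
end

-- ▼ part R235/SwcPrG_215
section

/-!
Row 235 (S0364), PACKAGE SWC, PROD (helper215): `prod2 : PWD → PRB → PROD` (APX 649, TAUS 312,
PRC 57, PRE 129, GZ 649, VOLD 57, STB 370, NETC / KATO4 984 plugged in).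
-/

universe v

namespace Crest.Agent.R235.SwcProd_215

theorem prod2 (hP : PWD.{v}) (hB : PRB.{v}) : PROD.{v} :=
  prod_of' SwcTaus_312.taus hP hB (SwcPRC_57.prc hP SwcVOLD_57.vold SwcKATO4_984.kato4)
    (SwcPRE_129.pre hP)

end Crest.Agent.R235.SwcProd_215
end

-- ▼ part R235/FamEndT_307
section

/-!
Row 235 (S0364), PACKAGE FAM (leader helper307): the END of `FAM4W`:
`fam4w_of : FAMHX → BPLUS → MODT → FAM4W`.
-/

set_option autoImplicit false
set_option maxSynthPendingDepth 3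
set_option linter.unusedSectionVars false
set_option linter.style.haveILetI false

open scoped ContDiff ENNReal NNReal Topology Manifold Bundle RealInnerProductSpace
open MeasureTheory Set Filter Metric Bundle Module

namespace Crest.Agent.R235.FamEndT_307

open Crest.Agent.R240 Crest.Agent.R240.Ch Crest.Agent.R235
open Crest.Agent.R235.SWDefs_53 Crest.Agent.R235.SWSym_451 Crest.Agent.R235.SWGeo_659
open Crest.Agent.R235.IndTri_451
open Crest.Agent.R235.FamTop_307 Crest.Agent.R235.FamModT_307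

noncomputable section

/-- `b⁺ = 3` for a positive triple, from `BPLUS` and a splitting. -/
theorem bp_three {M : Type} [TopologicalSpace M] [T2Space M] [CompactSpace M] [ConnectedSpace M]
    [ChartedSpace E4 M] [IsManifold 𝓘(ℝ, E4) ∞ M] (hB : BPLUS.{0}) {w : Trip M} (hw : Pos3 w)
    {bp : ℕ} {P N : Submodule ℝ (H2 M)} (hfin : FiniteDimensional ℝ (H2 M)) (hs : P ⊔ N = ⊤)
    (hP : Module.finrank ℝ P = bp) (hPp : ∀ x ∈ P, x ≠ 0 → 0 < ip (w 0) x x)
    (hN : ∀ x ∈ N, x ≠ 0 → ip (w 0) x x < 0) : bp = 3 := by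
  have hV := hw.vol 0
  rw [← hP]
  exact FamLin_307.bp_eq (ipB (w 0) hV) P N hs (fun x hx h0 => hPp x hx h0)
    (fun x hx h0 => hN x hx h0) (fun i => cls (w i)) (fun c hc => hw.ip_comb_pos 0 hc)
    (fun c hc h0 => hB M w hw c hc h0)

/-- **FAM4W.** -/
theorem fam4w_of (hF : FAMHX.{0}) (hB : BPLUS.{0}) (hM : MODT) : DichProps_723.FAM4W.{0} := by
  intro M tM _ _ _ _ _ w hw s hs a b ha hb
  obtain ⟨e, he⟩ := IndTri_451.exists_tri hw
  obtain ⟨rb, crb, mM, rfl, hdd, hin⟩ := Riem_399.exists_riem (QSTri_451.met_gg he)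
  haveI : IsRiemannianManifold (𝓡 4) M := ⟨hdd⟩
  letI : MeasurableSpace M := borel M
  haveI : BorelSpace M := ⟨rfl⟩
  haveI := Riem_399.secondCountable (M := M)
  haveI : IsFiniteMeasureOnCompacts (μHE[4] : Measure M) :=
    Crest.Agent.R247.Gs939.finOnCompacts (n := 4) (M := M)
  obtain ⟨κ0, κ1, κT, i0, i1, iT, S, cc, J1, j, ww, τ, C, th, pi, U, d0, d1, bp, hS, hJ1, hG, hj,
    hH, hA, k0, k1, k4, hd, ⟨P, N, hfin, hPN, hP, hPp, hN, -⟩, hnum⟩ :=
    hM M w e hw he hin s hs a b ha hb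
  have hbp : bp = 3 := bp_three hB hw hfin hPN hP hPp hN
  subst hbp
  have e01 : d1 = d0 := by omega
  subst e01
  obtain ⟨r, hr, hC⟩ := exists_r hH.fam
  have hfit : (mkd ww th (fun _ _ _ => 0) r).FFit S ww τ C th :=
    mkd_ffit hH.fam hr hC (fun k => continuous_const) (fun t ht k z => rfl)
  exact hnum (hF M κ0 κ1 κT S cc J1 j (mkd ww th (fun _ _ _ => 0) r) ww τ C th pi U d1 hS hJ1 hG hj
    hH hfit hA k0 k1 k4)

end

end Crest.Agent.R235.FamEndT_307
end

-- ▼ part R235/ModXE_399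

/-!
Row 235 (S0364), helper399: the end `FAMXC → BPLUS → MODXG → MODX` of the package FAM.
-/

set_option autoImplicit false
set_option maxSynthPendingDepth 3
set_option linter.unusedSectionVars false

open scoped ContDiff ENNReal NNReal Topology Manifold Bundle RealInnerProductSpace
open MeasureTheory Set Filter Metric Bundle Module

namespace Crest.Agent.R235.ModXE_399

open Crest.Agent.R240 Crest.Agent.R240.Ch Crest.Agent.R235
open Crest.Agent.R249.Tv57 (Dat OpPair SmF SmV KerD)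
open Crest.Agent.R249.Tz805 (ToF)
open Crest.Agent.R235.SWDefs_53 Crest.Agent.R235.SWSym_451
open Crest.Agent.R235.IndTri_451 Crest.Agent.R235.Tau483
open Crest.Agent.R235.SwcProd_215
open Crest.Agent.R235.FamTop_307 Crest.Agent.R235.FamTop2_307 Crest.Agent.R235.FamModX_307
open Crest.Agent.R235.FamEndA_307 Crest.Agent.R235.FamEndB_307

noncomputable section

/-- **MODX** from the family theorem, `b⁺ = 3` and the model. -/
theorem modx_of (hF : FAMXC.{0}) (hB : BPLUS.{0}) (hG : MODXG) : MODX.{0} := by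
  intro M _ _ _ _ _ _ _ _ _ _ _ _ _ w e hw hT he hin c hc hcc hc0
  obtain ⟨κ0, κ1, κT, i0, i1, iT, S, T, cc, W, sT, ι, ww, τ, C, K, ccS, J1, j, d0, d1, bp, hD,
    hcf, hS, hJ, hj, k0, k1, kL, hd, ⟨P, N, hfin, hPN, hbp, hP, hN, -⟩, hn⟩ :=
    hG M w e hw hT he hin c hc hcc hc0
  have hV := hw.vol 0
  have h3 : bp = 3 := by
    rw [← hbp]
    exact FamLin_307.bp_eq (ipB (w 0) hV) P N hPN (fun x hx hx0 => hP x hx hx0)
      (fun x hx hx0 => hN x hx hx0) (fun i => cls (w i)) (fun a ha => hw.ip_comb_pos 0 ha)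
      fun c hc hc0 => hB M w hw c hc hc0
  subst h3
  obtain rfl : d0 = d1 := by omega
  have FXh : FX S ww τ C :=
    { smw := hD.smw
      harm := hD.harm
      rr := hD.rr
      nn := hD.nn
      tau := hD.tau
      cfE := hcf }
  obtain ⟨r0, hr0, hr⟩ := exists_adm FXh
  refine ⟨κ0, κ1, κT, i0, i1, iT, S, T, cc, W, sT, ι, ww, τ, C, K, hD, Hbd j, r0,
    fun r hrr => ?_⟩
  obtain ⟨hadm, hfit⟩ := hr r hrr
  obtain ⟨t, h, a, u, ht, hh, hsol⟩ := hF M κ0 κ1 κT S ccS J1 j (mkx ww τ r) d0 hD.ok hS hJ hj hadm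
    k0 k1 kL hn
  obtain ⟨s1, s2, s3, s4, s5, s6⟩ := solB_all hj hh hsol
  exact ⟨t, mkx ww τ r, a + j.fm h, u, ht, hfit t ht, rfl, fun _ _ => rfl,
    ⟨s1, s2, s3, s4, s5, s6⟩⟩

end

end Crest.Agent.R235.ModXE_399
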