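import Crest.Agent.R235.STFProps_861
import Crest.Agent.R240.Main
import Crest.Agent.R240.Cmp
import Crest.Agent.R240.N2
import Crest.Agent.R240.Final
import Crest.Agent.R240.FAFinal_Mg
import Crest.Agent.R240.Ch7

-- ▼ part R235/DOM_560
section

/-!
Row 235, package STF: leaf DOM (helper560).  A compatible form in the class, from the Kaehler current
`KC`, the approximation `APX` and the Lemma A inside the exact forms `N3E`.
-/

set_option autoImplicit false
set_option maxSynthPendingDepth 3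

open Set Function Filter MeasureTheory Metric
open scoped Manifold ContDiff Topology ENNReal

universe u

namespace Crest.Agent.R235.DOM_560

open Crest.Agent.R240 Crest.Agent.R240.Ch STF_861

noncomputable section

set_option linter.unusedSectionVars false

theorem aux1 {n A B C : ℝ} (h1 : -(2 * n) * A ≤ -C) (h4 : 0 ≤ B - A) (h7 : n * A ≤ 1 / 4 * A) :
    1 / 2 * A ≤ B - C := by nlinarith

theorem aux2 {A B : ℝ} (h1 : 0 < A) (h2 : 1 / 2 * A ≤ B) : 0 < B := by linarith

section A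

variable {M : Type u} [MetricSpace M] [CompactSpace M] [ChartedSpace E4 M]
    [IsManifold 𝓘(ℝ, E4) ∞ M] [MeasurableSpace M] [BorelSpace M]

/-- exact forms: sums. -/
theorem ex_add {a b : X2 M} (ha : IsEx (a : F2 E4 M)) (hb : IsEx (b : F2 E4 M)) :
    IsEx ((a + b : X2 M) : F2 E4 M) := (EX2 M).add_mem (x := a) (y := b) ha hb

theorem ex_sub {a b : X2 M} (ha : IsEx (a : F2 E4 M)) (hb : IsEx (b : F2 E4 M)) :
    IsEx ((a - b : X2 M) : F2 E4 M) := (EX2 M).sub_mem (x := a) (y := b) ha hb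

theorem ex_smul (r : ℝ) {a : X2 M} (ha : IsEx (a : F2 E4 M)) :
    IsEx ((r • a : X2 M) : F2 E4 M) := (EX2 M).smul_mem r (x := a) ha

/-- `b(v,Jv) = b'(v,Jv)`. -/
theorem inv_JJ (D : Dat M) (b : X2 M) (x : M) (v : E4) :
    invp (atJ D.J x) (at2 (b : F2 E4 M) x) v (atJ D.J x v) =
      at2 (b : F2 E4 M) x v (atJ D.J x v) := by
  rw [invp_apply, D.sq, map_neg]
  have := (Dat.alt b x).swap v (atJ D.J x v)
  linarith

/-- a form with `b'' = 0` is invariant. -/
theorem inv_of_pi'' (D : Dat M) {b : X2 M} (h : D.pi'' b = 0) (x : M) (u v : E4) :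
    at2 (b : F2 E4 M) x (atJ D.J x u) (atJ D.J x v) = at2 (b : F2 E4 M) x u v := by
  have h1 : at2 ((D.pi'' b : X2 M) : F2 E4 M) x u v = 0 := by rw [h]; rfl
  rw [Dat.at2_pi'', antip_apply] at h1
  linarith

end A

/-- **LEAF DOM.** -/
theorem dom (kc : KC.{u}) (n3e : N3E.{u}) (apx : APX.{u}) : DOM.{u} := by
  intro M i1 i2 i3 i4 i5 i6 D v a a0 hC hPD hZD ha0 hex hpi
  obtain ⟨δ, Φ, hK⟩ := kc M D v a hC
  obtain ⟨𝒰, m, C, h3⟩ := n3e M D
  obtain ⟨b, hbZ, t, hbt, hbP, hbρ⟩ := apx M D a δ Φ hC.clF hC.cla hK hPD hZD 𝒰 m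
    (1 / (4 * (|C| + 1))) (by positivity)
  -- `b - t a0` is exact
  have hex2 : IsEx ((b - t • a0 : X2 M) : F2 E4 M) := by
    have h1 := ex_add hbt (ex_smul t hex)
    have h2 : (b - t • a) + t • (a - a0) = b - t • a0 := by
      rw [smul_sub]; abel
    rwa [h2] at h1
  obtain ⟨c, hcex, hc, hcn⟩ := h3 _ hex2
  have hpb : D.pi'' (b - t • a0) = D.pi'' b := by
    rw [map_sub, map_smul, hpi, smul_zero, sub_zero]
  rw [hpb] at hc
  simp only [hpb] at hcn
  have hcZ : c ∈ Z2 M := St1.ex_closed hcex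
  -- the form
  set b1 : X2 M := b - c with hb1
  have hb1Z : b1 ∈ Z2 M := (Z2 M).sub_mem hbZ hcZ
  have hb1'' : D.pi'' b1 = 0 := by rw [hb1, map_sub, hc, sub_self]
  have hb1ex : IsEx ((b1 - t • a : X2 M) : F2 E4 M) := by
    have h1 := ex_sub hbt hcex
    have h2 : (b - t • a) - c = b1 - t • a := by rw [hb1]; abel
    rwa [h2] at h1
  -- the lower bound
  have hge : ∀ x v, 1 / 2 * at2 D.F x v (atJ D.J x v) ≤
      at2 (b1 : F2 E4 M) x v (atJ D.J x v) := by
    intro x v
    have hsmall : D.nr (c : F2 E4 M) x ≤ 1 / 4 := by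
      have h0 := cm_nonneg 𝒰 m ((D.pi'' b : X2 M) : F2 E4 M)
      calc D.nr (c : F2 E4 M) x ≤ C * 𝒰.cm m ((D.pi'' b : X2 M) : F2 E4 M) := hcn x
        _ ≤ (|C| + 1) * 𝒰.cm m ((D.pi'' b : X2 M) : F2 E4 M) := by
            apply mul_le_mul_of_nonneg_right _ h0
            linarith [le_abs_self C]
        _ ≤ (|C| + 1) * (1 / (4 * (|C| + 1))) := by
            apply mul_le_mul_of_nonneg_left hbρ.le
            positivity
        _ = 1 / 4 := by
            have : |C| + 1 ≠ 0 := by positivity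
            field_simp
    have hF0 : 0 ≤ at2 D.F x v (atJ D.J x v) := by
      rcases eq_or_ne v 0 with h | h
      · rw [h]; simp
      · exact ((D.spos x).pos v h).le
    have h1 := D.neg_nr_le (-c) x v
    rw [Dat.nr_neg] at h1
    have h2 : at2 ((-c : X2 M) : F2 E4 M) x v (atJ D.J x v) =
      - at2 (c : F2 E4 M) x v (atJ D.J x v) := rfl
    rw [h2] at h1
    have h3 : at2 (b1 : F2 E4 M) x v (atJ D.J x v) =
      at2 (b : F2 E4 M) x v (atJ D.J x v) - at2 (c : F2 E4 M) x v (atJ D.J x v) := rfl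
    have h4 : 0 ≤ at2 ((D.pi' b - D.FX : X2 M) : F2 E4 M) x v (atJ D.J x v) := (hbP x).nonneg v
    have h5 : at2 ((D.pi' b - D.FX : X2 M) : F2 E4 M) x v (atJ D.J x v) =
      invp (atJ D.J x) (at2 (b : F2 E4 M) x) v (atJ D.J x v) - at2 D.F x v (atJ D.J x v) := rfl
    rw [h5, inv_JJ] at h4
    rw [h3]
    have h7 : D.nr (c : F2 E4 M) x * at2 D.F x v (atJ D.J x v) ≤
      1 / 4 * at2 D.F x v (atJ D.J x v) := mul_le_mul_of_nonneg_right hsmall hF0
    exact aux1 h1 h4 h7
  have hpos : ∀ x v, v ≠ 0 → 0 < at2 (b1 : F2 E4 M) x v (atJ D.J x v) := by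
    intro x v hv
    exact aux2 ((D.spos x).pos v hv) (hge x v)
  -- `b1 - F/2` is in the cone
  have hcone : b1 - (1 / 2 : ℝ) • D.FX ∈ D.Pp := by
    intro x
    refine ⟨Dat.alt _ x, fun u v => ?_, fun v => ?_⟩
    · have h1 := inv_of_pi'' D hb1'' x u v
      have h2 := (D.spos x).inv u v
      have h3 : ∀ u v, at2 ((b1 - (1 / 2 : ℝ) • D.FX : X2 M) : F2 E4 M) x u v =
          at2 (b1 : F2 E4 M) x u v - 1 / 2 * at2 D.F x u v := fun u v => rfl
      rw [h3, h3, h1, h2]
    · have h3 : at2 ((b1 - (1 / 2 : ℝ) • D.FX : X2 M) : F2 E4 M) x v (atJ D.J x v) =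
          at2 (b1 : F2 E4 M) x v (atJ D.J x v) - 1 / 2 * at2 D.F x v (atJ D.J x v) := rfl
      rw [h3]
      exact sub_nonneg.2 (hge x v)
  -- `t > 0`
  have hIb1 : 0 < St1.IX D b1 D.FX := by
    have h1 : 0 ≤ St1.IX D (b1 - (1 / 2 : ℝ) • D.FX) D.FX := St1.I_PF_nonneg hcone
    rw [map_sub, map_smul, LinearMap.sub_apply, LinearMap.smul_apply, smul_eq_mul] at h1
    have h2 : 0 < St1.IX D D.FX D.FX := hC.posF
    linarith
  have hIa : 0 < St1.IX D a D.FX := hC.posaF
  have hIt : St1.IX D b1 D.FX = t * St1.IX D a D.FX := by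
    have h1 : St1.IX D (b1 - t • a) D.FX = 0 := by
      have h2 := St1.stokes D D.FX hC.clF _ hb1ex
      have h3 := St1.I_comm (D := D) ((b1 - t • a : X2 M) : F2 E4 M) ((D.FX : X2 M) : F2 E4 M)
      exact h3.trans h2
    rw [map_sub, map_smul, LinearMap.sub_apply, LinearMap.smul_apply, smul_eq_mul] at h1
    linarith
  have ht : 0 < t := by
    rw [hIt] at hIb1
    by_contra h
    exact absurd hIb1 (not_lt.2 (mul_nonpos_of_nonpos_of_nonneg (not_lt.1 h) hIa.le))
  refine ⟨t⁻¹ • b1, (Z2 M).smul_mem _ hb1Z, ?_, ?_, fun x v hv => ?_⟩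
  · have h1 := ex_smul t⁻¹ hb1ex
    have h2 : t⁻¹ • (b1 - t • a) = t⁻¹ • b1 - a := by
      rw [smul_sub, smul_smul, inv_mul_cancel₀ ht.ne', one_smul]
    rwa [h2] at h1
  · rw [map_smul, hb1'', smul_zero]
  · have h3 : at2 ((t⁻¹ • b1 : X2 M) : F2 E4 M) x v (atJ D.J x v) =
      t⁻¹ * at2 (b1 : F2 E4 M) x v (atJ D.J x v) := rfl
    rw [h3]
    exact mul_pos (inv_pos.2 ht) (hpos x v hv)

end

end Crest.Agent.R235.DOM_560
end

-- ▼ part R235/STF_560
section

/-!
Row 235, package STF: assembly (helper560).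
`stf_of : EXJ → BPLUS → ZD → PD → NRM → HDG → LINK → DOM → STF` in universe `0`.
-/

set_option autoImplicit false
set_option maxSynthPendingDepth 3

open Set Function Filter MeasureTheory Metric
open scoped Manifold ContDiff Topology ENNReal

universe u

namespace Crest.Agent.R235.STF_560

open Crest.Agent.R240 Crest.Agent.R240.Ch STF_861

noncomputable section

/-- the assembly on a metric manifold with a bi-Lipschitz metric. -/
theorem stf_aux (bplus : BPLUS.{0}) (zd : ZD.{0}) (pd : PD.{0}) (nrm : NRM.{0}) (hdg : HDG)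
    (link : LINK) (dom : DOM.{0})
    (M : Type) [MetricSpace M] [CompactSpace M] [ConnectedSpace M] [ChartedSpace E4 M]
    [IsManifold 𝓘(ℝ, E4) ∞ M] (bl : Met.BiLip E4 M) (w : Trip M) (J : EndF E4 M)
    (hw : Pos3 w) (hN : Nrm w) (hJ : IsJ w J) (hNC : NC (w 0) (clw w) 0) (a : Z2 M)
    (hpos : 0 < pI (w 0) a a) (hpos0 : 0 < pI (w 0) a (w 0)) (h1 : pI (w 0) a (w 1) = 0)
    (h2 : pI (w 0) a (w 2) = 0) :
    ∃ b : Z2 M, cls b = cls a ∧ Seg w (update w 0 b) ∧ HK (update w 0 b) := by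
  let _ : MeasurableSpace M := borel M
  have _ : BorelSpace M := ⟨rfl⟩
  have hinv := nrm M w J hw hN hJ
  have hV := hw.vol 0
  have hbp : bp J ((w 0).1.1 : F2 E4 M) = ((w 0).1.1 : F2 E4 M) := N2.bp_of_inv hinv
  obtain ⟨D, rfl, hal, hμ⟩ : ∃ D : Dat M, D.J = J ∧ D.al = ((w 0).1.1 : F2 E4 M) ∧
      D.μ = Int.mu ((w 0).1.1 : F2 E4 M) :=
    ⟨{ bl := bl
       J := J
       smJ := hJ.smooth
       sq := hJ.sq
       al := ((w 0).1.1 : F2 E4 M)
       sm_al := (w 0).1.2
       cl_al := (w 0).2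
       tames := hJ.tame
       μ := Int.mu ((w 0).1.1 : F2 E4 M)
       fin := Int.isFinite_mu hV
       vol := by rw [hbp]; exact Int.isVol_mu hV }, rfl, rfl, rfl⟩
  have hF : D.F = ((w 0).1.1 : F2 E4 M) := by
    unfold Dat.F
    rw [hal, hbp]
  have hFX : D.FX = (w 0).1 := Subtype.ext hF
  have hI : ∀ x y : Z2 M, D.I (x.1.1 : F2 E4 M) (y.1.1 : F2 E4 M) = pI (w 0) x y := by
    intro x y
    unfold Dat.I IG
    rw [hF, hμ]
    rfl
  -- pointwise values
  have hq : ∀ (i j : Fin 3) (x : M), qG D.F ((w i).1.1 : F2 E4 M) ((w j).1.1 : F2 E4 M) x =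
      if i = j then 1 else 0 := by
    intro i j x
    obtain ⟨s, hs⟩ := hN x
    have hs0 : s ≠ 0 := by
      have h3 := hs 0 0
      rw [if_pos rfl] at h3
      have h4 := hw.W_ne' 0 x
      rwa [h3] at h4
    rw [hF]
    show W (val (w i) x) (val (w j) x) / W (val (w 0) x) (val (w 0) x) = _
    rw [hs i j, hs 0 0, if_pos rfl]
    split_ifs
    · exact div_self hs0
    · exact zero_div s
  have hII : ∀ i j : Fin 3, D.I ((w i).1.1 : F2 E4 M) ((w j).1.1 : F2 E4 M) =
      if i = j then D.I D.F D.F else 0 := by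
    intro i j
    have h3 : D.I D.F D.F = ∫ x, qG D.F ((w 0).1.1 : F2 E4 M) ((w 0).1.1 : F2 E4 M) x ∂D.μ := by
      show (∫ x, qG D.F D.F D.F x ∂D.μ) = _
      refine integral_congr_ae (ae_of_all _ fun x => ?_)
      show q (at2 D.F x) (at2 D.F x) (at2 D.F x) = q (at2 D.F x) _ _
      rw [hF]
    rw [h3]
    show (∫ x, qG D.F _ _ x ∂D.μ) = _
    simp only [hq]
    split_ifs
    · rfl
    · simp
  have hne : Nonempty M := inferInstance
  have hFpos : 0 < D.I D.F D.F := by
    have h3 := hI (w 0) (w 0)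
    rw [hII 0 0, if_pos rfl] at h3
    rw [h3]
    have h4 := hw.ip_self_pos 0 0
    rwa [ip_cls hV] at h4
  have hCls : Cls D (fun i : Fin 2 => (w i.succ).1) a.1 :=
    { clF := by rw [hFX]; exact (w 0).2
      clv := fun i => (w i.succ).2
      anti := fun i => by
        apply Subtype.ext
        show bp D.J ((w i.succ).1.1 : F2 E4 M) = 0
        apply N2.bp_of_anti
        intro x u v
        fin_cases i
        · exact hJ.anti1 x u v
        · exact hJ.anti2 x u v
      orth := fun i j => by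
        rw [hII]
        simp only [Fin.succ_inj]
      posF := hFpos
      sig := fun b hb h3 h4 => by
        have h5 : D.I (b : F2 E4 M) (b : F2 E4 M) = ip (w 0) (cls ⟨b, hb⟩) (cls ⟨b, hb⟩) := by
          rw [ip_cls hV, ← hI]
        show D.I (b : F2 E4 M) (b : F2 E4 M) ≤ 0
        rw [h5]
        by_cases h6 : cls (⟨b, hb⟩ : Z2 M) = 0
        · rw [h6, ip_zero_left hV]
        · refine (bplus M w hw _ (fun i => ?_) h6).le
          rw [ip_cls hV, ← hI]
          fin_cases i
          · have h7 : D.I (b : F2 E4 M) ((w 0).1.1 : F2 E4 M) = 0 := by rw [← hF]; exact h3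
            exact h7
          · exact h4 0
          · exact h4 1
      cla := a.2
      pos := by rw [hI]; exact hpos
      posaF := by
        have h3 : D.I (a.1.1 : F2 E4 M) D.F = pI (w 0) a (w 0) := by rw [← hI, hF]
        rw [h3]; exact hpos0
      perp := fun i => by
        rw [hI]
        fin_cases i
        · exact h1
        · exact h2 }
  have hPD : PDat D := by
    intro L hL
    obtain ⟨s, hs⟩ := pd M w hw L hL
    exact ⟨s.1, s.2, fun b hb => by rw [hs ⟨b, hb⟩, ← hI]⟩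
  have hZD : ZDat D := zd M D w hw hJ hal hNC
  obtain ⟨a0, ha0, ha0inv⟩ := hdg M w D.J hw hN hJ a h1 h2
  have hex : IsEx ((a.1 - a0.1 : X2 M) : F2 E4 M) := cls_eq.1 ha0.symm
  obtain ⟨b, hbZ, hbex, hbpi, hbpos⟩ := dom M D _ a.1 a0.1 hCls hPD hZD a0.2 hex
    (Subtype.ext (N2.bpp_of_inv ha0inv))
  have hbinv := DOM_560.inv_of_pi'' D hbpi
  obtain ⟨b', hb1, hb2, hb3⟩ := link M w D.J hw hN hJ ⟨b, hbZ⟩ hbinv hbpos
  refine ⟨b', ?_, hb2, hb3⟩
  rw [hb1]
  exact cls_eq.2 hbex

/-- **ASSEMBLY of the package STF.** -/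
theorem stf_of (exj : EXJ.{0}) (bplus : BPLUS.{0}) (zd : ZD.{0}) (pd : PD.{0}) (nrm : NRM.{0})
    (hdg : HDG) (link : LINK) (dom : DOM.{0}) : STF.{0} := by
  intro M i1 i2 i3 i4 i5 i6 w hw hN hNC c hc hc0 hc1 hc2
  obtain ⟨J, hJ⟩ := exj M w hw
  obtain ⟨a, rfl⟩ := cls_surj c
  have hV := hw.vol 0
  rw [ip_cls hV] at hc hc0 hc1 hc2
  obtain ⟨m, hm, hbl⟩ := Met.exists_metric (E := E4) (M := M)
  subst hm
  exact stf_aux bplus zd pd nrm hdg link dom M hbl w J hw hN hJ hNC a hc hc0 hc1 hc2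

end

end Crest.Agent.R235.STF_560
end

-- ▼ part R235/N3E_168

/-!
Row 235, package STF, leaf N3E (helper168): R240's Lemma A (node N3) inside the exact forms.

`lemmaA_sub` is helper106's `Ell.lemmaA_man` with the space of the closed forms replaced by an
arbitrary subspace `Z` of smooth forms containing the extensions by zero of `dS s`.
-/

set_option autoImplicit false
set_option maxSynthPendingDepth 3
set_option linter.unusedSectionVars false

open scoped ContDiff Manifold Topology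
open Set Filter

universe u

namespace Crest.Agent.R235.N3E_168

noncomputable section

open Crest.Agent.R240 Crest.Agent.R240.Ch Crest.Agent.R240.KLoc Crest.Agent.R240.Ell

variable {M : Type*} [TopologicalSpace M] [ChartedSpace E4 M] [IsManifold 𝓘(ℝ, E4) ∞ M]

/-- the seminorms on a subspace of smooth forms. -/
def pZs (A : EAtl M) (Z : Submodule ℝ (F2 E4 M)) (hZ : ∀ a ∈ Z, Smooth2 a) (k : ℕ) :
    Seminorm ℝ Z :=
  Seminorm.of (fun w => pn A k w.1) (fun x y => pn_add A k (hZ _ x.2) (hZ _ y.2))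
    (fun r x => pn_smul A k r (hZ _ x.2))

theorem pZs_apply (A : EAtl M) (Z : Submodule ℝ (F2 E4 M)) (hZ : ∀ a ∈ Z, Smooth2 a) (k : ℕ)
    (w : Z) : pZs A Z hZ k w = pn A k w.1 := rfl

/-! ### the main theorem -/

set_option maxHeartbeats 2000000 in
/-- R240's `lemmaA_man` inside an arbitrary subspace `Z` of smooth forms which contains the
extensions by zero of `dS s`. -/
theorem lemmaA_sub [T2Space M] (hloc : LocalThm) (A : EAtl M) {J : EndF E4 M} (hJ : SmoothJ J)
    (hsq : ∀ x v, atJ J x (atJ J x v) = -v) (Z : Submodule ℝ (F2 E4 M))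
    (hZs : ∀ a ∈ Z, Smooth2 a)
    (hZ : ∀ (i : Fin A.n) (s : E4 → E4 →L[ℝ] ℝ), ContDiff ℝ ∞ s → tsupport s ⊆ A.V i →
      ext2 (A.p i) (dS s) ∈ Z) :
    ∃ (m : ℕ) (C : ℝ), 0 ≤ C ∧ ∀ b ∈ Z,
      ∃ c ∈ Z, bpp J c = bpp J b ∧ pn A 0 c ≤ C * pn A m (bpp J b) := by
  classical
  choose JJ hJJs hJJ using fun i => exists_JJ A hJ i
  have hJJsq : ∀ i, ∀ x ∈ A.V i, ∀ v, JJ i x (JJ i x v) = -v := by
    intro i x hx v
    rw [hJJ i x (subset_closure hx)]
    exact repJ_sq hsq (A.V_sub i hx) v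
  choose Q K hadd hsmul hreg hid hQb hKt hKf using fun i =>
    hloc (JJ i) (hJJs i) (A.U i) (A.V i) (A.isOpen_U i) (A.isOpen_V i) (A.bdd_V i)
      (A.closure_U i) (hJJsq i)
  have hT : ∀ (w : XA J) i, Test (JJ i) (A.U i) (loc A i w.1) := fun w i =>
    test_loc A (hJJ i) w.2
  have hKT : ∀ (w : XA J) i, Test (JJ i) (A.V i) (K i (loc A i w.1)) := fun w i =>
    (hreg i _ (hT w i)).2.2
  have hKadm : ∀ (w : XA J) i, Adm A i (K i (loc A i w.1)) := fun w i => adm_of_test A (hKT w i)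
  have hloc_add : ∀ (w w' : XA J) i, loc A i (w + w').1 = loc A i w.1 + loc A i w'.1 :=
    fun w w' i => loc_add A i _ _
  have hloc_smul : ∀ (r : ℝ) (w : XA J) i, loc A i (r • w).1 = r • loc A i w.1 :=
    fun r w i => loc_smul A i _ _
  -- the operators
  let KK : XA J →ₗ[ℝ] XA J :=
    { toFun := fun w => ⟨glob A fun i => K i (loc A i w.1), smooth2_glob A (hKadm w),
        bppL_glob A J _ fun i y _ => anti_of_test A (hJJ i) (hKT w i) y⟩
      map_add' := fun w w' => by
        apply Subtype.ext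
        change glob A (fun i => K i (loc A i (w + w').1)) =
          glob A (fun i => K i (loc A i w.1)) + glob A (fun i => K i (loc A i w'.1))
        rw [← glob_add]
        congr 1
        funext i
        rw [hloc_add, (hadd i _ _ (hT w i) (hT w' i)).2]
      map_smul' := fun r w => by
        apply Subtype.ext
        change glob A (fun i => K i (loc A i (r • w).1)) =
          r • glob A (fun i => K i (loc A i w.1))
        rw [← glob_smul]
        congr 1
        funext i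
        rw [hloc_smul, (hsmul i r _ (hT w i)).2] }
  have hKKv : ∀ w, (KK w).1 = glob A fun i => K i (loc A i w.1) := fun w => rfl
  have hQs : ∀ (w : XA J) i, ContDiff ℝ ∞ (Q i (loc A i w.1)) := fun w i =>
    (hreg i _ (hT w i)).1
  have hQv : ∀ (w : XA J) i, tsupport (Q i (loc A i w.1)) ⊆ A.V i := fun w i =>
    (hreg i _ (hT w i)).2.1
  let SS : XA J →ₗ[ℝ] Z :=
    { toFun := fun w => ⟨glob A fun i => dS (Q i (loc A i w.1)),
        Submodule.sum_mem _ fun i _ => hZ i _ (hQs w i) (hQv w i)⟩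
      map_add' := fun w w' => by
        apply Subtype.ext
        change glob A (fun i => dS (Q i (loc A i (w + w').1))) =
          glob A (fun i => dS (Q i (loc A i w.1))) + glob A (fun i => dS (Q i (loc A i w'.1)))
        rw [← glob_add]
        congr 1
        funext i
        rw [hloc_add, (hadd i _ _ (hT w i) (hT w' i)).1, dS_add (hQs w i) (hQs w' i)]
      map_smul' := fun r w => by
        apply Subtype.ext
        change glob A (fun i => dS (Q i (loc A i (r • w).1))) =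
          r • glob A (fun i => dS (Q i (loc A i w.1)))
        rw [← glob_smul]
        congr 1
        funext i
        rw [hloc_smul, (hsmul i r _ (hT w i)).1, dS_smul (hQs w i)] }
  have hSSv : ∀ w, (SS w).1 = glob A fun i => dS (Q i (loc A i w.1)) := fun w => rfl
  let π : Z →ₗ[ℝ] XA J :=
    { toFun := fun c => ⟨bpp J c.1, smooth2_bpp hJ (hZs c.1 c.2), bpp_bpp hsq⟩
      map_add' := fun c c' => by
        apply Subtype.ext
        exact map_add (bppL J) c.1 c'.1
      map_smul' := fun r c => by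
        apply Subtype.ext
        exact map_smul (bppL J) r c.1 }
  have hπv : ∀ c, (π c).1 = bpp J c.1 := fun c => rfl
  have hS : ∀ w, π (SS w) = w + KK w := by
    intro w
    apply Subtype.ext
    rw [hπv, hSSv]
    have h1 : ((w + KK w : XA J) : F2 E4 M) =
        glob A (fun i => loc A i w.1 + K i (loc A i w.1)) := by
      rw [glob_add, glob_loc]
      rfl
    rw [h1, ← bppL_apply]
    unfold glob
    rw [map_sum]
    refine Finset.sum_congr rfl fun i _ => ?_
    rw [bppL_apply, bpp_ext2]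
    refine congrArg _ (funext fun y => ?_)
    by_cases hy : y ∈ closure (A.V i)
    · rw [← hJJ i y hy, hid i _ (hT w i) y]
      rfl
    · simp only [Pi.add_apply]
      rw [(adm_dS A (hQs w i) (hQv w i)).off y hy, antip_zero',
        (hKadm w i).off y hy, (Adm.loc A i w.2.1).off y hy, add_zero]
  -- estimates
  have hk : ∀ k, ∃ C, ∀ x, pX A J k (KK x) ≤ (1 / 2) * pX A J k x + C * pX A J 0 x := by
    intro k
    obtain ⟨C, hC0, hC⟩ := exists_globC A k
    have hθ : 0 < 1 / (2 * (C + 1)) := by positivity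
    choose D hD using fun i => hKt i k (1 / (2 * (C + 1))) hθ
    refine ⟨C * ∑ i, |D i|, fun w => ?_⟩
    rw [pX_apply, hKKv]
    refine (hC _ (hKadm w)).trans ?_
    have h1 : ∀ i, nk k (K i (loc A i w.1)) ≤
        1 / (2 * (C + 1)) * nk k (loc A i w.1) + |D i| * pn A 0 w.1 := by
      intro i
      have h2 := hD i _ _ _ (hT w i) ((cs_loc A i w.2.1).ckB_nk k) ((cs_loc A i w.2.1).ckB_nk 0)
      refine (nk_le h2).trans ?_
      have h3 : D i * nk 0 (loc A i w.1) ≤ |D i| * pn A 0 w.1 := by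
        calc D i * nk 0 (loc A i w.1) ≤ |D i| * nk 0 (loc A i w.1) :=
              mul_le_mul_of_nonneg_right (le_abs_self _) (nk_nonneg _ _)
          _ ≤ |D i| * pn A 0 w.1 := mul_le_mul_of_nonneg_left (nk_le_pn A 0 i _) (abs_nonneg _)
      linarith
    have h4 : ∑ i, nk k (K i (loc A i w.1)) ≤
        1 / (2 * (C + 1)) * pn A k w.1 + (∑ i, |D i|) * pn A 0 w.1 := by
      refine (Finset.sum_le_sum fun i _ => h1 i).trans ?_
      rw [Finset.sum_add_distrib, ← Finset.mul_sum, ← Finset.sum_mul]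
      exact le_rfl
    have h5 : C * (1 / (2 * (C + 1))) ≤ 1 / 2 := by
      rw [mul_one_div, div_le_div_iff₀ (by positivity) (by norm_num)]
      linarith
    have h6 := pn_nonneg A k w.1
    calc C * ∑ i, nk k (K i (loc A i w.1)) ≤
          C * (1 / (2 * (C + 1)) * pn A k w.1 + (∑ i, |D i|) * pn A 0 w.1) := by gcongr
      _ = (C * (1 / (2 * (C + 1)))) * pn A k w.1 + C * (∑ i, |D i|) * pn A 0 w.1 := by ring
      _ ≤ (1 / 2) * pn A k w.1 + C * (∑ i, |D i|) * pn A 0 w.1 := by gcongr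
  -- finite rank
  obtain ⟨C0, hC00, hC0⟩ := exists_globC A 0
  have hθ : 0 < 1 / (2 * (C0 + 1)) := by positivity
  choose n φ l D hφ hladd hlsmul hlb hlK using fun i => hKf i (1 / (2 * (C0 + 1))) hθ
  let ι : Type := Σ i : Fin A.n, Fin (n i)
  let e : ι ≃ Fin (Fintype.card ι) := Fintype.equivFin ι
  let L : ι → XA J →ₗ[ℝ] ℝ := fun q =>
    { toFun := fun w => l q.1 q.2 (loc A q.1 w.1)
      map_add' := fun w w' => by
        rw [hloc_add, hladd q.1 q.2 _ _ (hT w q.1) (hT w' q.1)]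
      map_smul' := fun r w => by
        rw [hloc_smul, hlsmul q.1 q.2 r _ (hT w q.1)]
        rfl }
  have hLv : ∀ q w, L q w = l q.1 q.2 (loc A q.1 w.1) := fun q w => rfl
  have hadm1 : ∀ (i : Fin A.n) (j : Fin (n i)), Adm A i (φ i j) := fun i j =>
    adm_of_test A (hφ i j)
  let Φ : ι → XA J := fun q => ⟨ext2 (A.p q.1) (φ q.1 q.2),
    smooth2_ext2_adm A (hadm1 q.1 q.2), by
      rw [bppL_apply, bpp_ext2]
      exact ext2_congr fun y _ => anti_of_test A (hJJ q.1) (hφ q.1 q.2) y⟩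
  have hΦv : ∀ q, (Φ q).1 = ext2 (A.p q.1) (φ q.1 q.2) := fun q => rfl
  have hmain := EAbs.lemmaA_abs (pX A J) (fun x hx => Subtype.ext (pn_sep A x.2.1 hx))
    (complete_X A J) KK (fun j => L (e.symm j)) (fun j => Φ (e.symm j)) (∑ i, |D i|)
    (by
      intro j w
      rw [hLv]
      have h1 := hlb (e.symm j).1 (e.symm j).2 _ _ (hT w _) ((cs_loc A _ w.2.1).ckB_nk 0)
      refine h1.trans ?_
      calc D (e.symm j).1 * nk 0 (loc A (e.symm j).1 w.1)
          ≤ |D (e.symm j).1| * nk 0 (loc A (e.symm j).1 w.1) :=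
            mul_le_mul_of_nonneg_right (le_abs_self _) (nk_nonneg _ _)
        _ ≤ (∑ i, |D i|) * pn A 0 w.1 := by
            refine mul_le_mul ?_ (nk_le_pn A 0 _ _) (nk_nonneg _ _)
              (Finset.sum_nonneg fun i _ => abs_nonneg _)
            exact Finset.single_le_sum (f := fun i => |D i|) (fun i _ => abs_nonneg _)
              (Finset.mem_univ _))
    (by
      intro w
      set g : Fin A.n → E4 → Bil := fun i =>
        K i (loc A i w.1) - fun x => ∑ j, l i j (loc A i w.1) • φ i j x with hg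
      have hsumeq : ∀ i, (fun x => ∑ j, l i j (loc A i w.1) • φ i j x) =
          ∑ j, l i j (loc A i w.1) • φ i j := by
        intro i
        funext x
        rw [Finset.sum_apply]
        rfl
      have hgadm : ∀ i, Adm A i (g i) := by
        intro i
        refine (hKadm w i).sub A ?_
        rw [hsumeq]
        refine ⟨CS.sum _ fun j _ => (hadm1 i j).cs.smul _, fun y => ?_, fun z hz => ?_⟩
        · rw [Finset.sum_apply]
          intro v
          have : ∀ s : Finset (Fin (n i)), (∑ j ∈ s, (l i j (loc A i w.1) • φ i j) y) v v = 0 := by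
            intro s
            induction s using Finset.induction_on with
            | empty => rfl
            | insert a s ha ih =>
              rw [Finset.sum_insert ha, add_apply, add_apply, ih, add_zero]
              exact Alt.smul' ((hadm1 i a).alt y) _ v
          exact this _
        · rw [Finset.sum_apply]
          refine Finset.sum_eq_zero fun j _ => ?_
          rw [Pi.smul_apply, (hadm1 i j).off z hz, smul_zero]
      have h1 : ((KK w - ∑ j, L (e.symm j) w • Φ (e.symm j) : XA J) : F2 E4 M) = glob A g := by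
        have h2 : ∑ j, L (e.symm j) w • Φ (e.symm j) = ∑ q : ι, L q w • Φ q :=
          Equiv.sum_comp e.symm (fun q => L q w • Φ q)
        rw [h2]
        have h3 : ((KK w - ∑ q : ι, L q w • Φ q : XA J) : F2 E4 M) =
            (KK w).1 - ∑ q : ι, l q.1 q.2 (loc A q.1 w.1) • ext2 (A.p q.1) (φ q.1 q.2) := by
          rw [Submodule.coe_sub, AddSubmonoidClass.coe_finsetSum]
          rfl
        rw [h3, hKKv, hg]
        have h4 := glob_sub A (fun i => K i (loc A i w.1))
          (fun i x => ∑ j, l i j (loc A i w.1) • φ i j x)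
        refine Eq.trans ?_ h4.symm
        congr 1
        unfold glob
        rw [Fintype.sum_sigma]
        refine Finset.sum_congr rfl fun i _ => ?_
        simp only [hsumeq]
        rw [ext2_sum]
        refine Finset.sum_congr rfl fun j _ => ?_
        rw [ext2_smul]
      rw [pX_apply, h1]
      refine (hC0 g hgadm).trans ?_
      have h5 : ∀ i, nk 0 (g i) ≤ 1 / (2 * (C0 + 1)) * nk 0 (loc A i w.1) := fun i =>
        nk_le (hlK i _ _ (hT w i) ((cs_loc A i w.2.1).ckB_nk 0))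
      have h6 : C0 * (1 / (2 * (C0 + 1))) ≤ 1 / 2 := by
        rw [mul_one_div, div_le_div_iff₀ (by positivity) (by norm_num)]
        linarith
      have h7 := pn_nonneg A 0 w.1
      calc C0 * ∑ i, nk 0 (g i) ≤ C0 * ∑ i, 1 / (2 * (C0 + 1)) * nk 0 (loc A i w.1) := by
            gcongr with i _
            exact h5 i
        _ = (C0 * (1 / (2 * (C0 + 1)))) * pn A 0 w.1 := by
            rw [← Finset.mul_sum, pn]; ring
        _ ≤ 1 / 2 * pX A J 0 w := by
            rw [pX_apply]; gcongr)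
    hk (pZs A Z hZs 0) π SS hS
  -- bound of `S`
  choose mm E hE using hQb
  set m := ∑ i, mm i with hm
  have hmi : ∀ i, mm i ≤ m := fun i =>
    Finset.single_le_sum (f := mm) (fun _ _ => Nat.zero_le _) (Finset.mem_univ i)
  have hN : ∃ C, ∀ w, pZs A Z hZs 0 (SS w) ≤ C * (pX A J 0 w + pX A J m w) := by
    refine ⟨C0 * (2 * ∑ i, |E i|), fun w => ?_⟩
    rw [pZs_apply, hSSv, pX_apply, pX_apply]
    refine (hC0 _ fun i => adm_dS A (hQs w i) (hQv w i)).trans ?_
    rw [mul_assoc]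
    refine mul_le_mul_of_nonneg_left ?_ hC00
    rw [mul_assoc, Finset.sum_mul, Finset.mul_sum]
    refine Finset.sum_le_sum fun i _ => ?_
    refine (nk_dS (cs_of_supp A (hQs w i) (hQv w i))).trans ?_
    refine mul_le_mul_of_nonneg_left ?_ (by norm_num)
    refine (nk_le (hE i _ _ (hT w i) ((cs_loc A i w.2.1).ckB_nk (mm i)))).trans ?_
    calc E i * nk (mm i) (loc A i w.1) ≤ |E i| * nk (mm i) (loc A i w.1) :=
          mul_le_mul_of_nonneg_right (le_abs_self _) (nk_nonneg _ _)
      _ ≤ |E i| * (pn A 0 w.1 + pn A m w.1) := by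
          refine mul_le_mul_of_nonneg_left ?_ (abs_nonneg _)
          have h1 := nk_mono (cs_loc A i w.2.1) (hmi i)
          have h2 := nk_le_pn A m i w.1
          have h3 := pn_nonneg A 0 w.1
          linarith
  obtain ⟨C, hC0', hC⟩ := hmain m hN
  refine ⟨m, 2 * C, by positivity, fun b hb => ?_⟩
  obtain ⟨c, hc1, hc2⟩ := hC ⟨b, hb⟩
  refine ⟨c.1, c.2, ?_, ?_⟩
  · have h := congrArg Subtype.val hc1
    rw [hπv, hπv] at h
    exact h
  · rw [pZs_apply, pX_apply, pX_apply, hπv] at hc2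
    refine hc2.trans ?_
    have h1 := pn_mono A (Nat.zero_le m) (smooth2_bpp hJ (hZs b hb))
    have h2 : C * (pn A 0 (bpp J b) + pn A m (bpp J b)) ≤
        C * (pn A m (bpp J b) + pn A m (bpp J b)) := by gcongr
    linarith


/-! ### exact forms -/

variable (M) in
/-- exact forms, as a subspace of `F2`. -/
def EA : Submodule ℝ (F2 E4 M) where
  carrier := {a | IsEx a}
  add_mem' := by
    intro a b ha hb
    obtain ⟨s, hs, rfl⟩ := isEx_iff.1 ha
    obtain ⟨t, ht, rfl⟩ := isEx_iff.1 hb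
    refine isEx_iff.2 ⟨s + t, hs.add ht, ?_⟩
    exact (dG_add hs ht).symm
  zero_mem' := by
    refine isEx_iff.2 ⟨0, smooth1_zero, ?_⟩
    have h := dG_smul (0 : ℝ) (smooth1_zero (E := E4) (M := M))
    simpa using h.symm
  smul_mem' := by
    intro c a ha
    obtain ⟨s, hs, rfl⟩ := isEx_iff.1 ha
    refine isEx_iff.2 ⟨c • s, hs.smul c, ?_⟩
    exact (dG_smul c hs).symm

theorem mem_EA (A : EAtl M) [T2Space M] (i : Fin A.n) (s : E4 → E4 →L[ℝ] ℝ)
    (hs : ContDiff ℝ ∞ s) (h : tsupport s ⊆ A.V i) : ext2 (A.p i) (dS s) ∈ EA M :=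
  isEx_ext2_d1 (A.compact_V i) (A.closure_V i) hs fun _ hy =>
    image_eq_zero_of_notMem_tsupport fun h' => hy (subset_closure (h h'))

/-- **N3E** -/
theorem n3e : STF_861.N3E.{u} := by
  intro M _ _ _ _ _ _ D
  obtain ⟨A⟩ := exists_atl M
  obtain ⟨𝒰⟩ := exists_Cover (M := M)
  obtain ⟨m, C, hC0, hC⟩ := lemmaA_sub FA.localThm A D.smJ D.sq (EA M)
    (fun a ha => IsEx.smooth2 ha) (mem_EA A)
  obtain ⟨C1, hC1, h1⟩ := nr_le_pn D A
  obtain ⟨C2, hC2, h2⟩ := pn_le_cm A 𝒰 m
  refine ⟨𝒰, m, C1 * (C * C2), fun b hb => ?_⟩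
  obtain ⟨c, hc, hcb, hcn⟩ := hC b.1 hb
  have hcs : Smooth2 c := IsEx.smooth2 hc
  refine ⟨⟨c, hcs⟩, hc, Subtype.ext hcb, fun x => ?_⟩
  have h3 := h1 ⟨c, hcs⟩ x
  have h4 := h2 (bpp D.J b.1) (smooth2_bpp D.smJ b.2)
  calc D.nr c x ≤ C1 * pn A 0 c := h3
    _ ≤ C1 * (C * (C2 * 𝒰.cm m (bpp D.J b.1))) := by
        refine mul_le_mul_of_nonneg_left (hcn.trans ?_) hC1
        exact mul_le_mul_of_nonneg_left h4 hC0
    _ = C1 * (C * C2) * 𝒰.cm m ((D.pi'' b : X2 M) : F2 E4 M) := by
        rw [Dat.pi'', antiM_coe]; ring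

end

end Crest.Agent.R235.N3E_168
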