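import Mathlib
import Crest.Agent.R235.FamDefs_307

-- ▼ part R235/RCTr_746
section

/-!
Row 235, block FAM/RC (helper746), RC1: NUCLEAR OPERATORS AND TRACE on a complex Hilbert space.

* `Rk F n`       : `F` has rank `≤ n`;
* `IsNuc T c`    : `T = ∑ ⟪v, ·⟫ u` with `∑ ‖u‖ ‖v‖ ≤ c`;
* `tr T`         : the trace `∑ ⟪b i, T (b i)⟫` in a fixed Hilbert basis;
* `tr_comm`      : `tr (A T) = tr (T A)` for `T` nuclear, `A` bounded;
* `Rk.isNuc`     : finite rank operators are nuclear, `≤ n ‖F‖`;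
* `App T c a`    : approximation numbers `a_n(T) ≤ c (n+1)^(-a)`; products; `App.isNuc` for `a > 1`.
-/

set_option autoImplicit false
set_option linter.unusedSectionVars false

open scoped InnerProductSpace Topology
open Filter

namespace Crest.Agent.R235.RCTr_746

noncomputable section

variable {H : Type*} [NormedAddCommGroup H] [InnerProductSpace ℂ H] [CompleteSpace H]

local notation "⟪" x ", " y "⟫" => inner ℂ x y

/-- rank at most `n`. -/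
def Rk (F : H →L[ℂ] H) (n : ℕ) : Prop :=
  FiniteDimensional ℂ (LinearMap.range (F : H →ₗ[ℂ] H)) ∧
    Module.finrank ℂ (LinearMap.range (F : H →ₗ[ℂ] H)) ≤ n

/-- nuclear operators, with a bound of the nuclear norm. -/
def IsNuc (T : H →L[ℂ] H) (c : ℝ) : Prop :=
  ∃ (ι : Type) (u v : ι → H), Summable (fun i => ‖u i‖ * ‖v i‖) ∧
    ∑' i, ‖u i‖ * ‖v i‖ ≤ c ∧ ∀ x, HasSum (fun i => ⟪v i, x⟫ • u i) (T x)

variable (H) in
/-- index set of the fixed Hilbert basis. -/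
def hw : Set H := (exists_hilbertBasis ℂ H).choose

variable (H) in
/-- the fixed Hilbert basis. -/
def hb : HilbertBasis (hw H) ℂ H := (exists_hilbertBasis ℂ H).choose_spec.choose

/-- the trace. -/
def tr (T : H →L[ℂ] H) : ℂ := ∑' i, ⟪hb H i, T (hb H i)⟫

lemma hasSum_norm_sq (x : H) : HasSum (fun i => ‖⟪hb H i, x⟫‖ ^ 2) (‖x‖ ^ 2) := by
  have h := (hb H).hasSum_inner_mul_inner x x
  have h1 : ∀ i, ⟪x, hb H i⟫ * ⟪hb H i, x⟫ = ((‖⟪hb H i, x⟫‖ ^ 2 : ℝ) : ℂ) := by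
    intro i
    rw [← inner_conj_symm x (hb H i), mul_comm, Complex.mul_conj, Complex.normSq_eq_norm_sq]
  simp only [h1] at h
  rw [inner_self_eq_norm_sq_to_K] at h
  have h2 : ((‖x‖ : ℂ) ^ 2) = ((‖x‖ ^ 2 : ℝ) : ℂ) := by push_cast; rfl
  have h3 : HasSum (fun i => ((‖⟪hb H i, x⟫‖ ^ 2 : ℝ) : ℂ)) ((‖x‖ ^ 2 : ℝ) : ℂ) := by
    rw [← h2]; exact h
  exact_mod_cast h3

lemma sum_mul_le (x y : H) (s : Finset (hw H)) :
    ∑ i ∈ s, ‖⟪x, hb H i⟫‖ * ‖⟪hb H i, y⟫‖ ≤ ‖x‖ * ‖y‖ := by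
  have hx := (hasSum_norm_sq x)
  have hy := (hasSum_norm_sq y)
  have h1 : ∑ i ∈ s, ‖⟪x, hb H i⟫‖ ^ 2 ≤ ‖x‖ ^ 2 := by
    have h := hx.summable.sum_le_tsum s fun i _ => by positivity
    rw [hx.tsum_eq] at h
    refine le_trans (le_of_eq (Finset.sum_congr rfl fun i _ => ?_)) h
    rw [norm_inner_symm]
  have h2 : ∑ i ∈ s, ‖⟪hb H i, y⟫‖ ^ 2 ≤ ‖y‖ ^ 2 := by
    have h := hy.summable.sum_le_tsum s fun i _ => by positivity
    rwa [hy.tsum_eq] at h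
  refine (Real.sum_mul_le_sqrt_mul_sqrt s _ _).trans ?_
  refine mul_le_mul ?_ ?_ (Real.sqrt_nonneg _) (norm_nonneg _)
  · exact Real.sqrt_le_iff.2 ⟨norm_nonneg _, h1⟩
  · exact Real.sqrt_le_iff.2 ⟨norm_nonneg _, h2⟩

lemma summable_mul (x y : H) :
    Summable (fun i => ‖⟪x, hb H i⟫‖ * ‖⟪hb H i, y⟫‖) :=
  summable_of_sum_le (fun i => by positivity) (sum_mul_le x y)

lemma tsum_mul_le (x y : H) : ∑' i, ‖⟪x, hb H i⟫‖ * ‖⟪hb H i, y⟫‖ ≤ ‖x‖ * ‖y‖ :=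
  Real.tsum_le_of_sum_le (fun i => by positivity) (sum_mul_le x y)

/-- the trace of a represented operator. -/
lemma tr_rep {ι : Type} {u v : ι → H} {T : H →L[ℂ] H} (hs : Summable (fun i => ‖u i‖ * ‖v i‖))
    (hT : ∀ x, HasSum (fun i => ⟪v i, x⟫ • u i) (T x)) :
    HasSum (fun i => ⟪hb H i, T (hb H i)⟫) (∑' j, ⟪v j, u j⟫) := by
  have hS : Summable (fun p : ι × hw H => ⟪v p.1, hb H p.2⟫ * ⟪hb H p.2, u p.1⟫) := by
    refine Summable.of_norm ?_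
    rw [summable_prod_of_nonneg fun p => norm_nonneg _]
    refine ⟨fun j => ?_, ?_⟩
    · simpa only [norm_mul] using summable_mul (v j) (u j)
    · refine Summable.of_nonneg_of_le (fun j => tsum_nonneg fun i => norm_nonneg _) (fun j => ?_) hs
      have := tsum_mul_le (v j) (u j)
      simp only [norm_mul]
      rw [mul_comm (‖u j‖)]
      exact this
  have h1 : ∀ i, HasSum (fun j => ⟪v j, hb H i⟫ * ⟪hb H i, u j⟫) ⟪hb H i, T (hb H i)⟫ := by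
    intro i
    have h := (hT (hb H i)).mapL (innerSL ℂ (hb H i))
    simpa only [innerSL_apply_apply, inner_smul_right] using h
  have h2 : ∀ j, HasSum (fun i => ⟪v j, hb H i⟫ * ⟪hb H i, u j⟫) ⟪v j, u j⟫ := fun j =>
    (hb H).hasSum_inner_mul_inner (v j) (u j)
  have h3 := hS.hasSum
  have h4 : HasSum (fun j => ⟪v j, u j⟫)
      (∑' p : ι × hw H, ⟪v p.1, hb H p.2⟫ * ⟪hb H p.2, u p.1⟫) := h3.prod_fiberwise h2
  have h5 : HasSum (fun p : hw H × ι => ⟪v p.2, hb H p.1⟫ * ⟪hb H p.1, u p.2⟫)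
      (∑' p : ι × hw H, ⟪v p.1, hb H p.2⟫ * ⟪hb H p.2, u p.1⟫) :=
    (Equiv.prodComm (hw H) ι).hasSum_iff.2 h3
  have h6 := h5.prod_fiberwise h1
  rwa [h4.tsum_eq]

lemma tr_eq {ι : Type} {u v : ι → H} {T : H →L[ℂ] H} (hs : Summable (fun i => ‖u i‖ * ‖v i‖))
    (hT : ∀ x, HasSum (fun i => ⟪v i, x⟫ • u i) (T x)) : tr T = ∑' j, ⟪v j, u j⟫ :=
  (tr_rep hs hT).tsum_eq

lemma IsNuc.summable {T : H →L[ℂ] H} {c : ℝ} (h : IsNuc T c) :
    Summable (fun i => ⟪hb H i, T (hb H i)⟫) := by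
  obtain ⟨ι, u, v, hs, -, hT⟩ := h
  exact (tr_rep hs hT).summable

lemma IsNuc.norm_tr_le {T : H →L[ℂ] H} {c : ℝ} (h : IsNuc T c) : ‖tr T‖ ≤ c := by
  obtain ⟨ι, u, v, hs, hc, hT⟩ := h
  rw [tr_eq hs hT]
  have h1 : Summable (fun j => ‖⟪v j, u j⟫‖) :=
    Summable.of_nonneg_of_le (fun _ => norm_nonneg _)
      (fun j => (norm_inner_le_norm _ _).trans_eq (mul_comm _ _)) hs
  refine (norm_tsum_le_tsum_norm h1).trans (le_trans ?_ hc)
  exact h1.tsum_le_tsum (fun j => (norm_inner_le_norm _ _).trans_eq (mul_comm _ _)) hs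

lemma IsNuc.nonneg {T : H →L[ℂ] H} {c : ℝ} (h : IsNuc T c) : 0 ≤ c :=
  (norm_nonneg _).trans h.norm_tr_le

lemma IsNuc.mono {T : H →L[ℂ] H} {c d : ℝ} (h : IsNuc T c) (hcd : c ≤ d) : IsNuc T d := by
  obtain ⟨ι, u, v, hs, hc, hT⟩ := h
  exact ⟨ι, u, v, hs, hc.trans hcd, hT⟩

lemma IsNuc.zero : IsNuc (0 : H →L[ℂ] H) 0 :=
  ⟨Empty, Empty.elim, Empty.elim, summable_empty, by simp, fun x => by
    simpa using (hasSum_empty : HasSum (fun i : Empty => ⟪(Empty.elim i : H), x⟫ • (Empty.elim i : H)) 0)⟩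

lemma IsNuc.add {S T : H →L[ℂ] H} {c d : ℝ} (hS : IsNuc S c) (hT : IsNuc T d) :
    IsNuc (S + T) (c + d) := by
  obtain ⟨ι, u, v, hs, hc, h⟩ := hS
  obtain ⟨κ, u', v', hs', hc', h'⟩ := hT
  have hsum : HasSum (fun i : ι ⊕ κ => ‖Sum.elim u u' i‖ * ‖Sum.elim v v' i‖)
      ((∑' i, ‖u i‖ * ‖v i‖) + ∑' i, ‖u' i‖ * ‖v' i‖) := by
    refine HasSum.sum (f := fun i : ι ⊕ κ => ‖Sum.elim u u' i‖ * ‖Sum.elim v v' i‖) ?_ ?_
    · exact hs.hasSum
    · exact hs'.hasSum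
  refine ⟨ι ⊕ κ, Sum.elim u u', Sum.elim v v', hsum.summable, ?_, fun x => ?_⟩
  · rw [hsum.tsum_eq]; linarith
  · exact HasSum.sum (f := fun i : ι ⊕ κ => ⟪Sum.elim v v' i, x⟫ • Sum.elim u u' i) (h x) (h' x)

lemma IsNuc.smul {T : H →L[ℂ] H} {c : ℝ} (hT : IsNuc T c) (z : ℂ) : IsNuc (z • T) (‖z‖ * c) := by
  obtain ⟨ι, u, v, hs, hc, h⟩ := hT
  have e : ∀ i, ‖z • u i‖ * ‖v i‖ = ‖z‖ * (‖u i‖ * ‖v i‖) := fun i => by rw [norm_smul]; ring
  refine ⟨ι, fun i => z • u i, v, ?_, ?_, fun x => ?_⟩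
  · simp only [e]; exact hs.mul_left _
  · simp only [e]; rw [tsum_mul_left]; exact mul_le_mul_of_nonneg_left hc (norm_nonneg _)
  · have h1 := (h x).const_smul z
    have h2 : (fun i => z • ⟪v i, x⟫ • u i) = fun i => ⟪v i, x⟫ • z • u i := by
      funext i; rw [smul_comm]
    rw [h2] at h1
    simpa using h1

lemma IsNuc.neg {T : H →L[ℂ] H} {c : ℝ} (hT : IsNuc T c) : IsNuc (-T) c := by
  have := hT.smul (-1)
  simpa using this

lemma IsNuc.sub {S T : H →L[ℂ] H} {c d : ℝ} (hS : IsNuc S c) (hT : IsNuc T d) :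
    IsNuc (S - T) (c + d) := by
  rw [sub_eq_add_neg]; exact hS.add hT.neg

lemma IsNuc.left {T : H →L[ℂ] H} {c : ℝ} (hT : IsNuc T c) (A : H →L[ℂ] H) :
    IsNuc (A ∘L T) (‖A‖ * c) := by
  obtain ⟨ι, u, v, hs, hc, h⟩ := hT
  have hb : ∀ i, ‖A (u i)‖ * ‖v i‖ ≤ ‖A‖ * (‖u i‖ * ‖v i‖) := fun i => by
    rw [← mul_assoc]
    exact mul_le_mul_of_nonneg_right (A.le_opNorm _) (norm_nonneg _)
  have hs' : Summable (fun i => ‖A (u i)‖ * ‖v i‖) :=
    Summable.of_nonneg_of_le (fun _ => by positivity) hb (hs.mul_left _)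
  refine ⟨ι, fun i => A (u i), v, hs', ?_, fun x => ?_⟩
  · refine (hs'.tsum_le_tsum hb (hs.mul_left _)).trans ?_
    rw [tsum_mul_left]
    exact mul_le_mul_of_nonneg_left hc (norm_nonneg _)
  · have := (h x).mapL A
    simpa only [map_smul, ContinuousLinearMap.comp_apply] using this

lemma IsNuc.right {T : H →L[ℂ] H} {c : ℝ} (hT : IsNuc T c) (A : H →L[ℂ] H) :
    IsNuc (T ∘L A) (c * ‖A‖) := by
  obtain ⟨ι, u, v, hs, hc, h⟩ := hT
  set B := ContinuousLinearMap.adjoint A with hB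
  have hn : ‖B‖ = ‖A‖ := by rw [hB]; exact LinearIsometryEquiv.norm_map _ _
  have hb : ∀ i, ‖u i‖ * ‖B (v i)‖ ≤ (‖u i‖ * ‖v i‖) * ‖A‖ := fun i => by
    rw [mul_assoc, mul_comm ‖v i‖, ← hn]
    exact mul_le_mul_of_nonneg_left (B.le_opNorm _) (norm_nonneg _)
  have hs' : Summable (fun i => ‖u i‖ * ‖B (v i)‖) :=
    Summable.of_nonneg_of_le (fun _ => by positivity) hb (hs.mul_right _)
  refine ⟨ι, u, fun i => B (v i), hs', ?_, fun x => ?_⟩
  · refine (hs'.tsum_le_tsum hb (hs.mul_right _)).trans ?_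
    rw [tsum_mul_right]
    exact mul_le_mul_of_nonneg_right hc (norm_nonneg _)
  · have := h (A x)
    have e : ∀ i, ⟪v i, A x⟫ = ⟪B (v i), x⟫ := fun i => by
      rw [hB, ContinuousLinearMap.adjoint_inner_left]
    simpa only [e, ContinuousLinearMap.comp_apply] using this

/-- cyclicity. -/
theorem tr_comm {T : H →L[ℂ] H} {c : ℝ} (hT : IsNuc T c) (A : H →L[ℂ] H) :
    tr (A ∘L T) = tr (T ∘L A) := by
  obtain ⟨ι, u, v, hs, hc, h⟩ := hT
  set B := ContinuousLinearMap.adjoint A with hB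
  have hn : ‖B‖ = ‖A‖ := by rw [hB]; exact LinearIsometryEquiv.norm_map _ _
  have hs1 : Summable (fun i => ‖A (u i)‖ * ‖v i‖) :=
    Summable.of_nonneg_of_le (fun _ => by positivity) (fun i => by
      show ‖A (u i)‖ * ‖v i‖ ≤ ‖A‖ * (‖u i‖ * ‖v i‖)
      rw [← mul_assoc]
      exact mul_le_mul_of_nonneg_right (A.le_opNorm _) (norm_nonneg _)) (hs.mul_left _)
  have hs2 : Summable (fun i => ‖u i‖ * ‖B (v i)‖) :=
    Summable.of_nonneg_of_le (fun _ => by positivity) (fun i => by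
      show ‖u i‖ * ‖B (v i)‖ ≤ (‖u i‖ * ‖v i‖) * ‖A‖
      rw [mul_assoc, mul_comm ‖v i‖, ← hn]
      exact mul_le_mul_of_nonneg_left (B.le_opNorm _) (norm_nonneg _)) (hs.mul_right _)
  have h1 : tr (A ∘L T) = ∑' j, ⟪v j, A (u j)⟫ := tr_eq hs1 fun x => by
    have := (h x).mapL A
    simpa only [map_smul, ContinuousLinearMap.comp_apply] using this
  have h2 : tr (T ∘L A) = ∑' j, ⟪B (v j), u j⟫ := tr_eq hs2 fun x => by
    have := h (A x)
    have e : ∀ i, ⟪v i, A x⟫ = ⟪B (v i), x⟫ := fun i => by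
      rw [hB, ContinuousLinearMap.adjoint_inner_left]
    simpa only [e, ContinuousLinearMap.comp_apply] using this
  rw [h1, h2]
  refine tsum_congr fun j => ?_
  rw [hB, ContinuousLinearMap.adjoint_inner_left]

lemma tr_add {S T : H →L[ℂ] H} {c d : ℝ} (hS : IsNuc S c) (hT : IsNuc T d) :
    tr (S + T) = tr S + tr T := by
  unfold tr
  rw [← hS.summable.tsum_add hT.summable]
  exact tsum_congr fun i => by simp [inner_add_right]

lemma tr_smul {T : H →L[ℂ] H} (z : ℂ) : tr (z • T) = z * tr T := by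
  unfold tr
  rw [← tsum_mul_left]
  exact tsum_congr fun i => by simp [inner_smul_right]

lemma tr_neg {T : H →L[ℂ] H} : tr (-T) = - tr T := by
  have := tr_smul (T := T) (-1)
  simpa using this

lemma tr_sub {S T : H →L[ℂ] H} {c d : ℝ} (hS : IsNuc S c) (hT : IsNuc T d) :
    tr (S - T) = tr S - tr T := by
  rw [sub_eq_add_neg, tr_add hS hT.neg, tr_neg, sub_eq_add_neg]

@[simp] lemma tr_zero : tr (0 : H →L[ℂ] H) = 0 := by simp [tr]

/-- invariance under conjugation by an invertible operator. -/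
lemma tr_conj {T : H →L[ℂ] H} {c : ℝ} (hT : IsNuc T c) {U W : H →L[ℂ] H}
    (hUW : W ∘L U = ContinuousLinearMap.id ℂ H) : tr (U ∘L T ∘L W) = tr T := by
  rw [tr_comm (hT.right W) U]
  rw [ContinuousLinearMap.comp_assoc, hUW, ContinuousLinearMap.comp_id]

/-! ### finite rank -/

lemma Rk.zero : Rk (0 : H →L[ℂ] H) 0 := by
  have e : LinearMap.range ((0 : H →L[ℂ] H) : H →ₗ[ℂ] H) = ⊥ := by
    rw [eq_bot_iff]
    rintro _ ⟨x, rfl⟩
    simp
  rw [Rk, e]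
  exact ⟨inferInstance, by simp⟩

lemma Rk.mono {F : H →L[ℂ] H} {n m : ℕ} (h : Rk F n) (hnm : n ≤ m) : Rk F m := ⟨h.1, h.2.trans hnm⟩

lemma Rk.add {F G : H →L[ℂ] H} {n m : ℕ} (hF : Rk F n) (hG : Rk G m) : Rk (F + G) (n + m) := by
  obtain ⟨h1, h2⟩ := hF
  obtain ⟨h3, h4⟩ := hG
  have hle : LinearMap.range ((F + G : H →L[ℂ] H) : H →ₗ[ℂ] H) ≤
      LinearMap.range (F : H →ₗ[ℂ] H) ⊔ LinearMap.range (G : H →ₗ[ℂ] H) := by
    rintro _ ⟨x, rfl⟩
    exact Submodule.add_mem_sup ⟨x, rfl⟩ ⟨x, rfl⟩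
  refine ⟨Submodule.finiteDimensional_of_le hle, ?_⟩
  refine (Submodule.finrank_mono hle).trans ?_
  have := Submodule.finrank_add_le_finrank_add_finrank (LinearMap.range (F : H →ₗ[ℂ] H))
    (LinearMap.range (G : H →ₗ[ℂ] H))
  omega

lemma Rk.neg {F : H →L[ℂ] H} {n : ℕ} (hF : Rk F n) : Rk (-F) n := by
  obtain ⟨h1, h2⟩ := hF
  have e : LinearMap.range ((-F : H →L[ℂ] H) : H →ₗ[ℂ] H) ≤ LinearMap.range (F : H →ₗ[ℂ] H) := by
    rintro _ ⟨x, rfl⟩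
    exact ⟨-x, by simp⟩
  exact ⟨Submodule.finiteDimensional_of_le e, (Submodule.finrank_mono e).trans h2⟩

lemma Rk.sub {F G : H →L[ℂ] H} {n m : ℕ} (hF : Rk F n) (hG : Rk G m) : Rk (F - G) (n + m) := by
  rw [sub_eq_add_neg]; exact hF.add hG.neg

lemma Rk.right {F : H →L[ℂ] H} {n : ℕ} (hF : Rk F n) (A : H →L[ℂ] H) : Rk (F ∘L A) n := by
  obtain ⟨h1, h2⟩ := hF
  have e : LinearMap.range ((F ∘L A : H →L[ℂ] H) : H →ₗ[ℂ] H) ≤ LinearMap.range (F : H →ₗ[ℂ] H) := by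
    rintro _ ⟨x, rfl⟩
    exact ⟨A x, rfl⟩
  exact ⟨Submodule.finiteDimensional_of_le e, (Submodule.finrank_mono e).trans h2⟩

lemma Rk.left {F : H →L[ℂ] H} {n : ℕ} (hF : Rk F n) (A : H →L[ℂ] H) : Rk (A ∘L F) n := by
  obtain ⟨h1, h2⟩ := hF
  have e : LinearMap.range ((A ∘L F : H →L[ℂ] H) : H →ₗ[ℂ] H) =
      (LinearMap.range (F : H →ₗ[ℂ] H)).map (A : H →ₗ[ℂ] H) := by
    ext y
    simp only [LinearMap.mem_range, Submodule.mem_map]
    constructor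
    · rintro ⟨x, rfl⟩; exact ⟨F x, ⟨x, rfl⟩, rfl⟩
    · rintro ⟨_, ⟨x, rfl⟩, rfl⟩; exact ⟨x, rfl⟩
  rw [Rk, e]
  exact ⟨inferInstance, (Submodule.finrank_map_le _ _).trans h2⟩

/-- finite rank operators are nuclear. -/
lemma Rk.isNuc {F : H →L[ℂ] H} {n : ℕ} (hF : Rk F n) : IsNuc F (n * ‖F‖) := by
  obtain ⟨h1, h2⟩ := hF
  set R := LinearMap.range (F : H →ₗ[ℂ] H) with hR
  haveI := h1
  let e := stdOrthonormalBasis ℂ R
  have hexp : ∀ x, F x = ∑ i, ⟪(e i : H), F x⟫ • (e i : H) := by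
    intro x
    have h := e.sum_repr' ⟨F x, ⟨x, rfl⟩⟩
    have h' := congrArg (Subtype.val) h
    simp only [Submodule.coe_sum, Submodule.coe_smul, Submodule.coe_inner] at h'
    exact h'.symm
  have hadj : ∀ i x, ⟪(e i : H), F x⟫ = ⟪ContinuousLinearMap.adjoint F (e i : H), x⟫ := fun i x => by
    rw [ContinuousLinearMap.adjoint_inner_left]
  have hbd : ∀ i, ‖(e i : H)‖ * ‖ContinuousLinearMap.adjoint F (e i : H)‖ ≤ ‖F‖ := by
    intro i
    have h3 : ‖(e i : H)‖ = 1 := by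
      have := e.orthonormal.1 i
      rwa [← Submodule.coe_norm]
    rw [h3, one_mul]
    have h4 := (ContinuousLinearMap.adjoint F).le_opNorm (e i : H)
    rw [h3, mul_one, LinearIsometryEquiv.norm_map] at h4
    exact h4
  refine ⟨Fin (Module.finrank ℂ R), fun i => (e i : H),
    fun i => ContinuousLinearMap.adjoint F (e i : H), Summable.of_finite, ?_, fun x => ?_⟩
  · rw [tsum_fintype]
    refine (Finset.sum_le_sum fun i _ => hbd i).trans ?_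
    rw [Finset.sum_const, Finset.card_univ, Fintype.card_fin, nsmul_eq_mul]
    exact mul_le_mul_of_nonneg_right (by exact_mod_cast h2) (norm_nonneg _)
  · have h5 := hasSum_fintype (fun i => ⟪ContinuousLinearMap.adjoint F (e i : H), x⟫ • (e i : H))
    have h6 : ∑ i, ⟪ContinuousLinearMap.adjoint F (e i : H), x⟫ • (e i : H) = F x := by
      rw [hexp x]
      exact Finset.sum_congr rfl fun i _ => by rw [← hadj]
    rwa [h6] at h5

/-! ### countable sums -/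

lemma IsNuc.tsum {T : ℕ → H →L[ℂ] H} {c : ℕ → ℝ} {S : H →L[ℂ] H} (hT : ∀ k, IsNuc (T k) (c k))
    (hc : Summable c) (hS : ∀ x, HasSum (fun k => T k x) (S x)) : IsNuc S (∑' k, c k) := by
  choose ι u v hs hle h using hT
  have hS1 : Summable (fun p : (k : ℕ) × ι k => ‖u p.1 p.2‖ * ‖v p.1 p.2‖) := by
    rw [summable_sigma_of_nonneg fun p => by positivity]
    exact ⟨fun k => hs k, Summable.of_nonneg_of_le (fun k => tsum_nonneg fun i => by positivity)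
      hle hc⟩
  refine ⟨(k : ℕ) × ι k, fun p => u p.1 p.2, fun p => v p.1 p.2, hS1, ?_, fun x => ?_⟩
  · rw [hS1.tsum_sigma]
    refine Summable.tsum_le_tsum hle ?_ hc
    exact Summable.of_nonneg_of_le (fun k => tsum_nonneg fun i => by positivity) hle hc
  · refine HasSum.sigma_of_hasSum (hS x) (fun k => h k x) ?_
    refine Summable.of_norm (Summable.of_nonneg_of_le (fun _ => norm_nonneg _) (fun p => ?_)
      (hS1.mul_right ‖x‖))
    rw [norm_smul]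
    calc ‖⟪v p.1 p.2, x⟫‖ * ‖u p.1 p.2‖ ≤ (‖v p.1 p.2‖ * ‖x‖) * ‖u p.1 p.2‖ :=
          mul_le_mul_of_nonneg_right (norm_inner_le_norm _ _) (norm_nonneg _)
      _ = _ := by ring

/-! ### approximation numbers -/

/-- `a_n(T) ≤ c (n+1)^(-a)`. -/
def App (T : H →L[ℂ] H) (c a : ℝ) : Prop :=
  ∀ n : ℕ, ∃ F : H →L[ℂ] H, Rk F n ∧ ‖T - F‖ ≤ c * ((n : ℝ) + 1) ^ (-a)

lemma App.norm_le {T : H →L[ℂ] H} {c a : ℝ} (h : App T c a) : ‖T‖ ≤ c := by
  obtain ⟨F, h1, h2⟩ := h 0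
  have h3 : F = 0 := by
    have h4 : Module.finrank ℂ (LinearMap.range (F : H →ₗ[ℂ] H)) = 0 := Nat.le_zero.1 h1.2
    haveI := h1.1
    have h5 := Submodule.finrank_eq_zero.1 h4
    ext x
    have : F x ∈ LinearMap.range (F : H →ₗ[ℂ] H) := ⟨x, rfl⟩
    rw [h5] at this
    simpa using this
  rw [h3] at h2
  simpa using h2

lemma App.nonneg {T : H →L[ℂ] H} {c a : ℝ} (h : App T c a) : 0 ≤ c := (norm_nonneg _).trans h.norm_le

lemma App.left {T : H →L[ℂ] H} {c a : ℝ} (h : App T c a) (A : H →L[ℂ] H) :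
    App (A ∘L T) (‖A‖ * c) a := by
  intro n
  obtain ⟨F, h1, h2⟩ := h n
  refine ⟨A ∘L F, h1.left A, ?_⟩
  rw [← ContinuousLinearMap.comp_sub, mul_assoc]
  exact (ContinuousLinearMap.opNorm_comp_le _ _).trans (mul_le_mul_of_nonneg_left h2 (norm_nonneg _))

lemma App.right {T : H →L[ℂ] H} {c a : ℝ} (h : App T c a) (A : H →L[ℂ] H) :
    App (T ∘L A) (c * ‖A‖) a := by
  intro n
  obtain ⟨F, h1, h2⟩ := h n
  refine ⟨F ∘L A, h1.right A, ?_⟩
  rw [← ContinuousLinearMap.sub_comp]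
  refine (ContinuousLinearMap.opNorm_comp_le _ _).trans ?_
  calc ‖T - F‖ * ‖A‖ ≤ (c * ((n : ℝ) + 1) ^ (-a)) * ‖A‖ :=
        mul_le_mul_of_nonneg_right h2 (norm_nonneg _)
    _ = _ := by ring

lemma App.mul {S T : H →L[ℂ] H} {c d a b : ℝ} (hS : App S c a) (hT : App T d b) (ha : 0 ≤ a)
    (hb : 0 ≤ b) : App (S ∘L T) (c * d * 2 ^ (a + b)) (a + b) := by
  intro n
  obtain ⟨F, h1, h2⟩ := hS (n / 2)
  obtain ⟨G, h3, h4⟩ := hT (n / 2)
  refine ⟨F ∘L T + (S - F) ∘L G, ((h1.right T).add (h3.left _)).mono (by omega), ?_⟩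
  have e : S ∘L T - (F ∘L T + (S - F) ∘L G) = (S - F) ∘L (T - G) := by
    ext x; simp; abel
  rw [e]
  refine (ContinuousLinearMap.opNorm_comp_le _ _).trans ?_
  have h5 : ((n : ℝ) + 1) / 2 ≤ ((n / 2 : ℕ) : ℝ) + 1 := by
    have : n ≤ 2 * (n / 2) + 1 := by omega
    have h6 : (n : ℝ) ≤ 2 * ((n / 2 : ℕ) : ℝ) + 1 := by exact_mod_cast this
    linarith
  have h7 : 0 < ((n : ℝ) + 1) / 2 := by positivity
  have h8 : ∀ t : ℝ, 0 ≤ t → (((n / 2 : ℕ) : ℝ) + 1) ^ (-t) ≤ 2 ^ t * ((n : ℝ) + 1) ^ (-t) := by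
    intro t ht
    have h9 := Real.rpow_le_rpow_of_nonpos h7 h5 (neg_nonpos.2 ht)
    refine h9.trans (le_of_eq ?_)
    rw [Real.div_rpow (by positivity) (by norm_num), Real.rpow_neg (by norm_num : (0:ℝ) ≤ 2) t,
      div_inv_eq_mul, mul_comm]
  calc ‖S - F‖ * ‖T - G‖ ≤ (c * (((n / 2 : ℕ) : ℝ) + 1) ^ (-a)) *
        (d * (((n / 2 : ℕ) : ℝ) + 1) ^ (-b)) :=
        mul_le_mul h2 h4 (norm_nonneg _) (mul_nonneg hS.nonneg (by positivity))
    _ ≤ (c * (2 ^ a * ((n : ℝ) + 1) ^ (-a))) * (d * (2 ^ b * ((n : ℝ) + 1) ^ (-b))) := by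
        refine mul_le_mul (mul_le_mul_of_nonneg_left (h8 a ha) hS.nonneg)
          (mul_le_mul_of_nonneg_left (h8 b hb) hT.nonneg) (mul_nonneg hT.nonneg (by positivity))
          (mul_nonneg hS.nonneg (by positivity))
    _ = c * d * 2 ^ (a + b) * ((n : ℝ) + 1) ^ (-(a + b)) := by
        rw [Real.rpow_add (by norm_num), neg_add, Real.rpow_add (by positivity)]
        ring

/-- `∑ 6 c 2^{k(1-p)}` -/
def nucC (p : ℝ) : ℝ := ∑' k : ℕ, 6 * ((2 : ℝ) ^ (1 - p)) ^ k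

lemma App.isNuc {T : H →L[ℂ] H} {c p : ℝ} (h : App T c p) (hp : 1 < p) :
    IsNuc T (c * nucC p) := by
  have hc := h.nonneg
  choose F hF1 hF2 using h
  have hF0 : F 0 = 0 := by
    have h4 : Module.finrank ℂ (LinearMap.range (F 0 : H →ₗ[ℂ] H)) = 0 := Nat.le_zero.1 (hF1 0).2
    haveI := (hF1 0).1
    have h5 := Submodule.finrank_eq_zero.1 h4
    ext x
    have : F 0 x ∈ LinearMap.range (F 0 : H →ₗ[ℂ] H) := ⟨x, rfl⟩
    rw [h5] at this
    simpa using this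
  set G : ℕ → H →L[ℂ] H := fun k => F (2 ^ k - 1) with hG
  have hG0 : G 0 = 0 := by simp [hG, hF0]
  have hnum : ∀ k : ℕ, (((2 ^ k - 1 : ℕ) : ℝ) + 1) = (2 : ℝ) ^ k := by
    intro k
    have : 1 ≤ 2 ^ k := Nat.one_le_two_pow
    push_cast [Nat.cast_sub this]
    ring
  have hGn : ∀ k, ‖T - G k‖ ≤ c * ((2 : ℝ) ^ (-p)) ^ k := by
    intro k
    refine (hF2 (2 ^ k - 1)).trans (le_of_eq ?_)
    rw [hnum, ← Real.rpow_natCast, ← Real.rpow_mul (by norm_num), ← Real.rpow_natCast,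
      ← Real.rpow_mul (by norm_num)]
    congr 2; ring
  have hr0 : (0 : ℝ) < 2 ^ (-p) := by positivity
  have hr1 : (2 : ℝ) ^ (-p) < 1 := Real.rpow_lt_one_of_one_lt_of_neg (by norm_num) (by linarith)
  have hq0 : (0 : ℝ) < 2 ^ (1 - p) := by positivity
  have hq1 : (2 : ℝ) ^ (1 - p) < 1 := Real.rpow_lt_one_of_one_lt_of_neg (by norm_num) (by linarith)
  have hlim : Tendsto G atTop (𝓝 T) := by
    rw [tendsto_iff_norm_sub_tendsto_zero]
    refine squeeze_zero (fun _ => norm_nonneg _) (fun k => ?_)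
      ((tendsto_pow_atTop_nhds_zero_of_lt_one hr0.le hr1).const_mul c |>.trans (by simp))
    rw [norm_sub_rev]; exact hGn k
  have hD : ∀ k, IsNuc (G (k + 1) - G k) (c * (6 * ((2 : ℝ) ^ (1 - p)) ^ k)) := by
    intro k
    have h1 : Rk (G (k + 1) - G k) (3 * 2 ^ k) := by
      refine ((hF1 _).sub (hF1 _)).mono ?_
      have : 2 ^ (k + 1) = 2 * 2 ^ k := by ring
      omega
    refine h1.isNuc.mono ?_
    have h2 : ‖G (k + 1) - G k‖ ≤ 2 * (c * ((2 : ℝ) ^ (-p)) ^ k) := by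
      have h3 : G (k + 1) - G k = (T - G k) - (T - G (k + 1)) := by abel
      rw [h3]
      refine (norm_sub_le _ _).trans ?_
      have h4 := hGn k
      have h5 := hGn (k + 1)
      have h6 : c * ((2 : ℝ) ^ (-p)) ^ (k + 1) ≤ c * ((2 : ℝ) ^ (-p)) ^ k := by
        refine mul_le_mul_of_nonneg_left ?_ hc
        exact pow_le_pow_of_le_one hr0.le hr1.le (Nat.le_succ k)
      linarith
    have h7 : (2 : ℝ) ^ k * ((2 : ℝ) ^ (-p)) ^ k = ((2 : ℝ) ^ (1 - p)) ^ k := by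
      rw [← mul_pow]
      congr 1
      rw [sub_eq_add_neg, Real.rpow_add (by norm_num), Real.rpow_one]
    push_cast
    calc (3 * 2 ^ k : ℝ) * ‖G (k + 1) - G k‖ ≤ (3 * 2 ^ k : ℝ) * (2 * (c * ((2 : ℝ) ^ (-p)) ^ k)) :=
          mul_le_mul_of_nonneg_left h2 (by positivity)
      _ = c * (6 * ((2 : ℝ) ^ k * ((2 : ℝ) ^ (-p)) ^ k)) := by ring
      _ = _ := by rw [h7]
  have hsum : Summable (fun k : ℕ => c * (6 * ((2 : ℝ) ^ (1 - p)) ^ k)) :=
    ((summable_geometric_of_lt_one hq0.le hq1).mul_left 6).mul_left c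
  have key := IsNuc.tsum (S := T) hD hsum ?_
  · refine key.mono (le_of_eq ?_)
    rw [tsum_mul_left]; rfl
  · intro x
    have hs : Summable (fun k => (G (k + 1) - G k) x) := by
      refine Summable.of_norm (Summable.of_nonneg_of_le (fun _ => norm_nonneg _) (fun k => ?_)
        (hsum.mul_right ‖x‖))
      refine ((G (k + 1) - G k).le_opNorm x).trans (mul_le_mul_of_nonneg_right ?_ (norm_nonneg _))
      have h3 : G (k + 1) - G k = (T - G k) - (T - G (k + 1)) := by abel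
      rw [h3]
      refine (norm_sub_le _ _).trans ?_
      have h4 := hGn k
      have h5 := hGn (k + 1)
      have h6 : ((2 : ℝ) ^ (-p)) ^ (k + 1) ≤ ((2 : ℝ) ^ (1 - p)) ^ k := by
        refine (pow_le_pow_of_le_one hr0.le hr1.le (Nat.le_succ k)).trans ?_
        exact pow_le_pow_left₀ hr0.le (Real.rpow_le_rpow_of_exponent_le (by norm_num) (by linarith)) k
      have h7 : ((2 : ℝ) ^ (-p)) ^ k ≤ ((2 : ℝ) ^ (1 - p)) ^ k :=
        pow_le_pow_left₀ hr0.le (Real.rpow_le_rpow_of_exponent_le (by norm_num) (by linarith)) k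
      have h8 : 0 ≤ ((2 : ℝ) ^ (1 - p)) ^ k := by positivity
      nlinarith [mul_le_mul_of_nonneg_left h6 hc, mul_le_mul_of_nonneg_left h7 hc,
        mul_nonneg hc h8]
    have h9 := hs.hasSum.tendsto_sum_nat
    have h10 : ∀ n, ∑ k ∈ Finset.range n, (G (k + 1) - G k) x = G n x := by
      intro n
      have := Finset.sum_range_sub (fun k => G k x) n
      simpa [hG0] using this
    simp only [h10] at h9
    have h11 : Tendsto (fun n => G n x) atTop (𝓝 (T x)) :=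
      ((ContinuousLinearMap.apply ℂ H x).continuous.tendsto T).comp hlim
    rw [← tendsto_nhds_unique h9 h11]
    exact hs.hasSum

end

end Crest.Agent.R235.RCTr_746
end

-- ▼ part R235/RCDefs_746

/-!
Row 235, block FAM/RC (helper746): THE EXACT HYPOTHESES AND THE OUTPUT of the resolvent-Chern formula.

All operators are bounded operators of a complex Hilbert space `H` (in the application
`H = L²(W⁺) ⊕ ℂ^N ⊕ L²(W⁻)`, `g = (1, 1, -1)`), `Y` is a skew-adjoint operator with `g Y g = - Y`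
(`Y = i A` or `Y = g A`, `A = [0 D*; D 0]`), `Y_θ = Y + V θ`.

* `Base g K`        : `K = (1 + Y)⁻¹`: `K + K* = 2 K K* = 2 K* K`, `g K g = K*`, `a_n(K) ≤ c (n+1)^(-1/4)`;
* `Cr K ε`, `Gr K ε`: `C_ε = (1 + ε Y)⁻¹ = K (ε + (1 - ε) K)⁻¹`, `G_ε = C_ε* C_ε = (1 - ε² Y²)⁻¹`;
* `Fam g K V b U`   : smooth bounded perturbation `V θ` (skew, odd), `∂_a V - b a` of rank `≤ r`,
                      `Y_{θ+e_j} = U_j Y_θ U_j⁻¹` in the form `K U - U K = K (V' U - U V) K`;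
* `KerF g K V P`    : `P θ` = smooth orthogonal projection onto `ker Y_θ = {u | K (1 - V θ) u = u}`, `g P = P`;
* `Inf g K b L`     : `b_a G_ε = G_ε b_a + ε G_ε Z`, `‖Z‖ ≤ c`, and
                      `ε⁴ tr (∑ sgn g b b b b G_ε⁴) → L` for `ε → 0+`;
* `RC`              : the output `ch4 tr P = L / 2`; `rc_of : STK → INF → RC`.
-/

set_option autoImplicit false

open scoped InnerProductSpace Topology ContDiff
open Filter Set Crest.Agent.R235.RCTr_746 Crest.Agent.R235.FamDefs_307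

namespace Crest.Agent.R235.RCDefs_746

noncomputable section

variable {H : Type*} [NormedAddCommGroup H] [InnerProductSpace ℂ H] [CompleteSpace H]

/-- `K = (1 + Y)⁻¹`, `Y` skew-adjoint with `g Y g = - Y`. -/
structure Base (g K : H →L[ℂ] H) : Prop where
  gg : g * g = 1
  gs : star g = g
  kk : K + star K = (2 : ℂ) • (K * star K)
  kk' : K + star K = (2 : ℂ) • (star K * K)
  gk : g * K * g = star K
  app : ∃ c, App K c (1 / 4)

/-- `C_ε = (1 + ε Y)⁻¹`. -/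
def Cr (K : H →L[ℂ] H) (ε : ℝ) : H →L[ℂ] H :=
  K * Ring.inverse ((ε : ℂ) • (1 : H →L[ℂ] H) + ((1 - ε : ℝ) : ℂ) • K)

/-- `G_ε = (1 - ε² Y²)⁻¹`. -/
def Gr (K : H →L[ℂ] H) (ε : ℝ) : H →L[ℂ] H := star (Cr K ε) * Cr K ε

/-- the family `Y_θ = Y + V θ`. -/
structure Fam (g K : H →L[ℂ] H) (V : (Fin 4 → ℝ) → H →L[ℂ] H) (b U : Fin 4 → H →L[ℂ] H) : Prop where
  smooth : ContDiff ℝ ∞ V
  gv : ∀ h, g * V h * g = - V h
  skew : ∀ h, star (V h) = - V h
  rk : ∃ r : ℕ, ∀ a h, Rk (pdθ a V h - b a) r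
  gu : ∀ j, g * U j = U j * g
  uu : ∀ j, star (U j) * U j = 1
  uu' : ∀ j, U j * star (U j) = 1
  per : ∀ j h, K * U j - U j * K = K * (V (h + Pi.single j 1) * U j - U j * V h) * K

/-- `P θ` is the orthogonal projection onto the kernel of `Y + V θ`, contained in `{g = 1}`. -/
structure KerF (g K : H →L[ℂ] H) (V P : (Fin 4 → ℝ) → H →L[ℂ] H) : Prop where
  smooth : ContDiff ℝ ∞ P
  idem : ∀ h, P h * P h = P h
  sa : ∀ h, star (P h) = P h
  gp : ∀ h, g * P h = P h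
  ker : ∀ h, K * (1 - V h) * P h = P h
  ker' : ∀ h u, K ((1 - V h) u) = u → P h u = u

/-- the symbol hypotheses for `ε → 0`. -/
structure Inf (g K : H →L[ℂ] H) (b : Fin 4 → H →L[ℂ] H) (L : ℂ) : Prop where
  com : ∀ a, ∃ c : ℝ, ∀ ε : ℝ, 0 < ε → ε ≤ 1 → ∃ Z : H →L[ℂ] H, ‖Z‖ ≤ c ∧
    b a * Gr K ε = Gr K ε * b a + (ε : ℂ) • (Gr K ε * Z)
  weyl : Tendsto (fun ε : ℝ => (ε : ℂ) ^ 4 * RCTr_746.tr
    ((∑ σ : Equiv.Perm (Fin 4), sg σ • (g * b (σ 0) * b (σ 1) * b (σ 2) * b (σ 3))) * (Gr K ε) ^ 4))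
    (𝓝[>] 0) (𝓝 L)

/-- `(1 + ε (Y + W))⁻¹` for a bounded `W`. -/
def Cf (K W : H →L[ℂ] H) (ε : ℝ) : H →L[ℂ] H :=
  K * Ring.inverse ((ε : ℂ) • (1 : H →L[ℂ] H) + ((1 - ε : ℝ) : ℂ) • K + (ε : ℂ) • (W * K))

/-- the density `ε⁴ ∑ sgn tr (g C V₁ G V₂ G V₃ G V₄ C)` at `h`, `C = (1 + ε Y_h)⁻¹`, `G = C* C`. -/
def dens (g K : H →L[ℂ] H) (V : (Fin 4 → ℝ) → H →L[ℂ] H) (ε : ℝ) (h : Fin 4 → ℝ) : ℂ :=
  (ε : ℂ) ^ 4 * ∑ σ : Equiv.Perm (Fin 4), sg σ * RCTr_746.tr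
    (g * Cf K (V h) ε * pdθ (σ 0) V h * (star (Cf K (V h) ε) * Cf K (V h) ε) *
      pdθ (σ 1) V h * (star (Cf K (V h) ε) * Cf K (V h) ε) *
      pdθ (σ 2) V h * (star (Cf K (V h) ε) * Cf K (V h) ε) * pdθ (σ 3) V h * Cf K (V h) ε)

/-- **THE OUTPUT**. -/
def RC : Prop :=
  ∀ (H : Type) [NormedAddCommGroup H] [InnerProductSpace ℂ H] [CompleteSpace H]
    (g K : H →L[ℂ] H) (V P : (Fin 4 → ℝ) → H →L[ℂ] H) (b U : Fin 4 → H →L[ℂ] H) (L : ℂ),
    Base g K → Fam g K V b U → KerF g K V P → Inf g K b L →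
    (∀ h, ∃ c, IsNuc (P h) c) ∧ (∀ j h, P (h + Pi.single j 1) * U j = U j * P h) ∧
    ch4 RCTr_746.tr P = L / 2

/-- half 1 (Stokes and `ε → ∞`). -/
def STK : Prop :=
  ∀ (H : Type) [NormedAddCommGroup H] [InnerProductSpace ℂ H] [CompleteSpace H]
    (g K : H →L[ℂ] H) (V P : (Fin 4 → ℝ) → H →L[ℂ] H) (b U : Fin 4 → H →L[ℂ] H),
    Base g K → Fam g K V b U → KerF g K V P →
    (∀ h, ∃ c, IsNuc (P h) c) ∧ (∀ j h, P (h + Pi.single j 1) * U j = U j * P h) ∧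
    ∀ ε : ℝ, 0 < ε → ch4 RCTr_746.tr P = (1 / 2) * ∫ h in Icc (0 : Fin 4 → ℝ) 1, dens g K V ε h

/-- half 2 (`ε → 0`). -/
def INF : Prop :=
  ∀ (H : Type) [NormedAddCommGroup H] [InnerProductSpace ℂ H] [CompleteSpace H]
    (g K : H →L[ℂ] H) (V : (Fin 4 → ℝ) → H →L[ℂ] H) (b U : Fin 4 → H →L[ℂ] H) (L : ℂ),
    Base g K → Fam g K V b U → Inf g K b L →
    Tendsto (fun ε : ℝ => ∫ h in Icc (0 : Fin 4 → ℝ) 1, dens g K V ε h) (𝓝[>] 0) (𝓝 L)

theorem rc_of (h1 : STK) (h2 : INF) : RC := by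
  intro H _ _ _ g K V P b U L hB hF hP hI
  obtain ⟨a1, a2, a3⟩ := h1 H g K V P b U hB hF hP
  refine ⟨a1, a2, ?_⟩
  have h3 := h2 H g K V b U L hB hF hI
  have h4 : Tendsto (fun _ : ℝ => ch4 RCTr_746.tr P) (𝓝[>] 0) (𝓝 ((1 / 2) * L)) := by
    refine (h3.const_mul (1 / 2)).congr' ?_
    filter_upwards [self_mem_nhdsWithin] with ε hε
    exact (a3 ε hε).symm
  rw [tendsto_nhds_unique tendsto_const_nhds h4]
  ring

end

end Crest.Agent.R235.RCDefs_746
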