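import Crest.Agent.R235.RCSt_746
import Crest.Agent.R235.RCDefs_746

-- ▼ part R235/RCRes_746
section

/-!
Row 235, block FAM/RC (helper746), RC3: RESOLVENT ALGEBRA with bounded operators.
`R = (d + Y + V + P)⁻¹`, `C = P + d R (1 - P) = d (d + Y + V)⁻¹`, `(g (2 C - 1))² = 1`.
-/

set_option autoImplicit false
set_option maxSynthPendingDepth 3
set_option linter.unusedSectionVars false

open scoped InnerProductSpace Topology ContDiff
open Filter Set MeasureTheory Crest.Agent.R235.RCTr_746 Crest.Agent.R235.RCDefs_746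
open Crest.Agent.R235.RCSt_746

namespace Crest.Agent.R235.RCRes_746

noncomputable section

variable {H : Type*} [NormedAddCommGroup H] [InnerProductSpace ℂ H] [CompleteSpace H]

local notation "⟪" x ", " y "⟫" => inner ℂ x y

/-! ### compactness -/

lemma Rk.compact {F : H →L[ℂ] H} {n : ℕ} (hF : Rk F n) : IsCompactOperator F := by
  have := hF.1
  set S := LinearMap.range (F : H →ₗ[ℂ] H) with hS
  let F' : H →L[ℂ] S := F.codRestrict S (fun x => ⟨x, rfl⟩)
  have h1 : IsCompactOperator F' := isCompactOperator_of_locallyCompactSpace_dom F'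
  have h2 := h1.clm_comp S.subtypeL
  exact h2

lemma Ap.compact {T : H →L[ℂ] H} {a : ℝ} (hT : Ap T a) (ha : 0 < a) : IsCompactOperator T := by
  obtain ⟨c, hc⟩ := hT
  choose F hF1 hF2 using hc
  have hlim : Tendsto F atTop (𝓝 T) := by
    rw [tendsto_iff_norm_sub_tendsto_zero]
    have h1 : Tendsto (fun n : ℕ => c * ((n : ℝ) + 1) ^ (-a)) atTop (𝓝 0) := by
      have h2 : Tendsto (fun n : ℕ => ((n : ℝ) + 1) ^ (-a)) atTop (𝓝 0) :=
        (tendsto_rpow_neg_atTop ha).comp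
          (tendsto_atTop_add_const_right _ _ tendsto_natCast_atTop_atTop)
      simpa using h2.const_mul c
    refine squeeze_zero (fun _ => norm_nonneg _) (fun n => ?_) h1
    rw [norm_sub_rev]; exact hF2 n
  exact isCompactOperator_of_tendsto hlim (Eventually.of_forall fun n => Rk.compact (hF1 n))

lemma unit_of_inj {K : H →L[ℂ] H} (hK : Ap K (1 / 4)) (W : H →L[ℂ] H)
    (h : ∀ w, w + W (K w) = 0 → w = 0) : IsUnit (1 + W * K) := by
  have h1 : IsCompactOperator (W * K : H →L[ℂ] H) := by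
    have := Ap.compact (hK.left W) (by norm_num)
    exact this
  rcases h1.hasEigenvalue_or_mem_resolventSet (μ := (-1 : ℂ)) (by norm_num) with h2 | h2
  · exfalso
    obtain ⟨v, hv⟩ := h2.exists_hasEigenvector
    have h3 : W (K v) = (-1 : ℂ) • v := hv.apply_eq_smul
    refine hv.2 (h v ?_)
    rw [h3]; simp
  · rw [spectrum.mem_resolventSet_iff] at h2
    have e : (algebraMap ℂ (H →L[ℂ] H)) (-1) - W * K = -(1 + W * K) := by
      rw [map_neg, map_one]; abel
    rw [e, IsUnit.neg_iff] at h2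
    exact h2

/-! ### one operator -/

/-- pointwise data. -/
structure Pt (g K V P : H →L[ℂ] H) : Prop where
  base : Base g K
  gv : g * V * g = - V
  skew : star V = - V
  idem : P * P = P
  sa : star P = P
  gp : g * P = P
  ker : K * (1 - V) * P = P
  ker' : ∀ u, K ((1 - V) u) = u → P u = u

variable {g K V P : H →L[ℂ] H}

lemma re_inner (hB : Base g K) (w : H) : (⟪w, K w⟫).re = ‖K w‖ ^ 2 := by
  have h1 := congrArg (fun T : H →L[ℂ] H => ⟪w, T w⟫) hB.kk'
  have h2 : ⟪w, (star K) w⟫ = (starRingEnd ℂ) ⟪w, K w⟫ := by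
    rw [ContinuousLinearMap.star_eq_adjoint, ContinuousLinearMap.adjoint_inner_right,
      inner_conj_symm]
  have h3 : ⟪w, (star K * K) w⟫ = ((‖K w‖ ^ 2 : ℝ) : ℂ) := by
    show ⟪w, (star K) (K w)⟫ = _
    rw [ContinuousLinearMap.star_eq_adjoint, ContinuousLinearMap.adjoint_inner_right,
      inner_self_eq_norm_sq_to_K]
    push_cast; rfl
  simp only [_root_.add_apply, inner_add_right, _root_.smul_apply, inner_smul_right] at h1
  rw [h2, h3] at h1
  have h4 := congrArg Complex.re h1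
  simp only [Complex.add_re, Complex.conj_re, Complex.mul_re, Complex.re_ofNat, Complex.im_ofNat,
    Complex.ofReal_re, Complex.ofReal_im] at h4
  linarith

lemma skew_re (hV : star V = - V) (u : H) : (⟪V u, u⟫).re = 0 := by
  have h2 : ⟪V u, u⟫ = - (starRingEnd ℂ) ⟪V u, u⟫ := by
    have h1 : ⟪V u, u⟫ = ⟪u, (star V) u⟫ := by
      rw [ContinuousLinearMap.star_eq_adjoint, ContinuousLinearMap.adjoint_inner_right]
    rw [inner_conj_symm]
    conv_lhs => rw [h1, hV]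
    simp
  have h3 := congrArg Complex.re h2
  simp only [Complex.neg_re, Complex.conj_re] at h3
  linarith

lemma proj_re (hi : P * P = P) (hs : star P = P) (u : H) : (⟪P u, u⟫).re = ‖P u‖ ^ 2 := by
  have h1 : ⟪P u, u⟫ = ⟪P u, P u⟫ := by
    have h2 : ⟪P u, P u⟫ = ⟪P (P u), u⟫ := by
      conv_rhs => rw [← hs]
      rw [ContinuousLinearMap.star_eq_adjoint, ContinuousLinearMap.adjoint_inner_left]
      rw [← ContinuousLinearMap.star_eq_adjoint, hs]
    rw [h2]
    have h3 : P (P u) = P u := congrArg (fun T : H →L[ℂ] H => T u) hi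
    rw [h3]
  rw [h1, inner_self_eq_norm_sq_to_K]
  norm_cast

/-- `W = d - 1 + V + P`. -/
def WW (V P : H →L[ℂ] H) (d : ℝ) : H →L[ℂ] H := (d - 1) • 1 + V + P

/-- `R = (d + Y + V + P)⁻¹`. -/
def RR (K V P : H →L[ℂ] H) (d : ℝ) : H →L[ℂ] H := K * Ring.inverse (1 + WW V P d * K)

/-- `C = d (d + Y + V)⁻¹`. -/
def CC (K V P : H →L[ℂ] H) (d : ℝ) : H →L[ℂ] H := P + d • (RR K V P d * (1 - P))

lemma Pt.unitX (h : Pt g K V P) {d : ℝ} (hd : 0 ≤ d) : IsUnit (1 + WW V P d * K) := by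
  refine unit_of_inj h.base.app _ fun w hw => ?_
  set u := K w with hu
  have h1 : w = -(WW V P d u) := eq_neg_of_add_eq_zero_left hw
  have h2 := re_inner h.base w
  rw [← hu] at h2
  have h3 : (⟪w, u⟫).re = -((d - 1) * ‖u‖ ^ 2) - ‖P u‖ ^ 2 := by
    rw [h1]
    simp only [WW, _root_.add_apply, _root_.smul_apply, inner_neg_left,
      inner_add_left, Complex.neg_re, Complex.add_re, skew_re h.skew, proj_re h.idem h.sa]
    have h4 : (⟪(d - 1) • (1 : H →L[ℂ] H) u, u⟫).re = (d - 1) * ‖u‖ ^ 2 := by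
      have h5 : (d - 1) • (1 : H →L[ℂ] H) u = ((d - 1 : ℝ) : ℂ) • u := by
        rw [one_apply_eq_self]; exact (Complex.coe_smul _ _).symm
      rw [h5, inner_smul_left, inner_self_eq_norm_sq_to_K, Complex.conj_ofReal]
      have h6 : (((d - 1 : ℝ) : ℂ) * ((‖u‖ : ℂ)) ^ 2) = (((d - 1) * ‖u‖ ^ 2 : ℝ) : ℂ) := by
        push_cast; ring
      exact (congrArg Complex.re h6).trans (Complex.ofReal_re _)
    rw [h4]; ring
  rw [h3] at h2
  have h4 : d * ‖u‖ ^ 2 + ‖P u‖ ^ 2 = 0 := by linarith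
  have h5 : 0 ≤ d * ‖u‖ ^ 2 := by positivity
  have h6 : ‖P u‖ ^ 2 = 0 := by nlinarith [sq_nonneg ‖P u‖]
  have h7 : P u = 0 := by simpa using h6
  have h8 : d * ‖u‖ ^ 2 = 0 := by linarith
  have h9 : u = 0 := by
    rcases mul_eq_zero.1 h8 with h9 | h9
    · have h10 : w = (1 - V) u := by
        rw [h1]
        simp only [WW, h9, _root_.add_apply, _root_.smul_apply, h7, _root_.sub_apply,
          one_apply_eq_self]
        simp
        abel
      have h11 : K ((1 - V) u) = u := by rw [← h10]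
      rw [← h.ker' u h11, h7]
    · simpa using h9
  rw [h1, h9, map_zero, neg_zero]

lemma unitN (hB : Base g K) (hV : star V = - V) {d : ℝ} (hd : 0 < d) :
    IsUnit (1 + ((d - 1) • 1 + V) * K) := by
  refine unit_of_inj hB.app _ fun w hw => ?_
  set u := K w with hu
  have h1 : w = -(((d - 1) • (1 : H →L[ℂ] H) + V) u) := eq_neg_of_add_eq_zero_left hw
  have h2 := re_inner hB w
  rw [← hu] at h2
  have h3 : (⟪w, u⟫).re = -((d - 1) * ‖u‖ ^ 2) := by
    rw [h1]
    simp only [_root_.add_apply, _root_.smul_apply, inner_neg_left,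
      inner_add_left, Complex.neg_re, Complex.add_re, skew_re hV]
    have h4 : (⟪(d - 1) • (1 : H →L[ℂ] H) u, u⟫).re = (d - 1) * ‖u‖ ^ 2 := by
      have h5 : (d - 1) • (1 : H →L[ℂ] H) u = ((d - 1 : ℝ) : ℂ) • u := by
        rw [one_apply_eq_self]; exact (Complex.coe_smul _ _).symm
      rw [h5, inner_smul_left, inner_self_eq_norm_sq_to_K, Complex.conj_ofReal]
      have h6 : (((d - 1 : ℝ) : ℂ) * ((‖u‖ : ℂ)) ^ 2) = (((d - 1) * ‖u‖ ^ 2 : ℝ) : ℂ) := by
        push_cast; ring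
      exact (congrArg Complex.re h6).trans (Complex.ofReal_re _)
    rw [h4]; ring
  rw [h3] at h2
  have h4 : d * ‖u‖ ^ 2 = 0 := by linarith
  have h9 : u = 0 := by
    rcases mul_eq_zero.1 h4 with h9 | h9
    · exact absurd h9 hd.ne'
    · simpa using h9
  rw [h1, h9, map_zero, neg_zero]

/-! ### algebra -/

lemma R_mul {d : ℝ} (hu : IsUnit (1 + WW V P d * K)) :
    RR K V P d * (1 + WW V P d * K) = K := by
  unfold RR
  rw [mul_assoc, Ring.inverse_mul_cancel _ hu, mul_one]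

lemma R_one {d : ℝ} (hu : IsUnit (1 + WW V P d * K)) :
    RR K V P d + RR K V P d * WW V P d * K = K := by
  have := R_mul (V := V) (P := P) hu
  rw [mul_add, mul_one, ← mul_assoc] at this
  exact this

lemma R_two {d : ℝ} (hu : IsUnit (1 + WW V P d * K)) :
    RR K V P d + K * WW V P d * RR K V P d = K := by
  unfold RR
  calc K * Ring.inverse (1 + WW V P d * K) + K * WW V P d * (K * Ring.inverse (1 + WW V P d * K))
      = K * ((1 + WW V P d * K) * Ring.inverse (1 + WW V P d * K)) := by noncomm_ring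
    _ = K := by rw [Ring.mul_inverse_cancel _ hu, mul_one]

lemma Pt.pg (h : Pt g K V P) : P * g = P := by
  have h1 := congrArg star h.gp
  rwa [star_mul, h.base.gs, h.sa] at h1

lemma Pt.pvk (h : Pt g K V P) : P * (1 - V) * K = P := by
  have h1 := congrArg star h.ker
  simp only [star_mul, star_sub, star_one, h.skew, h.sa] at h1
  -- h1 : P * ((1 - -V) * star K) = P
  have h2 : g * star K * g = K := by
    rw [← h.base.gk]
    calc g * (g * K * g) * g = (g * g) * K * (g * g) := by noncomm_ring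
      _ = K := by rw [h.base.gg]; noncomm_ring
  have h3 : g * (1 + V) * g = 1 - V := by
    calc g * (1 + V) * g = g * g + g * V * g := by noncomm_ring
      _ = 1 - V := by rw [h.base.gg, h.gv]; noncomm_ring
  calc P * (1 - V) * K = P * (g * (1 + V) * g) * (g * star K * g) := by rw [h2, h3]
    _ = (P * g) * (1 + V) * (g * g) * star K * g := by noncomm_ring
    _ = (P * ((1 - -V) * star K)) * g := by rw [h.pg, h.base.gg]; noncomm_ring
    _ = P := by rw [h1, h.pg]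

lemma Pt.RP (h : Pt g K V P) {d : ℝ} (hd : 0 ≤ d) : (1 + d) • (RR K V P d * P) = P := by
  have hu := h.unitX hd
  have h1 := R_mul (V := V) (P := P) hu
  have e0 : K * ((1 - V) * P) = P := by rw [← mul_assoc]; exact h.ker
  have e1 : (1 + WW V P d * K) * ((1 - V) * P) = (1 + d) • P := by
    calc (1 + WW V P d * K) * ((1 - V) * P) = (1 - V) * P + WW V P d * (K * ((1 - V) * P)) := by
          noncomm_ring
      _ = (1 - V) * P + WW V P d * P := by rw [e0]
      _ = (1 + d) • P := by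
          simp only [WW, add_mul, sub_mul, one_mul, smul_mul_assoc, h.idem]
          module
  calc (1 + d) • (RR K V P d * P) = RR K V P d * ((1 + d) • P) := by rw [mul_smul_comm]
    _ = (RR K V P d * (1 + WW V P d * K)) * ((1 - V) * P) := by rw [← e1, mul_assoc]
    _ = P := by rw [h1, e0]

lemma Pt.PR (h : Pt g K V P) {d : ℝ} (hd : 0 ≤ d) : (1 + d) • (P * RR K V P d) = P := by
  have hu := h.unitX hd
  have h1 := R_two (V := V) (P := P) hu
  have e1 : P * (1 - V) * (1 + K * WW V P d) = (1 + d) • P := by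
    calc P * (1 - V) * (1 + K * WW V P d) = P * (1 - V) + P * (1 - V) * K * WW V P d := by
          noncomm_ring
      _ = P * (1 - V) + P * WW V P d := by rw [h.pvk]
      _ = (1 + d) • P := by
          simp only [WW, mul_add, mul_sub, mul_one, mul_smul_comm, h.idem]
          module
  calc (1 + d) • (P * RR K V P d) = ((1 + d) • P) * RR K V P d := by rw [smul_mul_assoc]
    _ = P * (1 - V) * (RR K V P d + K * WW V P d * RR K V P d) := by rw [← e1]; noncomm_ring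
    _ = P := by rw [h1, h.pvk]

lemma Pt.comm (h : Pt g K V P) {d : ℝ} (hd : 0 ≤ d) : RR K V P d * P = P * RR K V P d := by
  have h1 := h.RP hd
  have h2 := h.PR hd
  have h3 : (1 + d) ≠ 0 := by positivity
  exact smul_right_injective _ h3 (by simp only; rw [h1, h2])

lemma Pt.PRQ (h : Pt g K V P) {d : ℝ} (hd : 0 ≤ d) : P * RR K V P d * (1 - P) = 0 := by
  rw [← h.comm hd, mul_assoc, mul_sub, mul_one, h.idem, sub_self, mul_zero]

lemma Pt.CC_eq (h : Pt g K V P) {d : ℝ} (hd : 0 ≤ d) :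
    CC K V P d = d • RR K V P d + (1 + d)⁻¹ • P := by
  have h3 : (1 + d) ≠ 0 := by positivity
  have h4 : RR K V P d * P = (1 + d)⁻¹ • P := by
    rw [eq_inv_smul_iff₀ h3]; exact h.RP hd
  have h5 : P = (1 + d) • (1 + d)⁻¹ • P := by rw [smul_inv_smul₀ h3]
  unfold CC
  rw [mul_sub, mul_one, h4]
  conv_lhs => enter [1]; rw [h5]
  module

/-- `C (1 + (d - 1 + V) K) = d K`. -/
lemma Pt.CN (h : Pt g K V P) {d : ℝ} (hd : 0 ≤ d) :
    CC K V P d * (1 + ((d - 1) • 1 + V) * K) = d • K := by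
  have hu := h.unitX hd
  have h1 := R_mul (V := V) (P := P) hu
  have h2 : P * V * K = P * K - P := by
    have := h.pvk
    have e : P * (1 - V) * K = P * K - P * V * K := by noncomm_ring
    rw [e] at this
    calc P * V * K = P * K - (P * K - P * V * K) := by abel
      _ = P * K - P := by rw [this]
  have e1 : P * (1 + ((d - 1) • 1 + V) * K) = d • (P * K) := by
    have e : P * (1 + ((d - 1) • 1 + V) * K) = P + (d - 1) • (P * K) + P * V * K := by
      simp only [mul_add, add_mul, mul_one, one_mul, smul_mul_assoc, mul_smul_comm, mul_assoc,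
        ← add_assoc]
    rw [e, h2]; module
  have e2 : (1 + ((d - 1) • 1 + V) * K) = (1 + WW V P d * K) - P * K := by
    simp only [WW, add_mul]; abel
  have e3 : RR K V P d * (1 + ((d - 1) • 1 + V) * K) = K - RR K V P d * P * K := by
    rw [e2, mul_sub, h1, ← mul_assoc]
  have e4 : (1 + d) • (RR K V P d * P * K) = P * K := by
    rw [← smul_mul_assoc, h.RP hd]
  have e5 : RR K V P d * P * (1 + ((d - 1) • 1 + V) * K) = d • (RR K V P d * P * K) := by
    rw [mul_assoc, e1, mul_smul_comm, mul_assoc]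
  have e6 : CC K V P d * (1 + ((d - 1) • 1 + V) * K) = P * (1 + ((d - 1) • 1 + V) * K) +
      d • (RR K V P d * (1 + ((d - 1) • 1 + V) * K) -
        RR K V P d * P * (1 + ((d - 1) • 1 + V) * K)) := by
    have e7 : ∀ Z : H →L[ℂ] H, RR K V P d * (1 - P) * Z = RR K V P d * Z - RR K V P d * P * Z :=
      fun Z => by rw [mul_sub, mul_one, sub_mul]
    unfold CC
    rw [add_mul, smul_mul_assoc, e7]
  rw [e6, e1, e3, e5, ← e4]
  module

/-- `g R g`. -/
def RT (g K V P : H →L[ℂ] H) (d : ℝ) : H →L[ℂ] H := g * RR K V P d * g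

/-- `g W g`. -/
def WT (V P : H →L[ℂ] H) (d : ℝ) : H →L[ℂ] H := (d - 1) • 1 - V + P

lemma Pt.gPg (h : Pt g K V P) : g * P * g = P := by rw [h.gp, h.pg]

lemma Pt.gWg (h : Pt g K V P) (d : ℝ) : g * WW V P d * g = WT V P d := by
  unfold WW WT
  have e : g * ((d - 1) • 1 + V + P) * g = (d - 1) • (g * g) + g * V * g + g * P * g := by
    simp only [mul_add, add_mul, mul_smul_comm, smul_mul_assoc, mul_one]
  rw [e, h.base.gg, h.gv, h.gPg]
  abel

/-- conjugation by `g` is multiplicative. -/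
lemma gconj (hg : g * g = 1) (A B : H →L[ℂ] H) : g * (A * B) * g = (g * A * g) * (g * B * g) := by
  calc g * (A * B) * g = g * A * 1 * B * g := by noncomm_ring
    _ = g * A * (g * g) * B * g := by rw [hg]
    _ = _ := by noncomm_ring

lemma gconj' (hg : g * g = 1) (A : H →L[ℂ] H) : g * (g * A * g) * g = A := by
  calc g * (g * A * g) * g = (g * g) * A * (g * g) := by noncomm_ring
    _ = A := by rw [hg]; noncomm_ring

lemma Pt.RT_one (h : Pt g K V P) {d : ℝ} (hd : 0 ≤ d) :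
    RT g K V P d + RT g K V P d * WT V P d * star K = star K := by
  have h1 := congrArg (fun T => g * T * g) (R_one (V := V) (P := P) (h.unitX hd))
  simp only [mul_add, add_mul] at h1
  rw [gconj h.base.gg, gconj h.base.gg, h.gWg, h.base.gk] at h1
  exact h1


/-- `star R = g R g`. -/
lemma Pt.star_R (h : Pt g K V P) {d : ℝ} (hd : 0 ≤ d) : star (RR K V P d) = RT g K V P d := by
  have h1 := congrArg star (R_mul (V := V) (P := P) (h.unitX hd))
  have hW : star (WW V P d) = WT V P d := by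
    unfold WW WT
    rw [star_add, star_add, star_smul, star_one, h.skew, h.sa]
    simp only [star_trivial]
    abel
  rw [star_mul, star_add, star_one, star_mul, hW] at h1
  have h2 := h.RT_one hd
  calc star (RR K V P d) = 1 * star (RR K V P d) := by rw [one_mul]
    _ = ((1 - RT g K V P d * WT V P d) * (1 + star K * WT V P d)) * star (RR K V P d) := by
        congr 1
        have e : (1 - RT g K V P d * WT V P d) * (1 + star K * WT V P d) =
          1 + (star K - (RT g K V P d + RT g K V P d * WT V P d * star K)) * WT V P d := by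
          noncomm_ring
        rw [e, h2]; noncomm_ring
    _ = (1 - RT g K V P d * WT V P d) * ((1 + star K * WT V P d) * star (RR K V P d)) := by
        rw [mul_assoc]
    _ = (1 - RT g K V P d * WT V P d) * star K := by rw [h1]
    _ = star K - RT g K V P d * WT V P d * star K := by noncomm_ring
    _ = RT g K V P d := by nth_rewrite 1 [← h2]; abel

/-- `R + R' = R' (2 + W + W') R`. -/
lemma Pt.sum (h : Pt g K V P) {d : ℝ} (hd : 0 ≤ d) :
    RR K V P d + RT g K V P d =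
      (2 : ℝ) • (RT g K V P d * (d • 1 + P) * RR K V P d) := by
  have h1 := h.RT_one hd
  have h2 := R_two (V := V) (P := P) (h.unitX hd)
  have h3 := h.base.kk'
  have k2 : (2 : ℂ) • (star K * K) = star K * K + star K * K := two_smul _ _
  rw [k2] at h3
  have e1 : (1 - RT g K V P d * WT V P d) * star K = RT g K V P d := by
    calc (1 - RT g K V P d * WT V P d) * star K = star K - RT g K V P d * WT V P d * star K := by
          rw [sub_mul, one_mul]
      _ = (RT g K V P d + RT g K V P d * WT V P d * star K) -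
          RT g K V P d * WT V P d * star K := by rw [h1]
      _ = RT g K V P d := by abel
  have e2 : K * (1 - WW V P d * RR K V P d) = RR K V P d := by
    calc K * (1 - WW V P d * RR K V P d) = K - K * WW V P d * RR K V P d := by
          rw [mul_sub, mul_one, mul_assoc]
      _ = (RR K V P d + K * WW V P d * RR K V P d) - K * WW V P d * RR K V P d := by rw [h2]
      _ = RR K V P d := by abel
  have key : (1 - RT g K V P d * WT V P d) * RR K V P d + RT g K V P d *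
      (1 - WW V P d * RR K V P d) = RT g K V P d * RR K V P d + RT g K V P d * RR K V P d := by
    have e3 := congrArg (fun T => (1 - RT g K V P d * WT V P d) * T *
      (1 - WW V P d * RR K V P d)) h3
    calc (1 - RT g K V P d * WT V P d) * RR K V P d + RT g K V P d * (1 - WW V P d * RR K V P d)
        = (1 - RT g K V P d * WT V P d) * (K * (1 - WW V P d * RR K V P d)) +
          ((1 - RT g K V P d * WT V P d) * star K) * (1 - WW V P d * RR K V P d) := by
          rw [e1, e2]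
      _ = (1 - RT g K V P d * WT V P d) * (K + star K) * (1 - WW V P d * RR K V P d) := by
          noncomm_ring
      _ = (1 - RT g K V P d * WT V P d) * (star K * K + star K * K) *
          (1 - WW V P d * RR K V P d) := e3
      _ = ((1 - RT g K V P d * WT V P d) * star K) * (K * (1 - WW V P d * RR K V P d)) +
          ((1 - RT g K V P d * WT V P d) * star K) * (K * (1 - WW V P d * RR K V P d)) := by
          noncomm_ring
      _ = _ := by rw [e1, e2]
  have e4 : RR K V P d + RT g K V P d = (1 - RT g K V P d * WT V P d) * RR K V P d +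
      RT g K V P d * (1 - WW V P d * RR K V P d) +
      RT g K V P d * (WT V P d + WW V P d) * RR K V P d := by noncomm_ring
  have e5 : WT V P d + WW V P d = (2 : ℝ) • ((d - 1) • (1 : H →L[ℂ] H) + P) := by
    unfold WT WW; module
  rw [e4, key, e5]
  simp only [mul_add, add_mul, mul_smul_comm, smul_mul_assoc, mul_one]
  module

/-- `C' = g C g`. -/
def CT (g K V P : H →L[ℂ] H) (d : ℝ) : H →L[ℂ] H := P + d • (RT g K V P d * (1 - P))

lemma Pt.gCg (h : Pt g K V P) (d : ℝ) : g * CC K V P d * g = CT g K V P d := by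
  unfold CC CT
  have e : g * (P + d • (RR K V P d * (1 - P))) * g =
      g * P * g + d • (g * (RR K V P d * (1 - P)) * g) := by
    simp only [mul_add, add_mul, mul_smul_comm, smul_mul_assoc]
  have e2 : g * (1 - P) * g = 1 - P := by
    rw [mul_sub, sub_mul, h.gPg, mul_one, h.base.gg]
  rw [e, h.gPg, gconj h.base.gg, e2, RT]

lemma Pt.commT (h : Pt g K V P) {d : ℝ} (hd : 0 ≤ d) :
    RT g K V P d * P = P * RT g K V P d := by
  unfold RT
  calc g * RR K V P d * g * P = g * (RR K V P d * P) := by rw [mul_assoc, h.gp, mul_assoc]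
    _ = (g * P) * RR K V P d := by rw [h.comm hd, mul_assoc]
    _ = P * RR K V P d := by rw [h.gp]
    _ = RR K V P d * P := by rw [h.comm hd]
    _ = RR K V P d * (P * g) := by rw [h.pg]
    _ = (P * RR K V P d) * g := by rw [← mul_assoc, h.comm hd]
    _ = ((P * g) * RR K V P d) * g := by rw [h.pg]
    _ = P * (g * RR K V P d * g) := by noncomm_ring

lemma Pt.star_CC (h : Pt g K V P) {d : ℝ} (hd : 0 ≤ d) : star (CC K V P d) = CT g K V P d := by
  unfold CC CT
  rw [star_add, star_smul, star_mul, star_sub, star_one, h.sa, h.star_R hd, star_trivial,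
    mul_sub, sub_mul, mul_one, one_mul, h.commT hd]

lemma Pt.CTC (h : Pt g K V P) {d : ℝ} (hd : 0 ≤ d) :
    CC K V P d + CT g K V P d = (2 : ℝ) • (CT g K V P d * CC K V P d) := by
  have h1 := h.sum hd
  have h2 := h.PRQ hd
  have e1 : (RR K V P d + RT g K V P d) * (1 - P) =
      (2 * d) • (RT g K V P d * RR K V P d * (1 - P)) := by
    rw [h1]
    have e : (2 : ℝ) • (RT g K V P d * (d • 1 + P) * RR K V P d) * (1 - P) =
        (2 * d) • (RT g K V P d * RR K V P d * (1 - P)) +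
        (2 : ℝ) • (RT g K V P d * (P * RR K V P d * (1 - P))) := by
      simp only [mul_add, add_mul, mul_smul_comm, smul_mul_assoc, mul_one, mul_assoc]
      module
    rw [e, h2, mul_zero, smul_zero, add_zero]
  have e2 : (1 - P) * P = 0 := by rw [sub_mul, one_mul, h.idem, sub_self]
  have e3 : (1 - P) * RR K V P d * (1 - P) = RR K V P d * (1 - P) := by
    have : (1 - P) * RR K V P d * (1 - P) = RR K V P d * (1 - P) - P * RR K V P d * (1 - P) := by
      rw [sub_mul, one_mul, sub_mul]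
    rw [this, h2, sub_zero]
  have e4 : CT g K V P d * CC K V P d = P + (d * d) • (RT g K V P d * RR K V P d * (1 - P)) := by
    unfold CT CC
    have e : (P + d • (RT g K V P d * (1 - P))) * (P + d • (RR K V P d * (1 - P))) =
        P * P + d • (P * RR K V P d * (1 - P)) + d • (RT g K V P d * ((1 - P) * P)) +
        (d * d) • (RT g K V P d * ((1 - P) * RR K V P d * (1 - P))) := by
      simp only [mul_add, add_mul, mul_smul_comm, smul_mul_assoc, mul_assoc, smul_add, smul_smul]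
      abel
    rw [e, h2, e2, e3, h.idem, mul_zero, smul_zero, add_zero, add_zero, mul_assoc]
  have e5 : CC K V P d + CT g K V P d = (2 : ℝ) • P +
      d • ((RR K V P d + RT g K V P d) * (1 - P)) := by
    unfold CC CT
    rw [add_mul]; module
  rw [e4, e5, e1]
  module

lemma Pt.FF (h : Pt g K V P) {d : ℝ} (hd : 0 ≤ d) :
    (g * ((2 : ℝ) • CC K V P d - 1)) * (g * ((2 : ℝ) • CC K V P d - 1)) = 1 := by
  have h1 := h.CTC hd
  have e : (g * ((2 : ℝ) • CC K V P d - 1)) * (g * ((2 : ℝ) • CC K V P d - 1)) =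
      (4 : ℝ) • ((g * CC K V P d * g) * CC K V P d) - (2 : ℝ) • (g * CC K V P d * g) -
      (2 : ℝ) • ((g * g) * CC K V P d) + g * g := by
    simp only [mul_sub, sub_mul, mul_smul_comm, smul_mul_assoc, mul_one, mul_assoc]
    module
  rw [e, h.gCg, h.base.gg, one_mul]
  have e2 : (4 : ℝ) • (CT g K V P d * CC K V P d) =
      (2 : ℝ) • (CC K V P d + CT g K V P d) := by rw [h1]; module
  rw [e2]
  module

/-! ### nuclearity of the projection -/

lemma ap_proj {T P : H →L[ℂ] H} (hT : Ap T (1 / 4)) (h : T * P = P) : Ap P (5 / 4) := by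
  have h2 : Ap (T * T) (1 / 2) := by
    have := hT.mul hT (by norm_num) (by norm_num)
    norm_num at this; simpa using this
  have h4 : Ap (T * T * (T * T)) 1 := by
    have := h2.mul h2 (by norm_num) (by norm_num)
    norm_num at this; simpa using this
  have h5 : Ap (T * T * (T * T) * T) (5 / 4) := by
    have := h4.mul hT (by norm_num) (by norm_num)
    norm_num at this; simpa using this
  have e : T * T * (T * T) * T * P = P := by
    calc T * T * (T * T) * T * P = T * (T * (T * (T * (T * P)))) := by noncomm_ring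
      _ = P := by rw [h, h, h, h, h]
  rw [← e]
  exact h5.right P

lemma Pt.apP (h : Pt g K V P) : Ap P (5 / 4) := by
  refine ap_proj (T := K * (1 - V)) ?_ h.ker
  exact Ap.right h.base.app _

/-! ### unitaries -/

lemma inter {V V' P P' U : H →L[ℂ] H} (hper : K * U - U * K = K * (V' * U - U * V) * K)
    (hk : K * (1 - V) * P = P) (hk' : ∀ u, K ((1 - V') u) = u → P' u = u) :
    P' * (U * P) = U * P := by
  have h1 := congrArg (fun T => T * ((1 - V) * P)) hper
  have h0 : K * ((1 - V) * P) = P := by rw [← mul_assoc]; exact hk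
  have h2 : K * ((1 - V') * (U * P)) = U * P := by
    have e1 : (K * U - U * K) * ((1 - V) * P) = K * (U * ((1 - V) * P)) - U * P := by
      rw [sub_mul, mul_assoc, mul_assoc, h0]
    have e2 : K * (V' * U - U * V) * K * ((1 - V) * P) = K * ((V' * U - U * V) * P) := by
      rw [mul_assoc, h0, mul_assoc]
    rw [e1, e2] at h1
    calc K * ((1 - V') * (U * P)) = K * (U * ((1 - V) * P)) - K * ((V' * U - U * V) * P) := by
          noncomm_ring
      _ = K * (U * ((1 - V) * P)) - (K * (U * ((1 - V) * P)) - U * P) := by rw [h1]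
      _ = U * P := by abel
  ext u
  exact hk' _ (congrArg (fun T : H →L[ℂ] H => T u) h2)

lemma per_star {V V' U : H →L[ℂ] H} (hB : Base g K) (hU : g * U = U * g) (hV : g * V * g = -V)
    (hV' : g * V' * g = -V') (sV : star V = -V) (sV' : star V' = -V')
    (hper : K * U - U * K = K * (V' * U - U * V) * K) :
    K * star U - star U * K = K * (V * star U - star U * V') * K := by
  have h1 := congrArg star hper
  simp only [star_sub, star_mul, sV, sV'] at h1
  -- h1 : star U * star K - star K * star U = star K * ((star U * -V' - -V * star U) * star K)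
  have h2 := congrArg (fun T => g * T * g) h1
  have hU' : star U * g = g * star U := by
    have := congrArg star hU
    rwa [star_mul, star_mul, hB.gs] at this
  have gU : g * star U * g = star U := by
    rw [← hU', mul_assoc, hB.gg, mul_one]
  have gK : g * star K * g = K := by rw [← hB.gk]; exact gconj' hB.gg K
  simp only [mul_sub, sub_mul] at h2
  rw [gconj hB.gg, gconj hB.gg (star K) (star U), gU, gK] at h2
  have e1 : g * (star K * (star U * -V' * star K)) * g = K * (star U * V') * K := by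
    rw [gconj hB.gg, gconj hB.gg, gconj hB.gg, gK, gU]
    have : g * -V' * g = V' := by
      rw [mul_neg, neg_mul, hV', neg_neg]
    rw [this]; noncomm_ring
  have e2 : g * (star K * (-V * star U * star K)) * g = K * (V * star U) * K := by
    rw [gconj hB.gg, gconj hB.gg, gconj hB.gg, gK, gU]
    have : g * -V * g = V := by
      rw [mul_neg, neg_mul, hV, neg_neg]
    rw [this]; noncomm_ring
  rw [e1, e2] at h2
  have h3 := congrArg (fun T => -T) h2
  simp only [neg_sub] at h3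
  rw [h3, mul_sub, sub_mul]

lemma inter_eq {V V' P P' U : H →L[ℂ] H} (h : Pt g K V P) (h' : Pt g K V' P')
    (hU : g * U = U * g) (hper : K * U - U * K = K * (V' * U - U * V) * K) : P' * U = U * P := by
  have h1 := inter hper h.ker h'.ker'
  have h2 := inter (per_star h.base hU h.gv h'.gv h.skew h'.skew hper) h'.ker h.ker'
  have h3 := congrArg star h2
  simp only [star_mul, star_star, h.sa, h'.sa] at h3
  -- h3 : P' * U * P = P' * U
  rw [← h3, ← h1]
  noncomm_ring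

lemma inter_R {V V' P P' U : H →L[ℂ] H} (h : Pt g K V P) (h' : Pt g K V' P')
    (hU : g * U = U * g) (hper : K * U - U * K = K * (V' * U - U * V) * K) {d : ℝ} (hd : 0 ≤ d) :
    RR K V' P' d * U = U * RR K V P d := by
  have hp := inter_eq h h' hU hper
  have hw : WW V' P' d * U - U * WW V P d = V' * U - U * V := by
    unfold WW
    simp only [add_mul, mul_add, smul_mul_assoc, mul_smul_comm, one_mul, mul_one, hp]
    abel
  rw [← hw] at hper
  set W := WW V P d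
  set W' := WW V' P' d
  set R := RR K V P d
  set R' := RR K V' P' d
  have r1 : R + R * W * K = K := R_one (h.unitX hd)
  have r2' : R' + K * W' * R' = K := R_two (h'.unitX hd)
  have r1' : R' + R' * W' * K = K := R_one (h'.unitX hd)
  have r2 : R + K * W * R = K := R_two (h.unitX hd)
  have hper' : K * (W' * U - U * W) * K = K * U - U * K := hper.symm
  have a1 : (1 - R' * W') * K = R' := by
    rw [sub_mul, one_mul]; nth_rewrite 1 [← r1']; abel
  have a2 : K * (1 - W * R) = R := by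
    rw [mul_sub, mul_one, ← mul_assoc]; nth_rewrite 1 [← r2]; abel
  have e : (1 - R' * W') * (K * U - U * K) * (1 - W * R) =
      (1 - R' * W') * (K * (W' * U - U * W) * K) * (1 - W * R) := by rw [hper']
  have e1 : (1 - R' * W') * (K * U - U * K) * (1 - W * R) =
      R' * U * (1 - W * R) - (1 - R' * W') * U * R := by
    calc (1 - R' * W') * (K * U - U * K) * (1 - W * R) =
          ((1 - R' * W') * K) * U * (1 - W * R) - (1 - R' * W') * U * (K * (1 - W * R)) := by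
          noncomm_ring
      _ = _ := by rw [a1, a2]
  have e2 : (1 - R' * W') * (K * (W' * U - U * W) * K) * (1 - W * R) =
      R' * (W' * U - U * W) * R := by
    calc (1 - R' * W') * (K * (W' * U - U * W) * K) * (1 - W * R) =
          ((1 - R' * W') * K) * (W' * U - U * W) * (K * (1 - W * R)) := by noncomm_ring
      _ = _ := by rw [a1, a2]
  rw [e1, e2] at e
  have e3 : R' * U - U * R = (R' * U * (1 - W * R) - (1 - R' * W') * U * R) -
      R' * (W' * U - U * W) * R := by noncomm_ring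
  rw [e, sub_self] at e3
  exact sub_eq_zero.1 e3

lemma inter_C {V V' P P' U : H →L[ℂ] H} (h : Pt g K V P) (h' : Pt g K V' P')
    (hU : g * U = U * g) (hper : K * U - U * K = K * (V' * U - U * V) * K) {d : ℝ} (hd : 0 ≤ d) :
    CC K V' P' d * U = U * CC K V P d := by
  have hp := inter_eq h h' hU hper
  have hr := inter_R h h' hU hper hd
  unfold CC
  rw [add_mul, mul_add, hp, smul_mul_assoc, mul_smul_comm]
  congr 2
  calc RR K V' P' d * (1 - P') * U = RR K V' P' d * (U - P' * U) := by noncomm_ring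
    _ = RR K V' P' d * U * (1 - P) := by rw [hp]; noncomm_ring
    _ = U * (RR K V P d * (1 - P)) := by rw [hr, mul_assoc]

end

end Crest.Agent.R235.RCRes_746
end

-- ▼ part R235/RCStk_746
section

/-!
Row 235, block FAM/RC (helper746): THE HALF `STK`:
`ch4 tr P = (1/2) ∫_cube dens g K V ε` for every `ε > 0`.
-/

set_option autoImplicit false
set_option maxSynthPendingDepth 3
set_option linter.unusedSectionVars false

open scoped InnerProductSpace Topology ContDiff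
open Filter Set MeasureTheory Crest.Agent.R235.RCTr_746 Crest.Agent.R235.RCDefs_746
open Crest.Agent.R235.RCSt_746 Crest.Agent.R235.RCRes_746
open Crest.Agent.R235.FamDefs_307 (pdθ sg ch4)
open Crest.Agent.R235.TorF_692 (S)

namespace Crest.Agent.R235.RCStk_746

noncomputable section

variable {H : Type*} [NormedAddCommGroup H] [InnerProductSpace ℂ H] [CompleteSpace H]

variable {g K : H →L[ℂ] H} {V P : (Fin 4 → ℝ) → H →L[ℂ] H} {b U : Fin 4 → H →L[ℂ] H}

lemma pt (hB : Base g K) (hF : Fam g K V b U) (hP : KerF g K V P) (h : Fin 4 → ℝ) :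
    Pt g K (V h) (P h) :=
  ⟨hB, hF.gv h, hF.skew h, hP.idem h, hP.sa h, hP.gp h, hP.ker h, hP.ker' h⟩

/-- the resolvent family. -/
def Rx (K : H →L[ℂ] H) (V P : (Fin 4 → ℝ) → H →L[ℂ] H) (x : ℝ × (Fin 4 → ℝ)) : H →L[ℂ] H :=
  RR K (V x.2) (P x.2) (x.1 ^ 2)

/-- the family `C`. -/
def Cx (K : H →L[ℂ] H) (V P : (Fin 4 → ℝ) → H →L[ℂ] H) (x : ℝ × (Fin 4 → ℝ)) : H →L[ℂ] H :=
  CC K (V x.2) (P x.2) (x.1 ^ 2)

/-- the family of involutions. -/
def Fx (g K : H →L[ℂ] H) (V P : (Fin 4 → ℝ) → H →L[ℂ] H) (x : ℝ × (Fin 4 → ℝ)) : H →L[ℂ] H :=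
  g * ((2 : ℝ) • Cx K V P x - 1)

/-- the operator `W`. -/
def Wx (V P : (Fin 4 → ℝ) → H →L[ℂ] H) (x : ℝ × (Fin 4 → ℝ)) : H →L[ℂ] H :=
  WW (V x.2) (P x.2) (x.1 ^ 2)

section smooth

variable (hB : Base g K) (hF : Fam g K V b U) (hP : KerF g K V P)
include hB hF hP

lemma smooth_V2 : ContDiff ℝ ∞ fun x : ℝ × (Fin 4 → ℝ) => V x.2 := hF.smooth.comp contDiff_snd

lemma smooth_P2 : ContDiff ℝ ∞ fun x : ℝ × (Fin 4 → ℝ) => P x.2 := hP.smooth.comp contDiff_snd

lemma smooth_W : ContDiff ℝ ∞ (Wx V P) := by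
  unfold Wx WW
  exact ((((contDiff_fst.pow 2).sub contDiff_const).smul contDiff_const).add
    (smooth_V2 hB hF hP)).add (smooth_P2 hB hF hP)

lemma smooth_R : ContDiff ℝ ∞ (Rx K V P) := by
  unfold Rx RR
  refine contDiff_const.mul ?_
  rw [contDiff_iff_contDiffAt]
  intro x
  obtain ⟨u, hu⟩ := (pt hB hF hP x.2).unitX (sq_nonneg x.1)
  have h := contDiffAt_ringInverse (n := ∞) ℝ u
  rw [hu] at h
  have h2 : ContDiff ℝ ∞ fun x : ℝ × (Fin 4 → ℝ) => 1 + Wx V P x * K :=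
    contDiff_const.add ((smooth_W hB hF hP).mul contDiff_const)
  exact h.comp x h2.contDiffAt

lemma smooth_C : ContDiff ℝ ∞ (Cx K V P) := by
  unfold Cx CC
  exact (smooth_P2 hB hF hP).add ((contDiff_fst.pow 2).smul
    ((smooth_R hB hF hP).mul (contDiff_const.sub (smooth_P2 hB hF hP))))

lemma smooth_F : ContDiff ℝ ∞ (Fx g K V P) := by
  unfold Fx
  exact contDiff_const.mul (((smooth_C hB hF hP).const_smul (2 : ℝ)).sub contDiff_const)

lemma smooth_Va (a : Fin 4) : ContDiff ℝ ∞ fun x : ℝ × (Fin 4 → ℝ) => pdθ a V x.2 := by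
  have h : ContDiff ℝ ∞ (D (Pi.single a 1 : Fin 4 → ℝ) V) := D_smooth hF.smooth _
  exact h.comp contDiff_snd

end smooth

lemma D_va {W : Type*} [NormedAddCommGroup W] [NormedSpace ℝ W] {f : ℝ × (Fin 4 → ℝ) → W}
    (hf : ContDiff ℝ ∞ f) (a : Fin 4) (x : ℝ × (Fin 4 → ℝ)) :
    D (va a) f x = D (Pi.single a 1 : Fin 4 → ℝ) (fun h => f (x.1, h)) x.2 := by
  have h7 : HasFDerivAt (fun y : Fin 4 → ℝ => (x.1, y))
      ((0 : (Fin 4 → ℝ) →L[ℝ] ℝ).prod (ContinuousLinearMap.id ℝ (Fin 4 → ℝ))) x.2 :=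
    (hasFDerivAt_const x.1 x.2).prodMk (hasFDerivAt_id x.2)
  have h8 := (hasD hf (x.1, x.2)).comp x.2 h7
  have h9 : HasFDerivAt (fun y : Fin 4 → ℝ => f (x.1, y)) _ x.2 := h8
  unfold D
  rw [h9.fderiv]
  rfl

lemma D_add {X W : Type*} [NormedAddCommGroup X] [NormedSpace ℝ X] [NormedAddCommGroup W]
    [NormedSpace ℝ W] {f f' : X → W} (hf : ContDiff ℝ ∞ f) (hf' : ContDiff ℝ ∞ f') (v x : X) :
    D v (fun x => f x + f' x) x = D v f x + D v f' x := by
  have := (hasD hf x).add (hasD hf' x)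
  have h2 : HasFDerivAt (fun x => f x + f' x) _ x := this
  unfold D
  rw [h2.fderiv]; rfl

/-- `g V_a g = - V_a`. -/
lemma gVa (hF : Fam g K V b U) (a : Fin 4) (h : Fin 4 → ℝ) :
    g * pdθ a V h * g = - pdθ a V h := by
  have h1 : (fun h => g * V h * g) = fun h => (-1 : H →L[ℂ] H) * V h := by
    funext h; rw [hF.gv h]; simp
  have h2 : ContDiff ℝ ∞ fun h => g * V h := contDiff_const.mul hF.smooth
  have h3 := D_mul h2 (contDiff_const (c := g)) (Pi.single a 1 : Fin 4 → ℝ) h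
  rw [D_mul contDiff_const hF.smooth, D_const, h1, D_mul contDiff_const hF.smooth,
    D_const] at h3
  have h4 : D (Pi.single a 1 : Fin 4 → ℝ) V h = pdθ a V h := rfl
  rw [h4] at h3
  simp only [zero_mul, zero_add, mul_zero, add_zero] at h3
  rw [← h3]; simp

section main

variable (hB : Base g K) (hF : Fam g K V b U) (hP : KerF g K V P)
include hB hF hP

lemma PVaP (a : Fin 4) (h : Fin 4 → ℝ) : P h * pdθ a V h * P h = 0 := by
  have hp := pt hB hF hP h
  have h1 : P h * pdθ a V h * P h = -(P h * pdθ a V h * P h) := by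
    calc P h * pdθ a V h * P h = (P h * g) * pdθ a V h * (g * P h) := by rw [hp.pg, hp.gp]
      _ = P h * (g * pdθ a V h * g) * P h := by noncomm_ring
      _ = -(P h * pdθ a V h * P h) := by rw [gVa hF]; noncomm_ring
  have h2 : (2 : ℝ) • (P h * pdθ a V h * P h) = 0 := by
    rw [two_smul]; nth_rewrite 1 [h1]; abel
  simpa using h2

/-- the derivative of `C`, multiplied by `d`. -/
lemma dC (a : Fin 4) (x : ℝ × (Fin 4 → ℝ)) (hx : x.1 ≠ 0) :
    (x.1 ^ 2) • D (va a) (Cx K V P) x = -(Cx K V P x * pdθ a V x.2 * Cx K V P x) := by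
  set d := x.1 ^ 2 with hd
  have hd0 : 0 < d := by positivity
  have hC := smooth_C hB hF hP
  have hCs : ContDiff ℝ ∞ fun h : Fin 4 → ℝ => Cx K V P (x.1, h) :=
    hC.comp (contDiff_const.prodMk contDiff_id)
  set e : Fin 4 → ℝ := Pi.single a 1 with he
  have hY : ContDiff ℝ ∞ fun h : Fin 4 → ℝ => (1 + (d - 1) • K) + V h * K :=
    contDiff_const.add (hF.smooth.mul contDiff_const)
  have h1 : (fun h : Fin 4 → ℝ => Cx K V P (x.1, h) * ((1 + (d - 1) • K) + V h * K)) =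
      fun _ => d • K := by
    funext h
    have := (pt hB hF hP h).CN hd0.le
    rw [← this]
    show CC K (V h) (P h) d * _ = _
    congr 1
    simp only [add_mul, smul_mul_assoc, one_mul]
    abel
  have h2 := D_mul hCs hY e x.2
  rw [h1, D_const, D_add contDiff_const (hF.smooth.mul contDiff_const), D_const,
    D_mul hF.smooth contDiff_const, D_const, mul_zero, add_zero, zero_add] at h2
  rw [D_va hC a x, ← he]
  have h3 : IsUnit (1 + ((d - 1) • 1 + V x.2) * K) := unitN hB (hF.skew _) hd0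
  have h4 : (1 + (d - 1) • K) + V x.2 * K = 1 + ((d - 1) • 1 + V x.2) * K := by
    simp only [add_mul, smul_mul_assoc, one_mul]; abel
  rw [h4] at h2
  have h5 := (pt hB hF hP x.2).CN hd0.le
  have h6 : (d • D e (fun h => Cx K V P (x.1, h)) x.2 +
      Cx K V P x * pdθ a V x.2 * Cx K V P x) * (1 + ((d - 1) • 1 + V x.2) * K) = 0 := by
    have h7 : Cx K V P x * (1 + ((d - 1) • 1 + V x.2) * K) = d • K := h5
    rw [add_mul, smul_mul_assoc, mul_assoc (Cx K V P x * pdθ a V x.2), h7, mul_smul_comm,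
      ← smul_add]
    have h8 : D e (fun h => Cx K V P (x.1, h)) x.2 * (1 + ((d - 1) • 1 + V x.2) * K) +
        Cx K V P x * pdθ a V x.2 * K = 0 := by
      rw [h2, mul_assoc]
      rfl
    rw [h8, smul_zero]
  have h7 := (h3.mul_left_eq_zero).1 h6
  exact eq_neg_of_add_eq_zero_left h7

/-- the derivative of `C` in terms of `R`. -/
def EE (K : H →L[ℂ] H) (V P : (Fin 4 → ℝ) → H →L[ℂ] H) (a : Fin 4) (x : ℝ × (Fin 4 → ℝ)) :
    H →L[ℂ] H :=
  -((x.1 ^ 2) • (Rx K V P x * pdθ a V x.2 * Rx K V P x)) -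
    (1 + x.1 ^ 2)⁻¹ • (Rx K V P x * pdθ a V x.2 * P x.2 + P x.2 * pdθ a V x.2 * Rx K V P x)

lemma cont_inv : ContDiff ℝ ∞ fun x : ℝ × (Fin 4 → ℝ) => (1 + x.1 ^ 2)⁻¹ := by
  refine ContDiff.inv (contDiff_const.add (contDiff_fst.pow 2)) fun x => ?_
  positivity

lemma smooth_EE (a : Fin 4) : ContDiff ℝ ∞ (EE K V P a) := by
  unfold EE
  have hR := smooth_R hB hF hP
  have hV := smooth_Va hB hF hP a
  have hP2 := smooth_P2 hB hF hP
  exact ((contDiff_fst.pow 2).smul ((hR.mul hV).mul hR)).neg.sub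
    ((cont_inv hB hF hP).smul (((hR.mul hV).mul hP2).add ((hP2.mul hV).mul hR)))

lemma DC_eq (a : Fin 4) (x : ℝ × (Fin 4 → ℝ)) : D (va a) (Cx K V P) x = EE K V P a x := by
  have h1 : Continuous (D (va a) (Cx K V P)) := (D_smooth (smooth_C hB hF hP) _).continuous
  have h2 : Continuous (EE K V P a) := (smooth_EE hB hF hP a).continuous
  have hd : Dense {x : ℝ × (Fin 4 → ℝ) | x.1 ≠ 0} := by
    have : Dense ({0}ᶜ : Set ℝ) := dense_compl_singleton 0
    exact this.preimage isOpenMap_fst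
  have h3 : EqOn (D (va a) (Cx K V P)) (EE K V P a) {x : ℝ × (Fin 4 → ℝ) | x.1 ≠ 0} := by
    intro x hx
    have hx : x.1 ≠ 0 := hx
    have h4 := dC hB hF hP a x hx
    set d := x.1 ^ 2 with hdd
    have hd0 : 0 < d := by positivity
    have h5 : Cx K V P x = d • Rx K V P x + (1 + d)⁻¹ • P x.2 :=
      (pt hB hF hP x.2).CC_eq hd0.le
    have h6 := PVaP hB hF hP a x.2
    have h7 : D (va a) (Cx K V P) x = d⁻¹ • (-(Cx K V P x * pdθ a V x.2 * Cx K V P x)) := by
      rw [← h4, inv_smul_smul₀ hd0.ne']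
    rw [h7, h5]
    have h8 : (d • Rx K V P x + (1 + d)⁻¹ • P x.2) * pdθ a V x.2 *
        (d • Rx K V P x + (1 + d)⁻¹ • P x.2) =
        (d * d) • (Rx K V P x * pdθ a V x.2 * Rx K V P x) + (d * (1 + d)⁻¹) •
        (Rx K V P x * pdθ a V x.2 * P x.2 + P x.2 * pdθ a V x.2 * Rx K V P x) +
        ((1 + d)⁻¹ * (1 + d)⁻¹) • (P x.2 * pdθ a V x.2 * P x.2) := by
      simp only [mul_add, add_mul, mul_smul_comm, smul_mul_assoc, smul_smul, smul_add]
      rw [mul_comm (1 + d)⁻¹ d]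
      abel
    rw [h8, h6, smul_zero, add_zero]
    unfold EE
    rw [← hdd, smul_neg, smul_add, smul_smul, smul_smul]
    have e1 : d⁻¹ * (d * d) = d := by field_simp
    have e2 : d⁻¹ * (d * (1 + d)⁻¹) = (1 + d)⁻¹ := by field_simp
    rw [e1, e2]
    abel
  exact congrFun (Continuous.ext_on hd h1 h2 h3) x

/-- the middle factor. -/
def MM (g K : H →L[ℂ] H) (V P : (Fin 4 → ℝ) → H →L[ℂ] H) (a : Fin 4) (x : ℝ × (Fin 4 → ℝ)) :
    H →L[ℂ] H :=
  (2 : ℝ) • (((2 : ℝ) • star K - 1) * g *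
    (-((x.1 ^ 2) • ((1 - Wx V P x * Rx K V P x) * pdθ a V x.2 * (1 - Rx K V P x * Wx V P x))) -
    (1 + x.1 ^ 2)⁻¹ • ((1 - Wx V P x * Rx K V P x) * pdθ a V x.2 * (P x.2 * (1 - V x.2)) +
      ((1 - V x.2) * P x.2) * pdθ a V x.2 * (1 - Rx K V P x * Wx V P x))))

lemma smooth_MM (a : Fin 4) : ContDiff ℝ ∞ (MM g K V P a) := by
  unfold MM
  have hR := smooth_R hB hF hP
  have hV := smooth_Va hB hF hP a
  have hP2 := smooth_P2 hB hF hP
  have hV2 := smooth_V2 hB hF hP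
  have hW := smooth_W hB hF hP
  have h1 : ContDiff ℝ ∞ fun x => 1 - Wx V P x * Rx K V P x := contDiff_const.sub (hW.mul hR)
  have h2 : ContDiff ℝ ∞ fun x => 1 - Rx K V P x * Wx V P x := contDiff_const.sub (hR.mul hW)
  have h3 : ContDiff ℝ ∞ fun x : ℝ × (Fin 4 → ℝ) => 1 - V x.2 := contDiff_const.sub hV2
  refine ContDiff.const_smul (2 : ℝ) (contDiff_const.mul ?_)
  exact ((contDiff_fst.pow 2).smul ((h1.mul hV).mul h2)).neg.sub
    ((cont_inv hB hF hP).smul (((h1.mul hV).mul (hP2.mul h3)).add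
      (((h3.mul hP2).mul hV).mul h2)))

lemma DF_eq (a : Fin 4) (x : ℝ × (Fin 4 → ℝ)) :
    D (va a) (Fx g K V P) x = (2 : ℝ) • (g * D (va a) (Cx K V P) x) := by
  have hC := smooth_C hB hF hP
  have e : Fx g K V P = fun x => ((2 : ℝ) • g) * Cx K V P x + -g := by
    funext x
    unfold Fx
    rw [mul_sub, mul_smul_comm, smul_mul_assoc, mul_one]; abel
  rw [e, D_add (contDiff_const.mul hC) contDiff_const, D_mul contDiff_const hC, D_const, D_const]
  simp only [zero_mul, zero_add, add_zero, smul_mul_assoc]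

lemma DF_sand (a : Fin 4) (x : ℝ × (Fin 4 → ℝ)) :
    D (va a) (Fx g K V P) x = K * MM g K V P a x * K := by
  rw [DF_eq hB hF hP, DC_eq hB hF hP]
  have hp := pt hB hF hP x.2
  have hu := hp.unitX (sq_nonneg x.1)
  have r1 : (1 - Rx K V P x * Wx V P x) * K = Rx K V P x := by
    have := R_one (V := V x.2) (P := P x.2) hu
    show (1 - RR K (V x.2) (P x.2) (x.1 ^ 2) * WW (V x.2) (P x.2) (x.1 ^ 2)) * K = _
    rw [sub_mul, one_mul]; nth_rewrite 1 [← this]; unfold Rx; abel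
  have r2 : K * (1 - Wx V P x * Rx K V P x) = Rx K V P x := by
    have := R_two (V := V x.2) (P := P x.2) hu
    show K * (1 - WW (V x.2) (P x.2) (x.1 ^ 2) * RR K (V x.2) (P x.2) (x.1 ^ 2)) = _
    rw [mul_sub, mul_one, ← mul_assoc]; nth_rewrite 1 [← this]; unfold Rx; abel
  have r3 : K * ((1 - V x.2) * P x.2) = P x.2 := by rw [← mul_assoc]; exact hp.ker
  have r4 : P x.2 * (1 - V x.2) * K = P x.2 := hp.pvk
  have k1 : K * ((2 : ℝ) • star K - 1) = star K := by
    have := hB.kk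
    have e2 : (2 : ℂ) • (K * star K) = (2 : ℝ) • (K * star K) := by
      rw [two_smul, two_smul]
    rw [e2] at this
    rw [mul_sub, mul_one, mul_smul_comm, ← this]; abel
  have k2 : K * (((2 : ℝ) • star K - 1) * g) = g * K := by
    rw [← mul_assoc, k1, ← hB.gk]
    calc g * K * g * g = g * K * (g * g) := by noncomm_ring
      _ = g * K := by rw [hB.gg, mul_one]
  have key : ∀ Z : H →L[ℂ] H, K * ((2 : ℝ) • (((2 : ℝ) • star K - 1) * g * Z)) * K =
      (2 : ℝ) • (g * (K * Z * K)) := by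
    intro Z
    rw [mul_smul_comm, smul_mul_assoc]
    congr 1
    calc K * (((2 : ℝ) • star K - 1) * g * Z) * K = (K * (((2 : ℝ) • star K - 1) * g)) * Z * K := by
          noncomm_ring
      _ = g * (K * Z * K) := by rw [k2]; noncomm_ring
  unfold MM
  rw [key]
  congr 2
  unfold EE
  have key2 : ∀ (X Y1 Y2 : H →L[ℂ] H) (d c : ℝ), K * (-(d • X) - c • (Y1 + Y2)) * K =
      -(d • (K * X * K)) - c • (K * Y1 * K + K * Y2 * K) := by
    intro X Y1 Y2 d c
    simp only [mul_sub, sub_mul, mul_neg, neg_mul, mul_smul_comm, smul_mul_assoc, mul_add, add_mul,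
      smul_add]
  rw [key2]
  have t1 : K * ((1 - Wx V P x * Rx K V P x) * pdθ a V x.2 * (1 - Rx K V P x * Wx V P x)) * K =
      Rx K V P x * pdθ a V x.2 * Rx K V P x := by
    calc _ = (K * (1 - Wx V P x * Rx K V P x)) * pdθ a V x.2 *
          ((1 - Rx K V P x * Wx V P x) * K) := by noncomm_ring
      _ = _ := by rw [r1, r2]
  have t2 : K * ((1 - Wx V P x * Rx K V P x) * pdθ a V x.2 * (P x.2 * (1 - V x.2))) * K =
      Rx K V P x * pdθ a V x.2 * P x.2 := by
    calc _ = (K * (1 - Wx V P x * Rx K V P x)) * pdθ a V x.2 * (P x.2 * (1 - V x.2) * K) := by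
          noncomm_ring
      _ = _ := by rw [r2, r4]
  have t3 : K * (((1 - V x.2) * P x.2) * pdθ a V x.2 * (1 - Rx K V P x * Wx V P x)) * K =
      P x.2 * pdθ a V x.2 * Rx K V P x := by
    calc _ = (K * ((1 - V x.2) * P x.2)) * pdθ a V x.2 *
          ((1 - Rx K V P x * Wx V P x) * K) := by noncomm_ring
      _ = _ := by rw [r1, r3]
  rw [t1, t2, t3]

/-- the Stokes data. -/
lemma sd : SD K (Fx g K V P) (MM g K V P) U (fun j => star (U j)) where
  hK := hB.app
  hF := smooth_F hB hF hP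
  hM := smooth_MM hB hF hP
  hFM := DF_sand hB hF hP
  hFF x := (pt hB hF hP x.2).FF (sq_nonneg x.1)
  hU := hF.uu
  hU' := hF.uu'
  per j x := by
    have h1 : (x + va j).1 = x.1 := by simp [va]
    have h2 : (x + va j).2 = x.2 + Pi.single j 1 := by simp [va]
    have h3 := inter_C (pt hB hF hP x.2) (pt hB hF hP (x.2 + Pi.single j 1)) (hF.gu j)
      (hF.per j x.2) (sq_nonneg x.1)
    unfold Fx Cx
    rw [h1, h2]
    set C' := CC K (V (x.2 + Pi.single j 1)) (P (x.2 + Pi.single j 1)) (x.1 ^ 2)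
    set C := CC K (V x.2) (P x.2) (x.1 ^ 2)
    calc g * ((2 : ℝ) • C' - 1) * U j = g * ((2 : ℝ) • (C' * U j) - U j) := by
          rw [mul_assoc, sub_mul, one_mul, smul_mul_assoc]
      _ = (g * U j) * ((2 : ℝ) • C - 1) := by
          rw [h3, mul_assoc]
          congr 1
          rw [mul_sub, mul_one, mul_smul_comm]
      _ = U j * (g * ((2 : ℝ) • C - 1)) := by rw [hF.gu, mul_assoc]

omit hF in
lemma gPa (a : Fin 4) (h : Fin 4 → ℝ) : g * pdθ a P h = pdθ a P h := by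
  have h1 : (fun h => g * P h) = P := funext hP.gp
  have h2 := D_mul (contDiff_const (c := g)) hP.smooth (Pi.single a 1 : Fin 4 → ℝ) h
  rw [h1, D_const, zero_mul, zero_add] at h2
  exact h2.symm

lemma Cx_zero (h : Fin 4 → ℝ) : Cx K V P (0, h) = P h := by
  unfold Cx CC
  simp

lemma D_zero (a : Fin 4) (h : Fin 4 → ℝ) :
    D (va a) (Fx g K V P) (0, h) = (2 : ℝ) • pdθ a P h := by
  rw [DF_eq hB hF hP, D_va (smooth_C hB hF hP)]
  have e : (fun h' : Fin 4 → ℝ => Cx K V P ((0 : ℝ × (Fin 4 → ℝ)).1, h')) = P :=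
    funext fun h' => Cx_zero hB hF hP h'
  have e2 : (fun h' : Fin 4 → ℝ => Cx K V P (((0 : ℝ), h).1, h')) = P :=
    funext fun h' => Cx_zero hB hF hP h'
  rw [e2]
  show (2 : ℝ) • (g * pdθ a P h) = _
  rw [gPa hB hP]

lemma apPa (a : Fin 4) (h : Fin 4 → ℝ) : Ap (pdθ a P h) (1 / 2) := by
  have h1 := (sd hB hF hP).ap a (0, h)
  rw [D_zero hB hF hP] at h1
  have h2 := h1.left ((2 : ℝ)⁻¹ • (1 : H →L[ℂ] H))
  have e : ((2 : ℝ)⁻¹ • (1 : H →L[ℂ] H)) * ((2 : ℝ) • pdθ a P h) = pdθ a P h := by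
    rw [smul_mul_assoc, one_mul, inv_smul_smul₀ (by norm_num)]
  rwa [e] at h2

omit hB hF hP in
lemma tr_rsmul (r : ℝ) (T : H →L[ℂ] H) : tr (r • T) = (r : ℂ) * tr T := by
  have : r • T = (r : ℂ) • T := by ext v; simp
  rw [this, tr_smul]

lemma nuc4 (a b' c d : Fin 4) (h : Fin 4 → ℝ) :
    ∃ c', IsNuc (pdθ a P h * pdθ b' P h * pdθ c P h * pdθ d P h) c' := by
  obtain ⟨c', hc'⟩ := Ap.three (apPa hB hF hP a h) (apPa hB hF hP b' h) (apPa hB hF hP c h)
  exact ⟨_, hc'.right _⟩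

/-- the value at `s = 0`. -/
lemma f0_zero (h : Fin 4 → ℝ) :
    f0 (Fx g K V P) (0, h) = 32 * ∑ σ : Equiv.Perm (Fin 4), sg σ *
      tr (P h * pdθ (σ 0) P h * pdθ (σ 1) P h * pdθ (σ 2) P h * pdθ (σ 3) P h) := by
  have e1 : ∀ a b' c d : Fin 4, tr (Fx g K V P (0, h) * D (va a) (Fx g K V P) (0, h) *
      D (va b') (Fx g K V P) (0, h) * D (va c) (Fx g K V P) (0, h) *
      D (va d) (Fx g K V P) (0, h)) =
      32 * tr (P h * pdθ a P h * pdθ b' P h * pdθ c P h * pdθ d P h) -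
      16 * tr (pdθ a P h * pdθ b' P h * pdθ c P h * pdθ d P h) := by
    intro a b' c d
    obtain ⟨c', hc'⟩ := nuc4 hB hF hP a b' c d h
    have hF0 : Fx g K V P (0, h) = (2 : ℝ) • P h - g := by
      unfold Fx
      rw [Cx_zero hB hF hP, mul_sub, mul_one, mul_smul_comm, hP.gp]
    rw [hF0]
    simp only [D_zero hB hF hP]
    have e2 : ((2 : ℝ) • P h - g) * ((2 : ℝ) • pdθ a P h) * ((2 : ℝ) • pdθ b' P h) *
        ((2 : ℝ) • pdθ c P h) * ((2 : ℝ) • pdθ d P h) =
        (32 : ℝ) • (P h * (pdθ a P h * pdθ b' P h * pdθ c P h * pdθ d P h)) -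
        (16 : ℝ) • (pdθ a P h * pdθ b' P h * pdθ c P h * pdθ d P h) := by
      have e3 : ((2 : ℝ) • P h - g) * ((2 : ℝ) • pdθ a P h) * ((2 : ℝ) • pdθ b' P h) *
          ((2 : ℝ) • pdθ c P h) * ((2 : ℝ) • pdθ d P h) =
          (32 : ℝ) • (P h * (pdθ a P h * pdθ b' P h * pdθ c P h * pdθ d P h)) -
          (16 : ℝ) • ((g * pdθ a P h) * pdθ b' P h * pdθ c P h * pdθ d P h) := by
        simp only [sub_mul, mul_smul_comm, smul_mul_assoc, smul_sub, smul_smul, mul_assoc]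
        norm_num
      rw [e3, gPa hB hP]
    rw [e2]
    have n1 : IsNuc ((32 : ℝ) • (P h * (pdθ a P h * pdθ b' P h * pdθ c P h * pdθ d P h)))
        (‖((32 : ℝ) : ℂ)‖ * (‖P h‖ * c')) := by
      have := (hc'.left (P h)).smul ((32 : ℝ) : ℂ)
      have e4 : ((32 : ℝ) : ℂ) • (P h ∘L (pdθ a P h * pdθ b' P h * pdθ c P h * pdθ d P h)) =
        (32 : ℝ) • (P h * (pdθ a P h * pdθ b' P h * pdθ c P h * pdθ d P h)) :=
        Complex.coe_smul _ _
      rwa [e4] at this
    have n2 : IsNuc ((16 : ℝ) • (pdθ a P h * pdθ b' P h * pdθ c P h * pdθ d P h))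
        (‖((16 : ℝ) : ℂ)‖ * c') := by
      have := hc'.smul ((16 : ℝ) : ℂ)
      have e4 : ((16 : ℝ) : ℂ) • (pdθ a P h * pdθ b' P h * pdθ c P h * pdθ d P h) =
        (16 : ℝ) • (pdθ a P h * pdθ b' P h * pdθ c P h * pdθ d P h) := Complex.coe_smul _ _
      rwa [e4] at this
    rw [tr_sub n1 n2, tr_rsmul, tr_rsmul]
    push_cast
    congr 3
  have z : S (fun a b' c d => tr (pdθ a P h * pdθ b' P h * pdθ c P h * pdθ d P h)) = 0 := by
    set A : Fin 4 → Fin 4 → Fin 4 → Fin 4 → ℂ := fun a b' c d =>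
      tr (pdθ a P h * pdθ b' P h * pdθ c P h * pdθ d P h) with hA
    have h1 : (fun a b' c d => A d a b' c) = A := by
      funext a b' c d
      have h2 := Ap.three (apPa hB hF hP a h) (apPa hB hF hP b' h) (apPa hB hF hP c h)
      simp only [hA]
      have e3 : pdθ d P h * pdθ a P h * pdθ b' P h * pdθ c P h =
        pdθ d P h * (pdθ a P h * pdθ b' P h * pdθ c P h) := by noncomm_ring
      rw [e3, tr_cyc h2]
    have h3 := S_c3 A
    rw [h1] at h3
    have h4 : (2 : ℂ) * S A = 0 := by linear_combination h3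
    simpa using h4
  unfold f0
  simp only [e1]
  unfold S at z
  have e5 : ∀ σ : Equiv.Perm (Fin 4), sg σ *
      (32 * tr (P h * pdθ (σ 0) P h * pdθ (σ 1) P h * pdθ (σ 2) P h * pdθ (σ 3) P h) -
      16 * tr (pdθ (σ 0) P h * pdθ (σ 1) P h * pdθ (σ 2) P h * pdθ (σ 3) P h)) =
      32 * (sg σ * tr (P h * pdθ (σ 0) P h * pdθ (σ 1) P h * pdθ (σ 2) P h * pdθ (σ 3) P h)) -
      16 * (((Equiv.Perm.sign σ : ℤ) : ℂ) *
        tr (pdθ (σ 0) P h * pdθ (σ 1) P h * pdθ (σ 2) P h * pdθ (σ 3) P h)) := by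
    intro σ
    show _ = _ - 16 * (sg σ * _)
    ring
  rw [Finset.sum_congr rfl fun σ _ => e5 σ, Finset.sum_sub_distrib, ← Finset.mul_sum,
    ← Finset.mul_sum, z, mul_zero, sub_zero]

/-- `C` as the resolvent `Cf`. -/
lemma Cx_eq (h : Fin 4 → ℝ) {ε : ℝ} (hε : 0 < ε) {s : ℝ} (hs : s ^ 2 = ε⁻¹) :
    Cx K V P (s, h) = Cf K (V h) ε := by
  have hd0 : 0 < ε⁻¹ := inv_pos.2 hε
  have h3 : IsUnit (1 + ((ε⁻¹ - 1) • 1 + V h) * K) := unitN hB (hF.skew _) hd0
  have h5 := (pt hB hF hP h).CN hd0.le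
  set Z : H →L[ℂ] H := (ε : ℂ) • (1 : H →L[ℂ] H) + ((1 - ε : ℝ) : ℂ) • K + (ε : ℂ) • (V h * K)
    with hZ
  have e1 : Z = ε • (1 + ((ε⁻¹ - 1) • 1 + V h) * K) := by
    have e2 : Z = ε • (1 : H →L[ℂ] H) + (1 - ε) • K + ε • (V h * K) := by
      rw [hZ, Complex.coe_smul, Complex.coe_smul, Complex.coe_smul]
    have e3 : ε • (1 + ((ε⁻¹ - 1) • 1 + V h) * K) = ε • (1 : H →L[ℂ] H) +
        (ε * (ε⁻¹ - 1)) • K + ε • (V h * K) := by
      simp only [add_mul, smul_mul_assoc, one_mul, smul_add, smul_smul]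
      abel
    rw [e2, e3]
    have e4 : ε * (ε⁻¹ - 1) = 1 - ε := by field_simp
    rw [e4]
  have e2 : IsUnit Z := by
    have e3 : Z = (ε • (1 : H →L[ℂ] H)) * (1 + ((ε⁻¹ - 1) • 1 + V h) * K) := by
      rw [e1, smul_mul_assoc, one_mul]
    rw [e3]
    refine IsUnit.mul ?_ h3
    refine ⟨⟨ε • 1, ε⁻¹ • 1, ?_, ?_⟩, rfl⟩
    · rw [smul_mul_smul_comm, mul_inv_cancel₀ hε.ne', one_smul, one_mul]
    · rw [smul_mul_smul_comm, inv_mul_cancel₀ hε.ne', one_smul, one_mul]
  have e3 : Cx K V P (s, h) * Z = K := by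
    show CC K (V h) (P h) (s ^ 2) * Z = K
    rw [hs, e1, mul_smul_comm, h5, smul_inv_smul₀ hε.ne']
  calc Cx K V P (s, h) = Cx K V P (s, h) * (Z * Ring.inverse Z) := by
        rw [Ring.mul_inverse_cancel _ e2, mul_one]
    _ = K * Ring.inverse Z := by rw [← mul_assoc, e3]
    _ = Cf K (V h) ε := rfl

/-- the value at `s ≠ 0`. -/
lemma f0_pos (h : Fin 4 → ℝ) {ε : ℝ} (hε : 0 < ε) {s : ℝ} (hs : s ^ 2 = ε⁻¹) :
    f0 (Fx g K V P) (s, h) = 16 * dens g K V ε h := by
  have hd0 : 0 < ε⁻¹ := inv_pos.2 hε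
  have hs0 : s ≠ 0 := by
    rintro rfl
    norm_num at hs
    exact hε.ne hs
  have hp := pt hB hF hP h
  have hC := Cx_eq hB hF hP h hε hs
  set C := Cf K (V h) ε with hCd
  have hCC : CC K (V h) (P h) (s ^ 2) = C := hC
  have hT : CT g K (V h) (P h) (s ^ 2) = star C := by rw [← hp.star_CC (sq_nonneg s), hCC]
  have c1 : C + star C = (2 : ℝ) • (star C * C) := by
    have := hp.CTC (sq_nonneg s)
    rwa [hT, hCC] at this
  have c2 : g * C * g = star C := by
    have := hp.gCg (s ^ 2)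
    rwa [hT, hCC] at this
  have hgg := hB.gg
  have c3 : g * star C * g = C := by rw [← c2]; exact gconj' hgg C
  have c4 : C * g = g * star C := by
    rw [← c2]
    calc C * g = (g * g) * C * g := by rw [hgg, one_mul]
      _ = g * (g * C * g) := by noncomm_ring
  have c5 : star C * C = C * star C := by
    have h1 := congrArg (fun T => g * T * g) c1
    simp only [mul_add, add_mul, mul_smul_comm, smul_mul_assoc] at h1
    rw [gconj hgg, c2, c3, add_comm, c1] at h1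
    exact smul_right_injective _ (two_ne_zero : (2 : ℝ) ≠ 0) h1
  set G := star C * C with hG
  have c6 : g * G * g = G := by
    rw [hG, gconj hgg, c2, c3]
    exact c5.symm
  have c7 : G * g = g * G := by
    calc G * g = (g * g) * (G * g) := by rw [hgg, one_mul]
      _ = g * (g * G * g) := by noncomm_ring
      _ = g * G := by rw [c6]
  have dF : ∀ a, D (va a) (Fx g K V P) (s, h) = (-(2 * ε)) • (g * (C * pdθ a V h * C)) := by
    intro a
    have h1 := dC hB hF hP a (s, h) hs0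
    simp only [hs, hC] at h1
    have h2 : D (va a) (Cx K V P) (s, h) = ε • -(C * pdθ a V h * C) := by
      rw [← h1, smul_inv_smul₀ hε.ne']
    rw [DF_eq hB hF hP, h2, mul_smul_comm, mul_neg, smul_neg, smul_neg, smul_smul, neg_smul]
  have gV : ∀ a, g * pdθ a V h * g = -pdθ a V h := fun a => gVa hF a h
  have F1 : ∀ X : H →L[ℂ] H, Fx g K V P (s, h) * (g * (C * X)) = star C * X := by
    intro X
    have h0 : Fx g K V P (s, h) = g * ((2 : ℝ) • C - 1) := by unfold Fx; rw [hC]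
    rw [h0]
    have h1 : g * ((2 : ℝ) • C - 1) * (g * (C * X)) =
        ((2 : ℝ) • ((g * C * g) * C) - (g * g) * C) * X := by
      simp only [mul_sub, sub_mul, mul_smul_comm, smul_mul_assoc, mul_one, mul_assoc]
    rw [h1, c2, hgg, one_mul, ← c1]
    congr 1; abel
  have key : ∀ a b' c d : Fin 4, Fx g K V P (s, h) * (g * (C * pdθ a V h * C)) *
      (g * (C * pdθ b' V h * C)) * (g * (C * pdθ c V h * C)) * (g * (C * pdθ d V h * C)) =
      g * C * pdθ a V h * G * pdθ b' V h * G * pdθ c V h * G * pdθ d V h * C := by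
    intro a b' c d
    have s1 : Fx g K V P (s, h) * (g * (C * pdθ a V h * C)) = star C * (pdθ a V h * C) := by
      rw [← F1]; noncomm_ring
    have s2 : C * (g * C) = g * G := by rw [← mul_assoc, c4, hG, mul_assoc]
    rw [s1]
    have gV' : ∀ a, pdθ a V h * g = -(g * pdθ a V h) := by
      intro a
      have := gV a
      calc pdθ a V h * g = (g * g) * (pdθ a V h * g) := by rw [hgg, one_mul]
        _ = g * (g * pdθ a V h * g) := by noncomm_ring
        _ = -(g * pdθ a V h) := by rw [this, mul_neg]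
    calc star C * (pdθ a V h * C) * (g * (C * pdθ b' V h * C)) * (g * (C * pdθ c V h * C)) *
          (g * (C * pdθ d V h * C))
        = star C * pdθ a V h * (C * (g * C)) * pdθ b' V h * (C * (g * C)) * pdθ c V h *
          (C * (g * C)) * pdθ d V h * C := by noncomm_ring
      _ = star C * (pdθ a V h * g) * G * (pdθ b' V h * g) * G * (pdθ c V h * g) * G *
          pdθ d V h * C := by rw [s2]; noncomm_ring
      _ = -(star C * g * pdθ a V h * (G * g) * pdθ b' V h * (G * g) * pdθ c V h * G *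
          pdθ d V h * C) := by rw [gV', gV', gV']; noncomm_ring
      _ = -((star C * g) * (pdθ a V h * g) * G * (pdθ b' V h * g) * G * pdθ c V h * G *
          pdθ d V h * C) := by rw [c7]; noncomm_ring
      _ = -((star C * g) * (g * pdθ a V h) * (G * g) * pdθ b' V h * G * pdθ c V h * G *
          pdθ d V h * C) := by rw [gV', gV']; noncomm_ring
      _ = -(star C * (g * g) * (pdθ a V h * g) * G * pdθ b' V h * G * pdθ c V h * G *
          pdθ d V h * C) := by rw [c7]; noncomm_ring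
      _ = star C * g * pdθ a V h * G * pdθ b' V h * G * pdθ c V h * G *
          pdθ d V h * C := by rw [hgg, gV']; noncomm_ring
      _ = _ := by
          have : star C * g = g * C := by
            rw [← c2]
            calc g * C * g * g = g * C * (g * g) := by noncomm_ring
              _ = g * C := by rw [hgg, mul_one]
          rw [this]
  unfold f0 dens
  rw [← hCd, ← hG, ← mul_assoc, Finset.mul_sum]
  refine Finset.sum_congr rfl fun σ _ => ?_
  simp only [dF]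
  have e1 : ∀ A X Y Z W : H →L[ℂ] H, A * ((-(2 * ε)) • X) * ((-(2 * ε)) • Y) * ((-(2 * ε)) • Z) *
      ((-(2 * ε)) • W) = (16 * ε ^ 4) • (A * X * Y * Z * W) := by
    intro A X Y Z W
    simp only [mul_smul_comm, smul_mul_assoc, smul_smul]
    congr 1; ring
  rw [e1, key, tr_rsmul]
  push_cast
  ring

end main

/-- **STK**. -/
theorem stk : STK := by
  intro H _ _ _ g K V P b U hB hF hP
  refine ⟨fun h => (pt hB hF hP h).apP.nuc (by norm_num), fun j h =>
    inter_eq (pt hB hF hP h) (pt hB hF hP _) (hF.gu j) (hF.per j h), fun ε hε => ?_⟩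
  have hs : (Real.sqrt ε⁻¹) ^ 2 = ε⁻¹ := Real.sq_sqrt (inv_pos.2 hε).le
  have h1 := (sd hB hF hP).const (Real.sqrt ε⁻¹)
  simp only [f0_zero hB hF hP, f0_pos hB hF hP _ hε hs] at h1
  rw [integral_const_mul, integral_const_mul] at h1
  unfold ch4
  linear_combination (-(1 / 32 : ℂ)) * h1

end

end Crest.Agent.R235.RCStk_746
end

-- ▼ part R235/RCInfA_843
section

/-!
Row 235, block FAM/RC (helper843), half INF (`ε → 0`) of the resolvent-Chern formula of helper746,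
part A: calculus of uniform families.

* `isNuc_scale` : `a_n(T) ≤ c (n+1)⁻²`, `‖T‖ ≤ A`  ⟹  nuclear norm `≤ N A + 13 c / N`;
* `OO e k T`    : uniform families with `‖T‖ ≤ A`, `a_n(T) ≤ A e^{-k} (n+1)^{-k/4}`; products, sums;
* `Sim δ ρ k`   : `T = T' + δ E + ρ R`, `E` of order `k`, `R` of finite rank;
* `Sim.tr`      : the trace estimate.
-/

set_option autoImplicit false
set_option linter.unusedSectionVars false

open scoped InnerProductSpace Topology ContDiff
open Filter Set MeasureTheory Crest.Agent.R235.RCTr_746 Crest.Agent.R235.FamDefs_307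
open Crest.Agent.R235.RCDefs_746

namespace Crest.Agent.R235.RCInfA_843

noncomputable section

variable {H : Type*} [NormedAddCommGroup H] [InnerProductSpace ℂ H] [CompleteSpace H]

/-! ### approximation numbers -/

lemma app_mono {T : H →L[ℂ] H} {c d a : ℝ} (h : App T c a) (hcd : c ≤ d) : App T d a := by
  intro n
  obtain ⟨F, h1, h2⟩ := h n
  exact ⟨F, h1, h2.trans (mul_le_mul_of_nonneg_right hcd (by positivity))⟩

lemma app_bd {T : H →L[ℂ] H} {c : ℝ} (h : ‖T‖ ≤ c) : App T c 0 := by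
  intro n
  refine ⟨0, Rk.zero.mono (Nat.zero_le n), ?_⟩
  simpa using h

lemma half_le (n : ℕ) {t : ℝ} (ht : 0 ≤ t) :
    (((n / 2 : ℕ) : ℝ) + 1) ^ (-t) ≤ 2 ^ t * ((n : ℝ) + 1) ^ (-t) := by
  have h5 : ((n : ℝ) + 1) / 2 ≤ ((n / 2 : ℕ) : ℝ) + 1 := by
    have : n ≤ 2 * (n / 2) + 1 := by omega
    have h6 : (n : ℝ) ≤ 2 * ((n / 2 : ℕ) : ℝ) + 1 := by exact_mod_cast this
    linarith
  have h7 : 0 < ((n : ℝ) + 1) / 2 := by positivity
  refine (Real.rpow_le_rpow_of_nonpos h7 h5 (neg_nonpos.2 ht)).trans (le_of_eq ?_)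
  rw [Real.div_rpow (by positivity) (by norm_num), Real.rpow_neg (by norm_num : (0:ℝ) ≤ 2) t,
    div_inv_eq_mul, mul_comm]

lemma app_add {S T : H →L[ℂ] H} {c d a : ℝ} (hS : App S c a) (hT : App T d a) (ha : 0 ≤ a) :
    App (S + T) ((c + d) * 2 ^ a) a := by
  intro n
  obtain ⟨F, h1, h2⟩ := hS (n / 2)
  obtain ⟨G, h3, h4⟩ := hT (n / 2)
  refine ⟨F + G, (h1.add h3).mono (by omega), ?_⟩
  have e : S + T - (F + G) = (S - F) + (T - G) := by abel
  rw [e]
  refine (norm_add_le _ _).trans ?_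
  have h5 := half_le n ha
  have hc := hS.nonneg
  have hd := hT.nonneg
  calc ‖S - F‖ + ‖T - G‖ ≤ (c + d) * (((n / 2 : ℕ) : ℝ) + 1) ^ (-a) := by linarith
    _ ≤ (c + d) * (2 ^ a * ((n : ℝ) + 1) ^ (-a)) :=
        mul_le_mul_of_nonneg_left h5 (by positivity)
    _ = _ := by ring


/-- nuclear norm at scale `N`. -/
lemma isNuc_scale {T : H →L[ℂ] H} {c A : ℝ} (h : App T c 2) (hA : ‖T‖ ≤ A) {N : ℕ} (hN : 1 ≤ N) :
    IsNuc T (N * A + 13 * (c / N)) := by
  have hc := h.nonneg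
  have hA0 : 0 ≤ A := (norm_nonneg _).trans hA
  have hN0 : (0 : ℝ) < N := by exact_mod_cast hN
  choose F hF1 hF2 using h
  set G : ℕ → H →L[ℂ] H := fun k => F (N * 2 ^ k - 1) with hG
  have hnum : ∀ k : ℕ, (((N * 2 ^ k - 1 : ℕ) : ℝ) + 1) = N * (2 : ℝ) ^ k := by
    intro k
    have : 1 ≤ N * 2 ^ k := Nat.mul_pos hN (by positivity)
    push_cast [Nat.cast_sub this]
    ring
  have hGn : ∀ k, ‖T - G k‖ ≤ c / (N : ℝ) ^ 2 * (1 / 4 : ℝ) ^ k := by
    intro k
    refine (hF2 (N * 2 ^ k - 1)).trans (le_of_eq ?_)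
    rw [hnum, Real.rpow_neg (by positivity), Real.rpow_two, mul_pow, ← pow_mul, mul_comm k 2,
      pow_mul]
    have e4 : ((2 : ℝ) ^ 2) ^ k * (1 / 4 : ℝ) ^ k = 1 := by rw [← mul_pow]; norm_num
    have h4 : (0 : ℝ) < ((2 : ℝ) ^ 2) ^ k := by positivity
    rw [eq_comm, ← div_eq_mul_inv, eq_div_iff (by positivity)]
    field_simp
    linear_combination c * e4
  have hlim : Tendsto G atTop (𝓝 T) := by
    rw [tendsto_iff_norm_sub_tendsto_zero]
    refine squeeze_zero (fun _ => norm_nonneg _) (fun k => ?_)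
      ((tendsto_pow_atTop_nhds_zero_of_lt_one (by norm_num : (0:ℝ) ≤ 1 / 4)
        (by norm_num)).const_mul (c / (N : ℝ) ^ 2) |>.trans (by simp))
    rw [norm_sub_rev]; exact hGn k
  have hDn : ∀ k, ‖G (k + 1) - G k‖ ≤ 2 * (c / (N : ℝ) ^ 2 * (1 / 4 : ℝ) ^ k) := by
    intro k
    have h3 : G (k + 1) - G k = (T - G k) - (T - G (k + 1)) := by abel
    rw [h3]
    refine (norm_sub_le _ _).trans ?_
    have h4 := hGn k
    have h5 := hGn (k + 1)
    have h6 : c / (N : ℝ) ^ 2 * (1 / 4 : ℝ) ^ (k + 1) ≤ c / (N : ℝ) ^ 2 * (1 / 4 : ℝ) ^ k := by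
      refine mul_le_mul_of_nonneg_left ?_ (by positivity)
      exact pow_le_pow_of_le_one (by norm_num) (by norm_num) (Nat.le_succ k)
    linarith
  have hD : ∀ k, IsNuc (G (k + 1) - G k) (6 * (c / N) * (1 / 2 : ℝ) ^ k) := by
    intro k
    have h1 : Rk (G (k + 1) - G k) (3 * (N * 2 ^ k)) := by
      refine ((hF1 _).sub (hF1 _)).mono ?_
      have : N * 2 ^ (k + 1) = 2 * (N * 2 ^ k) := by ring
      omega
    refine h1.isNuc.mono ?_
    have e2 : (2 : ℝ) ^ k * (1 / 4 : ℝ) ^ k = (1 / 2 : ℝ) ^ k := by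
      rw [← mul_pow]; norm_num
    push_cast
    calc (3 * (N * 2 ^ k) : ℝ) * ‖G (k + 1) - G k‖
        ≤ (3 * (N * 2 ^ k) : ℝ) * (2 * (c / (N : ℝ) ^ 2 * (1 / 4 : ℝ) ^ k)) :=
          mul_le_mul_of_nonneg_left (hDn k) (by positivity)
      _ = 6 * (c / N) * ((2 : ℝ) ^ k * (1 / 4 : ℝ) ^ k) := by field_simp; ring
      _ = _ := by rw [e2]
  have hsum : Summable (fun k : ℕ => 6 * (c / N) * (1 / 2 : ℝ) ^ k) :=
    (summable_geometric_of_lt_one (by norm_num) (by norm_num)).mul_left _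
  have key := IsNuc.tsum (S := T - G 0) hD hsum ?_
  · have h1 : IsNuc (G 0) (N * (A + c / (N : ℝ) ^ 2)) := by
      have h2 : Rk (G 0) N := (hF1 _).mono (by simp)
      refine h2.isNuc.mono ?_
      refine mul_le_mul_of_nonneg_left ?_ hN0.le
      have h3 := hGn 0
      rw [pow_zero, mul_one] at h3
      have h4 : G 0 = T - (T - G 0) := by abel
      rw [h4]
      refine (norm_sub_le _ _).trans ?_
      linarith
    have h2 := h1.add key
    rw [add_sub_cancel] at h2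
    refine h2.mono (le_of_eq ?_)
    rw [tsum_mul_left, tsum_geometric_of_lt_one (by norm_num) (by norm_num)]
    field_simp
    ring
  · intro x
    have hs : Summable (fun k => (G (k + 1) - G k) x) := by
      refine Summable.of_norm (Summable.of_nonneg_of_le (fun _ => norm_nonneg _) (fun k => ?_)
        ((((summable_geometric_of_lt_one (by norm_num : (0:ℝ) ≤ 1 / 4) (by norm_num)).mul_left
          (c / (N : ℝ) ^ 2)).mul_left 2).mul_right ‖x‖))
      exact ((G (k + 1) - G k).le_opNorm x).trans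
        (mul_le_mul_of_nonneg_right (hDn k) (norm_nonneg _))
    have h9 := hs.hasSum.tendsto_sum_nat
    have h10 : ∀ n, ∑ k ∈ Finset.range n, (G (k + 1) - G k) x = G n x - G 0 x := by
      intro n
      exact Finset.sum_range_sub (fun k => G k x) n
    simp only [h10] at h9
    have h11 : Tendsto (fun n => G n x - G 0 x) atTop (𝓝 ((T - G 0) x)) := by
      rw [sub_apply]
      exact (((ContinuousLinearMap.apply ℂ H x).continuous.tendsto T).comp hlim).sub_const _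
    rw [← tendsto_nhds_unique h9 h11]
    exact hs.hasSum

/-! ### uniform families -/

section fam

variable {ι : Type*}

/-- families of order `k`. -/
def OO (e : ι → ℝ) (k : ℕ) (T : ι → H →L[ℂ] H) : Prop :=
  ∃ A : ℝ, ∀ i, ‖T i‖ ≤ A ∧ App (T i) (A * ((e i)⁻¹) ^ k) ((k : ℝ) / 4)

/-- bounded families of finite rank. -/
def FR (R : ι → H →L[ℂ] H) : Prop := ∃ (r : ℕ) (A : ℝ), ∀ i, Rk (R i) r ∧ ‖R i‖ ≤ A

variable {e : ι → ℝ} {j k : ℕ} {S T S' T' : ι → H →L[ℂ] H}

lemma oo_bd {A : ℝ} (h : ∀ i, ‖T i‖ ≤ A) : OO e 0 T :=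
  ⟨A, fun i => ⟨h i, by simpa using app_bd (h i)⟩⟩

lemma OO.bd (h : OO e k T) : ∃ A : ℝ, 0 ≤ A ∧ ∀ i, ‖T i‖ ≤ A := by
  obtain ⟨A, hA⟩ := h
  exact ⟨max A 0, le_max_right _ _, fun i => (hA i).1.trans (le_max_left _ _)⟩

lemma OO.zero' (h : OO e k T) : OO e 0 T := by
  obtain ⟨A, -, hA⟩ := h.bd
  exact oo_bd hA

lemma OO.cst (h : OO e k T) : ∃ A : ℝ, 0 ≤ A ∧
    ∀ i, ‖T i‖ ≤ A ∧ App (T i) (A * ((e i)⁻¹) ^ k) ((k : ℝ) / 4) := by
  obtain ⟨A, hA⟩ := h
  by_cases hne : Nonempty ι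
  · obtain ⟨i⟩ := hne
    exact ⟨A, (norm_nonneg _).trans (hA i).1, hA⟩
  · exact ⟨0, le_rfl, fun i => absurd ⟨i⟩ hne⟩

lemma oo_mul (hT : OO e j T) (hS : OO e k S) : OO e (j + k) (fun i => T i * S i) := by
  obtain ⟨A, hA0, hA⟩ := hT.cst
  obtain ⟨B, hB0, hB⟩ := hS.cst
  refine ⟨A * B * 2 ^ ((j : ℝ) / 4 + (k : ℝ) / 4), fun i => ⟨?_, ?_⟩⟩
  · have h1 : (1 : ℝ) ≤ 2 ^ ((j : ℝ) / 4 + (k : ℝ) / 4) :=
      Real.one_le_rpow (by norm_num) (by positivity)
    calc ‖T i * S i‖ ≤ ‖T i‖ * ‖S i‖ := norm_mul_le _ _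
      _ ≤ A * B := mul_le_mul (hA i).1 (hB i).1 (norm_nonneg _) hA0
      _ ≤ A * B * 2 ^ ((j : ℝ) / 4 + (k : ℝ) / 4) :=
          le_mul_of_one_le_right (by positivity) h1
  · have h := (hA i).2.mul (hB i).2 (by positivity) (by positivity)
    have e1 : ((j + k : ℕ) : ℝ) / 4 = (j : ℝ) / 4 + (k : ℝ) / 4 := by push_cast; ring
    rw [e1, pow_add]
    refine app_mono h (le_of_eq ?_)
    ring

lemma oo_add (hT : OO e k T) (hS : OO e k S) : OO e k (fun i => T i + S i) := by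
  obtain ⟨A, hA0, hA⟩ := hT.cst
  obtain ⟨B, hB0, hB⟩ := hS.cst
  refine ⟨(A + B) * 2 ^ ((k : ℝ) / 4), fun i => ⟨?_, ?_⟩⟩
  · have h1 : (1 : ℝ) ≤ 2 ^ ((k : ℝ) / 4) := Real.one_le_rpow (by norm_num) (by positivity)
    calc ‖T i + S i‖ ≤ A + B := (norm_add_le _ _).trans (add_le_add (hA i).1 (hB i).1)
      _ ≤ _ := le_mul_of_one_le_right (by positivity) h1
  · refine app_mono (app_add (hA i).2 (hB i).2 (by positivity)) (le_of_eq ?_)
    ring

lemma oo_zero : OO e k (fun _ => (0 : H →L[ℂ] H)) :=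
  ⟨0, fun i => ⟨by simp, fun n => ⟨0, Rk.zero.mono (Nat.zero_le n), by simp⟩⟩⟩

lemma OO.comp {κ : Type*} {f : κ → ℝ} (h : OO e k T) (φ : κ → ι) (hf : ∀ x, e (φ x) = f x) :
    OO f k (fun x => T (φ x)) := by
  obtain ⟨A, hA⟩ := h
  exact ⟨A, fun x => by rw [← hf]; exact hA _⟩

lemma fr_zero : FR (fun _ : ι => (0 : H →L[ℂ] H)) := ⟨0, 0, fun _ => ⟨Rk.zero, by simp⟩⟩

lemma FR.mulr {R : ι → H →L[ℂ] H} (hR : FR R) (hT : OO e k T) : FR (fun i => R i * T i) := by
  obtain ⟨r, A, hA⟩ := hR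
  obtain ⟨B, hB0, hB⟩ := hT.bd
  refine ⟨r, A * B, fun i => ⟨(hA i).1.right _, (norm_mul_le _ _).trans ?_⟩⟩
  exact mul_le_mul (hA i).2 (hB i) (norm_nonneg _) ((norm_nonneg _).trans (hA i).2)

lemma FR.mull {R : ι → H →L[ℂ] H} (hR : FR R) (hT : OO e k T) : FR (fun i => T i * R i) := by
  obtain ⟨r, A, hA⟩ := hR
  obtain ⟨B, hB0, hB⟩ := hT.bd
  refine ⟨r, B * A, fun i => ⟨(hA i).1.left _, (norm_mul_le _ _).trans ?_⟩⟩
  exact mul_le_mul (hB i) (hA i).2 (norm_nonneg _) hB0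

lemma FR.add {R R' : ι → H →L[ℂ] H} (hR : FR R) (hR' : FR R') : FR (fun i => R i + R' i) := by
  obtain ⟨r, A, hA⟩ := hR
  obtain ⟨s, B, hB⟩ := hR'
  exact ⟨r + s, A + B, fun i => ⟨(hA i).1.add (hB i).1,
    (norm_add_le _ _).trans (add_le_add (hA i).2 (hB i).2)⟩⟩

/-- `T = T' + δ E + ρ R`. -/
def Sim (e δ ρ : ι → ℝ) (k : ℕ) (T T' : ι → H →L[ℂ] H) : Prop :=
  OO e k T ∧ OO e k T' ∧ ∃ E R : ι → H →L[ℂ] H, OO e k E ∧ FR R ∧
    ∀ i, T i = T' i + (δ i : ℂ) • E i + (ρ i : ℂ) • R i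

variable {δ ρ : ι → ℝ}

lemma sim_refl (h : OO e k T) : Sim e δ ρ k T T :=
  ⟨h, h, _, _, oo_zero, fr_zero, fun i => by simp⟩

lemma Sim.mul (h : Sim e δ ρ j T T') (h' : Sim e δ ρ k S S') :
    Sim e δ ρ (j + k) (fun i => T i * S i) (fun i => T' i * S' i) := by
  obtain ⟨a1, a2, E, R, a3, a4, a5⟩ := h
  obtain ⟨b1, b2, E', R', b3, b4, b5⟩ := h'
  refine ⟨oo_mul a1 b1, oo_mul a2 b2, fun i => E i * S i + T' i * E' i,
    fun i => R i * S i + T' i * R' i, oo_add (oo_mul a3 b1) (oo_mul a2 b3),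
    (a4.mulr b1).add (b4.mull a2), fun i => ?_⟩
  change T i * S i = T' i * S' i + (δ i : ℂ) • (E i * S i + T' i * E' i) +
    (ρ i : ℂ) • (R i * S i + T' i * R' i)
  have e1 : T i * S i = (T' i + (δ i : ℂ) • E i + (ρ i : ℂ) • R i) * S i := by rw [← a5]
  have e2 : T' i * S i = T' i * (S' i + (δ i : ℂ) • E' i + (ρ i : ℂ) • R' i) := by rw [← b5]
  rw [e1, add_mul, add_mul, e2]
  simp only [mul_add, smul_mul_assoc, mul_smul_comm, smul_add]
  abel

lemma Sim.trans {T'' : ι → H →L[ℂ] H} (h : Sim e δ ρ k T T')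
    (h' : Sim e δ ρ k T' T'') : Sim e δ ρ k T T'' := by
  obtain ⟨a1, a2, E, R, a3, a4, a5⟩ := h
  obtain ⟨b1, b2, E', R', b3, b4, b5⟩ := h'
  refine ⟨a1, b2, fun i => E i + E' i, fun i => R i + R' i, oo_add a3 b3, a4.add b4,
    fun i => ?_⟩
  rw [a5, b5]
  simp only [smul_add]
  abel

lemma OO.nuc (he : ∀ i, 0 < e i) (he1 : ∀ i, e i ≤ 1) (h : OO e 8 T) :
    ∃ c : ℝ, ∀ i, IsNuc (T i) (c * ((e i)⁻¹) ^ 4) := by
  obtain ⟨A, hA0, hA⟩ := h.cst
  refine ⟨15 * A, fun i => ?_⟩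
  have h1 : 1 ≤ (e i)⁻¹ := (one_le_inv₀ (he i)).2 (he1 i)
  have h2 : 1 ≤ ((e i)⁻¹) ^ 4 := one_le_pow₀ h1
  set N : ℕ := ⌈((e i)⁻¹) ^ 4⌉₊ with hN
  have h3 : ((e i)⁻¹) ^ 4 ≤ (N : ℝ) := Nat.le_ceil _
  have h4 : (N : ℝ) ≤ 2 * ((e i)⁻¹) ^ 4 := by
    have := (Nat.ceil_lt_add_one (by positivity : 0 ≤ ((e i)⁻¹) ^ 4)).le
    rw [← hN] at this
    linarith
  have h5 : 1 ≤ N := by
    have : (1 : ℝ) ≤ N := h2.trans h3
    exact_mod_cast this
  have h6 : App (T i) (A * ((e i)⁻¹) ^ 8) 2 := by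
    have := (hA i).2
    norm_num at this ⊢
    exact this
  refine (isNuc_scale h6 (hA i).1 h5).mono ?_
  have h7 : A * ((e i)⁻¹) ^ 8 / N ≤ A * ((e i)⁻¹) ^ 4 := by
    rw [div_le_iff₀ (by positivity)]
    calc A * ((e i)⁻¹) ^ 8 = A * ((e i)⁻¹) ^ 4 * ((e i)⁻¹) ^ 4 := by ring
      _ ≤ _ := mul_le_mul_of_nonneg_left h3 (by positivity)
  have h8 : (N : ℝ) * A ≤ 2 * ((e i)⁻¹) ^ 4 * A := mul_le_mul_of_nonneg_right h4 hA0
  linarith

lemma FR.nuc {R : ι → H →L[ℂ] H} (h : FR R) : ∃ c : ℝ, ∀ i, IsNuc (R i) c := by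
  obtain ⟨r, A, hA⟩ := h
  refine ⟨r * A, fun i => (hA i).1.isNuc.mono ?_⟩
  exact mul_le_mul_of_nonneg_left (hA i).2 (by positivity)

/-- the trace estimate. -/
lemma Sim.tr (he : ∀ i, 0 < e i) (he1 : ∀ i, e i ≤ 1) (h : Sim e δ ρ 8 T T') :
    ∃ c : ℝ, ∀ i, ‖RCTr_746.tr (T i) - RCTr_746.tr (T' i)‖ ≤
      c * (|δ i| * ((e i)⁻¹) ^ 4 + |ρ i|) := by
  obtain ⟨a1, a2, E, R, a3, a4, a5⟩ := h
  obtain ⟨c1, h1⟩ := a1.nuc he he1
  obtain ⟨c2, h2⟩ := a2.nuc he he1
  obtain ⟨c3, h3⟩ := a3.nuc he he1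
  obtain ⟨c4, h4⟩ := a4.nuc
  refine ⟨max c3 c4, fun i => ?_⟩
  have h5 : T i - T' i = (δ i : ℂ) • E i + (ρ i : ℂ) • R i := by
    rw [a5]; abel
  rw [← tr_sub (h1 i) (h2 i), h5]
  refine (((h3 i).smul (δ i : ℂ)).add ((h4 i).smul (ρ i : ℂ))).norm_tr_le.trans ?_
  rw [Complex.norm_real, Complex.norm_real, Real.norm_eq_abs, Real.norm_eq_abs]
  have h6 : 0 ≤ ((e i)⁻¹) ^ 4 := by have := he i; positivity
  calc |δ i| * (c3 * ((e i)⁻¹) ^ 4) + |ρ i| * c4
      ≤ |δ i| * (max c3 c4 * ((e i)⁻¹) ^ 4) + |ρ i| * max c3 c4 := by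
        gcongr
        · exact le_max_left _ _
        · exact le_max_right _ _
    _ = _ := by ring

end fam

end

end Crest.Agent.R235.RCInfA_843
end

-- ▼ part R235/RCInf_843

/-!
Row 235, block FAM/RC (helper843), half INF (`ε → 0`) of the resolvent-Chern formula of helper746,
part B: resolvents and `inf : INF`.
-/

set_option autoImplicit false
set_option linter.unusedSectionVars false

open scoped InnerProductSpace Topology ContDiff
open Filter Set MeasureTheory Crest.Agent.R235.RCTr_746 Crest.Agent.R235.FamDefs_307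
open Crest.Agent.R235.RCDefs_746 Crest.Agent.R235.RCInfA_843

namespace Crest.Agent.R235.RCInf_843

noncomputable section

variable {H : Type*} [NormedAddCommGroup H] [InnerProductSpace ℂ H] [CompleteSpace H]

/-! ### resolvents -/

section res

variable {g K : H →L[ℂ] H}

lemma norm_one_le : ‖(1 : H →L[ℂ] H)‖ ≤ 1 := ContinuousLinearMap.norm_id_le

lemma star_real (c : ℝ) (T : H →L[ℂ] H) : star ((c : ℂ) • T) = (c : ℂ) • star T := by
  rw [star_smul, Complex.star_def, Complex.conj_ofReal]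

lemma comm_K (hB : Base g K) : Commute K (star K) := by
  have h := hB.kk.symm.trans hB.kk'
  exact smul_right_injective _ (two_ne_zero : (2 : ℂ) ≠ 0) h

lemma star_u : star ((2 : ℂ) • K - 1) = (2 : ℂ) • star K - 1 := by
  rw [star_sub, star_one]
  congr 1
  rw [star_smul]; simp

lemma u_unit (hB : Base g K) : star ((2 : ℂ) • K - 1) * ((2 : ℂ) • K - 1) = 1 := by
  rw [star_u]
  have h := hB.kk'
  have e : ((2 : ℂ) • star K - 1) * ((2 : ℂ) • K - 1) =
      (2 : ℂ) • ((2 : ℂ) • (star K * K)) - (2 : ℂ) • (K + star K) + 1 := by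
    simp only [sub_mul, mul_sub, smul_mul_assoc, mul_smul_comm, one_mul, mul_one, smul_add]
    module
  rw [e, ← h, sub_self, zero_add]

lemma norm_u (hB : Base g K) : ‖(2 : ℂ) • K - 1‖ ≤ 1 := by
  have h := CStarRing.norm_star_mul_self (x := (2 : ℂ) • K - 1)
  rw [u_unit hB] at h
  have h1 := norm_one_le (H := H)
  nlinarith [norm_nonneg ((2 : ℂ) • K - 1)]

lemma norm_u' (hB : Base g K) : ‖(2 : ℂ) • star K - 1‖ ≤ 1 := by
  rw [← star_u, norm_star]; exact norm_u hB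


lemma starK_eq (hB : Base g K) : star K = ((2 : ℂ) • star K - 1) * K := by
  rw [sub_mul, smul_mul_assoc, ← hB.kk', one_mul, add_sub_cancel_left]

/-- invertibility and the norm of the inverse of `c + X`. -/
lemma unit_of {c q : ℝ} {X : H →L[ℂ] H} (hX : ‖X‖ ≤ q) (hq : q < c) :
    IsUnit ((c : ℂ) • (1 : H →L[ℂ] H) + X) := by
  have hc : 0 < c := lt_of_le_of_lt ((norm_nonneg _).trans hX) hq
  have hc' : (c : ℂ) ≠ 0 := by exact_mod_cast hc.ne'
  have e : (c : ℂ) • (1 : H →L[ℂ] H) + X = (c : ℂ) • (1 - (-(c : ℂ)⁻¹) • X) := by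
    rw [smul_sub, smul_smul, mul_neg, mul_inv_cancel₀ hc', neg_smul, one_smul, sub_neg_eq_add]
  rw [e]
  have h1 : IsUnit (1 - (-(c : ℂ)⁻¹) • X) := by
    apply isUnit_one_sub_of_norm_lt_one
    rw [norm_smul, norm_neg, norm_inv, Complex.norm_real, Real.norm_eq_abs, abs_of_pos hc,
      ← div_eq_inv_mul, div_lt_one hc]
    exact hX.trans_lt hq
  have h2 : IsUnit ((c : ℂ) • (1 : H →L[ℂ] H)) := by
    refine IsUnit.smul (Units.mk0 (c : ℂ) hc') isUnit_one
  have h3 := h2.mul h1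
  rwa [smul_mul_assoc, one_mul] at h3

lemma norm_inv_of {c q : ℝ} {X N : H →L[ℂ] H} (hX : ‖X‖ ≤ q) (hq : q < c)
    (hN : N * ((c : ℂ) • (1 : H →L[ℂ] H) + X) = 1) : ‖N‖ ≤ (c - q)⁻¹ := by
  have hc : 0 < c := lt_of_le_of_lt ((norm_nonneg _).trans hX) hq
  have h1 : (c : ℂ) • N = 1 - N * X := by
    rw [← hN]; rw [mul_add, mul_smul_comm, mul_one, add_sub_cancel_right]
  have h2 : c * ‖N‖ ≤ 1 + ‖N‖ * q := by
    calc c * ‖N‖ = ‖(c : ℂ) • N‖ := by
          rw [norm_smul, Complex.norm_real, Real.norm_eq_abs, abs_of_pos hc]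
      _ ≤ ‖(1 : H →L[ℂ] H)‖ + ‖N * X‖ := by rw [h1]; exact norm_sub_le _ _
      _ ≤ 1 + ‖N‖ * q := by
          refine add_le_add norm_one_le ((norm_mul_le _ _).trans ?_)
          exact mul_le_mul_of_nonneg_left hX (norm_nonneg _)
  rw [inv_eq_one_div, le_div_iff₀ (by linarith)]
  nlinarith

/-- the denominator of `Cf`. -/
def MM (K W : H →L[ℂ] H) (ε : ℝ) : H →L[ℂ] H :=
  (ε : ℂ) • (1 : H →L[ℂ] H) + ((1 - ε : ℝ) : ℂ) • K + (ε : ℂ) • (W * K)

lemma Cf_eq (W : H →L[ℂ] H) (ε : ℝ) : Cf K W ε = K * Ring.inverse (MM K W ε) := rfl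

lemma Cr_eq (ε : ℝ) : Cr K ε = Cf K 0 ε := by
  unfold Cr Cf
  simp

lemma MM0_eq (ε : ℝ) : MM K 0 ε =
    (((1 + ε) / 2 : ℝ) : ℂ) • (1 : H →L[ℂ] H) +
      (((1 - ε) / 2 : ℝ) : ℂ) • ((2 : ℂ) • K - 1) := by
  unfold MM
  rw [zero_mul, smul_zero, add_zero]
  push_cast
  module

lemma norm_u0 (hB : Base g K) {ε : ℝ} (h1 : ε ≤ 1) :
    ‖(((1 - ε) / 2 : ℝ) : ℂ) • ((2 : ℂ) • K - 1)‖ ≤ (1 - ε) / 2 := by
  rw [norm_smul, Complex.norm_real, Real.norm_eq_abs, abs_of_nonneg (by linarith)]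
  calc (1 - ε) / 2 * ‖(2 : ℂ) • K - 1‖ ≤ (1 - ε) / 2 * 1 :=
        mul_le_mul_of_nonneg_left (norm_u hB) (by linarith)
    _ = _ := mul_one _

lemma unit0 (hB : Base g K) {ε : ℝ} (h0 : 0 < ε) (h1 : ε ≤ 1) : IsUnit (MM K 0 ε) := by
  rw [MM0_eq]
  exact unit_of (norm_u0 hB h1) (by linarith)

lemma norm_inv0 (hB : Base g K) {ε : ℝ} (h0 : 0 < ε) (h1 : ε ≤ 1) :
    ‖Ring.inverse (MM K 0 ε)‖ ≤ ε⁻¹ := by
  have h := Ring.inverse_mul_cancel _ (unit0 hB h0 h1)
  rw [MM0_eq] at h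
  have h2 := norm_inv_of (norm_u0 hB h1) (by linarith) h
  rw [MM0_eq]
  convert h2 using 2
  ring

lemma norm_Cf0 (hB : Base g K) {ε : ℝ} (h0 : 0 < ε) (h1 : ε ≤ 1 / 2) : ‖Cf K 0 ε‖ ≤ 4 := by
  have h := Ring.mul_inverse_cancel _ (unit0 hB h0 (by linarith))
  have h2 : ((1 - ε : ℝ) : ℂ) • Cf K 0 ε = 1 - (ε : ℂ) • Ring.inverse (MM K 0 ε) := by
    rw [Cf_eq, eq_sub_iff_add_eq, ← h]
    conv_rhs => unfold MM
    rw [zero_mul, smul_zero, add_zero, add_mul, smul_mul_assoc, smul_mul_assoc, one_mul, add_comm]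
    unfold MM
    rw [zero_mul, smul_zero, add_zero]
  have h3 : (1 - ε) * ‖Cf K 0 ε‖ ≤ 2 := by
    calc (1 - ε) * ‖Cf K 0 ε‖ = ‖((1 - ε : ℝ) : ℂ) • Cf K 0 ε‖ := by
          rw [norm_smul, Complex.norm_real, Real.norm_eq_abs, abs_of_pos (by linarith)]
      _ ≤ ‖(1 : H →L[ℂ] H)‖ + ‖(ε : ℂ) • Ring.inverse (MM K 0 ε)‖ := by
          rw [h2]; exact norm_sub_le _ _
      _ ≤ 1 + ε * ε⁻¹ := by
          refine add_le_add norm_one_le ?_
          rw [norm_smul, Complex.norm_real, Real.norm_eq_abs, abs_of_pos h0]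
          exact mul_le_mul_of_nonneg_left (norm_inv0 hB h0 (by linarith)) h0.le
      _ = 2 := by rw [mul_inv_cancel₀ h0.ne']; norm_num
  nlinarith [norm_nonneg (Cf K 0 ε)]

lemma MM_eq (hB : Base g K) {ε : ℝ} (h0 : 0 < ε) (h1 : ε ≤ 1 / 2) (W : H →L[ℂ] H) :
    MM K W ε = (((1 : ℝ) : ℂ) • 1 + (ε : ℂ) • (W * Cf K 0 ε)) * MM K 0 ε := by
  have h := Ring.inverse_mul_cancel _ (unit0 hB h0 (by linarith))
  have h2 : Cf K 0 ε * MM K 0 ε = K := by
    rw [Cf_eq, mul_assoc, h, mul_one]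
  rw [Complex.ofReal_one, one_smul, add_mul, one_mul, smul_mul_assoc, mul_assoc, h2]
  unfold MM
  rw [zero_mul, smul_zero, add_zero]

lemma norm_X (hB : Base g K) {ε v : ℝ} (h0 : 0 < ε) (h1 : ε ≤ 1 / 2) (hv : 8 * ε * v ≤ 1)
    {W : H →L[ℂ] H} (hW : ‖W‖ ≤ v) : ‖(ε : ℂ) • (W * Cf K 0 ε)‖ ≤ 1 / 2 := by
  rw [norm_smul, Complex.norm_real, Real.norm_eq_abs, abs_of_pos h0]
  have h2 : ‖W * Cf K 0 ε‖ ≤ v * 4 := (norm_mul_le _ _).trans
    (mul_le_mul hW (norm_Cf0 hB h0 h1) (norm_nonneg _) ((norm_nonneg _).trans hW))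
  calc ε * ‖W * Cf K 0 ε‖ ≤ ε * (v * 4) := mul_le_mul_of_nonneg_left h2 h0.le
    _ ≤ 1 / 2 := by linarith

lemma unitW (hB : Base g K) {ε v : ℝ} (h0 : 0 < ε) (h1 : ε ≤ 1 / 2) (hv : 8 * ε * v ≤ 1)
    {W : H →L[ℂ] H} (hW : ‖W‖ ≤ v) : IsUnit (MM K W ε) := by
  rw [MM_eq hB h0 h1]
  exact (unit_of (norm_X hB h0 h1 hv hW) (by norm_num)).mul (unit0 hB h0 (by linarith))

lemma invW (hB : Base g K) {ε v : ℝ} (h0 : 0 < ε) (h1 : ε ≤ 1 / 2) (hv : 8 * ε * v ≤ 1)
    {W : H →L[ℂ] H} (hW : ‖W‖ ≤ v) : ∃ P : H →L[ℂ] H, ‖P‖ ≤ 2 ∧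
      Ring.inverse (MM K W ε) = Ring.inverse (MM K 0 ε) * P := by
  have hu := unit_of (norm_X hB h0 h1 hv hW) (by norm_num : (1 / 2 : ℝ) < 1)
  refine ⟨Ring.inverse (((1 : ℝ) : ℂ) • 1 + (ε : ℂ) • (W * Cf K 0 ε)), ?_, ?_⟩
  · have := norm_inv_of (norm_X hB h0 h1 hv hW) (by norm_num : (1 / 2 : ℝ) < 1)
      (Ring.inverse_mul_cancel _ hu)
    norm_num at this ⊢
    exact this
  · have e1 := Ring.inverse_mul_cancel _ (unitW hB h0 h1 hv hW)
    have e2 := Ring.mul_inverse_cancel _ hu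
    have e3 := Ring.mul_inverse_cancel _ (unit0 hB h0 (by linarith))
    set P := Ring.inverse (((1 : ℝ) : ℂ) • 1 + (ε : ℂ) • (W * Cf K 0 ε)) with hP
    have e4 : MM K W ε * (Ring.inverse (MM K 0 ε) * P) = 1 := by
      rw [MM_eq hB h0 h1, mul_assoc, ← mul_assoc (MM K 0 ε), e3, one_mul, e2]
    calc Ring.inverse (MM K W ε) = Ring.inverse (MM K W ε) *
          (MM K W ε * (Ring.inverse (MM K 0 ε) * P)) := by rw [e4, mul_one]
      _ = _ := by rw [← mul_assoc, e1, one_mul]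

lemma norm_invW (hB : Base g K) {ε v : ℝ} (h0 : 0 < ε) (h1 : ε ≤ 1 / 2) (hv : 8 * ε * v ≤ 1)
    {W : H →L[ℂ] H} (hW : ‖W‖ ≤ v) : ‖Ring.inverse (MM K W ε)‖ ≤ 2 * ε⁻¹ := by
  obtain ⟨P, hP, h⟩ := invW hB h0 h1 hv hW
  rw [h]
  calc ‖Ring.inverse (MM K 0 ε) * P‖ ≤ ε⁻¹ * 2 := (norm_mul_le _ _).trans
        (mul_le_mul (norm_inv0 hB h0 (by linarith)) hP (norm_nonneg _) (by positivity))
    _ = _ := mul_comm _ _

lemma norm_Cf (hB : Base g K) {ε v : ℝ} (h0 : 0 < ε) (h1 : ε ≤ 1 / 2) (hv : 8 * ε * v ≤ 1)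
    {W : H →L[ℂ] H} (hW : ‖W‖ ≤ v) : ‖Cf K W ε‖ ≤ 8 := by
  obtain ⟨P, hP, h⟩ := invW hB h0 h1 hv hW
  rw [Cf_eq, h, ← mul_assoc, ← Cf_eq]
  calc ‖Cf K 0 ε * P‖ ≤ 4 * 2 := (norm_mul_le _ _).trans
        (mul_le_mul (norm_Cf0 hB h0 h1) hP (norm_nonneg _) (by norm_num))
    _ = 8 := by norm_num

/-- the resolvent identity. -/
lemma Cf_diff (hB : Base g K) {ε v : ℝ} (h0 : 0 < ε) (h1 : ε ≤ 1 / 2) (hv : 8 * ε * v ≤ 1)
    {W W' : H →L[ℂ] H} (hW : ‖W‖ ≤ v) (hW' : ‖W'‖ ≤ v) :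
    Cf K W ε = Cf K W' ε + Cf K W' ε * ((ε : ℂ) • (W' - W)) * Cf K W ε := by
  have e1 := Ring.mul_inverse_cancel _ (unitW hB h0 h1 hv hW)
  have e2 := Ring.inverse_mul_cancel _ (unitW hB h0 h1 hv hW')
  simp only [Cf_eq]
  set N := Ring.inverse (MM K W ε) with hN
  set N' := Ring.inverse (MM K W' ε) with hN'
  have e3 : ((ε : ℂ) • (W' - W)) * K = MM K W' ε - MM K W ε := by
    unfold MM
    rw [smul_mul_assoc, sub_mul, smul_sub]
    abel
  have e4 : K * N' * ((ε : ℂ) • (W' - W)) * (K * N) = K * N - K * N' := by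
    calc K * N' * ((ε : ℂ) • (W' - W)) * (K * N) =
          K * (N' * (((ε : ℂ) • (W' - W)) * K) * N) := by simp only [mul_assoc]
      _ = K * ((N' * MM K W' ε) * N - N' * (MM K W ε * N)) := by
          rw [e3, mul_sub, sub_mul, mul_assoc N' (MM K W ε) N]
      _ = _ := by rw [e2, e1, one_mul, mul_one, mul_sub]
  rw [e4, add_sub_cancel]

lemma Cfs_diff (hB : Base g K) {ε v : ℝ} (h0 : 0 < ε) (h1 : ε ≤ 1 / 2) (hv : 8 * ε * v ≤ 1)
    {W W' : H →L[ℂ] H} (hW : ‖W‖ ≤ v) (hW' : ‖W'‖ ≤ v) :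
    star (Cf K W ε) = star (Cf K W' ε) +
      star (Cf K W ε) * ((ε : ℂ) • star (W' - W)) * star (Cf K W' ε) := by
  conv_lhs => rw [Cf_diff hB h0 h1 hv hW hW']
  rw [star_add, star_mul, star_mul, star_real, mul_assoc]

/-! symmetries of the unperturbed resolvent -/

lemma comm_inv {M N X : H →L[ℂ] H} (h1 : M * N = 1) (h2 : N * M = 1) (h : Commute M X) :
    Commute N X := by
  have h' : M * X = X * M := h
  calc N * X = N * X * (M * N) := by rw [h1, mul_one]
    _ = N * (X * M) * N := by simp only [mul_assoc]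
    _ = N * (M * X) * N := by rw [h']
    _ = (N * M) * X * N := by simp only [mul_assoc]
    _ = X * N := by rw [h2, one_mul]

lemma comm_M {X : H →L[ℂ] H} (h : Commute K X) (ε : ℝ) : Commute (MM K 0 ε) X := by
  unfold MM
  rw [zero_mul, smul_zero, add_zero]
  exact (((Commute.one_left X).smul_left _).add_left (h.smul_left _))

lemma star_comm {X Y : H →L[ℂ] H} (h : Commute X Y) : Commute (star X) (star Y) := by
  have h' : X * Y = Y * X := h
  change star X * star Y = star Y * star X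
  rw [← star_mul, ← star_mul, h']

lemma star_MM0 (ε : ℝ) : star (MM K 0 ε) = MM (star K) 0 ε := by
  unfold MM
  rw [zero_mul, zero_mul, smul_zero, add_zero, add_zero, star_add, star_real, star_real, star_one]

lemma g_MM (hB : Base g K) (ε : ℝ) : g * MM K 0 ε * g = star (MM K 0 ε) := by
  rw [star_MM0]
  unfold MM
  rw [zero_mul, zero_mul, smul_zero, add_zero, add_zero, mul_add, add_mul, mul_smul_comm,
    smul_mul_assoc, mul_one, hB.gg, mul_smul_comm, smul_mul_assoc, hB.gk]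

lemma g_Cf0 (hB : Base g K) {ε : ℝ} (h0 : 0 < ε) (h1 : ε ≤ 1) :
    g * Cf K 0 ε * g = star (Cf K 0 ε) := by
  have e1 := Ring.mul_inverse_cancel _ (unit0 hB h0 h1)
  have e2 := Ring.inverse_mul_cancel _ (unit0 hB h0 h1)
  rw [Cf_eq]
  set M := MM K 0 ε with hM
  set N := Ring.inverse M with hN
  have hg := hB.gg
  have e3 : g * N * g = star N := by
    have e4 : g * N * g * star M = 1 := by
      rw [hM, ← g_MM hB, ← hM]
      calc g * N * g * (g * M * g) = g * N * (g * g) * M * g := by simp only [mul_assoc]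
        _ = g * (N * M) * g := by rw [hg]; simp only [mul_assoc, mul_one]
        _ = 1 := by rw [e2, mul_one, hg]
    have e5 : star M * star N = 1 := by rw [← star_mul, e2, star_one]
    calc g * N * g = g * N * g * (star M * star N) := by rw [e5, mul_one]
      _ = _ := by rw [← mul_assoc, e4, one_mul]
  have e6 : Commute (star N) (star K) := star_comm
    (comm_inv e1 e2 (comm_M (Commute.refl K) ε))
  calc g * (K * N) * g = (g * K * g) * (g * N * g) := by
        calc g * (K * N) * g = g * K * (g * g) * N * g := by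
              rw [hg]; simp only [mul_assoc, one_mul]
          _ = _ := by simp only [mul_assoc]
    _ = star K * star N := by rw [hB.gk, e3]
    _ = star N * star K := e6.eq.symm
    _ = _ := by rw [star_mul]

lemma normal0 (hB : Base g K) {ε : ℝ} (h0 : 0 < ε) (h1 : ε ≤ 1) :
    Commute (Cf K 0 ε) (star (Cf K 0 ε)) := by
  have e1 := Ring.mul_inverse_cancel _ (unit0 hB h0 h1)
  have e2 := Ring.inverse_mul_cancel _ (unit0 hB h0 h1)
  have e1' : star (MM K 0 ε) * star (Ring.inverse (MM K 0 ε)) = 1 := by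
    rw [← star_mul, e2, star_one]
  have e2' : star (Ring.inverse (MM K 0 ε)) * star (MM K 0 ε) = 1 := by
    rw [← star_mul, e1, star_one]
  rw [Cf_eq, star_mul]
  have c1 : Commute K (star K) := comm_K hB
  have c2 : Commute (Ring.inverse (MM K 0 ε)) (star K) := comm_inv e1 e2 (comm_M c1 ε)
  have c3 : Commute K (star (Ring.inverse (MM K 0 ε))) := by
    have := star_comm c2
    rw [star_star] at this
    exact this.symm
  have c4 : Commute (Ring.inverse (MM K 0 ε)) (star (Ring.inverse (MM K 0 ε))) :=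
    comm_inv e1 e2 (comm_M c3 ε)
  exact (Commute.mul_left (c3.mul_right c1) (c4.mul_right c2))

end res

/-! ### families -/

section fam

variable {g K : H →L[ℂ] H} {ι : Type*} {e δ ρ : ι → ℝ} {v : ℝ}

/-- standing assumptions on the scale. -/
structure Sc (e : ι → ℝ) (v : ℝ) : Prop where
  pos : ∀ i, 0 < e i
  half : ∀ i, e i ≤ 1 / 2
  sm : ∀ i, 8 * e i * v ≤ 1

lemma Sc.le1 (h : Sc e v) (i : ι) : e i ≤ 1 := by linarith [h.half i]

lemma oo_cf (hB : Base g K) (he : Sc e v) {W : ι → H →L[ℂ] H} (hW : ∀ i, ‖W i‖ ≤ v) :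
    OO e 1 (fun i => Cf K (W i) (e i)) := by
  obtain ⟨c, hc⟩ := hB.app
  have hc0 := hc.nonneg
  refine ⟨max 8 (2 * c), fun i => ⟨(norm_Cf hB (he.pos i) (he.half i) (he.sm i) (hW i)).trans
    (le_max_left _ _), ?_⟩⟩
  have h1 := hc.right (Ring.inverse (MM K (W i) (e i)))
  have h2 := norm_invW hB (he.pos i) (he.half i) (he.sm i) (hW i)
  have he0 := he.pos i
  rw [pow_one, Nat.cast_one]
  refine app_mono h1 ?_
  calc c * ‖Ring.inverse (MM K (W i) (e i))‖ ≤ c * (2 * (e i)⁻¹) :=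
        mul_le_mul_of_nonneg_left h2 hc0
    _ = 2 * c * (e i)⁻¹ := by ring
    _ ≤ max 8 (2 * c) * (e i)⁻¹ := mul_le_mul_of_nonneg_right (le_max_right _ _) (by positivity)

lemma oo_cfs (hB : Base g K) (he : Sc e v) {W : ι → H →L[ℂ] H} (hW : ∀ i, ‖W i‖ ≤ v) :
    OO e 1 (fun i => star (Cf K (W i) (e i))) := by
  obtain ⟨c, hc⟩ := hB.app
  have hc0 := hc.nonneg
  refine ⟨max 8 (2 * c), fun i => ⟨?_, ?_⟩⟩
  · rw [norm_star]
    exact (norm_Cf hB (he.pos i) (he.half i) (he.sm i) (hW i)).trans (le_max_left _ _)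
  · have h1 := hc.left (star (Ring.inverse (MM K (W i) (e i))) * ((2 : ℂ) • star K - 1))
    have h2 := norm_invW hB (he.pos i) (he.half i) (he.sm i) (hW i)
    have he0 := he.pos i
    have e1 : star (Cf K (W i) (e i)) =
        (star (Ring.inverse (MM K (W i) (e i))) * ((2 : ℂ) • star K - 1)) ∘L K := by
      rw [Cf_eq, star_mul, ← ContinuousLinearMap.mul_def, mul_assoc]
      conv_lhs => rw [starK_eq hB]
    beta_reduce
    rw [pow_one, Nat.cast_one, e1]
    refine app_mono h1 ?_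
    calc ‖star (Ring.inverse (MM K (W i) (e i))) * ((2 : ℂ) • star K - 1)‖ * c
        ≤ (2 * (e i)⁻¹ * 1) * c := by
          refine mul_le_mul_of_nonneg_right ((norm_mul_le _ _).trans ?_) hc0
          rw [norm_star]
          exact mul_le_mul h2 (norm_u' hB) (norm_nonneg _) (by positivity)
      _ = 2 * c * (e i)⁻¹ := by ring
      _ ≤ max 8 (2 * c) * (e i)⁻¹ :=
          mul_le_mul_of_nonneg_right (le_max_right _ _) (by positivity)

lemma sim_cf (hB : Base g K) (he : Sc e v) {W W' D : ι → H →L[ℂ] H} (hW : ∀ i, ‖W i‖ ≤ v)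
    (hW' : ∀ i, ‖W' i‖ ≤ v) (hD : OO e 0 D)
    (h : ∀ i, (e i : ℂ) • (W' i - W i) = (δ i : ℂ) • D i) :
    Sim e δ ρ 1 (fun i => Cf K (W i) (e i)) (fun i => Cf K (W' i) (e i)) := by
  refine ⟨oo_cf hB he hW, oo_cf hB he hW', _, _,
    oo_mul (oo_mul (oo_cf hB he hW') hD) (oo_cf hB he hW).zero', fr_zero, fun i => ?_⟩
  have h1 := Cf_diff hB (he.pos i) (he.half i) (he.sm i) (hW i) (hW' i)
  beta_reduce
  refine h1.trans ?_
  rw [h i, mul_smul_comm, smul_mul_assoc, smul_zero, add_zero]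

lemma sim_cfs (hB : Base g K) (he : Sc e v) {W W' D : ι → H →L[ℂ] H} (hW : ∀ i, ‖W i‖ ≤ v)
    (hW' : ∀ i, ‖W' i‖ ≤ v) (hD : OO e 0 D)
    (h : ∀ i, (e i : ℂ) • (W' i - W i) = (δ i : ℂ) • D i) :
    Sim e δ ρ 1 (fun i => star (Cf K (W i) (e i))) (fun i => star (Cf K (W' i) (e i))) := by
  have hD' : OO e 0 (fun i => star (D i)) := by
    obtain ⟨A, -, hA⟩ := hD.bd
    exact oo_bd (A := A) fun i => by rw [norm_star]; exact hA i
  refine ⟨oo_cfs hB he hW, oo_cfs hB he hW', _, _,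
    oo_mul (oo_mul (oo_cfs hB he hW) hD') (oo_cfs hB he hW').zero', fr_zero, fun i => ?_⟩
  have h1 := Cfs_diff hB (he.pos i) (he.half i) (he.sm i) (hW i) (hW' i)
  have h2 : (e i : ℂ) • star (W' i - W i) = (δ i : ℂ) • star (D i) := by
    rw [← star_real, ← star_real, h i]
  beta_reduce
  refine h1.trans ?_
  rw [h2, mul_smul_comm, smul_mul_assoc, smul_zero, add_zero]

/-- the word. -/
def prodT (g C S : H →L[ℂ] H) (B : Fin 4 → H →L[ℂ] H) : H →L[ℂ] H :=
  g * C * B 0 * (S * C) * B 1 * (S * C) * B 2 * (S * C) * B 3 * C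

lemma sim_prod {C C' S S' : ι → H →L[ℂ] H} {B B' : Fin 4 → ι → H →L[ℂ] H}
    (hC : Sim e δ ρ 1 C C') (hS : Sim e δ ρ 1 S S') (hBB : ∀ a, Sim e δ ρ 0 (B a) (B' a)) :
    Sim e δ ρ 8 (fun i => prodT g (C i) (S i) (fun a => B a i))
      (fun i => prodT g (C' i) (S' i) (fun a => B' a i)) := by
  have hg : Sim e δ ρ 0 (fun _ => g) (fun _ => g) := sim_refl (oo_bd fun _ => le_rfl)
  exact (((((((((hg.mul hC).mul (hBB 0)).mul (hS.mul hC)).mul (hBB 1)).mul (hS.mul hC)).mul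
    (hBB 2)).mul (hS.mul hC)).mul (hBB 3)).mul hC)

lemma move {X Y G : ι → H →L[ℂ] H} (hX : OO e 0 X) (hY : OO e 0 Y)
    (h1 : Sim e δ ρ 2 (fun i => X i * G i) (fun i => G i * X i))
    (h2 : Sim e δ ρ 2 (fun i => Y i * G i) (fun i => G i * Y i)) :
    Sim e δ ρ 2 (fun i => (X i * Y i) * G i) (fun i => G i * (X i * Y i)) := by
  have a1 : Sim e δ ρ 2 (fun i => X i * (Y i * G i)) (fun i => X i * (G i * Y i)) :=
    (sim_refl hX).mul h2
  have a2 : Sim e δ ρ 2 (fun i => (X i * G i) * Y i) (fun i => (G i * X i) * Y i) :=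
    h1.mul (sim_refl hY)
  simp only [mul_assoc] at a1 a2 ⊢
  exact a1.trans a2

/-- moving the four `G` to the left. -/
lemma move4 {G : ι → H →L[ℂ] H} (hG : OO e 2 G) (b : Fin 4 → H →L[ℂ] H)
    (h : ∀ a, Sim e δ ρ 2 (fun i => b a * G i) (fun i => G i * b a)) :
    Sim e δ ρ 8 (fun i => g * G i * b 0 * G i * b 1 * G i * b 2 * G i * b 3)
      (fun i => g * (G i) ^ 4 * (b 0 * b 1 * b 2 * b 3)) := by
  have hg : Sim e δ ρ 0 (fun _ => g) (fun _ => g) := sim_refl (oo_bd fun _ => le_rfl)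
  have hb : ∀ a, OO e 0 (fun _ : ι => b a) := fun a => oo_bd fun _ => le_rfl
  have m0 := h 0
  have m1 := move (hb 0) (hb 1) m0 (h 1)
  have m2 := move (oo_mul (hb 0) (hb 1)) (hb 2) m1 (h 2)
  have hGG : Sim e δ ρ 2 G G := sim_refl hG
  have s1 : Sim e δ ρ 8
      (fun i => g * G i * (b 0 * G i) * (b 1 * G i * b 2 * G i * b 3))
      (fun i => g * G i * (G i * b 0) * (b 1 * G i * b 2 * G i * b 3)) :=
    ((hg.mul hGG).mul m0).mul (sim_refl (oo_mul (oo_mul (oo_mul (oo_mul (hb 1) hG) (hb 2)) hG)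
      (hb 3)))
  have s2 : Sim e δ ρ 8
      (fun i => g * G i * G i * (b 0 * b 1 * G i) * (b 2 * G i * b 3))
      (fun i => g * G i * G i * (G i * (b 0 * b 1)) * (b 2 * G i * b 3)) :=
    (((hg.mul hGG).mul hGG).mul m1).mul (sim_refl (oo_mul (oo_mul (hb 2) hG) (hb 3)))
  have s3 : Sim e δ ρ 8
      (fun i => g * G i * G i * G i * (b 0 * b 1 * b 2 * G i) * b 3)
      (fun i => g * G i * G i * G i * (G i * (b 0 * b 1 * b 2)) * b 3) :=
    ((((hg.mul hGG).mul hGG).mul hGG).mul m2).mul (sim_refl (hb 3))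
  have hp : ∀ i, (G i) ^ 4 = G i * (G i * (G i * G i)) := fun i => by
    rw [show (4 : ℕ) = 3 + 1 from rfl, pow_succ', pow_succ', pow_two]
  simp only [hp]
  simp only [mul_assoc] at s1 s2 s3 ⊢
  exact (s1.trans s2).trans s3

end fam

/-! ### traces -/

section traces

variable {g K : H →L[ℂ] H}

lemma nuc_of {ι : Type*} {e : ι → ℝ} {k : ℕ} {T : ι → H →L[ℂ] H} (h : OO e k T) (hk : 4 < k)
    (i : ι) : ∃ c, IsNuc (T i) c := by
  obtain ⟨A, hA⟩ := h
  have h4 : (4 : ℝ) < k := by exact_mod_cast hk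
  exact ⟨_, (hA i).2.isNuc (by linarith)⟩

lemma tr_fsum {α : Type*} (s : Finset α) (T : α → H →L[ℂ] H) (h : ∀ a, ∃ c, IsNuc (T a) c) :
    RCTr_746.tr (∑ a ∈ s, T a) = ∑ a ∈ s, RCTr_746.tr (T a) ∧ ∃ c, IsNuc (∑ a ∈ s, T a) c := by
  classical
  induction s using Finset.induction_on with
  | empty => exact ⟨by simp, 0, by simpa using IsNuc.zero⟩
  | insert a s ha ih =>
    obtain ⟨h1, c, h2⟩ := ih
    obtain ⟨d, h3⟩ := h a
    rw [Finset.sum_insert ha, Finset.sum_insert ha]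
    exact ⟨by rw [tr_add h3 h2, h1], _, h3.add h2⟩

lemma tr_swap {T : H →L[ℂ] H} {c : ℝ} (hT : IsNuc T c) (A : H →L[ℂ] H) :
    RCTr_746.tr (A * T) = RCTr_746.tr (T * A) := tr_comm hT A

lemma g_star (hB : Base g K) {ε : ℝ} (h0 : 0 < ε) (h1 : ε ≤ 1) :
    g * star (Cf K 0 ε) * g = Cf K 0 ε := by
  have h := congrArg star (g_Cf0 hB h0 h1)
  rw [star_star, star_mul, star_mul, hB.gs, ← mul_assoc] at h
  exact h

lemma g_G (hB : Base g K) {ε : ℝ} (h0 : 0 < ε) (h1 : ε ≤ 1) :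
    Commute g (star (Cf K 0 ε) * Cf K 0 ε) := by
  have hg := hB.gg
  have e1 : g * (star (Cf K 0 ε) * Cf K 0 ε) * g = star (Cf K 0 ε) * Cf K 0 ε := by
    calc g * (star (Cf K 0 ε) * Cf K 0 ε) * g =
          g * star (Cf K 0 ε) * (g * g) * Cf K 0 ε * g := by
            rw [hg, mul_one]; simp only [mul_assoc]
      _ = (g * star (Cf K 0 ε) * g) * (g * Cf K 0 ε * g) := by simp only [mul_assoc]
      _ = Cf K 0 ε * star (Cf K 0 ε) := by rw [g_star hB h0 h1, g_Cf0 hB h0 h1]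
      _ = _ := normal0 hB h0 h1
  change g * (star (Cf K 0 ε) * Cf K 0 ε) = star (Cf K 0 ε) * Cf K 0 ε * g
  calc g * (star (Cf K 0 ε) * Cf K 0 ε) =
        g * (star (Cf K 0 ε) * Cf K 0 ε) * (g * g) := by rw [hg, mul_one]
    _ = (g * (star (Cf K 0 ε) * Cf K 0 ε) * g) * g := by simp only [mul_assoc]
    _ = _ := by rw [e1]

lemma tr_word (hB : Base g K) {ε : ℝ} (h0 : 0 < ε) (h1 : ε ≤ 1 / 2) (b : Fin 4 → H →L[ℂ] H) :
    RCTr_746.tr (prodT g (Cf K 0 ε) (star (Cf K 0 ε)) b) =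
      RCTr_746.tr (g * Gr K ε * b 0 * Gr K ε * b 1 * Gr K ε * b 2 * Gr K ε * b 3) := by
  have he : Sc (fun _ : Unit => ε) 0 := ⟨fun _ => h0, fun _ => h1, fun _ => by simp⟩
  have hC : OO (fun _ : Unit => ε) 1 (fun _ => Cf K 0 ε) :=
    oo_cf hB he (W := fun _ => 0) (fun _ => by simp)
  have hS : OO (fun _ : Unit => ε) 1 (fun _ => star (Cf K 0 ε)) :=
    oo_cfs hB he (W := fun _ => 0) (fun _ => by simp)
  have hb : ∀ a, OO (fun _ : Unit => ε) 0 (fun _ => b a) := fun a => oo_bd fun _ => le_rfl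
  have hg : OO (fun _ : Unit => ε) 0 (fun _ => g) := oo_bd fun _ => le_rfl
  have hSC := oo_mul hS hC
  have hT := oo_mul (oo_mul (oo_mul (oo_mul (oo_mul (oo_mul (oo_mul (oo_mul hg hC) (hb 0)) hSC)
    (hb 1)) hSC) (hb 2)) hSC) (hb 3)
  obtain ⟨c, hc⟩ := nuc_of hT (by norm_num) ()
  have hGr : Gr K ε = star (Cf K 0 ε) * Cf K 0 ε := by unfold Gr; rw [Cr_eq]
  have e1 : Cf K 0 ε * g * Cf K 0 ε = g * (star (Cf K 0 ε) * Cf K 0 ε) := by
    rw [← g_Cf0 hB h0 (by linarith)]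
    have hg := hB.gg
    calc Cf K 0 ε * g * Cf K 0 ε = (g * g) * Cf K 0 ε * g * Cf K 0 ε := by rw [hg, one_mul]
      _ = _ := by simp only [mul_assoc]
  unfold prodT
  rw [← tr_swap hc, hGr]
  congr 1
  calc Cf K 0 ε * (g * Cf K 0 ε * b 0 * (star (Cf K 0 ε) * Cf K 0 ε) * b 1 *
        (star (Cf K 0 ε) * Cf K 0 ε) * b 2 * (star (Cf K 0 ε) * Cf K 0 ε) * b 3) =
        (Cf K 0 ε * g * Cf K 0 ε) * b 0 * (star (Cf K 0 ε) * Cf K 0 ε) * b 1 *
        (star (Cf K 0 ε) * Cf K 0 ε) * b 2 * (star (Cf K 0 ε) * Cf K 0 ε) * b 3 := by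
          simp only [mul_assoc]
    _ = _ := by rw [e1]

lemma nuc_G4 (hB : Base g K) {ε : ℝ} (h0 : 0 < ε) (h1 : ε ≤ 1 / 2) :
    ∃ c, IsNuc ((Gr K ε) ^ 4) c := by
  have he : Sc (fun _ : Unit => ε) 0 := ⟨fun _ => h0, fun _ => h1, fun _ => by simp⟩
  have hC : OO (fun _ : Unit => ε) 1 (fun _ => Cf K 0 ε) :=
    oo_cf hB he (W := fun _ => 0) (fun _ => by simp)
  have hS : OO (fun _ : Unit => ε) 1 (fun _ => star (Cf K 0 ε)) :=
    oo_cfs hB he (W := fun _ => 0) (fun _ => by simp)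
  have hSC := oo_mul hS hC
  have hT := oo_mul (oo_mul (oo_mul hSC hSC) hSC) hSC
  obtain ⟨c, hc⟩ := nuc_of hT (by norm_num) ()
  refine ⟨c, ?_⟩
  have hGr : Gr K ε = star (Cf K 0 ε) * Cf K 0 ε := by unfold Gr; rw [Cr_eq]
  rw [hGr, pow_succ, pow_succ, pow_two]
  exact hc

lemma tr_end (hB : Base g K) {ε : ℝ} (h0 : 0 < ε) (h1 : ε ≤ 1 / 2) (b : Fin 4 → H →L[ℂ] H) :
    RCTr_746.tr (g * (Gr K ε) ^ 4 * (b 0 * b 1 * b 2 * b 3)) =
      RCTr_746.tr ((g * b 0 * b 1 * b 2 * b 3) * (Gr K ε) ^ 4) := by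
  obtain ⟨c, hc⟩ := nuc_G4 hB h0 h1
  have hGr : Gr K ε = star (Cf K 0 ε) * Cf K 0 ε := by unfold Gr; rw [Cr_eq]
  have h2 : Commute g (Gr K ε) := by rw [hGr]; exact g_G hB h0 (by linarith)
  have h3 : g * (Gr K ε) ^ 4 = (Gr K ε) ^ 4 * g := (h2.pow_right 4)
  rw [tr_swap hc, h3]
  simp only [mul_assoc]

end traces

/-! ### the main estimate -/

section main

variable {g K : H →L[ℂ] H} {V : (Fin 4 → ℝ) → H →L[ℂ] H} {b U : Fin 4 → H →L[ℂ] H} {L : ℂ}

/-- the cube. -/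
def Q4 : Set (Fin 4 → ℝ) := Icc 0 1

lemma isCompact_Q4 : IsCompact Q4 := isCompact_Icc

lemma cont_pd (hV : ContDiff ℝ ∞ V) (a : Fin 4) : Continuous (pdθ a V) := by
  unfold pdθ
  exact (hV.continuous_fderiv (by simp)).clm_apply continuous_const

/-- the parameter set. -/
def Par (ε0 : ℝ) : Type := {p : ℝ × (Fin 4 → ℝ) // 0 < p.1 ∧ p.1 ≤ ε0 ∧ p.2 ∈ Q4}

/-- the trace of a word. -/
def trT (g K : H →L[ℂ] H) (V : (Fin 4 → ℝ) → H →L[ℂ] H) (σ : Equiv.Perm (Fin 4)) (ε : ℝ)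
    (h : Fin 4 → ℝ) : ℂ :=
  RCTr_746.tr (prodT g (Cf K (V h) ε) (star (Cf K (V h) ε)) (fun j => pdθ (σ j) V h))

lemma dens_eq (ε : ℝ) (h : Fin 4 → ℝ) :
    dens g K V ε h = (ε : ℂ) ^ 4 * ∑ σ : Equiv.Perm (Fin 4), sg σ * trT g K V σ ε h := rfl

/-- the limiting word. -/
def trB (g K : H →L[ℂ] H) (b : Fin 4 → H →L[ℂ] H) (σ : Equiv.Perm (Fin 4)) (ε : ℝ) : ℂ :=
  RCTr_746.tr ((g * b (σ 0) * b (σ 1) * b (σ 2) * b (σ 3)) * (Gr K ε) ^ 4)

lemma weyl_eq (hB : Base g K) {ε : ℝ} (h0 : 0 < ε) (h1 : ε ≤ 1 / 2) :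
    RCTr_746.tr ((∑ σ : Equiv.Perm (Fin 4),
      sg σ • (g * b (σ 0) * b (σ 1) * b (σ 2) * b (σ 3))) * (Gr K ε) ^ 4) =
      ∑ σ : Equiv.Perm (Fin 4), sg σ * trB g K b σ ε := by
  obtain ⟨c, hc⟩ := nuc_G4 hB h0 h1
  rw [Finset.sum_mul]
  have h2 := (tr_fsum (Finset.univ : Finset (Equiv.Perm (Fin 4)))
    (fun σ => sg σ • (g * b (σ 0) * b (σ 1) * b (σ 2) * b (σ 3)) * (Gr K ε) ^ 4)
    (fun σ => ⟨_, hc.left _⟩)).1
  rw [h2]
  refine Finset.sum_congr rfl fun σ _ => ?_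
  rw [smul_mul_assoc, tr_smul]
  rfl

lemma norm_sg (σ : Equiv.Perm (Fin 4)) : ‖sg σ‖ = 1 := by
  unfold sg
  rcases Int.units_eq_one_or (Equiv.Perm.sign σ) with h | h <;> simp [h]

lemma bounds (hV : ContDiff ℝ ∞ V) : ∃ v : ℝ, 0 ≤ v ∧ (∀ h ∈ Q4, ‖V h‖ ≤ v) ∧
    ∀ a, ∀ h ∈ Q4, ‖pdθ a V h‖ ≤ v := by
  obtain ⟨v0, hv0⟩ := isCompact_Q4.exists_bound_of_continuousOn hV.continuous.continuousOn
  choose w hw using fun a => isCompact_Q4.exists_bound_of_continuousOn
    (cont_pd hV a).continuousOn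
  refine ⟨max 0 (max v0 (∑ a, |w a|)), le_max_left _ _, fun h hh => (hv0 h hh).trans
    ((le_max_left _ _).trans (le_max_right _ _)), fun a h hh => (hw a h hh).trans ?_⟩
  refine (le_abs_self _).trans ((Finset.single_le_sum (f := fun a => |w a|)
    (fun _ _ => abs_nonneg _) (Finset.mem_univ a)).trans
      ((le_max_right _ _).trans (le_max_right _ _)))

lemma smul_split {δ : ℝ} {X : H →L[ℂ] H} (hX : ‖X‖ ≤ δ) :
    X = (δ : ℂ) • ((δ : ℂ)⁻¹ • X) ∧ ‖(δ : ℂ)⁻¹ • X‖ ≤ 1 := by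
  have h0 : 0 ≤ δ := (norm_nonneg _).trans hX
  rcases h0.eq_or_lt with h | h
  · have hX0 : X = 0 := by
      rw [← norm_eq_zero]; exact le_antisymm (by rw [h]; exact hX) (norm_nonneg _)
    subst hX0
    simp
  · have h' : (δ : ℂ) ≠ 0 := by exact_mod_cast h.ne'
    refine ⟨by rw [smul_smul, mul_inv_cancel₀ h', one_smul], ?_⟩
    rw [norm_smul, norm_inv, Complex.norm_real, Real.norm_eq_abs, abs_of_pos h,
      ← div_eq_inv_mul, div_le_one h]
    exact hX

/-- comparison with the limiting words, and continuity. -/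
theorem main_est (hB : Base g K) (hF : Fam g K V b U) (hI : Inf g K b L) :
    ∃ ε0 : ℝ, 0 < ε0 ∧ ε0 ≤ 1 / 2 ∧ ∀ σ : Equiv.Perm (Fin 4),
      (∃ c : ℝ, ∀ ε, 0 < ε → ε ≤ ε0 → ∀ h ∈ Q4,
        ‖trT g K V σ ε h - trB g K b σ ε‖ ≤ c * (ε * (ε⁻¹) ^ 4 + 1)) ∧
      ∀ ε, 0 < ε → ε ≤ ε0 → ContinuousOn (trT g K V σ ε) Q4 := by
  obtain ⟨v, hv0, hv, hw⟩ := bounds hF.smooth
  obtain ⟨r, hr⟩ := hF.rk
  set ε0 : ℝ := min (1 / 2) (1 / (8 * (v + 1))) with hε0
  have hε0p : 0 < ε0 := lt_min (by norm_num) (by positivity)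
  refine ⟨ε0, hε0p, min_le_left _ _, fun σ => ?_⟩
  set ι := Par ε0 with hι
  set e : ι → ℝ := fun i => i.1.1 with he_def
  have he : Sc e v := by
    refine ⟨fun i => i.2.1, fun i => i.2.2.1.trans (min_le_left _ _), fun i => ?_⟩
    have h1 : e i ≤ 1 / (8 * (v + 1)) := i.2.2.1.trans (min_le_right _ _)
    have h2 : 0 < e i := i.2.1
    rw [le_div_iff₀ (by positivity)] at h1
    nlinarith
  have he1 : ∀ i, e i ≤ 1 := he.le1
  have hWb : ∀ i : ι, ‖V i.1.2‖ ≤ v := fun i => hv _ i.2.2.2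
  have hPb : ∀ a, OO e 0 (fun i : ι => pdθ a V i.1.2) := fun a =>
    oo_bd fun i => hw a _ i.2.2.2
  refine ⟨?_, ?_⟩
  · -- comparison
    have hD : OO e 0 (fun i : ι => (0 : H →L[ℂ] H) - V i.1.2) := by
      refine oo_bd (A := v) fun i => ?_
      rw [zero_sub, norm_neg]; exact hWb i
    have hC : Sim e e (fun _ => 1) 1 (fun i : ι => Cf K (V i.1.2) (e i))
        (fun i => Cf K 0 (e i)) :=
      sim_cf hB he hWb (W' := fun _ => 0) (fun _ => by simpa using hv0) hD fun i => rfl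
    have hS : Sim e e (fun _ => 1) 1 (fun i : ι => star (Cf K (V i.1.2) (e i)))
        (fun i => star (Cf K 0 (e i))) :=
      sim_cfs hB he hWb (W' := fun _ => 0) (fun _ => by simpa using hv0) hD fun i => rfl
    have hBB : ∀ a, Sim e e (fun _ => 1) 0 (fun i : ι => pdθ (σ a) V i.1.2)
        (fun _ => b (σ a)) := by
      intro a
      refine ⟨hPb _, oo_bd fun _ => le_rfl, fun _ => 0,
        fun i => pdθ (σ a) V i.1.2 - b (σ a), oo_zero,
        ⟨r, v + ‖b (σ a)‖, fun i => ⟨hr _ _, (norm_sub_le _ _).trans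
          (add_le_add (hw _ _ i.2.2.2) le_rfl)⟩⟩, fun i => ?_⟩
      simp
    obtain ⟨c1, hc1⟩ := (sim_prod (g := g) hC hS hBB).tr he.pos he1
    -- moving `G`
    have hG : OO e 2 (fun i : ι => Gr K (e i)) := by
      have h1 : OO e 2 (fun i : ι => star (Cf K 0 (e i)) * Cf K 0 (e i)) :=
        oo_mul hS.2.1 hC.2.1
      have h2 : (fun i : ι => Gr K (e i)) = fun i => star (Cf K 0 (e i)) * Cf K 0 (e i) := by
        funext i; unfold Gr; rw [Cr_eq]
      rw [h2]; exact h1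
    have hm : ∀ a, Sim e e (fun _ => 1) 2 (fun i : ι => b a * Gr K (e i))
        (fun i => Gr K (e i) * b a) := by
      intro a
      obtain ⟨c, hc⟩ := hI.com a
      choose Z hZ1 hZ2 using fun i : ι => hc (e i) (he.pos i) (he1 i)
      have hb : OO e 0 (fun _ : ι => b a) := oo_bd fun _ => le_rfl
      refine ⟨oo_mul hb hG, oo_mul hG hb, fun i => Gr K (e i) * Z i, fun _ => 0,
        oo_mul hG (oo_bd hZ1), fr_zero, fun i => ?_⟩
      beta_reduce
      rw [hZ2 i]; simp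
    obtain ⟨c2, hc2⟩ := (move4 (g := g) hG (fun j => b (σ j)) fun j => hm (σ j)).tr he.pos he1
    refine ⟨c1 + c2, fun ε h0 h1 h hh => ?_⟩
    set i : ι := ⟨(ε, h), h0, h1, hh⟩ with hi
    have hε2 : ε ≤ 1 / 2 := h1.trans (min_le_left _ _)
    have a1 := hc1 i
    have a2 := hc2 i
    beta_reduce at a1 a2
    have b1 := tr_word hB h0 hε2 (fun j => b (σ j))
    have b2 := tr_end hB h0 hε2 (fun j => b (σ j))
    beta_reduce at b1 b2
    have hei : e i = ε := rfl
    rw [hei] at a1 a2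
    rw [abs_of_pos h0, abs_one] at a1 a2
    change ‖trT g K V σ ε h - _‖ ≤ _ at a1
    rw [b1] at a1
    rw [b2] at a2
    change ‖_ - trB g K b σ ε‖ ≤ _ at a2
    calc ‖trT g K V σ ε h - trB g K b σ ε‖ ≤ _ := norm_sub_le_norm_sub_add_norm_sub _ _ _
      _ ≤ c1 * (ε * (ε⁻¹) ^ 4 + 1) + c2 * (ε * (ε⁻¹) ^ 4 + 1) := add_le_add a1 a2
      _ = _ := by ring
  · -- continuity
    intro ε h0 h1 h' hh'
    set δf : (Fin 4 → ℝ) → ℝ := fun h => ‖V h - V h'‖ + ∑ a, ‖pdθ a V h - pdθ a V h'‖ with hδf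
    have hδf0 : ∀ h, 0 ≤ δf h := fun h => by positivity
    have hδV : ∀ h, ‖V h' - V h‖ ≤ δf h := fun h => by
      rw [norm_sub_rev]
      exact le_add_of_nonneg_right (Finset.sum_nonneg fun _ _ => norm_nonneg _)
    have hδp : ∀ a h, ‖pdθ a V h - pdθ a V h'‖ ≤ δf h := fun a h =>
      (Finset.single_le_sum (f := fun a => ‖pdθ a V h - pdθ a V h'‖)
        (fun _ _ => norm_nonneg _) (Finset.mem_univ a)).trans
        (le_add_of_nonneg_left (norm_nonneg _))
    set δ : ι → ℝ := fun i => δf i.1.2 with hδ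
    have hW'b : ∀ _ : ι, ‖V h'‖ ≤ v := fun _ => hv _ hh'
    have hD : OO e 0 (fun i : ι => (e i : ℂ) • ((δ i : ℂ)⁻¹ • (V h' - V i.1.2))) := by
      refine oo_bd (A := 1) fun i => ?_
      rw [norm_smul, Complex.norm_real, Real.norm_eq_abs, abs_of_pos (he.pos i)]
      calc e i * ‖(δ i : ℂ)⁻¹ • (V h' - V i.1.2)‖ ≤ 1 * 1 :=
            mul_le_mul (he1 i) (smul_split (hδV _)).2 (norm_nonneg _) zero_le_one
        _ = 1 := one_mul 1
    have hDe : ∀ i : ι, (e i : ℂ) • (V h' - V i.1.2) =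
        (δ i : ℂ) • ((e i : ℂ) • ((δ i : ℂ)⁻¹ • (V h' - V i.1.2))) := fun i => by
      rw [smul_comm (δ i : ℂ) (e i : ℂ), ← (smul_split (hδV i.1.2)).1]
    have hC : Sim e δ (fun _ => 0) 1 (fun i : ι => Cf K (V i.1.2) (e i))
        (fun i => Cf K (V h') (e i)) :=
      sim_cf hB he hWb (W' := fun _ => V h') hW'b hD hDe
    have hS : Sim e δ (fun _ => 0) 1 (fun i : ι => star (Cf K (V i.1.2) (e i)))
        (fun i => star (Cf K (V h') (e i))) :=
      sim_cfs hB he hWb (W' := fun _ => V h') hW'b hD hDe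
    have hBB : ∀ a, Sim e δ (fun _ => 0) 0 (fun i : ι => pdθ (σ a) V i.1.2)
        (fun _ => pdθ (σ a) V h') := by
      intro a
      refine ⟨hPb _, oo_bd (A := v) fun _ => hw _ _ hh',
        fun i => (δ i : ℂ)⁻¹ • (pdθ (σ a) V i.1.2 - pdθ (σ a) V h'), fun _ => 0,
        oo_bd (A := 1) fun i => (smul_split (hδp (σ a) i.1.2)).2, fr_zero, fun i => ?_⟩
      beta_reduce
      rw [← (smul_split (hδp (σ a) i.1.2)).1]
      simp
    obtain ⟨c, hc⟩ := (sim_prod (g := g) hC hS hBB).tr he.pos he1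
    have hδc : Continuous δf := by
      have h2 := fun a => cont_pd hF.smooth a
      have h3 := hF.smooth.continuous
      fun_prop
    have hδ0 : Tendsto δf (𝓝 h') (𝓝 0) := by
      have := hδc.tendsto h'
      simpa [hδf] using this
    change Tendsto (trT g K V σ ε) (𝓝[Q4] h') (𝓝 (trT g K V σ ε h'))
    rw [tendsto_iff_norm_sub_tendsto_zero]
    refine squeeze_zero' (g := fun h => c * (δf h * (ε⁻¹) ^ 4)) (Eventually.of_forall fun _ =>
      norm_nonneg _) ?_ ?_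
    · filter_upwards [self_mem_nhdsWithin] with h hh
      have a1 := hc ⟨(ε, h), h0, h1, hh⟩
      beta_reduce at a1
      rw [abs_zero, add_zero, abs_of_nonneg (hδf0 _)] at a1
      exact a1
    · have := ((hδ0.mono_left (nhdsWithin_le_nhds (s := Q4))).mul_const ((ε⁻¹) ^ 4)).const_mul c
      simpa using this

end main

/-- **INF**: `ε → 0`. -/
theorem inf : INF := by
  intro H _ _ _ g K V b U L hB hF hI
  obtain ⟨ε0, hε0, hε1, hσ⟩ := main_est hB hF hI
  choose hσ1 hσ2 using hσ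
  choose c hc using hσ1
  set d0 : ℝ → ℂ := fun ε => (ε : ℂ) ^ 4 * RCTr_746.tr ((∑ σ : Equiv.Perm (Fin 4),
    sg σ • (g * b (σ 0) * b (σ 1) * b (σ 2) * b (σ 3))) * (Gr K ε) ^ 4) with hd0
  have hcont : ∀ ε, 0 < ε → ε ≤ ε0 → ContinuousOn (dens g K V ε) Q4 := by
    intro ε h0 h1
    have : dens g K V ε = fun h => (ε : ℂ) ^ 4 *
        ∑ σ : Equiv.Perm (Fin 4), sg σ * trT g K V σ ε h := by
      funext h; exact dens_eq ε h
    rw [this]
    exact continuousOn_const.mul (continuousOn_finsetSum _ fun σ _ =>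
      continuousOn_const.mul (hσ2 σ ε h0 h1))
  have hest : ∀ ε, 0 < ε → ε ≤ ε0 → ∀ h ∈ Q4,
      ‖dens g K V ε h - d0 ε‖ ≤ (∑ σ, c σ) * (ε + ε ^ 4) := by
    intro ε h0 h1 h hh
    have e1 : dens g K V ε h - d0 ε = (ε : ℂ) ^ 4 *
        ∑ σ : Equiv.Perm (Fin 4), sg σ * (trT g K V σ ε h - trB g K b σ ε) := by
      rw [dens_eq, hd0]
      beta_reduce
      rw [weyl_eq hB h0 (h1.trans hε1), ← mul_sub, ← Finset.sum_sub_distrib]
      simp only [mul_sub]
    rw [e1, norm_mul, norm_pow, Complex.norm_real, Real.norm_eq_abs, abs_of_pos h0]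
    calc ε ^ 4 * ‖∑ σ : Equiv.Perm (Fin 4), sg σ * (trT g K V σ ε h - trB g K b σ ε)‖
        ≤ ε ^ 4 * ∑ σ : Equiv.Perm (Fin 4), c σ * (ε * (ε⁻¹) ^ 4 + 1) := by
          refine mul_le_mul_of_nonneg_left ((norm_sum_le _ _).trans
            (Finset.sum_le_sum fun σ _ => ?_)) (by positivity)
          rw [norm_mul, norm_sg, one_mul]
          exact hc σ ε h0 h1 h hh
      _ = (∑ σ, c σ) * (ε + ε ^ 4) := by
          rw [← Finset.sum_mul]
          field_simp
  have hvol : (volume : Measure (Fin 4 → ℝ)).real Q4 = 1 := by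
    unfold Q4
    rw [Measure.real, Real.volume_Icc_pi]
    simp
  have hfin : (volume : Measure (Fin 4 → ℝ)) Q4 ≠ ⊤ := isCompact_Q4.measure_lt_top.ne
  have hint : ∀ ε, 0 < ε → ε ≤ ε0 →
      ‖(∫ h in Q4, dens g K V ε h) - d0 ε‖ ≤ (∑ σ, c σ) * (ε + ε ^ 4) := by
    intro ε h0 h1
    have h2 : IntegrableOn (dens g K V ε) Q4 :=
      (hcont ε h0 h1).integrableOn_compact isCompact_Q4
    have h3 : (∫ h in Q4, dens g K V ε h) - d0 ε = ∫ h in Q4, (dens g K V ε h - d0 ε) := by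
      rw [integral_sub h2 (integrableOn_const hfin), setIntegral_const, hvol, one_smul]
    rw [h3]
    refine (norm_setIntegral_le_of_norm_le_const hfin.lt_top (hest ε h0 h1)).trans (le_of_eq ?_)
    rw [hvol, mul_one]
  have hlim : Tendsto (fun ε : ℝ => (∑ σ, c σ) * (ε + ε ^ 4)) (𝓝[>] 0) (𝓝 0) := by
    have h1 : Continuous fun ε : ℝ => (∑ σ, c σ) * (ε + ε ^ 4) := by fun_prop
    have := (h1.tendsto 0).mono_left (nhdsWithin_le_nhds (s := Ioi (0 : ℝ)))
    simpa using this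
  have h4 : Tendsto (fun ε : ℝ => (∫ h in Q4, dens g K V ε h) - d0 ε) (𝓝[>] 0) (𝓝 0) := by
    refine squeeze_zero_norm' ?_ hlim
    have h5 : ∀ᶠ ε : ℝ in 𝓝[>] 0, ε ≤ ε0 :=
      (eventually_le_nhds hε0).filter_mono nhdsWithin_le_nhds
    filter_upwards [h5, self_mem_nhdsWithin] with ε h6 h7
    exact hint ε h7 h6
  have h5 := h4.add hI.weyl
  rw [zero_add] at h5
  refine h5.congr fun ε => ?_
  change (∫ h in Q4, dens g K V ε h) - d0 ε + d0 ε = ∫ h in Q4, dens g K V ε h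
  ring

end

end Crest.Agent.R235.RCInf_843
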