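import Mathlib

/-!
Row 235 (S0364), PACKAGE RS (closed Riemann surfaces), helper538: definitions and Props.

A Riemann surface is a topological space `N` with a family of charts into `ℂ` with holomorphic
transition maps (`CAtl`).  Nothing else is used; `N` is compact, connected and Hausdorff in all the
theorems.  `rs_main` (proved in `RSMain_538`): `N` is the sphere, or a torus `ℂ/Λ`, or carries a
holomorphic one-form with a non-empty finite set of zeros.
-/

set_option autoImplicit false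

open Set Filter Topology Function MeasureTheory

universe u v

namespace Crest.Agent.R235.RS

noncomputable section

/-- a holomorphic atlas -/
structure CAtl (N : Type u) [TopologicalSpace N] where
  /-- the index set -/
  ι : Type v
  /-- the charts -/
  c : ι → OpenPartialHomeomorph N ℂ
  cover : ∀ x, ∃ i, x ∈ (c i).source
  hol : ∀ i j, DifferentiableOn ℂ (fun z => c j ((c i).symm z))
    {z | z ∈ (c i).target ∧ (c i).symm z ∈ (c j).source}

namespace CAtl

variable {N : Type u} [TopologicalSpace N] (A : CAtl.{u, v} N)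

/-- the transition function from the chart `i` to the chart `j` -/
def tr (i j : A.ι) (z : ℂ) : ℂ := A.c j ((A.c i).symm z)

/-- the domain of the transition function -/
def dom (i j : A.ι) : Set ℂ := {z | z ∈ (A.c i).target ∧ (A.c i).symm z ∈ (A.c j).source}

/-- holomorphic maps from the plane to `N` -/
structure Hol (φ : ℂ → N) : Prop where
  cont : Continuous φ
  hol : ∀ i, DifferentiableOn ℂ (fun z => A.c i (φ z)) (φ ⁻¹' (A.c i).source)

/-- the local representatives have nonzero derivative -/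
def Imm (φ : ℂ → N) : Prop :=
  ∀ i z, φ z ∈ (A.c i).source → deriv (fun w => A.c i (φ w)) z ≠ 0

/-- the Riemann sphere: two discs `φ, ψ : ℂ → N`, `φ z = ψ z⁻¹`. -/
def IsSph : Prop :=
  ∃ φ ψ : ℂ → N, A.Hol φ ∧ A.Hol ψ ∧ A.Imm φ ∧ A.Imm ψ ∧ Injective φ ∧ Injective ψ ∧
    (∀ z, z ≠ 0 → φ z = ψ z⁻¹) ∧ ψ 0 ∉ range φ ∧ ∀ x, x ∈ range φ ∨ x = ψ 0

/-- a torus `ℂ / (ℤ a + ℤ b)`, `a, b` positively oriented. -/
def IsTor : Prop :=
  ∃ (a b : ℂ) (P : ℂ → N), 0 < (star a * b).im ∧ A.Hol P ∧ A.Imm P ∧ Surjective P ∧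
    ∀ z w, P z = P w ↔ ∃ m n : ℤ, w = z + m * a + n * b

/-- a holomorphic one-form: `h i (z) dz` in the chart `i` -/
structure HForm where
  /-- the coefficient -/
  h : A.ι → ℂ → ℂ
  hol : ∀ i, DifferentiableOn ℂ (h i) (A.c i).target
  tr : ∀ i j, ∀ z ∈ A.dom i j, h i z = h j (A.tr i j z) * deriv (A.tr i j) z

/-- the zeros of a one-form -/
def HForm.Z {A : CAtl.{u, v} N} (ω : A.HForm) : Set N :=
  {x | ∃ i, x ∈ (A.c i).source ∧ ω.h i (A.c i x) = 0}

/-- the one-form vanishes identically -/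
def HForm.IsZero {A : CAtl.{u, v} N} (ω : A.HForm) : Prop :=
  ∀ i, ∀ z ∈ (A.c i).target, ω.h i z = 0

/-- smooth real functions on `N` -/
def Smooth (f : N → ℝ) : Prop :=
  ∀ i, ContDiffOn ℝ (⊤ : ℕ∞) (fun z => f ((A.c i).symm z)) (A.c i).target

/-- the flat Laplacian of a function of a complex variable -/
def lap (f : ℂ → ℝ) (z : ℂ) : ℝ :=
  iteratedFDeriv ℝ 2 f z ![1, 1] + iteratedFDeriv ℝ 2 f z ![Complex.I, Complex.I]

/-- the flat Laplacian of `f` in the chart `i` at the point `x` -/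
def lapC (f : N → ℝ) (i : A.ι) (x : N) : ℝ :=
  lap (fun z => f ((A.c i).symm z)) (A.c i x)

/-! ### the analytic nodes -/

/-- POISSON: `ρ` a compactly supported smooth density in one chart with integral `0` is the
Laplacian of a global smooth function. -/
def POISSON : Prop :=
  ∀ (i : A.ι) (ρ : ℂ → ℝ), ContDiff ℝ (⊤ : ℕ∞) ρ → HasCompactSupport ρ →
    tsupport ρ ⊆ (A.c i).target → ∫ z, ρ z = 0 →
    ∃ f : N → ℝ, A.Smooth f ∧ (∀ x ∈ (A.c i).source, A.lapC f i x = ρ (A.c i x)) ∧
      ∀ j, ∀ x ∈ (A.c j).source, x ∉ (A.c i).source → A.lapC f j x = 0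


/-! ### the output -/

/-- the trichotomy -/
def MAIN : Prop :=
  A.IsSph ∨ A.IsTor ∨ ∃ ω : A.HForm, ω.Z.Nonempty ∧ ω.Z.Finite

end CAtl

end

end Crest.Agent.R235.RS
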