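import Crest.Agent.R235.Rc0_820
import Crest.Agent.R235.RCDefs_746
import Crest.Agent.R235.FamP_151

-- ▼ part R235/Rc1_820
section

/-!
Row 235, block FAM/RC (helper820), RC-ABS part 1: general lemmas.

* `cr_eq`    : `RCDefs_746.Cr (Cr j D 1) ε = Rc0_820.Cr j D ε`;
* `base`     : `Base (gr H0 H1) (Cr j D 1)`;
* `odR`      : `β ↦ od β` as a real continuous linear map; `od_rk`;
* `pj`       : smooth orthogonal projection onto the range of `T h = T h P h`;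
* `dl`, `tr_dl`, `app_dl` : dilation `T ↦ ι T ι*` along an isometry.
-/

set_option autoImplicit false
set_option linter.unusedSectionVars false

open scoped InnerProductSpace ContDiff Topology
open Complex Filter

namespace Crest.Agent.R235.Rc1_820

open Crest.Agent.R235.Rc0_820 Crest.Agent.R235.RCTr_746
open Crest.Agent.R235.FamR_151 (cd_comp cd_inv cd_adj)
open Crest.Agent.R235.RCDefs_746 (Base Fam KerF Inf Gr)

noncomputable section

local notation "⟪" x ", " y "⟫" => inner ℂ x y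

section conv

variable {X H0 H1 : Type*} [NormedAddCommGroup X] [InnerProductSpace ℂ X] [CompleteSpace X]
  [NormedAddCommGroup H0] [InnerProductSpace ℂ H0] [CompleteSpace H0]
  [NormedAddCommGroup H1] [InnerProductSpace ℂ H1] [CompleteSpace H1]
  {j : X →L[ℂ] H0} {D : X →L[ℂ] H1}

theorem cr_inv (hc : Coer j D) {ε : ℝ} (hε : ε ≠ 0) :
    ((ε : ℂ) • (1 : HT H0 H1 →L[ℂ] HT H0 H1) + ((1 - ε : ℝ) : ℂ) • Cr j D 1) *
        ((ε : ℂ)⁻¹ • ((1 : HT H0 H1 →L[ℂ] HT H0 H1) + ((ε : ℂ) - 1) • Cr j D ε)) = 1 ∧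
    ((ε : ℂ)⁻¹ • ((1 : HT H0 H1 →L[ℂ] HT H0 H1) + ((ε : ℂ) - 1) • Cr j D ε)) *
      ((ε : ℂ) • (1 : HT H0 H1 →L[ℂ] HT H0 H1) + ((1 - ε : ℝ) : ℂ) • Cr j D 1) = 1 ∧
    Cr j D 1 * ((ε : ℂ)⁻¹ • ((1 : HT H0 H1 →L[ℂ] HT H0 H1) + ((ε : ℂ) - 1) • Cr j D ε)) =
      Cr j D ε := by
  have hε' : (ε : ℂ) ≠ 0 := by exact_mod_cast hε
  have a1 := Cr_eps' (ε := ε) (δ := 1) hc hε one_ne_zero
  have a2 := Cr_eps' (ε := 1) (δ := ε) hc one_ne_zero hε
  simp only [ofReal_one, one_smul] at a1 a2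
  set C := Cr j D ε with hC
  set C1 := Cr j D 1 with hC1
  have b1 : (ε : ℂ) • C = C1 + ((ε : ℂ) - 1) • (C1 * C) := by
    rw [a1, mul_add, mul_one, mul_smul_comm]
  have b2 : C1 = (ε : ℂ) • C + (1 - (ε : ℂ)) • (C * C1) := by
    conv_lhs => rw [a2]
    rw [mul_add, mul_smul_comm, mul_one, mul_smul_comm]
  refine ⟨?_, ?_, ?_⟩
  · rw [mul_smul_comm, add_mul, mul_add, mul_add, mul_one, smul_mul_assoc, one_mul,
      smul_mul_assoc, mul_one, mul_smul_comm]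
    have h3 : ((ε : ℂ) - 1) • ((ε : ℂ) • C) = ((ε : ℂ) - 1) • (C1 + ((ε : ℂ) - 1) • (C1 * C)) := by
      rw [← b1]
    have h4 : (ε : ℂ) • (1 : HT H0 H1 →L[ℂ] HT H0 H1) + (ε : ℂ) • (((ε : ℂ) - 1) • C) +
        (((1 - ε : ℝ) : ℂ) • C1 + ((ε : ℂ) - 1) • (((1 - ε : ℝ) : ℂ) • (C1 * C))) =
        (ε : ℂ) • 1 := by
      have h5 : (ε : ℂ) • (((ε : ℂ) - 1) • C) = ((ε : ℂ) - 1) • C1 +
          (((ε : ℂ) - 1) * ((ε : ℂ) - 1)) • (C1 * C) := by
        rw [smul_comm, h3, smul_add, smul_smul]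
      rw [h5]
      push_cast
      module
    rw [smul_mul_assoc, h4, smul_smul, inv_mul_cancel₀ hε', one_smul]
  · rw [smul_mul_assoc, add_mul, mul_add, mul_add, one_mul, one_mul, smul_mul_assoc,
      mul_smul_comm, mul_one, smul_mul_assoc, mul_smul_comm]
    have h3 : (1 - (ε : ℂ)) • C1 = (1 - (ε : ℂ)) • ((ε : ℂ) • C + (1 - (ε : ℂ)) • (C * C1)) := by
      rw [← b2]
    have h4 : (ε : ℂ) • (1 : HT H0 H1 →L[ℂ] HT H0 H1) + ((1 - ε : ℝ) : ℂ) • C1 +
        (((ε : ℂ) - 1) • ((ε : ℂ) • C) + ((ε : ℂ) - 1) • (((1 - ε : ℝ) : ℂ) • (C * C1))) =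
        (ε : ℂ) • 1 := by
      push_cast
      rw [h3]
      module
    rw [h4, smul_smul, inv_mul_cancel₀ hε', one_smul]
  · rw [mul_smul_comm, mul_add, mul_one, mul_smul_comm, ← b1, smul_smul, inv_mul_cancel₀ hε',
      one_smul]

/-- the resolvents of `RCDefs_746`. -/
theorem cr_eq (hc : Coer j D) {ε : ℝ} (hε : ε ≠ 0) :
    RCDefs_746.Cr (Cr j D 1) ε = Cr j D ε := by
  obtain ⟨h1, h2, h3⟩ := cr_inv hc hε
  have hu : Ring.inverse ((ε : ℂ) • (1 : HT H0 H1 →L[ℂ] HT H0 H1) + ((1 - ε : ℝ) : ℂ) • Cr j D 1) =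
      ((ε : ℂ)⁻¹ • ((1 : HT H0 H1 →L[ℂ] HT H0 H1) + ((ε : ℂ) - 1) • Cr j D ε)) := by
    let u : (HT H0 H1 →L[ℂ] HT H0 H1)ˣ := ⟨_, _, h1, h2⟩
    have := Ring.inverse_unit u
    exact this
  unfold RCDefs_746.Cr
  rw [hu, h3]

theorem star_cr (hc : Coer j D) {ε : ℝ} (hε : ε ≠ 0) : star (Cr j D ε) = Cr j D (-ε) := by
  rw [ContinuousLinearMap.star_eq_adjoint, Cr_adj hc hε]

theorem star_gr : star (gr H0 H1) = gr H0 H1 := by
  rw [ContinuousLinearMap.star_eq_adjoint]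
  symm
  rw [ContinuousLinearMap.eq_adjoint_iff]
  exact inner_gr

theorem base (hc : Coer j D) (hA : ∃ c, App (Cr j D 1) c (1 / 4)) :
    Base (gr H0 H1) (Cr j D 1) where
  gg := gr_mul_gr
  gs := star_gr
  kk := by rw [star_cr hc one_ne_zero]; exact C_add_adj' hc one_ne_zero
  kk' := by rw [star_cr hc one_ne_zero]; exact C_add_adj hc one_ne_zero
  gk := by
    rw [star_cr hc one_ne_zero]
    ext1 x
    exact gCg hc one_ne_zero x
  app := hA

end conv

/-! ### off-diagonal operators -/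

section odr

variable {H0 H1 : Type*}
  [NormedAddCommGroup H0] [InnerProductSpace ℂ H0] [CompleteSpace H0]
  [NormedAddCommGroup H1] [InnerProductSpace ℂ H1] [CompleteSpace H1]

lemma od_add (β γ : H0 →L[ℂ] H1) : od (β + γ) = od β + od γ := by
  have := od_sub (β + γ) γ
  rw [add_sub_cancel_right] at this
  rw [this]; abel

lemma norm_od (β : H0 →L[ℂ] H1) : ‖od β‖ ≤ ‖β‖ := by
  refine ContinuousLinearMap.opNorm_le_bound _ (norm_nonneg _) fun x => ?_
  have h1 : ‖od β x‖ ^ 2 ≤ (‖β‖ * ‖x‖) ^ 2 := by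
    rw [norm_HT, mul_pow, norm_HT x, od_fst, od_snd]
    have a := ContinuousLinearMap.le_opNorm (ContinuousLinearMap.adjoint β) x.snd
    have b := ContinuousLinearMap.le_opNorm β x.fst
    rw [LinearIsometryEquiv.norm_map] at a
    have a' := pow_le_pow_left₀ (norm_nonneg _) a 2
    have b' := pow_le_pow_left₀ (norm_nonneg _) b 2
    rw [mul_pow] at a' b'
    nlinarith
  exact (pow_le_pow_iff_left₀ (norm_nonneg _) (by positivity) two_ne_zero).1 h1

/-- `β ↦ od β` as a real linear map. -/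
def odR : (H0 →L[ℂ] H1) →L[ℝ] (HT H0 H1 →L[ℂ] HT H0 H1) :=
  LinearMap.mkContinuous
    { toFun := fun β => od β
      map_add' := fun S T => od_add S T
      map_smul' := fun c T => by
        have h : c • T = (c : ℂ) • T := by ext v; simp
        rw [h]
        ext1 x
        refine ext_HT ?_ ?_
        · rw [od_fst, map_smulₛₗ]
          simp
        · simp } 1 (fun T => by
      show ‖od T‖ ≤ 1 * ‖T‖
      rw [one_mul]
      exact norm_od T)

@[simp] lemma odR_apply (β : H0 →L[ℂ] H1) : odR β = od β := rfl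

lemma star_od (β : H0 →L[ℂ] H1) : star (od β) = od β := by
  rw [ContinuousLinearMap.star_eq_adjoint]
  symm
  rw [ContinuousLinearMap.eq_adjoint_iff]
  exact inner_od β

lemma star_Iod (β : H0 →L[ℂ] H1) : star (I • od β) = - (I • od β) := by
  rw [star_smul, star_od, Complex.star_def, conj_I]
  ext1 x
  show (-I) • od β x = -(I • od β x)
  rw [neg_smul]

lemma gr_Iod (β : H0 →L[ℂ] H1) : gr H0 H1 * (I • od β) * gr H0 H1 = - (I • od β) := by
  ext1 x
  refine ext_HT ?_ ?_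
  · show I • ContinuousLinearMap.adjoint β (-x.snd) = -(I • ContinuousLinearMap.adjoint β x.snd)
    rw [map_neg, smul_neg]
  · rfl

/-- an operator which factors over a finite dimensional space. -/
lemma rk_of {H E : Type*} [NormedAddCommGroup H] [InnerProductSpace ℂ H]
    [AddCommGroup E] [Module ℂ E] [FiniteDimensional ℂ E] {F : H →L[ℂ] H} (G : E →ₗ[ℂ] H)
    (h : ∀ x, ∃ e, F x = G e) : Rk F (Module.finrank ℂ E) := by
  have h1 : LinearMap.range (F : H →ₗ[ℂ] H) ≤ LinearMap.range G := by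
    rintro _ ⟨x, rfl⟩
    obtain ⟨e, he⟩ := h x
    exact ⟨e, he.symm⟩
  have : FiniteDimensional ℂ (LinearMap.range (F : H →ₗ[ℂ] H)) :=
    Submodule.finiteDimensional_of_le h1
  exact ⟨this, (Submodule.finrank_mono h1).trans (LinearMap.finrank_range_le G)⟩

/-- `od (T ∘ snd)` for `T : W →L H1`, `W` finite dimensional. -/
lemma od_rk {W : Type*} [NormedAddCommGroup W] [InnerProductSpace ℂ W] [CompleteSpace W]
    [FiniteDimensional ℂ W] (T : W →L[ℂ] H1) :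
    Rk (I • od (T ∘L p1 H0 W)) (Module.finrank ℂ (W × W)) := by
  refine rk_of (E := W × W)
    ((I • (pr (pr (0 : W × W →L[ℂ] H0) (ContinuousLinearMap.fst ℂ W W))
      (T ∘L ContinuousLinearMap.snd ℂ W W)) : W × W →L[ℂ] HT (HT H0 W) H1) : W × W →ₗ[ℂ] _) ?_
  intro x
  refine ⟨(ContinuousLinearMap.adjoint T x.snd, x.fst.snd), ?_⟩
  refine ext_HT ?_ rfl
  show I • ContinuousLinearMap.adjoint (T ∘L p1 H0 W) x.snd =
    I • (pr (0 : W × W →L[ℂ] H0) (ContinuousLinearMap.fst ℂ W W)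
      (ContinuousLinearMap.adjoint T x.snd, x.fst.snd))
  congr 1
  rw [ContinuousLinearMap.adjoint_comp]
  show ContinuousLinearMap.adjoint (p1 H0 W) (ContinuousLinearMap.adjoint T x.snd) = _
  refine ext_inner_left ℂ fun v => ?_
  rw [ContinuousLinearMap.adjoint_inner_right, inner_HT]
  simp

end odr

/-! ### projection onto the range of `T` -/

section proj

variable {E H P : Type*} [NormedAddCommGroup E] [InnerProductSpace ℂ E] [CompleteSpace E]
  [FiniteDimensional ℂ E] [NormedAddCommGroup H] [InnerProductSpace ℂ H] [CompleteSpace H]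
  [NormedAddCommGroup P] [NormedSpace ℝ P]

/-- `T* T + (1 - p)`. -/
def Qp (p : E →L[ℂ] E) (T : E →L[ℂ] H) : E →L[ℂ] E :=
  (ContinuousLinearMap.adjoint T) ∘L T + (1 - p)

/-- the orthogonal projection onto the range of `T = T p`. -/
def pj (p : E →L[ℂ] E) (T : E →L[ℂ] H) : H →L[ℂ] H :=
  T ∘L (Ring.inverse (Qp p T)) ∘L (ContinuousLinearMap.adjoint T)

section one
variable {p : E →L[ℂ] E} {T : E →L[ℂ] H} (hp : ∀ v, p (p v) = p v)
  (hs : ∀ x y, ⟪p x, y⟫ = ⟪x, p y⟫) (hT : ∀ v, T (p v) = T v)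
  (hi : ∀ v, T v = 0 → p v = 0)
include hp hs hT hi

lemma Qp_unit : IsUnit (Qp p T) := by
  have hinj : Function.Injective (Qp p T) := by
    rw [injective_iff_map_eq_zero]
    intro v hv
    have h1 : ⟪v, Qp p T v⟫ = 0 := by rw [hv, inner_zero_right]
    have h2 : ⟪v, Qp p T v⟫ = ⟪T v, T v⟫ + ⟪v - p v, v - p v⟫ := by
      show ⟪v, ContinuousLinearMap.adjoint T (T v) + (v - p v)⟫ = _
      rw [inner_add_right, ContinuousLinearMap.adjoint_inner_right]
      congr 1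
      have h3 : ⟪p v, v - p v⟫ = 0 := by
        rw [hs, map_sub, hp, sub_self, inner_zero_right]
      rw [inner_sub_left, h3, sub_zero]
    rw [h1, inner_self_eq_norm_sq_to_K, inner_self_eq_norm_sq_to_K] at h2
    have h3 : ‖T v‖ ^ 2 + ‖v - p v‖ ^ 2 = 0 := by
      have := h2.symm
      simp only [coe_algebraMap] at this
      exact_mod_cast this
    have h4 : ‖T v‖ ^ 2 = 0 := by nlinarith [sq_nonneg ‖T v‖, sq_nonneg ‖v - p v‖]
    have h5 : ‖v - p v‖ ^ 2 = 0 := by nlinarith [sq_nonneg ‖T v‖, sq_nonneg ‖v - p v‖]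
    have h6 : T v = 0 := norm_eq_zero.1 (pow_eq_zero_iff two_ne_zero |>.1 h4)
    have h7 : v - p v = 0 := norm_eq_zero.1 (pow_eq_zero_iff two_ne_zero |>.1 h5)
    rw [hi v h6, sub_zero] at h7
    exact h7
  rw [ContinuousLinearMap.isUnit_iff_bijective]
  exact ⟨hinj, LinearMap.injective_iff_surjective.1 hinj⟩

lemma Qp_comp : (Qp p T) ∘L p = (ContinuousLinearMap.adjoint T) ∘L T := by
  ext1 v
  show ContinuousLinearMap.adjoint T (T (p v)) + (p v - p (p v)) = _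
  rw [hT, hp, sub_self, add_zero]; rfl

lemma pj_T (v : E) : pj p T (T v) = T v := by
  have h1 : ContinuousLinearMap.adjoint T (T v) = Qp p T (p v) := by
    have := congrArg (fun S : E →L[ℂ] E => S v) (Qp_comp hp hs hT hi)
    exact this.symm
  have h2 : Ring.inverse (Qp p T) * Qp p T = 1 := Ring.inverse_mul_cancel _ (Qp_unit hp hs hT hi)
  show T (Ring.inverse (Qp p T) (ContinuousLinearMap.adjoint T (T v))) = T v
  rw [h1]
  have h3 : Ring.inverse (Qp p T) (Qp p T (p v)) = p v :=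
    congrArg (fun S : E →L[ℂ] E => S (p v)) h2
  rw [h3, hT]

omit [FiniteDimensional ℂ E] hp hs hT hi in
lemma pj_mem (x : H) : ∃ v, pj p T x = T v := ⟨_, rfl⟩

lemma pj_idem (x : H) : pj p T (pj p T x) = pj p T x := by
  obtain ⟨v, hv⟩ := pj_mem (p := p) (T := T) x
  rw [hv, pj_T hp hs hT hi]

lemma star_Qp : star (Qp p T) = Qp p T := by
  rw [ContinuousLinearMap.star_eq_adjoint]
  symm
  rw [ContinuousLinearMap.eq_adjoint_iff]
  intro x y
  show ⟪ContinuousLinearMap.adjoint T (T x) + (x - p x), y⟫ =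
    ⟪x, ContinuousLinearMap.adjoint T (T y) + (y - p y)⟫
  rw [inner_add_left, inner_add_right, ContinuousLinearMap.adjoint_inner_left,
    ContinuousLinearMap.adjoint_inner_right, inner_sub_left, inner_sub_right, hs]

lemma star_pj : star (pj p T) = pj p T := by
  have h1 : star (Ring.inverse (Qp p T)) = Ring.inverse (Qp p T) := by
    rw [← Ring.inverse_star, star_Qp hp hs hT hi]
  rw [ContinuousLinearMap.star_eq_adjoint] at h1 ⊢
  unfold pj
  rw [ContinuousLinearMap.adjoint_comp, ContinuousLinearMap.adjoint_comp,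
    ContinuousLinearMap.adjoint_adjoint, h1]
  rfl

end one

lemma cd_pj {n : WithTop ℕ∞} {p : P → E →L[ℂ] E} {T : P → E →L[ℂ] H} (h1 : ContDiff ℝ n p)
    (h2 : ContDiff ℝ n T) (hu : ∀ x, IsUnit (Qp (p x) (T x))) :
    ContDiff ℝ n (fun x => pj (p x) (T x)) := by
  rw [contDiff_iff_contDiffAt]
  intro x
  rw [← contDiffWithinAt_univ]
  have a1 := h1.contDiffAt.contDiffWithinAt (x := x) (s := Set.univ)
  have a2 := h2.contDiffAt.contDiffWithinAt (x := x) (s := Set.univ)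
  have a3 : ContDiffWithinAt ℝ n (fun x => Qp (p x) (T x)) Set.univ x :=
    (cd_comp (cd_adj a2) a2).add (contDiffWithinAt_const.sub a1)
  exact cd_comp a2 (cd_comp (cd_inv a3 (hu x)) (cd_adj a2))

end proj

/-! ### dilation -/

section dil

variable {H K : Type*} [NormedAddCommGroup H] [InnerProductSpace ℂ H] [CompleteSpace H]
  [NormedAddCommGroup K] [InnerProductSpace ℂ K] [CompleteSpace K]

/-- `ι T ι*`. -/
def dl (i : H →L[ℂ] K) (T : H →L[ℂ] H) : K →L[ℂ] K := i ∘L T ∘L ContinuousLinearMap.adjoint i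

lemma dl_isNuc {i : H →L[ℂ] K} (hi : ∀ x y, ⟪i x, i y⟫ = ⟪x, y⟫) {T : H →L[ℂ] H} {c : ℝ}
    (hT : IsNuc T c) : IsNuc (dl i T) c ∧ tr (dl i T) = tr T := by
  obtain ⟨ι, u, v, h1, h2, h3⟩ := hT
  have hn : ∀ x, ‖i x‖ = ‖x‖ := by
    intro x
    have h := hi x x
    rw [inner_self_eq_norm_sq_to_K, inner_self_eq_norm_sq_to_K] at h
    have h' : ‖i x‖ ^ 2 = ‖x‖ ^ 2 := by exact_mod_cast h
    exact (pow_left_inj₀ (norm_nonneg _) (norm_nonneg _) two_ne_zero).1 h'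
  have h4 : ∀ x, HasSum (fun k => ⟪i (v k), x⟫ • i (u k)) (dl i T x) := by
    intro x
    have a := (h3 (ContinuousLinearMap.adjoint i x)).mapL i
    refine a.congr_fun fun k => ?_
    rw [map_smul, ContinuousLinearMap.adjoint_inner_right]
  have h5 : Summable (fun k => ‖i (u k)‖ * ‖i (v k)‖) := by simpa only [hn] using h1
  refine ⟨⟨ι, fun k => i (u k), fun k => i (v k), h5, by simpa only [hn] using h2, h4⟩, ?_⟩
  rw [tr_eq h5 h4, tr_eq h1 h3]
  simp only [hi]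

lemma dl_rk {i : H →L[ℂ] K} {F : H →L[ℂ] H} {n : ℕ} (hF : Rk F n) : Rk (dl i F) n := by
  have := hF.1
  have h1 : LinearMap.range ((dl i F : K →L[ℂ] K) : K →ₗ[ℂ] K) ≤
      (LinearMap.range (F : H →ₗ[ℂ] H)).map (i : H →ₗ[ℂ] K) := by
    rintro _ ⟨x, rfl⟩
    exact ⟨_, ⟨_, rfl⟩, rfl⟩
  have : FiniteDimensional ℂ (LinearMap.range ((dl i F : K →L[ℂ] K) : K →ₗ[ℂ] K)) :=
    Submodule.finiteDimensional_of_le h1
  exact ⟨this, (Submodule.finrank_mono h1).trans ((Submodule.finrank_map_le _ _).trans hF.2)⟩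

end dil

end

end Crest.Agent.R235.Rc1_820
end

-- ▼ part R235/Rc2_820
section

/-!
Row 235, block FAM/RC (helper820), RC-ABS part 2: from 151's `PFam` with an inclusion `j : X →L H0`
(`JF`) and a stabilising space `W` to the data of `RCDefs_746`.

* `JF Φ H0`   : `j`, `D h = D 0 + (∑ h_a B_a) j`, unitaries `V0 a` of `H0` with `j (U e_a x) = V0 a (j x)`;
* `HH`        : `(H0 × W) × Y`; `J.K`, `J.V`, `J.bb`, `J.UU`;
* `J.fam`     : `Fam (gr _ _) J.K J.V J.bb J.UU`;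
* `J.PK fr`   : the projection onto `ker`; `J.kerF`.
-/

set_option autoImplicit false
set_option linter.unusedSectionVars false

open scoped InnerProductSpace ContDiff Topology
open Complex Filter

namespace Crest.Agent.R235.Rc1_820

open Crest.Agent.R235.Rc0_820 Crest.Agent.R235.RCTr_746
open Crest.Agent.R235.FamR_151
open Crest.Agent.R235.FamDefs_307 (pdθ)
open Crest.Agent.R235.RCDefs_746 (Base Fam KerF Inf Gr)

noncomputable section

local notation "⟪" x ", " y "⟫" => inner ℂ x y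

variable {b : ℕ} {X Y : Type*} [NormedAddCommGroup X] [InnerProductSpace ℂ X] [CompleteSpace X]
  [NormedAddCommGroup Y] [InnerProductSpace ℂ Y] [CompleteSpace Y]

/-- a periodic family with an inclusion of the domain in a Hilbert space `H0`. -/
structure JF (Φ : PFam b X Y) (H0 : Type*) [NormedAddCommGroup H0] [InnerProductSpace ℂ H0]
    [CompleteSpace H0] where
  j : X →L[ℂ] H0
  B : Fin b → H0 →L[ℂ] Y
  V0 : (Fin b → ℤ) → H0 →L[ℂ] H0
  coer : Coer j (Φ.D 0)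
  aff : ∀ h, Φ.D h = Φ.D 0 + (∑ a, ((h a : ℝ) : ℂ) • B a) ∘L j
  v0 : ∀ k, star (V0 k) * V0 k = 1
  v0' : ∀ k, V0 k * star (V0 k) = 1
  j_U : ∀ k x, j (Φ.U k x) = V0 k (j x)

namespace JF

variable {Φ : PFam b X Y} {H0 : Type*} [NormedAddCommGroup H0] [InnerProductSpace ℂ H0]
  [CompleteSpace H0] (J : JF Φ H0) (W : Submodule ℂ Y) [FiniteDimensional ℂ W]

/-- the inclusion of the stabilised domain. -/
def jj : WithLp 2 (X × W) →L[ℂ] HT H0 W := pr (J.j ∘L p0 X W) (p1 X W)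

@[simp] lemma jj_fst (z : WithLp 2 (X × W)) : (J.jj W z).fst = J.j z.fst := rfl
@[simp] lemma jj_snd (z : WithLp 2 (X × W)) : (J.jj W z).snd = z.snd := rfl

variable (Φ) in
/-- the unperturbed operator. -/
def D0 : WithLp 2 (X × W) →L[ℂ] Y := Φ.D 0 ∘L p0 X W

@[simp] lemma D0_apply (z : WithLp 2 (X × W)) : D0 Φ W z = Φ.D 0 z.fst := rfl

/-- the bounded part. -/
def BB (h : Fin b → ℝ) : HT H0 W →L[ℂ] Y :=
  (∑ a, ((h a : ℝ) : ℂ) • (J.B a ∘L p0 H0 W)) + (Φ.Th h ∘L W.subtypeL) ∘L p1 H0 W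

lemma BB_apply (h : Fin b → ℝ) (x : HT H0 W) :
    J.BB W h x = (∑ a, ((h a : ℝ) : ℂ) • J.B a x.fst) + Φ.Th h (x.snd : Y) := by
  simp [BB, sum_apply]

lemma A_eq (h : Fin b → ℝ) (z : WithLp 2 (X × W)) :
    D0 Φ W z + J.BB W h (J.jj W z) = Φ.A W h z := by
  rw [PFam.A_apply, J.aff h, BB_apply, D0_apply, jj_fst, jj_snd, ← add_assoc]
  congr 1
  simp [sum_apply]

lemma coer' : Coer (J.jj W) (D0 Φ W) := by
  obtain ⟨c, hc⟩ := J.coer
  refine ⟨|c| + 1, fun x => ?_⟩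
  have h1 := norm_HT (H0 := X) (H1 := W) x
  have h2 := norm_HT (J.jj W x)
  rw [jj_fst, jj_snd] at h2
  rw [h1, h2, D0_apply]
  have h3 : ‖x.fst‖ ^ 2 ≤ |c| * (‖J.j x.fst‖ ^ 2 + ‖Φ.D 0 x.fst‖ ^ 2) :=
    (hc _).trans (mul_le_mul_of_nonneg_right (le_abs_self c) (by positivity))
  nlinarith [sq_nonneg ‖J.j x.fst‖, sq_nonneg ‖Φ.D 0 x.fst‖, sq_nonneg ‖x.snd‖, abs_nonneg c,
    mul_nonneg (abs_nonneg c) (sq_nonneg ‖x.snd‖)]

/-- the total space. -/
abbrev HH (_ : JF Φ H0) (W : Submodule ℂ Y) := HT (HT H0 W) Y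

/-- the base resolvent. -/
def K : J.HH W →L[ℂ] J.HH W := Cr (J.jj W) (D0 Φ W) 1

/-- the perturbation. -/
def V (h : Fin b → ℝ) : J.HH W →L[ℂ] J.HH W := I • od (J.BB W h)

/-- the constant part of the derivatives. -/
def bb (a : Fin b) : J.HH W →L[ℂ] J.HH W := I • od (J.B a ∘L p0 H0 W)

/-- the gauge transformations. -/
def UV (k : Fin b → ℤ) : J.HH W →L[ℂ] J.HH W :=
  pr (pr (J.V0 k ∘L p0 H0 W) (p1 H0 W) ∘L p0 (HT H0 W) Y) (Φ.Th (zv k) ∘L p1 (HT H0 W) Y)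

/-- the gauge transformations of the unit vectors. -/
abbrev UU (a : Fin b) : J.HH W →L[ℂ] J.HH W := J.UV W (Pi.single a 1)

lemma zv_single (a : Fin b) : zv (Pi.single a 1 : Fin b → ℤ) = Pi.single a 1 := by
  funext i
  rcases eq_or_ne i a with rfl | h
  · simp [zv]
  · simp [zv, Pi.single_eq_of_ne h]

lemma innerV (a : Fin b → ℤ) (x y : H0) : ⟪J.V0 a x, J.V0 a y⟫ = ⟪x, y⟫ := by
  have h := J.v0 a
  rw [ContinuousLinearMap.star_eq_adjoint] at h
  rw [← ContinuousLinearMap.adjoint_inner_right]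
  have := congrArg (fun T : H0 →L[ℂ] H0 => T y) h
  rw [show ContinuousLinearMap.adjoint (J.V0 a) (J.V0 a y) = y from this]

lemma innerU (a : Fin b → ℤ) (x y : J.HH W) : ⟪J.UV W a x, J.UV W a y⟫ = ⟪x, y⟫ := by
  rw [inner_HT, inner_HT x y]
  show ⟪pr (J.V0 a ∘L p0 H0 W) (p1 H0 W) x.fst, pr (J.V0 a ∘L p0 H0 W) (p1 H0 W) y.fst⟫ +
    ⟪Φ.Th _ x.snd, Φ.Th _ y.snd⟫ = _
  rw [Φ.Th_inner, inner_HT, inner_HT x.fst y.fst]
  show ⟪J.V0 a _, J.V0 a _⟫ + _ + _ = _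
  rw [innerV]
  rfl

lemma surjU (a : Fin b → ℤ) : Function.Surjective (J.UV W a) := by
  intro y
  have h := J.v0' a
  refine ⟨WithLp.toLp 2 (WithLp.toLp 2 (star (J.V0 a) y.fst.fst, y.fst.snd),
    Φ.Th (-zv a) y.snd), ?_⟩
  refine ext_HT (ext_HT ?_ rfl) ?_
  · show J.V0 a (star (J.V0 a) y.fst.fst) = y.fst.fst
    exact congrArg (fun T : H0 →L[ℂ] H0 => T y.fst.fst) h
  · exact Φ.Th_neg _ _

lemma uu (a : Fin b → ℤ) : star (J.UV W a) * J.UV W a = 1 := by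
  ext1 x
  refine ext_inner_left ℂ fun v => ?_
  show ⟪v, star (J.UV W a) (J.UV W a x)⟫ = ⟪v, x⟫
  rw [ContinuousLinearMap.star_eq_adjoint, ContinuousLinearMap.adjoint_inner_right, innerU]

lemma uu' (a : Fin b → ℤ) : J.UV W a * star (J.UV W a) = 1 := by
  ext1 y
  obtain ⟨x, rfl⟩ := J.surjU W a y
  have h := congrArg (fun T : J.HH W →L[ℂ] J.HH W => J.UV W a (T x)) (J.uu W a)
  exact h

/-- `J` intertwines the gauge transformations. -/
lemma jj_GU (a : Fin b → ℤ) (z : WithLp 2 (X × W)) :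
    J.jj W (Φ.GU W a z) = pr (J.V0 a ∘L p0 H0 W) (p1 H0 W) (J.jj W z) :=
  ext_HT (J.j_U a z.fst) rfl

/-- **covariance of the base resolvent**. -/
lemma UK (a : Fin b) (h : Fin b → ℝ) (x : J.HH W) :
    J.K W (J.UU W a x + J.UU W a (J.V W h (J.K W x)) -
      J.V W (h + Pi.single a 1) (J.UU W a (J.K W x))) = J.UU W a (J.K W x) := by
  have hw := Cr_WEq (J.coer' W) one_ne_zero x
  change WEq (J.jj W) (D0 Φ W) 1 x (J.K W x) _ at hw
  set y := J.K W x with hy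
  set u := So (J.jj W) (D0 Φ W) 1 x with hu
  have hA : Φ.A W (h + Pi.single a 1) (Φ.GU W (Pi.single a 1) u) =
      Φ.Th (zv (Pi.single a 1)) (Φ.A W h u) := by
    have := Φ.A_GU W h (Pi.single a 1) u
    rwa [zv_single] at this ⊢
  refine (Cr_eq (J.coer' W) one_ne_zero (u := Φ.GU W (Pi.single a 1) u) ⟨?_, ?_, fun v => ?_⟩).1
  · show pr (J.V0 (Pi.single a 1) ∘L p0 H0 W) (p1 H0 W) y.fst = _
    rw [hw.fst, jj_GU]
  · show Φ.Th (zv (Pi.single a 1)) y.snd = Φ.Th (zv (Pi.single a 1)) x.snd +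
      Φ.Th (zv (Pi.single a 1)) (I • J.BB W h y.fst) -
      I • J.BB W (h + Pi.single a 1) (pr (J.V0 (Pi.single a 1) ∘L p0 H0 W) (p1 H0 W) y.fst) -
      (I * ((1 : ℝ) : ℂ)) • D0 Φ W (Φ.GU W (Pi.single a 1) u)
    rw [hw.snd, hw.fst, ← jj_GU, map_sub, map_smul, map_smul]
    have e1 := J.A_eq W (h + Pi.single a 1) (Φ.GU W (Pi.single a 1) u)
    have e2 := J.A_eq W h u
    rw [hA, ← e2, map_add] at e1
    have e3 : J.BB W (h + Pi.single a 1) (J.jj W (Φ.GU W (Pi.single a 1) u)) =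
      Φ.Th (zv (Pi.single a 1)) (D0 Φ W u) + Φ.Th (zv (Pi.single a 1)) (J.BB W h (J.jj W u)) -
      D0 Φ W (Φ.GU W (Pi.single a 1) u) := by rw [← e1]; abel
    rw [e3]
    push_cast
    module
  · obtain ⟨v', rfl⟩ : ∃ v', v = Φ.GU W (Pi.single a 1) v' := by
      refine ⟨Φ.GU W (-Pi.single a 1) v, ?_⟩
      have h1 := Φ.GU_add W (Pi.single a 1) (-Pi.single a 1)
      rw [add_neg_cancel, Φ.GU_zero] at h1
      exact congrArg (fun T : WithLp 2 (X × W) →L[ℂ] WithLp 2 (X × W) => T v) h1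
    have e1 := J.A_eq W (h + Pi.single a 1) (Φ.GU W (Pi.single a 1) v')
    have e2 := J.A_eq W h v'
    have hA' : Φ.A W (h + Pi.single a 1) (Φ.GU W (Pi.single a 1) v') =
        Φ.Th (zv (Pi.single a 1)) (Φ.A W h v') := by
      have := Φ.A_GU W h (Pi.single a 1) v'
      rwa [zv_single] at this ⊢
    have hwk := hw.weak v'
    set Vp : HT H0 W →L[ℂ] HT H0 W := pr (J.V0 (Pi.single a 1) ∘L p0 H0 W) (p1 H0 W) with hVp
    set T := Φ.Th (zv (Pi.single a 1)) with hT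
    have hVi : ∀ p q, ⟪Vp p, Vp q⟫ = ⟪p, q⟫ := by
      intro p q
      rw [inner_HT, inner_HT p q]
      show ⟪J.V0 (Pi.single a 1) _, J.V0 (Pi.single a 1) _⟫ + _ = _
      rw [innerV]; rfl
    have hTi : ∀ p q, ⟪T p, T q⟫ = ⟪p, q⟫ := fun p q => Φ.Th_inner _ p q
    show ⟪J.jj W (Φ.GU W (Pi.single a 1) v'), Vp y.fst - (Vp x.fst +
      Vp (I • ContinuousLinearMap.adjoint (J.BB W h) y.snd) -
      I • ContinuousLinearMap.adjoint (J.BB W (h + Pi.single a 1)) (T y.snd))⟫ +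
      (I * ((1 : ℝ) : ℂ)) * ⟪D0 Φ W (Φ.GU W (Pi.single a 1) v'), T y.snd⟫ = 0
    have f1 : ⟪J.jj W (Φ.GU W (Pi.single a 1) v'),
        ContinuousLinearMap.adjoint (J.BB W (h + Pi.single a 1)) (T y.snd)⟫ =
        ⟪Φ.A W (h + Pi.single a 1) (Φ.GU W (Pi.single a 1) v'), T y.snd⟫ -
        ⟪D0 Φ W (Φ.GU W (Pi.single a 1) v'), T y.snd⟫ := by
      rw [ContinuousLinearMap.adjoint_inner_right, ← e1, inner_add_left]; ring
    rw [hA', hTi, ← e2, inner_add_left] at f1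
    simp only [inner_sub_right, inner_add_right, inner_smul_right] at hwk ⊢
    rw [f1, jj_GU, ← hVp, hVi, hVi, map_smul, inner_smul_right, hVi,
      ContinuousLinearMap.adjoint_inner_right]
    push_cast at hwk ⊢
    linear_combination hwk

end JF

end

end Crest.Agent.R235.Rc1_820
end

-- ▼ part R235/Rc3_820

/-!
Row 235, block FAM/RC (helper820), RC-ABS part 3: `Fam` and `KerF` for the stabilised family.
-/

set_option autoImplicit false
set_option linter.unusedSectionVars false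
set_option maxSynthPendingDepth 3

open scoped InnerProductSpace ContDiff Topology
open Complex Filter

namespace Crest.Agent.R235.Rc1_820

open Crest.Agent.R235.Rc0_820 Crest.Agent.R235.RCTr_746
open Crest.Agent.R235.FamR_151
open Crest.Agent.R235.FamDefs_307 (pdθ)
open Crest.Agent.R235.RCDefs_746 (Base Fam KerF Inf Gr)

noncomputable section

local notation "⟪" x ", " y "⟫" => inner ℂ x y

lemma lin_aux {E : Type*} [NormedAddCommGroup E] [NormedSpace ℂ E] (K : E →L[ℂ] E) {p q r s : E}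
    (h : K (p + q - r) = s) : K p - s = K (r - q) := by
  rw [← h, map_sub, map_add, map_sub]
  abel

lemma lin_aux2 {E : Type*} [NormedAddCommGroup E] [NormedSpace ℂ E] (K U V V' : E →L[ℂ] E)
    (h : ∀ x, K (U x + U (V (K x)) - V' (U (K x))) = U (K x)) :
    K * U - U * K = K * (V' * U - U * V) * K := by
  refine ContinuousLinearMap.ext fun x => ?_
  rw [sub_apply, mul_apply_eq_comp, mul_apply_eq_comp, mul_apply_eq_comp, mul_apply_eq_comp,
    sub_apply, mul_apply_eq_comp, mul_apply_eq_comp]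
  exact lin_aux _ (h x)

section gen

variable {H0 H1 G P : Type*} [NormedAddCommGroup H0] [InnerProductSpace ℂ H0] [CompleteSpace H0]
  [NormedAddCommGroup H1] [InnerProductSpace ℂ H1] [CompleteSpace H1]
  [NormedAddCommGroup G] [InnerProductSpace ℂ G] [CompleteSpace G]
  [NormedAddCommGroup P] [NormedSpace ℝ P]

/-- `β ↦ i od β` as a real linear map. -/
def IodR : (H0 →L[ℂ] H1) →L[ℝ] (HT H0 H1 →L[ℂ] HT H0 H1) :=
  (((I • ContinuousLinearMap.id ℂ (HT H0 H1 →L[ℂ] HT H0 H1)) :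
    (HT H0 H1 →L[ℂ] HT H0 H1) →L[ℂ] (HT H0 H1 →L[ℂ] HT H0 H1)).restrictScalars ℝ) ∘L odR


lemma cd_Iod {n : WithTop ℕ∞} {β : P → H0 →L[ℂ] H1} (hβ : ContDiff ℝ n β) :
    ContDiff ℝ n (fun h => I • od (β h)) :=
  (IodR (H0 := H0) (H1 := H1)).contDiff.comp hβ

lemma pd_Iod {b : ℕ} {β : (Fin b → ℝ) → H0 →L[ℂ] H1} (hβ : ContDiff ℝ ∞ β) (a : Fin b)
    (h : Fin b → ℝ) : pdθ a (fun h => I • od (β h)) h = I • od (pdθ a β h) := by
  have hB : DifferentiableAt ℝ β h := (hβ.differentiable (by simp)).differentiableAt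
  have h1 : HasFDerivAt (fun h => I • od (β h)) (IodR ∘L fderiv ℝ β h) h :=
    (IodR (H0 := H0) (H1 := H1)).hasFDerivAt.comp h hB.hasFDerivAt
  unfold pdθ
  rw [h1.fderiv]
  rfl

lemma cd_lin {b : ℕ} (B : Fin b → H0 →L[ℂ] H1) :
    ContDiff ℝ ∞ (fun h : Fin b → ℝ => ∑ a, ((h a : ℝ) : ℂ) • B a) := by
  refine ContDiff.sum fun a _ => ?_
  have h2 : (fun h : Fin b → ℝ => ((h a : ℝ) : ℂ) • B a) = fun h : Fin b → ℝ => (h a) • B a := by
    funext h
    ext x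
    simp
  rw [h2]
  exact (contDiff_apply ℝ ℝ a).smul contDiff_const

lemma cd_aff {b : ℕ} (B : Fin b → H0 →L[ℂ] H1) {T : (Fin b → ℝ) → G →L[ℂ] H1}
    (hT : ContDiff ℝ ∞ T) (S : H0 →L[ℂ] G) :
    ContDiff ℝ ∞ (fun h : Fin b → ℝ => (∑ a, ((h a : ℝ) : ℂ) • B a) + T h ∘L S) :=
  (cd_lin B).add (PFam.cd_const_comp hT S)

lemma pd_aff {b : ℕ} (B : Fin b → H0 →L[ℂ] H1) {T : (Fin b → ℝ) → G →L[ℂ] H1}
    (hT : ContDiff ℝ ∞ T) (S : H0 →L[ℂ] G) (a : Fin b) (h : Fin b → ℝ) :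
    pdθ a (fun h : Fin b → ℝ => (∑ a, ((h a : ℝ) : ℂ) • B a) + T h ∘L S) h =
      B a + pdθ a T h ∘L S := by
  have hT : DifferentiableAt ℝ T h := (hT.differentiable (by simp)).differentiableAt
  have h1 : HasFDerivAt (fun h : Fin b → ℝ => ∑ a, ((h a : ℝ) : ℂ) • B a)
      (∑ a, (ContinuousLinearMap.proj a : (Fin b → ℝ) →L[ℝ] ℝ).smulRight (B a)) h := by
    have h2 : (fun h : Fin b → ℝ => ∑ a, ((h a : ℝ) : ℂ) • B a) =
        fun h : Fin b → ℝ => ∑ a, (h a) • B a := by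
      funext h
      refine Finset.sum_congr rfl fun a _ => ?_
      ext x
      simp
    rw [h2]
    refine HasFDerivAt.fun_sum fun a _ => ?_
    exact (hasFDerivAt_apply (𝕜 := ℝ) a h).smul_const _
  let L : (G →L[ℂ] H1) →L[ℝ] (H0 →L[ℂ] H1) :=
    (((ContinuousLinearMap.compL ℂ H0 G H1).flip S) :
      (G →L[ℂ] H1) →L[ℂ] (H0 →L[ℂ] H1)).restrictScalars ℝ
  have h3 : HasFDerivAt (fun h => L (T h)) (L ∘L fderiv ℝ T h) h :=
    L.hasFDerivAt.comp h hT.hasFDerivAt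
  have h4 : HasFDerivAt (fun h : Fin b → ℝ => (∑ a, ((h a : ℝ) : ℂ) • B a) + T h ∘L S) _ h :=
    h1.add h3
  unfold pdθ
  rw [h4.fderiv]
  show (∑ a, (ContinuousLinearMap.proj a : (Fin b → ℝ) →L[ℝ] ℝ).smulRight (B a))
    (Pi.single a 1) + L (fderiv ℝ T h (Pi.single a 1)) = _
  congr 1
  rw [sum_apply, Finset.sum_eq_single a]
  · simp
  · intro c _ hc
    simp [Pi.single_eq_of_ne hc]
  · simp

/-- rank of `∂ V - b`. -/
lemma rk_diff {W : Type*} [NormedAddCommGroup W] [InnerProductSpace ℂ W] [CompleteSpace W]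
    [FiniteDimensional ℂ W] {b : ℕ} (B : Fin b → HT H0 W →L[ℂ] H1)
    {T : (Fin b → ℝ) → W →L[ℂ] H1} (hT : ContDiff ℝ ∞ T) (a : Fin b) (h : Fin b → ℝ) :
    Rk (pdθ a (fun h => I • od ((∑ a, ((h a : ℝ) : ℂ) • B a) + T h ∘L p1 H0 W)) h -
      I • od (B a)) (Module.finrank ℂ (W × W)) := by
  have h1 : pdθ a (fun h => I • od ((∑ a, ((h a : ℝ) : ℂ) • B a) + T h ∘L p1 H0 W)) h -
      I • od (B a) = I • od (pdθ a T h ∘L p1 H0 W) := by
    rw [pd_Iod (cd_aff B hT (p1 H0 W)), pd_aff B hT, od_add, smul_add, add_sub_cancel_left]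
  rw [h1]
  exact od_rk _

end gen

variable {b : ℕ} {X Y : Type*} [NormedAddCommGroup X] [InnerProductSpace ℂ X] [CompleteSpace X]
  [NormedAddCommGroup Y] [InnerProductSpace ℂ Y] [CompleteSpace Y]

namespace JF

variable {Φ : PFam b X Y} {H0 : Type*} [NormedAddCommGroup H0] [InnerProductSpace ℂ H0]
  [CompleteSpace H0] (J : JF Φ H0) (W : Submodule ℂ Y) [FiniteDimensional ℂ W]

lemma per (a : Fin b) (h : Fin b → ℝ) : J.K W * J.UU W a - J.UU W a * J.K W =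
    J.K W * (J.V W (h + Pi.single a 1) * J.UU W a - J.UU W a * J.V W h) * J.K W :=
  lin_aux2 _ _ _ _ (J.UK W a h)

lemma gu (a : Fin b) : gr (HT H0 W) Y * J.UU W a = J.UU W a * gr (HT H0 W) Y := by
  refine ContinuousLinearMap.ext fun x => ext_HT rfl ?_
  show -(Φ.Th _ x.snd) = Φ.Th _ (-x.snd)
  rw [map_neg]

lemma cd_V : ContDiff ℝ ∞ (J.V W) :=
  cd_Iod (cd_aff (fun a => J.B a ∘L p0 H0 W) (PFam.cd_const_comp Φ.smTh W.subtypeL) (p1 H0 W))

lemma rkV (a : Fin b) (h : Fin b → ℝ) : Rk (pdθ a (J.V W) h - J.bb W a)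
    (Module.finrank ℂ (W × W)) :=
  rk_diff (fun a => J.B a ∘L p0 H0 W) (PFam.cd_const_comp Φ.smTh W.subtypeL) a h

end JF

theorem JF.fam {Φ : PFam 4 X Y} {H0 : Type*} [NormedAddCommGroup H0] [InnerProductSpace ℂ H0]
    [CompleteSpace H0] (J : JF Φ H0) (W : Submodule ℂ Y) [FiniteDimensional ℂ W] :
    Fam (gr (HT H0 W) Y) (J.K W) (J.V W) (J.bb W) (J.UU W) where
  smooth := J.cd_V W
  gv _ := gr_Iod _
  skew _ := star_Iod _
  rk := ⟨_, fun a h => J.rkV W a h⟩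
  gu a := J.gu W a
  uu _ := J.uu W _
  uu' _ := J.uu' W _
  per a h := J.per W a h

end

end Crest.Agent.R235.Rc1_820
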