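import Crest.Agent.R235.CylDef2_522
import Crest.Agent.R235.T1_195
import Crest.Agent.R240.En4F
import Crest.Agent.R235.CurvesProps_489

-- ▼ part R235/RegC1_522
section

/-!
Row 235, PACKAGE REG, node REGC (helper522), part 1: the support of a closed positive current is
the support of its trace measure.
-/

set_option autoImplicit false
set_option maxSynthPendingDepth 3

open MeasureTheory Metric Set Filter
open scoped ContDiff Topology Manifold

universe u

namespace Crest.Agent.R235.RegC1_522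

open Crest.Agent.R240 Crest.Agent.R240.Ch
open Crest.Agent.R235.Reg_522

noncomputable section

variable {M : Type u} [MetricSpace M] [CompactSpace M] [ChartedSpace E4 M]
  [IsManifold 𝓘(ℝ, E4) ∞ M] [MeasurableSpace M] [BorelSpace M]

theorem eq_zero_of_null {D : Dat M} {C : X2 M →ₗ[ℝ] ℝ} {s : Measure M} (h : T1_195.Cur D C s)
    {U : Set M} (hU : s U = 0) {b : X2 M} (hb : ∀ y ∉ U, at2 (b.1 : F2 E4 M) y = 0) : C b = 0 := by
  have h1 := h.rm.bound b
  rw [← h.inv b] at h1
  have h2 : ∫ x, D.nr (b : F2 E4 M) x ∂s = 0 := by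
    apply integral_eq_zero_of_ae
    have : ∀ᵐ x ∂s, x ∉ U := measure_eq_zero_iff_ae_notMem.1 hU
    filter_upwards [this] with x hx
    have h3 := hb x hx
    show D.nr (b.1 : F2 E4 M) x = 0
    have h4 : D.nr (b.1 : F2 E4 M) x = D.nr (0 : F2 E4 M) x := by
      unfold Dat.nr nrG
      rw [h3]
      rfl
    rw [h4, NM.nr_zero]
  rw [h2, mul_zero] at h1
  exact abs_nonpos_iff.1 h1

theorem null_of_eq_zero {D : Dat M} {C : X2 M →ₗ[ℝ] ℝ} {s : Measure M} (h : T1_195.Cur D C s)
    {W : Set M} (hW : IsOpen W) {x : M} (hx : x ∈ W)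
    (h0 : ∀ b : X2 M, (∀ y ∉ W, at2 (b.1 : F2 E4 M) y = 0) → C b = 0) :
    ∃ U : Set M, IsOpen U ∧ x ∈ U ∧ s U = 0 := by
  obtain ⟨f, hf, hf0, hfx, hfU⟩ := En4.exists_bump hW hx
  have hfc : Continuous f := En4.sF_continuous hf
  have := h.rm.fin
  have hsm : Smooth2 (fmul f D.F) := (Int.dat_smF D).fmul hf
  have h1 := h.rm.trace f hf ⟨fmul f D.F, hsm⟩ rfl
  have h2 : C ⟨fmul f D.F, hsm⟩ = 0 := by
    apply h0
    intro y hy
    show f y • at2 D.F y = 0
    rw [hfU y hy, zero_smul]
  rw [h2] at h1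
  have hint : Integrable f s := hfc.integrable_of_hasCompactSupport (HasCompactSupport.of_compactSpace _)
  have h3 := (integral_eq_zero_iff_of_nonneg (fun z => hf0 z) hint).1 h1.symm
  refine ⟨{z | f z ≠ 0}, isOpen_ne_fun hfc continuous_const, by simp [hfx], ?_⟩
  exact h3

theorem suppC_eq {D : Dat M} {C : X2 M →ₗ[ℝ] ℝ} {s : Measure M} (h : T1_195.Cur D C s) :
    suppC C = {x | ∀ U : Set M, IsOpen U → x ∈ U → 0 < s U} := by
  ext x
  constructor
  · intro hx U hU hxU
    obtain ⟨b, hb, hne⟩ := hx U hU hxU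
    rw [pos_iff_ne_zero]
    intro h0
    exact hne (eq_zero_of_null h h0 hb)
  · intro hx W hW hxW
    by_contra hcon
    push Not at hcon
    obtain ⟨U, hU, hxU, h0⟩ := null_of_eq_zero h hW hxW hcon
    exact (hx U hU hxU).ne' h0


end

end Crest.Agent.R235.RegC1_522
end

-- ▼ part R235/RegC_522

/-!
Row 235, PACKAGE REG, node REGC (helper522): `CHLCD` (local data at every point of `M`, helper4)
and `REGLOC` ⟹ `Curves_489.REGC`.
-/

set_option autoImplicit false
set_option maxSynthPendingDepth 3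

open MeasureTheory Metric Set Filter
open scoped ContDiff Topology Manifold

universe u

namespace Crest.Agent.R235.RegC_522

open Crest.Agent.R240 Crest.Agent.R240.Ch Crest.Agent.R235.T1_195
open Crest.Agent.R235.Reg_522 Crest.Agent.R235.CurDefs_132 Crest.Agent.R235.Curves_489

noncomputable section

/-- **CHLCD** (producer helper4): a closed positive current of density one almost everywhere is
given, near every point, by local data of density one. -/
def CHLCD : Prop :=
  ∀ (M : Type u) [MetricSpace M] [CompactSpace M] [ChartedSpace E4 M]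
    [IsManifold 𝓘(ℝ, E4) ∞ M] [MeasurableSpace M] [BorelSpace M] (D : Dat M), AK D →
    ∀ (C : X2 M →ₗ[ℝ] ℝ) (s : Measure M), Cur D C s → (∀ᵐ x ∂s, IsDen D s x 1) →
    ∀ p : M, ∃ D' : LC, LCRep D.J C p D' ∧ Den1 D'

/-- **REGC.** -/
theorem regc (hC : CHLCD.{u}) (hR : REGLOC.{u}) : REGC.{u} := by
  intro M _ _ _ _ _ _ D hAK C s hcur hden p
  obtain ⟨L, hL⟩ := hR M D.J D.smJ D.sq C (hC M D hAK C s hcur hden) p
  have h : suppC C = msupp s := RegC1_522.suppC_eq hcur
  rw [← h]
  exact ⟨L, hL⟩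

end

end Crest.Agent.R235.RegC_522
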