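import Crest.Agent.R235.Fred_649

/-!
Row 235 (S0364), SWC, PROD node (d) (helper649): coercivity and compactness of `Ah P` on the
orthogonal complement of the kernel.

* `exists_coer` : `‖u‖_{W^{1,2}} ≤ C ‖Ah P u‖` for `u ⊥ ker`;
* `tail`        : `‖u‖² ≤ ∑_{k<N} ⟨u, φ_k⟩² + Λ⁻¹ ‖Ah P u‖²` if `μ_k ≥ Λ` for `k ≥ N`;
* `tendsto_zero`: `u_n ⊥ ker`, `‖Ah P u_n‖ ≤ K`, `Ah P u_n → 0` against smooth sections
                  ==> `u_n → 0` in `L²`;
* `coer_sw`, `tendsto_sw` : the same for the curvature equation, in the language of `SWDefs_53`.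
-/

set_option autoImplicit false
set_option maxSynthPendingDepth 3
set_option linter.unusedSectionVars false

open scoped ContDiff ENNReal NNReal Topology Manifold Bundle RealInnerProductSpace
open MeasureTheory Set Filter Metric Bundle

namespace Crest.Agent.R235.SwcD_649

open Crest.Agent.R249.Tv57 Crest.Agent.R247.Ms322 Crest.Agent.R247.Dir593
open Crest.Agent.R247.Frd657 Crest.Agent.R202.Sp
open Crest.Agent.R235.Fs4_546 Crest.Agent.R235.Fred_649

noncomputable section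

variable {n : ℕ} {M : Type*} [MetricSpace M] [ChartedSpace (EuclideanSpace ℝ (Fin n)) M]
  [IsManifold (𝓡 n) ∞ M]
  [RiemannianBundle (fun p : M => TangentSpace (𝓡 n) p)]
  [IsContMDiffRiemannianBundle (𝓡 n) ∞ (EuclideanSpace ℝ (Fin n)) (fun p : M => TangentSpace (𝓡 n) p)]
  [IsRiemannianManifold (𝓡 n) M] [MeasurableSpace M] [BorelSpace M]
  [SecondCountableTopology M] [Nonempty M]
  [CompactSpace M] [IsFiniteMeasureOnCompacts (μHE[n] : Measure M)]
variable {κ κ' : Type} [Fintype κ] [Fintype κ'] {D0 : Dat n M κ} {D1 : Dat n M κ'}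


/-- Bessel's inequality for the energy. -/
theorem bessel_en {P : OpPair D0 D1} (hd0 : Dns D0) (S0 : Spec D0) (u : D0.toAD.WE)
    (s : Finset ℕ) :
    ∑ k ∈ s, S0.μ k * (⟪D0.toAD.jj u, cH D0 (ph S0 k)⟫ : ℝ) ^ 2 ≤ ‖Ah P u‖ ^ 2 := by
  classical
  set c : ℕ → ℝ := fun k => ⟪D0.toAD.jj u, cH D0 (ph S0 k)⟫ with hc
  set v : D0.toAD.WE := ∑ k ∈ s, c k • cW D0 (ph S0 k) with hv
  have e1 : Ah P v = ∑ k ∈ s, c k • Ah P (cW D0 (ph S0 k)) := by
    rw [hv, map_sum]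
    exact Finset.sum_congr rfl fun k _ => map_smul _ _ _
  have e2 : (⟪Ah P v, Ah P u⟫ : ℝ) = ∑ k ∈ s, S0.μ k * c k ^ 2 := by
    rw [e1, sum_inner]
    refine Finset.sum_congr rfl fun k _ => ?_
    rw [real_inner_smul_left, Ah_eig S0 hd0, real_inner_comm, jj_cW]
    simp only [hc]
    ring
  have e3 : (⟪Ah P v, Ah P v⟫ : ℝ) = ∑ k ∈ s, S0.μ k * c k ^ 2 := by
    conv_lhs => rw [e1]
    rw [sum_inner]
    refine Finset.sum_congr rfl fun k hk => ?_
    rw [real_inner_smul_left, inner_sum]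
    have e4 : ∀ l ∈ s, (⟪Ah P (cW D0 (ph S0 k)), c l • Ah P (cW D0 (ph S0 l))⟫ : ℝ) =
        if k = l then c k * S0.μ k else 0 := by
      intro l _
      rw [real_inner_smul_right, Ah_ortho S0 hd0]
      split_ifs with h
      · rw [h]
      · rw [mul_zero]
    rw [Finset.sum_congr rfl e4, Finset.sum_ite_eq, if_pos hk]
    ring
  have h1 : 0 ≤ ‖Ah P u - Ah P v‖ ^ 2 := sq_nonneg _
  rw [norm_sub_sq_real, real_inner_comm, e2, ← real_inner_self_eq_norm_sq (Ah P v), e3] at h1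
  linarith

/-- **the tail estimate** -/
theorem tail {P : OpPair D0 D1} (hd0 : Dns D0) (S0 : Spec D0) {Λ : ℝ} (hΛ : 0 < Λ) {N : ℕ}
    (hN : ∀ k, N ≤ k → Λ ≤ S0.μ k) (u : D0.toAD.WE) :
    ‖D0.toAD.jj u‖ ^ 2 ≤ ∑ k ∈ Finset.range N, (⟪D0.toAD.jj u, cH D0 (ph S0 k)⟫ : ℝ) ^ 2 +
      Λ⁻¹ * ‖Ah P u‖ ^ 2 := by
  classical
  have h1 := hasSum_HE S0 (D0.toAD.jj u)
  refine le_of_tendsto' h1 fun s => ?_
  rw [← Finset.sum_filter_add_sum_filter_not s (fun k => k < N)]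
  refine add_le_add ?_ ?_
  · refine Finset.sum_le_sum_of_subset_of_nonneg (fun k hk => ?_) fun _ _ _ => sq_nonneg _
    exact Finset.mem_range.2 (Finset.mem_filter.1 hk).2
  · have h2 := bessel_en (P := P) hd0 S0 u (s.filter fun k => ¬ k < N)
    have h3 : ∑ k ∈ s.filter (fun k => ¬ k < N),
        (⟪D0.toAD.jj u, cH D0 (ph S0 k)⟫ : ℝ) ^ 2 ≤
        ∑ k ∈ s.filter (fun k => ¬ k < N),
          Λ⁻¹ * (S0.μ k * (⟪D0.toAD.jj u, cH D0 (ph S0 k)⟫ : ℝ) ^ 2) := by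
      refine Finset.sum_le_sum fun k hk => ?_
      have h4 := hN k (not_lt.1 (Finset.mem_filter.1 hk).2)
      rw [← mul_assoc]
      have h5 : 1 ≤ Λ⁻¹ * S0.μ k := by
        rw [inv_mul_eq_div, one_le_div hΛ]
        exact h4
      nlinarith [sq_nonneg (⟪D0.toAD.jj u, cH D0 (ph S0 k)⟫ : ℝ)]
    rw [← Finset.mul_sum] at h3
    exact h3.trans (mul_le_mul_of_nonneg_left h2 (inv_nonneg.2 hΛ.le))


/-- the norm of a class from a representative. -/
theorem norm_rep {F : HH (μHE[n] : Measure M) κ} {f : κ → M → ℝ}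
    (hf : ∀ᵐ x ∂(μHE[n] : Measure M), ∀ a, (F a : M → ℝ) x = f a x) :
    ∫ x, ∑ a, f a x ^ 2 ∂(μHE[n] : Measure M) = ‖F‖ ^ 2 := by
  rw [← real_inner_self_eq_norm_sq, inner_HH F F hf hf]
  exact integral_congr_ae (Eventually.of_forall fun x =>
    Finset.sum_congr rfl fun a _ => by ring)

end

/-! ### in the language of `SWDefs_53` -/

noncomputable section

open Crest.Agent.R235.SWDefs_53

variable {M : Type*} [MetricSpace M] [CompactSpace M] [ConnectedSpace M]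
  [ChartedSpace (EuclideanSpace ℝ (Fin 4)) M] [IsManifold (𝓡 4) ∞ M]
  [RiemannianBundle (fun p : M => TangentSpace (𝓡 4) p)]
  [IsContMDiffRiemannianBundle (𝓡 4) ∞ (EuclideanSpace ℝ (Fin 4))
    (fun p : M => TangentSpace (𝓡 4) p)]
  [IsRiemannianManifold (𝓡 4) M] [MeasurableSpace M] [BorelSpace M]
  [SecondCountableTopology M] [Nonempty M] [IsFiniteMeasureOnCompacts (μHE[4] : Measure M)]
  {κ κ' : Type} [Fintype κ] [Fintype κ'] {D0 : Dat 4 M κ} {D1 : Dat 4 M κ'}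






variable {κ0 κ1 κT : Type} [Fintype κ0] [Fintype κ1] [Fintype κT]



end

end Crest.Agent.R235.SwcD_649
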