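import Crest.Agent.R235.SwcGlob_34
import Crest.Agent.R240.En4D
import Crest.Agent.R235.SwcAlg_34
import Crest.Agent.R235.TauB_483
import Crest.Agent.R240.En4E

-- ▼ part R235/SwcAn_34
section

/-!
Row 235 (S0364), PACKAGE SWC-AN (helper34), assembly with `POSDOM2`: it is enough to prove POSDOM
for sequences with `OK` along `atTop`, `0 < r n`, and for SOME filter `U ≤ atTop` (reindexing).
-/

set_option autoImplicit false
set_option maxSynthPendingDepth 3

open Set Function Filter MeasureTheory Metric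
open scoped Manifold ContDiff Topology

universe u

namespace Crest.Agent.R235.SwcAn_34

open Crest.Agent.R240 Crest.Agent.R240.Ch Crest.Agent.R235 Crest.Agent.R235.SwcDefs_34
open Crest.Agent.R235.Swc Crest.Agent.R235.SwcGlob_34

noncomputable section

/-- **POSDOM2**: variant of POSDOM; the filter is chosen by the prover. -/
def POSDOM2 : Prop :=
  ∀ (M : Type u) [MetricSpace M] [CompactSpace M] [ChartedSpace E4 M]
    [IsManifold 𝓘(ℝ, E4) ∞ M] [MeasurableSpace M] [BorelSpace M] (D : Dat M) (N : ℕ)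
    (Q : TSeq M N) (lam C : ℝ), Q.OK D atTop lam C → (∀ n, 0 < Q.r n) →
    ∀ T : ℕ → X2 M, (∀ n, (T n : F2 E4 M) = Q.Psi n) →
    ∃ U : Filter ℕ, U ≤ atTop ∧ U.NeBot ∧ ∃ (S : X2 M →ₗ[ℝ] ℝ) (s : Measure M), Lim D U T S s ∧
      ∀ b : Z2 M, S b.1 = D.I ((Q.a0 0).1.1 : F2 E4 M) (b.1.1 : F2 E4 M)

variable {M : Type u} [MetricSpace M] [CompactSpace M] [ChartedSpace E4 M]
  [IsManifold 𝓘(ℝ, E4) ∞ M] [MeasurableSpace M] [BorelSpace M] {N : ℕ}

/-- reindexing. -/
def re (Q : TSeq M N) (f : ℕ → ℕ) : TSeq M N where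
  p := fun n => Q.p (f n)
  a0 := fun n => Q.a0 (f n)
  r := fun n => Q.r (f n)
  α := fun n => Q.α (f n)
  θ := fun n => Q.θ (f n)

/-- classes and pairing. -/
theorem I_eq_of_cls (D : Dat M) (a a' b : Z2 M) (h : cls a = cls a') :
    D.I (a.1.1 : F2 E4 M) (b.1.1 : F2 E4 M) = D.I (a'.1.1 : F2 E4 M) (b.1.1 : F2 E4 M) := by
  have h0 : a - a' ∈ B2 M := (Submodule.Quotient.eq (B2 M)).1 h
  have h1 : IsEx ((a.1 - a'.1 : X2 M) : F2 E4 M) := h0
  have h2 := Int.dat_stokes D h1 b.1.2 b.2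
  have h3 := En4.I_sub_left D a.1 a'.1 b.1
  rw [h2] at h3
  linarith

theorem exists_re {D : Dat M} {Q : TSeq M N} {U : Filter ℕ} [U.NeBot] {lam C : ℝ}
    (h : Q.OK D U lam C) : ∃ f : ℕ → ℕ, (re Q f).OK D atTop lam C ∧ ∀ n, 0 < (re Q f).r n := by
  obtain ⟨p', hp', hp⟩ := h.plim
  have ev : ∀ k : ℕ, ∃ n : ℕ, ((k : ℝ) + 1 ≤ Q.r n ∧
      (∀ x i j, ‖Q.p n x i j - p' x i j‖ < ((k : ℝ) + 1)⁻¹) ∧
      ∫ x, nsqG D.J D.F ((Q.a0 n).1.1 : F2 E4 M) x ∂D.μ ≤ C) ∧
      (∫ x, Q.neta D n x ∂D.μ ≤ C ∧ Q.r n * ∫ x, (1 - Q.nal n x) ^ 2 ∂D.μ ≤ C ∧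
      ∫ x, nsqG D.J D.F (Q.Phi n) x ∂D.μ ≤ C * Q.r n) ∧
      (|(Q.r n)⁻¹ * ∫ x, (qG D.F (Q.Phi n) D.F x - lam * Q.r n * (1 - Q.nal n x)) ^ 2 ∂D.μ| <
        ((k : ℝ) + 1)⁻¹ ∧
      |(Q.r n)⁻¹ * ∫ x, nsqG D.J D.F (bpp D.J (Q.Phi n)) x ∂D.μ| < ((k : ℝ) + 1)⁻¹ ∧
      |∫ x, Q.ndb D n x ∂D.μ| < ((k : ℝ) + 1)⁻¹ ∧
      |(Q.r n)⁻¹ * ∫ x, n1 D x (at1 (Q.θ n) x) ∂D.μ| < ((k : ℝ) + 1)⁻¹) := by
    intro k
    have hk : (0 : ℝ) < ((k : ℝ) + 1)⁻¹ := by positivity
    have ab : ∀ {g : ℕ → ℝ}, Tendsto g U (𝓝 0) → ∀ᶠ n in U, |g n| < ((k : ℝ) + 1)⁻¹ := by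
      intro g hg
      have h1 := (tendsto_zero_iff_abs_tendsto_zero g).1 hg
      exact h1.eventually_lt_const hk
    exact (((h.rinf.eventually_ge_atTop ((k : ℝ) + 1)).and
      ((hp _ hk).and h.a0bd)).and ((h.e1.and (h.e2.and h.e3)).and
      ((ab h.o1).and ((ab h.o2).and ((ab h.o3).and (ab h.o4)))))).exists
  choose f hf using ev
  have sq0 : Tendsto (fun k : ℕ => ((k : ℝ) + 1)⁻¹) atTop (𝓝 0) :=
    tendsto_inv_atTop_zero.comp (tendsto_atTop_add_const_right _ _ tendsto_natCast_atTop_atTop)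
  have sq : ∀ {g : ℕ → ℝ}, (∀ k, |g k| < ((k : ℝ) + 1)⁻¹) → Tendsto g atTop (𝓝 0) := by
    intro g hg
    exact squeeze_zero_norm (fun k => (hg k).le) sq0
  refine ⟨f, ?_, fun n => ?_⟩
  · exact {
      clF := h.clF
      line := fun n => h.line (f n)
      chern := fun n => h.chern (f n)
      cls0 := fun n => (h.cls0 (f n)).trans (h.cls0 (f 0)).symm
      plim := by
        refine ⟨p', hp', fun ε hε => ?_⟩
        filter_upwards [sq0.eventually_lt_const hε] with n hn x i j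
        exact ((hf n).1.2.1 x i j).trans hn
      a0bd := Eventually.of_forall fun n => (hf n).1.2.2
      smα := fun n => h.smα (f n)
      secα := fun n => h.secα (f n)
      smθ := fun n => h.smθ (f n)
      rinf := tendsto_atTop_mono (fun n => (hf n).1.1)
        (tendsto_atTop_add_const_right _ _ tendsto_natCast_atTop_atTop)
      lam_pos := h.lam_pos
      e1 := Eventually.of_forall fun n => (hf n).2.1.1
      e2 := Eventually.of_forall fun n => (hf n).2.1.2.1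
      e3 := Eventually.of_forall fun n => (hf n).2.1.2.2
      o1 := sq fun n => (hf n).2.2.1
      o2 := sq fun n => (hf n).2.2.2.1
      o3 := sq fun n => (hf n).2.2.2.2.1
      o4 := sq fun n => (hf n).2.2.2.2.2 }
  · have h1 : (n : ℝ) + 1 ≤ Q.r (f n) := (hf n).1.1
    have h2 : (0 : ℝ) ≤ n := n.cast_nonneg
    show 0 < Q.r (f n)
    linarith

theorem an_of2 (h1 : PTW.{u}) (h2 : POSDOM2.{u}) (h3 : LOCREP.{u}) (h4 : QIM.{u}) : AN.{u} := by
  intro M _ _ _ _ _ _ D N Q U _ lam C hQ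
  obtain ⟨f, hf, hr⟩ := exists_re hQ
  have hT := h1 M D N (re Q f) atTop lam C hf
  let T : ℕ → X2 M := fun n => ⟨(re Q f).Psi n, (hT n).2.2.2.1⟩
  obtain ⟨V, hV, hV', S, s, hS, hcl⟩ := h2 M D N (re Q f) lam C hf hr T fun n => rfl
  refine ⟨S, s, hS.cur, fun b => ?_, h4 M D _ (re Q f).r T S s
    (h3 M D N (re Q f) _ lam C (hf.mono hV) T fun n => rfl) hS⟩
  rw [hcl b]
  exact I_eq_of_cls D _ _ b (hQ.cls0 _)

end

end Crest.Agent.R235.SwcAn_34
end

-- ▼ part R235/SwcVs_34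

/-!
Row 235 (S0364), SWC-AN (helper34): smoothness and integrability of the densities of a Taubes
sequence (`neta`, `ndb`, `nal`, `n1 θ`), and the forms `P = Psi - a Phi`.
-/

set_option autoImplicit false
set_option maxSynthPendingDepth 3
set_option linter.unusedSectionVars false

open Set Function Filter MeasureTheory Metric
open scoped Manifold ContDiff Topology

universe u

namespace Crest.Agent.R235.SwcVs_34

open Crest.Agent.R240 Crest.Agent.R240.Ch Crest.Agent.R235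
open Crest.Agent.R235.SwcGlob_34 Crest.Agent.R235.SwcAlg_34 Crest.Agent.R235.Tau483

noncomputable section

section jc

variable {M : Type u} [TopologicalSpace M] [ChartedSpace E4 M] [IsManifold 𝓘(ℝ, E4) ∞ M]

/-- `s ↦ Jc s` on one-forms. -/
def jcG (J : EndF E4 M) (s : F1 E4 M) : F1 E4 M := fun x => (Jc (atJ J x) (at1 s x) : E4 →L[ℝ] ℝ)

theorem at1_jcG (J : EndF E4 M) (s : F1 E4 M) (x : M) : at1 (jcG J s) x = Jc (atJ J x) (at1 s x) :=
  rfl

theorem rep1_jcG (J : EndF E4 M) (s : F1 E4 M) {p : M} {y : E4} (hy : y ∈ (chartAt E4 p).target) :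
    rep1 p (jcG J s) y = - (rep1 p s y).comp (repJ p J y) := by
  ext v
  rw [rep1_apply, at1_jcG, Jc_apply]
  simp only [neg_apply, ContinuousLinearMap.comp_apply]
  rw [rep1_apply, repJ_apply, tcc_cancel' (symm_mem hy)]

theorem smooth_jcG {J : EndF E4 M} (hJ : SmoothJ J) {s : F1 E4 M} (hs : Smooth1 s) :
    Smooth1 (jcG J s) := by
  intro p
  have h1 : ContDiffOn ℝ ∞ (fun y => -((rep1 p s y).comp (repJ p J y))) (chartAt E4 p).target :=
    ((hs p).clm_comp (hJ p)).neg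
  exact h1.congr fun y hy => rep1_jcG J s hy

end jc

variable {M : Type u} [MetricSpace M] [CompactSpace M] [ChartedSpace E4 M]
  [IsManifold 𝓘(ℝ, E4) ∞ M] [MeasurableSpace M] [BorelSpace M] (D : Dat M)



theorem nC_mC (x : M) (c : E4 →L[ℝ] ℂ) : nC D x c = mC (atJ D.J x) (at2 D.F x) c := rfl

theorem smooth_n1 {s : F1 E4 M} (hs : Smooth1 s) : SmoothF E4 fun x => n1 D x (at1 s x) := by
  have h := En4.sF_qG D (En4.smF D) (Smooth2.wed hs (smooth_jcG D.smJ hs))
  exact En4.sF_const_mul 2 h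

theorem cont_n1 {s : F1 E4 M} (hs : Smooth1 s) : Continuous fun x => n1 D x (at1 s x) :=
  En4.sF_continuous (smooth_n1 D hs)

/-! ### real and imaginary parts of `eta` as smooth one-forms -/

variable {N : ℕ} (Q : TSeq M N)

/-- the real part of the component `i` of `eta`. -/
def reF (n : ℕ) (i : Fin N) : F1 E4 M :=
  (∑ j, (fmul1 (fun x => (Q.p n x i j).re) (dF fun x => (Q.α n x j).re) +
    fmul1 (fun x => -(Q.p n x i j).im) (dF fun x => (Q.α n x j).im))) +
    fmul1 (fun x => (Q.α n x i).im) (Q.θ n)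

/-- the imaginary part of the component `i` of `eta`. -/
def imF (n : ℕ) (i : Fin N) : F1 E4 M :=
  (∑ j, (fmul1 (fun x => (Q.p n x i j).re) (dF fun x => (Q.α n x j).im) +
    fmul1 (fun x => (Q.p n x i j).im) (dF fun x => (Q.α n x j).re))) +
    fmul1 (fun x => -(Q.α n x i).re) (Q.θ n)

variable {D} {Q} {U : Filter ℕ} {lam C : ℝ} (h : Q.OK D U lam C)

theorem eta_apply (n : ℕ) (x : M) (i : Fin N) (v : E4) : Q.eta n x i v =
    ∑ j, Q.p n x i j * dC (fun y => Q.α n y j) x v -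
      (at1 (Q.θ n) x v : ℂ) * (Complex.I * Q.α n x i) := by
  unfold TSeq.eta cov
  rw [sub_apply, ContinuousLinearMap.sum_apply, ContinuousLinearMap.smulRight_apply]
  simp only [smul_apply, smul_eq_mul, Complex.real_smul]
  rfl

include h

theorem re_eta (n : ℕ) (x : M) (i : Fin N) :
    Complex.reCLM.comp (Q.eta n x i) = at1 (reF Q n i) x := by
  ext v
  rw [ContinuousLinearMap.comp_apply, Complex.reCLM_apply, eta_apply, Complex.sub_re,
    Complex.re_sum]
  unfold reF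
  rw [at1_add, at1_fmul1, Tau_692.at1_sum]
  have e1 : ((at1 (Q.θ n) x v : ℂ) * (Complex.I * Q.α n x i)).re =
      - ((Q.α n x i).im * at1 (Q.θ n) x v) := by
    simp
    ring
  rw [e1, sub_neg_eq_add]
  congr 1
  refine Finset.sum_congr rfl fun j _ => ?_
  rw [at1_add, at1_fmul1, at1_fmul1, Complex.mul_re, dC_re (h.smα n j), dC_im (h.smα n j)]
  ring

theorem im_eta (n : ℕ) (x : M) (i : Fin N) :
    Complex.imCLM.comp (Q.eta n x i) = at1 (imF Q n i) x := by
  ext v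
  rw [ContinuousLinearMap.comp_apply, Complex.imCLM_apply, eta_apply, Complex.sub_im,
    Complex.im_sum]
  unfold imF
  rw [at1_add, at1_fmul1, Tau_692.at1_sum]
  have e1 : ((at1 (Q.θ n) x v : ℂ) * (Complex.I * Q.α n x i)).im =
      ((Q.α n x i).re * at1 (Q.θ n) x v) := by
    simp
    ring
  rw [e1, sub_eq_add_neg, ← neg_mul]
  congr 1
  refine Finset.sum_congr rfl fun j _ => ?_
  rw [at1_add, at1_fmul1, at1_fmul1, Complex.mul_im, dC_re (h.smα n j), dC_im (h.smα n j)]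

theorem smooth_reF (n : ℕ) (i : Fin N) : Smooth1 (reF Q n i) := by
  refine Smooth1.add (Tau_692.smooth1_sum _ fun j _ => ?_) ?_
  · exact (Smooth1.fmul (SmC.re ((h.line n).smooth i j)) (Smooth1.dF (SmC.re (h.smα n j)))).add
      (Smooth1.fmul (SmC.im ((h.line n).smooth i j)).neg (Smooth1.dF (SmC.im (h.smα n j))))
  · exact Smooth1.fmul (SmC.im (h.smα n i)) (h.smθ n)

theorem smooth_imF (n : ℕ) (i : Fin N) : Smooth1 (imF Q n i) := by
  refine Smooth1.add (Tau_692.smooth1_sum _ fun j _ => ?_) ?_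
  · exact (Smooth1.fmul (SmC.re ((h.line n).smooth i j)) (Smooth1.dF (SmC.im (h.smα n j)))).add
      (Smooth1.fmul (SmC.im ((h.line n).smooth i j)) (Smooth1.dF (SmC.re (h.smα n j))))
  · exact Smooth1.fmul (SmC.re (h.smα n i)).neg (h.smθ n)

theorem nC_eta (n : ℕ) (x : M) (i : Fin N) :
    nC D x (Q.eta n x i) = n1 D x (at1 (reF Q n i) x) + n1 D x (at1 (imF Q n i) x) := by
  unfold nC
  rw [re_eta h, im_eta h]

theorem cont_neta (n : ℕ) : Continuous fun x => Q.neta D n x := by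
  unfold TSeq.neta
  refine continuous_finsetSum _ fun i _ => ?_
  have h1 : (fun x => nC D x (Q.eta n x i)) =
      fun x => n1 D x (at1 (reF Q n i) x) + n1 D x (at1 (imF Q n i) x) :=
    funext fun x => nC_eta h n x i
  rw [h1]
  exact (cont_n1 D (smooth_reF h n i)).add (cont_n1 D (smooth_imF h n i))

theorem nC_zt (n : ℕ) (x : M) (i : Fin N) :
    nC D x ((Q.eta n x i).comp (atJ D.J x) - Complex.I • Q.eta n x i) =
      n1 D x (at1 ((-1 : ℝ) • jcG D.J (reF Q n i) + imF Q n i) x) +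
      n1 D x (at1 ((-1 : ℝ) • jcG D.J (imF Q n i) + (-1 : ℝ) • reF Q n i) x) := by
  unfold nC
  congr 2
  · ext v
    have e1 : at1 (reF Q n i) x (atJ D.J x v) = (Q.eta n x i (atJ D.J x v)).re := by
      rw [← re_eta h]; rfl
    have e2 : at1 (imF Q n i) x v = (Q.eta n x i v).im := by rw [← im_eta h]; rfl
    have e3 : at1 ((-1 : ℝ) • jcG D.J (reF Q n i) + imF Q n i) x v =
        -1 * (- at1 (reF Q n i) x (atJ D.J x v)) + at1 (imF Q n i) x v := rfl
    rw [e3, e1, e2]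
    simp [Complex.reCLM_apply]
  · ext v
    have e1 : at1 (imF Q n i) x (atJ D.J x v) = (Q.eta n x i (atJ D.J x v)).im := by
      rw [← im_eta h]; rfl
    have e2 : at1 (reF Q n i) x v = (Q.eta n x i v).re := by rw [← re_eta h]; rfl
    have e3 : at1 ((-1 : ℝ) • jcG D.J (imF Q n i) + (-1 : ℝ) • reF Q n i) x v =
        -1 * (- at1 (imF Q n i) x (atJ D.J x v)) + -1 * at1 (reF Q n i) x v := rfl
    rw [e3, e1, e2]
    simp [Complex.imCLM_apply]
    ring

theorem cont_ndb (n : ℕ) : Continuous fun x => Q.ndb D n x := by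
  unfold TSeq.ndb
  refine continuous_finsetSum _ fun i _ => ?_
  have h1 : (fun x => nC D x ((Q.eta n x i).comp (atJ D.J x) - Complex.I • Q.eta n x i)) =
      fun x => n1 D x (at1 ((-1 : ℝ) • jcG D.J (reF Q n i) + imF Q n i) x) +
      n1 D x (at1 ((-1 : ℝ) • jcG D.J (imF Q n i) + (-1 : ℝ) • reF Q n i) x) :=
    funext fun x => nC_zt h n x i
  rw [h1]
  exact (cont_n1 D (((smooth_jcG D.smJ (smooth_reF h n i)).smul (-1)).add
    (smooth_imF h n i))).add (cont_n1 D (((smooth_jcG D.smJ (smooth_imF h n i)).smul (-1)).add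
    ((smooth_reF h n i).smul (-1))))

theorem neta_nonneg (n : ℕ) (x : M) : 0 ≤ Q.neta D n x :=
  Finset.sum_nonneg fun i _ => mC_nonneg (D.sq x) (En4.spos D x) _

theorem ndb_nonneg (n : ℕ) (x : M) : 0 ≤ Q.ndb D n x :=
  Finset.sum_nonneg fun i _ => mC_nonneg (D.sq x) (En4.spos D x) _

theorem smooth_nal (n : ℕ) : SmoothF E4 fun x => Q.nal n x := by
  have h1 : (fun x => Q.nal n x) =
      fun x => ∑ i, ((Q.α n x i).re * (Q.α n x i).re + (Q.α n x i).im * (Q.α n x i).im) := by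
    funext x
    unfold TSeq.nal
    refine Finset.sum_congr rfl fun i _ => ?_
    rw [← Complex.normSq_eq_norm_sq, Complex.normSq_apply]
  rw [h1, ← smoothF_iff]
  refine ContMDiff.sum fun i _ => ?_
  exact ((smoothF_iff _).2 (En4.sF_add (En4.sF_mul (SmC.re (h.smα n i)) (SmC.re (h.smα n i)))
    (En4.sF_mul (SmC.im (h.smα n i)) (SmC.im (h.smα n i)))))

end

end Crest.Agent.R235.SwcVs_34
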