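import Crest.Agent.R235.SwcProd3_215
import Crest.Agent.R235.SwcPtw_766
import Crest.Agent.R235.SwcAlg_34
import Crest.Agent.R240.NrmM
import Crest.Agent.R240.En4F
import Crest.Agent.R235.Apx_649
import Crest.Agent.R235.SwcProd_215
import Crest.Agent.R235.Sob4_984
import Crest.Agent.R235.SwcD_649
import Crest.Agent.R235.SwcProd2_215
import Crest.Agent.R235.Swx4_333
import Crest.Agent.R235.TauC_483
import Crest.Agent.R235.DCMan_358
import Crest.Agent.R240.Sm2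
import Crest.Agent.R240.IntTop
import Crest.Agent.R235.SwcVs_34
import Crest.Agent.R249.Ker57a_57

-- ▼ part R235/SwcPRD_215
section

/-!
Row 235 (S0364), PACKAGE SWC, assembly of PROD (helper215): the field `o4` (`PRD`).
-/

set_option autoImplicit false
set_option maxSynthPendingDepth 3
set_option linter.unusedSectionVars false

open scoped ContDiff ENNReal NNReal Topology Manifold Bundle RealInnerProductSpace
open MeasureTheory Set Filter Metric Bundle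

universe v

namespace Crest.Agent.R235.SwcProd_215

open Crest.Agent.R240 Crest.Agent.R240.Ch Crest.Agent.R235 Crest.Agent.R235.SWDefs_53
open Crest.Agent.R235.IndTri_451 Crest.Agent.R235.Tau483 Crest.Agent.R235.SwcGlob_34
open Crest.Agent.R249.Tv57 (OpPair SmF SmV KerD)
open Crest.Agent.R249.Tz805 (ToF)

noncomputable section

/-- **NETC** (984): continuity and pointwise bounds for one step of a Taubes sequence. -/
def NETC : Prop :=
  ∀ (M : Type v) [MetricSpace M] [CompactSpace M] [ChartedSpace E4 M]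
    [IsManifold 𝓘(ℝ, E4) ∞ M] [MeasurableSpace M] [BorelSpace M]
    (D : Crest.Agent.R240.Dat M) (N : ℕ) (Q : TSeq M N) (n : ℕ), IsLine (Q.p n) →
    IsChern (Q.p n) (Q.a0 n) → (∀ i, ContMDiff 𝓘(ℝ, E4) 𝓘(ℝ, ℂ) ∞ (fun x => Q.α n x i)) →
    (∀ x, (Q.p n x).mulVec (Q.α n x) = Q.α n x) → Smooth1 (Q.θ n) →
    Continuous (Q.nal n) ∧ Continuous (Q.neta D n) ∧ (∀ x, 0 ≤ Q.neta D n x) ∧
    Continuous (Q.ndb D n) ∧
    (∀ x, n1 D x (at1 (Q.jj n) x) ≤ Q.nal n x * Q.neta D n x) ∧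
    ∀ x, D.nr (Q.Psi n) x ≤ |1 - Q.nal n x| * D.nr (Q.Phi n) x + Q.neta D n x

section gen

variable {M : Type v} [MetricSpace M] [CompactSpace M] [ChartedSpace E4 M]
  [IsManifold 𝓘(ℝ, E4) ∞ M] [MeasurableSpace M] [BorelSpace M]

theorem n1_nonneg (D : Crest.Agent.R240.Dat M) (x : M) (c : E4 →L[ℝ] ℝ) : 0 ≤ n1 D x c :=
  SwcAlg_34.m1_nonneg (NM.dJ D x) (NM.dF D x) c

theorem contI (D : Crest.Agent.R240.Dat M) {f : M → ℝ} (hf : Continuous f) : Integrable f D.μ := by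
  have := D.fin
  exact hf.integrable_of_hasCompactSupport (HasCompactSupport.of_compactSpace f)

theorem abs_qG_self_le (D : Crest.Agent.R240.Dat M) {b : F2 E4 M} (hb : Smooth2 b) (x : M) :
    |qG D.F b b x| ≤ nsqG D.J D.F b x := by
  have h := NM.abs_qG_le D hb hb x
  rw [← sq, NM.nr_sq D hb] at h
  exact h

/-- a bound of the norm of a smooth form. -/
theorem exists_nr_le (D : Crest.Agent.R240.Dat M) {b : F2 E4 M} (hb : Smooth2 b) :
    ∃ B : ℝ, 0 ≤ B ∧ ∀ x, D.nr b x ≤ B := by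
  obtain ⟨B, hB⟩ := isCompact_univ.exists_bound_of_continuousOn
    (NM.continuous_nr D hb).continuousOn
  refine ⟨|B|, abs_nonneg _, fun x => ?_⟩
  exact ((le_abs_self _).trans (hB x (mem_univ x))).trans (le_abs_self _)

/-- `|∫ q(Psi, b)| ≤ B ∫ |Psi|`. -/
theorem abs_I_le (D : Crest.Agent.R240.Dat M) {a b : F2 E4 M} (ha : Smooth2 a) (hb : Smooth2 b)
    {B : ℝ} (hB : ∀ x, D.nr b x ≤ B) : |D.I a b| ≤ B * ∫ x, D.nr a x ∂D.μ := by
  have h1 : |D.I a b| ≤ ∫ x, |qG D.F a b x| ∂D.μ := by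
    unfold Crest.Agent.R240.Dat.I IG
    exact abs_integral_le_integral_abs
  refine h1.trans ?_
  rw [← integral_const_mul]
  refine integral_mono_of_nonneg (Eventually.of_forall fun x => abs_nonneg _)
    ((contI D (NM.continuous_nr D ha)).const_mul B) (Eventually.of_forall fun x => ?_)
  refine (NM.abs_qG_le D ha hb x).trans ?_
  show D.nr a x * D.nr b x ≤ B * D.nr a x
  rw [mul_comm]
  exact mul_le_mul_of_nonneg_right (hB x) (NM.nr_nonneg D a x)

/-- additivity of `D.I`. -/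
theorem I_add (D : Crest.Agent.R240.Dat M) {a a' b : F2 E4 M} (ha : Smooth2 a) (ha' : Smooth2 a')
    (hb : Smooth2 b) : D.I (a + a') b = D.I a b + D.I a' b := by
  unfold Crest.Agent.R240.Dat.I IG
  rw [← integral_add (contI D (NM.continuous_qG D ha hb)) (contI D (NM.continuous_qG D ha' hb))]
  congr 1
  funext x
  exact Int.qG_add_left D.F a a' b x

/-- the first bound: `∫ |Psi|`. -/
theorem int_nr_psi (D : Crest.Agent.R240.Dat M) {N : ℕ} (Q : TSeq M N) (n : ℕ) {C1 C2 : ℝ}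
    (hr : 0 < Q.r n) (hPhi : Smooth2 (Q.Phi n))
    (c1 : Continuous (Q.nal n)) (c2 : Continuous (Q.neta D n))
    (hps : ∀ x, D.nr (Q.Psi n) x ≤ |1 - Q.nal n x| * D.nr (Q.Phi n) x + Q.neta D n x)
    (h1 : ∫ x, Q.neta D n x ∂D.μ ≤ C1) (h2 : Q.r n * ∫ x, (1 - Q.nal n x) ^ 2 ∂D.μ ≤ C1)
    (h3 : ∫ x, nsqG D.J D.F (Q.Phi n) x ∂D.μ ≤ C2 * Q.r n) :
    ∫ x, D.nr (Q.Psi n) x ∂D.μ ≤ 2 * C1 + C2 := by
  have i1 : Integrable (fun x => (1 - Q.nal n x) ^ 2) D.μ := contI D ((continuous_const.sub c1).pow 2)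
  have i2 : Integrable (fun x => nsqG D.J D.F (Q.Phi n) x) D.μ := contI D (NM.continuous_nsq D hPhi)
  have i3 : Integrable (fun x => Q.neta D n x) D.μ := contI D c2
  have e1 := integral_add ((i1.const_mul (1 / 2 * Q.r n)).add (i2.const_mul (1 / 2 * (Q.r n)⁻¹))) i3
  have e2 := integral_add (i1.const_mul (1 / 2 * Q.r n)) (i2.const_mul (1 / 2 * (Q.r n)⁻¹))
  simp only [Pi.add_apply] at e1 e2
  have hle : ∫ x, D.nr (Q.Psi n) x ∂D.μ ≤
      ∫ x, (1 / 2 * Q.r n * (1 - Q.nal n x) ^ 2 + 1 / 2 * (Q.r n)⁻¹ * nsqG D.J D.F (Q.Phi n) x +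
        Q.neta D n x) ∂D.μ := by
    refine integral_mono_of_nonneg (Eventually.of_forall fun x => NM.nr_nonneg D _ x)
      (((i1.const_mul _).add (i2.const_mul _)).add i3) (Eventually.of_forall fun x => ?_)
    refine (hps x).trans ?_
    have h4 : |1 - Q.nal n x| * D.nr (Q.Phi n) x ≤
        1 / 2 * Q.r n * (1 - Q.nal n x) ^ 2 + 1 / 2 * (Q.r n)⁻¹ * nsqG D.J D.F (Q.Phi n) x := by
      rw [← NM.nr_sq D hPhi, ← sq_abs (1 - Q.nal n x)]
      have h5 : 0 ≤ (Q.r n)⁻¹ * (Q.r n * |1 - Q.nal n x| - D.nr (Q.Phi n) x) ^ 2 := by positivity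
      have h6 : (Q.r n)⁻¹ * (Q.r n * |1 - Q.nal n x| - D.nr (Q.Phi n) x) ^ 2 =
          Q.r n * |1 - Q.nal n x| ^ 2 - 2 * (|1 - Q.nal n x| * D.nr (Q.Phi n) x) +
            (Q.r n)⁻¹ * D.nr (Q.Phi n) x ^ 2 := by
        field_simp
        ring
      rw [h6] at h5
      linarith
    exact add_le_add_left h4 _
  refine hle.trans ?_
  rw [e1, e2, integral_const_mul, integral_const_mul]
  have h7 : 1 / 2 * (Q.r n)⁻¹ * ∫ x, nsqG D.J D.F (Q.Phi n) x ∂D.μ ≤ 1 / 2 * C2 := by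
    have h8 : (Q.r n)⁻¹ * ∫ x, nsqG D.J D.F (Q.Phi n) x ∂D.μ ≤ (Q.r n)⁻¹ * (C2 * Q.r n) :=
      mul_le_mul_of_nonneg_left h3 (by positivity)
    have h9 : (Q.r n)⁻¹ * (C2 * Q.r n) = C2 := by field_simp
    rw [h9] at h8
    linarith
  have hC2 : 0 ≤ C2 := by
    have h10 : 0 ≤ ∫ x, nsqG D.J D.F (Q.Phi n) x ∂D.μ :=
      integral_nonneg fun x => NM.nsq_nonneg D hPhi x
    have h11 : 0 ≤ C2 * Q.r n := h10.trans h3
    exact nonneg_of_mul_nonneg_left h11 hr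
  have hC1 : 0 ≤ C1 := by
    have h10 : 0 ≤ ∫ x, (1 - Q.nal n x) ^ 2 ∂D.μ := integral_nonneg fun x => sq_nonneg _
    exact (mul_nonneg hr.le h10).trans h2
  linarith

/-- the second bound: `∫ |j|`. -/
theorem int_j (D : Crest.Agent.R240.Dat M) {N : ℕ} (Q : TSeq M N) (n : ℕ) {C1 : ℝ}
    (hr : 1 ≤ Q.r n) (c1 : Continuous (Q.nal n)) (c2 : Continuous (Q.neta D n))
    (n2 : ∀ x, 0 ≤ Q.neta D n x)
    (hj : ∀ x, n1 D x (at1 (Q.jj n) x) ≤ Q.nal n x * Q.neta D n x)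
    (h1 : ∫ x, Q.neta D n x ∂D.μ ≤ C1) (h2 : Q.r n * ∫ x, (1 - Q.nal n x) ^ 2 ∂D.μ ≤ C1) :
    ∫ x, √(n1 D x (at1 (Q.jj n) x)) ∂D.μ ≤ 2 * C1 + 2 * D.μ.real univ := by
  have := D.fin
  have n0 : ∀ x, 0 ≤ Q.nal n x := fun x => Finset.sum_nonneg fun i _ => sq_nonneg _
  have i1 : Integrable (fun x => (1 - Q.nal n x) ^ 2) D.μ := contI D ((continuous_const.sub c1).pow 2)
  have i3 : Integrable (fun x => Q.neta D n x) D.μ := contI D c2
  have i4 : Integrable (fun _ : M => (2 : ℝ)) D.μ := integrable_const _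
  have e1 := integral_add (i4.add i1) i3
  have e2 := integral_add i4 i1
  simp only [Pi.add_apply] at e1 e2
  have hle : ∫ x, √(n1 D x (at1 (Q.jj n) x)) ∂D.μ ≤
      ∫ x, (2 + (1 - Q.nal n x) ^ 2 + Q.neta D n x) ∂D.μ := by
    refine integral_mono_of_nonneg (Eventually.of_forall fun x => Real.sqrt_nonneg _)
      ((i4.add i1).add i3) (Eventually.of_forall fun x => ?_)
    show √(n1 D x (at1 (Q.jj n) x)) ≤ 2 + (1 - Q.nal n x) ^ 2 + Q.neta D n x
    rw [Real.sqrt_le_left (by have := n2 x; positivity)]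
    refine (hj x).trans ?_
    have h5 : Q.nal n x ≤ 2 + (1 - Q.nal n x) ^ 2 := by nlinarith [sq_nonneg (Q.nal n x - 3 / 2)]
    have h6 := n2 x
    have h7 := n0 x
    nlinarith [mul_nonneg h6 (sub_nonneg.2 h5), sq_nonneg (2 + (1 - Q.nal n x) ^ 2),
      sq_nonneg (Q.neta D n x), mul_nonneg h6 (h7.trans h5)]
  refine hle.trans ?_
  rw [e1, e2, integral_const, smul_eq_mul]
  have h8 : ∫ x, (1 - Q.nal n x) ^ 2 ∂D.μ ≤ C1 := by
    have h10 : 0 ≤ ∫ x, (1 - Q.nal n x) ^ 2 ∂D.μ := integral_nonneg fun x => sq_nonneg _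
    nlinarith
  linarith

end gen

section blk

variable {M : Type v} [MetricSpace M] [CompactSpace M] [ConnectedSpace M]
  [ChartedSpace (EuclideanSpace ℝ (Fin 4)) M] [IsManifold (𝓡 4) ∞ M]
  [RiemannianBundle (fun p : M => TangentSpace (𝓡 4) p)]
  [IsContMDiffRiemannianBundle (𝓡 4) ∞ (EuclideanSpace ℝ (Fin 4))
    (fun p : M => TangentSpace (𝓡 4) p)]
  [IsRiemannianManifold (𝓡 4) M] [MeasurableSpace M] [BorelSpace M]
  [SecondCountableTopology M] [Nonempty M] [IsFiniteMeasureOnCompacts (μHE[4] : Measure M)]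
  {κ0 κ1 κT : Type} [Fintype κ0] [Fintype κ1] [Fintype κT]

theorem contH {f : M → ℝ} (hf : Continuous f) : Integrable f (μHE[4] : Measure M) :=
  hf.integrable_of_hasCompactSupport (HasCompactSupport.of_compactSpace f)

/-- the form `∑ w_{k+1} e_k`. -/
def omf (e : Fin 3 → F2 E4 M) (w' : Fin 4 → M → ℝ) : F2 E4 M :=
  ∑ k : Fin 3, fmul (w' k.succ) (e k)

theorem omf_smooth {e : Fin 3 → F2 E4 M} (he : ∀ k, Smooth2 (e k)) {w' : Fin 4 → M → ℝ}
    (hw : SmV (n := 4) w') : Smooth2 (omf e w') := by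
  unfold omf
  rw [Fin.sum_univ_three]
  have h : ∀ k : Fin 3, Smooth2 (fmul (w' k.succ) (e k)) := fun k =>
    En4.smooth2_fmul (En4.smoothF_of_contMDiff (hw k.succ)) (he k)
  exact ((h 0).add (h 1)).add (h 2)

theorem qG_omf (F b : F2 E4 M) (e : Fin 3 → F2 E4 M) (w' : Fin 4 → M → ℝ) (x : M) :
    qG F b (omf e w') x = ∑ k : Fin 3, w' k.succ x * qG F (e k) b x := by
  unfold omf
  rw [Fin.sum_univ_three, Fin.sum_univ_three, Int.qG_add_right, Int.qG_add_right]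
  have h : ∀ k : Fin 3, qG F b (fmul (w' k.succ) (e k)) x = w' k.succ x * qG F (e k) b x := by
    intro k
    rw [Int.qG_comm, Int.qG_fmul_left]
  rw [h, h, h]

/-- `φ_k = (1/2) ((B a)_{k+1} + fE_k)`. -/
theorem phi_eq {V : Vars M κ0 κ1 κT} {U : Filter ℕ} (cx : Ctx V U) (n : ℕ) (k : Fin 3) (x : M) :
    qG (V.w 0).1.1 (V.e k) (V.Q.Phi n) x =
      (1 / 2) * (V.S.H.B (V.a n) k.succ x + (V.τ (V.t n)).fE k x) := by
  have h := (cx.lnk n).cur (V.a n) (cx.seq.sma n) (cx.seq.seca n) k x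
  have h1 : qG (V.w 0).1.1 (V.e k) (V.Q.Phi n) x =
      2 * Real.pi * qG (V.w 0).1.1 (V.e k) ((V.a0 n).1.1 : F2 E4 M) x +
        qG (V.w 0).1.1 (V.e k) (dG (thE V.sT V.e (V.β n) (V.a n))) x := by
    have h2 : V.Q.Phi n = (2 * Real.pi) • ((V.a0 n).1.1 : F2 E4 M) +
      dG (thE V.sT V.e (V.β n) (V.a n)) := rfl
    rw [h2, Int.qG_add_right, Int.qG_smul_right]
  rw [h1, ← h]
  ring

theorem continuous_gR {V : Vars M κ0 κ1 κT} {U : Filter ℕ} (cx : Ctx V U) (n : ℕ) (k : Fin 3) :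
    Continuous (gR V.S (V.τ (V.t n)) (V.r n) (V.a n) (V.u n) k) := by
  have hτ := cx.data.tau (V.t n) (cx.seq.nt n)
  have h1 : Continuous (V.S.H.B (V.a n) k.succ) :=
    (V.S.H.smB _ (cx.seq.sma n) (cx.seq.seca n) k.succ).continuous
  have h2 : Continuous fun z => (V.τ (V.t n)).rr z ^ (-(1 / 2) : ℝ) :=
    hτ.smrr.continuous.rpow_const fun z => Or.inl (hτ.pos z).ne'
  have h3 : Continuous (V.S.rq k (V.u n)) := by
    unfold SWS.rq
    refine continuous_finsetSum _ fun y _ => continuous_finsetSum _ fun y' _ => ?_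
    exact ((cx.data.ok.smrho k y y').continuous.mul (cx.seq.smu n y).continuous).mul
      (cx.seq.smu n y').continuous
  unfold gR
  exact h1.sub (((h2.mul (continuous_const.mul h3)).add
    (continuous_const.mul (hτ.smrr.continuous.mul (hτ.smn k).continuous))).sub
      (hτ.smfE k).continuous)

/-- `∫ (B a)_0² ≤ 1`. -/
theorem int_B0 {V : Vars M κ0 κ1 κT} {U : Filter ℕ} (cx : Ctx V U) (n : ℕ) :
    ∫ z, V.S.H.B (V.a n) 0 z ^ 2 ∂(μHE[4] : Measure M) ≤ 1 := by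
  have h0 : Continuous (V.S.H.B (V.a n) 0) :=
    (V.S.H.smB _ (cx.seq.sma n) (cx.seq.seca n) 0).continuous
  have h1 : ∫ z, V.S.H.B (V.a n) 0 z ^ 2 ∂(μHE[4] : Measure M) ≤
      ∫ z, (V.S.H.B (V.a n) 0 z ^ 2 + ∑ k, gR V.S (V.τ (V.t n)) (V.r n) (V.a n) (V.u n) k z ^ 2)
        ∂(μHE[4] : Measure M) := by
    refine integral_mono (contH (h0.pow 2)) (contH ((h0.pow 2).add
      (continuous_finsetSum _ fun k _ => (continuous_gR cx n k).pow 2))) fun z => ?_
    show _ ≤ V.S.H.B (V.a n) 0 z ^ 2 + _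
    have h2 : 0 ≤ ∑ k, gR V.S (V.τ (V.t n)) (V.r n) (V.a n) (V.u n) k z ^ 2 :=
      Finset.sum_nonneg fun k _ => sq_nonneg _
    linarith
  refine (h1.trans (cx.seq.g0 n)).trans ?_
  rw [div_le_one (by positivity)]
  have : (0 : ℝ) ≤ (n : ℝ) := Nat.cast_nonneg n
  linarith

theorem phi_sq_le (hP : PWD.{v}) {V : Vars M κ0 κ1 κT} {U : Filter ℕ} (cx : Ctx V U) (n : ℕ)
    (hPhi : Smooth2 (V.Q.Phi n)) (x : M) :
    ∑ k, qG (V.w 0).1.1 (V.e k) (V.Q.Phi n) x ^ 2 ≤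
      (∑ k, Xw V.ww V.t0 k x ^ 2) * nsqG V.D.J V.D.F (V.Q.Phi n) x := by
  obtain ⟨h0, h1, -, -⟩ := hP M V.w V.e _ _ V.D cx.limD x
  have h2 := (h1 (V.Q.Phi n) (NM.alt_at hPhi x)).2.1
  have h3 := (le_abs_self _).trans (abs_qG_self_le V.D hPhi x)
  have h4 : 2 * ∑ k, qG (V.w 0).1.1 (V.e k) (V.Q.Phi n) x ^ 2 =
      (nsqG V.D.J V.D.F (V.Q.Phi n) x + qG V.D.F (V.Q.Phi n) (V.Q.Phi n) x) *
        ∑ k, Xw V.ww V.t0 k x ^ 2 := by
    rw [h2, div_mul_cancel₀ _ h0.ne']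
  nlinarith [mul_le_mul_of_nonneg_right h3 h0.le]

/-- `∫ |φ|² ≤ C r`. -/
theorem int_phi (hP : PWD.{v}) (hV : VOLD.{v}) {V : Vars M κ0 κ1 κT} {U : Filter ℕ}
    (cx : Ctx V U) (n : ℕ) (hPhi : Smooth2 (V.Q.Phi n)) {C2 : ℝ}
    (h3 : ∫ x, nsqG V.D.J V.D.F (V.Q.Phi n) x ∂V.D.μ ≤ C2 * V.Q.r n) :
    ∫ x, ∑ k, qG (V.w 0).1.1 (V.e k) (V.Q.Phi n) x ^ 2 ∂(μHE[4] : Measure M) ≤
      1 / 2 * (C2 * V.Q.r n) := by
  have hX : Continuous fun x => ∑ k, Xw V.ww V.t0 k x ^ 2 := by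
    refine continuous_finsetSum _ fun k _ => ?_
    exact ((continuous_Xw cx.data.smw k).comp (Continuous.prodMk_right V.t0)).pow 2
  have hc := NM.continuous_nsq V.D hPhi
  have h4 := hV M V.w V.e _ _ V.D cx.limD cx.data.tg.met _ hc
  have h5 : ∫ x, ∑ k, qG (V.w 0).1.1 (V.e k) (V.Q.Phi n) x ^ 2 ∂(μHE[4] : Measure M) ≤
      ∫ x, 1 / 2 * (2 * (∑ k, Xw V.ww V.t0 k x ^ 2) * nsqG V.D.J V.D.F (V.Q.Phi n) x)
        ∂(μHE[4] : Measure M) := by
    refine integral_mono_of_nonneg (Eventually.of_forall fun x => ?_)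
      (contH (continuous_const.mul ((continuous_const.mul hX).mul hc)))
      (Eventually.of_forall fun x => ?_)
    · exact Finset.sum_nonneg fun k _ => sq_nonneg _
    · refine (phi_sq_le hP cx n hPhi x).trans (le_of_eq ?_)
      ring
  rw [integral_const_mul, ← h4] at h5
  linarith

/-- `∫ |B a|² ≤ C r`. -/
theorem int_B (hP : PWD.{v}) (hV : VOLD.{v}) {V : Vars M κ0 κ1 κT} {U : Filter ℕ}
    (cx : Ctx V U) (n : ℕ) (hPhi : Smooth2 (V.Q.Phi n)) {C2 : ℝ}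
    (h3 : ∫ x, nsqG V.D.J V.D.F (V.Q.Phi n) x ∂V.D.μ ≤ C2 * V.Q.r n) :
    ∫ z, ∑ k, V.S.H.B (V.a n) k z ^ 2 ∂(μHE[4] : Measure M) ≤
      (4 * C2 + (6 * V.K ^ 2 * (μHE[4] : Measure M).real univ + 1)) * V.Q.r n := by
  have hr : 1 ≤ V.Q.r n := by
    have := cx.seq.rge n
    have h0 : (0 : ℝ) ≤ (n : ℝ) := Nat.cast_nonneg n
    show 1 ≤ V.r n
    linarith
  have hB : ∀ k, Continuous (V.S.H.B (V.a n) k) := fun k =>
    (V.S.H.smB _ (cx.seq.sma n) (cx.seq.seca n) k).continuous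
  have hfin : IsFiniteMeasure (μHE[4] : Measure M) := ⟨isCompact_univ.measure_lt_top⟩
  have hphc : ∀ k : Fin 3, Continuous fun x => qG (V.w 0).1.1 (V.e k) (V.Q.Phi n) x := by
    intro k
    have h1 : (fun x => qG (V.w 0).1.1 (V.e k) (V.Q.Phi n) x) = fun x =>
        (1 / 2) * (V.S.H.B (V.a n) k.succ x + (V.τ (V.t n)).fE k x) := by
      funext x
      exact phi_eq cx n k x
    rw [h1]
    exact continuous_const.mul ((hB k.succ).add
      ((cx.data.tau (V.t n) (cx.seq.nt n)).smfE k).continuous)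
  have h1 : ∫ z, ∑ k, V.S.H.B (V.a n) k z ^ 2 ∂(μHE[4] : Measure M) ≤
      ∫ z, (V.S.H.B (V.a n) 0 z ^ 2 +
        (8 * (∑ k, qG (V.w 0).1.1 (V.e k) (V.Q.Phi n) z ^ 2) + 6 * V.K ^ 2))
        ∂(μHE[4] : Measure M) := by
    refine integral_mono (contH (continuous_finsetSum _ fun k _ => (hB k).pow 2))
      (contH (((hB 0).pow 2).add ((continuous_const.mul (continuous_finsetSum _ fun k _ =>
        (hphc k).pow 2)).add continuous_const))) fun z => ?_
    show ∑ k, V.S.H.B (V.a n) k z ^ 2 ≤ V.S.H.B (V.a n) 0 z ^ 2 + _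
    rw [Fin.sum_univ_succ]
    have h2 : ∀ k : Fin 3, V.S.H.B (V.a n) k.succ z ^ 2 ≤
        8 * qG (V.w 0).1.1 (V.e k) (V.Q.Phi n) z ^ 2 + 2 * V.K ^ 2 := by
      intro k
      have h4 := phi_eq cx n k z
      have h5 := cx.data.bdE (V.t n) k z (cx.seq.nt n)
      have h6 : (V.τ (V.t n)).fE k z ^ 2 ≤ V.K ^ 2 := by
        rw [← sq_abs]
        exact pow_le_pow_left₀ (abs_nonneg _) h5 2
      rw [h4]
      nlinarith [sq_nonneg (V.S.H.B (V.a n) k.succ z + 2 * (V.τ (V.t n)).fE k z)]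
    have h7 := Finset.sum_le_sum fun k (_ : k ∈ (Finset.univ : Finset (Fin 3))) => h2 k
    rw [Finset.sum_add_distrib, ← Finset.mul_sum] at h7
    simp only [Finset.sum_const, Finset.card_univ, Fintype.card_fin, nsmul_eq_mul] at h7
    push_cast at h7
    linarith
  have i0 : Integrable (fun z => V.S.H.B (V.a n) 0 z ^ 2) (μHE[4] : Measure M) :=
    contH ((hB 0).pow 2)
  have i1 : Integrable (fun z => ∑ k, qG (V.w 0).1.1 (V.e k) (V.Q.Phi n) z ^ 2)
      (μHE[4] : Measure M) := contH (continuous_finsetSum _ fun k _ => (hphc k).pow 2)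
  have i2 : Integrable (fun _ : M => 6 * V.K ^ 2) (μHE[4] : Measure M) := integrable_const _
  have e1 := integral_add i0 ((i1.const_mul 8).add i2)
  have e2 := integral_add (i1.const_mul 8) i2
  simp only [Pi.add_apply] at e1 e2
  rw [e1, e2, integral_const_mul, integral_const, smul_eq_mul] at h1
  have h8 := int_phi hP hV cx n hPhi h3
  have h9 := int_B0 cx n
  have h10 : 0 ≤ 6 * V.K ^ 2 * (μHE[4] : Measure M).real univ := by positivity
  nlinarith [mul_nonneg h10 (sub_nonneg.2 hr)]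

/-- `D.I Phi (∑ w e) = 2 ∫ ∑ w φ`. -/
theorem I_omf (hP : PWD.{v}) (hV : VOLD.{v}) {V : Vars M κ0 κ1 κT} {U : Filter ℕ}
    (cx : Ctx V U) (n : ℕ) (hPhi : Smooth2 (V.Q.Phi n)) {w' : Fin 4 → M → ℝ}
    (hw : SmV (n := 4) w') :
    V.D.I (V.Q.Phi n) (omf V.e w') =
      ∫ x, 2 * ∑ k : Fin 3, w' k.succ x * qG (V.w 0).1.1 (V.e k) (V.Q.Phi n) x
        ∂(μHE[4] : Measure M) := by
  have hom := omf_smooth (e := V.e) cx.limD.tri.smooth hw
  unfold Crest.Agent.R240.Dat.I IG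
  rw [hV M V.w V.e _ _ V.D cx.limD cx.data.tg.met _ (NM.continuous_qG V.D hPhi hom)]
  congr 1
  funext x
  obtain ⟨-, h1, -, -⟩ := hP M V.w V.e _ _ V.D cx.limD x
  have h2 := (h1 (V.Q.Phi n) (NM.alt_at hPhi x)).2.2.2 (omf V.e w') (NM.alt_at hom x)
  rw [← qG_omf, mul_assoc, h2]

/-- `B a` tested on a smooth function is bounded. -/
theorem ip_B_bd (hP : PWD.{v}) (hV : VOLD.{v}) (hS : STB.{v}) {V : Vars M κ0 κ1 κT}
    {U : Filter ℕ} (cx : Ctx V U) {C1 C2 : ℝ}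
    (hsj : ∀ n, Smooth1 (V.Q.jj n)) (hPhi : ∀ n, Smooth2 (V.Q.Phi n))
    (hPsi : ∀ n, Smooth2 (V.Q.Psi n))
    (c1 : ∀ n, Continuous (V.Q.nal n)) (c2 : ∀ n, Continuous (V.Q.neta V.D n))
    (n2 : ∀ n x, 0 ≤ V.Q.neta V.D n x)
    (hj : ∀ n x, n1 V.D x (at1 (V.Q.jj n) x) ≤ V.Q.nal n x * V.Q.neta V.D n x)
    (hps : ∀ n x, V.D.nr (V.Q.Psi n) x ≤
      |1 - V.Q.nal n x| * V.D.nr (V.Q.Phi n) x + V.Q.neta V.D n x)
    (h1 : ∀ n, ∫ x, V.Q.neta V.D n x ∂V.D.μ ≤ C1)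
    (h2 : ∀ n, V.Q.r n * ∫ x, (1 - V.Q.nal n x) ^ 2 ∂V.D.μ ≤ C1)
    (h3 : ∀ n, ∫ x, nsqG V.D.J V.D.F (V.Q.Phi n) x ∂V.D.μ ≤ C2 * V.Q.r n)
    {w' : Fin 4 → M → ℝ} (hw : SmV (n := 4) w') :
    ∃ B : ℝ, ∀ n, |Crest.Agent.R249.Tv57.ip 4 (V.S.H.B (V.a n)) w'| ≤ B := by
  have hom := omf_smooth (e := V.e) cx.limD.tri.smooth hw
  obtain ⟨Bo, hBo0, hBo⟩ := exists_nr_le V.D hom
  obtain ⟨Cs, hCs0, hCs⟩ := hS M V.D (omf V.e w') hom
  have hfin : IsFiniteMeasure (μHE[4] : Measure M) := ⟨isCompact_univ.measure_lt_top⟩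
  refine ⟨(1 / 2 + 1 / 2 * ∫ z, w' 0 z ^ 2 ∂(μHE[4] : Measure M)) +
    (Bo * (2 * C1 + C2) + Cs * (2 * C1 + 2 * V.D.μ.real univ)) +
    |V.K| * ∫ z, ∑ k : Fin 3, |w' k.succ z| ∂(μHE[4] : Measure M), fun n => ?_⟩
  have hr : 1 ≤ V.Q.r n := by
    have := cx.seq.rge n
    have h0 : (0 : ℝ) ≤ (n : ℝ) := Nat.cast_nonneg n
    show 1 ≤ V.r n
    linarith
  have hB : ∀ k, Continuous (V.S.H.B (V.a n) k) := fun k =>
    (V.S.H.smB _ (cx.seq.sma n) (cx.seq.seca n) k).continuous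
  have hfE : ∀ k, Continuous ((V.τ (V.t n)).fE k) := fun k =>
    ((cx.data.tau (V.t n) (cx.seq.nt n)).smfE k).continuous
  have hwc : ∀ k, Continuous (w' k) := fun k => (hw k).continuous
  have hphc : ∀ k : Fin 3, Continuous fun x => qG (V.w 0).1.1 (V.e k) (V.Q.Phi n) x := by
    intro k
    have h1 : (fun x => qG (V.w 0).1.1 (V.e k) (V.Q.Phi n) x) = fun x =>
        (1 / 2) * (V.S.H.B (V.a n) k.succ x + (V.τ (V.t n)).fE k x) := by
      funext x
      exact phi_eq cx n k x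
    rw [h1]
    exact continuous_const.mul ((hB k.succ).add (hfE k))
  have i0 : Integrable (fun z => V.S.H.B (V.a n) 0 z * w' 0 z) (μHE[4] : Measure M) :=
    contH ((hB 0).mul (hwc 0))
  have i1 : Integrable (fun x => 2 * ∑ k : Fin 3, w' k.succ x *
      qG (V.w 0).1.1 (V.e k) (V.Q.Phi n) x) (μHE[4] : Measure M) :=
    contH (continuous_const.mul (continuous_finsetSum _ fun k _ => (hwc k.succ).mul (hphc k)))
  have i2 : Integrable (fun x => ∑ k : Fin 3, (V.τ (V.t n)).fE k x * w' k.succ x)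
      (μHE[4] : Measure M) :=
    contH (continuous_finsetSum _ fun k _ => (hfE k).mul (hwc k.succ))
  have hsplit : Crest.Agent.R249.Tv57.ip 4 (V.S.H.B (V.a n)) w' =
      (∫ z, V.S.H.B (V.a n) 0 z * w' 0 z ∂(μHE[4] : Measure M)) +
      V.D.I (V.Q.Phi n) (omf V.e w') -
      ∫ x, ∑ k : Fin 3, (V.τ (V.t n)).fE k x * w' k.succ x ∂(μHE[4] : Measure M) := by
    have e1 := integral_sub (i0.add i1) i2
    have e2 := integral_add i0 i1
    simp only [Pi.add_apply] at e1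
    rw [I_omf hP hV cx n (hPhi n) hw, ← e2, ← e1]
    unfold Crest.Agent.R249.Tv57.ip
    congr 1
    funext x
    rw [Fin.sum_univ_succ]
    have h4 : ∀ k : Fin 3, V.S.H.B (V.a n) k.succ x * w' k.succ x =
        2 * (w' k.succ x * qG (V.w 0).1.1 (V.e k) (V.Q.Phi n) x) -
          (V.τ (V.t n)).fE k x * w' k.succ x := by
      intro k
      rw [phi_eq cx n k x]
      ring
    rw [Finset.sum_congr rfl fun k _ => h4 k, Finset.sum_sub_distrib, ← Finset.mul_sum]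
    ring
  have hA : |∫ z, V.S.H.B (V.a n) 0 z * w' 0 z ∂(μHE[4] : Measure M)| ≤
      1 / 2 + 1 / 2 * ∫ z, w' 0 z ^ 2 ∂(μHE[4] : Measure M) := by
    have j1 : Integrable (fun z => V.S.H.B (V.a n) 0 z ^ 2) (μHE[4] : Measure M) :=
      contH ((hB 0).pow 2)
    have j2 : Integrable (fun z => w' 0 z ^ 2) (μHE[4] : Measure M) := contH ((hwc 0).pow 2)
    have e1 := integral_add (j1.const_mul (1 / 2)) (j2.const_mul (1 / 2))
    have h5 : ∫ z, |V.S.H.B (V.a n) 0 z * w' 0 z| ∂(μHE[4] : Measure M) ≤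
        ∫ z, (1 / 2 * V.S.H.B (V.a n) 0 z ^ 2 + 1 / 2 * w' 0 z ^ 2) ∂(μHE[4] : Measure M) := by
      refine integral_mono i0.abs ((j1.const_mul _).add (j2.const_mul _)) fun z => ?_
      show |V.S.H.B (V.a n) 0 z * w' 0 z| ≤
        1 / 2 * V.S.H.B (V.a n) 0 z ^ 2 + 1 / 2 * w' 0 z ^ 2
      rw [abs_le]
      constructor <;> nlinarith [sq_nonneg (V.S.H.B (V.a n) 0 z + w' 0 z),
        sq_nonneg (V.S.H.B (V.a n) 0 z - w' 0 z)]
    rw [e1, integral_const_mul, integral_const_mul] at h5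
    have h6 := int_B0 cx n
    have h7 : |∫ z, V.S.H.B (V.a n) 0 z * w' 0 z ∂(μHE[4] : Measure M)| ≤
      ∫ z, |V.S.H.B (V.a n) 0 z * w' 0 z| ∂(μHE[4] : Measure M) := abs_integral_le_integral_abs
    linarith
  have hC : |∫ x, ∑ k : Fin 3, (V.τ (V.t n)).fE k x * w' k.succ x ∂(μHE[4] : Measure M)| ≤
      |V.K| * ∫ z, ∑ k : Fin 3, |w' k.succ z| ∂(μHE[4] : Measure M) := by
    rw [← integral_const_mul]
    refine abs_integral_le_integral_abs.trans ?_
    refine integral_mono i2.abs (contH (continuous_const.mul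
      (continuous_finsetSum _ fun k _ => (hwc k.succ).abs))) fun z => ?_
    show |∑ k : Fin 3, (V.τ (V.t n)).fE k z * w' k.succ z| ≤ |V.K| * ∑ k : Fin 3, |w' k.succ z|
    rw [Finset.mul_sum]
    refine (Finset.abs_sum_le_sum_abs _ _).trans (Finset.sum_le_sum fun k _ => ?_)
    rw [abs_mul]
    exact mul_le_mul_of_nonneg_right ((cx.data.bdE (V.t n) k z (cx.seq.nt n)).trans
      (le_abs_self _)) (abs_nonneg _)
  have hI : |V.D.I (V.Q.Phi n) (omf V.e w')| ≤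
      Bo * (2 * C1 + C2) + Cs * (2 * C1 + 2 * V.D.μ.real univ) := by
    have hdj : Smooth2 (dG (V.Q.jj n)) := by
      have h8 : dG (V.Q.jj n) = V.Q.Psi n - V.Q.Phi n := by
        have h9 : V.Q.Psi n = V.Q.Phi n + dG (V.Q.jj n) := rfl
        rw [h9]
        funext x
        ext u v
        show _ = (at2 (V.Q.Phi n) x u v + at2 (dG (V.Q.jj n)) x u v) - at2 (V.Q.Phi n) x u v
        rw [add_sub_cancel_left]
        rfl
      rw [h8]
      exact (hPsi n).sub' (hPhi n)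
    have h10 : V.D.I (V.Q.Psi n) (omf V.e w') = V.D.I (V.Q.Phi n) (omf V.e w') +
        V.D.I (dG (V.Q.jj n)) (omf V.e w') := I_add V.D (hPhi n) hdj hom
    have h11 : V.D.I (V.Q.Phi n) (omf V.e w') = V.D.I (V.Q.Psi n) (omf V.e w') -
        V.D.I (dG (V.Q.jj n)) (omf V.e w') := by
      rw [h10]
      ring
    have h12 := abs_I_le V.D (hPsi n) hom hBo
    have h13 := int_nr_psi V.D V.Q n (zero_lt_one.trans_le hr) (hPhi n) (c1 n) (c2 n) (hps n)
      (h1 n) (h2 n) (h3 n)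
    have h14 := hCs (V.Q.jj n) (hsj n)
    have h15 := int_j V.D V.Q n hr (c1 n) (c2 n) (n2 n) (hj n) (h1 n) (h2 n)
    have h16 := mul_le_mul_of_nonneg_left h13 hBo0
    have h17 := mul_le_mul_of_nonneg_left h15 hCs0.le
    rw [h11]
    have h18 := abs_sub (V.D.I (V.Q.Psi n) (omf V.e w')) (V.D.I (dG (V.Q.jj n)) (omf V.e w'))
    linarith
  rw [hsplit]
  have t1 := abs_sub ((∫ z, V.S.H.B (V.a n) 0 z * w' 0 z ∂(μHE[4] : Measure M)) +
      V.D.I (V.Q.Phi n) (omf V.e w'))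
      (∫ x, ∑ k : Fin 3, (V.τ (V.t n)).fE k x * w' k.succ x ∂(μHE[4] : Measure M))
  have t2 := abs_add_le (∫ z, V.S.H.B (V.a n) 0 z * w' 0 z ∂(μHE[4] : Measure M))
      (V.D.I (V.Q.Phi n) (omf V.e w'))
  linarith

/-- bound of the frame. -/
theorem exists_sT_le {V : Vars M κ0 κ1 κT} {U : Filter ℕ} (cx : Ctx V U) :
    ∃ Ms : ℝ, 0 ≤ Ms ∧ ∀ x, ∑ A, ‖V.sT A x‖ ^ 2 ≤ Ms := by
  have hc : Continuous fun x => ∑ A, inner ℝ (V.S.s A x) (V.S.s A x) :=
    continuous_finsetSum _ fun A _ =>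
      (Crest.Agent.R249.Tv57.SmF.inner (cx.data.ok.sms A) (cx.data.ok.sms A)).continuous
  obtain ⟨B, hB⟩ := isCompact_univ.exists_bound_of_continuousOn hc.continuousOn
  refine ⟨|B|, abs_nonneg _, fun x => ?_⟩
  have h1 : ∑ A, ‖V.sT A x‖ ^ 2 = ∑ A, inner ℝ (V.S.s A x) (V.S.s A x) := by
    refine Finset.sum_congr rfl fun A _ => ?_
    rw [cx.data.tg.s_eq A x, V.T.inner_toF, real_inner_self_eq_norm_sq]
  rw [h1]
  exact ((le_abs_self _).trans (hB x (mem_univ x))).trans (le_abs_self _)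

/-- pointwise bound of `θ`. -/
theorem n1_th_le (hP : PWD.{v}) {V : Vars M κ0 κ1 κT} {U : Filter ℕ} (cx : Ctx V U) {Ms m0 : ℝ}
    (hMs : ∀ x, ∑ A, ‖V.sT A x‖ ^ 2 ≤ Ms) (hm0 : 0 < m0)
    (hm : ∀ x, m0 ≤ √(∑ k, Xw V.ww V.t0 k x ^ 2)) (n : ℕ) (x : M) :
    n1 V.D x (at1 (V.Q.θ n) x) ≤ (2 * (Ms * ∑ A, V.a n A x ^ 2) + 2 * |V.K|) / m0 := by
  obtain ⟨-, -, h1, -⟩ := hP M V.w V.e _ _ V.D cx.limD x
  have hkey : ∀ v : TangentSpace (𝓡 4) x, (at1 (V.Q.θ n) x v) ^ 2 ≤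
      (2 * (Ms * ∑ A, V.a n A x ^ 2) + 2 * |V.K|) * at2 (gg V.e) x v v := by
    intro v
    have e0 : at1 (V.Q.θ n) x v = - at2 (gg V.e) x (fld V.sT (V.a n) x) v - at1 (V.β n) x v := rfl
    have hmet := cx.data.tg.met x
    have hvv : at2 (gg V.e) x v v = ‖v‖ ^ 2 := by
      rw [← hmet v v, real_inner_self_eq_norm_sq]
    have hg0 : 0 ≤ at2 (gg V.e) x v v := by rw [hvv]; positivity
    have e1 : (at2 (gg V.e) x (fld V.sT (V.a n) x) v) ^ 2 ≤
        (Ms * ∑ A, V.a n A x ^ 2) * at2 (gg V.e) x v v := by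
      rw [hvv, ← hmet (fld V.sT (V.a n) x) v]
      have h2 : ‖fld V.sT (V.a n) x‖ ^ 2 ≤ Ms * ∑ A, V.a n A x ^ 2 := by
        have h3 : ‖fld V.sT (V.a n) x‖ ≤ ∑ A, |V.a n A x| * ‖V.sT A x‖ := by
          unfold fld
          refine (norm_sum_le _ _).trans (le_of_eq ?_)
          refine Finset.sum_congr rfl fun A _ => ?_
          rw [norm_smul, Real.norm_eq_abs]
        have h4 : (∑ A, |V.a n A x| * ‖V.sT A x‖) ^ 2 ≤
            (∑ A, |V.a n A x| ^ 2) * ∑ A, ‖V.sT A x‖ ^ 2 := Finset.sum_mul_sq_le_sq_mul_sq _ _ _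
        simp only [sq_abs] at h4
        have h5 : 0 ≤ ∑ A, V.a n A x ^ 2 := Finset.sum_nonneg fun A _ => sq_nonneg _
        calc ‖fld V.sT (V.a n) x‖ ^ 2 ≤ (∑ A, |V.a n A x| * ‖V.sT A x‖) ^ 2 :=
              pow_le_pow_left₀ (norm_nonneg _) h3 2
          _ ≤ (∑ A, V.a n A x ^ 2) * ∑ A, ‖V.sT A x‖ ^ 2 := h4
          _ ≤ (∑ A, V.a n A x ^ 2) * Ms := mul_le_mul_of_nonneg_left (hMs x) h5
          _ = Ms * ∑ A, V.a n A x ^ 2 := mul_comm _ _
      have h6 := abs_real_inner_le_norm (fld V.sT (V.a n) x) v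
      calc (inner ℝ (fld V.sT (V.a n) x) v) ^ 2
          = |inner ℝ (fld V.sT (V.a n) x) v| ^ 2 := (sq_abs _).symm
        _ ≤ (‖fld V.sT (V.a n) x‖ * ‖v‖) ^ 2 :=
            pow_le_pow_left₀ (abs_nonneg _) h6 2
        _ = ‖fld V.sT (V.a n) x‖ ^ 2 * ‖v‖ ^ 2 := mul_pow _ _ _
        _ ≤ (Ms * ∑ A, V.a n A x ^ 2) * ‖v‖ ^ 2 :=
            mul_le_mul_of_nonneg_right h2 (by positivity)
    have e2 : (at1 (V.β n) x v) ^ 2 ≤ |V.K| * at2 (gg V.e) x v v :=
      ((cx.lnk n).bdβ x v).trans (mul_le_mul_of_nonneg_right (le_abs_self _) hg0)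
    rw [e0]
    nlinarith [sq_nonneg (at2 (gg V.e) x (fld V.sT (V.a n) x) v - at1 (V.β n) x v)]
  have h2 := h1 (at1 (V.Q.θ n) x) _ hkey
  rw [le_div_iff₀ hm0]
  exact (mul_le_mul_of_nonneg_left (hm x) (n1_nonneg V.D x _)).trans h2

end blk

set_option maxHeartbeats 1000000 in
theorem prd (hP : PWD.{v}) (hV : VOLD.{v}) (hB : PRB.{v}) (hC : PRC.{v}) (hE : PRE.{v})
    (hS : STB.{v}) (hG : GZ.{v}) (hN : NETC.{v}) : PRD.{v} := by
  intro M _ _ _ _ _ _ _ _ _ _ _ _ _ κ0 κ1 κT _ _ _ V U cx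
  obtain ⟨C1, -, b1, b2, -⟩ := hB M κ0 κ1 κT V U cx
  obtain ⟨C2, -, b3, -, -⟩ := hC M κ0 κ1 κT V U cx
  obtain ⟨-, -, -, smα, secα, smθ⟩ := hE M κ0 κ1 κT V U cx
  have line : ∀ n, IsLine (V.Q.p n) := fun n => (cx.lnk n).line V.N V.ν
  have chern : ∀ n, IsChern (V.Q.p n) (V.Q.a0 n) := fun n => (cx.lnk n).chern V.N V.ν
  have ptw := fun n => SwcPtw_766.ptw_weak V.Q n (line n) (chern n) (smα n) (secα n) (smθ n)
  have netc := fun n => hN M V.D V.N V.Q n (line n) (chern n) (smα n) (secα n) (smθ n)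
  have hr : Tendsto V.r U atTop := by
    have h1 : Tendsto V.r atTop atTop := by
      refine tendsto_atTop_mono (fun n => ?_) tendsto_natCast_atTop_atTop
      have := cx.seq.rge n
      linarith
    exact h1.mono_left cx.le
  have hgz := hG M κ0 κ1 κT V.S U V.r V.a V.K'
    (4 * C2 + (6 * V.K ^ 2 * (μHE[4] : Measure M).real univ + 1)) hr cx.seq.sma cx.seq.seca
    cx.seq.har (Eventually.of_forall fun n => int_B hP hV cx n (ptw n).2.1 (b3 n)) (by
      intro w' hw'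
      obtain ⟨B, hB⟩ := ip_B_bd hP hV hS cx (fun n => (ptw n).1) (fun n => (ptw n).2.1)
        (fun n => (ptw n).2.2.2.1) (fun n => (netc n).1) (fun n => (netc n).2.1)
        (fun n => (netc n).2.2.1) (fun n => (netc n).2.2.2.2.1) (fun n => (netc n).2.2.2.2.2)
        b1 b2 b3 hw'
      have h2 : Tendsto (fun n => (√(V.r n))⁻¹) U (𝓝 0) :=
        tendsto_inv_atTop_zero.comp (Real.tendsto_sqrt_atTop.comp hr)
      have h3 : Tendsto (fun n => (√(V.r n))⁻¹ * B) U (𝓝 0) := by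
        have := h2.mul_const B
        rwa [zero_mul] at this
      refine squeeze_zero_norm (fun n => ?_) h3
      rw [norm_mul, Real.norm_eq_abs, Real.norm_eq_abs, abs_of_nonneg (inv_nonneg.2 (Real.sqrt_nonneg _))]
      exact mul_le_mul_of_nonneg_left (hB n) (inv_nonneg.2 (Real.sqrt_nonneg _)))
  obtain ⟨Ms, hMs0, hMs⟩ := exists_sT_le cx
  obtain ⟨m0, m1, hm0, hmm⟩ := cx.data.bounds
  have hN0 : ∀ x, √(∑ k, Xw V.ww V.t0 k x ^ 2) = (V.τ V.t0).rr x := fun x =>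
    (cx.data.rr_eq cx.nt0 x).symm
  have hpt := n1_th_le hP cx hMs hm0 (fun x => by rw [hN0]; exact (hmm V.t0 x cx.nt0).1)
  have hX0 : ∀ x, ∑ k, Xw V.ww V.t0 k x ^ 2 ≤ m1 ^ 2 := by
    intro x
    have h1 : ∑ k, Xw V.ww V.t0 k x ^ 2 = (V.τ V.t0).rr x ^ 2 := by
      rw [← hN0, Real.sq_sqrt (Finset.sum_nonneg fun k _ => sq_nonneg _)]
    rw [h1]
    exact pow_le_pow_left₀ (hm0.le.trans (hmm V.t0 x cx.nt0).1) (hmm V.t0 x cx.nt0).2 2
  have hX0' : ∀ x, 0 ≤ ∑ k, Xw V.ww V.t0 k x ^ 2 := fun x => Finset.sum_nonneg fun k _ => sq_nonneg _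
  have hXc : Continuous fun x => ∑ k, Xw V.ww V.t0 k x ^ 2 := by
    refine continuous_finsetSum _ fun k _ => ?_
    exact ((continuous_Xw cx.data.smw k).comp (Continuous.prodMk_right V.t0)).pow 2
  have hac : ∀ n, Continuous fun x => ∑ A, V.a n A x ^ 2 := fun n =>
    continuous_finsetSum _ fun A _ => (cx.seq.sma n A).continuous.pow 2
  have hfin : IsFiniteMeasure (μHE[4] : Measure M) := ⟨isCompact_univ.measure_lt_top⟩
  have hbound : ∀ n, ∫ x, n1 V.D x (at1 (V.Q.θ n) x) ∂V.D.μ ≤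
      (4 * m1 ^ 2 / m0 * Ms) * (∫ x, ∑ A, V.a n A x ^ 2 ∂(μHE[4] : Measure M)) +
        4 * m1 ^ 2 / m0 * |V.K| * (μHE[4] : Measure M).real univ := by
    intro n
    have hfc : Continuous fun x => (2 * (Ms * ∑ A, V.a n A x ^ 2) + 2 * |V.K|) / m0 :=
      ((continuous_const.mul (continuous_const.mul (hac n))).add continuous_const).div_const _
    have h1 : ∫ x, n1 V.D x (at1 (V.Q.θ n) x) ∂V.D.μ ≤
        ∫ x, (2 * (Ms * ∑ A, V.a n A x ^ 2) + 2 * |V.K|) / m0 ∂V.D.μ :=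
      integral_mono_of_nonneg (Eventually.of_forall fun x => n1_nonneg V.D x _) (contI V.D hfc)
        (Eventually.of_forall fun x => hpt n x)
    rw [hV M V.w V.e _ _ V.D cx.limD cx.data.tg.met _ hfc] at h1
    refine h1.trans ?_
    have i1 : Integrable (fun x => ∑ A, V.a n A x ^ 2) (μHE[4] : Measure M) := contH (hac n)
    have i2 : Integrable (fun _ : M => 4 * m1 ^ 2 / m0 * |V.K|) (μHE[4] : Measure M) :=
      integrable_const _
    have e1 := integral_add (i1.const_mul (4 * m1 ^ 2 / m0 * Ms)) i2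
    rw [integral_const_mul, integral_const, smul_eq_mul] at e1
    have e2 : 4 * m1 ^ 2 / m0 * |V.K| * (μHE[4] : Measure M).real univ =
      (μHE[4] : Measure M).real univ * (4 * m1 ^ 2 / m0 * |V.K|) := mul_comm _ _
    rw [e2, ← e1]
    refine integral_mono (contH ((continuous_const.mul hXc).mul hfc))
      ((i1.const_mul _).add i2) fun x => ?_
    show 2 * (∑ k, Xw V.ww V.t0 k x ^ 2) *
        ((2 * (Ms * ∑ A, V.a n A x ^ 2) + 2 * |V.K|) / m0) ≤
      4 * m1 ^ 2 / m0 * Ms * (∑ A, V.a n A x ^ 2) + 4 * m1 ^ 2 / m0 * |V.K|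
    have hs : 0 ≤ ∑ A, V.a n A x ^ 2 := Finset.sum_nonneg fun A _ => sq_nonneg _
    have h2 : 0 ≤ (2 * (Ms * ∑ A, V.a n A x ^ 2) + 2 * |V.K|) / m0 := by positivity
    calc 2 * (∑ k, Xw V.ww V.t0 k x ^ 2) *
          ((2 * (Ms * ∑ A, V.a n A x ^ 2) + 2 * |V.K|) / m0)
        ≤ 2 * m1 ^ 2 * ((2 * (Ms * ∑ A, V.a n A x ^ 2) + 2 * |V.K|) / m0) :=
          mul_le_mul_of_nonneg_right (mul_le_mul_of_nonneg_left (hX0 x) two_pos.le) h2
      _ = _ := by field_simp; ring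
  have hr' : Tendsto (fun n => (V.r n)⁻¹) U (𝓝 0) := tendsto_inv_atTop_zero.comp hr
  have hlim : Tendsto (fun n => (4 * m1 ^ 2 / m0 * Ms) *
      ((V.r n)⁻¹ * ∫ x, ∑ A, V.a n A x ^ 2 ∂(μHE[4] : Measure M)) +
      (V.r n)⁻¹ * (4 * m1 ^ 2 / m0 * |V.K| * (μHE[4] : Measure M).real univ)) U (𝓝 0) := by
    have h1 := (hgz.const_mul (4 * m1 ^ 2 / m0 * Ms)).add
      (hr'.mul_const (4 * m1 ^ 2 / m0 * |V.K| * (μHE[4] : Measure M).real univ))
    rwa [mul_zero, zero_mul, add_zero] at h1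
  refine squeeze_zero (fun n => ?_) (fun n => ?_) hlim
  · have h0 : 0 < V.Q.r n := by
      have := cx.seq.rge n
      have h0 : (0 : ℝ) ≤ (n : ℝ) := Nat.cast_nonneg n
      show 0 < V.r n
      linarith
    exact mul_nonneg (inv_nonneg.2 h0.le) (integral_nonneg fun x => n1_nonneg V.D x _)
  · have h0 : 0 < V.r n := by
      have := cx.seq.rge n
      have h0 : (0 : ℝ) ≤ (n : ℝ) := Nat.cast_nonneg n
      linarith
    have h1 := mul_le_mul_of_nonneg_left (hbound n) (inv_nonneg.2 h0.le)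
    refine h1.trans (le_of_eq ?_)
    ring

end

end Crest.Agent.R235.SwcProd_215
end

-- ▼ part R235/Apx2_649
section

/-!
Row 235 (S0364), SWC, PROD node (e) (helper649): `apx : SwcProd_215.APX`.
-/

set_option autoImplicit false
set_option maxSynthPendingDepth 3
set_option linter.unusedSectionVars false

open scoped ContDiff ENNReal NNReal Topology Manifold Bundle RealInnerProductSpace
open MeasureTheory Set Filter Metric Bundle

universe v

namespace Crest.Agent.R235.Apx2_649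

open Crest.Agent.R249.Tv57 Crest.Agent.R247.Ms322 Crest.Agent.R247.Dir593
open Crest.Agent.R247.Frd657 Crest.Agent.R202.Sp
open Crest.Agent.R235.Fs4_546 Crest.Agent.R235.Fred_649 Crest.Agent.R235.SwcD_649
open Crest.Agent.R235.Cpt_755 Crest.Agent.R235.L4_433 Crest.Agent.R235.SWDefs_53
open Crest.Agent.R235.Apx_649

noncomputable section

/-! ### abstract -/

section abs

variable {W V G : Type*} [NormedAddCommGroup W] [NormedAddCommGroup V] [NormedAddCommGroup G]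

theorem exists_near {A B : Type*} {cA : A → W} {cU : B → V} (hA : DenseRange cA)
    (hU : DenseRange cU) {w : W} {v : V} {P : W × V → Prop} (h : ∀ᶠ q in 𝓝 (w, v), P q) :
    ∃ a u, P (cA a, cU u) := by
  obtain ⟨s, hs, ho, hm⟩ := _root_.eventually_nhds_iff.1 h
  obtain ⟨q, hq⟩ := (hA.prodMap hU).exists_mem_open ho ⟨_, hm⟩
  exact ⟨q.1, q.2, hs _ hq⟩

theorem ev_lt {f : W × V → G} (hf : Continuous f) {w : W} {v : V} {b : ℝ}
    (hb : ‖f (w, v)‖ ^ 2 < b) : ∀ᶠ q in 𝓝 (w, v), ‖f q‖ ^ 2 < b :=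
  ((hf.norm.pow 2).tendsto (w, v)).eventually_lt_const hb

theorem cont1 {f : W → G} (hf : Continuous f) : Continuous fun q : W × V => f q.1 :=
  hf.comp continuous_fst

theorem cont2 {f : V → G} (hf : Continuous f) : Continuous fun q : W × V => f q.2 :=
  hf.comp continuous_snd

theorem cont_sub_const {f : W → G} (hf : Continuous f) (g : G) : Continuous fun w => f w - g :=
  hf.sub continuous_const

theorem cont_sub2 {f : W → G} (hf : Continuous f) {g : V → G} (hg : Continuous g) (c : G) :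
    Continuous fun q : W × V => f q.1 - g q.2 - c :=
  ((hf.comp continuous_fst).sub (hg.comp continuous_snd)).sub continuous_const

end abs

set_option maxHeartbeats 1000000 in
/-- **APX** -/
theorem apx : SwcProd_215.APX.{v} := by
  intro M _ _ _ _ _ _ _ _ _ _ _ _ _ κ0 κ1 κT _ _ _ S d τ C Hb t hS hτ hF a u hsol
  have hA := Sob4_984.emb4_Dat S.DT
  have hU := Sob4_984.emb4_Dat S.D0
  obtain ⟨α, hα⟩ := hsol.wa
  obtain ⟨U, hUu⟩ := hsol.wu
  have ha : ∀ᵐ x ∂(μHE[4] : Measure M), ∀ b, (S.DT.toAD.i1 α b : M → ℝ) x = a b x :=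
    ae_all_iff.2 hα
  have hu : ∀ᵐ x ∂(μHE[4] : Measure M), ∀ b, (S.D0.toAD.i1 U b : M → ℝ) x = u b x :=
    ae_all_iff.2 hUu
  set tt : SmS S.DT := ⟨d.th t, hF.smth, hF.secth⟩ with htt
  set ϑ : S.DT.toAD.WE := cW S.DT tt with hϑ
  have ht : ∀ᵐ x ∂(μHE[4] : Measure M), ∀ b, (S.DT.toAD.i1 ϑ b : M → ℝ) x = d.th t b x :=
    coe_cW tt
  have hmu : BM (μHE[4] : Measure M) (d.mu t) := by
    have h0 : d.mu t = fun z => τ.rr z ^ (-(1 / 2) : ℝ) := funext hF.mu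
    rw [h0]
    exact bm_cont (hτ.smrr.continuous.rpow_const fun z => Or.inl (hτ.pos z).ne')
  -- the curvature equation
  have hcur : ∀ᵐ x ∂(μHE[4] : Measure M), ∀ k,
      (((Ah S.H.swap α : S.DL.toAD.HE) : HH (μHE[4] : Measure M) (Fin 4)) k : M → ℝ) x =
        rhs S d t u k x := ae_all_iff.2 ((wkA_iff (P := S.H.swap) hα).1 hsol.cur)
  set cst : Fin 4 → M → ℝ :=
    Fin.cons (fun _ => 0) (fun k z => d.r * d.wt t k z + d.et t k z) with hcst
  have hrhs : ∀ (v : κ0 → M → ℝ) (k : Fin 4) (z : M), rhs S d t v k z =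
      (Fin.cons (fun _ => 0) fun k z => d.mu t z * ((1 / 2) * S.rq k v z) : Fin 4 → M → ℝ) k z +
        cst k z := by
    intro v k z
    rw [hcst]
    unfold rhs
    refine Fin.cases ?_ (fun k => ?_) k
    · simp only [Fin.cons_zero, add_zero]
    · simp only [Fin.cons_succ]
      ring
  set C0 : HH (μHE[4] : Measure M) (Fin 4) :=
    ((Ah S.H.swap α : S.DL.toAD.HE) : HH (μHE[4] : Measure M) (Fin 4)) - Fq hS hU hmu U with hC0
  have hC0e : ∀ᵐ x ∂(μHE[4] : Measure M), ∀ k, (C0 k : M → ℝ) x = cst k x := by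
    filter_upwards [Apx_649.coe_sub ((Ah S.H.swap α : S.DL.toAD.HE) : HH (μHE[4] : Measure M) (Fin 4))
      (Fq hS hU hmu U), hcur, coe_Fq hS hU hmu hu] with x e1 e2 e3 k
    have e4 : (C0 k : M → ℝ) x = _ := e1 k
    rw [e4, e2 k, e3 k, hrhs, add_sub_cancel_left]
  -- the Dirac equation
  have hdir : ∀ᵐ x ∂(μHE[4] : Measure M), ∀ b,
      (((Ah S.P U : S.D1.toAD.HE) : HH (μHE[4] : Measure M) κ1) b : M → ℝ) x =
        - S.cm (a + d.th t) u b x := ae_all_iff.2 ((wkA_iff hUu).1 hsol.dir)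
  have hFd0 : ‖Fd hS hA hU ϑ α U‖ ^ 2 = 0 := by
    have h1 := norm_rep (coe_Fd hS hA hU ha ht hu hdir)
    rw [← h1]
    simp
  have hFc0 : ‖((Ah S.H.swap α : S.DL.toAD.HE) : HH (μHE[4] : Measure M) (Fin 4)) -
      Fq hS hU hmu U - C0‖ ^ 2 = 0 := by
    rw [hC0, sub_self, norm_zero]
    norm_num
  refine ⟨‖F4 hU U‖ ^ 2 + ‖Fn hS hA hU ϑ α U‖ ^ 2 + 1, fun ε hε => ?_⟩
  have hp4 : 0 ≤ ‖F4 hU U‖ ^ 2 := sq_nonneg _
  have hpn : 0 ≤ ‖Fn hS hA hU ϑ α U‖ ^ 2 := sq_nonneg _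
  have E1 := ev_lt (continuous_Fd hS hA hU ϑ) (w := α) (v := U) (b := ε) (by rw [hFd0]; exact hε)
  have E2 := ev_lt (cont_sub2 (S.DL.toAD.HE.subtypeL.comp (Ah S.H.swap)).continuous
    (continuous_Fq hS hU hmu) C0) (w := α) (v := U) (b := ε) (by
      have h1 : ((S.DL.toAD.HE.subtypeL.comp (Ah S.H.swap)) α : HH (μHE[4] : Measure M) (Fin 4)) =
        ((Ah S.H.swap α : S.DL.toAD.HE) : HH (μHE[4] : Measure M) (Fin 4)) := rfl
      rw [h1, hFc0]
      exact hε)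
  have E3 := ev_lt (cont1 (V := S.D0.toAD.WE) (cont_sub_const S.DT.toAD.i1.continuous
    (S.DT.toAD.i1 α))) (w := α) (v := U) (b := ε) (by
      rw [sub_self, norm_zero]
      norm_num
      exact hε)
  have E4 := ev_lt (cont2 (W := S.DT.toAD.WE) (cont_sub_const S.D0.toAD.i1.continuous
    (S.D0.toAD.i1 U))) (w := α) (v := U) (b := ε) (by
      rw [sub_self, norm_zero]
      norm_num
      exact hε)
  have E5 := ev_lt (cont2 (W := S.DT.toAD.WE) (continuous_F4 hU)) (w := α) (v := U)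
    (b := ‖F4 hU U‖ ^ 2 + ‖Fn hS hA hU ϑ α U‖ ^ 2 + 1) (by linarith)
  have E6 := ev_lt (continuous_Fn hS hA hU ϑ) (w := α) (v := U)
    (b := ‖F4 hU U‖ ^ 2 + ‖Fn hS hA hU ϑ α U‖ ^ 2 + 1) (by linarith)
  obtain ⟨a', u', G1, G2, G3, G4, G5, G6⟩ := exists_near (dns4 S.DT) (dns4 S.D0)
    (E1.and (E2.and (E3.and (E4.and (E5.and E6)))))
  have ha' := coe_cW a'
  have hu' := coe_cW u'
  refine ⟨a'.1, u'.1, a'.2.1, a'.2.2, u'.2.1, u'.2.2, ?_, ?_, ?_, ?_, ?_, ?_⟩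
  · refine le_trans (le_of_eq ?_) G3.le
    refine norm_rep ?_
    filter_upwards [Apx_649.coe_sub (S.DT.toAD.i1 (cW S.DT a')) (S.DT.toAD.i1 α), ha', ha]
      with x e1 e2 e3 b
    have e4 := e1 b
    rw [e2 b, e3 b] at e4
    exact e4
  · refine le_trans (le_of_eq ?_) G4.le
    refine norm_rep ?_
    filter_upwards [Apx_649.coe_sub (S.D0.toAD.i1 (cW S.D0 u')) (S.D0.toAD.i1 U), hu', hu]
      with x e1 e2 e3 b
    have e4 := e1 b
    rw [e2 b, e3 b] at e4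
    exact e4
  · refine le_trans (le_of_eq ?_) G1.le
    exact norm_rep (coe_Fd hS hA hU ha' ht hu' (coe_Ah S.P u'))
  · refine le_trans (le_of_eq ?_) G2.le
    refine norm_rep ?_
    filter_upwards [Apx_649.coe_sub (((Ah S.H.swap (cW S.DT a') : S.DL.toAD.HE) :
        HH (μHE[4] : Measure M) (Fin 4)) - Fq hS hU hmu (cW S.D0 u')) C0,
      Apx_649.coe_sub ((Ah S.H.swap (cW S.DT a') : S.DL.toAD.HE) : HH (μHE[4] : Measure M) (Fin 4))
        (Fq hS hU hmu (cW S.D0 u')), coe_Ah S.H.swap a', coe_Fq hS hU hmu hu', hC0e]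
      with x e1 e2 e3 e4 e5 k
    have e6 := e1 k
    rw [e2 k, e3 k, e4 k, e5 k] at e6
    refine e6.trans ?_
    unfold SwcProd_215.gC
    rw [hrhs]
    have e7 : S.H.swap.A a'.1 k x = S.H.B a'.1 k x := rfl
    rw [e7]
    ring
  · exact (le_of_eq (norm_F4 hU hu')).trans G5.le
  · refine le_trans (le_of_eq ?_) G6.le
    exact norm_repF (coe_Fn hS hA hU ha' ht hu' (coe_c1 u'))

end

end Crest.Agent.R235.Apx2_649
end

-- ▼ part R235/Gz_649
section

/-!
Row 235 (S0364), SWC, PROD leaf GZ (helper649): `gz : SwcProd_215.GZ`.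
-/

set_option autoImplicit false
set_option maxSynthPendingDepth 3
set_option linter.unusedSectionVars false

open scoped ContDiff ENNReal NNReal Topology Manifold Bundle RealInnerProductSpace
open MeasureTheory Set Filter Metric Bundle

universe v

namespace Crest.Agent.R235.Gz_649

open Crest.Agent.R249.Tv57 Crest.Agent.R247.Ms322 Crest.Agent.R247.Dir593
open Crest.Agent.R247.Frd657 Crest.Agent.R202.Sp
open Crest.Agent.R235.Fs4_546 Crest.Agent.R235.Fred_649 Crest.Agent.R235.SwcD_649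
open Crest.Agent.R235.SWDefs_53

noncomputable section

variable {M : Type v} [MetricSpace M] [CompactSpace M] [ConnectedSpace M]
  [ChartedSpace (EuclideanSpace ℝ (Fin 4)) M] [IsManifold (𝓡 4) ∞ M]
  [RiemannianBundle (fun p : M => TangentSpace (𝓡 4) p)]
  [IsContMDiffRiemannianBundle (𝓡 4) ∞ (EuclideanSpace ℝ (Fin 4))
    (fun p : M => TangentSpace (𝓡 4) p)]
  [IsRiemannianManifold (𝓡 4) M] [MeasurableSpace M] [BorelSpace M]
  [SecondCountableTopology M] [Nonempty M] [IsFiniteMeasureOnCompacts (μHE[4] : Measure M)]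
  {κ κ' : Type} [Fintype κ] [Fintype κ'] {D0 : Dat 4 M κ} {D1 : Dat 4 M κ'}

/-- **the general statement**: smooth sections whose kernel part is `o(√r)`. -/
theorem gz_gen {P : OpPair D0 D1} (S0 : Spec D0) {U : Filter ℕ} {r : ℕ → ℝ}
    {a : ℕ → SmS D0} {Hb K : ℝ} (hr : Tendsto r U atTop)
    (hk : ∀ n, ∀ k ∈ S0.ker, |(⟪cH D0 (a n), cH D0 (ph S0 k)⟫ : ℝ)| ≤ Hb)
    (hb : ∀ᶠ n in U, ‖cH D1 (lA P (a n))‖ ^ 2 ≤ K * r n)
    (hw : ∀ w : SmS D1, Tendsto (fun n => (√(r n))⁻¹ * (⟪cH D1 (lA P (a n)), cH D1 w⟫ : ℝ)) U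
      (𝓝 0)) :
    Tendsto (fun n => (r n)⁻¹ * ‖cH D0 (a n)‖ ^ 2) U (𝓝 0) := by
  classical
  have hd0 := dns4 D0
  have hpos : ∀ᶠ n in U, 0 < r n := hr.eventually_gt_atTop 0
  have hinv : Tendsto (fun n => (r n)⁻¹) U (𝓝 0) := tendsto_inv_atTop_zero.comp hr
  -- the coefficients
  have hc : ∀ k, Tendsto (fun n => (r n)⁻¹ * (⟪cH D0 (a n), cH D0 (ph S0 k)⟫ : ℝ) ^ 2) U
      (𝓝 0) := by
    intro k
    by_cases hk0 : S0.μ k = 0
    · have h1 : Tendsto (fun n => (r n)⁻¹ * Hb ^ 2) U (𝓝 0) := by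
        simpa using hinv.mul_const (Hb ^ 2)
      refine squeeze_zero' ?_ ?_ h1
      · filter_upwards [hpos] with n hn
        have := inv_nonneg.2 hn.le
        positivity
      · filter_upwards [hpos] with n hn
        have h2 := hk n k (S0.mem_ker.2 hk0)
        have h3 := sq_le_sq' (by linarith [neg_abs_le (⟪cH D0 (a n), cH D0 (ph S0 k)⟫ : ℝ)])
          ((le_abs_self _).trans h2)
        exact mul_le_mul_of_nonneg_left h3 (inv_nonneg.2 hn.le)
    · have h3 := ((hw (lA P (ph S0 k))).const_mul (S0.μ k)⁻¹).pow 2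
      have h4 : Tendsto (fun n => ((S0.μ k)⁻¹ * ((√(r n))⁻¹ *
          (⟪cH D1 (lA P (a n)), cH D1 (lA P (ph S0 k))⟫ : ℝ))) ^ 2) U (𝓝 0) := by
        simpa using h3
      refine h4.congr' ?_
      filter_upwards [hpos] with n hn
      have h2 := Ah_eig (P := P) S0 hd0 k (cW D0 (a n))
      rw [Ah_cW hd0, Ah_cW hd0, jj_cW, jj_cW] at h2
      rw [real_inner_comm (cH D1 (lA P (ph S0 k))), h2, real_inner_comm (cH D0 (a n))]
      have h5 : (√(r n)) ^ 2 = r n := Real.sq_sqrt hn.le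
      have h6 : ((S0.μ k)⁻¹ * ((√(r n))⁻¹ * (S0.μ k * ⟪cH D0 (a n), cH D0 (ph S0 k)⟫))) =
          (√(r n))⁻¹ * ⟪cH D0 (a n), cH D0 (ph S0 k)⟫ := by
        field_simp
      rw [h6, mul_pow, inv_pow, h5]
  rw [Metric.tendsto_nhds]
  intro ε hε
  obtain ⟨N, hN⟩ := eventually_atTop.1 (S0.lim.eventually_ge_atTop (2 * (|K| + 1) / ε))
  have hΛ : 0 < 2 * (|K| + 1) / ε := by positivity
  have h1 : Tendsto (fun n => ∑ k ∈ Finset.range N,
      (r n)⁻¹ * (⟪cH D0 (a n), cH D0 (ph S0 k)⟫ : ℝ) ^ 2) U (𝓝 0) := by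
    have := tendsto_finsetSum (Finset.range N) fun k _ => hc k
    simpa using this
  filter_upwards [h1.eventually_lt_const (half_pos hε), hpos, hb] with n e1 e2 e3
  have h0 : 0 ≤ (r n)⁻¹ * ‖cH D0 (a n)‖ ^ 2 := by
    have := inv_nonneg.2 e2.le
    positivity
  rw [Real.dist_eq, sub_zero, abs_of_nonneg h0]
  have h3 := tail (P := P) hd0 S0 hΛ hN (cW D0 (a n))
  rw [jj_cW, Ah_cW hd0] at h3
  have h4 := mul_le_mul_of_nonneg_left h3 (inv_nonneg.2 e2.le)
  rw [mul_add, Finset.mul_sum] at h4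
  have h5 : (r n)⁻¹ * ((2 * (|K| + 1) / ε)⁻¹ * ‖cH D1 (lA P (a n))‖ ^ 2) ≤ ε / 2 := by
    have h6 : (r n)⁻¹ * ((2 * (|K| + 1) / ε)⁻¹ * ‖cH D1 (lA P (a n))‖ ^ 2) ≤
        (r n)⁻¹ * ((2 * (|K| + 1) / ε)⁻¹ * (K * r n)) :=
      mul_le_mul_of_nonneg_left (mul_le_mul_of_nonneg_left e3 (inv_nonneg.2 hΛ.le))
        (inv_nonneg.2 e2.le)
    refine h6.trans ?_
    have h7 : (r n)⁻¹ * ((2 * (|K| + 1) / ε)⁻¹ * (K * r n)) = K * (ε / (2 * (|K| + 1))) := by
      rw [inv_div]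
      field_simp
    rw [h7]
    have h8 : K ≤ |K| + 1 := (le_abs_self K).trans (by linarith)
    have h9 : 0 ≤ ε / (2 * (|K| + 1)) := by positivity
    refine (mul_le_mul_of_nonneg_right h8 h9).trans (le_of_eq ?_)
    field_simp
  linarith

/-- **GZ** -/
theorem gz : SwcProd_215.GZ.{v} := by
  intro M _ _ _ _ _ _ _ _ _ _ _ _ _ κ0 κ1 κT _ _ _ S U r a Hb K hr hsm hsec hhar hbd hw
  by_cases hp : ∃ b z, S.DT.p b b z ≠ 0
  swap
  · push Not at hp
    have h0 : ∀ n A z, a n A z = 0 := fun n A z =>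
      congrFun (congrFun (Swx_333.sec_zero S.DT hp (hsec n)) A) z
    simp only [h0, ne_eq, OfNat.ofNat_ne_zero, not_false_eq_true, zero_pow, Finset.sum_const_zero,
      integral_zero, mul_zero]
    exact tendsto_const_nhds
  obtain ⟨S1⟩ := Swx_333.spec4 S.DT hp
  set a' : ℕ → SmS S.DT := fun n => ⟨a n, hsm n, hsec n⟩ with ha'
  have hn : ∀ n, ∫ z, ∑ A, a n A z ^ 2 ∂(μHE[4] : Measure M) = ‖cH S.DT (a' n)‖ ^ 2 := fun n =>
    norm_rep (coe_clH (a' n).1 (a' n).2.1)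
  have hB : ∀ n, ∫ z, ∑ k, S.H.B (a n) k z ^ 2 ∂(μHE[4] : Measure M) =
      ‖cH S.DL (lA S.H.swap (a' n))‖ ^ 2 := fun n =>
    norm_rep (coe_clH (lA S.H.swap (a' n)).1 (lA S.H.swap (a' n)).2.1)
  simp only [hn]
  refine gz_gen (P := S.H.swap) S1 (Hb := Hb) (K := K) hr ?_ ?_ ?_
  · intro n k hk
    have h1 := hhar n (ph S1 k).1 (ph S1 k).2.1 (ph S1 k).2.2 (fun b z => by
      have h2 := congrArg (fun v : SmS S.DL => v.1 b z) (lA_ker S.H.swap S1 (S1.mem_ker.1 hk))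
      exact h2)
    rw [inner_cH]
    refine h1.trans (le_of_eq ?_)
    rw [← inner_cH, ortho_ph, if_pos rfl, Real.sqrt_one, mul_one]
  · filter_upwards [hbd] with n h
    rw [← hB]
    exact h
  · intro w
    refine (hw w.1 w.2.1).congr fun n => ?_
    rw [inner_cH]
    rfl

end

end Crest.Agent.R235.Gz_649
end

-- ▼ part R235/SwcStbA_370
section

/-!
Row 235 (S0364), PACKAGE SWC (helper370, deputy for STB), part A:
* `exists_dec` : every smooth two-form is a finite sum of `G du ∧ dv`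
* `stb_core`   : `|∫ q(ds, b)| ≤ C ∫ |s|`
-/

set_option autoImplicit false
set_option maxSynthPendingDepth 3
set_option linter.unusedSectionVars false

open Set Function Filter MeasureTheory Metric
open scoped Manifold ContDiff Topology

namespace Crest.Agent.R235.SwcStb_370

open Crest.Agent.R240 Crest.Agent.R240.Ch Crest.Agent.R235
open Crest.Agent.R235.SwcAlg_34 Crest.Agent.R235.DCMan_358

noncomputable section

/-- first index -/
def a6 : Fin 6 → Fin 4 := ![0, 0, 0, 1, 1, 2]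
/-- second index -/
def b6 : Fin 6 → Fin 4 := ![1, 2, 3, 2, 3, 3]

theorem bil_expand {B : Bil} (hB : Alt B) :
    B = ∑ m : Fin 6, ent B (a6 m) (b6 m) • wed (DCMan_358.pr (a6 m)) (DCMan_358.pr (b6 m)) := by
  have hs : Alt (∑ m : Fin 6, ent B (a6 m) (b6 m) • wed (DCMan_358.pr (a6 m)) (DCMan_358.pr (b6 m))) := by
    intro v
    rw [sum_apply, sum_apply]
    refine Finset.sum_eq_zero fun m _ => ?_
    rw [smul_apply, smul_apply, wed_alt, smul_zero]
  have he : ∀ i j, ent (∑ m : Fin 6, ent B (a6 m) (b6 m) • wed (DCMan_358.pr (a6 m)) (DCMan_358.pr (b6 m))) i j =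
      ∑ m : Fin 6, ent B (a6 m) (b6 m) * ((if a6 m = i then 1 else 0) * (if b6 m = j then 1 else 0)
        - (if b6 m = i then 1 else 0) * (if a6 m = j then 1 else 0)) := by
    intro i j
    unfold ent
    rw [sum_apply, sum_apply]
    refine Finset.sum_congr rfl fun m _ => ?_
    rw [smul_apply, smul_apply, smul_eq_mul]
    have h := ent_wed_pr (a6 m) (b6 m) i j
    unfold ent at h
    rw [h]
  refine alt_ext hB hs ?_ ?_ ?_ ?_ ?_ ?_ <;>
  · rw [he, Fin.sum_univ_six]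
    simp [a6, b6]

section Man

variable {M : Type*} [TopologicalSpace M] [T2Space M] [CompactSpace M] [ChartedSpace E4 M]
  [IsManifold 𝓘(ℝ, E4) ∞ M] [MeasurableSpace M] [BorelSpace M]

/-- global functions with prescribed differentials on a compact part of the chart. -/
theorem exists_coord {p : M} {K : Set E4} (hK : IsCompact K) (hKt : K ⊆ (chartAt E4 p).target) :
    ∃ U : Fin 4 → M → ℝ, (∀ k, SmoothF E4 (U k)) ∧
      ∀ k, ∀ y ∈ K, rep1 p (dF (U k)) y = DCMan_358.pr k := by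
  obtain ⟨K1, hK1, hKK1, hK1t⟩ := exists_compact_between hK (chartAt E4 p).open_target hKt
  obtain ⟨K2, hK2, hK12, hK2t⟩ := exists_compact_between hK1 (chartAt E4 p).open_target hK1t
  obtain ⟨f, hf1, hf0, -⟩ := exists_contMDiffMap_one_nhds_of_subset_interior (n := ⊤)
    𝓘(ℝ, E4) hK1.isClosed hK12
  have hθ : ContDiff ℝ ∞ (f : E4 → ℝ) := f.contMDiff.contDiff
  have hθ1 : ∀ y ∈ K1, f y = 1 := fun y hy => (Filter.Eventually.self_of_nhdsSet hf1) y hy
  have hcoord : ∀ k : Fin 4, ContDiff ℝ ∞ (fun y : E4 => f y * y k) := fun k =>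
    hθ.mul (DCMan_358.pr k).contDiff
  have hcoord0 : ∀ k : Fin 4, ∀ y, y ∉ K2 → f y * y k = 0 := fun k y hy => by
    rw [hf0 y hy, zero_mul]
  have hUs : ∀ k : Fin 4, SmoothF E4 (extF p (fun y : E4 => f y * y k)) := fun k =>
    smoothF_extF hK2 hK2t (hcoord k) (hcoord0 k)
  refine ⟨fun k => extF p (fun y => f y * y k), hUs, ?_⟩
  intro k y hy
  have hyt := hKt hy
  rw [rep1_dF (hUs k) hyt]
  have hev : repF p (extF p (fun y : E4 => f y * y k)) =ᶠ[𝓝 y] fun z => DCMan_358.pr k z := by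
    filter_upwards [(chartAt E4 p).open_target.mem_nhds hyt,
      mem_interior_iff_mem_nhds.1 (hKK1 hy)] with z hz hz1
    rw [repF_extF_self hz, hθ1 z hz1, one_mul]
    rfl
  rw [hev.fderiv_eq]
  exact (DCMan_358.pr k).fderiv

/-- every smooth two-form is a finite sum of forms `G du ∧ dv`. -/
theorem exists_dec {b : F2 E4 M} (hb : Smooth2 b) :
    ∃ (n : ℕ) (G u v : Fin n → M → ℝ), (∀ i, SmoothF E4 (G i)) ∧ (∀ i, SmoothF E4 (u i)) ∧
      (∀ i, SmoothF E4 (v i)) ∧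
      ∀ x, at2 b x = ∑ i, G i x • at2 (wedG (dF (u i)) (dF (v i))) x := by
  obtain ⟨A⟩ := exists_FA (E := E4) (M := M)
  choose U hUs hUd using fun i => exists_coord (A.isCompact_K i) (A.K_sub i)
  -- the coefficients
  have hsup : ∀ i m, Sup (A.c i) (A.K i)
      (fun y => repF (A.c i) (A.χ i) y * ent (rep (A.c i) b y) (a6 m) (b6 m)) := by
    intro i m
    refine ⟨A.isCompact_K i, A.K_sub i, ?_, ?_⟩
    · refine ((smoothF_iff (A.χ i)).1 (A.χ_smooth i) (A.c i)).mul ?_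
      exact ((hb.2 (A.c i)).clm_apply contDiffOn_const).clm_apply contDiffOn_const
    · intro y hy hyK
      have h1 : A.χ i ((chartAt E4 (A.c i)).symm y) = 0 := by
        by_contra hne
        have h2 := A.χ_supp i (subset_tsupport _ hne)
        rw [(chartAt E4 (A.c i)).right_inv hy] at h2
        exact hyK (interior_subset h2.2)
      simp only [repF, h1, zero_mul]
  set G : Fin A.n → Fin 6 → M → ℝ := fun i m => extF (A.c i) (ez (A.c i)
    (fun y => repF (A.c i) (A.χ i) y * ent (rep (A.c i) b y) (a6 m) (b6 m))) with hG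
  have hGs : ∀ i m, SmoothF E4 (G i m) := fun i m =>
    smoothF_extF (A.isCompact_K i) (A.K_sub i) (ez_smooth (hsup i m))
      (fun y hy => ez_zero (hsup i m) hy)
  -- the pointwise identity
  have key : ∀ i x, A.χ i x • at2 b x =
      ∑ m, G i m x • at2 (wedG (dF (U i (a6 m))) (dF (U i (b6 m)))) x := by
    intro i x
    by_cases hx : x ∈ (chartAt E4 (A.c i)).source
    · have hy := (chartAt E4 (A.c i)).map_source hx
      have hGx : ∀ m, G i m x = A.χ i x * ent (rep (A.c i) b (chartAt E4 (A.c i) x))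
          (a6 m) (b6 m) := by
        intro m
        rw [hG]
        simp only
        rw [extF, if_pos hx, ez, if_pos hy, repF_chart hx]
      by_cases h0 : A.χ i x = 0
      · rw [h0, zero_smul]
        symm
        refine Finset.sum_eq_zero fun m _ => ?_
        rw [hGx, h0, zero_mul, zero_smul]
      · have hyK : chartAt E4 (A.c i) x ∈ A.K i :=
          interior_subset (A.χ_supp i (subset_tsupport _ h0)).2
        have h1 : at2 b x = at2 (∑ m : Fin 6, ent (rep (A.c i) b (chartAt E4 (A.c i) x))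
            (a6 m) (b6 m) • wedG (dF (U i (a6 m))) (dF (U i (b6 m))) : F2 E4 M) x := by
          refine Sm.at2_eq_of_rep hx ?_
          have h2 : rep (A.c i) (∑ m : Fin 6, ent (rep (A.c i) b (chartAt E4 (A.c i) x))
              (a6 m) (b6 m) • wedG (dF (U i (a6 m))) (dF (U i (b6 m))) : F2 E4 M)
              (chartAt E4 (A.c i) x) = ∑ m : Fin 6, ent (rep (A.c i) b (chartAt E4 (A.c i) x))
              (a6 m) (b6 m) • rep (A.c i) (wedG (dF (U i (a6 m))) (dF (U i (b6 m))))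
              (chartAt E4 (A.c i) x) := by
            ext u v
            rw [rep_apply]
            simp only [sum_apply, smul_apply, rep_apply]
            rw [at2, Finset.sum_apply]
            simp only [sum_apply]
            rfl
          rw [h2]
          refine (bil_expand (PosDefs_358.alt_rep hb (A.c i) (chartAt E4 (A.c i) x))).trans
            (Finset.sum_congr rfl fun m _ => ?_)
          rw [Int.rep_wedG_eq, hUd i _ _ hyK, hUd i _ _ hyK]
        rw [h1]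
        rw [at2, Finset.sum_apply, Finset.smul_sum]
        refine Finset.sum_congr rfl fun m _ => ?_
        rw [hGx, mul_smul]
        rfl
    · have h0 : A.χ i x = 0 := by
        by_contra hne
        exact hx (A.χ_supp i (subset_tsupport _ hne)).1
      rw [h0, zero_smul]
      symm
      refine Finset.sum_eq_zero fun m _ => ?_
      have : G i m x = 0 := extF_of_notMem hx _
      rw [this, zero_smul]
  -- reindexing
  let e : Fin (Fintype.card (Fin A.n × Fin 6)) ≃ Fin A.n × Fin 6 := (Fintype.equivFin _).symm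
  refine ⟨Fintype.card (Fin A.n × Fin 6), fun j => G (e j).1 (e j).2,
    fun j => U (e j).1 (a6 (e j).2), fun j => U (e j).1 (b6 (e j).2), fun j => hGs _ _,
    fun j => hUs _ _, fun j => hUs _ _, fun x => ?_⟩
  have h1 : at2 b x = ∑ i, A.χ i x • at2 b x := by
    rw [← Finset.sum_smul, A.χ_sum, one_smul]
  rw [h1, Finset.sum_congr rfl fun i _ => key i x, ← Fintype.sum_prod_type']
  exact (e.sum_comp (fun q : Fin A.n × Fin 6 =>
    G q.1 q.2 x • at2 (wedG (dF (U q.1 (a6 q.2))) (dF (U q.1 (b6 q.2)))) x)).symm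

end Man

section jc

variable {M : Type*} [TopologicalSpace M] [ChartedSpace E4 M] [IsManifold 𝓘(ℝ, E4) ∞ M]

/-- `s ↦ Jc s` on one-forms. -/
def jcG (J : EndF E4 M) (s : F1 E4 M) : F1 E4 M := fun x => (Jc (atJ J x) (at1 s x) : E4 →L[ℝ] ℝ)

theorem rep1_jcG (J : EndF E4 M) (s : F1 E4 M) {p : M} {y : E4} (hy : y ∈ (chartAt E4 p).target) :
    rep1 p (jcG J s) y = - (rep1 p s y).comp (repJ p J y) := by
  ext v
  rw [rep1_apply]
  show Jc (atJ J _) (at1 s _) _ = _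
  rw [Jc_apply]
  simp only [neg_apply, ContinuousLinearMap.comp_apply]
  rw [rep1_apply, repJ_apply, tcc_cancel' (symm_mem hy)]

theorem smooth_jcG {J : EndF E4 M} (hJ : SmoothJ J) {s : F1 E4 M} (hs : Smooth1 s) :
    Smooth1 (jcG J s) := by
  intro p
  have h1 : ContDiffOn ℝ ∞ (fun y => -((rep1 p s y).comp (repJ p J y))) (chartAt E4 p).target :=
    ((hs p).clm_comp (hJ p)).neg
  exact h1.congr fun y hy => rep1_jcG J s hy

end jc

section Bound

variable {M : Type*} [MetricSpace M] [CompactSpace M] [ChartedSpace E4 M]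
  [IsManifold 𝓘(ℝ, E4) ∞ M] [MeasurableSpace M] [BorelSpace M] (D : Dat M)

/-- the norm of a one-form. -/
def ns (s : F1 E4 M) (x : M) : ℝ := √(m1 (atJ D.J x) (at2 D.F x) (at1 s x))

theorem ns_nonneg (s : F1 E4 M) (x : M) : 0 ≤ ns D s x := Real.sqrt_nonneg _

theorem cont_ns {s : F1 E4 M} (hs : Smooth1 s) : Continuous (ns D s) := by
  have h1 : Continuous (qG D.F D.F (wedG s (jcG D.J s))) :=
    NM.continuous_qG D (NM.smF D) (Smooth2.wed hs (smooth_jcG D.smJ hs))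
  exact Real.continuous_sqrt.comp (continuous_const.mul h1)

theorem nr_wedG (s t : F1 E4 M) (x : M) : D.nr (wedG s t) x ≤ ns D s x * ns D t x :=
  nr_wed (NM.dJ D x) (NM.dF D x) (at1 s x) (at1 t x)

/-- one piece. -/
theorem piece {G u v : M → ℝ} (hG : SmoothF E4 G) (hu : SmoothF E4 u) (hv : SmoothF E4 v) :
    ∃ C : ℝ, 0 ≤ C ∧ ∀ s : F1 E4 M, Smooth1 s →
      |∫ x, G x * qG D.F (dG s) (wedG (dF u) (dF v)) x ∂D.μ| ≤ C * ∫ x, ns D s x ∂D.μ := by
  have hw : Smooth2 (wedG (dF (E := E4) u) (dF v)) := Smooth2.wed (Smooth1.dF hu) (Smooth1.dF hv)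
  have hcl : Closed2 (wedG (dF (E := E4) u) (dF v)) := by
    rw [← Tau483.dG_fd hu hv]
    exact Closed2.dG (Smooth1.fmul hu (Smooth1.dF hv))
  have hc : Continuous fun x => ns D (dF G) x * D.nr (wedG (dF u) (dF v)) x :=
    (cont_ns D (Smooth1.dF hG)).mul (NM.continuous_nr D hw)
  obtain ⟨C, hC⟩ := (isCompact_univ (X := M)).exists_bound_of_continuousOn hc.continuousOn
  refine ⟨|C|, abs_nonneg _, fun s hs => ?_⟩
  have hμ : D.μ = Int.mu D.F := Int.isVol_eq_mu (Int.dat_volF D) (Int.dat_isVol D)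
  have h1 := Tau483.stokes_fun (Int.dat_volF D) hG hs hw hcl
  rw [hμ, h1, abs_neg, ← hμ]
  have h2 : Continuous (qG D.F (wedG (dF G) s) (wedG (dF u) (dF v))) :=
    NM.continuous_qG D (Smooth2.wed (Smooth1.dF hG) hs) hw
  refine (abs_integral_le_integral_abs).trans ?_
  rw [← integral_const_mul]
  refine integral_mono (NM.integrable_cont D h2.abs)
    (NM.integrable_cont D (continuous_const.mul (cont_ns D hs))) fun x => ?_
  have h3 := NM.abs_qG_le D (Smooth2.wed (Smooth1.dF hG) hs) hw x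
  have h4 := nr_wedG D (dF G) s x
  have h5 := NM.nr_nonneg D (wedG (dF (E := E4) u) (dF v)) x
  have h6 := hC x (mem_univ x)
  rw [Real.norm_eq_abs, abs_of_nonneg (mul_nonneg (ns_nonneg D _ x) h5)] at h6
  have h7 := ns_nonneg D s x
  calc |qG D.F (wedG (dF G) s) (wedG (dF u) (dF v)) x|
      ≤ D.nr (wedG (dF G) s) x * D.nr (wedG (dF u) (dF v)) x := h3
    _ ≤ (ns D (dF G) x * ns D s x) * D.nr (wedG (dF u) (dF v)) x := by gcongr
    _ = (ns D (dF G) x * D.nr (wedG (dF u) (dF v)) x) * ns D s x := by ring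
    _ ≤ |C| * ns D s x := by
        have := h6.trans (le_abs_self C)
        gcongr

/-- **`|∫ q(ds, b)| ≤ C ∫ |s|`.** -/
theorem stb_core {b : F2 E4 M} (hb : Smooth2 b) :
    ∃ C : ℝ, 0 < C ∧ ∀ s : F1 E4 M, Smooth1 s →
      |D.I (dG s) b| ≤ C * ∫ x, √(m1 (atJ D.J x) (at2 D.F x) (at1 s x)) ∂D.μ := by
  obtain ⟨n, G, u, v, hG, hu, hv, hdec⟩ := exists_dec hb
  choose C hC0 hC using fun i => piece D (hG i) (hu i) (hv i)
  refine ⟨∑ i, C i + 1, by
    have := Finset.sum_nonneg fun i (_ : i ∈ Finset.univ) => hC0 i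
    linarith, fun s hs => ?_⟩
  have hw : ∀ i, Smooth2 (wedG (dF (E := E4) (u i)) (dF (v i))) := fun i =>
    Smooth2.wed (Smooth1.dF (hu i)) (Smooth1.dF (hv i))
  have hq : ∀ x, qG D.F (dG s) b x =
      ∑ i, G i x * qG D.F (dG s) (wedG (dF (u i)) (dF (v i))) x := by
    intro x
    show q (at2 D.F x) (at2 (dG s) x) (at2 b x) = _
    rw [hdec x]
    have : ∀ (S : Finset (Fin n)), q (at2 D.F x) (at2 (dG s) x)
        (∑ i ∈ S, G i x • at2 (wedG (dF (u i)) (dF (v i))) x) =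
        ∑ i ∈ S, G i x * q (at2 D.F x) (at2 (dG s) x) (at2 (wedG (dF (u i)) (dF (v i))) x) := by
      intro S
      classical
      induction S using Finset.induction_on with
      | empty =>
        rw [Finset.sum_empty, Finset.sum_empty]
        have := q_smul_right (at2 D.F x) 0 (at2 (dG s) x) (0 : Bil)
        rw [zero_smul, zero_mul] at this
        exact this
      | insert a S ha ih =>
        rw [Finset.sum_insert ha, Finset.sum_insert ha, q_add_right, ih, q_smul_right]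
    exact this Finset.univ
  have hI : D.I (dG s) b =
      ∑ i, ∫ x, G i x * qG D.F (dG s) (wedG (dF (u i)) (dF (v i))) x ∂D.μ := by
    show ∫ x, qG D.F (dG s) b x ∂D.μ = _
    rw [← integral_finsetSum]
    · exact integral_congr_ae (Eventually.of_forall hq)
    · intro i _
      exact NM.integrable_cont D ((Int.SmoothF.cont (hG i)).mul
        (NM.continuous_qG D (Smooth2.dG hs) (hw i)))
  rw [hI]
  have hI0 : 0 ≤ ∫ x, ns D s x ∂D.μ := integral_nonneg fun x => ns_nonneg D s x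
  calc |∑ i, ∫ x, G i x * qG D.F (dG s) (wedG (dF (u i)) (dF (v i))) x ∂D.μ|
      ≤ ∑ i, |∫ x, G i x * qG D.F (dG s) (wedG (dF (u i)) (dF (v i))) x ∂D.μ| :=
        Finset.abs_sum_le_sum_abs _ _
    _ ≤ ∑ i, C i * ∫ x, ns D s x ∂D.μ := Finset.sum_le_sum fun i _ => hC i s hs
    _ = (∑ i, C i) * ∫ x, ns D s x ∂D.μ := by rw [Finset.sum_mul]
    _ ≤ (∑ i, C i + 1) * ∫ x, ns D s x ∂D.μ := by
        have : (∑ i, C i : ℝ) ≤ ∑ i, C i + 1 := by linarith
        gcongr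

end Bound

end

end Crest.Agent.R235.SwcStb_370
end

-- ▼ part R235/SwcSTB_370
section

/-!
Row 235 (S0364), PACKAGE SWC, leaf `STB` (helper370).
-/

set_option autoImplicit false
set_option maxSynthPendingDepth 3

open Set Function Filter MeasureTheory Metric
open scoped Manifold ContDiff Topology

universe v

namespace Crest.Agent.R235.SwcStb_370

open Crest.Agent.R240 Crest.Agent.R240.Ch Crest.Agent.R235

/-- **STB**. -/
theorem stb : SwcProd_215.STB.{v} := by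
  intro M _ _ _ _ _ _ D b hb
  exact stb_core D hb

end Crest.Agent.R235.SwcStb_370
end

-- ▼ part R235/SwcNETC_984
section

/-!
Row 235 (S0364), PACKAGE SWC, NODE PROD, leaf **NETC** (helper984): the densities of ONE step of a
Taubes sequence, from the weak hypotheses (`line n`, `smα n`, `secα n`, `smθ n`).

* `smooth_re`, `smooth_im` : the real and imaginary parts of `eta` are smooth one-forms
* `cont_neta`, `cont_ndb`, `cont_nal`, `neta_nonneg`, `ndb_nonneg`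
* `n1_jj_le` : `|jj|² ≤ |α|² |eta|²`
-/

set_option autoImplicit false
set_option maxSynthPendingDepth 3
set_option linter.unusedSectionVars false

open Set Function Filter MeasureTheory Metric
open scoped Manifold ContDiff Topology

universe u

namespace Crest.Agent.R235.SwcNETC_984

open Crest.Agent.R240 Crest.Agent.R240.Ch Crest.Agent.R235
open Crest.Agent.R235.SwcGlob_34 Crest.Agent.R235.SwcAlg_34 Crest.Agent.R235.SwcVs_34
open Crest.Agent.R235.Tau483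

noncomputable section

variable {M : Type u} [MetricSpace M] [CompactSpace M] [ChartedSpace E4 M]
  [IsManifold 𝓘(ℝ, E4) ∞ M] [MeasurableSpace M] [BorelSpace M] (D : Dat M) {N : ℕ}
  {Q : TSeq M N} {n : ℕ}

theorem re_eta (smα : ∀ i, ContMDiff 𝓘(ℝ, E4) 𝓘(ℝ, ℂ) ∞ (fun x => Q.α n x i)) (x : M) (i : Fin N) :
    Complex.reCLM.comp (Q.eta n x i) = at1 (reF Q n i) x := by
  ext v
  rw [ContinuousLinearMap.comp_apply, Complex.reCLM_apply, eta_apply, Complex.sub_re,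
    Complex.re_sum]
  unfold reF
  rw [at1_add, at1_fmul1, Tau_692.at1_sum]
  have e1 : ((at1 (Q.θ n) x v : ℂ) * (Complex.I * Q.α n x i)).re =
      - ((Q.α n x i).im * at1 (Q.θ n) x v) := by
    simp
    ring
  rw [e1, sub_neg_eq_add]
  congr 1
  refine Finset.sum_congr rfl fun j _ => ?_
  rw [at1_add, at1_fmul1, at1_fmul1, Complex.mul_re, dC_re (smα j), dC_im (smα j)]
  ring

theorem im_eta (smα : ∀ i, ContMDiff 𝓘(ℝ, E4) 𝓘(ℝ, ℂ) ∞ (fun x => Q.α n x i)) (x : M) (i : Fin N) :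
    Complex.imCLM.comp (Q.eta n x i) = at1 (imF Q n i) x := by
  ext v
  rw [ContinuousLinearMap.comp_apply, Complex.imCLM_apply, eta_apply, Complex.sub_im,
    Complex.im_sum]
  unfold imF
  rw [at1_add, at1_fmul1, Tau_692.at1_sum]
  have e1 : ((at1 (Q.θ n) x v : ℂ) * (Complex.I * Q.α n x i)).im =
      ((Q.α n x i).re * at1 (Q.θ n) x v) := by
    simp
    ring
  rw [e1, sub_eq_add_neg, ← neg_mul]
  congr 1
  refine Finset.sum_congr rfl fun j _ => ?_
  rw [at1_add, at1_fmul1, at1_fmul1, Complex.mul_im, dC_re (smα j), dC_im (smα j)]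

theorem smooth_reF (line : IsLine (Q.p n))
    (smα : ∀ i, ContMDiff 𝓘(ℝ, E4) 𝓘(ℝ, ℂ) ∞ (fun x => Q.α n x i)) (smθ : Smooth1 (Q.θ n))
    (i : Fin N) : Smooth1 (reF Q n i) := by
  refine Smooth1.add (Tau_692.smooth1_sum _ fun j _ => ?_) ?_
  · exact (Smooth1.fmul (SmC.re (line.smooth i j)) (Smooth1.dF (SmC.re (smα j)))).add
      (Smooth1.fmul (SmC.im (line.smooth i j)).neg (Smooth1.dF (SmC.im (smα j))))
  · exact Smooth1.fmul (SmC.im (smα i)) smθ

theorem smooth_imF (line : IsLine (Q.p n))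
    (smα : ∀ i, ContMDiff 𝓘(ℝ, E4) 𝓘(ℝ, ℂ) ∞ (fun x => Q.α n x i)) (smθ : Smooth1 (Q.θ n))
    (i : Fin N) : Smooth1 (imF Q n i) := by
  refine Smooth1.add (Tau_692.smooth1_sum _ fun j _ => ?_) ?_
  · exact (Smooth1.fmul (SmC.re (line.smooth i j)) (Smooth1.dF (SmC.im (smα j)))).add
      (Smooth1.fmul (SmC.im (line.smooth i j)) (Smooth1.dF (SmC.re (smα j))))
  · exact Smooth1.fmul (SmC.re (smα i)).neg smθ



theorem nC_eta (smα : ∀ i, ContMDiff 𝓘(ℝ, E4) 𝓘(ℝ, ℂ) ∞ (fun x => Q.α n x i)) (x : M) (i : Fin N) :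
    nC D x (Q.eta n x i) = n1 D x (at1 (reF Q n i) x) + n1 D x (at1 (imF Q n i) x) := by
  unfold nC
  rw [re_eta smα, im_eta smα]

theorem cont_neta (line : IsLine (Q.p n))
    (smα : ∀ i, ContMDiff 𝓘(ℝ, E4) 𝓘(ℝ, ℂ) ∞ (fun x => Q.α n x i)) (smθ : Smooth1 (Q.θ n)) :
    Continuous fun x => Q.neta D n x := by
  unfold TSeq.neta
  refine continuous_finsetSum _ fun i _ => ?_
  have h1 : (fun x => nC D x (Q.eta n x i)) =
      fun x => n1 D x (at1 (reF Q n i) x) + n1 D x (at1 (imF Q n i) x) :=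
    funext fun x => nC_eta D smα x i
  rw [h1]
  exact (cont_n1 D (smooth_reF line smα smθ i)).add (cont_n1 D (smooth_imF line smα smθ i))

theorem nC_zt (smα : ∀ i, ContMDiff 𝓘(ℝ, E4) 𝓘(ℝ, ℂ) ∞ (fun x => Q.α n x i)) (x : M) (i : Fin N) :
    nC D x ((Q.eta n x i).comp (atJ D.J x) - Complex.I • Q.eta n x i) =
      n1 D x (at1 ((-1 : ℝ) • jcG D.J (reF Q n i) + imF Q n i) x) +
      n1 D x (at1 ((-1 : ℝ) • jcG D.J (imF Q n i) + (-1 : ℝ) • reF Q n i) x) := by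
  unfold nC
  congr 2
  · ext v
    have e1 : at1 (reF Q n i) x (atJ D.J x v) = (Q.eta n x i (atJ D.J x v)).re := by
      rw [← re_eta smα]; rfl
    have e2 : at1 (imF Q n i) x v = (Q.eta n x i v).im := by rw [← im_eta smα]; rfl
    have e3 : at1 ((-1 : ℝ) • jcG D.J (reF Q n i) + imF Q n i) x v =
        -1 * (- at1 (reF Q n i) x (atJ D.J x v)) + at1 (imF Q n i) x v := rfl
    rw [e3, e1, e2]
    simp [Complex.reCLM_apply]
  · ext v
    have e1 : at1 (imF Q n i) x (atJ D.J x v) = (Q.eta n x i (atJ D.J x v)).im := by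
      rw [← im_eta smα]; rfl
    have e2 : at1 (reF Q n i) x v = (Q.eta n x i v).re := by rw [← re_eta smα]; rfl
    have e3 : at1 ((-1 : ℝ) • jcG D.J (imF Q n i) + (-1 : ℝ) • reF Q n i) x v =
        -1 * (- at1 (imF Q n i) x (atJ D.J x v)) + -1 * at1 (reF Q n i) x v := rfl
    rw [e3, e1, e2]
    simp [Complex.imCLM_apply]
    ring

theorem cont_ndb (line : IsLine (Q.p n))
    (smα : ∀ i, ContMDiff 𝓘(ℝ, E4) 𝓘(ℝ, ℂ) ∞ (fun x => Q.α n x i)) (smθ : Smooth1 (Q.θ n)) :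
    Continuous fun x => Q.ndb D n x := by
  unfold TSeq.ndb
  refine continuous_finsetSum _ fun i _ => ?_
  have h1 : (fun x => nC D x ((Q.eta n x i).comp (atJ D.J x) - Complex.I • Q.eta n x i)) =
      fun x => n1 D x (at1 ((-1 : ℝ) • jcG D.J (reF Q n i) + imF Q n i) x) +
      n1 D x (at1 ((-1 : ℝ) • jcG D.J (imF Q n i) + (-1 : ℝ) • reF Q n i) x) :=
    funext fun x => nC_zt D smα x i
  rw [h1]
  have hr := smooth_reF line smα smθ i
  have hi := smooth_imF line smα smθ i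
  exact (cont_n1 D (((smooth_jcG D.smJ hr).smul (-1)).add hi)).add
    (cont_n1 D (((smooth_jcG D.smJ hi).smul (-1)).add (hr.smul (-1))))


theorem nC_nonneg (x : M) (c : E4 →L[ℝ] ℂ) : 0 ≤ nC D x c := mC_nonneg (D.sq x) (En4.spos D x) c

theorem neta_nonneg (x : M) : 0 ≤ Q.neta D n x := Finset.sum_nonneg fun _ _ => nC_nonneg D x _



theorem smooth_nal (smα : ∀ i, ContMDiff 𝓘(ℝ, E4) 𝓘(ℝ, ℂ) ∞ (fun x => Q.α n x i)) :
    SmoothF E4 fun x => Q.nal n x := by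
  have h1 : (fun x => Q.nal n x) =
      fun x => ∑ i, ((Q.α n x i).re * (Q.α n x i).re + (Q.α n x i).im * (Q.α n x i).im) := by
    funext x
    unfold TSeq.nal
    refine Finset.sum_congr rfl fun i _ => ?_
    rw [← Complex.normSq_eq_norm_sq, Complex.normSq_apply]
  rw [h1, ← smoothF_iff]
  refine ContMDiff.sum fun i _ => ?_
  exact ((smoothF_iff _).2 (En4.sF_add (En4.sF_mul (SmC.re (smα i)) (SmC.re (smα i)))
    (En4.sF_mul (SmC.im (smα i)) (SmC.im (smα i)))))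

theorem cont_nal (smα : ∀ i, ContMDiff 𝓘(ℝ, E4) 𝓘(ℝ, ℂ) ∞ (fun x => Q.α n x i)) :
    Continuous fun x => Q.nal n x := En4.sF_continuous (smooth_nal smα)

/-- Cauchy-Schwarz for a combination of complex covectors. -/
theorem m1_comb {J : E4 →L[ℝ] E4} {F : Bil} (hJ : ∀ v, J (J v) = -v) (hF : SPos J F) {ι : Type*}
    (s : Finset ι) (a : ι → ℂ) (η : ι → E4 →L[ℝ] ℂ) :
    m1 J F (∑ i ∈ s, ((a i).re • (Complex.imCLM.comp (η i)) -
      (a i).im • (Complex.reCLM.comp (η i)))) ≤ (∑ i ∈ s, ‖a i‖ ^ 2) * ∑ i ∈ s, mC J F (η i) := by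
  obtain ⟨A, hA⟩ := exists_frame hJ hF
  have e1 : ∀ c : E4 →L[ℝ] ℝ, m1 J F c = ∑ k : Fin 4, c (A (ee k)) ^ 2 := by
    intro c
    rw [m1_frame hF hA, Fin.sum_univ_four]
    rfl
  have e2 : ∑ i ∈ s, mC J F (η i) =
      ∑ k : Fin 4, ∑ i ∈ s, (((η i) (A (ee k))).re ^ 2 + ((η i) (A (ee k))).im ^ 2) := by
    rw [Finset.sum_comm]
    refine Finset.sum_congr rfl fun i _ => ?_
    unfold mC
    rw [e1, e1, ← Finset.sum_add_distrib]
    rfl
  rw [e1, e2, Finset.mul_sum]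
  refine Finset.sum_le_sum fun k _ => ?_
  set v := A (ee k)
  have e3 : (∑ i ∈ s, ((a i).re • (Complex.imCLM.comp (η i)) -
      (a i).im • (Complex.reCLM.comp (η i)))) v =
      ∑ i ∈ s, ((a i).re * ((η i) v).im - (a i).im * ((η i) v).re) := by
    rw [sum_apply]
    rfl
  rw [e3]
  have e4 : ∀ i, |(a i).re * ((η i) v).im - (a i).im * ((η i) v).re| ≤ ‖a i‖ * ‖(η i) v‖ := by
    intro i
    have h1 : (a i).re * ((η i) v).im - (a i).im * ((η i) v).re =
        ((starRingEnd ℂ) (a i) * (η i) v).im := by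
      simp only [Complex.mul_im, Complex.conj_re, Complex.conj_im]
      ring
    rw [h1]
    refine (Complex.abs_im_le_norm _).trans ?_
    rw [norm_mul, Complex.norm_conj]
  have e5 : ∀ i, ((η i) v).re ^ 2 + ((η i) v).im ^ 2 = ‖(η i) v‖ ^ 2 := by
    intro i
    rw [← Complex.normSq_eq_norm_sq, Complex.normSq_apply]
    ring
  simp only [e5]
  have e6 : |∑ i ∈ s, ((a i).re * ((η i) v).im - (a i).im * ((η i) v).re)| ≤
      ∑ i ∈ s, ‖a i‖ * ‖(η i) v‖ :=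
    (Finset.abs_sum_le_sum_abs _ _).trans (Finset.sum_le_sum fun i _ => e4 i)
  rw [← sq_abs]
  exact (pow_le_pow_left₀ (abs_nonneg _) e6 2).trans
    (Finset.sum_mul_sq_le_sq_mul_sq s (fun i => ‖a i‖) (fun i => ‖(η i) v‖))

/-- `|jj|² ≤ |α|² |eta|²`. -/
theorem n1_jj_le (x : M) : n1 D x (at1 (Q.jj n) x) ≤ Q.nal n x * Q.neta D n x :=
  m1_comb (D.sq x) (En4.spos D x) Finset.univ (Q.α n x) (Q.eta n x)

theorem pf_sum_alt {ι : Type*} (s : Finset ι) (η : ι → E4 →L[ℝ] ℂ) :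
    Alt (∑ i ∈ s, pf (η i)) := by
  classical
  intro v
  induction s using Finset.induction_on with
  | empty => simp
  | insert a s ha ih =>
    rw [Finset.sum_insert ha]
    show pf (η a) v v + (∑ i ∈ s, pf (η i)) v v = 0
    rw [ih, pf_alt, add_zero]

theorem nr_pf_sum {J : E4 →L[ℝ] E4} {F : Bil} (hJ : ∀ v, J (J v) = -v) (hF : SPos J F)
    {ι : Type*} (s : Finset ι) (η : ι → E4 →L[ℝ] ℂ) :
    nr J F (∑ i ∈ s, pf (η i)) ≤ ∑ i ∈ s, mC J F (η i) := by
  classical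
  induction s using Finset.induction_on with
  | empty =>
    rw [Finset.sum_empty, Finset.sum_empty]
    exact (SwcAlg_34.nr_zero J F).le
  | insert a s ha ih =>
    rw [Finset.sum_insert ha, Finset.sum_insert ha]
    exact (SwcAlg_34.nr_add_le hJ hF (pf_alt _) (pf_sum_alt s η)).trans
      (add_le_add (nr_pf hJ hF _) ih)

/-- the Prop of helper215 (`SwcPRD_215`). -/
def NETC : Prop :=
  ∀ (M : Type u) [MetricSpace M] [CompactSpace M] [ChartedSpace E4 M]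
    [IsManifold 𝓘(ℝ, E4) ∞ M] [MeasurableSpace M] [BorelSpace M]
    (D : Crest.Agent.R240.Dat M) (N : ℕ) (Q : TSeq M N) (n : ℕ), IsLine (Q.p n) →
    IsChern (Q.p n) (Q.a0 n) → (∀ i, ContMDiff 𝓘(ℝ, E4) 𝓘(ℝ, ℂ) ∞ (fun x => Q.α n x i)) →
    (∀ x, (Q.p n x).mulVec (Q.α n x) = Q.α n x) → Smooth1 (Q.θ n) →
    Continuous (Q.nal n) ∧ Continuous (Q.neta D n) ∧ (∀ x, 0 ≤ Q.neta D n x) ∧
    Continuous (Q.ndb D n) ∧
    (∀ x, n1 D x (at1 (Q.jj n) x) ≤ Q.nal n x * Q.neta D n x) ∧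
    ∀ x, D.nr (Q.Psi n) x ≤ |1 - Q.nal n x| * D.nr (Q.Phi n) x + Q.neta D n x

theorem netc : NETC.{u} := by
  intro M _ _ _ _ _ _ D N Q n line chern smα secα smθ
  obtain ⟨-, hPhi, -, -, -, hP⟩ := SwcPtw_766.ptw_weak Q n line chern smα secα smθ
  refine ⟨cont_nal smα, cont_neta D line smα smθ, neta_nonneg D, cont_ndb D line smα smθ,
    n1_jj_le D, fun x => ?_⟩
  have e1 : D.nr (Q.Psi n) x = nr (atJ D.J x) (at2 D.F x) (at2 (Q.Psi n) x) := rfl
  have e2 : D.nr (Q.Phi n) x = nr (atJ D.J x) (at2 D.F x) (at2 (Q.Phi n) x) := rfl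
  have e3 : (2 : ℝ) • ∑ i, wed (Complex.reCLM.comp (Q.eta n x i))
      (Complex.imCLM.comp (Q.eta n x i)) = ∑ i, pf (Q.eta n x i) := Finset.smul_sum
  have hal : Alt ((1 - Q.nal n x) • at2 (Q.Phi n) x) := by
    intro v
    show (1 - Q.nal n x) * at2 (Q.Phi n) x v v = 0
    rw [hPhi.1 x v, mul_zero]
  rw [e1, e2, hP x, e3]
  refine (SwcAlg_34.nr_add_le (D.sq x) (En4.spos D x) hal (pf_sum_alt _ _)).trans ?_
  rw [SwcAlg_34.nr_smul]
  exact add_le_add le_rfl (nr_pf_sum (D.sq x) (En4.spos D x) _ _)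

end

end Crest.Agent.R235.SwcNETC_984
end

-- ▼ part R235/SwcKATO4_984

/-!
Row 235 (S0364), PACKAGE SWC, NODE PROD, leaf **KATO4** (helper984): Kato's inequality and the
Sobolev embedding `W^{1,2} ⊂ L⁴` with a constant independent of the connection form `b`.

* `sob_real` : `∫ f⁴ ≤ C (∫ |∇f|² + ∫ f²)²` for smooth `f`
* `kato`     : `|∇ √(|v|² + ε²)|² ≤ |∇^b v|²`
* `kato4`    : `SwcProd_215.KATO4`
-/

set_option autoImplicit false
set_option maxSynthPendingDepth 3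
set_option linter.unusedSectionVars false

open scoped ContDiff ENNReal NNReal Topology Manifold Bundle RealInnerProductSpace
open MeasureTheory Set Filter Metric Bundle

universe v

namespace Crest.Agent.R235.SwcKATO4_984

open Crest.Agent.R247 Crest.Agent.R247.Ms322 Crest.Agent.R247.Dir593 Crest.Agent.R247.Frd657
open Crest.Agent.R249.Tv57 Crest.Agent.R235.SWDefs_53

noncomputable section

section real

variable {X F : Type*} [MeasurableSpace X] {μ : Measure X} [NormedAddCommGroup F]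

theorem toReal_two {g : X → F} (hg : MemLp g 2 μ) :
    (eLpNorm g 2 μ).toReal ^ 2 = ∫ x, ‖g x‖ ^ 2 ∂μ := by
  rw [hg.eLpNorm_eq_integral_rpow_norm (by norm_num) (by norm_num)]
  have h0 : 0 ≤ ∫ x, ‖g x‖ ^ (2 : ℝ≥0∞).toReal ∂μ :=
    integral_nonneg fun x => Real.rpow_nonneg (norm_nonneg _) _
  rw [ENNReal.toReal_ofReal (Real.rpow_nonneg h0 _), ← Real.rpow_natCast, ← Real.rpow_mul h0]
  norm_num

theorem toReal_four {g : X → F} (hg : MemLp g 4 μ) :
    (eLpNorm g 4 μ).toReal ^ 4 = ∫ x, ‖g x‖ ^ 4 ∂μ := by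
  rw [hg.eLpNorm_eq_integral_rpow_norm (by norm_num) (by norm_num)]
  have h0 : 0 ≤ ∫ x, ‖g x‖ ^ (4 : ℝ≥0∞).toReal ∂μ :=
    integral_nonneg fun x => Real.rpow_nonneg (norm_nonneg _) _
  rw [ENNReal.toReal_ofReal (Real.rpow_nonneg h0 _), ← Real.rpow_natCast, ← Real.rpow_mul h0]
  norm_num

theorem memLp_bm [IsFiniteMeasure μ] {F : Type*} [NormedAddCommGroup F] {g : X → F}
    (hg : BM μ g) (p : ℝ≥0∞) : MemLp g p μ := by
  obtain ⟨C, -, hC⟩ := hg.bd
  exact MemLp.of_bound hg.meas C hC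

end real

variable {M : Type v} [MetricSpace M] [CompactSpace M]
  [ChartedSpace (EuclideanSpace ℝ (Fin 4)) M] [IsManifold (𝓡 4) ∞ M]
  [RiemannianBundle (fun p : M => TangentSpace (𝓡 4) p)]
  [IsContMDiffRiemannianBundle (𝓡 4) ∞ (EuclideanSpace ℝ (Fin 4))
    (fun p : M => TangentSpace (𝓡 4) p)]
  [IsRiemannianManifold (𝓡 4) M] [MeasurableSpace M] [BorelSpace M]
  [SecondCountableTopology M] [Nonempty M] [IsFiniteMeasureOnCompacts (μHE[4] : Measure M)]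

/-- **Sobolev, real form.** -/
theorem sob_real : ∃ C : ℝ, 0 < C ∧ ∀ f : M → ℝ, ContMDiff (𝓡 4) 𝓘(ℝ, ℝ) ∞ f →
    ∫ z, f z ^ 4 ∂(μHE[4] : Measure M) ≤
      C * ((∫ z, ‖Gr (n := 4) f z‖ ^ 2 ∂(μHE[4] : Measure M)) +
        ∫ z, f z ^ 2 ∂(μHE[4] : Measure M)) ^ 2 := by
  obtain ⟨C, hC⟩ := Sob4_984.sob_test (M := M)
  refine ⟨4 * (C : ℝ) ^ 4 + 1, by positivity, fun f hf => ?_⟩
  have hL : LocallyLipschitz f := locLip_of_contMDiff (n := 4) (hf.of_le (by simp))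
  have b1 : ∀ p, MemLp f p (μHE[4] : Measure M) := fun p => memLp_bm (bm_smooth (n := 4) hf) p
  have b2 : MemLp (Gr (n := 4) f) 2 (μHE[4] : Measure M) := memLp_bm (smF_Gr hf).bm 2
  have h1 := hC f hL
  set a := (eLpNorm (Gr (n := 4) f) 2 (μHE[4] : Measure M)).toReal with ha
  set b := (eLpNorm f 2 (μHE[4] : Measure M)).toReal with hb
  have h2 : (eLpNorm f 4 (μHE[4] : Measure M)).toReal ≤ C * (a + b) := by
    have h3 := ENNReal.toReal_mono (ENNReal.mul_ne_top ENNReal.coe_ne_top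
      (ENNReal.add_ne_top.2 ⟨b2.2.ne, (b1 2).2.ne⟩)) h1
    rwa [ENNReal.toReal_mul, ENNReal.coe_toReal, ENNReal.toReal_add b2.2.ne (b1 2).2.ne] at h3
  have e4 : ∫ z, f z ^ 4 ∂(μHE[4] : Measure M) = (eLpNorm f 4 (μHE[4] : Measure M)).toReal ^ 4 := by
    rw [toReal_four (b1 4)]
    refine integral_congr_ae (Eventually.of_forall fun z => ?_)
    simp only [Real.norm_eq_abs]
    rw [Even.pow_abs (by decide)]
  have e2 : ∫ z, f z ^ 2 ∂(μHE[4] : Measure M) = b ^ 2 := by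
    rw [hb, toReal_two (b1 2)]
    refine integral_congr_ae (Eventually.of_forall fun z => ?_)
    simp only [Real.norm_eq_abs, sq_abs]
  have e1 : ∫ z, ‖Gr (n := 4) f z‖ ^ 2 ∂(μHE[4] : Measure M) = a ^ 2 := by
    rw [ha, toReal_two b2]
  rw [e4, e2, e1]
  have ha0 : 0 ≤ a := ENNReal.toReal_nonneg
  have hb0 : 0 ≤ b := ENNReal.toReal_nonneg
  have hC0 : (0 : ℝ) ≤ C := C.2
  calc (eLpNorm f 4 (μHE[4] : Measure M)).toReal ^ 4 ≤ (C * (a + b)) ^ 4 :=
        pow_le_pow_left₀ ENNReal.toReal_nonneg h2 4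
    _ = C ^ 4 * ((a + b) ^ 2) ^ 2 := by ring
    _ ≤ C ^ 4 * (2 * (a ^ 2 + b ^ 2)) ^ 2 := by
        refine mul_le_mul_of_nonneg_left ?_ (by positivity)
        refine pow_le_pow_left₀ (by positivity) ?_ 2
        nlinarith [sq_nonneg (a - b)]
    _ = 4 * C ^ 4 * (a ^ 2 + b ^ 2) ^ 2 := by ring
    _ ≤ (4 * (C : ℝ) ^ 4 + 1) * (a ^ 2 + b ^ 2) ^ 2 :=
        mul_le_mul_of_nonneg_right (by linarith) (by positivity)

variable [ConnectedSpace M] {κ0 κ1 κT : Type} [Fintype κ0] [Fintype κ1] [Fintype κT]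
  {S : SWS M κ0 κ1 κT}

theorem smF_nab (hOK : S.OK) {b : κT → M → ℝ} {v : κ0 → M → ℝ} (hb : SmV (n := 4) b)
    (hv : SmV (n := 4) v) (y : κ0) : SmF (S.nab b v y) := by
  refine (smF_cv S.D0 hv y).add (SmF.smul (contMDiff_finsetSum fun y' _ =>
    (hOK.smJ y y').mul (hv y')) (SmF.sum _ fun A _ => SmF.smul (hb A) (hOK.sms A)))

/-- `∑ v_y ∇^b v_y = ∑ v_y ∇ v_y`. -/
theorem sum_nab (hOK : S.OK) (b : κT → M → ℝ) (v : κ0 → M → ℝ) (z : M) :
    ∑ y, v y z • S.nab b v y z = ∑ y, v y z • Gr (n := 4) (v y) z := by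
  have h1 : ∑ y, v y z • ∑ y', v y' z • S.D0.X y y' z = 0 := by
    have h2 : ∑ y, v y z • ∑ y', v y' z • S.D0.X y y' z =
        - ∑ y, v y z • ∑ y', v y' z • S.D0.X y y' z := by
      conv_lhs => simp only [Finset.smul_sum]
      rw [Finset.sum_comm]
      simp only [Finset.smul_sum]
      rw [← Finset.sum_neg_distrib]
      refine Finset.sum_congr rfl fun y _ => ?_
      rw [← Finset.sum_neg_distrib]
      refine Finset.sum_congr rfl fun y' _ => ?_
      rw [S.D0.skew y' y z, smul_neg, smul_neg, smul_smul, smul_smul, mul_comm]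
    rw [eq_neg_iff_add_eq_zero, ← two_smul ℝ] at h2
    exact (smul_eq_zero.1 h2).resolve_left two_ne_zero
  have h3 : ∑ y, v y z * ∑ y', S.J y y' z * v y' z = 0 := by
    have h4 : ∑ y, v y z * ∑ y', S.J y y' z * v y' z =
        - ∑ y, v y z * ∑ y', S.J y y' z * v y' z := by
      conv_lhs => simp only [Finset.mul_sum]
      rw [Finset.sum_comm]
      simp only [Finset.mul_sum]
      rw [← Finset.sum_neg_distrib]
      refine Finset.sum_congr rfl fun y _ => ?_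
      rw [← Finset.sum_neg_distrib]
      refine Finset.sum_congr rfl fun y' _ => ?_
      rw [hOK.skewJ y' y z]
      ring
    exact self_eq_neg.1 h4
  simp only [SWS.nab, Dat.cv, smul_add, Finset.sum_add_distrib, smul_smul]
  rw [h1, ← Finset.sum_smul, h3, zero_smul, add_zero, add_zero]

/-- the regularised norm. -/
def wn (v : κ0 → M → ℝ) (ε : ℝ) (z : M) : ℝ := √(∑ y, v y z ^ 2 + ε ^ 2)

theorem wn_pos (v : κ0 → M → ℝ) {ε : ℝ} (hε : 0 < ε) (z : M) : 0 < wn v ε z :=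
  Real.sqrt_pos.2 (by positivity)

theorem wn_sq (v : κ0 → M → ℝ) (ε : ℝ) (z : M) : wn v ε z * wn v ε z = ∑ y, v y z ^ 2 + ε ^ 2 :=
  Real.mul_self_sqrt (by positivity)

theorem smooth_wn {v : κ0 → M → ℝ} (hv : SmV (n := 4) v) {ε : ℝ} (hε : 0 < ε) :
    ContMDiff (𝓡 4) 𝓘(ℝ, ℝ) ∞ (wn v ε) := by
  have h1 : ContMDiff (𝓡 4) 𝓘(ℝ, ℝ) ∞ fun z => ∑ y, v y z ^ 2 + ε ^ 2 :=
    (contMDiff_finsetSum fun y _ => (hv y).pow 2).add contMDiff_const
  intro z
  have h2 : ContDiffAt ℝ ∞ (fun x : ℝ => √x) (∑ y, v y z ^ 2 + ε ^ 2) :=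
    Real.contDiffAt_sqrt (by positivity)
  exact (h2.contMDiffAt).comp z (h1 z)

/-- **Kato's inequality.** -/
theorem kato (hOK : S.OK) {b : κT → M → ℝ} {v : κ0 → M → ℝ}
    (hv : SmV (n := 4) v) {ε : ℝ} (hε : 0 < ε) (z : M) :
    ‖Gr (n := 4) (wn v ε) z‖ ^ 2 ≤ ∑ y, ‖S.nab b v y z‖ ^ 2 := by
  have h1 : Gr (n := 4) (fun y => wn v ε y * wn v ε y) z =
      (2 : ℝ) • ∑ y, v y z • Gr (n := 4) (v y) z := by
    have e1 : (fun y => wn v ε y * wn v ε y) = fun z => (∑ y, v y z * v y z) + ε ^ 2 := by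
      funext z
      rw [wn_sq]
      simp only [sq]
    have e2 : ∀ y, ContMDiff (𝓡 4) 𝓘(ℝ, ℝ) ∞ fun z => v y z * v y z := fun y =>
      (hv y).mul (hv y)
    rw [e1, Gr_add (R249.Ker57.md (contMDiff_finsetSum fun y _ => e2 y) z)
      (R249.Ker57.md contMDiff_const z), Gr_const, add_zero,
      R249.Ker57.Gr_sum' _ (fun y _ => e2 y), Finset.smul_sum]
    refine Finset.sum_congr rfl fun y _ => ?_
    rw [Gr_mul (R249.Ker57.md (hv y) z) (R249.Ker57.md (hv y) z), two_smul]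
  have hd := R249.Ker57.md (smooth_wn hv hε) z
  rw [Gr_mul hd hd, ← two_smul ℝ] at h1
  have h2 : wn v ε z • Gr (n := 4) (wn v ε) z = ∑ y, v y z • S.nab b v y z := by
    rw [sum_nab hOK]
    exact smul_right_injective _ (two_ne_zero' ℝ) h1
  have h3 : wn v ε z * ‖Gr (n := 4) (wn v ε) z‖ ≤ ∑ y, |v y z| * ‖S.nab b v y z‖ := by
    have h4 := congrArg norm h2
    rw [norm_smul, Real.norm_of_nonneg (wn_pos v hε z).le] at h4
    rw [h4]
    refine (norm_sum_le _ _).trans (le_of_eq (Finset.sum_congr rfl fun y _ => ?_))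
    rw [norm_smul, Real.norm_eq_abs]
  have h5 : (wn v ε z * ‖Gr (n := 4) (wn v ε) z‖) ^ 2 ≤
      (∑ y, v y z ^ 2) * ∑ y, ‖S.nab b v y z‖ ^ 2 := by
    refine (pow_le_pow_left₀ (mul_nonneg (wn_pos v hε z).le (norm_nonneg _)) h3 2).trans ?_
    have := Finset.sum_mul_sq_le_sq_mul_sq Finset.univ (fun y => |v y z|)
      (fun y => ‖S.nab b v y z‖)
    simpa only [sq_abs] using this
  have h6 : (∑ y, v y z ^ 2) * ∑ y, ‖S.nab b v y z‖ ^ 2 ≤
      wn v ε z ^ 2 * ∑ y, ‖S.nab b v y z‖ ^ 2 := by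
    refine mul_le_mul_of_nonneg_right ?_ (by positivity)
    rw [sq (wn v ε z), wn_sq]
    nlinarith [sq_nonneg ε]
  have h7 := h5.trans h6
  rw [mul_pow] at h7
  exact le_of_mul_le_mul_left h7 (pow_pos (wn_pos v hε z) 2)

/-- **KATO4.** -/
theorem kato4 : SwcProd_215.KATO4.{v} := by
  intro M _ _ _ _ _ _ _ _ _ _ _ _ _ κ0 κ1 κT _ _ _ S hOK
  obtain ⟨C, hC0, hC⟩ := sob_real (M := M)
  refine ⟨C, hC0, fun b v hb _ hv _ => ?_⟩
  have hN : ContMDiff (𝓡 4) 𝓘(ℝ, ℝ) ∞ fun z => ∑ y, ‖S.nab b v y z‖ ^ 2 := by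
    have h : ContMDiff (𝓡 4) 𝓘(ℝ, ℝ) ∞ fun z => ∑ y, (⟪S.nab b v y z, S.nab b v y z⟫ : ℝ) :=
      contMDiff_finsetSum fun y _ => (smF_nab hOK hb hv y).inner (smF_nab hOK hb hv y)
    refine h.congr fun z => ?_
    exact Finset.sum_congr rfl fun y _ => (real_inner_self_eq_norm_sq _).symm
  have hV : ContMDiff (𝓡 4) 𝓘(ℝ, ℝ) ∞ fun z => ∑ y, v y z ^ 2 :=
    contMDiff_finsetSum fun y _ => (hv y).pow 2
  have hint : ∀ {f : M → ℝ}, Continuous f → Integrable f (μHE[4] : Measure M) := fun hf =>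
    hf.integrable_of_hasCompactSupport (HasCompactSupport.of_compactSpace _)
  set A := ∫ z, ∑ y, ‖S.nab b v y z‖ ^ 2 ∂(μHE[4] : Measure M) with hA
  set B := ∫ z, ∑ y, v y z ^ 2 ∂(μHE[4] : Measure M) with hB
  set m := (μHE[4] : Measure M).real univ with hm
  have key : ∀ ε : ℝ, 0 < ε → ∫ z, (∑ y, v y z ^ 2) ^ 2 ∂(μHE[4] : Measure M) ≤
      C * (A + (B + ε ^ 2 * m)) ^ 2 := by
    intro ε hε
    have hw := smooth_wn hv hε
    have h1 : ∫ z, (∑ y, v y z ^ 2) ^ 2 ∂(μHE[4] : Measure M) ≤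
        ∫ z, wn v ε z ^ 4 ∂(μHE[4] : Measure M) := by
      refine integral_mono (hint (hV.continuous.pow 2)) (hint (hw.continuous.pow 4)) fun z => ?_
      have e : wn v ε z ^ 4 = (wn v ε z * wn v ε z) ^ 2 := by ring
      simp only [e, wn_sq]
      refine pow_le_pow_left₀ (by positivity) ?_ 2
      nlinarith [sq_nonneg ε]
    refine h1.trans ((hC _ hw).trans ?_)
    refine mul_le_mul_of_nonneg_left ?_ hC0.le
    have g1 : ∫ z, ‖Gr (n := 4) (wn v ε) z‖ ^ 2 ∂(μHE[4] : Measure M) ≤ A := by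
      refine integral_mono (hint ?_) (hint hN.continuous) fun z => kato hOK hv hε z
      have := ((smF_Gr hw).inner (smF_Gr hw)).continuous
      simpa only [real_inner_self_eq_norm_sq] using this
    have g2 : ∫ z, wn v ε z ^ 2 ∂(μHE[4] : Measure M) = B + ε ^ 2 * m := by
      have e : ∀ z, wn v ε z ^ 2 = ∑ y, v y z ^ 2 + ε ^ 2 := fun z => by rw [sq, wn_sq]
      simp only [e]
      rw [integral_add (hint hV.continuous) (hint continuous_const), integral_const, smul_eq_mul,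
        mul_comm]
    rw [g2]
    refine pow_le_pow_left₀ ?_ (by linarith) 2
    refine add_nonneg (integral_nonneg fun z => by positivity) ?_
    rw [← g2]
    exact integral_nonneg fun z => by positivity
  have hlim : Tendsto (fun ε : ℝ => C * (A + (B + ε ^ 2 * m)) ^ 2) (𝓝[>] 0)
      (𝓝 (C * (A + (B + 0 ^ 2 * m)) ^ 2)) := by
    have : Continuous fun ε : ℝ => C * (A + (B + ε ^ 2 * m)) ^ 2 := by fun_prop
    exact (this.tendsto 0).mono_left nhdsWithin_le_nhds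
  have := ge_of_tendsto hlim (eventually_nhdsWithin_of_forall fun ε hε => key ε hε)
  simpa using this

end

end Crest.Agent.R235.SwcKATO4_984
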