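import Crest.Agent.R235.SwcVs_34
import Crest.Agent.R235.DCMan_358
import Crest.Agent.R240.En4G

-- ▼ part R235/SwcVs2_34
section

/-!
Row 235 (S0364), SWC-AN (helper34): from `TSeq.OK` (along `atTop`) and `PTW` to the vorticity
sequences of helper358 (`VSeq`).
-/

set_option autoImplicit false
set_option maxSynthPendingDepth 3
set_option linter.unusedSectionVars false

open Set Function Filter MeasureTheory Metric
open scoped Manifold ContDiff Topology

universe u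

namespace Crest.Agent.R235.SwcVs_34

open Crest.Agent.R240 Crest.Agent.R240.Ch Crest.Agent.R235
open Crest.Agent.R235.SwcGlob_34 Crest.Agent.R235.SwcAlg_34 Crest.Agent.R235.Tau483

noncomputable section

/-- an eventual bound gives a bound. -/
theorem all_of_ev {x : ℕ → ℝ} {C : ℝ} (h : ∀ᶠ n in atTop, x n ≤ C) : ∃ C' : ℝ, ∀ n, x n ≤ C' := by
  have h1 : IsBoundedUnder (· ≤ ·) atTop x := ⟨C, by simpa using h⟩
  obtain ⟨B, hB⟩ := h1.bddAbove_range
  exact ⟨B, fun n => hB ⟨n, rfl⟩⟩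

variable {M : Type u} [MetricSpace M] [CompactSpace M] [ChartedSpace E4 M]
  [IsManifold 𝓘(ℝ, E4) ∞ M] [MeasurableSpace M] [BorelSpace M] {D : Dat M} {N : ℕ} {Q : TSeq M N}

/-- the form `P = Psi - a Phi`. -/
def PP (Q : TSeq M N) (n : ℕ) : F2 E4 M := fun x => (∑ i, pf (Q.eta n x i) : Bil)

theorem at2_PP (n : ℕ) (x : M) : at2 (PP Q n) x = ∑ i, pf (Q.eta n x i) := rfl

theorem nr_sum_le {ι : Type*} (s : Finset ι) {J : E4 →L[ℝ] E4} {F : Bil}
    (hJ : ∀ v, J (J v) = -v) (hF : SPos J F) {b : ι → Bil} (hb : ∀ i, Alt (b i)) :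
    Alt (∑ i ∈ s, b i) ∧ nr J F (∑ i ∈ s, b i) ≤ ∑ i ∈ s, nr J F (b i) := by
  classical
  induction s using Finset.induction_on with
  | empty =>
    simp only [Finset.sum_empty]
    exact ⟨fun v => rfl, (nr_zero J F).le⟩
  | insert i s hi ih =>
    rw [Finset.sum_insert hi, Finset.sum_insert hi]
    refine ⟨fun v => ?_, (nr_add_le hJ hF (hb i) ih.1).trans (by linarith [ih.2])⟩
    rw [add_apply, add_apply, hb i v, ih.1 v, add_zero]

theorem nr_PP (n : ℕ) (x : M) : nrG D.J D.F (PP Q n) x ≤ Q.neta D n x := by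
  have h1 := (nr_sum_le Finset.univ (D.sq x) (En4.spos D x)
    (fun i : Fin N => pf_alt (Q.eta n x i))).2
  refine h1.trans (Finset.sum_le_sum fun i _ => ?_)
  exact nr_pf (D.sq x) (En4.spos D x) _

theorem alt_PP (n : ℕ) (x : M) : Alt (at2 (PP Q n) x) := by
  intro v
  rw [at2_PP]
  simp only [sum_apply]
  exact Finset.sum_eq_zero fun i _ => pf_alt (Q.eta n x i) v

/-- the error density. -/
def er (D : Dat M) (Q : TSeq M N) (n : ℕ) (x : M) : ℝ :=
  Q.ndb D n x + 2 * (√(Q.ndb D n x) * √(Q.neta D n x))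

theorem antip_sum {ι : Type*} (s : Finset ι) (J : E4 →L[ℝ] E4) (b : ι → Bil) :
    antip J (∑ i ∈ s, b i) = ∑ i ∈ s, antip J (b i) := by
  ext u v
  rw [antip_apply]
  simp only [sum_apply, antip_apply]
  rw [← Finset.sum_sub_distrib, Finset.sum_div]

theorem invp_sum {ι : Type*} (s : Finset ι) (J : E4 →L[ℝ] E4) (b : ι → Bil) (u v : E4) :
    invp J (∑ i ∈ s, b i) u v = ∑ i ∈ s, invp J (b i) u v := by
  rw [invp_apply]
  simp only [sum_apply, invp_apply]
  rw [← Finset.sum_add_distrib, Finset.sum_div]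

theorem nr_bpp_PP (n : ℕ) (x : M) : nrG D.J D.F (bpp D.J (PP Q n)) x ≤ er D Q n x := by
  have hJ := D.sq x
  have hF := En4.spos D x
  have h1 : at2 (bpp D.J (PP Q n)) x = ∑ i, antip (atJ D.J x) (pf (Q.eta n x i)) :=
    antip_sum _ _ _
  show nr (atJ D.J x) (at2 D.F x) (at2 (bpp D.J (PP Q n)) x) ≤ _
  rw [h1]
  refine ((nr_sum_le Finset.univ hJ hF
    (fun i : Fin N => (pf_alt (Q.eta n x i)).antip (atJ D.J x))).2).trans ?_
  have h2 : ∀ i, nr (atJ D.J x) (at2 D.F x) (antip (atJ D.J x) (pf (Q.eta n x i))) ≤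
      nC D x ((Q.eta n x i).comp (atJ D.J x) - Complex.I • Q.eta n x i) +
      2 * (√(nC D x ((Q.eta n x i).comp (atJ D.J x) - Complex.I • Q.eta n x i)) *
        √(nC D x (Q.eta n x i))) := fun i => nr_antip_pf hJ hF _
  refine (Finset.sum_le_sum fun i _ => h2 i).trans ?_
  rw [Finset.sum_add_distrib, ← Finset.mul_sum]
  unfold er
  have h3 := Real.sum_sqrt_mul_sqrt_le (Finset.univ : Finset (Fin N))
    (f := fun i => nC D x ((Q.eta n x i).comp (atJ D.J x) - Complex.I • Q.eta n x i))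
    (g := fun i => nC D x (Q.eta n x i)) (fun i => mC_nonneg hJ hF _) (fun i => mC_nonneg hJ hF _)
  have h4 : Q.ndb D n x =
    ∑ i, nC D x ((Q.eta n x i).comp (atJ D.J x) - Complex.I • Q.eta n x i) := rfl
  have h5 : Q.neta D n x = ∑ i, nC D x (Q.eta n x i) := rfl
  rw [h4, h5]
  linarith

theorem er_ge (n : ℕ) (x : M) :
    Q.ndb D n x ≤ er D Q n x := by
  unfold er
  have := Real.sqrt_nonneg (Q.ndb D n x)
  have := Real.sqrt_nonneg (Q.neta D n x)
  have : 0 ≤ √(Q.ndb D n x) * √(Q.neta D n x) := by positivity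
  linarith

theorem pos_PP {U : Filter ℕ} {lam C : ℝ} (h : Q.OK D U lam C) (n : ℕ) (x : M) :
    Pos (atJ D.J x) (invp (atJ D.J x) (at2 (PP Q n) x) + er D Q n x • at2 D.F x) := by
  have hJ := D.sq x
  have hF := En4.spos D x
  have ha : Alt (at2 (PP Q n) x) := alt_PP n x
  refine ⟨fun v => ?_, fun u v => ?_, fun v => ?_⟩
  · rw [add_apply, add_apply, smul_apply, smul_apply, hF.alt v, ha.invp _ v, smul_zero, add_zero]
  · rw [add_apply, add_apply, add_apply, add_apply, smul_apply, smul_apply, smul_apply,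
      smul_apply, hF.inv, invp_inv hJ]
  · rw [add_apply, add_apply, smul_apply, smul_apply, smul_eq_mul]
    have h1 : invp (atJ D.J x) (at2 (PP Q n) x) v (atJ D.J x v) =
        ∑ i, invp (atJ D.J x) (pf (Q.eta n x i)) v (atJ D.J x v) := invp_sum _ _ _ _ _
    rw [h1]
    have h2 : ∀ i : Fin N, -(nC D x ((Q.eta n x i).comp (atJ D.J x) - Complex.I • Q.eta n x i)
        / 2) * at2 D.F x v (atJ D.J x v) ≤
        invp (atJ D.J x) (pf (Q.eta n x i)) v (atJ D.J x v) := fun i => pf_pos hJ hF _ v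
    have h3 := Finset.sum_le_sum fun i (_ : i ∈ (Finset.univ : Finset (Fin N))) => h2 i
    rw [← Finset.sum_mul, Finset.sum_neg_distrib, ← Finset.sum_div] at h3
    have h4 : Q.ndb D n x =
      ∑ i, nC D x ((Q.eta n x i).comp (atJ D.J x) - Complex.I • Q.eta n x i) := rfl
    rw [← h4] at h3
    have h5 := er_ge (D := D) (Q := Q) n x
    have h6 := ndb_nonneg h n x
    have h7 : 0 ≤ at2 D.F x v (atJ D.J x v) := by
      by_cases hv : v = 0
      · rw [hv, map_zero, zero_apply]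
      · exact (hF.pos v hv).le
    nlinarith [mul_nonneg (show (0:ℝ) ≤ er D Q n x - Q.ndb D n x / 2 by linarith) h7]

theorem cont_er {U : Filter ℕ} {lam C : ℝ} (h : Q.OK D U lam C) (n : ℕ) :
    Continuous fun x => er D Q n x :=
  (cont_ndb h n).add (continuous_const.mul ((cont_ndb h n).sqrt.mul (cont_neta h n).sqrt))

theorem integ {f : M → ℝ} (hf : Continuous f) : Integrable f D.μ := En4.integrable_s D.fin hf

theorem er_tendsto {lam C : ℝ} (h : Q.OK D atTop lam C) :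
    Tendsto (fun n => ∫ x, er D Q n x ∂D.μ) atTop (𝓝 0) := by
  have hC : 0 ≤ C := by
    obtain ⟨n, hn⟩ := h.e1.exists
    exact (integral_nonneg fun x => neta_nonneg h n x).trans hn
  rw [tendsto_order]
  refine ⟨fun a ha => Eventually.of_forall fun n => lt_of_lt_of_le ha
    (integral_nonneg fun x => (ndb_nonneg h n x).trans (er_ge (D := D) (Q := Q) n x)), fun a ha => ?_⟩
  set δ : ℝ := a / (2 * (C + 1)) with hδ
  have hδ0 : 0 < δ := by positivity
  have key : ∀ n x, er D Q n x ≤ (1 + δ⁻¹) * Q.ndb D n x + δ * Q.neta D n x := by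
    intro n x
    unfold er
    have h1 := Real.sq_sqrt (ndb_nonneg h n x)
    have h2 := Real.sq_sqrt (neta_nonneg h n x)
    set p := √(Q.ndb D n x)
    set q := √(Q.neta D n x)
    have h3 : 0 ≤ δ⁻¹ * (p - δ * q) ^ 2 := by positivity
    have h4 : δ⁻¹ * (p - δ * q) ^ 2 = δ⁻¹ * p ^ 2 - 2 * (p * q) + δ * q ^ 2 := by
      field_simp
      ring
    rw [h1, h2] at h4
    linarith
  have e3 := h.o3.eventually_lt_const (show (0:ℝ) < a / (2 * (1 + δ⁻¹)) by positivity)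
  filter_upwards [h.e1, e3] with n h1 h2
  have h3 : ∫ x, er D Q n x ∂D.μ ≤
      ∫ x, ((1 + δ⁻¹) * Q.ndb D n x + δ * Q.neta D n x) ∂D.μ :=
    integral_mono (integ (cont_er h n)) (integ ((continuous_const.mul (cont_ndb h n)).add
      (continuous_const.mul (cont_neta h n)))) fun x => key n x
  rw [integral_add ((integ (cont_ndb h n)).const_mul _) ((integ (cont_neta h n)).const_mul _),
    integral_const_mul, integral_const_mul] at h3
  have h4 : (1 + δ⁻¹) * ∫ x, Q.ndb D n x ∂D.μ < a / 2 := by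
    have : (1 + δ⁻¹) * (a / (2 * (1 + δ⁻¹))) = a / 2 := by
      field_simp
    rw [← this]
    exact mul_lt_mul_of_pos_left h2 (by positivity)
  have h5 : δ * ∫ x, Q.neta D n x ∂D.μ ≤ a / 2 := by
    calc δ * ∫ x, Q.neta D n x ∂D.μ ≤ δ * C := mul_le_mul_of_nonneg_left h1 hδ0.le
      _ ≤ δ * (C + 1) := by nlinarith
      _ = a / 2 := by rw [hδ]; field_simp
  linarith

end

end Crest.Agent.R235.SwcVs_34
end

-- ▼ part R235/SwcPosA_34
section

/-!
Row 235 (S0364), SWC-AN (helper34): positivity, anti-invariance and domination for vorticity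
sequences (`VS`), from the div-curl theorem of helper358 (`DIVCURL`).  Only `L¹` bounds of `j`.
-/

set_option autoImplicit false
set_option maxSynthPendingDepth 3
set_option linter.unusedSectionVars false

open Set Function Filter MeasureTheory Metric
open scoped Manifold ContDiff Topology

universe u

namespace Crest.Agent.R235.SwcPos_34

open Crest.Agent.R240 Crest.Agent.R240.Ch Crest.Agent.R235
open Crest.Agent.R240.En4 Crest.Agent.R235.SwcAlg_34

noncomputable section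

section pt

variable {J : E4 →L[ℝ] E4} {F : Bil} (hJ : ∀ v, J (J v) = -v) (hF : SPos J F)
include hJ hF

theorem invp_eq_prim {b : Bil} : invp J b = (q F b F) • F + prim J F b := by
  unfold prim
  ext u v
  simp only [add_apply, sub_apply, smul_apply, smul_eq_mul]
  ring

theorem nsq_prim_eq {b : Bil} (hb : Alt b) :
    nsq J F (prim J F b) = q F b F ^ 2 - q F b b + nsq J F (antip J b) := by
  have h1 := q_tF_prim hJ hF hb (q F b F)
  rw [← invp_eq_prim hJ hF] at h1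
  have h2 := q_split hJ hF hb hb
  have h3 := nsq_anti hJ hF (hb.antip J) (antip_anti hJ b)
  linarith

theorem nsq_ident {b : Bil} (hb : Alt b) :
    nsq J F b = 2 * q F b F ^ 2 - q F b b + 2 * nsq J F (antip J b) := by
  have h1 := nsq_split hJ hF hb
  have h2 := nsq_inv hJ hF (invp_inv hJ b)
  have h3 := q_split hJ hF hb hb
  have h4 := nsq_anti hJ hF (hb.antip J) (antip_anti hJ b)
  rw [q_F_invp hJ hF hb] at h2
  linarith

theorem q_pos_pos {P R : Bil} (hP : Pos J P) (hR : Pos J R) : 0 ≤ q F P R := by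
  obtain ⟨p1, p2⟩ := (pos_iff hJ hF hP.alt hP.inv).1 hP.nonneg
  obtain ⟨r1, r2⟩ := (pos_iff hJ hF hR.alt hR.inv).1 hR.nonneg
  have hp := nsq_prim_eq hJ hF hP.alt
  have hr := nsq_prim_eq hJ hF hR.alt
  have a1 : antip J P = 0 := antip_of_inv hP.inv
  have a2 : antip J R = 0 := antip_of_inv hR.inv
  have n0 : nsq J F 0 = 0 := by
    have := nsq_anti hJ hF (b := 0) (fun v => rfl) (fun u v => by simp)
    rw [this, q_zero_left]
  rw [a1, n0, add_zero] at hp
  rw [a2, n0, add_zero] at hr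
  have e1 : P = (q F P F) • F + prim J F P := by
    rw [← invp_eq_prim hJ hF, invp_of_inv hP.inv]
  have e2 : R = (q F R F) • F + prim J F R := by
    rw [← invp_eq_prim hJ hF, invp_of_inv hR.inv]
  have e3 : q F P R = q F P F * q F R F + q F (prim J F P) (prim J F R) := by
    conv_lhs => rw [e1, e2]
    rw [q_add_left, q_add_right, q_add_right, q_smul_left, q_smul_left, q_smul_right, q_smul_right,
      q_F_F hJ hF, q_comm F F (prim J F R), q_prim_F hJ hF hP.alt, q_prim_F hJ hF hR.alt]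
    ring
  have e4 := q_cs hJ hF (prim_alt hJ hF hP.alt) (prim_alt hJ hF hR.alt)
  have e5 : q F (prim J F P) (prim J F R) ^ 2 ≤ (q F P F * q F R F) ^ 2 := by
    refine e4.trans ?_
    rw [mul_pow]
    have h1 : nsq J F (prim J F P) ≤ q F P F ^ 2 := by linarith
    have h2 : nsq J F (prim J F R) ≤ q F R F ^ 2 := by linarith
    exact mul_le_mul h1 h2 (nsq_nonneg hJ hF (prim_alt hJ hF hR.alt)) (sq_nonneg _)
  have e6 := abs_le_of_sq_le_sq e5 (mul_nonneg p1 r1)
  rw [e3]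
  linarith [(abs_le.1 e6).1]

/-- lower bound of `q(b, c)` for `c ≥ 0`. -/
theorem q_lower {b c : Bil} (hb : Alt b) (hc : Pos J c) {s : ℝ} (hs : 0 ≤ s)
    (h : nsq J F (prim J F b) ≤ s ^ 2) : q F c F * (q F b F) - q F c F * s ≤ q F b c := by
  have h1 : Pos J (s • F + prim J F b) :=
    ⟨(hF.alt.smul s).add (prim_alt hJ hF hb), fun u v => tF_prim_inv hJ hF b s u v,
      tF_prim_pos hJ hF hb hs h⟩
  have h2 := q_pos_pos hJ hF h1 hc
  rw [q_add_left, q_smul_left] at h2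
  have h3 : q F b c = q F (invp J b) c := by
    rw [q_split hJ hF hb hc.alt, antip_of_inv hc.inv, invp_of_inv hc.inv, q_zero_right, add_zero]
  rw [h3, invp_eq_prim hJ hF, q_add_left, q_smul_left]
  rw [q_comm F F c] at *
  linarith

theorem q_near {b c : Bil} (hb : Alt b) (hc : Pos J c) {s : ℝ} (hs : 0 ≤ s)
    (h : nsq J F (prim J F b) ≤ s ^ 2) : |q F b c - q F c F * q F b F| ≤ q F c F * s := by
  have h1 := q_lower hJ hF hb hc hs h
  have hb' : Alt (-b) := hb.neg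
  have hn : nsq J F (prim J F (-b)) ≤ s ^ 2 := by
    rw [nsq_prim_eq hJ hF hb']
    rw [nsq_prim_eq hJ hF hb] at h
    have e1 : -b = (-1 : ℝ) • b := (neg_one_smul ℝ b).symm
    have e2 : antip J (-b) = (-1 : ℝ) • antip J b := by rw [e1, En4.antip_smul]
    have e3 : nsq J F (antip J (-b)) = nsq J F (antip J b) := by
      rw [nsq_anti hJ hF (hb'.antip J) (antip_anti hJ _),
        nsq_anti hJ hF (hb.antip J) (antip_anti hJ _), e2, q_smul_left, q_smul_right]
      ring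
    rw [e3, e1, q_smul_left, q_smul_left, q_smul_right]
    linarith
  have h2 := q_lower hJ hF hb' hc hs hn
  have e1 : -b = (-1 : ℝ) • b := (neg_one_smul ℝ b).symm
  rw [e1, q_smul_left, q_smul_left] at h2
  rw [abs_le]
  constructor <;> linarith

theorem nr_pos {P : Bil} (hP : Pos J P) : nr J F P ≤ 2 * q F P F := by
  obtain ⟨p1, p2⟩ := (pos_iff hJ hF hP.alt hP.inv).1 hP.nonneg
  have h3 := nsq_inv hJ hF hP.inv
  refine Real.sqrt_le_iff.2 ⟨by linarith, ?_⟩
  rw [h3]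
  nlinarith

theorem nr_F : nr J F F = 1 := by
  unfold nr
  rw [nsq_F hJ hF, Real.sqrt_one]

theorem nr_le_of_pos {P : Bil} (hP : Alt P) {e : ℝ} (h : Pos J (invp J P + e • F))
    (h2 : nr J F (antip J P) ≤ e) : nr J F P ≤ 2 * q F P F + 4 * e := by
  have he : 0 ≤ e := (Real.sqrt_nonneg _).trans h2
  have e1 : P = (invp J P + e • F) + ((-e) • F + antip J P) := by
    have h0 : invp J P + antip J P = P := invp_add_antip J P
    conv_lhs => rw [← h0]
    ext u v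
    simp only [add_apply, smul_apply, smul_eq_mul]
    ring
  have a1 : Alt ((-e) • F + antip J P) := (hF.alt.smul _).add (hP.antip J)
  have h3 := nr_add_le hJ hF h.alt a1
  rw [← e1] at h3
  have h4 := nr_add_le hJ hF (hF.alt.smul (-e)) (hP.antip J)
  rw [nr_smul, nr_F hJ hF, abs_neg, abs_of_nonneg he] at h4
  have h5 := nr_pos hJ hF h
  rw [q_add_left, q_smul_left, q_F_F hJ hF, q_F_invp hJ hF hP] at h5
  linarith

end pt

section mfd

variable {M : Type u} [MetricSpace M] [CompactSpace M] [ChartedSpace E4 M]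
  [IsManifold 𝓘(ℝ, E4) ∞ M] [MeasurableSpace M] [BorelSpace M]

/-- a vorticity sequence with Taubes' energy bounds. -/
structure VS (D : Dat M) (lam : ℝ) (r : ℕ → ℝ) (Φ : ℕ → X2 M) (a : ℕ → M → ℝ)
    (j : ℕ → F1 E4 M) (P T : ℕ → X2 M) : Prop where
  lam_pos : 0 < lam
  r_pos : ∀ n, 0 < r n
  r_lim : Tendsto r atTop atTop
  clΦ : ∀ n, Closed2 (Φ n : F2 E4 M)
  sma : ∀ n, SmoothF E4 (a n)
  smj : ∀ n, Smooth1 (j n)
  /-- `T = Φ + dj` -/
  Tdj : ∀ n, (T n : F2 E4 M) = (Φ n : F2 E4 M) + dG (j n)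
  /-- `T = aΦ + P` -/
  Tap : ∀ n x, at2 (T n : F2 E4 M) x =
    (a n x • at2 (Φ n : F2 E4 M) x + at2 (P n : F2 E4 M) x : Bil)
  l2 : ∃ C, ∀ n, ∫ x, nsqG D.J D.F (Φ n : F2 E4 M) x ∂D.μ ≤ C * r n
  e1 : Tendsto (fun n => (r n)⁻¹ *
    ∫ x, (qG D.F (Φ n : F2 E4 M) D.F x - lam * r n * a n x) ^ 2 ∂D.μ) atTop (𝓝 0)
  e2 : Tendsto (fun n => (r n)⁻¹ * ∫ x, nsqG D.J D.F (bpp D.J (Φ n : F2 E4 M)) x ∂D.μ)
    atTop (𝓝 0)
  e3 : ∃ C, ∀ n, r n * ∫ x, (a n x) ^ 2 ∂D.μ ≤ C
  e4 : ∃ C, ∀ n, ∃ m : M → ℝ, (∀ x, 0 ≤ m x) ∧ Integrable m D.μ ∧ ∫ x, m x ∂D.μ ≤ C ∧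
    ∀ x, √(m1 (atJ D.J x) (at2 D.F x) (at1 (j n) x)) ≤ m x
  e5 : ∃ C, ∀ n, ∫ x, D.nr (P n : F2 E4 M) x ∂D.μ ≤ C
  e6 : ∃ e : ℕ → M → ℝ, (∀ n, Continuous (e n)) ∧
    Tendsto (fun n => ∫ x, e n x ∂D.μ) atTop (𝓝 0) ∧
    (∀ n x, Pos (atJ D.J x) (invp (atJ D.J x) (at2 (P n : F2 E4 M) x) + e n x • at2 D.F x)) ∧
    (∀ n x, D.nr (bpp D.J (P n : F2 E4 M)) x ≤ e n x)

namespace VS

variable {D : Dat M} {lam : ℝ} {r : ℕ → ℝ} {Φ : ℕ → X2 M} {a : ℕ → M → ℝ} {j : ℕ → F1 E4 M}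
  {P T : ℕ → X2 M}

theorem mu_eq (D : Dat M) : Int.mu D.F = D.μ := (Int.isVol_eq_mu (Int.dat_volF D) (Int.dat_isVol D)).symm

theorem pair (D : Dat M) : PosDefs_358.Pair D.J D.F :=
  ⟨D.smJ, D.sq, En4.smF D, Int.dat_sposF D⟩

theorem exists_bd {f : M → ℝ} (hf : Continuous f) : ∃ B : ℝ, 0 ≤ B ∧ ∀ x, |f x| ≤ B := by
  obtain ⟨B, hB⟩ := (isCompact_univ (X := M)).exists_bound_of_continuousOn hf.continuousOn
  exact ⟨|B|, abs_nonneg B, fun x => (hB x (mem_univ x)).trans (le_abs_self B)⟩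

variable (h : VS D lam r Φ a j P T)
include h

theorem cont_a (n : ℕ) : Continuous (a n) := En4.sF_continuous (h.sma n)

theorem cont_nsqΦ (n : ℕ) : Continuous (nsqG D.J D.F (Φ n : F2 E4 M)) :=
  En4.sF_continuous (En4.sF_nsqG D (Φ n).2)

theorem mass : ∃ C, ∀ n, ∫ x, D.nr (T n : F2 E4 M) x ∂D.μ ≤ C := by
  obtain ⟨C2, h2⟩ := h.l2
  obtain ⟨C3, h3⟩ := h.e3
  obtain ⟨C5, h5⟩ := h.e5
  refine ⟨(C3 + C2) / 2 + C5, fun n => ?_⟩
  have hr := h.r_pos n
  have key : ∀ x, D.nr (T n : F2 E4 M) x ≤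
      ((r n * (a n x) ^ 2 + (r n)⁻¹ * nsqG D.J D.F (Φ n : F2 E4 M) x) / 2 +
        D.nr (P n : F2 E4 M) x) := by
    intro x
    have h1 : D.nr (T n : F2 E4 M) x ≤ |a n x| * D.nr (Φ n : F2 E4 M) x +
        D.nr (P n : F2 E4 M) x := by
      have h0 := nr_add_le (D.sq x) (En4.spos D x) (Alt.smul ((Φ n).2.1 x) (a n x))
        ((P n).2.1 x)
      rw [nr_smul] at h0
      show nr (atJ D.J x) (at2 D.F x) (at2 (T n : F2 E4 M) x) ≤ _
      rw [h.Tap n x]
      exact h0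
    have h2 := En4.nr_sq D (Φ n).2.1 x
    rw [← h2]
    have h3 := sq_abs (a n x)
    rw [← h3]
    generalize D.nr (Φ n : F2 E4 M) x = s at *
    generalize |a n x| = t at *
    have h4 : 0 ≤ (r n)⁻¹ * (r n * t - s) ^ 2 := by positivity
    have h5 : (r n)⁻¹ * (r n * t - s) ^ 2 = r n * t ^ 2 - 2 * (t * s) + (r n)⁻¹ * s ^ 2 := by
      field_simp
      ring
    linarith
  have hc1 := h.cont_a n
  have hc2 := h.cont_nsqΦ n
  have hc3 := En4.cont_nr D (P n).2
  have i1 : Integrable (fun x => (r n * (a n x) ^ 2 + (r n)⁻¹ * nsqG D.J D.F (Φ n : F2 E4 M) x) / 2)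
      D.μ := En4.integrable_cont D (by fun_prop)
  have h6 := integral_mono (En4.integrable_cont D (En4.cont_nr D (T n).2))
    (i1.add (En4.integrable_cont D hc3)) key
  simp only [Pi.add_apply] at h6
  rw [integral_add i1 (En4.integrable_cont D hc3), integral_div,
    integral_add (En4.integrable_cont D (by fun_prop)) (En4.integrable_cont D (by fun_prop)),
    integral_const_mul, integral_const_mul] at h6
  have h7 := h2 n
  have h8 : (r n)⁻¹ * ∫ x, nsqG D.J D.F (Φ n : F2 E4 M) x ∂D.μ ≤ C2 := by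
    calc (r n)⁻¹ * ∫ x, nsqG D.J D.F (Φ n : F2 E4 M) x ∂D.μ ≤ (r n)⁻¹ * (C2 * r n) := by gcongr
      _ = C2 := by field_simp
  have h9 := h3 n
  have h10 := h5 n
  linarith

/-- weak bounds of `Φ` on the forms `g du ∧ dv`. -/
theorem weak {g u v : M → ℝ} (hg : SmoothF E4 g) (hu : SmoothF E4 u) (hv : SmoothF E4 v) :
    ∃ C, ∀ n, |D.I (Φ n : F2 E4 M) (fmul g (wedG (Ch.dF u) (Ch.dF v)))| ≤ C := by
  obtain ⟨C1, h1⟩ := h.mass
  obtain ⟨C4, h4⟩ := h.e4
  have hW : Smooth2 (wedG (Ch.dF (E := E4) u) (Ch.dF v)) := Smooth2.wed (Smooth1.dF hu) (Smooth1.dF hv)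
  set W : X2 M := ⟨wedG (Ch.dF u) (Ch.dF v), hW⟩ with hWd
  have hWcl : Closed2 (wedG (Ch.dF (E := E4) u) (Ch.dF v)) := by
    have e1 := dG_fmul1 hu (Smooth1.dF hv)
    rw [dG_dF hv] at e1
    have e2 : fmul u (0 : F2 E4 M) = 0 := by
      funext x
      show u x • (0 : Bil) = 0
      exact smul_zero _
    rw [e2, add_zero] at e1
    rw [← e1]
    exact Closed2.dG (Smooth1.fmul hu (Smooth1.dF hv))
  obtain ⟨B1, hB1, hb1⟩ := exists_bd (En4.cont_nr D (En4.fX g hg W).2)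
  obtain ⟨B2, hB2, hb2⟩ := exists_bd (En4.cont_nr D W.2)
  have hcg : Continuous fun x => √(m1 (atJ D.J x) (at2 D.F x) (at1 (Ch.dF (E := E4) g) x)) :=
    (SwcVs_34.cont_n1 D (Smooth1.dF hg)).sqrt
  obtain ⟨B3, hB3, hb3⟩ := exists_bd hcg
  refine ⟨B1 * C1 + B2 * B3 * C4, fun n => ?_⟩
  obtain ⟨m, hm0, hmi, hmC, hm⟩ := h4 n
  have hsj := h.smj n
  set dj : X2 M := ⟨dG (j n), Smooth2.dG hsj⟩ with hdj
  have e1 : (Φ n : X2 M) = T n - dj := by
    apply Subtype.ext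
    show (Φ n : F2 E4 M) = (T n : F2 E4 M) - dG (j n)
    rw [h.Tdj n, add_sub_cancel_right]
  have e2 : D.I (Φ n : F2 E4 M) (En4.fX g hg W : F2 E4 M) =
      D.I (T n : F2 E4 M) (En4.fX g hg W : F2 E4 M) - D.I (dj : F2 E4 M) (En4.fX g hg W : F2 E4 M) := by
    conv_lhs => rw [e1]
    exact En4.I_sub_left D _ _ _
  -- the first term
  have t1 : |D.I (T n : F2 E4 M) (En4.fX g hg W : F2 E4 M)| ≤ B1 * C1 := by
    calc |D.I (T n : F2 E4 M) (En4.fX g hg W : F2 E4 M)|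
        ≤ ∫ x, |qG D.F (T n : F2 E4 M) (En4.fX g hg W : F2 E4 M) x| ∂D.μ :=
          abs_integral_le_integral_abs
      _ ≤ ∫ x, B1 * D.nr (T n : F2 E4 M) x ∂D.μ := by
          refine integral_mono (En4.integrable_qG D (T n).2 (En4.fX g hg W).2).abs
            ((En4.integrable_cont D (En4.cont_nr D (T n).2)).const_mul _) fun x => ?_
          refine (En4.abs_qG_le D _ _ x).trans ?_
          rw [mul_comm]
          refine mul_le_mul_of_nonneg_right ?_ (En4.nr_nonneg D _ _)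
          exact (le_abs_self _).trans (hb1 x)
      _ ≤ B1 * C1 := by
          rw [integral_const_mul]
          exact mul_le_mul_of_nonneg_left (h1 n) hB1
  -- the second term
  set gj : X2 M := ⟨wedG (Ch.dF g) (j n), Smooth2.wed (Smooth1.dF hg) hsj⟩ with hgj
  set dgj : X2 M := ⟨dG (fmul1 g (j n)), Smooth2.dG (Smooth1.fmul hg hsj)⟩ with hdgj
  have e3 : dgj = gj + En4.fX g hg dj := by
    apply Subtype.ext
    exact dG_fmul1 hg hsj
  have e4 : D.I (dgj : F2 E4 M) (W : F2 E4 M) = 0 :=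
    Int.dat_stokes D (isEx_dG (Smooth1.fmul hg hsj)) W.2 hWcl
  have e5 : D.I (En4.fX g hg dj : F2 E4 M) (W : F2 E4 M) = D.I (dj : F2 E4 M) (En4.fX g hg W : F2 E4 M) := by
    rw [En4.I_comm, En4.I_fX, En4.I_fX]
    congr 1
    funext x
    congr 1
    exact q_comm _ _ _
  rw [e3, En4.I_add_left, e5] at e4
  have t2 : |D.I (gj : F2 E4 M) (W : F2 E4 M)| ≤ B2 * B3 * C4 := by
    calc |D.I (gj : F2 E4 M) (W : F2 E4 M)|
        ≤ ∫ x, |qG D.F (gj : F2 E4 M) (W : F2 E4 M) x| ∂D.μ := abs_integral_le_integral_abs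
      _ ≤ ∫ x, B2 * B3 * m x ∂D.μ := by
          refine integral_mono (En4.integrable_qG D gj.2 W.2).abs (hmi.const_mul _) fun x => ?_
          refine (En4.abs_qG_le D _ _ x).trans ?_
          have k1 : D.nr (gj : F2 E4 M) x ≤ B3 * m x := by
            refine (nr_wed (D.sq x) (En4.spos D x) _ _).trans ?_
            exact mul_le_mul ((le_abs_self _).trans (hb3 x)) (hm x) (Real.sqrt_nonneg _) hB3
          have k2 : D.nr (W : F2 E4 M) x ≤ B2 := (le_abs_self _).trans (hb2 x)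
          calc D.nr (gj : F2 E4 M) x * D.nr (W : F2 E4 M) x ≤ (B3 * m x) * B2 :=
                mul_le_mul k1 k2 (En4.nr_nonneg D _ _) (mul_nonneg hB3 (hm0 x))
            _ = B2 * B3 * m x := by ring
      _ ≤ B2 * B3 * C4 := by
          rw [integral_const_mul]
          exact mul_le_mul_of_nonneg_left hmC (mul_nonneg hB2 hB3)
  have e6 : D.I (Φ n : F2 E4 M) (fmul g (wedG (Ch.dF u) (Ch.dF v))) =
      D.I (T n : F2 E4 M) (En4.fX g hg W : F2 E4 M) + D.I (gj : F2 E4 M) (W : F2 E4 M) := by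
    have : D.I (Φ n : F2 E4 M) (fmul g (wedG (Ch.dF u) (Ch.dF v))) =
      D.I (Φ n : F2 E4 M) (En4.fX g hg W : F2 E4 M) := rfl
    rw [this, e2]
    linarith
  rw [e6]
  exact (abs_add_le _ _).trans (by linarith)

/-- **div-curl** for `Φ / √r`. -/
theorem dcr {τ : M → ℝ} (hτ : SmoothF E4 τ) :
    Tendsto (fun n => (r n)⁻¹ * ∫ x, τ x * qG D.F (Φ n : F2 E4 M) (Φ n : F2 E4 M) x ∂D.μ)
      atTop (𝓝 0) := by
  obtain ⟨C2, h2⟩ := h.l2
  have hs : ∀ n, 0 < √(r n) := fun n => Real.sqrt_pos.2 (h.r_pos n)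
  have hsq : ∀ n, (√(r n))⁻¹ * (√(r n))⁻¹ = (r n)⁻¹ := fun n => by
    rw [← mul_inv, Real.mul_self_sqrt (h.r_pos n).le]
  have key := DCMan_358.divcurl (pair D) (fun n => (√(r n))⁻¹ • (Φ n : F2 E4 M))
    (fun n => Smooth2.smul _ (Φ n).2) (fun n => Closed2.smul _ (Φ n).2 (h.clΦ n)) ⟨C2, fun n => ?_⟩
    (fun g u v hg hu hv => ?_) τ hτ
  · refine key.congr fun n => ?_
    have e1 : Int.I D.F ((√(r n))⁻¹ • (Φ n : F2 E4 M)) (fmul τ ((√(r n))⁻¹ • (Φ n : F2 E4 M))) =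
        ∫ x, (r n)⁻¹ * (τ x * qG D.F (Φ n : F2 E4 M) (Φ n : F2 E4 M) x) ∂D.μ := by
      unfold Int.I
      rw [mu_eq D]
      congr 1
      funext x
      have : qG D.F ((√(r n))⁻¹ • (Φ n : F2 E4 M)) (fmul τ ((√(r n))⁻¹ • (Φ n : F2 E4 M))) x =
          q (at2 D.F x) ((√(r n))⁻¹ • at2 (Φ n : F2 E4 M) x)
            (τ x • ((√(r n))⁻¹ • at2 (Φ n : F2 E4 M) x)) := rfl
      rw [this, q_smul_left, q_smul_right, q_smul_right, ← hsq n]
      show _ = _ * (τ x * q (at2 D.F x) (at2 (Φ n : F2 E4 M) x) (at2 (Φ n : F2 E4 M) x))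
      ring
    rw [e1, integral_const_mul]
  · rw [mu_eq D]
    have e1 : ∀ x, nsqG D.J D.F ((√(r n))⁻¹ • (Φ n : F2 E4 M)) x =
        (r n)⁻¹ * nsqG D.J D.F (Φ n : F2 E4 M) x := by
      intro x
      have := nr_smul (atJ D.J x) (at2 D.F x) (√(r n))⁻¹ (at2 (Φ n : F2 E4 M) x)
      have h1 : nsqG D.J D.F ((√(r n))⁻¹ • (Φ n : F2 E4 M)) x =
          (nr (atJ D.J x) (at2 D.F x) ((√(r n))⁻¹ • at2 (Φ n : F2 E4 M) x)) ^ 2 :=
        (En4.nr_sq D (Smooth2.smul _ (Φ n).2).1 x).symm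
      have h3 : nsqG D.J D.F (Φ n : F2 E4 M) x = (D.nr (Φ n : F2 E4 M) x) ^ 2 :=
        (En4.nr_sq D (Φ n).2.1 x).symm
      rw [h1, this, h3, mul_pow, sq_abs, sq, hsq n]
      rfl
    simp only [e1]
    rw [integral_const_mul]
    calc (r n)⁻¹ * ∫ x, nsqG D.J D.F (Φ n : F2 E4 M) x ∂D.μ ≤ (r n)⁻¹ * (C2 * r n) :=
          mul_le_mul_of_nonneg_left (h2 n) (inv_pos.2 (h.r_pos n)).le
      _ = C2 := by
          have := (h.r_pos n).ne'
          field_simp
  · obtain ⟨C, hC⟩ := h.weak hg hu hv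
    have e1 : ∀ n, Int.I D.F ((√(r n))⁻¹ • (Φ n : F2 E4 M)) (fmul g (wedG (Ch.dF u) (Ch.dF v))) =
        (√(r n))⁻¹ * D.I (Φ n : F2 E4 M) (fmul g (wedG (Ch.dF u) (Ch.dF v))) := by
      intro n
      rw [Int.I_smul_left, ← Int.IG_eq_I (Int.dat_volF D) (Int.dat_isVol D)]
      rfl
    simp only [e1]
    have h3 : Tendsto (fun n => (√(r n))⁻¹) atTop (𝓝 0) :=
      tendsto_inv_atTop_zero.comp (Real.tendsto_sqrt_atTop.comp h.r_lim)
    refine squeeze_zero_norm (a := fun n => (√(r n))⁻¹ * C) (fun n => ?_) (by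
      simpa using h3.mul_const C)
    rw [Real.norm_eq_abs, abs_mul, abs_of_pos (inv_pos.2 (hs n))]
    exact mul_le_mul_of_nonneg_left (hC n) (inv_pos.2 (hs n)).le

end VS

end mfd

end

end Crest.Agent.R235.SwcPos_34
end

-- ▼ part R235/SwcPosB_34

/-!
Row 235 (S0364), SWC-AN (helper34): domination, positivity and anti-invariance of the limits of
vorticity sequences.
-/

set_option autoImplicit false
set_option maxSynthPendingDepth 3
set_option linter.unusedSectionVars false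

open Set Function Filter MeasureTheory Metric
open scoped Manifold ContDiff Topology

universe u

namespace Crest.Agent.R235.SwcPos_34

open Crest.Agent.R240 Crest.Agent.R240.Ch Crest.Agent.R235
open Crest.Agent.R240.En4 Crest.Agent.R235.SwcAlg_34

noncomputable section

variable {M : Type u} [MetricSpace M] [CompactSpace M] [ChartedSpace E4 M]
  [IsManifold 𝓘(ℝ, E4) ∞ M] [MeasurableSpace M] [BorelSpace M]

namespace VS

variable {D : Dat M} {lam : ℝ} {r : ℕ → ℝ} {Φ : ℕ → X2 M} {a : ℕ → M → ℝ} {j : ℕ → F1 E4 M}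
  {P T : ℕ → X2 M}

theorem int5 (D : Dat M) {g f1 f2 f3 f4 f5 : M → ℝ} (hg : Continuous g) (h1 : Continuous f1)
    (h2 : Continuous f2) (h3 : Continuous f3) (h4 : Continuous f4) (h5 : Continuous f5)
    (h : ∀ x, g x ≤ f1 x + f2 x + f3 x + f4 x + f5 x) :
    ∫ x, g x ∂D.μ ≤ ∫ x, f1 x ∂D.μ + ∫ x, f2 x ∂D.μ + ∫ x, f3 x ∂D.μ + ∫ x, f4 x ∂D.μ +
      ∫ x, f5 x ∂D.μ := by
  have i1 := En4.integrable_cont D h1
  have i2 := En4.integrable_cont D h2
  have i3 := En4.integrable_cont D h3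
  have i4 := En4.integrable_cont D h4
  have i5 := En4.integrable_cont D h5
  have i12 : Integrable (fun x => f1 x + f2 x) D.μ := i1.add i2
  have i123 : Integrable (fun x => f1 x + f2 x + f3 x) D.μ := i12.add i3
  have i1234 : Integrable (fun x => f1 x + f2 x + f3 x + f4 x) D.μ := i123.add i4
  rw [← integral_add i1 i2, ← integral_add i12 i3, ← integral_add i123 i4,
    ← integral_add i1234 i5]
  exact integral_mono (En4.integrable_cont D hg) (i1234.add i5) h

/-- the error `f - lam r a`. -/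
def dl (D : Dat M) (lam : ℝ) (r : ℕ → ℝ) (Φ : ℕ → X2 M) (a : ℕ → M → ℝ) (n : ℕ) (x : M) : ℝ :=
  qG D.F (Φ n : F2 E4 M) D.F x - lam * r n * a n x

variable (h : VS D lam r Φ a j P T)
include h

theorem cont_dl (n : ℕ) : Continuous (dl D lam r Φ a n) := by
  have h1 := En4.sF_continuous (En4.sF_qG D (Φ n).2 (En4.smF D))
  have h2 := h.cont_a n
  unfold dl
  fun_prop

theorem cont_qq (n : ℕ) : Continuous (qG D.F (Φ n : F2 E4 M) (Φ n : F2 E4 M)) :=
  En4.sF_continuous (En4.sF_qG D (Φ n).2 (Φ n).2)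

theorem cont_an (n : ℕ) : Continuous (nsqG D.J D.F (bpp D.J (Φ n : F2 E4 M))) :=
  En4.sF_continuous (En4.sF_nsqG D (Smooth2.bpp D.smJ (Φ n).2))

theorem an_nonneg (n : ℕ) (x : M) : 0 ≤ nsqG D.J D.F (bpp D.J (Φ n : F2 E4 M)) x :=
  En4.nsqG_nonneg D (Smooth2.bpp D.smJ (Φ n).2).1 x

/-- the error terms tend to `0` (with a continuous weight). -/
theorem err_dl {v : M → ℝ} (hv : Continuous v) :
    Tendsto (fun n => ∫ x, v x * ((r n)⁻¹ * dl D lam r Φ a n x ^ 2) ∂D.μ) atTop (𝓝 0) := by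
  obtain ⟨B, hB, hb⟩ := exists_bd hv
  have h1 := h.e1
  refine squeeze_zero_norm (a := fun n => B * ((r n)⁻¹ *
    ∫ x, (qG D.F (Φ n : F2 E4 M) D.F x - lam * r n * a n x) ^ 2 ∂D.μ)) (fun n => ?_)
    (by simpa using h1.const_mul B)
  have hr := h.r_pos n
  have hd := h.cont_dl n
  rw [Real.norm_eq_abs, ← integral_const_mul, ← integral_const_mul]
  refine (abs_integral_le_integral_abs).trans ?_
  refine integral_mono (En4.integrable_cont D (by fun_prop)).abs
    (En4.integrable_cont D (by unfold dl at hd; fun_prop)) fun x => ?_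
  show |v x * ((r n)⁻¹ * dl D lam r Φ a n x ^ 2)| ≤ B * ((r n)⁻¹ * dl D lam r Φ a n x ^ 2)
  rw [abs_mul, abs_of_nonneg (by positivity : 0 ≤ (r n)⁻¹ * dl D lam r Φ a n x ^ 2)]
  exact mul_le_mul_of_nonneg_right (hb x) (by positivity)

theorem err_an {v : M → ℝ} (hv : Continuous v) :
    Tendsto (fun n => ∫ x, v x * ((r n)⁻¹ * nsqG D.J D.F (bpp D.J (Φ n : F2 E4 M)) x) ∂D.μ)
      atTop (𝓝 0) := by
  obtain ⟨B, hB, hb⟩ := exists_bd hv
  have h1 := h.e2
  refine squeeze_zero_norm (a := fun n => B * ((r n)⁻¹ *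
    ∫ x, nsqG D.J D.F (bpp D.J (Φ n : F2 E4 M)) x ∂D.μ)) (fun n => ?_)
    (by simpa using h1.const_mul B)
  have hr := h.r_pos n
  have hd := h.cont_an n
  rw [Real.norm_eq_abs, ← integral_const_mul, ← integral_const_mul]
  refine (abs_integral_le_integral_abs).trans ?_
  refine integral_mono (En4.integrable_cont D (by fun_prop)).abs
    (En4.integrable_cont D (by fun_prop)) fun x => ?_
  have h0 := h.an_nonneg n x
  show |v x * ((r n)⁻¹ * nsqG D.J D.F (bpp D.J (Φ n : F2 E4 M)) x)| ≤ _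
  rw [abs_mul, abs_of_nonneg (by positivity :
    0 ≤ (r n)⁻¹ * nsqG D.J D.F (bpp D.J (Φ n : F2 E4 M)) x)]
  exact mul_le_mul_of_nonneg_right (hb x) (by positivity)

theorem err_qq {v : M → ℝ} (hv : SmoothF E4 v) :
    Tendsto (fun n => ∫ x, v x * ((r n)⁻¹ * qG D.F (Φ n : F2 E4 M) (Φ n : F2 E4 M) x) ∂D.μ)
      atTop (𝓝 0) := by
  refine (h.dcr hv).congr fun n => ?_
  rw [← integral_const_mul]
  congr 1
  funext x
  ring

theorem err_e {e : ℕ → M → ℝ} (he : ∀ n, Continuous (e n)) (he0 : ∀ n x, 0 ≤ e n x)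
    (hl : Tendsto (fun n => ∫ x, e n x ∂D.μ) atTop (𝓝 0)) {v : M → ℝ} (hv : Continuous v) :
    Tendsto (fun n => ∫ x, v x * e n x ∂D.μ) atTop (𝓝 0) := by
  obtain ⟨B, hB, hb⟩ := exists_bd hv
  refine squeeze_zero_norm (a := fun n => B * ∫ x, e n x ∂D.μ) (fun n => ?_)
    (by simpa using hl.const_mul B)
  have hd := he n
  rw [Real.norm_eq_abs, ← integral_const_mul]
  refine (abs_integral_le_integral_abs).trans ?_
  refine integral_mono (En4.integrable_cont D (by fun_prop)).abs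
    (En4.integrable_cont D (by fun_prop)) fun x => ?_
  show |v x * e n x| ≤ _
  rw [abs_mul, abs_of_nonneg (he0 n x)]
  exact mul_le_mul_of_nonneg_right (hb x) (he0 n x)

theorem q_T (n : ℕ) (b : F2 E4 M) (x : M) : qG D.F (T n : F2 E4 M) b x =
    a n x * qG D.F (Φ n : F2 E4 M) b x + qG D.F (P n : F2 E4 M) b x := by
  show q (at2 D.F x) (at2 (T n : F2 E4 M) x) (at2 b x) = _
  rw [h.Tap n x, q_add_left, q_smul_left]
  rfl

/-- **domination.** -/
theorem domi : ∀ v : M → ℝ, SmoothF E4 v → (∀ x, 0 ≤ v x) → ∀ ε : ℝ, 0 < ε →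
    ∀ᶠ n in atTop, ∫ x, v x * D.nr (T n : F2 E4 M) x ∂D.μ ≤
      5 * ∫ x, v x * qG D.F (T n : F2 E4 M) D.F x ∂D.μ + ε := by
  intro v hv hv0 ε hε
  obtain ⟨e, hec, hel, hep, hea⟩ := h.e6
  have he0 : ∀ n x, 0 ≤ e n x := fun n x => (En4.nr_nonneg D _ x).trans (hea n x)
  have hvc := En4.sF_continuous hv
  have hlam := h.lam_pos
  have k1 := (h.err_dl hvc).const_mul (5 / lam)
  have k2 := (h.err_qq hv).const_mul (-(1 / (2 * lam)))
  have k3 := (h.err_an hvc).const_mul (1 / lam)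
  have k4 := (h.err_e hec he0 hel hvc).const_mul 7
  have k := ((k1.add k2).add k3).add k4
  simp only [mul_zero, add_zero] at k
  filter_upwards [k.eventually_lt_const hε] with n hn
  have hr := h.r_pos n
  have hTc := En4.cont_nr D (T n).2
  have hac := h.cont_a n
  have hqc := En4.sF_continuous (En4.sF_qG D (T n).2 (En4.smF D))
  have hdc := h.cont_dl n
  have hqqc := h.cont_qq n
  have hanc := h.cont_an n
  have hecn := hec n
  -- pointwise
  have key : ∀ x, D.nr (T n : F2 E4 M) x ≤ 5 * qG D.F (T n : F2 E4 M) D.F x +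
      (5 / lam * ((r n)⁻¹ * dl D lam r Φ a n x ^ 2) +
      -(1 / (2 * lam)) * ((r n)⁻¹ * qG D.F (Φ n : F2 E4 M) (Φ n : F2 E4 M) x) +
      1 / lam * ((r n)⁻¹ * nsqG D.J D.F (bpp D.J (Φ n : F2 E4 M)) x) + 7 * e n x) := by
    intro x
    have hJ := D.sq x
    have hF := En4.spos D x
    have h1 : D.nr (T n : F2 E4 M) x ≤ |a n x| * D.nr (Φ n : F2 E4 M) x +
        D.nr (P n : F2 E4 M) x := by
      have h0 := nr_add_le hJ hF (Alt.smul ((Φ n).2.1 x) (a n x)) ((P n).2.1 x)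
      rw [nr_smul] at h0
      show nr (atJ D.J x) (at2 D.F x) (at2 (T n : F2 E4 M) x) ≤ _
      rw [h.Tap n x]
      exact h0
    have h2 : D.nr (P n : F2 E4 M) x ≤ 2 * qG D.F (P n : F2 E4 M) D.F x + 4 * e n x :=
      nr_le_of_pos hJ hF ((P n).2.1 x) (hep n x) (hea n x)
    have h3 : 0 ≤ qG D.F (P n : F2 E4 M) D.F x + e n x := by
      have h0 := q_pos_pos hJ hF (hep n x) (Ns.spos_pos hF)
      rw [q_add_left, q_smul_left, q_F_F hJ hF, q_F_invp hJ hF ((P n).2.1 x)] at h0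
      have : qG D.F (P n : F2 E4 M) D.F x = q (at2 D.F x) (at2 (P n : F2 E4 M) x) (at2 D.F x) := rfl
      rw [this]
      linarith
    have h4 : nsqG D.J D.F (Φ n : F2 E4 M) x = 2 * qG D.F (Φ n : F2 E4 M) D.F x ^ 2 -
        qG D.F (Φ n : F2 E4 M) (Φ n : F2 E4 M) x +
        2 * nsqG D.J D.F (bpp D.J (Φ n : F2 E4 M)) x := nsq_ident hJ hF ((Φ n).2.1 x)
    have h5 := En4.nr_sq D (Φ n).2.1 x
    have h6 := h.q_T n D.F x
    have h7 : qG D.F (Φ n : F2 E4 M) D.F x = lam * r n * a n x + dl D lam r Φ a n x := by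
      unfold dl; ring
    rw [h6]
    rw [h4] at h5
    rw [h7] at h5 ⊢
    have h8 := sq_abs (a n x)
    have h9 : |a n x| * D.nr (Φ n : F2 E4 M) x ≤
        lam * r n * (a n x) ^ 2 / 2 + (2 * lam)⁻¹ * ((r n)⁻¹ * D.nr (Φ n : F2 E4 M) x ^ 2) := by
      rw [← h8]
      generalize D.nr (Φ n : F2 E4 M) x = s
      generalize |a n x| = t
      have k1 : 0 ≤ (2 * lam)⁻¹ * ((r n)⁻¹ * (lam * r n * t - s) ^ 2) := by positivity
      have k2 : (2 * lam)⁻¹ * ((r n)⁻¹ * (lam * r n * t - s) ^ 2) =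
          lam * r n * t ^ 2 / 2 - t * s + (2 * lam)⁻¹ * ((r n)⁻¹ * s ^ 2) := by
        field_simp
        ring
      linarith
    rw [h5] at h9
    generalize D.nr (T n : F2 E4 M) x = nT at *
    generalize D.nr (P n : F2 E4 M) x = nP at *
    generalize |a n x| * D.nr (Φ n : F2 E4 M) x = aP at *
    generalize qG D.F (P n : F2 E4 M) D.F x = qP at *
    generalize qG D.F (Φ n : F2 E4 M) (Φ n : F2 E4 M) x = qq at *
    generalize nsqG D.J D.F (bpp D.J (Φ n : F2 E4 M)) x = an at *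
    generalize dl D lam r Φ a n x = δ at *
    generalize a n x = t at *
    generalize e n x = ee at *
    have k3 : (2 * lam)⁻¹ * ((r n)⁻¹ * (2 * (lam * r n * t + δ) ^ 2 - qq + 2 * an)) =
        lam * r n * t ^ 2 + 2 * t * δ + 1 / lam * ((r n)⁻¹ * δ ^ 2) +
        -(1 / (2 * lam)) * ((r n)⁻¹ * qq) + 1 / lam * ((r n)⁻¹ * an) := by
      field_simp
      ring
    have k4 : 0 ≤ 1 / lam * ((r n)⁻¹ * (lam * r n * t + 3 / 2 * δ) ^ 2) := by positivity
    have k5 : 1 / lam * ((r n)⁻¹ * (lam * r n * t + 3 / 2 * δ) ^ 2) =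
        lam * r n * t ^ 2 + 3 * t * δ + 9 / 4 * (1 / lam * ((r n)⁻¹ * δ ^ 2)) := by
      field_simp
      ring
    have k6 : 5 * (t * (lam * r n * t + δ) + qP) = 5 * (lam * r n * t ^ 2) + 5 * (t * δ) + 5 * qP := by
      ring
    have k7 : 5 / lam * ((r n)⁻¹ * δ ^ 2) = 5 * (1 / lam * ((r n)⁻¹ * δ ^ 2)) := by ring
    have k8 : 0 ≤ 1 / lam * ((r n)⁻¹ * δ ^ 2) := by positivity
    have k9 : 0 ≤ lam * r n * t ^ 2 := by positivity
    rw [k3] at h9
    rw [k6, k7]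
    nlinarith
  have h1 := int5 D (g := fun x => v x * D.nr (T n : F2 E4 M) x)
    (f1 := fun x => 5 * (v x * qG D.F (T n : F2 E4 M) D.F x))
    (f2 := fun x => 5 / lam * (v x * ((r n)⁻¹ * dl D lam r Φ a n x ^ 2)))
    (f3 := fun x => -(1 / (2 * lam)) *
      (v x * ((r n)⁻¹ * qG D.F (Φ n : F2 E4 M) (Φ n : F2 E4 M) x)))
    (f4 := fun x => 1 / lam * (v x * ((r n)⁻¹ * nsqG D.J D.F (bpp D.J (Φ n : F2 E4 M)) x)))
    (f5 := fun x => 7 * (v x * e n x))
    (hvc.mul hTc) (by fun_prop) (by fun_prop) (by fun_prop) (by fun_prop) (by fun_prop)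
    (fun x => by
      have := mul_le_mul_of_nonneg_left (key x) (hv0 x)
      calc v x * D.nr (T n : F2 E4 M) x ≤ _ := this
        _ = _ := by ring)
  simp only [integral_const_mul] at h1
  linarith

/-- **positivity.** -/
theorem posl (b : X2 M) (hb : b ∈ D.Pp) : ∀ ε : ℝ, 0 < ε →
    ∀ᶠ n in atTop, - ε ≤ D.I (T n : F2 E4 M) (b : F2 E4 M) := by
  intro ε hε
  obtain ⟨e, hec, hel, hep, hea⟩ := h.e6
  have he0 : ∀ n x, 0 ≤ e n x := fun n x => (En4.nr_nonneg D _ x).trans (hea n x)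
  set τ : M → ℝ := qG D.F (b : F2 E4 M) D.F with hτ
  have hτs : SmoothF E4 τ := En4.sF_qG D b.2 (En4.smF D)
  have hτc := En4.sF_continuous hτs
  have hτ0 : ∀ x, 0 ≤ τ x := fun x =>
    q_pos_pos (D.sq x) (En4.spos D x) (hb x) (Ns.spos_pos (En4.spos D x))
  have hlam := h.lam_pos
  have k1 := (h.err_dl hτc).const_mul (1 / (2 * lam))
  have k2 := (h.err_qq hτs).const_mul (-(1 / (2 * lam)))
  have k3 := (h.err_an hτc).const_mul (1 / (2 * lam))
  have k4 := h.err_e hec he0 hel hτc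
  have k := ((k1.add k2).add k3).add k4
  simp only [mul_zero, add_zero] at k
  filter_upwards [k.eventually_lt_const hε] with n hn
  have hr := h.r_pos n
  have hqc := En4.sF_continuous (En4.sF_qG D (T n).2 b.2)
  have hdc := h.cont_dl n
  have hqqc := h.cont_qq n
  have hanc := h.cont_an n
  have hecn := hec n
  have key : ∀ x, -1 * qG D.F (T n : F2 E4 M) (b : F2 E4 M) x ≤
      1 / (2 * lam) * (τ x * ((r n)⁻¹ * dl D lam r Φ a n x ^ 2)) +
      -(1 / (2 * lam)) * (τ x * ((r n)⁻¹ * qG D.F (Φ n : F2 E4 M) (Φ n : F2 E4 M) x)) +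
      1 / (2 * lam) * (τ x * ((r n)⁻¹ * nsqG D.J D.F (bpp D.J (Φ n : F2 E4 M)) x)) +
      τ x * e n x + 0 := by
    intro x
    have hJ := D.sq x
    have hF := En4.spos D x
    have h3 : - (e n x * τ x) ≤ qG D.F (P n : F2 E4 M) (b : F2 E4 M) x := by
      have h0 := q_pos_pos hJ hF (hep n x) (hb x)
      rw [q_add_left, q_smul_left] at h0
      have h1 : q (at2 D.F x) (invp (atJ D.J x) (at2 (P n : F2 E4 M) x)) (at2 (b : F2 E4 M) x) =
          qG D.F (P n : F2 E4 M) (b : F2 E4 M) x := by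
        have := q_split hJ hF ((P n).2.1 x : Alt _) (b.2.1 x : Alt _)
        rw [antip_of_inv (hb x).inv, invp_of_inv (hb x).inv, q_zero_right, add_zero] at this
        exact this.symm
      have h2 : q (at2 D.F x) (at2 D.F x) (at2 (b : F2 E4 M) x) = τ x := q_comm _ _ _
      rw [h1, h2] at h0
      linarith
    have h4 := nsq_prim_eq hJ hF (b := at2 (Φ n : F2 E4 M) x) ((Φ n).2.1 x)
    have h40 : 0 ≤ nsq (atJ D.J x) (at2 D.F x) (prim (atJ D.J x) (at2 D.F x)
      (at2 (Φ n : F2 E4 M) x)) := nsq_nonneg hJ hF (prim_alt hJ hF ((Φ n).2.1 x))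
    obtain ⟨s, hs0, h5'⟩ : ∃ s : ℝ, 0 ≤ s ∧ s ^ 2 = nsq (atJ D.J x) (at2 D.F x)
        (prim (atJ D.J x) (at2 D.F x) (at2 (Φ n : F2 E4 M) x)) :=
      ⟨_, Real.sqrt_nonneg _, Real.sq_sqrt h40⟩
    have h5 := q_near hJ hF (b := at2 (Φ n : F2 E4 M) x) ((Φ n).2.1 x) (hb x) hs0 h5'.ge
    have h6 := h.q_T n (b : F2 E4 M) x
    have h7 : qG D.F (Φ n : F2 E4 M) D.F x = lam * r n * a n x + dl D lam r Φ a n x := by
      unfold dl; ring
    have h8 : q (at2 D.F x) (at2 (Φ n : F2 E4 M) x) (at2 D.F x) =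
      qG D.F (Φ n : F2 E4 M) D.F x := rfl
    have h9 : q (at2 D.F x) (at2 (b : F2 E4 M) x) (at2 D.F x) = τ x := rfl
    have h10 : nsq (atJ D.J x) (at2 D.F x) (antip (atJ D.J x) (at2 (Φ n : F2 E4 M) x)) =
      nsqG D.J D.F (bpp D.J (Φ n : F2 E4 M)) x := rfl
    have h11 : q (at2 D.F x) (at2 (Φ n : F2 E4 M) x) (at2 (Φ n : F2 E4 M) x) =
      qG D.F (Φ n : F2 E4 M) (Φ n : F2 E4 M) x := rfl
    have h12 : q (at2 D.F x) (at2 (Φ n : F2 E4 M) x) (at2 (b : F2 E4 M) x) =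
      qG D.F (Φ n : F2 E4 M) (b : F2 E4 M) x := rfl
    have hτx := hτ0 x
    rw [h6]
    rw [h4, h8, h10, h11, h7] at h5'
    rw [h8, h9, h7, h12] at h5
    generalize qG D.F (Φ n : F2 E4 M) (b : F2 E4 M) x = pb at *
    generalize qG D.F (P n : F2 E4 M) (b : F2 E4 M) x = Pb at *
    generalize qG D.F (Φ n : F2 E4 M) (Φ n : F2 E4 M) x = qq at *
    generalize nsqG D.J D.F (bpp D.J (Φ n : F2 E4 M)) x = an at *
    generalize dl D lam r Φ a n x = δ at *
    generalize a n x = t at *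
    generalize e n x = ee at *
    generalize τ x = w at *
    -- a q(Φ,b) ≥ a f τ - |a| τ s
    have m1 : t * (w * (lam * r n * t + δ)) - |t| * (w * s) ≤ t * pb := by
      have h0 : |t * (pb - w * (lam * r n * t + δ))| ≤ |t| * (w * s) := by
        rw [abs_mul]
        exact mul_le_mul_of_nonneg_left h5 (abs_nonneg t)
      have h1 := (abs_le.1 h0).1
      linarith
    have m2 : |t| * s ≤ lam * r n * t ^ 2 / 2 + 1 / (2 * lam) * ((r n)⁻¹ * s ^ 2) := by
      rw [← sq_abs t]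
      generalize |t| = t'
      have k1 : 0 ≤ 1 / (2 * lam) * ((r n)⁻¹ * (lam * r n * t' - s) ^ 2) := by positivity
      have k2 : 1 / (2 * lam) * ((r n)⁻¹ * (lam * r n * t' - s) ^ 2) =
          lam * r n * t' ^ 2 / 2 - t' * s + 1 / (2 * lam) * ((r n)⁻¹ * s ^ 2) := by
        field_simp
        ring
      linarith
    rw [h5'] at m2
    have m3 : 1 / (2 * lam) * ((r n)⁻¹ * ((lam * r n * t + δ) ^ 2 - qq + an)) =
        lam * r n * t ^ 2 / 2 + t * δ + 1 / (2 * lam) * ((r n)⁻¹ * δ ^ 2) -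
          1 / (2 * lam) * ((r n)⁻¹ * qq) + 1 / (2 * lam) * ((r n)⁻¹ * an) := by
      field_simp
      ring
    rw [m3] at m2
    have m4 := mul_le_mul_of_nonneg_left m2 hτx
    nlinarith
  have h1 := int5 D (g := fun x => -1 * qG D.F (T n : F2 E4 M) (b : F2 E4 M) x)
    (by fun_prop) (by fun_prop) (by fun_prop) (by fun_prop) (by fun_prop) continuous_const key
  simp only [integral_const_mul, integral_zero] at h1
  have h2 : D.I (T n : F2 E4 M) (b : F2 E4 M) =
    ∫ x, qG D.F (T n : F2 E4 M) (b : F2 E4 M) x ∂D.μ := rfl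
  rw [h2]
  linarith

/-- **anti-invariance.** -/
theorem antil (b : X2 M) (hb : ∀ x, invp (atJ D.J x) (at2 (b : F2 E4 M) x) = 0) :
    Tendsto (fun n => D.I (T n : F2 E4 M) (b : F2 E4 M)) atTop (𝓝 0) := by
  obtain ⟨e, hec, hel, hep, hea⟩ := h.e6
  obtain ⟨C3, h3⟩ := h.e3
  have he0 : ∀ n x, 0 ≤ e n x := fun n x => (En4.nr_nonneg D _ x).trans (hea n x)
  have hC3 : 0 ≤ C3 := by
    refine le_trans ?_ (h3 0)
    exact mul_nonneg (h.r_pos 0).le (integral_nonneg fun x => sq_nonneg _)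
  obtain ⟨B, hB, hbB⟩ := exists_bd (En4.cont_nr D b.2)
  rw [Metric.tendsto_atTop']
  intro ε hε
  set η : ℝ := ε / (2 * (B + 1) * (C3 + 1)) with hη
  have hη0 : 0 < η := by positivity
  have k3 := (h.err_an (v := fun _ => 1) continuous_const).const_mul (B * (1 / (4 * η)))
  have k4 := (h.err_e hec he0 hel (v := fun _ => 1) continuous_const).const_mul B
  have k := k3.add k4
  simp only [mul_zero, add_zero, one_mul] at k
  have hev := k.eventually_lt_const (half_pos hε)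
  rw [eventually_atTop] at hev
  obtain ⟨n0, hn0⟩ := hev
  refine ⟨n0, fun n hn => ?_⟩
  have hn := hn0 n hn.le
  have hr := h.r_pos n
  have hac := h.cont_a n
  have hqc := En4.sF_continuous (En4.sF_qG D (T n).2 b.2)
  have hanc := h.cont_an n
  have hecn := hec n
  have key : ∀ x, |qG D.F (T n : F2 E4 M) (b : F2 E4 M) x| ≤
      B * η * (r n * a n x ^ 2) +
      B * (1 / (4 * η)) * ((r n)⁻¹ * nsqG D.J D.F (bpp D.J (Φ n : F2 E4 M)) x) +
      B * e n x + 0 + 0 := by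
    intro x
    have hJ := D.sq x
    have hF := En4.spos D x
    have hab : antip (atJ D.J x) (at2 (b : F2 E4 M) x) = at2 (b : F2 E4 M) x := by
      have := invp_add_antip (atJ D.J x) (at2 (b : F2 E4 M) x)
      rw [hb x] at this
      rw [← this]
      conv_lhs => rw [this]
      exact (zero_add _).symm
    have hX : ∀ X : X2 M, |qG D.F (X : F2 E4 M) (b : F2 E4 M) x| ≤
        D.nr (bpp D.J (X : F2 E4 M)) x * B := by
      intro X
      have h1 : qG D.F (X : F2 E4 M) (b : F2 E4 M) x =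
          qG D.F (D.pi'' X : F2 E4 M) (b : F2 E4 M) x := by
        have := q_split hJ hF (X.2.1 x : Alt _) (b.2.1 x : Alt _)
        rw [hb x, q_zero_right, zero_add, hab] at this
        exact this
      rw [h1]
      refine (En4.abs_qG_le D _ _ x).trans ?_
      exact mul_le_mul_of_nonneg_left ((le_abs_self _).trans (hbB x)) (En4.nr_nonneg D _ x)
    rw [h.q_T n (b : F2 E4 M) x]
    have h1 := hX (Φ n)
    have h2 := hX (P n)
    have h4 := hea n x
    have h5 : D.nr (bpp D.J (Φ n : F2 E4 M)) x ^ 2 = nsqG D.J D.F (bpp D.J (Φ n : F2 E4 M)) x :=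
      En4.nr_sq D (Smooth2.bpp D.smJ (Φ n).2).1 x
    rw [← h5]
    have h6 := En4.nr_nonneg D (bpp D.J (Φ n : F2 E4 M)) x
    generalize D.nr (bpp D.J (Φ n : F2 E4 M)) x = s at *
    generalize D.nr (bpp D.J (P n : F2 E4 M)) x = s' at *
    generalize qG D.F (Φ n : F2 E4 M) (b : F2 E4 M) x = pb at *
    generalize qG D.F (P n : F2 E4 M) (b : F2 E4 M) x = Pb at *
    have h7 : |a n x * pb| ≤ B * η * (r n * a n x ^ 2) + B * (1 / (4 * η)) * ((r n)⁻¹ * s ^ 2) := by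
      rw [abs_mul]
      have h8 : |a n x| * |pb| ≤ B * (|a n x| * s) := by
        calc |a n x| * |pb| ≤ |a n x| * (s * B) := mul_le_mul_of_nonneg_left h1 (abs_nonneg _)
          _ = _ := by ring
      refine h8.trans ?_
      rw [← sq_abs (a n x)]
      generalize |a n x| = t
      have k1 : 0 ≤ B * (1 / (4 * η) * ((r n)⁻¹ * (2 * η * (r n * t) - s) ^ 2)) := by positivity
      have k2 : B * (1 / (4 * η) * ((r n)⁻¹ * (2 * η * (r n * t) - s) ^ 2)) =
          B * η * (r n * t ^ 2) - B * (t * s) + B * (1 / (4 * η)) * ((r n)⁻¹ * s ^ 2) := by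
        field_simp
        ring
      linarith
    have h9 : |Pb| ≤ B * e n x := h2.trans (by
      rw [mul_comm]; exact mul_le_mul_of_nonneg_left h4 hB)
    have h10 := abs_add_le (a n x * pb) Pb
    linarith
  have h1 := int5 D (g := fun x => |qG D.F (T n : F2 E4 M) (b : F2 E4 M) x|)
    (by fun_prop) (by fun_prop) (by fun_prop) (by fun_prop) continuous_const continuous_const key
  simp only [integral_const_mul, integral_zero] at h1
  simp only [integral_const_mul] at hn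
  have h2 : |D.I (T n : F2 E4 M) (b : F2 E4 M)| ≤
    ∫ x, |qG D.F (T n : F2 E4 M) (b : F2 E4 M) x| ∂D.μ := abs_integral_le_integral_abs
  have h4 : B * η * (r n * ∫ x, a n x ^ 2 ∂D.μ) ≤ ε / 2 := by
    calc B * η * (r n * ∫ x, a n x ^ 2 ∂D.μ) ≤ B * η * C3 := by
          exact mul_le_mul_of_nonneg_left (h3 n) (by positivity)
      _ ≤ (B + 1) * η * (C3 + 1) := by gcongr <;> linarith
      _ = ε / 2 := by
          rw [hη]
          field_simp
  rw [Real.dist_eq, sub_zero]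
  linarith

end VS

end

end Crest.Agent.R235.SwcPos_34
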