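import Crest.Agent.R235.SwcPosB_34
import Crest.Agent.R235.SwcDefs_34
import Crest.Agent.R235.SwcGlob_34
import Crest.Agent.R240.EllM4
import Crest.Agent.R235.SwcVs_34
import Crest.Agent.R235.LbG_453
import Crest.Agent.R240.SmFCrude
import Crest.Agent.R240.DensM
import Crest.Agent.R240.Ch7

-- ▼ part R235/SwcPosC_34
section

/-!
Row 235 (S0364), SWC-AN (helper34): the limit current of a vorticity sequence.
-/

set_option autoImplicit false
set_option maxSynthPendingDepth 3
set_option linter.unusedSectionVars false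

open Set Function Filter MeasureTheory Metric
open scoped Manifold ContDiff Topology

universe u

namespace Crest.Agent.R235.SwcPos_34

open Crest.Agent.R240 Crest.Agent.R240.Ch Crest.Agent.R235
open Crest.Agent.R240.En4 Crest.Agent.R235.SwcAlg_34 Crest.Agent.R235.SwcGlob_34

noncomputable section

variable {M : Type u} [MetricSpace M] [CompactSpace M] [ChartedSpace E4 M]
  [IsManifold 𝓘(ℝ, E4) ∞ M]

/-- smooth approximation from above. -/
theorem exists_above {v : M → ℝ} (hv : Continuous v) {δ : ℝ} (hδ : 0 < δ) :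
    ∃ w : M → ℝ, SmoothF E4 w ∧ ∀ x, v x ≤ w x ∧ w x ≤ v x + δ := by
  obtain ⟨g, hg⟩ := exists_contMDiffMap_forall_mem_convex_of_local_const (n := ⊤) 𝓘(ℝ, E4)
    (t := fun x => Icc (v x) (v x + δ)) (fun x => convex_Icc _ _) (fun x => ⟨v x + δ / 2, by
      have h1 := hv.tendsto x
      have h2 := h1.eventually (Metric.ball_mem_nhds (v x) (half_pos hδ))
      filter_upwards [h2] with y hy
      rw [Real.dist_eq, abs_lt] at hy
      constructor <;> linarith [hy.1, hy.2]⟩)
  exact ⟨g, En4.smoothF_of_contMDiff g.contMDiff, fun x => hg x⟩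

variable [MeasurableSpace M] [BorelSpace M]

/-- a bounded family of real linear functionals has a limit along an ultrafilter. -/
theorem exists_ulim {V : Type*} [AddCommGroup V] [Module ℝ V] (L : ℕ → V →ₗ[ℝ] ℝ)
    (U : Ultrafilter ℕ) (hb : ∀ v, ∃ C, ∀ n, |L n v| ≤ C) :
    ∃ S : V →ₗ[ℝ] ℝ, ∀ v, Tendsto (fun n => L n v) U (𝓝 (S v)) := by
  have h1 : ∀ v, ∃ l : ℝ, Tendsto (fun n => L n v) U (𝓝 l) := by
    intro v
    obtain ⟨C, hC⟩ := hb v
    have h2 : (Icc (-C) C : Set ℝ) ∈ U.map fun n => L n v := by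
      rw [Ultrafilter.mem_map]
      exact Filter.mem_of_superset Filter.univ_mem fun n _ => abs_le.1 (hC n)
    obtain ⟨l, -, hl⟩ := isCompact_Icc.ultrafilter_le_nhds' _ h2
    exact ⟨l, hl⟩
  choose l hl using h1
  refine ⟨{ toFun := l, map_add' := fun v w => ?_, map_smul' := fun c v => ?_ }, hl⟩
  · refine tendsto_nhds_unique (hl (v + w)) ?_
    simp only [map_add]
    exact (hl v).add (hl w)
  · refine tendsto_nhds_unique (hl (c • v)) ?_
    simp only [map_smul, smul_eq_mul, RingHom.id_apply]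
    exact (hl v).const_mul c

/-- the functional of a form. -/
def fun1 (D : Dat M) (T : X2 M) : X2 M →ₗ[ℝ] ℝ where
  toFun b := D.I (T : F2 E4 M) (b : F2 E4 M)
  map_add' b c := En4.I_add_right D T b c
  map_smul' c b := by
    rw [RingHom.id_apply, smul_eq_mul]
    exact En4.I_smul_right D c T b

namespace VS

variable {D : Dat M} {lam : ℝ} {r : ℕ → ℝ} {Φ : ℕ → X2 M} {a : ℕ → M → ℝ} {j : ℕ → F1 E4 M}
  {P T : ℕ → X2 M}

theorem abs_I_le (D : Dat M) (T b : X2 M) {B : ℝ} (hB : ∀ x, D.nr (b : F2 E4 M) x ≤ B) :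
    |D.I (T : F2 E4 M) (b : F2 E4 M)| ≤ B * ∫ x, D.nr (T : F2 E4 M) x ∂D.μ := by
  calc |D.I (T : F2 E4 M) (b : F2 E4 M)|
      ≤ ∫ x, |qG D.F (T : F2 E4 M) (b : F2 E4 M) x| ∂D.μ := abs_integral_le_integral_abs
    _ ≤ ∫ x, B * D.nr (T : F2 E4 M) x ∂D.μ := by
        refine integral_mono (En4.integrable_qG D T.2 b.2).abs
          ((En4.integrable_cont D (En4.cont_nr D T.2)).const_mul _) fun x => ?_
        refine (En4.abs_qG_le D _ _ x).trans ?_
        rw [mul_comm]
        exact mul_le_mul_of_nonneg_right (hB x) (En4.nr_nonneg D _ _)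
    _ = _ := integral_const_mul _ _

theorem closed_T (h : VS D lam r Φ a j P T) (n : ℕ) : Closed2 (T n : F2 E4 M) := by
  rw [h.Tdj n]
  exact Closed2.add (Φ n).2 (Smooth2.dG (h.smj n)) (h.clΦ n) (Closed2.dG (h.smj n))

theorem I_T (h : VS D lam r Φ a j P T) (n : ℕ) (b : Z2 M) :
    D.I (T n : F2 E4 M) (b.1 : F2 E4 M) = D.I (Φ n : F2 E4 M) (b.1 : F2 E4 M) := by
  have e1 : (T n : X2 M) = Φ n + ⟨dG (j n), Smooth2.dG (h.smj n)⟩ := Subtype.ext (h.Tdj n)
  have e2 := En4.I_add_left D (Φ n) ⟨dG (j n), Smooth2.dG (h.smj n)⟩ b.1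
  rw [← e1] at e2
  have e3 : D.I (dG (j n)) (b.1 : F2 E4 M) = 0 :=
    Int.dat_stokes D (isEx_dG (h.smj n)) b.1.2 b.2
  rw [e2]
  have e4 : D.I ((⟨dG (j n), Smooth2.dG (h.smj n)⟩ : X2 M) : F2 E4 M) (b.1 : F2 E4 M) = 0 := e3
  rw [e4, add_zero]

/-- **the limit current.** -/
theorem exists_lim (h : VS D lam r Φ a j P T) {E : X2 M → ℝ}
    (hE : ∀ n, ∀ b : Z2 M, D.I (Φ n : F2 E4 M) (b.1 : F2 E4 M) = 2 * Real.pi * E b.1) :
    ∃ U : Filter ℕ, U ≤ atTop ∧ U.NeBot ∧ ∃ (S : X2 M →ₗ[ℝ] ℝ) (s : Measure M),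
      Lim D U T S s ∧ ∀ b : Z2 M, S b.1 = E b.1 := by
  have hpi := Real.pi_pos
  set U : Ultrafilter ℕ := Ultrafilter.of atTop with hU
  have hUle : (U : Filter ℕ) ≤ atTop := Ultrafilter.of_le atTop
  obtain ⟨C, hC⟩ := h.mass
  obtain ⟨S0, hS0⟩ := exists_ulim (fun n => fun1 D (T n)) U (fun b => by
    obtain ⟨B, hB, hb⟩ := exists_bd (En4.cont_nr D b.2)
    refine ⟨B * C, fun n => ?_⟩
    exact (abs_I_le D (T n) b fun x => (le_abs_self _).trans (hb x)).trans
      (mul_le_mul_of_nonneg_left (hC n) hB))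
  have hS0' : ∀ b : X2 M, Tendsto (fun n => D.I (T n : F2 E4 M) (b : F2 E4 M)) U (𝓝 (S0 b)) := hS0
  set S : X2 M →ₗ[ℝ] ℝ := (2 * Real.pi)⁻¹ • S0 with hS
  have hSS : ∀ b, 2 * Real.pi * S b = S0 b := by
    intro b
    rw [hS, LinearMap.smul_apply, smul_eq_mul]
    field_simp
  have hlim : ∀ b : X2 M, Tendsto (fun n => D.I (T n : F2 E4 M) (b : F2 E4 M)) U
      (𝓝 (2 * Real.pi * S b)) := fun b => by rw [hSS]; exact hS0' b
  -- positivity
  have hnn : D.IsNonneg S := by
    intro b hb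
    have h1 : 0 ≤ S0 b := by
      refine le_of_forall_pos_lt_add fun ε hε => ?_
      have h2 := (h.posl b hb (ε / 2) (half_pos hε)).filter_mono hUle
      have h3 : -(ε / 2) ≤ S0 b := ge_of_tendsto (hS0' b) h2
      linarith
    rw [hS, LinearMap.smul_apply, smul_eq_mul]
    positivity
  -- invariance
  have hinv : D.IsInv S := by
    intro b
    have h1 : S0 (D.pi'' b) = 0 := by
      refine tendsto_nhds_unique (hS0' _) ((h.antil (D.pi'' b) fun x => ?_).mono_left hUle)
      have := En4.at2_pi'' D b x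
      rw [this]
      exact Ns.invp_antip (D.sq x) _
    have h2 : b = D.pi' b + D.pi'' b := (En4.pi_add D b).symm
    have h3 : S0 b = S0 (D.pi' b) := by
      conv_lhs => rw [h2, map_add, h1, add_zero]
    rw [hS, LinearMap.smul_apply, LinearMap.smul_apply, h3]
  -- closedness
  have hex : Dat.KillsExact S := by
    intro b hb
    have h1 : S0 b = 0 := by
      refine tendsto_nhds_unique (hS0' b) ?_
      have h2 : ∀ n, D.I (T n : F2 E4 M) (b : F2 E4 M) = 0 := fun n => by
        rw [En4.I_comm]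
        exact Int.dat_stokes D hb (T n).2 (h.closed_T n)
      simp only [h2]
      exact tendsto_const_nhds
    rw [hS, LinearMap.smul_apply, h1, smul_zero]
  obtain ⟨s, hs⟩ := T1_195.exists_cur D hinv hnn hex
  have := hs.fin
  refine ⟨U, hUle, inferInstance, S, s, ⟨hs, hlim, 10 * Real.pi, fun v hv hv0 ε hε => ?_⟩,
    fun b => ?_⟩
  · -- domination
    set K : ℝ := s.real univ with hK
    have hK0 : 0 ≤ K := measureReal_nonneg
    set δ : ℝ := ε / (40 * Real.pi * (K + 1)) with hδ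
    have hδ0 : 0 < δ := by positivity
    obtain ⟨w, hw, hvw⟩ := exists_above hv hδ0
    have hwc := En4.sF_continuous hw
    have hw0 : ∀ x, 0 ≤ w x := fun x => (hv0 x).trans (hvw x).1
    have h1 := (h.domi w hw hw0 (ε / 4) (by positivity)).filter_mono hUle
    -- the trace
    have h2 : Tendsto (fun n => ∫ x, w x * qG D.F (T n : F2 E4 M) D.F x ∂D.μ) U
        (𝓝 (2 * Real.pi * ∫ x, w x ∂s)) := by
      have h3 := hlim (En4.fX w hw D.FX)
      have h4 : S (En4.fX w hw D.FX) = ∫ x, w x ∂s :=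
        hs.rm.trace w hw (En4.fX w hw D.FX) rfl
      rw [h4] at h3
      refine h3.congr fun n => ?_
      rw [En4.I_fX]
      rfl
    have h5 : ∀ᶠ n in (U : Filter ℕ), ∫ x, w x * qG D.F (T n : F2 E4 M) D.F x ∂D.μ <
        2 * Real.pi * ∫ x, w x ∂s + ε / 20 :=
      h2.eventually_lt_const (by linarith)
    filter_upwards [h1, h5] with n h1 h5
    have h6 : ∫ x, v x * D.nr (T n : F2 E4 M) x ∂D.μ ≤ ∫ x, w x * D.nr (T n : F2 E4 M) x ∂D.μ := by
      refine integral_mono (En4.integrable_cont D (hv.mul (En4.cont_nr D (T n).2)))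
        (En4.integrable_cont D (hwc.mul (En4.cont_nr D (T n).2))) fun x => ?_
      exact mul_le_mul_of_nonneg_right (hvw x).1 (En4.nr_nonneg D _ _)
    have h7 : ∫ x, w x ∂s ≤ ∫ x, v x ∂s + δ * K := by
      have iv : Integrable v s := En4.integrable_s inferInstance hv
      have h8 : ∫ x, w x ∂s ≤ ∫ x, (v x + δ) ∂s :=
        integral_mono (En4.integrable_s inferInstance hwc)
          (iv.add (integrable_const _)) fun x => (hvw x).2
      rw [integral_add iv (integrable_const _), integral_const, smul_eq_mul] at h8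
      rw [hK]
      linarith
    have h9 : 10 * Real.pi * (δ * K) ≤ ε / 4 := by
      have : 10 * Real.pi * (δ * (K + 1)) = ε / 4 := by
        rw [hδ]
        field_simp
        ring
      have h10 : δ * K ≤ δ * (K + 1) := by nlinarith
      rw [← this]
      gcongr
    have h11 : 10 * Real.pi * ∫ x, w x ∂s ≤ 10 * Real.pi * ∫ x, v x ∂s + 10 * Real.pi * (δ * K) := by
      rw [← mul_add]
      gcongr
    linarith
  · -- the class
    have h1 := hlim b.1
    have h2 : ∀ n, D.I (T n : F2 E4 M) (b.1 : F2 E4 M) = 2 * Real.pi * E b.1 := fun n => by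
      rw [h.I_T n b, hE n b]
    simp only [h2] at h1
    have h3 := tendsto_nhds_unique h1 tendsto_const_nhds
    have h4 : (2 * Real.pi) ≠ 0 := by positivity
    exact mul_left_cancel₀ h4 h3

end VS

end

end Crest.Agent.R235.SwcPos_34
end

-- ▼ part R235/SwcPosD_34
section

/-!
Row 235 (S0364), SWC-AN (helper34): a Taubes sequence is a vorticity sequence; `POSDOM2`.
-/

set_option autoImplicit false
set_option maxSynthPendingDepth 3
set_option linter.unusedSectionVars false

open Set Function Filter MeasureTheory Metric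
open scoped Manifold ContDiff Topology

universe u

namespace Crest.Agent.R235.SwcPos_34

open Crest.Agent.R240 Crest.Agent.R240.Ch Crest.Agent.R235
open Crest.Agent.R235.SwcAlg_34 Crest.Agent.R235.SwcGlob_34 Crest.Agent.R235.SwcVs_34

noncomputable section

section pt

variable {J : E4 →L[ℝ] E4} {F : Bil}

theorem sum_cs {N : ℕ} (x y s t : Fin N → ℝ) :
    (∑ i, (x i * s i + y i * t i)) ^ 2 ≤
      (∑ i, (x i ^ 2 + y i ^ 2)) * ∑ i, (s i ^ 2 + t i ^ 2) := by
  have h := Finset.sum_mul_sq_le_sq_mul_sq (Finset.univ : Finset (Fin N ⊕ Fin N))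
    (Sum.elim x y) (Sum.elim s t)
  simp only [Fintype.sum_sum_type, Sum.elim_inl, Sum.elim_inr] at h
  rw [Finset.sum_add_distrib, Finset.sum_add_distrib, Finset.sum_add_distrib]
  exact h

/-- Cauchy-Schwarz for `∑ x_i c_i + y_i d_i`. -/
theorem m1_sum_le (hJ : ∀ v, J (J v) = -v) (hF : SPos J F) {N : ℕ} (x y : Fin N → ℝ)
    (c d : Fin N → E4 →L[ℝ] ℝ) :
    m1 J F (∑ i, (x i • c i + y i • d i)) ≤
      (∑ i, (x i ^ 2 + y i ^ 2)) * ∑ i, (m1 J F (c i) + m1 J F (d i)) := by
  obtain ⟨A, hA⟩ := exists_frame hJ hF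
  simp only [m1_frame hF hA]
  have e1 : ∀ k : Fin 4, ((∑ i, (x i • c i + y i • d i)).comp (A : E4 →L[ℝ] E4)) (ee k) =
      ∑ i, (x i * (c i).comp (A : E4 →L[ℝ] E4) (ee k) +
        y i * (d i).comp (A : E4 →L[ℝ] E4) (ee k)) := by
    intro k
    simp only [ContinuousLinearMap.comp_apply, ContinuousLinearMap.sum_apply, add_apply,
      smul_apply, smul_eq_mul]
  have e2 : ∀ k : Fin 4, (((∑ i, (x i • c i + y i • d i)).comp (A : E4 →L[ℝ] E4)) (ee k)) ^ 2 ≤
      (∑ i, (x i ^ 2 + y i ^ 2)) * ∑ i, (((c i).comp (A : E4 →L[ℝ] E4) (ee k)) ^ 2 +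
        ((d i).comp (A : E4 →L[ℝ] E4) (ee k)) ^ 2) := by
    intro k
    rw [e1 k]
    exact sum_cs _ _ _ _
  have e3 : ∑ i, (S4 ((c i).comp (A : E4 →L[ℝ] E4)) + S4 ((d i).comp (A : E4 →L[ℝ] E4))) =
      (∑ i, (((c i).comp (A : E4 →L[ℝ] E4) (ee 0)) ^ 2 + ((d i).comp (A : E4 →L[ℝ] E4) (ee 0)) ^ 2)) +
      (∑ i, (((c i).comp (A : E4 →L[ℝ] E4) (ee 1)) ^ 2 + ((d i).comp (A : E4 →L[ℝ] E4) (ee 1)) ^ 2)) +
      (∑ i, (((c i).comp (A : E4 →L[ℝ] E4) (ee 2)) ^ 2 + ((d i).comp (A : E4 →L[ℝ] E4) (ee 2)) ^ 2)) +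
      (∑ i, (((c i).comp (A : E4 →L[ℝ] E4) (ee 3)) ^ 2 + ((d i).comp (A : E4 →L[ℝ] E4) (ee 3)) ^ 2)) := by
    rw [← Finset.sum_add_distrib, ← Finset.sum_add_distrib, ← Finset.sum_add_distrib]
    refine Finset.sum_congr rfl fun i _ => ?_
    unfold S4
    ring
  rw [e3]
  have h0 := e2 0
  have h1 := e2 1
  have h2 := e2 2
  have h3 := e2 3
  unfold S4
  rw [mul_add, mul_add, mul_add]
  linarith

end pt

variable {M : Type u} [MetricSpace M] [CompactSpace M] [ChartedSpace E4 M]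
  [IsManifold 𝓘(ℝ, E4) ∞ M] [MeasurableSpace M] [BorelSpace M] {D : Dat M} {N : ℕ} {Q : TSeq M N}

/-- `|j|² ≤ |α|² |eta|²`. -/
theorem m1_jj (n : ℕ) (x : M) : m1 (atJ D.J x) (at2 D.F x) (at1 (Q.jj n) x) ≤
    Q.nal n x * Q.neta D n x := by
  have e1 : at1 (Q.jj n) x = ∑ i, ((Q.α n x i).re • (Complex.imCLM.comp (Q.eta n x i)) +
      (-(Q.α n x i).im) • (Complex.reCLM.comp (Q.eta n x i))) := by
    have : at1 (Q.jj n) x = ∑ i, ((Q.α n x i).re • (Complex.imCLM.comp (Q.eta n x i)) -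
      (Q.α n x i).im • (Complex.reCLM.comp (Q.eta n x i))) := rfl
    rw [this]
    refine Finset.sum_congr rfl fun i _ => ?_
    rw [neg_smul, sub_eq_add_neg]
  rw [e1]
  refine (m1_sum_le (D.sq x) (En4.spos D x) _ _ _ _).trans_eq ?_
  congr 1
  · unfold TSeq.nal
    refine Finset.sum_congr rfl fun i _ => ?_
    rw [← Complex.normSq_eq_norm_sq, Complex.normSq_apply]
    ring
  · unfold TSeq.neta nC
    refine Finset.sum_congr rfl fun i _ => ?_
    rw [add_comm]
    rfl

theorem nal_nonneg (n : ℕ) (x : M) : 0 ≤ Q.nal n x := Finset.sum_nonneg fun i _ => by positivity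

theorem sqrt_m1_jj (n : ℕ) (x : M) : √(m1 (atJ D.J x) (at2 D.F x) (at1 (Q.jj n) x)) ≤
    (Q.nal n x + Q.neta D n x) / 2 := by
  have h1 := nal_nonneg (Q := Q) n x
  have h2 : 0 ≤ Q.neta D n x := Finset.sum_nonneg fun i _ => mC_nonneg (D.sq x) (En4.spos D x) _
  refine Real.sqrt_le_iff.2 ⟨by linarith, (m1_jj n x).trans ?_⟩
  nlinarith [sq_nonneg (Q.nal n x - Q.neta D n x)]

/-- **a Taubes sequence is a vorticity sequence.** -/
theorem vs_of {lam C : ℝ} (h : Q.OK D atTop lam C) (hr : ∀ n, 0 < Q.r n)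
    (hw : ∀ n : ℕ, Smooth1 (Q.jj n) ∧ Smooth2 (Q.Phi n) ∧ Closed2 (Q.Phi n) ∧ Smooth2 (Q.Psi n) ∧
      Closed2 (Q.Psi n) ∧ ∀ x : M, at2 (Q.Psi n) x =
        (1 - Q.nal n x) • at2 (Q.Phi n) x + (2 : ℝ) • ∑ i,
          wed (Complex.reCLM.comp (Q.eta n x i)) (Complex.imCLM.comp (Q.eta n x i)))
    {T : ℕ → X2 M} (hT : ∀ n, (T n : F2 E4 M) = Q.Psi n) :
    ∃ P : ℕ → X2 M, VS D lam Q.r (fun n => ⟨Q.Phi n, (hw n).2.1⟩) (fun n x => 1 - Q.nal n x)
      Q.jj P T := by
  have hsa : ∀ n, SmoothF E4 (fun x => 1 - Q.nal n x) := fun n =>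
    En4.sF_sub (En4.sF_const 1) (smooth_nal h n)
  have hca : ∀ n, Continuous fun x => Q.nal n x := fun n => En4.sF_continuous (smooth_nal h n)
  have hce := fun n => cont_neta h n
  set P : ℕ → X2 M := fun n => T n - En4.fX (fun x => 1 - Q.nal n x) (hsa n) ⟨Q.Phi n, (hw n).2.1⟩
    with hP
  have hP1 : ∀ n x, at2 (P n : F2 E4 M) x =
      (at2 (T n : F2 E4 M) x - (1 - Q.nal n x) • at2 (Q.Phi n) x : Bil) := fun n x => rfl
  have hP2 : ∀ n, (P n : F2 E4 M) = PP Q n := by
    intro n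
    funext x
    show at2 (P n : F2 E4 M) x = at2 (PP Q n) x
    rw [hP1, at2_PP, hT n, (hw n).2.2.2.2.2 x, add_sub_cancel_left, Finset.smul_sum]
    rfl
  have hJ := D.sq
  refine ⟨P, ?_⟩
  exact {
    lam_pos := h.lam_pos
    r_pos := hr
    r_lim := h.rinf
    clΦ := fun n => (hw n).2.2.1
    sma := hsa
    smj := fun n => (hw n).1
    Tdj := fun n => (hT n).trans rfl
    Tap := fun n x => by
      rw [hP1]
      show _ = (1 - Q.nal n x) • at2 (Q.Phi n) x +
        (at2 (T n : F2 E4 M) x - (1 - Q.nal n x) • at2 (Q.Phi n) x)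
      rw [add_sub_cancel]
    l2 := by
      have h1 : ∀ᶠ n in atTop, (Q.r n)⁻¹ * ∫ x, nsqG D.J D.F (Q.Phi n) x ∂D.μ ≤ C := by
        filter_upwards [h.e3] with n hn
        have := hr n
        calc (Q.r n)⁻¹ * ∫ x, nsqG D.J D.F (Q.Phi n) x ∂D.μ ≤ (Q.r n)⁻¹ * (C * Q.r n) := by gcongr
          _ = C := by field_simp
      obtain ⟨C', hC'⟩ := all_of_ev h1
      refine ⟨C', fun n => ?_⟩
      have h2 := hC' n
      have h3 := hr n
      rw [inv_mul_le_iff₀ h3] at h2
      show ∫ x, nsqG D.J D.F (Q.Phi n) x ∂D.μ ≤ _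
      linarith
    e1 := h.o1
    e2 := h.o2
    e3 := all_of_ev h.e2
    e4 := by
      have h1 : ∀ᶠ n in atTop, ∫ x, (Q.nal n x + Q.neta D n x) / 2 ∂D.μ ≤
          (2 * D.μ.real univ + C + C) / 2 := by
        filter_upwards [h.e1, h.e2, h.rinf.eventually_ge_atTop 1] with n k1 k2 k3
        have c1 := hca n
        have c2 := hce n
        have c3 : 0 ≤ ∫ x, (1 - Q.nal n x) ^ 2 ∂D.μ := integral_nonneg fun x => sq_nonneg _
        have k4 : ∫ x, (1 - Q.nal n x) ^ 2 ∂D.μ ≤ C := by nlinarith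
        have := D.fin
        have k5 : ∫ x, Q.nal n x ∂D.μ ≤ ∫ x, (2 + (1 - Q.nal n x) ^ 2) ∂D.μ := by
          refine integral_mono (En4.integrable_cont D c1) (En4.integrable_cont D (by fun_prop))
            fun x => ?_
          show Q.nal n x ≤ 2 + (1 - Q.nal n x) ^ 2
          nlinarith [sq_nonneg (Q.nal n x - 3 / 2)]
        rw [integral_add (integrable_const _) (En4.integrable_cont D (by fun_prop)),
          integral_const, smul_eq_mul] at k5
        rw [integral_div, integral_add (En4.integrable_cont D c1) (En4.integrable_cont D c2)]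
        linarith
      obtain ⟨C', hC'⟩ := all_of_ev h1
      refine ⟨C', fun n => ⟨fun x => (Q.nal n x + Q.neta D n x) / 2, fun x => ?_, ?_, hC' n,
        fun x => sqrt_m1_jj n x⟩⟩
      · have h1 := nal_nonneg (Q := Q) n x
        have h2 := neta_nonneg h n x
        positivity
      · have c1 := hca n
        have c2 := hce n
        exact En4.integrable_cont D (by fun_prop)
    e5 := by
      have h1 : ∀ᶠ n in atTop, ∫ x, D.nr (P n : F2 E4 M) x ∂D.μ ≤ C := by
        filter_upwards [h.e1] with n k1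
        refine (integral_mono (En4.integrable_cont D (En4.cont_nr D (P n).2))
          (En4.integrable_cont D (hce n)) fun x => ?_).trans k1
        rw [hP2 n]
        exact nr_PP n x
      exact all_of_ev h1
    e6 := ⟨er D Q, fun n => cont_er h n, er_tendsto h, fun n x => by
      rw [hP2 n]; exact pos_PP h n x, fun n x => by rw [hP2 n]; exact nr_bpp_PP n x⟩ }

/-- **POSDOM2** from `PTW`. -/
theorem posdom2 (hw : PTW.{u}) : SwcAn_34.POSDOM2.{u} := by
  intro M _ _ _ _ _ _ D N Q lam C hQ hr T hT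
  have hw' := hw M D N Q atTop lam C hQ
  obtain ⟨P, hP⟩ := vs_of hQ hr hw' hT
  refine hP.exists_lim (E := fun b => D.I ((Q.a0 0).1.1 : F2 E4 M) (b : F2 E4 M)) fun n b => ?_
  set th : X2 M := ⟨dG (Q.θ n), Smooth2.dG (hQ.smθ n)⟩ with hth
  have e1 : (⟨Q.Phi n, (hw' n).2.1⟩ : X2 M) = (2 * Real.pi) • (Q.a0 n).1 + th := Subtype.ext rfl
  have e2 : D.I (th : F2 E4 M) (b.1 : F2 E4 M) = 0 :=
    Int.dat_stokes D (isEx_dG (hQ.smθ n)) b.1.2 b.2
  have e3 := En4.I_add_left D ((2 * Real.pi) • (Q.a0 n).1) th b.1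
  rw [← e1, e2, add_zero, En4.I_smul_left] at e3
  rw [e3, SwcAn_34.I_eq_of_cls D (Q.a0 n) (Q.a0 0) b (hQ.cls0 n)]

end

end Crest.Agent.R235.SwcPos_34
end

-- ▼ part R235/SwcPsid_370
section

/-!
Row 235 (S0364), PACKAGE SWC-AN, leaf PSID (helper370): `psi = d (A + jf)`.
-/

set_option autoImplicit false

open Set MeasureTheory Filter Topology
open scoped ContDiff

namespace Crest.Agent.R235.SwcPsid_370

open SwcDefs_34

noncomputable section

variable {V : Type} [NormedAddCommGroup V] [NormedSpace ℝ V] {α : V → ℂ} {A : V → V →L[ℝ] ℝ}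

theorem re_eta (p v : V) : (eta α A p v).re = (fderiv ℝ α p v).re + (α p).im * A p v := by
  simp [eta]
  ring

theorem im_eta (p v : V) : (eta α A p v).im = (fderiv ℝ α p v).im - (α p).re * A p v := by
  simp [eta]
  ring

theorem jf_apply (p v : V) : jf α A p v = (α p).re * (fderiv ℝ α p v).im -
    (α p).im * (fderiv ℝ α p v).re - ‖α p‖ ^ 2 * A p v := by
  have h : jf α A p v = (α p).re * (eta α A p v).im - (α p).im * (eta α A p v).re := by
    simp [jf]
  rw [h, re_eta, im_eta, ← Complex.normSq_eq_norm_sq, Complex.normSq_apply]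
  ring

/-- `A + jf` in components. -/
theorem B_eq : (fun p => A p + jf α A p) = fun p =>
    A p + ((α p).re • (Complex.imCLM.comp (fderiv ℝ α p)) -
      (α p).im • (Complex.reCLM.comp (fderiv ℝ α p)) -
        ((α p).re * (α p).re + (α p).im * (α p).im) • A p) := by
  funext p
  ext v
  rw [add_apply, jf_apply, ← Complex.normSq_eq_norm_sq, Complex.normSq_apply]
  simp

theorem smooth_B (hα : ContDiff ℝ ∞ α) (hA : ContDiff ℝ ∞ A) :
    ContDiff ℝ ∞ (fun p => A p + jf α A p) := by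
  rw [B_eq]
  have hD : ContDiff ℝ ∞ (fderiv ℝ α) := hα.fderiv_right (by simp)
  have ha : ContDiff ℝ ∞ fun p => (α p).re := Complex.reCLM.contDiff.comp hα
  have hb : ContDiff ℝ ∞ fun p => (α p).im := Complex.imCLM.contDiff.comp hα
  have h1 : ContDiff ℝ ∞ fun p => Complex.imCLM.comp (fderiv ℝ α p) :=
    contDiff_const.clm_comp hD
  have h2 : ContDiff ℝ ∞ fun p => Complex.reCLM.comp (fderiv ℝ α p) :=
    contDiff_const.clm_comp hD
  exact hA.add (((ha.smul h1).sub (hb.smul h2)).sub (((ha.mul ha).add (hb.mul hb)).smul hA))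

/-- the derivative of `q ↦ B q v`. -/
theorem fderiv_B (hα : ContDiff ℝ ∞ α) (hA : ContDiff ℝ ∞ A) (p u v : V) :
    fderiv ℝ (fun p => A p + jf α A p) p u v =
      fderiv ℝ A p u v +
        ((fderiv ℝ α p u).re * (fderiv ℝ α p v).im +
          (α p).re * (fderiv ℝ (fderiv ℝ α) p u v).im -
          ((fderiv ℝ α p u).im * (fderiv ℝ α p v).re +
            (α p).im * (fderiv ℝ (fderiv ℝ α) p u v).re) -
          (2 * ((α p).re * (fderiv ℝ α p u).re + (α p).im * (fderiv ℝ α p u).im) * A p v +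
            ((α p).re * (α p).re + (α p).im * (α p).im) * fderiv ℝ A p u v)) := by
  have hD : ContDiff ℝ ∞ (fderiv ℝ α) := hα.fderiv_right (by simp)
  have h0 : HasFDerivAt (fun p => A p + jf α A p) (fderiv ℝ (fun p => A p + jf α A p) p) p :=
    ((smooth_B hα hA).differentiable (by simp) p).hasFDerivAt
  have h1 : HasFDerivAt (fun q => (A q + jf α A q) v)
      ((ContinuousLinearMap.apply ℝ ℝ v).comp (fderiv ℝ (fun p => A p + jf α A p) p)) p :=
    (ContinuousLinearMap.apply ℝ ℝ v).hasFDerivAt.comp p h0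
  have hα1 : HasFDerivAt α (fderiv ℝ α p) p := (hα.differentiable (by simp) p).hasFDerivAt
  have ha : HasFDerivAt (fun q => (α q).re) (Complex.reCLM.comp (fderiv ℝ α p)) p :=
    Complex.reCLM.hasFDerivAt.comp p hα1
  have hb : HasFDerivAt (fun q => (α q).im) (Complex.imCLM.comp (fderiv ℝ α p)) p :=
    Complex.imCLM.hasFDerivAt.comp p hα1
  have hD1 : HasFDerivAt (fderiv ℝ α) (fderiv ℝ (fderiv ℝ α) p) p :=
    (hD.differentiable (by simp) p).hasFDerivAt
  have hDv : HasFDerivAt (fun q => fderiv ℝ α q v)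
      ((ContinuousLinearMap.apply ℝ ℂ v).comp (fderiv ℝ (fderiv ℝ α) p)) p :=
    (ContinuousLinearMap.apply ℝ ℂ v).hasFDerivAt.comp p hD1
  have hDr : HasFDerivAt (fun q => (fderiv ℝ α q v).re) (Complex.reCLM.comp
      ((ContinuousLinearMap.apply ℝ ℂ v).comp (fderiv ℝ (fderiv ℝ α) p))) p :=
    Complex.reCLM.hasFDerivAt.comp p hDv
  have hDi : HasFDerivAt (fun q => (fderiv ℝ α q v).im) (Complex.imCLM.comp
      ((ContinuousLinearMap.apply ℝ ℂ v).comp (fderiv ℝ (fderiv ℝ α) p))) p :=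
    Complex.imCLM.hasFDerivAt.comp p hDv
  have hA1 : HasFDerivAt A (fderiv ℝ A p) p := (hA.differentiable (by simp) p).hasFDerivAt
  have hAv : HasFDerivAt (fun q => A q v)
      ((ContinuousLinearMap.apply ℝ ℝ v).comp (fderiv ℝ A p)) p :=
    (ContinuousLinearMap.apply ℝ ℝ v).hasFDerivAt.comp p hA1
  have h2 := hAv.add (((ha.mul hDi).sub (hb.mul hDr)).sub
    (((ha.mul ha).add (hb.mul hb)).mul hAv))
  have h3 : (fun q => (A q + jf α A q) v) = fun q =>
      A q v + ((α q).re * (fderiv ℝ α q v).im - (α q).im * (fderiv ℝ α q v).re -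
        ((α q).re * (α q).re + (α q).im * (α q).im) * A q v) := by
    funext q
    rw [add_apply, jf_apply, ← Complex.normSq_eq_norm_sq,
      Complex.normSq_apply]
  rw [h3] at h1
  have h4 := congrArg (fun L : V →L[ℝ] ℝ => L u) (h1.unique h2)
  simp only [ContinuousLinearMap.comp_apply, ContinuousLinearMap.apply_apply,
    add_apply, sub_apply, smul_apply, Pi.add_apply, Pi.mul_apply,
    smul_eq_mul, Complex.reCLM_apply, Complex.imCLM_apply] at h4
  rw [h4]
  ring

/-- **PSID**: `psi = d (A + jf)`. -/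
theorem psid : PSID := by
  intro V _ _ α A hα hA
  refine ⟨smooth_B hα hA, fun p => ?_⟩
  ext u v
  have hsym : fderiv ℝ (fderiv ℝ α) p u v = fderiv ℝ (fderiv ℝ α) p v u := by
    have h : IsSymmSndFDerivAt ℝ α p := (hα.contDiffAt).isSymmSndFDerivAt
      (by
        rw [minSmoothness_of_isRCLikeNormedField]
        exact WithTop.coe_le_coe.2 (le_top : (2 : ℕ∞) ≤ ⊤))
    exact h.eq u v
  have h1 : dd (fun p => A p + jf α A p) p u v =
      fderiv ℝ (fun p => A p + jf α A p) p u v - fderiv ℝ (fun p => A p + jf α A p) p v u := by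
    simp [dd]
  have h2 : psi α A p u v = (1 - ‖α p‖ ^ 2) * (fderiv ℝ A p u v - fderiv ℝ A p v u) +
      2 * ((eta α A p u).re * (eta α A p v).im - (eta α A p u).im * (eta α A p v).re) := by
    simp [psi, dd, wdg]
  rw [h1, h2, fderiv_B hα hA, fderiv_B hα hA, hsym, re_eta, re_eta, im_eta, im_eta,
    ← Complex.normSq_eq_norm_sq, Complex.normSq_apply]
  ring

end

end Crest.Agent.R235.SwcPsid_370
end

-- ▼ part R235/SwcPair_659
section

/-!
Row 235 (S0364), PACKAGE SWC-AN, helper659: the PAIRING FORMULA (part (i) of QCH).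

`tst x L z f i j` = the two-form `f (L⁻¹ (y - z)) (L⁻¹)^* (dx_i ∧ dx_j)` in the chart at `x`.
`pairing`: `D.I T (tst 2 3) = ± ∫ f(p) T_{z + L p} (L b0, L b1) dp` and the same for `(0,1)`.
-/

set_option autoImplicit false
set_option maxSynthPendingDepth 3

open Set Function Filter MeasureTheory Metric
open scoped Manifold ContDiff Topology

universe u

namespace Crest.Agent.R235.SwcPair_659

open Crest.Agent.R240 Crest.Agent.R240.Ch Crest.Agent.R240.Int Crest.Agent.R235
open Crest.Agent.R235.SwcDefs_34 Crest.Agent.R235.SwcGlob_34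

noncomputable section

/-! ### coordinates -/

/-- `V4 → E4`. -/
def κ : V4 ≃L[ℝ] E4 := LinearEquiv.toContinuousLinearEquiv
  { toFun := fun p => WithLp.toLp 2 ![p.1.1, p.1.2, p.2.1, p.2.2]
    invFun := fun y => ((y 0, y 1), (y 2, y 3))
    map_add' := by
      intro p q
      ext i
      fin_cases i <;> simp
    map_smul' := by
      intro r p
      ext i
      fin_cases i <;> simp
    left_inv := by
      intro p
      simp
    right_inv := by
      intro y
      ext i
      fin_cases i <;> simp }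

theorem κ_apply (p : V4) : κ p = WithLp.toLp 2 ![p.1.1, p.1.2, p.2.1, p.2.2] := rfl


theorem κ_b0 : κ b0 = ee 0 := by
  ext i
  rw [κ_apply]
  fin_cases i <;> simp [b0]

theorem κ_b1 : κ b1 = ee 1 := by
  ext i
  rw [κ_apply]
  fin_cases i <;> simp [b1]

theorem κ_b2 : κ b2 = ee 2 := by
  ext i
  rw [κ_apply]
  fin_cases i <;> simp [b2]

theorem κ_b3 : κ b3 = ee 3 := by
  ext i
  rw [κ_apply]
  fin_cases i <;> simp [b3]

theorem mp_κ : MeasurePreserving κ (volume : Measure V4) (volume : Measure E4) := by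
  have h1 : MeasurePreserving (fun p : V4 => (![p.1.1, p.1.2, p.2.1, p.2.2] : Fin 4 → ℝ))
      volume volume := by
    have hm : Measurable (fun p : V4 => (![p.1.1, p.1.2, p.2.1, p.2.2] : Fin 4 → ℝ)) := by
      refine measurable_pi_lambda _ fun i => ?_
      fin_cases i
      · exact measurable_fst.fst
      · exact measurable_fst.snd
      · exact measurable_snd.fst
      · exact measurable_snd.snd
    refine ⟨hm, ?_⟩
    symm
    refine Measure.pi_eq fun s hs => ?_
    rw [Measure.map_apply hm (MeasurableSet.univ_pi hs)]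
    have e : (fun p : V4 => (![p.1.1, p.1.2, p.2.1, p.2.2] : Fin 4 → ℝ)) ⁻¹' (univ.pi s) =
        (s 0 ×ˢ s 1) ×ˢ (s 2 ×ˢ s 3) := by
      ext p
      simp only [mem_preimage, mem_univ_pi, Fin.forall_fin_succ, mem_prod]
      simp [and_assoc]
    rw [e]
    show (Measure.prod (Measure.prod volume volume) (Measure.prod volume volume))
      ((s 0 ×ˢ s 1) ×ˢ (s 2 ×ˢ s 3)) = _
    rw [Measure.prod_prod, Measure.prod_prod, Measure.prod_prod, Fin.prod_univ_four]
    ring
  exact (PiLp.volume_preserving_toLp (Fin 4)).comp h1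

/-- the linear part in `E4`. -/
def Am (L : V4 ≃L[ℝ] E4) : E4 ≃L[ℝ] E4 := κ.symm.trans L

theorem Am_κ (L : V4 ≃L[ℝ] E4) (p : V4) : Am L (κ p) = L p := by
  show L (κ.symm (κ p)) = L p
  rw [κ.symm_apply_apply]

theorem Am_symm (L : V4 ≃L[ℝ] E4) (y : E4) : (Am L).symm y = κ (L.symm y) := rfl

/-- the determinant. -/
def dt (L : V4 ≃L[ℝ] E4) : ℝ := LinearMap.det ((Am L : E4 →L[ℝ] E4) : E4 →ₗ[ℝ] E4)

theorem dt_ne (L : V4 ≃L[ℝ] E4) : dt L ≠ 0 := by
  have h : IsUnit (LinearMap.det (((Am L).toLinearEquiv : E4 ≃ₗ[ℝ] E4) : E4 →ₗ[ℝ] E4)) :=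
    (Am L).toLinearEquiv.isUnit_det'
  exact h.ne_zero

/-- change of variables. -/
theorem cov_L (L : V4 ≃L[ℝ] E4) (z : E4) (g : E4 → ℝ) :
    ∫ y, g y = |dt L| * ∫ p : V4, g (z + L p) := by
  have h1 : ∫ p : V4, g (z + L p) = ∫ w : E4, g (z + Am L w) := by
    have := mp_κ.integral_comp κ.toHomeomorph.measurableEmbedding (fun w => g (z + Am L w))
    rw [← this]
    simp only [Am_κ]
  have h2 : ∫ w : E4, g (z + Am L w) = |(dt L)⁻¹| * ∫ y : E4, g (z + y) := by
    have h3 : Measure.map (Am L) (volume : Measure E4) =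
        ENNReal.ofReal |(dt L)⁻¹| • (volume : Measure E4) :=
      Measure.map_linearMap_addHaar_eq_smul_addHaar (μ := (volume : Measure E4))
        (f := ((Am L : E4 →L[ℝ] E4) : E4 →ₗ[ℝ] E4)) (dt_ne L)
    have h4 := (Am L).toHomeomorph.measurableEmbedding.integral_map (μ := (volume : Measure E4))
      (fun y => g (z + y))
    have h5 : Measure.map (Am L).toHomeomorph (volume : Measure E4) =
      ENNReal.ofReal |(dt L)⁻¹| • (volume : Measure E4) := h3
    rw [h5, integral_smul_measure, ENNReal.toReal_ofReal (abs_nonneg _)] at h4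
    rw [← smul_eq_mul, h4]
    rfl
  have h3 : ∫ y : E4, g (z + y) = ∫ y, g y := integral_add_left_eq_self g z
  rw [h1, h2, h3, ← mul_assoc, ← abs_mul, mul_inv_cancel₀ (dt_ne L), abs_one, one_mul]

/-! ### the test forms -/

/-- the form `(L⁻¹)^* (dx_i ∧ dx_j)`. -/
def bas (L : V4 ≃L[ℝ] E4) (i j : Fin 4) : Bil := pull ((Am L).symm : E4 →L[ℝ] E4) (wed (pr i) (pr j))

theorem bas_apply (L : V4 ≃L[ℝ] E4) (i j : Fin 4) (u v : E4) :
    bas L i j u v = κ (L.symm u) i * κ (L.symm v) j - κ (L.symm v) i * κ (L.symm u) j := by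
  unfold bas
  rw [pull_apply, wed_apply]
  show (Am L).symm u i * (Am L).symm v j - _ = _
  rw [Am_symm, Am_symm]
  show _ - (κ (L.symm u)) j * (κ (L.symm v)) i = _
  ring

theorem bas_alt (L : V4 ≃L[ℝ] E4) (i j : Fin 4) : Alt (bas L i j) := fun v => by
  rw [bas_apply]; ring

/-- the form in the chart. -/
def tb (L : V4 ≃L[ℝ] E4) (z : E4) (f : V4 → ℝ) (i j : Fin 4) (y : E4) : Bil :=
  f (L.symm (y - z)) • bas L i j

theorem tb_alt (L : V4 ≃L[ℝ] E4) (z : E4) (f : V4 → ℝ) (i j : Fin 4) (y : E4) :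
    Alt (tb L z f i j y) := fun v => by
  unfold tb
  rw [smul_apply, smul_apply, bas_alt L i j v, smul_zero]

theorem tb_smooth (L : V4 ≃L[ℝ] E4) (z : E4) {f : V4 → ℝ} (hf : ContDiff ℝ ∞ f) (i j : Fin 4) :
    ContDiff ℝ ∞ (tb L z f i j) := by
  have h1 : ContDiff ℝ ∞ fun y : E4 => f (L.symm (y - z)) :=
    hf.comp (L.symm.contDiff.comp (contDiff_id.sub contDiff_const))
  exact h1.smul contDiff_const

/-- `W` against a basic form. -/
theorem W_bas {b : Bil} (hb : Alt b) (L : V4 ≃L[ℝ] E4) :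
    W b (bas L 2 3) = (dt L)⁻¹ * b (L b0) (L b1) ∧
      W b (bas L 0 1) = (dt L)⁻¹ * b (L b2) (L b3) := by
  have key : ∀ i j : Fin 4, W b (bas L i j) =
      (dt L)⁻¹ * W (pull (Am L : E4 →L[ℝ] E4) b) (wed (pr i) (pr j)) := by
    intro i j
    have h1 := W_pull hb (bas_alt L i j) (Am L : E4 →L[ℝ] E4)
    have h2 : pull (Am L : E4 →L[ℝ] E4) (bas L i j) = wed (pr i) (pr j) := by
      ext u v
      unfold bas
      rw [pull_apply, pull_apply]
      show wed (pr i) (pr j) ((Am L).symm (Am L u)) ((Am L).symm (Am L v)) = _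
      rw [(Am L).symm_apply_apply, (Am L).symm_apply_apply]
    rw [h2] at h1
    have h3 : LinearMap.det ((Am L : E4 →L[ℝ] E4) : E4 →ₗ[ℝ] E4) = dt L := rfl
    rw [h1, h3, ← mul_assoc, inv_mul_cancel₀ (dt_ne L), one_mul]
  have hent : ∀ i j k l : Fin 4, ent (wed (pr i) (pr j)) k l =
      (ee k) i * (ee l) j - (ee l) i * (ee k) j := by
    intro i j k l
    unfold ent
    rw [wed_apply]
    show (ee k) i * (ee l) j - (ee k) j * (ee l) i = _
    ring
  have hL : ∀ p, (Am L : E4 →L[ℝ] E4) (κ p) = L p := fun p => Am_κ L p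
  constructor
  · rw [key 2 3]
    congr 1
    have : W (pull (Am L : E4 →L[ℝ] E4) b) (wed (pr 2) (pr 3)) =
        ent (pull (Am L : E4 →L[ℝ] E4) b) 0 1 := by
      unfold W
      simp [hent]
    rw [this]
    unfold ent
    rw [pull_apply, ← κ_b0, ← κ_b1, hL, hL]
  · rw [key 0 1]
    congr 1
    have : W (pull (Am L : E4 →L[ℝ] E4) b) (wed (pr 0) (pr 1)) =
        ent (pull (Am L : E4 →L[ℝ] E4) b) 2 3 := by
      unfold W
      simp [hent]
    rw [this]
    unfold ent
    rw [pull_apply, ← κ_b2, ← κ_b3, hL, hL]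

/-! ### on the manifold -/

section Man

variable {M : Type u} [MetricSpace M] [CompactSpace M] [ChartedSpace E4 M]
  [IsManifold 𝓘(ℝ, E4) ∞ M] [MeasurableSpace M] [BorelSpace M]

/-- the test form. -/
def tst (x : M) (L : V4 ≃L[ℝ] E4) (z : E4) (f : V4 → ℝ) (i j : Fin 4) : F2 E4 M :=
  ext2 x (tb L z f i j)

omit [CompactSpace M] [MeasurableSpace M] [BorelSpace M] [IsManifold 𝓘(ℝ, E4) ∞ M] in
theorem tb_off (L : V4 ≃L[ℝ] E4) {z : E4} {f : V4 → ℝ} (i j : Fin 4) {y : E4}
    (hy : y ∉ (fun p => z + L p) '' tsupport f) : tb L z f i j y = 0 := by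
  have h : f (L.symm (y - z)) = 0 := by
    by_contra h0
    refine hy ⟨L.symm (y - z), subset_tsupport _ h0, ?_⟩
    show z + L (L.symm (y - z)) = y
    rw [L.apply_symm_apply]
    abel
  unfold tb
  rw [h, zero_smul]

theorem cpt_im (L : V4 ≃L[ℝ] E4) (z : E4) {f : V4 → ℝ} (hc : HasCompactSupport f) :
    IsCompact ((fun p => z + L p) '' tsupport f) :=
  hc.image (continuous_const.add L.continuous)

omit [CompactSpace M] [MeasurableSpace M] [BorelSpace M] in
theorem tst_smooth (x : M) (L : V4 ≃L[ℝ] E4) {z : E4} {f : V4 → ℝ} (hf : ContDiff ℝ ∞ f)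
    (hc : HasCompactSupport f) (hs : ∀ p ∈ tsupport f, z + L p ∈ (chartAt E4 x).target)
    (i j : Fin 4) : Smooth2 (tst x L z f i j) :=
  Ell.smooth2_ext2 (tb_smooth L z hf i j) (cpt_im L z hc)
    (by rintro _ ⟨p, hp, rfl⟩; exact hs p hp) (fun _ hy => tb_off L i j hy) (tb_alt L z f i j)

omit [CompactSpace M] [MeasurableSpace M] [BorelSpace M] in
theorem rep_tst (x : M) (L : V4 ≃L[ℝ] E4) (z : E4) (f : V4 → ℝ) (i j : Fin 4) {y : E4}
    (hy : y ∈ (chartAt E4 x).target) : rep x (tst x L z f i j) y = tb L z f i j y :=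
  Ell.rep_ext2 hy _

omit [CompactSpace M] [MeasurableSpace M] [BorelSpace M] in
theorem q_rep {F b c : F2 E4 M} (hF : ∀ x, Alt (at2 F x)) (hb : ∀ x, Alt (at2 b x))
    (hc : ∀ x, Alt (at2 c x)) {x : M} {y : E4} (hy : y ∈ (chartAt E4 x).target) :
    qG F b c ((chartAt E4 x).symm y) = q (rep x F y) (rep x b y) (rep x c y) := by
  unfold qG q
  rw [W_rep hb hc, W_rep hF hF]
  have h := det_tcc_ne ((chartAt E4 x).map_target hy)
  rw [mul_div_mul_left _ _ h]

/-- the pairing with a form supported in a chart. -/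
theorem I_chart (D : Dat M) (T b : X2 M) {x : M}
    (hb : ∀ y ∉ (chartAt E4 x).source, at2 (b : F2 E4 M) y = 0) :
    D.I (T : F2 E4 M) (b : F2 E4 M) = ∫ y in (chartAt E4 x).target,
      sg D.F x y * W (rep x (T : F2 E4 M) y) (rep x (b : F2 E4 M) y) := by
  have hF := dat_volF D
  have hcont : Continuous (qG D.F (T : F2 E4 M) (b : F2 E4 M)) :=
    En4.sF_continuous (En4.sF_qG D T.2 b.2)
  have h1 : D.I (T : F2 E4 M) (b : F2 E4 M) =
      ∫ y in (chartAt E4 x).source, qG D.F (T : F2 E4 M) (b : F2 E4 M) y ∂D.μ := by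
    unfold Dat.I IG
    rw [setIntegral_eq_integral_of_forall_compl_eq_zero fun y hy => ?_]
    unfold qG
    rw [hb y hy, En4.q_zero_right]
  rw [h1, isVol_setIntegral hF (dat_isVol D) x hcont.aestronglyMeasurable]
  refine setIntegral_congr_fun (chartAt E4 x).open_target.measurableSet fun y hy => ?_
  show dens D.F x y • qG D.F (T : F2 E4 M) (b : F2 E4 M) ((chartAt E4 x).symm y) = _
  rw [q_rep hF.alt T.2.1 b.2.1 hy, smul_eq_mul, dens_mul_q hF hy]

/-- the sign is constant on balls in the chart. -/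
theorem sg_const (D : Dat M) (x : M) {R : ℝ} (hR : 0 < R)
    (hsub : closedBall (chartAt E4 x x) R ⊆ (chartAt E4 x).target) {y : E4}
    (hy : y ∈ ball (chartAt E4 x x) R) : sg D.F x y = sg D.F x (chartAt E4 x x) := by
  have hF := dat_volF D
  have hsub' : ball (chartAt E4 x x) R ⊆ (chartAt E4 x).target :=
    ball_subset_closedBall.trans hsub
  have hpre : IsPreconnected (ball (chartAt E4 x x) R) := (convex_ball _ _).isPreconnected
  have hdisc : ({-1, 0, 1} : Set ℝ).Finite := by simp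
  refine hpre.constant_of_mapsTo hdisc.isDiscrete ?_ ?_ hy (mem_ball_self hR)
  · intro z hz
    have h1 : sg D.F x =ᶠ[𝓝 z] fun _ => sg D.F x z := sg_locally_const hF (hsub' hz)
    exact (continuousAt_const.congr h1.symm).continuousWithinAt
  · intro z hz
    unfold sg
    rcases h : SignType.sign (W (rep x D.F z) (rep x D.F z)) <;> simp

theorem abs_sg (D : Dat M) {x : M} {y : E4} (hy : y ∈ (chartAt E4 x).target) :
    |sg D.F x y| = 1 := by
  have h := (dat_volF D).rep_ne hy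
  unfold sg
  rcases lt_or_gt_of_ne h with h1 | h1
  · rw [sign_neg h1]; simp
  · rw [sign_pos h1]; simp

/-- **PAIRING FORMULA**. -/
theorem pairing (D : Dat M) (x : M) {R : ℝ} (hR : 0 < R)
    (hsub : closedBall (chartAt E4 x x) R ⊆ (chartAt E4 x).target) (L : V4 ≃L[ℝ] E4) :
    ∃ σ : ℝ, |σ| = 1 ∧ ∀ (z : E4) (f : V4 → ℝ), ContDiff ℝ ∞ f → HasCompactSupport f →
      (∀ p ∈ tsupport f, z + L p ∈ ball (chartAt E4 x x) R) → ∀ T : X2 M,
      D.I (T : F2 E4 M) (tst x L z f 2 3) =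
        σ * ∫ p : V4, f p * rep x (T : F2 E4 M) (z + L p) (L b0) (L b1) ∧
      D.I (T : F2 E4 M) (tst x L z f 0 1) =
        σ * ∫ p : V4, f p * rep x (T : F2 E4 M) (z + L p) (L b2) (L b3) := by
  have hsub' : ball (chartAt E4 x x) R ⊆ (chartAt E4 x).target :=
    ball_subset_closedBall.trans hsub
  set s0 := sg D.F x (chartAt E4 x x) with hs0
  have hs01 : |s0| = 1 := abs_sg D (hsub' (mem_ball_self hR))
  refine ⟨s0 * ((dt L)⁻¹ * |dt L|), ?_, ?_⟩
  · rw [abs_mul, abs_mul, abs_abs, abs_inv, inv_mul_cancel₀ (abs_ne_zero.2 (dt_ne L)), mul_one,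
      hs01]
  intro z f hf hc hs T
  have hst : ∀ p ∈ tsupport f, z + L p ∈ (chartAt E4 x).target := fun p hp => hsub' (hs p hp)
  -- common computation
  have key : ∀ (i j : Fin 4) (u v : E4),
      (∀ b : Bil, Alt b → W b (bas L i j) = (dt L)⁻¹ * b u v) →
      D.I (T : F2 E4 M) (tst x L z f i j) =
        s0 * ((dt L)⁻¹ * |dt L|) * ∫ p : V4, f p * rep x (T : F2 E4 M) (z + L p) u v := by
    intro i j u v hW
    have hb : Smooth2 (tst x L z f i j) := tst_smooth x L hf hc hst i j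
    have h1 := I_chart D T ⟨tst x L z f i j, hb⟩ (x := x) (fun y hy => by
      show at2 (ext2 x (tb L z f i j)) y = 0
      exact Ell.at2_ext2_off hy _)
    have h2 : ∀ y ∈ (chartAt E4 x).target,
        sg D.F x y * W (rep x (T : F2 E4 M) y) (rep x (tst x L z f i j) y) =
          s0 * (dt L)⁻¹ * (f (L.symm (y - z)) * rep x (T : F2 E4 M) y u v) := by
      intro y hy
      rw [rep_tst x L z f i j hy]
      unfold tb
      rw [W_smul_right, hW _ (rep_alt T.2.1 x y)]
      by_cases h0 : f (L.symm (y - z)) = 0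
      · rw [h0]; ring
      · have h3 : y ∈ ball (chartAt E4 x x) R := by
          have h4 := hs _ (subset_tsupport _ h0)
          rw [L.apply_symm_apply] at h4
          have h5 : z + (y - z) = y := by abel
          rwa [h5] at h4
        rw [sg_const D x hR hsub h3]
        ring
    have h3 : D.I (T : F2 E4 M) (tst x L z f i j) = ∫ y in (chartAt E4 x).target,
        s0 * (dt L)⁻¹ * (f (L.symm (y - z)) * rep x (T : F2 E4 M) y u v) := by
      refine h1.trans ?_
      exact setIntegral_congr_fun (chartAt E4 x).open_target.measurableSet h2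
    have h4 : ∫ y in (chartAt E4 x).target,
        s0 * (dt L)⁻¹ * (f (L.symm (y - z)) * rep x (T : F2 E4 M) y u v) =
        ∫ y, s0 * (dt L)⁻¹ * (f (L.symm (y - z)) * rep x (T : F2 E4 M) y u v) := by
      refine setIntegral_eq_integral_of_forall_compl_eq_zero fun y hy => ?_
      have h5 : f (L.symm (y - z)) = 0 := by
        by_contra h0
        have h6 := hst _ (subset_tsupport _ h0)
        rw [L.apply_symm_apply] at h6
        have h7 : z + (y - z) = y := by abel
        rw [h7] at h6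
        exact hy h6
      rw [h5]; ring
    rw [h3, h4, integral_const_mul, cov_L L z]
    have h5 : ∀ p : V4, f (L.symm (z + L p - z)) = f p := by
      intro p
      have : z + L p - z = L p := by abel
      rw [this, L.symm_apply_apply]
    simp only [h5]
    ring
  exact ⟨key 2 3 _ _ fun b hb => (W_bas hb L).1, key 0 1 _ _ fun b hb => (W_bas hb L).2⟩

end Man

end

end Crest.Agent.R235.SwcPair_659
end

-- ▼ part R235/SwcLoc_924
section

/-!
Row 235 (S0364), PACKAGE SWC-AN (helper34), task 428: **LOCREP** (helper924).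

Unit sections of the line bundles on small balls: `s = col (p z) m`, `f = ⟨s, α⟩`,
`A = θ + 2π conn s` (`dG (conn s) = a0`); then `eta = s ⊗ (df - i A f)`, `|f| = |α|` and
`psi f A = rep Psi`.
-/

set_option autoImplicit false
set_option maxSynthPendingDepth 3
set_option linter.unusedSectionVars false

open Set Function Filter MeasureTheory Metric
open scoped Manifold ContDiff Topology ComplexConjugate Matrix

universe u

namespace Crest.Agent.R235.SwcLoc_924

open Crest.Agent.R240 Crest.Agent.R240.Ch Crest.Agent.R240.Int Crest.Agent.R235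
open Crest.Agent.R235.SwcDefs_34 Crest.Agent.R235.SwcGlob_34 Crest.Agent.R235.Loc_524
open Crest.Agent.R235.Lb453

noncomputable section

/-! ### identities on the manifold -/

section man

variable {M : Type u} [MetricSpace M] [CompactSpace M] [ChartedSpace E4 M]
  [IsManifold 𝓘(ℝ, E4) ∞ M] {N : ℕ}

variable (p : M → Matrix (Fin N) (Fin N) ℂ) (m : Fin N) (α : M → Fin N → ℂ) (θ : F1 E4 M)

/-- the coefficient of `α` -/
def ff (z : M) : ℂ := ∑ l, conj (col (p z) m l) * α z l

/-- the connection form -/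
def AA : F1 E4 M := θ + (2 * Real.pi) • conn fun z => col (p z) m

/-- the covariant derivative of the coefficient -/
def em (z : M) : E4 →L[ℝ] ℂ :=
  fderiv ℝ (rc z (ff p m α)) (chartAt E4 z z) - (at1 (AA p m θ) z).smulRight (Complex.I * ff p m α z)

variable {p} {α} {θ}
variable (hp : IsLine p) (hα : ∀ i, ContMDiff 𝓘(ℝ, E4) 𝓘(ℝ, ℂ) ∞ (fun x => α x i))
  (hs : ∀ x, (p x).mulVec (α x) = α x) (hθ : Smooth1 θ) {m} {z : M} (hz : z ∈ Om p m)

include hp hz

theorem sc_s (l : Fin N) : SC (fun z => col (p z) m l) z := sc_col hp.smooth hz l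

theorem sc_ff (hα : ∀ i, ContMDiff 𝓘(ℝ, E4) 𝓘(ℝ, ℂ) ∞ (fun x => α x i)) : SC (ff p m α) z :=
  SC.sum fun l _ => (SC.conj (sc_s hp hz l)).mul (sc_of_contMDiff (hα l) z)

theorem p_ij (i j : Fin N) : p z i j = col (p z) m i * conj (col (p z) m j) := by
  conv_lhs => rw [p_eq hp hz]
  rfl

theorem al_eq (hs : ∀ x, (p x).mulVec (α x) = α x) (l : Fin N) :
    α z l = ff p m α z * col (p z) m l := by
  have h1 := congrFun (hs z) l
  rw [← h1]
  unfold ff
  simp only [Matrix.mulVec, dotProduct]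
  rw [Finset.sum_mul]
  refine Finset.sum_congr rfl fun j _ => ?_
  rw [p_ij hp hz l j]
  ring

theorem nal_eq (hs : ∀ x, (p x).mulVec (α x) = α x) : ∑ i, ‖α z i‖ ^ 2 = ‖ff p m α z‖ ^ 2 := by
  have h1 := congrArg Complex.re (unit_col hp hz)
  have h2 : ∑ l, ‖col (p z) m l‖ ^ 2 = 1 := by
    rw [Complex.re_sum, Complex.one_re] at h1
    rw [← h1]
    refine Finset.sum_congr rfl fun l _ => ?_
    rw [← Complex.normSq_eq_conj_mul_self, Complex.ofReal_re, Complex.normSq_eq_norm_sq]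
  have h3 : ∀ i, ‖α z i‖ ^ 2 = ‖ff p m α z‖ ^ 2 * ‖col (p z) m i‖ ^ 2 := by
    intro i
    conv_lhs => rw [al_eq hp hz hs i]
    rw [norm_mul, mul_pow]
  simp only [h3, ← Finset.mul_sum, h2, mul_one]

/-- the connection form -/
theorem conn_eq (u : E4) : ∑ l, conj (col (p z) m l) * dC (fun w => col (p w) m l) z u =
    -(Complex.I * ((2 * Real.pi * at1 (conn fun z => col (p z) m) z u : ℝ) : ℂ)) := by
  set K := ∑ l, conj (col (p z) m l) * dC (fun w => col (p w) m l) z u with hK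
  have h1 : at1 (conn fun z => col (p z) m) z u = ((Complex.I / (2 * Real.pi)) * K).re :=
    conn_apply (s := fun z => col (p z) m) (sc_s hp hz) u
  have hunit : ∀ᶠ y in 𝓝 (chartAt E4 z z),
      ∑ i, conj (col (p ((chartAt E4 z).symm y)) m i) * col (p ((chartAt E4 z).symm y)) m i = 1 := by
    filter_upwards [ev_chart ((isOpen_Om hp.smooth m).mem_nhds hz)] with y hy
    exact unit_col hp hy
  have h2 := deriv_unit (v := fun y => col (p ((chartAt E4 z).symm y)) m)
    (fun i => (sc_s hp hz i).diff) hunit u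
  have h3 : conj K = -K := by
    rw [hK, map_sum]
    simp only [map_mul, Complex.conj_conj]
    refine Eq.trans ?_ (h2.trans ?_)
    · refine Finset.sum_congr rfl fun l _ => ?_
      rw [mul_comm]
      simp only [(chartAt E4 z).left_inv (mem_chart_source E4 z)]
      rfl
    · simp only [(chartAt E4 z).left_inv (mem_chart_source E4 z)]
      rfl
  have h4 : K.re = 0 := by
    have := congrArg Complex.re h3
    simp at this
    linarith
  have h5 : (Complex.I / (2 * Real.pi)) * K = ((-(2 * Real.pi)⁻¹ * K.im : ℝ) : ℂ) := by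
    have h6 : K = (K.im : ℂ) * Complex.I := by
      apply Complex.ext
      · simp [h4]
      · simp
    rw [h6]
    simp only [Complex.mul_im, Complex.ofReal_re, Complex.I_im, mul_one, Complex.ofReal_im,
      Complex.I_re, mul_zero, add_zero]
    push_cast
    linear_combination ((2 * (Real.pi : ℂ))⁻¹ * (K.im : ℂ)) * Complex.I_sq
  rw [h5, Complex.ofReal_re] at h1
  rw [h1]
  have hpi : (2 * Real.pi) ≠ 0 := by positivity
  have h7 : 2 * Real.pi * (-(2 * Real.pi)⁻¹ * K.im) = -K.im := by field_simp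
  rw [h7]
  apply Complex.ext
  · simp [h4]
  · simp

/-- **`eta = s ⊗ (df - i A f)`** -/
theorem cov_eq (hα : ∀ i, ContMDiff 𝓘(ℝ, E4) 𝓘(ℝ, ℂ) ∞ (fun x => α x i))
    (hs : ∀ x, (p x).mulVec (α x) = α x) (i : Fin N) (u : E4) :
    cov p θ α z i u = col (p z) m i * em p m α θ z u := by
  have h1 : ∀ j, dal α z j u = ff p m α z * dC (fun w => col (p w) m j) z u +
      col (p z) m j * dC (ff p m α) z u := by
    intro j
    have e : ∀ᶠ w in 𝓝 z, α w j = ff p m α w * col (p w) m j := by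
      filter_upwards [(isOpen_Om hp.smooth m).mem_nhds hz] with w hw
      exact al_eq hp hw hs j
    have h2 : dal α z j u = dC (fun w => α w j) z u := rfl
    rw [h2, dC_congr e, dC_mul (sc_ff hp hz hα) (sc_s hp hz j)]
  have h2 : cov p θ α z i u = ∑ j, p z i j * dal α z j u -
      (at1 θ z u : ℂ) * (Complex.I * α z i) := by
    unfold cov
    rw [sub_apply, sum_apply, ContinuousLinearMap.smulRight_apply]
    simp only [smul_apply, smul_eq_mul, Complex.real_smul]
  have h3 : ∑ j, p z i j * dal α z j u = col (p z) m i *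
      (ff p m α z * (∑ j, conj (col (p z) m j) * dC (fun w => col (p w) m j) z u) +
        (∑ j, conj (col (p z) m j) * col (p z) m j) * dC (ff p m α) z u) := by
    rw [Finset.mul_sum, Finset.sum_mul, ← Finset.sum_add_distrib, Finset.mul_sum]
    refine Finset.sum_congr rfl fun j _ => ?_
    rw [h1 j]
    rw [p_ij hp hz i j]
    ring
  rw [h2, h3, conn_eq hp hz, unit_col hp hz, al_eq hp hz hs i]
  unfold em
  have h5 : at1 (AA p m θ) z u = at1 θ z u + 2 * Real.pi * at1 (conn fun z => col (p z) m) z u := rfl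
  rw [sub_apply, ContinuousLinearMap.smulRight_apply, h5, Complex.real_smul]
  have h6 : fderiv ℝ (rc z (ff p m α)) (chartAt E4 z z) u = dC (ff p m α) z u := rfl
  rw [h6]
  push_cast
  ring

theorem smAt_AA (hθ : Smooth1 θ) : SmAt1 (AA p m θ) z :=
  (smAt1_of_smooth hθ z).add
    ((smAt1_conn (s := fun z => col (p z) m) (isOpen_Om hp.smooth m) (fun _ hw => sc_s hp hw) hz).smul _)

omit hp hz

/-! ### complex functions in another chart -/

theorem rc_split (x : M) (g : M → ℂ) : rc x g = fun y => ((repF (E := E4) x (fun z => (g z).re) y : ℝ) : ℂ) +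
    ((repF (E := E4) x (fun z => (g z).im) y : ℝ) : ℂ) * Complex.I := by
  funext y
  exact (Complex.re_add_im _).symm

theorem sc_chart {g : M → ℂ} {x q : M} (h : SC g x) (hq : x ∈ (chartAt E4 q).source) :
    ContDiffAt ℝ ∞ (rc q g) (chartAt E4 q x) := by
  rw [rc_split]
  exact (Complex.ofRealCLM.contDiff.contDiffAt.comp _ (SmAtF.chart h.re hq)).add
    ((Complex.ofRealCLM.contDiff.contDiffAt.comp _ (SmAtF.chart h.im hq)).mul contDiffAt_const)

theorem sc_chart' {g : M → ℂ} {q : M} {y : E4} (hy : y ∈ (chartAt E4 q).target)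
    (h : SC g ((chartAt E4 q).symm y)) : ContDiffAt ℝ ∞ (rc q g) y := by
  have := sc_chart h ((chartAt E4 q).map_target hy)
  rwa [(chartAt E4 q).right_inv hy] at this

theorem fderiv_rc {g : M → ℂ} {q : M} {y : E4} (hy : y ∈ (chartAt E4 q).target)
    (h : SC g ((chartAt E4 q).symm y)) (u : E4) : fderiv ℝ (rc q g) y u =
      dC g ((chartAt E4 q).symm y)
        (tcc q ((chartAt E4 q).symm y) ((chartAt E4 q).symm y) u) := by
  have hd : DifferentiableAt ℝ (rc q g) y := (sc_chart' hy h).differentiableAt infty_ne_zero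
  have h1 : HasFDerivAt (fun y => (rc q g y).re) (Complex.reCLM.comp (fderiv ℝ (rc q g) y)) y :=
    Complex.reCLM.hasFDerivAt.comp _ hd.hasFDerivAt
  have h2 : HasFDerivAt (fun y => (rc q g y).im) (Complex.imCLM.comp (fderiv ℝ (rc q g) y)) y :=
    Complex.imCLM.hasFDerivAt.comp _ hd.hasFDerivAt
  have h3 := rep1_dF_at hy h.re
  have h4 := rep1_dF_at hy h.im
  have e1 : (fderiv ℝ (rc q g) y u).re = rep1 q (dF fun z => (g z).re) y u := by
    rw [h3]
    have : fderiv ℝ (repF (E := E4) q fun z => (g z).re) y =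
      Complex.reCLM.comp (fderiv ℝ (rc q g) y) := h1.fderiv
    rw [this]; rfl
  have e2 : (fderiv ℝ (rc q g) y u).im = rep1 q (dF fun z => (g z).im) y u := by
    rw [h4]
    have : fderiv ℝ (repF (E := E4) q fun z => (g z).im) y =
      Complex.imCLM.comp (fderiv ℝ (rc q g) y) := h2.fderiv
    rw [this]; rfl
  apply Complex.ext
  · rw [e1, rep1_apply, dC_re h]
  · rw [e2, rep1_apply, dC_im h]

section chart

variable (q : M) {y : E4} (hy : y ∈ (chartAt E4 q).target)
  (hO : (chartAt E4 q).symm y ∈ Om p m)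

include hy hO hp

/-- `eta` in the chart -/
theorem eta_chart (hα : ∀ i, ContMDiff 𝓘(ℝ, E4) 𝓘(ℝ, ℂ) ∞ (fun x => α x i)) (u : E4) :
    eta (rc q (ff p m α)) (rep1 q (AA p m θ)) y u = em p m α θ ((chartAt E4 q).symm y)
      (tcc q ((chartAt E4 q).symm y) ((chartAt E4 q).symm y) u) := by
  unfold eta em
  rw [sub_apply, sub_apply, fderiv_rc hy (sc_ff hp hO hα), ContinuousLinearMap.smulRight_apply,
    ContinuousLinearMap.smulRight_apply]
  rfl

theorem jf_chart (hα : ∀ i, ContMDiff 𝓘(ℝ, E4) 𝓘(ℝ, ℂ) ∞ (fun x => α x i))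
    (hs : ∀ x, (p x).mulVec (α x) = α x) (u : E4) :
    jf (rc q (ff p m α)) (rep1 q (AA p m θ)) y u =
      ∑ i, ((α ((chartAt E4 q).symm y) i).re * (cov p θ α ((chartAt E4 q).symm y) i
        (tcc q ((chartAt E4 q).symm y) ((chartAt E4 q).symm y) u)).im -
        (α ((chartAt E4 q).symm y) i).im * (cov p θ α ((chartAt E4 q).symm y) i
        (tcc q ((chartAt E4 q).symm y) ((chartAt E4 q).symm y) u)).re) := by
  set z := (chartAt E4 q).symm y with hz
  have h1 : jf (rc q (ff p m α)) (rep1 q (AA p m θ)) y u =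
      (ff p m α z).re * (eta (rc q (ff p m α)) (rep1 q (AA p m θ)) y u).im -
      (ff p m α z).im * (eta (rc q (ff p m α)) (rep1 q (AA p m θ)) y u).re := rfl
  rw [h1, eta_chart hp q hy hO hα]
  set e := em p m α θ ((chartAt E4 q).symm y)
      (tcc q ((chartAt E4 q).symm y) ((chartAt E4 q).symm y) u) with he
  have h2 : ∀ i, (α z i).re * (cov p θ α z i (tcc q z z u)).im -
      (α z i).im * (cov p θ α z i (tcc q z z u)).re =
      ((ff p m α z).re * e.im - (ff p m α z).im * e.re) *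
        (conj (col (p z) m i) * col (p z) m i).re := by
    intro i
    rw [cov_eq hp hO hα hs i, al_eq hp hO hs i]
    simp only [Complex.mul_re, Complex.mul_im, Complex.conj_re, Complex.conj_im]
    ring
  simp only [h2, ← Finset.mul_sum]
  rw [← Complex.re_sum, unit_col hp hO, Complex.one_re, mul_one]

end chart

theorem dG_add_at {s t : F1 E4 M} {x : M} (hs : SmAt1 s x) (ht : SmAt1 t x) :
    at2 (dG (s + t)) x = at2 (dG s) x + at2 (dG t) x := by
  have hd := ContDiffAt.differentiableAt hs infty_ne_zero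
  have hd' := ContDiffAt.differentiableAt ht infty_ne_zero
  show d1 (fun y => rep1 x s y + rep1 x t y) (chartAt E4 x x) =
    d1 (rep1 x s) (chartAt E4 x x) + d1 (rep1 x t) (chartAt E4 x x)
  ext u v
  simp only [d1_apply, add_apply]
  rw [fderiv_fun_add hd hd']
  simp only [add_apply]
  ring

theorem dG_smul_at {s : F1 E4 M} {x : M} (c : ℝ) (hs : SmAt1 s x) :
    at2 (dG (c • s)) x = c • at2 (dG s) x := by
  have hd := ContDiffAt.differentiableAt hs infty_ne_zero
  show d1 (fun y => c • rep1 x s y) (chartAt E4 x x) = c • d1 (rep1 x s) (chartAt E4 x x)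
  ext u v
  simp only [d1_apply, smul_apply]
  rw [fderiv_fun_const_smul hd]
  simp only [smul_apply, smul_eq_mul]
  ring

end man

/-! ### the sequence -/

section seq

variable {M : Type u} [MetricSpace M] [CompactSpace M] [ChartedSpace E4 M]
  [IsManifold 𝓘(ℝ, E4) ∞ M] [MeasurableSpace M] [BorelSpace M] {N : ℕ}
variable {D : Dat M} {Q : TSeq M N} {U : Filter ℕ} {lam C : ℝ} (h : Q.OK D U lam C) (n : ℕ)

open Crest.Agent.R235.SwcVs_34 Crest.Agent.R235.SwcAlg_34

include h

theorem smooth_jj : Smooth1 (Q.jj n) := by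
  have e : Q.jj n = ∑ i, (fmul1 (fun x => (Q.α n x i).re) (imF Q n i) +
      fmul1 (fun x => -(Q.α n x i).im) (reF Q n i)) := by
    funext x
    have h1 : Q.jj n x = (∑ i, ((Q.α n x i).re • (Complex.imCLM.comp (Q.eta n x i)) -
      (Q.α n x i).im • (Complex.reCLM.comp (Q.eta n x i))) : E4 →L[ℝ] ℝ) := rfl
    rw [h1, Finset.sum_apply]
    refine Finset.sum_congr rfl fun i _ => ?_
    rw [im_eta h, re_eta h, sub_eq_add_neg, ← neg_smul]
    rfl
  rw [e]
  refine Tau_692.smooth1_sum _ fun i _ => ?_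
  exact (Smooth1.fmul (Tau483.SmC.re (h.smα n i)) (smooth_imF h n i)).add
    (Smooth1.fmul (Tau483.SmC.im (h.smα n i)).neg (smooth_reF h n i))

theorem psi_chart {m : Fin N} {q : M} {y : E4} (hy : y ∈ (chartAt E4 q).target)
    (hO : (chartAt E4 q).symm y ∈ Om (Q.p n) m) {F' : E4 → ℂ} {B' : E4 → E4 →L[ℝ] ℝ}
    (hF : ContDiff ℝ ∞ F') (hB : ContDiff ℝ ∞ B')
    (eF : F' =ᶠ[𝓝 y] rc q (ff (Q.p n) m (Q.α n)))
    (eB : B' =ᶠ[𝓝 y] rep1 q (AA (Q.p n) m (Q.θ n))) : psi F' B' y = rep q (Q.Psi n) y := by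
  have hp := h.line n
  have hjs := smooth_jj h n
  set t : F1 E4 M := AA (Q.p n) m (Q.θ n) + Q.jj n with ht
  have hcat : SmAt1 (conn fun z => col (Q.p n z) m) ((chartAt E4 q).symm y) :=
    smAt1_conn (s := fun z => col (Q.p n z) m) (isOpen_Om hp.smooth m)
      (fun _ hw => sc_s hp hw) hO
  have hA : SmAt1 (AA (Q.p n) m (Q.θ n)) ((chartAt E4 q).symm y) := smAt_AA hp hO (h.smθ n)
  have htat : SmAt1 t ((chartAt E4 q).symm y) := hA.add (smAt1_of_smooth hjs _)
  rw [((SwcPsid_370.psid E4 F' B' hF hB).2 y)]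
  have e1 : (fun p => B' p + jf F' B' p) =ᶠ[𝓝 y] rep1 q t := by
    have hOe : ∀ᶠ y' in 𝓝 y, (chartAt E4 q).symm y' ∈ Om (Q.p n) m :=
      (tendsto_symm hy).eventually ((isOpen_Om hp.smooth m).mem_nhds hO)
    filter_upwards [eF.eventuallyEq_nhds, eB.eventuallyEq_nhds, hOe,
      (chartAt E4 q).open_target.mem_nhds hy] with y' h1 h2 h3 h4
    have e2 : jf F' B' y' = jf (rc q (ff (Q.p n) m (Q.α n))) (rep1 q (AA (Q.p n) m (Q.θ n))) y' := by
      unfold jf eta
      rw [h1.fderiv_eq, h1.self_of_nhds, h2.self_of_nhds]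
    rw [e2, h2.self_of_nhds]
    ext u
    rw [add_apply, jf_chart hp q h4 h3 (h.smα n) (h.secα n)]
    have e3 : rep1 q t y' u = rep1 q (AA (Q.p n) m (Q.θ n)) y' u + rep1 q (Q.jj n) y' u := rfl
    rw [e3, rep1_apply q (Q.jj n)]
    congr 1
    have e4 : ∀ (z : M) (w : E4), at1 (Q.jj n) z w = ∑ i, ((Q.α n z i).re * (Q.eta n z i w).im -
      (Q.α n z i).im * (Q.eta n z i w).re) := by
      intro z w
      have e5 : at1 (Q.jj n) z = (∑ i, ((Q.α n z i).re • (Complex.imCLM.comp (Q.eta n z i)) -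
        (Q.α n z i).im • (Complex.reCLM.comp (Q.eta n z i))) : E4 →L[ℝ] ℝ) := rfl
      rw [e5, sum_apply]
      rfl
    rw [e4]
    rfl
  have e6 : SwcDefs_34.dd (fun p => B' p + jf F' B' p) y = d1 (rep1 q t) y := by
    have : SwcDefs_34.dd (fun p => B' p + jf F' B' p) y = d1 (fun p => B' p + jf F' B' p) y := rfl
    rw [this, d1_congr e1]
  rw [e6, ← rep_dG_at hy htat]
  have e7 : at2 (dG t) ((chartAt E4 q).symm y) = at2 (Q.Psi n) ((chartAt E4 q).symm y) := by
    have a1 : at2 (dG t) ((chartAt E4 q).symm y) = at2 (dG (AA (Q.p n) m (Q.θ n)))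
        ((chartAt E4 q).symm y) + at2 (dG (Q.jj n)) ((chartAt E4 q).symm y) :=
      dG_add_at hA (smAt1_of_smooth hjs _)
    have a2 : at2 (dG (AA (Q.p n) m (Q.θ n))) ((chartAt E4 q).symm y) =
        at2 (dG (Q.θ n)) ((chartAt E4 q).symm y) +
          at2 (dG ((2 * Real.pi) • conn fun z => col (Q.p n z) m)) ((chartAt E4 q).symm y) :=
      dG_add_at (smAt1_of_smooth (h.smθ n) _) (hcat.smul _)
    have a3 := dG_smul_at (2 * Real.pi) hcat
    have a4 := dG_conn_eq hp (h.chern n) hO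
    rw [a1, a2, a3, a4]
    have a5 : at2 (Q.Psi n) ((chartAt E4 q).symm y) =
      ((2 * Real.pi) • at2 ((Q.a0 n).1.1 : F2 E4 M) ((chartAt E4 q).symm y) +
        at2 (dG (Q.θ n)) ((chartAt E4 q).symm y)) + at2 (dG (Q.jj n)) ((chartAt E4 q).symm y) := rfl
    rw [a5]
    abel
  ext u v
  rw [rep_apply, rep_apply, e7]

theorem neta_chart {m : Fin N} {z : M} (hO : z ∈ Om (Q.p n) m) :
    Q.neta D n z = mC (atJ D.J z) (at2 D.F z) (em (Q.p n) m (Q.α n) (Q.θ n) z) := by
  have hp := h.line n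
  have h1 : ∀ i, nC D z (Q.eta n z i) = ‖col (Q.p n z) m i‖ ^ 2 *
      mC (atJ D.J z) (at2 D.F z) (em (Q.p n) m (Q.α n) (Q.θ n) z) := by
    intro i
    rw [nC_mC]
    obtain ⟨A, hA⟩ := exists_frame (D.sq z) (En4.spos D z)
    have h2 : ∀ η : E4 →L[ℝ] ℂ, mC (atJ D.J z) (at2 D.F z) η = ‖η (A (ee 0))‖ ^ 2 +
        ‖η (A (ee 1))‖ ^ 2 + ‖η (A (ee 2))‖ ^ 2 + ‖η (A (ee 3))‖ ^ 2 := by
      intro η
      unfold mC
      rw [m1_frame (En4.spos D z) hA, m1_frame (En4.spos D z) hA]
      unfold S4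
      simp only [ContinuousLinearMap.comp_apply, Complex.reCLM_apply, Complex.imCLM_apply,
        ContinuousLinearEquiv.coe_coe, ← Complex.normSq_eq_norm_sq, Complex.normSq_apply]
      ring
    have h3 : ∀ u, ‖Q.eta n z i u‖ ^ 2 = ‖col (Q.p n z) m i‖ ^ 2 *
        ‖em (Q.p n) m (Q.α n) (Q.θ n) z u‖ ^ 2 := by
      intro u
      have : Q.eta n z i u = col (Q.p n z) m i * em (Q.p n) m (Q.α n) (Q.θ n) z u :=
        cov_eq hp hO (h.smα n) (h.secα n) i u
      rw [this, norm_mul, mul_pow]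
    rw [h2, h2, h3, h3, h3, h3]
    ring
  have h4 := congrArg Complex.re (unit_col hp hO)
  have h5 : ∑ l, ‖col (Q.p n z) m l‖ ^ 2 = 1 := by
    rw [Complex.re_sum, Complex.one_re] at h4
    rw [← h4]
    refine Finset.sum_congr rfl fun l _ => ?_
    rw [← Complex.normSq_eq_conj_mul_self, Complex.ofReal_re, Complex.normSq_eq_norm_sq]
  unfold TSeq.neta
  simp only [h1, ← Finset.sum_mul, h5, one_mul]

omit h

/-- norm comparison in a chart -/
theorem exists_C1 (D : Dat M) (q : M) {K : Set E4} (hK : IsCompact K)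
    (hKt : K ⊆ (chartAt E4 q).target) :
    ∃ C1 : ℝ, 0 ≤ C1 ∧ ∀ y ∈ K, ∀ u : E4, rep q D.F y u (repJ q D.J y u) ≤ C1 * ‖u‖ ^ 2 := by
  have c1 : ContinuousOn (rep q D.F) K := ((dat_volF D).cont q).mono hKt
  have c2 : ContinuousOn (repJ q D.J) K := (D.smJ q).continuousOn.mono hKt
  obtain ⟨a, ha⟩ := hK.exists_bound_of_continuousOn c1
  obtain ⟨b, hb⟩ := hK.exists_bound_of_continuousOn c2
  refine ⟨max a 0 * max b 0, by positivity, fun y hy u => ?_⟩
  calc rep q D.F y u (repJ q D.J y u) ≤ ‖rep q D.F y u (repJ q D.J y u)‖ := Real.le_norm_self _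
    _ ≤ ‖rep q D.F y‖ * ‖u‖ * ‖repJ q D.J y u‖ := (rep q D.F y).le_opNorm₂ _ _
    _ ≤ max a 0 * ‖u‖ * (max b 0 * ‖u‖) := by
        have h1 : ‖rep q D.F y‖ ≤ max a 0 := (ha y hy).trans (le_max_left _ _)
        have h2 : ‖repJ q D.J y u‖ ≤ max b 0 * ‖u‖ :=
          ((repJ q D.J y).le_opNorm u).trans (by
            have := (hb y hy).trans (le_max_left b 0)
            gcongr)
        gcongr
    _ = _ := by ring

theorem eta_bd {m : Fin N} (h : Q.OK D U lam C) {q : M} {y : E4}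
    (hy : y ∈ (chartAt E4 q).target) (hO : (chartAt E4 q).symm y ∈ Om (Q.p n) m) {C1 : ℝ}
    (hC1 : 0 ≤ C1) (hC : ∀ u : E4, rep q D.F y u (repJ q D.J y u) ≤ C1 * ‖u‖ ^ 2) :
    ‖eta (rc q (ff (Q.p n) m (Q.α n))) (rep1 q (AA (Q.p n) m (Q.θ n))) y‖ ^ 2 ≤
      C1 * Q.neta D n ((chartAt E4 q).symm y) := by
  set z := (chartAt E4 q).symm y with hz
  have h0 : 0 ≤ Q.neta D n z := neta_nonneg h n z
  have h1 : ‖eta (rc q (ff (Q.p n) m (Q.α n))) (rep1 q (AA (Q.p n) m (Q.θ n))) y‖ ≤
      √(C1 * Q.neta D n z) := by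
    refine ContinuousLinearMap.opNorm_le_bound _ (Real.sqrt_nonneg _) fun u => ?_
    rw [eta_chart (h.line n) q hy hO (h.smα n)]
    have h2 := mC_cs (D.sq z) (En4.spos D z) (em (Q.p n) m (Q.α n) (Q.θ n) z) (tcc q z z u)
    rw [← neta_chart h n hO] at h2
    have h3 : at2 D.F z (tcc q z z u) (atJ D.J z (tcc q z z u)) =
        rep q D.F y u (repJ q D.J y u) := by
      rw [rep_apply, repJ_apply, tcc_cancel' (symm_mem hy)]
    rw [h3] at h2
    have h4 : ‖em (Q.p n) m (Q.α n) (Q.θ n) z (tcc q z z u)‖ ^ 2 ≤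
        (√(C1 * Q.neta D n z) * ‖u‖) ^ 2 := by
      rw [mul_pow, Real.sq_sqrt (mul_nonneg hC1 h0)]
      refine h2.trans ?_
      nlinarith [mul_le_mul_of_nonneg_left (hC u) h0]
    exact (sq_le_sq₀ (norm_nonneg _) (by positivity)).1 h4
  calc _ ≤ √(C1 * Q.neta D n z) ^ 2 := pow_le_pow_left₀ (norm_nonneg _) h1 2
    _ = _ := Real.sq_sqrt (mul_nonneg hC1 h0)

/-- integrals over chart balls -/
theorem exists_C2 (D : Dat M) (q : M) {y0 : E4} {R : ℝ}
    (hKt : closedBall y0 R ⊆ (chartAt E4 q).target) :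
    ∃ C2 : ℝ, 0 ≤ C2 ∧ ∀ g : M → ℝ, Continuous g → (∀ x, 0 ≤ g x) →
      ∫ y in ball y0 R, g ((chartAt E4 q).symm y) ≤ C2 * ∫ x, g x ∂D.μ := by
  have hV := dat_volF D
  have c1 : ContinuousOn (dens D.F q) (closedBall y0 R) := by
    have c2 : ContinuousOn (rep q D.F) (closedBall y0 R) := (hV.cont q).mono hKt
    have c3 : Continuous fun b : Bil => |W b b| := by
      unfold W ent
      fun_prop
    exact c3.comp_continuousOn c2
  have hpos : ∀ y ∈ closedBall y0 R, 0 < dens D.F q y := fun y hy =>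
    abs_pos.2 (hV.rep_ne (hKt hy))
  obtain ⟨c, hc, hcb⟩ : ∃ c : ℝ, 0 < c ∧ ∀ y ∈ closedBall y0 R, c ≤ dens D.F q y := by
    by_cases hne : (closedBall y0 R).Nonempty
    · obtain ⟨y1, hy1, hy2⟩ := (isCompact_closedBall y0 R).exists_isMinOn hne c1
      exact ⟨_, hpos y1 hy1, fun y hy => hy2 hy⟩
    · exact ⟨1, one_pos, fun y hy => absurd ⟨y, hy⟩ hne⟩
  refine ⟨c⁻¹, by positivity, fun g hg hg0 => ?_⟩
  have hfin := D.fin
  have hgi : Integrable g D.μ := En4.integrable_s hfin hg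
  set φ := chartAt E4 q with hφ
  set O : Set M := φ.source ∩ φ ⁻¹' ball y0 R with hOd
  have hO : IsOpen O := φ.isOpen_inter_preimage isOpen_ball
  have hsub : ball y0 R ⊆ φ.target := ball_subset_closedBall.trans hKt
  have h1 := D.vol q (O.indicator fun x => ENNReal.ofReal (g x))
    ((ENNReal.measurable_ofReal.comp hg.measurable).indicator hO.measurableSet)
    (fun x hx => indicator_of_notMem (fun hx' => hx hx'.1) _)
  have h2 : ∫⁻ x, O.indicator (fun x => ENNReal.ofReal (g x)) x ∂D.μ ≤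
      ENNReal.ofReal (∫ x, g x ∂D.μ) := by
    rw [ofReal_integral_eq_lintegral_ofReal hgi (Eventually.of_forall hg0)]
    exact lintegral_mono fun x => indicator_le_self _ _ x
  have h3 : ENNReal.ofReal c * ∫⁻ y in ball y0 R, ENNReal.ofReal (g (φ.symm y)) ≤
      ∫⁻ y in φ.target, O.indicator (fun x => ENNReal.ofReal (g x)) (φ.symm y) *
        ENNReal.ofReal |W (rep q (bp D.J D.al) y) (rep q (bp D.J D.al) y)| := by
    refine le_trans ?_ (lintegral_mono_set hsub)
    rw [← lintegral_const_mul' _ _ ENNReal.ofReal_ne_top]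
    refine setLIntegral_mono' measurableSet_ball fun y hy => ?_
    have hyO : φ.symm y ∈ O := ⟨φ.map_target (hsub hy), by
      rw [mem_preimage, φ.right_inv (hsub hy)]; exact hy⟩
    rw [indicator_of_mem hyO, mul_comm]
    gcongr
    exact hcb y (ball_subset_closedBall hy)
  rw [← h1] at h3
  have h4 : ∫ y in ball y0 R, g (φ.symm y) =
      (∫⁻ y in ball y0 R, ENNReal.ofReal (g (φ.symm y))).toReal := by
    refine integral_eq_lintegral_of_nonneg_ae (Eventually.of_forall fun y => hg0 _) ?_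
    have : ContinuousOn (fun y => g (φ.symm y)) (ball y0 R) :=
      hg.comp_continuousOn (φ.continuousOn_symm.mono hsub)
    exact this.aestronglyMeasurable measurableSet_ball
  rw [h4]
  have h5 : ENNReal.ofReal c * ∫⁻ y in ball y0 R, ENNReal.ofReal (g (φ.symm y)) ≤
      ENNReal.ofReal (∫ x, g x ∂D.μ) := h3.trans h2
  have h6 := ENNReal.toReal_mono ENNReal.ofReal_ne_top h5
  rw [ENNReal.toReal_mul, ENNReal.toReal_ofReal hc.le,
    ENNReal.toReal_ofReal (integral_nonneg hg0)] at h6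
  rw [inv_mul_eq_div, le_div_iff₀ hc]
  linarith

theorem glob {G : Type} [NormedAddCommGroup G] [NormedSpace ℝ G] {y0 : E4} (χ : ContDiffBump y0)
    {F : E4 → G} (hF : ∀ y ∈ closedBall y0 χ.rOut, ContDiffAt ℝ ∞ F y) :
    ContDiff ℝ ∞ (fun y => χ y • F y) := by
  rw [contDiff_iff_contDiffAt]
  intro y
  by_cases hy : y ∈ closedBall y0 χ.rOut
  · exact χ.contDiff.contDiffAt.smul (hF y hy)
  · have h1 : y ∉ tsupport χ := by rwa [χ.tsupport_eq]
    have h2 : (fun y => χ y • F y) =ᶠ[𝓝 y] fun _ => 0 := by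
      filter_upwards [(isClosed_tsupport χ).isOpen_compl.mem_nhds h1] with z hz
      rw [image_eq_zero_of_notMem_tsupport hz, zero_smul]
    exact contDiffAt_const.congr_of_eventuallyEq h2

theorem exists_m [NeBot U] (h : Q.OK D U lam C) (x : M) {p' : M → Matrix (Fin N) (Fin N) ℂ}
    (hp' : ∀ ε : ℝ, 0 < ε → ∀ᶠ n in U, ∀ x i j, ‖Q.p n x i j - p' x i j‖ < ε) :
    ∃ m, 0 < (p' x m m).re := by
  by_contra hcon
  push Not at hcon
  have h1 : ∀ i j, Tendsto (fun n => Q.p n x i j) U (𝓝 (p' x i j)) := by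
    intro i j
    rw [Metric.tendsto_nhds]
    intro ε hε
    filter_upwards [hp' ε hε] with n hn
    rw [dist_eq_norm]
    exact hn x i j
  have h2 : Tendsto (fun n => (Q.p n x).trace) U (𝓝 (∑ m, p' x m m)) :=
    tendsto_finsetSum _ fun m _ => h1 m m
  have h3 : (fun n => (Q.p n x).trace) = fun _ => (1 : ℂ) := funext fun n => (h.line n).rank x
  rw [h3] at h2
  have h4 := tendsto_nhds_unique h2 tendsto_const_nhds
  have h5 := congrArg Complex.re h4
  rw [Complex.re_sum, Complex.one_re] at h5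
  have h6 := Finset.sum_nonpos fun m (_ : m ∈ Finset.univ) => hcon m
  linarith

end seq

/-- **LOCREP** -/
theorem locrep : LOCREP.{u} := by
  intro M _ _ _ _ _ _ D N Q U lam C h T hT
  refine ⟨h.rinf, fun x => ?_⟩
  set φ := chartAt E4 x with hφ
  set y0 := φ x with hy0
  have hy0t : y0 ∈ φ.target := mem_chart_target E4 x
  rcases U.eq_or_neBot with hU | hU
  · obtain ⟨R, hR, hRt⟩ := Metric.nhds_basis_closedBall.mem_iff.1 (φ.open_target.mem_nhds hy0t)
    exact ⟨R, 0, hR, hRt, by rw [hU]; exact eventually_bot⟩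
  obtain ⟨p', hpc, hp'⟩ := h.plim
  obtain ⟨m, hm⟩ := exists_m h x hp'
  have hcont : ContinuousAt (fun y => (p' (φ.symm y) m m).re) y0 :=
    (Complex.continuous_re.comp (hpc m m)).continuousAt.comp (φ.continuousAt_symm hy0t)
  have hval : (p' (φ.symm y0) m m).re = (p' x m m).re := by
    rw [hy0, φ.left_inv (mem_chart_source E4 x)]
  have hev : ∀ᶠ y in 𝓝 y0, (p' x m m).re / 2 < (p' (φ.symm y) m m).re ∧ y ∈ φ.target := by
    refine Filter.Eventually.and ?_ (φ.open_target.mem_nhds hy0t)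
    refine hcont.eventually (lt_mem_nhds ?_)
    show (p' x m m).re / 2 < (p' (φ.symm y0) m m).re
    rw [hval]; linarith
  obtain ⟨R0, hR0, hR0t⟩ := Metric.nhds_basis_closedBall.mem_iff.1 hev
  have hR : 0 < R0 / 2 := by positivity
  have hsub : closedBall y0 (R0 / 2) ⊆ closedBall y0 R0 := closedBall_subset_closedBall (by linarith)
  have hKt : closedBall y0 (R0 / 2) ⊆ φ.target := fun y hy => (hR0t (hsub hy)).2
  obtain ⟨C1, hC1, hC1b⟩ := exists_C1 D x (isCompact_closedBall y0 (R0 / 2)) hKt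
  obtain ⟨C2, hC2, hC2b⟩ := exists_C2 D x hKt
  refine ⟨R0 / 2, C2 * (C1 * C + C), hR, hKt, ?_⟩
  filter_upwards [hp' ((p' x m m).re / 2) (by positivity), h.e1, h.e2,
    h.rinf.eventually (eventually_gt_atTop 0)] with n hn he1 he2 hr
  have hOm : ∀ y ∈ closedBall y0 R0, φ.symm y ∈ Om (Q.p n) m := by
    intro y hy
    have h1 := (hR0t hy).1
    have h2 := hn (φ.symm y) m m
    have h3 := Complex.abs_re_le_norm (Q.p n (φ.symm y) m m - p' (φ.symm y) m m)
    rw [Complex.sub_re] at h3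
    have h4 := (abs_le.1 (h3.trans h2.le)).1
    show 0 < (Q.p n (φ.symm y) m m).re
    linarith
  have hline := h.line n
  set F : E4 → ℂ := rc x (ff (Q.p n) m (Q.α n)) with hF
  set B : E4 → E4 →L[ℝ] ℝ := rep1 x (AA (Q.p n) m (Q.θ n)) with hB
  let χ : ContDiffBump y0 := ⟨R0 / 2, R0, hR, by linarith⟩
  have sF : ContDiff ℝ ∞ (fun y => χ y • F y) := glob χ fun y hy =>
    sc_chart' (hR0t hy).2 (sc_ff hline (hOm y hy) (h.smα n))
  have sB : ContDiff ℝ ∞ (fun y => χ y • B y) := glob χ fun y hy => by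
    have h1 := (smAt_AA hline (hOm y hy) (h.smθ n)).chart (φ.map_target (hR0t hy).2)
    rwa [φ.right_inv (hR0t hy).2] at h1
  have gF : ∀ y ∈ ball y0 (R0 / 2), (fun y => χ y • F y) =ᶠ[𝓝 y] F := by
    intro y hy
    filter_upwards [χ.eventuallyEq_one_of_mem_ball hy] with z hz
    rw [hz, Pi.one_apply, one_smul]
  have gB : ∀ y ∈ ball y0 (R0 / 2), (fun y => χ y • B y) =ᶠ[𝓝 y] B := by
    intro y hy
    filter_upwards [χ.eventuallyEq_one_of_mem_ball hy] with z hz
    rw [hz, Pi.one_apply, one_smul]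
  refine ⟨fun y => χ y • F y, fun y => χ y • B y, sF, sB, fun y hy => ?_, ?_⟩
  · have hyc : y ∈ closedBall y0 R0 := hsub (ball_subset_closedBall hy)
    rw [hT n]
    exact psi_chart h n (hR0t hyc).2 (hOm y hyc) sF sB (gF y hy) (gB y hy)
  · set g : M → ℝ := fun z => C1 * Q.neta D n z + Q.r n * (1 - Q.nal n z) ^ 2 with hg
    have cneta : Continuous fun z => Q.neta D n z := SwcVs_34.cont_neta h n
    have cnal : Continuous fun z => Q.nal n z := En4.sF_continuous (SwcVs_34.smooth_nal h n)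
    have cg : Continuous g := by
      rw [hg]
      exact (continuous_const.mul cneta).add
        (continuous_const.mul ((continuous_const.sub cnal).pow 2))
    have g0 : ∀ z, 0 ≤ g z := fun z =>
      add_nonneg (mul_nonneg hC1 (SwcVs_34.neta_nonneg h n z)) (mul_nonneg hr.le (sq_nonneg _))
    have key : ∀ y ∈ ball y0 (R0 / 2),
        en (Q.r n) (fun y => χ y • F y) (fun y => χ y • B y) y ≤ g (φ.symm y) := by
      intro y hy
      have hyc : y ∈ closedBall y0 R0 := hsub (ball_subset_closedBall hy)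
      have e1 : eta (fun y => χ y • F y) (fun y => χ y • B y) y = eta F B y := by
        unfold eta
        rw [(gF y hy).fderiv_eq, (gF y hy).self_of_nhds, (gB y hy).self_of_nhds]
      have e2 : (fun y => χ y • F y) y = F y := (gF y hy).self_of_nhds
      have e3 := eta_bd n h (hR0t hyc).2 (hOm y hyc) hC1 (hC1b y (ball_subset_closedBall hy))
      have e4 : ‖F y‖ ^ 2 = Q.nal n (φ.symm y) := (nal_eq hline (hOm y hyc) (h.secα n)).symm
      unfold en
      rw [e1]
      have e5 : ‖(fun y => χ y • F y) y‖ ^ 2 = Q.nal n (φ.symm y) := by rw [e2, e4]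
      simp only at e5
      rw [e5]
      exact add_le_add e3 le_rfl
    have hgi : IntegrableOn (fun y => g (φ.symm y)) (ball y0 (R0 / 2)) := by
      have c1 : ContinuousOn (fun y => g (φ.symm y)) (closedBall y0 (R0 / 2)) :=
        cg.comp_continuousOn (φ.continuousOn_symm.mono hKt)
      exact (c1.integrableOn_compact (isCompact_closedBall _ _)).mono_set ball_subset_closedBall
    have hen0 : ∀ y, 0 ≤ en (Q.r n) (fun y => χ y • F y) (fun y => χ y • B y) y := by
      intro y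
      unfold en
      positivity
    calc ∫ y in ball y0 (R0 / 2), en (Q.r n) (fun y => χ y • F y) (fun y => χ y • B y) y
        ≤ ∫ y in ball y0 (R0 / 2), g (φ.symm y) := by
          refine integral_mono_of_nonneg (Eventually.of_forall hen0) hgi ?_
          filter_upwards [ae_restrict_mem measurableSet_ball] with y hy
          exact key y hy
      _ ≤ C2 * ∫ z, g z ∂D.μ := hC2b g cg g0
      _ ≤ C2 * (C1 * C + C) := by
          refine mul_le_mul_of_nonneg_left ?_ hC2
          have i1 := En4.integrable_s D.fin cneta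
          have i2 : Integrable (fun z => (1 - Q.nal n z) ^ 2) D.μ :=
            En4.integrable_s D.fin ((continuous_const.sub cnal).pow 2)
          rw [hg, integral_add (i1.const_mul _) (i2.const_mul _), integral_const_mul,
            integral_const_mul]
          exact add_le_add (mul_le_mul_of_nonneg_left he1 hC1) he2

end

end Crest.Agent.R235.SwcLoc_924
end

-- ▼ part R235/SwcMass_125
section

/-!
Row 235 (S0364), PACKAGE SWC-AN, QCH part (iii) (helper125): facts about the cut-off `tf`, the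
cut-off function `vv` on `M`, comparison of the masses.
-/

set_option autoImplicit false
set_option maxSynthPendingDepth 3

open Set Function Filter MeasureTheory Metric
open scoped Manifold ContDiff Topology ENNReal

universe u

namespace Crest.Agent.R235.SwcMass_125

open Crest.Agent.R240 Crest.Agent.R240.Ch Crest.Agent.R240.Int Crest.Agent.R235
open Crest.Agent.R235.SwcDefs_34 Crest.Agent.R235.SwcGlob_34 Crest.Agent.R235.SwcPair_659

noncomputable section

/-! ### the cut-off `tf` -/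

theorem hh_smooth : ContDiff ℝ ∞ hh := by
  unfold hh
  exact (Real.smoothTransition.contDiff.comp (contDiff_const.sub contDiff_id)).mul
    (Real.smoothTransition.contDiff.comp (contDiff_const.add contDiff_id))




theorem hh_zero {x : ℝ} (hx : 2 ≤ |x|) : hh x = 0 := by
  unfold hh
  rcases le_abs.1 hx with h | h
  · rw [Real.smoothTransition.zero_of_nonpos (by linarith), zero_mul]
  · rw [Real.smoothTransition.zero_of_nonpos (x := 2 + x) (by linarith), mul_zero]

theorem norm_V4 (p : V4) : ‖p‖ = max (max |p.1.1| |p.1.2|) (max |p.2.1| |p.2.2|) := rfl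

theorem abs_le_norm (p : V4) : |p.1.1| ≤ ‖p‖ ∧ |p.1.2| ≤ ‖p‖ ∧ |p.2.1| ≤ ‖p‖ ∧ |p.2.2| ≤ ‖p‖ := by
  rw [norm_V4]
  refine ⟨?_, ?_, ?_, ?_⟩
  · exact (le_max_left _ _).trans (le_max_left _ _)
  · exact (le_max_right _ _).trans (le_max_left _ _)
  · exact (le_max_left _ _).trans (le_max_right _ _)
  · exact (le_max_right _ _).trans (le_max_right _ _)

theorem tf_smooth (t : ℝ) : ContDiff ℝ ∞ (tf t) := by
  have h : ∀ l : V4 →L[ℝ] ℝ, ContDiff ℝ ∞ fun p : V4 => hh (l p / t) := fun l =>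
    hh_smooth.comp (l.contDiff.div_const t)
  have h1 := h ((ContinuousLinearMap.fst ℝ ℝ ℝ).comp (ContinuousLinearMap.fst ℝ (ℝ × ℝ) (ℝ × ℝ)))
  have h2 := h ((ContinuousLinearMap.snd ℝ ℝ ℝ).comp (ContinuousLinearMap.fst ℝ (ℝ × ℝ) (ℝ × ℝ)))
  have h3 := h ((ContinuousLinearMap.fst ℝ ℝ ℝ).comp (ContinuousLinearMap.snd ℝ (ℝ × ℝ) (ℝ × ℝ)))
  have h4 := h ((ContinuousLinearMap.snd ℝ ℝ ℝ).comp (ContinuousLinearMap.snd ℝ (ℝ × ℝ) (ℝ × ℝ)))
  exact (((h1.mul h2).mul h3).mul h4).pow 2




theorem tf_zero {t : ℝ} (ht : 0 < t) {p : V4} (hp : 2 * t ≤ ‖p‖) : tf t p = 0 := by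
  have key : ∀ a : ℝ, 2 * t ≤ |a| → hh (a / t) = 0 := fun a ha => by
    refine hh_zero ?_
    rw [abs_div, abs_of_pos ht, le_div_iff₀ ht]
    exact ha
  unfold tf
  rw [norm_V4] at hp
  rcases le_max_iff.1 hp with h | h
  · rcases le_max_iff.1 h with h | h
    · rw [key _ h]; ring
    · rw [key _ h]; ring
  · rcases le_max_iff.1 h with h | h
    · rw [key _ h]; ring
    · rw [key _ h]; ring

theorem tf_tsupport {t : ℝ} (ht : 0 < t) : tsupport (tf t) ⊆ closedBall (0 : V4) (2 * t) := by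
  refine closure_minimal (fun p hp => ?_) isClosed_closedBall
  rw [mem_closedBall_zero_iff]
  by_contra h
  exact hp (tf_zero ht (not_le.1 h).le)

theorem tf_compact {t : ℝ} (ht : 0 < t) : HasCompactSupport (tf t) :=
  HasCompactSupport.of_support_subset_isCompact (isCompact_closedBall (0 : V4) (2 * t))
    ((subset_tsupport _).trans (tf_tsupport ht))

/-! ### the cut-off `cu`: `1` on the `2t`-box, `0` outside the `3t`-box -/

/-- `1` on `[-2,2]`, `0` outside `(-3,3)`. -/
def hk (x : ℝ) : ℝ := Real.smoothTransition (3 - x) * Real.smoothTransition (3 + x)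

/-- `1` on the `2t`-box, `0` outside the `3t`-box. -/
def cu (t : ℝ) (p : V4) : ℝ :=
  hk (p.1.1 / t) * hk (p.1.2 / t) * hk (p.2.1 / t) * hk (p.2.2 / t)

theorem hk_smooth : ContDiff ℝ ∞ hk := by
  unfold hk
  exact (Real.smoothTransition.contDiff.comp (contDiff_const.sub contDiff_id)).mul
    (Real.smoothTransition.contDiff.comp (contDiff_const.add contDiff_id))

theorem hk_nonneg (x : ℝ) : 0 ≤ hk x :=
  mul_nonneg (Real.smoothTransition.nonneg _) (Real.smoothTransition.nonneg _)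

theorem hk_le_one (x : ℝ) : hk x ≤ 1 :=
  mul_le_one₀ (Real.smoothTransition.le_one _) (Real.smoothTransition.nonneg _)
    (Real.smoothTransition.le_one _)

theorem hk_one {x : ℝ} (hx : |x| ≤ 2) : hk x = 1 := by
  have h := abs_le.1 hx
  unfold hk
  rw [Real.smoothTransition.one_of_one_le (by linarith [h.2]),
    Real.smoothTransition.one_of_one_le (by linarith [h.1]), one_mul]

theorem hk_zero {x : ℝ} (hx : 3 ≤ |x|) : hk x = 0 := by
  unfold hk
  rcases le_abs.1 hx with h | h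
  · rw [Real.smoothTransition.zero_of_nonpos (by linarith), zero_mul]
  · rw [Real.smoothTransition.zero_of_nonpos (x := 3 + x) (by linarith), mul_zero]

theorem cu_smooth (t : ℝ) : ContDiff ℝ ∞ (cu t) := by
  have h : ∀ l : V4 →L[ℝ] ℝ, ContDiff ℝ ∞ fun p : V4 => hk (l p / t) := fun l =>
    hk_smooth.comp (l.contDiff.div_const t)
  have h1 := h ((ContinuousLinearMap.fst ℝ ℝ ℝ).comp (ContinuousLinearMap.fst ℝ (ℝ × ℝ) (ℝ × ℝ)))
  have h2 := h ((ContinuousLinearMap.snd ℝ ℝ ℝ).comp (ContinuousLinearMap.fst ℝ (ℝ × ℝ) (ℝ × ℝ)))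
  have h3 := h ((ContinuousLinearMap.fst ℝ ℝ ℝ).comp (ContinuousLinearMap.snd ℝ (ℝ × ℝ) (ℝ × ℝ)))
  have h4 := h ((ContinuousLinearMap.snd ℝ ℝ ℝ).comp (ContinuousLinearMap.snd ℝ (ℝ × ℝ) (ℝ × ℝ)))
  exact ((h1.mul h2).mul h3).mul h4

theorem cu_nonneg (t : ℝ) (p : V4) : 0 ≤ cu t p := by
  have := hk_nonneg
  exact mul_nonneg (mul_nonneg (mul_nonneg (this _) (this _)) (this _)) (this _)

theorem cu_le_one (t : ℝ) (p : V4) : cu t p ≤ 1 := by
  have a := hk_nonneg
  have b := hk_le_one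
  exact mul_le_one₀ (mul_le_one₀ (mul_le_one₀ (b _) (a _) (b _)) (a _) (b _)) (a _) (b _)

theorem cu_one {t : ℝ} (ht : 0 < t) {p : V4} (hp : ‖p‖ ≤ 2 * t) : cu t p = 1 := by
  obtain ⟨h1, h2, h3, h4⟩ := abs_le_norm p
  have key : ∀ a : ℝ, |a| ≤ ‖p‖ → hk (a / t) = 1 := fun a ha => by
    refine hk_one ?_
    rw [abs_div, abs_of_pos ht, div_le_iff₀ ht]
    exact ha.trans hp
  unfold cu
  rw [key _ h1, key _ h2, key _ h3, key _ h4]
  norm_num

theorem cu_zero {t : ℝ} (ht : 0 < t) {p : V4} (hp : 3 * t ≤ ‖p‖) : cu t p = 0 := by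
  have key : ∀ a : ℝ, 3 * t ≤ |a| → hk (a / t) = 0 := fun a ha => by
    refine hk_zero ?_
    rw [abs_div, abs_of_pos ht, le_div_iff₀ ht]
    exact ha
  unfold cu
  rw [norm_V4] at hp
  rcases le_max_iff.1 hp with h | h
  · rcases le_max_iff.1 h with h | h
    · rw [key _ h]; ring
    · rw [key _ h]; ring
  · rcases le_max_iff.1 h with h | h
    · rw [key _ h]; ring
    · rw [key _ h]; ring

section Man

variable {M : Type u} [MetricSpace M] [CompactSpace M] [ChartedSpace E4 M]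
  [IsManifold 𝓘(ℝ, E4) ∞ M] [MeasurableSpace M] [BorelSpace M]

/-- the cut-off function on `M`. -/
def vv (x : M) (L : V4 ≃L[ℝ] E4) (z : E4) (t : ℝ) : M → ℝ :=
  extF (E := E4) x (fun y => cu t (L.symm (y - z)))

omit [CompactSpace M] [IsManifold 𝓘(ℝ, E4) ∞ M] [MeasurableSpace M] [BorelSpace M] in
theorem vv_mem {x : M} (L : V4 ≃L[ℝ] E4) (z : E4) (t : ℝ) {y : M}
    (hy : y ∈ (chartAt E4 x).source) :
    vv x L z t y = cu t (L.symm (chartAt E4 x y - z)) := by
  unfold vv extF
  rw [if_pos hy]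

omit [CompactSpace M] [IsManifold 𝓘(ℝ, E4) ∞ M] [MeasurableSpace M] [BorelSpace M] in
theorem vv_off {x : M} (L : V4 ≃L[ℝ] E4) (z : E4) (t : ℝ) {y : M}
    (hy : y ∉ (chartAt E4 x).source) : vv x L z t y = 0 := by
  unfold vv extF
  rw [if_neg hy]

omit [CompactSpace M] [IsManifold 𝓘(ℝ, E4) ∞ M] [MeasurableSpace M] [BorelSpace M] in
theorem vv_nonneg (x : M) (L : V4 ≃L[ℝ] E4) (z : E4) (t : ℝ) (y : M) : 0 ≤ vv x L z t y := by
  by_cases hy : y ∈ (chartAt E4 x).source
  · rw [vv_mem L z t hy]; exact cu_nonneg _ _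
  · rw [vv_off L z t hy]

theorem im_eq (L : V4 ≃L[ℝ] E4) (z : E4) (r : ℝ) {y : E4} :
    y ∈ (fun p => z + L p) '' closedBall (0 : V4) r ↔ ‖L.symm (y - z)‖ ≤ r := by
  constructor
  · rintro ⟨p, hp, rfl⟩
    have h : z + L p - z = L p := by abel
    rw [h, L.symm_apply_apply]
    exact mem_closedBall_zero_iff.1 hp
  · intro h
    refine ⟨L.symm (y - z), mem_closedBall_zero_iff.2 h, ?_⟩
    show z + L (L.symm (y - z)) = y
    rw [L.apply_symm_apply]
    abel

theorem im_cpt (L : V4 ≃L[ℝ] E4) (z : E4) (r : ℝ) :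
    IsCompact ((fun p => z + L p) '' closedBall (0 : V4) r) :=
  (isCompact_closedBall _ _).image (continuous_const.add L.continuous)

omit [CompactSpace M] [MeasurableSpace M] [BorelSpace M] in
theorem vv_cont {x : M} (L : V4 ≃L[ℝ] E4) {z : E4} {t : ℝ} (ht : 0 < t)
    (hs : (fun p => z + L p) '' closedBall (0 : V4) (3 * t) ⊆ (chartAt E4 x).target) :
    Continuous (vv x L z t) := by
  have h1 : ContDiff ℝ ∞ fun y : E4 => cu t (L.symm (y - z)) :=
    (cu_smooth t).comp (L.symm.contDiff.comp (contDiff_id.sub contDiff_const))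
  refine En4.sF_continuous (smoothF_extF (im_cpt L z (3 * t)) hs h1 fun y hy => ?_)
  refine cu_zero ht ?_
  by_contra h
  exact hy ((im_eq L z _).2 (not_le.1 h).le)

omit [CompactSpace M] [IsManifold 𝓘(ℝ, E4) ∞ M] in
theorem bx_meas (x : M) (L : V4 ≃L[ℝ] E4) (z : E4) (t : ℝ) :
    MeasurableSet {y : M | y ∈ (chartAt E4 x).source ∧
      L.symm (chartAt E4 x y - z) ∈ closedBall (0 : V4) t} := by
  have h1 : ContinuousOn (fun y : M => L.symm (chartAt E4 x y - z)) (chartAt E4 x).source :=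
    L.symm.continuous.comp_continuousOn ((chartAt E4 x).continuousOn.sub continuousOn_const)
  have h2 : IsOpen ((chartAt E4 x).source ∩ (fun y : M => L.symm (chartAt E4 x y - z)) ⁻¹'
      (closedBall (0 : V4) t)ᶜ) :=
    h1.isOpen_inter_preimage (chartAt E4 x).open_source isClosed_closedBall.isOpen_compl
  have h3 : {y : M | y ∈ (chartAt E4 x).source ∧
      L.symm (chartAt E4 x y - z) ∈ closedBall (0 : V4) t} = (chartAt E4 x).source \
      ((chartAt E4 x).source ∩ (fun y : M => L.symm (chartAt E4 x y - z)) ⁻¹'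
      (closedBall (0 : V4) t)ᶜ) := by
    ext y
    simp only [mem_ofPred_eq, Set.mem_sdiff, mem_inter_iff, mem_preimage, mem_compl_iff]
    tauto
  rw [h3]
  exact (chartAt E4 x).open_source.measurableSet.diff h2.measurableSet

/-- the integral of the cut-off. -/
theorem int_vv_le {s : Measure M} [IsFiniteMeasure s] {x : M} (L : V4 ≃L[ℝ] E4) {z : E4} {t : ℝ}
    (ht : 0 < t)
    (hs : (fun p => z + L p) '' closedBall (0 : V4) (3 * t) ⊆ (chartAt E4 x).target) :
    ∫ y, vv x L z t y ∂s ≤ bxm s x L z (3 * t) := by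
  have hc := vv_cont L ht hs
  unfold bxm
  rw [← integral_indicator_one (bx_meas x L z (3 * t))]
  refine integral_mono (hc.integrable_of_hasCompactSupport (HasCompactSupport.of_compactSpace _))
    ((integrable_const (1 : ℝ)).indicator (bx_meas x L z (3 * t))) fun y => ?_
  by_cases hy : y ∈ (chartAt E4 x).source
  · rw [vv_mem L z t hy]
    by_cases h2 : L.symm (chartAt E4 x y - z) ∈ closedBall (0 : V4) (3 * t)
    · rw [indicator_of_mem (show y ∈ {y : M | y ∈ (chartAt E4 x).source ∧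
        L.symm (chartAt E4 x y - z) ∈ closedBall (0 : V4) (3 * t)} from ⟨hy, h2⟩)]
      exact cu_le_one _ _
    · rw [indicator_of_notMem (fun h => h2 h.2)]
      rw [mem_closedBall_zero_iff, not_le] at h2
      rw [cu_zero ht h2.le]
  · rw [vv_off L z t hy]
    exact indicator_nonneg (fun _ _ => zero_le_one) _

/-- **the masses**: the mass in the `2t`-box against the mass on `M` with the cut-off. -/
theorem mass_le (D : Dat M) (x : M) {R : ℝ}
    (hsub : closedBall (chartAt E4 x x) R ⊆ (chartAt E4 x).target) (L : V4 ≃L[ℝ] E4) :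
    ∃ C : ℝ, 0 < C ∧ ∀ (z : E4) (t : ℝ), 0 < t →
      (fun p => z + L p) '' closedBall (0 : V4) (3 * t) ⊆ ball (chartAt E4 x x) R → ∀ T : X2 M,
      ∫ p in closedBall (0 : V4) (2 * t), ‖rep x (T : F2 E4 M) (z + L p)‖ ≤
        C * ∫ y, vv x L z t y * D.nr (T : F2 E4 M) y ∂D.μ := by
  set K : Set E4 := closedBall (chartAt E4 x x) R with hKdef
  have hK : IsCompact K := isCompact_closedBall _ _
  rcases K.eq_empty_or_nonempty with he | hne
  · refine ⟨1, one_pos, fun z t ht hz T => ?_⟩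
    exfalso
    have h1 : z + L 0 ∈ ball (chartAt E4 x x) R :=
      hz ⟨0, mem_closedBall_self (by positivity), rfl⟩
    have h2 : z + L 0 ∈ K := ball_subset_closedBall h1
    rw [he] at h2
    exact h2
  obtain ⟨A, hA0, hA⟩ := Leak.rep_le_nr D x hK hsub
  have hvol := Int.dat_volF D
  obtain ⟨y1, hy1, hmin⟩ := hK.exists_isMinOn hne ((hvol.continuousOn_dens x).mono hsub)
  set w : ℝ := Int.dens D.F x y1 with hw
  have hw0 : 0 < w := hvol.dens_pos (hsub hy1)
  have hwle : ∀ y ∈ K, w ≤ Int.dens D.F x y := fun y hy => hmin hy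
  have hdt : 0 < |dt L| := abs_pos.2 (dt_ne L)
  refine ⟨(|dt L|)⁻¹ * ((A + 1) / w), by positivity, fun z t ht hz T => ?_⟩
  set b : F2 E4 M := (T : F2 E4 M) with hb
  have hbs : Smooth2 b := T.2
  have hnn : ∀ y, 0 ≤ D.nr b y := fun y => Real.sqrt_nonneg _
  set K2 : Set E4 := (fun p => z + L p) '' closedBall (0 : V4) (2 * t) with hK2
  have hK2c : IsCompact K2 := im_cpt L z (2 * t)
  have hK2K : K2 ⊆ K := by
    refine Subset.trans ?_ (hz.trans ball_subset_closedBall)
    exact image_mono (closedBall_subset_closedBall (by linarith))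
  have hK2t : K2 ⊆ (chartAt E4 x).target := hK2K.trans hsub
  have hvc : Continuous (vv x L z t) := vv_cont L ht ((hz.trans ball_subset_closedBall).trans hsub)
  have hnrc : Continuous (D.nr b) := NM.continuous_nr D hbs
  have hptw : ∀ y ∈ K2, ‖rep x b y‖ ≤ (A + 1) / w *
      (vv x L z t ((chartAt E4 x).symm y) * D.nr b ((chartAt E4 x).symm y) *
        Int.dens D.F x y) := by
    intro y hy
    have h2 : ‖rep x b y‖ ≤ A * D.nr b ((chartAt E4 x).symm y) := hA b hbs.1 y (hK2K hy)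
    have h3 : 0 ≤ D.nr b ((chartAt E4 x).symm y) := hnn _
    have h4 := hwle y (hK2K hy)
    have hs : (chartAt E4 x).symm y ∈ (chartAt E4 x).source := (chartAt E4 x).map_target (hK2t hy)
    have h5 : vv x L z t ((chartAt E4 x).symm y) = 1 := by
      rw [vv_mem L z t hs, (chartAt E4 x).right_inv (hK2t hy)]
      exact cu_one ht ((im_eq L z _).1 hy)
    rw [h5, one_mul]
    calc ‖rep x b y‖ ≤ A * D.nr b ((chartAt E4 x).symm y) := h2
      _ ≤ (A + 1) * D.nr b ((chartAt E4 x).symm y) := by gcongr; linarith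
      _ = (A + 1) / w * (D.nr b ((chartAt E4 x).symm y) * w) := by field_simp
      _ ≤ _ := by gcongr
  have hcont : ContinuousOn (fun y => rep x b y) K2 := ((hbs.2 x).continuousOn).mono hK2t
  set f : M → ℝ≥0∞ := (chartAt E4 x).source.indicator
    (fun y => ENNReal.ofReal (vv x L z t y * D.nr b y)) with hf
  have hfm : Measurable f :=
    (hvc.mul hnrc).measurable.ennreal_ofReal.indicator (chartAt E4 x).open_source.measurableSet
  have hf0 : ∀ y ∉ (chartAt E4 x).source, f y = 0 := fun y hy => indicator_of_notMem hy _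
  have hv := D.vol x f hfm hf0
  have hvn : ∀ y, 0 ≤ vv x L z t y * D.nr b y := fun y => mul_nonneg (vv_nonneg x L z t y) (hnn y)
  have hint : Integrable (fun y => vv x L z t y * D.nr b y) D.μ :=
    NM.integrable_cont D (hvc.mul hnrc)
  have hI0 : 0 ≤ ∫ y, vv x L z t y * D.nr b y ∂D.μ := integral_nonneg hvn
  have h1 : ∫⁻ y in K2, ‖rep x b y‖ₑ ≤
      ENNReal.ofReal ((A + 1) / w * ∫ y, vv x L z t y * D.nr b y ∂D.μ) := by
    calc ∫⁻ y in K2, ‖rep x b y‖ₑ
        ≤ ∫⁻ y in K2, ENNReal.ofReal ((A + 1) / w) * (f ((chartAt E4 x).symm y) *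
            ENNReal.ofReal (Int.dens D.F x y)) := by
          refine setLIntegral_mono' hK2c.measurableSet fun y hy => ?_
          have hs : (chartAt E4 x).symm y ∈ (chartAt E4 x).source :=
            (chartAt E4 x).map_target (hK2t hy)
          rw [hf, indicator_of_mem hs, ← ENNReal.ofReal_mul (hvn _),
            ← ENNReal.ofReal_mul (by positivity), ← ofReal_norm]
          exact ENNReal.ofReal_le_ofReal (hptw y hy)
      _ ≤ ∫⁻ y in (chartAt E4 x).target, ENNReal.ofReal ((A + 1) / w) *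
            (f ((chartAt E4 x).symm y) * ENNReal.ofReal (Int.dens D.F x y)) :=
          lintegral_mono_set hK2t
      _ = ENNReal.ofReal ((A + 1) / w) * ∫⁻ y, f y ∂D.μ := by
          rw [lintegral_const_mul' _ _ ENNReal.ofReal_ne_top, hv]
          rfl
      _ ≤ ENNReal.ofReal ((A + 1) / w) * ∫⁻ y, ENNReal.ofReal (vv x L z t y * D.nr b y) ∂D.μ := by
          gcongr with y
          exact indicator_le_self _ _ y
      _ = ENNReal.ofReal ((A + 1) / w) * ENNReal.ofReal (∫ y, vv x L z t y * D.nr b y ∂D.μ) := by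
          rw [← ofReal_integral_eq_lintegral_ofReal hint (Eventually.of_forall hvn)]
      _ = _ := by rw [← ENNReal.ofReal_mul (by positivity)]
  have h2 : ∫ y in K2, ‖rep x b y‖ ≤ (A + 1) / w * ∫ y, vv x L z t y * D.nr b y ∂D.μ := by
    rw [integral_norm_eq_lintegral_enorm (hcont.aestronglyMeasurable hK2c.measurableSet)]
    exact ENNReal.toReal_le_of_le_ofReal (by positivity) h1
  have h3 : ∫ y in K2, ‖rep x b y‖ =
      |dt L| * ∫ p in closedBall (0 : V4) (2 * t), ‖rep x b (z + L p)‖ := by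
    rw [← integral_indicator hK2c.measurableSet, cov_L L z,
      ← integral_indicator measurableSet_closedBall]
    congr 2
    funext p
    by_cases hp : p ∈ closedBall (0 : V4) (2 * t)
    · rw [indicator_of_mem hp, indicator_of_mem (show z + L p ∈ K2 from ⟨p, hp, rfl⟩)]
    · have hp' : z + L p ∉ K2 := by
        intro h
        have h4 := (im_eq L z _).1 h
        have h5 : z + L p - z = L p := by abel
        rw [h5, L.symm_apply_apply] at h4
        exact hp (mem_closedBall_zero_iff.2 h4)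
      rw [indicator_of_notMem hp, indicator_of_notMem hp']
  rw [h3] at h2
  rw [mul_assoc, ← div_eq_inv_mul, le_div_iff₀ hdt, mul_comm]
  exact h2

end Man

end

end Crest.Agent.R235.SwcMass_125
end

-- ▼ part R235/SwcPos_659
section

/-!
Row 235 (S0364), PACKAGE SWC-AN, helper659: POSITIVITY (part (ii) of QCH).

`pos`: for a closed positive current `S` with trace measure `s`, in suitable linear coordinates
`L` near `x`, `s {y | L⁻¹ (y - z) ∈ [-t,t]^4} ≤ 2 S (tst (2,3) + tst (0,1))`.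
-/

set_option autoImplicit false
set_option maxSynthPendingDepth 3

open Set Function Filter MeasureTheory Metric
open scoped Manifold ContDiff Topology

universe u

namespace Crest.Agent.R235.SwcPos_659

open Crest.Agent.R240 Crest.Agent.R240.Ch Crest.Agent.R240.Int Crest.Agent.R235
open Crest.Agent.R235.SwcDefs_34 Crest.Agent.R235.SwcGlob_34 Crest.Agent.R235.SwcPair_659

noncomputable section

/-! ### the cut-off `tf` -/

theorem hh_smooth : ContDiff ℝ ∞ hh :=
  (Real.smoothTransition.contDiff.comp (contDiff_const.sub contDiff_id)).mul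
    (Real.smoothTransition.contDiff.comp (contDiff_const.add contDiff_id))



theorem hh_one {x : ℝ} (hx : |x| ≤ 1) : hh x = 1 := by
  rw [abs_le] at hx
  unfold hh
  rw [Real.smoothTransition.one_of_one_le (by linarith),
    Real.smoothTransition.one_of_one_le (by linarith), one_mul]

theorem hh_zero {x : ℝ} (hx : 2 ≤ |x|) : hh x = 0 := by
  unfold hh
  rcases le_abs.1 hx with h | h
  · rw [Real.smoothTransition.zero_of_nonpos (by linarith : 2 - x ≤ 0), zero_mul]
  · rw [Real.smoothTransition.zero_of_nonpos (by linarith : 2 + x ≤ 0), mul_zero]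

theorem tf_smooth (t : ℝ) : ContDiff ℝ ∞ (tf t) := by
  have h0 : ContDiff ℝ ∞ fun p : V4 => hh (p.1.1 / t) :=
    hh_smooth.comp (contDiff_fst.fst.div_const t)
  have h1 : ContDiff ℝ ∞ fun p : V4 => hh (p.1.2 / t) :=
    hh_smooth.comp (contDiff_fst.snd.div_const t)
  have h2 : ContDiff ℝ ∞ fun p : V4 => hh (p.2.1 / t) :=
    hh_smooth.comp (contDiff_snd.fst.div_const t)
  have h3 : ContDiff ℝ ∞ fun p : V4 => hh (p.2.2 / t) :=
    hh_smooth.comp (contDiff_snd.snd.div_const t)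
  exact (((h0.mul h1).mul h2).mul h3).pow 2

theorem tf_nonneg (t : ℝ) (p : V4) : 0 ≤ tf t p := sq_nonneg _

theorem norm_V4 (p : V4) : ‖p‖ = max (max |p.1.1| |p.1.2|) (max |p.2.1| |p.2.2|) := rfl

theorem tf_one {t : ℝ} (ht : 0 < t) {p : V4} (hp : ‖p‖ ≤ t) : tf t p = 1 := by
  rw [norm_V4, max_le_iff, max_le_iff, max_le_iff] at hp
  obtain ⟨⟨h0, h1⟩, h2, h3⟩ := hp
  have key : ∀ a : ℝ, |a| ≤ t → hh (a / t) = 1 := fun a ha => by
    refine hh_one ?_
    rw [abs_div, abs_of_pos ht, div_le_one ht]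
    exact ha
  unfold tf
  rw [key _ h0, key _ h1, key _ h2, key _ h3]
  norm_num

theorem tf_zero {t : ℝ} (ht : 0 < t) {p : V4} (hp : 2 * t ≤ ‖p‖) : tf t p = 0 := by
  rw [norm_V4, le_max_iff, le_max_iff, le_max_iff] at hp
  have key : ∀ a : ℝ, 2 * t ≤ |a| → hh (a / t) = 0 := fun a ha => by
    refine hh_zero ?_
    rw [abs_div, abs_of_pos ht, le_div_iff₀ ht]
    exact ha
  unfold tf
  rcases hp with (h | h) | (h | h) <;> rw [key _ h] <;> ring

theorem tf_supp {t : ℝ} (ht : 0 < t) : tsupport (tf t) ⊆ closedBall (0 : V4) (2 * t) := by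
  refine closure_minimal (fun p hp => ?_) isClosed_closedBall
  rw [mem_closedBall_zero_iff]
  by_contra h
  exact hp (tf_zero ht (not_le.1 h).le)


section Man

variable {M : Type u} [MetricSpace M] [CompactSpace M] [ChartedSpace E4 M]
  [IsManifold 𝓘(ℝ, E4) ∞ M] [MeasurableSpace M] [BorelSpace M]

/-- the comparison form `F_{y₀}(v, J_y w) - ½ F_y (v, J_y w)`. -/
def GG (D : Dat M) (x : M) (y : E4) : Bil :=
  ((at2 D.F x - (1 / 2 : ℝ) • rep x D.F y).flip.comp (repJ x D.J y)).flip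

theorem GG_apply (D : Dat M) (x : M) (y v w : E4) : GG D x y v w =
    at2 D.F x v (repJ x D.J y w) - 1 / 2 * rep x D.F y v (repJ x D.J y w) := rfl

theorem GG_cont (D : Dat M) (x : M) : ContinuousOn (GG D x) (chartAt E4 x).target := by
  have h1 : ContinuousOn (rep x D.F) (chartAt E4 x).target := (dat_volF D).cont x
  have h2 : ContinuousOn (repJ x D.J) (chartAt E4 x).target := (D.smJ x).continuousOn
  have h3 : ContinuousOn (fun y => at2 D.F x - (1 / 2 : ℝ) • rep x D.F y) (chartAt E4 x).target :=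
    continuousOn_const.sub (h1.const_smul (1 / 2 : ℝ))
  have h4 : ContinuousOn (fun y => (at2 D.F x - (1 / 2 : ℝ) • rep x D.F y).flip)
      (chartAt E4 x).target :=
    (ContinuousLinearMap.flipₗᵢ ℝ E4 E4 ℝ).continuous.comp_continuousOn h3
  exact (ContinuousLinearMap.flipₗᵢ ℝ E4 E4 ℝ).continuous.comp_continuousOn (h4.clm_comp h2)

/-- frame at `x` and comparison near `x`. -/
theorem exists_cmp (D : Dat M) (x : M) (R1 : ℝ) (hR1 : 0 < R1) :
    ∃ (L : V4 ≃L[ℝ] E4) (R : ℝ), 0 < R ∧ R ≤ R1 ∧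
      closedBall (chartAt E4 x x) R ⊆ (chartAt E4 x).target ∧
      ∀ y ∈ ball (chartAt E4 x x) R, ∀ v : E4,
        1 / 2 * rep x D.F y v (repJ x D.J y v) ≤ (bas L 2 3 + bas L 0 1) v (repJ x D.J y v) := by
  obtain ⟨A, hA⟩ := exists_frame (D.sq x) (En4.spos D x)
  set L : V4 ≃L[ℝ] E4 := κ.trans A with hL
  have hbas : ∀ u v, (bas L 2 3 + bas L 0 1) u v = at2 D.F x u v := by
    intro u v
    have h1 : ∀ w, κ (L.symm w) = A.symm w := by
      intro w
      show κ (κ.symm (A.symm w)) = A.symm w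
      rw [κ.apply_symm_apply]
    have h2 := hA.form (A.symm u) (A.symm v)
    rw [A.apply_symm_apply, A.apply_symm_apply] at h2
    rw [h2, add_apply, add_apply, bas_apply, bas_apply, om0_apply, h1, h1]
    ring
  set y0 := chartAt E4 x x with hy0
  have hy0t : y0 ∈ (chartAt E4 x).target := mem_chart_target E4 x
  have hF0 : ∀ u v, rep x D.F y0 u v = at2 D.F x u v := fun u v => rep_self x D.F u v
  have hJ0 : ∀ v, repJ x D.J y0 v = atJ D.J x v := by
    intro v
    have h := apply_eq_repJ (mem_chart_source E4 x) D.J v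
    rw [tcc_self (mem_chart_source E4 x), tcc_self (mem_chart_source E4 x)] at h
    exact h.symm
  -- lower bound at the centre
  have hAn : 0 < ‖(A : E4 →L[ℝ] E4)‖ := by
    rw [norm_pos_iff]
    intro h
    have h1 : A (ee 0) = 0 := by
      have := DFunLike.congr_fun h (ee 0)
      simpa using this
    have h2 : ee 0 = 0 := by
      have := A.injective (h1.trans (map_zero A).symm)
      exact this
    have := congrArg (fun v : E4 => v 0) h2
    simp at this
  set c : ℝ := (‖(A : E4 →L[ℝ] E4)‖ ^ 2)⁻¹ with hc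
  have hc0 : 0 < c := by positivity
  have hlow : ∀ v, c * ‖v‖ ^ 2 ≤ at2 D.F x v (atJ D.J x v) := by
    intro v
    have h1 : at2 D.F x v (atJ D.J x v) = ‖A.symm v‖ ^ 2 := by
      have h2 := hA.cplx (A.symm v)
      rw [A.apply_symm_apply] at h2
      have h3 := hA.form (A.symm v) (J0 (A.symm v))
      rw [A.apply_symm_apply, ← h2, om0_J0] at h3
      exact h3
    rw [h1]
    have h2 : ‖v‖ ≤ ‖(A : E4 →L[ℝ] E4)‖ * ‖A.symm v‖ := by
      have := (A : E4 →L[ℝ] E4).le_opNorm (A.symm v)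
      have e : (A : E4 →L[ℝ] E4) (A.symm v) = v := A.apply_symm_apply v
      rwa [e] at this
    rw [hc, inv_mul_le_iff₀ (by positivity), ← mul_pow]
    exact pow_le_pow_left₀ (norm_nonneg _) h2 2
  -- continuity
  have hcont : ContinuousAt (GG D x) y0 :=
    (GG_cont D x).continuousAt ((chartAt E4 x).open_target.mem_nhds hy0t)
  obtain ⟨R2, hR2, h2⟩ := Metric.continuousAt_iff.1 hcont (c / 2) (by positivity)
  obtain ⟨R3, hR3, h3⟩ := Metric.nhds_basis_closedBall.mem_iff.1
    ((chartAt E4 x).open_target.mem_nhds hy0t)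
  refine ⟨L, min R1 (min R2 R3), lt_min hR1 (lt_min hR2 hR3), min_le_left _ _,
    (closedBall_subset_closedBall ((min_le_right _ _).trans (min_le_right _ _))).trans h3, ?_⟩
  intro y hy v
  have hy2 : dist y y0 < R2 :=
    (mem_ball.1 hy).trans_le ((min_le_right _ _).trans (min_le_left _ _))
  have h4 := h2 hy2
  rw [dist_eq_norm] at h4
  rw [hbas]
  have h5 : |(GG D x y - GG D x y0) v v| ≤ c / 2 * ‖v‖ ^ 2 := by
    rw [← Real.norm_eq_abs]
    calc ‖(GG D x y - GG D x y0) v v‖ ≤ ‖GG D x y - GG D x y0‖ * ‖v‖ * ‖v‖ :=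
          (GG D x y - GG D x y0).le_opNorm₂ v v
      _ ≤ c / 2 * ‖v‖ * ‖v‖ := by gcongr
      _ = _ := by ring
  have h6 : GG D x y v v = (GG D x y - GG D x y0) v v + GG D x y0 v v := by
    rw [sub_apply, sub_apply]; ring
  have h7 : GG D x y0 v v = 1 / 2 * at2 D.F x v (atJ D.J x v) := by
    rw [GG_apply, hF0, hJ0]; ring
  have h8 := hlow v
  have h9 := (abs_le.1 h5).1
  have h10 : 0 ≤ GG D x y v v := by
    rw [h6, h7]
    nlinarith
  rw [GG_apply] at h10
  linarith

/-- **POSITIVITY** (uniform version). -/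
theorem pos' (D : Dat M) (x : M) (R1 : ℝ) (hR1 : 0 < R1) :
    ∃ (L : V4 ≃L[ℝ] E4) (R : ℝ), 0 < R ∧ R ≤ R1 ∧
      closedBall (chartAt E4 x x) R ⊆ (chartAt E4 x).target ∧
      ∀ (S : X2 M →ₗ[ℝ] ℝ) (s : Measure M), T1_195.Cur D S s →
      ∀ (z : E4) (t : ℝ), 0 < t →
      (∀ p ∈ closedBall (0 : V4) (2 * t), z + L p ∈ ball (chartAt E4 x x) R) →
      ∀ B1 B2 : X2 M, (B1 : F2 E4 M) = tst x L z (tf t) 2 3 →
        (B2 : F2 E4 M) = tst x L z (tf t) 0 1 → bxm s x L z t ≤ 2 * S (B1 + B2) := by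
  obtain ⟨L, R, hR, hRR, hsub, hcmp⟩ := exists_cmp D x R1 hR1
  refine ⟨L, R, hR, hRR, hsub, fun S s hS z t ht hz B1 B2 hB1 hB2 => ?_⟩
  have hfin := hS.fin
  have hsub' : ball (chartAt E4 x x) R ⊆ (chartAt E4 x).target :=
    ball_subset_closedBall.trans hsub
  -- the density
  set g : E4 → ℝ := fun y => tf t (L.symm (y - z)) with hg
  have hgs : ContDiff ℝ ∞ g :=
    (tf_smooth t).comp (L.symm.contDiff.comp (contDiff_id.sub contDiff_const))
  set K : Set E4 := (fun p => z + L p) '' closedBall (0 : V4) (2 * t) with hK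
  have hKc : IsCompact K := (isCompact_closedBall _ _).image (continuous_const.add L.continuous)
  have hKt : K ⊆ (chartAt E4 x).target := by
    rintro _ ⟨p, hp, rfl⟩
    exact hsub' (hz p hp)
  have hg0 : ∀ y, y ∉ K → g y = 0 := by
    intro y hy
    by_contra h
    refine hy ⟨L.symm (y - z), tf_supp ht (subset_tsupport _ h), ?_⟩
    show z + L (L.symm (y - z)) = y
    rw [L.apply_symm_apply]
    abel
  have hksm : SmoothF E4 (extF (E := E4) x g) := smoothF_extF hKc hKt hgs hg0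
  have hkc : Continuous (extF (E := E4) x g) := En4.sF_continuous hksm
  -- lower bound
  have hge : GeF D.J D.F ((B1 + B2 : X2 M) : F2 E4 M) (fun q => 1 / 2 * extF (E := E4) x g q) := by
    intro q v
    show 1 / 2 * extF (E := E4) x g q * at2 D.F q v (atJ D.J q v) ≤
      at2 ((B1 + B2 : X2 M) : F2 E4 M) q v (atJ D.J q v)
    by_cases hq : q ∈ (chartAt E4 x).source
    · have hy := (chartAt E4 x).map_source hq
      set y := chartAt E4 x q with hydef
      rw [extF_of_mem hq, apply_J_eq_rep hq D.F D.J v, apply_J_eq_rep hq _ D.J v]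
      set v' := tcc q x q v with hv'
      have h1 : rep x ((B1 + B2 : X2 M) : F2 E4 M) y = g y • (bas L 2 3 + bas L 0 1) := by
        have e1 : rep x (B1 : F2 E4 M) y = g y • bas L 2 3 := by
          rw [hB1, rep_tst x L z (tf t) 2 3 hy]; rfl
        have e2 : rep x (B2 : F2 E4 M) y = g y • bas L 0 1 := by
          rw [hB2, rep_tst x L z (tf t) 0 1 hy]; rfl
        rw [smul_add, ← e1, ← e2]
        rfl
      rw [h1, smul_apply, smul_apply, smul_eq_mul]
      by_cases h0 : g y = 0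
      · rw [h0]; simp
      · have hyb : y ∈ ball (chartAt E4 x x) R := by
          by_contra hyn
          refine h0 (hg0 y fun ⟨p, hp, hpy⟩ => hyn ?_)
          rw [← hpy]
          exact hz p hp
        have h2 := hcmp y hyb v'
        have h3 : 0 ≤ g y := tf_nonneg t _
        have h4 := mul_le_mul_of_nonneg_left h2 h3
        calc 1 / 2 * g y * rep x D.F y v' (repJ x D.J y v') =
              g y * (1 / 2 * rep x D.F y v' (repJ x D.J y v')) := by ring
          _ ≤ _ := h4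
    · rw [extF_of_notMem hq]
      have h1 : at2 ((B1 + B2 : X2 M) : F2 E4 M) q = 0 := by
        have e1 : at2 (B1 : F2 E4 M) q = 0 := by
          rw [hB1]; exact Ell.at2_ext2_off hq _
        have e2 : at2 (B2 : F2 E4 M) q = 0 := by
          rw [hB2]; exact Ell.at2_ext2_off hq _
        show at2 (B1 : F2 E4 M) q + at2 (B2 : F2 E4 M) q = 0
        rw [e1, e2, add_zero]
      rw [h1]
      simp
  have h1 : ∫ q, 1 / 2 * extF (E := E4) x g q ∂s ≤ S (B1 + B2) :=
    hS.lower (B1 + B2) _ (continuous_const.mul hkc) hge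
  rw [integral_const_mul] at h1
  -- the measure of the box
  have hnn : ∀ q, 0 ≤ extF (E := E4) x g q := by
    intro q
    by_cases hq : q ∈ (chartAt E4 x).source
    · rw [extF_of_mem hq]; exact tf_nonneg t _
    · rw [extF_of_notMem hq]
  have hint : Integrable (extF (E := E4) x g) s := En4.integrable_s hfin hkc
  have h2 := mul_meas_ge_le_integral_of_nonneg (Eventually.of_forall hnn) hint 1
  have h3 : bxm s x L z t ≤ s.real {q | 1 ≤ extF (E := E4) x g q} := by
    refine measureReal_mono ?_ (measure_ne_top s _)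
    rintro q ⟨hq, hq'⟩
    show 1 ≤ extF (E := E4) x g q
    rw [extF_of_mem hq]
    exact (tf_one ht (mem_closedBall_zero_iff.1 hq')).ge
  linarith

/-- **POSITIVITY**. -/
theorem pos (D : Dat M) {S : X2 M →ₗ[ℝ] ℝ} {s : Measure M} (hS : T1_195.Cur D S s) (x : M)
    (R1 : ℝ) (hR1 : 0 < R1) (_ : closedBall (chartAt E4 x x) R1 ⊆ (chartAt E4 x).target) :
    ∃ (L : V4 ≃L[ℝ] E4) (R : ℝ), 0 < R ∧ R ≤ R1 ∧ ∀ (z : E4) (t : ℝ), 0 < t →
      (fun p => z + L p) '' closedBall (0 : V4) (3 * t) ⊆ ball (chartAt E4 x x) R →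
      ∀ B1 B2 : X2 M, (B1 : F2 E4 M) = tst x L z (tf t) 2 3 →
        (B2 : F2 E4 M) = tst x L z (tf t) 0 1 → bxm s x L z t ≤ 2 * S (B1 + B2) := by
  obtain ⟨L, R, hR, hRR, -, h⟩ := pos' D x R1 hR1
  refine ⟨L, R, hR, hRR, fun z t ht hz B1 B2 hB1 hB2 => h S s hS z t ht (fun p hp => ?_) B1 B2 hB1
    hB2⟩
  exact hz ⟨p, closedBall_subset_closedBall (by linarith) hp, rfl⟩

end Man

end

end Crest.Agent.R235.SwcPos_659
end

-- ▼ part R235/SwcQch_125
section

/-!
Row 235 (S0364), PACKAGE SWC-AN, task 430 (helper125): `BOXE → QCH`.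
Pairing formula and positivity: helper659 (`SwcPair_659`, `SwcPos_659`).
-/

set_option autoImplicit false
set_option maxSynthPendingDepth 3

open Set Function Filter MeasureTheory Metric
open scoped Manifold ContDiff Topology ENNReal

universe u

namespace Crest.Agent.R235.SwcQch_125

open Crest.Agent.R240 Crest.Agent.R240.Ch Crest.Agent.R240.Int Crest.Agent.R235
open Crest.Agent.R235.SwcDefs_34 Crest.Agent.R235.SwcGlob_34 Crest.Agent.R235.SwcPair_659

noncomputable section

/-- change of variables in a box. -/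
theorem int_box (L : V4 ≃L[ℝ] E4) (z : E4) (r : ℝ) (g : E4 → ℝ) :
    ∫ y in (fun p => z + L p) '' closedBall (0 : V4) r, g y =
      |dt L| * ∫ p in closedBall (0 : V4) r, g (z + L p) := by
  rw [← integral_indicator (SwcMass_125.im_cpt L z r).measurableSet, cov_L L z,
    ← integral_indicator measurableSet_closedBall]
  congr 2
  funext p
  by_cases hp : p ∈ closedBall (0 : V4) r
  · rw [indicator_of_mem hp, indicator_of_mem
      (show z + L p ∈ (fun p => z + L p) '' closedBall (0 : V4) r from ⟨p, hp, rfl⟩)]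
  · have hp' : z + L p ∉ (fun p => z + L p) '' closedBall (0 : V4) r := by
      intro h
      have h4 := (SwcMass_125.im_eq L z _).1 h
      have h5 : z + L p - z = L p := by abel
      rw [h5, L.symm_apply_apply] at h4
      exact hp (mem_closedBall_zero_iff.2 h4)
    rw [indicator_of_notMem hp, indicator_of_notMem hp']

theorem en_cont (r : ℝ) {α : E4 → ℂ} {A : E4 → E4 →L[ℝ] ℝ} (hα : ContDiff ℝ ∞ α)
    (hA : ContDiff ℝ ∞ A) : Continuous (en r α A) := by
  have h1 : Continuous (fderiv ℝ α) := hα.continuous_fderiv (by simp)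
  have h2 : Continuous (fun p : E4 => (A p).smulRight (Complex.I * α p)) := by
    have h3 : Continuous fun p : E4 => Complex.I * α p := continuous_const.mul hα.continuous
    exact ((ContinuousLinearMap.smulRightL ℝ E4 ℂ).continuous₂.comp₂ hA.continuous h3)
  have h3 : Continuous (eta α A) := h1.sub h2
  unfold en
  exact (h3.norm.pow 2).add (continuous_const.mul
    ((continuous_const.sub (hα.continuous.norm.pow 2)).pow 2))

theorem en_nonneg {r : ℝ} (hr : 0 < r) (α : E4 → ℂ) (A : E4 → E4 →L[ℝ] ℝ) (y : E4) :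
    0 ≤ en r α A y := by
  unfold en
  positivity

/-- the energy in a box. -/
theorem en_box (L : V4 ≃L[ℝ] E4) {z c : E4} {s R r C : ℝ} (hr : 0 < r) {α : E4 → ℂ}
    {A : E4 → E4 →L[ℝ] ℝ} (hα : ContDiff ℝ ∞ α) (hA : ContDiff ℝ ∞ A)
    (hz : (fun p => z + L p) '' closedBall (0 : V4) s ⊆ ball c R)
    (hC : ∫ y in ball c R, en r α A y ≤ C) :
    ∫ p in closedBall (0 : V4) s, en r α A (z + L p) ≤ |dt L|⁻¹ * C := by
  have hdt : 0 < |dt L| := abs_pos.2 (dt_ne L)
  have h1 := int_box L z s (en r α A)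
  have h2 : IntegrableOn (en r α A) (ball c R) :=
    ((en_cont r hα hA).continuousOn.integrableOn_compact (isCompact_closedBall c R)).mono_set
      ball_subset_closedBall
  have h3 : ∫ y in (fun p => z + L p) '' closedBall (0 : V4) s, en r α A y ≤
      ∫ y in ball c R, en r α A y :=
    setIntegral_mono_set h2 (Eventually.of_forall fun y => en_nonneg hr α A y) hz.eventuallyLE
  rw [h1] at h3
  rw [← div_eq_inv_mul, le_div_iff₀ hdt, mul_comm]
  exact h3.trans hC

set_option maxHeartbeats 1600000 in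
theorem qch (hbox : BOXE) : QCH.{u} := by
  intro M _ _ _ _ _ _ D U _ r T S s hr hS
  have := hS.cur.fin
  intro x
  obtain ⟨R1, C1, hR1, hsub1, hloc⟩ := hr.loc x
  obtain ⟨L, R, hR, hRR1, hpos⟩ := SwcPos_659.pos D hS.cur x R1 hR1 hsub1
  have hsub : closedBall (chartAt E4 x x) R ⊆ (chartAt E4 x).target :=
    (closedBall_subset_closedBall hRR1).trans hsub1
  obtain ⟨C2, hC2, hbx⟩ := hbox L
  obtain ⟨C3, hC3, hmass⟩ := SwcMass_125.mass_le D x hsub L
  obtain ⟨C4, hdom⟩ := hS.dom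
  obtain ⟨σ, hσ, hpair⟩ := pairing D x hR hsub L
  set A : ℝ := C3 * |C4| with hA
  have hA0 : 0 ≤ A := by positivity
  refine ⟨L, R, C2 * (A ^ 2 + A + 1), hR, by positivity, hsub, fun K hK =>
    ⟨1, one_pos, fun z _ t ht _ hzt => ?_⟩⟩
  have hK0 : 0 < K := by linarith
  have h2t : (fun p => z + L p) '' closedBall (0 : V4) (2 * t) ⊆ ball (chartAt E4 x x) R :=
    (image_mono (closedBall_subset_closedBall (by linarith))).trans hzt
  have hzt' : (fun p => z + L p) '' closedBall (0 : V4) (3 * t) ⊆ (chartAt E4 x).target :=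
    (hzt.trans ball_subset_closedBall).trans hsub
  have hts : ∀ p ∈ tsupport (tf t), z + L p ∈ ball (chartAt E4 x x) R := fun p hp =>
    h2t ⟨p, SwcMass_125.tf_tsupport ht hp, rfl⟩
  have hts' : ∀ p ∈ tsupport (tf t), z + L p ∈ (chartAt E4 x).target := fun p hp =>
    (ball_subset_closedBall.trans hsub) (hts p hp)
  have hb1 : Smooth2 (tst x L z (tf t) 2 3) :=
    tst_smooth x L (SwcMass_125.tf_smooth t) (SwcMass_125.tf_compact ht) hts' 2 3
  have hb2 : Smooth2 (tst x L z (tf t) 0 1) :=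
    tst_smooth x L (SwcMass_125.tf_smooth t) (SwcMass_125.tf_compact ht) hts' 0 1
  set B1 : X2 M := ⟨tst x L z (tf t) 2 3, hb1⟩ with hB1
  set B2 : X2 M := ⟨tst x L z (tf t) 0 1, hb2⟩ with hB2
  have hP := hpos z t ht hzt B1 B2 rfl rfl
  set b : ℝ := bxm s x L z (3 * t) with hb
  have hb0 : 0 ≤ b := measureReal_nonneg
  set v : M → ℝ := SwcMass_125.vv x L z t with hv
  have hvc : Continuous v := SwcMass_125.vv_cont L ht hzt'
  have hv0 : ∀ y, 0 ≤ v y := SwcMass_125.vv_nonneg x L z t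
  have hvb : ∫ y, v y ∂s ≤ b := SwcMass_125.int_vv_le L ht hzt'
  have hvb0 : 0 ≤ ∫ y, v y ∂s := integral_nonneg hv0
  -- the bound for one `n`
  have key : ∀ ε : ℝ, 0 < ε → ∀ᶠ n in U,
      |D.I (T n : F2 E4 M) (B1 : F2 E4 M)| + |D.I (T n : F2 E4 M) (B2 : F2 E4 M)| ≤
        C2 * (K ^ 2 / t ^ 2 * (A * b + C3 * ε) ^ 2 + (A * b + C3 * ε) / K) +
          C2 / (t * √(r n)) * (|dt L|⁻¹ * |C1|) := by
    intro ε hε
    have e1 : ∀ᶠ n in U, 1 / t ^ 2 + 1 ≤ r n := hr.rinf.eventually_ge_atTop _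
    filter_upwards [hloc, hdom v hvc hv0 ε hε, e1] with n hn hd hrn
    obtain ⟨α, Ac, hα, hAc, hpsi, hen⟩ := hn
    have hrn1 : 1 / t ^ 2 ≤ r n := by linarith
    have hrn0 : 0 < r n := lt_of_lt_of_le (by positivity) hrn
    have hrt : 1 ≤ r n * t ^ 2 := by
      rw [div_le_iff₀ (by positivity)] at hrn1
      exact hrn1
    have hψ : ∀ p ∈ closedBall (0 : V4) (2 * t),
        psi α Ac (z + L p) = rep x (T n : F2 E4 M) (z + L p) := fun p hp =>
      hpsi _ (ball_subset_ball hRR1 (h2t ⟨p, hp, rfl⟩))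
    obtain ⟨hI1, hI2⟩ := hpair z (tf t) (SwcMass_125.tf_smooth t) (SwcMass_125.tf_compact ht) hts
      (T n)
    have hbound := hbx α Ac z (r n) t K hα hAc hrn0 ht hK hrt
    have hcongr : ∀ u w : E4, ∫ p : V4, tf t p * rep x (T n : F2 E4 M) (z + L p) u w =
        ∫ p : V4, tf t p * psi α Ac (z + L p) u w := by
      intro u w
      congr 1
      funext p
      by_cases hp : p ∈ closedBall (0 : V4) (2 * t)
      · rw [hψ p hp]
      · rw [mem_closedBall_zero_iff, not_le] at hp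
        rw [SwcMass_125.tf_zero ht hp.le, zero_mul, zero_mul]
    have hm1 : ∫ p in closedBall (0 : V4) (2 * t), ‖psi α Ac (z + L p)‖ =
        ∫ p in closedBall (0 : V4) (2 * t), ‖rep x (T n : F2 E4 M) (z + L p)‖ :=
      setIntegral_congr_fun measurableSet_closedBall fun p hp => by
        show ‖psi α Ac (z + L p)‖ = ‖rep x (T n : F2 E4 M) (z + L p)‖
        rw [hψ p hp]
    have hm2 : ∫ p in closedBall (0 : V4) (2 * t), ‖rep x (T n : F2 E4 M) (z + L p)‖ ≤
        A * b + C3 * ε := by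
      refine (hmass z t ht hzt (T n)).trans ?_
      have h1 : ∫ y, v y * D.nr (T n : F2 E4 M) y ∂D.μ ≤ |C4| * b + ε := by
        refine hd.trans ?_
        have h2 : C4 * ∫ y, v y ∂s ≤ |C4| * b := by
          calc C4 * ∫ y, v y ∂s ≤ |C4| * ∫ y, v y ∂s := by gcongr; exact le_abs_self _
            _ ≤ |C4| * b := by gcongr
        linarith
      calc C3 * ∫ y, v y * D.nr (T n : F2 E4 M) y ∂D.μ ≤ C3 * (|C4| * b + ε) := by gcongr
        _ = A * b + C3 * ε := by rw [hA]; ring
    have hm0 : 0 ≤ ∫ p in closedBall (0 : V4) (2 * t), ‖rep x (T n : F2 E4 M) (z + L p)‖ :=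
      integral_nonneg fun _ => norm_nonneg _
    have hE : ∫ p in closedBall (0 : V4) (2 * t), en (r n) α Ac (z + L p) ≤ |dt L|⁻¹ * |C1| := by
      refine (en_box L hrn0 hα hAc (h2t.trans (ball_subset_ball hRR1)) hen).trans ?_
      gcongr
      exact le_abs_self _
    have hE0 : 0 ≤ ∫ p in closedBall (0 : V4) (2 * t), en (r n) α Ac (z + L p) :=
      integral_nonneg fun _ => en_nonneg hrn0 _ _ _
    have hi1 : |D.I (T n : F2 E4 M) (B1 : F2 E4 M)| =
        |∫ p : V4, tf t p * psi α Ac (z + L p) (L b0) (L b1)| := by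
      rw [← hcongr]
      show |D.I (T n : F2 E4 M) (tst x L z (tf t) 2 3)| = _
      rw [hI1, abs_mul, hσ, one_mul]
    have hi2 : |D.I (T n : F2 E4 M) (B2 : F2 E4 M)| =
        |∫ p : V4, tf t p * psi α Ac (z + L p) (L b2) (L b3)| := by
      rw [← hcongr]
      show |D.I (T n : F2 E4 M) (tst x L z (tf t) 0 1)| = _
      rw [hI2, abs_mul, hσ, one_mul]
    rw [hi1, hi2]
    refine hbound.trans ?_
    rw [hm1]
    gcongr
  -- the limit in `n`
  have hlim : Tendsto (fun n => |D.I (T n : F2 E4 M) (B1 : F2 E4 M)| +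
      |D.I (T n : F2 E4 M) (B2 : F2 E4 M)|) U
      (𝓝 (|2 * Real.pi * S B1| + |2 * Real.pi * S B2|)) := (hS.lim B1).abs.add (hS.lim B2).abs
  have hr0 : Tendsto (fun n => C2 / (t * √(r n)) * (|dt L|⁻¹ * |C1|)) U (𝓝 0) := by
    have h1 : Tendsto (fun n => t * √(r n)) U atTop :=
      (Real.tendsto_sqrt_atTop.comp hr.rinf).const_mul_atTop ht
    have h2 : Tendsto (fun n => C2 / (t * √(r n))) U (𝓝 0) := h1.const_div_atTop C2
    simpa using h2.mul_const (|dt L|⁻¹ * |C1|)
  have hle : ∀ ε : ℝ, 0 < ε → |2 * Real.pi * S B1| + |2 * Real.pi * S B2| ≤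
      C2 * (K ^ 2 / t ^ 2 * (A * b + C3 * ε) ^ 2 + (A * b + C3 * ε) / K) := by
    intro ε hε
    have h1 := le_of_tendsto_of_tendsto hlim
      ((tendsto_const_nhds (x := C2 * (K ^ 2 / t ^ 2 * (A * b + C3 * ε) ^ 2 +
        (A * b + C3 * ε) / K))).add hr0) (key ε hε)
    simpa using h1
  -- `ε → 0`
  have hle0 : |2 * Real.pi * S B1| + |2 * Real.pi * S B2| ≤
      C2 * (K ^ 2 / t ^ 2 * (A * b) ^ 2 + (A * b) / K) := by
    have hc : Continuous fun ε : ℝ =>
        C2 * (K ^ 2 / t ^ 2 * (A * b + C3 * ε) ^ 2 + (A * b + C3 * ε) / K) := by fun_prop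
    have h1 := (hc.tendsto 0).mono_left (nhdsWithin_le_nhds (s := Ioi (0 : ℝ)))
    simp only [mul_zero, add_zero] at h1
    refine ge_of_tendsto h1 ?_
    filter_upwards [self_mem_nhdsWithin] with ε hε
    exact hle ε hε
  have h1 : |2 * Real.pi * S B1| = 2 * Real.pi * |S B1| := by
    rw [abs_mul, abs_of_pos (by positivity)]
  have h2 : |2 * Real.pi * S B2| = 2 * Real.pi * |S B2| := by
    rw [abs_mul, abs_of_pos (by positivity)]
  have hpi := Real.pi_gt_three
  have h3 : bxm s x L z t ≤ |2 * Real.pi * S B1| + |2 * Real.pi * S B2| := by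
    rw [h1, h2]
    refine hP.trans ?_
    rw [map_add]
    have a1 := le_abs_self (S B1)
    have a2 := le_abs_self (S B2)
    have a3 := abs_nonneg (S B1)
    have a4 := abs_nonneg (S B2)
    nlinarith
  refine (h3.trans hle0).trans ?_
  have h4 : 0 ≤ K ^ 2 / t ^ 2 * b ^ 2 := by positivity
  have h5 : 0 ≤ b / K := by positivity
  calc C2 * (K ^ 2 / t ^ 2 * (A * b) ^ 2 + A * b / K)
      = C2 * (A ^ 2 * (K ^ 2 / t ^ 2 * b ^ 2) + A * (b / K)) := by ring
    _ ≤ C2 * ((A ^ 2 + A + 1) * (K ^ 2 / t ^ 2 * b ^ 2) + (A ^ 2 + A + 1) * (b / K)) := by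
        gcongr <;> nlinarith [sq_nonneg A]
    _ = _ := by ring

end

end Crest.Agent.R235.SwcQch_125
end

-- ▼ part R235/SwcQlow_82

/-!
Row 235 (S0364), SWC-AN G3c (helper82): `theorem qlow : DENS → QLOW`, the quadratic inequality in
charts gives the lower density bound on the support.
-/

set_option autoImplicit false
set_option maxSynthPendingDepth 3

open Set Function Filter MeasureTheory Metric
open scoped Manifold ContDiff Topology

universe u

namespace Crest.Agent.R235.SwcQlow_82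

open Crest.Agent.R240 Crest.Agent.R240.Ch Crest.Agent.R235 Crest.Agent.R235.SwcDefs_34
open Crest.Agent.R235.Swc Crest.Agent.R235.SwcGlob_34

noncomputable section

section pushforward

variable {M : Type u} [MetricSpace M] [ChartedSpace E4 M] [MeasurableSpace M] [BorelSpace M]

/-- the push-forward of `s` to `V4` by the chart at `x` and `L⁻¹`. -/
def pm (s : Measure M) (x : M) (L : V4 ≃L[ℝ] E4) : Measure V4 :=
  Measure.map (fun y => L.symm (chartAt E4 x y)) (s.restrict (chartAt E4 x).source)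

theorem aem (s : Measure M) (x : M) (L : V4 ≃L[ℝ] E4) :
    AEMeasurable (fun y => L.symm (chartAt E4 x y)) (s.restrict (chartAt E4 x).source) :=
  ContinuousOn.aemeasurable (L.symm.continuous.comp_continuousOn (chartAt E4 x).continuousOn)
    (chartAt E4 x).open_source.measurableSet

theorem pm_apply (s : Measure M) (x : M) (L : V4 ≃L[ℝ] E4) {A : Set V4} (hA : MeasurableSet A) :
    pm s x L A = s ({y | L.symm (chartAt E4 x y) ∈ A} ∩ (chartAt E4 x).source) := by
  rw [pm, Measure.map_apply_of_aemeasurable (aem s x L) hA,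
    Measure.restrict_apply' (chartAt E4 x).open_source.measurableSet]
  rfl

theorem pm_ball (s : Measure M) (x : M) (L : V4 ≃L[ℝ] E4) (v : V4) (t : ℝ) :
    (pm s x L).real (closedBall v t) = bxm s x L (L v) t := by
  unfold bxm Measure.real
  rw [pm_apply s x L isClosed_closedBall.measurableSet]
  congr 2
  ext y
  simp only [mem_inter_iff, mem_ofPred_eq, map_sub, ContinuousLinearEquiv.symm_apply_apply,
    mem_closedBall, dist_eq_norm, sub_zero]
  tauto

theorem mem_support (s : Measure M) [IsFiniteMeasure s] (x : M) (L : V4 ≃L[ℝ] E4) {y : M}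
    (hy : y ∈ (chartAt E4 x).source) (hs : Sup s y) :
    L.symm (chartAt E4 x y) ∈ (pm s x L).support := by
  rw [Measure.mem_support_iff_forall]
  intro U hU
  obtain ⟨V, hVU, hV, hyV⟩ := _root_.mem_nhds_iff.1 hU
  refine lt_of_lt_of_le ?_ (measure_mono hVU)
  rw [pm_apply s x L hV.measurableSet]
  have hc : ContinuousAt (fun y => L.symm (chartAt E4 x y)) y :=
    L.symm.continuous.continuousAt.comp ((chartAt E4 x).continuousAt hy)
  have h1 : {y | L.symm (chartAt E4 x y) ∈ V} ∩ (chartAt E4 x).source ∈ 𝓝 y :=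
    inter_mem (hc (hV.mem_nhds hyV)) ((chartAt E4 x).open_source.mem_nhds hy)
  obtain ⟨r, hr, hr2⟩ := Metric.mem_nhds_iff.1 h1
  refine lt_of_lt_of_le ?_ (measure_mono hr2)
  have h2 := hs r hr
  rw [Measure.real, ENNReal.toReal_pos_iff] at h2
  exact h2.1

end pushforward

/-- the local statement. -/
def Loc {M : Type u} [MetricSpace M] [MeasurableSpace M] (s : Measure M) (A : Set M) : Prop :=
  ∃ κ r0 : ℝ, 0 < κ ∧ 0 < r0 ∧ ∀ x ∈ A, Sup s x →
    ∀ r : ℝ, 0 < r → r ≤ r0 → κ * r ^ 2 ≤ s.real (ball x r)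

theorem Loc.union {M : Type u} [MetricSpace M] [MeasurableSpace M] {s : Measure M} {A B : Set M}
    (hA : Loc s A) (hB : Loc s B) : Loc s (A ∪ B) := by
  obtain ⟨κ, r0, hκ, hr0, h⟩ := hA
  obtain ⟨κ', r0', hκ', hr0', h'⟩ := hB
  refine ⟨min κ κ', min r0 r0', lt_min hκ hκ', lt_min hr0 hr0', ?_⟩
  rintro x (hx | hx) hs r hr hrr
  · refine le_trans ?_ (h x hx hs r hr (hrr.trans (min_le_left _ _)))
    gcongr
    exact min_le_left _ _
  · refine le_trans ?_ (h' x hx hs r hr (hrr.trans (min_le_right _ _)))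
    gcongr
    exact min_le_right _ _

theorem loc_point (h : DENS) {M : Type u} [MetricSpace M] [CompactSpace M] [ChartedSpace E4 M]
    [IsManifold 𝓘(ℝ, E4) ∞ M] [MeasurableSpace M] [BorelSpace M] (D : Dat M) (s : Measure M)
    [IsFiniteMeasure s] (hs : ChQ s) (x : M) : ∃ t ∈ 𝓝 x, Loc s t := by
  obtain ⟨L, R, C, hR, hC, htar, hK⟩ := hs x
  set φ := chartAt E4 x with hφ
  set p0 := φ x with hp0
  set N : ℝ := ‖(L : V4 →L[ℝ] E4)‖ + 1 with hN
  have hN0 : 0 < N := by positivity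
  have hLN : ∀ v : V4, ‖L v‖ ≤ N * ‖v‖ := by
    intro v
    calc ‖L v‖ ≤ ‖(L : V4 →L[ℝ] E4)‖ * ‖v‖ := (L : V4 →L[ℝ] E4).le_opNorm v
      _ ≤ N * ‖v‖ := by gcongr; linarith
  have hfin : IsFiniteMeasure (pm s x L) := by unfold pm; infer_instance
  set v0 := L.symm p0 with hv0
  have hLv0 : L v0 = p0 := by rw [hv0]; exact L.apply_symm_apply _
  set R' : ℝ := R / N with hR'
  have hR'0 : 0 < R' := div_pos hR hN0
  have hball : ∀ v ∈ ball v0 R', L v ∈ ball p0 R := by
    intro v hv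
    rw [mem_ball, dist_eq_norm] at hv ⊢
    rw [← hLv0, ← map_sub]
    calc ‖L (v - v0)‖ ≤ N * ‖v - v0‖ := hLN _
      _ < N * R' := by gcongr
      _ = R := by rw [hR']; field_simp
  obtain ⟨ε, s1, hε, hs1, hd⟩ := h V4 (pm s x L) 3 C v0 R' (by norm_num) hC hR'0 (by
    intro K hK1
    obtain ⟨t0, ht0, ht⟩ := hK K hK1
    refine ⟨t0, ht0, fun v hv t ht1 ht2 hsub => ?_⟩
    have h1 := ht (L v) (hball v hv) t ht1 ht2 (by
      rintro _ ⟨p, hp, rfl⟩
      show L v + L p ∈ _
      rw [← map_add]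
      apply hball
      apply hsub
      rw [mem_closedBall, dist_eq_norm] at *
      simpa using hp)
    rw [pm_ball, pm_ball]
    exact h1)
  obtain ⟨c1, C1, hc1, hC1, hbl⟩ := D.bl x (closedBall p0 R) (isCompact_closedBall _ _) htar
  -- the neighbourhood
  have hcont : ContinuousAt (fun y => L.symm (φ y)) x :=
    L.symm.continuous.continuousAt.comp (φ.continuousAt (mem_chart_source E4 x))
  have hU : {y | L.symm (φ y) ∈ ball v0 (R' / 2)} ∩ φ.source ∈ 𝓝 x :=
    inter_mem (hcont (ball_mem_nhds _ (half_pos hR'0)))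
      (φ.open_source.mem_nhds (mem_chart_source E4 x))
  refine ⟨_, hU, ?_⟩
  set B : ℝ := 2 * C1 * N with hB
  have hB0 : 0 < B := by positivity
  refine ⟨ε / B ^ 2, B * min s1 (R' / 2), by positivity, by positivity, ?_⟩
  rintro y ⟨hy1, hy2⟩ hsy r hr hr0
  set t : ℝ := r / B with ht
  have ht0 : 0 < t := div_pos hr hB0
  have htm : t ≤ min s1 (R' / 2) := by
    rw [ht, div_le_iff₀ hB0]
    linarith
  have hrt : r = B * t := by rw [ht]; field_simp
  have hy1' : L.symm (φ y) ∈ ball v0 (R' / 2) := hy1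
  have h1 := hd _ hy1' (mem_support s x L hy2 hsy) t ht0 (htm.trans (min_le_left _ _))
  rw [pm_ball] at h1
  have h2 : ε / B ^ 2 * r ^ 2 = ε * t ^ 2 := by
    rw [hrt]; field_simp
  rw [h2]
  refine h1.trans ?_
  unfold bxm
  refine measureReal_mono ?_
  rintro y' ⟨hy'1, hy'2⟩
  rw [ContinuousLinearEquiv.apply_symm_apply, mem_closedBall, dist_zero_right] at hy'2
  have e1 : ‖φ y' - φ y‖ ≤ N * t := by
    have h3 := hLN (L.symm (φ y' - φ y))
    rw [ContinuousLinearEquiv.apply_symm_apply] at h3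
    exact h3.trans (by gcongr)
  have e2 : ‖φ y - p0‖ < R / 2 := by
    have h3 := hLN (L.symm (φ y) - v0)
    rw [map_sub, ContinuousLinearEquiv.apply_symm_apply, hLv0] at h3
    rw [mem_ball, dist_eq_norm] at hy1'
    calc ‖φ y - p0‖ ≤ N * ‖L.symm (φ y) - v0‖ := h3
      _ < N * (R' / 2) := by gcongr
      _ = R / 2 := by rw [hR']; field_simp
  have e3 : N * t ≤ R / 2 := by
    calc N * t ≤ N * (R' / 2) := by gcongr; exact htm.trans (min_le_right _ _)
      _ = R / 2 := by rw [hR']; field_simp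
  have m1 : φ y ∈ closedBall p0 R := by
    rw [mem_closedBall, dist_eq_norm]; linarith
  have m2 : φ y' ∈ closedBall p0 R := by
    rw [mem_closedBall, dist_eq_norm]
    have : φ y' - p0 = (φ y' - φ y) + (φ y - p0) := by abel
    rw [this]
    refine (norm_add_le _ _).trans ?_
    linarith
  have h4 := (hbl _ m2 _ m1).2
  rw [φ.left_inv hy'1, φ.left_inv hy2] at h4
  rw [mem_ball]
  have h5 : 0 < C1 * N * t := by positivity
  calc dist y' y ≤ C1 * ‖φ y' - φ y‖ := h4
    _ ≤ C1 * (N * t) := by gcongr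
    _ < B * t := by rw [hB]; linarith
    _ = r := hrt.symm

/-- **QLOW**. -/
theorem qlow (h : DENS) : QLOW.{u} := by
  intro M _ _ _ _ _ _ D s _ hs
  have h1 : Loc s (univ : Set M) := by
    refine isCompact_univ.induction_on ⟨1, 1, one_pos, one_pos, by simp⟩ ?_ ?_ ?_
    · rintro A B hAB ⟨κ, r0, hκ, hr0, hh⟩
      exact ⟨κ, r0, hκ, hr0, fun x hx => hh x (hAB hx)⟩
    · intro A B hA hB
      exact hA.union hB
    · intro x _
      obtain ⟨t, ht, hl⟩ := loc_point h D s hs x
      exact ⟨t, by rwa [nhdsWithin_univ], hl⟩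
  obtain ⟨κ, r0, hκ, hr0, hh⟩ := h1
  exact ⟨κ, r0, hκ, hr0, fun x => hh x (mem_univ x)⟩

end

end Crest.Agent.R235.SwcQlow_82
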