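import Mathlib
import Crest.Agent.R137.BU
import Crest.Agent.R235.GalA_755
import Crest.Agent.R235.Swx4_333

-- ▼ part R235/FdB_356
section

/-!
# Row 235, FD-B: Borsuk-Ulam with a linear fixed part (helper356)

`fd_fix` : `F = (P, Q) : X × Y → X' × B`, `P` even and `Q` odd in `y ∈ Y`, `P(x,0) = L x` with `L` a linear
isomorphism, `dim B < dim Y`.  Then `F` has a zero on every sphere of `X × Y` (sup norm, i.e. on the
boundary of `D(X) × D(Y)`).

Proof: apply the two-sphere Borsuk-Ulam theorem (`R137.borsukUlam_prod'`) to `S(Y) × S(ℝ × X)`: for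
`q = (s₀, s') ∈ ℝ × X`, `s₀ ≥ 0`, evaluate `F` on the ray of `(s', s₀ z)`; for `s₀ < 0` take minus the value
at `(z, -q)`.

`fd_circle` : the same for an action of the circle (only `-1` is used), on the boundary of
`D(X) × D(Y)`, `Y`, `B` complex, `dim_ℂ B < dim_ℂ Y`.
-/

set_option autoImplicit false
set_option linter.unusedSectionVars false

namespace Crest.Agent.R235.FdB_356

open Set Metric

variable {X X' Y B : Type*}
  [NormedAddCommGroup X] [NormedSpace ℝ X]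
  [NormedAddCommGroup X'] [NormedSpace ℝ X']
  [NormedAddCommGroup Y] [NormedSpace ℝ Y]
  [NormedAddCommGroup B] [NormedSpace ℝ B]

/-- the point `(s', |s₀| z)` -/
def pre (z : Y) (q : ℝ × X) : X × Y := (q.2, |q.1| • z)

/-- its projection to the sphere of radius `r` -/
noncomputable def sph (r : ℝ) (z : Y) (q : ℝ × X) : X × Y := (r / ‖pre z q‖) • pre z q

lemma pre_ne {z : Y} {q : ℝ × X} (hz : z ≠ 0) (hq : q ≠ 0) : pre z q ≠ 0 := by
  intro h
  have h1 : q.2 = 0 := congrArg Prod.fst h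
  have h2 : |q.1| • z = 0 := congrArg Prod.snd h
  have h3 : q.1 = 0 := by
    rcases smul_eq_zero.1 h2 with h | h
    · exact abs_eq_zero.1 h
    · exact absurd h hz
  exact hq (Prod.ext h3 h1)

lemma norm_sph {r : ℝ} (hr : 0 < r) {z : Y} {q : ℝ × X} (hz : z ≠ 0) (hq : q ≠ 0) :
    ‖sph r z q‖ = r := by
  have h := norm_pos_iff.2 (pre_ne hz hq)
  rw [sph, norm_smul, Real.norm_of_nonneg (div_nonneg hr.le h.le)]
  field_simp

lemma cont_pre : Continuous fun p : Y × (ℝ × X) => pre p.1 p.2 := by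
  unfold pre
  fun_prop

lemma cont_sph (r : ℝ) : ContinuousOn (fun p : Y × (ℝ × X) => sph r p.1 p.2)
    {p | p.1 ≠ 0 ∧ p.2 ≠ 0} := by
  unfold sph
  refine ContinuousOn.smul (continuousOn_const.div cont_pre.norm.continuousOn ?_)
    cont_pre.continuousOn
  intro p hp
  exact norm_ne_zero_iff.2 (pre_ne hp.1 hp.2)

lemma pre_neg_left (z : Y) (q : ℝ × X) : pre (-z) q = ((pre z q).1, -(pre z q).2) := by
  simp [pre]

lemma norm_pre_neg_left (z : Y) (q : ℝ × X) : ‖pre (-z) q‖ = ‖pre z q‖ := by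
  rw [pre_neg_left, Prod.norm_def, Prod.norm_def, norm_neg]

lemma sph_neg_left (r : ℝ) (z : Y) (q : ℝ × X) :
    sph r (-z) q = ((sph r z q).1, -(sph r z q).2) := by
  rw [sph, sph, norm_pre_neg_left, pre_neg_left]
  simp

section gen

variable {E : Type*} [NormedAddCommGroup E] [NormedSpace ℝ E]

open Classical in
/-- extension to `S(Y) × S(ℝ × X)` by sign -/
noncomputable def ext (r : ℝ) (P : X → Y → E) (z : Y) (q : ℝ × X) : E :=
  if 0 ≤ q.1 then P (sph r z q).1 (sph r z q).2 else -P (sph r z (-q)).1 (sph r z (-q)).2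

variable {r : ℝ} {P : X → Y → E}

lemma ext_neg_right (hr : 0 < r)
    (h0 : ∀ x, ‖x‖ = r → P (-x) 0 = -P x 0) {z : Y} {q : ℝ × X} (hz : z ≠ 0) (hq : q ≠ 0) :
    ext r P z (-q) = -ext r P z q := by
  unfold ext
  rcases lt_trichotomy q.1 0 with h | h | h
  · have h1 : 0 ≤ (-q).1 := by simpa using h.le
    rw [if_pos h1, if_neg (not_le.2 h), neg_neg]
  · have h1 : 0 ≤ (-q).1 := by simp [h]
    rw [if_pos h1, if_pos h.ge]
    have h2 : sph r z (-q) = (-(sph r z q).1, 0) ∧ (sph r z q).2 = 0 := by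
      have e1 : pre z (-q) = -pre z q := by
        simp [pre, h]
      have e2 : sph r z (-q) = -sph r z q := by
        rw [sph, sph, e1, norm_neg, smul_neg]
      have e3 : (sph r z q).2 = 0 := by simp [sph, pre, h]
      refine ⟨?_, e3⟩
      rw [e2]
      ext1
      · rfl
      · simp [e3]
    have h3 : ‖(sph r z q).1‖ = r := by
      have := norm_sph hr hz hq
      rw [Prod.norm_def, h2.2, norm_zero, max_eq_left (norm_nonneg _)] at this
      exact this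
    rw [h2.1, h2.2]
    exact h0 _ h3
  · have h1 : ¬ 0 ≤ (-q).1 := by simpa using h
    rw [if_neg h1, if_pos h.le, neg_neg]

lemma ext_cont (hr : 0 < r)
    (hP : ContinuousOn (fun p : X × Y => P p.1 p.2) (sphere (0 : X × Y) r))
    (h0 : ∀ x, ‖x‖ = r → P (-x) 0 = -P x 0) :
    ContinuousOn (fun p : Y × (ℝ × X) => ext r P p.1 p.2) {p | p.1 ≠ 0 ∧ p.2 ≠ 0} := by
  have hA : ContinuousOn (fun p : Y × (ℝ × X) => P (sph r p.1 p.2).1 (sph r p.1 p.2).2)
      {p | p.1 ≠ 0 ∧ p.2 ≠ 0} := by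
    refine hP.comp (cont_sph r) ?_
    intro p hp
    exact mem_sphere_zero_iff_norm.2 (norm_sph hr hp.1 hp.2)
  have hneg : MapsTo (fun p : Y × (ℝ × X) => (p.1, -p.2)) {p | p.1 ≠ 0 ∧ p.2 ≠ 0}
      {p | p.1 ≠ 0 ∧ p.2 ≠ 0} := fun p hp => ⟨hp.1, neg_ne_zero.2 hp.2⟩
  have hB : ContinuousOn (fun p : Y × (ℝ × X) => -P (sph r p.1 (-p.2)).1 (sph r p.1 (-p.2)).2)
      {p | p.1 ≠ 0 ∧ p.2 ≠ 0} :=
    (hA.comp (by fun_prop) hneg).neg
  unfold ext
  refine ContinuousOn.if ?_ (hA.mono inter_subset_left) (hB.mono inter_subset_left)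
  rintro ⟨z, q⟩ ⟨⟨hz, hq⟩, hfr⟩
  have hcl : IsClosed {a : Y × (ℝ × X) | 0 ≤ a.2.1} :=
    isClosed_le continuous_const (continuous_fst.comp continuous_snd)
  have h1 : 0 ≤ q.1 := by
    have := hcl.frontier_subset hfr
    exact this
  have h2 : q.1 ≤ 0 := by
    have hcl' : IsClosed {a : Y × (ℝ × X) | a.2.1 ≤ 0} :=
      isClosed_le (continuous_fst.comp continuous_snd) continuous_const
    have h3 : (z, q) ∈ closure {a : Y × (ℝ × X) | 0 ≤ a.2.1}ᶜ := by
      rw [frontier_eq_closure_inter_closure] at hfr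
      exact hfr.2
    have h4 : closure {a : Y × (ℝ × X) | 0 ≤ a.2.1}ᶜ ⊆ {a | a.2.1 ≤ 0} :=
      closure_minimal (fun a ha => (not_le.1 (show ¬ 0 ≤ a.2.1 from ha)).le) hcl'
    exact h4 h3
  have h3 : q.1 = 0 := le_antisymm h2 h1
  have h4 := ext_neg_right (P := P) hr h0 (z := z) hz hq
  unfold ext at h4
  have h5 : 0 ≤ (-q).1 := by simp [h3]
  rw [if_pos h5, if_pos h1] at h4
  show P (sph r z q).1 (sph r z q).2 = -P (sph r z (-q)).1 (sph r z (-q)).2
  rw [h4, neg_neg]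

end gen

variable [FiniteDimensional ℝ X] [FiniteDimensional ℝ X'] [FiniteDimensional ℝ Y]
  [FiniteDimensional ℝ B]

/-- **Borsuk-Ulam with a fixed part**, general form: it is enough that `P` is odd on the fixed part -/
theorem fd_odd (hdim : Module.finrank ℝ B < Module.finrank ℝ Y)
    (hX : Module.finrank ℝ X' ≤ Module.finrank ℝ X) {r : ℝ} (hr : 0 < r)
    (P : X → Y → X') (Q : X → Y → B)
    (hP : ContinuousOn (fun p : X × Y => P p.1 p.2) (sphere (0 : X × Y) r))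
    (hQ : ContinuousOn (fun p : X × Y => Q p.1 p.2) (sphere (0 : X × Y) r))
    (hPe : ∀ x y, ‖(x, y)‖ = r → P x (-y) = P x y)
    (hQo : ∀ x y, ‖(x, y)‖ = r → Q x (-y) = -Q x y)
    (hP0 : ∀ x, ‖x‖ = r → P (-x) 0 = -P x 0) :
    ∃ x y, ‖(x, y)‖ = r ∧ P x y = 0 ∧ Q x y = 0 := by
  have hQ0 : ∀ x : X, ‖x‖ = r → Q x 0 = 0 := by
    intro x hx
    have h1 := hQo x 0 (by simpa [Prod.norm_def] using hx)
    rw [neg_zero] at h1
    have h2 : (2 : ℝ) • Q x 0 = 0 := by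
      rw [two_smul]
      nth_rewrite 1 [h1]
      exact neg_add_cancel _
    exact (smul_eq_zero.1 h2).resolve_left two_ne_zero
  have hQ0' : ∀ x : X, ‖x‖ = r → Q (-x) 0 = -Q x 0 := fun x hx => by
    rw [hQ0 x hx, hQ0 (-x) (by rwa [norm_neg]), neg_zero]
  have hn : ∀ {z : Y} {q : ℝ × X}, z ≠ 0 → q ≠ 0 →
      ‖((sph r z q).1, (sph r z q).2)‖ = r := fun hz hq => norm_sph hr hz hq
  obtain ⟨z, q, hz, hq, h1, h2⟩ := Crest.Agent.R137.borsukUlam_prod' (V := Y) (W := ℝ × X)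
    (E₁ := X') (E₂ := B)
    (by rw [Module.finrank_prod, Module.finrank_self]; omega) hdim
    (fun z q => ext r P z q) (fun z q => ext r Q z q)
    (ext_cont hr hP hP0) (ext_cont hr hQ hQ0')
    (fun z q hz hq => by
      have hq' : -q ≠ 0 := neg_ne_zero.2 hq
      simp only [ext, sph_neg_left]
      rw [hPe _ _ (hn hz hq), hPe _ _ (hn hz hq')])
    (fun z q hz hq => ext_neg_right hr hP0 hz hq)
    (fun z q hz hq => by
      have hq' : -q ≠ 0 := neg_ne_zero.2 hq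
      simp only [ext, sph_neg_left]
      rw [hQo _ _ (hn hz hq), hQo _ _ (hn hz hq')]
      split_ifs <;> rfl)
    (fun z q hz hq => ext_neg_right hr hQ0' hz hq)
  by_cases h : 0 ≤ q.1
  · simp only [ext, if_pos h] at h1 h2
    exact ⟨_, _, hn hz hq, h1, h2⟩
  · simp only [ext, if_neg h, neg_eq_zero] at h1 h2
    exact ⟨_, _, hn hz (neg_ne_zero.2 hq), h1, h2⟩



end Crest.Agent.R235.FdB_356
end

-- ▼ part R235/Gal_755
section

/-!
Row 235 (S0364), helper755. Task GAL: the Galerkin step of the finite dimensional reduction.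
`no_map` : there is no `Z/2`-equivariant compact perturbation of a Fredholm map of positive index
(on the odd part) over a ball, with a bounded zero set, without zeros over the boundary sphere,
whose fixed part is homotopic (straight line) to a linear isomorphism.
-/

set_option autoImplicit false

open Set Filter Topology Module

namespace Crest.Agent.R235.Gal_755

open Crest.Agent.R235.GalA_755

section dims

variable {Xp Yp : Type*} [NormedAddCommGroup Xp] [InnerProductSpace ℝ Xp]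
  [NormedAddCommGroup Yp] [InnerProductSpace ℝ Yp]

/-- the restriction of `L` to the preimage of `W`. -/
def resW (L : Xp →L[ℝ] Yp) (W : Submodule ℝ Yp) :
    (W.comap (L : Xp →ₗ[ℝ] Yp)) →ₗ[ℝ] W :=
  (L : Xp →ₗ[ℝ] Yp).restrict (p := W.comap (L : Xp →ₗ[ℝ] Yp)) (q := W) (fun _ hx => hx)


/-- the kernel of the restriction is the kernel. -/
def kerEquiv (L : Xp →L[ℝ] Yp) (W : Submodule ℝ Yp) :
    LinearMap.ker (resW L W) ≃ₗ[ℝ] LinearMap.ker (L : Xp →ₗ[ℝ] Yp) where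
  toFun x := ⟨((x : W.comap (L : Xp →ₗ[ℝ] Yp)) : Xp), by
    have hx : resW L W x.1 = 0 := x.2
    have h1 : ((resW L W x.1 : W) : Yp) = 0 := by rw [hx]; rfl
    exact h1⟩
  map_add' x y := rfl
  map_smul' c x := rfl
  invFun y := ⟨⟨(y : Xp), by
    have hy : L (y : Xp) = 0 := y.2
    show L (y : Xp) ∈ W
    rw [hy]; exact W.zero_mem⟩, by
    have hy : L (y : Xp) = 0 := y.2
    exact Subtype.ext hy⟩
  left_inv x := rfl
  right_inv y := rfl

/-- finite dimensionality of the preimage of a finite dimensional space. -/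
theorem finDim_comap (L : Xp →L[ℝ] Yp)
    (hk : FiniteDimensional ℝ (LinearMap.ker (L : Xp →ₗ[ℝ] Yp)))
    (W : Submodule ℝ Yp) (hW : FiniteDimensional ℝ W) :
    FiniteDimensional ℝ (W.comap (L : Xp →ₗ[ℝ] Yp)) := by
  have hker : FiniteDimensional ℝ (LinearMap.ker (resW L W)) :=
    LinearEquiv.finiteDimensional (kerEquiv L W).symm
  have hq : FiniteDimensional ℝ
      ((W.comap (L : Xp →ₗ[ℝ] Yp)) ⧸ LinearMap.ker (resW L W)) :=
    LinearEquiv.finiteDimensional (resW L W).quotKerEquivRange.symm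
  exact Module.Finite.of_submodule_quotient (LinearMap.ker (resW L W))

/-- the dimension count. -/
theorem dim_lt [CompleteSpace Yp] (L : Xp →L[ℝ] Yp)
    (hk : FiniteDimensional ℝ (LinearMap.ker (L : Xp →ₗ[ℝ] Yp)))
    (hr : IsClosed (Set.range L))
    (hind : finrank ℝ ((LinearMap.range (L : Xp →ₗ[ℝ] Yp))ᗮ : Submodule ℝ Yp) <
      finrank ℝ (LinearMap.ker (L : Xp →ₗ[ℝ] Yp)))
    (W : Submodule ℝ Yp) (hW : FiniteDimensional ℝ W)
    (hWr : (LinearMap.range (L : Xp →ₗ[ℝ] Yp))ᗮ ≤ W) :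
    finrank ℝ W < finrank ℝ (W.comap (L : Xp →ₗ[ℝ] Yp)) := by
  have hcf := finDim_comap L hk W hW
  have h1 := (resW L W).finrank_range_add_finrank_ker
  have h2 : finrank ℝ (LinearMap.ker (resW L W)) =
      finrank ℝ (LinearMap.ker (L : Xp →ₗ[ℝ] Yp)) := (kerEquiv L W).finrank_eq
  have hclosed : IsClosed ((LinearMap.range (L : Xp →ₗ[ℝ] Yp) : Submodule ℝ Yp) : Set Yp) := by
    have : ((LinearMap.range (L : Xp →ₗ[ℝ] Yp) : Submodule ℝ Yp) : Set Yp) = Set.range L := by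
      ext y; simp
    rw [this]; exact hr
  have hperp : ((LinearMap.range (L : Xp →ₗ[ℝ] Yp))ᗮ)ᗮ = LinearMap.range (L : Xp →ₗ[ℝ] Yp) := by
    rw [Submodule.orthogonal_orthogonal_eq_closure]
    exact hclosed.submodule_topologicalClosure_eq
  have h3 := Submodule.finrank_add_inf_finrank_orthogonal hWr
  rw [hperp] at h3
  have h4 : finrank ℝ (LinearMap.range (resW L W)) =
      finrank ℝ (LinearMap.range (L : Xp →ₗ[ℝ] Yp) ⊓ W : Submodule ℝ Yp) := by
    have hmap : (LinearMap.range (resW L W)).map W.subtype =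
        LinearMap.range (L : Xp →ₗ[ℝ] Yp) ⊓ W := by
      ext y
      constructor
      · rintro ⟨w, ⟨x, rfl⟩, rfl⟩
        exact ⟨⟨(x : Xp), rfl⟩, (resW L W x).2⟩
      · rintro ⟨⟨x, rfl⟩, hxW⟩
        exact ⟨⟨L x, hxW⟩, ⟨⟨x, hxW⟩, rfl⟩, rfl⟩
    rw [← hmap]
    exact (LinearEquiv.finrank_eq (Submodule.equivMapOfInjective W.subtype
      (Submodule.injective_subtype W) _))
  omega

end dims

section main

variable {T Xa Xp Ya Yp : Type*}
  [NormedAddCommGroup T] [NormedSpace ℝ T] [FiniteDimensional ℝ T]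
  [NormedAddCommGroup Xa] [InnerProductSpace ℝ Xa] [CompleteSpace Xa]
  [NormedAddCommGroup Xp] [InnerProductSpace ℝ Xp] [CompleteSpace Xp]
  [NormedAddCommGroup Ya] [InnerProductSpace ℝ Ya] [CompleteSpace Ya]
  [NormedAddCommGroup Yp] [InnerProductSpace ℝ Yp] [CompleteSpace Yp]

/-- radial profile. -/
noncomputable def rho (R : ℝ) (x : ℝ) : ℝ := R * (max 0 (2 * x - 1) / max x (1 / 2))

/-- homotopy parameter. -/
noncomputable def sig (x : ℝ) : ℝ := max 0 (1 - 2 * x)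

theorem cont_rho (R : ℝ) : Continuous (rho R) := by
  unfold rho
  refine continuous_const.mul (Continuous.div ?_ ?_ ?_)
  · exact continuous_const.max (by fun_prop)
  · exact continuous_id.max continuous_const
  · intro x
    have : (1 / 2 : ℝ) ≤ max x (1 / 2) := le_max_right _ _
    linarith

theorem cont_sig : Continuous sig := by
  unfold sig
  exact continuous_const.max (by fun_prop)

theorem rho_low {R x : ℝ} (hx : x ≤ 1 / 2) : rho R x = 0 := by
  unfold rho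
  rw [max_eq_left (by linarith), zero_div, mul_zero]

theorem rho_high {R x : ℝ} (hx : 1 / 2 ≤ x) : rho R x * x = R * (2 * x - 1) := by
  unfold rho
  rw [max_eq_right (by linarith), max_eq_left hx]
  have : x ≠ 0 := by linarith
  field_simp

theorem rho_nonneg {R x : ℝ} (hR : 0 ≤ R) : 0 ≤ rho R x := by
  unfold rho
  have : (1 / 2 : ℝ) ≤ max x (1 / 2) := le_max_right _ _
  refine mul_nonneg hR (div_nonneg (le_max_left _ _) (by linarith))

theorem norm_rho_smul_le {E : Type*} [NormedAddCommGroup E] [NormedSpace ℝ E] {R : ℝ}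
    (hR : 0 ≤ R) {p : E} (hp : ‖p‖ ≤ 1) : ‖rho R ‖p‖ • p‖ ≤ R := by
  rw [norm_smul, Real.norm_eq_abs, abs_of_nonneg (rho_nonneg hR)]
  rcases le_total ‖p‖ (1 / 2) with h | h
  · rw [rho_low h, zero_mul]; exact hR
  · rw [rho_high h]; nlinarith

theorem norm_rho_smul_eq {E : Type*} [NormedAddCommGroup E] [NormedSpace ℝ E] {R : ℝ}
    (hR : 0 ≤ R) {p : E} (hp : ‖p‖ = 1) : ‖rho R ‖p‖ • p‖ = R := by
  rw [norm_smul, Real.norm_eq_abs, abs_of_nonneg (rho_nonneg hR), rho_high (by rw [hp]; norm_num),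
    hp]
  ring

theorem sig_low {x : ℝ} (hx : x ≤ 1 / 2) : sig x = 1 - 2 * x := by
  unfold sig; rw [max_eq_right (by linarith)]

theorem sig_high {x : ℝ} (hx : 1 / 2 ≤ x) : sig x = 0 := by
  unfold sig; rw [max_eq_left (by linarith)]

/-- **GALERKIN STEP** (node SWB of row 235). -/
theorem no_map (La : Xa →L[ℝ] Ya) (A : T →L[ℝ] Ya) (Lp : Xp →L[ℝ] Yp)
    (hA : Function.Bijective fun q : T × Xa => La q.2 + A q.1)
    (hk : FiniteDimensional ℝ (LinearMap.ker (Lp : Xp →ₗ[ℝ] Yp)))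
    (hr : IsClosed (Set.range Lp))
    (hcok : FiniteDimensional ℝ ((LinearMap.range (Lp : Xp →ₗ[ℝ] Yp))ᗮ : Submodule ℝ Yp))
    (hind : finrank ℝ ((LinearMap.range (Lp : Xp →ₗ[ℝ] Yp))ᗮ : Submodule ℝ Yp) <
      finrank ℝ (LinearMap.ker (Lp : Xp →ₗ[ℝ] Yp)))
    (Ka : T → Xa → Xp → Ya) (Kp : T → Xa → Xp → Yp)
    (hKa : ContinuousOn (fun q : T × (Xa × Xp) => Ka q.1 q.2.1 q.2.2) {q | ‖q.1‖ ≤ 1})
    (hKp : ContinuousOn (fun q : T × (Xa × Xp) => Kp q.1 q.2.1 q.2.2) {q | ‖q.1‖ ≤ 1})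
    (hCa : ∀ R : ℝ, ∃ C : Set Ya, IsCompact C ∧
      ∀ t a p, ‖t‖ ≤ 1 → ‖a‖ ≤ R → ‖p‖ ≤ R → Ka t a p ∈ C)
    (hCp : ∀ R : ℝ, ∃ C : Set Yp, IsCompact C ∧
      ∀ t a p, ‖t‖ ≤ 1 → ‖a‖ ≤ R → ‖p‖ ≤ R → Kp t a p ∈ C)
    (heven : ∀ t a p, ‖t‖ ≤ 1 → Ka t a (-p) = Ka t a p)
    (hodd : ∀ t a p, ‖t‖ ≤ 1 → Kp t a (-p) = -Kp t a p)
    (R : ℝ)
    (hzero : ∀ t a p, ‖t‖ ≤ 1 → La a + Ka t a p = 0 → Lp p + Kp t a p = 0 →
      ‖t‖ < 1 ∧ ‖a‖ < R ∧ ‖p‖ < R)
    (hred : ∀ s : ℝ, 0 ≤ s → s ≤ 1 → ∀ t a, ‖t‖ ≤ 1 →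
      La a + ((1 - s) • Ka t a 0 + s • A t) = 0 → ‖t‖ < 1 ∧ ‖a‖ < R) :
    False := by
  classical
  -- enlarge the radius
  obtain ⟨R1, hR1, hRR⟩ : ∃ R1 : ℝ, 1 ≤ R1 ∧ R ≤ R1 := ⟨max R 1, le_max_right _ _, le_max_left _ _⟩
  have hR0 : (0 : ℝ) < R1 := by linarith
  obtain ⟨Ca, hCac, hCa'⟩ := hCa R1
  obtain ⟨Cp, hCpc, hCp'⟩ := hCp R1
  have hpbA : PB (fun x => La x) := pb_of_bij La A hA
  have hpbP : PB (fun x => Lp x) := pb_of_fredholm Lp hk hr
  have hT : IsCompact (Metric.closedBall (0 : T) 1) := isCompact_closedBall _ _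
  -- first lower bound
  let B1 : Set (T × (Xa × Xp)) := {q | ‖q.1‖ ≤ 1 ∧ ‖q.2.1‖ ≤ R1 ∧ ‖q.2.2‖ ≤ R1 ∧
    (‖q.1‖ = 1 ∨ ‖q.2.1‖ = R1 ∨ ‖q.2.2‖ = R1)}
  have hB1 : IsClosed B1 := by
    have h1 : Continuous fun q : T × (Xa × Xp) => ‖q.1‖ := by fun_prop
    have h2 : Continuous fun q : T × (Xa × Xp) => ‖q.2.1‖ := by fun_prop
    have h3 : Continuous fun q : T × (Xa × Xp) => ‖q.2.2‖ := by fun_prop
    refine (isClosed_le h1 continuous_const).inter ((isClosed_le h2 continuous_const).inter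
      ((isClosed_le h3 continuous_const).inter ((isClosed_eq h1 continuous_const).union
        ((isClosed_eq h2 continuous_const).union (isClosed_eq h3 continuous_const)))))
  obtain ⟨e1, he1, hlow1⟩ := lower_bound (Q := T) (fun x : Xa × Xp => (La x.1, Lp x.2))
    (pb_prod hpbA hpbP) (by fun_prop) hT B1 hB1 R1
    (fun q hq => ⟨by simpa using hq.1, by
      rw [Prod.norm_def]; exact max_le hq.2.1 hq.2.2.1⟩)
    (fun q => (Ka q.1 q.2.1 q.2.2, Kp q.1 q.2.1 q.2.2))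
    ((hKa.mono fun q hq => hq.1).prodMk (hKp.mono fun q hq => hq.1))
    (hCac.prod hCpc)
    (fun q hq => ⟨hCa' _ _ _ hq.1 hq.2.1 hq.2.2.1, hCp' _ _ _ hq.1 hq.2.1 hq.2.2.1⟩)
    (by
      intro q hq h0
      have h1 : La q.2.1 + Ka q.1 q.2.1 q.2.2 = 0 := congrArg Prod.fst h0
      have h2 : Lp q.2.2 + Kp q.1 q.2.1 q.2.2 = 0 := congrArg Prod.snd h0
      obtain ⟨z1, z2, z3⟩ := hzero _ _ _ hq.1 h1 h2
      rcases hq.2.2.2 with h | h | h
      · exact absurd h (ne_of_lt z1)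
      · exact absurd h (ne_of_lt (lt_of_lt_of_le z2 hRR))
      · exact absurd h (ne_of_lt (lt_of_lt_of_le z3 hRR)))
  -- second lower bound
  let B2 : Set ((T × ℝ) × Xa) := {q | ‖q.1.1‖ ≤ 1 ∧ (0 ≤ q.1.2 ∧ q.1.2 ≤ 1) ∧ ‖q.2‖ ≤ R1 ∧
    (‖q.1.1‖ = 1 ∨ ‖q.2‖ = R1)}
  have hB2 : IsClosed B2 := by
    have h1 : Continuous fun q : (T × ℝ) × Xa => ‖q.1.1‖ := by fun_prop
    have h2 : Continuous fun q : (T × ℝ) × Xa => q.1.2 := by fun_prop
    have h3 : Continuous fun q : (T × ℝ) × Xa => ‖q.2‖ := by fun_prop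
    refine (isClosed_le h1 continuous_const).inter (((isClosed_le continuous_const h2).inter
      (isClosed_le h2 continuous_const)).inter ((isClosed_le h3 continuous_const).inter
        ((isClosed_eq h1 continuous_const).union (isClosed_eq h3 continuous_const))))
  let C2 : Set Ya := (fun z : (ℝ × Ya) × T => (1 - z.1.1) • z.1.2 + z.1.1 • A z.2) ''
    ((Icc (0 : ℝ) 1 ×ˢ Ca) ×ˢ Metric.closedBall (0 : T) 1)
  have hC2 : IsCompact C2 := by
    refine ((isCompact_Icc.prod hCac).prod hT).image ?_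
    fun_prop
  have hKa0 : ContinuousOn (fun q : (T × ℝ) × Xa => Ka q.1.1 q.2 0) B2 := by
    have hc : Continuous fun q : (T × ℝ) × Xa => ((q.1.1, (q.2, (0 : Xp))) : T × (Xa × Xp)) := by
      fun_prop
    exact hKa.comp hc.continuousOn (fun q hq => hq.1)
  obtain ⟨e2, he2, hlow2⟩ := lower_bound (Q := T × ℝ) (fun x : Xa => La x)
    hpbA La.continuous (hT.prod (isCompact_Icc (a := (0 : ℝ)) (b := 1))) B2 hB2 R1
    (fun q hq => ⟨⟨by simpa using hq.1, hq.2.1⟩, hq.2.2.1⟩)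
    (fun q => (1 - q.1.2) • Ka q.1.1 q.2 0 + q.1.2 • A q.1.1)
    (by
      refine ContinuousOn.add (ContinuousOn.smul (by fun_prop) hKa0) (by fun_prop))
    hC2
    (fun q hq => ⟨((q.1.2, Ka q.1.1 q.2 0), q.1.1),
      ⟨⟨hq.2.1, hCa' _ _ _ hq.1 hq.2.2.1 (by rw [norm_zero]; exact hR0.le)⟩,
        by simpa using hq.1⟩, rfl⟩)
    (by
      intro q hq h0
      obtain ⟨z1, z2⟩ := hred q.1.2 hq.2.1.1 hq.2.1.2 q.1.1 q.2 hq.1 h0
      rcases hq.2.2.2 with h | h
      · exact absurd h (ne_of_lt z1)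
      · exact absurd h (ne_of_lt (lt_of_lt_of_le z2 hRR)))
  -- finite dimensional subspaces
  obtain ⟨Wa, hWa0, hWaf, hWa⟩ := exists_approx hCac (LinearMap.range (A : T →ₗ[ℝ] Ya))
    (lt_min he1 he2)
  obtain ⟨Wp, hWp0, hWpf, hWp⟩ := exists_approx hCpc
    ((LinearMap.range (Lp : Xp →ₗ[ℝ] Yp))ᗮ : Submodule ℝ Yp) (lt_min he1 he2)
  have hkA : FiniteDimensional ℝ (LinearMap.ker (La : Xa →ₗ[ℝ] Ya)) := by
    have hinj : LinearMap.ker (La : Xa →ₗ[ℝ] Ya) = ⊥ := by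
      rw [LinearMap.ker_eq_bot]
      intro x y hxy
      have h1 : (fun q : T × Xa => La q.2 + A q.1) (0, x) =
          (fun q : T × Xa => La q.2 + A q.1) (0, y) := by
        simp only [map_zero, add_zero]; exact hxy
      have h2 := hA.1 h1
      exact congrArg Prod.snd h2
    rw [hinj]; infer_instance
  have hVa : FiniteDimensional ℝ (Wa.comap (La : Xa →ₗ[ℝ] Ya)) := finDim_comap La hkA Wa hWaf
  have hVp : FiniteDimensional ℝ (Wp.comap (Lp : Xp →ₗ[ℝ] Yp)) := finDim_comap Lp hk Wp hWpf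
  have hdim := dim_lt Lp hk hr hind Wp hWpf hWp0
  -- the surjection `T × Va → Wa`
  have hLaW : ∀ a : Wa.comap (La : Xa →ₗ[ℝ] Ya), La (R1 • (a : Xa)) ∈ Wa := by
    intro a
    rw [map_smul]
    exact Wa.smul_mem _ a.2
  have hAW : ∀ t : T, A t ∈ Wa := fun t => hWa0 ⟨t, rfl⟩
  let g : (T × (Wa.comap (La : Xa →ₗ[ℝ] Ya))) →ₗ[ℝ] Wa :=
    { toFun := fun q => ⟨La (R1 • (q.2 : Xa)) + A q.1, Wa.add_mem (hLaW q.2) (hAW q.1)⟩
      map_add' := by
        intro q q'
        apply Subtype.ext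
        simp only [Prod.fst_add, Prod.snd_add, Submodule.coe_add, smul_add, map_add]
        abel
      map_smul' := by
        intro c q
        apply Subtype.ext
        simp only [Prod.smul_fst, Prod.smul_snd, Submodule.coe_smul, map_smul, RingHom.id_apply,
          smul_add, smul_comm R1 c] }
  have hg : Function.Surjective g := by
    intro w
    obtain ⟨⟨t, a⟩, hta⟩ := hA.2 (w : Ya)
    simp only at hta
    have haW : La a ∈ Wa := by
      have : La a = (w : Ya) - A t := by rw [← hta]; abel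
      rw [this]
      exact Wa.sub_mem w.2 (hAW t)
    refine ⟨(t, R1⁻¹ • ⟨a, haW⟩), ?_⟩
    apply Subtype.ext
    show La (R1 • (R1⁻¹ • a)) + A t = (w : Ya)
    rw [smul_smul, mul_inv_cancel₀ hR0.ne', one_smul, hta]
  have hX : finrank ℝ Wa ≤ finrank ℝ (T × (Wa.comap (La : Xa →ₗ[ℝ] Ya))) :=
    LinearMap.finrank_le_finrank_of_surjective (f := g) hg
  -- the finite dimensional maps
  let P : T × (Wa.comap (La : Xa →ₗ[ℝ] Ya)) → (Wp.comap (Lp : Xp →ₗ[ℝ] Yp)) → Wa := fun x y =>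
    Wa.orthogonalProjectionOnto (La (R1 • (x.2 : Xa)) +
      ((1 - sig ‖y‖) • Ka x.1 (R1 • (x.2 : Xa)) (rho R1 ‖y‖ • (y : Xp)) + sig ‖y‖ • A x.1))
  let Q : T × (Wa.comap (La : Xa →ₗ[ℝ] Ya)) → (Wp.comap (Lp : Xp →ₗ[ℝ] Yp)) → Wp := fun x y =>
    Wp.orthogonalProjectionOnto (Lp (rho R1 ‖y‖ • (y : Xp)) +
      Kp x.1 (R1 • (x.2 : Xa)) (rho R1 ‖y‖ • (y : Xp)))
  have hsph : ∀ q : (T × (Wa.comap (La : Xa →ₗ[ℝ] Ya))) × (Wp.comap (Lp : Xp →ₗ[ℝ] Yp)),
      ‖q‖ = 1 → ‖q.1.1‖ ≤ 1 ∧ ‖q.1.2‖ ≤ 1 ∧ ‖q.2‖ ≤ 1 := by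
    intro q hq
    have h1 := norm_fst_le q
    have h2 := norm_snd_le q
    have h3 := norm_fst_le q.1
    have h4 := norm_snd_le q.1
    rw [hq] at h1 h2
    exact ⟨h3.trans h1, h4.trans h1, h2⟩
  have hinn : Continuous fun q : (T × (Wa.comap (La : Xa →ₗ[ℝ] Ya))) ×
      (Wp.comap (Lp : Xp →ₗ[ℝ] Yp)) =>
      ((q.1.1, (R1 • (q.1.2 : Xa), rho R1 ‖q.2‖ • (q.2 : Xp))) : T × (Xa × Xp)) := by
    have := cont_rho R1
    fun_prop
  have hinS : MapsTo (fun q : (T × (Wa.comap (La : Xa →ₗ[ℝ] Ya))) ×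
      (Wp.comap (Lp : Xp →ₗ[ℝ] Yp)) =>
      ((q.1.1, (R1 • (q.1.2 : Xa), rho R1 ‖q.2‖ • (q.2 : Xp))) : T × (Xa × Xp)))
      (Metric.sphere 0 1) {q | ‖q.1‖ ≤ 1} := by
    intro q hq
    exact (hsph q (by simpa using hq)).1
  have hPc : ContinuousOn (fun q : (T × (Wa.comap (La : Xa →ₗ[ℝ] Ya))) ×
      (Wp.comap (Lp : Xp →ₗ[ℝ] Yp)) => P q.1 q.2) (Metric.sphere 0 1) := by
    have hk1 := hKa.comp hinn.continuousOn hinS
    have hs := cont_sig
    refine (Wa.orthogonalProjectionOnto).continuous.comp_continuousOn ?_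
    refine ContinuousOn.add (by fun_prop) (ContinuousOn.add (ContinuousOn.smul ?_ hk1) ?_)
    · exact (by fun_prop : Continuous fun q : (T × (Wa.comap (La : Xa →ₗ[ℝ] Ya))) ×
        (Wp.comap (Lp : Xp →ₗ[ℝ] Yp)) => 1 - sig ‖q.2‖).continuousOn
    · exact (by fun_prop : Continuous fun q : (T × (Wa.comap (La : Xa →ₗ[ℝ] Ya))) ×
        (Wp.comap (Lp : Xp →ₗ[ℝ] Yp)) => sig ‖q.2‖ • A q.1.1).continuousOn
  have hQc : ContinuousOn (fun q : (T × (Wa.comap (La : Xa →ₗ[ℝ] Ya))) ×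
      (Wp.comap (Lp : Xp →ₗ[ℝ] Yp)) => Q q.1 q.2) (Metric.sphere 0 1) := by
    have hk1 := hKp.comp hinn.continuousOn hinS
    have hs := cont_rho R1
    refine (Wp.orthogonalProjectionOnto).continuous.comp_continuousOn ?_
    refine ContinuousOn.add ?_ hk1
    exact (by fun_prop : Continuous fun q : (T × (Wa.comap (La : Xa →ₗ[ℝ] Ya))) ×
        (Wp.comap (Lp : Xp →ₗ[ℝ] Yp)) => Lp (rho R1 ‖q.2‖ • (q.2 : Xp))).continuousOn
  obtain ⟨x, y, hxy, hP0, hQ0⟩ := FdB_356.fd_odd (X := T × (Wa.comap (La : Xa →ₗ[ℝ] Ya)))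
    (X' := Wa) (Y := Wp.comap (Lp : Xp →ₗ[ℝ] Yp)) (B := Wp) hdim hX one_pos P Q hPc hQc
    (by
      intro x y hxy
      obtain ⟨h1, -, -⟩ := hsph (x, y) hxy
      show Wa.orthogonalProjectionOnto _ = Wa.orthogonalProjectionOnto _
      simp only [norm_neg, Submodule.coe_neg, smul_neg]
      rw [heven _ _ _ h1])
    (by
      intro x y hxy
      obtain ⟨h1, -, -⟩ := hsph (x, y) hxy
      show Wp.orthogonalProjectionOnto _ = -Wp.orthogonalProjectionOnto _
      simp only [norm_neg, Submodule.coe_neg, smul_neg]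
      rw [hodd _ _ _ h1, ← map_neg]
      congr 1
      rw [map_neg]
      abel)
    (by
      intro x hx
      show Wa.orthogonalProjectionOnto _ = -Wa.orthogonalProjectionOnto _
      rw [← map_neg]
      congr 1
      have hs0 : sig ‖(0 : Wp.comap (Lp : Xp →ₗ[ℝ] Yp))‖ = 1 := by
        rw [norm_zero, sig_low (by norm_num)]; norm_num
      rw [hs0]
      simp only [sub_self, zero_smul, zero_add, one_smul, Prod.fst_neg, Prod.snd_neg,
        Submodule.coe_neg, smul_neg, map_neg]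
      abel)
  -- conclusion
  obtain ⟨hx1, hx2, hy1⟩ := hsph (x, y) hxy
  simp only at hx1 hx2 hy1
  set a : Xa := R1 • (x.2 : Xa) with ha
  set p : Xp := rho R1 ‖y‖ • (y : Xp) with hp
  have hna : ‖a‖ ≤ R1 := by
    rw [ha, norm_smul, Real.norm_eq_abs, abs_of_pos hR0]
    have : ‖(x.2 : Xa)‖ ≤ 1 := hx2
    nlinarith
  have hnp : ‖p‖ ≤ R1 := norm_rho_smul_le hR0.le (p := (y : Xp)) hy1
  have hKaC := hCa' x.1 a p hx1 hna hnp
  have hKpC := hCp' x.1 a p hx1 hna hnp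
  have hLaa : Wa.starProjection (La a) = La a := Submodule.starProjection_eq_self_iff.2 (hLaW x.2)
  have hAt : Wa.starProjection (A x.1) = A x.1 := Submodule.starProjection_eq_self_iff.2 (hAW x.1)
  have hLpp : Wp.starProjection (Lp p) = Lp p := by
    refine Submodule.starProjection_eq_self_iff.2 ?_
    rw [hp, map_smul]
    exact Wp.smul_mem _ y.2
  have hsig0 : 0 ≤ sig ‖y‖ := le_max_left _ _
  have hsig1 : sig ‖y‖ ≤ 1 := by
    unfold sig
    refine max_le zero_le_one ?_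
    have := norm_nonneg y
    linarith
  have hP1 : Wa.starProjection (La a + ((1 - sig ‖y‖) • Ka x.1 a p + sig ‖y‖ • A x.1)) = 0 := by
    have : ((Wa.orthogonalProjectionOnto
        (La a + ((1 - sig ‖y‖) • Ka x.1 a p + sig ‖y‖ • A x.1)) : Wa) : Ya) = 0 := by
      have h := hP0
      show ((P x y : Wa) : Ya) = 0
      rw [h]; rfl
    exact this
  have hQ1 : Wp.starProjection (Lp p + Kp x.1 a p) = 0 := by
    have : ((Wp.orthogonalProjectionOnto (Lp p + Kp x.1 a p) : Wp) : Yp) = 0 := by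
      have h := hQ0
      show ((Q x y : Wp) : Yp) = 0
      rw [h]; rfl
    exact this
  have hpn : ‖y‖ = 1 → ‖p‖ = R1 := fun h => norm_rho_smul_eq hR0.le (p := (y : Xp)) h
  clear_value a p
  have hva : ‖La a + ((1 - sig ‖y‖) • Ka x.1 a p + sig ‖y‖ • A x.1)‖ < min e1 e2 := by
    have heq : La a + ((1 - sig ‖y‖) • Ka x.1 a p + sig ‖y‖ • A x.1) =
        (1 - sig ‖y‖) • (Ka x.1 a p - Wa.starProjection (Ka x.1 a p)) := by
      have h := hP1
      rw [map_add, map_add, map_smul, map_smul, hLaa, hAt] at h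
      rw [smul_sub]
      have h' : La a + sig ‖y‖ • A x.1 = -((1 - sig ‖y‖) • Wa.starProjection (Ka x.1 a p)) := by
        rw [eq_neg_iff_add_eq_zero, ← h]; abel
      calc La a + ((1 - sig ‖y‖) • Ka x.1 a p + sig ‖y‖ • A x.1)
          = (1 - sig ‖y‖) • Ka x.1 a p + (La a + sig ‖y‖ • A x.1) := by abel
        _ = _ := by rw [h']; abel
    rw [heq, norm_smul, Real.norm_eq_abs, abs_of_nonneg (by linarith)]
    have h1 := hWa _ hKaC
    have h2 : 0 ≤ ‖Ka x.1 a p - Wa.starProjection (Ka x.1 a p)‖ := norm_nonneg _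
    nlinarith
  have hvp : ‖Lp p + Kp x.1 a p‖ < min e1 e2 := by
    have heq : Lp p + Kp x.1 a p = Kp x.1 a p - Wp.starProjection (Kp x.1 a p) := by
      have h := hQ1
      rw [map_add, hLpp] at h
      have h' : Lp p = -(Wp.starProjection (Kp x.1 a p)) := eq_neg_of_add_eq_zero_left h
      rw [h']; abel
    rw [heq]
    exact hWp _ hKpC
  have hbd : ‖x.1‖ = 1 ∨ ‖x.2‖ = 1 ∨ ‖y‖ = 1 := by
    have h := hxy
    rw [Prod.norm_def, Prod.norm_def] at h
    simp only at h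
    rcases max_choice (max ‖x.1‖ ‖x.2‖) ‖y‖ with h1 | h1
    · rw [h1] at h
      rcases max_choice ‖x.1‖ ‖x.2‖ with h2 | h2
      · rw [h2] at h; exact Or.inl h
      · rw [h2] at h; exact Or.inr (Or.inl h)
    · rw [h1] at h; exact Or.inr (Or.inr h)
  have ha1 : ‖x.2‖ = 1 → ‖a‖ = R1 := by
    intro h
    rw [ha, norm_smul, Real.norm_eq_abs, abs_of_pos hR0]
    have : ‖(x.2 : Xa)‖ = 1 := h
    rw [this, mul_one]
  rcases le_total (1 / 2) ‖y‖ with hy | hy
  · -- outer region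
    have hs0 : sig ‖y‖ = 0 := sig_high hy
    rw [hs0] at hva
    simp only [sub_zero, one_smul, zero_smul, add_zero] at hva
    have hmem : ((x.1, (a, p)) : T × (Xa × Xp)) ∈ B1 := by
      refine ⟨hx1, hna, hnp, ?_⟩
      rcases hbd with h | h | h
      · exact Or.inl h
      · exact Or.inr (Or.inl (ha1 h))
      · exact Or.inr (Or.inr (hpn h))
    have hl := hlow1 _ hmem
    have hn : ‖((La a, Lp p) : Ya × Yp) + (Ka x.1 a p, Kp x.1 a p)‖ < e1 := by
      rw [Prod.mk_add_mk, Prod.norm_def]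
      exact max_lt (hva.trans_le (min_le_left _ _)) (hvp.trans_le (min_le_left _ _))
    exact absurd hl (not_le.2 hn)
  · -- inner region
    have hp0 : p = 0 := by rw [hp, rho_low hy, zero_smul]
    rw [hp0] at hva
    have hmem : (((x.1, sig ‖y‖), a) : (T × ℝ) × Xa) ∈ B2 := by
      refine ⟨hx1, ⟨hsig0, hsig1⟩, hna, ?_⟩
      rcases hbd with h | h | h
      · exact Or.inl h
      · exact Or.inr (ha1 h)
      · exfalso; linarith
    have hl := hlow2 _ hmem
    exact absurd hl (not_le.2 (hva.trans_le (min_le_right _ _)))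

end main

end Crest.Agent.R235.Gal_755
end

-- ▼ part R235/Swx_333

/-!
Row 235 (S0364), PACKAGE SW, leaf SWX (helper333): **the abstract existence theorem**.

* `EMB4` : Sobolev embedding `W^{1,2} → L⁴` for every `Dat 4` (R235 Sob4);
* `core` : the assembly from `Gal_755.no_map`;
* `swx_of_emb (hE : EMB4) (hS : SUPB) : SWX`.
-/

set_option autoImplicit false
set_option maxSynthPendingDepth 3
set_option linter.unusedSectionVars false

open scoped ContDiff ENNReal NNReal Topology Manifold Bundle RealInnerProductSpace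
open MeasureTheory Set Filter Metric Bundle

universe v

noncomputable section

namespace Crest.Agent.R235.Swx_333

open Crest.Agent.R249.Tv57 Crest.Agent.R247.Ms322 Crest.Agent.R247.Dir593
open Crest.Agent.R235.SWDefs_53 Crest.Agent.R235.CptB_755 Crest.Agent.R235.Fs4_546
open Crest.Agent.R235.CptC_755 Crest.Agent.R235.Cpt_755 Crest.Agent.R235.Fred_649

local notation "ipp" => Crest.Agent.R249.Tv57.ip 4

/-- Sobolev embedding for all bundles on closed four-manifolds. -/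
def EMB4 : Prop :=
  ∀ (M : Type v) [MetricSpace M] [CompactSpace M] [ConnectedSpace M]
    [ChartedSpace (EuclideanSpace ℝ (Fin 4)) M] [IsManifold (𝓡 4) ∞ M]
    [RiemannianBundle (fun p : M => TangentSpace (𝓡 4) p)]
    [IsContMDiffRiemannianBundle (𝓡 4) ∞ (EuclideanSpace ℝ (Fin 4))
      (fun p : M => TangentSpace (𝓡 4) p)]
    [IsRiemannianManifold (𝓡 4) M] [MeasurableSpace M] [BorelSpace M]
    [SecondCountableTopology M] [Nonempty M] [IsFiniteMeasureOnCompacts (μHE[4] : Measure M)]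
    (κ : Type) [Fintype κ] (D : Dat 4 M κ), Emb4 D.toAD.i1

section main

variable {M : Type v} [MetricSpace M] [CompactSpace M] [ConnectedSpace M]
  [ChartedSpace (EuclideanSpace ℝ (Fin 4)) M] [IsManifold (𝓡 4) ∞ M]
  [RiemannianBundle (fun p : M => TangentSpace (𝓡 4) p)]
  [IsContMDiffRiemannianBundle (𝓡 4) ∞ (EuclideanSpace ℝ (Fin 4))
    (fun p : M => TangentSpace (𝓡 4) p)]
  [IsRiemannianManifold (𝓡 4) M] [MeasurableSpace M] [BorelSpace M]
  [SecondCountableTopology M] [Nonempty M] [IsFiniteMeasureOnCompacts (μHE[4] : Measure M)]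
  {κ0 κ1 κT : Type} [Fintype κ0] [Fintype κ1] [Fintype κT]

/-- the linear part is bijective. -/
theorem lin_bij {S : SWS M κ0 κ1 κT} {d : SWD M κT} (hd : d.Adm S) :
    Function.Bijective fun q : E3 × EuclideanSpace ℝ (Fin 0) =>
      (0 : EuclideanSpace ℝ (Fin 0) →L[ℝ] E3) q.2 + LinearMap.toContinuousLinearMap (gA d) q.1 := by
  have h := gA_bij hd
  constructor
  · intro q q' hq
    have h1 : gA d q.1 = gA d q'.1 := by
      have : (0 : EuclideanSpace ℝ (Fin 0) →L[ℝ] E3) q.2 +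
        LinearMap.toContinuousLinearMap (gA d) q.1 =
        (0 : EuclideanSpace ℝ (Fin 0) →L[ℝ] E3) q'.2 +
        LinearMap.toContinuousLinearMap (gA d) q'.1 := hq
      simpa using this
    exact Prod.ext (h.1 h1) (Subsingleton.elim _ _)
  · intro y
    obtain ⟨t, ht⟩ := h.2 y
    exact ⟨(t, 0), by simpa using ht⟩

/-- the harmonic part at the zero spinor. -/
theorem hpr_zero {S : SWS M κ0 κ1 κT} {d : SWD M κT} (hS : S.OK) (hd : d.Adm S) {R : ℝ}
    (hR : 0 < R) {t : E3} (ht : t ∈ BB) (i : Fin 3) :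
    hpr hd (Fq (S := S) d R t 0) i = ipp (wi d i) (red d t) := by
  have := finM (M := M)
  rw [hpr_apply]
  refine inner_HH (Wi hd i) (Fq (S := S) d R t 0) (coe_clH (wi d i) (sm_wi hd i)) ?_
  have e0 : ∀ᵐ z ∂(μHE[4] : Measure M), ∀ a, (S.D0.toAD.i1 0 a : M → ℝ) z = 0 := by
    rw [ae_all_iff]
    intro a
    have : S.D0.toAD.i1 0 = 0 := map_zero _
    rw [this]
    exact Lp.coeFn_zero ℝ 2 (μHE[4] : Measure M)
  filter_upwards [coe_nem (nemOK hS hd hR (μHE[4] : Measure M)) ht (S.D0.toAD.i1 0), e0]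
    with z e1 e2 l
  have e3 : (Fq (S := S) d R t 0 l : M → ℝ) z =
    Qf S d R t z (fun a => (S.D0.toAD.i1 0 a : M → ℝ) z) l := e1 l
  rw [e3]
  have e4 : (fun a => (S.D0.toAD.i1 0 a : M → ℝ) z) = 0 := funext e2
  rw [e4]
  refine Fin.cases ?_ (fun k => ?_) l
  · rfl
  · rw [Qf_at_zero]
    rfl

set_option maxHeartbeats 3200000 in
/-- **the assembly**. -/
theorem core {S : SWS M κ0 κ1 κT} {d : SWD M κT} (hS : S.OK) (hd : d.Adm S)
    (s0 : Spec S.DL) (sT : Spec S.DT) (p0 : Spec S.D0) (p1 : Spec S.D1)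
    (h4 : Emb4 S.D0.toAD.i1) (hT4 : Emb4 S.DT.toAD.i1) (K : KerD S.DL S.H.A 4)
    (hlt : p1.ker.card < p0.ker.card)
    (hb : ∃ C0 : ℝ, ∀ R : ℝ, C0 < R ^ 2 → 0 < R → ∀ (t : E3) (a : κT → M → ℝ) (u : κ0 → M → ℝ),
      ‖t‖ ≤ 1 → TSol S d R t a u → ∀ᵐ z ∂(μHE[4] : Measure M), ∑ y, u y z ^ 2 ≤ C0) :
    ∃ (t : E3) (a : κT → M → ℝ) (u : κ0 → M → ℝ), ‖t‖ = 1 ∧ Sol S d t a u := by
  by_contra hno
  push Not at hno
  have := finM (M := M)
  obtain ⟨C0, hC0⟩ := hb
  set R := √(max C0 0) + 1 with hRdef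
  have hs0 : 0 ≤ √(max C0 0) := Real.sqrt_nonneg _
  have hR : 0 < R := by positivity
  have hCR : C0 < R ^ 2 := by
    have h1 := Real.sq_sqrt (le_max_right C0 0)
    have h2 := le_max_left C0 0
    rw [hRdef]
    nlinarith
  obtain ⟨r, hr, hbd⟩ := zero_bound hS hd s0 h4 hT4 hR C0
  have hQ := nemOK hS hd hR (μHE[4] : Measure M)
  have hjc : IsCompactOperator S.D0.toAD.i1 := S.D0.toAD.compact_i1 fried4
  have hL : ContinuousOn (fun t => (matR (bm_mth hS hd t) :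
      HH (μHE[4] : Measure M) κ0 →L[ℝ] HH (μHE[4] : Measure M) κ1)) BB :=
    matR_family (bm_mth hS hd) fun t0 ht0 ε hε => mth_unif hS hd ht0 hε
  refine Crest.Agent.R235.Gal_755.no_map (T := E3) (Xa := EuclideanSpace ℝ (Fin 0)) (Ya := E3)
    (Xp := S.D0.toAD.WE) (Yp := S.D1.toAD.HE)
    (0 : EuclideanSpace ℝ (Fin 0) →L[ℝ] E3) (LinearMap.toContinuousLinearMap (gA d))
    (Ah S.P) (lin_bij hd) (finiteDimensional_ker (dns4 _) p0) ?_ ?_ ?_
    (fun t _ p => hpr hd (Fq d R t p)) (fun t _ p => PL S.D1 (KKt hS hd s0 R t p))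
    ?_ ?_ ?_ ?_ ?_ ?_ r ?_ ?_
  · exact isClosed_range (P := S.P) (dns4 _) (dns4 _) p1
  · rw [orth_range (P := S.P) (dns4 _) (dns4 _) p1]
    infer_instance
  · rw [finrank_coker (P := S.P) (dns4 _) (dns4 _) p1, finrank_ker (P := S.P) (dns4 _) p0]
    exact hlt
  · -- continuity of the curvature part
    have h1 := HQ_continuousOn (j := S.D0.toAD.i1) hQ (hpr hd)
    exact h1.comp (f := fun q : E3 × (EuclideanSpace ℝ (Fin 0) × S.D0.toAD.WE) =>
      ((q.1, q.2.2) : E3 × S.D0.toAD.WE))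
      (continuous_fst.prodMk (continuous_snd.comp continuous_snd)).continuousOn (fun q hq => hq)
  · -- continuity of the Dirac part
    have h1 := KK_continuousOn h4 hT4 hQ (GG1 S s0) (cc S) (bm_cc hS) hL
    have h2 : ContinuousOn (fun q : E3 × S.D0.toAD.WE => PL S.D1 (KKt hS hd s0 R q.1 q.2))
        {q | q.1 ∈ BB} := (PL S.D1).continuous.comp_continuousOn h1
    exact h2.comp (f := fun q : E3 × (EuclideanSpace ℝ (Fin 0) × S.D0.toAD.WE) =>
      ((q.1, q.2.2) : E3 × S.D0.toAD.WE))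
      (continuous_fst.prodMk (continuous_snd.comp continuous_snd)).continuousOn (fun q hq => hq)
  · intro ρ
    obtain ⟨C, hC, h1⟩ := HQ_compact hjc hQ (hpr hd) isCompact_BB ρ
    exact ⟨C, hC, fun t a p ht _ hp => h1 t p ht hp⟩
  · intro ρ
    obtain ⟨C, hC, h1⟩ := KK_compact h4 hjc hT4 hQ (GG1 S s0) (cc S) (bm_cc hS) hL isCompact_BB ρ
    exact ⟨PL S.D1 '' C, hC.image (PL S.D1).continuous,
      fun t a p ht _ hp => ⟨_, h1 t p ht hp, rfl⟩⟩
  · intro t a p ht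
    show hpr hd (Fq d R t (-p)) = hpr hd (Fq d R t p)
    have h1 : Fq d R t (-p) = Fq d R t p := by
      show nem (Qf S d R) t (S.D0.toAD.i1 (-p)) = nem (Qf S d R) t (S.D0.toAD.i1 p)
      rw [map_neg]
      exact nem_even (fun x v => Qf_even S d R t x v) _ hQ ht
    rw [h1]
  · intro t a p ht
    show PL S.D1 (KKt hS hd s0 R t (-p)) = -PL S.D1 (KKt hS hd s0 R t p)
    rw [← map_neg]
    congr 1
    exact KK_odd hQ (GG1 S s0) (cc S) (bm_cc hS) ht (fun x v => Qf_even S d R t x v) p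
  · -- the zeros
    intro t a p ht h1 h2
    have h1' : hpr hd (Fq d R t p) = 0 := by simpa using h1
    have hT := tsol_of_zero hS hd s0 sT h4 hT4 K hR ht p h1' h2
    have hbb := hC0 R hCR hR t _ _ ht hT
    have hSol := sol_of_tsol hR hCR hT hbb
    have ha : a = 0 := Subsingleton.elim _ _
    refine ⟨lt_of_le_of_ne ht fun h => hno t _ _ h hSol, ?_, hbd t ht p h2 hbb⟩
    rw [ha, norm_zero]
    exact hr
  · -- the reducible part
    intro s hs hs1 t a ht h1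
    have ha : a = 0 := Subsingleton.elim _ _
    refine ⟨lt_of_le_of_ne ht fun h => ?_, by rw [ha, norm_zero]; exact hr⟩
    refine hred hd hs hs1 h (V := hpr hd (Fq (S := S) d R t 0)) (hpr_zero hS hd hR ht) ?_
    simpa using h1

end main

/-- **SWX**, from the Sobolev embedding and the sup bound. -/
theorem swx_of_emb (hE : EMB4.{v}) (hS : SUPB.{v}) : SWX.{v} := by
  intro M _ _ _ _ _ _ _ _ _ _ _ _ _ κ0 κ1 κT _ _ _ S d hOK hAdm d0 d1 hK0 hK1 hlt hK
  obtain ⟨K⟩ := hK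
  obtain ⟨s0⟩ := spec_DL hOK
  obtain ⟨sT⟩ := spec4 S.DT (exists_p_ne S.H s0)
  obtain ⟨p0⟩ : Nonempty (Spec S.D0) := by
    obtain ⟨K0⟩ := hK0
    exact spec4 S.D0 (exists_p_ne_of_ker K0 (by omega))
  obtain ⟨p1⟩ := spec4 S.D1 (exists_p_ne S.P p0)
  have e0 := card_ker S.P p0 hK0
  have e1 := card_ker S.P.swap p1 hK1
  exact core hOK hAdm s0 sT p0 p1 (hE M κ0 S.D0) (hE M κT S.DT) K (by rw [e0, e1]; exact hlt)
    (hS M κ0 κ1 κT S d hOK hAdm)

end Crest.Agent.R235.Swx_333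

end
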