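import Crest.Agent.R235.TauK_483
import Crest.Agent.R235.TauL_483

-- ▼ part R235/TauN_483
section

/-!
Row 235 (S0364), SW-TAU (helper483), part N: the integral identity behind `T2`.
-/

set_option autoImplicit false
set_option maxSynthPendingDepth 3
set_option linter.unusedSectionVars false

open scoped ContDiff ENNReal NNReal Topology Manifold Bundle RealInnerProductSpace
open MeasureTheory Set Filter Metric Bundle Matrix

universe v

namespace Crest.Agent.R235.Tau483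

open Crest.Agent.R240 Crest.Agent.R240.Ch Crest.Agent.R240.Int Crest.Agent.R235.SWDefs_53
open Crest.Agent.R235.IndTri_451
open Crest.Agent.R249.Tv57 (Dat OpPair SmF Spec)
open Crest.Agent.R247.Ms322 (Gr)
open Crest.Agent.R249.Vf281 (VSm mCov)
open Crest.Agent.R247.Bo84 (mgrad inner_mgrad)
open Crest.Agent.R249.Tz805 (ToF)

noncomputable section

variable {M : Type v} [MetricSpace M] [CompactSpace M] [ConnectedSpace M]
  [ChartedSpace (EuclideanSpace ℝ (Fin 4)) M] [IsManifold (𝓡 4) ∞ M]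
  [RiemannianBundle (fun p : M => TangentSpace (𝓡 4) p)]
  [IsContMDiffRiemannianBundle (𝓡 4) ∞ (EuclideanSpace ℝ (Fin 4))
    (fun p : M => TangentSpace (𝓡 4) p)]
  [IsRiemannianManifold (𝓡 4) M] [MeasurableSpace M] [BorelSpace M]
  [SecondCountableTopology M] [Nonempty M]
  {κ0 κ1 κT : Type} [Fintype κ0] [Fintype κ1] [Fintype κT]

/-- coefficient of `w_j` in `rr y^k`. -/
def fc (τ : TD M κT) (A : Fin 3 → Fin 3 → M → ℝ) (k j : Fin 3) (z : M) : ℝ :=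
  ∑ l, τ.rr z * Al.yk (nv τ z) k l * A l j z

/-- coefficient of `w_j` in `rr y^k × n`. -/
def gc (τ : TD M κT) (A : Fin 3 → Fin 3 → M → ℝ) (k j : Fin 3) (z : M) : ℝ :=
  ∑ l, τ.rr z * Al.cr (Al.yk (nv τ z) k) (nv τ z) l * A l j z

section n

variable [IsFiniteMeasureOnCompacts (μHE[4] : Measure M)]
  {τ : TD M κT} {S : SWS M κ0 κ1 κT} {T : ToF 4 M}
    {cc : κ1 → κ0 → (z : M) → TangentSpace (𝓡 4) z}
    {W : κ0 → κ0 → (z : M) → TangentSpace (𝓡 4) z}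
    {sT : κT → (z : M) → TangentSpace (𝓡 4) z} {w : Trip M} {e : Fin 3 → F2 E4 M}
    {σ ι : ℝ} {Z : κ1 → κ0 → M → ℝ} {A : Fin 3 → Fin 3 → M → ℝ}

theorem sm_yk (hn : ∀ k, ContMDiff (𝓡 4) 𝓘(ℝ, ℝ) ∞ (τ.n k)) (k l : Fin 3) :
    ContMDiff (𝓡 4) 𝓘(ℝ, ℝ) ∞ fun z => Al.yk (nv τ z) k l :=
  sm_sub (sm_const _) (sm_mul (hn k) (hn l))

theorem sm_fc (hr : ContMDiff (𝓡 4) 𝓘(ℝ, ℝ) ∞ τ.rr)
    (hn : ∀ k, ContMDiff (𝓡 4) 𝓘(ℝ, ℝ) ∞ (τ.n k))
    (hA : ∀ i j, ContMDiff (𝓡 4) 𝓘(ℝ, ℝ) ∞ (A i j)) (k j : Fin 3) :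
    ContMDiff (𝓡 4) 𝓘(ℝ, ℝ) ∞ (fc τ A k j) :=
  sm_sum fun l => sm_mul (sm_mul hr (sm_yk hn k l)) (hA l j)

theorem sm_gc (hr : ContMDiff (𝓡 4) 𝓘(ℝ, ℝ) ∞ τ.rr)
    (hn : ∀ k, ContMDiff (𝓡 4) 𝓘(ℝ, ℝ) ∞ (τ.n k))
    (hA : ∀ i j, ContMDiff (𝓡 4) 𝓘(ℝ, ℝ) ∞ (A i j)) (k j : Fin 3) :
    ContMDiff (𝓡 4) 𝓘(ℝ, ℝ) ∞ (gc τ A k j) :=
  sm_sum fun l => sm_mul (sm_mul hr (sm_sub (sm_mul (sm_yk hn k (l + 1)) (hn (l + 2)))
    (sm_mul (sm_yk hn k (l + 2)) (hn (l + 1))))) (hA l j)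

theorem smF_nE (hS : S.OK) (ht : TE τ S T cc Z) {a : κT → M → ℝ} {s : κ0 → M → ℝ}
    (ha : Crest.Agent.R249.Tv57.SmV (n := 4) a) (hs : Crest.Agent.R249.Tv57.SmV (n := 4) s)
    (y : κ0) : SmF (τ.nE S a s y) := by
  have h1 : ∀ (c : κT → M → ℝ), Crest.Agent.R249.Tv57.SmV (n := 4) c →
      SmF fun z => ∑ A, c A z • S.s A z := fun c hc =>
    Crest.Agent.R249.Tv57.SmF.sum _ fun A _ => Crest.Agent.R249.Tv57.SmF.smul (hc A) (hS.sms A)
  have h2 : ∀ y, SmF (S.nab a s y) := fun y =>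
    ((Crest.Agent.R249.Tv57.smF_Gr (hs y)).add (Crest.Agent.R249.Tv57.SmF.sum _ fun b _ =>
      Crest.Agent.R249.Tv57.SmF.smul (hs b) (S.D0.smX y b))).add
      (Crest.Agent.R249.Tv57.SmF.smul (sm_sum fun y' => sm_mul (hS.smJ y y') (hs y')) (h1 a ha))
  have h3 : ∀ y', ContMDiff (𝓡 4) 𝓘(ℝ, ℝ) ∞ fun z =>
      (1 / 2) * (S.D0.p y y' z - ∑ k, τ.n k z * S.rho k y y' z) := fun y' =>
    sm_mul (sm_const _) (sm_sub (S.D0.smp y y') (sm_sum fun k => sm_mul (ht.smn k)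
      (hS.smrho k y y')))
  exact (Crest.Agent.R249.Tv57.SmF.sum _ fun y' _ =>
    Crest.Agent.R249.Tv57.SmF.smul (h3 y') (h2 y')).add
    (Crest.Agent.R249.Tv57.SmF.smul (sm_sum fun y' => sm_mul (hS.smJ y y') (hs y'))
      (h1 _ ht.smsh))

theorem cont_nEsq (hS : S.OK) (ht : TE τ S T cc Z) {a : κT → M → ℝ} {s : κ0 → M → ℝ}
    (ha : Crest.Agent.R249.Tv57.SmV (n := 4) a) (hs : Crest.Agent.R249.Tv57.SmV (n := 4) s) :
    Continuous fun z => ∑ y, ‖τ.nE S a s y z‖ ^ 2 := by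
  refine continuous_finsetSum _ fun y _ => ?_
  have h1 := ((smF_nE hS ht ha hs y).inner (smF_nE hS ht ha hs y)).continuous
  simpa only [real_inner_self_eq_norm_sq] using h1

/-! #### the terms -/

/-- `f q(HI, w_j)`. -/
def uI (τ : TD M κT) (S : SWS M κ0 κ1 κT)
    (W : κ0 → κ0 → (z : M) → TangentSpace (𝓡 4) z)
    (sT : κT → (z : M) → TangentSpace (𝓡 4) z) (w : Trip M) (e : Fin 3 → F2 E4 M)
    (A : Fin 3 → Fin 3 → M → ℝ) (a : κT → M → ℝ) (s s' : κ0 → M → ℝ) (k j : Fin 3) (z : M) : ℝ :=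
  fc τ A k j z * q (at2 ((w 0).1.1 : F2 E4 M) z) (HI τ S W sT e a s (ryf τ S k s') z)
    (at2 ((w j).1.1 : F2 E4 M) z)

/-- `g q(HR, w_j)`. -/
def uR (τ : TD M κT) (S : SWS M κ0 κ1 κT)
    (W : κ0 → κ0 → (z : M) → TangentSpace (𝓡 4) z)
    (sT : κT → (z : M) → TangentSpace (𝓡 4) z) (w : Trip M) (e : Fin 3 → F2 E4 M)
    (A : Fin 3 → Fin 3 → M → ℝ) (a : κT → M → ℝ) (s s' : κ0 → M → ℝ) (k j : Fin 3) (z : M) : ℝ :=
  gc τ A k j z * q (at2 ((w 0).1.1 : F2 E4 M) z) (HR τ S W sT e a s (ryf τ S k s') z)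
    (at2 ((w j).1.1 : F2 E4 M) z)

/-- `- f Re q(Φ, w_j)`. -/
def rI (τ : TD M κT) (S : SWS M κ0 κ1 κT)
    (W : κ0 → κ0 → (z : M) → TangentSpace (𝓡 4) z)
    (sT : κT → (z : M) → TangentSpace (𝓡 4) z) (w : Trip M) (e : Fin 3 → F2 E4 M) (cE : Z2 M)
    (A : Fin 3 → Fin 3 → M → ℝ) (a : κT → M → ℝ) (s s' : κ0 → M → ℝ) (k j : Fin 3) (z : M) : ℝ :=
  -(fc τ A k j z * (hp (hatf S s z) (hatf S (ryf τ S k s') z)).re *
      q (at2 ((w 0).1.1 : F2 E4 M) z) (Phi cE (tF τ S W sT e a) z) (at2 ((w j).1.1 : F2 E4 M) z))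

/-- `g Im q(Φ, w_j)`. -/
def rR (τ : TD M κT) (S : SWS M κ0 κ1 κT)
    (W : κ0 → κ0 → (z : M) → TangentSpace (𝓡 4) z)
    (sT : κT → (z : M) → TangentSpace (𝓡 4) z) (w : Trip M) (e : Fin 3 → F2 E4 M) (cE : Z2 M)
    (A : Fin 3 → Fin 3 → M → ℝ) (a : κT → M → ℝ) (s s' : κ0 → M → ℝ) (k j : Fin 3) (z : M) : ℝ :=
  gc τ A k j z * (hp (hatf S s z) (hatf S (ryf τ S k s') z)).im *
      q (at2 ((w 0).1.1 : F2 E4 M) z) (Phi cE (tF τ S W sT e a) z) (at2 ((w j).1.1 : F2 E4 M) z)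

/-- error terms. -/
def eI (τ : TD M κT) (S : SWS M κ0 κ1 κT)
    (W : κ0 → κ0 → (z : M) → TangentSpace (𝓡 4) z)
    (sT : κT → (z : M) → TangentSpace (𝓡 4) z) (w : Trip M) (e : Fin 3 → F2 E4 M)
    (A : Fin 3 → Fin 3 → M → ℝ) (a : κT → M → ℝ) (s s' : κ0 → M → ℝ) (k j : Fin 3) (z : M) : ℝ :=
  qG ((w 0).1.1 : F2 E4 M) (wedG (dF (fc τ A k j))
      (lim (tF τ S W sT e a) (hatf S s) (hatf S (ryf τ S k s')))) ((w j).1.1 : F2 E4 M) z

/-- error terms. -/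
def eR (τ : TD M κT) (S : SWS M κ0 κ1 κT)
    (W : κ0 → κ0 → (z : M) → TangentSpace (𝓡 4) z)
    (sT : κT → (z : M) → TangentSpace (𝓡 4) z) (w : Trip M) (e : Fin 3 → F2 E4 M)
    (A : Fin 3 → Fin 3 → M → ℝ) (a : κT → M → ℝ) (s s' : κ0 → M → ℝ) (k j : Fin 3) (z : M) : ℝ :=
  qG ((w 0).1.1 : F2 E4 M) (wedG (dF (gc τ A k j))
      (lre (tF τ S W sT e a) (hatf S s) (hatf S (ryf τ S k s')))) ((w j).1.1 : F2 E4 M) z

/-- error terms. -/
def eM (τ : TD M κT) (S : SWS M κ0 κ1 κT) (T : ToF 4 M)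
    (cc : κ1 → κ0 → (z : M) → TangentSpace (𝓡 4) z)
    (sT : κT → (z : M) → TangentSpace (𝓡 4) z) (e : Fin 3 → F2 E4 M) (Z : κ1 → κ0 → M → ℝ)
    (a : κT → M → ℝ) (s s' : κ0 → M → ℝ) (z : M) : ℝ :=
  τ.rr z * (clG T cc z (fun y => τ.nE S a s y z) ⬝ᵥ (Mm τ S T cc sT e Z z *ᵥ sv s' z))

/-- the product of the Dirac operators. -/
def pD (τ : TD M κT) (S : SWS M κ0 κ1 κT) (a : κT → M → ℝ) (s s' : κ0 → M → ℝ) (z : M) : ℝ :=
  τ.rr z ^ (-(1 / 2) : ℝ) *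
        (∑ x, (S.P.A (τ.sc (3 / 4) s) + S.cm a (τ.sc (3 / 4) s)) x z *
          (S.P.A (τ.sc (3 / 4) s') + S.cm a (τ.sc (3 / 4) s')) x z)

theorem q_eA {F : F2 E4 M} (hAe : ∀ i x, at2 (e i) x = ∑ j, A i j x • at2 ((w j).1.1 : F2 E4 M) x)
    (z : M) (l : Fin 3) (β : Bil) : q (at2 F z) (at2 (e l) z) β =
      ∑ j, A l j z * q (at2 F z) β (at2 ((w j).1.1 : F2 E4 M) z) := by
  rw [hAe l z, q_sum_left]
  exact Finset.sum_congr rfl fun j _ => by rw [q_smul_left, q_comm]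

theorem sum_fc {c : Fin 3 → Fin 3 → ℝ} {Q : Fin 3 → ℝ} (B : Fin 3 → Fin 3 → ℝ) (r : ℝ)
    (k : Fin 3) : ∑ l, r * c k l * ∑ j, B l j * Q j = ∑ j, (∑ l, r * c k l * B l j) * Q j := by
  simp only [Finset.mul_sum, Finset.sum_mul]
  rw [Finset.sum_comm]
  exact Finset.sum_congr rfl fun j _ => Finset.sum_congr rfl fun l _ => by ring

theorem mn_eq (hAe : ∀ i x, at2 (e i) x = ∑ j, A i j x • at2 ((w j).1.1 : F2 E4 M) x)
    (a : κT → M → ℝ) (s s' : κ0 → M → ℝ) (z : M) :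
    τ.rr z * mn τ S W sT w e ι a s s' z =
      ∑ k, ∑ j, (uI τ S W sT w e A a s s' k j z + ι * uR τ S W sT w e A a s s' k j z) := by
  unfold mn
  rw [Finset.mul_sum]
  refine Finset.sum_congr rfl fun k _ => ?_
  have h1 := sum_fc (c := fun k l => Al.yk (nv τ z) k l)
    (Q := fun j => q (at2 ((w 0).1.1 : F2 E4 M) z) (HI τ S W sT e a s (ryf τ S k s') z)
      (at2 ((w j).1.1 : F2 E4 M) z)) (fun l j => A l j z) (τ.rr z) k
  have h2 := sum_fc (c := fun k l => Al.cr (Al.yk (nv τ z) k) (nv τ z) l)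
    (Q := fun j => q (at2 ((w 0).1.1 : F2 E4 M) z) (HR τ S W sT e a s (ryf τ S k s') z)
      (at2 ((w j).1.1 : F2 E4 M) z)) (fun l j => A l j z) (τ.rr z) k
  have h3 : ∑ j, (uI τ S W sT w e A a s s' k j z + ι * uR τ S W sT w e A a s s' k j z) =
      (∑ j, (∑ l, τ.rr z * Al.yk (nv τ z) k l * A l j z) *
        q (at2 ((w 0).1.1 : F2 E4 M) z) (HI τ S W sT e a s (ryf τ S k s') z)
      (at2 ((w j).1.1 : F2 E4 M) z)) + ι * (∑ j,
        (∑ l, τ.rr z * Al.cr (Al.yk (nv τ z) k) (nv τ z) l * A l j z) *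
        q (at2 ((w 0).1.1 : F2 E4 M) z) (HR τ S W sT e a s (ryf τ S k s') z)
      (at2 ((w j).1.1 : F2 E4 M) z)) := by
    rw [Finset.mul_sum, ← Finset.sum_add_distrib]
    rfl
  rw [h3, ← h1, ← h2, Finset.mul_sum, Finset.mul_sum, ← Finset.sum_add_distrib]
  refine Finset.sum_congr rfl fun l _ => ?_
  rw [q_eA hAe, q_eA hAe]
  ring

theorem pD_eq (hS : S.OK) (h : TG S T cc W sT w e σ ι) (ht : TE τ S T cc Z)
    (hAe : ∀ i x, at2 (e i) x = ∑ j, A i j x • at2 ((w j).1.1 : F2 E4 M) x) {a : κT → M → ℝ}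
    (ha : Crest.Agent.R249.Tv57.SmV (n := 4) a)
    (hsa : S.DT.Sec a) {s s' : κ0 → M → ℝ} (hsm : Crest.Agent.R249.Tv57.SmV (n := 4) s)
    (hs : τ.SecE S s) (hsm' : Crest.Agent.R249.Tv57.SmV (n := 4) s') (hs' : τ.SecE' S s')
    (z : M) : pD τ S a s s' z =
      σ * ∑ k, ∑ j, (uI τ S W sT w e A a s s' k j z + ι * uR τ S W sT w e A a s s' k j z) +
        eM τ S T cc sT e Z a s s' z := by
  have h1 : ∑ x, (S.P.A (τ.sc (3 / 4) s) + S.cm a (τ.sc (3 / 4) s)) x z *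
        (S.P.A (τ.sc (3 / 4) s') + S.cm a (τ.sc (3 / 4) s')) x z =
      (τ.rr z ^ (3 / 4 : ℝ) * τ.rr z ^ (3 / 4 : ℝ)) *
        ∑ x, clG T cc z (fun y => τ.nE S a s y z) x *
          (clG T cc z (fun y => nP τ S a s' y z) x + ∑ y, Z x y z * s' y z) := by
    rw [Finset.mul_sum]
    refine Finset.sum_congr rfl fun x _ => ?_
    rw [ht.dir a s ha hsa hsm hs x z, ht.dir' a s' ha hsa hsm' hs' x z]
    unfold clG
    ring
  unfold pD
  rw [h1, ← mul_assoc, rr_pow (ht.pos z), cl_pair hS h ht a hsm hs hsm' hs' z, mul_add,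
    ← mn_eq hAe]
  unfold eM
  ring

/-- `⟨s, ρ_l s'⟩`. -/
theorem rho_pair (hS : S.OK) (h : TG S T cc W sT w e σ ι) (nn : ∀ z, ∑ k, τ.n k z ^ 2 = 1)
    {s s' : κ0 → M → ℝ} (hs : τ.SecE S s) (hs' : τ.SecE' S s') (l : Fin 3) (z : M) :
    ∑ y, ∑ y', S.rho l y y' z * s y z * s' y' z =
        (1 / 2) * ∑ k, (Al.yk (nv τ z) k l * (hp (hatf S s z) (hatf S (ryf τ S k s') z)).re -
          ι * Al.cr (Al.yk (nv τ z) k) (nv τ z) l *
            (hp (hatf S s z) (hatf S (ryf τ S k s') z)).im) := by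
  have hal := al_of hS h (n := nv τ z) z (nn z)
  have hbE := fun k => secE_ryf hS h nn k hs'
  have g2 : ∀ k, (hp (hatf S s z) (hatf S (ryf τ S k s') z)).re =
      sv s z ⬝ᵥ sv (ryf τ S k s') z := by
    intro k
    rw [hp_hatf hS h nn (hbE k)]
    simp
  have g3 : ∀ k, (hp (hatf S s z) (hatf S (ryf τ S k s') z)).im =
      sv s z ⬝ᵥ (Jm S z *ᵥ sv (ryf τ S k s') z) := by
    intro k
    rw [hp_hatf hS h nn (hbE k)]
    simp
  have e0 : ∑ y, ∑ y', S.rho l y y' z * s y z * s' y' z =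
      sv s z ⬝ᵥ (Rm S z l *ᵥ sv s' z) := by
    unfold dotProduct mulVec dotProduct
    refine Finset.sum_congr rfl fun y _ => ?_
    rw [Finset.mul_sum]
    exact Finset.sum_congr rfl fun y' _ => by
      show S.rho l y y' z * s y z * s' y' z = s y z * (S.rho l y y' z * s' y' z)
      ring
  have e1 : sv s' z = (1 / 2 : ℝ) • ∑ k, RR (Rm S z) (Al.yk (nv τ z) k) *ᵥ
      sv (ryf τ S k s') z := by
    funext y
    rw [Pi.smul_apply, Finset.sum_apply]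
    exact sum_ryf hS h nn hs'.1 y z
  rw [e0]
  conv_lhs => rw [e1]
  rw [mulVec_smul, mulVec_sum, dotProduct_smul, dotProduct_sum, smul_eq_mul]
  congr 1
  refine Finset.sum_congr rfl fun k _ => ?_
  rw [g2, g3]
  exact hal.dot_rry (inE_of hs z) (inE_of (hbE k) z) l _

theorem rho_eq (hS : S.OK) (h : TG S T cc W sT w e σ ι) (ht : TE τ S T cc Z)
    {cE : Z2 M} (hc : TC τ S W sT w e σ cE)
    (hAe : ∀ i x, at2 (e i) x = ∑ j, A i j x • at2 ((w j).1.1 : F2 E4 M) x) {a : κT → M → ℝ}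
    (ha : Crest.Agent.R249.Tv57.SmV (n := 4) a)
    (hsa : S.DT.Sec a) {s s' : κ0 → M → ℝ}
    (hs : τ.SecE S s) (hs' : τ.SecE' S s') (z : M) :
    τ.rr z * ∑ k, (S.H.B a k.succ z + τ.fE k z) *
      ∑ y, ∑ y', S.rho k y y' z * s y z * s' y' z =
      σ * ∑ k, ∑ j, (rI τ S W sT w e cE A a s s' k j z + ι * rR τ S W sT w e cE A a s s' k j z) := by
  set R : Fin 3 → ℝ := fun k => (hp (hatf S s z) (hatf S (ryf τ S k s') z)).re with hR
  set I : Fin 3 → ℝ := fun k => (hp (hatf S s z) (hatf S (ryf τ S k s') z)).im with hI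
  set Q : Fin 3 → ℝ := fun j => q (at2 ((w 0).1.1 : F2 E4 M) z) (Phi cE (tF τ S W sT e a) z)
    (at2 ((w j).1.1 : F2 E4 M) z) with hQ
  have h0 : ∀ l, (S.H.B a l.succ z + τ.fE l z) * ∑ y, ∑ y', S.rho l y y' z * s y z * s' y' z =
      σ * ∑ k, (-(Al.yk (nv τ z) k l * R k) + ι * Al.cr (Al.yk (nv τ z) k) (nv τ z) l * I k) *
        ∑ j, A l j z * Q j := by
    intro l
    rw [rho_pair hS h ht.norm hs hs', curv_eq hS h ht hc ha hsa, q_eA hAe, ← Finset.sum_mul]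
    have h1 : ∑ k, (-(Al.yk (nv τ z) k l * R k) +
        ι * Al.cr (Al.yk (nv τ z) k) (nv τ z) l * I k) =
        - ∑ k, (Al.yk (nv τ z) k l * R k - ι * Al.cr (Al.yk (nv τ z) k) (nv τ z) l * I k) := by
      rw [← Finset.sum_neg_distrib]
      exact Finset.sum_congr rfl fun k _ => by ring
    rw [h1]
    ring
  simp only [h0]
  rw [← Finset.mul_sum, ← mul_assoc, mul_comm (τ.rr z) σ, mul_assoc]
  congr 1
  rw [Finset.sum_comm, Finset.mul_sum]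
  refine Finset.sum_congr rfl fun k _ => ?_
  have h2 := sum_fc (c := fun k l => -(Al.yk (nv τ z) k l * R k) +
      ι * Al.cr (Al.yk (nv τ z) k) (nv τ z) l * I k) (Q := Q) (fun l j => A l j z) (τ.rr z) k
  rw [Finset.mul_sum]
  refine Eq.trans (Finset.sum_congr rfl fun l _ => (mul_assoc _ _ _).symm) (h2.trans ?_)
  refine Finset.sum_congr rfl fun j _ => ?_
  have h3 : ∑ l, τ.rr z * (-(Al.yk (nv τ z) k l * R k) +
      ι * Al.cr (Al.yk (nv τ z) k) (nv τ z) l * I k) * A l j z =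
      -(fc τ A k j z * R k) + ι * (gc τ A k j z * I k) := by
    unfold fc gc
    rw [Finset.sum_mul, Finset.sum_mul, Finset.mul_sum, ← Finset.sum_neg_distrib,
      ← Finset.sum_add_distrib]
    exact Finset.sum_congr rfl fun l _ => by ring
  rw [h3]
  unfold rI rR
  simp only [hR, hI, hQ]
  ring

end n

end

end Crest.Agent.R235.Tau483
end

-- ▼ part R235/TauP_483
section

/-!
Row 235 (S0364), SW-TAU (helper483), part P: the integral identity behind `T2`.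
-/

set_option autoImplicit false
set_option maxSynthPendingDepth 3
set_option linter.unusedSectionVars false

open scoped ContDiff ENNReal NNReal Topology Manifold Bundle RealInnerProductSpace
open MeasureTheory Set Filter Metric Bundle Matrix

universe v

namespace Crest.Agent.R235.Tau483

open Crest.Agent.R240 Crest.Agent.R240.Ch Crest.Agent.R240.Int Crest.Agent.R235.SWDefs_53
open Crest.Agent.R235.IndTri_451
open Crest.Agent.R249.Tv57 (Dat OpPair SmF Spec)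
open Crest.Agent.R247.Ms322 (Gr)
open Crest.Agent.R249.Vf281 (VSm mCov)
open Crest.Agent.R247.Bo84 (mgrad inner_mgrad)
open Crest.Agent.R249.Tz805 (ToF)

noncomputable section

variable {M : Type v} [MetricSpace M] [CompactSpace M] [ConnectedSpace M]
  [ChartedSpace (EuclideanSpace ℝ (Fin 4)) M] [IsManifold (𝓡 4) ∞ M]
  [RiemannianBundle (fun p : M => TangentSpace (𝓡 4) p)]
  [IsContMDiffRiemannianBundle (𝓡 4) ∞ (EuclideanSpace ℝ (Fin 4))
    (fun p : M => TangentSpace (𝓡 4) p)]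
  [IsRiemannianManifold (𝓡 4) M] [MeasurableSpace M] [BorelSpace M]
  [SecondCountableTopology M] [Nonempty M]
  {κ0 κ1 κT : Type} [Fintype κ0] [Fintype κ1] [Fintype κT]

variable [IsFiniteMeasureOnCompacts (μHE[4] : Measure M)]
  {τ : TD M κT} {S : SWS M κ0 κ1 κT} {T : ToF 4 M}
    {cc : κ1 → κ0 → (z : M) → TangentSpace (𝓡 4) z}
    {W : κ0 → κ0 → (z : M) → TangentSpace (𝓡 4) z}
    {sT : κT → (z : M) → TangentSpace (𝓡 4) z} {w : Trip M} {e : Fin 3 → F2 E4 M}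
    {σ ι : ℝ} {Z : κ1 → κ0 → M → ℝ} {A : Fin 3 → Fin 3 → M → ℝ}

/-- an abstract integral identity. -/
theorem int_abs {σ ι : ℝ} {u1 u2 r1 r2 e1 e2 : Fin 3 → Fin 3 → M → ℝ} {E D R : M → ℝ}
    (cu1 : ∀ k j, Continuous (u1 k j)) (cu2 : ∀ k j, Continuous (u2 k j))
    (cr1 : ∀ k j, Continuous (r1 k j)) (cr2 : ∀ k j, Continuous (r2 k j))
    (ce1 : ∀ k j, Continuous (e1 k j)) (ce2 : ∀ k j, Continuous (e2 k j)) (cD : Continuous D)
    (I1 : ∀ k j, ∫ z, u1 k j z ∂(μHE[4] : Measure M) =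
      ∫ z, r1 k j z + e1 k j z ∂(μHE[4] : Measure M))
    (I2 : ∀ k j, ∫ z, u2 k j z ∂(μHE[4] : Measure M) =
      ∫ z, r2 k j z + e2 k j z ∂(μHE[4] : Measure M))
    (hD : ∀ z, D z = σ * ∑ k, ∑ j, (u1 k j z + ι * u2 k j z) + E z)
    (hR : ∀ z, R z = σ * ∑ k, ∑ j, (r1 k j z + ι * r2 k j z)) :
    ∫ z, (D z - R z) ∂(μHE[4] : Measure M) =
      ∫ z, (E z + σ * ∑ k, ∑ j, (e1 k j z + ι * e2 k j z)) ∂(μHE[4] : Measure M) := by
  have key : ∀ z, D z - R z = (E z + σ * ∑ k, ∑ j, (e1 k j z + ι * e2 k j z)) +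
      σ * ∑ k, ∑ j, ((u1 k j z - (r1 k j z + e1 k j z)) +
        ι * (u2 k j z - (r2 k j z + e2 k j z))) := by
    intro z
    rw [hD, hR]
    have : ∑ k, ∑ j, ((u1 k j z - (r1 k j z + e1 k j z)) +
        ι * (u2 k j z - (r2 k j z + e2 k j z))) = ∑ k, ∑ j, (u1 k j z + ι * u2 k j z) -
        ∑ k, ∑ j, (r1 k j z + ι * r2 k j z) - ∑ k, ∑ j, (e1 k j z + ι * e2 k j z) := by
      simp only [← Finset.sum_sub_distrib]
      exact Finset.sum_congr rfl fun k _ => Finset.sum_congr rfl fun j _ => by ring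
    rw [this]
    ring
  have cE1 : Continuous E := by
    have : E = fun z => D z - σ * ∑ k, ∑ j, (u1 k j z + ι * u2 k j z) := by
      funext z; rw [hD]; ring
    rw [this]
    exact cD.sub (continuous_const.mul (continuous_finsetSum _ fun k _ =>
      continuous_finsetSum _ fun j _ => (cu1 k j).add (continuous_const.mul (cu2 k j))))
  have cer : Continuous fun z => E z + σ * ∑ k, ∑ j, (e1 k j z + ι * e2 k j z) :=
    cE1.add (continuous_const.mul (continuous_finsetSum _ fun k _ =>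
      continuous_finsetSum _ fun j _ => (ce1 k j).add (continuous_const.mul (ce2 k j))))
  have cz : ∀ k j, Continuous fun z => (u1 k j z - (r1 k j z + e1 k j z)) +
        ι * (u2 k j z - (r2 k j z + e2 k j z)) := fun k j =>
    ((cu1 k j).sub ((cr1 k j).add (ce1 k j))).add
      (continuous_const.mul ((cu2 k j).sub ((cr2 k j).add (ce2 k j))))
  have cz' : Continuous fun z => σ * ∑ k, ∑ j, ((u1 k j z - (r1 k j z + e1 k j z)) +
        ι * (u2 k j z - (r2 k j z + e2 k j z))) :=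
    continuous_const.mul (continuous_finsetSum _ fun k _ => continuous_finsetSum _ fun j _ => cz k j)
  rw [integral_congr_ae (Filter.Eventually.of_forall key), integral_add (int_cont cer)
    (int_cont cz'), integral_const_mul, integral_finsetSum _ fun k _ =>
      int_cont (continuous_finsetSum _ fun j _ => cz k j)]
  have hz : ∀ k, ∫ z, ∑ j, ((u1 k j z - (r1 k j z + e1 k j z)) +
        ι * (u2 k j z - (r2 k j z + e2 k j z))) ∂(μHE[4] : Measure M) = 0 := by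
    intro k
    rw [integral_finsetSum _ fun j _ => int_cont (cz k j)]
    refine Finset.sum_eq_zero fun j _ => ?_
    have i1 : Integrable (fun z => r1 k j z + e1 k j z) (μHE[4] : Measure M) :=
      int_cont ((cr1 k j).add (ce1 k j))
    have i2 : Integrable (fun z => r2 k j z + e2 k j z) (μHE[4] : Measure M) :=
      int_cont ((cr2 k j).add (ce2 k j))
    have i3 : Integrable (fun z => u1 k j z - (r1 k j z + e1 k j z)) (μHE[4] : Measure M) :=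
      (int_cont (cu1 k j)).sub i1
    have i4 : Integrable (fun z => u2 k j z - (r2 k j z + e2 k j z)) (μHE[4] : Measure M) :=
      (int_cont (cu2 k j)).sub i2
    rw [integral_add i3 (i4.const_mul ι), integral_const_mul, integral_sub (int_cont (cu1 k j)) i1,
      integral_sub (int_cont (cu2 k j)) i2, I1, I2]
    ring
  simp only [hz, Finset.sum_const_zero, mul_zero, add_zero]

/-- the error density. -/
def erT (τ : TD M κT) (S : SWS M κ0 κ1 κT) (T : ToF 4 M)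
    (cc : κ1 → κ0 → (z : M) → TangentSpace (𝓡 4) z)
    (W : κ0 → κ0 → (z : M) → TangentSpace (𝓡 4) z)
    (sT : κT → (z : M) → TangentSpace (𝓡 4) z) (w : Trip M) (e : Fin 3 → F2 E4 M)
    (σ ι : ℝ) (Z : κ1 → κ0 → M → ℝ) (A : Fin 3 → Fin 3 → M → ℝ) (a : κT → M → ℝ)
    (s s' : κ0 → M → ℝ) (z : M) : ℝ :=
  eM τ S T cc sT e Z a s s' z +
    σ * ∑ k, ∑ j, (eI τ S W sT w e A a s s' k j z + ι * eR τ S W sT w e A a s s' k j z)

section ints

variable (hS : S.OK) (h : TG S T cc W sT w e σ ι) (ht : TE τ S T cc Z)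
    {cE : Z2 M} (hc : TC τ S W sT w e σ cE)
    (hA : ∀ i j, ContMDiff (𝓡 4) 𝓘(ℝ, ℝ) ∞ (A i j)) {a : κT → M → ℝ}
    (ha : Crest.Agent.R249.Tv57.SmV (n := 4) a)
    {s s' : κ0 → M → ℝ} (hsm : Crest.Agent.R249.Tv57.SmV (n := 4) s)
    (hs : τ.SecE S s) (hsm' : Crest.Agent.R249.Tv57.SmV (n := 4) s') (hs' : τ.SecE' S s')
    (k j : Fin 3)
include hS h ht hc hA ha hsm hs hsm' hs'

theorem int_uI : ∫ z, uI τ S W sT w e A a s s' k j z ∂(μHE[4] : Measure M) =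
    ∫ z, rI τ S W sT w e cE A a s s' k j z + eI τ S W sT w e A a s s' k j z
      ∂(μHE[4] : Measure M) := by
  have hln := ln_PEf (T := T) (cc := cc) hS h ht.smn ht.norm
  have hb := sm_ryf hS ht.smn k hsm'
  have hbE := secE_ryf hS h ht.norm k hs'
  have h1 := T2im (vol_w h) hln hc.ch (smooth_tF hS h ht ha) (smV_hatf hS hsm) (smV_hatf hS hb)
    (PEf_hatf hS h ht.norm hs) (PEf_hatf hS h ht.norm hbE)
    ((smoothF_iff _).1 (sm_fc ht.smrr ht.smn hA k j)) (w j).1.2 (w j).2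
  rw [int_mu h, int_mu h] at h1
  exact mul_left_cancel₀ two_ne_zero h1

theorem int_uR : ∫ z, uR τ S W sT w e A a s s' k j z ∂(μHE[4] : Measure M) =
    ∫ z, rR τ S W sT w e cE A a s s' k j z + eR τ S W sT w e A a s s' k j z
      ∂(μHE[4] : Measure M) := by
  have hln := ln_PEf (T := T) (cc := cc) hS h ht.smn ht.norm
  have hb := sm_ryf hS ht.smn k hsm'
  have hbE := secE_ryf hS h ht.norm k hs'
  have h1 := T2re (vol_w h) hln hc.ch (smooth_tF hS h ht ha) (smV_hatf hS hsm) (smV_hatf hS hb)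
    (PEf_hatf hS h ht.norm hs) (PEf_hatf hS h ht.norm hbE)
    ((smoothF_iff _).1 (sm_gc ht.smrr ht.smn hA k j)) (w j).1.2 (w j).2
  rw [int_mu h, int_mu h] at h1
  exact mul_left_cancel₀ two_ne_zero h1

theorem c_uI : Continuous (uI τ S W sT w e A a s s' k j) :=
  (sm_fc ht.smrr ht.smn hA k j).continuous.mul
    (cont_hwI (vol_w h) (ln_PEf (T := T) (cc := cc) hS h ht.smn ht.norm) hc.ch
      (smooth_tF hS h ht ha) (smV_hatf hS hsm) (smV_hatf hS (sm_ryf hS ht.smn k hsm'))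
      (PEf_hatf hS h ht.norm hs) (PEf_hatf hS h ht.norm (secE_ryf hS h ht.norm k hs')) (w j).1.2)

theorem c_uR : Continuous (uR τ S W sT w e A a s s' k j) :=
  (sm_gc ht.smrr ht.smn hA k j).continuous.mul
    (cont_hwR (vol_w h) (ln_PEf (T := T) (cc := cc) hS h ht.smn ht.norm) hc.ch
      (smooth_tF hS h ht ha) (smV_hatf hS hsm) (smV_hatf hS (sm_ryf hS ht.smn k hsm'))
      (PEf_hatf hS h ht.norm hs) (PEf_hatf hS h ht.norm (secE_ryf hS h ht.norm k hs')) (w j).1.2)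

theorem c_rI : Continuous (rI τ S W sT w e cE A a s s' k j) :=
  (((sm_fc ht.smrr ht.smn hA k j).continuous.mul (SmoothF.cont (smC_hp (smV_hatf hS hsm)
    (smV_hatf hS (sm_ryf hS ht.smn k hsm'))).re)).mul
      (cont_Phi (vol_w h) cE (smooth_tF hS h ht ha) (w j).1.2)).neg

theorem c_rR : Continuous (rR τ S W sT w e cE A a s s' k j) :=
  ((sm_gc ht.smrr ht.smn hA k j).continuous.mul (SmoothF.cont (smC_hp (smV_hatf hS hsm)
    (smV_hatf hS (sm_ryf hS ht.smn k hsm'))).im)).mul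
      (cont_Phi (vol_w h) cE (smooth_tF hS h ht ha) (w j).1.2)

theorem c_eI : Continuous (eI τ S W sT w e A a s s' k j) :=
  continuous_qG (vol_w h)
    (Smooth2.cont2 (Smooth2.wed (Smooth1.dF ((smoothF_iff _).1 (sm_fc ht.smrr ht.smn hA k j)))
      (smooth_lim (smooth_tF hS h ht ha) (smV_hatf hS hsm) (smV_hatf hS (sm_ryf hS ht.smn k hsm')))))
    (Smooth2.cont2 (w j).1.2)

theorem c_eR : Continuous (eR τ S W sT w e A a s s' k j) :=
  continuous_qG (vol_w h)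
    (Smooth2.cont2 (Smooth2.wed (Smooth1.dF ((smoothF_iff _).1 (sm_gc ht.smrr ht.smn hA k j)))
      (smooth_lre (smooth_tF hS h ht ha) (smV_hatf hS hsm) (smV_hatf hS (sm_ryf hS ht.smn k hsm')))))
    (Smooth2.cont2 (w j).1.2)

end ints

theorem c_pD (hS : S.OK) (ht : TE τ S T cc Z) {a : κT → M → ℝ}
    (ha : Crest.Agent.R249.Tv57.SmV (n := 4) a)
    {s s' : κ0 → M → ℝ} (hsm : Crest.Agent.R249.Tv57.SmV (n := 4) s)
    (hs : τ.SecE S s) (hsm' : Crest.Agent.R249.Tv57.SmV (n := 4) s') (hs' : τ.SecE' S s') :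
    Continuous (pD τ S a s s') := by
  refine (sm_rpow ht.smrr ht.pos _).continuous.mul (continuous_finsetSum _ fun x _ => ?_)
  exact (sm_D hS ha (sm_sc ht _ hsm) (sec_sc _ hs.1) x).continuous.mul
    (sm_D hS ha (sm_sc ht _ hsm') (sec_sc _ hs'.1) x).continuous

/-- **the integral identity of `T2`**. -/
theorem t2_int (hS : S.OK) (h : TG S T cc W sT w e σ ι) (ht : TE τ S T cc Z)
    {cE : Z2 M} (hc : TC τ S W sT w e σ cE) (hA : ∀ i j, ContMDiff (𝓡 4) 𝓘(ℝ, ℝ) ∞ (A i j))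
    (hAe : ∀ i x, at2 (e i) x = ∑ j, A i j x • at2 ((w j).1.1 : F2 E4 M) x) {a : κT → M → ℝ}
    (ha : Crest.Agent.R249.Tv57.SmV (n := 4) a)
    (hsa : S.DT.Sec a) {s s' : κ0 → M → ℝ} (hsm : Crest.Agent.R249.Tv57.SmV (n := 4) s)
    (hs : τ.SecE S s) (hsm' : Crest.Agent.R249.Tv57.SmV (n := 4) s') (hs' : τ.SecE' S s') :
    ∫ z, (pD τ S a s s' z -
        τ.rr z * ∑ k, (S.H.B a k.succ z + τ.fE k z) * ∑ y, ∑ y', S.rho k y y' z * s y z * s' y' z)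
      ∂(μHE[4] : Measure M) =
    ∫ z, erT τ S T cc W sT w e σ ι Z A a s s' z ∂(μHE[4] : Measure M) :=
  int_abs (c_uI hS h ht hc hA ha hsm hs hsm' hs') (c_uR hS h ht hc hA ha hsm hs hsm' hs')
    (c_rI hS h ht hc hA ha hsm hs hsm' hs') (c_rR hS h ht hc hA ha hsm hs hsm' hs')
    (c_eI hS h ht hc hA ha hsm hs hsm' hs') (c_eR hS h ht hc hA ha hsm hs hsm' hs')
    (c_pD hS ht ha hsm hs hsm' hs')
    (int_uI hS h ht hc hA ha hsm hs hsm' hs') (int_uR hS h ht hc hA ha hsm hs hsm' hs')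
    (pD_eq hS h ht hAe ha hsa hsm hs hsm' hs') (rho_eq hS h ht hc hAe ha hsa hs hs')

end

end Crest.Agent.R235.Tau483
end

-- ▼ part R235/TauT2_483

/-!
Row 235 (S0364), SW-TAU (helper483): the second estimate `T2`, uniformly over a family of Taubes data.
-/

set_option autoImplicit false
set_option maxSynthPendingDepth 3
set_option linter.unusedSectionVars false

open scoped ContDiff ENNReal NNReal Topology Manifold Bundle RealInnerProductSpace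
open MeasureTheory Set Filter Metric Bundle Matrix

universe v

namespace Crest.Agent.R235.Tau483

open Crest.Agent.R240 Crest.Agent.R240.Ch Crest.Agent.R240.Int Crest.Agent.R235.SWDefs_53
open Crest.Agent.R235.IndTri_451
open Crest.Agent.R249.Tv57 (Dat OpPair SmF Spec)
open Crest.Agent.R247.Ms322 (Gr)
open Crest.Agent.R249.Vf281 (VSm mCov)
open Crest.Agent.R247.Bo84 (mgrad inner_mgrad)
open Crest.Agent.R249.Tz805 (ToF)

noncomputable section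

variable {M : Type v} [MetricSpace M] [CompactSpace M] [ConnectedSpace M]
  [ChartedSpace (EuclideanSpace ℝ (Fin 4)) M] [IsManifold (𝓡 4) ∞ M]
  [RiemannianBundle (fun p : M => TangentSpace (𝓡 4) p)]
  [IsContMDiffRiemannianBundle (𝓡 4) ∞ (EuclideanSpace ℝ (Fin 4))
    (fun p : M => TangentSpace (𝓡 4) p)]
  [IsRiemannianManifold (𝓡 4) M] [MeasurableSpace M] [BorelSpace M]
  [SecondCountableTopology M] [Nonempty M]
  {κ0 κ1 κT : Type} [Fintype κ0] [Fintype κ1] [Fintype κT]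

/-- the configurations. -/
structure Cf {Θ : Type*} (τ : Θ → TD M κT) (S : SWS M κ0 κ1 κT) where
  θ : Θ
  a : κT → M → ℝ
  s : κ0 → M → ℝ
  s' : κ0 → M → ℝ
  sma : Crest.Agent.R249.Tv57.SmV (n := 4) a
  sea : S.DT.Sec a
  sms : Crest.Agent.R249.Tv57.SmV (n := 4) s
  ses : (τ θ).SecE S s
  sms' : Crest.Agent.R249.Tv57.SmV (n := 4) s'
  ses' : (τ θ).SecE' S s'

/-- `|∇^E s|`. -/
def nN {Θ : Type*} {τ : Θ → TD M κT} {S : SWS M κ0 κ1 κT} (ξ : Cf τ S) (z : M) : ℝ :=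
  √(∑ y, ‖(τ ξ.θ).nE S ξ.a ξ.s y z‖ ^ 2)

/-- `|s'|`. -/
def ns {Θ : Type*} {τ : Θ → TD M κT} {S : SWS M κ0 κ1 κT} (ξ : Cf τ S) (z : M) : ℝ :=
  √(∑ y, ξ.s' y z ^ 2)

/-! ### entries of the frame -/

theorem ek_le {w' e : Fin 3 → F2 E4 M} (h : IsTri w' e) (z : M) (k : Fin 3) (i j : Fin 4) :
    |at2 (e k) z (vf e z i) (vf e z j)| ≤ 1 := by
  have H := fr_of h z
  have h0 := H.e0 (ee i) (ee j)
  have h1 := H.e1 (ee i) (ee j)
  have h2 := H.e2 (ee i) (ee j)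
  fin_cases k
  · have : at2 (e 0) z (vf e z i) (vf e z j) = _ := h0
    show |at2 (e 0) z (vf e z i) (vf e z j)| ≤ 1
    rw [this]
    fin_cases i <;> fin_cases j <;> simp
  · have : at2 (e 1) z (vf e z i) (vf e z j) = _ := h1
    show |at2 (e 1) z (vf e z i) (vf e z j)| ≤ 1
    rw [this]
    fin_cases i <;> fin_cases j <;> simp
  · have : at2 (e 2) z (vf e z i) (vf e z j) = _ := h2
    show |at2 (e 2) z (vf e z i) (vf e z j)| ≤ 1
    rw [this]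
    fin_cases i <;> fin_cases j <;> simp

variable [IsFiniteMeasureOnCompacts (μHE[4] : Measure M)]

section fam

variable {Θ : Type*} {τ : Θ → TD M κT} {S : SWS M κ0 κ1 κT} {T : ToF 4 M}
    {cc : κ1 → κ0 → (z : M) → TangentSpace (𝓡 4) z}
    {W : κ0 → κ0 → (z : M) → TangentSpace (𝓡 4) z}
    {sT : κT → (z : M) → TangentSpace (𝓡 4) z} {w : Trip M} {e : Fin 3 → F2 E4 M}
    {σ ι : ℝ} {Z : Θ → κ1 → κ0 → M → ℝ} {cE : Θ → Z2 M} {A : Fin 3 → Fin 3 → M → ℝ}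

theorem nvf_one (h : TG S T cc W sT w e σ ι) (z : M) (i : Fin 4) : ‖T.toF z (vf e z i)‖ = 1 := by
  have h1 : ‖T.toF z (vf e z i)‖ ^ 2 = 1 := by
    rw [← real_inner_self_eq_norm_sq, T.inner_toF, inner_vf h.tri h.met, if_pos rfl]
  have h2 : (‖T.toF z (vf e z i)‖ - 1) * (‖T.toF z (vf e z i)‖ + 1) = 0 := by nlinarith
  rcases mul_eq_zero.1 h2 with h3 | h3
  · linarith
  · have := norm_nonneg (T.toF z (vf e z i))
    linarith

theorem oo_ek {Ξ : Type*} (h : TG S T cc W sT w e σ ι) (k : Fin 3) (i j : Fin 4) :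
    OO (fun _ _ => 1) fun (_ : Ξ) z => ek e z k i j :=
  ⟨1, zero_le_one, fun _ z => by rw [mul_one]; exact ek_le h.tri z k i j⟩

theorem oo_Cm {Ξ : Type*} (h : TG S T cc W sT w e σ ι) (i : Fin 4) :
    OM fun (_ : Ξ) z => Cm cc e z i := by
  intro x y
  obtain ⟨C, c, hC⟩ := OO.of_cont (Ξ := Unit) (S.D0.smp y y).continuous
  refine ⟨√C, Real.sqrt_nonneg _, fun _ z => ?_⟩
  have h1 : ∑ x, Cm cc e z i x y ^ 2 = S.D0.p y y z := by
    have h2 := congrFun (congrFun (Cm_mul h z i i) y) y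
    rw [Matrix.mul_apply, Matrix.add_apply, Matrix.smul_apply, Matrix.smul_apply,
      Matrix.sum_apply, if_pos rfl] at h2
    have h3 : ∀ k, (ek e z k i i • (Jm S z * Rm S z k)) y y = 0 := by
      intro k
      have h4 : ek e z k i i = 0 := by
        have := ek_skew h z k i i
        linarith
      rw [Matrix.smul_apply, h4, zero_smul]
    simp only [h3, Finset.sum_const_zero, smul_zero, add_zero, one_smul] at h2
    have h5 : ∑ x, Cm cc e z i x y ^ 2 = ∑ x, (Cm cc e z i)ᵀ y x * Cm cc e z i x y :=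
      Finset.sum_congr rfl fun x _ => sq _
    rw [h5]
    exact h2
  have h2 : Cm cc e z i x y ^ 2 ≤ C := by
    have h3 : Cm cc e z i x y ^ 2 ≤ ∑ x, Cm cc e z i x y ^ 2 :=
      Finset.single_le_sum (f := fun x => Cm cc e z i x y ^ 2) (fun _ _ => sq_nonneg _)
        (Finset.mem_univ x)
    rw [h1] at h3
    have h4 := hC () z
    rw [mul_one] at h4
    exact h3.trans ((le_abs_self _).trans h4)
  rw [mul_one]
  exact Real.abs_le_sqrt h2

theorem oo_gE (h : TG S T cc W sT w e σ ι) (i : Fin 4) (y : κ0) :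
    OO (nN (τ := τ) (S := S)) fun ξ z => gE (τ ξ.θ) S T ξ.a ξ.s z (vf e z i) y := by
  refine ⟨1, zero_le_one, fun ξ z => ?_⟩
  rw [one_mul]
  refine Real.abs_le_sqrt ?_
  rw [sum_norm_sq h z]
  have h1 : gE (τ ξ.θ) S T ξ.a ξ.s z (vf e z i) y ^ 2 ≤
      Gf T e z (fun y => (τ ξ.θ).nE S ξ.a ξ.s y z) i ⬝ᵥ
        Gf T e z (fun y => (τ ξ.θ).nE S ξ.a ξ.s y z) i := by
    rw [sq]
    exact Finset.single_le_sum
      (f := fun y => Gf T e z (fun y => (τ ξ.θ).nE S ξ.a ξ.s y z) i y *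
        Gf T e z (fun y => (τ ξ.θ).nE S ξ.a ξ.s y z) i y)
      (fun _ _ => mul_self_nonneg _) (Finset.mem_univ y)
  refine h1.trans ?_
  exact Finset.single_le_sum
    (f := fun i => Gf T e z (fun y => (τ ξ.θ).nE S ξ.a ξ.s y z) i ⬝ᵥ
        Gf T e z (fun y => (τ ξ.θ).nE S ξ.a ξ.s y z) i)
    (fun i _ => Finset.sum_nonneg fun _ _ => mul_self_nonneg _) (Finset.mem_univ i)

theorem oo_s' (y : κ0) : OO (ns (τ := τ) (S := S)) fun ξ z => sv ξ.s' z y := by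
  refine ⟨1, zero_le_one, fun ξ z => ?_⟩
  rw [one_mul]
  refine Real.abs_le_sqrt ?_
  exact Finset.single_le_sum (f := fun y => ξ.s' y z ^ 2) (fun _ _ => sq_nonneg _)
    (Finset.mem_univ y)

/-! ### the matrices -/

section mats

variable {Ξ : Type*}

theorem om_P (_hS : S.OK) : OM fun (_ : Ξ) z => Pm S z := fun y y' => OO.of_cont (S.D0.smp y y').continuous

theorem om_J (hS : S.OK) : OM fun (_ : Ξ) z => Jm S z := fun y y' => OO.of_cont (hS.smJ y y').continuous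

theorem om_R (hS : S.OK) (k : Fin 3) : OM fun (_ : Ξ) z => Rm S z k :=
  fun y y' => OO.of_cont (hS.smrho k y y').continuous

theorem o1_yk (bn : ∀ k, O1 fun θ => (τ θ).n k) (k l : Fin 3) :
    O1 fun θ z => Al.yk (nv (τ θ) z) k l := (O1.const _).sub ((bn k).mul (bn l))

theorem o1_Ym (hS : S.OK) (bn : ∀ k, O1 fun θ => (τ θ).n k) (k : Fin 3) (y y' : κ0) :
    O1 fun θ z => Ym (τ θ) S k z y y' := by
  simp only [Ym_apply]
  exact O1.sum _ fun l _ => ((O1.const _).sub ((bn k).mul (bn l))).mul (O1.of (hS.smrho l y y'))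

theorem om_Ym (hS : S.OK) (bn : ∀ k, O1 fun θ => (τ θ).n k) (k : Fin 3) :
    OM fun θ z => Ym (τ θ) S k z := fun y y' => (o1_Ym hS bn k y y').b0

theorem om_P1 (hS : S.OK) (bn : ∀ k, O1 fun θ => (τ θ).n k) :
    OM fun θ z => P1 (Pm S z) (Rm S z) (nv (τ θ) z) :=
  OM.smul (OO.const _) ((om_P hS).add (OM.sum _ fun k _ => OM.smul (bn k).b0 (om_R hS k)))

theorem om_Xm (h : TG S T cc W sT w e σ ι) (i : Fin 4) :
    OM fun (_ : Ξ) z => Xm S T z (vf e z i) := fun y y' =>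
  OO.inner_unit (X := fun _ z => S.D0.X y y' z) (OO.norm_smF (S.D0.smX y y')) fun z => nvf_one h z i

theorem om_dYm (hS : S.OK) (h : TG S T cc W sT w e σ ι) (bn : ∀ k, O1 fun θ => (τ θ).n k)
    (k : Fin 3) (i : Fin 4) : OM fun θ z => dYm (τ θ) S T k z (vf e z i) := fun y y' =>
  OO.inner_unit (X := fun θ z => Gr (n := 4) (fun x => Ym (τ θ) S k x y y') z)
    (o1_Ym hS bn k y y').b1 fun z => nvf_one h z i

theorem om_DYm (hS : S.OK) (h : TG S T cc W sT w e σ ι) (bn : ∀ k, O1 fun θ => (τ θ).n k)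
    (k : Fin 3) (i : Fin 4) : OM fun θ z => DYm (τ θ) S T k z (vf e z i) :=
  (om_dYm hS h bn k i).add (((om_Xm h i).mul (om_Ym hS bn k)).sub
    ((om_Ym hS bn k).mul (om_Xm h i)))

theorem oo_sh (hS : S.OK) (h : TG S T cc W sT w e σ ι)
    (bsh : ∀ B, OO (fun _ _ => 1) fun θ => (τ θ).sh B) (i : Fin 4) :
    OO (fun _ _ => 1) fun θ z => (inner ℝ (fld sT (τ θ).sh z) (vf e z i) : ℝ) := by
  refine (OO.sum Finset.univ fun B _ => (bsh B).bmul
    (OO.inner_unit (X := fun (_ : Θ) z => S.s B z) (OO.norm_smF (hS.sms B))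
      fun z => nvf_one h z i)).congr fun θ z => ?_
  rw [← sfld h, sum_inner]
  exact Finset.sum_congr rfl fun B _ => real_inner_smul_left _ _ _

theorem om_RMm (hS : S.OK) (h : TG S T cc W sT w e σ ι) (bn : ∀ k, O1 fun θ => (τ θ).n k)
    (bsh : ∀ B, OO (fun _ _ => 1) fun θ => (τ θ).sh B) (i : Fin 4) :
    OM fun θ z => RMm (τ θ) S T sT z (vf e z i) :=
  OM.smul (OO.const _) (OM.sum _ fun k _ =>
    (((om_P1 hS bn).mul (om_DYm hS h bn k i)).mul (om_Ym hS bn k)).sub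
      (OM.smul (oo_sh hS h bsh i) (((om_Ym hS bn k).mul (om_J hS)).mul (om_Ym hS bn k))))

theorem om_Mm (hS : S.OK) (h : TG S T cc W sT w e σ ι) (bn : ∀ k, O1 fun θ => (τ θ).n k)
    (bsh : ∀ B, OO (fun _ _ => 1) fun θ => (τ θ).sh B)
    (bZ : ∀ x y, OO (fun _ _ => 1) fun θ => Z θ x y) :
    OM fun θ z => Mm (τ θ) S T cc sT e (Z θ) z :=
  (OM.sum _ fun i _ => (oo_Cm h i).mul (om_RMm hS h bn bsh i)).add fun x y => bZ x y

end mats

/-! ### the error terms -/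

theorem oo_cl (h : TG S T cc W sT w e σ ι) (x : κ1) :
    OO (nN (τ := τ) (S := S)) fun ξ z => clG T cc z (fun y => (τ ξ.θ).nE S ξ.a ξ.s y z) x := by
  refine (OO.sum Finset.univ fun i _ => OM.mulVec (oo_Cm h i) (fun y => oo_gE h i y) x).congr
    fun ξ z => ?_
  rw [clG_eq h, Finset.sum_apply]
  rfl

theorem OM.pull {X Ξ Ξ' κ κ' : Type*} {B : Ξ → X → Matrix κ κ' ℝ} (hB : OM B) (u : Ξ' → Ξ) :
    OM fun ξ z => B (u ξ) z := fun i j => OO.pull (hB i j) u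

theorem oo_eM (hS : S.OK) (h : TG S T cc W sT w e σ ι) (brr : O1 fun θ => (τ θ).rr)
    (bn : ∀ k, O1 fun θ => (τ θ).n k)
    (bsh : ∀ B, OO (fun _ _ => 1) fun θ => (τ θ).sh B)
    (bZ : ∀ x y, OO (fun _ _ => 1) fun θ => Z θ x y) :
    OO (fun (ξ : Cf τ S) z => nN ξ z * ns ξ z) fun ξ z =>
      eM (τ ξ.θ) S T cc sT e (Z ξ.θ) ξ.a ξ.s ξ.s' z :=
  (OO.pull brr.b0 fun ξ : Cf τ S => ξ.θ).bmul (OO.sum Finset.univ fun x _ =>
    (oo_cl h x).mul (OM.mulVec ((om_Mm hS h bn bsh bZ).pull fun ξ : Cf τ S => ξ.θ)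
      (fun y => oo_s' y) x))

theorem o1_fc (brr : O1 fun θ => (τ θ).rr) (bn : ∀ k, O1 fun θ => (τ θ).n k)
    (hA : ∀ i j, ContMDiff (𝓡 4) 𝓘(ℝ, ℝ) ∞ (A i j)) (k j : Fin 3) :
    O1 fun θ => fc (τ θ) A k j :=
  O1.sum _ fun l _ => (brr.mul (o1_yk bn k l)).mul (O1.of (hA l j))

theorem o1_gc (brr : O1 fun θ => (τ θ).rr) (bn : ∀ k, O1 fun θ => (τ θ).n k)
    (hA : ∀ i j, ContMDiff (𝓡 4) 𝓘(ℝ, ℝ) ∞ (A i j)) (k j : Fin 3) :
    O1 fun θ => gc (τ θ) A k j :=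
  O1.sum _ fun l _ => (brr.mul (((o1_yk bn k (l + 1)).mul (bn (l + 2))).sub
    ((o1_yk bn k (l + 2)).mul (bn (l + 1))))).mul (O1.of (hA l j))

/-- the one-form `Im ⟨∇α, β⟩` in the frame. -/
theorem oo_lim (hS : S.OK) (h : TG S T cc W sT w e σ ι) (te : ∀ θ, TE (τ θ) S T cc (Z θ))
    (bn : ∀ k, O1 fun θ => (τ θ).n k) (k : Fin 3) (i : Fin 4) :
    OO (fun (ξ : Cf τ S) z => nN ξ z * ns ξ z) fun ξ z =>
      at1 (lim (tF (τ ξ.θ) S W sT e ξ.a) (hatf S ξ.s) (hatf S (ryf (τ ξ.θ) S k ξ.s'))) z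
        (vf e z i) := by
  refine (OO.sum Finset.univ fun y _ => (oo_gE h i y).mul
    (OM.mulVec (om_J hS) (OM.mulVec ((om_Ym hS bn k).pull fun ξ : Cf τ S => ξ.θ)
      fun y => oo_s' y) y)).congr fun ξ z => ?_
  have ht := te ξ.θ
  have hbE := secE_ryf hS h ht.norm k ξ.ses'
  have h1 := at1_lim (ln_PEf (T := T) (cc := cc) hS h ht.smn ht.norm)
    (a := tF (τ ξ.θ) S W sT e ξ.a) (smV_hatf hS ξ.sms) (PEf_hatf hS h ht.norm hbE) z (vf e z i)
  have h2 := hat_gE hS h ht.norm ξ.a ξ.sms ξ.ses z (vf e z i)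
  have h3 := (al_of hS h (n := nv (τ ξ.θ) z) z (ht.norm z)).hp_hat
    (s := gE (τ ξ.θ) S T ξ.a ξ.s z (vf e z i)) (inE_of hbE z).1
  refine h1.trans ?_
  rw [← h2]
  have h4 : hatf S (ryf (τ ξ.θ) S k ξ.s') z = hat (Jm S z) (sv (ryf (τ ξ.θ) S k ξ.s') z) := rfl
  rw [h4, h3]
  simp only [Complex.add_im, Complex.ofReal_im, Complex.mul_im, Complex.I_re, Complex.I_im,
    Complex.ofReal_re, sv_ryf]
  simp only [dotProduct]
  ring

/-- the one-form `Re ⟨∇α, β⟩` in the frame. -/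
theorem oo_lre (hS : S.OK) (h : TG S T cc W sT w e σ ι) (te : ∀ θ, TE (τ θ) S T cc (Z θ))
    (bn : ∀ k, O1 fun θ => (τ θ).n k) (k : Fin 3) (i : Fin 4) :
    OO (fun (ξ : Cf τ S) z => nN ξ z * ns ξ z) fun ξ z =>
      at1 (lre (tF (τ ξ.θ) S W sT e ξ.a) (hatf S ξ.s) (hatf S (ryf (τ ξ.θ) S k ξ.s'))) z
        (vf e z i) := by
  refine (OO.sum Finset.univ fun y _ => (oo_gE h i y).mul
    (OM.mulVec ((om_Ym hS bn k).pull fun ξ : Cf τ S => ξ.θ)
      (fun y => oo_s' y) y)).congr fun ξ z => ?_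
  have ht := te ξ.θ
  have hbE := secE_ryf hS h ht.norm k ξ.ses'
  have h1 := at1_lre (ln_PEf (T := T) (cc := cc) hS h ht.smn ht.norm)
    (a := tF (τ ξ.θ) S W sT e ξ.a) (smV_hatf hS ξ.sms) (PEf_hatf hS h ht.norm hbE) z (vf e z i)
  have h2 := hat_gE hS h ht.norm ξ.a ξ.sms ξ.ses z (vf e z i)
  have h3 := (al_of hS h (n := nv (τ ξ.θ) z) z (ht.norm z)).hp_hat
    (s := gE (τ ξ.θ) S T ξ.a ξ.s z (vf e z i)) (inE_of hbE z).1
  refine h1.trans ?_
  rw [← h2]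
  have h4 : hatf S (ryf (τ ξ.θ) S k ξ.s') z = hat (Jm S z) (sv (ryf (τ ξ.θ) S k ξ.s') z) := rfl
  rw [h4, h3]
  simp only [Complex.add_re, Complex.ofReal_im, Complex.mul_re, Complex.I_re, Complex.I_im,
    Complex.ofReal_re, sv_ryf]
  simp only [dotProduct]
  ring

/-- `q(df ∧ λ, w_j)`. -/
theorem oo_wed (hS : S.OK) (h : TG S T cc W sT w e σ ι) {B : Fin 3 → Fin 3 → M → ℝ}
    (hB : ∀ i j, Continuous (B i j))
    (hBw : ∀ i x, at2 ((w i).1.1 : F2 E4 M) x = ∑ j, B i j x • at2 (e j) x)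
    {f : Θ → M → ℝ} (hf : O1 f) {lm : Cf τ S → F1 E4 M}
    (hl : ∀ i, OO (fun (ξ : Cf τ S) z => nN ξ z * ns ξ z) fun ξ z => at1 (lm ξ) z (vf e z i))
    (j : Fin 3) : OO (fun (ξ : Cf τ S) z => nN ξ z * ns ξ z) fun ξ z =>
      qG ((w 0).1.1 : F2 E4 M) (wedG (dF (f ξ.θ)) (lm ξ)) ((w j).1.1 : F2 E4 M) z := by
  have hd : ∀ i, OO (fun _ _ => 1) fun (ξ : Cf τ S) z => dr T z (vf e z i) (f ξ.θ) := fun i =>
    OO.inner_unit (X := fun (ξ : Cf τ S) z => Gr (n := 4) (f ξ.θ) z)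
      (OO.pull hf.b1 fun ξ : Cf τ S => ξ.θ) fun z => nvf_one h z i
  refine (OO.sum Finset.univ fun l _ => (OO.of_cont (hB j l)).bmul
    ((OO.const (1 / 4)).bmul (OO.sum Finset.univ fun i _ => OO.sum Finset.univ fun i' _ =>
      (oo_ek h l i i').bmul (((hd i).bmul (hl i')).sub ((hd i').bmul (hl i)))))).congr fun ξ z => ?_
  have hal : Alt (at2 (wedG (dF (f ξ.θ)) (lm ξ)) z) := fun v => by
    rw [at2_wedG]; ring
  have h1 : ∀ l, q (at2 ((w 0).1.1 : F2 E4 M) z) (at2 (wedG (dF (f ξ.θ)) (lm ξ)) z) (at2 (e l) z) =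
      1 / 4 * ∑ i, ∑ i', ek e z l i i' * (dr T z (vf e z i) (f ξ.θ) *
        at1 (lm ξ) z (vf e z i') - dr T z (vf e z i') (f ξ.θ) * at1 (lm ξ) z (vf e z i)) := by
    intro l
    have h2 := q_vf h.tri l z hal
    rw [q_comm]
    have h3 : ∑ i, ∑ i', ek e z l i i' * (dr T z (vf e z i) (f ξ.θ) *
        at1 (lm ξ) z (vf e z i') - dr T z (vf e z i') (f ξ.θ) * at1 (lm ξ) z (vf e z i)) =
        ∑ i, ∑ j, at2 (e l) z (vf e z i) (vf e z j) *
          at2 (wedG (dF (f ξ.θ)) (lm ξ)) z (vf e z i) (vf e z j) :=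
      Finset.sum_congr rfl fun i _ => Finset.sum_congr rfl fun i' _ => by
        rw [← dF_dr T (hf.sm ξ.θ) z (vf e z i), ← dF_dr T (hf.sm ξ.θ) z (vf e z i')]
        refine congrArg (fun t => ek e z l i i' * t) ?_
        refine Eq.trans ?_ (at2_wedG (dF (f ξ.θ)) (lm ξ) z (vf e z i) (vf e z i')).symm
        exact congrArg (fun t => at1 (dF (E := E4) (f ξ.θ)) z (vf e z i) *
          at1 (lm ξ) z (vf e z i') - t) (mul_comm _ _)
    rw [h3, h2]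
    ring
  show q (at2 ((w 0).1.1 : F2 E4 M) z) (at2 (wedG (dF (f ξ.θ)) (lm ξ)) z)
    (at2 ((w j).1.1 : F2 E4 M) z) = _
  rw [hBw j z, q_sum_right]
  refine Finset.sum_congr rfl fun l _ => ?_
  rw [q_smul_right, h1]

theorem oo_erT (hS : S.OK) (h : TG S T cc W sT w e σ ι) (te : ∀ θ, TE (τ θ) S T cc (Z θ))
    (brr : O1 fun θ => (τ θ).rr) (bn : ∀ k, O1 fun θ => (τ θ).n k)
    (bsh : ∀ B, OO (fun _ _ => 1) fun θ => (τ θ).sh B)
    (bZ : ∀ x y, OO (fun _ _ => 1) fun θ => Z θ x y)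
    (hA : ∀ i j, ContMDiff (𝓡 4) 𝓘(ℝ, ℝ) ∞ (A i j)) {B : Fin 3 → Fin 3 → M → ℝ}
    (hB : ∀ i j, Continuous (B i j))
    (hBw : ∀ i x, at2 ((w i).1.1 : F2 E4 M) x = ∑ j, B i j x • at2 (e j) x) :
    OO (fun (ξ : Cf τ S) z => nN ξ z * ns ξ z) fun ξ z =>
      erT (τ ξ.θ) S T cc W sT w e σ ι (Z ξ.θ) A ξ.a ξ.s ξ.s' z :=
  (oo_eM hS h brr bn bsh bZ).add ((OO.const σ).bmul (OO.sum Finset.univ fun k _ =>
    OO.sum Finset.univ fun j _ =>
      (oo_wed (T := T) hS h hB hBw (o1_fc brr bn hA k j)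
        (lm := fun ξ : Cf τ S => lim (tF (τ ξ.θ) S W sT e ξ.a) (hatf S ξ.s)
          (hatf S (ryf (τ ξ.θ) S k ξ.s'))) (fun i => oo_lim hS h te bn k i) j).add
      ((OO.const ι).bmul (oo_wed (T := T) hS h hB hBw (o1_gc brr bn hA k j)
        (lm := fun ξ : Cf τ S => lre (tF (τ ξ.θ) S W sT e ξ.a) (hatf S ξ.s)
          (hatf S (ryf (τ ξ.θ) S k ξ.s'))) (fun i => oo_lre hS h te bn k i) j))))

/-- **(T2)**, uniformly over the family. -/
theorem t2_fam (hS : S.OK) (h : TG S T cc W sT w e σ ι) (te : ∀ θ, TE (τ θ) S T cc (Z θ))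
    (tc : ∀ θ, TC (τ θ) S W sT w e σ (cE θ))
    (brr : O1 fun θ => (τ θ).rr) (bn : ∀ k, O1 fun θ => (τ θ).n k)
    (bsh : ∀ B, OO (fun _ _ => 1) fun θ => (τ θ).sh B)
    (bZ : ∀ x y, OO (fun _ _ => 1) fun θ => Z θ x y) :
    ∃ C : ℝ, 0 ≤ C ∧ ∀ (θ : Θ) (a : κT → M → ℝ) (s s' : κ0 → M → ℝ),
      Crest.Agent.R249.Tv57.SmV (n := 4) a → S.DT.Sec a → Crest.Agent.R249.Tv57.SmV (n := 4) s →
      Crest.Agent.R249.Tv57.SmV (n := 4) s' → (τ θ).SecE S s → (τ θ).SecE' S s' →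
      |∫ z, ((τ θ).rr z ^ (-(1 / 2) : ℝ) *
        (∑ x, (S.P.A ((τ θ).sc (3 / 4) s) + S.cm a ((τ θ).sc (3 / 4) s)) x z *
          (S.P.A ((τ θ).sc (3 / 4) s') + S.cm a ((τ θ).sc (3 / 4) s')) x z) -
        (τ θ).rr z * ∑ k, (S.H.B a k.succ z + (τ θ).fE k z) *
          ∑ y, ∑ y', S.rho k y y' z * s y z * s' y' z)
      ∂(μHE[4] : Measure M)| ≤
    C * ∫ z, √(∑ y, ‖(τ θ).nE S a s y z‖ ^ 2) * √(∑ y, s' y z ^ 2) ∂(μHE[4] : Measure M) := by
  obtain ⟨A, B, hA, hB, hAe, hBw, -, -⟩ := h.tri.coef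
  have hA' : ∀ i j, ContMDiff (𝓡 4) 𝓘(ℝ, ℝ) ∞ (A i j) := fun i j => (smoothF_iff _).2 (hA i j)
  have hB' : ∀ i j, Continuous (B i j) := fun i j => SmoothF.cont (hB i j)
  obtain ⟨C, c, hC⟩ := oo_erT hS h te brr bn bsh bZ hA' hB' hBw
  refine ⟨C, c, fun θ a s s' ha hsa hs hs' hE hE' => ?_⟩
  set ξ : Cf τ S := ⟨θ, a, s, s', ha, hsa, hs, hE, hs', hE'⟩ with hξ
  have h1 := t2_int hS h (te θ) (tc θ) hA' hAe ha hsa hs hE hs' hE'
  unfold pD at h1
  rw [h1, ← integral_const_mul]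
  have hc : Continuous fun z => C * (√(∑ y, ‖(τ θ).nE S a s y z‖ ^ 2) * √(∑ y, s' y z ^ 2)) :=
    continuous_const.mul ((Real.continuous_sqrt.comp (cont_nEsq hS (te θ) ha hs)).mul
      (Real.continuous_sqrt.comp (continuous_finsetSum _ fun y _ => (hs' y).continuous.pow 2)))
  rw [← Real.norm_eq_abs]
  refine norm_integral_le_of_norm_le (int_cont hc) (Filter.Eventually.of_forall fun z => ?_)
  exact hC ξ z

end fam

end

end Crest.Agent.R235.Tau483
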