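import Mathlib
import Crest.Agent.R235.Tauf_433
import Crest.Agent.R235.WtzW_86
import Crest.Agent.R235.Sob4_984

-- ▼ part R235/TauxA_433
section

/-!
# Row 235, SW-TAUX, part A (helper433): the pointwise algebra of the Taubes estimate

`p` projection, `ρ_k` symmetric with the Fierz identity, `R = ∑ n_k ρ_k`, `|n| = 1`;
`R s = - s`, `R s' = s'`.
-/

set_option autoImplicit false

noncomputable section
namespace Crest.Agent.R235.TauxA_433

variable {κ : Type} [Fintype κ]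

/-- the bilinear form of a matrix -/
def bf (m : κ → κ → ℝ) (u v : κ → ℝ) : ℝ := ∑ y, ∑ y', m y y' * u y * v y'

theorem bf_comm {m : κ → κ → ℝ} (hm : ∀ y y', m y y' = m y' y) (u v : κ → ℝ) :
    bf m u v = bf m v u := by
  unfold bf
  rw [Finset.sum_comm]
  refine Finset.sum_congr rfl fun y _ => Finset.sum_congr rfl fun y' _ => ?_
  rw [hm y' y]
  ring

theorem bf_add_add {m : κ → κ → ℝ} (hm : ∀ y y', m y y' = m y' y) (u v : κ → ℝ) :
    bf m (fun y => u y + v y) (fun y => u y + v y) = bf m u u + 2 * bf m u v + bf m v v := by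
  have h1 : bf m (fun y => u y + v y) (fun y => u y + v y) =
      bf m u u + bf m u v + bf m v u + bf m v v := by
    unfold bf
    simp only [← Finset.sum_add_distrib]
    refine Finset.sum_congr rfl fun y _ => Finset.sum_congr rfl fun y' _ => ?_
    ring
  rw [h1, bf_comm hm v u]
  ring

theorem bf_smul {m : κ → κ → ℝ} (c : ℝ) (u v : κ → ℝ) :
    bf m (fun y => c * u y) (fun y => c * v y) = c ^ 2 * bf m u v := by
  unfold bf
  simp only [Finset.mul_sum]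
  refine Finset.sum_congr rfl fun y _ => Finset.sum_congr rfl fun y' _ => ?_
  ring

variable {p : κ → κ → ℝ} {rho : Fin 3 → κ → κ → ℝ} {n : Fin 3 → ℝ}

theorem bf_R (hsym : ∀ k y y', rho k y y' = rho k y' y) {e : ℝ} {s : κ → ℝ}
    (hR : ∀ y, ∑ k, ∑ y', n k * rho k y y' * s y' = e * s y) (v : κ → ℝ) :
    ∑ k, n k * bf (rho k) s v = e * ∑ y, s y * v y := by
  have h1 : ∑ k, n k * bf (rho k) s v =
      ∑ y', (∑ k, ∑ y, n k * rho k y' y * s y) * v y' := by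
    unfold bf
    simp only [Finset.mul_sum, Finset.sum_mul]
    rw [Finset.sum_comm' (s := (Finset.univ : Finset κ)) (t := fun _ => Finset.univ)
      (s' := fun _ => Finset.univ) (t' := Finset.univ) (by simp)]
    refine Finset.sum_congr rfl fun k _ => ?_
    rw [Finset.sum_comm]
    refine Finset.sum_congr rfl fun y' _ => Finset.sum_congr rfl fun y _ => ?_
    rw [hsym k y y']
    ring
  rw [h1, Finset.mul_sum]
  refine Finset.sum_congr rfl fun y _ => ?_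
  rw [hR y]
  ring

/-- `⟨ρ_k s, s⟩ = e |s|² n_k` on the eigenspace `R = e` -/
theorem alg1 (hsym : ∀ k y y', rho k y y' = rho k y' y) (hn : ∑ k, n k ^ 2 = 1)
    (hf : ∀ u : κ → ℝ, (∀ y, ∑ y', p y y' * u y' = u y) →
      ∑ k, (∑ y, ∑ y', rho k y y' * u y * u y') ^ 2 = (∑ y, u y ^ 2) ^ 2)
    {s : κ → ℝ} (hs : ∀ y, ∑ y', p y y' * s y' = s y) {e : ℝ} (he : e ^ 2 = 1)
    (hR : ∀ y, ∑ k, ∑ y', n k * rho k y y' * s y' = e * s y) (k : Fin 3) :
    bf (rho k) s s = e * (∑ y, s y ^ 2) * n k := by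
  generalize hN : ∑ y, s y ^ 2 = N
  have h1 : ∑ k, n k * bf (rho k) s s = e * N := by
    rw [bf_R hsym hR s, ← hN]
    congr 1
    exact Finset.sum_congr rfl fun y _ => by ring
  have h2 : ∑ k, bf (rho k) s s ^ 2 = N ^ 2 := by
    rw [← hN]
    exact hf s hs
  have h3 : ∑ k, (bf (rho k) s s - e * N * n k) ^ 2 = 0 := by
    have e1 : ∑ k, (bf (rho k) s s - e * N * n k) ^ 2 =
        ∑ k, bf (rho k) s s ^ 2 - 2 * (e * N) * ∑ k, n k * bf (rho k) s s +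
          (e * N) ^ 2 * ∑ k, n k ^ 2 := by
      rw [Finset.mul_sum, Finset.mul_sum, ← Finset.sum_sub_distrib, ← Finset.sum_add_distrib]
      exact Finset.sum_congr rfl fun k _ => by ring
    rw [e1, h1, h2, hn]
    have : (e * N) ^ 2 = N ^ 2 := by rw [mul_pow, he, one_mul]
    nlinarith
  have h4 := (Finset.sum_eq_zero_iff_of_nonneg fun k _ => sq_nonneg _).1 h3 k (Finset.mem_univ k)
  have h5 : bf (rho k) s s - e * N * n k = 0 := by
    rcases sq_eq_zero_iff.1 h4 with h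
    exact h
  linarith

/-- the mixed terms -/
theorem alg2 (hsym : ∀ k y y', rho k y y' = rho k y' y)
    {s s' : κ → ℝ} (hR : ∀ y, ∑ k, ∑ y', n k * rho k y y' * s y' = -1 * s y)
    (hR' : ∀ y, ∑ k, ∑ y', n k * rho k y y' * s' y' = 1 * s' y) :
    ∑ y, s y * s' y = 0 ∧ ∑ k, n k * bf (rho k) s s' = 0 := by
  have h1 := bf_R hsym hR s'
  have h2 := bf_R hsym hR' s
  have h3 : ∑ k, n k * bf (rho k) s' s = ∑ k, n k * bf (rho k) s s' :=
    Finset.sum_congr rfl fun k _ => by rw [bf_comm (hsym k) s' s]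
  have h4 : ∑ y, s' y * s y = ∑ y, s y * s' y := Finset.sum_congr rfl fun y _ => mul_comm _ _
  rw [h3, h4] at h2
  constructor <;> linarith

theorem alg3 (hsym : ∀ k y y', rho k y y' = rho k y' y) (hn : ∑ k, n k ^ 2 = 1)
    (hf : ∀ u : κ → ℝ, (∀ y, ∑ y', p y y' * u y' = u y) →
      ∑ k, (∑ y, ∑ y', rho k y y' * u y * u y') ^ 2 = (∑ y, u y ^ 2) ^ 2)
    {s s' : κ → ℝ} (hs : ∀ y, ∑ y', p y y' * s y' = s y) (hs' : ∀ y, ∑ y', p y y' * s' y' = s' y)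
    (hR : ∀ y, ∑ k, ∑ y', n k * rho k y y' * s y' = -1 * s y)
    (hR' : ∀ y, ∑ k, ∑ y', n k * rho k y y' * s' y' = 1 * s' y) :
    ∑ k, bf (rho k) s s' ^ 2 = (∑ y, s y ^ 2) * ∑ y, s' y ^ 2 := by
  obtain ⟨h1, h2⟩ := alg2 hsym hR hR'
  set N0 : ℝ := ∑ y, s y ^ 2 with hN0
  set N1 : ℝ := ∑ y, s' y ^ 2 with hN1
  have h3 := hf (fun y => s y + s' y) (fun y => by
    rw [← hs y, ← hs' y, ← Finset.sum_add_distrib]
    refine Finset.sum_congr rfl fun y' _ => ?_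
    ring)
  have h4 : ∑ y, (s y + s' y) ^ 2 = N0 + N1 := by
    have : ∑ y, (s y + s' y) ^ 2 = N0 + 2 * (∑ y, s y * s' y) + N1 := by
      rw [Finset.mul_sum, ← Finset.sum_add_distrib, ← Finset.sum_add_distrib]
      exact Finset.sum_congr rfl fun y _ => by ring
    rw [this, h1]
    ring
  have h5 : ∀ k, ∑ y, ∑ y', rho k y y' * (s y + s' y) * (s y' + s' y') =
      (N1 - N0) * n k + 2 * bf (rho k) s s' := by
    intro k
    have e1 := bf_add_add (hsym k) s s'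
    rw [alg1 hsym hn hf hs (by norm_num) hR k, alg1 hsym hn hf hs' (by norm_num) hR' k] at e1
    refine Eq.trans ?_ (e1.trans ?_)
    · rfl
    · ring
  simp only [h5] at h3
  rw [h4] at h3
  have h6 : ∑ k, ((N1 - N0) * n k + 2 * bf (rho k) s s') ^ 2 =
      (N1 - N0) ^ 2 * (∑ k, n k ^ 2) + 4 * (N1 - N0) * (∑ k, n k * bf (rho k) s s') +
        4 * ∑ k, bf (rho k) s s' ^ 2 := by
    rw [Finset.mul_sum, Finset.mul_sum, Finset.mul_sum, ← Finset.sum_add_distrib,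
      ← Finset.sum_add_distrib]
    exact Finset.sum_congr rfl fun k _ => by ring
  rw [h6, hn, h2] at h3
  nlinarith

/-- the quadratic map of `r^{3/4} (s + s')` -/
theorem alg4 (hsym : ∀ k y y', rho k y y' = rho k y' y) (hn : ∑ k, n k ^ 2 = 1)
    (hf : ∀ u : κ → ℝ, (∀ y, ∑ y', p y y' * u y' = u y) →
      ∑ k, (∑ y, ∑ y', rho k y y' * u y * u y') ^ 2 = (∑ y, u y ^ 2) ^ 2)
    {s s' : κ → ℝ} (hs : ∀ y, ∑ y', p y y' * s y' = s y) (hs' : ∀ y, ∑ y', p y y' * s' y' = s' y)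
    (hR : ∀ y, ∑ k, ∑ y', n k * rho k y y' * s y' = -1 * s y)
    (hR' : ∀ y, ∑ k, ∑ y', n k * rho k y y' * s' y' = 1 * s' y) (c : ℝ) {u : κ → ℝ}
    (hu : ∀ y, u y = c * (s y + s' y)) (k : Fin 3) :
    bf (rho k) u u = c ^ 2 * (((∑ y, s' y ^ 2) - ∑ y, s y ^ 2) * n k + 2 * bf (rho k) s s') := by
  have e0 : u = fun y => c * (s y + s' y) := funext hu
  rw [e0, bf_smul, bf_add_add (hsym k), alg1 hsym hn hf hs (by norm_num) hR k,
    alg1 hsym hn hf hs' (by norm_num) hR' k]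
  ring

/-- the curvature: with `B_k = (1/2) ρ^{-1/2} q_k(u) + r ρ n_k` -/
theorem alg5 (hsym : ∀ k y y', rho k y y' = rho k y' y) (hn : ∑ k, n k ^ 2 = 1)
    (hf : ∀ u : κ → ℝ, (∀ y, ∑ y', p y y' * u y' = u y) →
      ∑ k, (∑ y, ∑ y', rho k y y' * u y * u y') ^ 2 = (∑ y, u y ^ 2) ^ 2)
    {s s' : κ → ℝ} (hs : ∀ y, ∑ y', p y y' * s y' = s y) (hs' : ∀ y, ∑ y', p y y' * s' y' = s' y)
    (hR : ∀ y, ∑ k, ∑ y', n k * rho k y y' * s y' = -1 * s y)
    (hR' : ∀ y, ∑ k, ∑ y', n k * rho k y y' * s' y' = 1 * s' y) {rr r : ℝ} (hrr : 0 < rr)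
    {u : κ → ℝ} (hu : ∀ y, u y = rr ^ (3 / 4 : ℝ) * (s y + s' y)) {B : Fin 3 → ℝ}
    (hB : ∀ k, B k = rr ^ (-(1 / 2) : ℝ) * ((1 / 2) * bf (rho k) u u) + r * (rr * n k)) :
    (∑ k, B k * n k = rr * (r + ((∑ y, s' y ^ 2) - ∑ y, s y ^ 2) / 2)) ∧
      ∑ k, B k * bf (rho k) s s' = rr * ((∑ y, s y ^ 2) * ∑ y, s' y ^ 2) := by
  set N0 : ℝ := ∑ y, s y ^ 2 with hN0
  set N1 : ℝ := ∑ y, s' y ^ 2 with hN1
  have h1 : ∀ k, B k = rr * (r + (N1 - N0) / 2) * n k + rr * bf (rho k) s s' := by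
    intro k
    rw [hB k, alg4 hsym hn hf hs hs' hR hR' _ hu k]
    have e1 : rr ^ (-(1 / 2) : ℝ) * (rr ^ (3 / 4 : ℝ)) ^ 2 = rr := by
      rw [← Real.rpow_natCast, ← Real.rpow_mul hrr.le, ← Real.rpow_add hrr]
      norm_num
    have e2 : rr ^ (-(1 / 2) : ℝ) * (1 / 2 * ((rr ^ (3 / 4 : ℝ)) ^ 2 *
        ((N1 - N0) * n k + 2 * bf (rho k) s s'))) =
        (rr ^ (-(1 / 2) : ℝ) * (rr ^ (3 / 4 : ℝ)) ^ 2) * (1 / 2 *
        ((N1 - N0) * n k + 2 * bf (rho k) s s')) := by ring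
    rw [e2, e1]
    ring
  obtain ⟨-, h2⟩ := alg2 hsym hR hR'
  have h3 := alg3 hsym hn hf hs hs' hR hR'
  constructor
  · have e1 : ∑ k, B k * n k = rr * (r + (N1 - N0) / 2) * (∑ k, n k ^ 2) +
        rr * ∑ k, n k * bf (rho k) s s' := by
      rw [Finset.mul_sum, Finset.mul_sum, ← Finset.sum_add_distrib]
      exact Finset.sum_congr rfl fun k _ => by rw [h1 k]; ring
    rw [e1, hn, h2]
    ring
  · have e1 : ∑ k, B k * bf (rho k) s s' =
        rr * (r + (N1 - N0) / 2) * (∑ k, n k * bf (rho k) s s') +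
          rr * ∑ k, bf (rho k) s s' ^ 2 := by
      rw [Finset.mul_sum, Finset.mul_sum, ← Finset.sum_add_distrib]
      exact Finset.sum_congr rfl fun k _ => by rw [h1 k]; ring
    rw [e1, h2, h3]
    ring

/-- the pointwise inequality of the Taubes estimate -/
theorem ptineq {C rr r G N0 N1 : ℝ} (hrr : 0 < rr) (hC : C ^ 2 ≤ r * rr ^ 3)
    (hN1 : 0 ≤ N1) :
    (1 / 2) * (rr * G) + (1 / 2) * (rr ^ 2 * ((2 * r - N0) ^ 2 + N1 * (r + N0))) ≤
      rr * G - rr * (rr * (r + (N1 - N0) / 2)) * N0 + rr * (rr * (N0 * N1)) -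
        (1 / 2) * (rr * G) - C ^ 2 / 2 * (rr⁻¹ * N1) + 2 * r * (rr * (rr * (r + (N1 - N0) / 2))) := by
  have h1 : C ^ 2 / 2 * (rr⁻¹ * N1) ≤ (1 / 2) * (r * rr ^ 2 * N1) := by
    have e1 : C ^ 2 * rr⁻¹ ≤ r * rr ^ 2 := by
      rw [← div_eq_mul_inv, div_le_iff₀ hrr]
      calc C ^ 2 ≤ r * rr ^ 3 := hC
        _ = r * rr ^ 2 * rr := by ring
    have := mul_le_mul_of_nonneg_right e1 hN1
    nlinarith
  nlinarith

end Crest.Agent.R235.TauxA_433
end
end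

-- ▼ part R235/TauxB_433
section

/-!
# Row 235, SW-TAUX, part B (helper433): the Stokes identities on `W^{1,2}`

For `α : W^{1,2}(T*M)`, `w : W^{1,2}(W⁺ ⊗ L)`, `s := Π₀ w`, `s' := Π₁ w`:
* `t1W` : `TD.OK.T1` for `(α, s)`;
* `t2W` : `TD.OK.T2` for `(α, s, s')`, in the form with `∫ (ρ/2)|∇ s|² + (C²/2ρ)|s'|²`.
-/

set_option autoImplicit false
set_option linter.unusedSectionVars false
set_option linter.unusedVariables false
set_option maxSynthPendingDepth 3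
open scoped ContDiff ENNReal NNReal Topology Manifold Bundle RealInnerProductSpace
open MeasureTheory Set Filter Metric Bundle

universe v

noncomputable section
namespace Crest.Agent.R235.TauxB_433

open Crest.Agent.R247.Dir593 Crest.Agent.R247.Ms322 Crest.Agent.R247.Frd657
open Crest.Agent.R249.Tv57 Crest.Agent.R235.Dens_433 Crest.Agent.R235.Fs4_546
open Crest.Agent.R235.Dns_433 Crest.Agent.R235.SWDefs_53 Crest.Agent.R235.W12_109
open Crest.Agent.R235.SupbA_433 Crest.Agent.R235.Cpt_755 Crest.Agent.R235.L4_433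
open Crest.Agent.R235.CptC_755 Crest.Agent.R235.WtzW_86 Crest.Agent.R235.Tauf_433

/-! ### bounded multipliers of vector valued functions -/

section mV
variable {X : Type*} [MeasurableSpace X] {μ : Measure X} {F : Type*} [NormedAddCommGroup F]
  [InnerProductSpace ℝ F] {κ : Type} [Fintype κ]

theorem bm_top {w : X → ℝ} (hw : BM μ w) : MemLp w ∞ μ := by
  obtain ⟨C, -, hC⟩ := hw.bd
  exact memLp_top_of_bound hw.meas C hC

/-- `f ↦ w f` -/
def mV {w : X → ℝ} (hw : BM μ w) : Lp F 2 μ →L[ℝ] Lp F 2 μ :=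
  (ContinuousLinearMap.lsmul ℝ ℝ : ℝ →L[ℝ] F →L[ℝ] F).holderL μ ∞ 2 2 ((bm_top hw).toLp w)

theorem coe_mV {w : X → ℝ} (hw : BM μ w) (f : Lp F 2 μ) :
    (mV hw f : X → F) =ᵐ[μ] fun x => w x • (f : X → F) x := by
  filter_upwards [ContinuousLinearMap.coeFn_holder (r := 2)
    (ContinuousLinearMap.lsmul ℝ ℝ : ℝ →L[ℝ] F →L[ℝ] F) ((bm_top hw).toLp w) f,
    (bm_top hw).coeFn_toLp] with x e1 e2
  have e3 : (mV hw f : X → F) x = (ContinuousLinearMap.lsmul ℝ ℝ : ℝ →L[ℝ] F →L[ℝ] F)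
      (((bm_top hw).toLp w : X → ℝ) x) ((f : X → F) x) := e1
  rw [e3, e2]
  rfl

/-- `(m f)_a = ∑ m_ab f_b` for vector valued `f` -/
def mVm {m : κ → κ → X → ℝ} (hm : ∀ a b, BM μ (m a b)) : GG F μ κ →L[ℝ] GG F μ κ :=
  ((PiLp.continuousLinearEquiv 2 ℝ (fun _ : κ => Lp F 2 μ)).symm :
      (∀ _ : κ, Lp F 2 μ) →L[ℝ] PiLp 2 (fun _ : κ => Lp F 2 μ)).comp
    (ContinuousLinearMap.pi fun a => ∑ b, (mV (hm a b)).comp (PiLp.proj 2 _ b))

theorem coe_mVm {m : κ → κ → X → ℝ} (hm : ∀ a b, BM μ (m a b)) (u : GG F μ κ) :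
    ∀ᵐ x ∂μ, ∀ a, (mVm hm u a : X → F) x = ∑ b, m a b x • (u b : X → F) x := by
  rw [ae_all_iff]
  intro a
  have h1 : ∀ᵐ x ∂μ, ∀ b, (mV (hm a b) (u b) : X → F) x = m a b x • (u b : X → F) x :=
    ae_all_iff.2 fun b => coe_mV (hm a b) (u b)
  have h0 : mVm hm u a = ∑ b, mV (hm a b) (u b) := by simp [mVm]
  filter_upwards [h1, Lp.coeFn_fun_finsetSum Finset.univ (fun b => mV (hm a b) (u b))]
    with x e1 e2
  rw [h0, e2]
  exact Finset.sum_congr rfl fun b _ => e1 b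

/-- the weighted product `∫ w ⟨u, v⟩` -/
def wip {w : X → ℝ} (hw : BM μ w) (u v : GG F μ κ) : ℝ := ∑ a, (⟪mV hw (u a), v a⟫ : ℝ)

theorem continuous_wip {Y : Type*} [TopologicalSpace Y] {w : X → ℝ} (hw : BM μ w)
    {u v : Y → GG F μ κ} (hu : Continuous u) (hv : Continuous v) :
    Continuous fun q => wip hw (u q) (v q) := by
  unfold wip
  refine continuous_finsetSum _ fun a _ => ?_
  exact ((mV hw).continuous.comp ((PiLp.continuous_apply 2 (fun _ : κ => Lp F 2 μ) a).comp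
    hu)).inner ((PiLp.continuous_apply 2 (fun _ : κ => Lp F 2 μ) a).comp hv)

theorem wip_eq {w : X → ℝ} (hw : BM μ w) {u v : GG F μ κ} {f g : κ → X → F}
    (hf : ∀ᵐ x ∂μ, ∀ a, (u a : X → F) x = f a x) (hg : ∀ᵐ x ∂μ, ∀ a, (v a : X → F) x = g a x) :
    wip hw u v = ∫ x, w x * ∑ a, ⟪f a x, g a x⟫ ∂μ ∧
      Integrable (fun x => w x * ∑ a, (⟪f a x, g a x⟫ : ℝ)) μ := by
  have h0 : (fun x => ∑ a, (⟪(mV hw (u a) : X → F) x, (v a : X → F) x⟫ : ℝ)) =ᵐ[μ]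
      fun x => w x * ∑ a, (⟪f a x, g a x⟫ : ℝ) := by
    have h2 : ∀ᵐ x ∂μ, ∀ a, (mV hw (u a) : X → F) x = w x • (u a : X → F) x :=
      ae_all_iff.2 fun a => coe_mV hw (u a)
    filter_upwards [hf, hg, h2] with x e1 e2 e3
    rw [Finset.mul_sum]
    refine Finset.sum_congr rfl fun a _ => ?_
    rw [e3 a, e1 a, e2 a, real_inner_smul_left]
  have h1 : Integrable (fun x => ∑ a, (⟪(mV hw (u a) : X → F) x, (v a : X → F) x⟫ : ℝ)) μ :=
    integrable_finsetSum _ fun a _ => L2.integrable_inner _ _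
  refine ⟨?_, h1.congr h0⟩
  unfold wip
  simp only [L2.inner_def]
  rw [← integral_finsetSum]
  · exact integral_congr_ae h0
  · intro a _
    exact L2.integrable_inner _ _

end mV

section mfd
variable {M : Type v} [MetricSpace M] [CompactSpace M] [ConnectedSpace M]
  [ChartedSpace (EuclideanSpace ℝ (Fin 4)) M] [IsManifold (𝓡 4) ∞ M]
  [RiemannianBundle (fun p : M => TangentSpace (𝓡 4) p)]
  [IsContMDiffRiemannianBundle (𝓡 4) ∞ (EuclideanSpace ℝ (Fin 4))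
    (fun p : M => TangentSpace (𝓡 4) p)]
  [IsRiemannianManifold (𝓡 4) M] [MeasurableSpace M] [BorelSpace M]
  [SecondCountableTopology M] [Nonempty M] [IsFiniteMeasureOnCompacts (μHE[4] : Measure M)]
  {κ0 κ1 κT : Type} [Fintype κ0] [Fintype κ1] [Fintype κT] (S : SWS M κ0 κ1 κT)

local notation "𝔼" => EuclideanSpace ℝ (Fin 4)

/-- induction over smooth pairs -/
theorem smooth_pair {p : S.DT.toAD.WE × S.D0.toAD.WE → Prop} (hp : IsClosed {q | p q})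
    (h : ∀ (a : SmS S.DT) (u : SmS S.D0), p (cW S.DT a, cW S.D0 u)) (q) : p q :=
  isClosed_property ((dns S.DT (by norm_num)).prodMap (dns S.D0 (by norm_num))) hp
    (fun x => h x.1 x.2) q

variable {τ : TD M κT} {C : ℝ}

/-! ### the projections -/

variable (τ) in
/-- `Π₁` -/
def Po (y y' : κ0) (z : M) : ℝ := (1 / 2) * (S.D0.p y y' z + ∑ k, τ.n k z * S.rho k y y' z)

theorem smooth_Po (hOK : S.OK) (hτ : τ.OK S C) (y y' : κ0) :
    ContMDiff (𝓡 4) 𝓘(ℝ, ℝ) ∞ (Po S τ y y') :=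
  contMDiff_const.mul ((S.D0.smp y y').add
    (contMDiff_finsetSum fun k _ => (hτ.smn k).mul (hOK.smrho k y y')))

theorem p_Po (hτ : τ.OK S C) (a b : κ0) (z : M) :
    ∑ c, S.D0.p a c z * Po S τ c b z = Po S τ a b z := by
  have h1 : ∑ c, S.D0.p a c z * Po S τ c b z =
      (1 / 2) * ((∑ c, S.D0.p a c z * S.D0.p c b z) +
        ∑ k, τ.n k z * ∑ c, S.D0.p a c z * S.rho k c b z) := by
    unfold Po
    rw [mul_add, Finset.mul_sum, Finset.mul_sum]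
    simp only [mul_add, Finset.sum_add_distrib, Finset.mul_sum]
    congr 1
    · exact Finset.sum_congr rfl fun c _ => by ring
    · rw [Finset.sum_comm]
      exact Finset.sum_congr rfl fun k _ => Finset.sum_congr rfl fun c _ => by ring
  rw [h1, S.D0.idem]
  simp only [hτ.rsec]
  rfl

/-- `R Π = Π R`-type identities as matrices -/
theorem R_Po (hOK : S.OK) (hτ : τ.OK S C) (y b : κ0) (z : M) :
    ∑ y', (∑ k, τ.n k z * S.rho k y y' z) * Po S τ y' b z = Po S τ y b z := by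
  have e1 : ∑ y', (∑ k, τ.n k z * S.rho k y y' z) * Po S τ y' b z =
      (1 / 2) * ((∑ y', (∑ k, τ.n k z * S.rho k y y' z) * S.D0.p y' b z) +
        ∑ y', (∑ k, τ.n k z * S.rho k y y' z) * (∑ k, τ.n k z * S.rho k y' b z)) := by
    unfold Po
    rw [← Finset.sum_add_distrib, Finset.mul_sum]
    exact Finset.sum_congr rfl fun y' _ => by ring
  have e2 : ∑ y', (∑ k, τ.n k z * S.rho k y y' z) * S.D0.p y' b z =
      ∑ k, τ.n k z * S.rho k y b z := by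
    simp only [Finset.sum_mul]
    rw [Finset.sum_comm]
    refine Finset.sum_congr rfl fun k _ => ?_
    rw [← rho_p S hOK hτ k y b z, Finset.mul_sum]
    exact Finset.sum_congr rfl fun y' _ => by ring
  rw [e1, e2, hτ.invol]
  unfold Po
  ring

/-- `Π₁ u` is a section of the complement of `E` -/
theorem secE'_Po (hOK : S.OK) (hτ : τ.OK S C) (u : κ0 → M → ℝ) :
    τ.SecE' S (fun y z => ∑ b, Po S τ y b z * u b z) := by
  constructor
  · intro y z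
    simp only [Finset.mul_sum]
    rw [Finset.sum_comm]
    refine Finset.sum_congr rfl fun b _ => ?_
    rw [← p_Po S hτ y b z, Finset.sum_mul]
    exact Finset.sum_congr rfl fun c _ => by ring
  · intro y z
    unfold TD.R
    rw [Finset.sum_comm]
    have e3 : ∀ y', ∑ k, τ.n k z * S.rho k y y' z * ∑ b, Po S τ y' b z * u b z =
        ∑ b, ((∑ k, τ.n k z * S.rho k y y' z) * Po S τ y' b z) * u b z := by
      intro y'
      rw [← Finset.sum_mul, Finset.mul_sum]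
      exact Finset.sum_congr rfl fun b _ => by ring
    simp only [e3]
    rw [Finset.sum_comm]
    refine Finset.sum_congr rfl fun b _ => ?_
    rw [← Finset.sum_mul, R_Po S hOK hτ y b z]

/-- smooth powers of `ρ` -/
theorem smooth_rr (hτ : τ.OK S C) (e : ℝ) :
    ContMDiff (𝓡 4) 𝓘(ℝ, ℝ) ∞ (fun z => τ.rr z ^ e) := by
  intro z
  exact (Real.contDiffAt_rpow_const_of_ne (p := e) (hτ.pos z).ne').contMDiffAt.comp z (hτ.smrr z)

/-- `w ↦ Π₀ w` -/
def zW (hOK : S.OK) (hτ : τ.OK S C) : S.D0.toAD.WE →L[ℝ] S.D0.toAD.WE :=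
  mulS S.D0 S.D0 (fun a b => smooth_Pz S hOK hτ a b) (fun a b z => p_Pz S hτ a b z)

/-- `w ↦ Π₁ w` -/
def oW (hOK : S.OK) (hτ : τ.OK S C) : S.D0.toAD.WE →L[ℝ] S.D0.toAD.WE :=
  mulS S.D0 S.D0 (fun a b => smooth_Po S hOK hτ a b) (fun a b z => p_Po S hτ a b z)

/-- `w ↦ ρ^e w` -/
def scW (hτ : τ.OK S C) (e : ℝ) : S.D0.toAD.WE →L[ℝ] S.D0.toAD.WE :=
  mulS S.D0 S.D0 (m := fun a b z => τ.rr z ^ e * S.D0.p a b z)
    (fun a b => (smooth_rr S hτ e).mul (S.D0.smp a b))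
    (fun a b z => by
      rw [← S.D0.idem a b z, Finset.mul_sum]
      exact Finset.sum_congr rfl fun c _ => by ring)

theorem coe_zW (hOK : S.OK) (hτ : τ.OK S C) (w : S.D0.toAD.WE) :
    ∀ᵐ z ∂(μHE[4] : Measure M), ∀ y, rp (zW S hOK hτ w) y z = ∑ b, Pz S τ y b z * rp w b z :=
  coe_mulS S.D0 S.D0 _ _ w

theorem coe_oW (hOK : S.OK) (hτ : τ.OK S C) (w : S.D0.toAD.WE) :
    ∀ᵐ z ∂(μHE[4] : Measure M), ∀ y, rp (oW S hOK hτ w) y z = ∑ b, Po S τ y b z * rp w b z :=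
  coe_mulS S.D0 S.D0 _ _ w

theorem rp_p (w : S.D0.toAD.WE) :
    ∀ᵐ z ∂(μHE[4] : Measure M), ∀ y, ∑ b, S.D0.p y b z * rp w b z = rp w y z := by
  have h2 := S.D0.toAD.coe_P (S.D0.toAD.i1 w)
  rw [show S.D0.toAD.P (S.D0.toAD.i1 w) = S.D0.toAD.i1 w from w.2.2] at h2
  filter_upwards [h2] with z e2 y
  exact (e2 y).symm

theorem coe_scW (hτ : τ.OK S C) (e : ℝ) (w : S.D0.toAD.WE) :
    ∀ᵐ z ∂(μHE[4] : Measure M), ∀ y, rp (scW S hτ e w) y z = τ.rr z ^ e * rp w y z := by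
  have h1 : ∀ᵐ z ∂(μHE[4] : Measure M), ∀ y, rp (scW S hτ e w) y z =
      ∑ b, (τ.rr z ^ e * S.D0.p y b z) * rp w b z := coe_mulS S.D0 S.D0 _ _ w
  filter_upwards [h1, rp_p S w] with z e1 e2 y
  rw [e1 y]
  rw [← e2 y, Finset.mul_sum]
  exact Finset.sum_congr rfl fun b _ => by ring

/-- `Π₀ u` for smooth sections -/
def zS (hOK : S.OK) (hτ : τ.OK S C) (u : SmS S.D0) : SmS S.D0 :=
  ⟨fun y z => ∑ b, Pz S τ y b z * u.1 b z,
    fun y => contMDiff_finsetSum fun b _ => (smooth_Pz S hOK hτ y b).mul (u.2.1 b),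
    (secE_Pz S hOK hτ u.1).1⟩

/-- `Π₁ u` for smooth sections -/
def oS (hOK : S.OK) (hτ : τ.OK S C) (u : SmS S.D0) : SmS S.D0 :=
  ⟨fun y z => ∑ b, Po S τ y b z * u.1 b z,
    fun y => contMDiff_finsetSum fun b _ => (smooth_Po S hOK hτ y b).mul (u.2.1 b),
    (secE'_Po S hOK hτ u.1).1⟩

/-- `ρ^e u` for smooth sections -/
def scS (hτ : τ.OK S C) (e : ℝ) (u : SmS S.D0) : SmS S.D0 :=
  ⟨τ.sc e u.1, fun y => (smooth_rr S hτ e).mul (u.2.1 y), fun y z => by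
    have h1 := u.2.2 y z
    show ∑ b, S.D0.p y b z * (τ.rr z ^ e * u.1 b z) = τ.rr z ^ e * u.1 y z
    rw [← h1, Finset.mul_sum]
    exact Finset.sum_congr rfl fun b _ => by ring⟩

theorem rp_cW (u : SmS S.D0) : ∀ᵐ z ∂(μHE[4] : Measure M), ∀ y, rp (cW S.D0 u) y z = u.1 y z :=
  coe_clH u.1 u.2.1

theorem rp_cWT (a : SmS S.DT) : ∀ᵐ z ∂(μHE[4] : Measure M), ∀ y, rp (cW S.DT a) y z = a.1 y z :=
  coe_clH a.1 a.2.1

theorem eq_cW {w : S.D0.toAD.WE} {u : SmS S.D0}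
    (h : ∀ᵐ z ∂(μHE[4] : Measure M), ∀ y, rp w y z = u.1 y z) : w = cW S.D0 u := by
  refine i1_injective S.D0.toAD ?_
  ext y
  filter_upwards [h, rp_cW S u] with z e1 e2
  exact (e1 y).trans (e2 y).symm

theorem zW_cW (hOK : S.OK) (hτ : τ.OK S C) (u : SmS S.D0) :
    zW S hOK hτ (cW S.D0 u) = cW S.D0 (zS S hOK hτ u) := by
  refine eq_cW S ?_
  filter_upwards [coe_zW S hOK hτ (cW S.D0 u), rp_cW S u] with z e1 e2 y
  rw [e1 y]
  exact Finset.sum_congr rfl fun b _ => by rw [e2 b]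

theorem oW_cW (hOK : S.OK) (hτ : τ.OK S C) (u : SmS S.D0) :
    oW S hOK hτ (cW S.D0 u) = cW S.D0 (oS S hOK hτ u) := by
  refine eq_cW S ?_
  filter_upwards [coe_oW S hOK hτ (cW S.D0 u), rp_cW S u] with z e1 e2 y
  rw [e1 y]
  exact Finset.sum_congr rfl fun b _ => by rw [e2 b]

theorem scW_cW (hτ : τ.OK S C) (e : ℝ) (u : SmS S.D0) :
    scW S hτ e (cW S.D0 u) = cW S.D0 (scS S hτ e u) := by
  refine eq_cW S ?_
  filter_upwards [coe_scW S hτ e (cW S.D0 u), rp_cW S u] with z e1 e2 y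
  rw [e1 y, e2 y]
  rfl

/-! ### the `L²` objects -/

/-- `(A + c(α) i) U` in `L²` -/
def DL (hOK : S.OK) (α : S.DT.toAD.WE) (U : S.D0.toAD.WE) : HH (μHE[4] : Measure M) κ1 :=
  ((Ah S.P U : S.D1.toAD.HE) : HH (μHE[4] : Measure M) κ1) + CM S hOK α U

theorem coe_DL (hOK : S.OK) (α : S.DT.toAD.WE) (U : S.D0.toAD.WE) :
    ∀ᵐ z ∂(μHE[4] : Measure M), ∀ x, (DL S hOK α U x : M → ℝ) z = dirW S α U x z :=
  coe_dirW hOK (Sob4_984.emb4_Dat S.DT) (Sob4_984.emb4_Dat S.D0) α U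

theorem continuous_DL (hOK : S.OK) : Continuous fun q : S.DT.toAD.WE × S.D0.toAD.WE =>
    DL S hOK q.1 q.2 :=
  (continuous_subtype_val.comp ((Ah S.P).continuous.comp continuous_snd)).add
    (cont_CM hOK (Sob4_984.emb4_Dat S.DT) (Sob4_984.emb4_Dat S.D0))

/-- the field `J ⊗ ∑ sh_A s_A` -/
theorem bm_sh (hOK : S.OK) (hτ : τ.OK S C) (y y' : κ0) :
    BM (μHE[4] : Measure M) (fun z => S.J y y' z • ∑ A, τ.sh A z • S.s A z) :=
  (SmF.smul (hOK.smJ y y') (SmF.sum _ fun A _ => SmF.smul (hτ.smsh A) (hOK.sms A))).bm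

/-- `∇^E s` in `L²` -/
def PL (hOK : S.OK) (hτ : τ.OK S C) (α : S.DT.toAD.WE) (w : S.D0.toAD.WE) :
    GG 𝔼 (μHE[4] : Measure M) κ0 :=
  mVm (fun a b => bm_smooth (smooth_Pz S hOK hτ a b)) (S.D0.toAD.c1 w + NM S hOK α w) +
    matF (fun a b => bm_sh S hOK hτ a b) (S.D0.toAD.i1 w)

theorem continuous_PL (hOK : S.OK) (hτ : τ.OK S C) :
    Continuous fun q : S.DT.toAD.WE × S.D0.toAD.WE => PL S hOK hτ q.1 q.2 := by
  have h1 : Continuous fun q : S.DT.toAD.WE × S.D0.toAD.WE =>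
      S.D0.toAD.c1 q.2 + NM S hOK q.1 q.2 :=
    (S.D0.toAD.c1.continuous.comp continuous_snd).add
      (cont_NM hOK (Sob4_984.emb4_Dat S.DT) (Sob4_984.emb4_Dat S.D0))
  have h2 : Continuous fun q : S.DT.toAD.WE × S.D0.toAD.WE =>
      mVm (F := 𝔼) (fun a b => bm_smooth (smooth_Pz S hOK hτ a b))
        (S.D0.toAD.c1 q.2 + NM S hOK q.1 q.2) :=
    (mVm (F := 𝔼) (fun a b => bm_smooth (smooth_Pz S hOK hτ a b))).continuous.comp h1
  have h3 : Continuous fun q : S.DT.toAD.WE × S.D0.toAD.WE =>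
      matF (fun a b => bm_sh S hOK hτ a b) (S.D0.toAD.i1 q.2) :=
    (matF (fun a b => bm_sh S hOK hτ a b)).continuous.comp
      (S.D0.toAD.i1.continuous.comp continuous_snd)
  exact h2.add h3

theorem coe_PL (hOK : S.OK) (hτ : τ.OK S C) (α : S.DT.toAD.WE) (w : S.D0.toAD.WE) :
    ∀ᵐ z ∂(μHE[4] : Measure M), ∀ y, (PL S hOK hτ α w y : M → 𝔼) z =
      τ.prE S (nabW S α w) (rp w) y z := by
  have h1 : ∀ᵐ z ∂(μHE[4] : Measure M), ∀ y, (PL S hOK hτ α w y : M → 𝔼) z =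
      (mVm (fun a b => bm_smooth (smooth_Pz S hOK hτ a b)) (S.D0.toAD.c1 w + NM S hOK α w) y :
        M → 𝔼) z + (matF (fun a b => bm_sh S hOK hτ a b) (S.D0.toAD.i1 w) y : M → 𝔼) z :=
    ae_all_iff.2 fun y => Lp.coeFn_add _ _
  filter_upwards [h1, coe_mVm (fun a b => bm_smooth (smooth_Pz S hOK hτ a b))
    (S.D0.toAD.c1 w + NM S hOK α w), coe_matF (fun a b => bm_sh S hOK hτ a b) (S.D0.toAD.i1 w),
    coe_nabW hOK (Sob4_984.emb4_Dat S.DT) (Sob4_984.emb4_Dat S.D0) α w] with z e1 e2 e3 e4 y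
  rw [e1 y, e2 y, e3 y, TD.prE]
  congr 1
  · exact Finset.sum_congr rfl fun b _ => by rw [e4 b]; rfl
  · rw [Finset.sum_smul]
    refine Finset.sum_congr rfl fun b _ => ?_
    rw [smul_smul, mul_comm]
    rfl

/-- the curvature `(B α)_{k+1} + fE_k` in `L²` -/
def BL (hτ : τ.OK S C) (k : Fin 3) (α : S.DT.toAD.WE) : Lp ℝ 2 (μHE[4] : Measure M) :=
  ((Ah S.H.swap α : S.DL.toAD.HE) : HH (μHE[4] : Measure M) (Fin 4)) k.succ +
    GradS.tL (isT_smooth (hτ.smfE k))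

/-- the values of the curvature -/
def cur (α : S.DT.toAD.WE) (k : Fin 3) (z : M) : ℝ :=
  (((Ah S.H.swap α : S.DL.toAD.HE) : HH (μHE[4] : Measure M) (Fin 4)) k.succ : M → ℝ) z

theorem coe_BL (hτ : τ.OK S C) (k : Fin 3) (α : S.DT.toAD.WE) :
    (BL S hτ k α : M → ℝ) =ᵐ[(μHE[4] : Measure M)] fun z => cur S α k z + τ.fE k z := by
  filter_upwards [Lp.coeFn_add (((Ah S.H.swap α : S.DL.toAD.HE) :
    HH (μHE[4] : Measure M) (Fin 4)) k.succ) (GradS.tL (isT_smooth (hτ.smfE k))),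
    GradS.coe_tL (μ := (μHE[4] : Measure M)) (isT_smooth (hτ.smfE k))] with z e1 e2
  rw [BL, e1, Pi.add_apply, e2]
  rfl

theorem continuous_BL (hτ : τ.OK S C) (k : Fin 3) : Continuous (BL S hτ k) :=
  ((PiLp.continuous_apply 2 (fun _ : Fin 4 => Lp ℝ 2 (μHE[4] : Measure M)) k.succ).comp
      (continuous_subtype_val.comp (Ah S.H.swap).continuous)).add continuous_const

/-- `∑_k ρ n_k (B_k + fE_k)` in `L²` -/
def BN (hτ : τ.OK S C) (α : S.DT.toAD.WE) : Lp ℝ 2 (μHE[4] : Measure M) :=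
  ∑ k, mV (bm_smooth (hτ.smrr.mul (hτ.smn k))) (BL S hτ k α)

theorem coe_BN (hτ : τ.OK S C) (α : S.DT.toAD.WE) :
    (BN S hτ α : M → ℝ) =ᵐ[(μHE[4] : Measure M)] fun z =>
      ∑ k, (τ.rr z * τ.n k z) * (cur S α k z + τ.fE k z) := by
  have h1 : ∀ᵐ z ∂(μHE[4] : Measure M), ∀ k,
      (mV (bm_smooth (hτ.smrr.mul (hτ.smn k))) (BL S hτ k α) : M → ℝ) z =
      (τ.rr z * τ.n k z) * (cur S α k z + τ.fE k z) := by
    rw [ae_all_iff]
    intro k
    filter_upwards [coe_mV (bm_smooth (hτ.smrr.mul (hτ.smn k))) (BL S hτ k α), coe_BL S hτ k α]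
      with z e1 e2
    rw [e1, e2]
    rfl
  filter_upwards [h1, Lp.coeFn_fun_finsetSum Finset.univ (fun k =>
    mV (bm_smooth (hτ.smrr.mul (hτ.smn k))) (BL S hτ k α))] with z e1 e2
  rw [BN, e2]
  exact Finset.sum_congr rfl fun k _ => e1 k

theorem continuous_BN (hτ : τ.OK S C) : Continuous (BN S hτ) :=
  continuous_finsetSum _ fun k _ => (mV _).continuous.comp (continuous_BL S hτ k)

/-- `|w|²` in `L²` -/
def N2 (w : S.D0.toAD.WE) : Lp ℝ 2 (μHE[4] : Measure M) :=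
  ∑ y, pr4 (Sob4_984.emb4_Dat S.D0) (Sob4_984.emb4_Dat S.D0) y y w w

theorem coe_N2 (w : S.D0.toAD.WE) :
    (N2 S w : M → ℝ) =ᵐ[(μHE[4] : Measure M)] fun z => ∑ y, rp w y z ^ 2 := by
  have h1 : ∀ᵐ z ∂(μHE[4] : Measure M), ∀ y,
      (pr4 (Sob4_984.emb4_Dat S.D0) (Sob4_984.emb4_Dat S.D0) y y w w : M → ℝ) z =
        rp w y z ^ 2 := by
    rw [ae_all_iff]
    intro y
    filter_upwards [coe_pr4 (Sob4_984.emb4_Dat S.D0) (Sob4_984.emb4_Dat S.D0) y y w w] with z e1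
    rw [e1, sq]
    rfl
  filter_upwards [h1, Lp.coeFn_fun_finsetSum Finset.univ (fun y =>
    pr4 (Sob4_984.emb4_Dat S.D0) (Sob4_984.emb4_Dat S.D0) y y w w)] with z e1 e2
  rw [N2, e2]
  exact Finset.sum_congr rfl fun k _ => e1 k

theorem continuous_N2 : Continuous fun w : S.D0.toAD.WE => N2 S w := by
  unfold N2 pr4
  fun_prop

theorem inner_L2 {u v : Lp ℝ 2 (μHE[4] : Measure M)} {f g : M → ℝ}
    (hf : (u : M → ℝ) =ᵐ[(μHE[4] : Measure M)] f) (hg : (v : M → ℝ) =ᵐ[(μHE[4] : Measure M)] g) :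
    (⟪u, v⟫ : ℝ) = ∫ z, f z * g z ∂(μHE[4] : Measure M) ∧
      Integrable (fun z => f z * g z) (μHE[4] : Measure M) := by
  have h0 : (fun z => (⟪(u : M → ℝ) z, (v : M → ℝ) z⟫ : ℝ)) =ᵐ[(μHE[4] : Measure M)]
      fun z => f z * g z := by
    filter_upwards [hf, hg] with z e1 e2
    rw [e1, e2, rin]
  exact ⟨(L2.inner_def u v).trans (integral_congr_ae h0), (L2.integrable_inner u v).congr h0⟩

end mfd

end Crest.Agent.R235.TauxB_433
end
end

-- ▼ part R235/TauxC_433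
section

/-!
# Row 235, SW-TAUX, part C (helper433): `t1W`, `t2W`, the Stokes identities on `W^{1,2}`
-/

set_option autoImplicit false
set_option linter.unusedSectionVars false
set_option linter.unusedVariables false
set_option maxSynthPendingDepth 3
open scoped ContDiff ENNReal NNReal Topology Manifold Bundle RealInnerProductSpace
open MeasureTheory Set Filter Metric Bundle

universe v

noncomputable section
namespace Crest.Agent.R235.TauxC_433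

open Crest.Agent.R247.Dir593 Crest.Agent.R247.Ms322 Crest.Agent.R247.Frd657
open Crest.Agent.R249.Tv57 Crest.Agent.R235.Dens_433 Crest.Agent.R235.Fs4_546
open Crest.Agent.R235.Dns_433 Crest.Agent.R235.SWDefs_53 Crest.Agent.R235.W12_109
open Crest.Agent.R235.SupbA_433 Crest.Agent.R235.Cpt_755 Crest.Agent.R235.L4_433
open Crest.Agent.R235.CptC_755 Crest.Agent.R235.WtzW_86 Crest.Agent.R235.Tauf_433
open Crest.Agent.R235.TauxB_433 Crest.Agent.R235.TauxA_433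

theorem cont_in {Y H : Type*} [TopologicalSpace Y] [NormedAddCommGroup H] [InnerProductSpace ℝ H]
    {f g : Y → H} (hf : Continuous f) (hg : Continuous g) :
    Continuous fun q => (⟪f q, g q⟫ : ℝ) := hf.inner hg

theorem cont_cp {Y Z W : Type*} [TopologicalSpace Y] [TopologicalSpace Z] [TopologicalSpace W]
    {f : Z → W} (hf : Continuous f) {g : Y → Z} (hg : Continuous g) :
    Continuous fun q => f (g q) := hf.comp hg

theorem cont_cp2 {Y Z Z' W : Type*} [TopologicalSpace Y] [TopologicalSpace Z]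
    [TopologicalSpace Z'] [TopologicalSpace W] {f : Z → Z' → W}
    (hf : Continuous fun q : Z × Z' => f q.1 q.2) {g : Y → Z} (hg : Continuous g) {g' : Y → Z'}
    (hg' : Continuous g') : Continuous fun q => f (g q) (g' q) := hf.comp (hg.prodMk hg')

section mfd
variable {M : Type v} [MetricSpace M] [CompactSpace M] [ConnectedSpace M]
  [ChartedSpace (EuclideanSpace ℝ (Fin 4)) M] [IsManifold (𝓡 4) ∞ M]
  [RiemannianBundle (fun p : M => TangentSpace (𝓡 4) p)]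
  [IsContMDiffRiemannianBundle (𝓡 4) ∞ (EuclideanSpace ℝ (Fin 4))
    (fun p : M => TangentSpace (𝓡 4) p)]
  [IsRiemannianManifold (𝓡 4) M] [MeasurableSpace M] [BorelSpace M]
  [SecondCountableTopology M] [Nonempty M] [IsFiniteMeasureOnCompacts (μHE[4] : Measure M)]
  {κ0 κ1 κT : Type} [Fintype κ0] [Fintype κ1] [Fintype κT] (S : SWS M κ0 κ1 κT)

local notation "𝔼" => EuclideanSpace ℝ (Fin 4)

variable {τ : TD M κT} {C : ℝ} (hOK : S.OK) (hτ : τ.OK S C)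

/-- `∫ ρ^{-1/2} ⟨(A + c(α) i) V, (A + c(α) i) V'⟩` -/
def I4 (α : S.DT.toAD.WE) (V V' : S.D0.toAD.WE) : ℝ :=
  wip (bm_smooth (smooth_rr S hτ (-(1 / 2) : ℝ))) (DL S hOK α V) (DL S hOK α V')

theorem I4_eq (α : S.DT.toAD.WE) (V V' : S.D0.toAD.WE) :
    I4 S hOK hτ α V V' = ∫ z, τ.rr z ^ (-(1 / 2) : ℝ) *
      ∑ x, dirW S α V x z * dirW S α V' x z ∂(μHE[4] : Measure M) ∧
    Integrable (fun z => τ.rr z ^ (-(1 / 2) : ℝ) *
      ∑ x, dirW S α V x z * dirW S α V' x z) (μHE[4] : Measure M) := by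
  have h := wip_eq (bm_smooth (smooth_rr S hτ (-(1 / 2) : ℝ))) (coe_DL S hOK α V)
    (coe_DL S hOK α V')
  simp only [rin] at h
  exact h

/-- `∫ ρ |∇^E s|²` -/
def I2 (α : S.DT.toAD.WE) (s : S.D0.toAD.WE) : ℝ :=
  wip (bm_smooth hτ.smrr) (TauxB_433.PL S hOK hτ α s) (TauxB_433.PL S hOK hτ α s)

theorem I2_eq (α : S.DT.toAD.WE) (s : S.D0.toAD.WE) :
    I2 S hOK hτ α s = ∫ z, τ.rr z * ∑ y, ‖τ.prE S (nabW S α s) (rp s) y z‖ ^ 2
      ∂(μHE[4] : Measure M) ∧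
    Integrable (fun z => τ.rr z * ∑ y, ‖τ.prE S (nabW S α s) (rp s) y z‖ ^ 2)
      (μHE[4] : Measure M) := by
  have h := wip_eq (bm_smooth hτ.smrr) (coe_PL S hOK hτ α s) (coe_PL S hOK hτ α s)
  simp only [real_inner_self_eq_norm_sq] at h
  exact h

/-- `∫ ρ ⟨B α + fE, n⟩ |s|²` -/
def I3 (α : S.DT.toAD.WE) (s : S.D0.toAD.WE) : ℝ := ⟪BN S hτ α, N2 S s⟫

theorem I3_eq (α : S.DT.toAD.WE) (s : S.D0.toAD.WE) :
    I3 S hτ α s = ∫ z, (∑ k, (τ.rr z * τ.n k z) * (cur S α k z + τ.fE k z)) * ∑ y, rp s y z ^ 2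
      ∂(μHE[4] : Measure M) ∧
    Integrable (fun z => (∑ k, (τ.rr z * τ.n k z) * (cur S α k z + τ.fE k z)) *
      ∑ y, rp s y z ^ 2) (μHE[4] : Measure M) :=
  inner_L2 (coe_BN S hτ α) (coe_N2 S s)

/-- `∫ ρ ∑ (B α + fE)_k ⟨ρ_k s, s'⟩` -/
def I5 (α : S.DT.toAD.WE) (s s' : S.D0.toAD.WE) : ℝ :=
  ∑ k, (⟪mV (bm_smooth hτ.smrr) (BL S hτ k α), RM S hOK k s s'⟫ : ℝ)

theorem I5_eq (α : S.DT.toAD.WE) (s s' : S.D0.toAD.WE) :
    I5 S hOK hτ α s s' = ∫ z, τ.rr z * ∑ k, (cur S α k z + τ.fE k z) *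
      ∑ y, ∑ y', S.rho k y y' z * rp s y z * rp s' y' z ∂(μHE[4] : Measure M) ∧
    Integrable (fun z => τ.rr z * ∑ k, (cur S α k z + τ.fE k z) *
      ∑ y, ∑ y', S.rho k y y' z * rp s y z * rp s' y' z) (μHE[4] : Measure M) := by
  have h1 : ∀ k, (⟪mV (bm_smooth hτ.smrr) (BL S hτ k α), RM S hOK k s s'⟫ : ℝ) =
      ∫ z, (τ.rr z * (cur S α k z + τ.fE k z)) *
        ∑ y, ∑ y', S.rho k y y' z * rp s y z * rp s' y' z ∂(μHE[4] : Measure M) ∧
      Integrable (fun z => (τ.rr z * (cur S α k z + τ.fE k z)) *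
        ∑ y, ∑ y', S.rho k y y' z * rp s y z * rp s' y' z) (μHE[4] : Measure M) := by
    intro k
    refine inner_L2 ?_ (coe_RM hOK (Sob4_984.emb4_Dat S.D0) k s s')
    filter_upwards [coe_mV (bm_smooth hτ.smrr) (BL S hτ k α), coe_BL S hτ k α] with z e1 e2
    rw [e1, e2]
    rfl
  have h2 : ∀ z, ∑ k, (τ.rr z * (cur S α k z + τ.fE k z)) *
        ∑ y, ∑ y', S.rho k y y' z * rp s y z * rp s' y' z =
      τ.rr z * ∑ k, (cur S α k z + τ.fE k z) *
        ∑ y, ∑ y', S.rho k y y' z * rp s y z * rp s' y' z := by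
    intro z
    rw [Finset.mul_sum]
    exact Finset.sum_congr rfl fun k _ => by rw [mul_assoc]
  constructor
  · unfold I5
    rw [Finset.sum_congr rfl fun k _ => (h1 k).1, ← integral_finsetSum _ fun k _ => (h1 k).2]
    exact integral_congr_ae (Eventually.of_forall h2)
  · exact (integrable_finsetSum _ fun k _ => (h1 k).2).congr (Eventually.of_forall h2)

/-- `∫ ρ⁻¹ |s'|²` -/
def I6 (s' : S.D0.toAD.WE) : ℝ :=
  wip (bm_smooth (smooth_rr S hτ (-1 : ℝ))) (S.D0.toAD.i1 s') (S.D0.toAD.i1 s')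

theorem I6_eq (s' : S.D0.toAD.WE) :
    I6 S hτ s' = ∫ z, (τ.rr z)⁻¹ * ∑ y, rp s' y z ^ 2 ∂(μHE[4] : Measure M) ∧
    Integrable (fun z => (τ.rr z)⁻¹ * ∑ y, rp s' y z ^ 2) (μHE[4] : Measure M) := by
  obtain ⟨h1, h2⟩ := wip_eq (bm_smooth (smooth_rr S hτ (-1 : ℝ)))
    (u := S.D0.toAD.i1 s') (v := S.D0.toAD.i1 s') (f := rp s') (g := rp s')
    (Eventually.of_forall fun _ _ => rfl) (Eventually.of_forall fun _ _ => rfl)
  have h3 : ∀ z, τ.rr z ^ (-1 : ℝ) * ∑ a, (⟪rp s' a z, rp s' a z⟫ : ℝ) =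
      (τ.rr z)⁻¹ * ∑ y, rp s' y z ^ 2 := fun z => by
    rw [Real.rpow_neg_one]
    congr 1
    exact Finset.sum_congr rfl fun y _ => by rw [rin, sq]
  exact ⟨h1.trans (integral_congr_ae (Eventually.of_forall h3)),
    h2.congr (Eventually.of_forall h3)⟩

/-! ### smooth sections -/

theorem prE_cW (a : SmS S.DT) (u : SmS S.D0) : ∀ᵐ z ∂(μHE[4] : Measure M), ∀ y,
    τ.prE S (nabW S (cW S.DT a) (cW S.D0 u)) (rp (cW S.D0 u)) y z = τ.nE S a.1 u.1 y z := by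
  filter_upwards [nabW_sm a u, rp_cW S u] with z e1 e2 y
  unfold TD.nE TD.prE
  simp only [e1, e2]

theorem cur_cW (a : SmS S.DT) : ∀ᵐ z ∂(μHE[4] : Measure M), ∀ k : Fin 3,
    cur S (cW S.DT a) k z = S.H.B a.1 k.succ z := by
  filter_upwards [curW_sm a] with z e1 k
  exact e1 k.succ

set_option maxHeartbeats 1600000 in
/-- **T1 on `W^{1,2}`** -/
theorem t1W (α : S.DT.toAD.WE) (w : S.D0.toAD.WE) :
    I4 S hOK hτ α (scW S hτ (3 / 4) (zW S hOK hτ w)) (scW S hτ (3 / 4) (zW S hOK hτ w)) =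
      I2 S hOK hτ α (zW S hOK hτ w) - I3 S hτ α (zW S hOK hτ w) := by
  have hz : Continuous fun q : S.DT.toAD.WE × S.D0.toAD.WE => zW S hOK hτ q.2 :=
    (zW S hOK hτ).continuous.comp continuous_snd
  have hV : Continuous fun q : S.DT.toAD.WE × S.D0.toAD.WE =>
      scW S hτ (3 / 4) (zW S hOK hτ q.2) := cont_cp (scW S hτ (3 / 4)).continuous hz
  have hDL : Continuous fun q : S.DT.toAD.WE × S.D0.toAD.WE =>
      DL S hOK q.1 (scW S hτ (3 / 4) (zW S hOK hτ q.2)) :=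
    cont_cp2 (f := fun a u => DL S hOK a u) (continuous_DL S hOK) continuous_fst hV
  have hPL : Continuous fun q : S.DT.toAD.WE × S.D0.toAD.WE =>
      TauxB_433.PL S hOK hτ q.1 (zW S hOK hτ q.2) :=
    cont_cp2 (f := fun a u => TauxB_433.PL S hOK hτ a u) (continuous_PL S hOK hτ)
      continuous_fst hz
  have c1 : Continuous fun q : S.DT.toAD.WE × S.D0.toAD.WE =>
      I4 S hOK hτ q.1 (scW S hτ (3 / 4) (zW S hOK hτ q.2)) (scW S hτ (3 / 4) (zW S hOK hτ q.2)) :=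
    continuous_wip _ hDL hDL
  have c2 : Continuous fun q : S.DT.toAD.WE × S.D0.toAD.WE =>
      I2 S hOK hτ q.1 (zW S hOK hτ q.2) := continuous_wip _ hPL hPL
  have b1 : Continuous fun q : S.DT.toAD.WE × S.D0.toAD.WE => BN S hτ q.1 :=
    cont_cp (continuous_BN S hτ) continuous_fst
  have b2 : Continuous fun q : S.DT.toAD.WE × S.D0.toAD.WE => N2 S (zW S hOK hτ q.2) :=
    cont_cp (f := fun w => N2 S w) (continuous_N2 S) hz
  have c3 : Continuous fun q : S.DT.toAD.WE × S.D0.toAD.WE =>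
      I3 S hτ q.1 (zW S hOK hτ q.2) := by
    unfold I3
    exact cont_in b1 b2
  refine smooth_pair S (p := fun q => I4 S hOK hτ q.1 (scW S hτ (3 / 4) (zW S hOK hτ q.2))
    (scW S hτ (3 / 4) (zW S hOK hτ q.2)) =
      I2 S hOK hτ q.1 (zW S hOK hτ q.2) - I3 S hτ q.1 (zW S hOK hτ q.2))
    (isClosed_eq c1 (c2.sub c3)) (fun a u => ?_) (α, w)
  beta_reduce
  simp only [zW_cW, scW_cW]
  set s := zS S hOK hτ u with hsd
  rw [(I4_eq S hOK hτ _ _ _).1, (I2_eq S hOK hτ _ _).1, (I3_eq S hτ _ _).1,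
    ← integral_sub (I2_eq S hOK hτ _ _).2 (I3_eq S hτ _ _).2]
  have hT := hτ.T1 a.1 s.1 a.2.1 a.2.2 s.2.1 (secE_Pz S hOK hτ u.1)
  refine Eq.trans ?_ (hT.trans ?_)
  · refine integral_congr_ae ?_
    filter_upwards [dirW_sm a (scS S hτ (3 / 4) s)] with z e1
    simp only [e1]
    congr 1
    exact Finset.sum_congr rfl fun x _ => (sq _).symm
  · refine integral_congr_ae ?_
    filter_upwards [prE_cW S (τ := τ) a s, cur_cW S a, rp_cW S s] with z e1 e2 e3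
    simp only [e1, e2, e3]
    congr 1
    have : ∑ k, τ.rr z * τ.n k z * (S.H.B a.1 k.succ z + τ.fE k z) =
        τ.rr z * ∑ k, (S.H.B a.1 k.succ z + τ.fE k z) * τ.n k z := by
      rw [Finset.mul_sum]
      exact Finset.sum_congr rfl fun k _ => by ring
    rw [this]

set_option maxHeartbeats 1600000 in
/-- **T2 on `W^{1,2}`** -/
theorem t2W (α : S.DT.toAD.WE) (w : S.D0.toAD.WE) :
    |I4 S hOK hτ α (scW S hτ (3 / 4) (zW S hOK hτ w)) (scW S hτ (3 / 4) (oW S hOK hτ w)) -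
      I5 S hOK hτ α (zW S hOK hτ w) (oW S hOK hτ w)| ≤
      (1 / 2) * I2 S hOK hτ α (zW S hOK hτ w) + C ^ 2 / 2 * I6 S hτ (oW S hOK hτ w) := by
  have hz : Continuous fun q : S.DT.toAD.WE × S.D0.toAD.WE => zW S hOK hτ q.2 :=
    (zW S hOK hτ).continuous.comp continuous_snd
  have ho : Continuous fun q : S.DT.toAD.WE × S.D0.toAD.WE => oW S hOK hτ q.2 :=
    (oW S hOK hτ).continuous.comp continuous_snd
  have hV : Continuous fun q : S.DT.toAD.WE × S.D0.toAD.WE =>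
      scW S hτ (3 / 4) (zW S hOK hτ q.2) := cont_cp (scW S hτ (3 / 4)).continuous hz
  have hV' : Continuous fun q : S.DT.toAD.WE × S.D0.toAD.WE =>
      scW S hτ (3 / 4) (oW S hOK hτ q.2) := cont_cp (scW S hτ (3 / 4)).continuous ho
  have hDL : Continuous fun q : S.DT.toAD.WE × S.D0.toAD.WE =>
      DL S hOK q.1 (scW S hτ (3 / 4) (zW S hOK hτ q.2)) :=
    cont_cp2 (f := fun a u => DL S hOK a u) (continuous_DL S hOK) continuous_fst hV
  have hDL' : Continuous fun q : S.DT.toAD.WE × S.D0.toAD.WE =>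
      DL S hOK q.1 (scW S hτ (3 / 4) (oW S hOK hτ q.2)) :=
    cont_cp2 (f := fun a u => DL S hOK a u) (continuous_DL S hOK) continuous_fst hV'
  have hPL : Continuous fun q : S.DT.toAD.WE × S.D0.toAD.WE =>
      TauxB_433.PL S hOK hτ q.1 (zW S hOK hτ q.2) :=
    cont_cp2 (f := fun a u => TauxB_433.PL S hOK hτ a u) (continuous_PL S hOK hτ)
      continuous_fst hz
  have c1 : Continuous fun q : S.DT.toAD.WE × S.D0.toAD.WE =>
      I4 S hOK hτ q.1 (scW S hτ (3 / 4) (zW S hOK hτ q.2)) (scW S hτ (3 / 4) (oW S hOK hτ q.2)) :=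
    continuous_wip _ hDL hDL'
  have c2 : Continuous fun q : S.DT.toAD.WE × S.D0.toAD.WE =>
      I2 S hOK hτ q.1 (zW S hOK hτ q.2) := continuous_wip _ hPL hPL
  have c5 : Continuous fun q : S.DT.toAD.WE × S.D0.toAD.WE =>
      I5 S hOK hτ q.1 (zW S hOK hτ q.2) (oW S hOK hτ q.2) := by
    unfold I5
    refine continuous_finsetSum _ fun k _ => ?_
    have b1 : Continuous fun q : S.DT.toAD.WE × S.D0.toAD.WE => BL S hτ k q.1 :=
      cont_cp (continuous_BL S hτ k) continuous_fst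
    have b2 : Continuous fun q : S.DT.toAD.WE × S.D0.toAD.WE =>
        mV (bm_smooth hτ.smrr) (BL S hτ k q.1) :=
      cont_cp (mV (bm_smooth hτ.smrr)).continuous b1
    have b3 : Continuous fun q : S.DT.toAD.WE × S.D0.toAD.WE =>
        RM S hOK k (zW S hOK hτ q.2) (oW S hOK hτ q.2) :=
      cont_cp2 (f := fun u w => RM S hOK k u w) (cont_RM hOK (Sob4_984.emb4_Dat S.D0) k) hz ho
    exact cont_in b2 b3
  have c6 : Continuous fun q : S.DT.toAD.WE × S.D0.toAD.WE => I6 S hτ (oW S hOK hτ q.2) :=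
    continuous_wip _ (cont_cp S.D0.toAD.i1.continuous ho) (cont_cp S.D0.toAD.i1.continuous ho)
  refine smooth_pair S (p := fun q =>
    |I4 S hOK hτ q.1 (scW S hτ (3 / 4) (zW S hOK hτ q.2)) (scW S hτ (3 / 4) (oW S hOK hτ q.2)) -
      I5 S hOK hτ q.1 (zW S hOK hτ q.2) (oW S hOK hτ q.2)| ≤
      (1 / 2) * I2 S hOK hτ q.1 (zW S hOK hτ q.2) + C ^ 2 / 2 * I6 S hτ (oW S hOK hτ q.2))
    (isClosed_le (c1.sub c5).abs ((c2.const_mul _).add (c6.const_mul _))) (fun a u => ?_) (α, w)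
  beta_reduce
  simp only [zW_cW, oW_cW, scW_cW]
  set s := zS S hOK hτ u with hsd
  set s' := oS S hOK hτ u with hsd'
  have hT := hτ.T2 a.1 s.1 s'.1 a.2.1 a.2.2 s.2.1 s'.2.1 (secE_Pz S hOK hτ u.1)
    (secE'_Po S hOK hτ u.1)
  have hL : I4 S hOK hτ (cW S.DT a) (cW S.D0 (scS S hτ (3 / 4) s)) (cW S.D0 (scS S hτ (3 / 4) s')) -
      I5 S hOK hτ (cW S.DT a) (cW S.D0 s) (cW S.D0 s') =
      ∫ z, (τ.rr z ^ (-(1 / 2) : ℝ) *
        (∑ x, (S.P.A (τ.sc (3 / 4) s.1) + S.cm a.1 (τ.sc (3 / 4) s.1)) x z *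
          (S.P.A (τ.sc (3 / 4) s'.1) + S.cm a.1 (τ.sc (3 / 4) s'.1)) x z) -
        τ.rr z * ∑ k, (S.H.B a.1 k.succ z + τ.fE k z) *
          ∑ y, ∑ y', S.rho k y y' z * s.1 y z * s'.1 y' z) ∂(μHE[4] : Measure M) := by
    rw [(I4_eq S hOK hτ _ _ _).1, (I5_eq S hOK hτ _ _ _).1,
      ← integral_sub (I4_eq S hOK hτ _ _ _).2 (I5_eq S hOK hτ _ _ _).2]
    refine integral_congr_ae ?_
    filter_upwards [dirW_sm a (scS S hτ (3 / 4) s), dirW_sm a (scS S hτ (3 / 4) s'),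
      cur_cW S a, rp_cW S s, rp_cW S s'] with z e1 e2 e3 e4 e5
    simp only [e1, e2, e3, e4, e5]
    rfl
  rw [hL]
  refine hT.trans ?_
  have hR : (1 / 2) * I2 S hOK hτ (cW S.DT a) (cW S.D0 s) + C ^ 2 / 2 * I6 S hτ (cW S.D0 s') =
      ∫ z, ((1 / 2) * (τ.rr z * ∑ y, ‖τ.prE S (nabW S (cW S.DT a) (cW S.D0 s))
        (rp (cW S.D0 s)) y z‖ ^ 2) + C ^ 2 / 2 * ((τ.rr z)⁻¹ * ∑ y, rp (cW S.D0 s') y z ^ 2))
        ∂(μHE[4] : Measure M) := by
    rw [(I2_eq S hOK hτ _ _).1, (I6_eq S hτ _).1, integral_add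
      ((I2_eq S hOK hτ _ _).2.const_mul _) ((I6_eq S hτ _).2.const_mul _), integral_const_mul,
      integral_const_mul]
  have hRi : Integrable (fun z => (1 / 2) * (τ.rr z * ∑ y, ‖τ.prE S (nabW S (cW S.DT a)
      (cW S.D0 s)) (rp (cW S.D0 s)) y z‖ ^ 2) +
      C ^ 2 / 2 * ((τ.rr z)⁻¹ * ∑ y, rp (cW S.D0 s') y z ^ 2)) (μHE[4] : Measure M) :=
    ((I2_eq S hOK hτ _ _).2.const_mul _).add ((I6_eq S hτ _).2.const_mul _)
  rw [hR]
  have h0 : 0 ≤ ∫ z, √(∑ y, ‖τ.nE S a.1 s.1 y z‖ ^ 2) * √(∑ y, s'.1 y z ^ 2)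
      ∂(μHE[4] : Measure M) := integral_nonneg fun z => by positivity
  refine (mul_le_mul_of_nonneg_right (le_abs_self C) h0).trans ?_
  rw [← integral_const_mul]
  refine integral_mono_of_nonneg (Eventually.of_forall fun z => by positivity) hRi ?_
  filter_upwards [prE_cW S (τ := τ) a s, rp_cW S s'] with z e1 e2
  simp only [e1, e2]
  set G : ℝ := ∑ y, ‖τ.nE S a.1 s.1 y z‖ ^ 2 with hG
  set N : ℝ := ∑ y, s'.1 y z ^ 2 with hN
  have hG0 : 0 ≤ G := Finset.sum_nonneg fun _ _ => sq_nonneg _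
  have hN0 : 0 ≤ N := Finset.sum_nonneg fun _ _ => sq_nonneg _
  have hr := hτ.pos z
  have k1 : (√(τ.rr z) * √G - |C| * √N / √(τ.rr z)) ^ 2 =
      τ.rr z * G - 2 * (|C| * (√G * √N)) + C ^ 2 * ((τ.rr z)⁻¹ * N) := by
    have r0 : √(τ.rr z) ≠ 0 := (Real.sqrt_pos.2 hr).ne'
    have r1 : √(τ.rr z) ^ 2 = τ.rr z := Real.sq_sqrt hr.le
    have r2 : √G ^ 2 = G := Real.sq_sqrt hG0
    have r3 : √N ^ 2 = N := Real.sq_sqrt hN0
    have r4 : |C| ^ 2 = C ^ 2 := sq_abs C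
    have e : (√(τ.rr z) * √G - |C| * √N / √(τ.rr z)) ^ 2 =
        √(τ.rr z) ^ 2 * √G ^ 2 - 2 * (|C| * (√G * √N)) * (√(τ.rr z) / √(τ.rr z)) +
          |C| ^ 2 * (√N ^ 2 / √(τ.rr z) ^ 2) := by
      field_simp
      ring
    rw [e, r1, r2, r3, r4, div_self r0, mul_one, div_eq_inv_mul]
  have k2 := sq_nonneg (√(τ.rr z) * √G - |C| * √N / √(τ.rr z))
  rw [k1] at k2
  linarith

end mfd

end Crest.Agent.R235.TauxC_433
end
end

-- ▼ part R235/TauxE_433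

/-!
# Row 235, SW-TAUX, part E (helper433): the Taubes estimate
-/

set_option autoImplicit false
set_option linter.unusedSectionVars false
set_option linter.unusedVariables false
set_option maxSynthPendingDepth 3
open scoped ContDiff ENNReal NNReal Topology Manifold Bundle RealInnerProductSpace
open MeasureTheory Set Filter Metric Bundle

universe v

noncomputable section
namespace Crest.Agent.R235.TauxE_433

open Crest.Agent.R247.Dir593 Crest.Agent.R247.Ms322 Crest.Agent.R247.Frd657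
open Crest.Agent.R249.Tv57 Crest.Agent.R235.Dens_433 Crest.Agent.R235.Fs4_546
open Crest.Agent.R235.Dns_433 Crest.Agent.R235.SWDefs_53 Crest.Agent.R235.W12_109
open Crest.Agent.R235.SupbA_433 Crest.Agent.R235.Cpt_755 Crest.Agent.R235.L4_433
open Crest.Agent.R235.CptC_755 Crest.Agent.R235.WtzW_86 Crest.Agent.R235.Tauf_433
open Crest.Agent.R235.TauxB_433 Crest.Agent.R235.TauxA_433 Crest.Agent.R235.TauxC_433

theorem int6 {X : Type*} [MeasurableSpace X] {μ : Measure X} {f1 f2 f3 f4 f5 f6 : X → ℝ}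
    (h1 : Integrable f1 μ) (h2 : Integrable f2 μ) (h3 : Integrable f3 μ) (h4 : Integrable f4 μ)
    (h5 : Integrable f5 μ) (h6 : Integrable f6 μ) (c1 c4 c5 c6 : ℝ) :
    Integrable (fun z => c1 * f1 z - f2 z + f3 z - c4 * f4 z + c5 * f5 z + c6 * f6 z) μ ∧
    ∫ z, (c1 * f1 z - f2 z + f3 z - c4 * f4 z + c5 * f5 z + c6 * f6 z) ∂μ =
      c1 * ∫ z, f1 z ∂μ - ∫ z, f2 z ∂μ + ∫ z, f3 z ∂μ - c4 * ∫ z, f4 z ∂μ + c5 * ∫ z, f5 z ∂μ +
        c6 * ∫ z, f6 z ∂μ := by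
  have i2 : Integrable (fun z => c1 * f1 z - f2 z) μ := (h1.const_mul c1).sub h2
  have i3 : Integrable (fun z => c1 * f1 z - f2 z + f3 z) μ := i2.add h3
  have i4 : Integrable (fun z => c1 * f1 z - f2 z + f3 z - c4 * f4 z) μ :=
    i3.sub (h4.const_mul c4)
  have i5 : Integrable (fun z => c1 * f1 z - f2 z + f3 z - c4 * f4 z + c5 * f5 z) μ :=
    i4.add (h5.const_mul c5)
  refine ⟨i5.add (h6.const_mul c6), ?_⟩
  rw [integral_add i5 (h6.const_mul c6), integral_add i4 (h5.const_mul c5),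
    integral_sub i3 (h4.const_mul c4), integral_add i2 h3, integral_sub (h1.const_mul c1) h2,
    integral_const_mul, integral_const_mul, integral_const_mul, integral_const_mul]

section mfd
variable {M : Type v} [MetricSpace M] [CompactSpace M] [ConnectedSpace M]
  [ChartedSpace (EuclideanSpace ℝ (Fin 4)) M] [IsManifold (𝓡 4) ∞ M]
  [RiemannianBundle (fun p : M => TangentSpace (𝓡 4) p)]
  [IsContMDiffRiemannianBundle (𝓡 4) ∞ (EuclideanSpace ℝ (Fin 4))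
    (fun p : M => TangentSpace (𝓡 4) p)]
  [IsRiemannianManifold (𝓡 4) M] [MeasurableSpace M] [BorelSpace M]
  [SecondCountableTopology M] [Nonempty M] [IsFiniteMeasureOnCompacts (μHE[4] : Measure M)]
  {κ0 κ1 κT : Type} [Fintype κ0] [Fintype κ1] [Fintype κT] (S : SWS M κ0 κ1 κT)

local notation "𝔼" => EuclideanSpace ℝ (Fin 4)

variable {τ : TD M κT} {C : ℝ} (hOK : S.OK) (hτ : τ.OK S C)

/-- the Dirac operator is additive in the spinor -/
theorem dirW_add (α : S.DT.toAD.WE) (V V' : S.D0.toAD.WE) : ∀ᵐ z ∂(μHE[4] : Measure M), ∀ x,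
    dirW S α (V + V') x z = dirW S α V x z + dirW S α V' x z := by
  have h1 : ∀ᵐ z ∂(μHE[4] : Measure M), ∀ x,
      (((Ah S.P (V + V') : S.D1.toAD.HE) : HH (μHE[4] : Measure M) κ1) x : M → ℝ) z =
      (((Ah S.P V : S.D1.toAD.HE) : HH (μHE[4] : Measure M) κ1) x : M → ℝ) z +
      (((Ah S.P V' : S.D1.toAD.HE) : HH (μHE[4] : Measure M) κ1) x : M → ℝ) z := by
    rw [map_add]
    exact ae_all_iff.2 fun x => Lp.coeFn_add _ _
  have h2 : ∀ᵐ z ∂(μHE[4] : Measure M), ∀ y, rp (V + V') y z = rp V y z + rp V' y z := by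
    unfold rp
    rw [map_add]
    exact ae_all_iff.2 fun x => Lp.coeFn_add _ _
  filter_upwards [h1, h2] with z e1 e2 x
  unfold dirW
  rw [e1 x]
  have e3 : S.cm (rp α) (rp (V + V')) x z = S.cm (rp α) (rp V) x z + S.cm (rp α) (rp V') x z := by
    unfold SWS.cm
    simp only [e2, ← Finset.sum_add_distrib]
    exact Finset.sum_congr rfl fun A _ => Finset.sum_congr rfl fun y _ => by ring
  rw [e3]
  ring

/-- the two parts -/
theorem z_add_o (w : S.D0.toAD.WE) : ∀ᵐ z ∂(μHE[4] : Measure M), ∀ y,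
    rp (zW S hOK hτ w) y z + rp (oW S hOK hτ w) y z = rp w y z := by
  filter_upwards [coe_zW S hOK hτ w, coe_oW S hOK hτ w, rp_p S w] with z e1 e2 e3 y
  rw [e1 y, e2 y, ← e3 y, ← Finset.sum_add_distrib]
  refine Finset.sum_congr rfl fun b _ => ?_
  unfold Pz Po
  ring

theorem R_zW (w : S.D0.toAD.WE) : ∀ᵐ z ∂(μHE[4] : Measure M), ∀ y,
    ∑ k, ∑ y', τ.n k z * S.rho k y y' z * rp (zW S hOK hτ w) y' z =
      -1 * rp (zW S hOK hτ w) y z := by
  filter_upwards [coe_zW S hOK hτ w] with z e1 y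
  have h := (secE_Pz S hOK hτ (rp w)).2 y z
  simp only [e1]
  rw [neg_one_mul]
  exact h

theorem R_oW (w : S.D0.toAD.WE) : ∀ᵐ z ∂(μHE[4] : Measure M), ∀ y,
    ∑ k, ∑ y', τ.n k z * S.rho k y y' z * rp (oW S hOK hτ w) y' z =
      1 * rp (oW S hOK hτ w) y z := by
  filter_upwards [coe_oW S hOK hτ w] with z e1 y
  have h := (secE'_Po S hOK hτ (rp w)).2 y z
  simp only [e1]
  rw [one_mul]
  exact h

set_option maxHeartbeats 1600000 in
/-- **the Taubes estimate** -/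
theorem core {r : ℝ} (hr : 0 < r) (hbig : ∀ z, C ^ 2 ≤ r * τ.rr z ^ 3)
    (htop : ∫ z, ∑ k, τ.rr z * τ.n k z * τ.fE k z ∂(μHE[4] : Measure M) ≤ 0)
    {β : S.DT.toAD.WE} {U : S.D0.toAD.WE} {u : κ0 → M → ℝ}
    (hU : ∀ᵐ z ∂(μHE[4] : Measure M), ∀ y, rp U y z = u y z)
    (hcur : ∀ᵐ z ∂(μHE[4] : Measure M), ∀ k : Fin 3, cur S β k z + τ.fE k z =
      τ.rr z ^ (-(1 / 2) : ℝ) * ((1 / 2) * S.rq k u z) + r * (τ.rr z * τ.n k z))
    (hdir : ∀ᵐ z ∂(μHE[4] : Measure M), ∀ x, dirW S β U x z = 0)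
    (h6i : Integrable (fun z => ∑ k, τ.rr z * τ.n k z * cur S β k z) (μHE[4] : Measure M))
    (h6 : ∫ z, ∑ k, τ.rr z * τ.n k z * cur S β k z ∂(μHE[4] : Measure M) = 0) :
    ∀ᵐ z ∂(μHE[4] : Measure M),
      (∀ y, rp (oW S hOK hτ (scW S hτ (-(3 / 4)) U)) y z = 0) ∧
      (∀ y, τ.prE S (nabW S β (zW S hOK hτ (scW S hτ (-(3 / 4)) U)))
        (rp (zW S hOK hτ (scW S hτ (-(3 / 4)) U))) y z = 0) ∧
      ∑ y, rp (zW S hOK hτ (scW S hτ (-(3 / 4)) U)) y z ^ 2 = 2 * r := by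
  set w := scW S hτ (-(3 / 4)) U with hw
  set s := zW S hOK hτ w with hs
  set s' := oW S hOK hτ w with hs'
  set V := scW S hτ (3 / 4) s with hV
  set V' := scW S hτ (3 / 4) s' with hV'
  -- `u = ρ^{3/4} (s + s')`
  have hus : ∀ᵐ z ∂(μHE[4] : Measure M), ∀ y,
      u y z = τ.rr z ^ (3 / 4 : ℝ) * (rp s y z + rp s' y z) := by
    filter_upwards [hU, coe_scW S hτ (-(3 / 4)) U, z_add_o S hOK hτ w] with z e1 e2 e3 y
    rw [e3 y, e2 y, ← e1 y, ← mul_assoc, ← Real.rpow_add (hτ.pos z)]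
    norm_num
  have hVV : V + V' = U := by
    refine i1_injective S.D0.toAD ?_
    ext y
    have h1 : ∀ᵐ z ∂(μHE[4] : Measure M), ∀ y, rp (V + V') y z = rp V y z + rp V' y z := by
      unfold rp
      rw [map_add]
      exact ae_all_iff.2 fun x => Lp.coeFn_add _ _
    filter_upwards [h1, coe_scW S hτ (3 / 4) s, coe_scW S hτ (3 / 4) s', hus, hU]
      with z e1 e2 e3 e4 e5
    have h2 : rp (V + V') y z = rp U y z := by
      rw [e1 y, e2 y, e3 y, e5 y, e4 y]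
      ring
    exact h2
  -- the Dirac equation
  have hdd : ∀ᵐ z ∂(μHE[4] : Measure M), ∀ x, dirW S β V' x z = - dirW S β V x z := by
    filter_upwards [dirW_add S β V V', hdir] with z e1 e2 x
    have e3 := e1 x
    rw [hVV, e2 x] at e3
    linarith
  -- pointwise algebra
  have halg : ∀ᵐ z ∂(μHE[4] : Measure M),
      (∑ k, (cur S β k z + τ.fE k z) * τ.n k z =
        τ.rr z * (r + ((∑ y, rp s' y z ^ 2) - ∑ y, rp s y z ^ 2) / 2)) ∧
      ∑ k, (cur S β k z + τ.fE k z) * bf (fun y y' => S.rho k y y' z) (fun y => rp s y z)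
        (fun y => rp s' y z) = τ.rr z * ((∑ y, rp s y z ^ 2) * ∑ y, rp s' y z ^ 2) := by
    filter_upwards [hus, hcur, rp_p S s, rp_p S s', R_zW S hOK hτ w, R_oW S hOK hτ w]
      with z e1 e2 e3 e4 e5 e6
    exact alg5 (p := fun y y' => S.D0.p y y' z) (rho := fun k y y' => S.rho k y y' z)
      (n := fun k => τ.n k z) (fun k y y' => hOK.symrho k y y' z) (hτ.norm z)
      (fun v hv => hOK.fierz z v hv) (s := fun y => rp s y z) (s' := fun y => rp s' y z)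
      e3 e4 e5 e6 (hτ.pos z) (u := fun y => u y z) e1 (fun k => e2 k)
  -- the integrals
  obtain ⟨a1, b1⟩ := I4_eq S hOK hτ β V V
  obtain ⟨a1', b1'⟩ := I4_eq S hOK hτ β V V'
  obtain ⟨a2, b2⟩ := I2_eq S hOK hτ β s
  obtain ⟨a3, b3⟩ := I3_eq S hτ β s
  obtain ⟨a5, b5⟩ := I5_eq S hOK hτ β s s'
  obtain ⟨a6, b6⟩ := I6_eq S hτ s'
  have t1 := t1W S hOK hτ β w
  have t2 := t2W S hOK hτ β w
  rw [← hs, ← hV] at t1
  rw [← hs, ← hs', ← hV, ← hV'] at t2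
  have hneg : I4 S hOK hτ β V V' = - I4 S hOK hτ β V V := by
    rw [a1', a1, ← integral_neg]
    refine integral_congr_ae ?_
    filter_upwards [hdd] with z e1
    simp only [e1, mul_neg, Finset.sum_neg_distrib]
  have hfEi : Integrable (fun z => ∑ k, τ.rr z * τ.n k z * τ.fE k z) (μHE[4] : Measure M) := by
    have hc : Continuous fun z => ∑ k, τ.rr z * τ.n k z * τ.fE k z :=
      continuous_finsetSum _ fun k _ => (hτ.smrr.continuous.mul (hτ.smn k).continuous).mul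
        (hτ.smfE k).continuous
    exact hc.integrable_of_hasCompactSupport (HasCompactSupport.of_compactSpace _)
  have hle : I4 S hOK hτ β V V + I5 S hOK hτ β s s' ≤
      (1 / 2) * I2 S hOK hτ β s + C ^ 2 / 2 * I6 S hτ s' := by
    have h1 := (abs_le.1 t2).1
    rw [hneg] at h1
    linarith
  -- the function `Ψ`
  set Ψ : M → ℝ := fun z =>
    (1 / 2) * (τ.rr z * ∑ y, ‖τ.prE S (nabW S β s) (rp s) y z‖ ^ 2) -
    (∑ k, (τ.rr z * τ.n k z) * (cur S β k z + τ.fE k z)) * (∑ y, rp s y z ^ 2) +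
    τ.rr z * (∑ k, (cur S β k z + τ.fE k z) *
      ∑ y, ∑ y', S.rho k y y' z * rp s y z * rp s' y' z) -
    C ^ 2 / 2 * ((τ.rr z)⁻¹ * ∑ y, rp s' y z ^ 2) +
    2 * r * (∑ k, τ.rr z * τ.n k z * cur S β k z) +
    2 * r * (∑ k, τ.rr z * τ.n k z * τ.fE k z) with hΨ
  obtain ⟨hΨi0, hΨint0⟩ := int6 b2 b3 b5 b6 h6i hfEi (1 / 2) (C ^ 2 / 2) (2 * r) (2 * r)
  have hΨi : Integrable Ψ (μHE[4] : Measure M) := hΨi0
  have hΨint : ∫ z, Ψ z ∂(μHE[4] : Measure M) = (1 / 2) * I2 S hOK hτ β s - I3 S hτ β s +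
      I5 S hOK hτ β s s' - C ^ 2 / 2 * I6 S hτ s' + 2 * r * 0 +
      2 * r * ∫ z, ∑ k, τ.rr z * τ.n k z * τ.fE k z ∂(μHE[4] : Measure M) := by
    rw [a2, a3, a5, a6, ← h6]
    exact hΨint0
  have hΨle : ∫ z, Ψ z ∂(μHE[4] : Measure M) ≤ 0 := by
    rw [hΨint]
    have h2r : 2 * r * ∫ z, ∑ k, τ.rr z * τ.n k z * τ.fE k z ∂(μHE[4] : Measure M) ≤ 0 :=
      mul_nonpos_of_nonneg_of_nonpos (by linarith) htop
    linarith
  have hpt : ∀ᵐ z ∂(μHE[4] : Measure M),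
      (1 / 2) * (τ.rr z * ∑ y, ‖τ.prE S (nabW S β s) (rp s) y z‖ ^ 2) +
      (1 / 2) * (τ.rr z ^ 2 * ((2 * r - ∑ y, rp s y z ^ 2) ^ 2 +
        (∑ y, rp s' y z ^ 2) * (r + ∑ y, rp s y z ^ 2))) ≤ Ψ z := by
    filter_upwards [halg] with z hz
    obtain ⟨z1, z2⟩ := hz
    have h1 := ptineq (C := C) (rr := τ.rr z) (r := r)
      (G := ∑ y, ‖τ.prE S (nabW S β s) (rp s) y z‖ ^ 2) (N0 := ∑ y, rp s y z ^ 2)
      (N1 := ∑ y, rp s' y z ^ 2) (hτ.pos z) (hbig z) (Finset.sum_nonneg fun _ _ => sq_nonneg _)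
    have e1 : ∑ k, (τ.rr z * τ.n k z) * (cur S β k z + τ.fE k z) =
        τ.rr z * (τ.rr z * (r + ((∑ y, rp s' y z ^ 2) - ∑ y, rp s y z ^ 2) / 2)) := by
      rw [← z1, Finset.mul_sum]
      exact Finset.sum_congr rfl fun k _ => by ring
    have e2 : ∑ k, (cur S β k z + τ.fE k z) *
        ∑ y, ∑ y', S.rho k y y' z * rp s y z * rp s' y' z =
        τ.rr z * ((∑ y, rp s y z ^ 2) * ∑ y, rp s' y z ^ 2) := z2
    have e3 : (∑ k, τ.rr z * τ.n k z * cur S β k z) + (∑ k, τ.rr z * τ.n k z * τ.fE k z) =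
        τ.rr z * (τ.rr z * (r + ((∑ y, rp s' y z ^ 2) - ∑ y, rp s y z ^ 2) / 2)) := by
      rw [← e1, ← Finset.sum_add_distrib]
      exact Finset.sum_congr rfl fun k _ => by ring
    have e4 : Ψ z = τ.rr z * (∑ y, ‖τ.prE S (nabW S β s) (rp s) y z‖ ^ 2) -
        τ.rr z * (τ.rr z * (r + ((∑ y, rp s' y z ^ 2) - ∑ y, rp s y z ^ 2) / 2)) *
          (∑ y, rp s y z ^ 2) +
        τ.rr z * (τ.rr z * ((∑ y, rp s y z ^ 2) * ∑ y, rp s' y z ^ 2)) -
        (1 / 2) * (τ.rr z * ∑ y, ‖τ.prE S (nabW S β s) (rp s) y z‖ ^ 2) -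
        C ^ 2 / 2 * ((τ.rr z)⁻¹ * ∑ y, rp s' y z ^ 2) +
        2 * r * (τ.rr z * (τ.rr z * (r + ((∑ y, rp s' y z ^ 2) - ∑ y, rp s y z ^ 2) / 2))) := by
      rw [← e3]
      simp only [hΨ]
      rw [e1, e2]
      rw [← e3]
      ring
    rw [e4]
    exact h1
  have hnn : ∀ᵐ z ∂(μHE[4] : Measure M), 0 ≤ Ψ z := by
    filter_upwards [hpt] with z hz
    refine le_trans ?_ hz
    have := hτ.pos z
    have g1 : 0 ≤ ∑ y, ‖τ.prE S (nabW S β s) (rp s) y z‖ ^ 2 :=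
      Finset.sum_nonneg fun _ _ => sq_nonneg _
    have g2 : 0 ≤ ∑ y, rp s y z ^ 2 := Finset.sum_nonneg fun _ _ => sq_nonneg _
    have g3 : 0 ≤ ∑ y, rp s' y z ^ 2 := Finset.sum_nonneg fun _ _ => sq_nonneg _
    positivity
  have hzero : Ψ =ᵐ[(μHE[4] : Measure M)] 0 :=
    (integral_eq_zero_iff_of_nonneg_ae hnn hΨi).1
      (le_antisymm hΨle (integral_nonneg_of_ae hnn))
  filter_upwards [hpt, hzero] with z e1 e2
  rw [e2] at e1
  have hp := hτ.pos z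
  set G : ℝ := ∑ y, ‖τ.prE S (nabW S β s) (rp s) y z‖ ^ 2 with hG
  set N0 : ℝ := ∑ y, rp s y z ^ 2 with hN0
  set N1 : ℝ := ∑ y, rp s' y z ^ 2 with hN1
  have g1 : 0 ≤ G := Finset.sum_nonneg fun _ _ => sq_nonneg _
  have g2 : 0 ≤ N0 := Finset.sum_nonneg fun _ _ => sq_nonneg _
  have g3 : 0 ≤ N1 := Finset.sum_nonneg fun _ _ => sq_nonneg _
  have k1 : 0 ≤ τ.rr z * G := by positivity
  have k2 : 0 ≤ τ.rr z ^ 2 * (2 * r - N0) ^ 2 := by positivity
  have k3 : 0 ≤ τ.rr z ^ 2 * (N1 * (r + N0)) := by positivity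
  have e1' : (1 / 2) * (τ.rr z * G) + (1 / 2) * (τ.rr z ^ 2 * (2 * r - N0) ^ 2) +
      (1 / 2) * (τ.rr z ^ 2 * (N1 * (r + N0))) ≤ 0 := by
    have : (0 : M → ℝ) z = 0 := rfl
    rw [this] at e1
    linarith [e1, mul_add (τ.rr z ^ 2) ((2 * r - N0) ^ 2) (N1 * (r + N0))]
  have m1 : G = 0 := by
    have : τ.rr z * G = 0 := by linarith
    rcases mul_eq_zero.1 this with h | h
    · exact absurd h hp.ne'
    · exact h
  have m2 : N0 = 2 * r := by
    have h1 : τ.rr z ^ 2 * (2 * r - N0) ^ 2 = 0 := by linarith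
    rcases mul_eq_zero.1 h1 with h | h
    · exact absurd h (by positivity)
    · have := pow_eq_zero_iff (two_ne_zero) |>.1 h
      linarith
  have m3 : N1 = 0 := by
    have h1 : τ.rr z ^ 2 * (N1 * (r + N0)) = 0 := by linarith
    rcases mul_eq_zero.1 h1 with h | h
    · exact absurd h (by positivity)
    · rcases mul_eq_zero.1 h with h | h
      · exact h
      · exact absurd h (by positivity)
  refine ⟨fun y => ?_, fun y => ?_, m2⟩
  · have := (Finset.sum_eq_zero_iff_of_nonneg fun y _ => sq_nonneg (rp s' y z)).1 m3 y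
      (Finset.mem_univ y)
    exact pow_eq_zero_iff (two_ne_zero) |>.1 this
  · have := (Finset.sum_eq_zero_iff_of_nonneg fun y _ =>
      sq_nonneg ‖τ.prE S (nabW S β s) (rp s) y z‖).1 m1 y (Finset.mem_univ y)
    exact norm_eq_zero.1 (pow_eq_zero_iff (two_ne_zero) |>.1 this)

end mfd

end Crest.Agent.R235.TauxE_433
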