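import Crest.Agent.R235.NWHol_952
import Crest.Agent.R281.Mc3_673
import Crest.Agent.R281.Mc6_673

-- ▼ part R235/TorOm_384
section

/-!
# Row 235 (S0364), TOR / FIB-B1 (helper384): Nemytskii operators with a base map

`Om : Hol a X E → Hol a X F`, `Om u = f ∘ (z0 + u)`, `f` smooth with all derivatives bounded, `z0` a
Lipschitz map (not bounded): `Om` is smooth.
-/

set_option autoImplicit false

open Set Filter Metric Topology
open scoped ContDiff

universe u v

namespace Crest.Agent.R235.TorOm_384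

open Crest.Agent.R235.NWDefs_334 Crest.Agent.R235.NWHol_952

noncomputable section

/-- smooth with bounded derivatives of all orders -/
structure BS {E F : Type*} [NormedAddCommGroup E] [NormedSpace ℝ E] [NormedAddCommGroup F]
    [NormedSpace ℝ F] (f : E → F) : Prop where
  sm : ContDiff ℝ ∞ f
  bd : ∀ n : ℕ, ∃ C : ℝ, ∀ x, ‖iteratedFDeriv ℝ n f x‖ ≤ C

section basic

variable {E F : Type*} [NormedAddCommGroup E] [NormedSpace ℝ E] [NormedAddCommGroup F]
  [NormedSpace ℝ F] {f : E → F}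

theorem BS.fderiv (hf : BS f) : BS (_root_.fderiv ℝ f) where
  sm := hf.sm.fderiv_right (by simp)
  bd n := by
    obtain ⟨C, hC⟩ := hf.bd (n + 1)
    exact ⟨C, fun x => by rw [norm_iteratedFDeriv_fderiv]; exact hC x⟩

theorem BS.bd0 (hf : BS f) : ∃ C : ℝ, 0 ≤ C ∧ ∀ x, ‖f x‖ ≤ C := by
  obtain ⟨C, hC⟩ := hf.bd 0
  refine ⟨C, (norm_nonneg _).trans (hC 0), fun x => ?_⟩
  have := hC x
  rwa [norm_iteratedFDeriv_zero] at this

theorem BS.diff (hf : BS f) : Differentiable ℝ f := hf.sm.differentiable (by simp)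

theorem BS.bd1 (hf : BS f) : ∃ C : ℝ, 0 ≤ C ∧ ∀ x, ‖_root_.fderiv ℝ f x‖ ≤ C := hf.fderiv.bd0

theorem BS.lip (hf : BS f) : ∃ C : ℝ, 0 ≤ C ∧ ∀ x y, ‖f x - f y‖ ≤ C * ‖x - y‖ := by
  obtain ⟨C, hC0, hC⟩ := hf.bd1
  exact ⟨C, hC0, fun x y => convex_univ.norm_image_sub_le_of_norm_fderiv_le (𝕜 := ℝ)
    (fun z _ => hf.diff z) (fun z _ => hC z) (mem_univ y) (mem_univ x)⟩

/-- second order remainder -/
def Q (f : E → F) (z h : E) : F := f (z + h) - f z - _root_.fderiv ℝ f z h

theorem hasFDerivAt_Q2 (hf : BS f) (z h : E) :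
    HasFDerivAt (fun h => Q f z h) (_root_.fderiv ℝ f (z + h) - _root_.fderiv ℝ f z) h := by
  have h1 : HasFDerivAt (fun h => f (z + h)) (_root_.fderiv ℝ f (z + h)) h := by
    have h2 := HasFDerivAt.comp (g := f) (f := fun h => z + h) h (hf.diff (z + h)).hasFDerivAt
      ((hasFDerivAt_id h).const_add z)
    exact h2.congr_fderiv (ContinuousLinearMap.comp_id _)
  exact (h1.sub_const _).sub (_root_.fderiv ℝ f z).hasFDerivAt

theorem hasFDerivAt_Q1 (hf : BS f) (z h : E) :
    HasFDerivAt (fun z => Q f z h) (Q (_root_.fderiv ℝ f) z h) z := by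
  have h1 : HasFDerivAt (fun z => f (z + h)) (_root_.fderiv ℝ f (z + h)) z := by
    have h2 := HasFDerivAt.comp (g := f) (f := fun z => z + h) z (hf.diff (z + h)).hasFDerivAt
      ((hasFDerivAt_id z).add_const h)
    exact h2.congr_fderiv (ContinuousLinearMap.comp_id _)
  have h3 := (hf.fderiv.diff z).hasFDerivAt.clm_apply (hasFDerivAt_const h z)
  have h4 := (h1.sub (hf.diff z).hasFDerivAt).sub h3
  refine h4.congr_fderiv ?_
  ext v
  have hs : _root_.fderiv ℝ (_root_.fderiv ℝ f) z v h = _root_.fderiv ℝ (_root_.fderiv ℝ f) z h v :=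
    (hf.sm.contDiffAt (x := z)).isSymmSndFDerivAt (by
      rw [minSmoothness_of_isRCLikeNormedField]; norm_cast) _ _
  simp only [Q, sub_apply, add_apply,
    ContinuousLinearMap.comp_apply, ContinuousLinearMap.flip_apply,
    zero_apply, map_zero, zero_add, hs]

theorem Q_zero (f : E → F) (z : E) : Q f z 0 = 0 := by simp [Q]

theorem Q_bd (hf : BS f) : ∃ C : ℝ, 0 ≤ C ∧ ∀ z h, ‖Q f z h‖ ≤ C * ‖h‖ ^ 2 := by
  obtain ⟨C, hC0, hC⟩ := hf.fderiv.lip
  refine ⟨C, hC0, fun z h => ?_⟩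
  have h1 : ‖Q f z h - Q f z 0‖ ≤ C * ‖h‖ * ‖h - 0‖ := by
    refine (convex_closedBall (0 : E) ‖h‖).norm_image_sub_le_of_norm_hasFDerivWithin_le
      (f := fun h => Q f z h) (f' := fun h => _root_.fderiv ℝ f (z + h) - _root_.fderiv ℝ f z)
      (fun k _ => (hasFDerivAt_Q2 hf z k).hasFDerivWithinAt) (fun k hk => ?_)
      (mem_closedBall_self (norm_nonneg _)) (by simp)
    refine (hC _ _).trans ?_
    rw [add_sub_cancel_left]
    exact mul_le_mul_of_nonneg_left (by simpa using hk) hC0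
  rw [Q_zero, sub_zero, sub_zero] at h1
  calc ‖Q f z h‖ ≤ C * ‖h‖ * ‖h‖ := h1
    _ = C * ‖h‖ ^ 2 := by ring

theorem Q_lip (hf : BS f) : ∃ C : ℝ, 0 ≤ C ∧ ∀ (z z' h h' : E) (H : ℝ), ‖h‖ ≤ H → ‖h'‖ ≤ H →
    ‖Q f z h - Q f z' h'‖ ≤ C * H ^ 2 * ‖z - z'‖ + C * H * ‖h - h'‖ := by
  obtain ⟨C, hC0, hC⟩ := hf.fderiv.lip
  obtain ⟨D, hD0, hD⟩ := Q_bd hf.fderiv
  refine ⟨max C D, le_max_of_le_left hC0, fun z z' h h' H hh hh' => ?_⟩
  have hH : 0 ≤ H := (norm_nonneg _).trans hh
  have h1 : ‖Q f z h - Q f z' h‖ ≤ D * H ^ 2 * ‖z - z'‖ := by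
    refine convex_univ.norm_image_sub_le_of_norm_hasFDerivWithin_le
      (f := fun z => Q f z h) (f' := fun z => Q (_root_.fderiv ℝ f) z h)
      (fun k _ => (hasFDerivAt_Q1 hf k h).hasFDerivWithinAt) (fun k _ => ?_)
      (mem_univ _) (mem_univ _)
    refine (hD _ _).trans (mul_le_mul_of_nonneg_left ?_ hD0)
    exact pow_le_pow_left₀ (norm_nonneg _) hh 2
  have h2 : ‖Q f z' h - Q f z' h'‖ ≤ C * H * ‖h - h'‖ := by
    refine (convex_closedBall (0 : E) H).norm_image_sub_le_of_norm_hasFDerivWithin_le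
      (f := fun h => Q f z' h) (f' := fun h => _root_.fderiv ℝ f (z' + h) - _root_.fderiv ℝ f z')
      (fun k _ => (hasFDerivAt_Q2 hf z' k).hasFDerivWithinAt) (fun k hk => ?_)
      (by simpa using hh') (by simpa using hh)
    refine (hC _ _).trans ?_
    rw [add_sub_cancel_left]
    exact mul_le_mul_of_nonneg_left (by simpa using hk) hC0
  have e : Q f z h - Q f z' h' = (Q f z h - Q f z' h) + (Q f z' h - Q f z' h') := by abel
  rw [e]
  refine (norm_add_le _ _).trans (add_le_add (h1.trans ?_) (h2.trans ?_))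
  · gcongr; exact le_max_right _ _
  · gcongr; exact le_max_left _ _

end basic

section om

variable {a : ℝ} {X : Type*} [MetricSpace X]
variable {E : Type u} [NormedAddCommGroup E] [NormedSpace ℝ E]
variable {F : Type v} [NormedAddCommGroup F] [NormedSpace ℝ F]

/-- Lipschitz base map -/
def Lp (L : ℝ) (z0 : X → E) : Prop := 0 ≤ L ∧ ∀ x y, ‖z0 x - z0 y‖ ≤ L * dist x y

omit [NormedSpace ℝ F] in
theorem hold_of {A B L : ℝ} (ha : 0 < a) (ha1 : a ≤ 1) {g : X → F} {z0 : X → E} (hz : Lp L z0)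
    (u : Hol a X E) (hA : 0 ≤ A) (hB : 0 ≤ B) (h0 : ∀ x, ‖g x‖ ≤ A)
    (h1 : ∀ x y, ‖g x - g y‖ ≤ B * ‖(z0 x + Hol.fn u x) - (z0 y + Hol.fn u y)‖) :
    HB a (2 * A + B * (L + ‖u‖)) g where
  bdd x := by
    refine (h0 x).trans ?_
    have : 0 ≤ B * (L + ‖u‖) := mul_nonneg hB (add_nonneg hz.1 (norm_nonneg _))
    linarith
  hol x y := by
    have hr : 0 ≤ dist x y ^ a := Real.rpow_nonneg dist_nonneg a
    have hBL : 0 ≤ B * (L + ‖u‖) := mul_nonneg hB (add_nonneg hz.1 (norm_nonneg _))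
    rcases le_total (dist x y) 1 with h | h
    · have h2 : dist x y ≤ dist x y ^ a := by
        rcases (dist_nonneg (x := x) (y := y)).eq_or_lt with h3 | h3
        · rw [← h3]; exact Real.rpow_nonneg le_rfl _
        · calc dist x y = dist x y ^ (1 : ℝ) := (Real.rpow_one _).symm
            _ ≤ dist x y ^ a := Real.rpow_le_rpow_of_exponent_ge h3 h ha1
      have h3 : ‖(z0 x + Hol.fn u x) - (z0 y + Hol.fn u y)‖ ≤ (L + ‖u‖) * dist x y ^ a := by
        have e : (z0 x + Hol.fn u x) - (z0 y + Hol.fn u y) =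
            (z0 x - z0 y) + (Hol.fn u x - Hol.fn u y) := by abel
        rw [e, add_mul]
        refine (norm_add_le _ _).trans (add_le_add ((hz.2 x y).trans ?_) (norm_fn_sub_le u x y))
        exact mul_le_mul_of_nonneg_left h2 hz.1
      calc ‖g x - g y‖ ≤ B * ‖(z0 x + Hol.fn u x) - (z0 y + Hol.fn u y)‖ := h1 x y
        _ ≤ B * ((L + ‖u‖) * dist x y ^ a) := mul_le_mul_of_nonneg_left h3 hB
        _ = B * (L + ‖u‖) * dist x y ^ a := by ring
        _ ≤ _ := mul_le_mul_of_nonneg_right (by linarith) hr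
    · have h2 : 1 ≤ dist x y ^ a := Real.one_le_rpow h ha.le
      have h3 : ‖g x - g y‖ ≤ 2 * A := (norm_sub_le _ _).trans (by linarith [h0 x, h0 y])
      calc ‖g x - g y‖ ≤ 2 * A := h3
        _ ≤ (2 * A + B * (L + ‖u‖)) * 1 := by linarith
        _ ≤ _ := mul_le_mul_of_nonneg_left h2 (by linarith)

theorem om_hb {f : E → F} (hf : BS f) {L : ℝ} {z0 : X → E} (hz : Lp L z0) (ha : 0 < a)
    (ha1 : a ≤ 1) (u : Hol a X E) : ∃ M, 0 ≤ M ∧ HB a M (fun x => f (z0 x + Hol.fn u x)) := by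
  obtain ⟨A, hA, h0⟩ := hf.bd0
  obtain ⟨B, hB, h1⟩ := hf.lip
  refine ⟨2 * A + B * (L + ‖u‖), ?_, hold_of ha ha1 hz u hA hB (fun x => h0 _)
    fun x y => h1 _ _⟩
  have := hz.1
  positivity

/-- the Nemytskii operator -/
def Om (ha : 0 < a) (ha1 : a ≤ 1) {L : ℝ} {z0 : X → E} (hz : Lp L z0) (f : E → F) (hf : BS f)
    (u : Hol a X E) : Hol a X F :=
  mk ha (fun x => f (z0 x + Hol.fn u x)) (om_hb hf hz ha ha1 u).choose
    (om_hb hf hz ha ha1 u).choose_spec.2

@[simp] theorem fn_Om (ha : 0 < a) (ha1 : a ≤ 1) {L : ℝ} {z0 : X → E} (hz : Lp L z0) (f : E → F)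
    (hf : BS f) (u : Hol a X E) (x : X) :
    Hol.fn (Om ha ha1 hz f hf u) x = f (z0 x + Hol.fn u x) := rfl

theorem Om_rem (ha : 0 < a) (ha1 : a ≤ 1) {L : ℝ} {z0 : X → E} (hz : Lp L z0) (f : E → F)
    (hf : BS f) (u : Hol a X E) : ∃ C : ℝ, 0 ≤ C ∧ ∀ h : Hol a X E,
      ‖Om ha ha1 hz f hf (u + h) - Om ha ha1 hz f hf u -
        bl (ContinuousLinearMap.id ℝ (E →L[ℝ] F)) (Om ha ha1 hz (fderiv ℝ f) hf.fderiv u) h‖ ≤
        C * ‖h‖ ^ 2 := by
  obtain ⟨C, hC0, hC⟩ := Q_bd hf
  obtain ⟨D, hD0, hD⟩ := Q_lip hf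
  refine ⟨2 * C + D * (L + ‖u‖) + D, by have := hz.1; positivity, fun h => ?_⟩
  set r := Om ha ha1 hz f hf (u + h) - Om ha ha1 hz f hf u -
    bl (ContinuousLinearMap.id ℝ (E →L[ℝ] F)) (Om ha ha1 hz (fderiv ℝ f) hf.fderiv u) h with hr
  have hfn : ∀ x, Hol.fn r x = Q f (z0 x + Hol.fn u x) (Hol.fn h x) := by
    intro x
    rw [hr]
    simp only [fn_sub, fn_Om, fn_add, fn_bl, ContinuousLinearMap.id_apply, Q, add_assoc]
  have hL := hz.1
  refine norm_le (by positivity) ⟨fun x => ?_, fun x y => ?_⟩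
  · rw [hfn]
    refine (hC _ _).trans ?_
    have h1 : ‖Hol.fn h x‖ ^ 2 ≤ ‖h‖ ^ 2 := pow_le_pow_left₀ (norm_nonneg _) (norm_fn_le h x) 2
    calc C * ‖Hol.fn h x‖ ^ 2 ≤ C * ‖h‖ ^ 2 := mul_le_mul_of_nonneg_left h1 hC0
      _ ≤ _ := mul_le_mul_of_nonneg_right (by
        have : 0 ≤ D * (L + ‖u‖) := by positivity
        linarith) (sq_nonneg _)
  · rw [hfn, hfn]
    have hr : 0 ≤ dist x y ^ a := Real.rpow_nonneg dist_nonneg a
    have hh : ∀ x, ‖Hol.fn h x‖ ≤ ‖h‖ := norm_fn_le h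
    rcases le_total (dist x y) 1 with hd | hd
    · have h2 : dist x y ≤ dist x y ^ a := by
        rcases (dist_nonneg (x := x) (y := y)).eq_or_lt with h3 | h3
        · rw [← h3]; exact Real.rpow_nonneg le_rfl _
        · calc dist x y = dist x y ^ (1 : ℝ) := (Real.rpow_one _).symm
            _ ≤ dist x y ^ a := Real.rpow_le_rpow_of_exponent_ge h3 hd ha1
      have h3 : ‖(z0 x + Hol.fn u x) - (z0 y + Hol.fn u y)‖ ≤ (L + ‖u‖) * dist x y ^ a := by
        have e : (z0 x + Hol.fn u x) - (z0 y + Hol.fn u y) =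
            (z0 x - z0 y) + (Hol.fn u x - Hol.fn u y) := by abel
        rw [e, add_mul]
        refine (norm_add_le _ _).trans (add_le_add ((hz.2 x y).trans ?_) (norm_fn_sub_le u x y))
        exact mul_le_mul_of_nonneg_left h2 hz.1
      refine (hD _ _ _ _ ‖h‖ (hh x) (hh y)).trans ?_
      calc D * ‖h‖ ^ 2 * ‖(z0 x + Hol.fn u x) - (z0 y + Hol.fn u y)‖ +
            D * ‖h‖ * ‖Hol.fn h x - Hol.fn h y‖
          ≤ D * ‖h‖ ^ 2 * ((L + ‖u‖) * dist x y ^ a) + D * ‖h‖ * (‖h‖ * dist x y ^ a) := by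
            gcongr
            exact norm_fn_sub_le h x y
        _ = (D * (L + ‖u‖) + D) * (‖h‖ ^ 2 * dist x y ^ a) := by ring
        _ ≤ (2 * C + D * (L + ‖u‖) + D) * (‖h‖ ^ 2 * dist x y ^ a) :=
            mul_le_mul_of_nonneg_right (by linarith) (by positivity)
        _ = _ := by ring
    · have h2 : 1 ≤ dist x y ^ a := Real.one_le_rpow hd ha.le
      have h1 : ∀ x, ‖Q f (z0 x + Hol.fn u x) (Hol.fn h x)‖ ≤ C * ‖h‖ ^ 2 := fun x =>
        (hC _ _).trans (mul_le_mul_of_nonneg_left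
          (pow_le_pow_left₀ (norm_nonneg _) (hh x) 2) hC0)
      have h3 := (norm_sub_le (Q f (z0 x + Hol.fn u x) (Hol.fn h x))
        (Q f (z0 y + Hol.fn u y) (Hol.fn h y))).trans (add_le_add (h1 x) (h1 y))
      have h4 : 0 ≤ D * (L + ‖u‖) + D := by positivity
      calc _ ≤ C * ‖h‖ ^ 2 + C * ‖h‖ ^ 2 := h3
        _ = (2 * C) * ‖h‖ ^ 2 * 1 := by ring
        _ ≤ (2 * C) * ‖h‖ ^ 2 * dist x y ^ a := mul_le_mul_of_nonneg_left h2 (by positivity)
        _ ≤ _ := by
          refine mul_le_mul_of_nonneg_right (mul_le_mul_of_nonneg_right ?_ (sq_nonneg _)) hr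
          linarith

theorem Om_hasFDerivAt (ha : 0 < a) (ha1 : a ≤ 1) {L : ℝ} {z0 : X → E} (hz : Lp L z0) (f : E → F)
    (hf : BS f) (u : Hol a X E) :
    HasFDerivAt (Om ha ha1 hz f hf)
      (bl (ContinuousLinearMap.id ℝ (E →L[ℝ] F)) (Om ha ha1 hz (fderiv ℝ f) hf.fderiv u)) u := by
  obtain ⟨C, hC0, hC⟩ := Om_rem ha ha1 hz f hf u
  rw [hasFDerivAt_iff_isLittleO_nhds_zero]
  have h1 : (fun h : Hol a X E => Om ha ha1 hz f hf (u + h) - Om ha ha1 hz f hf u -
      bl (ContinuousLinearMap.id ℝ (E →L[ℝ] F)) (Om ha ha1 hz (fderiv ℝ f) hf.fderiv u) h)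
      =O[𝓝 0] fun h => ‖h‖ ^ 2 :=
    Asymptotics.IsBigO.of_bound C (Eventually.of_forall fun h => by
      rw [Real.norm_eq_abs, abs_of_nonneg (sq_nonneg ‖h‖)]; exact hC h)
  refine h1.trans_isLittleO ?_
  have h2 : (fun h : Hol a X E => ‖h‖ ^ 2) =o[𝓝 0] fun h => h :=
    Asymptotics.isLittleO_norm_pow_id one_lt_two
  exact h2

end om

section smooth

variable {a : ℝ} {X : Type*} [MetricSpace X]
variable {E : Type u} [NormedAddCommGroup E] [NormedSpace ℝ E]

theorem Om_contDiff_nat (ha : 0 < a) (ha1 : a ≤ 1) {L : ℝ} {z0 : X → E} (hz : Lp L z0) (n : ℕ) :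
    ∀ (F : Type u) [NormedAddCommGroup F] [NormedSpace ℝ F] (f : E → F) (hf : BS f),
      ContDiff ℝ n (Om ha ha1 hz f hf) := by
  induction n with
  | zero =>
    intro F _ _ f hf
    exact contDiff_zero.2 (continuous_iff_continuousAt.2 fun u =>
      (Om_hasFDerivAt ha ha1 hz f hf u).continuousAt)
  | succ n ih =>
    intro F _ _ f hf
    refine contDiff_succ_iff_hasFDerivAt.2 ⟨_, ?_, fun u => Om_hasFDerivAt ha ha1 hz f hf u⟩
    have h1 : ContDiff ℝ n (bl (a := a) (X := X) (ContinuousLinearMap.id ℝ (E →L[ℝ] F))) :=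
      ContinuousLinearMap.contDiff (𝕜 := ℝ) (E := Hol a X (E →L[ℝ] F))
        (F := Hol a X E →L[ℝ] Hol a X F) (bl (a := a) (X := X)
          (ContinuousLinearMap.id ℝ (E →L[ℝ] F)))
    exact h1.comp (ih (E →L[ℝ] F) (fderiv ℝ f) hf.fderiv)

theorem Om_contDiff (ha : 0 < a) (ha1 : a ≤ 1) {L : ℝ} {z0 : X → E} (hz : Lp L z0)
    {F : Type u} [NormedAddCommGroup F] [NormedSpace ℝ F] (f : E → F) (hf : BS f) :
    ContDiff ℝ ∞ (Om ha ha1 hz f hf) :=
  contDiff_infty.2 fun n => Om_contDiff_nat ha ha1 hz n F f hf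

end smooth

end

end Crest.Agent.R235.TorOm_384
end

-- ▼ part R235/TorSch_384
section

/-!
# Row 235 (S0364), TOR / FIB-B1 (helper384), part 1

Variable coefficients on the torus `ℝ^N / ℤ^N`: the operator `∑ ∂_i (S_ij ∂_j w)` (divergence form,
`S` not necessarily symmetric), energy identity, Poincaré inequality, global Schauder estimate
`|w|_{2,a} ≤ C |LL S w|_a` for smooth `w` of mean zero, with a constant depending only on bounds.
-/

set_option autoImplicit false

open MeasureTheory Set Metric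
open scoped ContDiff

namespace Crest.Agent.R235.TorSch_384

open Crest.Agent.R238 (Ell)
open Crest.Agent.R238.Sch (ee D2 LB norm_ee)
open Crest.Agent.R273.SchA_152 (HO)
open Crest.Agent.R273.SchB_152 (P2)
open Crest.Agent.R275.Tor812
open Crest.Agent.R281.Mc673

noncomputable section

variable {N : ℕ}

/-- `∑ ∂_i (S_ij ∂_j w)` -/
def LL (S : V N → Matrix (Fin N) (Fin N) ℝ) (w : V N → ℝ) (x : V N) : ℝ :=
  ∑ i, dr i (fun y => ∑ j, S y i j * dr j w y) x

/-- smooth periodic matrix field -/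
def SM (S : V N → Matrix (Fin N) (Fin N) ℝ) : Prop := ∀ i j, SP fun x => S x i j

/-- ellipticity -/
def El (lam : ℝ) (S : V N → Matrix (Fin N) (Fin N) ℝ) : Prop :=
  ∀ (x : V N) (v : Fin N → ℝ), lam * ∑ i, v i ^ 2 ≤ ∑ i, ∑ j, S x i j * v i * v j

/-- bounds of `S` and `DS` -/
structure BdS (a M : ℝ) (S : V N → Matrix (Fin N) (Fin N) ℝ) : Prop where
  b0 : ∀ i j, HO a M univ fun x => S x i j
  b1 : ∀ i j k, HO a M univ (dr k fun x => S x i j)

section

variable {S : V N → Matrix (Fin N) (Fin N) ℝ} {w u : V N → ℝ}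

theorem sp_flux (hS : SM S) (hw : SP w) (i : Fin N) : SP fun y => ∑ j, S y i j * dr j w y :=
  SP.sum _ fun j _ => (hS i j).mul (hw.dr j)

theorem sp_LL (hS : SM S) (hw : SP w) : SP (LL S w) :=
  SP.sum (f := fun i => dr i fun y => ∑ j, S y i j * dr j w y) _ fun i _ => (sp_flux hS hw i).dr i

theorem mn_LL (hS : SM S) (hw : SP w) : mn (LL S w) = 0 := by
  have h := mn_sum (N := N) Finset.univ (f := fun i => dr i fun y => ∑ j, S y i j * dr j w y)
    fun i _ => (sp_flux hS hw i).dr i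
  have h2 : LL S w = fun x => ∑ i, dr i (fun y => ∑ j, S y i j * dr j w y) x := rfl
  rw [h2, h]
  exact Finset.sum_eq_zero fun i _ => mn_dr (sp_flux hS hw i) i

/-- expansion -/
theorem LL_eq (hS : SM S) (hw : SP w) (x : V N) :
    LL S w x = (∑ i, ∑ j, S x i j * dr i (dr j w) x) +
      ∑ i, ∑ j, dr i (fun y => S y i j) x * dr j w x := by
  unfold LL
  rw [← Finset.sum_add_distrib]
  refine Finset.sum_congr rfl fun i _ => ?_
  rw [dr_sum _ (fun j _ => (hS i j).mul (hw.dr j)), ← Finset.sum_add_distrib]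
  refine Finset.sum_congr rfl fun j _ => ?_
  rw [dr_mul (hS i j) (hw.dr j)]
  ring

/-- the symmetric part -/
def sy (S : V N → Matrix (Fin N) (Fin N) ℝ) (x : V N) : Matrix (Fin N) (Fin N) ℝ :=
  fun i j => (S x i j + S x j i) / 2

theorem P2_sy (hS : SM S) (hw : SP w) (x : V N) :
    P2 (sy S) w x = LL S w x - ∑ i, ∑ j, dr i (fun y => S y i j) x * dr j w x := by
  rw [LL_eq hS hw, add_sub_cancel_right]
  unfold P2 sy
  have h1 : ∀ i j, D2 w x (ee i) (ee j) = dr i (dr j w) x := fun i j => D2_eq hw i j x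
  have h2 : (∑ i, ∑ j, S x j i * dr i (dr j w) x) = ∑ i, ∑ j, S x i j * dr i (dr j w) x := by
    rw [Finset.sum_comm]
    refine Finset.sum_congr rfl fun i _ => Finset.sum_congr rfl fun j _ => ?_
    rw [dr_comm hw]
  calc ∑ i, ∑ j, (S x i j + S x j i) / 2 * D2 w x (ee i) (ee j)
      = (∑ i, ∑ j, S x i j * dr i (dr j w) x + ∑ i, ∑ j, S x j i * dr i (dr j w) x) / 2 := by
        rw [← Finset.sum_add_distrib, Finset.sum_div]
        refine Finset.sum_congr rfl fun i _ => ?_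
        rw [← Finset.sum_add_distrib, Finset.sum_div]
        refine Finset.sum_congr rfl fun j _ => ?_
        rw [h1]; ring
    _ = _ := by rw [h2]; ring

theorem ell_sy {lam a M : ℝ} (hl : El lam S) (hb : BdS a M S) (x : V N) :
    Ell lam (max lam (N * M)) (sy S x) := by
  refine ⟨fun i j => by simp only [sy]; ring, fun z => ?_⟩
  have e : ∑ i, ∑ j, sy S x i j * z i * z j = ∑ i, ∑ j, S x i j * z i * z j := by
    have h2 : (∑ i, ∑ j, S x j i * z i * z j) = ∑ i, ∑ j, S x i j * z i * z j := by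
      rw [Finset.sum_comm]
      refine Finset.sum_congr rfl fun i _ => Finset.sum_congr rfl fun j _ => ?_
      ring
    calc ∑ i, ∑ j, sy S x i j * z i * z j
        = (∑ i, ∑ j, S x i j * z i * z j + ∑ i, ∑ j, S x j i * z i * z j) / 2 := by
          rw [← Finset.sum_add_distrib, Finset.sum_div]
          refine Finset.sum_congr rfl fun i _ => ?_
          rw [← Finset.sum_add_distrib, Finset.sum_div]
          refine Finset.sum_congr rfl fun j _ => ?_
          simp only [sy]; ring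
      _ = _ := by rw [h2]; ring
  rw [e]
  refine ⟨hl x z, ?_⟩
  have hM : 0 ≤ N * M ∨ N = 0 := by
    rcases Nat.eq_zero_or_pos N with h | h
    · exact Or.inr h
    · left
      have : 0 ≤ M := (hb.b0 ⟨0, h⟩ ⟨0, h⟩).nonneg (mem_univ (0 : V N))
      positivity
  have hz : 0 ≤ ∑ i, z i ^ 2 := Finset.sum_nonneg fun _ _ => sq_nonneg _
  have h3 : ∑ i, ∑ j, S x i j * z i * z j ≤ (N * M) * ∑ i, z i ^ 2 := by
    calc ∑ i, ∑ j, S x i j * z i * z j ≤ ∑ i, ∑ j, M * ((z i ^ 2 + z j ^ 2) / 2) := by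
          refine Finset.sum_le_sum fun i _ => Finset.sum_le_sum fun j _ => ?_
          have h4 := (hb.b0 i j).bdd x (mem_univ x)
          rw [Real.norm_eq_abs] at h4
          have h5 : |z i * z j| ≤ (z i ^ 2 + z j ^ 2) / 2 := by
            rw [abs_le]; constructor <;> nlinarith [sq_nonneg (z i + z j), sq_nonneg (z i - z j)]
          calc S x i j * z i * z j = S x i j * (z i * z j) := by ring
            _ ≤ |S x i j * (z i * z j)| := le_abs_self _
            _ = |S x i j| * |z i * z j| := abs_mul _ _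
            _ ≤ _ := mul_le_mul h4 h5 (abs_nonneg _) ((abs_nonneg _).trans h4)
      _ = _ := by
          simp only [← Finset.mul_sum, ← Finset.sum_div, Finset.sum_add_distrib,
            Finset.sum_const, Finset.card_univ, Fintype.card_fin, nsmul_eq_mul]
          ring
  exact h3.trans (mul_le_mul_of_nonneg_right (le_max_right _ _) hz)

/-! ### energy and Poincaré -/

theorem energy (hS : SM S) (hw : SP w) :
    mn (fun x => w x * LL S w x) = - mn (fun x => ∑ i, ∑ j, S x i j * dr i w x * dr j w x) := by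
  have hi : ∀ i, SP fun x => w x * ∑ j, S x i j * dr j w x := fun i => hw.mul (sp_flux hS hw i)
  have h1 : ∀ x, w x * LL S w x = (∑ i, dr i (fun y => w y * ∑ j, S y i j * dr j w y) x) -
      ∑ i, ∑ j, S x i j * dr i w x * dr j w x := by
    intro x
    unfold LL
    rw [Finset.mul_sum, ← Finset.sum_sub_distrib]
    refine Finset.sum_congr rfl fun i _ => ?_
    rw [dr_mul hw (sp_flux hS hw i), Finset.mul_sum]
    have : ∀ j, S x i j * dr i w x * dr j w x = dr i w x * (S x i j * dr j w x) := fun j => by ring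
    simp only [this]
    ring
  have s1 : SP fun x => ∑ i, dr i (fun y => w y * ∑ j, S y i j * dr j w y) x :=
    SP.sum (f := fun i => dr i (fun y => w y * ∑ j, S y i j * dr j w y)) _ fun i _ => (hi i).dr i
  have s2 : SP fun x => ∑ i, ∑ j, S x i j * dr i w x * dr j w x :=
    SP.sum _ fun i _ => SP.sum _ fun j _ => ((hS i j).mul (hw.dr i)).mul (hw.dr j)
  have h2 : (fun x => w x * LL S w x) = fun x =>
      (∑ i, dr i (fun y => w y * ∑ j, S y i j * dr j w y) x) -
      ∑ i, ∑ j, S x i j * dr i w x * dr j w x := funext h1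
  rw [h2, mn_sub s1 s2,
    mn_sum (N := N) Finset.univ (f := fun i => dr i (fun y => w y * ∑ j, S y i j * dr j w y))
      fun i _ => (hi i).dr i,
    Finset.sum_eq_zero fun i _ => mn_dr (hi i) i, zero_sub]

theorem mn_mono {f g : V N → ℝ} (hf : SP f) (hg : SP g) (h : ∀ x, f x ≤ g x) : mn f ≤ mn g :=
  integral_mono (integrable_box hf) (integrable_box hg) fun _ => h _


/-- the Poincaré inequality -/
theorem poincare (hw : SP w) (hm : mn w = 0) :
    mn (fun x => w x ^ 2) ≤ mn (fun x => ∑ i, dr i w x ^ 2) := by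
  have hl : ∀ {f : V N → ℝ} (hf : SP f), l2 (toS f hf) = mn (fun x => f x ^ 2) := by
    intro f hf
    unfold l2 mn
    refine integral_congr_ae (Filter.Eventually.of_forall fun x => ?_)
    show ‖toS f hf x‖ ^ 2 = _
    rw [toS_apply, Complex.norm_real, Real.norm_eq_abs, sq_abs]
  have hsq : ∀ i, SP fun x => dr i w x ^ 2 := fun i => by
    have := (hw.dr i).mul (hw.dr i)
    simpa only [← sq] using this
  rw [mn_sum (N := N) Finset.univ (f := fun i x => dr i w x ^ 2) fun i _ => hsq i]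
  have e1 : ∀ i, mn (fun x => dr i w x ^ 2) = l2 (toS (dr i w) (hw.dr i)) := fun i =>
    (hl (hw.dr i)).symm
  rw [← hl hw]
  simp only [e1]
  have h1 := parseval (toS w hw)
  have h2 : HasSum (fun k => ∑ i, ‖fc (toS (dr i w) (hw.dr i)) k‖ ^ 2)
      (∑ i, l2 (toS (dr i w) (hw.dr i))) :=
    hasSum_sum fun i _ => parseval (toS (dr i w) (hw.dr i))
  refine hasSum_le (fun k => ?_) h1 h2
  by_cases hk : k = 0
  · subst hk
    rw [fc_toS_zero, hm]
    simpa using Finset.sum_nonneg fun i _ => sq_nonneg ‖fc (toS (dr i w) (hw.dr i)) 0‖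
  · have h3 : ∀ i, ‖fc (toS (dr i w) (hw.dr i)) k‖ ^ 2 =
        (4 * Real.pi ^ 2 * (k i : ℝ) ^ 2) * ‖fc (toS w hw) k‖ ^ 2 := by
      intro i
      rw [← pd_toS hw, fc_pd, norm_mul, mul_pow]
      congr 1
      simp only [norm_mul, Complex.norm_real, Complex.norm_I, Complex.norm_ofNat,
        Complex.norm_intCast, Real.norm_eq_abs, mul_pow, sq_abs]
      ring
    simp only [h3, ← Finset.sum_mul, ← Finset.mul_sum]
    have h4 := one_le_norm_sq hk
    have h5 : (1 : ℝ) ≤ Real.pi := by linarith [Real.pi_gt_three]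
    have h6 : 1 ≤ 4 * Real.pi ^ 2 * ∑ i, (k i : ℝ) ^ 2 := by nlinarith
    exact le_mul_of_one_le_left (sq_nonneg _) h6

/-- Cauchy-Schwarz with `ε = 1` type bound: the `L²` norm from a sup bound of `LL`. -/
theorem l2_var {lam : ℝ} (hlam : 0 < lam) (hS : SM S) (hl : El lam S) (hw : SP w) (hm : mn w = 0)
    {B : ℝ} (hB : ∀ x, |LL S w x| ≤ B) :
    mn (fun x => w x ^ 2) ≤ (B / lam) ^ 2 := by
  have hsq : SP fun x => w x ^ 2 := by
    have := hw.mul hw
    simpa only [← sq] using this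
  have hdr : SP fun x => ∑ i, dr i w x ^ 2 := SP.sum _ fun i _ => by
    have := (hw.dr i).mul (hw.dr i)
    simpa only [← sq] using this
  have s2 : SP fun x => ∑ i, ∑ j, S x i j * dr i w x * dr j w x :=
    SP.sum _ fun i _ => SP.sum _ fun j _ => ((hS i j).mul (hw.dr i)).mul (hw.dr j)
  have h1 := poincare hw hm
  have h2 : mn (fun x => lam * ∑ i, dr i w x ^ 2) ≤
      mn (fun x => ∑ i, ∑ j, S x i j * dr i w x * dr j w x) := by
    refine mn_mono ?_ s2 fun x => hl x _
    exact (SP.const lam).mul hdr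
  rw [mn_mul] at h2
  have h3 := energy hS hw
  have h4 : mn (fun x => - (w x * LL S w x)) ≤
      mn (fun x => lam / 2 * w x ^ 2 + B ^ 2 / (2 * lam)) := by
    refine mn_mono (hw.mul (sp_LL hS hw)).neg (((SP.const _).mul hsq).add (SP.const _)) fun x => ?_
    have h5 := hB x
    have h6 : LL S w x ^ 2 ≤ B ^ 2 := by
      rw [← sq_abs (LL S w x)]
      exact pow_le_pow_left₀ (abs_nonneg _) h5 2
    have h7 : - (w x * LL S w x) ≤ lam / 2 * w x ^ 2 + LL S w x ^ 2 / (2 * lam) := by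
      have h8 : 0 ≤ (lam * w x + LL S w x) ^ 2 / (2 * lam) := by positivity
      have h9 : (lam * w x + LL S w x) ^ 2 / (2 * lam) =
          lam / 2 * w x ^ 2 + w x * LL S w x + LL S w x ^ 2 / (2 * lam) := by
        field_simp; ring
      linarith
    have h10 : LL S w x ^ 2 / (2 * lam) ≤ B ^ 2 / (2 * lam) :=
      div_le_div_of_nonneg_right h6 (by positivity)
    linarith
  rw [mn_neg, mn_add ((SP.const _).mul hsq) (SP.const _), mn_mul, mn_const, h3, neg_neg] at h4
  have h11 : lam / 2 * mn (fun x => w x ^ 2) ≤ B ^ 2 / (2 * lam) := by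
    have := mul_le_mul_of_nonneg_left h1 hlam.le
    linarith
  have h12 : (B / lam) ^ 2 = (2 / lam) * (B ^ 2 / (2 * lam)) := by field_simp
  rw [h12]
  calc mn (fun x => w x ^ 2) = (2 / lam) * (lam / 2 * mn (fun x => w x ^ 2)) := by
        field_simp
    _ ≤ _ := mul_le_mul_of_nonneg_left h11 (by positivity)


end

end

end Crest.Agent.R235.TorSch_384
end

-- ▼ part R235/TorSch2_384

/-!
# Row 235 (S0364), TOR / FIB-B1 (helper384), part 2

Global Schauder estimate on the torus with variable coefficients, divergence form.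
-/

set_option autoImplicit false

open MeasureTheory Set Metric
open scoped ContDiff

namespace Crest.Agent.R235.TorSch_384

open Crest.Agent.R238 (Ell)
open Crest.Agent.R238.Sch (ee D2 LB norm_ee)
open Crest.Agent.R273.SchA_152 (HO lb_loc)
open Crest.Agent.R273.SchB_152 (P2)
open Crest.Agent.R275.Tor812
open Crest.Agent.R281.Mc673

noncomputable section

variable {N : ℕ}

theorem ho_dr {a G : ℝ} {w : V N → ℝ} (h : HO a G univ (fderiv ℝ w)) (j : Fin N) :
    HO a G univ (dr j w) where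
  bdd x _ := by
    refine ((fderiv ℝ w x).le_opNorm _).trans ?_
    rw [norm_ee, mul_one]
    exact h.bdd x (mem_univ x)
  hol x _ y _ := by
    have e : dr j w x - dr j w y = (fderiv ℝ w x - fderiv ℝ w y) (ee j) := rfl
    rw [e]
    refine (ContinuousLinearMap.le_opNorm _ _).trans ?_
    rw [norm_ee, mul_one]
    exact h.hol x (mem_univ x) y (mem_univ y)

/-- interpolation, global -/
theorem interp {a ε : ℝ} (ha : 0 < a) (ha1 : a < 1) (hε : 0 < ε) :
    ∃ C : ℝ, 0 ≤ C ∧ ∀ (w : V N → ℝ) (X W : ℝ), ContDiff ℝ 2 w → 0 ≤ X →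
      (∀ x, ‖D2 w x‖ ≤ X) → (∀ x, |w x| ≤ W) →
        HO a (ε * X + C * W) univ w ∧ HO a (ε * X + C * W) univ (fderiv ℝ w) := by
  obtain ⟨C, hC, H⟩ := lb_loc (n := N) ha ha1 (show 0 < ε / 4 by positivity)
  refine ⟨4 * C, by positivity, fun w X W hw hX hD hW => ?_⟩
  have key : ∀ x0 : V N, LB a (ε / 4 * X + C * W) (closedBall 0 (3 / 4)) (fun z => w (z + x0)) := by
    intro x0
    have hf : fderiv ℝ (fun z => w (z + x0)) = fun z => fderiv ℝ w (z + x0) := by
      funext z; exact fderiv_comp_add_right x0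
    refine H (fun z => w (z + x0)) X W (hw.comp (contDiff_id.add contDiff_const)) hX
      (fun z _ => ?_) (fun z _ => hW _)
    have h2 : D2 (fun z => w (z + x0)) z = D2 w (z + x0) := by
      unfold D2
      rw [hf]
      exact fderiv_comp_add_right x0
    rw [h2]
    exact hD _
  have e : ε * X + 4 * C * W = 4 * (ε / 4 * X + C * W) := by ring
  rw [e]
  have hmem : ∀ x0 y : V N, y ∈ closedBall x0 (1 / 2) → y - x0 ∈ closedBall (0 : V N) (3 / 4) := by
    intro x0 y hy
    rw [mem_closedBall, dist_eq_norm] at hy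
    rw [mem_closedBall, dist_zero_right]
    linarith
  have hf : ∀ x0 z : V N, fderiv ℝ (fun z => w (z + x0)) z = fderiv ℝ w (z + x0) :=
    fun x0 z => fderiv_comp_add_right x0
  refine ⟨ho_glob ha ha1.le fun x0 => ⟨fun y hy => ?_, fun y hy z hz => ?_⟩,
    ho_glob ha ha1.le fun x0 => ⟨fun y hy => ?_, fun y hy z hz => ?_⟩⟩
  · have := (key x0).h0 _ (hmem x0 y hy)
    simpa using this
  · have := (key x0).h1 _ (hmem x0 y hy) _ (hmem x0 z hz)
    simpa using this
  · have := (key x0).d0 _ (hmem x0 y hy)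
    rw [hf] at this
    simpa using this
  · have := (key x0).d1 _ (hmem x0 y hy) _ (hmem x0 z hz)
    rw [hf, hf] at this
    simpa using this

/-- absorption -/
theorem absorb {a K : ℝ} {F : Type*} [NormedAddCommGroup F] {f : V N → F} (hK : 0 ≤ K)
    (h0 : ∃ G, HO a G univ f)
    (hs : ∀ G, 0 ≤ G → HO a G univ f → HO a (G / 2 + K) univ f) : HO a (2 * K) univ f := by
  obtain ⟨G0, hG0⟩ := h0
  have hG0' : 0 ≤ G0 := hG0.nonneg (mem_univ (0 : V N))
  have h1 : ∀ n : ℕ, HO a (2 * K + G0 / 2 ^ n) univ f := by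
    intro n
    induction n with
    | zero => exact hG0.mono (by simp; linarith)
    | succ n ih =>
      have h2 := hs _ (by positivity) ih
      have e : (2 * K + G0 / 2 ^ n) / 2 + K = 2 * K + G0 / 2 ^ (n + 1) := by
        rw [pow_succ]; field_simp; ring
      rwa [e] at h2
  have hlim : Filter.Tendsto (fun n : ℕ => 2 * K + G0 / 2 ^ n) Filter.atTop (nhds (2 * K)) := by
    have h3 : Filter.Tendsto (fun n : ℕ => G0 * (1 / 2 : ℝ) ^ n) Filter.atTop (nhds (G0 * 0)) :=
      (tendsto_pow_atTop_nhds_zero_of_lt_one (by norm_num) (by norm_num)).const_mul G0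
    have h4 : Filter.Tendsto (fun n : ℕ => 2 * K + G0 * (1 / 2 : ℝ) ^ n) Filter.atTop
        (nhds (2 * K + G0 * 0)) := tendsto_const_nhds.add h3
    rw [mul_zero, add_zero] at h4
    refine h4.congr fun n => ?_
    rw [one_div, inv_pow]; rfl
  refine ⟨fun x hx => ?_, fun x hx y hy => ?_⟩
  · exact ge_of_tendsto' hlim fun n => (h1 n).bdd x hx
  · exact ge_of_tendsto' (hlim.mul_const _) fun n => (h1 n).hol x hx y hy

/-- **Schauder estimate on the torus, variable coefficients.** -/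
theorem torus_schauder_var (N : ℕ) {a lam M : ℝ} (ha : 0 < a) (ha1 : a < 1) (hlam : 0 < lam)
    (hM : 0 ≤ M) :
    ∃ C : ℝ, 0 < C ∧ ∀ S : V N → Matrix (Fin N) (Fin N) ℝ, SM S → BdS a M S → El lam S →
      ∀ w : V N → ℝ, SP w → mn w = 0 → ∀ B : ℝ, HO a B univ (LL S w) →
        HO a (C * B) univ w ∧ HO a (C * B) univ (fderiv ℝ w) ∧
          HO a (C * B) univ (fderiv ℝ (fderiv ℝ w)) := by
  obtain ⟨C0, hC0, H⟩ := Crest.Agent.R273.SchC_152.int_schauder N ha ha1 hlam
    (le_max_left lam (N * M)) M (R := 1) one_pos le_rfl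
  set Cb : ℝ := N * (N * (2 * (M * 1))) with hCb
  have hCb0 : 0 ≤ Cb := by positivity
  obtain ⟨Ce, hCe, Hi⟩ := interp (N := N) ha ha1
    (show 0 < 1 / (8 * C0 * (Cb + 1)) by positivity)
  set K1 : ℝ := 1 + Ce + 4 * C0 with hK1
  have hK1p : 1 ≤ K1 := by linarith
  -- first and second derivatives by `B + W`
  have step : ∀ S : V N → Matrix (Fin N) (Fin N) ℝ, SM S → BdS a M S → El lam S →
      ∀ w : V N → ℝ, SP w → ∀ B W : ℝ, HO a B univ (LL S w) → (∀ x, |w x| ≤ W) →
        HO a (2 * (K1 * (B + W))) univ (fderiv ℝ w) ∧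
        HO a (4 * (C0 * (B + Cb * (2 * (K1 * (B + W))) + W))) univ (D2 w) ∧
        HO a (2 * (K1 * (B + W))) univ w := by
    intro S hS hb hl w hw B W hB hW
    have hB0 : 0 ≤ B := hB.nonneg (mem_univ 0)
    have hW0 : 0 ≤ W := (abs_nonneg _).trans (hW 0)
    have hw2 : ContDiff ℝ 2 w := by exact_mod_cast contDiff_infty.1 hw.sm 2
    obtain ⟨V2, hV2⟩ := hw.fderiv.fderiv.ho ha.le ha1.le
    -- second derivatives from `G`
    have h2 : ∀ G, 0 ≤ G → HO a G univ (fderiv ℝ w) →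
        HO a (4 * (C0 * (B + Cb * G + W))) univ (D2 w) := by
      intro G hG0 hG
      have hP : HO a (B + Cb * G) univ (P2 (sy S) w) := by
        have e : P2 (sy S) w = fun x =>
            LL S w x - ∑ i, ∑ j, dr i (fun y => S y i j) x * dr j w x :=
          funext fun x => P2_sy hS hw x
        rw [e]
        have h3 : HO a (∑ _i : Fin N, ∑ _j : Fin N, 2 * (M * G)) univ
            (fun x => ∑ i, ∑ j, dr i (fun y => S y i j) x * dr j w x) :=
          HO.sum _ fun i _ => HO.sum _ fun j _ => ho_mul (hb.b1 i j i) (ho_dr hG j) hM hG0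
        have e2 : (∑ _i : Fin N, ∑ _j : Fin N, 2 * (M * G)) = Cb * G := by
          simp only [Finset.sum_const, Finset.card_univ, Fintype.card_fin, nsmul_eq_mul, hCb]
          ring
        rw [e2] at h3
        exact HO.sub' hB h3
      refine ho_glob ha ha1.le fun x => ?_
      exact (H x (sy S) (fun y _ => ell_sy hl hb y) (fun i j => by
        have h4 : HO a (1 / 2 * (M + M)) univ (fun x => sy S x i j) := by
          have h5 := (hb.b0 i j).add (hb.b0 j i)
          refine ⟨fun y hy => ?_, fun y hy z hz => ?_⟩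
          · have := h5.bdd y hy
            simp only [sy]
            rw [Real.norm_eq_abs] at this ⊢
            rw [abs_div, abs_two]; linarith
          · have := h5.hol y hy z hz
            simp only [sy]
            rw [Real.norm_eq_abs] at this ⊢
            have e6 : (S y i j + S y j i) / 2 - (S z i j + S z j i) / 2 =
                (S y i j + S y j i - (S z i j + S z j i)) / 2 := by ring
            rw [e6, abs_div, abs_two]
            linarith
        exact (h4.subset (subset_univ _)).mono (by linarith)) w (B + Cb * G) W hw2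
        ⟨V2, hV2.subset (subset_univ _)⟩ (hP.subset (subset_univ _)) (fun y _ => hW y)).1
    -- interpolation and absorption
    have h3 : ∀ G, 0 ≤ G → HO a G univ (fderiv ℝ w) →
        HO a (G / 2 + K1 * (B + W)) univ (fderiv ℝ w) ∧
        HO a (G / 2 + K1 * (B + W)) univ w := by
      intro G hG0 hG
      have h4 := h2 G hG0 hG
      have hX : 0 ≤ 4 * (C0 * (B + Cb * G + W)) := by positivity
      obtain ⟨h5, h6⟩ := Hi w _ W hw2 hX (fun x => h4.bdd x (mem_univ x)) hW
      have h7 : 1 / (8 * C0 * (Cb + 1)) * (4 * (C0 * (B + Cb * G + W))) + Ce * W ≤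
          G / 2 + K1 * (B + W) := by
        have e : 1 / (8 * C0 * (Cb + 1)) * (4 * (C0 * (B + Cb * G + W))) =
            (B + Cb * G + W) / (2 * (Cb + 1)) := by field_simp; ring
        rw [e]
        have h8 : (B + Cb * G + W) / (2 * (Cb + 1)) ≤ (B + W) + G / 2 := by
          rw [div_le_iff₀ (by positivity)]
          nlinarith [mul_nonneg hCb0 hB0, mul_nonneg hCb0 hW0]
        have h9 : Ce * W ≤ Ce * (B + W) := mul_le_mul_of_nonneg_left (by linarith) hCe
        have h10 : K1 * (B + W) = (B + W) + Ce * (B + W) + 4 * C0 * (B + W) := by rw [hK1]; ring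
        have h11 : 0 ≤ 4 * C0 * (B + W) := by positivity
        linarith
      exact ⟨h6.mono h7, h5.mono h7⟩
    have h4 : HO a (2 * (K1 * (B + W))) univ (fderiv ℝ w) :=
      absorb (by positivity) (hw.fderiv.ho ha.le ha1.le) fun G hG0 hG => (h3 G hG0 hG).1
    refine ⟨h4, h2 _ (by positivity) h4, ?_⟩
    exact (h3 _ (by positivity) h4).2.mono (by linarith)
  -- the sup bound
  set C1 : ℝ := 2 * K1 with hC1
  have hC1' : 1 ≤ C1 := by linarith
  set r : ℝ := 1 / (4 * C1 * (N + 1)) with hr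
  have hr0 : 0 < r := by positivity
  have hr1 : r ≤ 1 / 4 := by
    rw [hr]
    refine one_div_le_one_div_of_le (by norm_num) ?_
    have hN : (0 : ℝ) ≤ N := Nat.cast_nonneg N
    nlinarith
  set q : ℝ := (2 * r) ^ N with hq
  have hq0 : 0 < q := by positivity
  have hq1 : q ≤ 1 := pow_le_one₀ (by positivity) (by linarith)
  set K2 : ℝ := 2 / (q * lam) + 1 with hK2
  have hK2p : 1 ≤ K2 := by
    have : 0 < 2 / (q * lam) := by positivity
    linarith
  have sup : ∀ S : V N → Matrix (Fin N) (Fin N) ℝ, SM S → BdS a M S → El lam S →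
      ∀ w : V N → ℝ, SP w → mn w = 0 → ∀ B : ℝ, HO a B univ (LL S w) →
        ∀ x, |w x| ≤ K2 * B := by
    intro S hS hb hl w hw hm B hB
    have hB0 : 0 ≤ B := hB.nonneg (mem_univ 0)
    obtain ⟨x0, hx0⟩ := Per.exists_max (f := fun x => |w x|)
      (fun k x => by show |w (x + kv k)| = |w x|; rw [hw.per k x]) hw.cont.abs
    set W : ℝ := |w x0| with hWdef
    have hW0 : 0 ≤ W := abs_nonneg _
    suffices hWB : W ≤ K2 * B from fun x => (hx0 x).trans hWB
    rcases le_total W B with hc | hc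
    · nlinarith
    have hG : ∀ y : V N, ‖fderiv ℝ w y‖ ≤ 2 * C1 * W := fun y => by
      refine ((step S hS hb hl w hw B W hB hx0).1.bdd y (mem_univ y)).trans ?_
      nlinarith
    have hlip : ∀ y : V N, |w y - w x0| ≤ 2 * C1 * W * ‖y - x0‖ := fun y =>
      convex_univ.norm_image_sub_le_of_norm_fderiv_le (𝕜 := ℝ) (fun z _ => hw.diff z)
        (fun z _ => hG z) (mem_univ x0) (mem_univ y)
    have h3 : (W / 2) ^ 2 * q ≤ (B / lam) ^ 2 := by
      refine (l2_lower (x0 := x0) hw hr0 (by linarith) (by positivity) fun y hy => ?_).trans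
        (l2_var hlam hS hl hw hm (B := B) fun x => hB.bdd x (mem_univ x))
      have h4 := hlip y
      have h5 : 2 * C1 * W * ‖y - x0‖ ≤ W / 2 := by
        calc 2 * C1 * W * ‖y - x0‖ ≤ 2 * C1 * W * ((N + 1) * r) :=
              mul_le_mul_of_nonneg_left hy (by positivity)
          _ = W / 2 := by rw [hr]; field_simp; ring
      have h6 : W - |w y| ≤ |w y - w x0| := by
        have := abs_sub_abs_le_abs_sub (w x0) (w y)
        rwa [abs_sub_comm] at this
      linarith
    have h7 : (W / 2) ^ 2 ≤ (B / (lam * q)) ^ 2 := by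
      have e : (B / (lam * q)) ^ 2 = (B / lam) ^ 2 / q ^ 2 := by rw [← div_div, div_pow (B / lam)]
      rw [e, le_div_iff₀ (by positivity)]
      calc (W / 2) ^ 2 * q ^ 2 = (W / 2) ^ 2 * q * q := by ring
        _ ≤ (B / lam) ^ 2 * q := mul_le_mul_of_nonneg_right h3 hq0.le
        _ ≤ (B / lam) ^ 2 := mul_le_of_le_one_right (sq_nonneg _) hq1
    have h8 := (sq_le_sq₀ (by positivity) (by positivity)).1 h7
    have h9 : K2 * B = 2 * (B / (lam * q)) + B := by rw [hK2]; field_simp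
    rw [h9]; linarith
  have hQ0 : 0 ≤ 4 * (C0 * (1 + Cb * (2 * (K1 * (1 + K2))) + K2)) := by positivity
  refine ⟨2 * (K1 * (1 + K2)) + 4 * (C0 * (1 + Cb * (2 * (K1 * (1 + K2))) + K2)),
    by positivity, fun S hS hb hl w hw hm B hB => ?_⟩
  have hB0 : 0 ≤ B := hB.nonneg (mem_univ 0)
  obtain ⟨h1, h2, h3⟩ := step S hS hb hl w hw B (K2 * B) hB (sup S hS hb hl w hw hm B hB)
  have e1 : 2 * (K1 * (B + K2 * B)) = 2 * (K1 * (1 + K2)) * B := by ring
  have e2 : 4 * (C0 * (B + Cb * (2 * (K1 * (B + K2 * B))) + K2 * B)) =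
      4 * (C0 * (1 + Cb * (2 * (K1 * (1 + K2))) + K2)) * B := by ring
  rw [e1] at h1 h3
  rw [e2] at h2
  have i1 : 2 * (K1 * (1 + K2)) * B ≤
      (2 * (K1 * (1 + K2)) + 4 * (C0 * (1 + Cb * (2 * (K1 * (1 + K2))) + K2))) * B :=
    mul_le_mul_of_nonneg_right (by linarith) hB0
  have hK12 : 0 ≤ 2 * (K1 * (1 + K2)) := by positivity
  have i2 : 4 * (C0 * (1 + Cb * (2 * (K1 * (1 + K2))) + K2)) * B ≤
      (2 * (K1 * (1 + K2)) + 4 * (C0 * (1 + Cb * (2 * (K1 * (1 + K2))) + K2))) * B :=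
    mul_le_mul_of_nonneg_right (by linarith) hB0
  exact ⟨h3.mono i1, h1.mono i1, h2.mono i2⟩

end

end Crest.Agent.R235.TorSch_384
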