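import Crest.Agent.R235.RSBas_538

/-!
Row 235, package ADJ (helper464), leaf W2, part A: densities on a Riemann surface.

* `wg a b = a 1 * b I - a I * b 1`, `wg_mul`: transformation by a complex linear map
* `cov`: change of variables between two charts
* `Pou`: smooth partitions of unity adapted to a finite set
-/

set_option autoImplicit false

open Set Filter Topology Function MeasureTheory Metric
open scoped ContDiff

universe u v

namespace Crest.Agent.R235.W2_464

open RS

noncomputable section

/-! ### wedge of covectors -/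

/-- the wedge of two real covectors of the plane -/
def wg (a b : ℂ →L[ℝ] ℝ) : ℝ := a 1 * b Complex.I - a Complex.I * b 1

theorem clm_apply (a : ℂ →L[ℝ] ℝ) (z : ℂ) : a z = z.re * a 1 + z.im * a Complex.I := by
  conv_lhs => rw [← Complex.re_add_im z]
  have h1 : (z.re : ℂ) = z.re • (1 : ℂ) := by simp
  have h2 : (z.im : ℂ) * Complex.I = z.im • Complex.I := by simp
  rw [h1, h2, map_add, map_smul, map_smul, smul_eq_mul, smul_eq_mul]

/-- multiplication by `c`, real linear -/
def mulL (c : ℂ) : ℂ →L[ℝ] ℂ := (ContinuousLinearMap.mul ℝ ℂ) c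

@[simp] theorem mulL_apply (c z : ℂ) : mulL c z = c * z := rfl

theorem wg_mul (a b : ℂ →L[ℝ] ℝ) (c : ℂ) :
    wg (a.comp (mulL c)) (b.comp (mulL c)) = wg a b * Complex.normSq c := by
  simp only [wg, ContinuousLinearMap.comp_apply, mulL_apply, mul_one]
  rw [clm_apply a c, clm_apply b c, clm_apply a (c * Complex.I), clm_apply b (c * Complex.I)]
  simp only [Complex.mul_re, Complex.mul_im, Complex.I_re, Complex.I_im, mul_zero, mul_one,
    Complex.normSq_apply]
  ring

@[simp] theorem wg_zero_left (b : ℂ →L[ℝ] ℝ) : wg 0 b = 0 := by simp [wg]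

theorem wg_add_left (a a' b : ℂ →L[ℝ] ℝ) : wg (a + a') b = wg a b + wg a' b := by
  simp only [wg, add_apply]
  ring


/-- the determinant of `mulL c` -/
theorem det_mulL (c : ℂ) : (mulL c).det = Complex.normSq c := by
  have h : (mulL c : ℂ →ₗ[ℝ] ℂ) = LinearMap.mulLeft ℝ c := by
    ext z <;> simp
  rw [ContinuousLinearMap.det, h]
  have := LinearMap.det_toLin Complex.basisOneI (!![c.re, -c.im; c.im, c.re] : Matrix _ _ ℝ)
  have h2 : Matrix.toLin Complex.basisOneI Complex.basisOneI !![c.re, -c.im; c.im, c.re]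
      = LinearMap.mulLeft ℝ c := by
    refine Complex.basisOneI.ext fun i => ?_
    rw [Matrix.toLin_self, Fin.sum_univ_two]
    fin_cases i <;> simp [Complex.ext_iff]
  rw [← h2, this, Matrix.det_fin_two_of, Complex.normSq_apply]
  ring

/-! ### change of variables -/

section Cov

variable {N : Type u} [TopologicalSpace N] (A : CAtl.{u, v} N)





end Cov

/-! ### partitions of unity -/

section Part

variable {N : Type u} [TopologicalSpace N] (A : CAtl.{u, v} N)








/-- a finite smooth partition of unity by chart discs, adapted to a finite set `F`. -/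
structure Pou (F : Finset N) where
  /-- the centres -/
  T : Finset N
  sub : F ⊆ T
  /-- the charts -/
  i : N → A.ι
  /-- the radii -/
  R : N → ℝ
  /-- the functions -/
  ρ : N → N → ℝ
  mem : ∀ k, k ∈ (A.c (i k)).source
  Rpos : ∀ k, 0 < R k
  ball_sub : ∀ k, closedBall (A.c (i k) k) (R k) ⊆ (A.c (i k)).target
  ballF : ∀ k, ∀ z ∈ closedBall (A.c (i k) k) (R k), (A.c (i k)).symm z ∈ F →
    (A.c (i k)).symm z = k
  smooth : ∀ k, A.Smooth (ρ k)
  supp : ∀ k y, ρ k y ≠ 0 → ∃ z ∈ closedBall (A.c (i k) k) (R k / 2), (A.c (i k)).symm z = y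
  sum : ∀ y, ∑ k ∈ T, ρ k y = 1
  one : ∀ k ∈ F, ∀ᶠ y in 𝓝 k, ρ k y = 1


end Part

end

end Crest.Agent.R235.W2_464
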